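import Crest.Agent.R158.Xr6_249

/-!
# R158 block GC, part 4: the rectangle word

`rect x0 y0 m n` : the tiles `[x0, x0+m] × [y0, y0+n]`, fully glued.
**`rect_word`** : an admissible word of `Sw300` with the explicit ring
`L w = none :: (west up ++ north right ++ east down ++ south left)`.
-/

set_option autoImplicit false

namespace Crest.Agent.R158.Gc748

open Crest.Agent.R158.Xr249 (Reg Nx)
open Crest.Agent.R158.Sw300 (Port)

/-! ### chains -/

theorem chain_app {α : Type*} {r : α → α → Prop} {a b : α} (hab : r a b) :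
    ∀ {l1 l2 : List α}, List.IsChain r (l1 ++ [a]) → List.IsChain r (b :: l2) →
      List.IsChain r (l1 ++ [a] ++ b :: l2)
  | [], _, _, h2 => by
    simp only [List.nil_append, List.cons_append, List.isChain_cons_cons]
    exact ⟨hab, h2⟩
  | [x], _, h1, h2 => by
    simp only [List.cons_append, List.nil_append, List.isChain_cons_cons] at h1 ⊢
    exact ⟨h1.1, hab, h2⟩
  | x :: y :: l, l2, h1, h2 => by
    simp only [List.cons_append, List.isChain_cons_cons] at h1 ⊢
    refine ⟨h1.1, ?_⟩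
    have := chain_app hab (l1 := y :: l) (l2 := l2) (by simpa using h1.2) h2
    simpa using this

/-- `f 0, f 1, …, f n` -/
def fl {α : Type*} (f : ℕ → α) : ℕ → List α
  | 0 => [f 0]
  | n + 1 => fl f n ++ [f (n + 1)]

theorem mem_fl {α : Type*} {f : ℕ → α} {n : ℕ} {x : α} : x ∈ fl f n ↔ ∃ i ≤ n, x = f i := by
  induction n with
  | zero =>
    simp only [fl, List.mem_singleton]
    exact ⟨fun h => ⟨0, le_rfl, h⟩, fun ⟨i, hi, h⟩ => by
      have : i = 0 := by omega
      rw [h, this]⟩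
  | succ n ih =>
    simp only [fl, List.mem_append, List.mem_singleton, ih]
    constructor
    · rintro (⟨i, hi, h⟩ | h)
      · exact ⟨i, by omega, h⟩
      · exact ⟨n + 1, le_rfl, h⟩
    · rintro ⟨i, hi, h⟩
      rcases Nat.lt_or_ge i (n + 1) with h1 | h1
      · exact Or.inl ⟨i, by omega, h⟩
      · exact Or.inr (by rw [h, show i = n + 1 by omega])

theorem fl_cons {α : Type*} (f : ℕ → α) (n : ℕ) : ∃ l, fl f n = f 0 :: l := by
  induction n with
  | zero => exact ⟨[], rfl⟩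
  | succ n ih =>
    obtain ⟨l, hl⟩ := ih
    exact ⟨l ++ [f (n + 1)], by simp only [fl, hl, List.cons_append]⟩

theorem fl_snoc {α : Type*} (f : ℕ → α) (n : ℕ) : ∃ l, fl f n = l ++ [f n] := by
  cases n with
  | zero => exact ⟨[], rfl⟩
  | succ n => exact ⟨fl f n, rfl⟩

theorem fl_chain {α : Type*} {r : α → α → Prop} {f : ℕ → α} {n : ℕ}
    (h : ∀ i < n, r (f i) (f (i + 1))) : List.IsChain r (fl f n) := by
  induction n with
  | zero => simp [fl]
  | succ n ih =>
    obtain ⟨l, hl⟩ := fl_snoc f n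
    have h1 := ih fun i hi => h i (by omega)
    rw [hl] at h1
    have := chain_app (h n (by omega)) (l1 := l) (l2 := []) h1 (by simp)
    rw [fl, hl]; exact this

theorem fl_app_chain {α : Type*} {r : α → α → Prop} {f : ℕ → α} {n : ℕ} {b : α} {l2 : List α}
    (h : ∀ i < n, r (f i) (f (i + 1))) (hb : r (f n) b) (h2 : List.IsChain r (b :: l2)) :
    List.IsChain r (fl f n ++ b :: l2) := by
  obtain ⟨l, hl⟩ := fl_snoc f n
  have h1 := fl_chain h
  rw [hl] at h1 ⊢
  exact chain_app hb h1 h2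

/-- a deterministic chain from `x` to the first visit of `p` is unique -/
theorem chain_det {α : Type*} {r : α → α → Prop} (hr : ∀ a b c, r a b → r a c → b = c) {p : α} :
    ∀ {l l' : List α} {x : α}, List.IsChain r (x :: (l ++ [p])) → List.IsChain r (x :: (l' ++ [p])) →
      p ∉ l → p ∉ l' → l = l'
  | [], [], _, _, _, _, _ => rfl
  | [], y :: l', x, h, h', _, h2 => by
    simp only [List.nil_append, List.cons_append, List.isChain_cons_cons] at h h'
    exact absurd (by rw [hr _ _ _ h.1 h'.1]; simp) h2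
  | y :: l, [], x, h, h', h1, _ => by
    simp only [List.nil_append, List.cons_append, List.isChain_cons_cons] at h h'
    exact absurd (by rw [hr _ _ _ h'.1 h.1]; simp) h1
  | y :: l, y' :: l', x, h, h', h1, h2 => by
    simp only [List.cons_append, List.isChain_cons_cons] at h h'
    have e := hr _ _ _ h.1 h'.1
    subst e
    simp only [List.mem_cons, not_or] at h1 h2
    rw [chain_det hr h.2 h'.2 h1.2 h2.2]

/-! ### the region -/

/-- the rectangle `[x0, x0+m] × [y0, y0+n]` of tiles, fully glued -/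
noncomputable def rect (x0 y0 : ℤ) (m n : ℕ) : Reg where
  P := Finset.Icc x0 (x0 + m) ×ˢ Finset.Icc y0 (y0 + n)
  h := fun p => x0 ≤ p.1 ∧ p.1 + 1 ≤ x0 + m ∧ y0 ≤ p.2 ∧ p.2 ≤ y0 + n
  v := fun p => x0 ≤ p.1 ∧ p.1 ≤ x0 + m ∧ y0 ≤ p.2 ∧ p.2 + 1 ≤ y0 + n
  hP := by
    intro x y h
    simp only [Finset.mem_product, Finset.mem_Icc] at h ⊢
    omega
  vP := by
    intro x y h
    simp only [Finset.mem_product, Finset.mem_Icc] at h ⊢
    omega

variable {x0 y0 : ℤ} {m n : ℕ}

theorem mem_rect {t : ℤ × ℤ} : t ∈ (rect x0 y0 m n).P ↔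
    x0 ≤ t.1 ∧ t.1 ≤ x0 + m ∧ y0 ≤ t.2 ∧ t.2 ≤ y0 + n := by
  simp only [rect, Finset.mem_product, Finset.mem_Icc]; tauto

theorem rect_h {x y : ℤ} : (rect x0 y0 m n).h (x, y) ↔
    x0 ≤ x ∧ x + 1 ≤ x0 + m ∧ y0 ≤ y ∧ y ≤ y0 + n := Iff.rfl

theorem rect_v {x y : ℤ} : (rect x0 y0 m n).v (x, y) ↔
    x0 ≤ x ∧ x ≤ x0 + m ∧ y0 ≤ y ∧ y + 1 ≤ y0 + n := Iff.rfl

theorem up_walk {x y : ℤ} (hx : x < x0 ∨ x0 + m ≤ x) (k : ℕ) :
    Relation.ReflTransGen (rect x0 y0 m n).FAdj (x, y) (x, y + k) := by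
  induction k with
  | zero => simp only [Nat.cast_zero, add_zero]; exact .refl
  | succ k ih =>
    have : y + ((k + 1 : ℕ) : ℤ) = y + k + 1 := by push_cast; ring
    rw [this]
    refine ih.tail (.up ?_)
    rw [rect_h]; omega

theorem left_walk {x y : ℤ} (hy : y < y0) (k : ℕ) :
    Relation.ReflTransGen (rect x0 y0 m n).FAdj (x, y) (x - k, y) := by
  induction k with
  | zero => simp only [Nat.cast_zero, sub_zero]; exact .refl
  | succ k ih =>
    have h := Reg.FAdj.left (R := rect x0 y0 m n) (x := x - ((k + 1 : ℕ) : ℤ)) (y := y)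
      (by rw [rect_v]; omega)
    have : x - ((k + 1 : ℕ) : ℤ) + 1 = x - k := by push_cast; ring
    rw [this] at h
    exact ih.tail h

theorem rect_sc : (rect x0 y0 m n).SC := by
  intro x y hxy
  simp only [rect_h, rect_v] at hxy
  have up : ∀ x y : ℤ, (x < x0 ∨ x0 + m ≤ x) → (rect x0 y0 m n).Out (x, y) := by
    intro x y hx
    refine ⟨(x, y + ((y0 + n - y).toNat : ℕ)), up_walk hx _, fun p hp => ?_⟩
    have := mem_rect.1 hp
    simp only
    omega
  by_cases h1 : x < x0 ∨ x0 + m ≤ x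
  · exact up x y h1
  · by_cases h2 : y0 + n ≤ y
    · refine ⟨(x, y), .refl, fun p hp => ?_⟩
      have := mem_rect.1 hp
      simp only
      omega
    · have h3 : y < y0 := by omega
      have h4 : x - ((x - x0 + 1).toNat : ℕ) < x0 := by omega
      obtain ⟨g, hg1, hg2⟩ := up _ y (Or.inl h4)
      exact ⟨g, (left_walk h3 _).trans hg1, hg2⟩

theorem rect_conn : (rect x0 y0 m n).Conn := by
  intro p hp q hq
  have hp' := mem_rect.1 hp
  have hq' := mem_rect.1 hq
  have hor : ∀ k : ℕ, ∀ a : ℤ, x0 ≤ a → a ≤ x0 + m → ((a - p.1).natAbs = k) →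
      ∃ N, (rect x0 y0 m n).WN ((rect x0 y0 m n).P : Set (ℤ × ℤ)) p (a, p.2) N := by
    intro k
    induction k with
    | zero =>
      intro a h1 h2 h3
      have : a = p.1 := by omega
      subst this
      exact ⟨0, .nil hp⟩
    | succ k ih =>
      intro a h1 h2 h3
      rcases lt_or_ge p.1 a with h4 | h4
      · obtain ⟨N, hN⟩ := ih (a - 1) (by omega) (by omega) (by omega)
        have hs := Reg.Stp.right (R := rect x0 y0 m n) (a := a - 1) (b := p.2)
          (by rw [rect_h]; omega)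
        rw [sub_add_cancel] at hs
        exact ⟨_, hN.cons hs (by
          have : (a, p.2) ∈ (rect x0 y0 m n).P := mem_rect.2 (by simp only; omega)
          exact this)⟩
      · obtain ⟨N, hN⟩ := ih (a + 1) (by omega) (by omega) (by omega)
        have hs := Reg.Stp.left (R := rect x0 y0 m n) (a := a) (b := p.2)
          (by rw [rect_h]; omega)
        exact ⟨_, hN.cons hs (by
          have : (a, p.2) ∈ (rect x0 y0 m n).P := mem_rect.2 (by simp only; omega)
          exact this)⟩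
  have ver : ∀ k : ℕ, ∀ c : ℤ, y0 ≤ c → c ≤ y0 + n → ((c - p.2).natAbs = k) →
      ∃ N, (rect x0 y0 m n).WN ((rect x0 y0 m n).P : Set (ℤ × ℤ)) p (q.1, c) N := by
    intro k
    induction k with
    | zero =>
      intro a h1 h2 h3
      have : a = p.2 := by omega
      subst this
      exact hor _ q.1 (by omega) (by omega) rfl
    | succ k ih =>
      intro c h1 h2 h3
      rcases lt_or_ge p.2 c with h4 | h4
      · obtain ⟨N, hN⟩ := ih (c - 1) (by omega) (by omega) (by omega)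
        have hs := Reg.Stp.up (R := rect x0 y0 m n) (a := q.1) (b := c - 1)
          (by rw [rect_v]; omega)
        rw [sub_add_cancel] at hs
        exact ⟨_, hN.cons hs (by
          have : (q.1, c) ∈ (rect x0 y0 m n).P := mem_rect.2 (by simp only; omega)
          exact this)⟩
      · obtain ⟨N, hN⟩ := ih (c + 1) (by omega) (by omega) (by omega)
        have hs := Reg.Stp.down (R := rect x0 y0 m n) (a := q.1) (b := c)
          (by rw [rect_v]; omega)
        exact ⟨_, hN.cons hs (by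
          have : (q.1, c) ∈ (rect x0 y0 m n).P := mem_rect.2 (by simp only; omega)
          exact this)⟩
  exact ver _ q.2 (by omega) (by omega) rfl

theorem rect_run : (rect x0 y0 m n).IsRun x0 (x0 + m) y0 := by
  refine ⟨by omega, mem_rect.2 (by simp only; omega), fun x h1 h2 => ?_, ?_, ?_⟩
  · rw [rect_h]; omega
  · rw [rect_h]; omega
  · rw [rect_h]; omega

/-! ### the ring -/

/-- west side, bottom to top -/
def wS (x0 y0 : ℤ) (n : ℕ) : List (Port (ℤ × ℤ)) := fl (fun i => some ((x0, y0 + i), 0)) n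
/-- north side, left to right -/
def nS (x0 y0 : ℤ) (m n : ℕ) : List (Port (ℤ × ℤ)) := fl (fun i => some ((x0 + i, y0 + n), 1)) m
/-- east side, top to bottom -/
def eS (x0 y0 : ℤ) (m n : ℕ) : List (Port (ℤ × ℤ)) :=
  fl (fun i => some ((x0 + m, y0 + n - i), 2)) n
/-- south side, right to left -/
def sS (x0 y0 : ℤ) (m : ℕ) : List (Port (ℤ × ℤ)) := fl (fun i => some ((x0 + m - i, y0), 3)) m

theorem nx_stop {K : Reg} {t : ℤ × ℤ} {d : ZMod 4} (h : ∀ q, ¬ K.gl (some (t, d + 1)) q) :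
    Nx K.gl (some (t, d)) (some (t, d + 1)) := by
  have := Nx.stop (G := K.gl) (p := some (t, d)) (by rw [Xr249.rot_some]; exact h)
  rwa [Xr249.rot_some] at this

theorem rect_chain : List.IsChain (Nx (rect x0 y0 m n).gl)
    (wS x0 y0 n ++ (nS x0 y0 m n ++ (eS x0 y0 m n ++ (sS x0 y0 m ++ [some ((x0, y0), 0)])))) := by
  have a1 : (0 : ZMod 4) + 1 = 1 := by decide
  have a2 : (1 : ZMod 4) + 1 = 2 := by decide
  have a3 : (2 : ZMod 4) + 1 = 3 := by decide
  have a4 : (3 : ZMod 4) + 1 = 0 := by decide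
  -- free ports
  have f0 : ∀ y : ℤ, ∀ q, ¬ (rect x0 y0 m n).gl (some ((x0, y), 0)) q := by
    intro y q h
    have := (Reg.gl_0.1 h).1
    rw [rect_h] at this; omega
  have f1 : ∀ x : ℤ, ∀ q, ¬ (rect x0 y0 m n).gl (some ((x, y0 + n), 1)) q := by
    intro x q h
    have := (Reg.gl_1.1 h).1
    rw [rect_v] at this; omega
  have f2 : ∀ y : ℤ, ∀ q, ¬ (rect x0 y0 m n).gl (some ((x0 + m, y), 2)) q := by
    intro y q h
    have := (Reg.gl_2.1 h).1
    rw [rect_h] at this; omega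
  have f3 : ∀ x : ℤ, ∀ q, ¬ (rect x0 y0 m n).gl (some ((x, y0), 3)) q := by
    intro x q h
    have := (Reg.gl_3.1 h).1
    rw [rect_v] at this; omega
  have s0 : ∀ y : ℤ, Nx (rect x0 y0 m n).gl (some ((x0, y), 3)) (some ((x0, y), 0)) := by
    intro y
    have := nx_stop (K := rect x0 y0 m n) (t := (x0, y)) (d := 3) (by rw [a4]; exact f0 y)
    rwa [a4] at this
  have s1 : ∀ x : ℤ, Nx (rect x0 y0 m n).gl (some ((x, y0 + n), 0)) (some ((x, y0 + n), 1)) := by
    intro x
    have := nx_stop (K := rect x0 y0 m n) (t := (x, y0 + n)) (d := 0) (by rw [a1]; exact f1 x)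
    rwa [a1] at this
  have s2 : ∀ y : ℤ, Nx (rect x0 y0 m n).gl (some ((x0 + m, y), 1)) (some ((x0 + m, y), 2)) := by
    intro y
    have := nx_stop (K := rect x0 y0 m n) (t := (x0 + m, y)) (d := 1) (by rw [a2]; exact f2 y)
    rwa [a2] at this
  have s3 : ∀ x : ℤ, Nx (rect x0 y0 m n).gl (some ((x, y0), 2)) (some ((x, y0), 3)) := by
    intro x
    have := nx_stop (K := rect x0 y0 m n) (t := (x, y0)) (d := 2) (by rw [a3]; exact f3 x)
    rwa [a3] at this
  -- the steps along the sides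
  have w1 : ∀ i : ℕ, i < n → Nx (rect x0 y0 m n).gl (some ((x0, y0 + i), 0))
      (some ((x0, y0 + ((i + 1 : ℕ) : ℤ)), 0)) := by
    intro i hi
    refine Nx.go (q := some ((x0, y0 + i + 1), 3)) ?_ ?_
    · rw [Xr249.rot_some, a1]
      exact Reg.gl_1.2 ⟨by rw [rect_v]; omega, rfl⟩
    · have e : y0 + ((i + 1 : ℕ) : ℤ) = y0 + i + 1 := by push_cast; ring
      rw [e]; exact s0 _
  have w2 : ∀ i : ℕ, i < m → Nx (rect x0 y0 m n).gl (some ((x0 + i, y0 + n), 1))
      (some ((x0 + ((i + 1 : ℕ) : ℤ), y0 + n), 1)) := by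
    intro i hi
    refine Nx.go (q := some ((x0 + i + 1, y0 + n), 0)) ?_ ?_
    · rw [Xr249.rot_some, a2]
      exact Reg.gl_2.2 ⟨by rw [rect_h]; omega, rfl⟩
    · have e : x0 + ((i + 1 : ℕ) : ℤ) = x0 + i + 1 := by push_cast; ring
      rw [e]; exact s1 _
  have w3 : ∀ i : ℕ, i < n → Nx (rect x0 y0 m n).gl (some ((x0 + m, y0 + n - i), 2))
      (some ((x0 + m, y0 + n - ((i + 1 : ℕ) : ℤ)), 2)) := by
    intro i hi
    refine Nx.go (q := some ((x0 + m, y0 + n - i - 1), 1)) ?_ ?_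
    · rw [Xr249.rot_some, a3]
      exact Reg.gl_3.2 ⟨by rw [rect_v]; omega, rfl⟩
    · have e : y0 + n - ((i + 1 : ℕ) : ℤ) = y0 + n - i - 1 := by push_cast; ring
      rw [e]; exact s2 _
  have w4 : ∀ i : ℕ, i < m → Nx (rect x0 y0 m n).gl (some ((x0 + m - i, y0), 3))
      (some ((x0 + m - ((i + 1 : ℕ) : ℤ), y0), 3)) := by
    intro i hi
    refine Nx.go (q := some ((x0 + m - i - 1, y0), 2)) ?_ ?_
    · rw [Xr249.rot_some, a4]
      exact Reg.gl_0.2 ⟨by rw [rect_h]; omega, rfl⟩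
    · have e : x0 + m - ((i + 1 : ℕ) : ℤ) = x0 + m - i - 1 := by push_cast; ring
      rw [e]; exact s3 _
  -- assemble
  have c4 : List.IsChain (Nx (rect x0 y0 m n).gl) (sS x0 y0 m ++ [some ((x0, y0), 0)]) := by
    refine fl_app_chain w4 ?_ (by simp)
    have : x0 + (m : ℤ) - m = x0 := by ring
    rw [this]; exact s0 _
  obtain ⟨l4, h4⟩ := fl_cons (fun i : ℕ => (some ((x0 + m - i, y0), 3) : Port (ℤ × ℤ))) m
  have c3 : List.IsChain (Nx (rect x0 y0 m n).gl)
      (eS x0 y0 m n ++ (sS x0 y0 m ++ [some ((x0, y0), 0)])) := by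
    have e4 : sS x0 y0 m = (some ((x0 + m - (0 : ℕ), y0), 3) : Port (ℤ × ℤ)) :: l4 := h4
    rw [e4, List.cons_append] at c4 ⊢
    refine fl_app_chain w3 ?_ c4
    have e1 : y0 + (n : ℤ) - n = y0 := by ring
    have e2 : x0 + (m : ℤ) - ((0 : ℕ) : ℤ) = x0 + m := by simp
    rw [e1, e2]; exact s3 _
  obtain ⟨l3, h3⟩ := fl_cons (fun i : ℕ => (some ((x0 + m, y0 + n - i), 2) : Port (ℤ × ℤ))) n
  have c2 : List.IsChain (Nx (rect x0 y0 m n).gl)
      (nS x0 y0 m n ++ (eS x0 y0 m n ++ (sS x0 y0 m ++ [some ((x0, y0), 0)]))) := by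
    have e3 : eS x0 y0 m n = (some ((x0 + m, y0 + n - (0 : ℕ)), 2) : Port (ℤ × ℤ)) :: l3 := h3
    rw [e3, List.cons_append] at c3 ⊢
    refine fl_app_chain w2 ?_ c3
    have e2 : y0 + (n : ℤ) - ((0 : ℕ) : ℤ) = y0 + n := by simp
    rw [e2]; exact s2 _
  obtain ⟨l2, h2⟩ := fl_cons (fun i : ℕ => (some ((x0 + i, y0 + n), 1) : Port (ℤ × ℤ))) m
  have e2 : nS x0 y0 m n = (some ((x0 + (0 : ℕ), y0 + n), 1) : Port (ℤ × ℤ)) :: l2 := h2
  rw [e2, List.cons_append] at c2 ⊢
  refine fl_app_chain w1 ?_ c2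
  have e3 : x0 + ((0 : ℕ) : ℤ) = x0 := by simp
  rw [e3]; exact s1 _

theorem wS_cons : ∃ l, wS x0 y0 n = some ((x0, y0), 0) :: l := by
  obtain ⟨l, hl⟩ := fl_cons (fun i : ℕ => (some ((x0, y0 + i), 0) : Port (ℤ × ℤ))) n
  exact ⟨l, by unfold wS; rw [hl]; simp⟩

theorem nodup_head {x y : ℤ} {n : ℕ} {l : List (Port (ℤ × ℤ))}
    (h : wS x y n = some ((x, y), 0) :: l) : some ((x, y), (0 : ZMod 4)) ∉ l := by
  induction n generalizing l with
  | zero =>
    have : l = [] := by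
      simp only [wS, fl] at h
      have := List.cons.inj h
      exact this.2.symm
    rw [this]; simp
  | succ n ih =>
    obtain ⟨l', hl'⟩ := wS_cons (x0 := x) (y0 := y) (n := n)
    have e : wS x y (n + 1) = wS x y n ++ [some ((x, y + ((n + 1 : ℕ) : ℤ)), 0)] := rfl
    rw [hl', List.cons_append] at e
    rw [e] at h
    have h2 := (List.cons.inj h).2
    rw [← h2, List.mem_append, List.mem_singleton, not_or]
    refine ⟨ih hl', ?_⟩
    simp only [Option.some.injEq, Prod.mk.injEq, not_and]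
    intro h3
    omega

/-- **the rectangle word with its explicit ring** -/
theorem rect_word (x0 y0 : ℤ) (m n : ℕ) : ∃ w : Sw300.Wd (ℤ × ℤ),
    Sw300.Ok w ∧ Sw300.Fc w ∧ Xr249.bas w = some (x0, y0) ∧
    (∀ t, t ∈ Sw300.tls w ↔ t ∈ (rect x0 y0 m n).P) ∧
    (∀ p q, (rect x0 y0 m n).gl p q ↔ (Sw300.be w p = q ∧ p ≠ q)) ∧
    Sw300.L w = none :: (wS x0 y0 n ++ (nS x0 y0 m n ++ (eS x0 y0 m n ++ sS x0 y0 m))) := by
  obtain ⟨w, l, h1, h2, h3, h4, _, h6, h7, h8, _, h10⟩ :=
    Reg.ok (rect_sc (x0 := x0) (y0 := y0) (m := m) (n := n)) rect_conn rect_run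
  refine ⟨w, h1, h2, h3, h4, h6, ?_⟩
  obtain ⟨l', hl'⟩ := wS_cons (x0 := x0) (y0 := y0) (n := n)
  have hch := rect_chain (x0 := x0) (y0 := y0) (m := m) (n := n)
  rw [hl'] at hch
  have hdet : ∀ a b c, Nx (rect x0 y0 m n).gl a b → Nx (rect x0 y0 m n).gl a c → b = c :=
    fun a b c => Nx.det (rect x0 y0 m n).gl_glue.fn
  rw [h7] at h8
  have hn := (List.nodup_cons.1 (List.nodup_cons.1 h8).2).1
  have hch' : List.IsChain (Nx (rect x0 y0 m n).gl) (some ((x0, y0), 0) ::
      ((l' ++ (nS x0 y0 m n ++ (eS x0 y0 m n ++ sS x0 y0 m))) ++ [some ((x0, y0), 0)])) := by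
    simpa [List.append_assoc] using hch
  have e := chain_det hdet h10 hch' hn ?_
  · rw [h7, e, hl']; simp
  · have k1 := nodup_head hl'
    simp only [List.mem_append, not_or]
    refine ⟨k1, ?_, ?_, ?_⟩
    · intro hm
      obtain ⟨i, _, hi⟩ := mem_fl.1 hm
      simp only [Option.some.injEq, Prod.mk.injEq] at hi
      exact absurd hi.2 (by decide)
    · intro hm
      obtain ⟨i, _, hi⟩ := mem_fl.1 hm
      simp only [Option.some.injEq, Prod.mk.injEq] at hi
      exact absurd hi.2 (by decide)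
    · intro hm
      obtain ⟨i, _, hi⟩ := mem_fl.1 hm
      simp only [Option.some.injEq, Prod.mk.injEq] at hi
      exact absurd hi.2 (by decide)

end Crest.Agent.R158.Gc748
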