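import Crest.Agent.R158.Pt5_266
import Crest.Agent.R158.Xr9_249
import Crest.Agent.R158.Gc4_748

/-!
R158, S0237, maths captain (helper664): the lifted direction of the boundary of a region, as ONE
function, independent of the leg.

`R : Xr249.Reg` hole-free and connected, base port = the `W` side of the left end `(a, t)` of a run.

* `BW R a t w l` : `w` is a leg-free word of `R`, `none :: some ((a,t),0) :: l` its free ends
* **`psi R a t x`** : lifted direction (quarter turns, clockwise) of the free end `x`, `0` at the base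
* **`psi_next`** : local rule `psi y = psi x + k` for consecutive ends (`NxT .. k`), away from the base
* **`psi_last`** : `psi x + k = 4` for the end `x` just before the base
* `psi_chain` : the same along clockwise chains `CwC`
* `psi_up` / `psi_dn` : along a flat left wall, above (`0`) and below (`4`) the base
* **`rk R a t x`** : position of the free end `x` in the clockwise list starting at the base (`0`)
-/

set_option autoImplicit false
set_option linter.unusedVariables false

namespace Crest.Agent.R158.Psi664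

open Crest.Agent.R158.Sw300
open Crest.Agent.R158.Gc748 (gl bs)
open Crest.Agent.R158.Pt266
open Crest.Agent.R158.Xr249 (rot rot_some Reg bas)

/-- word of a region with base port the side `W` of the tile `(a,t)` -/
structure BW (R : Reg) (a t : ℤ) (w : Wd (ℤ × ℤ)) (l : List (Port (ℤ × ℤ))) : Prop where
  ok : Ok w
  leg : ¬ isLeg w
  flat : Flat w
  gs : Gs w = R.gl
  L : L w = none :: some ((a, t), 0) :: l
  nd : (some ((a, t), (0 : ZMod 4)) :: l).Nodup
  nn : none ∉ some ((a, t), (0 : ZMod 4)) :: l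
  mem : ∀ x : (ℤ × ℤ) × ZMod 4, some x ∈ some ((a, t), (0 : ZMod 4)) :: l ↔ RFree R x
  cc : CC R.gl ((some ((a, t), (0 : ZMod 4)) :: l).map fun x => (x, phi w x))
  base : phi w (some ((a, t), 0)) = 0

theorem bas_mem {T : Type*} [DecidableEq T] : ∀ {w : Wd T} {t : T}, bas w = some t → t ∈ tls w
  | .leg, _, h => absurd h (by simp [bas])
  | .tile s, t, h => by simp only [bas, Option.some.injEq] at h; simp [tls, h]
  | .att w p s d, t, h => by
    have := bas_mem (w := w) (t := t) h
    simp [tls, this]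
  | .con w p q, t, h => bas_mem (w := w) (t := t) h

theorem phi_bas {T : Type*} [DecidableEq T] : ∀ {w : Wd T} {t : T}, Ok w → bas w = some t →
    phi w (some (t, 0)) = 0
  | .leg, _, _, h => absurd h (by simp [bas])
  | .tile s, t, _, h => by simp [phi]
  | .att w p s d, t, hok, h => by
    have h1 : bas w = some t := h
    have h2 := bas_mem h1
    have h3 : t ≠ s := fun e => hok.2.2.1 (e ▸ h2)
    have h4 := phi_bas hok.1 h1
    simp [phi, h3, h4]
  | .con w p q, t, hok, h => phi_bas (w := w) hok.1 h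

theorem exists_BW {R : Reg} (hsc : R.SC) (hc : R.Conn) {a b t : ℤ} (hr : R.IsRun a b t) :
    ∃ w l, BW R a t w l := by
  obtain ⟨w, l0, hok, -, hbas, htls, -, hbe, hL, hnd, hmem, -⟩ := R.ok hsc hc hr
  have hGs : Gs w = R.gl := by
    funext p q
    rw [be_iff hok, ← hbe]
  have hbs : bs w ≠ none := by
    have : ∀ w : Wd (ℤ × ℤ), bs w = Xr249.bas w := by
      intro w
      induction w with
      | leg => rfl
      | tile t => rfl
      | att w p t d ih => exact ih
      | con w p q ih => exact ih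
    rw [this, hbas]
    simp
  have hadj : ∀ p q, (p, q) ∈ gl w → LAdj p q := by
    intro p q h
    have : Gs w p q := Or.inl h
    rw [hGs] at this
    exact ladj_gl this
  obtain ⟨hF, l, hL', hn, hcc⟩ := cc_word hok hbs hadj
  have e : l = some ((a, t), 0) :: l0 := by
    rw [hL] at hL'
    exact (List.cons.inj hL').2.symm
  subst e
  rw [hGs] at hcc
  rw [hL, List.nodup_cons] at hnd
  refine ⟨w, l0, hok, fun h => hbs (isLeg_iff.1 h), hF, hGs, hL, hnd.2, hn, fun x => ?_, hcc,
    phi_bas hok hbas⟩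
  rw [hmem]
  constructor
  · rintro ⟨⟨t, d, h2, h3⟩, h4⟩
    obtain rfl := Option.some.inj h2
    exact ⟨h3, fun b hb => h4 _ hb⟩
  · rintro ⟨h2, h3⟩
    refine ⟨⟨x.1, x.2, rfl, h2⟩, fun q hq => ?_⟩
    rcases q with - | b
    · exact R.gl_glue.sym _ _ hq
    · exact h3 b hq

section

variable {T : Type*}

lemma NN.det {G : Port T → Port T → Prop} (hG : ∀ a b c, G a b → G a c → b = c)
    (a b c : Port T × ℤ) (h : NN G a b) (h' : NN G a c) : b = c := by
  obtain ⟨h1, h2⟩ := NxT.det hG h h'
  exact Prod.ext h1 (by omega)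

lemma chain_mid {α : Type*} {r : α → α → Prop} {x y : α} : ∀ {l1 l2 : List α},
    List.IsChain r (l1 ++ x :: y :: l2) → r x y
  | [], _, h => (List.isChain_cons_cons.1 h).1
  | [z], l2, h => chain_mid (l1 := []) (List.isChain_cons_cons.1 h).2
  | z :: z' :: l1, l2, h => chain_mid (l1 := z' :: l1) (List.isChain_cons_cons.1 h).2

end

variable {R : Reg} {a t : ℤ} {w : Wd (ℤ × ℤ)} {l : List (Port (ℤ × ℤ))}

/-- the base port -/
abbrev bp (a t : ℤ) : (ℤ × ℤ) × ZMod 4 := ((a, t), 0)

lemma BW.bfree (h : BW R a t w l) : RFree R (bp a t) := (h.mem _).1 (by simp)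

lemma BW.mem_iff (h : BW R a t w l) {x : Port (ℤ × ℤ)} : x ∈ some (bp a t) :: l ↔
    ∃ y, x = some y ∧ RFree R y := by
  rcases x with - | y
  · simp only [reduceCtorEq, false_and, exists_false, iff_false]
    exact h.nn
  · rw [h.mem]
    simp

/-- two words with the same base have the same free ends and the same lifted directions -/
theorem BW.unique {w' : Wd (ℤ × ℤ)} {l' : List (Port (ℤ × ℤ))} (h : BW R a t w l)
    (h' : BW R a t w' l') : l = l' ∧ ∀ x : (ℤ × ℤ) × ZMod 4, RFree R x →
      phi w (some x) = phi w' (some x) := by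
  have hG : ∀ a b c, R.gl a b → R.gl a c → b = c := R.gl_glue.fn
  have c1 : List.IsChain (NN R.gl) ((some (bp a t), phi w (some (bp a t))) ::
    (l.map (fun x => (x, phi w x)) ++ [sh 4 (some (bp a t), phi w (some (bp a t)))])) := h.cc
  have c2 : List.IsChain (NN R.gl) ((some (bp a t), phi w' (some (bp a t))) ::
    (l'.map (fun x => (x, phi w' x)) ++ [sh 4 (some (bp a t), phi w' (some (bp a t)))])) := h'.cc
  rw [h.base] at c1
  rw [h'.base] at c2
  have key := Gc748.chain_det (NN.det hG) c1 c2 (fun hm => by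
    obtain ⟨y, hy, hy2⟩ := List.mem_map.1 hm
    have : y = some (bp a t) := congrArg Prod.fst hy2
    exact (List.nodup_cons.1 h.nd).1 (this ▸ hy)) (fun hm => by
    obtain ⟨y, hy, hy2⟩ := List.mem_map.1 hm
    have : y = some (bp a t) := congrArg Prod.fst hy2
    exact (List.nodup_cons.1 h'.nd).1 (this ▸ hy))
  have e1 : l = l' := by
    have := congrArg (List.map Prod.fst) key
    simpa [Function.comp_def] using this
  subst e1
  refine ⟨rfl, fun x hx => ?_⟩
  have hx' := (h.mem x).2 hx
  rcases List.mem_cons.1 hx' with hx1 | hx1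
  · rw [hx1, h.base, h'.base]
  · exact (Prod.mk.inj (List.map_inj_left.1 key _ hx1)).2

/-! ### the lifted direction -/

open Classical in
/-- **lifted direction of the free ends**, `0` at the base port, increasing by the turning -/
noncomputable def psi (R : Reg) (a t : ℤ) (x : (ℤ × ℤ) × ZMod 4) : ℤ :=
  if h : ∃ w l, BW R a t w l then phi h.choose (some x) else 0

open Classical in
/-- the clockwise list of the free ends, starting with the base port -/
noncomputable def ends (R : Reg) (a t : ℤ) : List (Port (ℤ × ℤ)) :=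
  if h : ∃ w l, BW R a t w l then some (bp a t) :: h.choose_spec.choose else []

/-- **position in the clockwise list** -/
noncomputable def rk (R : Reg) (a t : ℤ) (x : (ℤ × ℤ) × ZMod 4) : ℕ := (ends R a t).idxOf (some x)

theorem psi_eq (h : BW R a t w l) {x : (ℤ × ℤ) × ZMod 4} (hx : RFree R x) :
    psi R a t x = phi w (some x) := by
  have hex : ∃ w l, BW R a t w l := ⟨w, l, h⟩
  unfold psi
  rw [dif_pos hex]
  exact (hex.choose_spec.choose_spec.unique h).2 x hx

theorem ends_eq (h : BW R a t w l) : ends R a t = some (bp a t) :: l := by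
  have hex : ∃ w l, BW R a t w l := ⟨w, l, h⟩
  unfold ends
  rw [dif_pos hex, (hex.choose_spec.choose_spec.unique h).1]

theorem mem_ends (h : BW R a t w l) {x : (ℤ × ℤ) × ZMod 4} : some x ∈ ends R a t ↔ RFree R x := by
  rw [ends_eq h]; exact h.mem x

theorem psi_base (h : BW R a t w l) : psi R a t (bp a t) = 0 := by
  rw [psi_eq h h.bfree, h.base]

theorem rk_base (h : BW R a t w l) : rk R a t (bp a t) = 0 := by
  unfold rk; rw [ends_eq h]; simp

/-- local structure of the list -/
theorem BW.next (h : BW R a t w l) {x y : (ℤ × ℤ) × ZMod 4} {k : ℤ} (hx : RFree R x)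
    (hxy : NxT R.gl (some x) (some y) k) :
    (y ≠ bp a t ∧ (∃ l1 l2, some (bp a t) :: l = l1 ++ some x :: some y :: l2) ∧
      phi w (some y) = phi w (some x) + k) ∨
    (y = bp a t ∧ (∃ l1, some (bp a t) :: l = l1 ++ [some x]) ∧ phi w (some x) + k = 4) := by
  have hG : ∀ a b c, R.gl a b → R.gl a c → b = c := R.gl_glue.fn
  have hx' := (h.mem x).2 hx
  obtain ⟨l1, l2, hl⟩ := List.append_of_mem hx'
  have hcc : List.IsChain (NN R.gl) ((some (bp a t) :: l).map (fun x => (x, phi w x)) ++
      [(some (bp a t), (4 : ℤ))]) := by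
    have : List.IsChain (NN R.gl) ((some (bp a t), phi w (some (bp a t))) ::
      (l.map (fun x => (x, phi w x)) ++ [sh 4 (some (bp a t), phi w (some (bp a t)))])) := h.cc
    simpa [sh, h.base] using this
  have hlb : some (bp a t) :: l = l1 ++ some x :: l2 := hl
  rw [hlb] at hcc
  cases l2 with
  | nil =>
    right
    have h1 : NN R.gl (some x, phi w (some x)) (some (bp a t), (4 : ℤ)) := by
      refine chain_mid (l1 := l1.map fun x => (x, phi w x)) (l2 := []) ?_
      simpa using hcc
    obtain ⟨e1, e2⟩ := NxT.det hG hxy h1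
    refine ⟨Option.some.inj e1, ⟨l1, hlb⟩, ?_⟩
    simp only at e2
    omega
  | cons z l2 =>
    left
    have h1 : NN R.gl (some x, phi w (some x)) (z, phi w z) := by
      refine chain_mid (l1 := l1.map fun x => (x, phi w x))
        (l2 := l2.map (fun x => (x, phi w x)) ++ [(some (bp a t), (4 : ℤ))]) ?_
      simpa using hcc
    obtain ⟨e1, e2⟩ := NxT.det hG hxy h1
    simp only at e1 e2
    subst e1
    refine ⟨?_, ⟨l1, l2, hlb⟩, by omega⟩
    rintro rfl
    have hnd := h.nd
    rw [hl] at hnd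
    cases l1 with
    | nil =>
      rw [List.nil_append, List.nodup_cons] at hnd
      have hx0 : some (bp a t) = some x := by
        have := congrArg List.head? hlb
        simpa using this
      exact hnd.1 (by rw [← hx0]; simp)
    | cons z' l1 =>
      have hz : some (bp a t) = z' := by
        have := congrArg List.head? hlb
        simpa using this
      rw [List.cons_append, List.nodup_cons] at hnd
      exact hnd.1 (by rw [← hz]; simp)

/-- **local rule** -/
theorem psi_next (h : BW R a t w l) {x y : (ℤ × ℤ) × ZMod 4} {k : ℤ} (hx : RFree R x)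
    (hy : RFree R y) (hxy : NxT R.gl (some x) (some y) k) (hb : y ≠ bp a t) :
    psi R a t y = psi R a t x + k := by
  rw [psi_eq h hx, psi_eq h hy]
  rcases h.next hx hxy with ⟨-, -, h1⟩ | ⟨h1, -⟩
  · exact h1
  · exact absurd h1 hb

/-- **local rule at the base** -/
theorem psi_last (h : BW R a t w l) {x : (ℤ × ℤ) × ZMod 4} {k : ℤ} (hx : RFree R x)
    (hxy : NxT R.gl (some x) (some (bp a t)) k) : psi R a t x + k = 4 := by
  rw [psi_eq h hx]
  rcases h.next hx hxy with ⟨h1, -⟩ | ⟨-, -, h1⟩
  · exact absurd rfl h1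
  · exact h1

theorem idx_split {α : Type*} [BEq α] [LawfulBEq α] {l1 l2 : List α} {x y : α}
    (h : (l1 ++ x :: y :: l2).Nodup) : (l1 ++ x :: y :: l2).idxOf y =
      (l1 ++ x :: y :: l2).idxOf x + 1 := by
  have h1 := List.nodup_append.1 h
  have hx : x ∉ l1 := fun hm => h1.2.2 x hm x (by simp) rfl
  have hy : y ∉ l1 := fun hm => h1.2.2 y hm y (by simp) rfl
  have hxy : x ≠ y := fun e => (List.nodup_cons.1 h1.2.1).1 (by simp [e])
  rw [List.idxOf_append_of_notMem hx, List.idxOf_append_of_notMem hy, List.idxOf_cons_self,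
    List.idxOf_cons_ne _ hxy, List.idxOf_cons_self]

/-- positions: the next end has the next position -/
theorem rk_next (h : BW R a t w l) {x y : (ℤ × ℤ) × ZMod 4} {k : ℤ} (hx : RFree R x)
    (hxy : NxT R.gl (some x) (some y) k) (hb : y ≠ bp a t) : rk R a t y = rk R a t x + 1 := by
  unfold rk
  rw [ends_eq h]
  rcases h.next hx hxy with ⟨-, ⟨l1, l2, h1⟩, -⟩ | ⟨h1, -⟩
  · have hnd := h.nd
    have h2 : some (bp a t) :: l = l1 ++ some x :: some y :: l2 := h1
    rw [h2] at hnd ⊢
    exact idx_split hnd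
  · exact absurd h1 hb

theorem rk_lt (h : BW R a t w l) {x : (ℤ × ℤ) × ZMod 4} (hx : RFree R x) :
    rk R a t x < (ends R a t).length := List.idxOf_lt_length_iff.2 ((mem_ends h).2 hx)

theorem rk_inj (h : BW R a t w l) {x y : (ℤ × ℤ) × ZMod 4} (hx : RFree R x) (_hy : RFree R y)
    (e : rk R a t x = rk R a t y) : x = y :=
  Option.some.inj ((List.idxOf_inj ((mem_ends h).2 hx)).1 e)

/-- free ports of a chain -/
theorem CwC.free_left {x y : (ℤ × ℤ) × ZMod 4} {D : ℤ} {m : List ((ℤ × ℤ) × ZMod 4)}
    (h : CwC R.gl x y D m) (hx : RFree R x) (h0 : BW R a t w l) : RFree R y ∧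
      ∀ z ∈ m, RFree R z := by
  have nxf : ∀ {x z : (ℤ × ℤ) × ZMod 4} {k : ℤ}, RFree R x → NxT R.gl (some x) (some z) k →
      RFree R z := by
    intro x z k hx h1
    rcases h0.next hx h1 with ⟨-, ⟨l1, l2, h3⟩, -⟩ | ⟨h3, -⟩
    · exact (h0.mem _).1 (by
        have h4 : some (bp a t) :: l = l1 ++ some x :: some z :: l2 := h3
        show some z ∈ some (bp a t) :: l
        rw [h4]; simp)
    · rw [h3]; exact h0.bfree
  induction h with
  | one h1 => exact ⟨nxf hx h1, by simp⟩
  | cons h1 _ ih =>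
    have hz := nxf hx h1
    obtain ⟨i1, i2⟩ := ih hz
    refine ⟨i1, fun z hz' => ?_⟩
    rcases List.mem_cons.1 hz' with rfl | h5
    · exact hz
    · exact i2 z h5

/-- **along a clockwise chain which does not meet the base** -/
theorem psi_chain (h0 : BW R a t w l) {x y : (ℤ × ℤ) × ZMod 4} {D : ℤ}
    {m : List ((ℤ × ℤ) × ZMod 4)} (h : CwC R.gl x y D m) (hx : RFree R x) (hy : y ≠ bp a t)
    (hm : bp a t ∉ m) : psi R a t y = psi R a t x + D := by
  induction h with
  | one h1 => exact psi_next h0 hx ((CwC.free_left (.one h1) hx h0).1) h1 hy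
  | @cons x z y k D m h1 h2 ih =>
    have hz : RFree R z := (CwC.free_left (.one h1) hx h0).1
    simp only [List.mem_cons, not_or] at hm
    have e1 := psi_next h0 hx hz h1 (Ne.symm hm.1)
    have e2 := ih hz hy hm.2
    omega

/-- **along a clockwise chain up to the base** -/
theorem psi_chain_last (h0 : BW R a t w l) {x : (ℤ × ℤ) × ZMod 4} {D : ℤ}
    {m : List ((ℤ × ℤ) × ZMod 4)} (h : CwC R.gl x (bp a t) D m) (hx : RFree R x)
    (hm : bp a t ∉ m) : psi R a t x + D = 4 := by
  generalize hy : bp a t = y at h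
  induction h with
  | one h1 => subst hy; exact psi_last h0 hx h1
  | @cons x z y k D m h1 h2 ih =>
    subst hy
    have hz : RFree R z := (CwC.free_left (.one h1) hx h0).1
    simp only [List.mem_cons, not_or] at hm
    have e1 := psi_next h0 hx hz h1 (Ne.symm hm.1)
    have e2 := ih hz hm.2 rfl
    omega

/-! ### straight walls -/

/-- flat step up a left wall -/
lemma nxt_left {x y : ℤ} (hv : R.v (x, y)) (hh : ¬ R.h (x - 1, y + 1)) :
    NxT R.gl (some ((x, y), 0)) (some ((x, y + 1), 0)) 0 := by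
  have e1 : rot (some ((x, y), (0 : ZMod 4))) = some ((x, y), 1) := rfl
  have e2 : rot (some ((x, y + 1), (3 : ZMod 4))) = some ((x, y + 1), 0) := rfl
  refine (NxT.go (q := some ((x, y + 1), 3)) (k := 1) ?_ ?_).cast (by norm_num)
  · rw [e1]; exact Reg.gl_1.2 ⟨hv, rfl⟩
  · rw [← e2]
    refine .stop fun q hq => ?_
    rw [e2] at hq
    exact hh (Reg.gl_0.1 hq).1

/-- flat step down a right wall -/
lemma nxt_right {x y : ℤ} (hv : R.v (x, y - 1)) (hh : ¬ R.h (x, y - 1)) :
    NxT R.gl (some ((x, y), 2)) (some ((x, y - 1), 2)) 0 := by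
  have e1 : rot (some ((x, y), (2 : ZMod 4))) = some ((x, y), 3) := rfl
  have e2 : rot (some ((x, y - 1), (1 : ZMod 4))) = some ((x, y - 1), 2) := rfl
  refine (NxT.go (q := some ((x, y - 1), 1)) (k := 1) ?_ ?_).cast (by norm_num)
  · rw [e1]; exact Reg.gl_3.2 ⟨hv, rfl⟩
  · rw [← e2]
    refine .stop fun q hq => ?_
    rw [e2] at hq
    exact hh (Reg.gl_2.1 hq).1

lemma free_left {x y : ℤ} (hP : (x, y) ∈ R.P) (hh : ¬ R.h (x - 1, y)) : RFree R ((x, y), 0) :=
  ⟨hP, fun _ hb => hh (Reg.gl_0.1 hb).1⟩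

lemma free_right {x y : ℤ} (hP : (x, y) ∈ R.P) (hh : ¬ R.h (x, y)) : RFree R ((x, y), 2) :=
  ⟨hP, fun _ hb => hh (Reg.gl_2.1 hb).1⟩

/-- the left wall above the base -/
theorem psi_up (h : BW R a t w l) : ∀ n : ℕ, (∀ i : ℕ, i < n → R.v (a, t + i) ∧
    ¬ R.h (a - 1, t + i + 1)) → psi R a t ((a, t + n), 0) = 0 ∧ RFree R ((a, t + n), 0)
  | 0, _ => by
    have := psi_base h
    have h2 := h.bfree
    simp only [Nat.cast_zero, add_zero]
    exact ⟨this, h2⟩
  | n + 1, hw => by
    obtain ⟨i1, i2⟩ := psi_up h n fun i hi => hw i (by omega)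
    obtain ⟨hv, hh⟩ := hw n (by omega)
    have h1 := nxt_left hv hh
    have hP := (R.vP _ _ hv).2
    have h2 : RFree R ((a, t + n + 1), 0) := free_left hP hh
    have e : ((a, t + ((n + 1 : ℕ) : ℤ)), (0 : ZMod 4)) = ((a, t + n + 1), 0) := by
      push_cast; rw [add_assoc]
    rw [e]
    refine ⟨?_, h2⟩
    have := psi_next h i2 h2 h1 (by
      simp only [bp, ne_eq, Prod.mk.injEq, true_and, and_true]; omega)
    omega

/-- the left wall below the base -/
theorem psi_dn (h : BW R a t w l) : ∀ n : ℕ, (∀ i : ℕ, i ≤ n → R.v (a, t - 1 - i) ∧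
    ¬ R.h (a - 1, t - 1 - i)) → psi R a t ((a, t - 1 - n), 0) = 4 ∧ RFree R ((a, t - 1 - n), 0)
  | 0, hw => by
    obtain ⟨hv, hh⟩ := hw 0 (by omega)
    simp only [Nat.cast_zero, sub_zero] at hv hh ⊢
    have hP := (R.vP _ _ hv).1
    have h2 : RFree R ((a, t - 1), 0) := free_left hP hh
    have h3 : ¬ R.h (a - 1, t - 1 + 1) := by
      rw [sub_add_cancel]
      exact fun hb => h.bfree.2 ((a - 1, t), 2) (Reg.gl_0.2 ⟨hb, rfl⟩)
    have h1 := nxt_left hv h3
    rw [sub_add_cancel] at h1
    refine ⟨?_, h2⟩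
    have := psi_last h h2 h1
    omega
  | n + 1, hw => by
    obtain ⟨i1, i2⟩ := psi_dn h n fun i hi => hw i (by omega)
    obtain ⟨hv, hh⟩ := hw (n + 1) (by omega)
    obtain ⟨-, hh'⟩ := hw n (by omega)
    have e : t - 1 - (n : ℤ) = t - 1 - ((n + 1 : ℕ) : ℤ) + 1 := by push_cast; ring
    rw [e] at hh'
    have h1 := nxt_left hv hh'
    rw [← e] at h1
    have hP := (R.vP _ _ hv).1
    have h2 : RFree R ((a, t - 1 - ((n + 1 : ℕ) : ℤ)), 0) := free_left hP hh
    refine ⟨?_, h2⟩
    have := psi_next h h2 i2 h1 (by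
      simp only [bp, ne_eq, Prod.mk.injEq, true_and, and_true]; omega)
    omega

end Crest.Agent.R158.Psi664
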