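import Crest.Agent.R158.Vt3_300

/-!
# R158 block V: (A1) of doc 1777, complex form; non-crossing involutions and Catalan trees
-/

namespace Crest.Agent.R158.Vt300

open NC Finset

/-! ### complex form of (A1) -/

/-- the vertex `v₂ = e^{iπ/3}` -/
noncomputable def v2 : ℂ := Complex.exp (Complex.I * (Real.pi / 3))

lemma v2_eq : v2 = 1 / 2 + (Real.sqrt 3 / 2 : ℝ) * Complex.I := by
  have h : Complex.I * (Real.pi / 3) = ((Real.pi / 3 : ℝ) : ℂ) * Complex.I := by
    push_cast; ring
  rw [v2, h, Complex.exp_mul_I, ← Complex.ofReal_cos, ← Complex.ofReal_sin,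
    Real.cos_pi_div_three, Real.sin_pi_div_three]
  push_cast; ring

lemma v2_sq : v2 ^ 2 = v2 - 1 := by
  have h3 : ((Real.sqrt 3 : ℝ) : ℂ) ^ 2 = 3 := by
    rw [← Complex.ofReal_pow, Real.sq_sqrt (by norm_num)]; norm_num
  rw [v2_eq]
  push_cast
  linear_combination (1 / 4) * Complex.I ^ 2 * h3 + (3 / 4) * Complex.I_sq

/-- `e^{2πi/3} = v₂ - 1` -/
lemma exp_two : Complex.exp (Complex.I * (2 * Real.pi / 3)) = v2 - 1 := by
  rw [← v2_sq, v2, ← Complex.exp_nat_mul]; congr 1; push_cast; ring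

lemma wz_cos {k : ℤ} (h : -2 ≤ k ∧ k ≤ 2) :
    Real.cos (Real.pi / 6 - k * (Real.pi / 3)) / Real.cos (Real.pi / 6) = wz k := by
  have h3 : Real.sqrt 3 ≠ 0 := by positivity
  have hk : k = -2 ∨ k = -1 ∨ k = 0 ∨ k = 1 ∨ k = 2 := by omega
  rcases hk with rfl | rfl | rfl | rfl | rfl
  · rw [show Real.pi / 6 - ((-2 : ℤ) : ℝ) * (Real.pi / 3) = Real.pi - Real.pi / 6 by push_cast; ring,
      Real.cos_pi_sub, Real.cos_pi_div_six]
    simp only [wz_m2]; push_cast; field_simp
  · rw [show Real.pi / 6 - ((-1 : ℤ) : ℝ) * (Real.pi / 3) = Real.pi / 2 by push_cast; ring,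
      Real.cos_pi_div_two]
    simp
  · rw [show Real.pi / 6 - ((0 : ℤ) : ℝ) * (Real.pi / 3) = Real.pi / 6 by push_cast; ring,
      Real.cos_pi_div_six]
    simp only [wz_0]; push_cast; field_simp
  · rw [show Real.pi / 6 - ((1 : ℤ) : ℝ) * (Real.pi / 3) = -(Real.pi / 6) by push_cast; ring,
      Real.cos_neg, Real.cos_pi_div_six]
    simp only [wz_1]; push_cast; field_simp
  · rw [show Real.pi / 6 - ((2 : ℤ) : ℝ) * (Real.pi / 3) = -(Real.pi / 2) by push_cast; ring,
      Real.cos_neg, Real.cos_pi_div_two]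
    simp

lemma sum_ph {x2 x3 n : ℕ} (h23 : x2 ≤ x3) (h3 : x3 ≤ n) (f : ℕ → ℤ) :
    ∑ m ∈ Icc 0 (0 + n), ph x2 x3 m * f m = 2 * ∑ m ∈ Icc x2 x3, f m - f x3 := by
  rw [zero_add, mul_sum]
  have h1 : ∑ m ∈ Icc 0 n, ph x2 x3 m * f m = ∑ m ∈ Icc x2 x3, ph x2 x3 m * f m := by
    symm
    apply sum_subset
    · intro t; simp only [mem_Icc]; omega
    · intro t ht ht'
      simp only [mem_Icc] at ht ht'
      simp only [ph]
      by_cases h : t < x2
      · simp [h]
      · rw [if_neg h, if_neg (by omega), if_neg (by omega)]; simp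
  have h2 : ∑ m ∈ Icc x2 x3, ph x2 x3 m * f m = ∑ m ∈ Icc x2 x3, (2 * f m - if m = x3 then f x3 else 0) := by
    apply sum_congr rfl
    intro t ht
    simp only [mem_Icc] at ht
    simp only [ph]
    rw [if_neg (by omega)]
    by_cases h : t = x3
    · subst h; simp; ring
    · rw [if_pos (by omega), if_neg h]; ring
  rw [h1, h2, sum_sub_distrib]
  simp [h23]

lemma sum_pl {x3 n : ℕ} (h3 : x3 ≤ n) (f : ℕ → ℤ) :
    ∑ m ∈ Icc 0 (0 + n), pl x3 m * f m = 2 * ∑ m ∈ Icc 0 x3, f m - f x3 := by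
  rw [← sum_ph (x2 := 0) (Nat.zero_le _) h3 f]
  apply sum_congr rfl
  intro t _
  simp [ph, pl]

lemma sum_up {x2 n : ℕ} (h2 : x2 ≤ n) (f : ℕ → ℤ) :
    ∑ m ∈ Icc 0 (0 + n), (if m < x2 then 0 else 2) * f m = 2 * ∑ m ∈ Icc x2 n, f m := by
  rw [zero_add, mul_sum]
  symm
  have h1 : ∑ m ∈ Icc x2 n, 2 * f m = ∑ m ∈ Icc x2 n, (if m < x2 then 0 else 2) * f m := by
    apply sum_congr rfl
    intro t ht
    simp only [mem_Icc] at ht
    rw [if_neg (by omega)]
  rw [h1]
  apply sum_subset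
  · intro t; simp only [mem_Icc]; omega
  · intro t ht ht'
    simp only [mem_Icc] at ht ht'
    rw [if_pos (by omega)]; simp

/-- (A1), leg in `(x3, x1)`: linear order `y1 ≤ y2 ≤ y3` seen from the leg. -/
theorem A1_31 {y1 y2 y3 : ℕ} {F : NC} (h12 : y1 ≤ y2) (h23 : y2 ≤ y3) (h3 : y3 ≤ sz F) :
    (∑ m ∈ Icc y2 y3, (hh y1 y2 m F 0 : ℂ)) - hh y1 y2 y3 F 0 / 2 =
      if sep F 0 y2 y3 y1 then 0 else if sep F 0 y1 y2 y3 then 1 else 1 / 2 := by
  have h := SS_123 (φ := ph y2 y3) (F := F) (s := 0) (Nat.zero_le _) h12 h23 (by omega)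
    (fun m _ _ => rfl)
  rw [SS_eq, sum_ph h23 h3] at h
  have h' := congrArg (fun z : ℤ => (z : ℂ)) h
  push_cast at h'
  have h4 : (∑ m ∈ Icc y2 y3, (hh y1 y2 m F 0 : ℂ)) - hh y1 y2 y3 F 0 / 2 =
      (2 * ∑ m ∈ Icc y2 y3, (hh y1 y2 m F 0 : ℂ) - hh y1 y2 y3 F 0) / 2 := by ring
  rw [h4, h']
  split_ifs <;> norm_num

/-- (A1), leg in `(x1, x2)`: linear order `y2 ≤ y3 ≤ y1` seen from the leg. -/
theorem A1_12 {y1 y2 y3 : ℕ} {F : NC} (h23 : y2 ≤ y3) (h31 : y3 ≤ y1) (h1 : y1 ≤ sz F) :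
    v2 * ((∑ m ∈ Icc y2 y3, (hh y1 y2 m F 0 : ℂ)) - hh y1 y2 y3 F 0 / 2) =
      if sep F 0 y2 y3 y1 then 0 else if sep F 0 y3 y1 y2 then v2 else v2 / 2 := by
  have h := SS_231 (φ := ph y2 y3) (F := F) (s := 0) (Nat.zero_le _) h23 h31 (by omega)
    (fun m _ _ => rfl)
  rw [SS_eq, sum_ph h23 (by omega)] at h
  have h' := congrArg (fun z : ℤ => (z : ℂ)) h
  push_cast at h'
  have h4 : (∑ m ∈ Icc y2 y3, (hh y1 y2 m F 0 : ℂ)) - hh y1 y2 y3 F 0 / 2 =
      (2 * ∑ m ∈ Icc y2 y3, (hh y1 y2 m F 0 : ℂ) - hh y1 y2 y3 F 0) / 2 := by ring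
  rw [h4, h']
  split_ifs <;> ring

/-- (A1), leg in `(x2, x3)`: linear order `y3 ≤ y1 ≤ y2` seen from the leg. -/
theorem A1_23 {y1 y2 y3 : ℕ} {F : NC} (h31 : y3 ≤ y1) (h12 : y1 ≤ y2) (h2 : y2 ≤ sz F) :
    (∑ m ∈ Icc y2 (sz F), (hh y1 y2 m F 0 : ℂ)) +
      (v2 - 1) * ((∑ m ∈ Icc 0 y3, (hh y1 y2 m F 0 : ℂ)) - hh y1 y2 y3 F 0 / 2) =
      if sep F 0 y1 y2 y3 then 1 else if sep F 0 y3 y1 y2 then v2 else (v2 + 1) / 2 := by
  have h := SS_312 (φ := pl y3) (F := F) (s := 0) (Nat.zero_le _) h31 h12 (by omega)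
    (fun m _ _ => rfl)
  rw [SS_eq, sum_pl (by omega)] at h
  have hu := SS_12 (φ := fun m => if m < y2 then 0 else 2) (F := F) (s := 0) (Nat.zero_le _)
    h12 (by omega) (fun m _ _ => rfl)
  rw [SS_eq, sum_up (by omega)] at hu
  have h' := congrArg (fun z : ℤ => (z : ℂ)) h
  have hu' := congrArg (fun z : ℤ => (z : ℂ)) hu
  push_cast at h' hu'
  have h4 : (∑ m ∈ Icc 0 y3, (hh y1 y2 m F 0 : ℂ)) - hh y1 y2 y3 F 0 / 2 =
      (2 * ∑ m ∈ Icc 0 y3, (hh y1 y2 m F 0 : ℂ) - hh y1 y2 y3 F 0) / 2 := by ring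
  have h5 : (∑ m ∈ Icc y2 (sz F), (hh y1 y2 m F 0 : ℂ)) = 1 := by
    linear_combination (1 / 2) * hu'
  rw [h4, h', h5]
  split_ifs <;> ring

/-! ### non-crossing involutions -/

/-- `π` is a non-crossing perfect matching of `[s, s + n)` -/
structure NCM (π : ℕ → ℕ) (s n : ℕ) : Prop where
  mem : ∀ i, s ≤ i → i < s + n → s ≤ π i ∧ π i < s + n
  ne : ∀ i, s ≤ i → i < s + n → π i ≠ i
  inv : ∀ i, s ≤ i → i < s + n → π (π i) = i
  nc : ∀ i j, s ≤ i → i < j → j < π i → π i < s + n → i < π j ∧ π j < π i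

/-- every non-crossing perfect matching of an interval comes from a Catalan tree -/
theorem NCM.exists_tree {π : ℕ → ℕ} {s n : ℕ} (h : NCM π s n) :
    ∃ F : NC, sz F = n ∧
      (∀ e : ℕ × ℕ, e ∈ F.arcs s ↔ s ≤ e.1 ∧ e.1 < e.2 ∧ e.2 < s + n ∧ π e.1 = e.2) ∧
      (∀ f : ℕ × ℕ → ℤ, ((F.arcs s).map f).prod =
        ∏ i ∈ (Ico s (s + n)).filter (fun i => i < π i), f (i, π i)) := by
  induction n using Nat.strong_induction_on generalizing s with
  | _ n ih =>
    rcases Nat.eq_zero_or_pos n with rfl | hn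
    · refine ⟨nil, rfl, ?_, ?_⟩
      · intro e; simp only [arcs, List.not_mem_nil, false_iff]; omega
      · intro f; simp [arcs]
    · have hs := h.mem s le_rfl (by omega)
      have hne := h.ne s le_rfl (by omega)
      have hinv := h.inv s le_rfl (by omega)
      set j := π s with hj
      have hsj : s < j := by omega
      -- inner part
      have inj : ∀ i, s < i → i < j → s < π i ∧ π i < j := fun i h1 h2 =>
        h.nc s i le_rfl h1 (by omega) (by omega)
      have hA : NCM π (s + 1) (j - s - 1) := by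
        refine ⟨fun i h1 h2 => ?_, fun i h1 h2 => h.ne i (by omega) (by omega),
          fun i h1 h2 => h.inv i (by omega) (by omega),
          fun i k h1 h2 h3 h4 => h.nc i k (by omega) h2 h3 (by omega)⟩
        have := inj i (by omega) (by omega)
        omega
      have hB : NCM π (j + 1) (s + n - j - 1) := by
        refine ⟨fun i h1 h2 => ?_, fun i h1 h2 => h.ne i (by omega) (by omega),
          fun i h1 h2 => h.inv i (by omega) (by omega),
          fun i k h1 h2 h3 h4 => h.nc i k (by omega) h2 h3 (by omega)⟩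
        have hm := h.mem i (by omega) (by omega)
        have hi := h.inv i (by omega) (by omega)
        have h3 : π i ≠ s := by intro h3; rw [h3] at hi; omega
        have h4 : π i ≠ j := by intro h4; rw [h4] at hi; omega
        have h5 : ¬ (s < π i ∧ π i < j) := by
          rintro ⟨h5, h6⟩
          have := inj (π i) h5 h6
          omega
        omega
      obtain ⟨a, ha1, ha2, ha3⟩ := ih (j - s - 1) (by omega) hA
      obtain ⟨b, hb1, hb2, hb3⟩ := ih (s + n - j - 1) (by omega) hB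
      have e1 : s + sz a + 1 = j := by omega
      have e2 : s + sz a + 2 = j + 1 := by omega
      refine ⟨cons a b, by simp only [sz]; omega, ?_, ?_⟩
      · intro e
        simp only [arcs, e1, e2, List.mem_cons, List.mem_append, ha2, hb2]
        constructor
        · rintro (rfl | h1 | h1)
          · exact ⟨le_rfl, hsj, by omega, hj.symm⟩
          · exact ⟨by omega, h1.2.1, by omega, h1.2.2.2⟩
          · exact ⟨by omega, h1.2.1, by omega, h1.2.2.2⟩
        · rintro ⟨h1, h2, h3, h4⟩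
          rcases Nat.lt_or_ge s e.1 with h5 | h5
          · right
            rcases Nat.lt_trichotomy e.1 j with h6 | h6 | h6
            · left
              have := inj e.1 h5 h6
              exact ⟨by omega, h2, by omega, h4⟩
            · rw [h6] at h4; omega
            · right
              exact ⟨by omega, h2, by omega, h4⟩
          · left
            have h6 : e.1 = s := by omega
            ext
            · exact h6
            · rw [← h4, h6]
      · intro f
        have hsplit : (Ico s (s + n)).filter (fun i => i < π i) =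
            insert s ((Ico (s + 1) (s + 1 + (j - s - 1))).filter (fun i => i < π i) ∪
              (Ico (j + 1) (j + 1 + (s + n - j - 1))).filter (fun i => i < π i)) := by
          ext t
          simp only [mem_filter, mem_Ico, mem_insert, mem_union]
          constructor
          · rintro ⟨⟨h1, h2⟩, h3⟩
            rcases Nat.lt_trichotomy t j with h6 | h6 | h6
            · by_cases h7 : t = s
              · exact Or.inl h7
              · exact Or.inr (Or.inl ⟨by omega, h3⟩)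
            · rw [h6, hinv] at h3; omega
            · exact Or.inr (Or.inr ⟨by omega, h3⟩)
          · rintro (h1 | ⟨h1, h2⟩ | ⟨h1, h2⟩)
            · subst h1; exact ⟨by omega, by omega⟩
            · exact ⟨by omega, h2⟩
            · exact ⟨by omega, h2⟩
        rw [hsplit, prod_insert, prod_union, ← ha3, ← hb3]
        · simp only [arcs, e1, e2, List.map_cons, List.map_append, List.prod_cons,
            List.prod_append]
          rw [← hj]
        · rw [disjoint_left]
          intro t ht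
          simp only [mem_filter, mem_Ico] at ht ⊢
          omega
        · simp only [mem_union, mem_filter, mem_Ico]
          omega

end Crest.Agent.R158.Vt300
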