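import Crest.Agent.R158.Ao11_857
import Crest.Agent.R158.Psi_664
import Crest.Agent.R158.Vt4_300

/-!
# Row 158: the literal family of boundary phases (helper857), doc 2000

`B : Band A`, `b` = the far gap (columns `i < b` of the strip belong to the right stub), `m1 m2 m3` =
marks (free ends just after the gaps `x1, x2, x3`), as ports of `G^(z)` (`tpm inlE` of the ports of `D`).
Free ends are ordered clockwise on `D+` starting at the far end of the right stub:
right floor, lower part of `D`, left floor, left ceiling, upper part of `D`, right ceiling.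

* `ps B b q` : lifted direction (quarter turns)
* `pG B b q` : position in the clockwise order (lexicographic pair)
* `Fm` : `e : Option (Port TG)`; `some e` = middle phase at the end `e`, `none` = the member `m = x2`
* `cb`, `clow`, `cp` : charges from the start of the order, charge of the lower component, ring gauge
* `phi B b m1 m2 e` : cut phases (operator sign), `ctw` twist below `z` (above: `ctw + e3`), `kap`
  coefficient
* `freeG B` : the free ends of `G^(z)` (without the leg); `mem_freeG`
* `Jd` : the ends `e` of the family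
-/

set_option autoImplicit false

noncomputable section

open Finset Matrix

namespace Crest.Agent.R158.Fm857

open Crest.Agent.R158.Ad350
open Crest.Agent.R158.Ao857
open Crest.Agent.R158.Sw300 (Port)
open Crest.Agent.R158.Bd932 (That e3)
open Crest.Agent.R158.Vt300 (v2)
open Crest.Agent.R158.Env664 (TG Band Run PortOf portOf_some portOf_none nbP res res_of Adj4 z4
  nbP_W nbP_N nbP_E nbP_S)

variable {A : Finset (ℤ × ℤ)} (B : Band A)

/-! ### Order and lifted direction -/

/-- position of a free end of `D` in the clockwise list starting at the `W` side of `(xl, y1)` -/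
def rD (x : (ℤ × ℤ) × ZMod 4) : ℤ := (Psi664.rk (Xr249.full A) B.xl B.y1 x : ℕ)

/-- lifted direction of a free end of `D`, `0` on the left mouth -/
def psD (x : (ℤ × ℤ) × ZMod 4) : ℤ := Psi664.psi (Xr249.full A) B.xl B.y1 x

/-- lower part: after the right mouth in the list of `D` -/
def isLow (x : (ℤ × ℤ) × ZMod 4) : Prop := rD B ((B.xr, B.y1), 2) < rD B x

instance (x : (ℤ × ℤ) × ZMod 4) : Decidable (isLow B x) := by unfold isLow; infer_instance

/-- lifted direction of a free end of `G^(z)` -/
def ps (b : ℤ) : Port TG → ℤ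
  | none => 0
  | some (Sum.inl t, d) => psD B (t, d)
  | some (Sum.inr (i, _), d) => if d = 3 then 3 else if i < b then 1 else 5

/-- block of a free end: `0` right floor, `1` low, `2` left floor, `3` left ceiling, `4` up,
`5` right ceiling -/
def blkG (b : ℤ) : Port TG → ℤ
  | none => 6
  | some (Sum.inl t, d) => if isLow B (t, d) then 1 else 4
  | some (Sum.inr (i, _), d) => if d = 3 then (if i < b then 0 else 2) else (if i < b then 5 else 3)

/-- position inside the block -/
def innG : Port TG → ℤ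
  | none => 0
  | some (Sum.inl t, d) => rD B (t, d)
  | some (Sum.inr (i, _), d) => if d = 3 then -i else i

/-- **position in the clockwise order of `D+`** -/
def pG (b : ℤ) (q : Port TG) : ℤ ×ₗ ℤ := toLex (blkG B b q, innG B q)

/-- strip columns of the left stub -/
def isLS (b : ℤ) : Port TG → Prop
  | some (Sum.inr (i, _), _) => b ≤ i
  | _ => False

instance (b : ℤ) (q : Port TG) : Decidable (isLS b q) :=
  match q with
  | none => isFalse (fun h => h)
  | some (Sum.inl _, _) => isFalse (fun h => h)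
  | some (Sum.inr (i, _), _) => inferInstanceAs (Decidable (b ≤ i))

/-! ### Charges -/

section charges

variable (b : ℤ) (m1 m2 : Port TG)

/-- `1` if `q` is at or after `m` in the order -/
def ge1 (m q : Port TG) : ℤ := if pG B b m ≤ pG B b q then 1 else 0

/-- `1` if `q` is strictly after `m` in the order -/
def gt1 (m q : Port TG) : ℤ := if pG B b m < pG B b q then 1 else 0

/-- `1` if `q` is on the lower component -/
def low1 (q : Port TG) : ℤ := if blkG B b q ≤ 2 then 1 else 0

/-- cumulated charge from the start of the order -/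
def cb (e : Option (Port TG)) (q : Port TG) : ℤ :=
  ge1 B b m1 q + ge1 B b m2 q -
    match e with
    | none => 2 * ge1 B b m2 q
    | some e => ge1 B b e q + gt1 B b e q

/-- charge of the lower component -/
def clow (e : Option (Port TG)) : ℤ :=
  low1 B b m1 + low1 B b m2 -
    match e with
    | none => 2 * low1 B b m2
    | some e => 2 * low1 B b e

/-- charges in the gauge of the ring -/
def cp (e : Option (Port TG)) (q : Port TG) : ℤ :=
  cb B b m1 m2 e q - if isLS b q then clow B b m1 m2 e else 0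

/-- **cut phases** (operator sign) -/
def phi (e : Option (Port TG)) (q : Port TG) : ℝ :=
  -(e3 / 4) * (ps B b q : ℝ) + e3 * (cp B b m1 m2 e q : ℝ)

/-- twist of the rows below `z` -/
def ctw (e : Option (Port TG)) : ℝ := e3 * (clow B b m1 m2 e : ℝ)

/-- charge (from `m1`) at the start of the order -/
def kch (e : Option (Port TG)) : ℤ :=
  1 + ge1 B b m1 m2 -
    match e with
    | none => 2 * ge1 B b m1 m2
    | some e => 2 * ge1 B b m1 e

/-- coefficient -/
def kap (e : Option (Port TG)) : ℂ := 1 / 2 * v2 ^ kch B b m1 m2 e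

end charges

/-! ### The free ends -/

/-- side of the run, in the rows of the band -/
def mouth : Port (ℤ × ℤ) → Prop
  | none => False
  | some ((x, y), d) => (B.y1 ≤ y ∧ y < B.y2) ∧ ((d = 0 ∧ x = B.xl) ∨ (d = 2 ∧ x = B.xr))

instance (q : Port (ℤ × ℤ)) : Decidable (mouth B q) :=
  match q with
  | none => isFalse (fun h => h)
  | some ((_, _), _) => inferInstanceAs (Decidable (_ ∧ _))

/-- free ends of `D` outside the mouths -/
def freeD : Finset (Port (ℤ × ℤ)) := (ports A).filter fun q => ¬ PortOf A (nbP q) ∧ ¬ mouth B q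

/-- ends of the strip floor -/
def flr : Finset (Port TG) := (Finset.Ico 0 B.R).image fun i => some (Sum.inr (i, B.y1), 3)

/-- ends of the strip ceiling -/
def cil : Finset (Port TG) := (Finset.Ico 0 (B.R + 1)).image fun i => some (Sum.inr (i, B.y2 - 1), 1)

/-- **the free ends of `G^(z)`, without the leg** -/
def freeG : Finset (Port TG) := (freeD B).image (tpm inlE) ∪ (flr B ∪ cil B)

lemma mem_flr {q : Port TG} : q ∈ flr B ↔ ∃ i, 0 ≤ i ∧ i < B.R ∧ q = some (Sum.inr (i, B.y1), 3) := by
  unfold flr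
  rw [Finset.mem_image]
  simp only [Finset.mem_Ico]
  constructor
  · rintro ⟨i, h1, rfl⟩; exact ⟨i, h1.1, h1.2, rfl⟩
  · rintro ⟨i, h1, h2, rfl⟩; exact ⟨i, ⟨h1, h2⟩, rfl⟩

lemma mem_cil {q : Port TG} : q ∈ cil B ↔
    ∃ i, 0 ≤ i ∧ i < B.R + 1 ∧ q = some (Sum.inr (i, B.y2 - 1), 1) := by
  unfold cil
  rw [Finset.mem_image]
  simp only [Finset.mem_Ico]
  constructor
  · rintro ⟨i, h1, rfl⟩; exact ⟨i, h1.1, h1.2, rfl⟩
  · rintro ⟨i, h1, h2, rfl⟩; exact ⟨i, ⟨h1, h2⟩, rfl⟩

lemma beG_eq_self {p y0 : ℤ} {q : Port TG} (hne : B.nbG p y0 q ≠ q) :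
    B.beG p y0 q = q ↔ ¬ (PortOf (B.tG y0) q ∧ PortOf (B.tG y0) (B.nbG p y0 q)) := by
  unfold Band.beG res
  constructor
  · intro h h'
    rw [if_pos h'] at h
    exact hne h
  · intro h
    rw [if_neg h]

/-- **the free ends of `G^(z)`** -/
theorem mem_freeG {p y0 : ℤ} (h : B.At p y0) {q : Port TG} :
    q ∈ freeG B ↔ q ∈ ports (B.tG y0) ∧ B.beG p y0 q = q := by
  have hR := B.hR
  have hle := le_run B h
  obtain ⟨hy1, hy2, hp1, hp2⟩ := h
  have hrun := B.run
  have w1 : ∀ y, y < y0 → B.wd y0 y = B.R := fun y hy => if_pos hy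
  have w2 : ∀ y, ¬ y < y0 → B.wd y0 y = B.R + 1 := fun y hy => if_neg hy
  have hmem : ∀ x y : ℤ, B.xl ≤ x → x ≤ B.xr → B.y1 ≤ y → y < B.y2 → (x, y) ∈ A :=
    fun x y h1 h2 h3 h4 => (hrun y h3 h4).mem x h1 h2
  unfold freeG
  rw [Finset.mem_union, Finset.mem_union, mem_flr, mem_cil, Finset.mem_image]
  rcases q with _ | ⟨⟨x, y⟩ | ⟨i, y⟩, d⟩
  · constructor
    · rintro (⟨q0, h1, h2⟩ | ⟨i, -, -, h2⟩ | ⟨i, -, -, h2⟩)
      · unfold freeD at h1
        obtain ⟨t, d, rfl, -⟩ := mem_ports' (Finset.mem_filter.1 h1).1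
        exact absurd h2 (by simp [tpm])
      · exact absurd h2 (by simp)
      · exact absurd h2 (by simp)
    · rintro ⟨h1, -⟩
      exact absurd h1 none_ports
  · -- domain
    have hD : (∃ a ∈ freeD B, tpm inlE a = some (Sum.inl (x, y), d)) ↔
        (x, y) ∈ A ∧ ¬ PortOf A (nbP (some ((x, y), d))) ∧ ¬ mouth B (some ((x, y), d)) := by
      unfold freeD
      constructor
      · rintro ⟨a, ha, he⟩
        rw [Finset.mem_filter] at ha
        have : a = some ((x, y), d) := tpm_inj inlE.injective he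
        rw [this] at ha
        exact ⟨mem_ports.1 ha.1, ha.2⟩
      · rintro ⟨h1, h2⟩
        exact ⟨some ((x, y), d), Finset.mem_filter.2 ⟨mem_ports.2 h1, h2⟩, rfl⟩
    have hother : ¬ ((∃ i, 0 ≤ i ∧ i < B.R ∧
          (some (Sum.inl (x, y), d) : Port TG) = some (Sum.inr (i, B.y1), 3)) ∨
        ∃ i, 0 ≤ i ∧ i < B.R + 1 ∧
          (some (Sum.inl (x, y), d) : Port TG) = some (Sum.inr (i, B.y2 - 1), 1)) := by
      rintro (⟨i, -, -, h2⟩ | ⟨i, -, -, h2⟩) <;> simp at h2
    rw [hD, mem_ports, B.inl_mem]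
    constructor
    · rintro (⟨h1, h2, h3⟩ | h1)
      · refine ⟨h1, ?_⟩
        unfold mouth at h3
        rcases z4 d with rfl | rfl | rfl | rfl
        · have hm : ¬ (x = B.xl ∧ B.y1 ≤ y ∧ y < B.y2) := fun h => h3 ⟨⟨h.2.1, h.2.2⟩,
            Or.inl ⟨rfl, h.1⟩⟩
          exact beG_fix B (B.nbG_W hm) fun k => h2 (by rw [nbP_W, portOf_some]; exact B.inl_mem.1 k)
        · rw [nbP_N, portOf_some] at h2
          have hm : ¬ (y = y0 - 1 ∧ B.xl ≤ x ∧ x ≤ B.xr) := fun h => h2 (hmem _ _ h.2.1 h.2.2
            (by omega) (by omega))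
          by_cases hx : y = y0 - 1 ∧ p ≤ x ∧ x < B.xr
          · exact absurd ⟨hx.1, by omega, by omega⟩ hm
          · by_cases hx' : y = y0 - 1 ∧ x = B.xr
            · exact absurd ⟨hx'.1, by omega, by omega⟩ hm
            · exact beG_fix B (B.nbG_N ⟨hx, hx'⟩) fun k => h2 (B.inl_mem.1 k)
        · have hm : ¬ (x = B.xr ∧ B.y1 ≤ y ∧ y < B.y2) := fun h => h3 ⟨⟨h.2.1, h.2.2⟩,
            Or.inr ⟨rfl, h.1⟩⟩
          exact beG_fix B (B.nbG_E hm) fun k => h2 (by rw [nbP_E, portOf_some]; exact B.inl_mem.1 k)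
        · rw [nbP_S, portOf_some] at h2
          have hm : ¬ (y = y0 ∧ B.xl ≤ x ∧ x ≤ B.xr) := fun h => h2 (hmem _ _ h.2.1 h.2.2
            (by omega) (by omega))
          have hx : ¬ (y = y0 ∧ p < x ∧ x ≤ B.xr) := fun h => hm ⟨h.1, by omega, h.2.2⟩
          have hx' : ¬ (y = y0 ∧ x = p) := fun h => hm ⟨h.1, by omega, by omega⟩
          exact beG_fix B (B.nbG_S ⟨hx, hx'⟩) fun k => h2 (B.inl_mem.1 k)
      · exact absurd h1 hother
    · rintro ⟨h1, h2⟩
      left
      refine ⟨h1, ?_, ?_⟩
      · intro k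
        rcases z4 d with rfl | rfl | rfl | rfl
        · rw [nbP_W, portOf_some] at k
          by_cases hm : x = B.xl ∧ B.y1 ≤ y ∧ y < B.y2
          · exact (hrun y hm.2.1 hm.2.2).left (by rw [← hm.1]; exact k)
          · have := (beG_of (B := B) ⟨hy1, hy2, hp1, hp2⟩ (B.inl_mem.2 h1) (B.inl_mem.2 k)
              (B.nbG_W hm)).1
            rw [h2] at this
            exact absurd this (some_ne fun h => z20 h.2.symm)
        · rw [nbP_N, portOf_some] at k
          by_cases hx : y = y0 - 1 ∧ p ≤ x ∧ x < B.xr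
          · have := (beG_of (B := B) ⟨hy1, hy2, hp1, hp2⟩ (B.inl_mem.2 h1)
              (B.inl_mem.2 (hmem (x + 1) y0 (by omega) (by omega) (by omega) (by omega)))
              (B.nbG_N1 hx)).1
            rw [h2] at this
            exact absurd this (some_ne fun h => d13 h.2)
          · by_cases hx' : y = y0 - 1 ∧ x = B.xr
            · have := (beG_of (B := B) ⟨hy1, hy2, hp1, hp2⟩ (B.inl_mem.2 h1)
                (B.inr_mem.2 ⟨by omega, by omega, le_rfl, B.wd_pos y0 y0⟩)
                (B.nbG_N2 hx')).1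
              rw [h2] at this
              exact absurd this (some_ne fun h => d13 h.2)
            · have := (beG_of (B := B) ⟨hy1, hy2, hp1, hp2⟩ (B.inl_mem.2 h1) (B.inl_mem.2 k)
                (B.nbG_N ⟨hx, hx'⟩)).1
              rw [h2] at this
              exact absurd this (some_ne fun h => d13 h.2)
        · rw [nbP_E, portOf_some] at k
          by_cases hm : x = B.xr ∧ B.y1 ≤ y ∧ y < B.y2
          · exact (hrun y hm.2.1 hm.2.2).right (by rw [← hm.1]; exact k)
          · have := (beG_of (B := B) ⟨hy1, hy2, hp1, hp2⟩ (B.inl_mem.2 h1) (B.inl_mem.2 k)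
              (B.nbG_E hm)).1
            rw [h2] at this
            exact absurd this (some_ne fun h => z20 h.2)
        · rw [nbP_S, portOf_some] at k
          by_cases hx' : y = y0 ∧ x = p
          · have h3 : B.beG p y0 (some (Sum.inl (x, y), 3)) = none := by
              unfold Band.beG
              rw [res_of (portOf_some.2 (B.inl_mem.2 h1)) (by
                rw [B.nbG_Sleg hx']; exact portOf_none _), B.nbG_Sleg hx']
            rw [h2] at h3
            exact absurd h3 (by simp)
          · by_cases hx : y = y0 ∧ p < x ∧ x ≤ B.xr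
            · have := (beG_of (B := B) ⟨hy1, hy2, hp1, hp2⟩ (B.inl_mem.2 h1)
                (B.inl_mem.2 (hmem (x - 1) (y0 - 1) (by omega) (by omega) (by omega) (by omega)))
                (B.nbG_S1 hx)).1
              rw [h2] at this
              exact absurd this (some_ne fun h => d13 h.2.symm)
            · have := (beG_of (B := B) ⟨hy1, hy2, hp1, hp2⟩ (B.inl_mem.2 h1) (B.inl_mem.2 k)
                (B.nbG_S ⟨hx, hx'⟩)).1
              rw [h2] at this
              exact absurd this (some_ne fun h => d13 h.2.symm)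
      · intro k
        unfold mouth at k
        obtain ⟨⟨k1, k2⟩, ⟨rfl, k3⟩ | ⟨rfl, k3⟩⟩ := k
        · have hw := B.wd_pos y0 y
          have := (beG_of (B := B) ⟨hy1, hy2, hp1, hp2⟩ (B.inl_mem.2 h1)
            (B.inr_mem.2 ⟨k1, k2, by omega, by omega⟩) (B.nbG_W1 ⟨k3, k1, k2⟩)).1
          rw [h2] at this
          exact absurd this (by simp)
        · have hw := B.wd_pos y0 y
          have := (beG_of (B := B) ⟨hy1, hy2, hp1, hp2⟩ (B.inl_mem.2 h1)
            (B.inr_mem.2 ⟨k1, k2, le_rfl, hw⟩) (B.nbG_E1 ⟨k3, k1, k2⟩)).1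
          rw [h2] at this
          exact absurd this (by simp)
  · -- strip
    have hno : ¬ ∃ a ∈ freeD B, tpm inlE a = some (Sum.inr (i, y), d) := by
      rintro ⟨a, ha, he⟩
      rcases a with _ | ⟨t, d'⟩
      · exact absurd he (by simp [tpm])
      · have h' : (some (Sum.inl t, d') : Port TG) = some (Sum.inr (i, y), d) := he
        simp at h'
    rw [mem_ports, B.inr_mem]
    constructor
    · rintro (h1 | ⟨j, h1, h2, h3⟩ | ⟨j, h1, h2, h3⟩)
      · exact absurd h1 hno
      · simp only [Option.some.injEq, Prod.mk.injEq, Sum.inr.injEq] at h3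
        obtain ⟨⟨rfl, rfl⟩, rfl⟩ := h3
        have hw := w1 B.y1 hy1
        refine ⟨⟨le_rfl, by omega, h1, by omega⟩, ?_⟩
        exact beG_fix B (B.nbG_rS (by omega)) fun k => by
          have := B.inr_mem.1 k; omega
      · simp only [Option.some.injEq, Prod.mk.injEq, Sum.inr.injEq] at h3
        obtain ⟨⟨rfl, rfl⟩, rfl⟩ := h3
        have hw := w2 (B.y2 - 1) (by omega)
        refine ⟨⟨by omega, by omega, h1, by omega⟩, ?_⟩
        exact beG_fix B (B.nbG_rN (by omega)) fun k => by
          have := B.inr_mem.1 k; omega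
    · rintro ⟨⟨h1, h2, h3, h4⟩, h5⟩
      right
      have hself : (Sum.inr (i, y) : TG) ∈ B.tG y0 := B.inr_mem.2 ⟨h1, h2, h3, h4⟩
      have hcontra : ∀ {t : TG} {d' : ZMod 4}, t ∈ B.tG y0 →
          B.nbG p y0 (some (Sum.inr (i, y), d)) = some (t, d') → d' ≠ d → False := by
        intro t d' ht hn hd
        have := (beG_of (B := B) ⟨hy1, hy2, hp1, hp2⟩ hself ht hn).1
        rw [h5] at this
        simp only [Option.some.injEq, Prod.mk.injEq] at this
        exact hd this.2.symm
      rcases z4 d with rfl | rfl | rfl | rfl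
      · exfalso
        by_cases hi : i = 0
        · subst hi
          exact hcontra (B.inl_mem.2 (hmem B.xr y (by omega) le_rfl h1 h2)) B.nbG_rW1 z20
        · exact hcontra (B.inr_mem.2 ⟨h1, h2, by omega, by omega⟩) (B.nbG_rW hi) z20
      · right
        by_cases hy : y = B.y2 - 1
        · have hw := w2 y (by omega)
          exact ⟨i, h3, by omega, by rw [hy]⟩
        · exfalso
          by_cases hyy : y = y0 - 1
          · have hw := w1 y (by omega)
            have hw' := w2 y0 (by omega)
            exact hcontra (B.inr_mem.2 ⟨by omega, by omega, by omega, by omega⟩)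
              (B.nbG_rN1 hyy) (fun h => d13 h.symm)
          · have hw' : B.wd y0 (y + 1) = B.wd y0 y := by
              by_cases hlt : y < y0
              · rw [w1 y hlt, w1 (y + 1) (by omega)]
              · rw [w2 y hlt, w2 (y + 1) (by omega)]
            exact hcontra (B.inr_mem.2 ⟨by omega, by omega, h3, by omega⟩)
              (B.nbG_rN hyy) (fun h => d13 h.symm)
      · exfalso
        by_cases hi : i = B.wd y0 y - 1
        · exact hcontra (B.inl_mem.2 (hmem B.xl y le_rfl (by omega) h1 h2)) (B.nbG_rE1 hi) z02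
        · exact hcontra (B.inr_mem.2 ⟨h1, h2, by omega, by omega⟩) (B.nbG_rE hi) z02
      · left
        by_cases hy : y = B.y1
        · have hw := w1 y (by omega)
          exact ⟨i, h3, by omega, by rw [hy]⟩
        · exfalso
          by_cases hyy : y = y0
          · by_cases hi : i = 0
            · exact hcontra (B.inl_mem.2 (hmem B.xr (y0 - 1) (by omega) le_rfl (by omega)
                (by omega))) (B.nbG_rS1 ⟨hyy, hi⟩) d13
            · have hw := w2 y (by omega)
              have hw' := w1 (y0 - 1) (by omega)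
              exact hcontra (B.inr_mem.2 ⟨by omega, by omega, by omega, by omega⟩)
                (B.nbG_rS2 ⟨hyy, hi⟩) d13
          · have hw' : B.wd y0 (y - 1) = B.wd y0 y := by
              by_cases hlt : y < y0
              · rw [w1 y hlt, w1 (y - 1) (by omega)]
              · rw [w2 y hlt, w2 (y - 1) (by omega)]
            exact hcontra (B.inr_mem.2 ⟨by omega, by omega, h3, by omega⟩)
              (B.nbG_rS hyy) d13

/-! ### The family -/

/-- cyclic order -/
def cyc3 (a b c : ℤ ×ₗ ℤ) : Prop := (a < b ∧ b < c) ∨ (b < c ∧ c < a) ∨ (c < a ∧ a < b)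

instance (a b c : ℤ ×ₗ ℤ) : Decidable (cyc3 a b c) := by unfold cyc3; infer_instance

/-- `e` lies between the gaps `x2` and `x3` -/
def inI (b : ℤ) (m2 m3 e : Port TG) : Prop := e = m2 ∨ cyc3 (pG B b m2) (pG B b e) (pG B b m3)

instance (b : ℤ) (m2 m3 e : Port TG) : Decidable (inI B b m2 m3 e) := by
  unfold inI; infer_instance

/-- `e` is at distance at least `Δ` from the special vertices `Sp` (for the strip: from the mouth
corners), in the strip only in the (undislocated) columns `≤ a0` or `> b0` -/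
def far (Sp : Finset (ℤ × ℤ)) (Δ a0 b0 : ℤ) : Port TG → Prop
  | none => False
  | some (Sum.inl t, _) => ∀ v ∈ Sp, Δ ≤ |t.1 - v.1| ∨ Δ ≤ |t.2 - v.2|
  | some (Sum.inr (i, _), d) =>
      (Δ ≤ (if d = 3 then i else i - 1) ∧ (if d = 3 then i else i - 1) ≤ a0) ∨
      (b0 < (if d = 3 then i else i - 1) ∧ (if d = 3 then i else i - 1) < B.R - Δ)

instance (Sp : Finset (ℤ × ℤ)) (Δ a0 b0 : ℤ) (q : Port TG) : Decidable (far B Sp Δ a0 b0 q) :=
  match q with
  | none => isFalse (fun h => h)
  | some (Sum.inl _, _) => inferInstanceAs (Decidable (∀ v ∈ Sp, _ ∨ _))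
  | some (Sum.inr (_, _), _) => inferInstanceAs (Decidable (_ ∨ _))

/-- **the ends of the family** -/
def Jd (b : ℤ) (Sp : Finset (ℤ × ℤ)) (Δ a0 b0 : ℤ) (m2 m3 : Port TG) : Finset (Port TG) :=
  (freeG B).filter fun e => inI B b m2 m3 e ∧ far B Sp Δ a0 b0 e

lemma mem_Jd {b : ℤ} {Sp : Finset (ℤ × ℤ)} {Δ a0 b0 : ℤ} {m2 m3 e : Port TG} :
    e ∈ Jd B b Sp Δ a0 b0 m2 m3 ↔ e ∈ freeG B ∧ inI B b m2 m3 e ∧ far B Sp Δ a0 b0 e := by
  unfold Jd; rw [Finset.mem_filter]

/-- vector of the lower part, member `e` -/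
def InM (Al : Finset (ℤ × ℤ)) (b : ℤ) (m1 m2 : Port TG) (e : Option (Port TG)) :
    (Fin (nn B + 1) → Bool) → ℂ :=
  InZ B Al (phi B b m1 m2 e) (plainL A Al (phi B b m1 m2 e)) fun _ => false

/-- covector of the upper part, member `e` -/
def OutM (Au : Finset (ℤ × ℤ)) (b : ℤ) (m1 m2 : Port TG) (e : Option (Port TG)) :
    (Fin (nn B + 2) → Bool) → ℂ :=
  OutZ B Au (phi B b m1 m2 e) (plainL A Au (phi B b m1 m2 e)) fun _ => false

/-- amplitude of the member `e` -/
def amp1 (Al Au : Finset (ℤ × ℤ)) (b : ℤ) (m1 m2 : Port TG) (p y0 : ℤ) (e : Option (Port TG)) :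
    ℂ :=
  OutM B Au b m1 m2 e ⬝ᵥ (Kz B p y0 (ctw B b m1 m2 e) (ctw B b m1 m2 e + e3) *ᵥ
    InM B Al b m1 m2 e)

/-- **the ring function** `H_G(p, y0)` for the ends `J` -/
def HGr (Al Au : Finset (ℤ × ℤ)) (b : ℤ) (m1 m2 : Port TG) (J : Finset (Port TG)) (Z : ℂ)
    (p y0 : ℤ) : ℂ :=
  (∑ e ∈ Finset.insertNone J, kap B b m1 m2 e * amp1 B Al Au b m1 m2 p y0 e) / Z

end Crest.Agent.R158.Fm857
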