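import Crest.Agent.R158.Ad8_350
import Crest.Agent.R158.Fm1_857

/-!
# R158, S0237 (helper664): the phases of the arcs modulo `π / 3`

A purely algebraic bound, valid for every splitting and every topological type of the strands.

* `pd` : side of a port
* `wl_mod` : phase of a walk `x → y` : `ch y - ch x + π/12 m` with `m = pd x - pd y + 2` mod `4`
* `cos_arc` : `|2 cos (π/12 M)| ≤ √3` for `M = 2` mod `4`
* **`arc_mod`** : every arc that does not contain the leg has `‖zn‖ ≤ 1`
* `zn_le` : `‖zn c‖ ≤ 1` (arcs), `≤ 2` (loops)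
* **`norm_prod_zn`** : the product over the classes is `≤ 2 ^ (number of bad loops)`
* `psi_cast` : the lifted direction of a free end of a region, modulo `4`
* **`netN_arc`** : the network `G^(z)` with the phases of the family `Fm1_857`
-/

set_option autoImplicit false

noncomputable section

open Finset

namespace Crest.Agent.R158.Ab664

open Crest.Agent.R158.Ad350
open Crest.Agent.R158.Sw300 (Port thru)

/-- side of a port -/
def pd {T : Type*} (q : Port T) : ZMod 4 := q.elim 0 Prod.snd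

@[simp] lemma pd_some {T : Type*} (t : T) (d : ZMod 4) : pd (some (t, d)) = d := rfl

lemma tq_cast (b : Bool) (d : ZMod 4) : ∃ k : ℤ, tq b d = k ∧ (k : ZMod 4) = d + 2 - thru b d := by
  have h : ∀ (b : Bool) (d : ZMod 4), (thru b d = d + 1 ∧ ((1 : ℤ) : ZMod 4) = d + 2 - thru b d) ∨
      (thru b d ≠ d + 1 ∧ ((-1 : ℤ) : ZMod 4) = d + 2 - thru b d) := by decide
  rcases h b d with ⟨h1, h2⟩ | ⟨h1, h2⟩
  · exact ⟨1, by unfold tq; rw [if_pos h1]; norm_num, h2⟩
  · exact ⟨-1, by unfold tq; rw [if_neg h1]; norm_num, h2⟩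

section net

variable {T : Type*} [DecidableEq T] {A : Finset T} {s : T → Bool} {be : Port T → Port T}
  {ch : Port T → ℝ}

/-- one passage through a tile -/
lemma step_om {q : Port T} (hq : q ∈ ports A) : ∃ k : ℤ,
    (tnet A s be ch).om ((ts A s).m q) - (tnet A s be ch).om q =
      ch ((ts A s).m q) - ch q + Real.pi / 12 * k ∧
    (k : ZMod 4) = pd q + 2 - pd ((ts A s).m q) := by
  obtain ⟨t, d, rfl, ht⟩ := mem_ports' hq
  obtain ⟨k, h1, h2⟩ := tq_cast (s t) d
  refine ⟨k, ?_, ?_⟩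
  · simp only [tnet]
    rw [ths_al, ths]
    simp only [Option.elim_some]
    rw [h1]
    ring
  · rw [h2]
    simp [ts, pd]

/-- **phase of a walk modulo `π / 3`** -/
theorem wl_mod (hb : ∀ p ∈ ports A, be p ∈ ports A)
    (hd : ∀ p ∈ ports A, be p ≠ p → pd (be p) = pd p + 2)
    (hg : ∀ p ∈ ports A, be p ≠ p → ∃ n : ℤ, ch (be p) - ch p = Real.pi / 12 * (4 * n : ℤ))
    {x y : Port T} {l : List (Port T)} (hx : x ∈ ports A) (w : (tnet A s be ch).Wa x y l) :
    y ∈ ports A ∧ ∃ m : ℤ, (tnet A s be ch).wl l = ch y - ch x + Real.pi / 12 * m ∧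
      (m : ZMod 4) = pd x - pd y + 2 := by
  induction w with
  | one =>
    refine ⟨(ts_ok A s).mem x hx, ?_⟩
    obtain ⟨k, h1, h2⟩ := step_om (s := s) (be := be) (ch := ch) hx
    refine ⟨k, ?_, ?_⟩
    · simp only [Net.wl, List.map_cons, List.map_nil, List.sum_cons, List.sum_nil, add_zero]
      exact h1
    · rw [h2]
      show _ = pd x - pd ((ts A s).m x) + 2
      ring
  | @snoc q l w hne ih =>
    obtain ⟨hq, m, ih1, ih2⟩ := ih
    have hne' : be q ≠ q := hne
    have hbq : be q ∈ ports A := hb q hq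
    refine ⟨(ts_ok A s).mem _ hbq, ?_⟩
    obtain ⟨k, h1, h2⟩ := step_om (s := s) (be := be) (ch := ch) hbq
    obtain ⟨n, hn⟩ := hg q hq hne'
    refine ⟨m - 4 * n + k, ?_, ?_⟩
    · have e2 : (tnet A s be ch).wl (l ++ [be q]) = (tnet A s be ch).wl l +
        ((tnet A s be ch).om ((ts A s).m (be q)) - (tnet A s be ch).om (be q)) := by
        simp [Net.wl, tnet]
      show (tnet A s be ch).wl (l ++ [be q]) = ch ((ts A s).m (be q)) - ch x + _
      rw [e2, ih1, h1]
      have : ch (be q) = ch q + Real.pi / 12 * (4 * n : ℤ) := by linarith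
      rw [this]
      push_cast
      ring
    · push_cast
      have h4 : (4 : ZMod 4) = 0 := by decide
      rw [ih2, h2, hd q hq hne', h4]
      show _ = pd x - pd ((ts A s).m (be q)) + 2
      have h5 : pd q + 2 + 2 = pd q + 4 := by ring
      rw [h5, h4]
      ring

end net

/-! ### the values -/

/-- values of the arcs -/
lemma cos_arc (M : ℤ) (h : (M : ZMod 4) = 2) : |2 * Real.cos (Real.pi / 12 * M)| ≤ Real.sqrt 3 := by
  have hd : (4 : ℤ) ∣ M - 2 := by
    have := (ZMod.intCast_zmod_eq_zero_iff_dvd (M - 2) 4).1 (by push_cast; rw [h]; ring)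
    exact_mod_cast this
  obtain ⟨j, hj⟩ := hd
  obtain ⟨k, r, hr0, hr3, hjk⟩ : ∃ k r : ℤ, 0 ≤ r ∧ r < 3 ∧ j = 3 * k + r :=
    ⟨j / 3, j % 3, Int.emod_nonneg _ (by norm_num), Int.emod_lt_of_pos _ (by norm_num), by omega⟩
  have e : Real.pi / 12 * (M : ℝ) = (Real.pi / 6 + (r : ℝ) * (Real.pi / 3)) + k * Real.pi := by
    have hM : M = 4 * (3 * k + r) + 2 := by omega
    rw [hM]
    push_cast
    ring
  rw [e, Real.cos_add_int_mul_pi, abs_mul, abs_mul]
  have h1 : |(-1 : ℝ) ^ k| = 1 := by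
    rw [abs_zpow, abs_neg, abs_one, one_zpow]
  rw [h1, one_mul, abs_two]
  have h3 : 0 ≤ Real.sqrt 3 := Real.sqrt_nonneg _
  have hr : r = 0 ∨ r = 1 ∨ r = 2 := by omega
  rcases hr with rfl | rfl | rfl
  · have : Real.pi / 6 + ((0 : ℤ) : ℝ) * (Real.pi / 3) = Real.pi / 6 := by push_cast; ring
    rw [this, Real.cos_pi_div_six, abs_of_nonneg (by positivity)]
    linarith
  · have : Real.pi / 6 + ((1 : ℤ) : ℝ) * (Real.pi / 3) = Real.pi / 2 := by push_cast; ring
    rw [this, Real.cos_pi_div_two, abs_zero, mul_zero]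
    exact h3
  · have : Real.pi / 6 + ((2 : ℤ) : ℝ) * (Real.pi / 3) = Real.pi - Real.pi / 6 := by push_cast; ring
    rw [this, Real.cos_pi_sub, abs_neg, Real.cos_pi_div_six, abs_of_nonneg (by positivity)]
    linarith

section net

variable {T : Type*} [DecidableEq T] {A : Finset T} {s : T → Bool} {be : Port T → Port T}
  {ch : Port T → ℝ}

/-- phases of the cut ends and of the glued ports modulo `π / 3`; `x₀` = the leg -/
structure Mod4 (A : Finset T) (be : Port T → Port T) (ch : Port T → ℝ) (x₀ : Port T) : Prop where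
  mem : ∀ p ∈ ports A, be p ∈ ports A
  inv : ∀ p ∈ ports A, be (be p) = p
  dir : ∀ p ∈ ports A, be p ≠ p → pd (be p) = pd p + 2
  glue : ∀ p ∈ ports A, be p ≠ p → ∃ n : ℤ, ch (be p) - ch p = Real.pi / 12 * (4 * n : ℤ)
  free : ∀ p ∈ ports A, be p = p → p ≠ x₀ → ∃ a : ℤ, ch p = Real.pi / 12 * a ∧ (a : ZMod 4) = pd p

lemma Mod4.ok {x₀ : Port T} (h : Mod4 A be ch x₀) : (tnet A s be ch).Ok := tnet_ok h.mem h.inv

/-- **every arc without the leg has `‖z‖ ≤ √3`** -/
theorem arc_mod {x₀ : Port T} (h : Mod4 A be ch x₀) {c : Finset (Port T)}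
    (hc : c ∈ (tnet A s be ch).classes (ports A)) (hl : x₀ ∉ c)
    (he : ((tnet A s be ch).ends c).Nonempty) : ‖(tnet A s be ch).zn c‖ ≤ 1 := by
  set N := tnet A s be ch with hN
  have hok : N.Ok := h.ok
  obtain ⟨p, hp, rfl⟩ := Finset.mem_image.1 hc
  obtain ⟨x, hx⟩ := he
  obtain ⟨hx1, hx2⟩ := Finset.mem_filter.1 hx
  have hxV : x ∈ N.V := (Net.mem_cls.1 hx1).1
  have hpV : p ∈ N.V := hp
  have ecl : N.cls x = N.cls p := Net.cls_eq_of_mem hok hpV hx1
  rw [← ecl] at hl ⊢
  -- the walk from `x`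
  have hex := Net.exists_fail hok hxV hx2
  classical
  have hs : N.Strand x (Nat.find hex) :=
    ⟨fun j hj => Nat.find_min hex hj, Or.inl ⟨hx2, Nat.find_spec hex⟩⟩
  have hw := Net.Wa.of_it (N := N) (x := x) (Nat.find hex) hs.1
  have hy2 : N.be (N.al (N.g^[Nat.find hex] x)) = N.al (N.g^[Nat.find hex] x) := Nat.find_spec hex
  obtain ⟨-, -, hz⟩ := Net.z_arc hok hxV hw hx2 hy2
  obtain ⟨hyV, m, hm1, hm2⟩ := wl_mod (s := s) h.mem h.dir h.glue hxV hw
  -- the ends are not the leg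
  have hxl : x ≠ x₀ := fun e => hl (by rw [← e]; exact Net.self_mem_cls hxV)
  have hyc : N.al (N.g^[Nat.find hex] x) ∈ N.cls x := by
    have : N.al (N.g^[Nat.find hex] x) ∈ N.ends (N.cls x) := by
      rw [hs.ends_arc hok hxV hx2]
      simp
    exact (Finset.mem_filter.1 this).1
  have hyl : N.al (N.g^[Nat.find hex] x) ≠ x₀ := fun e => hl (by rw [← e]; exact hyc)
  obtain ⟨a, ha1, ha2⟩ := h.free x hxV hx2 hxl
  obtain ⟨b, hb1, hb2⟩ := h.free _ hyV hy2 hyl
  have hwl : N.wl ((List.range (Nat.find hex + 1)).map fun i => N.g^[i] x) =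
      Real.pi / 12 * ((b - a + m : ℤ) : ℝ) := by
    rw [hm1, ha1, hb1]
    push_cast
    ring
  have hcos := cos_arc (b - a + m) (by push_cast; rw [ha2, hb2, hm2]; ring)
  have hne : (N.ends (N.cls x)).Nonempty := ⟨x, Finset.mem_filter.2 ⟨Net.self_mem_cls hxV, hx2⟩⟩
  unfold Net.zn
  rw [if_pos hne, hz, hwl, norm_div]
  have e1 : ‖(2 : ℂ) * ((Real.cos (Real.pi / 12 * ((b - a + m : ℤ) : ℝ)) : ℝ) : ℂ)‖ =
      |2 * Real.cos (Real.pi / 12 * ((b - a + m : ℤ) : ℝ))| := by
    rw [norm_mul, Complex.norm_real, Real.norm_eq_abs, abs_mul, abs_two]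
    norm_num
  have e2 : ‖((Real.sqrt 3 : ℝ) : ℂ)‖ = Real.sqrt 3 := by
    rw [Complex.norm_real, Real.norm_eq_abs, abs_of_nonneg (Real.sqrt_nonneg _)]
  rw [e1, e2]
  exact div_le_one_of_le₀ hcos (Real.sqrt_nonneg _)

/-- **arcs `≤ 1`, loops `≤ 2`** -/
theorem zn_le {x₀ : Port T} (h : Mod4 A be ch x₀) {c : Finset (Port T)}
    (hc : c ∈ (tnet A s be ch).classes (ports A)) (hl : x₀ ∉ c) :
    ‖(tnet A s be ch).zn c‖ ≤ if ((tnet A s be ch).ends c).Nonempty then 1 else 2 := by
  split_ifs with he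
  · exact arc_mod h hc hl he
  · obtain ⟨p, hp, rfl⟩ := Finset.mem_image.1 hc
    unfold Net.zn
    rw [if_neg he]
    exact Net.norm_cls_le h.ok hp

/-- **the product over the classes** : `Bad` contains all loops with `‖z‖ > 1` -/
theorem norm_prod_zn {x₀ : Port T} (h : Mod4 A be ch x₀) {S : Finset (Finset (Port T))}
    (hS : ∀ c ∈ S, c ∈ (tnet A s be ch).classes (ports A) ∧ x₀ ∉ c)
    {Bad : Finset (Finset (Port T))}
    (hB : ∀ c ∈ S, c ∉ Bad → ¬ ((tnet A s be ch).ends c).Nonempty → ‖(tnet A s be ch).z c‖ ≤ 1) :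
    ‖∏ c ∈ S, (tnet A s be ch).zn c‖ ≤ 2 ^ (S ∩ Bad).card := by
  rw [norm_prod]
  have h1 : ∀ c ∈ S, ‖(tnet A s be ch).zn c‖ ≤ if c ∈ Bad then (2 : ℝ) else 1 := by
    intro c hc
    obtain ⟨h2, h3⟩ := hS c hc
    have h4 := zn_le h h2 h3
    by_cases hb : c ∈ Bad
    · rw [if_pos hb]
      split_ifs at h4 <;> linarith
    · rw [if_neg hb]
      by_cases he : ((tnet A s be ch).ends c).Nonempty
      · rwa [if_pos he] at h4
      · have := hB c hc hb he
        unfold Net.zn
        rw [if_neg he]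
        exact this
  refine (Finset.prod_le_prod (fun c _ => norm_nonneg _) h1).trans ?_
  rw [Finset.prod_ite, Finset.prod_const, Finset.prod_const_one, mul_one, Finset.filter_mem_eq_inter]

end net

/-! ### the lifted direction modulo `4` -/

open Crest.Agent.R158.Pt266 (NxT RFree NN CC sh)
open Crest.Agent.R158.Psi664 (BW psi bp psi_eq)
open Crest.Agent.R158.Xr249 (rot rot_some Reg)

lemma nxT_cast {G : Port (ℤ × ℤ) → Port (ℤ × ℤ) → Prop}
    (hG : ∀ p q, G p q → p ≠ none ∧ q ≠ none ∧ pd q = pd p + 2) {p r : Port (ℤ × ℤ)} {k : ℤ}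
    (h : NxT G p r k) (hp : p ≠ none) : r ≠ none ∧ pd r = pd p + k := by
  induction h with
  | @stop p hs =>
    rcases p with - | ⟨t, d⟩
    · exact absurd rfl hp
    · rw [rot_some]
      refine ⟨by simp, ?_⟩
      simp [pd]
  | @go p q r k hg _ ih =>
    rcases p with - | ⟨t, d⟩
    · exact absurd rfl hp
    · rw [rot_some] at hg
      obtain ⟨-, h2, h3⟩ := hG _ _ hg
      obtain ⟨h4, h5⟩ := ih h2
      refine ⟨h4, ?_⟩
      rw [h5, h3]
      simp only [pd_some]
      push_cast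
      have h6 : (2 : ZMod 4) = -2 := by decide
      linear_combination h6

lemma gl_dir {R : Reg} {p q : Port (ℤ × ℤ)} (h : R.gl p q) : p ≠ none ∧ q ≠ none ∧
    pd q = pd p + 2 := by
  have h1 := Crest.Agent.R158.Pt266.ladj_gl h
  rcases p with - | ⟨t, d⟩
  · exact h1.elim
  · rcases h1 with ⟨rfl, rfl⟩ | ⟨rfl, rfl⟩ | ⟨rfl, rfl⟩ | ⟨rfl, rfl⟩ <;>
      exact ⟨by simp, by simp, by simp only [pd_some]; decide⟩

lemma chain_cast {G : Port (ℤ × ℤ) → Port (ℤ × ℤ) → Prop}
    (hG : ∀ p q, G p q → p ≠ none ∧ q ≠ none ∧ pd q = pd p + 2) :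
    ∀ (l : List (Port (ℤ × ℤ) × ℤ)) (a : Port (ℤ × ℤ) × ℤ), List.IsChain (NN G) (a :: l) →
      a.1 ≠ none → (a.2 : ZMod 4) = pd a.1 → ∀ b ∈ a :: l, (b.2 : ZMod 4) = pd b.1
  | [], a, _, _, h, b, hb => by
    rw [List.mem_singleton] at hb
    rw [hb]; exact h
  | c :: l, a, hc, ha, h, b, hb => by
    rw [List.isChain_cons_cons] at hc
    rcases List.mem_cons.1 hb with rfl | hb
    · exact h
    · obtain ⟨h1, h2⟩ := nxT_cast hG hc.1 ha
      refine chain_cast hG l c hc.2 h1 ?_ b hb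
      rw [h2, ← h]
      push_cast
      ring

/-- **the lifted direction is the side modulo `4`** -/
theorem psi_cast {R : Reg} {a t : ℤ} {w : Crest.Agent.R158.Sw300.Wd (ℤ × ℤ)}
    {l : List (Port (ℤ × ℤ))} (h : BW R a t w l) {x : (ℤ × ℤ) × ZMod 4} (hx : RFree R x) :
    ((psi R a t x : ℤ) : ZMod 4) = x.2 := by
  rw [psi_eq h hx]
  have hx' := (h.mem x).2 hx
  have hcc : List.IsChain (NN R.gl) ((some (bp a t), (0 : ℤ)) ::
      (l.map (fun x => (x, Crest.Agent.R158.Sw300.phi w x)) ++ [(some (bp a t), (4 : ℤ))])) := by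
    have : List.IsChain (NN R.gl) ((some (bp a t), Crest.Agent.R158.Sw300.phi w (some (bp a t))) ::
      (l.map (fun x => (x, Crest.Agent.R158.Sw300.phi w x)) ++
        [sh 4 (some (bp a t), Crest.Agent.R158.Sw300.phi w (some (bp a t)))])) := h.cc
    simpa [sh, h.base] using this
  have key := chain_cast (fun p q h => gl_dir h) _ _ hcc (by simp) (by simp [pd])
  have hm : (some x, Crest.Agent.R158.Sw300.phi w (some x)) ∈ (some (bp a t), (0 : ℤ)) ::
      (l.map (fun x => (x, Crest.Agent.R158.Sw300.phi w x)) ++ [(some (bp a t), (4 : ℤ))]) := by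
    rcases List.mem_cons.1 hx' with e | e
    · rw [e, h.base]
      exact List.mem_cons_self
    · refine List.mem_cons_of_mem _ (List.mem_append_left _ ?_)
      exact List.mem_map.2 ⟨some x, e, rfl⟩
  exact key _ hm

/-! ### the network `G^(z)` -/

open Crest.Agent.R158.Env664 (TG Band PortOf portOf_some portOf_none nbP res res_of z4 nbP_W
  nbP_N nbP_E nbP_S)
open Crest.Agent.R158.Ao857 (beL chL legP chG seamG beL_ne chL_ne beL_ports beL_invol tpm inlE)
open Crest.Agent.R158.Fm857 (freeG freeD mem_freeG mem_flr mem_cil ps psD phi cp ctw mouth)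
open Crest.Agent.R158.Bd932 (e3)

variable {A : Finset (ℤ × ℤ)} {B : Band A}

lemma pd_aux : ((2 : ZMod 4) = 0 + 2) ∧ ((3 : ZMod 4) = 1 + 2) ∧ ((0 : ZMod 4) = 2 + 2) ∧
    ((1 : ZMod 4) = 3 + 2) := by decide

lemma nbG_dir {p y0 : ℤ} {q : Port TG} (hq : q ≠ none) (hl : q ≠ legP p y0) :
    pd (B.nbG p y0 q) = pd q + 2 := by
  obtain ⟨a0, a1, a2, a3⟩ := pd_aux
  rcases q with _ | ⟨⟨x, y⟩ | ⟨i, y⟩, d⟩
  · exact absurd rfl hq
  · rcases z4 d with rfl | rfl | rfl | rfl
    · simp only [Band.nbG]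
      rw [if_pos trivial]
      split_ifs <;> exact a0
    · simp only [Band.nbG]
      rw [if_neg (by decide), if_pos trivial]
      split_ifs <;> exact a1
    · simp only [Band.nbG]
      rw [if_neg (by decide), if_neg (by decide), if_pos trivial]
      split_ifs <;> exact a2
    · have hne : ¬ (y = y0 ∧ x = p) := by
        rintro ⟨rfl, rfl⟩
        exact hl rfl
      simp only [Band.nbG]
      rw [if_neg (by decide), if_neg (by decide), if_neg (by decide), if_neg hne]
      split_ifs <;> exact a3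
  · rcases z4 d with rfl | rfl | rfl | rfl
    · simp only [Band.nbG]
      rw [if_pos trivial]
      split_ifs <;> exact a0
    · simp only [Band.nbG]
      rw [if_neg (by decide), if_pos trivial]
      split_ifs <;> exact a1
    · simp only [Band.nbG]
      rw [if_neg (by decide), if_neg (by decide), if_pos trivial]
      split_ifs <;> exact a2
    · simp only [Band.nbG]
      rw [if_neg (by decide), if_neg (by decide), if_neg (by decide)]
      split_ifs <;> exact a3

lemma beG_or (p y0 : ℤ) (q : Port TG) : B.beG p y0 q = q ∨ B.beG p y0 q = B.nbG p y0 q := by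
  unfold Band.beG res
  split_ifs
  · exact Or.inr rfl
  · exact Or.inl rfl

/-- the seams are multiples of `π / 3` -/
lemma seamG_mul {p y0 n n' : ℤ} (q : Port TG) : ∃ k : ℤ,
    seamG B p y0 (e3 * n) (e3 * n') q = e3 * k := by
  rcases q with _ | ⟨⟨x, y⟩ | ⟨i, y⟩, d⟩
  · exact ⟨0, by simp [seamG]⟩
  · simp only [seamG]
    split_ifs
    · exact ⟨n, rfl⟩
    · exact ⟨n', rfl⟩
    · exact ⟨-1, by push_cast; ring⟩
    · exact ⟨0, by simp⟩
  · exact ⟨0, by simp [seamG]⟩

/-- **the phases of the family modulo `π / 3`** -/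
theorem mod4_netN (hW : ∃ w l, BW (Xr249.full A) B.xl B.y1 w l) {p y0 : ℤ} (h : B.At p y0)
    (n n' b : ℤ) (m1 m2 : Port TG) (e : Option (Port TG)) :
    Mod4 (B.tG y0) (beL B p y0)
      (fun q => -Ao857.chL B p y0 (e3 * n) (e3 * n') (phi B b m1 m2 e) q) (legP p y0) := by
  have hnn : ∀ q ∈ ports (B.tG y0), q ≠ none := fun q hq e => none_ports (e ▸ hq)
  refine ⟨fun q hq => beL_ports B h hq, fun q hq => beL_invol B h (hnn q hq), ?_, ?_, ?_⟩
  · intro q hq hne
    have hl : q ≠ legP p y0 := fun e => hne (by rw [e, Ao857.beL_leg])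
    rw [beL_ne B hl] at hne ⊢
    rcases beG_or (B := B) p y0 q with h1 | h1
    · exact absurd h1 hne
    · rw [h1]
      exact nbG_dir (hnn q hq) hl
  · intro q hq hne
    have hl : q ≠ legP p y0 := fun e => hne (by rw [e, Ao857.beL_leg])
    have hbq : beL B p y0 q ∈ ports (B.tG y0) := beL_ports B h hq
    have hl' : beL B p y0 q ≠ legP p y0 := by
      intro e
      have h1 := beL_invol B h (hnn q hq)
      rw [e, Ao857.beL_leg] at h1
      exact hl h1.symm
    have h2 : B.beG p y0 (beL B p y0 q) ≠ beL B p y0 q := by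
      rw [← beL_ne B hl', beL_invol B h (hnn q hq)]
      exact fun e => hne e.symm
    have h3 : B.beG p y0 q ≠ q := by rw [← beL_ne B hl]; exact hne
    rw [chL_ne B hl, chL_ne B hl', chG, chG, if_neg h2, if_neg h3]
    obtain ⟨k, hk⟩ := seamG_mul (B := B) (p := p) (y0 := y0) (n := n) (n' := n') q
    obtain ⟨k', hk'⟩ := seamG_mul (B := B) (p := p) (y0 := y0) (n := n) (n' := n') (beL B p y0 q)
    rw [hk, hk']
    refine ⟨k - k', ?_⟩
    unfold e3
    push_cast
    ring
  · intro q hq hbe hl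
    rw [beL_ne B hl] at hbe
    have hf : q ∈ freeG B := (mem_freeG B h).2 ⟨hq, hbe⟩
    have hps : ((ps B b q : ℤ) : ZMod 4) = pd q := by
      unfold freeG at hf
      rw [Finset.mem_union, Finset.mem_union, mem_flr, mem_cil, Finset.mem_image] at hf
      rcases hf with ⟨a, ha, rfl⟩ | ⟨i, -, -, rfl⟩ | ⟨i, -, -, rfl⟩
      · unfold freeD at ha
        rw [Finset.mem_filter] at ha
        obtain ⟨t, d, rfl, ht⟩ := mem_ports' ha.1
        obtain ⟨w, l, hw⟩ := hW
        have hr : RFree (Xr249.full A) (t, d) := by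
          refine ⟨ht, fun c hc => ?_⟩
          have h1 := ha.2.1
          have h2 : (Xr249.full A).gl (some (t, d)) (some c) := hc
          obtain ⟨x, y⟩ := t
          apply h1
          rcases h2 with ⟨h3, h4, h5⟩ | ⟨h3, h4, h5⟩ | ⟨h3, h4, h5⟩ | ⟨h3, h4, h5⟩
          · subst h3
            rw [nbP_W, portOf_some]
            exact h4.1
          · subst h3
            rw [nbP_N, portOf_some]
            exact h4.2
          · subst h3
            rw [nbP_E, portOf_some]
            exact h4.2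
          · subst h3
            rw [nbP_S, portOf_some]
            exact h4.1
        exact psi_cast hw hr
      · have e1 : ps B b (some (Sum.inr (i, B.y1), 3)) = 3 := by
          simp only [ps]
          rw [if_pos trivial]
        rw [e1]; rfl
      · have e1 : ps B b (some (Sum.inr (i, B.y2 - 1), 1)) = if i < b then 1 else 5 := by
          simp only [ps]
          rw [if_neg (by decide)]
        rw [e1, pd_some]
        split_ifs
        · decide
        · decide
    refine ⟨ps B b q - 4 * cp B b m1 m2 e q, ?_, ?_⟩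
    · show -Ao857.chL B p y0 (e3 * n) (e3 * n') (phi B b m1 m2 e) q = _
      rw [chL_ne B hl, chG, if_pos hbe]
      unfold phi e3
      push_cast
      ring
    · push_cast
      have h4 : (4 : ZMod 4) = 0 := by decide
      rw [hps, h4]
      ring

/-- the twists of the family -/
lemma ctw_eq (b : ℤ) (m1 m2 : Port TG) (e : Option (Port TG)) : ∃ n : ℤ,
    ctw B b m1 m2 e = e3 * n ∧ ctw B b m1 m2 e + e3 = e3 * (n + 1 : ℤ) :=
  ⟨Fm857.clow B b m1 m2 e, rfl, by unfold ctw; push_cast; ring⟩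

section final

variable {p y0 b : ℤ} {m1 m2 : Port TG} {e : Option (Port TG)} {s : TG → Bool}

/-- **the network of the member `e` of the family** -/
abbrev netE (B : Band A) (p y0 b : ℤ) (m1 m2 : Port TG) (e : Option (Port TG)) (s : TG → Bool) :
    Net (Port TG) :=
  netN B p y0 (ctw B b m1 m2 e) (ctw B b m1 m2 e + e3) (phi B b m1 m2 e) s

theorem mod4_netE (hW : ∃ w l, BW (Xr249.full A) B.xl B.y1 w l) (h : B.At p y0) (b : ℤ)
    (m1 m2 : Port TG) (e : Option (Port TG)) : Mod4 (B.tG y0) (beL B p y0)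
      (fun q => -Ao857.chL B p y0 (ctw B b m1 m2 e) (ctw B b m1 m2 e + e3) (phi B b m1 m2 e) q)
      (legP p y0) := by
  obtain ⟨n, h1, h2⟩ := ctw_eq (B := B) b m1 m2 e
  rw [h2, h1]
  exact mod4_netN hW h n (n + 1) b m1 m2 e

/-- **every arc of `G^(z)` without the leg, planar or not** -/
theorem netE_arc (hW : ∃ w l, BW (Xr249.full A) B.xl B.y1 w l) (h : B.At p y0)
    {c : Finset (Port TG)} (hc : c ∈ (netE B p y0 b m1 m2 e s).classes (ports (B.tG y0)))
    (hl : legP p y0 ∉ c) (he : ((netE B p y0 b m1 m2 e s).ends c).Nonempty) :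
    ‖(netE B p y0 b m1 m2 e s).zn c‖ ≤ 1 :=
  arc_mod (mod4_netE hW h b m1 m2 e) hc hl he

/-- **pointwise bound of the normalised amplitude** : `Bad` contains all loops with `‖z‖ > 1` -/
theorem netE_zv (hW : ∃ w l, BW (Xr249.full A) B.xl B.y1 w l) (h : B.At p y0)
    {Bad : Finset (Finset (Port TG))}
    (hB : ∀ c ∈ (netE B p y0 b m1 m2 e s).classes (ports (B.tG y0)), legP p y0 ∉ c → c ∉ Bad →
      ¬ ((netE B p y0 b m1 m2 e s).ends c).Nonempty → ‖(netE B p y0 b m1 m2 e s).z c‖ ≤ 1) :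
    ‖(netE B p y0 b m1 m2 e s).zv (ports (B.tG y0)) (legP p y0) false‖ ≤
      Real.sqrt 3 ^ (((netE B p y0 b m1 m2 e s).ends (ports (B.tG y0))).card / 2 - 1) *
        2 ^ ((((netE B p y0 b m1 m2 e s).classes (ports (B.tG y0))).erase
          ((netE B p y0 b m1 m2 e s).cls (legP p y0))) ∩ Bad).card := by
  classical
  set N := netE B p y0 b m1 m2 e s with hN
  have hok : N.Ok := netN_ok h _ _ _ _
  have hx : legP p y0 ∈ N.V := legP_mem h
  have hbx : N.be (legP p y0) = legP p y0 := Ao857.beL_leg B p y0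
  have hex := Net.exists_fail hok hx hbx
  have hs : N.Strand (legP p y0) (Nat.find hex) :=
    ⟨fun j hj => Nat.find_min hex hj, Or.inl ⟨hbx, Nat.find_spec hex⟩⟩
  have hw := Net.Wa.of_it (N := N) (x := legP p y0) (Nat.find hex) hs.1
  have hzv := Net.zv_norm hok hx hw hbx (Nat.find_spec hex)
  have hV : N.V = ports (B.tG y0) := rfl
  rw [hV] at hzv
  rw [hzv, norm_mul, norm_pow, norm_mul]
  have e2 : ‖((Real.sqrt 3 : ℝ) : ℂ)‖ = Real.sqrt 3 := by
    rw [Complex.norm_real, Real.norm_eq_abs, abs_of_nonneg (Real.sqrt_nonneg _)]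
  have e3' : ‖ei (N.wl ((List.range (Nat.find hex + 1)).map fun i => N.g^[i] (legP p y0)))‖ = 1 :=
    Complex.norm_exp_ofReal_mul_I _
  rw [e2, e3', one_mul]
  refine mul_le_mul_of_nonneg_left ?_ (by positivity)
  refine norm_prod_zn (mod4_netE hW h b m1 m2 e) ?_ ?_
  · intro c hc
    have hc' := Finset.mem_of_mem_erase hc
    refine ⟨hc', fun hl => ?_⟩
    obtain ⟨q, hq, rfl⟩ := Finset.mem_image.1 hc'
    exact (Finset.mem_erase.1 hc).1 (Net.cls_eq_of_mem hok hq hl).symm
  · intro c hc hb he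
    have hc' := Finset.mem_of_mem_erase hc
    refine hB c hc' (fun hl => ?_) hb he
    obtain ⟨q, hq, rfl⟩ := Finset.mem_image.1 hc'
    exact (Finset.mem_erase.1 hc).1 (Net.cls_eq_of_mem hok hq hl).symm

end final

end Crest.Agent.R158.Ab664
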