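import Crest.Agent.R158.Rs7_689

/-!
# Row 158, Block R / SEP (helper689): generalised FKG inequality (S3)

* `Decr A` : decreasing event; `harris_dec` : Harris for decreasing events
* `gen_fkg` : `P(A⁺ ∩ A⁻) P(E⁺) P(E⁻) ≤ P(A⁺ ∩ A⁻ ∩ E⁺ ∩ E⁻)` if `A⁺` (increasing outside `S`) depends on
  `S ∪ S⁺`, `A⁻` (decreasing outside `S`) on `S ∪ S⁻`, `E⁺` increasing on `S⁺`, `E⁻` decreasing on `S⁻`
* `gen_fkg'` : the same with "`A⁺` does not depend on `S⁻`, `A⁻` does not depend on `S⁺`"
* `gen_fkg_prod` : finitely many forced events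
-/

set_option autoImplicit false

noncomputable section

namespace Crest.Agent.R158.Rs689

open MeasureTheory ProbabilityTheory unitInterval
open scoped ENNReal

variable {ι : Type*}

/-- decreasing event -/
def Decr (A : Set (ι → Bool)) : Prop :=
  ∀ z z' : ι → Bool, (∀ e, z' e = true → z e = true) → z ∈ A → z' ∈ A

theorem Decr.compl {A : Set (ι → Bool)} (hA : Decr A) : Inc Aᶜ :=
  fun z z' h hz hz' => hz (hA z' z h hz')

theorem Inc.compl {A : Set (ι → Bool)} (hA : Inc A) : Decr Aᶜ :=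
  fun z z' h hz hz' => hz (hA z' z h hz')

theorem decr_iff {A : Set (ι → Bool)} : Decr A ↔ Inc Aᶜ :=
  ⟨Decr.compl, fun h => by simpa using h.compl⟩

theorem Decr.inter {A B : Set (ι → Bool)} (hA : Decr A) (hB : Decr B) : Decr (A ∩ B) :=
  fun z z' h hz => ⟨hA z z' h hz.1, hB z z' h hz.2⟩

theorem Decr.union {A B : Set (ι → Bool)} (hA : Decr A) (hB : Decr B) : Decr (A ∪ B) :=
  fun z z' h hz => hz.imp (hA z z' h) (hB z z' h)

theorem Decr.iInter {κ : Sort*} {A : κ → Set (ι → Bool)} (hA : ∀ k, Decr (A k)) :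
    Decr (⋂ k, A k) := fun z z' h hz => by
  simp only [Set.mem_iInter] at hz ⊢
  exact fun k => hA k z z' h (hz k)

theorem Inc.univ : Inc (Set.univ : Set (ι → Bool)) := fun _ _ _ _ => trivial

theorem Decr.univ : Decr (Set.univ : Set (ι → Bool)) := fun _ _ _ _ => trivial

theorem PB_compl (w : ι → I) {S : Finset ι} {A : Set (ι → Bool)} (hA : Dep S A) :
    (PB w).real Aᶜ = 1 - (PB w).real A := by
  rw [measureReal_compl hA.measurableSet]; simp

/-- Harris' inequality for decreasing events -/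
theorem harris_dec (w : ι → I) {S T : Finset ι} {A B : Set (ι → Bool)} (hA : Dep S A)
    (hB : Dep T B) (iA : Decr A) (iB : Decr B) :
    (PB w).real A * (PB w).real B ≤ (PB w).real (A ∩ B) := by
  classical
  have h := harris w hA.compl hB.compl iA.compl iB.compl
  have hAB : Dep (S ∪ T) (A ∪ B) := (hA.mono Finset.subset_union_left).union
    (hB.mono Finset.subset_union_right)
  rw [← Set.compl_union, PB_compl w hA, PB_compl w hB, PB_compl w hAB] at h
  have h2 : (PB w).real (A ∪ B) + (PB w).real (A ∩ B) = (PB w).real A + (PB w).real B :=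
    measureReal_union_add_inter hB.measurableSet
  nlinarith

/-- Harris' inequality, opposite monotonicities -/
theorem harris_opp (w : ι → I) {S T : Finset ι} {A B : Set (ι → Bool)} (hA : Dep S A)
    (hB : Dep T B) (iA : Inc A) (iB : Decr B) :
    (PB w).real (A ∩ B) ≤ (PB w).real A * (PB w).real B := by
  have h := harris w hA hB.compl iA iB.compl
  have h2 : (PB w).real (A ∩ B) + (PB w).real (A ∩ Bᶜ) = (PB w).real A := by
    have := measureReal_inter_add_sdiff (μ := PB w) (s := A) (t := B) hB.measurableSet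
    exact this
  rw [PB_compl w hB] at h
  nlinarith

theorem DecOff.sct {S : Finset ι} {A : Set (ι → Bool)} (hA : DecOff S A) (y : S → Bool) :
    Decr (sct S y A) := by
  rw [decr_iff]
  exact IncOff.sct hA y

theorem Decr.decOff {A : Set (ι → Bool)} (hA : Decr A) (S : Finset ι) : DecOff S A :=
  hA.compl.incOff S

theorem Dep.decOff {S : Finset ι} {A : Set (ι → Bool)} (hA : Dep S A) : DecOff S A :=
  hA.compl.incOff

theorem DecOff.inter {S : Finset ι} {A B : Set (ι → Bool)} (hA : DecOff S A) (hB : DecOff S B) :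
    DecOff S (A ∩ B) := by
  unfold DecOff
  rw [Set.compl_inter]
  exact IncOff.union hA hB

/-- **Generalised FKG inequality** -/
theorem gen_fkg (w : ι → I) {S Sp Sm Tp Tm : Finset ι} {Ap Am Ep Em : Set (ι → Bool)}
    (hAp : Dep Tp Ap) (hAm : Dep Tm Am) (hEp : Dep Sp Ep) (hEm : Dep Sm Em)
    (hTp : ∀ e ∈ Tp, e ∉ S → e ∈ Sp) (hTm : ∀ e ∈ Tm, e ∉ S → e ∈ Sm)
    (d1 : Disjoint S Sp) (d2 : Disjoint S Sm) (d3 : Disjoint Sp Sm)
    (iAp : IncOff S Ap) (iAm : DecOff S Am) (iEp : Inc Ep) (iEm : Decr Em) :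
    (PB w).real (Ap ∩ Am) * ((PB w).real Ep * (PB w).real Em) ≤
      (PB w).real ((Ap ∩ Am) ∩ (Ep ∩ Em)) := by
  classical
  have hA : Dep (Tp ∪ Tm) (Ap ∩ Am) := (hAp.mono Finset.subset_union_left).inter
    (hAm.mono Finset.subset_union_right)
  have hE : Dep (Sp ∪ Sm) (Ep ∩ Em) := (hEp.mono Finset.subset_union_left).inter
    (hEm.mono Finset.subset_union_right)
  have hAE : Dep ((Tp ∪ Tm) ∪ (Sp ∪ Sm)) ((Ap ∩ Am) ∩ (Ep ∩ Em)) :=
    (hA.mono Finset.subset_union_left).inter (hE.mono Finset.subset_union_right)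
  rw [sum_cyl w S hA.measurableSet, sum_cyl w S hAE.measurableSet, Finset.sum_mul]
  refine Finset.sum_le_sum fun y _ => ?_
  rw [← cyl_inter_sct, ← cyl_inter_sct]
  -- the sections
  have e1 : Dep Sp (sct S y Ap) := (hAp.sct y).mono fun e he => by
    rw [Finset.mem_sdiff] at he
    exact hTp e he.1 he.2
  have e2 : Dep Sm (sct S y Am) := (hAm.sct y).mono fun e he => by
    rw [Finset.mem_sdiff] at he
    exact hTm e he.1 he.2
  have hU : Disjoint S (Sp ∪ Sm) := Finset.disjoint_union_right.2 ⟨d1, d2⟩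
  have e3 : sct S y ((Ap ∩ Am) ∩ (Ep ∩ Em)) =
      (sct S y Ap ∩ Ep) ∩ (sct S y Am ∩ Em) := by
    rw [sct_inter, sct_inter, sct_inter, sct_of_dep d1 hEp, sct_of_dep d2 hEm]
    exact Set.inter_inter_inter_comm _ _ _ _
  rw [e3, sct_inter]
  have f1 : Dep Sp (sct S y Ap ∩ Ep) := e1.inter hEp
  have f2 : Dep Sm (sct S y Am ∩ Em) := e2.inter hEm
  rw [PB_indep_real w hU (cyl_dep S y) ((e1.mono Finset.subset_union_left).inter
      (e2.mono Finset.subset_union_right)),
    PB_indep_real w hU (cyl_dep S y) ((f1.mono Finset.subset_union_left).inter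
      (f2.mono Finset.subset_union_right)),
    PB_indep_real w d3 e1 e2, PB_indep_real w d3 f1 f2, mul_assoc]
  refine mul_le_mul_of_nonneg_left ?_ measureReal_nonneg
  have g1 : (PB w).real (sct S y Ap) * (PB w).real Ep ≤ (PB w).real (sct S y Ap ∩ Ep) :=
    harris w e1 hEp (IncOff.sct iAp y) iEp
  have g2 : (PB w).real (sct S y Am) * (PB w).real Em ≤ (PB w).real (sct S y Am ∩ Em) :=
    harris_dec w e2 hEm (DecOff.sct iAm y) iEm
  calc (PB w).real (sct S y Ap) * (PB w).real (sct S y Am) * ((PB w).real Ep * (PB w).real Em)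
      = ((PB w).real (sct S y Ap) * (PB w).real Ep) *
          ((PB w).real (sct S y Am) * (PB w).real Em) := by ring
    _ ≤ _ := mul_le_mul g1 g2 (mul_nonneg measureReal_nonneg measureReal_nonneg)
        measureReal_nonneg

/-- **Generalised FKG inequality**, version "`A⁺` does not depend on `S⁻` and `A⁻` not on `S⁺`". -/
theorem gen_fkg' (w : ι → I) {Sp Sm Tp Tm : Finset ι} {Ap Am Ep Em : Set (ι → Bool)}
    (hAp : Dep Tp Ap) (hAm : Dep Tm Am) (hEp : Dep Sp Ep) (hEm : Dep Sm Em)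
    (d1 : Disjoint Tp Sm) (d2 : Disjoint Tm Sp) (d3 : Disjoint Sp Sm)
    (iAp : Inc Ap) (iAm : Decr Am) (iEp : Inc Ep) (iEm : Decr Em) :
    (PB w).real (Ap ∩ Am) * ((PB w).real Ep * (PB w).real Em) ≤
      (PB w).real ((Ap ∩ Am) ∩ (Ep ∩ Em)) := by
  classical
  refine gen_fkg w (S := (Tp ∪ Tm) \ (Sp ∪ Sm)) hAp hAm hEp hEm ?_ ?_ ?_ ?_ d3
    (iAp.incOff _) (iAm.decOff _) iEp iEm
  · intro e he hS
    simp only [Finset.mem_sdiff, Finset.mem_union, not_and, not_not] at hS
    rcases hS (Or.inl he) with h | h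
    · exact h
    · exact absurd h (Finset.disjoint_left.1 d1 he)
  · intro e he hS
    simp only [Finset.mem_sdiff, Finset.mem_union, not_and, not_not] at hS
    rcases hS (Or.inr he) with h | h
    · exact absurd h (Finset.disjoint_left.1 d2 he)
    · exact h
  · refine Finset.disjoint_left.2 fun e he he' => ?_
    simp only [Finset.mem_sdiff, Finset.mem_union] at he
    exact he.2 (Or.inl he')
  · refine Finset.disjoint_left.2 fun e he he' => ?_
    simp only [Finset.mem_sdiff, Finset.mem_union] at he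
    exact he.2 (Or.inr he')

/-- Harris' inequality for a finite family, decreasing events, common support -/
theorem harris_dec_prod {κ : Type*} (w : ι → I) (s : Finset κ) {S : Finset ι}
    {A : κ → Set (ι → Bool)} (hA : ∀ k ∈ s, Dep S (A k)) (iA : ∀ k ∈ s, Decr (A k)) :
    ∏ k ∈ s, (PB w).real (A k) ≤ (PB w).real (⋂ k ∈ s, A k) := by
  classical
  induction s using Finset.induction_on with
  | empty => simp
  | insert a s ha ih =>
    rw [Finset.set_biInter_insert, Finset.prod_insert ha]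
    have h1 := ih (fun k hk => hA k (Finset.mem_insert_of_mem hk))
      (fun k hk => iA k (Finset.mem_insert_of_mem hk))
    refine le_trans (mul_le_mul_of_nonneg_left h1 measureReal_nonneg) ?_
    refine harris_dec w (hA a (Finset.mem_insert_self _ _)) (T := S) ?_
      (iA a (Finset.mem_insert_self _ _)) ?_
    · intro z z' h
      simp only [Set.mem_iInter]
      exact forall_congr' fun k => forall_congr' fun hk =>
        hA k (Finset.mem_insert_of_mem hk) z z' h
    · intro z z' h hz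
      simp only [Set.mem_iInter] at hz ⊢
      exact fun k hk => iA k (Finset.mem_insert_of_mem hk) z z' h (hz k hk)

/-- generalised FKG with finitely many forced events of each colour -/
theorem gen_fkg_prod {κ κ' : Type*} (w : ι → I) {Sp Sm Tp Tm : Finset ι}
    {Ap Am : Set (ι → Bool)} (s : Finset κ) (s' : Finset κ') {Ep : κ → Set (ι → Bool)}
    {Em : κ' → Set (ι → Bool)} (hAp : Dep Tp Ap) (hAm : Dep Tm Am)
    (hEp : ∀ k ∈ s, Dep Sp (Ep k)) (hEm : ∀ k ∈ s', Dep Sm (Em k))
    (d1 : Disjoint Tp Sm) (d2 : Disjoint Tm Sp) (d3 : Disjoint Sp Sm)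
    (iAp : Inc Ap) (iAm : Decr Am) (iEp : ∀ k ∈ s, Inc (Ep k)) (iEm : ∀ k ∈ s', Decr (Em k)) :
    (PB w).real (Ap ∩ Am) * ((∏ k ∈ s, (PB w).real (Ep k)) * ∏ k ∈ s', (PB w).real (Em k)) ≤
      (PB w).real ((Ap ∩ Am) ∩ ((⋂ k ∈ s, Ep k) ∩ (⋂ k ∈ s', Em k))) := by
  have h1 := harris_prod w s hEp iEp
  have h2 := harris_dec_prod w s' hEm iEm
  have h3 : Dep Sp (⋂ k ∈ s, Ep k) := by
    intro z z' h
    simp only [Set.mem_iInter]
    exact forall_congr' fun k => forall_congr' fun hk => hEp k hk z z' h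
  have h4 : Dep Sm (⋂ k ∈ s', Em k) := by
    intro z z' h
    simp only [Set.mem_iInter]
    exact forall_congr' fun k => forall_congr' fun hk => hEm k hk z z' h
  have h5 : Inc (⋂ k ∈ s, Ep k) := by
    intro z z' h hz
    simp only [Set.mem_iInter] at hz ⊢
    exact fun k hk => iEp k hk z z' h (hz k hk)
  have h6 : Decr (⋂ k ∈ s', Em k) := by
    intro z z' h hz
    simp only [Set.mem_iInter] at hz ⊢
    exact fun k hk => iEm k hk z z' h (hz k hk)
  refine le_trans ?_ (gen_fkg' w hAp hAm h3 h4 d1 d2 d3 iAp iAm h5 h6)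
  refine mul_le_mul_of_nonneg_left ?_ measureReal_nonneg
  exact mul_le_mul h1 h2 (Finset.prod_nonneg fun _ _ => measureReal_nonneg) measureReal_nonneg

/-! ### dual events -/

open Crest.Agent.R161.Geo729 in
theorem Inc.dual {A : Set Cfz} (hA : Inc A) : Decr (dual ⁻¹' A) := by
  intro z z' h hz
  refine hA _ _ (fun e he => ?_) hz
  rw [dual_eq_true] at he ⊢
  by_contra h1
  rw [Bool.not_eq_false] at h1
  rw [h _ h1] at he
  exact absurd he (by simp)

open Crest.Agent.R161.Geo729 in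
/-- generalised FKG, primal forced event `Ep` and dual forced event `dual z ∈ F` -/
theorem gen_fkg_dual (p : I) {Sp Sm Tp Tm : Finset Edge} {Ap Am Ep F : Set Cfz}
    (hAp : Dep Tp Ap) (hAm : Dep Tm Am) (hEp : Dep Sp Ep) (hF : Dep Sm F)
    (d1 : Disjoint Tp (Sm.map dE.symm.toEmbedding)) (d2 : Disjoint Tm Sp)
    (d3 : Disjoint Sp (Sm.map dE.symm.toEmbedding))
    (iAp : Inc Ap) (iAm : Decr Am) (iEp : Inc Ep) (iF : Inc F) :
    (nu p).real (Ap ∩ Am) * ((nu p).real Ep * (nu (σ p)).real F) ≤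
      (nu p).real ((Ap ∩ Am) ∩ (Ep ∩ Rs689.dual ⁻¹' F)) := by
  have h := gen_fkg' (fun _ : Edge => p) hAp hAm hEp hF.dual d1 d2 d3 iAp iAm iEp iF.dual
  rw [← nu_dual p hF.measurableSet]
  exact h

end Crest.Agent.R158.Rs689
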