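import Crest.Agent.R158.Sw0_300
import Crest.Agent.R158.Xr1_249

/-!
# R158, the environments of S0237 (helper664, doc 1925 with option W)

Tiles are points of `ℤ × ℤ`, sides `W = 0, N = 1, E = 2, S = 3` (300's convention), ports
`Port T = Option (T × ZMod 4)`, `none` = leg.

* `Mac`  : macroscopic polyomino, `D F L` : its tiles at scale `L`
* `Run A xl xr y` : maximal horizontal run
* `nbP`, `beP A` : plain glueing of a set of tiles
* `nbD p y0 xr`, `beD A p y0 xr` : glueing of `D^(z)`, `z = (p, y0)` : on the line `y0` of the run the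
  lower column `x` is glued to the upper column `x` (`x < p`) or `x + 1` (`p ≤ x < xr`), the leg is glued
  to the south side of `(p, y0)`, the north side of `(xr, y0 - 1)` is free
* `Band A`, `tG`, `nbG`, `beG` : `G^(z)` = `D^(z)` with a strip glued to the two ends of the run in the
  rows `y1 ≤ y < y2`
* `lowT`, `upT` : the two parts of a set of tiles cut along a crosscut; `reg` : with a slit
* `IsWord w A b` : the word `w` of `Sw300` builds the tiles `A` with the glueing `b`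
* `mark c d` : the middle gap of the side `d` of the macroscopic cell `c`
-/

set_option autoImplicit false

noncomputable section

namespace Crest.Agent.R158.Env664

open Crest.Agent.R158.Sw300 (Port)

/-- cells with a common edge -/
def Adj4 (a b : ℤ × ℤ) : Prop :=
  (a.1 = b.1 ∧ (b.2 = a.2 + 1 ∨ a.2 = b.2 + 1)) ∨ (a.2 = b.2 ∧ (b.1 = a.1 + 1 ∨ a.1 = b.1 + 1))

theorem Adj4.symm {a b : ℤ × ℤ} (h : Adj4 a b) : Adj4 b a := by unfold Adj4 at *; omega

/-- macroscopic polyomino: finite, edge connected, with edge connected complement -/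
structure Mac where
  /-- the cells -/
  F : Finset (ℤ × ℤ)
  ne : F.Nonempty
  conn : ∀ a ∈ F, ∀ b ∈ F, Relation.ReflTransGen (fun u v => Adj4 u v ∧ u ∈ F ∧ v ∈ F) a b
  cconn : ∀ a ∉ F, ∀ b ∉ F, Relation.ReflTransGen (fun u v => Adj4 u v ∧ u ∉ F ∧ v ∉ F) a b

/-- tiles of the macroscopic set `F` at scale `L` -/
def D (F : Finset (ℤ × ℤ)) (L : ℤ) : Finset (ℤ × ℤ) :=
  F.biUnion fun c => Finset.Ico (c.1 * L) (c.1 * L + L) ×ˢ Finset.Ico (c.2 * L) (c.2 * L + L)

theorem div_iff {L : ℤ} (hL : 0 < L) (x c : ℤ) : x / L = c ↔ c * L ≤ x ∧ x < c * L + L := by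
  constructor
  · rintro rfl
    refine ⟨Int.ediv_mul_le x hL.ne', ?_⟩
    have := Int.lt_ediv_add_one_mul_self x hL
    nlinarith
  · rintro ⟨h1, h2⟩
    apply le_antisymm
    · have : x / L < c + 1 := Int.ediv_lt_of_lt_mul hL (by nlinarith)
      omega
    · exact Int.le_ediv_of_mul_le hL h1

theorem mem_D {F : Finset (ℤ × ℤ)} {L : ℤ} (hL : 0 < L) (t : ℤ × ℤ) :
    t ∈ D F L ↔ (t.1 / L, t.2 / L) ∈ F := by
  unfold D
  simp only [Finset.mem_biUnion, Finset.mem_product, Finset.mem_Ico]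
  constructor
  · rintro ⟨c, hc, h1, h2⟩
    rw [(div_iff hL _ _).2 h1, (div_iff hL _ _).2 h2]
    exact hc
  · intro h
    exact ⟨_, h, (div_iff hL _ _).1 rfl, (div_iff hL _ _).1 rfl⟩

/-- `xl..xr` is a maximal horizontal run of `A` at height `y` -/
structure Run (A : Finset (ℤ × ℤ)) (xl xr y : ℤ) : Prop where
  le : xl ≤ xr
  mem : ∀ x, xl ≤ x → x ≤ xr → (x, y) ∈ A
  left : (xl - 1, y) ∉ A
  right : (xr + 1, y) ∉ A

/-- the run is the same in the whole macroscopic row -/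
theorem Run.scale {F : Finset (ℤ × ℤ)} {L : ℤ} (hL : 0 < L) {a b c : ℤ} (h : Run F a b c) {y : ℤ}
    (h1 : c * L ≤ y) (h2 : y < c * L + L) : Run (D F L) (a * L) (b * L + L - 1) y := by
  have hy : y / L = c := (div_iff hL _ _).2 ⟨h1, h2⟩
  have hab := h.le
  refine ⟨by nlinarith, ?_, ?_, ?_⟩
  · intro x hx1 hx2
    rw [mem_D hL]
    show (x / L, y / L) ∈ F
    rw [hy]
    refine h.mem _ (Int.le_ediv_of_mul_le hL hx1) ?_
    have : x / L < b + 1 := Int.ediv_lt_of_lt_mul hL (by nlinarith)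
    omega
  · rw [mem_D hL]
    show ((a * L - 1) / L, y / L) ∉ F
    have h3 : (a * L - 1) / L = a - 1 := (div_iff hL _ _).2 (by constructor <;> nlinarith)
    rw [hy, h3]
    exact h.left
  · rw [mem_D hL]
    show ((b * L + L - 1 + 1) / L, y / L) ∉ F
    have h3 : (b * L + L - 1 + 1) / L = b + 1 := (div_iff hL _ _).2 (by constructor <;> nlinarith)
    rw [hy, h3]
    exact h.right

/-- every cell lies in a maximal run -/
theorem exists_run (F : Finset (ℤ × ℤ)) {c : ℤ × ℤ} (hc : c ∈ F) :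
    ∃ a b, a ≤ c.1 ∧ c.1 ≤ b ∧ Run F a b c.2 := by
  classical
  have key : ∀ s : ℤ, ∃ n : ℕ, (c.1 + s * n, c.2) ∈ F ∧ (∀ m : ℕ, m ≤ n → (c.1 + s * m, c.2) ∈ F) ∧
      (s ≠ 0 → (c.1 + s * (n + 1), c.2) ∉ F) := by
    intro s
    by_cases hs : s = 0
    · subst hs
      exact ⟨0, by simpa using hc, fun m _ => by simpa using hc, fun h => absurd rfl h⟩
    have hex : ∃ n : ℕ, (c.1 + s * (n + 1), c.2) ∉ F := by
      by_contra hcon
      push Not at hcon
      have hinj : Function.Injective (fun n : ℕ => ((c.1 + s * (n + 1), c.2) : ℤ × ℤ)) := by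
        intro m n hmn
        simp only [Prod.mk.injEq, and_true] at hmn
        have : s * ((m : ℤ) + 1) = s * ((n : ℤ) + 1) := by linarith
        have := mul_left_cancel₀ hs this
        omega
      exact Set.infinite_of_injective_forall_mem (s := (F : Set (ℤ × ℤ))) hinj (fun n => hcon n)
        F.finite_toSet
    have hmin := Nat.find_spec hex
    refine ⟨Nat.find hex, ?_, ?_, fun _ => hmin⟩
    · rcases Nat.eq_zero_or_pos (Nat.find hex) with h0 | h0
      · rw [h0]; simpa using hc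
      · have := Nat.find_min hex (m := Nat.find hex - 1) (by omega)
        push Not at this
        have e : ((Nat.find hex - 1 : ℕ) : ℤ) + 1 = (Nat.find hex : ℤ) := by omega
        rwa [e] at this
    · intro m hm
      rcases Nat.eq_zero_or_pos m with h0 | h0
      · subst h0; simpa using hc
      · have := Nat.find_min hex (m := m - 1) (by omega)
        push Not at this
        have e : ((m - 1 : ℕ) : ℤ) + 1 = (m : ℤ) := by omega
        rwa [e] at this
  obtain ⟨n, -, hn1, hn2⟩ := key 1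
  obtain ⟨m, -, hm1, hm2⟩ := key (-1)
  refine ⟨c.1 - m, c.1 + n, by omega, by omega, by omega, ?_, ?_, ?_⟩
  · intro x h1 h2
    rcases le_total c.1 x with h | h
    · have := hn1 (x - c.1).toNat (by omega)
      have e : c.1 + 1 * ((x - c.1).toNat : ℤ) = x := by omega
      rwa [e] at this
    · have := hm1 (c.1 - x).toNat (by omega)
      have e : c.1 + -1 * ((c.1 - x).toNat : ℤ) = x := by omega
      rwa [e] at this
  · have := hm2 (by norm_num)
    have e : c.1 + -1 * ((m : ℤ) + 1) = c.1 - m - 1 := by ring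
    rwa [e] at this
  · have := hn2 (by norm_num)
    have e : c.1 + 1 * ((n : ℤ) + 1) = c.1 + n + 1 := by ring
    rwa [e] at this

/-! ### Restricted glueings -/

/-- port of a set of tiles (the leg is always a port) -/
def PortOf {T : Type*} (A : Finset T) (x : Port T) : Prop := ∀ y ∈ x, y.1 ∈ A

instance {T : Type*} [DecidableEq T] (A : Finset T) (x : Port T) : Decidable (PortOf A x) :=
  match x with
  | none => isTrue (by intro y hy; simp at hy)
  | some y => if h : y.1 ∈ A then isTrue (by intro z hz; simp only [Option.mem_def, Option.some.injEq] at hz; rwa [← hz])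
      else isFalse (fun h' => h (h' y rfl))

theorem portOf_none {T : Type*} (A : Finset T) : PortOf A (none : Port T) := by
  intro y hy; simp at hy

theorem portOf_some {T : Type*} {A : Finset T} {t : T} {d : ZMod 4} :
    PortOf A (some (t, d) : Port T) ↔ t ∈ A := by
  unfold PortOf; simp

/-- restriction of a glueing to a set of tiles: fixed points = free ends and foreign ports -/
def res {T : Type*} [DecidableEq T] (A : Finset T) (nb : Port T → Port T) (x : Port T) : Port T :=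
  if PortOf A x ∧ PortOf A (nb x) then nb x else x

theorem res_of {T : Type*} [DecidableEq T] {A : Finset T} {nb : Port T → Port T} {x : Port T}
    (h1 : PortOf A x) (h2 : PortOf A (nb x)) : res A nb x = nb x := if_pos ⟨h1, h2⟩

theorem res_invol {T : Type*} [DecidableEq T] {A : Finset T} {nb : Port T → Port T}
    (h : ∀ x, PortOf A x → PortOf A (nb x) → nb (nb x) = x) (x : Port T) :
    res A nb (res A nb x) = x := by
  by_cases hx : PortOf A x ∧ PortOf A (nb x)
  · have e := h x hx.1 hx.2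
    rw [res_of hx.1 hx.2, res_of hx.2 (by rw [e]; exact hx.1), e]
  · unfold res
    rw [if_neg hx, if_neg hx]

theorem z4 (d : ZMod 4) : d = 0 ∨ d = 1 ∨ d = 2 ∨ d = 3 := by revert d; decide

theorem n10 : (1 : ZMod 4) ≠ 0 := by decide
theorem n20 : (2 : ZMod 4) ≠ 0 := by decide
theorem n30 : (3 : ZMod 4) ≠ 0 := by decide
theorem n21 : (2 : ZMod 4) ≠ 1 := by decide
theorem n31 : (3 : ZMod 4) ≠ 1 := by decide
theorem n32 : (3 : ZMod 4) ≠ 2 := by decide

/-! ### Plain regions -/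

/-- partner in the square lattice; the leg is not glued -/
def nbP : Port (ℤ × ℤ) → Port (ℤ × ℤ)
  | none => none
  | some ((x, y), d) =>
      if d = 0 then some ((x - 1, y), 2)
      else if d = 1 then some ((x, y + 1), 3)
      else if d = 2 then some ((x + 1, y), 0)
      else some ((x, y - 1), 1)

/-- plain glueing -/
def beP (A : Finset (ℤ × ℤ)) : Port (ℤ × ℤ) → Port (ℤ × ℤ) := res A nbP

@[simp] theorem nbP_leg : nbP none = none := rfl
@[simp] theorem nbP_W (x y : ℤ) : nbP (some ((x, y), 0)) = some ((x - 1, y), 2) := rfl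
@[simp] theorem nbP_N (x y : ℤ) : nbP (some ((x, y), 1)) = some ((x, y + 1), 3) := rfl
@[simp] theorem nbP_E (x y : ℤ) : nbP (some ((x, y), 2)) = some ((x + 1, y), 0) := rfl
@[simp] theorem nbP_S (x y : ℤ) : nbP (some ((x, y), 3)) = some ((x, y - 1), 1) := rfl

theorem nbP_nbP (x : Port (ℤ × ℤ)) : nbP (nbP x) = x := by
  rcases x with _ | ⟨⟨x, y⟩, d⟩
  · rfl
  · rcases z4 d with rfl | rfl | rfl | rfl
    · rw [nbP_W, nbP_E, sub_add_cancel]
    · rw [nbP_N, nbP_S, add_sub_cancel_right]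
    · rw [nbP_E, nbP_W, add_sub_cancel_right]
    · rw [nbP_S, nbP_N, sub_add_cancel]

theorem beP_invol (A : Finset (ℤ × ℤ)) (x : Port (ℤ × ℤ)) : beP A (beP A x) = x :=
  res_invol (fun x _ _ => nbP_nbP x) x

/-! ### The region with leg `D^(z)` -/

/-- partner in the lattice dislocated along the line `y0`, from the column `p` (leg) to `xr` -/
def nbD (p y0 xr : ℤ) : Port (ℤ × ℤ) → Port (ℤ × ℤ)
  | none => some ((p, y0), 3)
  | some ((x, y), d) =>
      if d = 0 then some ((x - 1, y), 2)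
      else if d = 1 then (if y = y0 - 1 ∧ p ≤ x ∧ x ≤ xr then some ((x + 1, y0), 3) else some ((x, y + 1), 3))
      else if d = 2 then some ((x + 1, y), 0)
      else (if y = y0 ∧ x = p then none
        else if y = y0 ∧ p < x ∧ x ≤ xr then some ((x - 1, y0 - 1), 1) else some ((x, y - 1), 1))

/-- glueing of `D^(z)`, `z = (p, y0)` -/
def beD (A : Finset (ℤ × ℤ)) (p y0 xr : ℤ) : Port (ℤ × ℤ) → Port (ℤ × ℤ) := res A (nbD p y0 xr)

section
variable {p y0 xr x y : ℤ}

@[simp] theorem nbD_leg : nbD p y0 xr none = some ((p, y0), 3) := rfl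
@[simp] theorem nbD_W : nbD p y0 xr (some ((x, y), 0)) = some ((x - 1, y), 2) := rfl
@[simp] theorem nbD_E : nbD p y0 xr (some ((x, y), 2)) = some ((x + 1, y), 0) := rfl
theorem nbD_N1 (h : y = y0 - 1 ∧ p ≤ x ∧ x ≤ xr) :
    nbD p y0 xr (some ((x, y), 1)) = some ((x + 1, y0), 3) := by
  simp only [nbD]; rw [if_neg n10, if_pos trivial, if_pos h]
theorem nbD_N (h : ¬ (y = y0 - 1 ∧ p ≤ x ∧ x ≤ xr)) :
    nbD p y0 xr (some ((x, y), 1)) = some ((x, y + 1), 3) := by
  simp only [nbD]; rw [if_neg n10, if_pos trivial, if_neg h]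
theorem nbD_Sleg (h : y = y0 ∧ x = p) : nbD p y0 xr (some ((x, y), 3)) = none := by
  simp only [nbD]; rw [if_neg n30, if_neg n31, if_neg n32, if_pos h]
theorem nbD_S1 (h : y = y0 ∧ p < x ∧ x ≤ xr) :
    nbD p y0 xr (some ((x, y), 3)) = some ((x - 1, y0 - 1), 1) := by
  simp only [nbD]; rw [if_neg n30, if_neg n31, if_neg n32, if_neg (by omega), if_pos h]
theorem nbD_S (h : ¬ (y = y0 ∧ p ≤ x ∧ x ≤ xr) ∧ ¬ (y = y0 ∧ x = p)) :
    nbD p y0 xr (some ((x, y), 3)) = some ((x, y - 1), 1) := by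
  simp only [nbD]; rw [if_neg n30, if_neg n31, if_neg n32, if_neg h.2, if_neg (by omega)]

end

theorem beD_invol {A : Finset (ℤ × ℤ)} {p y0 xr : ℤ} (hp : p ≤ xr) (h : (xr + 1, y0) ∉ A)
    (x : Port (ℤ × ℤ)) : beD A p y0 xr (beD A p y0 xr x) = x := by
  refine res_invol ?_ x
  intro x h1 h2
  rcases x with _ | ⟨⟨x, y⟩, d⟩
  · rw [nbD_leg, nbD_Sleg ⟨rfl, rfl⟩]
  · rcases z4 d with rfl | rfl | rfl | rfl
    · rw [nbD_W, nbD_E, sub_add_cancel]
    · by_cases hc : y = y0 - 1 ∧ p ≤ x ∧ x ≤ xr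
      · rw [nbD_N1 hc] at h2 ⊢
        have h3 := portOf_some.1 h2
        have h4 : x ≠ xr := by rintro rfl; exact h h3
        rw [nbD_S1 (by omega), hc.1, add_sub_cancel_right]
      · rw [nbD_N hc, nbD_S (by omega), add_sub_cancel_right]
    · rw [nbD_E, nbD_W, add_sub_cancel_right]
    · by_cases hc : y = y0 ∧ x = p
      · rw [nbD_Sleg hc, nbD_leg, hc.1, hc.2]
      by_cases hc2 : y = y0 ∧ p < x ∧ x ≤ xr
      · rw [nbD_S1 hc2, nbD_N1 (by omega), sub_add_cancel, hc2.1]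
      · rw [nbD_S (by omega), nbD_N, sub_add_cancel]
        omega

/-! ### The region with strip `G^(z)` -/

/-- a band of rows with a common run and the width of the strip -/
structure Band (A : Finset (ℤ × ℤ)) where
  /-- left end of the run -/
  xl : ℤ
  /-- right end of the run -/
  xr : ℤ
  /-- first row -/
  y1 : ℤ
  /-- first row above -/
  y2 : ℤ
  /-- width of the strip below `z` -/
  R : ℤ
  hR : 0 < R
  run : ∀ y, y1 ≤ y → y < y2 → Run A xl xr y

/-- tiles of `G` : `inl t`, `t ∈ A`, and `inr (i, y)` in the strip -/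
abbrev TG := (ℤ × ℤ) ⊕ (ℤ × ℤ)

namespace Band

variable {A : Finset (ℤ × ℤ)} (B : Band A)

/-- width of the strip at height `y` -/
def wd (y0 y : ℤ) : ℤ := if y < y0 then B.R else B.R + 1

/-- tiles of `G^(z)` -/
def tG (y0 : ℤ) : Finset TG :=
  A.map ⟨Sum.inl, Sum.inl_injective⟩ ∪
    (Finset.Ico B.y1 B.y2).biUnion fun y =>
      (Finset.Ico 0 (B.wd y0 y)).map ⟨fun i => Sum.inr (i, y), by intro i j h; simpa using h⟩

theorem inl_mem {y0 : ℤ} {t : ℤ × ℤ} : (Sum.inl t : TG) ∈ B.tG y0 ↔ t ∈ A := by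
  unfold tG; simp

theorem inr_mem {y0 i y : ℤ} :
    (Sum.inr (i, y) : TG) ∈ B.tG y0 ↔ B.y1 ≤ y ∧ y < B.y2 ∧ 0 ≤ i ∧ i < B.wd y0 y := by
  unfold tG
  rw [Finset.mem_union, Finset.mem_biUnion]
  constructor
  · rintro (h | ⟨y', h, h'⟩)
    · simp at h
    · rw [Finset.mem_map] at h'
      obtain ⟨i', hi, he⟩ := h'
      have he' : (i', y') = (i, y) := Sum.inr_injective he
      simp only [Prod.mk.injEq] at he'
      obtain ⟨rfl, rfl⟩ := he'
      rw [Finset.mem_Ico] at h hi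
      exact ⟨h.1, h.2, hi.1, hi.2⟩
  · rintro ⟨h1, h2, h3, h4⟩
    refine Or.inr ⟨y, Finset.mem_Ico.2 ⟨h1, h2⟩, Finset.mem_map.2 ⟨i, Finset.mem_Ico.2 ⟨h3, h4⟩, rfl⟩⟩

/-- partner in `G^(z)`, `z = (p, y0)` -/
def nbG (p y0 : ℤ) : Port TG → Port TG
  | none => some (Sum.inl (p, y0), 3)
  | some (Sum.inl (x, y), d) =>
      if d = 0 then
        (if x = B.xl ∧ B.y1 ≤ y ∧ y < B.y2 then some (Sum.inr (B.wd y0 y - 1, y), 2)
          else some (Sum.inl (x - 1, y), 2))
      else if d = 1 then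
        (if y = y0 - 1 ∧ p ≤ x ∧ x < B.xr then some (Sum.inl (x + 1, y0), 3)
          else if y = y0 - 1 ∧ x = B.xr then some (Sum.inr (0, y0), 3)
          else some (Sum.inl (x, y + 1), 3))
      else if d = 2 then
        (if x = B.xr ∧ B.y1 ≤ y ∧ y < B.y2 then some (Sum.inr (0, y), 0)
          else some (Sum.inl (x + 1, y), 0))
      else
        (if y = y0 ∧ x = p then none
          else if y = y0 ∧ p < x ∧ x ≤ B.xr then some (Sum.inl (x - 1, y0 - 1), 1)
          else some (Sum.inl (x, y - 1), 1))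
  | some (Sum.inr (i, y), d) =>
      if d = 0 then (if i = 0 then some (Sum.inl (B.xr, y), 2) else some (Sum.inr (i - 1, y), 2))
      else if d = 1 then
        (if y = y0 - 1 then some (Sum.inr (i + 1, y0), 3) else some (Sum.inr (i, y + 1), 3))
      else if d = 2 then
        (if i = B.wd y0 y - 1 then some (Sum.inl (B.xl, y), 0) else some (Sum.inr (i + 1, y), 0))
      else
        (if y = y0 ∧ i = 0 then some (Sum.inl (B.xr, y0 - 1), 1)
          else if y = y0 then some (Sum.inr (i - 1, y0 - 1), 1)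
          else some (Sum.inr (i, y - 1), 1))

section
variable {p y0 x y i : ℤ}

@[simp] theorem nbG_leg : B.nbG p y0 none = some (Sum.inl (p, y0), 3) := rfl
theorem nbG_W1 (h : x = B.xl ∧ B.y1 ≤ y ∧ y < B.y2) :
    B.nbG p y0 (some (Sum.inl (x, y), 0)) = some (Sum.inr (B.wd y0 y - 1, y), 2) := by
  simp only [nbG]; rw [if_pos trivial, if_pos h]
theorem nbG_W (h : ¬ (x = B.xl ∧ B.y1 ≤ y ∧ y < B.y2)) :
    B.nbG p y0 (some (Sum.inl (x, y), 0)) = some (Sum.inl (x - 1, y), 2) := by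
  simp only [nbG]; rw [if_pos trivial, if_neg h]
theorem nbG_E1 (h : x = B.xr ∧ B.y1 ≤ y ∧ y < B.y2) :
    B.nbG p y0 (some (Sum.inl (x, y), 2)) = some (Sum.inr (0, y), 0) := by
  simp only [nbG]; rw [if_neg n20, if_neg n21, if_pos trivial, if_pos h]
theorem nbG_E (h : ¬ (x = B.xr ∧ B.y1 ≤ y ∧ y < B.y2)) :
    B.nbG p y0 (some (Sum.inl (x, y), 2)) = some (Sum.inl (x + 1, y), 0) := by
  simp only [nbG]; rw [if_neg n20, if_neg n21, if_pos trivial, if_neg h]
theorem nbG_N1 (h : y = y0 - 1 ∧ p ≤ x ∧ x < B.xr) :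
    B.nbG p y0 (some (Sum.inl (x, y), 1)) = some (Sum.inl (x + 1, y0), 3) := by
  simp only [nbG]; rw [if_neg n10, if_pos trivial, if_pos h]
theorem nbG_N2 (h : y = y0 - 1 ∧ x = B.xr) :
    B.nbG p y0 (some (Sum.inl (x, y), 1)) = some (Sum.inr (0, y0), 3) := by
  simp only [nbG]; rw [if_neg n10, if_pos trivial, if_neg (by omega), if_pos h]
theorem nbG_N (h : ¬ (y = y0 - 1 ∧ p ≤ x ∧ x < B.xr) ∧ ¬ (y = y0 - 1 ∧ x = B.xr)) :
    B.nbG p y0 (some (Sum.inl (x, y), 1)) = some (Sum.inl (x, y + 1), 3) := by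
  simp only [nbG]; rw [if_neg n10, if_pos trivial, if_neg h.1, if_neg h.2]
theorem nbG_Sleg (h : y = y0 ∧ x = p) : B.nbG p y0 (some (Sum.inl (x, y), 3)) = none := by
  simp only [nbG]; rw [if_neg n30, if_neg n31, if_neg n32, if_pos h]
theorem nbG_S1 (h : y = y0 ∧ p < x ∧ x ≤ B.xr) :
    B.nbG p y0 (some (Sum.inl (x, y), 3)) = some (Sum.inl (x - 1, y0 - 1), 1) := by
  simp only [nbG]; rw [if_neg n30, if_neg n31, if_neg n32, if_neg (by omega), if_pos h]
theorem nbG_S (h : ¬ (y = y0 ∧ p < x ∧ x ≤ B.xr) ∧ ¬ (y = y0 ∧ x = p)) :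
    B.nbG p y0 (some (Sum.inl (x, y), 3)) = some (Sum.inl (x, y - 1), 1) := by
  simp only [nbG]; rw [if_neg n30, if_neg n31, if_neg n32, if_neg h.2, if_neg h.1]
theorem nbG_rW1 : B.nbG p y0 (some (Sum.inr (0, y), 0)) = some (Sum.inl (B.xr, y), 2) := by
  simp only [nbG]; rw [if_pos trivial, if_pos trivial]
theorem nbG_rW (h : i ≠ 0) :
    B.nbG p y0 (some (Sum.inr (i, y), 0)) = some (Sum.inr (i - 1, y), 2) := by
  simp only [nbG]; rw [if_pos trivial, if_neg h]
theorem nbG_rE1 (h : i = B.wd y0 y - 1) :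
    B.nbG p y0 (some (Sum.inr (i, y), 2)) = some (Sum.inl (B.xl, y), 0) := by
  simp only [nbG]; rw [if_neg n20, if_neg n21, if_pos trivial, if_pos h]
theorem nbG_rE (h : i ≠ B.wd y0 y - 1) :
    B.nbG p y0 (some (Sum.inr (i, y), 2)) = some (Sum.inr (i + 1, y), 0) := by
  simp only [nbG]; rw [if_neg n20, if_neg n21, if_pos trivial, if_neg h]
theorem nbG_rN1 (h : y = y0 - 1) :
    B.nbG p y0 (some (Sum.inr (i, y), 1)) = some (Sum.inr (i + 1, y0), 3) := by
  simp only [nbG]; rw [if_neg n10, if_pos trivial, if_pos h]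
theorem nbG_rN (h : y ≠ y0 - 1) :
    B.nbG p y0 (some (Sum.inr (i, y), 1)) = some (Sum.inr (i, y + 1), 3) := by
  simp only [nbG]; rw [if_neg n10, if_pos trivial, if_neg h]
theorem nbG_rS1 (h : y = y0 ∧ i = 0) :
    B.nbG p y0 (some (Sum.inr (i, y), 3)) = some (Sum.inl (B.xr, y0 - 1), 1) := by
  simp only [nbG]; rw [if_neg n30, if_neg n31, if_neg n32, if_pos h]
theorem nbG_rS2 (h : y = y0 ∧ i ≠ 0) :
    B.nbG p y0 (some (Sum.inr (i, y), 3)) = some (Sum.inr (i - 1, y0 - 1), 1) := by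
  simp only [nbG]; rw [if_neg n30, if_neg n31, if_neg n32, if_neg (by tauto), if_pos h.1]
theorem nbG_rS (h : y ≠ y0) :
    B.nbG p y0 (some (Sum.inr (i, y), 3)) = some (Sum.inr (i, y - 1), 1) := by
  simp only [nbG]; rw [if_neg n30, if_neg n31, if_neg n32, if_neg (by tauto), if_neg h]

end

/-- glueing of `G^(z)`, `z = (p, y0)` -/
def beG (p y0 : ℤ) : Port TG → Port TG := res (B.tG y0) (B.nbG p y0)

theorem wd_pos (y0 y : ℤ) : 0 < B.wd y0 y := by
  have := B.hR
  unfold wd; split_ifs <;> omega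

/-- the hypotheses on `z = (p, y0)`: inside the band and inside the run -/
structure At (p y0 : ℤ) : Prop where
  hy1 : B.y1 < y0
  hy2 : y0 < B.y2
  hp1 : B.xl < p
  hp2 : p ≤ B.xr

theorem beG_invol {p y0 : ℤ} (h : B.At p y0) (x : Port TG) : B.beG p y0 (B.beG p y0 x) = x := by
  obtain ⟨hy1, hy2, hp1, hp2⟩ := h
  have hR := B.hR
  refine res_invol ?_ x
  intro x h1 h2
  rcases x with _ | ⟨⟨x, y⟩ | ⟨i, y⟩, d⟩
  · rw [nbG_leg, nbG_Sleg B ⟨rfl, rfl⟩]
  · have m1 : (x, y) ∈ A := B.inl_mem.1 (portOf_some.1 h1)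
    rcases z4 d with rfl | rfl | rfl | rfl
    · by_cases hc : x = B.xl ∧ B.y1 ≤ y ∧ y < B.y2
      · rw [nbG_W1 B hc, nbG_rE1 B rfl, hc.1]
      · rw [nbG_W B hc] at h2 ⊢
        have m2 : (x - 1, y) ∈ A := B.inl_mem.1 (portOf_some.1 h2)
        rw [nbG_E, sub_add_cancel]
        rintro ⟨e1, e2, e3⟩
        refine (B.run y e2 e3).right ?_
        rwa [← e1, sub_add_cancel]
    · by_cases hc : y = y0 - 1 ∧ p ≤ x ∧ x < B.xr
      · rw [nbG_N1 B hc, nbG_S1 B (by omega), add_sub_cancel_right, hc.1]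
      by_cases hc2 : y = y0 - 1 ∧ x = B.xr
      · rw [nbG_N2 B hc2, nbG_rS1 B ⟨rfl, rfl⟩, hc2.1, hc2.2]
      · rw [nbG_N B ⟨hc, hc2⟩] at h2 ⊢
        rw [nbG_S B (by omega), add_sub_cancel_right]
    · by_cases hc : x = B.xr ∧ B.y1 ≤ y ∧ y < B.y2
      · rw [nbG_E1 B hc, nbG_rW1 B, hc.1]
      · rw [nbG_E B hc] at h2 ⊢
        have m2 : (x + 1, y) ∈ A := B.inl_mem.1 (portOf_some.1 h2)
        rw [nbG_W, add_sub_cancel_right]
        rintro ⟨e1, e2, e3⟩
        refine (B.run y e2 e3).left ?_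
        rwa [← e1, add_sub_cancel_right]
    · by_cases hc : y = y0 ∧ x = p
      · rw [nbG_Sleg B hc, nbG_leg, hc.1, hc.2]
      by_cases hc2 : y = y0 ∧ p < x ∧ x ≤ B.xr
      · rw [nbG_S1 B hc2, nbG_N1 B (by omega), sub_add_cancel, hc2.1]
      · rw [nbG_S B ⟨hc2, hc⟩, nbG_N B, sub_add_cancel]
        have hr := (B.run (y0 - 1) (by omega) (by omega)).right
        constructor
        · omega
        · rintro ⟨e1, e2⟩; omega
  · obtain ⟨q1, q2, q3, q4⟩ := B.inr_mem.1 (portOf_some.1 h1)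
    rcases z4 d with rfl | rfl | rfl | rfl
    · by_cases hc : i = 0
      · subst hc
        rw [nbG_rW1, nbG_E1 B ⟨rfl, q1, q2⟩]
      · rw [nbG_rW B hc, nbG_rE B (by omega), sub_add_cancel]
    · by_cases hc : y = y0 - 1
      · rw [nbG_rN1 B hc, nbG_rS2 B ⟨rfl, by omega⟩, add_sub_cancel_right, hc]
      · rw [nbG_rN B hc, nbG_rS B (by omega), add_sub_cancel_right]
    · by_cases hc : i = B.wd y0 y - 1
      · rw [nbG_rE1 B hc, nbG_W1 B ⟨rfl, q1, q2⟩, hc]
      · rw [nbG_rE B hc, nbG_rW B (by omega), add_sub_cancel_right]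
    · by_cases hc : y = y0 ∧ i = 0
      · rw [nbG_rS1 B hc, nbG_N2 B ⟨rfl, rfl⟩, hc.1, hc.2]
      by_cases hc2 : y = y0
      · have hi : i ≠ 0 := fun e => hc ⟨hc2, e⟩
        rw [nbG_rS2 B ⟨hc2, hi⟩, nbG_rN1 B rfl, sub_add_cancel, hc2]
      · rw [nbG_rS B hc2, nbG_rN B (by omega), sub_add_cancel]

end Band

/-! ### Cutting along a crosscut -/

/-- plain step that does not cross the line below the row `y` in the columns `xl..xr` -/
def CutAdj (A : Finset (ℤ × ℤ)) (xl xr y : ℤ) (s t : ℤ × ℤ) : Prop :=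
  Adj4 s t ∧ s ∈ A ∧ t ∈ A ∧
    ¬ (xl ≤ s.1 ∧ s.1 ≤ xr ∧ s.1 = t.1 ∧ ((s.2 = y - 1 ∧ t.2 = y) ∨ (s.2 = y ∧ t.2 = y - 1)))

open Classical in
/-- the part of `A` below the crosscut -/
def lowT (A : Finset (ℤ × ℤ)) (xl xr y : ℤ) : Finset (ℤ × ℤ) :=
  A.filter fun t => Relation.ReflTransGen (CutAdj A xl xr y) (xl, y - 1) t

open Classical in
/-- the part of `A` above the crosscut -/
def upT (A : Finset (ℤ × ℤ)) (xl xr y : ℤ) : Finset (ℤ × ℤ) :=
  A.filter fun t => Relation.ReflTransGen (CutAdj A xl xr y) (xl, y) t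

/-- `A` cut along the line below the row `y`, in the columns `a..b`, as a glued region -/
def reg (A : Finset (ℤ × ℤ)) (a b y0 : ℤ) : Xr249.Reg where
  P := A
  h := fun t => t ∈ A ∧ (t.1 + 1, t.2) ∈ A
  v := fun t => t ∈ A ∧ (t.1, t.2 + 1) ∈ A ∧ ¬ (t.2 = y0 - 1 ∧ a ≤ t.1 ∧ t.1 ≤ b)
  hP := fun _ _ h => h
  vP := fun _ _ h => ⟨h.1, h.2.1⟩

/-- the word `w` builds the glued region `(A, b)` -/
def IsWord {T : Type*} [DecidableEq T] (w : Sw300.Wd T) (A : Finset T) (b : Port T → Port T) : Prop :=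
  Sw300.Ok w ∧ Sw300.Fc w ∧ (∀ t, t ∈ Sw300.tls w ↔ t ∈ A) ∧ ∀ x, Sw300.be w x = b x

/-! ### Marks -/

/-- the middle gap of the side `d` of the macroscopic cell `c` (scale `L`, even): the two ends next to
it, in clockwise order -/
def mark (L : ℤ) (c : ℤ × ℤ) (d : ZMod 4) : Port (ℤ × ℤ) × Port (ℤ × ℤ) :=
  if d = 0 then (some ((c.1 * L, c.2 * L + L / 2 - 1), 0), some ((c.1 * L, c.2 * L + L / 2), 0))
  else if d = 1 then (some ((c.1 * L + L / 2 - 1, c.2 * L + L - 1), 1),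
    some ((c.1 * L + L / 2, c.2 * L + L - 1), 1))
  else if d = 2 then (some ((c.1 * L + L - 1, c.2 * L + L / 2), 2),
    some ((c.1 * L + L - 1, c.2 * L + L / 2 - 1), 2))
  else (some ((c.1 * L + L / 2, c.2 * L), 3), some ((c.1 * L + L / 2 - 1, c.2 * L), 3))

/-- neighbouring cell in direction `d` -/
def nbc (c : ℤ × ℤ) (d : ZMod 4) : ℤ × ℤ :=
  if d = 0 then (c.1 - 1, c.2) else if d = 1 then (c.1, c.2 + 1)
  else if d = 2 then (c.1 + 1, c.2) else (c.1, c.2 - 1)

/-- macroscopic data: polyomino with four marked boundary edges `(cell, side)` -/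
structure Mac4 extends Mac where
  /-- the marks `x1, x2, x3, x4` -/
  m : Fin 4 → (ℤ × ℤ) × ZMod 4
  inj : Function.Injective m
  bdy : ∀ i, (m i).1 ∈ F ∧ nbc (m i).1 (m i).2 ∉ F

end Crest.Agent.R158.Env664
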