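import Crest.Agent.R158.Xr7_249
import Crest.Agent.R158.Env_664

/-!
# R158, block XR (helper249), file Xr8: fully glued regions, `SC` and `Conn` criteria

* `full A` : the tiles `A`, all adjacent pairs glued
* `CPath X` : 4-connected paths in a set `X`
* **`full_SC`** : every tile outside `A` is joined to a tile above `A` outside `A` ⟹ `(full A).SC`
* **`full_Conn`**
* rectangles: `rect_SC`, `rect_Conn`
* macroscopic polyominoes: `D_SC`, `D_Conn`
-/

set_option autoImplicit false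
set_option linter.unusedVariables false

noncomputable section

namespace Crest.Agent.R158.Xr249

open Env664 (Adj4 Mac D mem_D div_iff)

/-- 4-connected path inside `X` -/
def CPath (X : Set (ℤ × ℤ)) : ℤ × ℤ → ℤ × ℤ → Prop :=
  Relation.ReflTransGen (fun u v => Adj4 u v ∧ u ∈ X ∧ v ∈ X)

namespace CPath

variable {X Y : Set (ℤ × ℤ)} {a b c : ℤ × ℤ}

lemma symm (h : CPath X a b) : CPath X b a := by
  induction h with
  | refl => exact .refl
  | tail _ h2 ih => exact .head ⟨h2.1.symm, h2.2.2, h2.2.1⟩ ih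

lemma trans (h : CPath X a b) (h' : CPath X b c) : CPath X a c := Relation.ReflTransGen.trans h h'

lemma mono (hX : X ⊆ Y) (h : CPath X a b) : CPath Y a b := by
  induction h with
  | refl => exact .refl
  | tail _ h2 ih => exact .tail ih ⟨h2.1, hX h2.2.1, hX h2.2.2⟩

lemma step (h : Adj4 a b) (ha : a ∈ X) (hb : b ∈ X) : CPath X a b := .single ⟨h, ha, hb⟩

/-- horizontal segment -/
lemma hor {x1 x2 y : ℤ} (h : x1 ≤ x2) (hX : ∀ x, x1 ≤ x → x ≤ x2 → (x, y) ∈ X) :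
    CPath X (x1, y) (x2, y) := by
  have key : ∀ n : ℕ, x1 + n ≤ x2 → CPath X (x1, y) (x1 + n, y) := by
    intro n
    induction n with
    | zero => intro _; rw [Nat.cast_zero, add_zero]; exact .refl
    | succ n ih =>
      intro hn
      push_cast at hn ⊢
      refine (ih (by omega)).trans (step ?_ (hX _ (by omega) (by omega)) (hX _ (by omega) (by omega)))
      exact Or.inr ⟨rfl, Or.inl (by simp only; omega)⟩
  have := key (x2 - x1).toNat (by omega)
  rwa [Int.toNat_of_nonneg (by omega), add_sub_cancel] at this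

/-- vertical segment -/
lemma ver {x y1 y2 : ℤ} (h : y1 ≤ y2) (hX : ∀ y, y1 ≤ y → y ≤ y2 → (x, y) ∈ X) :
    CPath X (x, y1) (x, y2) := by
  have key : ∀ n : ℕ, y1 + n ≤ y2 → CPath X (x, y1) (x, y1 + n) := by
    intro n
    induction n with
    | zero => intro _; rw [Nat.cast_zero, add_zero]; exact .refl
    | succ n ih =>
      intro hn
      push_cast at hn ⊢
      refine (ih (by omega)).trans (step ?_ (hX _ (by omega) (by omega)) (hX _ (by omega) (by omega)))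
      exact Or.inl ⟨rfl, Or.inl (by simp only; omega)⟩
  have := key (y2 - y1).toNat (by omega)
  rwa [Int.toNat_of_nonneg (by omega), add_sub_cancel] at this

/-- two tiles of a rectangle contained in `X` -/
lemma rect {x1 x2 y1 y2 : ℤ} (hX : ∀ x y, x1 ≤ x → x ≤ x2 → y1 ≤ y → y ≤ y2 → (x, y) ∈ X)
    {a b : ℤ × ℤ} (ha : x1 ≤ a.1 ∧ a.1 ≤ x2 ∧ y1 ≤ a.2 ∧ a.2 ≤ y2)
    (hb : x1 ≤ b.1 ∧ b.1 ≤ x2 ∧ y1 ≤ b.2 ∧ b.2 ≤ y2) : CPath X a b := by
  have key : ∀ a : ℤ × ℤ, x1 ≤ a.1 ∧ a.1 ≤ x2 ∧ y1 ≤ a.2 ∧ a.2 ≤ y2 → CPath X (x1, y1) a := by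
    rintro ⟨x, y⟩ ⟨h1, h2, h3, h4⟩
    simp only at h1 h2 h3 h4
    exact (hor h1 fun z h5 h6 => hX z y1 h5 (by omega) (le_refl _) (by omega)).trans
      (ver h3 fun z h5 h6 => hX x z h1 h2 h5 (by omega))
  exact (key a ha).symm.trans (key b hb)

end CPath

/-- all adjacent pairs of tiles of `A` are glued -/
def full (A : Finset (ℤ × ℤ)) : Reg where
  P := A
  h := fun t => t ∈ A ∧ (t.1 + 1, t.2) ∈ A
  v := fun t => t ∈ A ∧ (t.1, t.2 + 1) ∈ A
  hP := fun _ _ h => h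
  vP := fun _ _ h => h

section full

variable {A : Finset (ℤ × ℤ)}

@[simp] lemma full_P : (full A).P = A := rfl
lemma full_h {x y : ℤ} : (full A).h (x, y) ↔ (x, y) ∈ A ∧ (x + 1, y) ∈ A := Iff.rfl
lemma full_v {x y : ℤ} : (full A).v (x, y) ↔ (x, y) ∈ A ∧ (x, y + 1) ∈ A := Iff.rfl

/-- face `f` is a face of the tile `c` -/
def Arnd (c f : ℤ × ℤ) : Prop := (f.1 = c.1 ∨ f.1 = c.1 - 1) ∧ (f.2 = c.2 ∨ f.2 = c.2 - 1)

/-- the faces around a tile outside `A` are joined -/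
lemma arnd_out {x y : ℤ} (hc : (x, y) ∉ A) {f : ℤ × ℤ} (hf : Arnd (x, y) f) :
    Relation.ReflTransGen (full A).FAdj f (x, y) := by
  obtain ⟨f1, f2⟩ := f
  simp only [Arnd] at hf
  obtain ⟨h1, h2⟩ := hf
  have e1 : (full A).FAdj (x - 1, y) (x, y) := by
    have := Reg.FAdj.right (R := full A) (x := x - 1) (y := y)
      (by rw [sub_add_cancel]; exact fun h => hc h.1)
    rwa [sub_add_cancel] at this
  have e2 : (full A).FAdj (x, y - 1) (x, y) := by
    have := Reg.FAdj.up (R := full A) (x := x) (y := y - 1)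
      (by rw [sub_add_cancel]; exact fun h => hc h.1)
    rwa [sub_add_cancel] at this
  have e3 : (full A).FAdj (x - 1, y - 1) (x, y - 1) := by
    have := Reg.FAdj.right (R := full A) (x := x - 1) (y := y - 1)
      (by rw [sub_add_cancel]; intro h; exact hc (by simpa using h.2))
    rwa [sub_add_cancel] at this
  rcases h1 with rfl | rfl <;> rcases h2 with rfl | rfl
  · exact .refl
  · exact .single e2
  · exact .single e1
  · exact .trans (.single e3) (.single e2)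

/-- adjacent tiles outside `A` -/
lemma adj_out {c c' : ℤ × ℤ} (h : Adj4 c c') (hc : c ∉ A) (hc' : c' ∉ A) :
    Relation.ReflTransGen (full A).FAdj c c' := by
  obtain ⟨x, y⟩ := c
  obtain ⟨x', y'⟩ := c'
  have sy : ∀ {f g : ℤ × ℤ}, Relation.ReflTransGen (full A).FAdj f g →
      Relation.ReflTransGen (full A).FAdj g f := by
    intro f g h
    induction h with
    | refl => exact .refl
    | tail _ h2 ih =>
      refine .trans (.single ?_) ih
      cases h2 with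
      | right h => exact .left h
      | left h => exact .right h
      | up h => exact .down h
      | down h => exact .up h
  rcases h with ⟨h1, h2 | h2⟩ | ⟨h1, h2 | h2⟩ <;> simp only at h1 h2 <;> subst h1 h2
  · exact arnd_out hc' ⟨Or.inl rfl, Or.inr (by simp)⟩
  · exact sy (arnd_out hc ⟨Or.inl rfl, Or.inr (by simp)⟩)
  · exact arnd_out hc' ⟨Or.inr (by simp), Or.inl rfl⟩
  · exact sy (arnd_out hc ⟨Or.inr (by simp), Or.inl rfl⟩)

/-- **criterion for `SC`** -/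
theorem full_SC (h : ∀ c ∉ A, ∃ d, CPath {t | t ∉ A} c d ∧ ∀ t ∈ A, t.2 ≤ d.2) : (full A).SC := by
  have key : ∀ c ∉ A, ∀ f, Arnd c f → (full A).Out f := by
    intro c hc f hf
    obtain ⟨d, hd, hd2⟩ := h c hc
    refine ⟨d, (arnd_out (x := c.1) (y := c.2) hc hf).trans ?_, hd2⟩
    clear hd2 hf
    change Relation.ReflTransGen (full A).FAdj c d
    induction hd with
    | refl => exact .refl
    | tail _ h2 ih => exact ih.trans (adj_out h2.1 h2.2.1 h2.2.2)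
  intro x y hx
  simp only [full_h, full_v] at hx
  by_cases c1 : (x, y) ∈ A
  · by_cases c2 : (x + 1, y) ∈ A
    · by_cases c3 : (x, y + 1) ∈ A
      · by_cases c4 : (x + 1, y + 1) ∈ A
        · rcases hx with hx | hx | hx | hx
          · exact absurd ⟨c1, c2⟩ hx
          · exact absurd ⟨c3, c4⟩ hx
          · exact absurd ⟨c1, c3⟩ hx
          · exact absurd ⟨c2, c4⟩ hx
        · exact key _ c4 _ ⟨Or.inr (by simp), Or.inr (by simp)⟩
      · exact key _ c3 _ ⟨Or.inl rfl, Or.inr (by simp)⟩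
    · exact key _ c2 _ ⟨Or.inr (by simp), Or.inl rfl⟩
  · exact key _ c1 _ ⟨Or.inl rfl, Or.inl rfl⟩

/-- **criterion for `Conn`** -/
theorem full_Conn (h : ∀ a ∈ A, ∀ b ∈ A, CPath {t | t ∈ A} a b) : (full A).Conn := by
  intro a ha b hb
  have h1 := h a ha b hb
  clear hb
  induction h1 with
  | refl => exact ⟨0, .nil ha⟩
  | @tail c d _ h2 ih =>
    obtain ⟨N, hN⟩ := ih
    obtain ⟨h3, h4, h5⟩ := h2
    simp only [Set.mem_setOf_eq] at h4 h5
    have hs : ∃ M, (full A).Stp c d M := by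
      obtain ⟨x, y⟩ := c
      obtain ⟨x', y'⟩ := d
      rcases h3 with ⟨h1, h2 | h2⟩ | ⟨h1, h2 | h2⟩ <;> simp only at h1 h2 <;> subst h1 h2
      · exact ⟨_, .up ⟨h4, h5⟩⟩
      · exact ⟨_, .down ⟨h5, h4⟩⟩
      · exact ⟨_, .right ⟨h4, h5⟩⟩
      · exact ⟨_, .left ⟨h5, h4⟩⟩
    obtain ⟨M, hM⟩ := hs
    exact ⟨_, hN.cons hM h5⟩

end full

/-! ### rectangles -/

/-- the rectangle `x1 ≤ x < x2`, `y1 ≤ y < y2` -/
def rct (x1 x2 y1 y2 : ℤ) : Finset (ℤ × ℤ) := Finset.Ico x1 x2 ×ˢ Finset.Ico y1 y2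

lemma mem_rct {x1 x2 y1 y2 x y : ℤ} : (x, y) ∈ rct x1 x2 y1 y2 ↔ (x1 ≤ x ∧ x < x2) ∧ y1 ≤ y ∧ y < y2 := by
  simp [rct]

theorem rect_Conn (x1 x2 y1 y2 : ℤ) : (full (rct x1 x2 y1 y2)).Conn := by
  refine full_Conn fun a ha b hb => ?_
  rw [show a = (a.1, a.2) from rfl, mem_rct] at ha
  rw [show b = (b.1, b.2) from rfl, mem_rct] at hb
  refine CPath.rect (x1 := x1) (x2 := x2 - 1) (y1 := y1) (y2 := y2 - 1) (fun x y h1 h2 h3 h4 => ?_)
    ⟨ha.1.1, by omega, ha.2.1, by omega⟩ ⟨hb.1.1, by omega, hb.2.1, by omega⟩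
  exact mem_rct.2 ⟨⟨h1, by omega⟩, h3, by omega⟩

theorem rect_SC (x1 x2 y1 y2 : ℤ) : (full (rct x1 x2 y1 y2)).SC := by
  refine full_SC ?_
  rintro ⟨x, y⟩ hc
  have hX : ∀ {a b : ℤ}, ¬ ((x1 ≤ a ∧ a < x2) ∧ y1 ≤ b ∧ b < y2) →
      (a, b) ∈ {t : ℤ × ℤ | t ∉ rct x1 x2 y1 y2} := fun h h' => h (mem_rct.1 h')
  rw [mem_rct] at hc
  have top : ∀ t ∈ rct x1 x2 y1 y2, ∀ d : ℤ, y2 ≤ d → t.2 ≤ d := by
    rintro ⟨a, b⟩ ht d hd
    have := (mem_rct.1 ht).2.2
    simp only; omega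
  -- go up if not under the rectangle
  have goup : ∀ z w : ℤ, (z < x1 ∨ x2 ≤ z ∨ y2 ≤ w) →
      ∃ d, CPath {t | t ∉ rct x1 x2 y1 y2} (z, w) d ∧ ∀ t ∈ rct x1 x2 y1 y2, t.2 ≤ d.2 := by
    intro z w hz
    refine ⟨(z, max w y2), CPath.ver (le_max_left _ _) fun u h1 h2 => hX (by omega),
      fun t ht => top t ht _ (le_max_right _ _)⟩
  by_cases h1 : x < x1 ∨ x2 ≤ x ∨ y2 ≤ y
  · exact goup x y h1
  · -- under the rectangle: go left first
    have h2 : y < y1 := by omega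
    obtain ⟨d, hd, hd2⟩ := goup (x1 - 1) y (Or.inl (by omega))
    refine ⟨d, CPath.trans ?_ hd, hd2⟩
    exact (CPath.hor (X := {t | t ∉ rct x1 x2 y1 y2}) (x1 := x1 - 1) (x2 := x) (by omega)
      fun u h3 h4 => hX (by omega)).symm

/-! ### macroscopic polyominoes -/

section mac

variable {L : ℤ}

/-- tiles in the same macroscopic cell or in adjacent cells are joined inside these cells -/
lemma cell_path (hL : 0 < L) {X : Set (ℤ × ℤ)} {c c' : ℤ × ℤ} (hcc : c = c' ∨ Adj4 c c')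
    (hX : ∀ t : ℤ × ℤ, ((t.1 / L, t.2 / L) = c ∨ (t.1 / L, t.2 / L) = c') → t ∈ X)
    {a b : ℤ × ℤ} (ha : (a.1 / L, a.2 / L) = c) (hb : (b.1 / L, b.2 / L) = c') : CPath X a b := by
  obtain ⟨cx, cy⟩ := c
  obtain ⟨cx', cy'⟩ := c'
  simp only [Prod.mk.injEq, div_iff hL] at ha hb hX
  simp only [Prod.mk.injEq, Adj4] at hcc
  obtain ⟨⟨a1, a2⟩, a3, a4⟩ := ha
  obtain ⟨⟨b1, b2⟩, b3, b4⟩ := hb
  rcases hcc with ⟨rfl, rfl⟩ | ⟨rfl, rfl | rfl⟩ | ⟨rfl, rfl | rfl⟩
  · exact CPath.rect (x1 := cx * L) (x2 := cx * L + L - 1) (y1 := cy * L) (y2 := cy * L + L - 1)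
      (fun x y h1 h2 h3 h4 => hX (x, y) (Or.inl ⟨⟨h1, by omega⟩, h3, by omega⟩))
      ⟨a1, by omega, a3, by omega⟩ ⟨b1, by omega, b3, by omega⟩
  · have e : (cy + 1) * L = cy * L + L := by ring
    rw [e] at b3 b4 hX
    refine CPath.rect (x1 := cx * L) (x2 := cx * L + L - 1) (y1 := cy * L) (y2 := cy * L + L + L - 1)
      (fun x y h1 h2 h3 h4 => hX (x, y) ?_) ⟨a1, by omega, a3, by omega⟩ ⟨b1, by omega, by omega, by omega⟩
    rcases lt_or_ge y (cy * L + L) with h5 | h5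
    · exact Or.inl ⟨⟨h1, by omega⟩, h3, h5⟩
    · exact Or.inr ⟨⟨h1, by omega⟩, h5, by omega⟩
  · have e : (cy' + 1) * L = cy' * L + L := by ring
    rw [e] at a3 a4 hX
    refine CPath.rect (x1 := cx * L) (x2 := cx * L + L - 1) (y1 := cy' * L) (y2 := cy' * L + L + L - 1)
      (fun x y h1 h2 h3 h4 => hX (x, y) ?_) ⟨a1, by omega, by omega, by omega⟩ ⟨b1, by omega, by omega, by omega⟩
    rcases lt_or_ge y (cy' * L + L) with h5 | h5
    · exact Or.inr ⟨⟨h1, by omega⟩, h3, h5⟩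
    · exact Or.inl ⟨⟨h1, by omega⟩, h5, by omega⟩
  · have e : (cx + 1) * L = cx * L + L := by ring
    rw [e] at b1 b2 hX
    refine CPath.rect (x1 := cx * L) (x2 := cx * L + L + L - 1) (y1 := cy * L) (y2 := cy * L + L - 1)
      (fun x y h1 h2 h3 h4 => hX (x, y) ?_) ⟨a1, by omega, a3, by omega⟩ ⟨by omega, by omega, b3, by omega⟩
    rcases lt_or_ge x (cx * L + L) with h5 | h5
    · exact Or.inl ⟨⟨h1, h5⟩, h3, by omega⟩
    · exact Or.inr ⟨⟨h5, by omega⟩, h3, by omega⟩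
  · have e : (cx' + 1) * L = cx' * L + L := by ring
    rw [e] at a1 a2 hX
    refine CPath.rect (x1 := cx' * L) (x2 := cx' * L + L + L - 1) (y1 := cy * L) (y2 := cy * L + L - 1)
      (fun x y h1 h2 h3 h4 => hX (x, y) ?_) ⟨by omega, by omega, a3, by omega⟩ ⟨b1, by omega, b3, by omega⟩
    rcases lt_or_ge x (cx' * L + L) with h5 | h5
    · exact Or.inr ⟨⟨h1, h5⟩, h3, by omega⟩
    · exact Or.inl ⟨⟨h5, by omega⟩, h3, by omega⟩

/-- lifting of macroscopic paths -/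
lemma lift_path (hL : 0 < L) {Y : Set (ℤ × ℤ)} {X : Set (ℤ × ℤ)}
    (hX : ∀ t : ℤ × ℤ, (t.1 / L, t.2 / L) ∈ Y → t ∈ X) {c c' : ℤ × ℤ} (h : CPath Y c c')
    (hc : c ∈ Y) {a b : ℤ × ℤ} (ha : (a.1 / L, a.2 / L) = c) (hb : (b.1 / L, b.2 / L) = c') :
    CPath X a b := by
  induction h generalizing b with
  | refl =>
    refine cell_path hL (Or.inl rfl) (fun t ht => hX t ?_) ha hb
    rcases ht with ht | ht <;> rw [ht] <;> exact hc
  | @tail d e _ h2 ih =>
    have hd : ((d.1 * L) / L, (d.2 * L) / L) = d := by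
      rw [Int.mul_ediv_cancel _ hL.ne', Int.mul_ediv_cancel _ hL.ne']
    refine (ih (b := (d.1 * L, d.2 * L)) hd).trans ?_
    refine cell_path hL (Or.inr h2.1) (fun t ht => hX t ?_) hd hb
    rcases ht with ht | ht <;> rw [ht]
    · exact h2.2.1
    · exact h2.2.2

theorem D_Conn (M : Mac) (hL : 0 < L) : (full (D M.F L)).Conn := by
  refine full_Conn fun a ha b hb => ?_
  rw [mem_D hL] at ha hb
  refine lift_path hL (Y := {t | t ∈ M.F}) (fun t ht => ?_) (M.conn _ ha _ hb) ha rfl rfl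
  exact (mem_D hL t).2 ht

/-- tiles outside `D F L` are joined outside `D F L` -/
lemma D_cpath (M : Mac) (hL : 0 < L) {a b : ℤ × ℤ} (ha : a ∉ D M.F L) (hb : b ∉ D M.F L) :
    CPath {t | t ∉ D M.F L} a b := by
  rw [mem_D hL] at ha hb
  refine lift_path hL (Y := {t | t ∉ M.F}) (fun t ht => ?_) (M.cconn _ ha _ hb) ha rfl rfl
  exact fun h => ht ((mem_D hL t).1 h)

lemma exists_top (A : Finset (ℤ × ℤ)) : ∃ y : ℤ, ∀ t ∈ A, t.2 < y := by
  obtain ⟨m, hm⟩ := (A.image Prod.snd).bddAbove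
  exact ⟨m + 1, fun p hp => Int.lt_add_one_iff.2 (hm (by simpa using ⟨p.1, hp⟩))⟩

theorem D_SC (M : Mac) (hL : 0 < L) : (full (D M.F L)).SC := by
  refine full_SC fun c hc => ?_
  obtain ⟨y, hy⟩ := exists_top (D M.F L)
  refine ⟨(0, y), D_cpath M hL hc fun h => ?_, fun t ht => (hy t ht).le⟩
  exact lt_irrefl _ (hy _ h)

end mac

end Crest.Agent.R158.Xr249
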