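import Crest.Agent.R158.Pt5_266
import Crest.Agent.R158.Xr8_249

/-!
# R158, patches (helper266), file Pt6: fully glued regions, components, chains in coordinates

* `Hole A` : the complement of `A` is 4-connected to infinity
* `fgl A` : glueing of `full A` on tile ports: `(t, d) ~ (t + dir d, d + 2)`, both tiles in `A`
* `FFree A x` : `x.1 ∈ A`, `x.1 + dir x.2 ∉ A`
* **`full_end`, `full_both`, `full_loop`** : the patch theorem for `full A` without connectedness
* `nx_convex`, `nx_flat`, `nx_reflex`, `chain_flat`, `chain_convex`, `chain_reflex`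
-/

set_option autoImplicit false
set_option linter.unusedVariables false
set_option linter.unusedSectionVars false
set_option linter.unusedSimpArgs false

noncomputable section

namespace Crest.Agent.R158.Pt266

open Crest.Agent.R158.Sw300
open Crest.Agent.R158.Xr249 (rot rot_some rot_none Nx Reg full CPath full_SC full_Conn)
open Crest.Agent.R158.Env664 (Adj4)

/-- the complement of `A` is 4-connected to infinity -/
def Hole (A : Finset (ℤ × ℤ)) : Prop :=
  ∀ c ∉ A, ∃ d, CPath {t | t ∉ A} c d ∧ ∀ t ∈ A, t.2 ≤ d.2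

/-- free sides of `A` -/
def FFree (A : Finset (ℤ × ℤ)) (x : (ℤ × ℤ) × ZMod 4) : Prop := x.1 ∈ A ∧ x.1 + dir x.2 ∉ A

lemma gl_full {A : Finset (ℤ × ℤ)} {t : ℤ × ℤ} {d : ZMod 4} {q : Port (ℤ × ℤ)} :
    (full A).gl (some (t, d)) q ↔ t ∈ A ∧ t + dir d ∈ A ∧ q = some (t + dir d, d + 2) := by
  have h02 : (0 : ZMod 4) + 2 = 2 := by decide
  have h12 : (1 : ZMod 4) + 2 = 3 := by decide
  have h22 : (2 : ZMod 4) + 2 = 0 := by decide
  have h32 : (3 : ZMod 4) + 2 = 1 := by decide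
  have n01 : (0 : ZMod 4) ≠ 1 := by decide
  have n02 : (0 : ZMod 4) ≠ 2 := by decide
  have n03 : (0 : ZMod 4) ≠ 3 := by decide
  have n12 : (1 : ZMod 4) ≠ 2 := by decide
  have n13 : (1 : ZMod 4) ≠ 3 := by decide
  have n23 : (2 : ZMod 4) ≠ 3 := by decide
  rcases t with ⟨x, y⟩
  rcases Xr249.Reg.d4 d with rfl | rfl | rfl | rfl
  · rw [Xr249.Reg.gl_0, Xr249.full_h]
    simp only [dir, if_pos, h02, Prod.mk_add_mk, add_zero, sub_add_cancel, Int.sub_eq_add_neg,
      neg_add_cancel_right]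
    tauto
  · rw [Xr249.Reg.gl_1, Xr249.full_v]
    simp only [dir, if_neg n01.symm, if_pos, h12, Prod.mk_add_mk, add_zero]
    tauto
  · rw [Xr249.Reg.gl_2, Xr249.full_h]
    simp only [dir, if_neg n02.symm, if_neg n12.symm, if_pos, h22, Prod.mk_add_mk, add_zero]
    tauto
  · rw [Xr249.Reg.gl_3, Xr249.full_v]
    simp only [dir, if_neg n03.symm, if_neg n13.symm, if_neg n23.symm, h32, Prod.mk_add_mk,
      add_zero, sub_add_cancel, Int.sub_eq_add_neg, neg_add_cancel_right]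
    tauto

lemma rg_full {A : Finset (ℤ × ℤ)} {a b : (ℤ × ℤ) × ZMod 4} :
    RG (full A) a b ↔ a.1 ∈ A ∧ a.1 + dir a.2 ∈ A ∧ b = (a.1 + dir a.2, a.2 + 2) := by
  rcases a with ⟨t, d⟩
  unfold RG
  rw [gl_full]
  simp

lemma rfree_full {A : Finset (ℤ × ℤ)} {x : (ℤ × ℤ) × ZMod 4} : RFree (full A) x ↔ FFree A x := by
  unfold RFree FFree Fr
  simp only [rg_full, Xr249.full_P]
  constructor
  · rintro ⟨h1, h2⟩
    exact ⟨h1, fun h3 => h2 _ ⟨h1, h3, rfl⟩⟩
  · rintro ⟨h1, h2⟩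
    exact ⟨h1, fun b hb => h2 hb.2.1⟩

lemma adj_dir (t : ℤ × ℤ) (d : ZMod 4) : Adj4 t (t + dir d) := by
  rcases t with ⟨x, y⟩
  have n01 : (0 : ZMod 4) ≠ 1 := by decide
  have n02 : (0 : ZMod 4) ≠ 2 := by decide
  have n03 : (0 : ZMod 4) ≠ 3 := by decide
  have n12 : (1 : ZMod 4) ≠ 2 := by decide
  have n13 : (1 : ZMod 4) ≠ 3 := by decide
  have n23 : (2 : ZMod 4) ≠ 3 := by decide
  rcases Xr249.Reg.d4 d with rfl | rfl | rfl | rfl
  · simp [dir, Adj4]
  · simp [dir, Adj4, n01.symm]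
  · simp [dir, Adj4, n02.symm, n12.symm]
  · simp [dir, Adj4, n03.symm, n13.symm, n23.symm]

/-! ### components -/

open Classical in
/-- the component of `v` in `A` -/
def comp (A : Finset (ℤ × ℤ)) (v : ℤ × ℤ) : Finset (ℤ × ℤ) :=
  A.filter fun t => CPath {t | t ∈ A} v t

lemma mem_comp {A : Finset (ℤ × ℤ)} {v t : ℤ × ℤ} :
    t ∈ comp A v ↔ t ∈ A ∧ CPath {t | t ∈ A} v t := by
  classical
  simp [comp]

lemma comp_sub {A : Finset (ℤ × ℤ)} {v : ℤ × ℤ} : comp A v ⊆ A := fun _ h => (mem_comp.1 h).1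

lemma comp_adj {A : Finset (ℤ × ℤ)} {v t u : ℤ × ℤ} (ht : t ∈ comp A v) (hu : u ∈ A)
    (h : Adj4 t u) : u ∈ comp A v := by
  obtain ⟨h1, h2⟩ := mem_comp.1 ht
  exact mem_comp.2 ⟨hu, h2.trans (CPath.step h h1 hu)⟩

lemma comp_dir {A : Finset (ℤ × ℤ)} {v t : ℤ × ℤ} {d : ZMod 4} (ht : t ∈ comp A v) :
    t + dir d ∈ comp A v ↔ t + dir d ∈ A :=
  ⟨fun h => comp_sub h, fun h => comp_adj ht h (adj_dir t d)⟩

lemma comp_path {A : Finset (ℤ × ℤ)} {v t : ℤ × ℤ} (hv : v ∈ A)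
    (h : CPath {t | t ∈ A} v t) : CPath {t | t ∈ comp A v} v t := by
  induction h with
  | refl => exact .refl
  | tail h1 h2 ih =>
    refine .tail ih ⟨h2.1, ?_, ?_⟩
    · exact mem_comp.2 ⟨h2.2.1, h1⟩
    · exact mem_comp.2 ⟨h2.2.2, h1.tail h2⟩

lemma comp_conn {A : Finset (ℤ × ℤ)} {v : ℤ × ℤ} (hv : v ∈ A) : (full (comp A v)).Conn := by
  refine full_Conn fun a ha b hb => ?_
  exact (comp_path hv (mem_comp.1 ha).2).symm.trans (comp_path hv (mem_comp.1 hb).2)

lemma comp_sc {A : Finset (ℤ × ℤ)} (hA : Hole A) (v : ℤ × ℤ) : (full (comp A v)).SC := by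
  refine full_SC fun c hc => ?_
  have hsub : {t : ℤ × ℤ | t ∉ A} ⊆ {t | t ∉ comp A v} := by
    intro t ht h
    exact ht (comp_sub h)
  -- go up from `c` until we leave `A`
  by_cases hcA : c ∈ A
  · obtain ⟨N, hN⟩ : ∃ N : ℕ, ∀ t ∈ A, t.2 < c.2 + N := by
      obtain ⟨y, hy⟩ := Xr249.exists_top A
      exact ⟨(y - c.2).toNat, fun t ht => by have := hy t ht; omega⟩
    have hex : ∃ n : ℕ, (c.1, c.2 + n) ∉ A := ⟨N, fun h => by
      have := hN _ h
      simp only at this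
      omega⟩
    classical
    have h1 := Nat.find_spec hex
    have h2 := fun j => Nat.find_min hex (m := j)
    set n := Nat.find hex
    -- the tiles below level `n` are in `A` but not in the component
    have h3 : ∀ j : ℕ, j < n → (c.1, c.2 + j) ∈ A ∧ (c.1, c.2 + j) ∉ comp A v := by
      intro j
      induction j with
      | zero =>
        intro _
        refine ⟨by simpa using hcA, by simpa using hc⟩
      | succ j ih =>
        intro hj
        have h4 := h2 _ hj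
        push Not at h4
        refine ⟨h4, fun h5 => ?_⟩
        have h6 := ih (by omega)
        refine h6.2 (comp_adj h5 h6.1 ?_)
        refine Or.inl ⟨rfl, Or.inr ?_⟩
        push_cast
        ring
    have hpath : CPath {t | t ∉ comp A v} c (c.1, c.2 + n) := by
      have : CPath {t | t ∉ comp A v} (c.1, c.2) (c.1, c.2 + n) := by
        refine CPath.ver (by omega) fun y hy1 hy2 => ?_
        obtain ⟨j, rfl⟩ := Int.le.dest hy1
        by_cases hj : j < n
        · exact (h3 j hj).2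
        · have : j = n := by omega
          subst this
          exact fun h => h1 (comp_sub h)
      exact this
    obtain ⟨d, hd1, hd2⟩ := hA _ h1
    exact ⟨d, hpath.trans (hd1.mono hsub), fun t ht => hd2 t (comp_sub ht)⟩
  · obtain ⟨d, hd1, hd2⟩ := hA c hcA
    exact ⟨d, hd1.mono hsub, fun t ht => hd2 t (comp_sub ht)⟩

section

variable {A : Finset (ℤ × ℤ)} {s : ℤ × ℤ → Bool}

lemma wk_comp {v : ℤ × ℤ} {x y : (ℤ × ℤ) × ZMod 4} {k : List ((ℤ × ℤ) × ZMod 4)}
    (h : Wk s (RG (full A)) x y k) (hx : x.1 ∈ comp A v) :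
    Wk s (RG (full (comp A v))) x y k ∧ y.1 ∈ comp A v := by
  induction h with
  | one => exact ⟨.one, hx⟩
  | @snoc q r l h1 h2 ih =>
    obtain ⟨h3, h4⟩ := ih
    rw [rg_full] at h2
    obtain ⟨-, h5, rfl⟩ := h2
    have h6 := (comp_dir (d := q.2) h4).2 h5
    exact ⟨h3.snoc (rg_full.2 ⟨h4, h6, rfl⟩), h6⟩

lemma wk_uncomp {v : ℤ × ℤ} {x y : (ℤ × ℤ) × ZMod 4} {k : List ((ℤ × ℤ) × ZMod 4)}
    (h : Wk s (RG (full (comp A v))) x y k) : Wk s (RG (full A)) x y k :=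
  h.mono fun a b hab => by
    rw [rg_full] at hab ⊢
    exact ⟨comp_sub hab.1, comp_sub hab.2.1, hab.2.2⟩

lemma ffree_comp {v : ℤ × ℤ} {x : (ℤ × ℤ) × ZMod 4} (hx : x.1 ∈ comp A v) :
    FFree (comp A v) x ↔ FFree A x := by
  unfold FFree
  rw [comp_dir hx]
  exact ⟨fun h => ⟨comp_sub hx, h.2⟩, fun h => ⟨hx, h.2⟩⟩

lemma nxT_comp {v : ℤ × ℤ} {p q : Port (ℤ × ℤ)} {k : ℤ} (h : NxT (full A).gl p q k) :
    ∀ {x : (ℤ × ℤ) × ZMod 4}, p = some x → x.1 ∈ comp A v →
      NxT (full (comp A v)).gl p q k ∧ ∀ y, q = some y → y.1 ∈ comp A v := by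
  induction h with
  | @stop p h =>
    rintro ⟨t, d⟩ rfl hx
    refine ⟨.stop fun q hq => ?_, ?_⟩
    · rw [rot_some, gl_full] at hq
      exact h (some (t + dir (d + 1), d + 1 + 2)) (by
        rw [rot_some, gl_full]
        exact ⟨comp_sub hq.1, comp_sub hq.2.1, rfl⟩)
    · rintro y hy
      rw [rot_some] at hy
      obtain rfl := Option.some.inj hy
      exact hx
  | @go p q r k h1 h2 ih =>
    rintro ⟨t, d⟩ rfl hx
    rw [rot_some, gl_full] at h1
    obtain ⟨h3, h4, rfl⟩ := h1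
    have h5 : t + dir (d + 1) ∈ comp A v := (comp_dir hx).2 h4
    obtain ⟨h6, h7⟩ := ih rfl h5
    refine ⟨.go ?_ h6, h7⟩
    rw [rot_some, gl_full]
    exact ⟨hx, h5, rfl⟩

lemma cwC_comp {v : ℤ × ℤ} {x y : (ℤ × ℤ) × ZMod 4} {D : ℤ} {m : List ((ℤ × ℤ) × ZMod 4)}
    (h : CwC (full A).gl x y D m) (hx : x.1 ∈ comp A v) :
    CwC (full (comp A v)).gl x y D m := by
  induction h with
  | one h1 => exact .one (nxT_comp h1 rfl hx).1
  | cons h1 _ ih =>
    obtain ⟨h2, h3⟩ := nxT_comp h1 rfl hx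
    exact .cons h2 (ih (h3 _ rfl))

/-- **every strand of `full A` from a free side ends at another free side** -/
theorem full_end (hA : Hole A) (s : ℤ × ℤ → Bool) {x : (ℤ × ℤ) × ZMod 4} (hx : FFree A x) :
    ∃ y l, Wk s (RG (full A)) x y l ∧ FFree A y ∧ y ≠ x := by
  have hxc : x.1 ∈ comp A x.1 := mem_comp.2 ⟨hx.1, .refl⟩
  obtain ⟨y, l, h1, h2, h3⟩ := patch_end (comp_sc hA x.1) (comp_conn hx.1) s
    (rfree_full.2 ((ffree_comp hxc).2 hx))
  rw [rfree_full] at h2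
  exact ⟨y, l, wk_uncomp h1, (ffree_comp h2.1).1 h2, h3⟩

/-- **turning and non-crossing in `full A`** -/
theorem full_both (hA : Hole A) {x y : (ℤ × ℤ) × ZMod 4} {k m : List ((ℤ × ℤ) × ZMod 4)} {D : ℤ}
    (hx : FFree A x) (hy : FFree A y) (hw : Wk s (RG (full A)) x y k)
    (hch : CwC (full A).gl x y D m) (hxy : y ≠ x) (hxm : x ∉ m) :
    tt s k = D - 2 ∧ ∀ z ∈ m, ∃ z' ∈ m, ∃ k', Wk s (RG (full A)) z z' k' := by
  have hxc : x.1 ∈ comp A x.1 := mem_comp.2 ⟨hx.1, .refl⟩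
  obtain ⟨hw', hyc⟩ := wk_comp hw hxc
  obtain ⟨h1, h2⟩ := patch_both (comp_sc hA x.1) (comp_conn hx.1)
    (rfree_full.2 ((ffree_comp hxc).2 hx)) (rfree_full.2 ((ffree_comp hyc).2 hy)) hw'
    (cwC_comp hch hxc) hxy hxm
  refine ⟨h1, fun z hz => ?_⟩
  obtain ⟨z', hz', k', hk'⟩ := h2 z hz
  exact ⟨z', hz', k', wk_uncomp hk'⟩

/-- **closed strands of `full A`** -/
theorem full_loop (hA : Hole A) {k : List ((ℤ × ℤ) × ZMod 4)} (h : Cl s (RG (full A)) k)
    (hP : ∀ p ∈ k, p.1 ∈ A) : tt s k = 4 ∨ tt s k = -4 := by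
  obtain ⟨hn, x, y, h1, h2⟩ := h
  have hx : x.1 ∈ A := hP _ h1.mem_left
  have hxc : x.1 ∈ comp A x.1 := mem_comp.2 ⟨hx, .refl⟩
  obtain ⟨hw', hyc⟩ := wk_comp h1 hxc
  have h3 : RG (full (comp A x.1)) y x := by
    rw [rg_full] at h2 ⊢
    exact ⟨hyc, (comp_dir hyc).2 h2.2.1, h2.2.2⟩
  refine patch_loop (comp_sc hA x.1) (comp_conn hx) ⟨hn, x, y, hw', h3⟩ ?_
  -- all the tiles are in the component
  have key : ∀ {q : (ℤ × ℤ) × ZMod 4} {l : List ((ℤ × ℤ) × ZMod 4)},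
      Wk s (RG (full (comp A x.1))) x q l → ∀ p ∈ l, p.1 ∈ comp A x.1 := by
    intro q l h
    induction h with
    | one => intro p hp; rw [List.mem_singleton] at hp; rw [hp]; exact hxc
    | @snoc q r l h1 h2 ih =>
      intro p hp
      rcases List.mem_append.1 hp with hp | hp
      · exact ih p hp
      · rw [List.mem_singleton] at hp
        rw [hp]
        rw [rg_full] at h2
        rw [h2.2.2]
        exact h2.2.1
  exact key hw'

/-! ### chains in coordinates -/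

/-- convex corner -/
lemma nx_convex {t : ℤ × ℤ} {d : ZMod 4} (h : t + dir (d + 1) ∉ A) :
    NxT (full A).gl (some (t, d)) (some (t, d + 1)) 1 := by
  have := NxT.stop (G := (full A).gl) (p := some (t, d)) (by
    rw [rot_some]
    intro q hq
    rw [gl_full] at hq
    exact h hq.2.1)
  rwa [rot_some] at this

lemma dd (d : ZMod 4) : d + 1 + 2 + 1 = d ∧ d + 2 + 1 = d + 3 ∧ d + 3 + 2 = d + 1 ∧
    d + 1 + 1 = d + 2 ∧ d + 3 + 1 = d ∧ d + 2 + 2 = d := by
  revert d; decide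

/-- flat step -/
lemma nx_flat {t : ℤ × ℤ} {d : ZMod 4} (h0 : t ∈ A) (h1 : t + dir (d + 1) ∈ A)
    (h2 : t + dir (d + 1) + dir d ∉ A) :
    NxT (full A).gl (some (t, d)) (some (t + dir (d + 1), d)) 0 := by
  obtain ⟨e1, -, -, -, -, -⟩ := dd d
  have h3 := NxT.stop (G := (full A).gl) (p := some (t + dir (d + 1), d + 1 + 2)) (by
    rw [rot_some, e1]
    intro q hq
    rw [gl_full] at hq
    exact h2 hq.2.1)
  rw [rot_some, e1] at h3
  refine (NxT.go ?_ h3).cast (by ring)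
  rw [rot_some, gl_full]
  exact ⟨h0, h1, rfl⟩

/-- reflex corner -/
lemma nx_reflex {t : ℤ × ℤ} {d : ZMod 4} (h0 : t ∈ A) (h1 : t + dir (d + 1) ∈ A)
    (h2 : t + dir (d + 1) + dir d ∈ A) (h3 : t + dir d ∉ A) :
    NxT (full A).gl (some (t, d)) (some (t + dir (d + 1) + dir d, d + 3)) (-1) := by
  obtain ⟨e1, e2, -, -, -, -⟩ := dd d
  have h4 := NxT.stop (G := (full A).gl) (p := some (t + dir (d + 1) + dir d, d + 2)) (by
    rw [rot_some, e2]
    intro q hq
    rw [gl_full] at hq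
    have := hq.2.1
    rw [add_assoc (t + dir (d + 1)), add_assoc t, ← add_assoc (dir (d + 1)), dir_three] at this
    exact h3 this)
  rw [rot_some, e2] at h4
  have h5 : NxT (full A).gl (some (t + dir (d + 1), d + 1 + 2)) (some (t + dir (d + 1) + dir d,
      d + 3)) 0 := by
    refine (NxT.go ?_ h4).cast (by ring)
    rw [rot_some, e1, gl_full]
    exact ⟨h1, h2, rfl⟩
  refine (NxT.go ?_ h5).cast (by ring)
  rw [rot_some, gl_full]
  exact ⟨h0, h1, rfl⟩

/-- the ports of a flat side, in clockwise order -/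
def run (t : ℤ × ℤ) (d : ZMod 4) (i : ℕ) : (ℤ × ℤ) × ZMod 4 := (t + i • dir (d + 1), d)

/-- flat side: all the ports `run t d i`, `i ≤ n`, are free sides of `A` -/
def FRun (A : Finset (ℤ × ℤ)) (t : ℤ × ℤ) (d : ZMod 4) (n : ℕ) : Prop :=
  ∀ i ≤ n, t + i • dir (d + 1) ∈ A ∧ t + i • dir (d + 1) + dir d ∉ A

lemma FRun.mono {t : ℤ × ℤ} {d : ZMod 4} {n n' : ℕ} (h : FRun A t d n) (hn : n' ≤ n) :
    FRun A t d n' := fun i hi => h i (hi.trans hn)

/-- clockwise walk along the boundary: the list contains the ports after `x`, up to `y` -/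
inductive CwR (G : Port (ℤ × ℤ) → Port (ℤ × ℤ) → Prop) :
    (ℤ × ℤ) × ZMod 4 → (ℤ × ℤ) × ZMod 4 → ℤ → List ((ℤ × ℤ) × ZMod 4) → Prop
  | nil (x : (ℤ × ℤ) × ZMod 4) : CwR G x x 0 []
  | cons {x z y : (ℤ × ℤ) × ZMod 4} {k D : ℤ} {l : List ((ℤ × ℤ) × ZMod 4)} :
      NxT G (some x) (some z) k → CwR G z y D l → CwR G x y (k + D) (z :: l)

lemma CwR.cast {G : Port (ℤ × ℤ) → Port (ℤ × ℤ) → Prop} {x y : (ℤ × ℤ) × ZMod 4} {D D' : ℤ}
    {l : List ((ℤ × ℤ) × ZMod 4)} (h : CwR G x y D l) (e : D = D') : CwR G x y D' l := e ▸ h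

lemma CwR.trans {G : Port (ℤ × ℤ) → Port (ℤ × ℤ) → Prop} {x z y : (ℤ × ℤ) × ZMod 4} {D D' : ℤ}
    {l l' : List ((ℤ × ℤ) × ZMod 4)} (h : CwR G x z D l) (h' : CwR G z y D' l') :
    CwR G x y (D + D') (l ++ l') := by
  induction h with
  | nil => exact h'.cast (by ring)
  | cons h2 _ ih => exact (CwR.cons h2 (ih h')).cast (by ring)

lemma CwR.one {G : Port (ℤ × ℤ) → Port (ℤ × ℤ) → Prop} {x y : (ℤ × ℤ) × ZMod 4} {k : ℤ}
    (h : NxT G (some x) (some y) k) : CwR G x y k [y] :=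
  (CwR.cons h (.nil _)).cast (by ring)

lemma CwR.toC {G : Port (ℤ × ℤ) → Port (ℤ × ℤ) → Prop} {x y : (ℤ × ℤ) × ZMod 4} {D : ℤ}
    {l : List ((ℤ × ℤ) × ZMod 4)} (h : CwR G x y D l) (hl : l ≠ []) :
    CwC G x y D l.dropLast ∧ l.getLast? = some y := by
  induction h with
  | nil => exact absurd rfl hl
  | @cons x z y k D l h1 h2 ih =>
    cases h2 with
    | nil => exact ⟨(CwC.one h1).cast (by ring), rfl⟩
    | @cons _ z' _ k' D' l' h3 h4 =>
      obtain ⟨h5, h6⟩ := ih (by simp)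
      refine ⟨?_, by simpa using h6⟩
      rw [List.dropLast_cons_of_ne_nil (by simp)]
      exact .cons h1 h5

/-- the ports of a flat side after the first one -/
def runL (t : ℤ × ℤ) (d : ZMod 4) (n : ℕ) : List ((ℤ × ℤ) × ZMod 4) :=
  (List.range n).map fun i => run t d (i + 1)

lemma mem_runL {t : ℤ × ℤ} {d : ZMod 4} {n : ℕ} {z : (ℤ × ℤ) × ZMod 4} :
    z ∈ runL t d n ↔ ∃ i, 0 < i ∧ i ≤ n ∧ z = run t d i := by
  simp only [runL, List.mem_map, List.mem_range]
  constructor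
  · rintro ⟨i, hi, rfl⟩
    exact ⟨i + 1, by omega, by omega, rfl⟩
  · rintro ⟨i, h1, h2, rfl⟩
    exact ⟨i - 1, by omega, by rw [Nat.sub_add_cancel h1]⟩

/-- **flat chain** -/
lemma chain_flat {t : ℤ × ℤ} {d : ZMod 4} {n : ℕ} (h : FRun A t d n) :
    CwR (full A).gl (run t d 0) (run t d n) 0 (runL t d n) := by
  induction n with
  | zero => exact .nil _
  | succ n ih =>
    have h1 := ih (h.mono (by omega))
    have h2 := h n (by omega)
    have h3 := h (n + 1) le_rfl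
    have e : t + (n + 1) • dir (d + 1) = t + n • dir (d + 1) + dir (d + 1) := by
      rw [succ_nsmul, add_assoc]
    rw [e] at h3
    have h4 : NxT (full A).gl (some (run t d n)) (some (run t d (n + 1))) 0 := by
      have := nx_flat (t := t + n • dir (d + 1)) (d := d) h2.1 h3.1 h3.2
      unfold run
      rw [e]
      exact this
    have h5 := (h1.trans (.one h4)).cast (add_zero 0)
    have e2 : runL t d (n + 1) = runL t d n ++ [run t d (n + 1)] := by
      simp [runL, List.range_succ]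
    rw [e2]
    exact h5

lemma run_zero (t : ℤ × ℤ) (d : ZMod 4) : run t d 0 = (t, d) := by simp [run]

/-- **chain around a convex corner** -/
lemma chain_convex {t : ℤ × ℤ} {d : ZMod 4} {n j : ℕ} (h : FRun A t d n)
    (hc : t + n • dir (d + 1) + dir (d + 1) ∉ A)
    (h' : FRun A (t + n • dir (d + 1)) (d + 1) j) :
    CwR (full A).gl (run t d 0) (run (t + n • dir (d + 1)) (d + 1) j) 1
      (runL t d n ++ (t + n • dir (d + 1), d + 1) :: runL (t + n • dir (d + 1)) (d + 1) j) := by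
  have h1 := chain_flat h
  have h2 : NxT (full A).gl (some (run t d n)) (some (t + n • dir (d + 1), d + 1)) 1 :=
    nx_convex hc
  have h3 := chain_flat h'
  rw [run_zero] at h3
  exact (h1.trans (.cons h2 h3)).cast (by ring)

/-- **chain around a reflex corner** -/
lemma chain_reflex {t : ℤ × ℤ} {d : ZMod 4} {n j : ℕ} (h : FRun A t d n)
    (hc : t + n • dir (d + 1) + dir (d + 1) ∈ A)
    (h' : FRun A (t + n • dir (d + 1) + dir (d + 1) + dir d) (d + 3) j) :
    CwR (full A).gl (run t d 0) (run (t + n • dir (d + 1) + dir (d + 1) + dir d) (d + 3) j) (-1)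
      (runL t d n ++ (t + n • dir (d + 1) + dir (d + 1) + dir d, d + 3) ::
        runL (t + n • dir (d + 1) + dir (d + 1) + dir d) (d + 3) j) := by
  have h1 := chain_flat h
  have h4 := h n le_rfl
  have h5 := (h' 0 (Nat.zero_le _)).1
  rw [zero_nsmul, add_zero] at h5
  have h2 : NxT (full A).gl (some (run t d n))
      (some (t + n • dir (d + 1) + dir (d + 1) + dir d, d + 3)) (-1) :=
    nx_reflex h4.1 hc h5 h4.2
  have h3 := chain_flat h'
  rw [run_zero] at h3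
  exact (h1.trans (.cons h2 h3)).cast (by ring)

end

end Crest.Agent.R158.Pt266
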