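import Crest.Agent.R158.Xr12_249

/-!
# R158, block XR (helper249), file Xr13: glueings in the charts of `G^(z)`

* **`eD_glue`** : for ports `a`, `b` of `Dp` (leg included): glued in `Dp` iff their images are glued in
  `G^(z)`
* **`eS_glue`** : the same for a rectangle of the strip
-/

set_option autoImplicit false
set_option linter.unusedVariables false

noncomputable section

namespace Crest.Agent.R158.Xr249

open Env664 (Adj4 Mac D mem_D div_iff PortOf portOf_some portOf_none res nbP beP nbD beD IsWord Run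
  CutAdj lowT upT Band TG)

section chart

variable {A : Finset (ℤ × ℤ)} {B : Band A} {p y0 k : ℤ}

/-- images of tiles of `Dp` in the strip -/
lemma img_inr (hf : Free A B.xl B.xr B.y1 B.y2 k) {t : ℤ × ℤ} {i y : ℤ}
    (h : t ∈ Dp A B.xl B.xr B.y1 B.y2 k) (e : eD B y0 k t = Sum.inr (i, y)) :
    (B.y1 ≤ y ∧ y < B.y2) ∧ ((0 ≤ i ∧ i < k) ∨ (B.wd y0 y - k ≤ i ∧ i < B.wd y0 y)) := by
  obtain ⟨x', y'⟩ := t
  rcases Dp_cases hf h with ⟨h1, h2, h3⟩ | ⟨-, h2⟩ | ⟨-, h2⟩
  · rw [eD_in h2 h3] at e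
    exact absurd e (by simp)
  · rw [eD_r h2] at e
    have := Sum.inr_injective e
    simp only [Prod.mk.injEq] at this
    obtain ⟨rfl, rfl⟩ := this
    exact ⟨h2.1, Or.inl ⟨by omega, by omega⟩⟩
  · rw [eD_l hf.le h2] at e
    have := Sum.inr_injective e
    simp only [Prod.mk.injEq] at this
    obtain ⟨rfl, rfl⟩ := this
    exact ⟨h2.1, Or.inr ⟨by omega, by omega⟩⟩

/-- images of tiles of `Dp` in the domain -/
lemma img_inl (hf : Free A B.xl B.xr B.y1 B.y2 k) {t t' : ℤ × ℤ}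
    (h : t ∈ Dp A B.xl B.xr B.y1 B.y2 k) (e : eD B y0 k t = Sum.inl t') : t' ∈ A := by
  obtain ⟨x', y'⟩ := t
  rcases Dp_cases hf h with ⟨h1, h2, h3⟩ | ⟨-, h2⟩ | ⟨-, h2⟩
  · rw [eD_in h2 h3] at e
    rw [← Sum.inl_injective e]
    exact h1
  · rw [eD_r h2] at e
    exact absurd e (by simp)
  · rw [eD_l hf.le h2] at e
    exact absurd e (by simp)

/-- tiles of `A` are mapped to themselves -/
lemma eD_A (hf : Free A B.xl B.xr B.y1 B.y2 k) {x y : ℤ} (h : (x, y) ∈ A) :
    eD B y0 k (x, y) = Sum.inl (x, y) := by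
  refine eD_in ?_ ?_
  · rintro ⟨⟨g1, g2⟩, g3, g4⟩
    exact hf.right x y g3 (by omega) (by omega) (by omega) h
  · rintro ⟨⟨g1, g2⟩, g3, g4⟩
    exact hf.left x y g4 (by omega) (by omega) (by omega) h

/-- either the neighbour is in `Dp` and the chart respects it, or the neighbour of the image is not in
the image -/
def Nice (B : Band A) (p y0 k : ℤ) (a : Port (ℤ × ℤ)) : Prop :=
  (PortOf (Dp A B.xl B.xr B.y1 B.y2 k) (nbD p y0 (B.xr + k) a) ∧
    pm (eD B y0 k) (nbD p y0 (B.xr + k) a) = B.nbG p y0 (pm (eD B y0 k) a)) ∨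
  (¬ PortOf (Dp A B.xl B.xr B.y1 B.y2 k) (nbD p y0 (B.xr + k) a) ∧
    ∀ b, PortOf (Dp A B.xl B.xr B.y1 B.y2 k) b → pm (eD B y0 k) b ≠ B.nbG p y0 (pm (eD B y0 k) a))

lemma nice_in {a : Port (ℤ × ℤ)} {t : ℤ × ℤ} {d : ZMod 4} {t' : TG}
    (h1 : nbD p y0 (B.xr + k) a = some (t, d)) (h2 : t ∈ Dp A B.xl B.xr B.y1 B.y2 k)
    (h3 : eD B y0 k t = t') (h4 : B.nbG p y0 (pm (eD B y0 k) a) = some (t', d)) : Nice B p y0 k a := by
  refine Or.inl ⟨?_, ?_⟩
  · rw [h1, portOf_some]; exact h2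
  · rw [h1, h4, pm_some, h3]

lemma nice_out_inl (hf : Free A B.xl B.xr B.y1 B.y2 k) {a : Port (ℤ × ℤ)} {t : ℤ × ℤ} {d : ZMod 4}
    {t' : ℤ × ℤ} {d' : ZMod 4} (h1 : nbD p y0 (B.xr + k) a = some (t, d))
    (h2 : t ∉ Dp A B.xl B.xr B.y1 B.y2 k)
    (h4 : B.nbG p y0 (pm (eD B y0 k) a) = some (Sum.inl t', d')) (h5 : t' ∉ A) : Nice B p y0 k a := by
  refine Or.inr ⟨?_, ?_⟩
  · rw [h1, portOf_some]; exact h2
  · rintro b hb e
    rw [h4] at e
    rcases b with - | ⟨t'', d''⟩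
    · simp at e
    · rw [pm_some] at e
      have := (Prod.mk.inj (Option.some.inj e)).1
      exact h5 (img_inl hf (portOf_some.1 hb) this)

lemma nice_out_inr (hf : Free A B.xl B.xr B.y1 B.y2 k) {a : Port (ℤ × ℤ)} {t : ℤ × ℤ} {d : ZMod 4}
    {i y : ℤ} {d' : ZMod 4} (h1 : nbD p y0 (B.xr + k) a = some (t, d))
    (h2 : t ∉ Dp A B.xl B.xr B.y1 B.y2 k)
    (h4 : B.nbG p y0 (pm (eD B y0 k) a) = some (Sum.inr (i, y), d'))
    (h5 : ¬ ((B.y1 ≤ y ∧ y < B.y2) ∧ ((0 ≤ i ∧ i < k) ∨ (B.wd y0 y - k ≤ i ∧ i < B.wd y0 y)))) :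
    Nice B p y0 k a := by
  refine Or.inr ⟨?_, ?_⟩
  · rw [h1, portOf_some]; exact h2
  · rintro b hb e
    rw [h4] at e
    rcases b with - | ⟨t'', d''⟩
    · simp at e
    · rw [pm_some] at e
      have := (Prod.mk.inj (Option.some.inj e)).1
      exact h5 (img_inr hf (portOf_some.1 hb) this)

lemma nice_leg (hf : Free A B.xl B.xr B.y1 B.y2 k) (hz : B.At p y0) : Nice B p y0 k none := by
  have hpA : (p, y0) ∈ A := (B.run y0 hz.hy1.le hz.hy2).mem p hz.hp1.le hz.hp2
  exact nice_in (t := (p, y0)) (d := 3) rfl (mem_Dp.2 (Or.inl hpA)) (eD_A hf hpA) rfl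

section dirs

variable {x y : ℤ}

lemma nice_W (hf : Free A B.xl B.xr B.y1 B.y2 k) (hR : 2 * k < B.R) (hz : B.At p y0)
    (h : (x, y) ∈ Dp A B.xl B.xr B.y1 B.y2 k) : Nice B p y0 k (some ((x, y), 0)) := by
  have hk := hf.k0
  have hw := wd_cases B y0 y
  rcases Dp_cases hf h with ⟨h1, h2, h3⟩ | ⟨h1, h2⟩ | ⟨h1, h2⟩
  · -- domain
    by_cases hc : x = B.xl ∧ B.y1 ≤ y ∧ y < B.y2
    · have hG : B.nbG p y0 (pm (eD B y0 k) (some ((x, y), 0))) = some (Sum.inr (B.wd y0 y - 1, y), 2) := by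
        rw [pm_some, eD_A hf h1]; exact B.nbG_W1 hc
      by_cases hk1 : 1 ≤ k
      · refine nice_in (t := (x - 1, y)) Env664.nbD_W
          (mem_Dp.2 (Or.inr (Or.inr ⟨⟨by omega, by omega⟩, hc.2⟩))) ?_ hG
        rw [eD_l hf.le ⟨hc.2, by omega, by omega⟩]
        congr 2; omega
      · refine nice_out_inr hf (t := (x - 1, y)) Env664.nbD_W ?_ hG (by omega)
        intro h5
        rcases Dp_cases hf h5 with ⟨g1, -, -⟩ | ⟨-, g1⟩ | ⟨-, g1⟩
        · exact hf.left (x - 1) y (by omega) (by omega) (by omega) (by omega) g1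
        · omega
        · omega
    · have hG : B.nbG p y0 (pm (eD B y0 k) (some ((x, y), 0))) = some (Sum.inl (x - 1, y), 2) := by
        rw [pm_some, eD_A hf h1]; exact B.nbG_W hc
      by_cases h5 : (x - 1, y) ∈ A
      · exact nice_in (t := (x - 1, y)) Env664.nbD_W (mem_Dp.2 (Or.inl h5)) (eD_A hf h5) hG
      · refine nice_out_inl hf (t := (x - 1, y)) Env664.nbD_W ?_ hG h5
        intro h6
        rcases Dp_cases hf h6 with ⟨g1, -, -⟩ | ⟨-, g1⟩ | ⟨-, g1⟩
        · exact h5 g1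
        · exact hf.right x y (by omega) (by omega) (by omega) (by omega) h1
        · exact hf.left x y (by omega) (by omega) (by omega) (by omega) h1
  · -- right stub
    by_cases hc : x = B.xr + 1
    · have hG : B.nbG p y0 (pm (eD B y0 k) (some ((x, y), 0))) = some (Sum.inl (B.xr, y), 2) := by
        rw [pm_some, eD_r h2, show x - B.xr - 1 = 0 by omega]; exact B.nbG_rW1
      have h5 : (x - 1, y) ∈ A := by
        rw [show x - 1 = B.xr by omega]; exact (hf.run y h2.1.1 h2.1.2).2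
      refine nice_in (t := (x - 1, y)) Env664.nbD_W (mem_Dp.2 (Or.inl h5)) ?_ hG
      rw [eD_A hf h5]; congr 2; omega
    · have hG : B.nbG p y0 (pm (eD B y0 k) (some ((x, y), 0))) =
          some (Sum.inr (x - B.xr - 1 - 1, y), 2) := by
        rw [pm_some, eD_r h2]; exact B.nbG_rW (by omega)
      refine nice_in (t := (x - 1, y)) Env664.nbD_W
        (mem_Dp.2 (Or.inr (Or.inl ⟨⟨by omega, by omega⟩, h2.1⟩))) ?_ hG
      rw [eD_r ⟨h2.1, by omega, by omega⟩]; congr 2; omega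
  · -- left stub
    have hG : B.nbG p y0 (pm (eD B y0 k) (some ((x, y), 0))) =
        some (Sum.inr (B.wd y0 y - (B.xl - x) - 1, y), 2) := by
      rw [pm_some, eD_l hf.le h2]; exact B.nbG_rW (by omega)
    by_cases hc : B.xl - k ≤ x - 1
    · refine nice_in (t := (x - 1, y)) Env664.nbD_W
        (mem_Dp.2 (Or.inr (Or.inr ⟨⟨by omega, by omega⟩, h2.1⟩))) ?_ hG
      rw [eD_l hf.le ⟨h2.1, by omega, by omega⟩]; congr 2; omega
    · refine nice_out_inr hf (t := (x - 1, y)) Env664.nbD_W ?_ hG (by omega)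
      intro h5
      rcases Dp_cases hf h5 with ⟨g1, -, -⟩ | ⟨-, g1⟩ | ⟨-, g1⟩
      · exact hf.left (x - 1) y (by omega) (by omega) (by omega) (by omega) g1
      · have := hf.le; omega
      · omega

lemma nice_E (hf : Free A B.xl B.xr B.y1 B.y2 k) (hR : 2 * k < B.R) (hz : B.At p y0)
    (h : (x, y) ∈ Dp A B.xl B.xr B.y1 B.y2 k) : Nice B p y0 k (some ((x, y), 2)) := by
  have hk := hf.k0
  have hle := hf.le
  have hw := wd_cases B y0 y
  rcases Dp_cases hf h with ⟨h1, h2, h3⟩ | ⟨h1, h2⟩ | ⟨h1, h2⟩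
  · -- domain
    by_cases hc : x = B.xr ∧ B.y1 ≤ y ∧ y < B.y2
    · have hG : B.nbG p y0 (pm (eD B y0 k) (some ((x, y), 2))) = some (Sum.inr (0, y), 0) := by
        rw [pm_some, eD_A hf h1]; exact B.nbG_E1 hc
      by_cases hk1 : 1 ≤ k
      · refine nice_in (t := (x + 1, y)) Env664.nbD_E
          (mem_Dp.2 (Or.inr (Or.inl ⟨⟨by omega, by omega⟩, hc.2⟩))) ?_ hG
        rw [eD_r ⟨hc.2, by omega, by omega⟩]
        congr 2; omega
      · refine nice_out_inr hf (t := (x + 1, y)) Env664.nbD_E ?_ hG (by omega)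
        intro h5
        rcases Dp_cases hf h5 with ⟨g1, -, -⟩ | ⟨-, g1⟩ | ⟨-, g1⟩
        · exact hf.right (x + 1) y (by omega) (by omega) (by omega) (by omega) g1
        · omega
        · omega
    · have hG : B.nbG p y0 (pm (eD B y0 k) (some ((x, y), 2))) = some (Sum.inl (x + 1, y), 0) := by
        rw [pm_some, eD_A hf h1]; exact B.nbG_E hc
      by_cases h5 : (x + 1, y) ∈ A
      · exact nice_in (t := (x + 1, y)) Env664.nbD_E (mem_Dp.2 (Or.inl h5)) (eD_A hf h5) hG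
      · refine nice_out_inl hf (t := (x + 1, y)) Env664.nbD_E ?_ hG h5
        intro h6
        rcases Dp_cases hf h6 with ⟨g1, -, -⟩ | ⟨-, g1⟩ | ⟨-, g1⟩
        · exact h5 g1
        · exact hf.right x y (by omega) (by omega) (by omega) (by omega) h1
        · exact hf.left x y (by omega) (by omega) (by omega) (by omega) h1
  · -- right stub
    have hG : B.nbG p y0 (pm (eD B y0 k) (some ((x, y), 2))) =
        some (Sum.inr (x - B.xr - 1 + 1, y), 0) := by
      rw [pm_some, eD_r h2]; exact B.nbG_rE (by omega)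
    by_cases hc : x + 1 ≤ B.xr + k
    · refine nice_in (t := (x + 1, y)) Env664.nbD_E
        (mem_Dp.2 (Or.inr (Or.inl ⟨⟨by omega, by omega⟩, h2.1⟩))) ?_ hG
      rw [eD_r ⟨h2.1, by omega, by omega⟩]; congr 2; omega
    · refine nice_out_inr hf (t := (x + 1, y)) Env664.nbD_E ?_ hG (by omega)
      intro h5
      rcases Dp_cases hf h5 with ⟨g1, -, -⟩ | ⟨-, g1⟩ | ⟨-, g1⟩
      · exact hf.right (x + 1) y (by omega) (by omega) (by omega) (by omega) g1
      · omega
      · omega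
  · -- left stub
    by_cases hc : x = B.xl - 1
    · have hG : B.nbG p y0 (pm (eD B y0 k) (some ((x, y), 2))) = some (Sum.inl (B.xl, y), 0) := by
        rw [pm_some, eD_l hf.le h2]; exact B.nbG_rE1 (by omega)
      have h5 : (x + 1, y) ∈ A := by
        rw [show x + 1 = B.xl by omega]; exact (hf.run y h2.1.1 h2.1.2).1
      refine nice_in (t := (x + 1, y)) Env664.nbD_E (mem_Dp.2 (Or.inl h5)) ?_ hG
      rw [eD_A hf h5]; congr 2; omega
    · have hG : B.nbG p y0 (pm (eD B y0 k) (some ((x, y), 2))) =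
          some (Sum.inr (B.wd y0 y - (B.xl - x) + 1, y), 0) := by
        rw [pm_some, eD_l hf.le h2]; exact B.nbG_rE (by omega)
      refine nice_in (t := (x + 1, y)) Env664.nbD_E
        (mem_Dp.2 (Or.inr (Or.inr ⟨⟨by omega, by omega⟩, h2.1⟩))) ?_ hG
      rw [eD_l hf.le ⟨h2.1, by omega, by omega⟩]; congr 2; omega

lemma nice_N (hf : Free A B.xl B.xr B.y1 B.y2 k) (hR : 2 * k < B.R) (hz : B.At p y0)
    (h : (x, y) ∈ Dp A B.xl B.xr B.y1 B.y2 k) : Nice B p y0 k (some ((x, y), 1)) := by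
  have hk := hf.k0
  have hle := hf.le
  have hw := wd_cases B y0 y
  obtain ⟨z1, z2, z3, z4⟩ := hz
  rcases Dp_cases hf h with ⟨h1, h2, h3⟩ | ⟨h1, h2⟩ | ⟨h1, h2⟩
  · -- domain
    by_cases hc : y = y0 - 1 ∧ p ≤ x ∧ x < B.xr
    · have hG : B.nbG p y0 (pm (eD B y0 k) (some ((x, y), 1))) = some (Sum.inl (x + 1, y0), 3) := by
        rw [pm_some, eD_A hf h1]; exact B.nbG_N1 hc
      have h5 : (x + 1, y0) ∈ A := (B.run y0 z1.le z2).mem _ (by omega) (by omega)
      exact nice_in (t := (x + 1, y0)) (Env664.nbD_N1 ⟨hc.1, by omega, by omega⟩)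
        (mem_Dp.2 (Or.inl h5)) (eD_A hf h5) hG
    · by_cases hc2 : y = y0 - 1 ∧ x = B.xr
      · have hG : B.nbG p y0 (pm (eD B y0 k) (some ((x, y), 1))) = some (Sum.inr (0, y0), 3) := by
          rw [pm_some, eD_A hf h1]; exact B.nbG_N2 hc2
        by_cases hk1 : 1 ≤ k
        · refine nice_in (t := (x + 1, y0)) (Env664.nbD_N1 ⟨hc2.1, by omega, by omega⟩)
            (mem_Dp.2 (Or.inr (Or.inl ⟨⟨by omega, by omega⟩, z1.le, z2⟩))) ?_ hG
          rw [eD_r ⟨⟨z1.le, z2⟩, by omega, by omega⟩]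
          congr 2; omega
        · refine nice_out_inr hf (t := (x + 1, y0)) (Env664.nbD_N1 ⟨hc2.1, by omega, by omega⟩) ?_ hG
            (by have := wd_cases B y0 y0; omega)
          intro h5
          rcases Dp_cases hf h5 with ⟨g1, -, -⟩ | ⟨-, g1⟩ | ⟨-, g1⟩
          · exact hf.right (x + 1) y0 (by omega) (by omega) (by omega) (by omega) g1
          · omega
          · omega
      · have hG : B.nbG p y0 (pm (eD B y0 k) (some ((x, y), 1))) = some (Sum.inl (x, y + 1), 3) := by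
          rw [pm_some, eD_A hf h1]; exact B.nbG_N ⟨hc, hc2⟩
        have hn : nbD p y0 (B.xr + k) (some ((x, y), 1)) = some ((x, y + 1), 3) := by
          refine Env664.nbD_N ?_
          rintro ⟨g1, g2, g3⟩
          exact hf.right x y (by omega) (by omega) (by omega) (by omega) h1
        by_cases h5 : (x, y + 1) ∈ A
        · exact nice_in (t := (x, y + 1)) hn (mem_Dp.2 (Or.inl h5)) (eD_A hf h5) hG
        · refine nice_out_inl hf (t := (x, y + 1)) hn ?_ hG h5
          intro h6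
          rcases Dp_cases hf h6 with ⟨g1, -, -⟩ | ⟨-, g1⟩ | ⟨-, g1⟩
          · exact h5 g1
          · exact hf.right x y (by omega) (by omega) (by omega) (by omega) h1
          · exact hf.left x y (by omega) (by omega) (by omega) (by omega) h1
  · -- right stub
    by_cases hc : y = y0 - 1
    · have hG : B.nbG p y0 (pm (eD B y0 k) (some ((x, y), 1))) =
          some (Sum.inr (x - B.xr - 1 + 1, y0), 3) := by
        rw [pm_some, eD_r h2]; exact B.nbG_rN1 hc
      have hn : nbD p y0 (B.xr + k) (some ((x, y), 1)) = some ((x + 1, y0), 3) :=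
        Env664.nbD_N1 ⟨hc, by omega, by omega⟩
      by_cases hc2 : x + 1 ≤ B.xr + k
      · refine nice_in (t := (x + 1, y0)) hn
          (mem_Dp.2 (Or.inr (Or.inl ⟨⟨by omega, by omega⟩, z1.le, z2⟩))) ?_ hG
        rw [eD_r ⟨⟨z1.le, z2⟩, by omega, by omega⟩]; congr 2; omega
      · refine nice_out_inr hf (t := (x + 1, y0)) hn ?_ hG (by have := wd_cases B y0 y0; omega)
        intro h5
        rcases Dp_cases hf h5 with ⟨g1, -, -⟩ | ⟨-, g1⟩ | ⟨-, g1⟩
        · exact hf.right (x + 1) y0 (by omega) (by omega) (by omega) (by omega) g1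
        · omega
        · omega
    · have hG : B.nbG p y0 (pm (eD B y0 k) (some ((x, y), 1))) =
          some (Sum.inr (x - B.xr - 1, y + 1), 3) := by
        rw [pm_some, eD_r h2]; exact B.nbG_rN hc
      have hn : nbD p y0 (B.xr + k) (some ((x, y), 1)) = some ((x, y + 1), 3) :=
        Env664.nbD_N (by omega)
      by_cases hc2 : y + 1 < B.y2
      · refine nice_in (t := (x, y + 1)) hn
          (mem_Dp.2 (Or.inr (Or.inl ⟨⟨by omega, by omega⟩, by omega, hc2⟩))) ?_ hG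
        rw [eD_r ⟨⟨by omega, hc2⟩, by omega, by omega⟩]
      · refine nice_out_inr hf (t := (x, y + 1)) hn ?_ hG (by omega)
        intro h5
        rcases Dp_cases hf h5 with ⟨g1, -, -⟩ | ⟨-, g1⟩ | ⟨-, g1⟩
        · exact hf.right x (y + 1) (by omega) (by omega) (by omega) (by omega) g1
        · omega
        · omega
  · -- left stub
    have hn : nbD p y0 (B.xr + k) (some ((x, y), 1)) = some ((x, y + 1), 3) :=
      Env664.nbD_N (by omega)
    have hw' := wd_cases B y0 (y + 1)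
    by_cases hc : y = y0 - 1
    · have hG : B.nbG p y0 (pm (eD B y0 k) (some ((x, y), 1))) =
          some (Sum.inr (B.wd y0 y - (B.xl - x) + 1, y0), 3) := by
        rw [pm_some, eD_l hf.le h2]; exact B.nbG_rN1 hc
      refine nice_in (t := (x, y + 1)) hn
        (mem_Dp.2 (Or.inr (Or.inr ⟨⟨by omega, by omega⟩, by omega, by omega⟩))) ?_ hG
      rw [eD_l hf.le ⟨⟨by omega, by omega⟩, by omega, by omega⟩]
      congr 2 <;> omega
    · have hG : B.nbG p y0 (pm (eD B y0 k) (some ((x, y), 1))) =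
          some (Sum.inr (B.wd y0 y - (B.xl - x), y + 1), 3) := by
        rw [pm_some, eD_l hf.le h2]; exact B.nbG_rN hc
      by_cases hc2 : y + 1 < B.y2
      · refine nice_in (t := (x, y + 1)) hn
          (mem_Dp.2 (Or.inr (Or.inr ⟨⟨by omega, by omega⟩, by omega, hc2⟩))) ?_ hG
        rw [eD_l hf.le ⟨⟨by omega, hc2⟩, by omega, by omega⟩]
        congr 2; omega
      · refine nice_out_inr hf (t := (x, y + 1)) hn ?_ hG (by omega)
        intro h5
        rcases Dp_cases hf h5 with ⟨g1, -, -⟩ | ⟨-, g1⟩ | ⟨-, g1⟩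
        · exact hf.left x (y + 1) (by omega) (by omega) (by omega) (by omega) g1
        · omega
        · omega

lemma nice_S (hf : Free A B.xl B.xr B.y1 B.y2 k) (hR : 2 * k < B.R) (hz : B.At p y0)
    (h : (x, y) ∈ Dp A B.xl B.xr B.y1 B.y2 k) : Nice B p y0 k (some ((x, y), 3)) := by
  have hk := hf.k0
  have hle := hf.le
  have hw := wd_cases B y0 y
  obtain ⟨z1, z2, z3, z4⟩ := hz
  rcases Dp_cases hf h with ⟨h1, h2, h3⟩ | ⟨h1, h2⟩ | ⟨h1, h2⟩
  · -- domain
    by_cases hc : y = y0 ∧ x = p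
    · have hG : B.nbG p y0 (pm (eD B y0 k) (some ((x, y), 3))) = none := by
        rw [pm_some, eD_A hf h1]; exact B.nbG_Sleg hc
      refine Or.inl ⟨?_, ?_⟩
      · rw [Env664.nbD_Sleg hc]; exact portOf_none _
      · rw [Env664.nbD_Sleg hc, hG]; rfl
    · by_cases hc2 : y = y0 ∧ p < x ∧ x ≤ B.xr
      · have hG : B.nbG p y0 (pm (eD B y0 k) (some ((x, y), 3))) =
            some (Sum.inl (x - 1, y0 - 1), 1) := by
          rw [pm_some, eD_A hf h1]; exact B.nbG_S1 hc2
        have h5 : (x - 1, y0 - 1) ∈ A := (B.run (y0 - 1) (by omega) (by omega)).mem _ (by omega) (by omega)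
        exact nice_in (t := (x - 1, y0 - 1)) (Env664.nbD_S1 ⟨hc2.1, hc2.2.1, by omega⟩)
          (mem_Dp.2 (Or.inl h5)) (eD_A hf h5) hG
      · have hG : B.nbG p y0 (pm (eD B y0 k) (some ((x, y), 3))) = some (Sum.inl (x, y - 1), 1) := by
          rw [pm_some, eD_A hf h1]; exact B.nbG_S ⟨hc2, hc⟩
        have hn : nbD p y0 (B.xr + k) (some ((x, y), 3)) = some ((x, y - 1), 1) := by
          refine Env664.nbD_S ⟨?_, hc⟩
          rintro ⟨g1, g2, g3⟩
          exact hf.right x y (by omega) (by omega) (by omega) (by omega) h1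
        by_cases h5 : (x, y - 1) ∈ A
        · exact nice_in (t := (x, y - 1)) hn (mem_Dp.2 (Or.inl h5)) (eD_A hf h5) hG
        · refine nice_out_inl hf (t := (x, y - 1)) hn ?_ hG h5
          intro h6
          rcases Dp_cases hf h6 with ⟨g1, -, -⟩ | ⟨-, g1⟩ | ⟨-, g1⟩
          · exact h5 g1
          · exact hf.right x y (by omega) (by omega) (by omega) (by omega) h1
          · exact hf.left x y (by omega) (by omega) (by omega) (by omega) h1
  · -- right stub
    by_cases hc : y = y0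
    · have hn : nbD p y0 (B.xr + k) (some ((x, y), 3)) = some ((x - 1, y0 - 1), 1) :=
        Env664.nbD_S1 ⟨hc, by omega, by omega⟩
      by_cases hc2 : x = B.xr + 1
      · have hG : B.nbG p y0 (pm (eD B y0 k) (some ((x, y), 3))) =
            some (Sum.inl (B.xr, y0 - 1), 1) := by
          rw [pm_some, eD_r h2]; exact B.nbG_rS1 ⟨hc, by omega⟩
        have h5 : (x - 1, y0 - 1) ∈ A := (B.run (y0 - 1) (by omega) (by omega)).mem _ (by omega) (by omega)
        refine nice_in (t := (x - 1, y0 - 1)) hn (mem_Dp.2 (Or.inl h5)) ?_ hG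
        rw [eD_A hf h5]; congr 2; omega
      · have hG : B.nbG p y0 (pm (eD B y0 k) (some ((x, y), 3))) =
            some (Sum.inr (x - B.xr - 1 - 1, y0 - 1), 1) := by
          rw [pm_some, eD_r h2]; exact B.nbG_rS2 ⟨hc, by omega⟩
        refine nice_in (t := (x - 1, y0 - 1)) hn
          (mem_Dp.2 (Or.inr (Or.inl ⟨⟨by omega, by omega⟩, by omega, by omega⟩))) ?_ hG
        rw [eD_r ⟨⟨by omega, by omega⟩, by omega, by omega⟩]; congr 2; omega
    · have hG : B.nbG p y0 (pm (eD B y0 k) (some ((x, y), 3))) =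
          some (Sum.inr (x - B.xr - 1, y - 1), 1) := by
        rw [pm_some, eD_r h2]; exact B.nbG_rS hc
      have hn : nbD p y0 (B.xr + k) (some ((x, y), 3)) = some ((x, y - 1), 1) :=
        Env664.nbD_S (by omega)
      by_cases hc2 : B.y1 ≤ y - 1
      · refine nice_in (t := (x, y - 1)) hn
          (mem_Dp.2 (Or.inr (Or.inl ⟨⟨by omega, by omega⟩, hc2, by omega⟩))) ?_ hG
        rw [eD_r ⟨⟨hc2, by omega⟩, by omega, by omega⟩]
      · refine nice_out_inr hf (t := (x, y - 1)) hn ?_ hG (by omega)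
        intro h5
        rcases Dp_cases hf h5 with ⟨g1, -, -⟩ | ⟨-, g1⟩ | ⟨-, g1⟩
        · exact hf.right x (y - 1) (by omega) (by omega) (by omega) (by omega) g1
        · omega
        · omega
  · -- left stub
    have hn : nbD p y0 (B.xr + k) (some ((x, y), 3)) = some ((x, y - 1), 1) :=
      Env664.nbD_S (by omega)
    have hw' := wd_cases B y0 (y - 1)
    by_cases hc : y = y0
    · have hG : B.nbG p y0 (pm (eD B y0 k) (some ((x, y), 3))) =
          some (Sum.inr (B.wd y0 y - (B.xl - x) - 1, y0 - 1), 1) := by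
        rw [pm_some, eD_l hf.le h2]; exact B.nbG_rS2 ⟨hc, by omega⟩
      refine nice_in (t := (x, y - 1)) hn
        (mem_Dp.2 (Or.inr (Or.inr ⟨⟨by omega, by omega⟩, by omega, by omega⟩))) ?_ hG
      rw [eD_l hf.le ⟨⟨by omega, by omega⟩, by omega, by omega⟩]
      congr 2 <;> omega
    · have hG : B.nbG p y0 (pm (eD B y0 k) (some ((x, y), 3))) =
          some (Sum.inr (B.wd y0 y - (B.xl - x), y - 1), 1) := by
        rw [pm_some, eD_l hf.le h2]; exact B.nbG_rS hc
      by_cases hc2 : B.y1 ≤ y - 1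
      · refine nice_in (t := (x, y - 1)) hn
          (mem_Dp.2 (Or.inr (Or.inr ⟨⟨by omega, by omega⟩, hc2, by omega⟩))) ?_ hG
        rw [eD_l hf.le ⟨⟨hc2, by omega⟩, by omega, by omega⟩]
        congr 2; omega
      · refine nice_out_inr hf (t := (x, y - 1)) hn ?_ hG (by omega)
        intro h5
        rcases Dp_cases hf h5 with ⟨g1, -, -⟩ | ⟨-, g1⟩ | ⟨-, g1⟩
        · exact hf.left x (y - 1) (by omega) (by omega) (by omega) (by omega) g1
        · omega
        · omega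

end dirs

lemma nice_all (hf : Free A B.xl B.xr B.y1 B.y2 k) (hR : 2 * k < B.R) (hz : B.At p y0)
    {a : Port (ℤ × ℤ)} (ha : PortOf (Dp A B.xl B.xr B.y1 B.y2 k) a) : Nice B p y0 k a := by
  rcases a with - | ⟨⟨x, y⟩, d⟩
  · exact nice_leg hf hz
  · have h := portOf_some.1 ha
    rcases Reg.d4 d with rfl | rfl | rfl | rfl
    · exact nice_W hf hR hz h
    · exact nice_N hf hR hz h
    · exact nice_E hf hR hz h
    · exact nice_S hf hR hz h

lemma pm_inj (hf : Free A B.xl B.xr B.y1 B.y2 k) (hR : 2 * k < B.R) {a b : Port (ℤ × ℤ)}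
    (ha : PortOf (Dp A B.xl B.xr B.y1 B.y2 k) a) (hb : PortOf (Dp A B.xl B.xr B.y1 B.y2 k) b)
    (h : pm (eD B y0 k) a = pm (eD B y0 k) b) : a = b := by
  rcases a with - | ⟨⟨x, y⟩, d⟩ <;> rcases b with - | ⟨⟨x', y'⟩, d'⟩
  · rfl
  · simp at h
  · simp at h
  · rw [pm_some, pm_some] at h
    obtain ⟨h1, h2⟩ := Prod.mk.inj (Option.some.inj h)
    rw [eD_inj hf hR (portOf_some.1 ha) (portOf_some.1 hb) h1, h2]

lemma pm_portOf (hf : Free A B.xl B.xr B.y1 B.y2 k) (hR : 2 * k < B.R) {a : Port (ℤ × ℤ)}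
    (ha : PortOf (Dp A B.xl B.xr B.y1 B.y2 k) a) : PortOf (B.tG y0) (pm (eD B y0 k) a) := by
  rcases a with - | ⟨⟨x, y⟩, d⟩
  · exact portOf_none _
  · exact portOf_some.2 (eD_mem hf hR (portOf_some.1 ha))

/-- **the chart of `Dp` respects the glueings in both directions** -/
theorem eD_glue (hf : Free A B.xl B.xr B.y1 B.y2 k) (hR : 2 * k < B.R) (hz : B.At p y0)
    {a b : Port (ℤ × ℤ)} (ha : PortOf (Dp A B.xl B.xr B.y1 B.y2 k) a)
    (hb : PortOf (Dp A B.xl B.xr B.y1 B.y2 k) b) :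
    gb (beD (Dp A B.xl B.xr B.y1 B.y2 k) p y0 (B.xr + k)) a b ↔
      gb (B.beG p y0) (pm (eD B y0 k) a) (pm (eD B y0 k) b) := by
  have h1 := nice_all hf hR hz ha
  have ea := pm_portOf (y0 := y0) hf hR ha
  have eb := pm_portOf (y0 := y0) hf hR hb
  constructor
  · rintro ⟨h2, h3⟩
    have h4 : PortOf (Dp A B.xl B.xr B.y1 B.y2 k) (nbD p y0 (B.xr + k) a) ∧
        nbD p y0 (B.xr + k) a = b := by
      by_cases h5 : PortOf (Dp A B.xl B.xr B.y1 B.y2 k) a ∧
          PortOf (Dp A B.xl B.xr B.y1 B.y2 k) (nbD p y0 (B.xr + k) a)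
      · rw [beD, Env664.res_of h5.1 h5.2] at h2
        exact ⟨h5.2, h2⟩
      · rw [beD, res, if_neg h5] at h2
        exact absurd h2 h3
    obtain ⟨h4, rfl⟩ := h4
    rcases h1 with ⟨-, h6⟩ | ⟨h6, -⟩
    · refine ⟨?_, fun h => h3 (pm_inj hf hR ha hb h)⟩
      rw [Band.beG, Env664.res_of ea (by rw [← h6]; exact eb), h6]
    · exact absurd h4 h6
  · rintro ⟨h2, h3⟩
    have h4 : B.nbG p y0 (pm (eD B y0 k) a) = pm (eD B y0 k) b := by
      by_cases h5 : PortOf (B.tG y0) (pm (eD B y0 k) a) ∧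
          PortOf (B.tG y0) (B.nbG p y0 (pm (eD B y0 k) a))
      · rwa [Band.beG, Env664.res_of h5.1 h5.2] at h2
      · rw [Band.beG, res, if_neg h5] at h2
        exact absurd h2 h3
    rcases h1 with ⟨h5, h6⟩ | ⟨-, h6⟩
    · have h7 := pm_inj hf hR h5 hb (h6.trans h4)
      refine ⟨?_, fun h => h3 (by rw [h])⟩
      rw [beD, Env664.res_of ha h5, h7]
    · exact absurd h4.symm (h6 b hb)

end chart

/-! ### the strip -/

section strip

variable {A : Finset (ℤ × ℤ)} {B : Band A} {p y0 x1 x2 : ℤ}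

lemma eS_inj {t t' : ℤ × ℤ} (h : eS y0 t = eS y0 t') : t = t' := by
  obtain ⟨x, y⟩ := t
  obtain ⟨x', y'⟩ := t'
  have := Sum.inr_injective h
  simp only [Prod.mk.injEq] at this ⊢
  obtain ⟨h1, rfl⟩ := this
  split_ifs at h1 <;> exact ⟨by omega, rfl⟩

lemma eS_mem (h1 : 0 ≤ x1) (h2 : x2 ≤ B.R) {t : ℤ × ℤ} (ht : t ∈ rct x1 x2 B.y1 B.y2) :
    eS y0 t ∈ B.tG y0 := by
  obtain ⟨x, y⟩ := t
  rw [mem_rct] at ht
  have hw := wd_cases B y0 y
  unfold eS
  rw [B.inr_mem]
  simp only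
  split_ifs <;> omega

lemma eS_lo {x y : ℤ} (h : y < y0) : eS y0 (x, y) = Sum.inr (x, y) := by
  unfold eS; rw [if_pos h]

lemma eS_hi {x y : ℤ} (h : y0 ≤ y) : eS y0 (x, y) = Sum.inr (x + 1, y) := by
  unfold eS; rw [if_neg (by simp only; omega)]

/-- neighbours in the strip rectangle -/
lemma nbS (h1 : 0 ≤ x1) (h2 : x2 ≤ B.R) {x y : ℤ} {d : ZMod 4} (ht : (x, y) ∈ rct x1 x2 B.y1 B.y2) :
    (∃ t, nbP (some ((x, y), d)) = some t ∧ B.nbG p y0 (some (eS y0 (x, y), d)) = some (eS y0 t.1, t.2)) ∨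
    (∃ t d', nbP (some ((x, y), d)) = some t ∧ t.1 ∉ rct x1 x2 B.y1 B.y2 ∧
      B.nbG p y0 (some (eS y0 (x, y), d)) = some (Sum.inl d', t.2)) := by
  have hw := wd_cases B y0 y
  rw [mem_rct] at ht
  rcases Reg.d4 d with rfl | rfl | rfl | rfl
  · rcases lt_or_ge y y0 with hy | hy
    · rw [eS_lo hy]
      by_cases hx : x = 0
      · right
        subst hx
        exact ⟨((0 - 1, y), 2), (B.xr, y), rfl, by rw [mem_rct]; omega, B.nbG_rW1⟩
      · left
        exact ⟨((x - 1, y), 2), rfl, by rw [B.nbG_rW hx, eS_lo hy]⟩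
    · rw [eS_hi hy]
      left
      refine ⟨((x - 1, y), 2), rfl, ?_⟩
      rw [B.nbG_rW (by omega), eS_hi hy, show x + 1 - 1 = x - 1 + 1 by ring]
  · left
    by_cases hy : y = y0 - 1
    · refine ⟨((x, y + 1), 3), rfl, ?_⟩
      rw [eS_lo (by omega), B.nbG_rN1 hy, eS_hi (by omega), show y + 1 = y0 by omega]
    · refine ⟨((x, y + 1), 3), rfl, ?_⟩
      rcases lt_or_ge y y0 with hy' | hy'
      · rw [eS_lo hy', B.nbG_rN hy, eS_lo (by omega)]
      · rw [eS_hi hy', B.nbG_rN hy, eS_hi (by omega)]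
  · rcases lt_or_ge y y0 with hy | hy
    · rw [eS_lo hy]
      by_cases hx : x = B.wd y0 y - 1
      · right
        exact ⟨((x + 1, y), 0), (B.xl, y), rfl, by rw [mem_rct]; omega, B.nbG_rE1 hx⟩
      · left
        exact ⟨((x + 1, y), 0), rfl, by rw [B.nbG_rE hx, eS_lo hy]⟩
    · rw [eS_hi hy]
      by_cases hx : x + 1 = B.wd y0 y - 1
      · right
        exact ⟨((x + 1, y), 0), (B.xl, y), rfl, by rw [mem_rct]; omega, B.nbG_rE1 hx⟩
      · left
        exact ⟨((x + 1, y), 0), rfl, by rw [B.nbG_rE hx, eS_hi hy]⟩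
  · left
    by_cases hy : y = y0
    · refine ⟨((x, y - 1), 1), rfl, ?_⟩
      rw [eS_hi (by omega), B.nbG_rS2 ⟨hy, by omega⟩, eS_lo (by omega), show x + 1 - 1 = x by ring, hy]
    · refine ⟨((x, y - 1), 1), rfl, ?_⟩
      rcases lt_or_ge y y0 with hy' | hy'
      · rw [eS_lo hy', B.nbG_rS hy, eS_lo (by omega)]
      · rw [eS_hi hy', B.nbG_rS hy, eS_hi (by omega)]

/-- **the chart of a rectangle of the strip respects the glueings in both directions** -/
theorem eS_glue (h1 : 0 ≤ x1) (h2 : x2 ≤ B.R) {t t' : ℤ × ℤ} {d d' : ZMod 4}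
    (ht : t ∈ rct x1 x2 B.y1 B.y2) (ht' : t' ∈ rct x1 x2 B.y1 B.y2) :
    gb (beP (rct x1 x2 B.y1 B.y2)) (some (t, d)) (some (t', d')) ↔
      gb (B.beG p y0) (some (eS y0 t, d)) (some (eS y0 t', d')) := by
  obtain ⟨x, y⟩ := t
  have m1 := eS_mem (y0 := y0) h1 h2 ht
  have m2 := eS_mem (y0 := y0) h1 h2 ht'
  have inj : ∀ s : (ℤ × ℤ) × ZMod 4, (some (eS y0 s.1, s.2) : Port TG) = some (eS y0 t', d') ↔
      s = (t', d') := by
    rintro ⟨s, e⟩
    constructor
    · intro h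
      obtain ⟨g1, g2⟩ := Prod.mk.inj (Option.some.inj h)
      simp only at g1 g2
      rw [eS_inj g1, g2]
    · intro h
      cases h
      rfl
  have key : ∀ b : (ℤ × ℤ) × ZMod 4, nbP (some ((x, y), d)) = some b → b ≠ ((x, y), d) →
      (gb (beP (rct x1 x2 B.y1 B.y2)) (some ((x, y), d)) (some (t', d')) ↔ b = (t', d')) := by
    intro b hb hne
    rw [beP, gb_res hb (fun h => hne (Option.some.inj h).symm), portOf_some]
    constructor
    · rintro ⟨-, h⟩
      exact (Option.some.inj h).symm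
    · rintro rfl
      exact ⟨⟨ht, portOf_some.2 ht'⟩, rfl⟩
  have hnb : ∀ b : (ℤ × ℤ) × ZMod 4, nbP (some ((x, y), d)) = some b → b ≠ ((x, y), d) := by
    rintro b hb rfl
    rcases Reg.d4 d with rfl | rfl | rfl | rfl
    · rw [Env664.nbP_W] at hb; simp at hb
    · rw [Env664.nbP_N] at hb; simp at hb
    · rw [Env664.nbP_E] at hb; simp at hb
    · rw [Env664.nbP_S] at hb; simp at hb
  rcases nbS (p := p) (y0 := y0) (d := d) h1 h2 ht with ⟨b, hb, hG⟩ | ⟨b, c, hb, hnin, hG⟩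
  · rw [key b hb (hnb b hb), Band.beG]
    have hne : (some (eS y0 (x, y), d) : Port TG) ≠ some (eS y0 b.1, b.2) := by
      intro h
      obtain ⟨g1, g2⟩ := Prod.mk.inj (Option.some.inj h)
      exact hnb b hb (Prod.ext (eS_inj g1).symm g2.symm)
    rw [gb_res hG hne]
    constructor
    · rintro rfl
      exact ⟨⟨portOf_some.2 m1, portOf_some.2 m2⟩, rfl⟩
    · rintro ⟨-, h⟩
      exact (inj b).1 h.symm
  · rw [key b hb (hnb b hb), Band.beG]
    have hne : (some (eS y0 (x, y), d) : Port TG) ≠ some (Sum.inl c, b.2) := by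
      intro h
      have := (Prod.mk.inj (Option.some.inj h)).1
      unfold eS at this
      exact absurd this (by simp)
    rw [gb_res hG hne]
    constructor
    · rintro rfl
      exact absurd ht' hnin
    · rintro ⟨-, h⟩
      have := (Prod.mk.inj (Option.some.inj h)).1
      unfold eS at this
      exact absurd this (by simp)

end strip

end Crest.Agent.R158.Xr249
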