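import Crest.Agent.R158.Zg3_180

/-!
# Row 158 (helper180): gates, 4: two closed gates separate `G^(z)`

* `Near y0 a0 b1`, `Far y0 a1 b0` : the tiles outside and between the gates `(a0, a1]`, `(b0, b1]`
* `gates` : **no strand visits both `Near` and `Far` if both gates are closed**
-/

set_option autoImplicit false

noncomputable section

namespace Crest.Agent.R158.Zg180

open unitInterval
open Crest.Agent.R161.Geo729
open Crest.Agent.R158.Rs689 Crest.Agent.R158.Mr679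
open Crest.Agent.R158.Nm211 (Dir dx dy trn St mv nx6 rd opp)
open Crest.Agent.R158.Ka470 (Ch Wk en ex sg sg_sg Free ex_en ex_inj)
open Crest.Agent.R158.Sw300 (thru Port)
open Crest.Agent.R158.Env664

variable {A : Finset (ℤ × ℤ)} {B : Band A} {y0 : ℤ}

theorem gq_nb {p : ℤ} {q r : TG × ZMod 4} (h : Gq (B.beG p y0) q r) :
    B.nbG p y0 (some q) = some r ∧ q.1 ∈ B.tG y0 ∧ r.1 ∈ B.tG y0 := by
  obtain ⟨h1, h2⟩ := h
  unfold Band.beG res at h1
  split_ifs at h1 with hc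
  · refine ⟨h1, hc.1 q rfl, ?_⟩
    have := hc.2
    rw [h1] at this
    exact this r rfl
  · exact absurd (Option.some_injective _ h1) h2

theorem uc_lt {i y : ℤ} (h : y < y0) : uc y0 (i, y) = i := if_pos h
theorem uc_ge {i y : ℤ} (h : ¬ y < y0) : uc y0 (i, y) = i - 1 := if_neg h

/-- glued strip tiles have neighbouring columns -/
theorem adj_rr {p : ℤ} {v w : ℤ × ℤ} {d e : ZMod 4}
    (h : Gq (B.beG p y0) (Sum.inr v, d) (Sum.inr w, e)) :
    uc y0 v ≤ uc y0 w + 1 ∧ uc y0 w ≤ uc y0 v + 1 := by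
  obtain ⟨h1, -, -⟩ := gq_nb h
  obtain ⟨i, y⟩ := v
  rcases z4 d with rfl | rfl | rfl | rfl
  · by_cases hi : i = 0
    · subst hi
      rw [Band.nbG_rW1] at h1
      simp at h1
    · rw [Band.nbG_rW B hi] at h1
      simp only [Option.some.injEq, Prod.mk.injEq, Sum.inr.injEq] at h1
      rw [← h1.1]
      by_cases hy : y < y0
      · rw [uc_lt hy, uc_lt hy]; omega
      · rw [uc_ge hy, uc_ge hy]; omega
  · by_cases hy : y = y0 - 1
    · rw [Band.nbG_rN1 B hy] at h1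
      simp only [Option.some.injEq, Prod.mk.injEq, Sum.inr.injEq] at h1
      rw [← h1.1, uc_lt (show y < y0 by omega), uc_ge (show ¬ y0 < y0 by omega)]
      omega
    · rw [Band.nbG_rN B hy] at h1
      simp only [Option.some.injEq, Prod.mk.injEq, Sum.inr.injEq] at h1
      rw [← h1.1]
      by_cases hy' : y < y0
      · rw [uc_lt hy', uc_lt (show y + 1 < y0 by omega)]; omega
      · rw [uc_ge hy', uc_ge (show ¬ y + 1 < y0 by omega)]; omega
  · by_cases hi : i = B.wd y0 y - 1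
    · rw [Band.nbG_rE1 B hi] at h1
      simp at h1
    · rw [Band.nbG_rE B hi] at h1
      simp only [Option.some.injEq, Prod.mk.injEq, Sum.inr.injEq] at h1
      rw [← h1.1]
      by_cases hy : y < y0
      · rw [uc_lt hy, uc_lt hy]; omega
      · rw [uc_ge hy, uc_ge hy]; omega
  · by_cases hc : y = y0 ∧ i = 0
    · rw [Band.nbG_rS1 B hc] at h1
      simp at h1
    by_cases hy : y = y0
    · have hi : i ≠ 0 := fun h' => hc ⟨hy, h'⟩
      rw [Band.nbG_rS2 B ⟨hy, hi⟩] at h1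
      simp only [Option.some.injEq, Prod.mk.injEq, Sum.inr.injEq] at h1
      rw [← h1.1, uc_ge (show ¬ y < y0 by omega), uc_lt (show y0 - 1 < y0 by omega)]
      omega
    · rw [Band.nbG_rS B hy] at h1
      simp only [Option.some.injEq, Prod.mk.injEq, Sum.inr.injEq] at h1
      rw [← h1.1]
      by_cases hy' : y < y0
      · rw [uc_lt hy', uc_lt (show y - 1 < y0 by omega)]; omega
      · rw [uc_ge hy', uc_ge (show ¬ y - 1 < y0 by omega)]; omega

/-- the domain is only glued to the two end columns of the strip -/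
theorem adj_lr {p : ℤ} {v w : ℤ × ℤ} {d e : ZMod 4}
    (h : Gq (B.beG p y0) (Sum.inl v, d) (Sum.inr w, e)) :
    uc y0 w ≤ 0 ∨ uc y0 w = B.R - 1 := by
  obtain ⟨h1, -, -⟩ := gq_nb h
  obtain ⟨x, y⟩ := v
  rcases z4 d with rfl | rfl | rfl | rfl
  · by_cases hc : x = B.xl ∧ B.y1 ≤ y ∧ y < B.y2
    · rw [Band.nbG_W1 B hc] at h1
      simp only [Option.some.injEq, Prod.mk.injEq, Sum.inr.injEq] at h1
      rw [← h1.1]
      right
      unfold Band.wd uc
      by_cases hy : y < y0 <;> simp only [hy, if_true, if_false] <;> ring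
    · rw [Band.nbG_W B hc] at h1
      simp at h1
  · by_cases hc : y = y0 - 1 ∧ p ≤ x ∧ x < B.xr
    · rw [Band.nbG_N1 B hc] at h1
      simp at h1
    by_cases hc2 : y = y0 - 1 ∧ x = B.xr
    · rw [Band.nbG_N2 B hc2] at h1
      simp only [Option.some.injEq, Prod.mk.injEq, Sum.inr.injEq] at h1
      rw [← h1.1, uc_ge (show ¬ y0 < y0 by omega)]
      omega
    · rw [Band.nbG_N B ⟨hc, hc2⟩] at h1
      simp at h1
  · by_cases hc : x = B.xr ∧ B.y1 ≤ y ∧ y < B.y2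
    · rw [Band.nbG_E1 B hc] at h1
      simp only [Option.some.injEq, Prod.mk.injEq, Sum.inr.injEq] at h1
      rw [← h1.1]
      left
      by_cases hy : y < y0
      · rw [uc_lt hy]
      · rw [uc_ge hy]; omega
    · rw [Band.nbG_E B hc] at h1
      simp at h1
  · by_cases hc : y = y0 ∧ x = p
    · rw [Band.nbG_Sleg B hc] at h1
      simp at h1
    by_cases hc2 : y = y0 ∧ p < x ∧ x ≤ B.xr
    · rw [Band.nbG_S1 B hc2] at h1
      simp at h1
    · rw [Band.nbG_S B ⟨hc2, hc⟩] at h1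
      simp at h1

/-- the domain and the strip outside the gates -/
def Near (y0 a0 b1 : ℤ) : Set TG :=
  {t | (∃ v, t = Sum.inl v) ∨ ∃ v, t = Sum.inr v ∧ (uc y0 v ≤ a0 ∨ b1 < uc y0 v)}

/-- the strip between the gates -/
def Far (y0 a1 b0 : ℤ) : Set TG := {t | ∃ v, t = Sum.inr v ∧ a1 < uc y0 v ∧ uc y0 v ≤ b0}

theorem mem_gate {p : ℤ} (hz : B.At p y0) {a0 a1 : ℤ} (h0 : 0 ≤ a0) (h01 : a0 < a1)
    (h1 : a1 + 1 < B.R) {v : ℤ × ℤ} (hv : (Sum.inr v : TG) ∈ B.tG y0) (h2 : a0 < uc y0 v)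
    (h3 : uc y0 v ≤ a1) : (Sum.inr v : TG) ∈ (gate hz h0 h01 h1).Z := by
  refine ⟨(uc y0 v, v.2), ⟨?_, h2, h3⟩, se_uc y0 v⟩
  show (uc y0 v, v.2) ∈ gR B a0 a1
  rw [mem_gR]
  obtain ⟨i, y⟩ := v
  have := (Band.inr_mem B).1 hv
  dsimp only
  omega

theorem gate_Z {p : ℤ} (hz : B.At p y0) {a0 a1 : ℤ} (h0 : 0 ≤ a0) (h01 : a0 < a1)
    (h1 : a1 + 1 < B.R) {t : TG} (ht : t ∈ (gate hz h0 h01 h1).Z) :
    ∃ v, t = Sum.inr v ∧ a0 < uc y0 v ∧ uc y0 v ≤ a1 := by
  obtain ⟨w, ⟨-, h2, h3⟩, rfl⟩ := ht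
  refine ⟨(if w.2 < y0 then w.1 else w.1 + 1, w.2), rfl, ?_⟩
  have e : uc y0 (if w.2 < y0 then w.1 else w.1 + 1, w.2) = w.1 := by
    by_cases h : w.2 < y0
    · simp only [h, if_true]; exact uc_lt h
    · simp only [h, if_false]; rw [uc_ge h]; ring
  rw [e]
  exact ⟨h2, h3⟩

theorem uc_se (w : ℤ × ℤ) : ∃ v, se y0 w = Sum.inr v ∧ uc y0 v = w.1 := by
  refine ⟨(if w.2 < y0 then w.1 else w.1 + 1, w.2), rfl, ?_⟩
  by_cases h : w.2 < y0
  · simp only [h, if_true]; exact uc_lt h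
  · simp only [h, if_false]; rw [uc_ge h]; ring

/-- **two closed gates**: no strand visits both sides -/
theorem gates {p : ℤ} (hz : B.At p y0) {a0 a1 b0 b1 : ℤ} (h0 : 0 ≤ a0) (ha : a0 < a1) (hab : a1 < b0)
    (hb : b0 < b1) (hR : b1 + 1 < B.R) {s : TG → Bool}
    (ca : (gate hz h0 ha (by omega : a1 + 1 < B.R)).Closed s)
    (cb : (gate hz (by omega : 0 ≤ b0) hb hR).Closed s) {x y : TG × ZMod 4}
    {l : List (TG × ZMod 4)} (hw : Wk s (Gq (B.beG p y0)) x y l) :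
    ¬ ((∃ q ∈ l, q.1 ∈ Near y0 a0 b1) ∧ ∃ r ∈ l, r.1 ∈ Far y0 a1 b0) := by
  have hS := Gq.symm (be := B.beG p y0) (Band.beG_invol B hz)
  have hG := Gq.fn (be := B.beG p y0)
  set ga := gate hz h0 ha (by omega : a1 + 1 < B.R) with hga
  set gb := gate hz (by omega : 0 ≤ b0) hb hR with hgb
  let g : Bool → Gate TG (Gq (B.beG p y0)) := fun k => if k then ga else gb
  have hgt : g true = ga := rfl
  have hgf : g false = gb := rfl
  have hdis : Disjoint (Near y0 a0 b1) (Far y0 a1 b0) := by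
    rw [Set.disjoint_left]
    rintro t (⟨v, rfl⟩ | ⟨v, rfl, h⟩) ⟨w, hw, h'⟩
    · simp at hw
    · have := Sum.inr_injective hw
      subst this
      omega
  have hZ : ∀ k, ∀ t ∈ (g k).Z, ∃ v, t = Sum.inr v ∧
      ((a0 < uc y0 v ∧ uc y0 v ≤ a1) ∨ (b0 < uc y0 v ∧ uc y0 v ≤ b1)) := by
    intro k t ht
    cases k
    · obtain ⟨v, e1, e2⟩ := gate_Z hz (by omega : 0 ≤ b0) hb hR ht
      exact ⟨v, e1, Or.inr e2⟩
    · obtain ⟨v, e1, e2⟩ := gate_Z hz h0 ha (by omega : a1 + 1 < B.R) ht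
      exact ⟨v, e1, Or.inl e2⟩
  have hNZ : ∀ k, Disjoint (Near y0 a0 b1) (g k).Z := by
    intro k
    rw [Set.disjoint_left]
    rintro t (⟨v, rfl⟩ | ⟨v, rfl, h⟩) ht
    · obtain ⟨w, hw, _⟩ := hZ k _ ht
      simp at hw
    · obtain ⟨w, hw, h'⟩ := hZ k _ ht
      have := Sum.inr_injective hw
      subst this
      omega
  have hFZ : ∀ k, Disjoint (Far y0 a1 b0) (g k).Z := by
    intro k
    rw [Set.disjoint_left]
    rintro t ⟨v, rfl, h⟩ ht
    obtain ⟨w, hw, h'⟩ := hZ k _ ht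
    have := Sum.inr_injective hw
    subst this
    omega
  -- every tile of the complex
  have hall : ∀ t ∈ B.tG y0, t ∈ Near y0 a0 b1 ∨ t ∈ Far y0 a1 b0 ∨ ∃ k, t ∈ (g k).Z := by
    intro t ht
    rcases t with v | v
    · exact Or.inl (Or.inl ⟨v, rfl⟩)
    · by_cases e1 : uc y0 v ≤ a0 ∨ b1 < uc y0 v
      · exact Or.inl (Or.inr ⟨v, rfl, e1⟩)
      by_cases e2 : a1 < uc y0 v ∧ uc y0 v ≤ b0
      · exact Or.inr (Or.inl ⟨v, rfl, e2⟩)
      right; right
      by_cases e3 : uc y0 v ≤ a1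
      · exact ⟨true, mem_gate hz h0 ha (by omega) ht (by omega) e3⟩
      · exact ⟨false, mem_gate hz (by omega) hb hR ht (by omega) (by omega)⟩
  -- `Near` and `Far` are not glued
  have hNF : ∀ q r, Gq (B.beG p y0) q r → q.1 ∈ Near y0 a0 b1 → r.1 ∈ Far y0 a1 b0 → False := by
    rintro ⟨q, d⟩ ⟨r, e⟩ hgl (⟨v, hv⟩ | ⟨v, hv, h⟩) ⟨w, hw, h'⟩
    · dsimp only at hv hw
      subst hv; subst hw
      have := adj_lr hgl
      omega
    · dsimp only at hv hw
      subst hv; subst hw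
      have := adj_rr hgl
      omega
  have hcovN : ∀ q r, Gq (B.beG p y0) q r → q.1 ∈ Near y0 a0 b1 →
      r.1 ∈ Near y0 a0 b1 ∨ ∃ k, r.1 ∈ (g k).Z := by
    intro q r hgl hq
    rcases hall r.1 (gq_nb hgl).2.2 with h | h | h
    · exact Or.inl h
    · exact (hNF q r hgl hq h).elim
    · exact Or.inr h
  have hcovF : ∀ q r, Gq (B.beG p y0) q r → q.1 ∈ Far y0 a1 b0 →
      r.1 ∈ Far y0 a1 b0 ∨ ∃ k, r.1 ∈ (g k).Z := by
    intro q r hgl hq
    rcases hall r.1 (gq_nb hgl).2.2 with h | h | h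
    · exact (hNF r q (hS _ _ hgl) h hq).elim
    · exact Or.inl h
    · exact Or.inr h
  have hcl : ∀ k, (g k).Closed s := by
    intro k
    cases k
    · exact cb
    · exact ca
  have hL : ∀ k, ∀ v ∈ (g k).C.R, v.1 = (g k).x0 →
      (g k).C.emb v ∈ if k then Near y0 a0 b1 else Far y0 a1 b0 := by
    intro k v _ hv
    obtain ⟨w, e1, e2⟩ := uc_se (y0 := y0) v
    cases k
    · show se y0 v ∈ Far y0 a1 b0
      refine ⟨w, e1, ?_⟩
      replace hv : v.1 = b0 := hv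
      omega
    · show se y0 v ∈ Near y0 a0 b1
      refine Or.inr ⟨w, e1, ?_⟩
      replace hv : v.1 = a0 := hv
      omega
  have hRt : ∀ k, ∀ v ∈ (g k).C.R, v.1 = (g k).x1 + 1 →
      (g k).C.emb v ∈ if k then Far y0 a1 b0 else Near y0 a0 b1 := by
    intro k v _ hv
    obtain ⟨w, e1, e2⟩ := uc_se (y0 := y0) v
    cases k
    · show se y0 v ∈ Near y0 a0 b1
      refine Or.inr ⟨w, e1, ?_⟩
      replace hv : v.1 = b1 + 1 := hv
      omega
    · show se y0 v ∈ Far y0 a1 b0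
      refine ⟨w, e1, ?_⟩
      replace hv : v.1 = a1 + 1 := hv
      omega
  have sepN : ∀ {x y : TG × ZMod 4} {l : List (TG × ZMod 4)}, Wk s (Gq (B.beG p y0)) x y l →
      x.1 ∈ Near y0 a0 b1 → ∀ r ∈ l, r.1 ∉ Far y0 a1 b0 := fun hw hx =>
    sep hS hG g (fun k => k) hNZ hdis hFZ hcovN hL hRt hcl hx hw
  have sepF : ∀ {x y : TG × ZMod 4} {l : List (TG × ZMod 4)}, Wk s (Gq (B.beG p y0)) x y l →
      x.1 ∈ Far y0 a1 b0 → ∀ r ∈ l, r.1 ∉ Near y0 a0 b1 := fun hw hx => by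
    refine sep hS hG g (fun k => !k) hFZ hdis.symm hNZ hcovF ?_ ?_ hcl hx hw
    · intro k v hv h
      have := hL k v hv h
      cases k <;> simpa using this
    · intro k v hv h
      have := hRt k v hv h
      cases k <;> simpa using this
  rintro ⟨⟨q, hq, hqN⟩, ⟨r, hr, hrF⟩⟩
  obtain ⟨l1, l2, rfl⟩ := List.append_of_mem hq
  have hr' := List.mem_append.1 hr
  rcases hr' with hr' | hr'
  · obtain ⟨l3, l4, rfl⟩ := List.append_of_mem hr'
    have h1 := wk_suffix hw l3 (l4 ++ q :: l2) r (by simp)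
    exact sepF h1 hrF q (by simp) hqN
  · have h1 := wk_suffix hw l1 l2 q rfl
    exact sepN h1 hqN r hr' hrF

end Crest.Agent.R158.Zg180
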