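import Crest.Agent.R158.Ad9_350
import Crest.Agent.R158.Xr13_249
import Crest.Agent.R158.Zg4_180
import Crest.Agent.R158.Pt6_266

/-!
# Block AD, strands that stay in the strip (helper350)

* `hole_rct`, `tt_flat`, `tt_round` : turning of the strands of a rectangle
* `psS b'` : natural phases of the ceiling (`1` left of `b'`, `5` right of `b'`) and of the floor (`3`)
* `strip_arc` : an arc of a rectangle has phase `±2` (in units `π/12`), or `±6` if it joins a ceiling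
  port left of `b'` to a ceiling port right of `b'`
* `pull` : a walk of `netN` in the strip comes from a strand of the rectangle
* `zn_strip` : value of the classes of `netN` in the strip
-/

set_option autoImplicit false
set_option linter.unusedSectionVars false
set_option linter.unusedVariables false

noncomputable section

open Finset

namespace Crest.Agent.R158.Ad350

open Crest.Agent.R158.Pt266 (Hole FFree gl_full rg_full RG tt tt_rv rv CwR CwC full_both full_loop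
  run runL mem_runL FRun chain_flat chain_convex run_zero dir Wk pass)
open Crest.Agent.R158.Xr249 (rct mem_rct full CPath eS)
open Crest.Agent.R158.Sw300 (Port thru)

namespace Net

variable {P : Type*} [DecidableEq P] {N : Net P}

/-- a loop has no cut ends -/
lemma loop_ends (h : N.Ok) {x y : P} (hx : x ∈ N.V) {l : List P} (w : N.Wa x y l)
    (h1 : N.be y = x) (hl : l.Nodup) : N.ends (N.cls x) = ∅ := by
  have hc := (z_loop h hx w h1 hl).1
  obtain ⟨n, rfl, rfl, h3⟩ := w.data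
  have hne := it_ne h hx h3
  have hxy : N.be x = N.al (N.g^[n] x) := by
    have := h.be2 _ (h.alV _ (it_mem h hx n))
    rwa [h1] at this
  rw [list_Iw, list_Ow] at hc
  rw [Finset.eq_empty_iff_forall_notMem]
  intro p hp
  obtain ⟨hp1, hp2⟩ := Finset.mem_filter.1 hp
  rw [hc] at hp1
  rcases Finset.mem_union.1 hp1 with hp1 | hp1
  · obtain ⟨i, hi, rfl⟩ := mem_Iw.1 hp1
    cases i with
    | zero =>
      rw [Function.iterate_zero, id_eq] at hp2
      exact hne n 0 le_rfl (Nat.zero_le _) (hxy.symm.trans hp2)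
    | succ i =>
      have e : N.g^[i + 1] x = N.be (N.al (N.g^[i] x)) := by
        rw [Function.iterate_succ_apply']; rfl
      have hb := h.be2 _ (h.alV _ (it_mem h hx i))
      rw [← e, hp2] at hb
      exact hne i (i + 1) (by omega) hi hb.symm
  · obtain ⟨i, hi, rfl⟩ := mem_Ow.1 hp1
    rcases Nat.lt_or_ge i n with hin | hin
    · exact h3 i hin hp2
    · have e : i = n := by omega
      subst e
      rw [h1] at hp2
      exact hne i 0 le_rfl (Nat.zero_le _) hp2.symm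

end Net

/-! ### rectangles -/

section rect

lemma hole_rct (x1 x2 y1 y2 : ℤ) : Hole (rct x1 x2 y1 y2) := by
  rintro ⟨x, y⟩ hc
  have hX : ∀ {a b : ℤ}, ¬ ((x1 ≤ a ∧ a < x2) ∧ y1 ≤ b ∧ b < y2) →
      (a, b) ∈ {t : ℤ × ℤ | t ∉ rct x1 x2 y1 y2} := fun h h' => h (mem_rct.1 h')
  rw [mem_rct] at hc
  have top : ∀ t ∈ rct x1 x2 y1 y2, ∀ d : ℤ, y2 ≤ d → t.2 ≤ d := by
    rintro ⟨a, b⟩ ht d hd
    have := (mem_rct.1 ht).2.2
    simp only; omega
  have goup : ∀ z w : ℤ, (z < x1 ∨ x2 ≤ z ∨ y2 ≤ w) →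
      ∃ d, CPath {t | t ∉ rct x1 x2 y1 y2} (z, w) d ∧ ∀ t ∈ rct x1 x2 y1 y2, t.2 ≤ d.2 := by
    intro z w hz
    refine ⟨(z, max w y2), CPath.ver (le_max_left _ _) fun u h1 h2 => hX (by omega),
      fun t ht => top t ht _ (le_max_right _ _)⟩
  by_cases h1 : x < x1 ∨ x2 ≤ x ∨ y2 ≤ y
  · exact goup x y h1
  · have h2 : y < y1 := by omega
    obtain ⟨d, hd, hd2⟩ := goup (x1 - 1) y (Or.inl (by omega))
    refine ⟨d, CPath.trans ?_ hd, hd2⟩
    exact (CPath.hor (X := {t | t ∉ rct x1 x2 y1 y2}) (x1 := x1 - 1) (x2 := x) (by omega)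
      fun u h3 h4 => hX (by omega)).symm

variable {A : Finset (ℤ × ℤ)} {s : ℤ × ℤ → Bool} {k : List ((ℤ × ℤ) × ZMod 4)}

lemma frun_free {t : ℤ × ℤ} {d : ZMod 4} {n : ℕ} (h : FRun A t d n) {i : ℕ} (hi : i ≤ n) :
    FFree A (Pt266.run t d i) := h i hi

lemma smul_dir_ne {d : ZMod 4} {i : ℕ} (hi : 0 < i) : i • dir d ≠ 0 := by
  have := Pt266.dir_ne d
  rcases h : dir d with ⟨u, v⟩
  rw [h] at this
  rw [Prod.smul_mk, Ne, Prod.mk_eq_zero, smul_eq_zero, smul_eq_zero]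
  rw [Ne, Prod.mk_eq_zero] at this
  omega

/-- a strand between two ports of a flat side -/
lemma tt_flat (hA : Hole A) {t : ℤ × ℤ} {d : ZMod 4} {n : ℕ} (hn : 0 < n) (h : FRun A t d n)
    (w : Wk s (RG (full A)) (t, d) (run t d n) k) : tt s k = -2 := by
  have h1 := chain_flat h
  rw [run_zero] at h1
  have hne : runL t d n ≠ [] := by
    intro e
    have : run t d n ∈ runL t d n := mem_runL.2 ⟨n, hn, le_rfl, rfl⟩
    rw [e] at this
    simp at this
  obtain ⟨h2, -⟩ := h1.toC hne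
  have hx : ∀ z ∈ runL t d n, z ≠ (t, d) := by
    intro z hz e
    obtain ⟨i, hi, -, rfl⟩ := mem_runL.1 hz
    have := congrArg Prod.fst e
    simp only [run, add_eq_left] at this
    exact smul_dir_ne hi this
  have h0 := frun_free h (Nat.zero_le n)
  rw [run_zero] at h0
  have := (full_both hA h0 (frun_free h le_rfl) w h2
    (hx _ (mem_runL.2 ⟨n, hn, le_rfl, rfl⟩))
    (fun hm => hx _ (List.dropLast_subset _ hm) rfl)).1
  rw [this]; norm_num

lemma d1 (d : ZMod 4) : d + 1 ≠ d ∧ d + 1 + 1 ≠ d := by revert d; decide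

/-- a strand around two convex corners -/
lemma tt_round (hA : Hole A) {t : ℤ × ℤ} {d : ZMod 4} {n m j : ℕ} (h : FRun A t d n)
    (hc : t + n • dir (d + 1) + dir (d + 1) ∉ A) (h' : FRun A (t + n • dir (d + 1)) (d + 1) m)
    (hc' : t + n • dir (d + 1) + m • dir (d + 1 + 1) + dir (d + 1 + 1) ∉ A)
    (h'' : FRun A (t + n • dir (d + 1) + m • dir (d + 1 + 1)) (d + 1 + 1) j)
    (w : Wk s (RG (full A)) (t, d)
      (run (t + n • dir (d + 1) + m • dir (d + 1 + 1)) (d + 1 + 1) j) k) : tt s k = 0 := by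
  have g1 := chain_convex h hc (h'.mono (Nat.zero_le m))
  have g2 := chain_convex h' hc' h''
  have g3 := g1.trans g2
  rw [run_zero] at g3
  set l := (runL t d n ++ (t + n • dir (d + 1), d + 1) :: runL (t + n • dir (d + 1)) (d + 1) 0) ++
    (runL (t + n • dir (d + 1)) (d + 1) m ++
      (t + n • dir (d + 1) + m • dir (d + 1 + 1), d + 1 + 1) ::
        runL (t + n • dir (d + 1) + m • dir (d + 1 + 1)) (d + 1 + 1) j) with hl
  have hne : l ≠ [] := by simp [hl]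
  obtain ⟨g4, -⟩ := g3.toC hne
  obtain ⟨e1, e2⟩ := d1 d
  have hx : ∀ z ∈ l, z ≠ (t, d) := by
    intro z hz e
    rw [hl] at hz
    simp only [List.mem_append, List.mem_cons] at hz
    rcases hz with (hz | rfl | hz) | (hz | rfl | hz)
    · obtain ⟨i, hi, -, rfl⟩ := mem_runL.1 hz
      have := congrArg Prod.fst e
      simp only [run, add_eq_left] at this
      exact smul_dir_ne hi this
    · exact e1 (congrArg Prod.snd e)
    · obtain ⟨i, hi, -, rfl⟩ := mem_runL.1 hz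
      exact e1 (congrArg Prod.snd e)
    · obtain ⟨i, hi, -, rfl⟩ := mem_runL.1 hz
      exact e1 (congrArg Prod.snd e)
    · exact e2 (congrArg Prod.snd e)
    · obtain ⟨i, hi, -, rfl⟩ := mem_runL.1 hz
      exact e2 (congrArg Prod.snd e)
  have h0 := frun_free h (Nat.zero_le n)
  rw [run_zero] at h0
  have hy : run (t + n • dir (d + 1) + m • dir (d + 1 + 1)) (d + 1 + 1) j ≠ (t, d) :=
    fun e => e2 (congrArg Prod.snd e)
  have := (full_both hA h0 (frun_free h'' le_rfl) w g4 hy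
    (fun hm => hx _ (List.dropLast_subset _ hm) rfl)).1
  rw [this]; norm_num

lemma dir0 : dir 0 = (-1, 0) := by decide
lemma dir1 : dir 1 = (0, 1) := by decide
lemma dir2 : dir 2 = (1, 0) := by decide
lemma dir3 : dir 3 = (0, -1) := by decide

variable {x1 x2 y1 y2 : ℤ}

/-- ceiling, from left to right -/
lemma tt_ceil {i j : ℤ} (hi : x1 ≤ i) (hij : i < j) (hj : j < x2) (hy : y1 < y2)
    (w : Wk s (RG (full (rct x1 x2 y1 y2))) ((i, y2 - 1), 1) ((j, y2 - 1), 1) k) :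
    tt s k = -2 := by
  obtain ⟨n, rfl⟩ := Int.le.dest hij.le
  have e : (1 : ZMod 4) + 1 = 2 := by decide
  refine tt_flat (hole_rct x1 x2 y1 y2) (t := (i, y2 - 1)) (d := 1) (n := n) (by omega) ?_ ?_
  · intro m hm
    rw [e, dir2, dir1]
    simp only [Prod.smul_mk, Prod.mk_add_mk, nsmul_eq_mul, mul_one, mul_zero, add_zero]
    rw [mem_rct, mem_rct]
    omega
  · have : run (i, y2 - 1) 1 n = ((i + n, y2 - 1), 1) := by
      unfold Pt266.run
      rw [e, dir2]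
      simp
    rw [this]
    exact w

/-- floor, from right to left -/
lemma tt_floor {i j : ℤ} (hi : x1 ≤ i) (hij : i < j) (hj : j < x2) (hy : y1 < y2)
    (w : Wk s (RG (full (rct x1 x2 y1 y2))) ((j, y1), 3) ((i, y1), 3) k) :
    tt s k = -2 := by
  obtain ⟨n, rfl⟩ := Int.le.dest hij.le
  have e : (3 : ZMod 4) + 1 = 0 := by decide
  refine tt_flat (hole_rct x1 x2 y1 y2) (t := (i + n, y1)) (d := 3) (n := n) (by omega) ?_ ?_
  · intro m hm
    rw [e, dir0, dir3]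
    simp only [Prod.smul_mk, Prod.mk_add_mk, nsmul_eq_mul, mul_neg, mul_one, mul_zero, add_zero]
    rw [mem_rct, mem_rct]
    omega
  · have : run (i + n, y1) 3 n = ((i, y1), 3) := by
      unfold Pt266.run
      rw [e, dir0]
      simp
    rw [this]
    exact w

/-- from the ceiling to the floor -/
lemma tt_cf {i j : ℤ} (hi : x1 ≤ i) (hi' : i < x2) (hj : x1 ≤ j) (hj' : j < x2) (hy : y1 < y2)
    (w : Wk s (RG (full (rct x1 x2 y1 y2))) ((i, y2 - 1), 1) ((j, y1), 3) k) :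
    tt s k = 0 := by
  obtain ⟨n, hn⟩ := Int.le.dest (show i ≤ x2 - 1 by omega)
  obtain ⟨m, hm⟩ := Int.le.dest (show y1 ≤ y2 - 1 by omega)
  obtain ⟨r, hr⟩ := Int.le.dest (show j ≤ x2 - 1 by omega)
  have e : (1 : ZMod 4) + 1 = 2 := by decide
  have e' : (2 : ZMod 4) + 1 = 3 := by decide
  have e'' : (3 : ZMod 4) + 1 = 0 := by decide
  refine tt_round (hole_rct x1 x2 y1 y2) (t := (i, y2 - 1)) (d := 1) (n := n) (m := m) (j := r)
    ?_ ?_ ?_ ?_ ?_ ?_
  · intro m hm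
    rw [e, dir2, dir1]
    simp only [Prod.smul_mk, Prod.mk_add_mk, nsmul_eq_mul, mul_one, mul_zero, add_zero]
    rw [mem_rct, mem_rct]
    omega
  · rw [e, dir2]
    simp only [Prod.smul_mk, Prod.mk_add_mk, nsmul_eq_mul, mul_one, mul_zero, add_zero]
    rw [mem_rct]
    omega
  · intro u hu
    rw [e, e', dir2, dir3]
    simp only [Prod.smul_mk, Prod.mk_add_mk, nsmul_eq_mul, mul_neg, mul_one, mul_zero, add_zero]
    rw [mem_rct, mem_rct]
    omega
  · rw [e, e', dir2, dir3]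
    simp only [Prod.smul_mk, Prod.mk_add_mk, nsmul_eq_mul, mul_neg, mul_one, mul_zero, add_zero]
    rw [mem_rct]
    omega
  · intro u hu
    rw [e, e', e'', dir2, dir3, dir0]
    simp only [Prod.smul_mk, Prod.mk_add_mk, nsmul_eq_mul, mul_neg, mul_one, mul_zero, add_zero]
    rw [mem_rct, mem_rct]
    omega
  · have : run ((i, y2 - 1) + n • dir (1 + 1) + m • dir (1 + 1 + 1)) (1 + 1 + 1) r =
        ((j, y1), 3) := by
      unfold Pt266.run
      rw [e, e', e'', dir2, dir3, dir0]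
      simp only [Prod.smul_mk, Prod.mk_add_mk, nsmul_eq_mul, mul_neg, mul_one, mul_zero, add_zero]
      congr 2 <;> omega
    rw [this]
    exact w

/-- natural phases of the strip (in units `π/12`) -/
def psS (b' : ℤ) (q : (ℤ × ℤ) × ZMod 4) : ℤ :=
  if q.2 = 3 then 3 else if q.1.1 < b' then 1 else 5

/-- ceiling or floor port -/
def VE (y1 y2 : ℤ) (q : (ℤ × ℤ) × ZMod 4) : Prop :=
  (q.2 = 1 ∧ q.1.2 = y2 - 1) ∨ (q.2 = 3 ∧ q.1.2 = y1)

/-- two ceiling ports on different sides of `b'` -/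
def Ovr (b' : ℤ) (x y : (ℤ × ℤ) × ZMod 4) : Prop :=
  x.2 = 1 ∧ y.2 = 1 ∧ ((x.1.1 < b' ∧ b' ≤ y.1.1) ∨ (y.1.1 < b' ∧ b' ≤ x.1.1))

lemma rg_symm (A : Finset (ℤ × ℤ)) : ∀ a b, RG (full A) a b → RG (full A) b a :=
  (Pt266.rg_glu (full A)).sym

/-- **phase of an arc of the strip** -/
theorem strip_arc {b' : ℤ} {x y : (ℤ × ℤ) × ZMod 4} (hx : x.1 ∈ rct x1 x2 y1 y2)
    (hy : y.1 ∈ rct x1 x2 y1 y2) (vx : VE y1 y2 x) (vy : VE y1 y2 y) (hne : x ≠ y)
    (w : Wk s (RG (full (rct x1 x2 y1 y2))) x y k) :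
    (Ovr b' x y ∧ (-tt s k + psS b' y - psS b' x = 6 ∨ -tt s k + psS b' y - psS b' x = -6)) ∨
    (¬ Ovr b' x y ∧
      (-tt s k + psS b' y - psS b' x = 2 ∨ -tt s k + psS b' y - psS b' x = -2)) := by
  obtain ⟨⟨i, u⟩, d⟩ := x
  obtain ⟨⟨j, v⟩, e⟩ := y
  rw [mem_rct] at hx hy
  obtain ⟨⟨hi1, hi2⟩, hu1, hu2⟩ := hx
  obtain ⟨⟨hj1, hj2⟩, hv1, hv2⟩ := hy
  have w' := w.reverse (rg_symm _)
  have n13 : (1 : ZMod 4) ≠ 3 := by decide
  rcases vx with ⟨rfl, vx⟩ | ⟨rfl, vx⟩ <;> rcases vy with ⟨rfl, vy⟩ | ⟨rfl, vy⟩ <;>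
    simp only at vx vy <;> subst vx <;> subst vy
  · -- ceiling, ceiling
    have e1 : psS b' ((i, y2 - 1), 1) = if i < b' then 1 else 5 := by
      simp [psS, n13]
    have e2 : psS b' ((j, y2 - 1), 1) = if j < b' then 1 else 5 := by
      simp [psS, n13]
    rw [e1, e2]
    have e3 : Ovr b' ((i, y2 - 1), 1) ((j, y2 - 1), 1) ↔
        ((i < b' ∧ b' ≤ j) ∨ (j < b' ∧ b' ≤ i)) := by simp [Ovr]
    rw [e3]
    rcases lt_trichotomy i j with h | h | h
    · have := tt_ceil hi1 h hj2 (by omega) w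
      rw [this]
      split_ifs <;> omega
    · exact absurd (by rw [h]) hne
    · have := tt_ceil hj1 h hi2 (by omega) w'
      rw [tt_rv] at this
      split_ifs <;> omega
  · -- ceiling, floor
    have e1 : psS b' ((i, y2 - 1), 1) = if i < b' then 1 else 5 := by
      simp [psS, n13]
    have e2 : psS b' ((j, v), 3) = 3 := by simp [psS]
    rw [e1, e2]
    have := tt_cf hi1 hi2 hj1 hj2 (by omega) w
    rw [this]
    have e3 : ¬ Ovr b' ((i, y2 - 1), 1) ((j, v), 3) := fun h => n13 h.2.1.symm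
    refine Or.inr ⟨e3, ?_⟩
    split_ifs <;> omega
  · -- floor, ceiling
    have e1 : psS b' ((i, u), 3) = 3 := by simp [psS]
    have e2 : psS b' ((j, y2 - 1), 1) = if j < b' then 1 else 5 := by
      simp [psS, n13]
    rw [e1, e2]
    have := tt_cf hj1 hj2 hi1 hi2 (by omega) w'
    rw [tt_rv] at this
    have e3 : ¬ Ovr b' ((i, u), 3) ((j, y2 - 1), 1) := fun h => n13 h.1.symm
    refine Or.inr ⟨e3, ?_⟩
    split_ifs <;> omega
  · -- floor, floor
    have e1 : psS b' ((i, v), 3) = 3 := by simp [psS]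
    have e2 : psS b' ((j, v), 3) = 3 := by simp [psS]
    rw [e1, e2]
    have e3 : ¬ Ovr b' ((i, v), 3) ((j, v), 3) := fun h => n13 h.1.symm
    refine Or.inr ⟨e3, ?_⟩
    rcases lt_trichotomy i j with h | h | h
    · have := tt_floor hi1 h hj2 (by omega) w'
      rw [tt_rv] at this
      omega
    · exact absurd (by rw [h]) hne
    · have := tt_floor hj1 h hi2 (by omega) w
      omega

end rect

/-! ### the strip of `G^(z)` -/

section strip

open Crest.Agent.R158.Env664 (TG Band PortOf portOf_some nbP res res_of)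
open Crest.Agent.R158.Ao857 (legP beL chL beL_ne chL_ne chG beG_fix)

/-- glueing of the plain region -/
lemma gb_beP {A : Finset (ℤ × ℤ)} {q r : (ℤ × ℤ) × ZMod 4} :
    Xr249.gb (Env664.beP A) (some q) (some r) ↔ RG (full A) q r := by
  obtain ⟨t, d⟩ := q
  have hn : nbP (some (t, d)) = some (t + dir d, d + 2) := by
    obtain ⟨x, y⟩ := t
    have e0 : (0 : ZMod 4) + 2 = 2 := by decide
    have e1 : (1 : ZMod 4) + 2 = 3 := by decide
    have e2 : (2 : ZMod 4) + 2 = 0 := by decide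
    have e3 : (3 : ZMod 4) + 2 = 1 := by decide
    rcases Xr249.Reg.d4 d with rfl | rfl | rfl | rfl
    · rw [Env664.nbP_W, dir0, e0]; simp [sub_eq_add_neg]
    · rw [Env664.nbP_N, dir1, e1]; simp
    · rw [Env664.nbP_E, dir2, e2]; simp
    · rw [Env664.nbP_S, dir3, e3]; simp [sub_eq_add_neg]
  rw [rg_full]
  unfold Xr249.gb Env664.beP res
  rw [hn]
  have hp : (PortOf A (some (t, d) : Port (ℤ × ℤ)) ∧ PortOf A (some (t + dir d, d + 2))) ↔
      (t ∈ A ∧ t + dir d ∈ A) := by rw [portOf_some, portOf_some]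
  have hne : (some (t, d) : Port (ℤ × ℤ)) ≠ some (t + dir d, d + 2) := by
    intro e
    have h2 : ∀ d : ZMod 4, d ≠ d + 2 := by decide
    exact h2 d (congrArg Prod.snd (Option.some.inj e))
  constructor
  · rintro ⟨h1, h2⟩
    by_cases h : t ∈ A ∧ t + dir d ∈ A
    · rw [if_pos (hp.2 h)] at h1
      exact ⟨h.1, h.2, (Option.some.inj h1).symm⟩
    · rw [if_neg (fun k => h (hp.1 k))] at h1
      exact absurd h1 h2
  · rintro ⟨h1, h2, rfl⟩
    rw [if_pos (hp.2 ⟨h1, h2⟩)]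
    exact ⟨rfl, hne⟩

/-- ports of the strip -/
def pS (y0 : ℤ) (q : (ℤ × ℤ) × ZMod 4) : Port TG := some (eS y0 q.1, q.2)

lemma pS_inj {y0 : ℤ} {q r : (ℤ × ℤ) × ZMod 4} (h : pS y0 q = pS y0 r) : q = r := by
  obtain ⟨h1, h2⟩ := Prod.mk.inj (Option.some.inj h)
  exact Prod.ext (Xr249.eS_inj h1) h2

lemma pS_leg {y0 p : ℤ} {q : (ℤ × ℤ) × ZMod 4} : pS y0 q ≠ legP p y0 := by
  intro h
  have := (Prod.mk.inj (Option.some.inj h)).1
  unfold Xr249.eS at this
  simp at this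

variable {A : Finset (ℤ × ℤ)} {B : Band A} {p y0 : ℤ}

/-- glued ports of a rectangle of the strip -/
lemma be_strip {r1 r2 : ℤ} (h1 : 0 ≤ r1) (h2 : r2 ≤ B.R) {q r : (ℤ × ℤ) × ZMod 4}
    (hq : q.1 ∈ rct r1 r2 B.y1 B.y2) (hr : r.1 ∈ rct r1 r2 B.y1 B.y2) :
    RG (full (rct r1 r2 B.y1 B.y2)) q r ↔ beL B p y0 (pS y0 q) = pS y0 r ∧ pS y0 q ≠ pS y0 r := by
  rw [← gb_beP]
  have := Xr249.eS_glue (p := p) (y0 := y0) (d := q.2) (d' := r.2) h1 h2 hq hr
  rw [show (some q : Port (ℤ × ℤ)) = some (q.1, q.2) from rfl,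
    show (some r : Port (ℤ × ℤ)) = some (r.1, r.2) from rfl, this, beL_ne B pS_leg]
  rfl

variable {a0 b1 : ℤ}

/-- a port of the open strip is a ceiling or floor port, or it is glued inside the strip -/
lemma strip_nb (hz : B.At p y0) (h0 : 0 ≤ a0) (h1 : b1 + 1 < B.R) {q : (ℤ × ℤ) × ZMod 4}
    (hq : q.1 ∈ rct (a0 + 1) (b1 + 1) B.y1 B.y2) :
    (beL B p y0 (pS y0 q) = pS y0 q ∧ VE B.y1 B.y2 q) ∨
    ∃ r : (ℤ × ℤ) × ZMod 4, r.1 ∈ rct a0 (b1 + 2) B.y1 B.y2 ∧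
      beL B p y0 (pS y0 q) = pS y0 r ∧ pS y0 q ≠ pS y0 r := by
  obtain ⟨g1, g2, -, -⟩ := hz
  have hq' : q.1 ∈ rct a0 (b1 + 2) B.y1 B.y2 := by
    obtain ⟨⟨x, y⟩, d⟩ := q
    rw [mem_rct] at hq ⊢
    omega
  by_cases hr : q.1 + dir q.2 ∈ rct a0 (b1 + 2) B.y1 B.y2
  · right
    refine ⟨(q.1 + dir q.2, q.2 + 2), hr, ?_⟩
    exact (be_strip h0 (by omega) hq' hr).1 (rg_full.2 ⟨hq', hr, rfl⟩)
  · left
    obtain ⟨⟨x, y⟩, d⟩ := q
    rw [mem_rct] at hq
    rcases Xr249.Reg.d4 d with rfl | rfl | rfl | rfl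
    · exfalso
      apply hr
      rw [dir0, Prod.mk_add_mk, mem_rct]
      omega
    · have hy : y = B.y2 - 1 := by
        rw [dir1, Prod.mk_add_mk, mem_rct] at hr
        omega
      refine ⟨?_, Or.inl ⟨rfl, hy⟩⟩
      rw [beL_ne B pS_leg]
      show B.beG p y0 (some (eS y0 (x, y), 1)) = some (eS y0 (x, y), 1)
      refine beG_fix B (t := Sum.inr (if y < y0 then x else x + 1, y + 1)) (d' := 3)
        (B.nbG_rN (by omega)) ?_
      rw [B.inr_mem]
      omega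
    · exfalso
      apply hr
      rw [dir2, Prod.mk_add_mk, mem_rct]
      omega
    · have hy : y = B.y1 := by
        rw [dir3, Prod.mk_add_mk, mem_rct] at hr
        omega
      refine ⟨?_, Or.inr ⟨rfl, hy⟩⟩
      rw [beL_ne B pS_leg]
      show B.beG p y0 (some (eS y0 (x, y), 3)) = some (eS y0 (x, y), 3)
      refine beG_fix B (t := Sum.inr (if y < y0 then x else x + 1, y - 1)) (d' := 1)
        (B.nbG_rS (by omega)) ?_
      rw [B.inr_mem]
      omega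

/-- no seam in the strip -/
lemma seam_strip (hz : B.At p y0) (h0 : 0 ≤ a0) (h1 : b1 + 1 < B.R) (c c' : ℝ)
    (φ : Port TG → ℝ) {q : (ℤ × ℤ) × ZMod 4} (hq : q.1 ∈ rct (a0 + 1) (b1 + 1) B.y1 B.y2) :
    chL B p y0 c c' φ (beL B p y0 (pS y0 q)) = chL B p y0 c c' φ (pS y0 q) := by
  rcases strip_nb hz h0 h1 hq with ⟨h, -⟩ | ⟨r, -, h2, h3⟩
  · rw [h]
  · rw [h2, chL_ne B pS_leg, chL_ne B pS_leg]
    rw [beL_ne B pS_leg] at h2
    have h4 : B.beG p y0 (pS y0 r) = pS y0 q := by rw [← h2, B.beG_invol hz]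
    unfold chG
    rw [if_neg (by rw [h4]; exact h3), if_neg (by rw [h2]; exact h3.symm)]
    rfl

/-- phases of the glued ports of the strip -/
lemma chL_glued (c c' : ℝ) (φ : Port TG → ℝ) {q : (ℤ × ℤ) × ZMod 4}
    (hq : beL B p y0 (pS y0 q) ≠ pS y0 q) : chL B p y0 c c' φ (pS y0 q) = 0 := by
  rw [chL_ne B pS_leg]
  rw [beL_ne B pS_leg] at hq
  unfold chG
  rw [if_neg hq]
  rfl

/-- phases of the free ports of the strip -/
lemma chL_free (c c' : ℝ) (φ : Port TG → ℝ) {q : (ℤ × ℤ) × ZMod 4}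
    (hq : beL B p y0 (pS y0 q) = pS y0 q) : chL B p y0 c c' φ (pS y0 q) = φ (pS y0 q) := by
  rw [chL_ne B pS_leg]
  rw [beL_ne B pS_leg] at hq
  unfold chG
  rw [if_pos hq]

variable (c c' : ℝ) (φ : Port TG → ℝ) (s : TG → Bool)

/-- strands of a rectangle are walks of the network -/
lemma push {r1 r2 : ℤ} (h1 : 0 ≤ r1) (h2 : r2 ≤ B.R) {x y : (ℤ × ℤ) × ZMod 4}
    {k : List ((ℤ × ℤ) × ZMod 4)}
    (w : Wk (fun t => s (eS y0 t)) (RG (full (rct r1 r2 B.y1 B.y2))) x y k) :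
    (netN B p y0 c c' φ s).Wa (pS y0 x) (pS y0 y) (k.map (pS y0)) := by
  induction w with
  | one => exact Net.Wa.one _
  | @snoc q r l w hg ih =>
    have hg' := rg_full.1 hg
    have hr : r.1 ∈ rct r1 r2 B.y1 B.y2 := by rw [hg'.2.2]; exact hg'.2.1
    obtain ⟨e1, e2⟩ := (be_strip (p := p) (y0 := y0) h1 h2 hg'.1 hr).1 hg
    rw [List.map_append, List.map_singleton]
    have := Net.Wa.snoc ih (by
      show beL B p y0 (pS y0 q) ≠ pS y0 q
      rw [e1]
      exact e2.symm)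
    have e : (netN B p y0 c c' φ s).be (pS y0 q) = pS y0 r := e1
    rw [e] at this
    exact this

/-- walks of the network in a rectangle of the strip are strands -/
lemma pull {r1 r2 : ℤ} (h1 : 0 ≤ r1) (h2 : r2 ≤ B.R) {x y : Port TG} {l : List (Port TG)}
    (w : (netN B p y0 c c' φ s).Wa x y l)
    (hl : ∀ z ∈ l, ∃ q : (ℤ × ℤ) × ZMod 4, q.1 ∈ rct r1 r2 B.y1 B.y2 ∧ z = pS y0 q) :
    ∃ x' y' : (ℤ × ℤ) × ZMod 4, ∃ k, x = pS y0 x' ∧ y = pS y0 y' ∧ l = k.map (pS y0) ∧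
      (∀ q ∈ k, q.1 ∈ rct r1 r2 B.y1 B.y2) ∧ y'.1 ∈ rct r1 r2 B.y1 B.y2 ∧
      Wk (fun t => s (eS y0 t)) (RG (full (rct r1 r2 B.y1 B.y2))) x' y' k := by
  induction w with
  | one =>
    obtain ⟨q, hq, rfl⟩ := hl x (List.mem_singleton_self _)
    refine ⟨q, pass (fun t => s (eS y0 t)) q, [q], rfl, rfl, rfl, ?_, hq, Wk.one⟩
    intro r hr
    rw [List.mem_singleton] at hr
    rw [hr]; exact hq
  | @snoc q l w hb ih =>
    obtain ⟨x', y', k, rfl, rfl, rfl, h3, h4, h5⟩ := ih fun z hz => hl z (by simp [hz])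
    obtain ⟨r, hr, er⟩ := hl _ (List.mem_append_right _ (List.mem_singleton_self _))
    have hg : RG (full (rct r1 r2 B.y1 B.y2)) y' r := by
      refine (be_strip (p := p) (y0 := y0) h1 h2 h4 hr).2 ⟨er, ?_⟩
      rw [← er]
      exact hb.symm
    refine ⟨x', pass (fun t => s (eS y0 t)) r, k ++ [r], rfl, ?_, ?_, ?_, hr, h5.snoc hg⟩
    · rw [er]; rfl
    · rw [er, List.map_append, List.map_singleton]
    · intro z hz
      rcases List.mem_append.1 hz with hz | hz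
      · exact h3 z hz
      · rw [List.mem_singleton] at hz
        rw [hz]; exact hr

/-- phase of a walk in the strip -/
lemma wl_strip (hz : B.At p y0) (h0 : 0 ≤ a0) (h1 : b1 + 1 < B.R) {x y : (ℤ × ℤ) × ZMod 4}
    {k : List ((ℤ × ℤ) × ZMod 4)} (hx : x.1 ∈ rct (a0 + 1) (b1 + 1) B.y1 B.y2)
    (w : Wk (fun t => s (eS y0 t)) (RG (full (rct (a0 + 1) (b1 + 1) B.y1 B.y2))) x y k) :
    (∀ q ∈ k, q.1 ∈ rct (a0 + 1) (b1 + 1) B.y1 B.y2) ∧
    (netN B p y0 c c' φ s).wl (k.map (pS y0)) =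
      Real.pi / 12 * (-(tt (fun t => s (eS y0 t)) k : ℝ)) +
        (-chL B p y0 c c' φ (pS y0 y) + chL B p y0 c c' φ (pS y0 x)) := by
  have hk : ∀ q ∈ k, q.1 ∈ rct (a0 + 1) (b1 + 1) B.y1 B.y2 := by
    induction w with
    | one =>
      intro q hq
      rw [List.mem_singleton] at hq
      rw [hq]; exact hx
    | @snoc q r l w hg ih =>
      intro z hzz
      rcases List.mem_append.1 hzz with hzz | hzz
      · exact ih z hzz
      · rw [List.mem_singleton] at hzz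
        rw [hzz, (rg_full.1 hg).2.2]
        exact (rg_full.1 hg).2.1
  refine ⟨hk, ?_⟩
  have hW := push (p := p) c c' φ s (by omega : 0 ≤ a0 + 1) (by omega : b1 + 1 ≤ B.R) w
  have hok := netN_ok hz c c' φ s
  have hxV : pS y0 x ∈ ports (B.tG y0) :=
    mem_ports.2 (Xr249.eS_mem (by omega : 0 ≤ a0 + 1) (by omega : b1 + 1 ≤ B.R) hx)
  have h2 := (Wa_wl (be := beL B p y0) (ch := fun q => -chL B p y0 c c' φ q)
    (fun z hz' => Ao857.beL_invol B hz (fun e => none_ports (e ▸ hz')))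
    (fun z hz' => Ao857.beL_ports B hz hz') hxV hW).2
  have h3 : seam (beL B p y0) (fun q => -chL B p y0 c c' φ q) (k.map (pS y0)).tail = 0 := by
    unfold seam
    apply List.sum_eq_zero
    intro v hv
    obtain ⟨z, hz1, rfl⟩ := List.mem_map.1 hv
    obtain ⟨q, hq, rfl⟩ := List.mem_map.1 (List.mem_of_mem_tail hz1)
    show -chL B p y0 c c' φ (beL B p y0 (pS y0 q)) - -chL B p y0 c c' φ (pS y0 q) = 0
    rw [seam_strip hz h0 h1 c c' φ (hk q hq)]
    ring
  have h4 : tql s (k.map (pS y0)) = -(tt (fun t => s (eS y0 t)) k : ℝ) := by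
    have e : k.map (pS y0) = (k.map fun q => (eS y0 q.1, q.2)).map some := by
      rw [List.map_map]; rfl
    rw [e, tql_tt]
    unfold Pt266.tt
    rw [List.map_map]
    rfl
  rw [show (netN B p y0 c c' φ s).wl (k.map (pS y0)) = _ from h2, h3, h4]
  ring

/-- ceiling and floor ports are free -/
lemma be_VE (hz : B.At p y0) (h0 : 0 ≤ a0) (h1 : b1 + 1 < B.R) {q : (ℤ × ℤ) × ZMod 4}
    (hq : q.1 ∈ rct (a0 + 1) (b1 + 1) B.y1 B.y2) (hv : VE B.y1 B.y2 q) :
    beL B p y0 (pS y0 q) = pS y0 q := by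
  rcases strip_nb hz h0 h1 hq with ⟨h, -⟩ | ⟨r, h2, h3, h4⟩
  · exact h
  · exfalso
    have hq' : q.1 ∈ rct a0 (b1 + 2) B.y1 B.y2 := by
      obtain ⟨⟨x, y⟩, d⟩ := q
      rw [mem_rct] at hq ⊢
      omega
    have h5 := (rg_full.1 ((be_strip (p := p) (y0 := y0) h0 (by omega) hq' h2).2 ⟨h3, h4⟩)).2.1
    obtain ⟨⟨x, y⟩, d⟩ := q
    rcases hv with ⟨hd, hy⟩ | ⟨hd, hy⟩ <;> simp only at hd hy <;> subst hd <;> subst hy
    · rw [dir1, Prod.mk_add_mk, mem_rct] at h5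
      omega
    · rw [dir3, Prod.mk_add_mk, mem_rct] at h5
      omega

/-- the phases of the strip -/
def PhS (B : Band A) (y0 a0 b1 b' : ℤ) (φ : Port TG → ℝ) : Prop :=
  ∀ q : (ℤ × ℤ) × ZMod 4, q.1 ∈ rct (a0 + 1) (b1 + 1) B.y1 B.y2 → VE B.y1 B.y2 q →
    φ (pS y0 q) = -(Real.pi / 12 * psS b' q)

lemma strip_V {r1 r2 : ℤ} (h1 : 0 ≤ r1) (h2 : r2 ≤ B.R) {q : (ℤ × ℤ) × ZMod 4}
    (hq : q.1 ∈ rct r1 r2 B.y1 B.y2) : pS y0 q ∈ (netN B p y0 c c' φ s).V :=
  mem_ports.2 (Xr249.eS_mem h1 h2 hq)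

variable {c c' φ s}

/-- **value of an arc of the strip** -/
theorem zn_arc (hz : B.At p y0) (h0 : 0 ≤ a0) (h1 : b1 + 1 < B.R) {b' : ℤ}
    (hφ : PhS B y0 a0 b1 b' φ) {x y : (ℤ × ℤ) × ZMod 4} {k : List ((ℤ × ℤ) × ZMod 4)}
    (hx : x.1 ∈ rct (a0 + 1) (b1 + 1) B.y1 B.y2) (hy : y.1 ∈ rct (a0 + 1) (b1 + 1) B.y1 B.y2)
    (vx : VE B.y1 B.y2 x) (vy : VE B.y1 B.y2 y) (hne : x ≠ y)
    (w : Wk (fun t => s (eS y0 t)) (RG (full (rct (a0 + 1) (b1 + 1) B.y1 B.y2))) x y k) :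
    (Ovr b' x y → (netN B p y0 c c' φ s).zn ((netN B p y0 c c' φ s).cls (pS y0 x)) = 0) ∧
    (¬ Ovr b' x y → (netN B p y0 c c' φ s).zn ((netN B p y0 c c' φ s).cls (pS y0 x)) = 1) := by
  have hok := netN_ok hz c c' φ s
  have hxV : pS y0 x ∈ (netN B p y0 c c' φ s).V := strip_V c c' φ s (by omega) (by omega) hx
  have bx := be_VE hz h0 h1 hx vx
  have by' := be_VE hz h0 h1 hy vy
  have hW := push (p := p) c c' φ s (by omega : 0 ≤ a0 + 1) (by omega : b1 + 1 ≤ B.R) w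
  obtain ⟨-, -, hzv⟩ := Net.z_arc hok hxV hW bx by'
  have hwl := (wl_strip c c' φ s hz h0 h1 hx w).2
  rw [chL_free c c' φ bx, chL_free c c' φ by', hφ x hx vx, hφ y hy vy] at hwl
  have hen : ((netN B p y0 c c' φ s).ends ((netN B p y0 c c' φ s).cls (pS y0 x))).Nonempty :=
    ⟨pS y0 x, Finset.mem_filter.2 ⟨Net.self_mem_cls hxV, bx⟩⟩
  set W : ℤ := -tt (fun t => s (eS y0 t)) k + psS b' y - psS b' x with hWd
  have hwl' : (netN B p y0 c c' φ s).wl (k.map (pS y0)) = Real.pi / 12 * (W : ℝ) := by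
    rw [hwl, hWd]
    push_cast
    ring
  unfold Net.zn
  rw [if_pos hen, hzv, hwl']
  rcases strip_arc (b' := b') hx hy vx vy hne w with ⟨hO, hv⟩ | ⟨hO, hv⟩
  · refine ⟨fun _ => ?_, fun h => absurd hO h⟩
    have : Real.cos (Real.pi / 12 * (W : ℝ)) = 0 := by
      rcases hv with hv | hv <;> rw [hWd, hv]
      · rw [show Real.pi / 12 * ((6 : ℤ) : ℝ) = Real.pi / 2 by push_cast; ring,
          Real.cos_pi_div_two]
      · rw [show Real.pi / 12 * ((-6 : ℤ) : ℝ) = -(Real.pi / 2) by push_cast; ring,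
          Real.cos_neg, Real.cos_pi_div_two]
    rw [this]
    simp
  · refine ⟨fun h => absurd h hO, fun _ => ?_⟩
    have : Real.cos (Real.pi / 12 * (W : ℝ)) = Real.sqrt 3 / 2 := by
      rcases hv with hv | hv <;> rw [hWd, hv]
      · rw [show Real.pi / 12 * ((2 : ℤ) : ℝ) = Real.pi / 6 by push_cast; ring,
          Real.cos_pi_div_six]
      · rw [show Real.pi / 12 * ((-2 : ℤ) : ℝ) = -(Real.pi / 6) by push_cast; ring,
          Real.cos_neg, Real.cos_pi_div_six]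
    rw [this]
    push_cast
    rw [mul_div_cancel₀ _ (two_ne_zero)]
    exact div_self Net.sqrt3_ne

/-- **value of a loop of the strip** -/
theorem zn_loop (hz : B.At p y0) (h0 : 0 ≤ a0) (h1 : b1 + 1 < B.R)
    {x y : (ℤ × ℤ) × ZMod 4} {k : List ((ℤ × ℤ) × ZMod 4)}
    (hx : x.1 ∈ rct (a0 + 1) (b1 + 1) B.y1 B.y2) (hk : k.Nodup)
    (w : Wk (fun t => s (eS y0 t)) (RG (full (rct (a0 + 1) (b1 + 1) B.y1 B.y2))) x y k)
    (hg : RG (full (rct (a0 + 1) (b1 + 1) B.y1 B.y2)) y x) :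
    (netN B p y0 c c' φ s).zn ((netN B p y0 c c' φ s).cls (pS y0 x)) = 1 := by
  have hok := netN_ok hz c c' φ s
  have hxV : pS y0 x ∈ (netN B p y0 c c' φ s).V := strip_V c c' φ s (by omega) (by omega) hx
  have hg' := rg_full.1 hg
  obtain ⟨e1, e2⟩ := (be_strip (p := p) (y0 := y0) (by omega : 0 ≤ a0 + 1)
    (by omega : b1 + 1 ≤ B.R) hg'.1 hx).1 hg
  have e3 : beL B p y0 (pS y0 x) = pS y0 y := by
    rw [← e1]
    exact hok.be2 _ (strip_V c c' φ s (by omega : 0 ≤ a0 + 1) (by omega : b1 + 1 ≤ B.R) hg'.1)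
  have hW := push (p := p) c c' φ s (by omega : 0 ≤ a0 + 1) (by omega : b1 + 1 ≤ B.R) w
  have hkN : (k.map (pS y0)).Nodup := hk.map fun a b => pS_inj
  obtain ⟨-, hzv⟩ := Net.z_loop hok hxV hW e1 hkN
  have hem := Net.loop_ends hok hxV hW e1 hkN
  obtain ⟨hkS, hwl⟩ := wl_strip c c' φ s hz h0 h1 hx w
  rw [chL_glued c c' φ (by rw [e1]; exact e2.symm), chL_glued c c' φ (by rw [e3]; exact e2),
    neg_zero, add_zero, add_zero] at hwl
  have htt := full_loop (hole_rct (a0 + 1) (b1 + 1) B.y1 B.y2) ⟨hk, x, y, w, hg⟩ hkS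
  unfold Net.zn
  rw [if_neg (by rw [hem]; simp), hzv, hwl]
  have : Real.cos (Real.pi / 12 * (-(tt (fun t => s (eS y0 t)) k : ℝ))) = 1 / 2 := by
    rcases htt with h | h <;> rw [h]
    · rw [show Real.pi / 12 * (-((4 : ℤ) : ℝ)) = -(Real.pi / 3) by push_cast; ring,
        Real.cos_neg, Real.cos_pi_div_three]
    · rw [show Real.pi / 12 * (-((-4 : ℤ) : ℝ)) = Real.pi / 3 by push_cast; ring,
        Real.cos_pi_div_three]
  rw [this]
  norm_num

end strip

end Crest.Agent.R158.Ad350
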