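import Crest.Agent.R158.Ad10_350

/-!
# Block AD, the classes of `netN` and the gates of helper180 (helper350)

* `Net.zvn`, `Net.zv_zvn` : normalised value with an entering arrow
* `Wa_Wk` : walks of `netN` are strands of `Gq (beG)`
* `near_far` : closed gates: no class visits both `Near` and `Far`
* `OverR B y0 r1 r2 b' s` : a strand of the rectangle `r1 ≤ u < r2` of the strip joins a ceiling port left
  of `b'` to a ceiling port right of `b'`
* `over_far` : on closed far gates the strands over `b'` stay in the far rectangle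
* `strip_prod` : product over the classes that do not visit `Near`
-/

set_option autoImplicit false
set_option linter.unusedSectionVars false
set_option linter.unusedVariables false

noncomputable section

open Finset

namespace Crest.Agent.R158.Ad350

open Crest.Agent.R158.Pt266 (gl_full rg_full RG tt tt_rv rv dir Wk pass)
open Crest.Agent.R158.Xr249 (rct mem_rct full eS)
open Crest.Agent.R158.Sw300 (Port thru)

namespace Net

variable {P : Type*} [DecidableEq P] {N : Net P}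

/-- normalised value with an entering arrow at `x` -/
def zvn (N : Net P) (x : P) : ℂ :=
  N.zv (N.cls x) x false * ∏ c ∈ (N.classes N.V).erase (N.cls x), N.zn c

theorem zv_zvn (h : N.Ok) {x : P} (hx : x ∈ N.V) (hb : N.be x = x) :
    N.zv N.V x false = ((Real.sqrt 3 : ℝ) : ℂ) ^ ((N.ends N.V).card / 2 - 1) * N.zvn x := by
  obtain ⟨y, l, w, h2, -⟩ := exists_leg h hx hb
  rw [zv_norm h hx w hb h2, zvn, zv_leg h hx w hb h2]
  simp

lemma Wa.memV (h : N.Ok) {x y : P} (hx : x ∈ N.V) {l : List P} (w : N.Wa x y l) :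
    (∀ z ∈ l, z ∈ N.V) ∧ y ∈ N.V ∧ y ≠ x := by
  obtain ⟨n, rfl, rfl, h3⟩ := w.data
  refine ⟨fun z hz => ?_, h.alV _ (it_mem h hx n), it_ne h hx h3 n 0 le_rfl (Nat.zero_le _)⟩
  obtain ⟨i, -, rfl⟩ := List.mem_map.1 hz
  exact it_mem h hx i

/-- every class is the set of the ports of a walk -/
theorem class_walk (h : N.Ok) {z : P} (hz : z ∈ N.V) : ∃ x ∈ N.V, ∃ y l, N.Wa x y l ∧ l.Nodup ∧
    N.cls z = N.cls x ∧ N.cls x = l.toFinset ∪ (l.map N.al).toFinset ∧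
    ((N.be x = x ∧ N.be y = y) ∨ N.be y = x) := by
  obtain ⟨x, hx, y, l, w, hl, e, k⟩ := exists_walk h hz
  refine ⟨x, hx, y, l, w, hl, e, ?_, k⟩
  rcases k with ⟨k1, k2⟩ | k
  · exact (z_arc h hx w k1 k2).2.1
  · exact (z_loop h hx w k hl).1

end Net

/-! ### gates -/

section gates

open Crest.Agent.R158.Env664 (TG Band PortOf portOf_some nbP res res_of)
open Crest.Agent.R158.Ao857 (legP beL chL beL_ne chL_ne chG beG_fix)
open Crest.Agent.R158.Zg180 (Gq Near Far gate uc se)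

variable {A : Finset (ℤ × ℤ)} {B : Band A} {p y0 : ℤ} {c c' : ℝ} {φ : Port TG → ℝ}
  {s : TG → Bool}

/-- walks of the network are strands -/
lemma Wa_Wk (hz : B.At p y0) {x y : Port TG} {l : List (Port TG)}
    (hx : x ∈ (netN B p y0 c c' φ s).V) (w : (netN B p y0 c c' φ s).Wa x y l) :
    ∃ x' y' k, x = some x' ∧ y = some y' ∧ l = k.map some ∧
      Ka470.Wk s (Gq (B.beG p y0)) x' y' k := by
  have hok := netN_ok hz c c' φ s
  induction w with
  | one =>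
    obtain ⟨t, d, rfl, ht⟩ := mem_ports' hx
    exact ⟨(t, d), (t, thru (s t) d), [(t, d)], rfl, rfl, rfl, Ka470.Wk.one⟩
  | @snoc q l w hb ih =>
    obtain ⟨x', y', k, rfl, rfl, rfl, h3⟩ := ih
    have hqV := (Net.Wa.memV hok hx w).2.1
    have hrV := hok.beV _ hqV
    obtain ⟨t, d, er, ht⟩ := mem_ports' hrV
    have hne : (some y' : Port TG) ≠ legP p y0 := by
      intro e
      apply hb
      show beL B p y0 (some y') = some y'
      rw [e, Ao857.beL_leg]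
    have hbe : B.beG p y0 (some y') = some (t, d) := by
      rw [← beL_ne B hne]
      exact er
    have hg : Gq (B.beG p y0) y' (t, d) := by
      refine ⟨hbe, ?_⟩
      intro e
      apply hb
      rw [er, e]
    refine ⟨x', (t, thru (s t) d), k ++ [(t, d)], rfl, ?_, ?_, h3.snoc hg⟩
    · rw [er]; rfl
    · rw [er, List.map_append]; rfl

/-- the tile of the port is in `Q` -/
def TQ (Q : Set TG) (z : Port TG) : Prop := ∃ t d, z = some (t, d) ∧ t ∈ Q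

/-- a class that visits `Q` has a walk with a tile in `Q` -/
lemma vis_walk {Q : Set TG} {k : List (TG × ZMod 4)}
    (h : Net.Vis (TQ Q) ((k.map some).toFinset ∪
      ((k.map some).map (netN B p y0 c c' φ s).al).toFinset)) : ∃ q ∈ k, q.1 ∈ Q := by
  obtain ⟨z, hz, t, d, rfl, ht⟩ := h
  rcases Finset.mem_union.1 hz with hz | hz
  · rw [List.mem_toFinset, List.mem_map] at hz
    obtain ⟨q, hq, e⟩ := hz
    rw [Option.some.inj e] at hq
    exact ⟨_, hq, ht⟩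
  · rw [List.mem_toFinset, List.map_map, List.mem_map] at hz
    obtain ⟨q, hq, e⟩ := hz
    have e' : (q.1, thru (s q.1) q.2) = (t, d) := Option.some.inj e
    refine ⟨q, hq, ?_⟩
    rw [show q.1 = t from congrArg Prod.fst e']
    exact ht

/-- **closed gates: no class visits both sides** -/
theorem near_far (hz : B.At p y0) {a0 a1 b0 b1 : ℤ} (h0 : 0 ≤ a0) (ha : a0 < a1) (hab : a1 < b0)
    (hb : b0 < b1) (hR : b1 + 1 < B.R)
    (ca : (gate hz h0 ha (by omega : a1 + 1 < B.R)).Closed s)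
    (cb : (gate hz (by omega : 0 ≤ b0) hb hR).Closed s) {z : Port TG}
    (hzV : z ∈ (netN B p y0 c c' φ s).V)
    (h1 : Net.Vis (TQ (Near y0 a0 b1)) ((netN B p y0 c c' φ s).cls z)) :
    ¬ Net.Vis (TQ (Far y0 a1 b0)) ((netN B p y0 c c' φ s).cls z) := by
  have hok := netN_ok hz c c' φ s
  intro h2
  obtain ⟨x, hx, y, l, w, -, e, e', -⟩ := Net.class_walk hok hzV
  obtain ⟨x', y', k, rfl, rfl, rfl, hw⟩ := Wa_Wk hz hx w
  rw [e, e'] at h1 h2
  exact Zg180.gates hz h0 ha hab hb hR ca cb hw ⟨vis_walk h1, vis_walk h2⟩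

/-- a class that does not visit `Near` stays in the strip -/
lemma in_strip (hz : B.At p y0) {a0 b1 : ℤ} {C : Finset (Port TG)}
    (hC : C ∈ (netN B p y0 c c' φ s).classes (netN B p y0 c c' φ s).V)
    (h : ¬ Net.Vis (TQ (Near y0 a0 b1)) C) : ∀ z ∈ C, ∃ q : (ℤ × ℤ) × ZMod 4,
      q.1 ∈ rct (a0 + 1) (b1 + 1) B.y1 B.y2 ∧ z = pS y0 q := by
  have hok := netN_ok hz c c' φ s
  intro z hzC
  have hzV := (Net.classes_sub hok hok.clV hC).1 hzC
  obtain ⟨t, d, rfl, ht⟩ := mem_ports' hzV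
  have hn : t ∉ Near y0 a0 b1 := fun k => h ⟨_, hzC, t, d, rfl, k⟩
  rcases t with v | v
  · exact absurd (Or.inl ⟨v, rfl⟩) hn
  · have h1 : ¬ (uc y0 v ≤ a0 ∨ b1 < uc y0 v) := fun k => hn (Or.inr ⟨v, rfl, k⟩)
    have h2 := (B.inr_mem (y0 := y0) (i := v.1) (y := v.2)).1 ht
    refine ⟨((uc y0 v, v.2), d), ?_, ?_⟩
    · rw [mem_rct]
      omega
    · show (some (Sum.inr v, d) : Port TG) = some (eS y0 (uc y0 v, v.2), d)
      rw [← Zg180.se_uc y0 v]
      rfl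

/-- a strand of the rectangle over `b'` -/
def OverR (B : Band A) (y0 r1 r2 b' : ℤ) (s : TG → Bool) : Prop :=
  ∃ i j k, (r1 ≤ i ∧ i < b') ∧ (b' ≤ j ∧ j < r2) ∧
    Wk (fun t => s (eS y0 t)) (RG (full (rct r1 r2 B.y1 B.y2))) ((i, B.y2 - 1), 1)
      ((j, B.y2 - 1), 1) k

/-- strands of a rectangle stay in the rectangle -/
lemma wk_rct {r1 r2 y1 y2 : ℤ} {s' : ℤ × ℤ → Bool} {x y : (ℤ × ℤ) × ZMod 4}
    {k : List ((ℤ × ℤ) × ZMod 4)} (hx : x.1 ∈ rct r1 r2 y1 y2)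
    (w : Wk s' (RG (full (rct r1 r2 y1 y2))) x y k) : ∀ q ∈ k, q.1 ∈ rct r1 r2 y1 y2 := by
  induction w with
  | one =>
    intro q hq
    rw [List.mem_singleton] at hq
    rw [hq]; exact hx
  | @snoc q r l w hg ih =>
    intro z hzz
    rcases List.mem_append.1 hzz with hzz | hzz
    · exact ih z hzz
    · rw [List.mem_singleton] at hzz
      rw [hzz, (rg_full.1 hg).2.2]
      exact (rg_full.1 hg).2.1

lemma dir_le (d : ZMod 4) : (dir d).1 ≤ 1 := by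
  rcases Xr249.Reg.d4 d with rfl | rfl | rfl | rfl
  · rw [dir0]; norm_num
  · rw [dir1]; norm_num
  · rw [dir2]
  · rw [dir3]; norm_num

/-- a strand from the left of the column `b'` to the right visits it -/
lemma wk_ivt {r1 r2 y1 y2 : ℤ} {s' : ℤ × ℤ → Bool} {b' : ℤ} {x y : (ℤ × ℤ) × ZMod 4}
    {k : List ((ℤ × ℤ) × ZMod 4)} (hx : x.1.1 < b')
    (w : Wk s' (RG (full (rct r1 r2 y1 y2))) x y k) (hy : b' ≤ y.1.1) :
    ∃ q ∈ k, q.1.1 = b' := by
  induction w with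
  | one =>
    have : x.1.1 < b' := hx
    have h2 : b' ≤ x.1.1 := hy
    omega
  | @snoc q r l w hg ih =>
    by_cases h : b' ≤ q.1.1
    · obtain ⟨z, hz1, hz2⟩ := ih h
      exact ⟨z, List.mem_append_left _ hz1, hz2⟩
    · refine ⟨r, List.mem_append_right _ (List.mem_singleton_self r), ?_⟩
      have h2 : b' ≤ r.1.1 := hy
      have h3 := (rg_full.1 hg).2.2
      have h4 : r.1.1 = q.1.1 + (dir q.2).1 := by rw [h3]; rfl
      have h5 := dir_le q.2
      omega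

/-- strands of a rectangle of the strip are strands -/
lemma push_K {r1 r2 : ℤ} (h1 : 0 ≤ r1) (h2 : r2 ≤ B.R) {x y : (ℤ × ℤ) × ZMod 4}
    {k : List ((ℤ × ℤ) × ZMod 4)}
    (w : Wk (fun t => s (eS y0 t)) (RG (full (rct r1 r2 B.y1 B.y2))) x y k) :
    Ka470.Wk s (Gq (B.beG p y0)) (eS y0 x.1, x.2) (eS y0 y.1, y.2)
      (k.map fun q => (eS y0 q.1, q.2)) := by
  induction w with
  | one => exact Ka470.Wk.one
  | @snoc q r l w hg ih =>
    have hg' := rg_full.1 hg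
    have hr : r.1 ∈ rct r1 r2 B.y1 B.y2 := by rw [hg'.2.2]; exact hg'.2.1
    obtain ⟨e1, e2⟩ := (be_strip (p := p) (y0 := y0) h1 h2 hg'.1 hr).1 hg
    rw [beL_ne B pS_leg] at e1
    rw [List.map_append, List.map_singleton]
    exact ih.snoc ⟨e1, fun e => e2 (congrArg some e)⟩

/-- **closed far gates: the strands over `b'` stay in the far rectangle** -/
theorem over_far (hz : B.At p y0) {f0 f1 g0 g1 : ℤ} (h0 : 0 ≤ f0) (ha : f0 < f1) (hab : f1 < g0)
    (hb : g0 < g1) (hR : g1 + 1 < B.R)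
    (ca : (gate hz h0 ha (by omega : f1 + 1 < B.R)).Closed s)
    (cb : (gate hz (by omega : 0 ≤ g0) hb hR).Closed s) {b' r1 r2 R1 R2 : ℤ} (hf : f1 < b')
    (hg : b' ≤ g0) (hr1 : r1 ≤ f0 + 1) (hr2 : g1 + 1 ≤ r2) (h1 : 0 ≤ R1) (h2 : R2 ≤ B.R)
    (h : OverR B y0 R1 R2 b' s) : OverR B y0 r1 r2 b' s := by
  obtain ⟨i, j, k, hi, hj, w⟩ := h
  have hy1 : B.y1 < B.y2 := lt_trans hz.hy1 hz.hy2
  have hxS : ((i, B.y2 - 1) : ℤ × ℤ) ∈ rct R1 R2 B.y1 B.y2 := by rw [mem_rct]; omega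
  have hk := wk_rct hxS w
  obtain ⟨q, hq, hqb⟩ := wk_ivt (b' := b') hi.2 w hj.1
  have hno := Zg180.gates hz h0 ha hab hb hR ca cb (push_K (p := p) h1 h2 w)
  have hfar : ∃ r ∈ k.map fun q => (eS y0 q.1, q.2), r.1 ∈ Far y0 f1 g0 := by
    refine ⟨_, List.mem_map.2 ⟨q, hq, rfl⟩, ?_⟩
    obtain ⟨v, e1, e2⟩ := Zg180.uc_se (y0 := y0) q.1
    exact ⟨v, e1, by omega, by omega⟩
  have hin : ∀ q ∈ k, q.1 ∈ rct r1 r2 B.y1 B.y2 := by
    intro q hq
    have h3 := hk q hq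
    have h4 : ¬ (q.1.1 ≤ f0 ∨ g1 < q.1.1) := by
      intro h5
      refine hno ⟨⟨_, List.mem_map.2 ⟨q, hq, rfl⟩, ?_⟩, hfar⟩
      obtain ⟨v, e1, e2⟩ := Zg180.uc_se (y0 := y0) q.1
      exact Or.inr ⟨v, e1, by omega⟩
    obtain ⟨⟨u, v⟩, d⟩ := q
    rw [mem_rct] at h3 ⊢
    simp only at h4
    omega
  have hj2 : ((j, B.y2 - 1) : ℤ × ℤ) ∈ rct r1 r2 B.y1 B.y2 := hin _ w.mem_right
  rw [mem_rct] at hj2
  have hi2 : ((i, B.y2 - 1) : ℤ × ℤ) ∈ rct r1 r2 B.y1 B.y2 := hin _ w.mem_left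
  rw [mem_rct] at hi2
  refine ⟨i, j, k, ⟨hi2.1.1, hi.2⟩, ⟨hj.1, hj2.1.2⟩, w.congr ?_⟩
  intro a b ha' hb' hab'
  obtain ⟨a', ha1, ha2⟩ := List.mem_map.1 ha'
  obtain ⟨b'', hb1, hb2⟩ := List.mem_map.1 hb'
  obtain ⟨-, -, g3⟩ := rg_full.1 hab'
  refine rg_full.2 ⟨ha2 ▸ hin _ ha1, ?_, g3⟩
  have : b.1 = a.1 + dir a.2 := by rw [g3]
  rw [← this, ← hb2]
  exact hin _ hb1

lemma OverR.mono {b' r1 r2 R1 R2 : ℤ} (h1 : R1 ≤ r1) (h2 : r2 ≤ R2)
    (h : OverR B y0 r1 r2 b' s) : OverR B y0 R1 R2 b' s := by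
  obtain ⟨i, j, k, hi, hj, w⟩ := h
  refine ⟨i, j, k, ⟨by omega, hi.2⟩, ⟨hj.1, by omega⟩, w.mono ?_⟩
  have hs : ∀ t ∈ rct r1 r2 B.y1 B.y2, t ∈ rct R1 R2 B.y1 B.y2 := by
    rintro ⟨u, v⟩ ht
    rw [mem_rct] at ht ⊢
    omega
  intro a b hab
  obtain ⟨g1, g2, g3⟩ := rg_full.1 hab
  exact rg_full.2 ⟨hs _ g1, hs _ g2, g3⟩

/-- the classes of the strip -/
theorem strip_class (hz : B.At p y0) {a0 b1 b' : ℤ} (h0 : 0 ≤ a0) (h1 : b1 + 1 < B.R)
    (hφ : PhS B y0 a0 b1 b' φ) {C : Finset (Port TG)}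
    (hC : C ∈ (netN B p y0 c c' φ s).classes (netN B p y0 c c' φ s).V)
    (hS : ∀ z ∈ C, ∃ q : (ℤ × ℤ) × ZMod 4, q.1 ∈ rct (a0 + 1) (b1 + 1) B.y1 B.y2 ∧
      z = pS y0 q) :
    (netN B p y0 c c' φ s).zn C = 1 ∨ OverR B y0 (a0 + 1) (b1 + 1) b' s := by
  have hok := netN_ok hz c c' φ s
  obtain ⟨z, hzV, rfl⟩ := Finset.mem_image.1 hC
  obtain ⟨x, hx, y, l, w, hl, e, e', hcase⟩ := Net.class_walk hok hzV
  rw [e] at hS ⊢
  have hlC : ∀ z ∈ l, z ∈ (netN B p y0 c c' φ s).cls x := fun z hz' => by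
    rw [e']
    exact Finset.mem_union_left _ (List.mem_toFinset.2 hz')
  obtain ⟨x', y', k, rfl, rfl, rfl, hk, hyS, w'⟩ := pull c c' φ s (by omega : 0 ≤ a0 + 1)
    (by omega : b1 + 1 ≤ B.R) w fun z hz' => hS z (hlC z hz')
  have hxS := hk _ w'.mem_left
  rcases hcase with ⟨k1, k2⟩ | k1
  · -- arc
    have hne : x' ≠ y' := fun h => (Net.Wa.memV hok hx w).2.2 (by rw [h])
    have vx : VE B.y1 B.y2 x' := by
      rcases strip_nb hz h0 h1 hxS with ⟨-, h⟩ | ⟨r, -, h3, h4⟩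
      · exact h
      · exact absurd (k1.symm.trans h3) h4
    have vy : VE B.y1 B.y2 y' := by
      rcases strip_nb hz h0 h1 hyS with ⟨-, h⟩ | ⟨r, -, h3, h4⟩
      · exact h
      · exact absurd (k2.symm.trans h3) h4
    by_cases hO : Ovr b' x' y'
    · right
      obtain ⟨⟨i, u⟩, d⟩ := x'
      obtain ⟨⟨j, v⟩, e⟩ := y'
      obtain ⟨o1, o2, o3⟩ := hO
      simp only at o1 o2 o3
      subst o1
      subst o2
      have n13 : (1 : ZMod 4) ≠ 3 := by decide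
      have hu : u = B.y2 - 1 := by
        rcases vx with h | h
        · exact h.2
        · exact absurd h.1 n13
      have hv : v = B.y2 - 1 := by
        rcases vy with h | h
        · exact h.2
        · exact absurd h.1 n13
      subst hu
      subst hv
      rw [mem_rct] at hxS hyS
      rcases o3 with ⟨o3, o4⟩ | ⟨o3, o4⟩
      · exact ⟨i, j, k, ⟨hxS.1.1, o3⟩, ⟨o4, hyS.1.2⟩, w'⟩
      · exact ⟨j, i, _, ⟨hyS.1.1, o3⟩, ⟨o4, hxS.1.2⟩, w'.reverse (rg_symm _)⟩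
    · exact Or.inl ((zn_arc hz h0 h1 hφ hxS hyS vx vy hne w').2 hO)
  · -- loop
    left
    have hkN : k.Nodup := hl.of_map _
    refine zn_loop hz h0 h1 hxS hkN w' ?_
    refine (be_strip (p := p) (y0 := y0) (by omega : 0 ≤ a0 + 1) (by omega : b1 + 1 ≤ B.R)
      hyS hxS).2 ⟨k1, ?_⟩
    exact fun h => (Net.Wa.memV hok hx w).2.2 h

/-- the class of a strand over `b'` -/
theorem over_class (hz : B.At p y0) {a0 b1 b' : ℤ} (h0 : 0 ≤ a0) (h1 : b1 + 1 < B.R)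
    (hφ : PhS B y0 a0 b1 b' φ) (h : OverR B y0 (a0 + 1) (b1 + 1) b' s) :
    ∃ C ∈ (netN B p y0 c c' φ s).classes (netN B p y0 c c' φ s).V,
      (netN B p y0 c c' φ s).zn C = 0 ∧ ∀ z ∈ C, ∃ q : (ℤ × ℤ) × ZMod 4,
        q.1 ∈ rct (a0 + 1) (b1 + 1) B.y1 B.y2 ∧ z = pS y0 q := by
  have hok := netN_ok hz c c' φ s
  have hy1 : B.y1 < B.y2 := lt_trans hz.hy1 hz.hy2
  obtain ⟨i, j, k, hi, hj, w⟩ := h
  have hxS : ((i, B.y2 - 1) : ℤ × ℤ) ∈ rct (a0 + 1) (b1 + 1) B.y1 B.y2 := by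
    rw [mem_rct]; omega
  have hyS : ((j, B.y2 - 1) : ℤ × ℤ) ∈ rct (a0 + 1) (b1 + 1) B.y1 B.y2 := by
    rw [mem_rct]; omega
  have vx : VE B.y1 B.y2 ((i, B.y2 - 1), 1) := Or.inl ⟨rfl, rfl⟩
  have vy : VE B.y1 B.y2 ((j, B.y2 - 1), 1) := Or.inl ⟨rfl, rfl⟩
  have hne : (((i, B.y2 - 1), 1) : (ℤ × ℤ) × ZMod 4) ≠ ((j, B.y2 - 1), 1) := by
    intro e
    have : i = j := congrArg (fun q : (ℤ × ℤ) × ZMod 4 => q.1.1) e
    omega
  have hO : Ovr b' ((i, B.y2 - 1), 1) ((j, B.y2 - 1), 1) := ⟨rfl, rfl, Or.inl ⟨hi.2, hj.1⟩⟩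
  have hxV : pS y0 ((i, B.y2 - 1), 1) ∈ (netN B p y0 c c' φ s).V :=
    strip_V c c' φ s (by omega) (by omega) hxS
  refine ⟨(netN B p y0 c c' φ s).cls (pS y0 ((i, B.y2 - 1), 1)), Finset.mem_image_of_mem _ hxV,
    (zn_arc hz h0 h1 hφ hxS hyS vx vy hne w).1 hO, ?_⟩
  have hW := push (p := p) c c' φ s (by omega : 0 ≤ a0 + 1) (by omega : b1 + 1 ≤ B.R) w
  obtain ⟨-, hcls, -⟩ := Net.z_arc hok hxV hW (be_VE hz h0 h1 hxS vx) (be_VE hz h0 h1 hyS vy)
  have hk := wk_rct hxS w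
  intro z hzC
  rw [hcls] at hzC
  rcases Finset.mem_union.1 hzC with hzC | hzC
  · rw [List.mem_toFinset, List.mem_map] at hzC
    obtain ⟨q, hq, rfl⟩ := hzC
    exact ⟨q, hk q hq, rfl⟩
  · rw [List.mem_toFinset, List.map_map, List.mem_map] at hzC
    obtain ⟨q, hq, rfl⟩ := hzC
    exact ⟨pass (fun t => s (eS y0 t)) q, hk q hq, rfl⟩

open Classical in
/-- **product over the classes that do not visit `Near`** -/
theorem strip_prod (hz : B.At p y0) {a0 b1 b' : ℤ} (h0 : 0 ≤ a0) (h1 : b1 + 1 < B.R)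
    (hφ : PhS B y0 a0 b1 b' φ) :
    ∏ C ∈ (((netN B p y0 c c' φ s).classes (netN B p y0 c c' φ s).V).erase
      ((netN B p y0 c c' φ s).cls (legP p y0))).filter
        (fun C => ¬ Net.Vis (TQ (Near y0 a0 b1)) C), (netN B p y0 c c' φ s).zn C =
      if OverR B y0 (a0 + 1) (b1 + 1) b' s then 0 else 1 := by
  have hok := netN_ok hz c c' φ s
  have hleg : legP p y0 ∈ (netN B p y0 c c' φ s).V := legP_mem hz
  split_ifs with hO
  · obtain ⟨C, hC, hC0, hS⟩ := over_class (c := c) (c' := c') hz h0 h1 hφ hO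
    refine Finset.prod_eq_zero (i := C) ?_ hC0
    refine Finset.mem_filter.2 ⟨Finset.mem_erase.2 ⟨?_, hC⟩, ?_⟩
    · intro e
      have : legP p y0 ∈ C := by rw [e]; exact Net.self_mem_cls hleg
      obtain ⟨q, -, hq⟩ := hS _ this
      exact pS_leg hq.symm
    · rintro ⟨z, hzC, t, d, rfl, ht⟩
      obtain ⟨q, hq, e⟩ := hS _ hzC
      obtain ⟨e1, -⟩ := Prod.mk.inj (Option.some.inj e)
      rcases ht with ⟨v, rfl⟩ | ⟨v, rfl, hv⟩
      · unfold Xr249.eS at e1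
        simp at e1
      · obtain ⟨v', e2, e3⟩ := Zg180.uc_se (y0 := y0) q.1
        have e4 : (Sum.inr v : TG) = Sum.inr v' := e1.trans e2
        have e5 := Sum.inr_injective e4
        rw [e5] at hv
        obtain ⟨⟨u, v⟩, d⟩ := q
        rw [mem_rct] at hq
        simp only at e3
        omega
  · refine Finset.prod_eq_one fun C hC => ?_
    obtain ⟨hC1, hC2⟩ := Finset.mem_filter.1 hC
    have hC3 := Finset.mem_of_mem_erase hC1
    exact (strip_class hz h0 h1 hφ hC3 (in_strip hz hC3 hC2)).resolve_right hO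

end gates

end Crest.Agent.R158.Ad350
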