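import Crest.Agent.R158.Ad11_350

/-!
# Block AD, the network of `D` with two stubs inside `G^(z)` (helper350)

`be'`, `ch'` = glueing and phases of the network `ND` on the tiles of `Dp` (leg port cut):
`be' = beD` outside the leg port, `ch' = -chL` at the ports whose partner in `G^(z)` lies in `Dp`.

* `im_eD` : the tiles of `G^(z)` in the image of `Dp`
* `ndNet`, `nd_ok`, `nd_emb`
* **`gate_point`** : closed near gates: `zvn N leg = zvn ND leg * 1[no strand over b']`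
* `over_iff_far` : on closed far gates the strand over `b'` stays in the far rectangle
-/

set_option autoImplicit false
set_option linter.unusedSectionVars false
set_option linter.unusedVariables false

noncomputable section

open Finset

namespace Crest.Agent.R158.Ad350

open Crest.Agent.R158.Pt266 (gl_full rg_full RG tt tt_rv rv dir Wk pass)
open Crest.Agent.R158.Xr249 (rct mem_rct full eS eD Dp mem_Dp pm Dp_cases eD_in eD_r eD_l eD_A
  wd_cases pm_inj pm_portOf eD_glue)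
open Crest.Agent.R158.Sw300 (Port thru)
open Crest.Agent.R158.Env664 (TG Band PortOf portOf_some portOf_none nbP nbD beD res res_of Run)
open Crest.Agent.R158.Ao857 (legP beL chL beL_ne chL_ne chG beG_fix)
open Crest.Agent.R158.Zg180 (Gq Near Far gate uc se)

variable {A : Finset (ℤ × ℤ)} {B : Band A} {p y0 k : ℤ} {c c' : ℝ} {φ : Port TG → ℝ}
  {s : TG → Bool}

/-- tiles of `G^(z)` in the image of `Dp` -/
lemma im_eD (hf : Xr249.Free A B.xl B.xr B.y1 B.y2 k) (hR : 2 * k < B.R) {t : TG}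
    (ht : t ∈ B.tG y0)
    (h : ∀ v, t = Sum.inr v → uc y0 v ≤ k - 2 ∨ B.R - 1 - k < uc y0 v) :
    ∃ v ∈ Dp A B.xl B.xr B.y1 B.y2 k, eD B y0 k v = t := by
  rcases t with v | ⟨i, y⟩
  · rw [B.inl_mem] at ht
    exact ⟨v, mem_Dp.2 (Or.inl ht), eD_A hf ht⟩
  · obtain ⟨h1, h2, h3, h4⟩ := B.inr_mem.1 ht
    have hu := h _ rfl
    have hw := wd_cases B y0 y
    have hcase : i < k ∨ B.wd y0 y - k ≤ i := by
      rcases hw with ⟨e1, e2⟩ | ⟨e1, e2⟩
      · rw [Zg180.uc_lt e1] at hu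
        omega
      · rw [Zg180.uc_ge (by omega)] at hu
        omega
    rcases hcase with hc | hc
    · refine ⟨(B.xr + 1 + i, y), mem_Dp.2 (Or.inr (Or.inl ⟨⟨by omega, by omega⟩, h1, h2⟩)), ?_⟩
      rw [eD_r ⟨⟨h1, h2⟩, by omega, by omega⟩]
      congr 2
      ring
    · refine ⟨(B.xl - (B.wd y0 y - i), y),
        mem_Dp.2 (Or.inr (Or.inr ⟨⟨by omega, by omega⟩, h1, h2⟩)), ?_⟩
      rw [eD_l hf.le ⟨⟨h1, h2⟩, by omega, by omega⟩]
      congr 2
      ring

/-- the leg port of `Dp` -/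
def lpD (p y0 : ℤ) : Port (ℤ × ℤ) := some ((p, y0), 3)

/-- glueing of `Dp`, the leg port is cut -/
def NdBe (B : Band A) (p y0 k : ℤ) (be' : Port (ℤ × ℤ) → Port (ℤ × ℤ)) : Prop :=
  ∀ x ∈ ports (Dp A B.xl B.xr B.y1 B.y2 k), be' x = if x = lpD p y0 then x
    else beD (Dp A B.xl B.xr B.y1 B.y2 k) p y0 (B.xr + k) x

/-- phases of `Dp` : the phases of `netN` at the ports whose partner lies in `Dp` -/
def NdCh (B : Band A) (p y0 k : ℤ) (c c' : ℝ) (φ : Port TG → ℝ) (ch' : Port (ℤ × ℤ) → ℝ) :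
    Prop :=
  ∀ x ∈ ports (Dp A B.xl B.xr B.y1 B.y2 k), beL B p y0 (pm (eD B y0 k) x) ∈
    (ports (Dp A B.xl B.xr B.y1 B.y2 k)).image (pm (eD B y0 k)) →
      ch' x = -chL B p y0 c c' φ (pm (eD B y0 k) x)

/-- the network of `Dp` -/
def ndNet (B : Band A) (y0 k : ℤ) (s : TG → Bool) (be' : Port (ℤ × ℤ) → Port (ℤ × ℤ))
    (ch' : Port (ℤ × ℤ) → ℝ) : Net (Port (ℤ × ℤ)) :=
  tnet (Dp A B.xl B.xr B.y1 B.y2 k) (fun t => s (eD B y0 k t)) be' ch'

section nd

variable {be' : Port (ℤ × ℤ) → Port (ℤ × ℤ)} {ch' : Port (ℤ × ℤ) → ℝ}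

lemma z_mem (hz : B.At p y0) : (p, y0) ∈ A :=
  (B.run y0 hz.hy1.le hz.hy2).mem p hz.hp1.le hz.hp2

lemma pm_lp (hf : Xr249.Free A B.xl B.xr B.y1 B.y2 k) (hz : B.At p y0) :
    pm (eD B y0 k) (lpD p y0) = legP p y0 := by
  unfold lpD legP
  rw [Xr249.pm_some, eD_A hf (z_mem hz)]

lemma lp_mem (hz : B.At p y0) : lpD p y0 ∈ ports (Dp A B.xl B.xr B.y1 B.y2 k) :=
  mem_ports.2 (mem_Dp.2 (Or.inl (z_mem hz)))

lemma portOf_ports {T : Type*} [DecidableEq T] {D : Finset T} {x : Port T} (hx : x ∈ ports D) :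
    PortOf D x := by
  obtain ⟨t, d, rfl, ht⟩ := mem_ports' hx
  exact portOf_some.2 ht

/-- glued ports of `Dp` other than the leg port -/
lemma beD_cases (hf : Xr249.Free A B.xl B.xr B.y1 B.y2 k) (hz : B.At p y0)
    {x : Port (ℤ × ℤ)} (hx : x ∈ ports (Dp A B.xl B.xr B.y1 B.y2 k)) (hne : x ≠ lpD p y0) :
    beD (Dp A B.xl B.xr B.y1 B.y2 k) p y0 (B.xr + k) x ∈ ports (Dp A B.xl B.xr B.y1 B.y2 k) ∧
    beD (Dp A B.xl B.xr B.y1 B.y2 k) p y0 (B.xr + k) x ≠ lpD p y0 ∧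
    beD (Dp A B.xl B.xr B.y1 B.y2 k) p y0 (B.xr + k)
      (beD (Dp A B.xl B.xr B.y1 B.y2 k) p y0 (B.xr + k) x) = x := by
  have hk := hf.k0
  have hfree : (B.xr + k + 1, y0) ∉ Dp A B.xl B.xr B.y1 B.y2 k := by
    rw [mem_Dp]
    have h1 := hz.hy1
    have h2 := hz.hy2
    have h3 := hf.le
    rintro (h | h | h)
    · exact hf.right _ _ (by omega) (by omega) (by omega) (by omega) h
    · omega
    · omega
  have hinv := Env664.beD_invol (A := Dp A B.xl B.xr B.y1 B.y2 k) (p := p) (y0 := y0)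
    (xr := B.xr + k) (by have := hz.hp2; omega) hfree
  have hlp : beD (Dp A B.xl B.xr B.y1 B.y2 k) p y0 (B.xr + k) (lpD p y0) = none := by
    have h1 : nbD p y0 (B.xr + k) (lpD p y0) = none := Env664.nbD_Sleg ⟨rfl, rfl⟩
    unfold Env664.beD
    rw [res_of (portOf_ports (lp_mem hz)) (by rw [h1]; exact portOf_none _), h1]
  have hne1 : beD (Dp A B.xl B.xr B.y1 B.y2 k) p y0 (B.xr + k) x ≠ none := by
    intro e
    apply hne
    rw [← hinv x, e, ← hlp, hinv]
  refine ⟨?_, ?_, hinv x⟩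
  · by_cases h : beD (Dp A B.xl B.xr B.y1 B.y2 k) p y0 (B.xr + k) x = x
    · rw [h]; exact hx
    · have h4 : PortOf (Dp A B.xl B.xr B.y1 B.y2 k)
          (beD (Dp A B.xl B.xr B.y1 B.y2 k) p y0 (B.xr + k) x) := by
        by_cases h5 : PortOf (Dp A B.xl B.xr B.y1 B.y2 k) x ∧
            PortOf (Dp A B.xl B.xr B.y1 B.y2 k) (nbD p y0 (B.xr + k) x)
        · unfold Env664.beD
          rw [res_of h5.1 h5.2]
          exact h5.2
        · exfalso
          apply h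
          unfold Env664.beD res
          rw [if_neg h5]
      rcases h6 : beD (Dp A B.xl B.xr B.y1 B.y2 k) p y0 (B.xr + k) x with _ | ⟨t, d⟩
      · exact absurd h6 hne1
      · rw [h6] at h4
        exact mem_ports.2 (portOf_some.1 h4)
  · intro e
    have := hinv x
    rw [e, hlp] at this
    rw [← this] at hx
    exact none_ports hx

lemma nd_ok (hf : Xr249.Free A B.xl B.xr B.y1 B.y2 k) (hz : B.At p y0) (hbe : NdBe B p y0 k be') :
    (ndNet B y0 k s be' ch').Ok := by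
  have hb : ∀ x ∈ ports (Dp A B.xl B.xr B.y1 B.y2 k),
      be' x ∈ ports (Dp A B.xl B.xr B.y1 B.y2 k) := by
    intro x hx
    rw [hbe x hx]
    split_ifs with h
    · exact hx
    · exact (beD_cases hf hz hx h).1
  refine tnet_ok hb fun x hx => ?_
  rw [hbe _ (hb x hx), hbe x hx]
  split_ifs with h h1
  · rfl
  · exact absurd h1 (beD_cases hf hz hx h).2.1
  · exact (beD_cases hf hz hx h).2.2

lemma nd_emb (hf : Xr249.Free A B.xl B.xr B.y1 B.y2 k) (hR : 2 * k < B.R) (hz : B.At p y0)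
    (hbe : NdBe B p y0 k be') (hch : NdCh B p y0 k c c' φ ch') :
    Net.Emb (ndNet B y0 k s be' ch') (netN B p y0 c c' φ s) (pm (eD B y0 k)) := by
  have hlp := pm_lp hf hz
  have hinj : ∀ {a b : Port (ℤ × ℤ)}, a ∈ ports (Dp A B.xl B.xr B.y1 B.y2 k) →
      b ∈ ports (Dp A B.xl B.xr B.y1 B.y2 k) → pm (eD B y0 k) a = pm (eD B y0 k) b → a = b :=
    fun ha hb h => pm_inj hf hR (portOf_ports ha) (portOf_ports hb) h
  -- partner of a port other than the leg
  have key : ∀ x ∈ ports (Dp A B.xl B.xr B.y1 B.y2 k), x ≠ lpD p y0 →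
      pm (eD B y0 k) x ≠ legP p y0 ∧
      (beL B p y0 (pm (eD B y0 k) x) ∈
          (ports (Dp A B.xl B.xr B.y1 B.y2 k)).image (pm (eD B y0 k)) →
        beL B p y0 (pm (eD B y0 k) x) = pm (eD B y0 k)
          (beD (Dp A B.xl B.xr B.y1 B.y2 k) p y0 (B.xr + k) x)) ∧
      (beL B p y0 (pm (eD B y0 k) x) ∉
          (ports (Dp A B.xl B.xr B.y1 B.y2 k)).image (pm (eD B y0 k)) →
        beD (Dp A B.xl B.xr B.y1 B.y2 k) p y0 (B.xr + k) x = x) := by
    intro x hx hne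
    have h1 : pm (eD B y0 k) x ≠ legP p y0 := by
      rw [← hlp]
      exact fun e => hne (hinj hx (lp_mem hz) e)
    obtain ⟨h2, h3, h4⟩ := beD_cases hf hz hx hne
    have hg : ∀ b ∈ ports (Dp A B.xl B.xr B.y1 B.y2 k),
        (Xr249.gb (beD (Dp A B.xl B.xr B.y1 B.y2 k) p y0 (B.xr + k)) x b ↔
          Xr249.gb (B.beG p y0) (pm (eD B y0 k) x) (pm (eD B y0 k) b)) :=
      fun b hb => eD_glue hf hR hz (portOf_ports hx) (portOf_ports hb)
    refine ⟨h1, fun him => ?_, fun him => ?_⟩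
    · rw [beL_ne B h1] at him ⊢
      obtain ⟨r, hr, er⟩ := Finset.mem_image.1 him
      by_cases hxr : pm (eD B y0 k) x = pm (eD B y0 k) r
      · have : beD (Dp A B.xl B.xr B.y1 B.y2 k) p y0 (B.xr + k) x = x := by
          by_contra hcon
          have h5 := (hg _ h2).1 ⟨rfl, fun e => hcon e.symm⟩
          apply h5.2
          rw [hxr, er, h5.1]
        rw [this, ← er, hxr]
      · have h5 := (hg r hr).2 ⟨er.symm, hxr⟩
        rw [h5.1, er]
    · by_contra hcon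
      apply him
      have h5 := (hg _ h2).1 ⟨rfl, fun e => hcon e.symm⟩
      rw [beL_ne B h1, h5.1]
      exact Finset.mem_image_of_mem _ h2
  refine ⟨nd_ok hf hz hbe, netN_ok hz c c' φ s, fun a ha b hb h => hinj ha hb h, ?_, ?_, ?_, ?_,
    ?_⟩
  · intro q hq
    obtain ⟨t, d, rfl, ht⟩ := mem_ports' hq
    exact mem_ports.2 (portOf_some.1 (pm_portOf hf hR (portOf_some.2 ht)))
  · intro q hq
    obtain ⟨t, d, rfl, ht⟩ := mem_ports' hq
    rfl
  · intro q hq him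
    show beL B p y0 (pm (eD B y0 k) q) = pm (eD B y0 k) (be' q)
    rw [hbe q hq]
    split_ifs with h
    · rw [h, hlp, Ao857.beL_leg]
    · exact (key q hq h).2.1 him
  · intro q hq him
    show be' q = q
    rw [hbe q hq]
    split_ifs with h
    · rfl
    · exact (key q hq h).2.2 him
  · intro q hq him
    show -chL B p y0 c c' φ (pm (eD B y0 k) q) - (ts _ s).θ (pm (eD B y0 k) q) / 2 =
      ch' q - (ts _ _).θ q / 2
    rw [hch q hq him]
    obtain ⟨t, d, rfl, ht⟩ := mem_ports' hq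
    rfl

/-- a class of `Dp` that does not visit `Near` -/
def StubCls (B : Band A) (y0 k a0 b1 : ℤ) (C : Finset (Port (ℤ × ℤ))) : Prop :=
  ¬ Net.Vis (fun q => TQ (Near y0 a0 b1) (pm (eD B y0 k) q)) C

open Classical in
/-- **the pointwise identity on closed near gates** -/
theorem gate_point (hf : Xr249.Free A B.xl B.xr B.y1 B.y2 k) (hR : 2 * k < B.R) (hz : B.At p y0)
    (hbe : NdBe B p y0 k be') (hch : NdCh B p y0 k c c' φ ch') {a0 a1 b0 b1 b' : ℤ}
    (h0 : 0 ≤ a0) (ha : a0 < a1) (hab : a1 < b0) (hb : b0 < b1) (hb1 : b1 + 1 < B.R)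
    (ha1 : a1 ≤ k - 2) (hb0 : B.R - 1 - k ≤ b0)
    (ca : (gate hz h0 ha (by omega : a1 + 1 < B.R)).Closed s)
    (cb : (gate hz (by omega : 0 ≤ b0) hb hb1).Closed s)
    (hφ : PhS B y0 a0 b1 b' φ)
    (hB : ∀ C ∈ ((ndNet B y0 k s be' ch').classes (ndNet B y0 k s be' ch').V).erase
      ((ndNet B y0 k s be' ch').cls (lpD p y0)), StubCls B y0 k a0 b1 C →
        (ndNet B y0 k s be' ch').zn C = 1) :
    (netN B p y0 c c' φ s).zvn (legP p y0) = (ndNet B y0 k s be' ch').zvn (lpD p y0) *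
      if OverR B y0 (a0 + 1) (b1 + 1) b' s then 0 else 1 := by
  have E := nd_emb (s := s) hf hR hz hbe hch
  have hok := netN_ok hz c c' φ s
  have hlp := pm_lp hf hz
  have hlegQ : TQ (Near y0 a0 b1) (pm (eD B y0 k) (lpD p y0)) := by
    rw [hlp]
    exact ⟨_, _, rfl, Or.inl ⟨_, rfl⟩⟩
  have hQ : ∀ q ∈ (netN B p y0 c c' φ s).V, TQ (Near y0 a0 b1) q →
      (netN B p y0 c c' φ s).cls q ⊆ (ndNet B y0 k s be' ch').V.image (pm (eD B y0 k)) := by
    intro q hq hqQ z hzC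
    have hzV := (Net.mem_cls.1 hzC).1
    have hnf := near_far hz h0 ha hab hb hb1 ca cb hq ⟨q, Net.self_mem_cls hq, hqQ⟩
    obtain ⟨t, d, rfl, ht⟩ := mem_ports' hzV
    have h5 : ∀ v, t = Sum.inr v → uc y0 v ≤ k - 2 ∨ B.R - 1 - k < uc y0 v := by
      rintro v rfl
      by_contra hcon
      push Not at hcon
      exact hnf ⟨_, hzC, _, _, rfl, v, rfl, by omega, by omega⟩
    obtain ⟨v, hv, e⟩ := im_eD hf hR ht h5
    refine Finset.mem_image.2 ⟨some (v, d), mem_ports.2 hv, ?_⟩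
    rw [Xr249.pm_some, e]
  obtain ⟨h1, h2⟩ := E.prod_near hQ (lp_mem hz) hlegQ
  unfold Net.zvn
  rw [← Finset.prod_filter_mul_prod_filter_not
    (((netN B p y0 c c' φ s).classes (netN B p y0 c c' φ s).V).erase
      ((netN B p y0 c c' φ s).cls (legP p y0))) (Net.Vis (TQ (Near y0 a0 b1))),
    ← Finset.prod_filter_mul_prod_filter_not
    (((ndNet B y0 k s be' ch').classes (ndNet B y0 k s be' ch').V).erase
      ((ndNet B y0 k s be' ch').cls (lpD p y0)))
      (Net.Vis fun q => TQ (Near y0 a0 b1) (pm (eD B y0 k) q))]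
  have h3 : ∏ C ∈ (((ndNet B y0 k s be' ch').classes (ndNet B y0 k s be' ch').V).erase
      ((ndNet B y0 k s be' ch').cls (lpD p y0))).filter
        (fun C => ¬ Net.Vis (fun q => TQ (Near y0 a0 b1) (pm (eD B y0 k) q)) C),
      (ndNet B y0 k s be' ch').zn C = 1 := by
    refine Finset.prod_eq_one fun C hC => ?_
    obtain ⟨hC1, hC2⟩ := Finset.mem_filter.1 hC
    exact hB C hC1 hC2
  rw [h3, strip_prod hz h0 hb1 hφ]
  rw [hlp] at h1
  have h4 := h2 false
  rw [hlp] at h4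
  rw [h1, h4]
  ring

end nd

/-- **far gates**: the strand over `b'` stays in the far rectangle -/
theorem over_iff_far (hz : B.At p y0) {f0 f1 g0 g1 : ℤ} (h0 : 0 ≤ f0) (ha : f0 < f1)
    (hab : f1 < g0) (hb : g0 < g1) (hR : g1 + 1 < B.R)
    (ca : (gate hz h0 ha (by omega : f1 + 1 < B.R)).Closed s)
    (cb : (gate hz (by omega : 0 ≤ g0) hb hR).Closed s) {b' a0 b1 : ℤ} (hf : f1 < b')
    (hg : b' ≤ g0) (h1 : 0 ≤ a0) (h2 : b1 + 1 < B.R) (h3 : a0 ≤ f0) (h4 : g1 ≤ b1) :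
    OverR B y0 (a0 + 1) (b1 + 1) b' s ↔ OverR B y0 (f0 + 1) (g1 + 1) b' s :=
  ⟨fun h => over_far hz h0 ha hab hb hR ca cb hf hg le_rfl le_rfl (by omega) (by omega) h,
    fun h => h.mono (by omega) (by omega)⟩

end Crest.Agent.R158.Ad350
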