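import Crest.Agent.R158.Pc3_194
import Crest.Agent.R158.Env_664

/-!
# R158, Q1c pointwise core (N3), part 4: the network of a word

* `Emb.of_word` : a word inside its own network (leg port cut)
* `class_word'` : the classes of a closed set over the word, with their ends
* `zv_full` : `zv V x0 false = √3 ^ (#ends / 2 - 1) * (ei (π/12) * star (hL s' w c))`, every splitting
* `zvn_full` : the same for the normalised product of `Ad350.Net.zv_norm`
* `zn_full` : the normalised values class by class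
-/

set_option autoImplicit false
set_option linter.unusedVariables false
set_option linter.unusedSectionVars false

noncomputable section

namespace Crest.Agent.R158.Pc194

open Finset
open Crest.Agent.R158.Sw300
open Crest.Agent.R158.Gc748 (gl bs ts gd_wd pt)
open Crest.Agent.R158.Pt266 (Wk tt Gw Gs Gp Fr rv mem_L not_glued fr_of_mem glu_Gw gl_mem be_iff)
open Crest.Agent.R158.Qc405 (psi FlW An de sm sc walkS legS loopS sm_app sm_one)
open Crest.Agent.R158.Ad350 (Net ports tnet tnet_ok ei sg tql seam mem_ports mem_ports' none_ports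
  Wk_Wa tql_tt Wa_wl)
open Crest.Agent.R158.Al194 (hL wr er)
open Crest.Agent.R158.Env664 (IsWord)

variable {T T' : Type*} [DecidableEq T] [DecidableEq T']

variable {A : Finset T} {be : Port T → Port T} {ch : Port T → ℝ} {w : Wd T'} {em : T' → T}
  {σ : Port T' → ℤ} {g : T' → ℝ} {c : Port T' → ℝ} {s : T → Bool} {x0 : Port T}
  {C : Finset (Port T)}

/-- a word inside its own network; the port glued to the leg is cut -/
theorem Emb.of_word {A : Finset T} {b be : Port T → Port T} {w : Wd T} (h : IsWord w A b)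
    (hbe : ∀ a : T × ZMod 4, a.1 ∈ A →
      be (some a) = if b (some a) = none then some a else b (some a)) : Emb A be w id := by
  obtain ⟨hok, -, htl, hb⟩ := h
  refine ⟨hok, fun t _ t' _ e => e, fun t ht => (htl t).1 ht, fun a a' ha ha' => ?_⟩
  have e1 : pe id a = some a := rfl
  have e2 : pe id a' = some a' := rfl
  rw [e1, e2, hbe a ((htl _).1 ha)]
  have h1 := be_iff hok (some a) (some a')
  rw [hb] at h1
  constructor
  · intro hG
    obtain ⟨h2, h3⟩ := h1.1 hG
    rw [h2, if_neg (by simp)]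
    exact ⟨rfl, fun e => h3 (congrArg some e)⟩
  · rintro ⟨h2, h3⟩
    by_cases h4 : b (some a) = none
    · rw [if_pos h4] at h2
      exact absurd (Option.some.inj h2) h3
    · rw [if_neg h4] at h2
      exact h1.2 ⟨h2, fun e => h3 (Option.some.inj e)⟩

lemma ports_sub_ep {A : Finset T} {w : Wd T} (h : ∀ t ∈ A, t ∈ tls w) : ports A ⊆ ep id w := by
  intro q hq
  obtain ⟨t, d, rfl, ht⟩ := mem_ports' hq
  exact mem_ep.2 ⟨(t, d), h t ht, rfl⟩

/-- **the classes of a closed set over the word** -/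
theorem class_word' (P : Phs be ch w em σ g c) (E : Emb A be w em) (hN : (tnet A s be ch).Ok)
    (hC : (tnet A s be ch).Cl C) (hCe : C ⊆ ep em w)
    (hx0 : ∀ b : T' × ZMod 4, Gs w (some b) none → pe em b ∉ C) {d : Finset (Port T)}
    (hd : d ∈ (tnet A s be ch).classes C) :
    ((tnet A s be ch).ends d = ∅ ∧ (tnet A s be ch).z d = 1) ∨
      ∃ x ∈ stC s w em C, d = (tnet A s be ch).cls (po em x) ∧
        (tnet A s be ch).ends d = {po em x, po em (M (s ∘ em) w x)} := by
  rcases class_word P E hN hC hCe hx0 hd with h | ⟨x, hx, rfl⟩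
  · by_cases hne : (tnet A s be ch).ends d = ∅
    · exact Or.inl ⟨hne, h⟩
    · right
      obtain ⟨p, hp, rfl⟩ := mem_image.1 hd
      obtain ⟨q, hq⟩ := nonempty_iff_ne_empty.2 hne
      obtain ⟨hq1, hq2⟩ := mem_filter.1 hq
      have hqC : q ∈ C := Net.Cn.mem hC hp (Net.mem_cls.1 hq1).2
      have ecls := Net.cls_eq_of_mem hN (hC.sub hp) hq1
      have hI := Ok.inv (s ∘ em) w E.ok
      obtain ⟨a, ha, rfl⟩ := mem_ep.1 (hCe hqC)
      have haL : (some a : Port T') ∈ L w :=
        E.mem_L_of_cut ha hq2 fun b hb e' => hx0 b hb (e' ▸ hqC)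
      have hau := not_u P E hC hCe hx0 ha hqC
      obtain ⟨a', b, l', ha', hb', hl', hma, hmb, ca, cb, -⟩ := arc_mem P E hN hC hCe haL hau hqC
      obtain rfl := Option.some.inj ha'
      have hends : (tnet A s be ch).ends ((tnet A s be ch).cls (pe em a)) = {pe em a, pe em b} := by
        ext r
        simp only [Net.ends, mem_filter, mem_insert, mem_singleton]
        constructor
        · rintro ⟨h1, h2⟩
          exact arc_ends hN (hC.sub hma) hl' ca cb h1 h2
        · rintro (rfl | rfl)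
          · exact ⟨Net.self_mem_cls (hC.sub hma), ca⟩
          · exact ⟨Net.mem_cls.2 ⟨hC.sub hmb, Wa_cn hl'⟩, cb⟩
      by_cases hS : S (s ∘ em) w (some a) = true
      · refine ⟨some a, mem_stC.2 ⟨haL, hau, hS, hqC⟩, ecls.symm, ?_⟩
        rw [← ecls, hends, hb']; rfl
      · refine ⟨M (s ∘ em) w (some a), mem_stC.2 ⟨hI.mem _ haL, hI.Mu haL hau, ?_, ?_⟩, ?_, ?_⟩
        · rw [hI.S_M haL hau]; simpa using hS
        · rw [hb']; exact hmb
        · rw [← ecls, hb']
          exact (Net.cls_eq_of_mem hN (hC.sub hma) (Net.mem_cls.2 ⟨hC.sub hmb, Wa_cn hl'⟩)).symm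
        · rw [← ecls, hends, hI.inv _ haL, hb', pair_comm]; rfl
  · right
    obtain ⟨h1, h2, h3, h4⟩ := mem_stC.1 hx
    obtain ⟨a, b, l, rfl, hb, hl, hma, hmb, ca, cb, -⟩ := arc_mem P E hN hC hCe h1 h2 h4
    refine ⟨_, hx, rfl, ?_⟩
    rw [hb]
    ext r
    simp only [Net.ends, mem_filter, mem_insert, mem_singleton]
    constructor
    · rintro ⟨h5, h6⟩
      exact arc_ends hN (hC.sub hma) hl ca cb h5 h6
    · rintro (rfl | rfl)
      · exact ⟨Net.self_mem_cls (hC.sub hma), ca⟩
      · exact ⟨Net.mem_cls.2 ⟨hC.sub hmb, Wa_cn hl⟩, cb⟩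

/-- **the full network of a word, every splitting** -/
theorem zv_full (P : Phs be ch w em σ g c) (E : Emb A be w em) (G : Lg be ch w em σ g x0)
    (hN : (tnet A s be ch).Ok) (hA : ports A ⊆ ep em w) (hx0 : x0 ∈ ports A) :
    (tnet A s be ch).zv (tnet A s be ch).V x0 false =
      ((Real.sqrt 3 : ℝ) : ℂ) ^ (((tnet A s be ch).ends (tnet A s be ch).V).card / 2 - 1) *
        (ei (Real.pi / 12) * star (hL (s ∘ em) w c)) := by
  have hV : (tnet A s be ch).Cl (tnet A s be ch).V := hN.clV
  have h1 := zv_hL P E G hN hV hA hx0 fun x hx hxu _ hm => by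
    exfalso
    apply hm
    cases x with
    | none =>
      obtain ⟨a, b, l, ha, -⟩ := P.arc (s := s) E hx hxu
      exact absurd ha (by simp)
    | some a => exact mem_ports.2 (E.mem _ ((mem_L E.ok a).1 hx).1)
  have h2 := card_ends_leg P E G hN hV hA hx0
  have h3 : (tnet A s be ch).ends (tnet A s be ch).V =
      (tnet A s be ch).V.filter fun q => be q = q := rfl
  rw [h3, h2, h1]
  have h4 : (2 * (stC s w em (tnet A s be ch).V).card + 2) / 2 - 1 =
      (stC s w em (tnet A s be ch).V).card := by omega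
  rw [h4]
  ring

/-- **the normalised value of the full network** -/
theorem zvn_full (P : Phs be ch w em σ g c) (E : Emb A be w em) (G : Lg be ch w em σ g x0)
    (hN : (tnet A s be ch).Ok) (hA : ports A ⊆ ep em w) (hx0 : x0 ∈ ports A) {y : Port T}
    {l : List (Port T)} (hl : (tnet A s be ch).Wa x0 y l) (hy : be y = y) :
    ei ((tnet A s be ch).wl l) *
      ∏ d ∈ ((tnet A s be ch).classes (tnet A s be ch).V).erase ((tnet A s be ch).cls x0),
        (tnet A s be ch).zn d = ei (Real.pi / 12) * star (hL (s ∘ em) w c) := by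
  have h1 := zv_full P E G hN hA hx0
  rw [Net.zv_norm hN hx0 hl G.be hy] at h1
  exact mul_left_cancel₀ (pow_ne_zero _ Net.sqrt3_ne) h1

/-- **the normalised values class by class** -/
theorem zn_full (P : Phs be ch w em σ g c) (E : Emb A be w em) (G : Lg be ch w em σ g x0)
    (hN : (tnet A s be ch).Ok) (hA : ports A ⊆ ep em w) (hx0 : x0 ∈ ports A)
    {d : Finset (Port T)}
    (hd : d ∈ ((tnet A s be ch).classes (tnet A s be ch).V).erase ((tnet A s be ch).cls x0)) :
    ((tnet A s be ch).ends d = ∅ ∧ (tnet A s be ch).zn d = 1) ∨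
      ∃ x ∈ L w, x ≠ u (s ∘ em) w ∧ S (s ∘ em) w x = true ∧
        (tnet A s be ch).ends d = {po em x, po em (M (s ∘ em) w x)} ∧
        (tnet A s be ch).zn d = ((wr (c (M (s ∘ em) w x) - c x) : ℝ) : ℂ) := by
  obtain ⟨hne, hd⟩ := mem_erase.1 hd
  obtain ⟨p, hp, rfl⟩ := mem_image.1 hd
  have hcl := Net.cls_cl hN x0
  have hC : (tnet A s be ch).Cl ((tnet A s be ch).V \ (tnet A s be ch).cls x0) :=
    hN.clV.sdiff hN hcl
  have hCe : (tnet A s be ch).V \ (tnet A s be ch).cls x0 ⊆ ep em w := sdiff_subset.trans hA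
  have hpC : p ∈ (tnet A s be ch).V \ (tnet A s be ch).cls x0 := by
    refine mem_sdiff.2 ⟨hp, fun h => hne (Net.cls_eq_of_mem hN hx0 h)⟩
  have hx0' := G.not_mem (C := (tnet A s be ch).V \ (tnet A s be ch).cls x0) fun h =>
    (mem_sdiff.1 h).2 (Net.self_mem_cls hx0)
  have hd' : (tnet A s be ch).cls p ∈
      (tnet A s be ch).classes ((tnet A s be ch).V \ (tnet A s be ch).cls x0) :=
    mem_image_of_mem _ hpC
  rcases class_word' P E hN hC hCe hx0' hd' with ⟨h1, h2⟩ | ⟨x, hx, h1, h2⟩
  · refine Or.inl ⟨h1, ?_⟩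
    unfold Net.zn
    rw [h1, if_neg (by simp), h2]
  · right
    have h3 := z_arc_word P E hN hC hCe hx
    obtain ⟨k1, k2, k3, k4⟩ := mem_stC.1 hx
    refine ⟨x, k1, k2, k3, h2, ?_⟩
    unfold Net.zn
    rw [h2, if_pos (by simp), h1, h3, Complex.ofReal_mul, mul_div_cancel_left₀ _ Net.sqrt3_ne]

/-- arcs that see no charge have value one -/
lemma wr_eq_one {a b : ℝ} (h : a = b) : ((wr (a - b) : ℝ) : ℂ) = 1 := by
  rw [h, sub_self, wr_zero, Complex.ofReal_one]

end Crest.Agent.R158.Pc194
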