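import Crest.Agent.R158.Zc5_180

/-!
# Row 158 (helper180): strands over the far charge, 6: the decoupling of the strip

* `F0`, `F1` : no arc over the far charge in the ball / in the far rectangle
* `Zs` : the normalisation, independent of `z`; `ez_iff`, `law_se`
-/

set_option autoImplicit false

noncomputable section

namespace Crest.Agent.R158.Zc180

open MeasureTheory ProbabilityTheory unitInterval
open Crest.Agent.R161.Geo729
open Crest.Agent.R158.Rs689 hiding se sc
open Crest.Agent.R158.Mr679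
open Crest.Agent.R158.Nm211 (DepF)
open Crest.Agent.R158.Env664
open Crest.Agent.R158.Zg180 (Gq se uc gate fld fld_law fld_dep fld_eq Gate gn gate_prob closed_dep)
open Crest.Agent.R158.Zb180 (Pf ind ind_nonneg Dec2 int_of_dep)

variable {A : Finset (ℤ × ℤ)} {B : Band A} {p y0 k b : ℤ} {h N : ℕ}

/-- no arc over the far charge in the ball -/
def F0 (B : Band A) (p y0 b : ℤ) (h : ℕ) : Set (TG → Bool) :=
  {s | ¬ Over B p y0 b (ballS B y0 b h) s}

/-- no arc over the far charge in the far rectangle -/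
def F1 (B : Band A) (p y0 k b : ℤ) (h : ℕ) : Set (TG → Bool) :=
  {s | ¬ Over B p y0 b (farS B y0 k h) s}

theorem F0_dep (hP : Par B k b h N) : Dep (Wf B y0 b h) (F0 B p y0 b h) := by
  unfold F0
  rw [ball_eq hP.h3]
  exact over_dep _

theorem F1_dep (hP : Par B k b h N) : Dep (Sf B y0 k) (F1 B p y0 k b h) := by
  unfold F1
  rw [far_eq hP]
  exact over_dep _

theorem Cf_disj {x0 x1 x2 x3 : ℤ} (h : x1 ≤ x2 ∨ x3 ≤ x0) :
    Disjoint (Cf B y0 x0 x1) (Cf B y0 x2 x3) := by
  refine image_disj (Finset.disjoint_left.2 fun t h4 h5 => ?_)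
  rw [mem_bxF] at h4 h5
  unfold InB at h4 h5
  omega

theorem Wf_sub (hP : Par B k b h N) : Wf B y0 b h ⊆ Cf B y0 (2 * k - 2) (B.R - 2 * k) := by
  refine Finset.image_subset_image fun t ht => ?_
  rw [mem_bxF] at ht ⊢
  obtain ⟨q1, q2, q3, q4, q5, q6⟩ := hP
  have a1 := nr_le h
  unfold InB at *
  omega

theorem Cf_mono {x0 x1 x2 x3 : ℤ} (h0 : x2 ≤ x0) (h1 : x1 ≤ x3) :
    Cf B y0 x0 x1 ⊆ Cf B y0 x2 x3 := by
  refine Finset.image_subset_image fun t ht => ?_
  rw [mem_bxF] at ht ⊢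
  unfold InB at *
  omega

/-! ### independence of the normalisation of `z` -/

theorem closed_iff (hz : B.At p y0) {a0 a1 : ℤ} (h0 : 0 ≤ a0) (h01 : a0 < a1) (h1 : a1 + 1 < B.R)
    (s : TG → Bool) : (gate hz h0 h01 h1).Closed s ↔
      Crest.Agent.R158.Cb771.xg (fun v => s (se y0 v)) ∈ BX 0 a0 a1 (B.y1 - 1) (B.y2 - 1) := by
  have e : Crest.Agent.R158.Zg180.gn (Crest.Agent.R158.Nm211.rd (gate hz h0 h01 h1).C.emb
      (gate hz h0 h01 h1).C.Fn s) = fun v => s (se y0 v) := by
    funext v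
    show (!(xor (!false) (s (se y0 v)))) = s (se y0 v)
    cases s (se y0 v) <;> rfl
  unfold Crest.Agent.R158.Zg180.Gate.Closed
  rw [e]
  exact Iff.rfl

/-- the events of the far rectangle as events of the field of the chart -/
def EZ (B : Band A) (k b : ℤ) (h : ℕ) : Set TF :=
  {g | (¬ ∃ i j, k ≤ i ∧ i ≤ b - 2 ∧ b - 2 < j ∧ j ≤ k + ((B.R - 1 - 2 * k).toNat : ℤ) ∧
      Crest.Agent.R158.Gc748.BM g k B.y1 (B.R - 1 - 2 * k).toNat (h - 1)
        (some ((i, B.y1 + ((h - 1 : ℕ) : ℤ)), 1)) =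
      some ((j, B.y1 + ((h - 1 : ℕ) : ℤ)), 1)) ∧
    Crest.Agent.R158.Cb771.xg g ∈ BX 0 (k - 1) (2 * k - 2) (B.y1 - 1) (B.y2 - 1) ∧
    Crest.Agent.R158.Cb771.xg g ∈ BX 0 (B.R - 2 * k) (B.R - 1 - k) (B.y1 - 1) (B.y2 - 1)}

/-- **normalisation of the strip** : depends on `R, y1, y2, k, b` only -/
def Zs (B : Band A) (k b : ℤ) (h : ℕ) : ℝ := (tau hf).real (EZ B k b h)

theorem ez_iff (hz : B.At p y0) (hP : Par B k b h N) (s : TG → Bool) :
    s ∈ F1 B p y0 k b h ∩ farG hz hP ↔ (fun v => s (se y0 v)) ∈ EZ B k b h := by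
  have h1 := over_iff (b := b) (s := s) (far_ok hP) hz
  have h2 : s ∈ F1 B p y0 k b h ↔ ¬ Over B p y0 b (farS B y0 k h) s := Iff.rfl
  rw [Set.mem_inter_iff, h2]
  unfold farS
  rw [h1]
  unfold EZ farG
  rw [Set.mem_ofPred_eq, Set.mem_ofPred_eq, closed_iff, closed_iff]

/-- law of the field of the chart -/
theorem law_se {y0 : ℤ} {S : Finset P2} {E : Set TF} (hE : Dep S E) :
    (PB fun _ : TG => hf).real {s : TG → Bool | (fun v => s (se y0 v)) ∈ E} = (tau hf).real E := by
  classical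
  have hd : DepF S (E.indicator fun _ => (1 : ℝ)) := by
    intro z z' h
    by_cases hz : z ∈ E
    · rw [Set.indicator_of_mem hz, Set.indicator_of_mem ((hE z z' h).1 hz)]
    · rw [Set.indicator_of_notMem hz, Set.indicator_of_notMem fun h' => hz ((hE z z' h).2 h')]
  have hinj : Set.InjOn (se y0) S := fun a _ c _ e => Zg180.se_inj e
  have h1 := Crest.Agent.R158.Nm211.integral_transport (ι := TG) (κ := P2) hinj
    (fun _ => false) hd
  rw [integral_indicator_const _ hE.measurableSet] at h1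
  have h2 : ∀ z : TG → Bool, (E.indicator fun _ => (1 : ℝ)) (fun e => xor false (z (se y0 e))) =
      ({s : TG → Bool | (fun v => s (se y0 v)) ∈ E}.indicator fun _ => (1 : ℝ)) z := by
    intro z
    simp only [Bool.false_xor]
    by_cases hz : (fun v => z (se y0 v)) ∈ E
    · rw [Set.indicator_of_mem (show z ∈ {s : TG → Bool | (fun v => s (se y0 v)) ∈ E} from hz),
        Set.indicator_of_mem hz]
    · rw [Set.indicator_of_notMem (show z ∉ {s : TG → Bool | (fun v => s (se y0 v)) ∈ E} from hz),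
        Set.indicator_of_notMem hz]
  have hm : MeasurableSet {s : TG → Bool | (fun v => s (se y0 v)) ∈ E} := by
    refine Dep.measurableSet (S := S.image (se y0)) ?_
    intro s s' h
    exact hE _ _ fun t ht => h _ (Finset.mem_image_of_mem _ ht)
  simp only [h2] at h1
  rw [integral_indicator_const _ hm] at h1
  simpa [tau] using h1

/-- a splitting with given field of the chart -/
def bk (y0 : ℤ) (g : TF) : TG → Bool
  | Sum.inl _ => false
  | Sum.inr v => g (uc y0 v, v.2)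

theorem bk_se {y0 : ℤ} (g : TF) : (fun v => bk y0 g (se y0 v)) = g := by
  funext v
  obtain ⟨x, y⟩ := v
  unfold se bk uc
  by_cases h : y < y0 <;> simp [h]

theorem ez_dep (hz : B.At p y0) (hP : Par B k b h N) :
    Dep (bxF (k - 1) (B.R - 1 - k) (B.y1 - 1) (B.y2 - 1)) (EZ B k b h) := by
  have hS : Dep (Sf B y0 k) (F1 B p y0 k b h ∩ farG hz hP) := by
    refine (F1_dep hP).inter ((far_dep hz hP).mono ?_)
    have hk2 := hP.k2
    have e : Sf B y0 k = Cf B y0 (k - 1) (B.R - 1 - k) := rfl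
    rw [e]
    have hbl := hP.bl
    have hbr := hP.br
    refine Finset.union_subset (Cf_mono ?_ ?_) (Cf_mono ?_ ?_) <;> omega
  intro g g' hg
  have h1 := ez_iff hz hP (bk y0 g)
  have h2 := ez_iff hz hP (bk y0 g')
  rw [bk_se] at h1 h2
  rw [← h1, ← h2]
  refine hS _ _ fun e he => ?_
  obtain ⟨v, hv, rfl⟩ := Finset.mem_image.1 he
  have a1 : bk y0 g (se y0 v) = g v := congrFun (bk_se (y0 := y0) g) v
  have a2 : bk y0 g' (se y0 v) = g' v := congrFun (bk_se (y0 := y0) g') v
  rw [a1, a2]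
  exact hg v hv

/-- **the normalisation is the same for all `z`** -/
theorem Zs_eq (hz : B.At p y0) (hP : Par B k b h N) :
    (PB fun _ : TG => hf).real (F1 B p y0 k b h ∩ farG hz hP) = Zs B k b h := by
  have e : F1 B p y0 k b h ∩ farG hz hP = {s : TG → Bool | (fun v => s (se y0 v)) ∈ EZ B k b h} := by
    ext s
    exact ez_iff hz hP s
  rw [e, law_se (ez_dep hz hP)]
  rfl

/-- the tiles between two columns -/
theorem gate_dep (hz : B.At p y0) {a0 a1 : ℤ} (h0 : 0 ≤ a0) (h01 : a0 < a1) (h1 : a1 + 1 < B.R) :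
    Dep (Cf B y0 a0 a1) {s : TG → Bool | (gate hz h0 h01 h1).Closed s} :=
  closed_dep (gate hz h0 h01 h1)

/-- **decoupling of the strip** -/
theorem strip_main : ∃ c q : ℝ, 0 < c ∧ 0 < q ∧ q < 1 ∧
    (∀ (A : Finset (ℤ × ℤ)) (B : Band A) (p y0 : ℤ) (hz : B.At p y0) (h N : ℕ) (a0 a1 : ℤ)
      (h0 : 0 ≤ a0) (h01 : a0 < a1) (h1 : a1 + 1 < B.R), 1 ≤ h → B.y2 = B.y1 + h →
      (N : ℤ) * h ≤ a1 - a0 →
      (PB fun _ : TG => hf).real {s : TG → Bool | ¬ (gate hz h0 h01 h1).Closed s} ≤ q ^ N) ∧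
    ∀ (A : Finset (ℤ × ℤ)) (B : Band A) (p y0 k b : ℤ) (h N : ℕ) (hz : B.At p y0)
      (hP : Par B k b h N), 2 * q ^ N ≤ 1 / 2 →
      c * Pf (nr h) ≤ Zs B k b h ∧ 0 < Zs B k b h ∧
      ∀ (G : Set (TG → Bool)) (gn : Finset TG) (ε : ℝ), Dep gn G → Disjoint (Sf B y0 k) gn →
        (PB fun _ : TG => hf).real Gᶜ ≤ ε →
      ∀ (val V : (TG → Bool) → ℂ) (Y : (TG → Bool) → ℝ) (C v : ℝ) (T U : Finset TG),
        Disjoint (Sf B y0 k) T → (∀ s s' : TG → Bool, (∀ e ∈ T, s e = s' e) → V s = V s') →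
        0 ≤ v → (∀ s, ‖V s‖ ≤ v) →
        Disjoint (Wf B y0 b h) U → DepF U Y → (∀ s, 0 ≤ Y s) → 0 ≤ C →
        ∫ s, Y s ^ 2 ∂(PB fun _ : TG => hf) ≤ C ^ 2 →
        Integrable val (PB fun _ : TG => hf) →
        (∀ s ∈ G, s ∈ farG hz hP → Over B p y0 b (farS B y0 k h) s → val s = 0) →
        (∀ s ∈ G, s ∈ farG hz hP → ¬ Over B p y0 b (farS B y0 k h) s → val s = V s) →
        (∀ s, Over B p y0 b (ballS B y0 b h) s → val s = 0) →
        (∀ s, ‖val s‖ ≤ Y s) →
        ‖(∫ s, val s ∂(PB fun _ : TG => hf)) / (Zs B k b h : ℂ) -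
            ∫ s, V s ∂(PB fun _ : TG => hf)‖ ≤
          v * ε + C / c * Real.sqrt (ε + 2 * q ^ N) := by
  obtain ⟨c, hc, hfar⟩ := far_ge
  obtain ⟨q, hq, hq1, hg⟩ := gate_prob.{0}
  obtain ⟨c2, hc2, hpf⟩ := Zb180.pf_lower
  have hgate : ∀ (A : Finset (ℤ × ℤ)) (B : Band A) (p y0 : ℤ) (hz : B.At p y0) (h N : ℕ) (a0 a1 : ℤ)
      (h0 : 0 ≤ a0) (h01 : a0 < a1) (h1 : a1 + 1 < B.R), 1 ≤ h → B.y2 = B.y1 + h →
      (N : ℤ) * h ≤ a1 - a0 →
      (PB fun _ : TG => hf).real {s : TG → Bool | ¬ (gate hz h0 h01 h1).Closed s} ≤ q ^ N := by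
    intro A B p y0 hz h N a0 a1 h0 h01 h1 hh hy hN
    refine hg _ _ (gate hz h0 h01 h1) h N hh ?_ ?_
    · show B.y2 - 1 = B.y1 - 1 + h
      omega
    · show a0 + N * h ≤ a1
      linarith
  refine ⟨c, q, hc, hq, hq1, hgate, fun A B p y0 k b h N hz hP hN => ?_⟩
  have hk2 := hP.k2
  have hbl := hP.bl
  have hbr := hP.br
  have hg2 : (PB fun _ : TG => hf).real (farG hz hP)ᶜ ≤ 2 * q ^ N := by
    have hkN := hP.kN
    have h3 := hP.h3
    have a1 := hgate A B p y0 hz h N (k - 1) (2 * k - 2) (by omega) (by omega) (by omega)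
      (by omega) hP.hh (by linarith)
    have a2 := hgate A B p y0 hz h N (B.R - 2 * k) (B.R - 1 - k) (by omega) (by omega) (by omega)
      (by omega) hP.hh (by linarith)
    have hsub : (farG hz hP)ᶜ ⊆
        {s : TG → Bool | ¬ (gate hz (a0 := k - 1) (a1 := 2 * k - 2) (by omega) (by omega)
          (by omega)).Closed s} ∪
        {s : TG → Bool | ¬ (gate hz (a0 := B.R - 2 * k) (a1 := B.R - 1 - k) (by omega) (by omega)
          (by omega)).Closed s} := by
      intro s hs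
      by_contra hcon
      simp only [Set.mem_union, not_or, Set.mem_ofPred_eq, not_not] at hcon
      exact hs hcon
    have a3 := (measureReal_mono (μ := PB fun _ : TG => hf) hsub).trans (measureReal_union_le _ _)
    linarith
  have hZ : c * Pf (nr h) ≤ Zs B k b h := by
    rw [← Zs_eq hz hP]
    exact hfar A B p y0 k b h N hz hP (hg2.trans hN)
  have hn1 := nr_pos hP.h3
  have hPf : 0 < Pf (nr h) := by
    refine lt_of_lt_of_le ?_ (hpf (nr h) (by omega))
    have : (0 : ℝ) < (nr h : ℝ) := by exact_mod_cast (by omega : 0 < nr h)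
    positivity
  have hZ0 : 0 < Zs B k b h := lt_of_lt_of_le (mul_pos hc hPf) hZ
  refine ⟨hZ, hZ0, ?_⟩
  intro G gn ε hGd hSg hGε val V Y C v T U hST hV hv hVv hWU hY hY0 hC hYC hvi h1 h2 h3 h4
  classical
  set w : TG → I := fun _ => hf with hw
  set H : Set (TG → Bool) := farG hz hP with hH
  set gf : Finset TG := Cf B y0 (k - 1) (2 * k - 2) ∪ Cf B y0 (B.R - 2 * k) (B.R - 1 - k) with hgf
  have hHd : Dep gf H := far_dep hz hP
  have hgfS : gf ⊆ Sf B y0 k := by
    have e : Sf B y0 k = Cf B y0 (k - 1) (B.R - 1 - k) := rfl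
    rw [e]
    refine Finset.union_subset (Cf_mono ?_ ?_) (Cf_mono ?_ ?_) <;> omega
  have hWS : Wf B y0 b h ⊆ Sf B y0 k := (Wf_sub hP).trans (Cf_mono (by omega) (by omega))
  have hWg : Disjoint (Wf B y0 b h) (gn ∪ gf) := by
    rw [Finset.disjoint_union_right]
    refine ⟨Finset.disjoint_of_subset_left hWS hSg, ?_⟩
    refine Finset.disjoint_of_subset_left (Wf_sub hP) ?_
    rw [Finset.disjoint_union_right]
    refine ⟨Cf_disj (Or.inr ?_), Cf_disj (Or.inl ?_)⟩ <;> omega
  have hVi : Integrable V (PB w) := int_of_dep w hV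
  have D : Dec2 w (Wf B y0 b h) (Sf B y0 k) (T ∪ gn) (U ∪ (gn ∪ gf)) (F0 B p y0 b h)
      (F1 B p y0 k b h) H G Y val (fun s => if s ∈ G ∩ H then (ind (F1 B p y0 k b h) s : ℂ) else 0)
      V c C v :=
    { WU := Finset.disjoint_union_right.2 ⟨hWU, hWg⟩
      ST := Finset.disjoint_union_right.2 ⟨hST, hSg⟩
      h0 := F0_dep hP
      h1 := F1_dep hP
      hHS := hHd.mono hgfS
      hHU := hHd.mono (Finset.subset_union_right.trans Finset.subset_union_right)
      hG := hGd.mono Finset.subset_union_right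
      hGU := hGd.mono (Finset.subset_union_left.trans Finset.subset_union_right)
      hY := hY.mono Finset.subset_union_left
      hY0 := hY0
      hV := fun z z' hz => hV z z' fun e he => hz e (Finset.mem_union_left _ he)
      hAm := hvi
      hBm := by
        refine int_of_dep w (T := (gn ∪ gf) ∪ Sf B y0 k) ?_
        intro z z' hz
        have q1 : z ∈ G ∩ H ↔ z' ∈ G ∩ H := by
          have a1 := hGd z z' fun e he => hz e (by simp [he])
          have a2 := hHd z z' fun e he => hz e (by simp [he])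
          exact and_congr a1 a2
        have q2 := Zb180.ind_dep (F1_dep (p := p) (y0 := y0) hP) z z' fun e he => hz e (by simp [he])
        show (if z ∈ G ∩ H then (ind (F1 B p y0 k b h) z : ℂ) else 0) =
          if z' ∈ G ∩ H then (ind (F1 B p y0 k b h) z' : ℂ) else 0
        rw [q2]
        simp only [q1]
      c_pos := hc
      C_nonneg := hC
      v_nonneg := hv
      hYC := hYC
      hF := by
        rw [Zs_eq hz hP]
        exact le_trans (mul_le_mul_of_nonneg_left (nover_ball_le hz hP) hc.le) hZ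
      hF1 := by
        rw [Zs_eq hz hP]
        exact hZ0
      hv := hVv
      A_in := by
        rintro z ⟨hz1, hz2⟩
        unfold ind
        by_cases ho : Over B p y0 b (farS B y0 k h) z
        · rw [Set.indicator_of_notMem (show z ∉ F1 B p y0 k b h from fun h' => h' ho)]
          rw [h1 z hz1 hz2 ho]
          simp
        · rw [Set.indicator_of_mem (show z ∈ F1 B p y0 k b h from ho)]
          rw [h2 z hz1 hz2 ho]
          simp
      B_in := by
        intro z hz
        show (if z ∈ G ∩ H then (ind (F1 B p y0 k b h) z : ℂ) else 0) = _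
        rw [if_pos hz]
      A_out := by
        intro z _
        unfold ind
        by_cases ho : Over B p y0 b (ballS B y0 b h) z
        · rw [Set.indicator_of_notMem (show z ∉ F0 B p y0 b h from fun h' => h' ho)]
          rw [h3 z ho]
          simp
        · rw [Set.indicator_of_mem (show z ∈ F0 B p y0 b h from ho), one_mul]
          exact h4 z
      B_out := by
        intro z hz
        show ‖(if z ∈ G ∩ H then (ind (F1 B p y0 k b h) z : ℂ) else 0)‖ ≤ _
        rw [if_neg hz, norm_zero]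
        exact mul_nonneg (ind_nonneg _ _) (hY0 z) }
  obtain ⟨r, hr, e⟩ := D.split_gen D.hAm D.hV D.A_in D.A_out
  have hGH : (PB w).real (G ∩ H)ᶜ ≤ ε + 2 * q ^ N := by
    rw [Set.compl_inter]
    refine (measureReal_union_le _ _).trans ?_
    have : (PB w).real Hᶜ ≤ 2 * q ^ N := hg2
    linarith
  have hZc : ((Zs B k b h : ℝ) : ℂ) ≠ 0 := by exact_mod_cast hZ0.ne'
  have e2 : (∫ s, val s ∂(PB w)) / ((Zs B k b h : ℝ) : ℂ) = ∫ s in G, V s ∂(PB w) + r := by
    rw [e, Zs_eq hz hP, mul_comm]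
    exact mul_div_cancel_right₀ _ hZc
  rw [e2, ← integral_add_compl (D.hG.measurableSet) hVi]
  have e3 : ∫ s in G, V s ∂(PB w) + r - (∫ s in G, V s ∂(PB w) + ∫ s in Gᶜ, V s ∂(PB w)) =
      r - ∫ s in Gᶜ, V s ∂(PB w) := by ring
  rw [e3]
  have n1 : ‖∫ s in Gᶜ, V s ∂(PB w)‖ ≤ v * (PB w).real Gᶜ :=
    norm_setIntegral_le_of_norm_le_const (measure_lt_top _ _) fun z _ => hVv z
  have n2 : v * (PB w).real Gᶜ ≤ v * ε := mul_le_mul_of_nonneg_left hGε hv
  have n3 : Dec2.del w G H c C ≤ C / c * Real.sqrt (ε + 2 * q ^ N) := by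
    unfold Dec2.del
    exact mul_le_mul_of_nonneg_left (Real.sqrt_le_sqrt hGH) (by positivity)
  refine (norm_sub_le _ _).trans ?_
  linarith

end Crest.Agent.R158.Zc180
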