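import Crest.Agent.R158.Ad13_350

/-!
# Block AD, the ring function as an expectation (helper350)

* `integrable_dep` : functions of finitely many tiles are integrable
* `mG B` : exponent of `√3`; `card_ends_G`
* `zE` : normalised value of the member `e` of the family of helper857
* `amp1_eq` : `amp1 e = √3^mG ∫ star (zE e)`
* `valG`, **`sum_amp`** : `Σ_e kap e * amp1 e = √3^mG ∫ valG`
-/

set_option autoImplicit false
set_option linter.unusedSectionVars false
set_option linter.unusedVariables false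

noncomputable section

open Finset Matrix MeasureTheory

namespace Crest.Agent.R158.Ad350

open Crest.Agent.R158.Rs689 (PB hf wt)
open Crest.Agent.R158.Bd932 (e3)
open Crest.Agent.R158.Sw300 (Port thru)
open Crest.Agent.R158.Env664 (TG Band Adj4 PortOf portOf_some portOf_none)
open Crest.Agent.R158.Ao857 (legP beL chL beL_ne chL_ne chG InZ OutZ Kz Split plainL)
open Crest.Agent.R158.Fm857 (freeG mem_freeG phi ctw kap amp1 HGr InM OutM)

/-- functions of finitely many tiles are integrable -/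
theorem integrable_dep {T : Type*} [DecidableEq T] (A : Finset T) {f : (T → Bool) → ℂ}
    (hf' : ∀ s s' : T → Bool, (∀ t ∈ A, s t = s' t) → f s = f s') :
    Integrable f (PB fun _ : T => hf) := by
  classical
  set F : (A → Bool) → ℂ := fun y => f fun t => if h : t ∈ A then y ⟨t, h⟩ else false with hF
  have e1 : f = F ∘ A.restrict := by
    funext s
    rw [Function.comp_apply, hF]
    refine hf' _ _ fun t ht => ?_
    simp only [dif_pos ht]
    rfl
  rw [e1]
  have h : (PB fun _ : T => hf).map A.restrict =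
      Measure.pi fun e : A => Rs689.bern hf := Measure.infinitePi_map_restrict _
  refine Integrable.comp_measurable (f := A.restrict) ?_ (Finset.measurable_restrict A)
  rw [h]
  exact Integrable.of_finite

variable {A : Finset (ℤ × ℤ)} {B : Band A} {p y0 : ℤ}

lemma beG_leg' (hz : B.At p y0) : B.beG p y0 (legP p y0) = none := by
  rw [← Ao857.beG_leg B hz, B.beG_invol hz]

/-- exponent of `√3` -/
def mG (B : Band A) : ℕ := ((freeG B).card + 1) / 2 - 1

/-- number of cut ends of `G^(z)` -/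
lemma card_ends_G (hz : B.At p y0) (c c' : ℝ) (φ : Port TG → ℝ) (s : TG → Bool) :
    ((netN B p y0 c c' φ s).ends (netN B p y0 c c' φ s).V).card = (freeG B).card + 1 := by
  have hl : legP p y0 ∉ freeG B := by
    intro h
    have := ((mem_freeG B hz).1 h).2
    rw [beG_leg' hz] at this
    exact absurd this (by simp [legP])
  rw [← Finset.card_insert_of_notMem hl]
  congr 1
  ext q
  rw [Net.ends, Finset.mem_filter, Finset.mem_insert, mem_freeG B hz]
  constructor
  · rintro ⟨h1, h2⟩
    by_cases h3 : q = legP p y0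
    · exact Or.inl h3
    · refine Or.inr ⟨h1, ?_⟩
      rw [← beL_ne B h3]
      exact h2
  · rintro (rfl | ⟨h1, h2⟩)
    · exact ⟨legP_mem hz, Ao857.beL_leg B p y0⟩
    · refine ⟨h1, ?_⟩
      have h3 : q ≠ legP p y0 := by
        rintro rfl
        rw [beG_leg' hz] at h2
        exact absurd h2 (by simp [legP])
      show beL B p y0 q = q
      rw [beL_ne B h3, h2]

/-- the normalised value depends on the tiles of `G^(z)` only -/
lemma zvn_dep (hz : B.At p y0) (c c' : ℝ) (φ : Port TG → ℝ) (s s' : TG → Bool)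
    (h : ∀ t ∈ B.tG y0, s t = s' t) :
    (netN B p y0 c c' φ s).zvn (legP p y0) = (netN B p y0 c c' φ s').zvn (legP p y0) := by
  have hok := netN_ok hz c c' φ s
  have hok' := netN_ok hz c c' φ s'
  have h1 := Net.zv_zvn hok (legP_mem hz) (Ao857.beL_leg B p y0)
  have h2 := Net.zv_zvn hok' (legP_mem hz) (Ao857.beL_leg B p y0)
  rw [card_ends_G hz] at h1 h2
  have h3 : (netN B p y0 c c' φ s).zv (netN B p y0 c c' φ s).V (legP p y0) false =
      (netN B p y0 c c' φ s').zv (netN B p y0 c c' φ s').V (legP p y0) false := by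
    refine Net.zv_congr (N := netN B p y0 c c' φ s) (N' := netN B p y0 c c' φ s')
      (fun q hq => ?_) (fun q _ => rfl) (fun q hq => ?_) _ _
    · obtain ⟨t, d, rfl, ht⟩ := mem_ports' hq
      simp [netN, tnet, ts, h t ht]
    · obtain ⟨t, d, rfl, ht⟩ := mem_ports' hq
      simp [netN, tnet, ts, h t ht]
  rw [h3, h2] at h1
  exact (mul_left_cancel₀ (pow_ne_zero _ Net.sqrt3_ne) h1).symm

/-- normalised value of the member `e` -/
def zE (B : Band A) (p y0 b : ℤ) (m1 m2 : Port TG) (e : Option (Port TG)) (s : TG → Bool) : ℂ :=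
  (netN B p y0 (ctw B b m1 m2 e) (ctw B b m1 m2 e + e3) (phi B b m1 m2 e) s).zvn (legP p y0)

variable {b : ℤ} {m1 m2 : Port TG}

lemma zE_dep (hz : B.At p y0) (e : Option (Port TG)) (s s' : TG → Bool)
    (h : ∀ t ∈ B.tG y0, s t = s' t) : zE B p y0 b m1 m2 e s = zE B p y0 b m1 m2 e s' :=
  zvn_dep hz _ _ _ s s' h

/-- **the amplitude of the member `e`** -/
theorem amp1_eq (hz : B.At p y0) {Al Au : Finset (ℤ × ℤ)} (hs : Split B Al Au)
    (hadj : ∀ s ∈ Al, ∀ t ∈ Au, ¬ Adj4 s t) (e : Option (Port TG)) :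
    amp1 B Al Au b m1 m2 p y0 e = ((Real.sqrt 3 : ℝ) : ℂ) ^ mG B *
      ∫ s, star (zE B p y0 b m1 m2 e s) ∂(PB fun _ : TG => hf) := by
  have h1 := amp_nat hz hs hadj (ctw B b m1 m2 e) (ctw B b m1 m2 e + e3) (phi B b m1 m2 e)
    (fun _ => false) rfl
  have h2 : ∀ s : TG → Bool, (netN B p y0 (ctw B b m1 m2 e) (ctw B b m1 m2 e + e3)
      (phi B b m1 m2 e) s).zv (ports (B.tG y0)) (legP p y0) false =
        ((Real.sqrt 3 : ℝ) : ℂ) ^ mG B * zE B p y0 b m1 m2 e s := by
    intro s
    have h3 := Net.zv_zvn (netN_ok hz (ctw B b m1 m2 e) (ctw B b m1 m2 e + e3)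
      (phi B b m1 m2 e) s) (legP_mem hz) (Ao857.beL_leg B p y0)
    rw [card_ends_G hz] at h3
    exact h3
  have h4 : amp1 B Al Au b m1 m2 p y0 e = _ := h1
  rw [h4]
  simp_rw [h2]
  rw [integral_const_mul, star_mul', star_pow]
  congr 1
  · congr 1
    exact Complex.conj_ofReal _
  · exact (integral_conj (f := fun s => zE B p y0 b m1 m2 e s)).symm

/-- the integrand of the ring function -/
def valG (B : Band A) (p y0 b : ℤ) (m1 m2 : Port TG) (J : Finset (Port TG)) (s : TG → Bool) :
    ℂ := ∑ e ∈ Finset.insertNone J, kap B b m1 m2 e * star (zE B p y0 b m1 m2 e s)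

lemma valG_dep (hz : B.At p y0) (J : Finset (Port TG)) (s s' : TG → Bool)
    (h : ∀ t ∈ B.tG y0, s t = s' t) : valG B p y0 b m1 m2 J s = valG B p y0 b m1 m2 J s' := by
  unfold valG
  exact Finset.sum_congr rfl fun e _ => by rw [zE_dep hz e s s' h]

lemma valG_int (hz : B.At p y0) (J : Finset (Port TG)) :
    Integrable (valG B p y0 b m1 m2 J) (PB fun _ : TG => hf) :=
  integrable_dep (B.tG y0) fun s s' h => valG_dep hz J s s' h

/-- **the ring function as an expectation** -/
theorem sum_amp (hz : B.At p y0) {Al Au : Finset (ℤ × ℤ)} (hs : Split B Al Au)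
    (hadj : ∀ s ∈ Al, ∀ t ∈ Au, ¬ Adj4 s t) (J : Finset (Port TG)) :
    ∑ e ∈ Finset.insertNone J, kap B b m1 m2 e * amp1 B Al Au b m1 m2 p y0 e =
      ((Real.sqrt 3 : ℝ) : ℂ) ^ mG B * ∫ s, valG B p y0 b m1 m2 J s ∂(PB fun _ : TG => hf) := by
  unfold valG
  rw [integral_finsetSum]
  · rw [Finset.mul_sum]
    refine Finset.sum_congr rfl fun e _ => ?_
    rw [amp1_eq hz hs hadj, integral_const_mul]
    ring
  · intro e _
    refine Integrable.const_mul (integrable_dep (B.tG y0) fun s s' h => ?_) _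
    rw [zE_dep hz e s s' h]

theorem HGr_eq (hz : B.At p y0) {Al Au : Finset (ℤ × ℤ)} (hs : Split B Al Au)
    (hadj : ∀ s ∈ Al, ∀ t ∈ Au, ¬ Adj4 s t) (J : Finset (Port TG)) (Z : ℂ) :
    HGr B Al Au b m1 m2 J Z p y0 = ((Real.sqrt 3 : ℝ) : ℂ) ^ mG B *
      (∫ s, valG B p y0 b m1 m2 J s ∂(PB fun _ : TG => hf)) / Z := by
  unfold Fm857.HGr
  rw [sum_amp hz hs hadj J]

end Crest.Agent.R158.Ad350
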