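import Crest.Agent.R158.Qd1_300
import Crest.Agent.R158.Ad12_350

/-!
# R158, phase dictionary of the network of `Dp` (helper300)

* **`phs_ND`**, **`lg_ND`** : `Pc194.Phs`, `Pc194.Lg` for every good word of `Dp`
* `nat_inl`, `nat_inr` : natural cut ends
* **`ps_psT`** : 857's `ps` at the natural cut ends is 405's table `psT`
* `C0` : charges of the cut ends of `Dp` for the member `e`
* **`phs_phi`** : `Pc194.Phs` for 857's phases `phi B b m1 m2 e`, twist `ctw`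
* **`zvn_phi`** : `zvn (ND ..) lp = ei (π / 12) * star (hL (s ∘ eD) w C0)`
* `ndBe`, `ndCh` : 350's `NdBe`, `NdCh`
-/

set_option autoImplicit false
set_option linter.unusedVariables false
set_option linter.unusedSectionVars false

noncomputable section

open Finset

namespace Crest.Agent.R158.Qd300

open Crest.Agent.R158.Sw300 (Port Wd tls L isLeg)
open Crest.Agent.R158.Bd932 (e3)
open Crest.Agent.R158.Env664 (TG Band nbD beD res res_of PortOf portOf_some portOf_none z4 nbD_leg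
  nbD_W nbD_E nbD_N1 nbD_N nbD_Sleg nbD_S1 nbD_S IsWord)
open Crest.Agent.R158.Xr249 (Dp mem_Dp Free pm pm_some pm_none eD eD_A eD_r eD_l Dp_cases eD_glue
  pm_inj pm_portOf wd_cases gb bas)
open Crest.Agent.R158.Ad350 (Net ports tnet tnet_ok mem_ports mem_ports' none_ports netN netN_ok
  legP_mem)
open Crest.Agent.R158.Ao857 (legP seamG chG)
open Crest.Agent.R158.Ob664 (GW)
open Crest.Agent.R158.Qc405 (sgD psT TabH GD psi beD_of isLeg_of_bas none_notin_L sgD_east sgD_W sgD_N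
  sgD_E sgD_S psi_tab)
open Crest.Agent.R158.Pt266 (Gw Gs be_iff)
open Crest.Agent.R158.Al194 (hL)
open Crest.Agent.R158.Fm857 (ps psD cb cp clow ctw phi isLS freeG mem_freeG mem_flr mem_cil)

variable {A : Finset (ℤ × ℤ)} {B : Band A} {p y0 k : ℤ} {w : Wd (ℤ × ℤ)}
  {ψ : (ℤ × ℤ) × ZMod 4 → ℤ}

lemma at_of (H : TabH A B.xl B.xr B.y1 B.y2 k p y0 ψ) : B.At p y0 := ⟨H.hy1, H.hy2, H.hp1, H.hp2⟩

lemma gw_ports (hw : GW (DB B k) (beD (DB B k) p y0 (B.xr + k)) w) {a : (ℤ × ℤ) × ZMod 4}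
    (ha : (some a : Port (ℤ × ℤ)) ∈ L w) : (some a : Port (ℤ × ℤ)) ∈ ports (DB B k) :=
  mem_ports.2 ((hw.word.2.2.1 _).1 ((Pt266.mem_L hw.word.1 a).1 ha).1)

lemma leg_word (hz : B.At p y0) (hw : GW (DB B k) (beD (DB B k) p y0 (B.xr + k)) w) :
    isLeg w ∧ w ≠ .leg := by
  refine ⟨isLeg_of_bas hw.leg, ?_⟩
  rintro rfl
  have h := (hw.word.2.2.1 (p, y0)).2 (mem_Dp.2 (Or.inl (leg_mem hz)))
  simp [tls] at h

/-- **`Pc194.Phs` for the network of `Dp`** -/
theorem phs_ND (H : TabH A B.xl B.xr B.y1 B.y2 k p y0 ψ) (hR : 2 * k < B.R)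
    (hw : GW (DB B k) (beD (DB B k) p y0 (B.xr + k)) w) (c : ℝ) {φ q : Port TG → ℝ}
    (hφ : ∀ x ∈ ports (DB B k), B.beG p y0 (pm (eD B y0 k) x) = pm (eD B y0 k) x →
      φ (pm (eD B y0 k) x) = -(Real.pi / 12 * (psT ψ A B.xr x : ℝ) -
        Real.pi / 3 * q (pm (eD B y0 k) x))) {C : Port (ℤ × ℤ) → ℝ}
    (hC : ∀ x ∈ L w, C x = CN B p y0 k c q x) :
    Pc194.Phs (beC B p y0 k) (chN B p y0 k c (c + e3) φ (psT ψ A B.xr)) w id
      (sgD B.xl p y0 B.y2) (gS B k c) C where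
  an := (H.flw hw).1
  fl := (H.flw hw).2.1
  seam := fun a b hG => by
    obtain ⟨h1, h2⟩ := (be_iff hw.word.1 (some a) (some b)).1 hG
    have ha : a.1 ∈ DB B k := (hw.word.2.2.1 _).1 (Pc194.Gw_mem hw.word.1 hG).1
    rw [hw.word.2.2.2] at h1
    exact chN_seam H.hf hR (at_of H) c φ _ ha h1 fun e => h2 (congrArg some e)
  cut := fun a ha hb => by
    have hx := gw_ports hw ha
    have hz := at_of H
    rw [psi_tab H hw _ ha, hC _ ha]
    show chN B p y0 k c (c + e3) φ (psT ψ A B.xr) (some a) = _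
    have hpi := Real.pi_ne_zero
    by_cases hA : Art B p y0 k (some a)
    · unfold chN
      rw [if_pos hA]
      simp only [CN]
      rw [if_pos hA]
      field_simp
      ring
    · have hl : (some a : Port (ℤ × ℤ)) ≠ lp p y0 := by
        intro e
        have h1 := Pt266.fr_of_mem hw.word.1 (a := a) ha
        have h2 : Gs w (some a) none := by
          rw [be_iff hw.word.1, hw.word.2.2.2, e, beD_lp hz]
          exact ⟨rfl, by simp⟩
        exact ((Pt266.mem_L hw.word.1 a).1 ha).2 ⟨none, h2⟩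
      have hb' : beC B p y0 k (some a) = some a := hb
      rw [chN_nat H.hf hR hz c (c + e3) φ _ hx hA hb' hl,
        hφ _ hx (nat_cut H.hf hR hz hx hA hb' hl)]
      simp only [CN]
      rw [if_neg hA]
      field_simp
      ring

/-- **`Pc194.Lg` for the network of `Dp`** -/
theorem lg_ND (H : TabH A B.xl B.xr B.y1 B.y2 k p y0 ψ)
    (hw : GW (DB B k) (beD (DB B k) p y0 (B.xr + k)) w) (c c' : ℝ) (φ : Port TG → ℝ)
    (pT : Port (ℤ × ℤ) → ℤ) (c0 : ℝ) :
    Pc194.Lg (beC B p y0 k) (chN B p y0 k c c' φ pT) w id (sgD B.xl p y0 B.y2) (gS B k c0)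
      (lp p y0) where
  leg := (leg_word (at_of H) hw).1
  nl := (leg_word (at_of H) hw).2
  eq := fun b hG => by
    obtain ⟨h1, h2⟩ := (be_iff hw.word.1 (some b) none).1 hG
    rw [hw.word.2.2.2] at h1
    have h3 := beD_none h1 h2
    have h4 := Option.some.inj h3
    have hp := H.hp1
    refine ⟨h3.symm, ?_, ?_⟩
    · rw [h3]; exact sgD_east hp le_rfl
    · rw [h4]
      simp only [gS]
      rw [if_neg (by omega)]
  be := beC_lp
  ch := chN_lp H.hf (at_of H) c c' φ pT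

lemma ports_ep (hw : GW (DB B k) (beD (DB B k) p y0 (B.xr + k)) w) :
    ports (DB B k) ⊆ Pc194.ep id w :=
  Pc194.ports_sub_ep fun t ht => (hw.word.2.2.1 t).2 ht

/-- **the value of the network of `Dp`** -/
theorem zvn_ND (H : TabH A B.xl B.xr B.y1 B.y2 k p y0 ψ) (hR : 2 * k < B.R)
    (hw : GW (DB B k) (beD (DB B k) p y0 (B.xr + k)) w) (c : ℝ) {φ q : Port TG → ℝ}
    (hφ : ∀ x ∈ ports (DB B k), B.beG p y0 (pm (eD B y0 k) x) = pm (eD B y0 k) x →
      φ (pm (eD B y0 k) x) = -(Real.pi / 12 * (psT ψ A B.xr x : ℝ) -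
        Real.pi / 3 * q (pm (eD B y0 k) x))) {C : Port (ℤ × ℤ) → ℝ}
    (hC : ∀ x ∈ L w, C x = CN B p y0 k c q x) (s : TG → Bool) :
    (ND B p y0 k c (c + e3) φ (psT ψ A B.xr) s).zvn (lp p y0) =
      Ad350.ei (Real.pi / 12) * star (hL (s ∘ eD B y0 k) w C) := by
  have hz := at_of H
  have hN := ND_ok B H.hf hz c (c + e3) φ (psT ψ A B.xr) s
  have h1 := Pc194.zv_full (s := s ∘ eD B y0 k) (phs_ND H hR hw c hφ hC) (embW hw.word hz)
    (lg_ND H hw c (c + e3) φ (psT ψ A B.xr) c) hN (ports_ep hw) (lp_mem hz)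
  have h2 := Net.zv_zvn hN (lp_mem hz) beC_lp
  have h3 := h2.symm.trans h1
  exact mul_left_cancel₀ (pow_ne_zero _ Net.sqrt3_ne) h3

/-- **the classes of the network of `Dp`** -/
theorem zn_ND (H : TabH A B.xl B.xr B.y1 B.y2 k p y0 ψ) (hR : 2 * k < B.R)
    (hw : GW (DB B k) (beD (DB B k) p y0 (B.xr + k)) w) (c : ℝ) {φ q : Port TG → ℝ}
    (hφ : ∀ x ∈ ports (DB B k), B.beG p y0 (pm (eD B y0 k) x) = pm (eD B y0 k) x →
      φ (pm (eD B y0 k) x) = -(Real.pi / 12 * (psT ψ A B.xr x : ℝ) -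
        Real.pi / 3 * q (pm (eD B y0 k) x))) {C : Port (ℤ × ℤ) → ℝ}
    (hC : ∀ x ∈ L w, C x = CN B p y0 k c q x) (s : TG → Bool)
    {d : Finset (Port (ℤ × ℤ))}
    (hd : d ∈ ((ND B p y0 k c (c + e3) φ (psT ψ A B.xr) s).classes
      (ND B p y0 k c (c + e3) φ (psT ψ A B.xr) s).V).erase
        ((ND B p y0 k c (c + e3) φ (psT ψ A B.xr) s).cls (lp p y0))) :
    ((ND B p y0 k c (c + e3) φ (psT ψ A B.xr) s).ends d = ∅ ∧
        (ND B p y0 k c (c + e3) φ (psT ψ A B.xr) s).zn d = 1) ∨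
      ∃ x ∈ L w, x ≠ Sw300.u (s ∘ eD B y0 k) w ∧ Sw300.S (s ∘ eD B y0 k) w x = true ∧
        (ND B p y0 k c (c + e3) φ (psT ψ A B.xr) s).ends d =
          {x, Sw300.M (s ∘ eD B y0 k) w x} ∧
        (ND B p y0 k c (c + e3) φ (psT ψ A B.xr) s).zn d =
          ((Al194.wr (C (Sw300.M (s ∘ eD B y0 k) w x) - C x) : ℝ) : ℂ) := by
  have hz := at_of H
  have hN := ND_ok B H.hf hz c (c + e3) φ (psT ψ A B.xr) s
  rcases Pc194.zn_full (s := s ∘ eD B y0 k) (phs_ND H hR hw c hφ hC) (embW hw.word hz)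
    (lg_ND H hw c (c + e3) φ (psT ψ A B.xr) c) hN (ports_ep hw) (lp_mem hz) hd with h | h
  · exact Or.inl h
  · obtain ⟨x, h1, h2, h3, h4, h5⟩ := h
    refine Or.inr ⟨x, h1, h2, h3, ?_, h5⟩
    have e : ∀ y : Port (ℤ × ℤ), Pc194.po id y = y := by
      intro y
      cases y <;> rfl
    have h4' := h4
    rw [e, e] at h4'
    exact h4'

/-- 350's hypotheses -/
lemma ndBe : Ad350.NdBe B p y0 k (beC B p y0 k) := fun _ _ => rfl

lemma ndCh (c c' : ℝ) (φ : Port TG → ℝ) (pT : Port (ℤ × ℤ) → ℤ) :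
    Ad350.NdCh B p y0 k c c' φ (chN B p y0 k c c' φ pT) :=
  fun _ _ h => if_neg (not_not.2 h)

lemma ND_eq (c c' : ℝ) (φ : Port TG → ℝ) (pT : Port (ℤ × ℤ) → ℤ) (s : TG → Bool) :
    Ad350.ndNet B y0 k s (beC B p y0 k) (chN B p y0 k c c' φ pT) = ND B p y0 k c c' φ pT s := rfl

/-! ### 857's phases -/

section family

variable (B) in
/-- left stub -/
def inLS (k : ℤ) (t : ℤ × ℤ) : Prop := (B.xl - k ≤ t.1 ∧ t.1 < B.xl) ∧ B.y1 ≤ t.2 ∧ t.2 < B.y2

instance (k : ℤ) (t : ℤ × ℤ) : Decidable (inLS B k t) := by unfold inLS; infer_instance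

lemma isLS_inr {b i y : ℤ} {d : ZMod 4} : isLS b (some (Sum.inr (i, y), d)) ↔ b ≤ i := Iff.rfl

lemma isLS_inl {b : ℤ} {t : ℤ × ℤ} {d : ZMod 4} : ¬ isLS b (some (Sum.inl t, d)) := fun h => h

/-- the left stub is sent to the strip columns `≥ b` -/
lemma isLS_pm (hf : Free A B.xl B.xr B.y1 B.y2 k) {b : ℤ} (hkb : k ≤ b) (hbR : b + k ≤ B.R)
    {t : ℤ × ℤ} {d : ZMod 4} (ht : t ∈ DB B k) :
    isLS b (pm (eD B y0 k) (some (t, d))) ↔ inLS B k t := by
  obtain ⟨x, y⟩ := t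
  have hle := hf.le
  have hw := wd_cases B y0 y
  rw [pm_some]
  rcases Dp_cases hf ht with ⟨g1, g2, g3⟩ | ⟨-, g2⟩ | ⟨-, g2⟩
  · rw [eD_A hf g1]
    refine iff_of_false isLS_inl ?_
    rintro ⟨h1, h2⟩
    exact g3 ⟨h2, h1⟩
  · rw [eD_r g2, isLS_inr]
    unfold inLS
    simp only
    omega
  · rw [eD_l hle g2, isLS_inr]
    unfold inLS
    simp only
    omega

/-- **the lifted directions at the natural cut ends** -/
theorem ps_psT (hf : Free A B.xl B.xr B.y1 B.y2 k) (hR : 2 * k < B.R) (hz : B.At p y0) {b : ℤ}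
    (hkb : k ≤ b) (hbR : b + k ≤ B.R) {x : Port (ℤ × ℤ)} (hx : x ∈ ports (DB B k))
    (h : B.beG p y0 (pm (eD B y0 k) x) = pm (eD B y0 k) x) :
    ps B b (pm (eD B y0 k) x) = psT (psD B) A B.xr x := by
  obtain ⟨⟨x, y⟩, d, rfl, ht⟩ := mem_ports' hx
  have hm : pm (eD B y0 k) (some ((x, y), d)) ∈ freeG B := by
    refine (mem_freeG B hz).2 ⟨?_, h⟩
    exact mem_ports.2 (portOf_some.1 (pm_portOf hf hR (portOf_of hx)))
  have hle := hf.le
  have hw := wd_cases B y0 y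
  rw [pm_some] at hm ⊢
  have hd : ∀ i : ℤ, eD B y0 k (x, y) = Sum.inr (i, y) → d = 3 ∨ d = 1 := by
    intro i hi
    rw [hi] at hm
    unfold Fm857.freeG at hm
    rw [mem_union, mem_union] at hm
    rcases hm with hm | hm | hm
    · exfalso
      obtain ⟨q, hq, e⟩ := mem_image.1 hm
      rcases q with - | ⟨t, d'⟩
      · exact absurd e (by simp [Ao857.tpm])
      · have e' : (some (Sum.inl t, d') : Port TG) = some (Sum.inr (i, y), d) := e
        simp at e'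
    · obtain ⟨j, -, -, e⟩ := (mem_flr B).1 hm
      left
      simp only [Option.some.injEq, Prod.mk.injEq] at e
      exact e.2
    · obtain ⟨j, -, -, e⟩ := (mem_cil B).1 hm
      right
      simp only [Option.some.injEq, Prod.mk.injEq] at e
      exact e.2
  rcases Dp_cases hf ht with ⟨g1, g2, g3⟩ | ⟨g1, g2⟩ | ⟨g1, g2⟩
  · rw [eD_A hf g1, Qc405.psT_A g1]; rfl
  · rw [eD_r g2]
    rcases hd _ (eD_r g2) with rfl | rfl
    · rw [Qc405.psT_S g1]
      simp only [ps]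
      rw [if_pos trivial]
    · rw [Qc405.psT_N g1, if_pos (by omega)]
      simp only [ps]
      rw [if_neg (by decide), if_pos (by omega)]
  · rw [eD_l hle g2]
    rcases hd _ (eD_l hle g2) with rfl | rfl
    · rw [Qc405.psT_S g1]
      simp only [ps]
      rw [if_pos trivial]
    · rw [Qc405.psT_N g1, if_neg (by omega)]
      simp only [ps]
      rw [if_neg (by decide), if_neg (by omega)]

variable (B) (p y0 k) in
/-- **charges of the cut ends of `Dp`** for the member `e` -/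
def C0 (b : ℤ) (m1 m2 : Port TG) (e : Option (Port TG)) : Port (ℤ × ℤ) → ℤ
  | none => 0
  | some a =>
      if Art B p y0 k (some a) then (if inLS B k a.1 then clow B b m1 m2 e else 0)
      else cb B b m1 m2 e (pm (eD B y0 k) (some a))

lemma e3_ne : 3 / Real.pi * e3 = 1 := by
  have := Real.pi_ne_zero
  unfold e3
  field_simp

lemma CN_eq (hf : Free A B.xl B.xr B.y1 B.y2 k) {b : ℤ} (hkb : k ≤ b) (hbR : b + k ≤ B.R)
    (m1 m2 : Port TG) (e : Option (Port TG)) {x : Port (ℤ × ℤ)} (hx : x ∈ ports (DB B k)) :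
    (C0 B p y0 k b m1 m2 e x : ℝ) =
      CN B p y0 k (ctw B b m1 m2 e) (fun t => (cp B b m1 m2 e t : ℝ)) x := by
  obtain ⟨t, d, rfl, ht⟩ := mem_ports' hx
  have hls := isLS_pm (y0 := y0) (d := d) hf hkb hbR ht
  have hg : 3 / Real.pi * gS B k (ctw B b m1 m2 e) t =
      if inLS B k t then (clow B b m1 m2 e : ℝ) else 0 := by
    have h0 : gS B k (ctw B b m1 m2 e) t =
        if inLS B k t then e3 * (clow B b m1 m2 e : ℝ) else 0 := rfl
    rw [h0]
    by_cases h : inLS B k t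
    · rw [if_pos h, if_pos h, ← mul_assoc, e3_ne, one_mul]
    · rw [if_neg h, if_neg h, mul_zero]
  simp only [C0, CN]
  rw [hg]
  unfold cp
  by_cases h : inLS B k t
  · rw [if_pos h, if_pos h, if_pos (hls.2 h)]
    split_ifs <;> push_cast <;> ring
  · rw [if_neg h, if_neg h, if_neg fun h' => h (hls.1 h')]
    split_ifs <;> push_cast <;> ring

lemma phi_eq (hf : Free A B.xl B.xr B.y1 B.y2 k) (hR : 2 * k < B.R) (hz : B.At p y0) {b : ℤ}
    (hkb : k ≤ b) (hbR : b + k ≤ B.R) (m1 m2 : Port TG) (e : Option (Port TG))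
    {x : Port (ℤ × ℤ)} (hx : x ∈ ports (DB B k))
    (h : B.beG p y0 (pm (eD B y0 k) x) = pm (eD B y0 k) x) :
    phi B b m1 m2 e (pm (eD B y0 k) x) = -(Real.pi / 12 * (psT (psD B) A B.xr x : ℝ) -
      Real.pi / 3 * (cp B b m1 m2 e (pm (eD B y0 k) x) : ℝ)) := by
  unfold phi
  rw [ps_psT hf hR hz hkb hbR hx h]
  unfold e3
  ring

variable {b : ℤ} {m1 m2 : Port TG} {e : Option (Port TG)}

/-- **`Pc194.Phs` for the member `e`** -/
theorem phs_phi (H : TabH A B.xl B.xr B.y1 B.y2 k p y0 (psD B)) (hR : 2 * k < B.R)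
    (hkb : k ≤ b) (hbR : b + k ≤ B.R)
    (hw : GW (DB B k) (beD (DB B k) p y0 (B.xr + k)) w) (m1 m2 : Port TG)
    (e : Option (Port TG)) :
    Pc194.Phs (beC B p y0 k) (chN B p y0 k (ctw B b m1 m2 e) (ctw B b m1 m2 e + e3)
      (phi B b m1 m2 e) (psT (psD B) A B.xr)) w id (sgD B.xl p y0 B.y2)
      (gS B k (ctw B b m1 m2 e)) (fun x => (C0 B p y0 k b m1 m2 e x : ℝ)) := by
  refine phs_ND (q := fun t => (cp B b m1 m2 e t : ℝ)) H hR hw _
    (fun x hx h => phi_eq H.hf hR (at_of H) hkb hbR m1 m2 e hx h) fun x hx => ?_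
  rcases x with - | a
  · exact Int.cast_zero
  · exact CN_eq H.hf hkb hbR m1 m2 e (gw_ports hw hx)

variable (B) (p y0 k) in
/-- the network of `Dp` for the member `e` -/
abbrev NDe (b : ℤ) (m1 m2 : Port TG) (e : Option (Port TG)) (s : TG → Bool) :
    Net (Port (ℤ × ℤ)) :=
  ND B p y0 k (ctw B b m1 m2 e) (ctw B b m1 m2 e + e3) (phi B b m1 m2 e) (psT (psD B) A B.xr) s

/-- **the value of the network of `Dp` for the member `e`** -/
theorem zvn_phi (H : TabH A B.xl B.xr B.y1 B.y2 k p y0 (psD B)) (hR : 2 * k < B.R)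
    (hkb : k ≤ b) (hbR : b + k ≤ B.R)
    (hw : GW (DB B k) (beD (DB B k) p y0 (B.xr + k)) w) (m1 m2 : Port TG)
    (e : Option (Port TG)) (s : TG → Bool) :
    (NDe B p y0 k b m1 m2 e s).zvn (lp p y0) = Ad350.ei (Real.pi / 12) *
      star (hL (s ∘ eD B y0 k) w fun x => (C0 B p y0 k b m1 m2 e x : ℝ)) := by
  refine zvn_ND (q := fun t => (cp B b m1 m2 e t : ℝ)) H hR hw _
    (fun x hx h => phi_eq H.hf hR (at_of H) hkb hbR m1 m2 e hx h) (fun x hx => ?_) s
  rcases x with - | a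
  · exact Int.cast_zero
  · exact CN_eq H.hf hkb hbR m1 m2 e (gw_ports hw hx)

/-- **the classes of the network of `Dp` for the member `e`** -/
theorem zn_phi (H : TabH A B.xl B.xr B.y1 B.y2 k p y0 (psD B)) (hR : 2 * k < B.R)
    (hkb : k ≤ b) (hbR : b + k ≤ B.R)
    (hw : GW (DB B k) (beD (DB B k) p y0 (B.xr + k)) w) (m1 m2 : Port TG)
    (e : Option (Port TG)) (s : TG → Bool) {d : Finset (Port (ℤ × ℤ))}
    (hd : d ∈ ((NDe B p y0 k b m1 m2 e s).classes (NDe B p y0 k b m1 m2 e s).V).erase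
        ((NDe B p y0 k b m1 m2 e s).cls (lp p y0))) :
    ((NDe B p y0 k b m1 m2 e s).ends d = ∅ ∧ (NDe B p y0 k b m1 m2 e s).zn d = 1) ∨
      ∃ x ∈ L w, x ≠ Sw300.u (s ∘ eD B y0 k) w ∧ Sw300.S (s ∘ eD B y0 k) w x = true ∧
        (NDe B p y0 k b m1 m2 e s).ends d = {x, Sw300.M (s ∘ eD B y0 k) w x} ∧
        (NDe B p y0 k b m1 m2 e s).zn d =
          ((Al194.wr ((C0 B p y0 k b m1 m2 e (Sw300.M (s ∘ eD B y0 k) w x) : ℝ) -
            (C0 B p y0 k b m1 m2 e x : ℝ)) : ℝ) : ℂ) := by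
  refine zn_ND (q := fun t => (cp B b m1 m2 e t : ℝ)) H hR hw _
    (fun x hx h => phi_eq H.hf hR (at_of H) hkb hbR m1 m2 e hx h)
    (C := fun x => (C0 B p y0 k b m1 m2 e x : ℝ)) (fun x hx => ?_) s hd
  rcases x with - | a
  · exact Int.cast_zero
  · exact CN_eq H.hf hkb hbR m1 m2 e (gw_ports hw hx)

end family

end Crest.Agent.R158.Qd300
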