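import Crest.Agent.R158.Qe4_249

/-!
# R158, Q1c, `V_{D+}` and the deep ends of the stubs (helper249), file Qe5: splittings of `Dp`

* `exD s'` : a splitting of `G^(z)` with given splitting `s'` of `Dp`
* `gateD` : the four gates are closed, as an event for splittings of `Dp`; `gateD_iff`,
  **`gateD_law`**, **`gateD_prob`**
* **`gateD_zero`** : on `gateD` the deep ends do not contribute
-/

set_option autoImplicit false
set_option linter.unusedVariables false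
set_option linter.unusedSectionVars false

noncomputable section

namespace Crest.Agent.R158.Qe249

open Crest.Agent.R158.Al194 Crest.Agent.R158.Vt300 Crest.Agent.R158.Sw300 Crest.Agent.R158.Ob664
open Crest.Agent.R158.Env664 (portOf_some portOf_none PortOf beD Band TG Run nbD nbD_leg res_of)
open Crest.Agent.R158.Xr249 (Dp mem_Dp Free Nx rot rot_some full full_h full_v gb gb_beD Reg eD eD_r
  eD_l eD_A eD_inj eD_glue pm pm_some pm_none)
open Crest.Agent.R158.Zg180 (uc uc_lt uc_ge Gq gates gate Near Far adj_rr se gate_prob closed_dep)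
open Crest.Agent.R158.Zc180 (Cf gate_dep)
open Crest.Agent.R158.Mr679 (bxF mem_bxF)
open Crest.Agent.R158.Rs689 (PB Dep)
open Crest.Agent.R158.Nm211 (DepF)
open MeasureTheory Finset

variable {A : Finset (ℤ × ℤ)} {B : Band A} {p y0 k : ℤ}

/-- transport of an event along an injection -/
lemma law_inj {ι κ : Type} {S : Finset κ} {g : κ → ι} (hg : Set.InjOn g S) {E : Set (κ → Bool)}
    (hE : Dep S E) {F : Set (ι → Bool)} (hF : MeasurableSet F)
    (h : ∀ z : ι → Bool, (fun e => z (g e)) ∈ E ↔ z ∈ F) :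
    (PB fun _ : ι => Rs689.hf).real F = (PB fun _ : κ => Rs689.hf).real E := by
  classical
  have hd : DepF S (E.indicator fun _ => (1 : ℝ)) := by
    intro z z' h
    by_cases hz : z ∈ E
    · rw [Set.indicator_of_mem hz, Set.indicator_of_mem ((hE z z' h).1 hz)]
    · rw [Set.indicator_of_notMem hz, Set.indicator_of_notMem fun h' => hz ((hE z z' h).2 h')]
  have h1 := Crest.Agent.R158.Nm211.integral_transport (ι := ι) (κ := κ) hg (fun _ => false) hd
  rw [integral_indicator_const _ hE.measurableSet] at h1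
  have h2 : ∀ z : ι → Bool, (E.indicator fun _ => (1 : ℝ)) (fun e => xor false (z (g e))) =
      (F.indicator fun _ => (1 : ℝ)) z := by
    intro z
    simp only [Bool.false_xor]
    by_cases hz : z ∈ F
    · rw [Set.indicator_of_mem hz, Set.indicator_of_mem ((h z).2 hz)]
    · rw [Set.indicator_of_notMem hz, Set.indicator_of_notMem fun h' => hz ((h z).1 h')]
  simp only [h2] at h1
  rw [integral_indicator_const _ hF] at h1
  simpa using h1

open Classical in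
/-- a splitting of `G^(z)` with given splitting of `Dp` -/
def exD (B : Band A) (y0 k : ℤ) (s' : ℤ × ℤ → Bool) : TG → Bool := fun t =>
  if h : ∃ v, v ∈ Dp A B.xl B.xr B.y1 B.y2 k ∧ eD B y0 k v = t then s' h.choose else false

lemma exD_eD (hf : Free A B.xl B.xr B.y1 B.y2 k) (hR : 2 * k < B.R) (s' : ℤ × ℤ → Bool)
    {v : ℤ × ℤ} (hv : v ∈ Dp A B.xl B.xr B.y1 B.y2 k) : exD B y0 k s' (eD B y0 k v) = s' v := by
  have h : ∃ v', v' ∈ Dp A B.xl B.xr B.y1 B.y2 k ∧ eD B y0 k v' = eD B y0 k v := ⟨v, hv, rfl⟩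
  unfold exD
  rw [dif_pos h]
  have h1 := h.choose_spec
  have h2 : h.choose = v := by
    rcases e : h.choose with ⟨x, y⟩
    rw [e] at h1
    obtain ⟨x', y'⟩ := v
    exact eD_inj hf hR h1.1 hv h1.2
  rw [h2]

section

variable {a' a0 b1 b' : ℤ}

/-- the tiles of the gates lie in `Dp` -/
lemma gate_tiles (hf : Free A B.xl B.xr B.y1 B.y2 k) (P : Pm B k a' a0 b1 b') {t : TG}
    (h : t ∈ (Cf B y0 0 a' ∪ Cf B y0 a' a0) ∪ (Cf B y0 b1 b' ∪ Cf B y0 b' (B.R - 2))) :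
    ∃ v, v ∈ Dp A B.xl B.xr B.y1 B.y2 k ∧ eD B y0 k v = t := by
  have g0 := P.kR
  have g1 := P.h0
  have g2 := P.h1
  have g3 := P.h2
  have g4 := P.h3
  have g5 := P.h4
  have g6 := P.h5
  have hR : ∀ x0 x1 : ℤ, 0 ≤ x0 → x1 ≤ a0 → t ∈ Cf B y0 x0 x1 →
      ∃ v, v ∈ Dp A B.xl B.xr B.y1 B.y2 k ∧ eD B y0 k v = t := by
    intro x0 x1 e0 e1 ht
    obtain ⟨⟨c, y⟩, hv, rfl⟩ := Finset.mem_image.1 ht
    rw [mem_bxF] at hv
    obtain ⟨v1, v2, v3, v4⟩ := hv
    simp only at v1 v2 v3 v4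
    refine ⟨(B.xr + 1 + (if y < y0 then c else c + 1), y), ?_, ?_⟩
    · rw [mem_Dp]
      right; left
      split_ifs <;> omega
    · rw [eD_r ⟨⟨by omega, by omega⟩, by split_ifs <;> omega, by split_ifs <;> omega⟩]
      show (Sum.inr _ : TG) = Sum.inr _
      congr 2
      ring
  have hL : ∀ x0 x1 : ℤ, b1 ≤ x0 → x1 ≤ B.R - 2 → t ∈ Cf B y0 x0 x1 →
      ∃ v, v ∈ Dp A B.xl B.xr B.y1 B.y2 k ∧ eD B y0 k v = t := by
    intro x0 x1 e0 e1 ht
    obtain ⟨⟨c, y⟩, hv, rfl⟩ := Finset.mem_image.1 ht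
    rw [mem_bxF] at hv
    obtain ⟨v1, v2, v3, v4⟩ := hv
    simp only at v1 v2 v3 v4
    refine ⟨(B.xl - (B.R - c), y), ?_, ?_⟩
    · rw [mem_Dp]
      right; right
      omega
    · rw [eD_l hf.le ⟨⟨by omega, by omega⟩, by omega, by omega⟩]
      show (Sum.inr _ : TG) = Sum.inr _
      congr 2
      rcases Xr249.wd_cases B y0 y with ⟨w1, w2⟩ | ⟨w1, w2⟩
      · rw [w2, if_pos w1]; ring
      · rw [w2, if_neg (by omega)]; ring
  rcases mem_union.1 h with h | h <;> rcases mem_union.1 h with h | h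
  · exact hR _ _ le_rfl g2.le h
  · exact hR _ _ g1.le le_rfl h
  · exact hL _ _ le_rfl (by omega) h
  · exact hL _ _ g5.le le_rfl h

/-- the four gates are closed -/
def gateD (hz : B.At p y0) (P : Pm B k a' a0 b1 b') : Set (ℤ × ℤ → Bool) :=
  {s' | exD B y0 k s' ∈ gateS hz P}

theorem gateD_iff (hf : Free A B.xl B.xr B.y1 B.y2 k) (hz : B.At p y0) (P : Pm B k a' a0 b1 b')
    {s : TG → Bool} : sD B y0 k s ∈ gateD hz P ↔ s ∈ gateS hz P := by
  refine gateS_dep hz P _ _ fun t ht => ?_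
  obtain ⟨v, hv, rfl⟩ := gate_tiles hf P ht
  rw [exD_eD hf P.kR _ hv]
  rfl

theorem gateD_dep (hf : Free A B.xl B.xr B.y1 B.y2 k) (hz : B.At p y0)
    (P : Pm B k a' a0 b1 b') : Dep (Dp A B.xl B.xr B.y1 B.y2 k) (gateD hz P) := by
  intro s s' h
  refine gateS_dep hz P _ _ fun t ht => ?_
  obtain ⟨v, hv, rfl⟩ := gate_tiles hf P ht
  rw [exD_eD hf P.kR _ hv, exD_eD hf P.kR _ hv]
  exact h v hv

/-- **law of the gates, seen from `Dp`** -/
theorem gateD_law (hf : Free A B.xl B.xr B.y1 B.y2 k) (hz : B.At p y0)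
    (P : Pm B k a' a0 b1 b') :
    (PB fun _ : ℤ × ℤ => Rs689.hf).real (gateD hz P)ᶜ =
      (PB fun _ : TG => Rs689.hf).real (gateS hz P)ᶜ := by
  refine (law_inj (S := Dp A B.xl B.xr B.y1 B.y2 k) (g := eD B y0 k) ?_ (gateD_dep hf hz P).compl
    (gateS_meas hz P).compl fun z => ?_).symm
  · rintro ⟨x, y⟩ h1 ⟨x', y'⟩ h2 e
    exact eD_inj hf P.kR h1 h2 e
  · rw [Set.mem_compl_iff, Set.mem_compl_iff]
    exact not_congr (gateD_iff hf hz P)

end

/-- **the gates are closed with high probability** -/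
theorem gateD_prob : ∃ q : ℝ, 0 < q ∧ q < 1 ∧ ∀ (A : Finset (ℤ × ℤ)) (B : Band A)
    (p y0 k a' a0 b1 b' : ℤ) (hf : Free A B.xl B.xr B.y1 B.y2 k) (hz : B.At p y0)
    (P : Pm B k a' a0 b1 b') (h N : ℕ), 1 ≤ h →
    B.y2 = B.y1 + h → (N : ℤ) * h ≤ a' → (N : ℤ) * h ≤ a0 - a' → (N : ℤ) * h ≤ b' - b1 →
    (N : ℤ) * h ≤ B.R - 2 - b' →
    (PB fun _ : TG => Rs689.hf).real (gateS hz P)ᶜ ≤ 4 * q ^ N ∧
    (PB fun _ : ℤ × ℤ => Rs689.hf).real (gateD hz P)ᶜ ≤ 4 * q ^ N := by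
  obtain ⟨q, hq, hq1, hg⟩ := gateS_prob
  refine ⟨q, hq, hq1, fun A B p y0 k a' a0 b1 b' hf hz P h N hh hy e1 e2 e3 e4 => ?_⟩
  rw [gateD_law hf hz P]
  exact ⟨hg A B p y0 k a' a0 b1 b' hz P h N hh hy e1 e2 e3 e4,
    hg A B p y0 k a' a0 b1 b' hz P h N hh hy e1 e2 e3 e4⟩

/-- the term of the mark sum only sees the tiles of the word -/
lemma SmP_congr {T : Type*} [DecidableEq T] {w : Wd T} {s s' : T → Bool}
    (h : ∀ t ∈ tls w, s t = s' t) (m1 m2 : Port T) (j : ℕ) :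
    SmP w s m1 m2 j = SmP w s' m1 m2 j := by
  obtain ⟨h1, h2, h3⟩ := state_congr w h
  unfold SmP
  rw [h1, h3]

/-- **on closed gates the deep ends do not contribute** (splittings of `Dp`) -/
theorem gateD_zero {w : Wd (ℤ × ℤ)} {a' a0 b1 b' : ℤ} {hz : B.At p y0}
    {P : Pm B k a' a0 b1 b'} (hf : Free A B.xl B.xr B.y1 B.y2 k)
    (hW : GW (Dp A B.xl B.xr B.y1 B.y2 k) (beD (Dp A B.xl B.xr B.y1 B.y2 k) p y0 (B.xr + k)) w)
    {s : ℤ × ℤ → Bool} (g : s ∈ gateD hz P) {m1 m2 : Port (ℤ × ℤ)} (hm1 : m1 ∈ L w)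
    (hm2 : m2 ∈ L w) (hn1 : ¬ Deep B y0 k a' b' m1) (hn2 : ¬ Deep B y0 k a' b' m2) {j : ℕ}
    (hj : j < (L w).length) (hd : Deep B y0 k a0 b1 (enL (L w) m1 j)) :
    SmP w s m1 m2 j = 0 := by
  rw [← SmP_congr (s := sD B y0 k (exD B y0 k s)) (s' := s) (fun t ht => ?_)]
  · exact deep_zero hf hW (gateS_iff (P := P).1 g) hm1 hm2 hn1 hn2 hj hd
  · exact exD_eD hf P.kR s ((hW.word.2.2.1 _).1 ht)

end Crest.Agent.R158.Qe249
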