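import Crest.Agent.R158.Ad14_350
import Crest.Agent.R158.Qd2_300
import Crest.Agent.R158.Qe5_249

/-!
# Block AD, the pointwise identity on closed gates (helper350)

* `C0_deep` : charges of the deep ends of the stubs
* **`gate_zE`** : closed near gates: `zE = ei (π / 12) * star (hL (s ∘ eD) w C0) * 1[no strand over]`
* `zE_over` : a strand over the far charge in any rectangle of the far columns: `zE = 0`
-/

set_option autoImplicit false
set_option linter.unusedSectionVars false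
set_option linter.unusedVariables false

noncomputable section

open Finset

namespace Crest.Agent.R158.Ad350

open Crest.Agent.R158.Xr249 (rct mem_rct full eS eD Dp mem_Dp pm pm_some Dp_cases eD_in eD_r eD_l
  eD_A wd_cases pm_inj pm_portOf eD_glue)
open Crest.Agent.R158.Sw300 (Port Wd L thru)
open Crest.Agent.R158.Env664 (TG Band PortOf portOf_some portOf_none nbP nbD beD res res_of Run)
open Crest.Agent.R158.Ao857 (legP beL chL beL_ne chL_ne chG beG_fix)
open Crest.Agent.R158.Zg180 (Gq Near Far gate uc se)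
open Crest.Agent.R158.Fm857 (ps psD cb cp clow ctw phi isLS freeG mem_freeG mem_flr mem_cil)
open Crest.Agent.R158.Qd300 (C0 DB beC chN ND NDe inLS Art)
open Crest.Agent.R158.Ob664 (GW)
open Crest.Agent.R158.Qc405 (TabH psT sgD)
open Crest.Agent.R158.Al194 (hL)

variable {A : Finset (ℤ × ℤ)} {B : Band A} {p y0 k b : ℤ} {m1 m2 : Port TG} {s : TG → Bool}
  {w : Wd (ℤ × ℤ)} {e : Option (Port TG)} {a0 b1 : ℤ}

/-- free ends are cut -/
lemma L_cut (hz : B.At p y0) (hw : GW (DB B k) (beD (DB B k) p y0 (B.xr + k)) w)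
    {a : (ℤ × ℤ) × ZMod 4} (ha : (some a : Port (ℤ × ℤ)) ∈ L w) :
    (some a : Port (ℤ × ℤ)) ≠ lpD p y0 ∧ beC B p y0 k (some a) = some a := by
  have h1 := Pt266.fr_of_mem hw.word.1 (a := a) ha
  have hl : (some a : Port (ℤ × ℤ)) ≠ lpD p y0 := by
    intro e
    have h2 : Pt266.Gs w (some a) none := by
      rw [Pt266.be_iff hw.word.1, hw.word.2.2.2, e]
      exact ⟨Qd300.beD_lp hz, by simp [lpD]⟩
    exact ((Pt266.mem_L hw.word.1 a).1 ha).2 ⟨none, h2⟩
  refine ⟨hl, ?_⟩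
  rw [Qd300.beC_ne hl]
  by_contra hne
  have h3 := ((Pt266.mem_L hw.word.1 a).1 ha).2
  apply h3
  refine ⟨beD (DB B k) p y0 (B.xr + k) (some a),
    (Pt266.be_iff hw.word.1 (some a) _).2 ⟨by rw [hw.word.2.2.2], fun h => hne h.symm⟩⟩

/-- **charges of the deep ends** -/
theorem C0_deep (H : TabH A B.xl B.xr B.y1 B.y2 k p y0 (psD B)) (hR : 2 * k < B.R)
    (hkb : k ≤ b) (hbR : b + k ≤ B.R) (hw : GW (DB B k) (beD (DB B k) p y0 (B.xr + k)) w)
    (hm1 : ∃ t d, m1 = some (Sum.inl t, d)) (hm2 : ∃ t d, m2 = some (Sum.inl t, d))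
    (he : EndOk a0 b1 e) (hab : a0 < b - 1) (hbb : b ≤ b1 + 1) {t : ℤ × ℤ} {d : ZMod 4}
    (hx : (some (t, d) : Port (ℤ × ℤ)) ∈ L w) (ht : t ∈ DB B k) (hd : Deep B y0 k a0 b1 t) :
    C0 B p y0 k b m1 m2 e (some (t, d)) = if inLS B k t then clow B b m1 m2 e else 0 := by
  have hz := Qd300.at_of H
  simp only [C0]
  by_cases hA : Art B p y0 k (some (t, d))
  · rw [if_pos hA]
  · rw [if_neg hA]
    obtain ⟨hl, hc⟩ := L_cut hz hw hx
    have hxp : (some (t, d) : Port (ℤ × ℤ)) ∈ ports (DB B k) := mem_ports.2 ht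
    have h1 := Qd300.nat_cut H.hf hR hz hxp hA hc hl
    have hls := Qd300.isLS_pm (y0 := y0) (d := d) H.hf hkb hbR ht
    have hm : pm (eD B y0 k) (some (t, d)) ∈ freeG B := by
      refine (mem_freeG B hz).2 ⟨?_, h1⟩
      exact mem_ports.2 (portOf_some.1 (pm_portOf H.hf hR (Qd300.portOf_of hxp)))
    have hst := hd.stub H.hf ht
    -- the image is a strip end
    have hinr : ∃ v, eD B y0 k t = Sum.inr v := by
      rcases Dp_cases H.hf ht with ⟨g1, g2, g3⟩ | ⟨-, g2⟩ | ⟨-, g2⟩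
      · exact absurd (Or.inl ⟨_, eD_A H.hf g1⟩) hd
      · exact ⟨_, eD_r g2⟩
      · exact ⟨_, eD_l H.hf.le g2⟩
    obtain ⟨⟨i, y⟩, hv⟩ := hinr
    have hcol : a0 < uc y0 (i, y) ∧ uc y0 (i, y) ≤ b1 := by
      by_contra hcon
      apply hd
      rw [hv]
      exact Or.inr ⟨_, rfl, by omega⟩
    rw [pm_some, hv] at hm hls ⊢
    have hcp : cp B b m1 m2 e (some (Sum.inr (i, y), d)) = 0 := by
      refine cp_strip hm1 hm2 he hab hbb ?_
      unfold Fm857.freeG at hm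
      rw [mem_union, mem_union] at hm
      rcases hm with hm | hm | hm
      · exfalso
        obtain ⟨q, hq, e⟩ := mem_image.1 hm
        rcases q with - | ⟨t, d'⟩
        · exact absurd e (by simp [Ao857.tpm])
        · have e' : (some (Sum.inl t, d') : Port TG) = some (Sum.inr (i, y), d) := e
          simp at e'
      · obtain ⟨j, h2, h3, e⟩ := (mem_flr B).1 hm
        simp only [Option.some.injEq, Prod.mk.injEq, Sum.inr.injEq] at e
        obtain ⟨⟨rfl, rfl⟩, rfl⟩ := e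
        left
        rw [Zg180.uc_lt (by have := hz.hy1; exact this)] at hcol
        exact ⟨rfl, hcol.1, hcol.2⟩
      · obtain ⟨j, h2, h3, e⟩ := (mem_cil B).1 hm
        simp only [Option.some.injEq, Prod.mk.injEq, Sum.inr.injEq] at e
        obtain ⟨⟨rfl, rfl⟩, rfl⟩ := e
        right
        rw [Zg180.uc_ge (by have := hz.hy2; omega)] at hcol
        exact ⟨rfl, hcol.1, hcol.2⟩
    have h4 : cb B b m1 m2 e (some (Sum.inr (i, y), d)) =
        if isLS b (some (Sum.inr (i, y), d) : Port TG) then clow B b m1 m2 e else 0 := by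
      unfold cp at hcp
      omega
    rw [h4]
    by_cases h5 : inLS B k t
    · rw [if_pos h5, if_pos (hls.2 h5)]
    · rw [if_neg h5, if_neg fun h => h5 (hls.1 h)]

open Classical in
/-- **the pointwise identity for one member, on closed near gates** -/
theorem gate_zE (H : TabH A B.xl B.xr B.y1 B.y2 k p y0 (psD B)) (hR : 2 * k < B.R)
    (hkb : k ≤ b) (hbR : b + k ≤ B.R) (hw : GW (DB B k) (beD (DB B k) p y0 (B.xr + k)) w)
    (hm1 : ∃ t d, m1 = some (Sum.inl t, d)) (hm2 : ∃ t d, m2 = some (Sum.inl t, d))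
    (he : EndOk a0 b1 e) {a1 b0 : ℤ} (h0 : 0 ≤ a0) (ha : a0 < a1) (hab : a1 < b0) (hb : b0 < b1)
    (hb1 : b1 + 1 < B.R) (ha1 : a1 ≤ k - 2) (hb0 : B.R - 1 - k ≤ b0) (hbb : b ≤ b1 + 1)
    (hz : B.At p y0) (ca : (gate hz h0 ha (by omega : a1 + 1 < B.R)).Closed s)
    (cb : (gate hz (by omega : 0 ≤ b0) hb hb1).Closed s) :
    zE B p y0 b m1 m2 e s = ei (Real.pi / 12) *
        star (hL (s ∘ eD B y0 k) w fun x => (C0 B p y0 k b m1 m2 e x : ℝ)) *
      if OverR B y0 (a0 + 1) (b1 + 1) (b - 1) s then 0 else 1 := by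
  have hP := Qd300.phs_phi H hR hkb hbR hw m1 m2 e
  have hG := Qd300.lg_ND H hw (ctw B b m1 m2 e) (ctw B b m1 m2 e + Bd932.e3) (phi B b m1 m2 e)
    (psT (psD B) A B.xr) (ctw B b m1 m2 e)
  have key := gate_point (s := s) (c := ctw B b m1 m2 e) (c' := ctw B b m1 m2 e + Bd932.e3)
    (φ := phi B b m1 m2 e) H.hf hR hz Qd300.ndBe
    (Qd300.ndCh (ctw B b m1 m2 e) (ctw B b m1 m2 e + Bd932.e3) (phi B b m1 m2 e)
      (psT (psD B) A B.xr)) h0 ha hab hb hb1 ha1 hb0 ca cb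
    (phS_phi hz hm1 hm2 he (by omega) hbb)
    (hB_of (cR := 0) (cL := (clow B b m1 m2 e : ℝ)) H.hf hz Qd300.ndBe hP
      (Qd300.embW hw.word hz) hG (Qd300.ports_ep hw) fun t d hx ht hd => by
        have h1 := C0_deep H hR hkb hbR hw hm1 hm2 he (by omega) hbb hx ht hd
        have h2 := hd.stub H.hf ht
        have h3 := H.hf.le
        constructor
        · intro h4
          show ((C0 B p y0 k b m1 m2 e (some (t, d)) : ℤ) : ℝ) = 0
          rw [h1, if_neg, Int.cast_zero]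
          unfold inLS
          omega
        · intro h4
          show ((C0 B p y0 k b m1 m2 e (some (t, d)) : ℤ) : ℝ) = _
          rw [h1, if_pos]
          unfold inLS
          omega)
  have h5 := Qd300.zvn_phi H hR hkb hbR hw m1 m2 e s
  unfold zE
  rw [key]
  congr 1

/-- **a strand over the far charge kills every member** -/
theorem zE_over (hz : B.At p y0) (hm1 : ∃ t d, m1 = some (Sum.inl t, d))
    (hm2 : ∃ t d, m2 = some (Sum.inl t, d)) (he : EndOk a0 b1 e) (h0 : 0 ≤ a0) (hb1 : b1 + 1 < B.R)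
    (hab : a0 < b - 1) (hbb : b ≤ b1 + 1) (h : OverR B y0 (a0 + 1) (b1 + 1) (b - 1) s) :
    zE B p y0 b m1 m2 e s = 0 := by
  obtain ⟨C, hC, hC0, hS⟩ := over_class (c := ctw B b m1 m2 e)
    (c' := ctw B b m1 m2 e + Bd932.e3) hz h0 hb1 (phS_phi hz hm1 hm2 he hab hbb) h
  unfold zE Net.zvn
  refine mul_eq_zero_of_right _ (Finset.prod_eq_zero (i := C) ?_ hC0)
  refine Finset.mem_erase.2 ⟨?_, hC⟩
  intro e'
  have : legP p y0 ∈ C := by rw [e']; exact Net.self_mem_cls (legP_mem hz)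
  obtain ⟨q, -, hq⟩ := hS _ this
  exact pS_leg hq.symm

/-- **no strand over the far charge in the ball** -/
theorem zE_ball (hz : B.At p y0) (hm1 : ∃ t d, m1 = some (Sum.inl t, d))
    (hm2 : ∃ t d, m2 = some (Sum.inl t, d)) (he : EndOk a0 b1 e) (h0 : 0 ≤ a0) (hb1 : b1 + 1 < B.R)
    {h : ℕ} (hh : B.y2 = B.y1 + h) (h3 : 3 ≤ h) (hbl : a0 + h + 2 ≤ b) (hbr : b + h ≤ b1 + 2)
    (ho : Zc180.Over B p y0 b (Zc180.ballS B y0 b h) s) : zE B p y0 b m1 m2 e s = 0 := by
  have hn := Zc180.nr_le h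
  have hn' := Zc180.nr_pos h3
  refine zE_over hz hm1 hm2 he h0 hb1 (by omega) (by omega) ?_
  rw [overR_iff hz (by omega) (by omega)]
  obtain ⟨i, j, l, hi, hj, w, hl⟩ := ho
  refine ⟨i, j, l, hi, hj, w, fun r hr => ?_⟩
  obtain ⟨⟨u, v⟩, hw, e⟩ := hl r hr
  refine ⟨(u, v), ?_, e⟩
  unfold Gc748.InR at hw
  simp only at hw
  rw [mem_rct]
  omega

/-! ### the integrand of the ring function -/

section val

variable {J : Finset (Port TG)}

lemma endOk_insert (hJ : ∀ q ∈ J, EndOk a0 b1 (some q)) (e : Option (Port TG))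
    (he : e ∈ Finset.insertNone J) : EndOk a0 b1 e := by
  rcases e with _ | q
  · trivial
  · exact hJ q (Finset.some_mem_insertNone.1 he)

/-- the observable of `Dp` of the family -/
def valD (B : Band A) (p y0 k b : ℤ) (m1 m2 : Port TG) (J : Finset (Port TG)) (w : Wd (ℤ × ℤ))
    (s' : ℤ × ℤ → Bool) : ℂ :=
  ∑ e ∈ Finset.insertNone J, Fm857.kap B b m1 m2 e *
    hL s' w fun x => (C0 B p y0 k b m1 m2 e x : ℝ)

open Classical in
/-- **the pointwise identity** -/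
theorem valG_gate (H : TabH A B.xl B.xr B.y1 B.y2 k p y0 (psD B)) (hR : 2 * k < B.R)
    (hkb : k ≤ b) (hbR : b + k ≤ B.R) (hw : GW (DB B k) (beD (DB B k) p y0 (B.xr + k)) w)
    (hm1 : ∃ t d, m1 = some (Sum.inl t, d)) (hm2 : ∃ t d, m2 = some (Sum.inl t, d))
    (hJ : ∀ q ∈ J, EndOk a0 b1 (some q)) {a1 b0 : ℤ} (h0 : 0 ≤ a0) (ha : a0 < a1)
    (hab : a1 < b0) (hb : b0 < b1)
    (hb1 : b1 + 1 < B.R) (ha1 : a1 ≤ k - 2) (hb0 : B.R - 1 - k ≤ b0) (hbb : b ≤ b1 + 1)
    (hz : B.At p y0) (ca : (gate hz h0 ha (by omega : a1 + 1 < B.R)).Closed s)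
    (cb : (gate hz (by omega : 0 ≤ b0) hb hb1).Closed s) :
    valG B p y0 b m1 m2 J s = star (ei (Real.pi / 12)) *
      valD B p y0 k b m1 m2 J w (s ∘ eD B y0 k) *
      if OverR B y0 (a0 + 1) (b1 + 1) (b - 1) s then 0 else 1 := by
  unfold valG valD
  rw [Finset.mul_sum, Finset.sum_mul]
  refine Finset.sum_congr rfl fun e he => ?_
  rw [gate_zE H hR hkb hbR hw hm1 hm2 (endOk_insert hJ e he) h0 ha hab hb hb1 ha1 hb0 hbb hz ca cb]
  rw [star_mul', star_mul', star_star]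
  split_ifs
  · simp
  · simp only [star_one, mul_one]
    ring

theorem valG_ball (hz : B.At p y0) (hm1 : ∃ t d, m1 = some (Sum.inl t, d))
    (hm2 : ∃ t d, m2 = some (Sum.inl t, d)) (hJ : ∀ q ∈ J, EndOk a0 b1 (some q))
    (h0 : 0 ≤ a0) (hb1 : b1 + 1 < B.R)
    {h : ℕ} (hh : B.y2 = B.y1 + h) (h3 : 3 ≤ h) (hbl : a0 + h + 2 ≤ b) (hbr : b + h ≤ b1 + 2)
    (ho : Zc180.Over B p y0 b (Zc180.ballS B y0 b h) s) : valG B p y0 b m1 m2 J s = 0 := by
  unfold valG
  refine Finset.sum_eq_zero fun e he => ?_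
  rw [zE_ball hz hm1 hm2 (endOk_insert hJ e he) h0 hb1 hh h3 hbl hbr ho, star_zero, mul_zero]

end val

end Crest.Agent.R158.Ad350
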