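import Crest.Agent.R158.Oc4_194
import Crest.Agent.R158.Qd2_300
import Crest.Agent.R158.Qe5_249

/-!
# R158, order of the ends, part 5 (helper194): the observable of `Dp` as 857's family

* **`cK_C0`** : `cK (KD B) m1 m2 e x = C0 .. (pm m1) (pm m2) (e.map pm) x` at every end `x` of the word
* **`kK_kch`** : `kK (KD B) m1 m2 e = kch B b (pm m1) (pm m2) (e.map pm)`
* **`inI_iff`** : `idL m1 x ∈ Ico i2 i3 ↔ inI B b (pm m2) (pm m3) (pm x)`
* **`Jd_pre`** : the ends of the family are images of natural ends of the word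
* **`VJ_C0`** : the observable with the ends outside `J` dropped =
  `Σ e ∈ insertNone J, kap e * hL s w (C0 e)`
-/

set_option autoImplicit false
set_option linter.unusedVariables false
set_option linter.unusedSectionVars false
set_option linter.unusedSimpArgs false

noncomputable section

namespace Crest.Agent.R158.Oc194

open Finset
open Crest.Agent.R158.Sw300
open Crest.Agent.R158.Al194
open Crest.Agent.R158.Pt266
open Crest.Agent.R158.Vt300 (v2)
open Crest.Agent.R158.Xr249 (Dp mem_Dp Free full pm pm_some pm_none eD eD_A eD_r eD_l wd_cases pm_inj)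
open Crest.Agent.R158.Qc405 (sgD TabH GD none_notin_L isLeg_of_bas GD_of GD_not pD pD')
open Crest.Agent.R158.Ob664 (GW)
open Crest.Agent.R158.Env664 (beD nbD TG Band Run PortOf portOf_some portOf_none)
open Crest.Agent.R158.Fm857 (rD isLow pG blkG innG freeG freeD flr cil mem_freeG mem_flr mem_cil mouth
  cb clow cp kch kap ge1 gt1 low1 cyc3 inI far Jd mem_Jd)
open Crest.Agent.R158.Ad350 (ports mem_ports mem_ports')
open Crest.Agent.R158.Ao857 (tpm inlE)
open Crest.Agent.R158.Qd300 (Art art_iff DB beC beC_ne C0 inLS)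
open Crest.Agent.R158.Qe249 (VJ)

section generic

variable {T Q β : Type*} [DecidableEq T] [DecidableEq Q] [LinearOrder β] {w : Wd T} {s : T → Bool}
  {K : Port T → β} {b0 : Port T}

/-- **re-indexing of the observable by a family of ends** -/
theorem Ord.VJ_sum (O : Ord w K b0) {m1 m2 m3 : Port T} (hM : Mk w m1 m2 m3) (em : Port T → Q)
    (J : Finset Q) (hinj : ∀ x ∈ L w, ∀ y ∈ L w, em x = em y → x = y)
    (hJ : ∀ q ∈ J, ∃ x ∈ L w, em x = q ∧
      idL (L w) m1 x ∈ Ico (idL (L w) m1 m2) (idL (L w) m1 m3))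
    (kap : Option Q → ℂ) (CC : Option Q → Port T → ℝ)
    (hk : ∀ x ∈ L w, em x ∈ J → kap (some (em x)) = 1 / 2 * v2 ^ kK K m1 m2 (some x))
    (hk0 : kap none = 1 / 2 * v2 ^ kK K m1 m2 none)
    (hC : ∀ x ∈ L w, em x ∈ J → ∀ y ∈ L w, CC (some (em x)) y = (cK K m1 m2 (some x) y : ℝ))
    (hC0 : ∀ y ∈ L w, CC none y = (cK K m1 m2 none y : ℝ)) :
    VJ w m1 m2 m3 (fun x => em x ∉ J) s = ∑ e ∈ Finset.insertNone J, kap e * hL s w (CC e) := by
  classical
  have hlt := hM.lt O.ok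
  have hM' := hM
  obtain ⟨h1, h2, h3, -⟩ := hM
  have l3 : (rotl (L w) m1).idxOf m3 < (L w).length := idL_lt (m1 := m1) h3
  have e0 : hL s w (CC none) = hL s w (fun x => (cK K m1 m2 none x : ℝ)) := by
    have := hL_const (s := s) O.ok 0 (c := fun x => (cK K m1 m2 none x : ℝ)) (c' := CC none)
      (fun x hx => by rw [hC0 x hx, zero_add])
    rw [this]
    have : er 0 = 1 := by
      have := er_int 0
      rw [Int.cast_zero, zpow_zero] at this
      exact this
    rw [this, one_mul]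
  have e1 : ∀ x ∈ L w, em x ∈ J → hL s w (CC (some (em x))) =
      hL s w (fun y => (cK K m1 m2 (some x) y : ℝ)) := by
    intro x hx hxJ
    have := hL_const (s := s) O.ok 0 (c := fun y => (cK K m1 m2 (some x) y : ℝ))
      (c' := CC (some (em x))) (fun y hy => by rw [hC x hx hxJ y hy, zero_add])
    rw [this]
    have : er 0 = 1 := by
      have := er_int 0
      rw [Int.cast_zero, zpow_zero] at this
      exact this
    rw [this, one_mul]
  rw [Finset.sum_insertNone, hk0, e0]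
  unfold VJ
  rw [O.hL_cS h1 h2, Finset.sum_div, add_comm]
  congr 1
  · ring
  · have hsum : ∀ q ∈ J, ∃ x ∈ L w, em x = q ∧
      idL (L w) m1 x ∈ Ico (idL (L w) m1 m2) (idL (L w) m1 m3) := hJ
    refine Finset.sum_bij' (i := fun j _ => em (enL (L w) m1 j))
      (j := fun q hq => idL (L w) m1 (hsum q hq).choose) ?_ ?_ ?_ ?_ ?_
    · intro j hj
      simp only [Finset.mem_filter, not_not] at hj
      exact hj.2
    · intro q hq
      obtain ⟨g1, g2, g3⟩ := (hsum q hq).choose_spec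
      simp only [Finset.mem_filter, not_not]
      refine ⟨g3, ?_⟩
      rw [enL_idL g1, g2]
      exact hq
    · intro j hj
      simp only [Finset.mem_filter, not_not] at hj
      obtain ⟨g1, g2, g3⟩ := (hsum _ hj.2).choose_spec
      have hjl : j < (L w).length := by
        have := (Finset.mem_Ico.1 hj.1).2
        omega
      have : (hsum _ hj.2).choose = enL (L w) m1 j := hinj _ g1 _ (enL_mem hjl) g2
      rw [this, idL_enL O.ok hjl]
    · intro q hq
      obtain ⟨g1, g2, g3⟩ := (hsum q hq).choose_spec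
      show em (enL (L w) m1 (idL (L w) m1 (hsum q hq).choose)) = q
      rw [enL_idL g1, g2]
    · intro j hj
      simp only [Finset.mem_filter, not_not] at hj
      have hjl : j < (L w).length := by
        have := (Finset.mem_Ico.1 hj.1).2
        omega
      have hx := enL_mem (w := w) (m1 := m1) hjl
      have hc := O.hL_cM (s := s) (e := enL (L w) m1 j) h1 h2 hx
      rw [idL_enL O.ok hjl] at hc
      rw [hc, hk _ hx hj.2, e1 _ hx hj.2]
      ring

end generic

variable {A : Finset (ℤ × ℤ)} {B : Band A} {k p y0 b : ℤ} {ψ : (ℤ × ℤ) × ZMod 4 → ℤ}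

section

variable (H : TabH A B.xl B.xr B.y1 B.y2 k p y0 ψ)

include H

/-- blocks of the natural ends -/
lemma nat_blk (hR : 2 * k < B.R) {m : Port (ℤ × ℤ)} (hm : NatD B m ∨ NatS B k m) :
    blkD B m ≤ 5 ∧ (blkD B m = 5 → innD B m < B.R + 2) ∧ (blkD B m = 2 → innD B m ≤ 0) := by
  have hk := H.hk
  have h1 := H.hy1
  have h2 := H.hy2
  have hle := H.hf.le
  rcases hm with hx | ⟨u, hu, rfl⟩ | ⟨u, hu, rfl⟩ | ⟨u, hu, rfl⟩ | ⟨u, hu, rfl⟩
  · obtain ⟨⟨x, y⟩, d, rfl, ht⟩ := natD_some hx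
    obtain ⟨e1, e2⟩ := K_A (B := B) (d := d) ht
    rw [e1]
    split_ifs <;> refine ⟨by omega, by omega, by omega⟩
  · obtain ⟨e1, e2⟩ := K_rS (B := B) (H.nr (x := u) (y := B.y1) (by omega) (by omega) (by omega)
      (by omega)) hu.1
    rw [e1]; refine ⟨by omega, by omega, by omega⟩
  · obtain ⟨e1, e2⟩ := K_rN (B := B) (H.nr (x := u) (y := B.y2 - 1) (by omega) (by omega) (by omega)
      (by omega)) hu.1
    rw [e1, e2]; refine ⟨by omega, fun _ => by omega, by omega⟩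
  · obtain ⟨e1, e2⟩ := K_lS (B := B) (H.nl (x := u) (y := B.y1) (by omega) (by omega) (by omega)
      (by omega)) (by omega)
    rw [e1, e2]; refine ⟨by omega, by omega, fun _ => by omega⟩
  · obtain ⟨e1, e2⟩ := K_lN (B := B) (H.nl (x := u) (y := B.y2 - 1) (by omega) (by omega) (by omega)
      (by omega)) (by omega)
    rw [e1]; refine ⟨by omega, by omega, by omega⟩

/-- the natural ends come before the right cut -/
lemma nat_lt_R (hR : 2 * k < B.R) {m x : Port (ℤ × ℤ)} (hm : NatD B m ∨ NatS B k m)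
    (hx : CutR B k y0 x) : KD B m < KD B x := by
  have hk := H.hk
  have h1 := H.hy1
  have h2 := H.hy2
  obtain ⟨g1, g2, g3⟩ := nat_blk H hR hm
  rw [KD_lt]
  rcases hx with ⟨v, hv, rfl⟩ | rfl
  · obtain ⟨e1, e2⟩ := K_rE (B := B) (H.nr (x := B.xr + k) (y := v) (by omega) (by omega) (by omega)
      (by omega)) (by omega)
    rw [e1, e2]
    omega
  · obtain ⟨e1, e2⟩ := K_rM (B := B) (H.nr (x := B.xr + k) (y := y0 - 1) (by omega) (by omega)
      (by omega) (by omega)) (by omega) (by omega)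
    rw [e1, e2]
    omega

/-- the natural ends before the left cut are those of the blocks `≤ 2` -/
lemma nat_lt_L (hR : 2 * k < B.R) {m x : Port (ℤ × ℤ)} (hm : NatD B m ∨ NatS B k m)
    (hx : CutL B k x) : (KD B m < KD B x ↔ blkD B m ≤ 2) ∧ (KD B m ≤ KD B x ↔ blkD B m ≤ 2) := by
  have hk := H.hk
  have h1 := H.hy1
  have h2 := H.hy2
  have hle := H.hf.le
  obtain ⟨g1, g2, g3⟩ := nat_blk H hR hm
  obtain ⟨v, hv, rfl⟩ := hx
  obtain ⟨e1, e2⟩ := K_lW (B := B) (H.nl (x := B.xl - k) (y := v) (by omega) (by omega) (by omega)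
    (by omega)) (by omega)
  have key : KD B m < KD B (some ((B.xl - k, v), 0)) ↔ blkD B m ≤ 2 := by
    rw [KD_lt, e1, e2]
    omega
  refine ⟨key, ?_⟩
  rw [← key]
  refine ⟨fun h => ?_, le_of_lt⟩
  rcases lt_or_eq_of_le h with h | h
  · exact h
  · exfalso
    have h' : blkD B m = blkD B (some ((B.xl - k, v), 0)) ∧
        innD B m = innD B (some ((B.xl - k, v), 0)) := by
      unfold KD at h
      have := toLex.injective h
      exact ⟨congrArg Prod.fst this, congrArg Prod.snd this⟩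
    rw [e1, e2] at h'
    have := g3 h'.1
    omega

lemma blk_nat (hR : 2 * k < B.R) (hb : k ≤ b) (hb' : b + k ≤ B.R) {m : Port (ℤ × ℤ)}
    (hm : NatD B m ∨ NatS B k m) : blkG B b (pm (eD B y0 k) m) = blkD B m := by
  have := KD_nat H hR hb (by omega) hm
  unfold KD Fm857.pG at this
  exact (congrArg Prod.fst (toLex.injective this)).symm

variable {w : Wd (ℤ × ℤ)}
  (hw : GW (Dp A B.xl B.xr B.y1 B.y2 k) (beD (Dp A B.xl B.xr B.y1 B.y2 k) p y0 (B.xr + k)) w)

include hw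

/-- ends of the word at tiles of `D` are natural -/
lemma natD_of_mem {m : Port (ℤ × ℤ)} (hm : m ∈ L w) {t : ℤ × ℤ} {d : ZMod 4} (e : m = some (t, d))
    (ht : t ∈ A) : NatD B m := by
  subst e
  obtain ⟨x, y⟩ := t
  exact freeD_of H ht ((Qc405.GW.memL hw).1 hm).2

/-- **the charges in 857's gauge** -/
theorem cK_C0 (hR : 2 * k < B.R) (hz : B.At p y0) (hb : k ≤ b) (hb' : b + k ≤ B.R)
    {m1 m2 : Port (ℤ × ℤ)} (h1 : NatD B m1 ∨ NatS B k m1) (h2 : NatD B m2 ∨ NatS B k m2)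
    {e : Option (Port (ℤ × ℤ))} (he : ∀ e' ∈ e, NatD B e' ∨ NatS B k e') {x : Port (ℤ × ℤ)}
    (hx : x ∈ L w) : cK (KD B) m1 m2 e x =
      C0 B p y0 k b (pm (eD B y0 k) m1) (pm (eD B y0 k) m2) (e.map (pm (eD B y0 k))) x := by
  obtain ⟨hxp, hxl, hxc⟩ := mem_Dp_of H hw hx
  have n1 := KD_nat H hR hb (by omega) h1
  have n2 := KD_nat H hR hb (by omega) h2
  have f1 := blk_nat H hR hb hb' h1
  have f2 := blk_nat H hR hb hb' h2
  rcases x with _ | ⟨t, d⟩
  · exact absurd hxp Ad350.none_ports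
  rcases fc_of H hw hx with hN | hN | hN | hN
  all_goals simp only [C0]
  · rw [if_neg (not_art H hR hz (Or.inl hN) hxp)]
    have nx := KD_nat H hR hb (by omega) (Or.inl hN)
    unfold cK cb ge1
    rw [n1, n2, nx]
    rcases e with _ | e
    · rfl
    · have ne := KD_nat H hR hb (by omega) (he e rfl)
      simp only [Option.map_some]
      rw [ne]
      rfl
  · rw [if_neg (not_art H hR hz (Or.inr hN) hxp)]
    have nx := KD_nat H hR hb (by omega) (Or.inr hN)
    unfold cK cb ge1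
    rw [n1, n2, nx]
    rcases e with _ | e
    · rfl
    · have ne := KD_nat H hR hb (by omega) (he e rfl)
      simp only [Option.map_some]
      rw [ne]
      rfl
  · rw [if_pos (art_cut H hR hz hw (Or.inl hN) hx)]
    have hls : ¬ inLS B k t := by
      have hle := H.hf.le
      have hk := H.hk
      rcases hN with ⟨v, hv, e1⟩ | e1
      · simp only [Option.some.injEq, Prod.mk.injEq] at e1
        rw [e1.1]; unfold inLS; simp only; omega
      · simp only [Option.some.injEq, Prod.mk.injEq] at e1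
        rw [e1.1]; unfold inLS; simp only; omega
    rw [if_neg hls]
    unfold cK
    have a1 := nat_lt_R H hR h1 hN
    have a2 := nat_lt_R H hR h2 hN
    rw [if_pos a1.le, if_pos a2.le]
    rcases e with _ | e
    · norm_num
    · have a3 := nat_lt_R H hR (he e rfl) hN
      simp only
      rw [if_pos a3.le, if_pos a3]
      norm_num
  · rw [if_pos (art_cut H hR hz hw (Or.inr hN) hx)]
    have hls : inLS B k t := by
      have hle := H.hf.le
      have hk := H.hk
      obtain ⟨v, hv, e1⟩ := hN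
      simp only [Option.some.injEq, Prod.mk.injEq] at e1
      rw [e1.1]; unfold inLS; simp only; omega
    rw [if_pos hls]
    obtain ⟨-, a1⟩ := nat_lt_L H hR h1 hN
    obtain ⟨-, a2⟩ := nat_lt_L H hR h2 hN
    unfold cK clow low1
    rw [f1, f2, if_congr a1 rfl rfl, if_congr a2 rfl rfl]
    rcases e with _ | e
    · rfl
    · obtain ⟨a3, a4⟩ := nat_lt_L H hR (he e rfl) hN
      have f3 := blk_nat H hR hb hb' (he e rfl)
      simp only [Option.map_some]
      rw [f3, if_congr a3 rfl rfl, if_congr a4 rfl rfl]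
      ring

omit hw in
/-- **the constants** -/
theorem kK_kch (hR : 2 * k < B.R) (hb : k ≤ b) (hb' : b + k ≤ B.R)
    {m1 m2 : Port (ℤ × ℤ)} (h1 : NatD B m1 ∨ NatS B k m1) (h2 : NatD B m2 ∨ NatS B k m2)
    {e : Option (Port (ℤ × ℤ))} (he : ∀ e' ∈ e, NatD B e' ∨ NatS B k e') :
    kK (KD B) m1 m2 e =
      kch B b (pm (eD B y0 k) m1) (pm (eD B y0 k) m2) (e.map (pm (eD B y0 k))) := by
  have n1 := KD_nat H hR hb (by omega) h1
  have n2 := KD_nat H hR hb (by omega) h2
  unfold kK kch ge1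
  rw [n1, n2]
  rcases e with _ | e
  · rfl
  · have ne := KD_nat H hR hb (by omega) (he e rfl)
    simp only [Option.map_some]
    rw [ne]

/-- ends of the word are distinguished by their images -/
lemma pm_injL (hR : 2 * k < B.R) {x y : Port (ℤ × ℤ)} (hx : x ∈ L w) (hy : y ∈ L w)
    (e : pm (eD B y0 k) x = pm (eD B y0 k) y) : x = y := by
  obtain ⟨hxp, -, -⟩ := mem_Dp_of H hw hx
  obtain ⟨hyp, -, -⟩ := mem_Dp_of H hw hy
  exact pm_inj H.hf hR (Qd300.portOf_of hxp) (Qd300.portOf_of hyp) e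

/-- **between the marks** -/
theorem inI_iff (hR : 2 * k < B.R) (hb : k ≤ b) (hb' : b + k ≤ B.R) {b0 : Port (ℤ × ℤ)}
    (O : Ord w (KD B) b0) {m1 m2 m3 : Port (ℤ × ℤ)} (hM : Mk w m1 m2 m3)
    (h2 : NatD B m2 ∨ NatS B k m2) (h3 : NatD B m3 ∨ NatS B k m3) {x : Port (ℤ × ℤ)} (hx : x ∈ L w)
    (hN : NatD B x ∨ NatS B k x) :
    idL (L w) m1 x ∈ Ico (idL (L w) m1 m2) (idL (L w) m1 m3) ↔
      inI B b (pm (eD B y0 k) m2) (pm (eD B y0 k) m3) (pm (eD B y0 k) x) := by
  have n2 := KD_nat H hR hb (by omega) h2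
  have n3 := KD_nat H hR hb (by omega) h3
  have nx := KD_nat H hR hb (by omega) hN
  have e1 : pm (eD B y0 k) x = pm (eD B y0 k) m2 ↔ x = m2 :=
    ⟨fun h => pm_injL H hw hR hx hM.2.1 h, fun h => by rw [h]⟩
  have := O.mem_Ico hM hx
  rw [n2, n3, nx] at this
  unfold inI cyc3
  rw [e1]
  exact this

omit hw in
/-- **the ends of the family come from natural ends of the word** -/
theorem Jd_pre (hR : 2 * k < B.R) {Sp : Finset (ℤ × ℤ)} {Δ a0 b0 : ℤ} (ha : a0 + 2 ≤ k)
    (hb0 : B.R - k ≤ b0 + 1) {q : Port TG} (hq : q ∈ freeG B) (hfar : far B Sp Δ a0 b0 q) :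
    ∃ x, (NatD B x ∨ NatS B k x) ∧ pm (eD B y0 k) x = q := by
  have hk := H.hk
  have h1 := H.hy1
  have h2 := H.hy2
  unfold Fm857.freeG at hq
  rw [Finset.mem_union, Finset.mem_union, mem_flr, mem_cil, Finset.mem_image] at hq
  rcases hq with ⟨x, hx, rfl⟩ | ⟨i, h3, h4, rfl⟩ | ⟨i, h3, h4, rfl⟩
  · refine ⟨x, Or.inl hx, ?_⟩
    obtain ⟨t, d, rfl, ht⟩ := natD_some (B := B) hx
    rw [pm_A H.hf ht]; rfl
  · have hfar' : (Δ ≤ i ∧ i ≤ a0) ∨ (b0 < i ∧ i < B.R - Δ) := by
      have h5 : (Δ ≤ (if (3 : ZMod 4) = 3 then i else i - 1) ∧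
        (if (3 : ZMod 4) = 3 then i else i - 1) ≤ a0) ∨
        (b0 < (if (3 : ZMod 4) = 3 then i else i - 1) ∧
        (if (3 : ZMod 4) = 3 then i else i - 1) < B.R - Δ) := hfar
      rwa [if_pos rfl] at h5
    rcases hfar' with h5 | h5
    · have hu : B.xr < B.xr + 1 + i ∧ B.xr + 1 + i ≤ B.xr + k := by omega
      refine ⟨some ((B.xr + 1 + i, B.y1), 3), Or.inr (Or.inl ⟨_, hu, rfl⟩), ?_⟩
      rw [pm_r H hu ⟨le_rfl, by omega⟩, show B.xr + 1 + i - B.xr - 1 = i by ring]
    · have hu : B.xl - k ≤ B.xl - (B.R - i) ∧ B.xl - (B.R - i) < B.xl := by omega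
      refine ⟨some ((B.xl - (B.R - i), B.y1), 3), Or.inr (Or.inr (Or.inr (Or.inl ⟨_, hu, rfl⟩))), ?_⟩
      rw [pm_l H hu ⟨le_rfl, by omega⟩, wd1 H, show B.R - (B.xl - (B.xl - (B.R - i))) = i by ring]
  · have hfar' : (Δ ≤ i - 1 ∧ i - 1 ≤ a0) ∨ (b0 < i - 1 ∧ i - 1 < B.R - Δ) := by
      have h5 : (Δ ≤ (if (1 : ZMod 4) = 3 then i else i - 1) ∧
        (if (1 : ZMod 4) = 3 then i else i - 1) ≤ a0) ∨
        (b0 < (if (1 : ZMod 4) = 3 then i else i - 1) ∧
        (if (1 : ZMod 4) = 3 then i else i - 1) < B.R - Δ) := hfar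
      rwa [if_neg z13] at h5
    rcases hfar' with h5 | h5
    · have hu : B.xr < B.xr + 1 + i ∧ B.xr + 1 + i ≤ B.xr + k := by omega
      refine ⟨some ((B.xr + 1 + i, B.y2 - 1), 1), Or.inr (Or.inr (Or.inl ⟨_, hu, rfl⟩)), ?_⟩
      rw [pm_r H hu ⟨by omega, by omega⟩, show B.xr + 1 + i - B.xr - 1 = i by ring]
    · have hu : B.xl - k ≤ B.xl - (B.R + 1 - i) ∧ B.xl - (B.R + 1 - i) < B.xl := by omega
      refine ⟨some ((B.xl - (B.R + 1 - i), B.y2 - 1), 1),
        Or.inr (Or.inr (Or.inr (Or.inr ⟨_, hu, rfl⟩))), ?_⟩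
      rw [pm_l H hu ⟨by omega, by omega⟩, wd2 H,
        show B.R + 1 - (B.xl - (B.xl - (B.R + 1 - i))) = i by ring]

/-- **the observable of `Dp` with the ends outside `J` dropped, as 857's family**, any `J` -/
theorem VJ_C0 (hR : 2 * k < B.R) (hz : B.At p y0) (hb : k ≤ b) (hb' : b + k ≤ B.R)
    {b0 : Port (ℤ × ℤ)} (O : Ord w (KD B) b0) {m1 m2 m3 : Port (ℤ × ℤ)} (hM : Mk w m1 m2 m3)
    (hA : ∀ m, m = m1 ∨ m = m2 ∨ m = m3 → ∃ t d, m = some (t, d) ∧ t ∈ A)
    (J : Finset (Port TG))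
    (hJ : ∀ q ∈ J, inI B b (pm (eD B y0 k) m2) (pm (eD B y0 k) m3) q ∧
      ∃ x, (NatD B x ∨ NatS B k x) ∧ pm (eD B y0 k) x = q) (s : ℤ × ℤ → Bool) :
    VJ w m1 m2 m3 (fun x => pm (eD B y0 k) x ∉ J) s =
      ∑ e ∈ Finset.insertNone J, kap B b (pm (eD B y0 k) m1) (pm (eD B y0 k) m2) e *
        hL s w (fun x => (C0 B p y0 k b (pm (eD B y0 k) m1) (pm (eD B y0 k) m2) e x : ℝ)) := by
  have nat : ∀ m, m = m1 ∨ m = m2 ∨ m = m3 → m ∈ L w → NatD B m ∨ NatS B k m := by
    intro m hm hmL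
    obtain ⟨t, d, e, ht⟩ := hA m hm
    exact Or.inl (natD_of_mem H hw hmL e ht)
  have n1 := nat m1 (Or.inl rfl) hM.1
  have n2 := nat m2 (Or.inr (Or.inl rfl)) hM.2.1
  have n3 := nat m3 (Or.inr (Or.inr rfl)) hM.2.2.1
  have hmem : ∀ x, (NatD B x ∨ NatS B k x) → x ∈ L w := by
    rintro x (hx | hx)
    · exact mem_of_natD H hw hx
    · exact mem_of_natS H hw hx
  have hnat : ∀ x ∈ L w, pm (eD B y0 k) x ∈ J → NatD B x ∨ NatS B k x := by
    intro x hx hxJ
    obtain ⟨-, x', hx', e⟩ := hJ _ hxJ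
    rwa [← pm_injL H hw hR (hmem x' hx') hx e]
  refine O.VJ_sum hM (pm (eD B y0 k)) J (fun x hx y hy e => pm_injL H hw hR hx hy e) ?_
    (kap B b (pm (eD B y0 k) m1) (pm (eD B y0 k) m2))
    (fun e x => (C0 B p y0 k b (pm (eD B y0 k) m1) (pm (eD B y0 k) m2) e x : ℝ)) ?_ ?_ ?_ ?_
  · intro q hq
    obtain ⟨h4, x, h5, rfl⟩ := hJ q hq
    exact ⟨x, hmem x h5, rfl, (inI_iff H hw hR hb hb' O hM n2 n3 (hmem x h5) h5).2 h4⟩
  · intro x hx hxJ
    unfold kap
    rw [kK_kch H hR hb hb' n1 n2 (e := some x) (fun e' h' => by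
      obtain rfl := Option.some.inj h'; exact hnat _ hx hxJ)]
    rfl
  · unfold kap
    rw [kK_kch H hR hb hb' n1 n2 (e := none) (fun e' h' => by simp at h')]
    rfl
  · intro x hx hxJ y hy
    have := cK_C0 H hw hR hz hb hb' n1 n2 (e := some x) (fun e' h' => by
      obtain rfl := Option.some.inj h'; exact hnat _ hx hxJ) hy
    rw [this]
    rfl
  · intro y hy
    have := cK_C0 H hw hR hz hb hb' n1 n2 (e := none) (fun e' h' => by simp at h') hy
    rw [this]
    rfl

end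

end Crest.Agent.R158.Oc194
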