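import Crest.Agent.R158.Ad15_350
import Crest.Agent.R158.Oc5_194

/-!
# Block AD, the ring function and the strip (helper350)

* `freeG_odd`, `norm3` : `√3 ^ mG = 3 ^ ((#freeG - 1) / 4)`
* **`HGr_int`** : the ring function with the normalisation of helper857 = `ei (π/12) ∫ valG / Zs`
* `valD_dep`, `valD_int`
* **`ring_strip`** : decoupling of the strip for the ring function
-/

set_option autoImplicit false
set_option linter.unusedSectionVars false
set_option linter.unusedVariables false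

noncomputable section

open Finset MeasureTheory

namespace Crest.Agent.R158.Ad350

open Crest.Agent.R158.Rs689 (PB hf Dep)
open Crest.Agent.R158.Mr679 (mem_bxF InB)
open Crest.Agent.R158.Nm211 (DepF)
open Crest.Agent.R158.Xr249 (rct mem_rct full eS eD Dp mem_Dp pm pm_some Dp_cases eD_in eD_r eD_l
  eD_A wd_cases pm_inj pm_portOf eD_glue)
open Crest.Agent.R158.Sw300 (Port Wd L thru)
open Crest.Agent.R158.Env664 (TG Band Adj4 PortOf portOf_some portOf_none nbP nbD beD res res_of Run)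
open Crest.Agent.R158.Ao857 (legP beL chL beL_ne chL_ne chG beG_fix Split)
open Crest.Agent.R158.Zg180 (Gq Near Far gate uc se)
open Crest.Agent.R158.Zc180 (Par Cf farG farS ballS Over Zs Sf Wf)
open Crest.Agent.R158.Zb180 (Pf)
open Crest.Agent.R158.Fm857 (ps psD cb cp clow ctw phi isLS freeG mem_freeG mem_flr mem_cil HGr kap)
open Crest.Agent.R158.Qd300 (C0 DB beC chN ND NDe inLS Art)
open Crest.Agent.R158.Ob664 (GW)
open Crest.Agent.R158.Qc405 (TabH psT sgD)
open Crest.Agent.R158.Al194 (hL)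

variable {A : Finset (ℤ × ℤ)} {B : Band A} {p y0 k b : ℤ} {m1 m2 : Port TG} {s : TG → Bool}
  {w : Wd (ℤ × ℤ)} {e : Option (Port TG)} {a0 b1 : ℤ}

/-! ### the power of three -/

/-- the number of free ends is odd -/
lemma freeG_odd (hz : B.At p y0) : (freeG B).card + 1 = 2 * (mG B + 1) := by
  have h1 := card_ends_G hz 0 0 (fun _ => 0) fun _ => false
  have hN := netN_ok hz 0 0 (fun _ => 0) fun _ => false
  have h2 := Net.two_mul_arcs hN hN.clV
  unfold mG
  omega

/-- the exponent of three -/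
lemma norm3 (hz : B.At p y0) : ((Real.sqrt 3 : ℝ) : ℂ) ^ mG B =
    (((3 : ℝ) ^ ((((freeG B).card : ℝ) - 1) / 4) : ℝ) : ℂ) := by
  have h1 := freeG_odd hz
  have h2 : ((freeG B).card : ℝ) + 1 = 2 * (mG B + 1) := by exact_mod_cast h1
  rw [← Complex.ofReal_pow]
  congr 1
  rw [Real.sqrt_eq_rpow, ← Real.rpow_natCast, ← Real.rpow_mul (by norm_num)]
  congr 1
  linarith

lemma ei_mul_star (x : ℝ) : ei x * star (ei x) = 1 := by
  show ei x * (starRingEnd ℂ) (ei x) = 1
  rw [Complex.mul_conj]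
  have : ‖ei x‖ = 1 := by
    unfold ei
    exact Complex.norm_exp_ofReal_mul_I x
  rw [Complex.normSq_eq_norm_sq, this]
  norm_num

/-- **the ring function with its normalisation** -/
theorem HGr_int (hz : B.At p y0) {Al Au : Finset (ℤ × ℤ)} (hs : Split B Al Au)
    (hadj : ∀ s ∈ Al, ∀ t ∈ Au, ¬ Adj4 s t) (J : Finset (Port TG)) (Z : ℝ) :
    HGr B Al Au b m1 m2 J (star (Complex.exp (Complex.I * (Real.pi / 12))) *
        ((((3 : ℝ) ^ ((((freeG B).card : ℝ) - 1) / 4) * Z : ℝ)) : ℂ)) p y0 =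
      (∫ s, ei (Real.pi / 12) * valG B p y0 b m1 m2 J s ∂(PB fun _ : TG => hf)) / (Z : ℂ) := by
  rw [HGr_eq hz hs hadj, norm3 hz, integral_const_mul]
  have e1 : Complex.exp (Complex.I * (Real.pi / 12)) = ei (Real.pi / 12) := by
    unfold ei
    congr 1
    push_cast
    ring
  have e2 := ei_mul_star (Real.pi / 12)
  have e3 : star (ei (Real.pi / 12)) ≠ 0 := right_ne_zero_of_mul_eq_one e2
  have e4 : (((3 : ℝ) ^ ((((freeG B).card : ℝ) - 1) / 4) : ℝ) : ℂ) ≠ 0 := by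
    rw [Ne, Complex.ofReal_eq_zero]
    positivity
  rw [e1]
  by_cases hZ : (Z : ℂ) = 0
  · rw [Complex.ofReal_mul, hZ]
    simp
  · rw [Complex.ofReal_mul, div_eq_div_iff (mul_ne_zero e3 (mul_ne_zero e4 hZ)) hZ]
    generalize ∫ s, valG B p y0 b m1 m2 J s ∂(PB fun _ : TG => hf) = I
    generalize (Z : ℂ) = Z'
    generalize (((3 : ℝ) ^ ((((freeG B).card : ℝ) - 1) / 4) : ℝ) : ℂ) = q
    linear_combination (-(q * I * Z')) * e2

/-! ### the observable of the region with stubs -/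

section obs

variable {J : Finset (Port TG)}

lemma valD_dep {s s' : ℤ × ℤ → Bool} (hw : GW (DB B k) (beD (DB B k) p y0 (B.xr + k)) w)
    (h : ∀ t ∈ DB B k, s t = s' t) :
    valD B p y0 k b m1 m2 J w s = valD B p y0 k b m1 m2 J w s' := by
  unfold valD
  refine Finset.sum_congr rfl fun e _ => ?_
  obtain ⟨h1, h2, h3⟩ := Ob664.state_congr w fun t ht => h t ((hw.word.2.2.1 t).1 ht)
  congr 1
  unfold Al194.hL
  rw [h1, h2, h3]

end obs

/-! ### the strip -/

open Classical in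
/-- **decoupling of the strip for the ring function** -/
theorem ring_strip : ∃ c q : ℝ, 0 < c ∧ 0 < q ∧ q < 1 ∧
    ∀ (A : Finset (ℤ × ℤ)) (B : Band A) (p y0 k b : ℤ) (h N : ℕ) (hz : B.At p y0)
      (hP : Par B k b h N), 2 * q ^ N ≤ 1 / 2 →
      c * Pf (Zc180.nr h) ≤ Zs B k b h ∧ 0 < Zs B k b h ∧
      ∀ (_ : TabH A B.xl B.xr B.y1 B.y2 k p y0 (psD B)) (w : Wd (ℤ × ℤ))
        (_ : GW (DB B k) (beD (DB B k) p y0 (B.xr + k)) w) (m1 m2 : Port TG)
        (_ : ∃ t d, m1 = some (Sum.inl t, d)) (_ : ∃ t d, m2 = some (Sum.inl t, d))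
        (J : Finset (Port TG)) (a0 b1 : ℤ) (_ : ∀ q ∈ J, EndOk a0 b1 (some q)) (_ : 0 ≤ a0)
        (_ : (N : ℤ) * h ≤ k - 2 - a0) (_ : B.R - 1 - k < b1) (_ : (N : ℤ) * h ≤ b1 - (B.R - 1 - k))
        (_ : b1 + 1 < B.R) (_ : a0 < k - 2)
        (Al Au : Finset (ℤ × ℤ)) (_ : Split B Al Au) (_ : ∀ s ∈ Al, ∀ t ∈ Au, ¬ Adj4 s t)
        (v : ℝ) (_ : 0 ≤ v) (_ : ∀ s', ‖valD B p y0 k b m1 m2 J w s'‖ ≤ v)
        (Y : (TG → Bool) → ℝ) (C : ℝ) (U : Finset TG) (_ : Disjoint (Wf B y0 b h) U)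
        (_ : DepF U Y) (_ : ∀ s, 0 ≤ Y s) (_ : 0 ≤ C)
        (_ : ∫ s, Y s ^ 2 ∂(PB fun _ : TG => hf) ≤ C ^ 2)
        (_ : ∀ s, ‖valG B p y0 b m1 m2 J s‖ ≤ Y s),
        ‖HGr B Al Au b m1 m2 J (star (Complex.exp (Complex.I * (Real.pi / 12))) *
          ((((3 : ℝ) ^ ((((freeG B).card : ℝ) - 1) / 4) * Zs B k b h : ℝ)) : ℂ)) p y0 -
          ∫ s, valD B p y0 k b m1 m2 J w (s ∘ eD B y0 k) ∂(PB fun _ : TG => hf)‖ ≤
          v * (2 * q ^ N) + C / c * Real.sqrt (4 * q ^ N) := by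
  obtain ⟨c, q, hc, hq, hq1, hgate, hmain⟩ := Zc180.strip_main
  refine ⟨c, q, hc, hq, hq1, ?_⟩
  intro A B p y0 k b h N hz hP hN
  obtain ⟨g1, g2, g3⟩ := hmain A B p y0 k b h N hz hP hN
  refine ⟨g1, g2, ?_⟩
  intro H w hw m1 m2 hm1 hm2 J a0 b1 hJ h0 hN1 hb0 hN2 hb1 ha0 Al Au hs hadj v hv hv' Y C U hU hY
    hY0 hC hC2 hval
  have hh := hP.hh
  have h3 := hP.h3
  have hk2 := hP.k2
  have hkN := hP.kN
  have hbl := hP.bl
  have hbr := hP.br
  have hNN : (0 : ℤ) ≤ (N : ℤ) * h := by positivity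
  -- the near gates
  set G : Set (TG → Bool) :=
    {s | (gate hz h0 ha0 (by omega : k - 2 + 1 < B.R)).Closed s} ∩
    {s | (gate hz (by omega : 0 ≤ B.R - 1 - k) hb0 hb1).Closed s} with hG
  have hdep : Dep (Cf B y0 a0 (k - 2) ∪ Cf B y0 (B.R - 1 - k) b1) G :=
    Dep.inter ((Zc180.gate_dep hz _ _ _).mono subset_union_left)
      ((Zc180.gate_dep hz _ _ _).mono subset_union_right)
  have hdisj : Disjoint (Sf B y0 k) (Cf B y0 a0 (k - 2) ∪ Cf B y0 (B.R - 1 - k) b1) := by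
    rw [Finset.disjoint_union_right]
    exact ⟨Zc180.Cf_disj (Or.inr (by omega)), Zc180.Cf_disj (Or.inl le_rfl)⟩
  have hGp : (PB fun _ : TG => hf).real Gᶜ ≤ 2 * q ^ N := by
    have a1 := hgate A B p y0 hz h N a0 (k - 2) h0 ha0 (by omega) (by omega) hh (by omega)
    have a2 := hgate A B p y0 hz h N (B.R - 1 - k) b1 (by omega) hb0 hb1 (by omega) hh (by omega)
    have hsub : Gᶜ ⊆
        {s : TG → Bool | ¬ (gate hz h0 ha0 (by omega : k - 2 + 1 < B.R)).Closed s} ∪
        {s : TG → Bool | ¬ (gate hz (by omega : 0 ≤ B.R - 1 - k) hb0 hb1).Closed s} := by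
      intro s hs
      by_contra hcon
      simp only [Set.mem_union, not_or, Set.mem_ofPred_eq, not_not] at hcon
      exact hs hcon
    have a3 := (measureReal_mono (μ := PB fun _ : TG => hf) hsub).trans (measureReal_union_le _ _)
    linarith
  -- the observable
  have hT : Disjoint (Sf B y0 k) ((DB B k).image (eD B y0 k)) := by
    rw [Finset.disjoint_left]
    intro t ht ht'
    obtain ⟨v', hv1, rfl⟩ := Finset.mem_image.1 ht'
    obtain ⟨⟨x, y⟩, hx, e⟩ := Finset.mem_image.1 ht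
    rw [mem_bxF] at hx
    unfold InB at hx
    simp only at hx
    obtain ⟨x', y'⟩ := v'
    have hw' := wd_cases B y0 y'
    rcases Dp_cases H.hf hv1 with ⟨k1, k2, k3⟩ | ⟨-, k2⟩ | ⟨-, k2⟩
    · rw [eD_A H.hf k1] at e
      exact absurd e (by unfold Zg180.se; simp)
    · rw [eD_r k2] at e
      unfold Zg180.se at e
      simp only [Sum.inr.injEq, Prod.mk.injEq] at e
      split_ifs at e <;> omega
    · rw [eD_l H.hf.le k2] at e
      unfold Zg180.se at e
      simp only [Sum.inr.injEq, Prod.mk.injEq] at e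
      split_ifs at e <;> omega
  have hgate' : ∀ s ∈ G, s ∈ farG hz hP →
      (Over B p y0 b (farS B y0 k h) s → ei (Real.pi / 12) * valG B p y0 b m1 m2 J s = 0) ∧
      (¬ Over B p y0 b (farS B y0 k h) s → ei (Real.pi / 12) * valG B p y0 b m1 m2 J s =
        valD B p y0 k b m1 m2 J w (s ∘ eD B y0 k)) := by
    intro s hs hf
    have key := valG_gate (s := s) (b := b) (a1 := k - 2) (b0 := B.R - 1 - k) H (by omega) (by omega) (by omega) hw hm1 hm2 hJ h0 ha0
      (by omega) hb0 hb1 le_rfl le_rfl (by omega) hz hs.1 hs.2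
    have ho := over_far_iff (a0 := a0) (b1 := b1) hz hP hf h0 hb1 (by omega) (by omega)
    constructor
    · intro h1
      rw [key, if_pos (ho.2 h1)]
      simp
    · intro h1
      rw [key, if_neg fun h2 => h1 (ho.1 h2), mul_one, ← mul_assoc, ei_mul_star, one_mul]
  have := g3 G _ (2 * q ^ N) hdep hdisj hGp
    (fun s => ei (Real.pi / 12) * valG B p y0 b m1 m2 J s)
    (fun s => valD B p y0 k b m1 m2 J w (s ∘ eD B y0 k)) Y C v ((DB B k).image (eD B y0 k)) U hT
    (fun s s' hss => valD_dep hw fun t ht => hss _ (Finset.mem_image_of_mem _ ht)) hv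
    (fun s => hv' _) hU hY hY0 hC hC2 ((valG_int hz J).const_mul _)
    (fun s hs hf h1 => (hgate' s hs hf).1 h1) (fun s hs hf h1 => (hgate' s hs hf).2 h1)
    (fun s h1 => by
      rw [valG_ball hz hm1 hm2 hJ h0 hb1 hh h3 (by omega) (by omega) h1, mul_zero])
    (fun s => by
      have : ‖ei (Real.pi / 12)‖ = 1 := by
        unfold ei
        exact Complex.norm_exp_ofReal_mul_I _
      rw [norm_mul, this, one_mul]
      exact hval s)
  rw [HGr_int hz hs hadj J]
  have e : 2 * q ^ N + 2 * q ^ N = 4 * q ^ N := by ring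
  rw [e] at this
  exact this

end Crest.Agent.R158.Ad350
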