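import Mathlib

/-!
# Block AD, tensor side without planarity (helper350)

Ports `P`, arrows `σ : P → Bool` (`true` = the arrow points OUT of the tile through the port).

* `ctr χ a b F` : glueing of the ends `a`, `b` (opposite arrows, phase `e^{i χ}` when the arrow
  leaves through `a`)
* `cut φ p F` : cut end, product vector `e^{± i φ}` (`+` when the arrow points out)
* `St`, `St.vec` : strand state (live ends, partner map, phase `θ p` of the walk from `p` to its
  partner) and its vector
* `ctr_vec`, `cut_vec` : the two contraction lemmas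
-/

set_option autoImplicit false
set_option linter.unusedSimpArgs false
set_option linter.unusedSectionVars false

noncomputable section

open Finset

namespace Crest.Agent.R158.Ad350

/-- sign of an arrow -/
def sg (b : Bool) : ℝ := if b then 1 else -1

@[simp] lemma sg_true : sg true = 1 := rfl
@[simp] lemma sg_false : sg false = -1 := rfl
@[simp] lemma sg_not (b : Bool) : sg (!b) = -sg b := by cases b <;> simp

/-- `e^{i x}` -/
def ei (x : ℝ) : ℂ := Complex.exp (x * Complex.I)

@[simp] lemma ei_zero : ei 0 = 1 := by simp [ei]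
lemma ei_add (x y : ℝ) : ei (x + y) = ei x * ei y := by
  simp only [ei]; rw [← Complex.exp_add]; congr 1; push_cast; ring
lemma ei_add_neg (x : ℝ) : ei x + ei (-x) = 2 * Real.cos x := by
  simp only [ei]
  rw [Complex.ofReal_cos, Complex.two_cos]
  push_cast
  ring_nf

variable {P : Type*} [DecidableEq P]

/-- glueing of the ends `a` and `b` -/
def ctr (χ : ℝ) (a b : P) (F : (P → Bool) → ℂ) : (P → Bool) → ℂ := fun σ =>
  ∑ τ : Bool, ei (χ * sg τ) * F (Function.update (Function.update σ a τ) b (!τ))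

/-- cut end -/
def cut (φ : ℝ) (p : P) (F : (P → Bool) → ℂ) : (P → Bool) → ℂ := fun σ =>
  ∑ τ : Bool, ei (φ * sg τ) * F (Function.update σ p τ)

lemma upd3 {β : Type*} (σ : P → β) {a b c : P} (x y z : β) (hac : a ≠ c) (hbc : b ≠ c) :
    Function.update (Function.update (Function.update σ c z) a x) b y =
      Function.update (Function.update (Function.update σ a x) b y) c z := by
  rw [Function.update_comm hac.symm, Function.update_comm hbc.symm]

lemma upd4 {β : Type*} (σ : P → β) {a b c d : P} (x y z w : β) (hac : a ≠ c) (hbc : b ≠ c)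
    (had : a ≠ d) (hbd : b ≠ d) :
    Function.update (Function.update (Function.update (Function.update σ c z) d w) a x) b y =
      Function.update (Function.update (Function.update (Function.update σ a x) b y) c z) d w := by
  rw [upd3 _ x y w had hbd, upd3 _ x y z hac hbc]

lemma ctr_comm (χ χ' : ℝ) {a b c d : P} (hac : a ≠ c) (hbc : b ≠ c) (had : a ≠ d) (hbd : b ≠ d)
    (F : (P → Bool) → ℂ) : ctr χ a b (ctr χ' c d F) = ctr χ' c d (ctr χ a b F) := by
  funext σ
  simp only [ctr, Finset.mul_sum]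
  rw [Finset.sum_comm]
  refine Finset.sum_congr rfl fun τ' _ => Finset.sum_congr rfl fun τ _ => ?_
  rw [upd4 σ τ (!τ) τ' (!τ') hac hbc had hbd]
  ring

lemma cut_comm (φ φ' : ℝ) {a b : P} (hab : a ≠ b) (F : (P → Bool) → ℂ) :
    cut φ a (cut φ' b F) = cut φ' b (cut φ a F) := by
  funext σ
  simp only [cut, Finset.mul_sum]
  rw [Finset.sum_comm]
  refine Finset.sum_congr rfl fun τ' _ => Finset.sum_congr rfl fun τ _ => ?_
  rw [Function.update_comm hab]
  ring

lemma cut_ctr (φ χ : ℝ) {a b p : P} (hap : a ≠ p) (hbp : b ≠ p) (F : (P → Bool) → ℂ) :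
    cut φ p (ctr χ a b F) = ctr χ a b (cut φ p F) := by
  funext σ
  simp only [ctr, cut, Finset.mul_sum]
  rw [Finset.sum_comm]
  refine Finset.sum_congr rfl fun τ' _ => Finset.sum_congr rfl fun τ _ => ?_
  rw [upd3 σ τ' (!τ') τ hap hbp]
  ring

lemma ctr_sum {ι : Type*} (χ : ℝ) (a b : P) (s : Finset ι) (F : ι → (P → Bool) → ℂ) :
    ctr χ a b (fun σ => ∑ i ∈ s, F i σ) = fun σ => ∑ i ∈ s, ctr χ a b (F i) σ := by
  funext σ
  simp only [ctr, Finset.mul_sum]
  rw [Finset.sum_comm]

lemma cut_sum {ι : Type*} (φ : ℝ) (p : P) (s : Finset ι) (F : ι → (P → Bool) → ℂ) :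
    cut φ p (fun σ => ∑ i ∈ s, F i σ) = fun σ => ∑ i ∈ s, cut φ p (F i) σ := by
  funext σ
  simp only [cut, Finset.mul_sum]
  rw [Finset.sum_comm]

lemma ctr_smul (χ : ℝ) (a b : P) (k : ℂ) (F : (P → Bool) → ℂ) :
    ctr χ a b (fun σ => k * F σ) = fun σ => k * ctr χ a b F σ := by
  funext σ
  simp only [ctr, Finset.mul_sum]
  exact Finset.sum_congr rfl fun τ _ => by ring

lemma cut_smul (φ : ℝ) (p : P) (k : ℂ) (F : (P → Bool) → ℂ) :
    cut φ p (fun σ => k * F σ) = fun σ => k * cut φ p F σ := by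
  funext σ
  simp only [cut, Finset.mul_sum]
  exact Finset.sum_congr rfl fun τ _ => by ring

/-! ### strand states -/

/-- strand state: live ends, partner map, phase of the walk from an end to its partner -/
structure St (P : Type*) where
  L : Finset P
  m : P → P
  θ : P → ℝ

/-- well-formed states -/
structure St.Ok (S : St P) : Prop where
  mem : ∀ p ∈ S.L, S.m p ∈ S.L
  inv : ∀ p ∈ S.L, S.m (S.m p) = p
  ne : ∀ p ∈ S.L, S.m p ≠ p
  anti : ∀ p ∈ S.L, S.θ (S.m p) = -S.θ p

/-- orientation constraint -/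
def St.good (S : St P) (σ : P → Bool) : Prop := ∀ p ∈ S.L, σ (S.m p) = !σ p

instance (S : St P) (σ : P → Bool) : Decidable (S.good σ) := by unfold St.good; infer_instance

/-- total phase, every strand counted twice -/
def St.ph (S : St P) (σ : P → Bool) : ℝ := ∑ p ∈ S.L, S.θ p * sg (σ (S.m p))

/-- the vector of a strand state: a strand from `i` to `j` has phase `e^{i θ_i}` when it is
oriented from `i` to `j` -/
def St.vec (S : St P) (σ : P → Bool) : ℂ := if S.good σ then ei (S.ph σ / 2) else 0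

/-- glueing `a` and `b` -/
def St.con (χ : ℝ) (a b : P) (S : St P) : St P where
  L := (S.L.erase a).erase b
  m := if S.m a = b then S.m else
    Function.update (Function.update S.m (S.m a) (S.m b)) (S.m b) (S.m a)
  θ := if S.m a = b then S.θ else
    Function.update (Function.update S.θ (S.m a) (S.θ (S.m a) + χ + S.θ b)) (S.m b)
      (S.θ (S.m b) - χ + S.θ a)

/-- factor of a glueing -/
def St.fac (χ : ℝ) (a b : P) (S : St P) : ℂ :=
  if S.m a = b then 2 * Real.cos (S.θ a - χ) else 1

namespace St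

variable {S : St P}

lemma Ok.mi (h : S.Ok) {p q : P} (hp : p ∈ S.L) (hq : q ∈ S.L) (e : S.m p = S.m q) : p = q := by
  rw [← h.inv p hp, ← h.inv q hq, e]

lemma Ok.con (h : S.Ok) (χ : ℝ) {a b : P} (ha : a ∈ S.L) (hb : b ∈ S.L) (hab : a ≠ b) :
    (S.con χ a b).Ok := by
  by_cases hm : S.m a = b
  · have hmb : S.m b = a := by rw [← hm, h.inv a ha]
    have key : ∀ p, p ∈ (S.L.erase a).erase b → p ≠ a ∧ p ≠ b ∧ p ∈ S.L := by
      intro p hp
      simp only [mem_erase] at hp
      exact ⟨hp.2.1, hp.1, hp.2.2⟩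
    refine ⟨fun p hp => ?_, fun p hp => ?_, fun p hp => ?_, fun p hp => ?_⟩
    · simp only [St.con, if_pos hm] at hp ⊢
      obtain ⟨h1, h2, h3⟩ := key p hp
      simp only [mem_erase]
      refine ⟨fun e => h1 ?_, fun e => h2 ?_, h.mem p h3⟩
      · exact h.mi h3 ha (by rw [e, hm])
      · exact h.mi h3 hb (by rw [e, hmb])
    · simp only [St.con, if_pos hm] at hp ⊢
      exact h.inv p (key p hp).2.2
    · simp only [St.con, if_pos hm] at hp ⊢
      exact h.ne p (key p hp).2.2
    · simp only [St.con, if_pos hm] at hp ⊢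
      exact h.anti p (key p hp).2.2
  · have hi := h.mem a ha
    have hj := h.mem b hb
    have hma : S.m a ≠ a := h.ne a ha
    have hmb : S.m b ≠ b := h.ne b hb
    have hmba : S.m b ≠ a := fun e => hm (by rw [← e, h.inv b hb])
    have hij : S.m a ≠ S.m b := fun e => hab (h.mi ha hb e)
    have hji : S.m b ≠ S.m a := fun e => hij e.symm
    have hinvi : S.m (S.m a) = a := h.inv a ha
    have hinvj : S.m (S.m b) = b := h.inv b hb
    have hti : S.θ (S.m a) = -S.θ a := h.anti a ha
    have htj : S.θ (S.m b) = -S.θ b := h.anti b hb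
    have key : ∀ p, p ∈ (S.L.erase a).erase b → p ≠ a ∧ p ≠ b ∧ p ∈ S.L := by
      intro p hp
      simp only [mem_erase] at hp
      exact ⟨hp.2.1, hp.1, hp.2.2⟩
    have other : ∀ p, p ∈ S.L → p ≠ a → p ≠ b → p ≠ S.m a → p ≠ S.m b →
        S.m p ≠ S.m a ∧ S.m p ≠ S.m b ∧ S.m p ≠ a ∧ S.m p ≠ b := by
      intro p hp h1 h2 h3 h4
      refine ⟨fun e => h1 (h.mi hp ha e), fun e => h2 (h.mi hp hb e), fun e => h3 ?_,
        fun e => h4 ?_⟩
      · rw [← e, h.inv p hp]
      · rw [← e, h.inv p hp]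
    refine ⟨fun p hp => ?_, fun p hp => ?_, fun p hp => ?_, fun p hp => ?_⟩ <;>
    simp only [St.con, if_neg hm] at hp ⊢ <;>
    obtain ⟨h1, h2, h3⟩ := key p hp <;>
    by_cases e1 : p = S.m b
    · subst e1; simp [hma, hm, hi]
    · by_cases e2 : p = S.m a
      · subst e2; simp [Function.update_apply, hij, hmb, hmba, hj]
      · obtain ⟨o1, o2, o3, o4⟩ := other p h3 h1 h2 e2 e1
        simp [Function.update_apply, e1, e2, o3, o4, h.mem p h3]
    · subst e1; simp [Function.update_apply, hij]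
    · by_cases e2 : p = S.m a
      · subst e2; simp [Function.update_apply, hij]
      · obtain ⟨o1, o2, o3, o4⟩ := other p h3 h1 h2 e2 e1
        simp [Function.update_apply, e1, e2, o1, o2, h.inv p h3]
    · subst e1; simp [hij]
    · by_cases e2 : p = S.m a
      · subst e2; simp [Function.update_apply, hij, hji]
      · obtain ⟨o1, o2, o3, o4⟩ := other p h3 h1 h2 e2 e1
        simp [Function.update_apply, e1, e2, h.ne p h3]
    · subst e1; simp [Function.update_apply, hij, hti, htj]; ring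
    · by_cases e2 : p = S.m a
      · subst e2; simp [Function.update_apply, hij, hti, htj]; ring
      · obtain ⟨o1, o2, o3, o4⟩ := other p h3 h1 h2 e2 e1
        simp [Function.update_apply, e1, e2, o1, o2, h.anti p h3]

/-! ### the contraction lemma -/

lemma sum_erase2 {L : Finset P} {a b : P} (ha : a ∈ L) (hb : b ∈ L) (hab : a ≠ b) (f : P → ℝ) :
    ∑ p ∈ L, f p = f a + f b + ∑ p ∈ (L.erase a).erase b, f p := by
  rw [← Finset.add_sum_erase L f ha,
    ← Finset.add_sum_erase (L.erase a) f (Finset.mem_erase.2 ⟨hab.symm, hb⟩)]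
  ring

lemma good_iff2 {a b : P} (ha : a ∈ S.L) (hb : b ∈ S.L) (σ : P → Bool) :
    S.good σ ↔ (σ (S.m a) = !σ a) ∧ (σ (S.m b) = !σ b) ∧
      ∀ p ∈ (S.L.erase a).erase b, σ (S.m p) = !σ p := by
  unfold St.good
  constructor
  · intro h
    exact ⟨h a ha, h b hb, fun p hp => h p (Finset.mem_of_mem_erase (Finset.mem_of_mem_erase hp))⟩
  · rintro ⟨h1, h2, h3⟩ p hp
    by_cases e : p = a
    · rw [e]; exact h1
    · by_cases e' : p = b
      · rw [e']; exact h2
      · exact h3 p (Finset.mem_erase.2 ⟨e', Finset.mem_erase.2 ⟨e, hp⟩⟩)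

theorem ctr_vec (h : S.Ok) (χ : ℝ) {a b : P} (ha : a ∈ S.L) (hb : b ∈ S.L) (hab : a ≠ b)
    (σ : P → Bool) : ctr χ a b S.vec σ = S.fac χ a b * (S.con χ a b).vec σ := by
  have key : ∀ p, p ∈ (S.L.erase a).erase b → p ≠ a ∧ p ≠ b ∧ p ∈ S.L := by
    intro p hp
    simp only [mem_erase] at hp
    exact ⟨hp.2.1, hp.1, hp.2.2⟩
  set σ1 : Bool → P → Bool := fun τ => Function.update (Function.update σ a τ) b (!τ) with hσ1
  have s1a : ∀ τ, σ1 τ a = τ := fun τ => by simp [hσ1, Function.update_apply, hab]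
  have s1b : ∀ τ, σ1 τ b = !τ := fun τ => by simp [hσ1]
  have s1p : ∀ τ p, p ≠ a → p ≠ b → σ1 τ p = σ p := fun τ p h1 h2 => by
    simp [hσ1, Function.update_apply, h1, h2]
  by_cases hm : S.m a = b
  · have hmb : S.m b = a := by rw [← hm, h.inv a ha]
    have htb : S.θ b = -S.θ a := by rw [← hm]; exact h.anti a ha
    have hmp : ∀ p ∈ (S.L.erase a).erase b, S.m p ≠ a ∧ S.m p ≠ b := by
      intro p hp
      obtain ⟨h1, h2, h3⟩ := key p hp
      exact ⟨fun e => h2 (h.mi h3 hb (by rw [e, hmb])), fun e => h1 (h.mi h3 ha (by rw [e, hm]))⟩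
    have hrest : ∀ τ, ∀ p ∈ (S.L.erase a).erase b, σ1 τ (S.m p) = σ (S.m p) ∧ σ1 τ p = σ p := by
      intro τ p hp
      obtain ⟨h1, h2, h3⟩ := key p hp
      exact ⟨s1p τ _ (hmp p hp).1 (hmp p hp).2, s1p τ p h1 h2⟩
    have hgood : ∀ τ, S.good (σ1 τ) ↔ (S.con χ a b).good σ := by
      intro τ
      rw [good_iff2 ha hb, hm, hmb, s1a, s1b]
      simp only [Bool.not_not, true_and]
      unfold St.good
      simp only [St.con, if_pos hm]
      exact forall₂_congr fun p hp => by rw [(hrest τ p hp).1, (hrest τ p hp).2]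
    have hph : ∀ τ, S.ph (σ1 τ) = -(2 * S.θ a * sg τ) + (S.con χ a b).ph σ := by
      intro τ
      unfold St.ph
      rw [sum_erase2 ha hb hab, hm, hmb, s1a, s1b, htb, sg_not]
      have : ∑ p ∈ (S.L.erase a).erase b, S.θ p * sg (σ1 τ (S.m p)) =
          ∑ p ∈ (S.con χ a b).L, (S.con χ a b).θ p * sg (σ ((S.con χ a b).m p)) := by
        simp only [St.con, if_pos hm]
        exact Finset.sum_congr rfl fun p hp => by rw [(hrest τ p hp).1]
      rw [this]
      ring
    show ∑ τ : Bool, ei (χ * sg τ) * S.vec (σ1 τ) = _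
    unfold St.vec
    simp only [hgood]
    by_cases hg : (S.con χ a b).good σ
    · simp only [if_pos hg, hph, St.fac, if_pos hm]
      rw [Fintype.sum_bool]
      simp only [← ei_add, sg_true, sg_false]
      rw [← ei_add_neg, add_mul, ← ei_add, ← ei_add, add_comm]
      congr 2 <;> ring
    · simp [if_neg hg]
  · have hi := h.mem a ha
    have hj := h.mem b hb
    have hma : S.m a ≠ a := h.ne a ha
    have hmb : S.m b ≠ b := h.ne b hb
    have hmba : S.m b ≠ a := fun e => hm (by rw [← e, h.inv b hb])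
    have hij : S.m a ≠ S.m b := fun e => hab (h.mi ha hb e)
    have hji : S.m b ≠ S.m a := fun e => hij e.symm
    have hinvi : S.m (S.m a) = a := h.inv a ha
    have hinvj : S.m (S.m b) = b := h.inv b hb
    have hti : S.θ (S.m a) = -S.θ a := h.anti a ha
    have htj : S.θ (S.m b) = -S.θ b := h.anti b hb
    have hL : (S.con χ a b).L = (S.L.erase a).erase b := rfl
    have hiL : S.m a ∈ (S.L.erase a).erase b := by simp [hm, hma, hi]
    have hjL : S.m b ∈ (S.L.erase a).erase b := by simp [hmb, hmba, hj]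
    have other : ∀ p, p ∈ ((((S.L.erase a).erase b).erase (S.m a)).erase (S.m b)) →
        p ≠ a ∧ p ≠ b ∧ p ≠ S.m a ∧ p ≠ S.m b ∧ S.m p ≠ a ∧ S.m p ≠ b := by
      intro p hp
      simp only [mem_erase] at hp
      obtain ⟨h4, h3, h2, h1, hp⟩ := hp
      refine ⟨h1, h2, h3, h4, fun e => h3 ?_, fun e => h4 ?_⟩
      · rw [← e, h.inv p hp]
      · rw [← e, h.inv p hp]
    have cm1 : (S.con χ a b).m (S.m a) = S.m b := by
      simp [St.con, hm, Function.update_apply, hij]
    have cm2 : (S.con χ a b).m (S.m b) = S.m a := by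
      simp [St.con, hm]
    have cm3 : ∀ p, p ≠ S.m a → p ≠ S.m b → (S.con χ a b).m p = S.m p := by
      intro p h1 h2
      simp [St.con, hm, Function.update_apply, h1, h2]
    have ct1 : (S.con χ a b).θ (S.m a) = S.θ (S.m a) + χ + S.θ b := by
      simp [St.con, hm, Function.update_apply, hij]
    have ct2 : (S.con χ a b).θ (S.m b) = S.θ (S.m b) - χ + S.θ a := by
      simp [St.con, hm]
    have ct3 : ∀ p, p ≠ S.m a → p ≠ S.m b → (S.con χ a b).θ p = S.θ p := by
      intro p h1 h2
      simp [St.con, hm, Function.update_apply, h1, h2]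
    have hrest : ∀ τ, ∀ p ∈ ((((S.L.erase a).erase b).erase (S.m a)).erase (S.m b)),
        σ1 τ (S.m p) = σ (S.m p) ∧ σ1 τ p = σ p := by
      intro τ p hp
      obtain ⟨h1, h2, h3, h4, h5, h6⟩ := other p hp
      exact ⟨s1p τ _ h5 h6, s1p τ p h1 h2⟩
    have hgood : ∀ τ, S.good (σ1 τ) ↔ τ = σ (S.m b) ∧ (S.con χ a b).good σ := by
      intro τ
      have hok := h.con χ ha hb hab
      rw [good_iff2 ha hb, good_iff2 (S := S.con χ a b) hiL hjL]
      rw [s1a, s1b, s1p τ _ hma hm, s1p τ _ hmba hmb, cm1, cm2, hL]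
      have e1 : (∀ p ∈ (S.L.erase a).erase b, σ1 τ (S.m p) = !σ1 τ p) ↔
          (σ1 τ a = !σ1 τ (S.m a)) ∧ (σ1 τ b = !σ1 τ (S.m b)) ∧
          ∀ p ∈ ((((S.L.erase a).erase b).erase (S.m a)).erase (S.m b)),
            σ (S.m p) = !σ p := by
        constructor
        · intro k
          refine ⟨?_, ?_, fun p hp => ?_⟩
          · have := k _ hiL; rwa [hinvi] at this
          · have := k _ hjL; rwa [hinvj] at this
          · have := k p (Finset.mem_of_mem_erase (Finset.mem_of_mem_erase hp))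
            rwa [(hrest τ p hp).1, (hrest τ p hp).2] at this
        · rintro ⟨k1, k2, k3⟩ p hp
          by_cases e : p = S.m a
          · rw [e, hinvi]; exact k1
          · by_cases e' : p = S.m b
            · rw [e', hinvj]; exact k2
            · have hp' : p ∈ ((((S.L.erase a).erase b).erase (S.m a)).erase (S.m b)) :=
                Finset.mem_erase.2 ⟨e', Finset.mem_erase.2 ⟨e, hp⟩⟩
              rw [(hrest τ p hp').1, (hrest τ p hp').2]
              exact k3 p hp'
      have e2 : (∀ p ∈ ((((S.L.erase a).erase b).erase (S.m a)).erase (S.m b)),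
            σ ((S.con χ a b).m p) = !σ p) ↔
          ∀ p ∈ ((((S.L.erase a).erase b).erase (S.m a)).erase (S.m b)),
            σ (S.m p) = !σ p := by
        refine forall₂_congr fun p hp => ?_
        rw [cm3 p (other p hp).2.2.1 (other p hp).2.2.2.1]
      rw [e1, e2, s1a, s1b, s1p τ _ hma hm, s1p τ _ hmba hmb]
      generalize (∀ p ∈ ((((S.L.erase a).erase b).erase (S.m a)).erase (S.m b)),
            σ (S.m p) = !σ p) = Q
      cases τ <;> cases σ (S.m a) <;> cases σ (S.m b) <;> simp
    have hph : (S.con χ a b).good σ → S.ph (σ1 (σ (S.m b))) =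
        -(2 * (χ * sg (σ (S.m b)))) + (S.con χ a b).ph σ := by
      intro hg
      unfold St.ph
      rw [sum_erase2 ha hb hab, sum_erase2 hiL hjL hij, hL, sum_erase2 hiL hjL hij, hinvi, hinvj,
        cm1, cm2, ct1, ct2, s1a, s1b, s1p _ _ hma hm, s1p _ _ hmba hmb]
      have h1 : σ (S.m b) = !σ (S.m a) := by
        have := hg _ hiL
        rwa [cm1] at this
      have h2 : ∑ p ∈ ((((S.L.erase a).erase b).erase (S.m a)).erase (S.m b)),
          S.θ p * sg (σ1 (σ (S.m b)) (S.m p)) =
          ∑ p ∈ ((((S.L.erase a).erase b).erase (S.m a)).erase (S.m b)),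
          (S.con χ a b).θ p * sg (σ ((S.con χ a b).m p)) := by
        refine Finset.sum_congr rfl fun p hp => ?_
        rw [(hrest _ p hp).1, cm3 p (other p hp).2.2.1 (other p hp).2.2.2.1,
          ct3 p (other p hp).2.2.1 (other p hp).2.2.2.1]
      have h1s : sg (σ (S.m a)) = -sg (σ (S.m b)) := by rw [h1, sg_not, neg_neg]
      rw [h2, sg_not, h1s]
      ring
    show ∑ τ : Bool, ei (χ * sg τ) * S.vec (σ1 τ) = _
    unfold St.vec
    simp only [hgood]
    by_cases hg : (S.con χ a b).good σ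
    · simp only [hg, and_true, St.fac, if_neg hm, one_mul, if_true]
      rw [Finset.sum_eq_single (σ (S.m b))]
      · rw [if_pos rfl, hph hg, ← ei_add]
        congr 1
        ring
      · intro τ _ hτ
        rw [if_neg hτ, mul_zero]
      · intro hτ
        exact absurd (Finset.mem_univ _) hτ
    · simp [hg]

/-- cutting the two ends of one strand is a glueing with phase `φ_a - φ_b` -/
lemma cut_cut_eq (φ φ' : ℝ) {a b : P} (ha : a ∈ S.L) (hab : a ≠ b) (hm : S.m a = b)
    (σ : P → Bool) : cut φ a (cut φ' b S.vec) σ = ctr (φ - φ') a b S.vec σ := by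
  simp only [cut, ctr, Finset.mul_sum]
  refine Finset.sum_congr rfl fun τ _ => ?_
  rw [Finset.sum_eq_single (!τ)]
  · rw [← mul_assoc, ← ei_add, sg_not]
    congr 2
    ring
  · intro τ' _ hτ
    have hng : ¬ S.good (Function.update (Function.update σ a τ) b τ') := by
      intro hg
      have := hg a ha
      rw [hm, Function.update_self, Function.update_of_ne hab, Function.update_self] at this
      exact hτ this
    simp [St.vec, hng]
  · intro hτ
    exact absurd (Finset.mem_univ _) hτ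

theorem cut_cut_vec (h : S.Ok) (φ φ' : ℝ) {a b : P} (ha : a ∈ S.L) (hb : b ∈ S.L) (hab : a ≠ b)
    (hm : S.m a = b) (σ : P → Bool) : cut φ a (cut φ' b S.vec) σ =
      2 * Real.cos (S.θ a + φ' - φ) * (S.con 0 a b).vec σ := by
  rw [cut_cut_eq φ φ' ha hab hm, ctr_vec h _ ha hb hab, St.fac, if_pos hm]
  have e : (S.con (φ - φ') a b).vec σ = (S.con 0 a b).vec σ := by
    have : S.con (φ - φ') a b = S.con 0 a b := by simp only [St.con, if_pos hm]
    rw [this]
  rw [e]
  congr 3
  ring_nf

/-- the empty state -/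
lemma vec_empty (h : S.L = ∅) (σ : P → Bool) : S.vec σ = 1 := by
  have hg : S.good σ := by intro p hp; rw [h] at hp; simp at hp
  have hp : S.ph σ = 0 := by unfold St.ph; rw [h]; simp
  rw [St.vec, if_pos hg, hp, zero_div, ei_zero]

/-- disjoint union of states -/
lemma vec_congr {S' : St P} (hL : S.L = S'.L) (hm : ∀ p ∈ S.L, S.m p = S'.m p)
    (hθ : ∀ p ∈ S.L, S.θ p = S'.θ p) (σ : P → Bool) : S.vec σ = S'.vec σ := by
  have hg : S.good σ ↔ S'.good σ := by
    unfold St.good
    rw [← hL]
    exact forall₂_congr fun p hp => by rw [hm p hp]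
  have hp : S.ph σ = S'.ph σ := by
    unfold St.ph
    rw [← hL]
    exact Finset.sum_congr rfl fun p hp => by rw [hm p hp, hθ p hp]
  unfold St.vec
  simp only [hg, hp]

/-- glue a list of pairs -/
def glueL (l : List (ℝ × P × P)) (F : (P → Bool) → ℂ) : (P → Bool) → ℂ :=
  l.foldl (fun F e => ctr e.1 e.2.1 e.2.2 F) F

@[simp] lemma glueL_nil (F : (P → Bool) → ℂ) : glueL [] F = F := rfl
@[simp] lemma glueL_cons (e : ℝ × P × P) (l : List (ℝ × P × P)) (F : (P → Bool) → ℂ) :
    glueL (e :: l) F = glueL l (ctr e.1 e.2.1 e.2.2 F) := rfl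

lemma glueL_smul (l : List (ℝ × P × P)) (k : ℂ) (F : (P → Bool) → ℂ) :
    glueL l (fun σ => k * F σ) = fun σ => k * glueL l F σ := by
  induction l generalizing F with
  | nil => rfl
  | cons e l ih => rw [glueL_cons, ctr_smul, ih, glueL_cons]

lemma glueL_sum {ι : Type*} (l : List (ℝ × P × P)) (s : Finset ι) (F : ι → (P → Bool) → ℂ) :
    glueL l (fun σ => ∑ i ∈ s, F i σ) = fun σ => ∑ i ∈ s, glueL l (F i) σ := by
  induction l generalizing F with
  | nil => rfl
  | cons e l ih => rw [glueL_cons, ctr_sum, ih]; rfl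

/-- result of glueing a list on a strand state -/
def conL (l : List (ℝ × P × P)) (S : St P) : St P :=
  l.foldl (fun S e => S.con e.1 e.2.1 e.2.2) S

@[simp] lemma conL_nil : S.conL [] = S := rfl
@[simp] lemma conL_cons (e : ℝ × P × P) (l : List (ℝ × P × P)) :
    S.conL (e :: l) = (S.con e.1 e.2.1 e.2.2).conL l := rfl

/-- product of the closed strands -/
def facL : List (ℝ × P × P) → St P → ℂ
  | [], _ => 1
  | e :: l, S => S.fac e.1 e.2.1 e.2.2 * facL l (S.con e.1 e.2.1 e.2.2)

/-- the pairs of `l` are disjoint pairs of live ends -/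
def Fit : List (ℝ × P × P) → Finset P → Prop
  | [], _ => True
  | e :: l, L => e.2.1 ∈ L ∧ e.2.2 ∈ L ∧ e.2.1 ≠ e.2.2 ∧ Fit l ((L.erase e.2.1).erase e.2.2)

theorem glueL_vec (l : List (ℝ × P × P)) (h : S.Ok) (hl : Fit l S.L) :
    (S.conL l).Ok ∧ ∀ σ, glueL l S.vec σ = S.facL l * (S.conL l).vec σ := by
  induction l generalizing S with
  | nil => exact ⟨h, fun σ => by simp [St.facL]⟩
  | cons e l ih =>
    obtain ⟨h1, h2, h3, h4⟩ := hl
    obtain ⟨k1, k2⟩ := ih (h.con e.1 h1 h2 h3) h4
    refine ⟨k1, fun σ => ?_⟩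
    rw [glueL_cons]
    have e1 : ctr e.1 e.2.1 e.2.2 S.vec = fun σ => S.fac e.1 e.2.1 e.2.2 *
        (S.con e.1 e.2.1 e.2.2).vec σ := funext fun σ => ctr_vec h e.1 h1 h2 h3 σ
    rw [e1, glueL_smul]
    show S.fac e.1 e.2.1 e.2.2 * glueL l (S.con e.1 e.2.1 e.2.2).vec σ = _
    rw [k2 σ, conL_cons, facL]
    ring

end St

end Crest.Agent.R158.Ad350
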