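import Mathlib
import Crest.Agent.R158.Ad1_350
import Crest.Agent.R158.Sw0_300

/-!
# Block AD, tiles, lists of glueings, gauge (helper350)

* `w6` : isotropic six-vertex tile tensor, `w6_wt` : it is R150's `wt (1/2) (1/2) (√3/2)`
* `spl` : tensor of a splitting, `w6_eq`
* `tilesF`, `ts`, `tiles_expand` : `∏ w6 = 2^{-|𝒯|} ∑_s (ts 𝒯 s).vec`
* `glueL_pairs` : glueing `m` pairs is one sum over `Fin m → Bool`
* `ctr_mul`, `cut_mul`, gauge lemmas
-/

set_option autoImplicit false
set_option linter.unusedSimpArgs false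
set_option linter.unusedSectionVars false

noncomputable section

open Finset
open Crest.Agent.R158.Sw300 (Port thru thru_thru thru_ne tn)

namespace Crest.Agent.R158.Ad350

open St

lemma ei_sum {ι : Type*} (s : Finset ι) (f : ι → ℝ) : ∏ i ∈ s, ei (f i) = ei (∑ i ∈ s, f i) := by
  classical
  induction s using Finset.induction_on with
  | empty => simp
  | insert a s ha ih => rw [Finset.prod_insert ha, Finset.sum_insert ha, ih, ei_add]

lemma ei_ne_zero (x : ℝ) : ei x ≠ 0 := Complex.exp_ne_zero _

lemma norm_ei (x : ℝ) : ‖ei x‖ = 1 := Complex.norm_exp_ofReal_mul_I x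

lemma star_ei (x : ℝ) : star (ei x) = ei (-x) := by
  simp only [ei, RCLike.star_def]
  rw [← Complex.exp_conj]
  simp

/-- isotropic six-vertex tile tensor; `o d = true` : the arrow points out through side `d` -/
def w6 (o : ZMod 4 → Bool) : ℂ :=
  if o 0 = o 2 then (if o 1 = o 3 ∧ o 0 ≠ o 1 then ((Real.sqrt 3 / 2 : ℝ) : ℂ) else 0)
  else (if o 1 = o 3 then 0 else 1 / 2)

/-- counterclockwise quarter turns of the passage `d → thru b d` -/
def tq (b : Bool) (d : ZMod 4) : ℝ := if thru b d = d + 1 then 1 else -1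

lemma tq_eq (b : Bool) (d : ZMod 4) : tq b d = -(tn b d : ℝ) := by
  unfold tq tn; split_ifs <;> simp

lemma tq_thru (b : Bool) (d : ZMod 4) : tq b (thru b d) = -tq b d := by
  rw [tq_eq, tq_eq, Sw300.tn_thru]; push_cast; ring

/-- tensor of a splitting -/
def spl (b : Bool) (o : ZMod 4 → Bool) : ℂ :=
  if ∀ d, o (thru b d) = !o d then ei (Real.pi / 12 * ((∑ d, tq b d * sg (o (thru b d))) / 2))
  else 0

lemma sum4 (f : ZMod 4 → ℝ) : ∑ d, f d = f 0 + f 1 + f 2 + f 3 := Fin.sum_univ_four f

lemma all4 (p : ZMod 4 → Prop) : (∀ d, p d) ↔ p 0 ∧ p 1 ∧ p 2 ∧ p 3 := by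
  constructor
  · intro h; exact ⟨h 0, h 1, h 2, h 3⟩
  · rintro ⟨h0, h1, h2, h3⟩ d
    fin_cases d
    · exact h0
    · exact h1
    · exact h2
    · exact h3

lemma spl_true (o : ZMod 4 → Bool) : spl true o =
    if o 1 = (!o 0) ∧ o 3 = !o 2 then ei (Real.pi / 12 * (sg (o 1) + sg (o 3))) else 0 := by
  have t0 : thru true 0 = 1 := by decide
  have t1 : thru true 1 = 0 := by decide
  have t2 : thru true 2 = 3 := by decide
  have t3 : thru true 3 = 2 := by decide
  have q0 : tq true 0 = 1 := if_pos (by decide)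
  have q1 : tq true 1 = -1 := if_neg (by decide)
  have q2 : tq true 2 = 1 := if_pos (by decide)
  have q3 : tq true 3 = -1 := if_neg (by decide)
  unfold spl
  have hiff : (∀ d, o (thru true d) = !o d) ↔ (o 1 = (!o 0) ∧ o 3 = !o 2) := by
    rw [all4, t0, t1, t2, t3]
    cases o 0 <;> cases o 1 <;> cases o 2 <;> cases o 3 <;> simp
  by_cases h : o 1 = (!o 0) ∧ o 3 = !o 2
  · rw [if_pos (hiff.2 h), if_pos h, sum4, t0, t1, t2, t3, q0, q1, q2, q3, h.1, h.2]
    congr 1
    simp only [sg_not]
    ring
  · rw [if_neg h, if_neg (fun k => h (hiff.1 k))]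

lemma spl_false (o : ZMod 4 → Bool) : spl false o =
    if o 3 = (!o 0) ∧ o 2 = !o 1 then ei (Real.pi / 12 * (sg (o 0) + sg (o 2))) else 0 := by
  have t0 : thru false 0 = 3 := by decide
  have t1 : thru false 1 = 2 := by decide
  have t2 : thru false 2 = 1 := by decide
  have t3 : thru false 3 = 0 := by decide
  have q0 : tq false 0 = -1 := if_neg (by decide)
  have q1 : tq false 1 = 1 := if_pos (by decide)
  have q2 : tq false 2 = -1 := if_neg (by decide)
  have q3 : tq false 3 = 1 := if_pos (by decide)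
  unfold spl
  have hiff : (∀ d, o (thru false d) = !o d) ↔ (o 3 = (!o 0) ∧ o 2 = !o 1) := by
    rw [all4, t0, t1, t2, t3]
    cases o 0 <;> cases o 1 <;> cases o 2 <;> cases o 3 <;> simp
  by_cases h : o 3 = (!o 0) ∧ o 2 = !o 1
  · rw [if_pos (hiff.2 h), if_pos h, sum4, t0, t1, t2, t3, q0, q1, q2, q3, h.1, h.2]
    congr 1
    simp only [sg_not]
    ring
  · rw [if_neg h, if_neg (fun k => h (hiff.1 k))]

lemma cos_pi6 : ei (Real.pi / 6) + ei (-(Real.pi / 6)) = (Real.sqrt 3 : ℝ) := by
  rw [ei_add_neg, Real.cos_pi_div_six]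
  push_cast
  ring

theorem w6_eq (o : ZMod 4 → Bool) : w6 o = 1 / 2 * spl true o + 1 / 2 * spl false o := by
  have hc := cos_pi6
  rw [spl_true, spl_false]
  unfold w6
  cases o 0 <;> cases o 1 <;> cases o 2 <;> cases o 3 <;>
    simp only [sg_true, sg_false, Bool.not_true, Bool.not_false, if_true, if_false, and_true,
      and_false, true_and, false_and, Bool.true_eq_false, Bool.false_eq_true, ne_eq,
      not_true_eq_false, not_false_eq_true, ite_self, add_neg_cancel, neg_add_cancel, mul_zero,
      ei_zero, mul_one, add_zero, zero_add]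
  · have e1 : Real.pi / 12 * (1 + 1) = Real.pi / 6 := by ring
    have e2 : Real.pi / 12 * (-1 + -1) = -(Real.pi / 6) := by ring
    rw [e1, e2, ← mul_add, hc]
    push_cast
    ring
  · have e1 : Real.pi / 12 * (1 + 1) = Real.pi / 6 := by ring
    have e2 : Real.pi / 12 * (-1 + -1) = -(Real.pi / 6) := by ring
    rw [e1, e2, ← mul_add, add_comm (ei (-(Real.pi / 6))), hc]
    push_cast
    ring

/-- ice rule -/
lemma w6_ice (o : ZMod 4 → Bool) (h : w6 o ≠ 0) :
    sg (o 0) + sg (o 1) + sg (o 2) + sg (o 3) = 0 := by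
  unfold w6 at h
  cases h0 : o 0 <;> cases h1 : o 1 <;> cases h2 : o 2 <;> cases h3 : o 3 <;>
    simp [h0, h1, h2, h3] at h ⊢

lemma w6_gauge (o : ZMod 4 → Bool) (g : ℝ) : w6 o * ei (g * ∑ d, sg (o d)) = w6 o := by
  by_cases h : w6 o = 0
  · rw [h, zero_mul]
  · rw [sum4, w6_ice o h, mul_zero, ei_zero, mul_one]

/-- arrow reversal -/
lemma w6_flip (o : ZMod 4 → Bool) : w6 (fun d => !o d) = w6 o := by
  unfold w6
  cases h0 : o 0 <;> cases h1 : o 1 <;> cases h2 : o 2 <;> cases h3 : o 3 <;>
    simp [h0, h1, h2, h3]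

variable {T : Type*} [DecidableEq T]

/-- product of the tile tensors -/
def tilesF (A : Finset T) (σ : Port T → Bool) : ℂ := ∏ t ∈ A, w6 fun d => σ (some (t, d))

/-- ports of a set of tiles -/
def ports (A : Finset T) : Finset (Port T) := (A ×ˢ (univ : Finset (ZMod 4))).map
  Function.Embedding.some

@[simp] lemma mem_ports {A : Finset T} {t : T} {d : ZMod 4} :
    (some (t, d) : Port T) ∈ ports A ↔ t ∈ A := by
  simp [ports]

@[simp] lemma none_ports {A : Finset T} : (none : Port T) ∉ ports A := by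
  simp [ports]

lemma mem_ports' {A : Finset T} {x : Port T} (h : x ∈ ports A) :
    ∃ t d, x = some (t, d) ∧ t ∈ A := by
  cases x with
  | none => exact absurd h none_ports
  | some y => exact ⟨y.1, y.2, rfl, mem_ports.1 h⟩

lemma sum_ports (A : Finset T) (f : Port T → ℝ) :
    ∑ x ∈ ports A, f x = ∑ t ∈ A, ∑ d, f (some (t, d)) := by
  unfold ports
  rw [Finset.sum_map, Finset.sum_product]
  rfl

/-- strand state of the tiles, splitting `s` -/
def ts (A : Finset T) (s : T → Bool) : St (Port T) where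
  L := ports A
  m := Option.map fun y => (y.1, thru (s y.1) y.2)
  θ := fun x => x.elim 0 fun y => Real.pi / 12 * tq (s y.1) y.2

lemma ts_ok (A : Finset T) (s : T → Bool) : (ts A s).Ok := by
  refine ⟨?_, ?_, ?_, ?_⟩ <;> intro x hx <;> obtain ⟨t, d, rfl, ht⟩ := mem_ports' hx
  · simpa [ts] using ht
  · simp [ts, thru_thru]
  · simp [ts, thru_ne]
  · simp [ts, tq_thru]

theorem ts_vec (A : Finset T) (s : T → Bool) (σ : Port T → Bool) :
    (ts A s).vec σ = ∏ t ∈ A, spl (s t) fun d => σ (some (t, d)) := by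
  by_cases hg : (ts A s).good σ
  · rw [St.vec, if_pos hg]
    have h1 : ∀ t ∈ A, spl (s t) (fun d => σ (some (t, d))) =
        ei (Real.pi / 12 * ((∑ d, tq (s t) d * sg (σ (some (t, thru (s t) d)))) / 2)) := by
      intro t ht
      rw [spl, if_pos]
      intro d
      exact hg (some (t, d)) (mem_ports.2 ht)
    rw [Finset.prod_congr rfl h1, ei_sum]
    congr 1
    rw [St.ph]
    show (∑ p ∈ ports A, _) / 2 = _
    rw [sum_ports, Finset.sum_div]
    refine Finset.sum_congr rfl fun t _ => ?_
    rw [Finset.sum_div, Finset.sum_div, Finset.mul_sum]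
    refine Finset.sum_congr rfl fun d _ => ?_
    simp only [ts, Option.map_some, Option.elim_some]
    ring
  · rw [St.vec, if_neg hg]
    unfold St.good at hg
    push Not at hg
    obtain ⟨x, hx, hx2⟩ := hg
    obtain ⟨t, d, rfl, ht⟩ := mem_ports' hx
    symm
    apply Finset.prod_eq_zero ht
    rw [spl, if_neg]
    intro h
    exact hx2 (h d)

/-- **the six-vertex tensor of a tile set as a sum over splittings** -/
theorem tiles_expand (A : Finset T) (σ : Port T → Bool) :
    tilesF A σ = (1 / 2) ^ A.card * ∑ B ∈ A.powerset, (ts A fun t => decide (t ∈ B)).vec σ := by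
  unfold tilesF
  have h1 : ∀ t ∈ A, w6 (fun d => σ (some (t, d))) =
      1 / 2 * (spl true (fun d => σ (some (t, d))) + spl false fun d => σ (some (t, d))) := by
    intro t _
    rw [w6_eq]; ring
  rw [Finset.prod_congr rfl h1, Finset.prod_mul_distrib, Finset.prod_const, Finset.prod_add]
  congr 1
  refine Finset.sum_congr rfl fun B hB => ?_
  rw [ts_vec, ← Finset.prod_sdiff (Finset.mem_powerset.1 hB), mul_comm]
  congr 1
  · refine Finset.prod_congr rfl fun t ht => ?_
    rw [decide_eq_false (Finset.mem_sdiff.1 ht).2]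
  · refine Finset.prod_congr rfl fun t ht => ?_
    rw [decide_eq_true ht]

/-! ### products of networks -/

section Prod

variable {P : Type*} [DecidableEq P]

/-- `F` does not see the ends in `S` -/
def Blind (F : (P → Bool) → ℂ) (p : P) : Prop :=
  ∀ (σ : P → Bool) (τ : Bool), F (Function.update σ p τ) = F σ

lemma ctr_mul (χ : ℝ) {a b : P} (F : (P → Bool) → ℂ) {G : (P → Bool) → ℂ} (ha : Blind G a)
    (hb : Blind G b) (σ : P → Bool) : ctr χ a b (fun σ => F σ * G σ) σ = ctr χ a b F σ * G σ := by
  simp only [ctr, Finset.sum_mul]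
  refine Finset.sum_congr rfl fun τ _ => ?_
  rw [hb, ha]
  ring

lemma cut_mul (φ : ℝ) {p : P} (F : (P → Bool) → ℂ) {G : (P → Bool) → ℂ} (hp : Blind G p)
    (σ : P → Bool) : cut φ p (fun σ => F σ * G σ) σ = cut φ p F σ * G σ := by
  simp only [cut, Finset.sum_mul]
  refine Finset.sum_congr rfl fun τ _ => ?_
  rw [hp]
  ring

lemma glueL_mul (l : List (ℝ × P × P)) (F : (P → Bool) → ℂ) {G : (P → Bool) → ℂ}
    (h : ∀ e ∈ l, Blind G e.2.1 ∧ Blind G e.2.2) (σ : P → Bool) :
    glueL l (fun σ => F σ * G σ) σ = glueL l F σ * G σ := by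
  induction l generalizing F with
  | nil => rfl
  | cons e l ih =>
    rw [glueL_cons, glueL_cons]
    have h1 := h e (by simp)
    have e1 : ctr e.1 e.2.1 e.2.2 (fun σ => F σ * G σ) = fun σ => ctr e.1 e.2.1 e.2.2 F σ * G σ :=
      funext fun σ => ctr_mul e.1 F h1.1 h1.2 σ
    rw [e1]
    exact ih _ fun e' he' => h e' (by simp [he'])

lemma Blind.ctr {F : (P → Bool) → ℂ} {p : P} (h : Blind F p) (χ : ℝ) (a b : P) :
    Blind (ctr χ a b F) p := by
  intro σ τ
  simp only [Ad350.ctr]
  refine Finset.sum_congr rfl fun τ' _ => ?_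
  congr 1
  by_cases hb : b = p
  · subst hb
    by_cases ha : a = b
    · subst ha; simp
    · rw [Function.update_comm ha, Function.update_idem]
      congr 1
      rw [Function.update_comm ha]
  · by_cases ha : a = p
    · subst ha; simp
    · rw [upd3 σ τ' (!τ') τ ha hb, h]

lemma Blind.cut {F : (P → Bool) → ℂ} {p : P} (h : Blind F p) (φ : ℝ) (a : P) :
    Blind (cut φ a F) p := by
  intro σ τ
  simp only [Ad350.cut]
  refine Finset.sum_congr rfl fun τ' _ => ?_
  congr 1
  by_cases ha : a = p
  · subst ha; simp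
  · rw [Function.update_comm (Ne.symm ha), h]

lemma Blind.glueL {F : (P → Bool) → ℂ} {p : P} (h : Blind F p) (l : List (ℝ × P × P)) :
    Blind (glueL l F) p := by
  induction l generalizing F with
  | nil => exact h
  | cons e l ih => rw [glueL_cons]; exact ih (h.ctr _ _ _)

lemma blind_ctr_left (χ : ℝ) (a b : P) (F : (P → Bool) → ℂ) : Blind (ctr χ a b F) a := by
  intro σ τ
  simp only [Ad350.ctr, Function.update_idem]

lemma blind_ctr_right (χ : ℝ) (a b : P) (F : (P → Bool) → ℂ) : Blind (ctr χ a b F) b := by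
  intro σ τ
  simp only [Ad350.ctr]
  refine Finset.sum_congr rfl fun τ' _ => ?_
  congr 2
  by_cases hab : a = b
  · subst hab; simp
  · rw [Function.update_comm (Ne.symm hab), Function.update_idem]

lemma blind_cut (φ : ℝ) (a : P) (F : (P → Bool) → ℂ) : Blind (cut φ a F) a := by
  intro σ τ
  simp only [Ad350.cut, Function.update_idem]

lemma blind_tiles {T : Type*} [DecidableEq T] {A : Finset T} {x : Port T} (h : x ∉ ports A) :
    Blind (tilesF A) x := by
  intro σ τ
  unfold tilesF
  refine Finset.prod_congr rfl fun t ht => ?_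
  congr 1
  funext d
  rw [Function.update_of_ne]
  rintro rfl
  exact h (mem_ports.2 ht)

lemma tilesF_union {T : Type*} [DecidableEq T] {A B : Finset T} (h : Disjoint A B)
    (σ : Port T → Bool) : tilesF (A ∪ B) σ = tilesF A σ * tilesF B σ :=
  Finset.prod_union h

/-! ### `m` pairs at once -/

/-- **glueing `m` disjoint pairs is one sum over `Fin m → Bool`** -/
theorem glueL_pairs {n : ℕ} (χ : Fin n → ℝ) (a b : Fin n → P) (ha : Function.Injective a)
    (hb : Function.Injective b) (hab : ∀ i j, a i ≠ b j) (F : (P → Bool) → ℂ) (σ : P → Bool)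
    (σ' : (Fin n → Bool) → P → Bool) (h1 : ∀ s i, σ' s (a i) = s i)
    (h2 : ∀ s i, σ' s (b i) = !s i) (h3 : ∀ s p, (∀ i, p ≠ a i) → (∀ i, p ≠ b i) → σ' s p = σ p) :
    glueL (List.ofFn fun i => (χ i, a i, b i)) F σ =
      ∑ s : Fin n → Bool, (∏ i, ei (χ i * sg (s i))) * F (σ' s) := by
  induction n generalizing F with
  | zero =>
    rw [List.ofFn_zero, glueL_nil, Fintype.sum_unique]
    simp only [Finset.univ_eq_empty, Finset.prod_empty, one_mul]
    congr 1
    funext p
    exact (h3 _ p (fun i => i.elim0) fun i => i.elim0).symm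
  | succ n ih =>
    rw [List.ofFn_succ, glueL_cons]
    -- the configuration seen after the first glueing
    set σ2 : (Fin n → Bool) → P → Bool := fun s =>
      Function.update (Function.update (σ' (Fin.cons true s)) (a 0) (σ (a 0))) (b 0) (σ (b 0))
      with hσ2
    have a0 : ∀ i : Fin n, a i.succ ≠ a 0 := fun i h => (Fin.succ_ne_zero i) (ha h)
    have b0 : ∀ i : Fin n, b i.succ ≠ b 0 := fun i h => (Fin.succ_ne_zero i) (hb h)
    have key := ih (fun i => χ i.succ) (fun i => a i.succ) (fun i => b i.succ)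
      (fun i j h => Fin.succ_injective _ (ha h)) (fun i j h => Fin.succ_injective _ (hb h))
      (fun i j => hab _ _) (ctr (χ 0) (a 0) (b 0) F) σ2 ?_ ?_ ?_
    · rw [key]
      have e1 : ∀ s : Fin n → Bool, ctr (χ 0) (a 0) (b 0) F (σ2 s) =
          ∑ τ : Bool, ei (χ 0 * sg τ) * F (σ' (Fin.cons τ s)) := by
        intro s
        simp only [Ad350.ctr]
        refine Finset.sum_congr rfl fun τ _ => ?_
        congr 2
        funext p
        by_cases hpb : p = b 0
        · subst hpb
          rw [Function.update_self, h2, Fin.cons_zero]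
        · rw [Function.update_of_ne hpb]
          by_cases hpa : p = a 0
          · subst hpa
            rw [Function.update_self, h1, Fin.cons_zero]
          · rw [Function.update_of_ne hpa, hσ2]
            simp only
            rw [Function.update_of_ne hpb, Function.update_of_ne hpa]
            by_cases hpa' : ∃ i : Fin n, p = a i.succ
            · obtain ⟨i, rfl⟩ := hpa'
              rw [h1, h1, Fin.cons_succ, Fin.cons_succ]
            · by_cases hpb' : ∃ i : Fin n, p = b i.succ
              · obtain ⟨i, rfl⟩ := hpb'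
                rw [h2, h2, Fin.cons_succ, Fin.cons_succ]
              · push Not at hpa' hpb'
                have ka : ∀ i, p ≠ a i := fun i => by
                  refine Fin.cases hpa (fun j => hpa' j) i
                have kb : ∀ i, p ≠ b i := fun i => by
                  refine Fin.cases hpb (fun j => hpb' j) i
                rw [h3 _ p ka kb, h3 _ p ka kb]
      simp only [e1, Finset.mul_sum]
      rw [← (Fin.consEquiv fun _ : Fin (n + 1) => Bool).sum_comp, Fintype.sum_prod_type,
        Finset.sum_comm]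
      refine Finset.sum_congr rfl fun s _ => Finset.sum_congr rfl fun τ _ => ?_
      rw [Fin.prod_univ_succ]
      simp only [Fin.consEquiv, Equiv.coe_fn_mk, Fin.cons_zero, Fin.cons_succ]
      ring
    · intro s i
      simp only [hσ2]
      rw [Function.update_of_ne (hab _ _), Function.update_of_ne (a0 i), h1, Fin.cons_succ]
    · intro s i
      simp only [hσ2]
      rw [Function.update_of_ne (b0 i), Function.update_of_ne (hab _ _).symm, h2, Fin.cons_succ]
    · intro s p hpa hpb
      simp only [hσ2]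
      by_cases hpb0 : p = b 0
      · subst hpb0; rw [Function.update_self]
      · rw [Function.update_of_ne hpb0]
        by_cases hpa0 : p = a 0
        · subst hpa0; rw [Function.update_self]
        · rw [Function.update_of_ne hpa0]
          exact h3 _ p (fun i => Fin.cases hpa0 (fun j => hpa j) i)
            (fun i => Fin.cases hpb0 (fun j => hpb j) i)

/-! ### gauge -/

/-- gauge factor -/
def Gd (g : P → ℝ) (L : Finset P) (σ : P → Bool) : ℂ := ei (∑ p ∈ L, g p * sg (σ p))

lemma Gd_update {g : P → ℝ} {L : Finset P} {a : P} (ha : a ∈ L) (σ : P → Bool) (τ : Bool) :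
    Gd g L (Function.update σ a τ) = ei (g a * sg τ) * Gd g (L.erase a) σ := by
  unfold Gd
  rw [← ei_add, ← Finset.add_sum_erase L _ ha, Function.update_self]
  congr 2
  refine Finset.sum_congr rfl fun p hp => ?_
  rw [Function.update_of_ne (Finset.ne_of_mem_erase hp)]

lemma ctr_gauge (χ : ℝ) (g : P → ℝ) {L : Finset P} {a b : P} (ha : a ∈ L) (hb : b ∈ L)
    (hab : a ≠ b) (F : (P → Bool) → ℂ) (σ : P → Bool) :
    ctr χ a b (fun σ => F σ * Gd g L σ) σ =
      ctr (χ + g a - g b) a b F σ * Gd g ((L.erase a).erase b) σ := by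
  simp only [Ad350.ctr, Finset.sum_mul]
  refine Finset.sum_congr rfl fun τ _ => ?_
  rw [Gd_update hb, Finset.erase_right_comm]
  rw [Gd_update (L := L.erase b) (Finset.mem_erase.2 ⟨hab, ha⟩)]
  have : ei ((χ + g a - g b) * sg τ) = ei (χ * sg τ) * (ei (g b * sg (!τ)) * ei (g a * sg τ)) := by
    rw [← ei_add, ← ei_add, sg_not]
    congr 1
    ring
  rw [this]
  ring

lemma cut_gauge (φ : ℝ) (g : P → ℝ) {L : Finset P} {p : P} (hp : p ∈ L) (F : (P → Bool) → ℂ)
    (σ : P → Bool) : cut φ p (fun σ => F σ * Gd g L σ) σ =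
      cut (φ + g p) p F σ * Gd g (L.erase p) σ := by
  simp only [Ad350.cut, Finset.sum_mul]
  refine Finset.sum_congr rfl fun τ _ => ?_
  rw [Gd_update hp]
  have : ei ((φ + g p) * sg τ) = ei (φ * sg τ) * ei (g p * sg τ) := by
    rw [← ei_add]
    congr 1
    ring
  rw [this]
  ring

/-- **gauge invariance of the tiles** (ice rule) -/
lemma tiles_gauge {T : Type*} [DecidableEq T] (A : Finset T) (g : Port T → ℝ)
    (hg : ∀ t d d', g (some (t, d)) = g (some (t, d'))) (σ : Port T → Bool) :
    tilesF A σ * Gd g (ports A) σ = tilesF A σ := by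
  unfold Gd tilesF
  rw [sum_ports, ← ei_sum, ← Finset.prod_mul_distrib]
  refine Finset.prod_congr rfl fun t _ => ?_
  have : ∑ d, g (some (t, d)) * sg (σ (some (t, d))) =
      g (some (t, 0)) * ∑ d, sg (σ (some (t, d))) := by
    rw [Finset.mul_sum]
    exact Finset.sum_congr rfl fun d _ => by rw [hg t d 0]
  rw [this, w6_gauge]

end Prod

end Crest.Agent.R158.Ad350
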