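import Mathlib
import Crest.Agent.R158.Ad2_350
import Crest.Agent.R158.Ad3_350

/-!
# Block AD, contraction = sum of closed networks (helper350)

* `ov` : overwrite the arrows on `D`
* `Rep be ch Φ D` : the operation `Φ` sums over the arrows on `D`, opposite at glued ports
* `Rep.comp`, `rep_ctr`, `rep_cut`, `rep_glueL` : every composition of glueings and cuts
* `tnet`, `Rep.tiles` : `Φ (tilesF A) σ = (1/2)^|A| ∑_S (tnet A (· ∈ S) be ch).z (ports A)`
* `Wa.wl_eq` : phase of a walk = `φ_y - φ_x + π/12 ∑ tq + ∑ seams`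
-/

set_option autoImplicit false
set_option linter.unusedSectionVars false

noncomputable section

open Finset
open Crest.Agent.R158.Sw300 (Port thru thru_thru thru_ne tn)

namespace Crest.Agent.R158.Ad350

open St

section Rep

variable {P : Type*} [DecidableEq P]

/-- overwrite the arrows on `D` : outgoing exactly at the ports of `B` -/
def ov (D B : Finset P) (σ : P → Bool) : P → Bool := fun p => if p ∈ D then decide (p ∈ B) else σ p

/-- opposite arrows at glued ports -/
def gb (be : P → P) (D B : Finset P) : Prop := ∀ p ∈ D, be p ≠ p → (be p ∈ B ↔ p ∉ B)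

instance (be : P → P) (D B : Finset P) : Decidable (gb be D B) := by unfold gb; infer_instance

/-- phase -/
def pb (ch : P → ℝ) (D B : Finset P) : ℝ := ∑ p ∈ D, ch p * sg (decide (p ∈ B))

/-- `Φ` = sum over the arrows on `D` -/
def Rep (be : P → P) (ch : P → ℝ) (Φ : ((P → Bool) → ℂ) → (P → Bool) → ℂ) (D : Finset P) : Prop :=
  (∀ p ∈ D, be p ∈ D) ∧ ∀ F σ, Φ F σ = ∑ B ∈ D.powerset with gb be D B,
    ei (pb ch D B) * F (ov D B σ)

lemma sum_pow_union {C D : Finset P} (hCD : Disjoint C D) (P1 P2 Q : Finset P → Prop)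
    [DecidablePred P1] [DecidablePred P2] [DecidablePred Q] (f : Finset P → ℂ)
    (h : ∀ B1 ⊆ C, ∀ B2 ⊆ D, (Q (B1 ∪ B2) ↔ P1 B1 ∧ P2 B2)) :
    ∑ B ∈ (C ∪ D).powerset with Q B, f B =
      ∑ B1 ∈ C.powerset with P1 B1, ∑ B2 ∈ D.powerset with P2 B2, f (B1 ∪ B2) := by
  rw [← Finset.sum_product']
  symm
  have hsub : ∀ {B1 B2 : Finset P}, B1 ⊆ C → B2 ⊆ D →
      (B1 ∪ B2) ∩ C = B1 ∧ (B1 ∪ B2) ∩ D = B2 := by
    intro B1 B2 h1 h2
    constructor
    · ext p
      simp only [Finset.mem_inter, Finset.mem_union]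
      constructor
      · rintro ⟨h | h, k⟩
        · exact h
        · exact absurd (h2 h) (Finset.disjoint_left.1 hCD k)
      · intro h; exact ⟨Or.inl h, h1 h⟩
    · ext p
      simp only [Finset.mem_inter, Finset.mem_union]
      constructor
      · rintro ⟨h | h, k⟩
        · exact absurd k (Finset.disjoint_left.1 hCD (h1 h))
        · exact h
      · intro h; exact ⟨Or.inr h, h2 h⟩
  have hsup : ∀ {B : Finset P}, B ⊆ C ∪ D → (B ∩ C) ∪ (B ∩ D) = B := by
    intro B hB
    rw [← Finset.inter_union_distrib_left]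
    exact Finset.inter_eq_left.2 hB
  refine Finset.sum_bij' (fun x _ => x.1 ∪ x.2) (fun B _ => (B ∩ C, B ∩ D)) ?_ ?_ ?_ ?_ ?_
  · rintro ⟨B1, B2⟩ k
    simp only [Finset.mem_product, Finset.mem_filter, Finset.mem_powerset] at k ⊢
    exact ⟨Finset.union_subset_union k.1.1 k.2.1, (h B1 k.1.1 B2 k.2.1).2 ⟨k.1.2, k.2.2⟩⟩
  · intro B k
    simp only [Finset.mem_product, Finset.mem_filter, Finset.mem_powerset] at k ⊢
    have k2 := k.2
    rw [← hsup k.1, h _ Finset.inter_subset_right _ Finset.inter_subset_right] at k2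
    exact ⟨⟨Finset.inter_subset_right, k2.1⟩, Finset.inter_subset_right, k2.2⟩
  · rintro ⟨B1, B2⟩ k
    simp only [Finset.mem_product, Finset.mem_filter, Finset.mem_powerset] at k
    obtain ⟨e1, e2⟩ := hsub k.1.1 k.2.1
    simp only [e1, e2]
  · intro B k
    simp only [Finset.mem_filter, Finset.mem_powerset] at k
    exact hsup k.1
  · intro x _
    rfl

lemma mem_union_left_iff {C D B1 B2 : Finset P} (hCD : Disjoint C D) (h2 : B2 ⊆ D) {p : P}
    (hp : p ∈ C) : p ∈ B1 ∪ B2 ↔ p ∈ B1 := by
  rw [Finset.mem_union]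
  exact ⟨fun h => h.resolve_right fun k => Finset.disjoint_left.1 hCD hp (h2 k), Or.inl⟩

lemma mem_union_right_iff {C D B1 B2 : Finset P} (hCD : Disjoint C D) (h1 : B1 ⊆ C) {p : P}
    (hp : p ∈ D) : p ∈ B1 ∪ B2 ↔ p ∈ B2 := by
  rw [Finset.mem_union]
  exact ⟨fun h => h.resolve_left fun k => Finset.disjoint_left.1 hCD (h1 k) hp, Or.inr⟩

lemma gb_union {be : P → P} {C D B1 B2 : Finset P} (hC : ∀ p ∈ C, be p ∈ C)
    (hD : ∀ p ∈ D, be p ∈ D) (hCD : Disjoint C D) (h1 : B1 ⊆ C) (h2 : B2 ⊆ D) :
    gb be (C ∪ D) (B1 ∪ B2) ↔ gb be C B1 ∧ gb be D B2 := by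
  unfold gb
  constructor
  · intro h
    refine ⟨fun p hp => ?_, fun p hp => ?_⟩
    · have := h p (Finset.mem_union_left _ hp)
      rwa [mem_union_left_iff hCD h2 (hC p hp), mem_union_left_iff hCD h2 hp] at this
    · have := h p (Finset.mem_union_right _ hp)
      rwa [mem_union_right_iff hCD h1 (hD p hp), mem_union_right_iff hCD h1 hp] at this
  · rintro ⟨k1, k2⟩ p hp
    rcases Finset.mem_union.1 hp with hp | hp
    · rw [mem_union_left_iff hCD h2 (hC p hp), mem_union_left_iff hCD h2 hp]; exact k1 p hp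
    · rw [mem_union_right_iff hCD h1 (hD p hp), mem_union_right_iff hCD h1 hp]; exact k2 p hp

lemma pb_union {ch : P → ℝ} {C D B1 B2 : Finset P} (hCD : Disjoint C D) (h1 : B1 ⊆ C)
    (h2 : B2 ⊆ D) : pb ch (C ∪ D) (B1 ∪ B2) = pb ch C B1 + pb ch D B2 := by
  unfold pb
  rw [Finset.sum_union hCD]
  congr 1
  · refine Finset.sum_congr rfl fun p hp => ?_
    rw [decide_eq_decide.2 (mem_union_left_iff hCD h2 hp)]
  · refine Finset.sum_congr rfl fun p hp => ?_
    rw [decide_eq_decide.2 (mem_union_right_iff hCD h1 hp)]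

lemma ov_union {C D B1 B2 : Finset P} (hCD : Disjoint C D) (h1 : B1 ⊆ C) (h2 : B2 ⊆ D)
    (σ : P → Bool) : ov (C ∪ D) (B1 ∪ B2) σ = ov D B2 (ov C B1 σ) := by
  funext p
  unfold ov
  by_cases hD : p ∈ D
  · rw [if_pos (Finset.mem_union_right _ hD), if_pos hD,
      decide_eq_decide.2 (mem_union_right_iff hCD h1 hD)]
  · by_cases hC : p ∈ C
    · rw [if_pos (Finset.mem_union_left _ hC), if_neg hD, if_pos hC,
        decide_eq_decide.2 (mem_union_left_iff hCD h2 hC)]
    · rw [if_neg hD, if_neg hC, if_neg]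
      rw [Finset.mem_union]
      rintro (h | h)
      · exact hC h
      · exact hD h

variable {be : P → P} {ch : P → ℝ}

/-- composition of two operations on disjoint ports -/
theorem Rep.comp {Φ Ψ : ((P → Bool) → ℂ) → (P → Bool) → ℂ} {C D : Finset P}
    (hΦ : Rep be ch Φ C) (hΨ : Rep be ch Ψ D) (hCD : Disjoint C D) :
    Rep be ch (fun F => Φ (Ψ F)) (C ∪ D) := by
  refine ⟨fun p hp => ?_, fun F σ => ?_⟩
  · rcases Finset.mem_union.1 hp with h | h
    · exact Finset.mem_union_left _ (hΦ.1 p h)
    · exact Finset.mem_union_right _ (hΨ.1 p h)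
  · show Φ (Ψ F) σ = _
    rw [hΦ.2, sum_pow_union hCD (gb be C) (gb be D) (gb be (C ∪ D)) _
      (fun B1 h1 B2 h2 => gb_union hΦ.1 hΨ.1 hCD h1 h2)]
    refine Finset.sum_congr rfl fun B1 h1 => ?_
    rw [hΨ.2, Finset.mul_sum]
    refine Finset.sum_congr rfl fun B2 h2 => ?_
    have h1' := Finset.mem_powerset.1 (Finset.mem_filter.1 h1).1
    have h2' := Finset.mem_powerset.1 (Finset.mem_filter.1 h2).1
    rw [pb_union hCD h1' h2', ei_add, ov_union hCD h1' h2']
    ring

lemma rep_id : Rep be ch (fun F => F) ∅ := by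
  refine ⟨fun p hp => absurd hp (Finset.notMem_empty p), fun F σ => ?_⟩
  have : (∅ : Finset P).powerset.filter (fun B => gb be ∅ B) = {∅} := by
    ext B
    simp only [Finset.powerset_empty, Finset.mem_filter, Finset.mem_singleton]
    constructor
    · exact fun h => h.1
    · intro h; exact ⟨h, fun p hp => absurd hp (Finset.notMem_empty p)⟩
  rw [this, Finset.sum_singleton]
  have e1 : pb ch ∅ ∅ = 0 := by simp [pb]
  have e2 : ov ∅ ∅ σ = σ := by funext p; simp [ov]
  rw [e1, ei_zero, one_mul, e2]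

lemma rep_cut {φ : ℝ} {p : P} (hb : be p = p) (hc : ch p = φ) : Rep be ch (cut φ p) {p} := by
  refine ⟨fun q hq => by rw [Finset.mem_singleton.1 hq, hb]; exact Finset.mem_singleton_self p,
    fun F σ => ?_⟩
  have e0 : ({p} : Finset P).powerset.filter (fun B => gb be {p} B) = {∅, {p}} := by
    ext B
    simp only [Finset.mem_filter, Finset.mem_powerset, Finset.mem_insert, Finset.mem_singleton,
      Finset.subset_singleton_iff]
    refine ⟨fun h => h.1, fun h => ⟨h, fun q hq hne => ?_⟩⟩
    rw [Finset.mem_singleton.1 hq] at hne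
    exact absurd hb hne
  rw [e0, Finset.sum_pair (Finset.singleton_nonempty p).ne_empty.symm]
  have e1 : pb ch {p} ∅ = φ * sg false := by simp [pb, hc]
  have e2 : pb ch {p} {p} = φ * sg true := by simp [pb, hc]
  have e3 : ov {p} ∅ σ = Function.update σ p false := by
    funext q
    by_cases hq : q = p
    · subst hq; simp [ov]
    · simp [ov, hq]
  have e4 : ov {p} {p} σ = Function.update σ p true := by
    funext q
    by_cases hq : q = p
    · subst hq; simp [ov]
    · simp [ov, hq]
  rw [e1, e2, e3, e4]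
  simp only [cut, Fintype.sum_bool]
  ring

lemma rep_ctr {χ : ℝ} {a b : P} (hab : a ≠ b) (ha : be a = b) (hb : be b = a)
    (hc : ch a - ch b = χ) : Rep be ch (ctr χ a b) {a, b} := by
  refine ⟨fun q hq => ?_, fun F σ => ?_⟩
  · rcases Finset.mem_insert.1 hq with h | h
    · rw [h, ha]; simp
    · rw [Finset.mem_singleton.1 h, hb]; simp
  have e0 : ({a, b} : Finset P).powerset.filter (fun B => gb be {a, b} B) = {{b}, {a}} := by
    ext B
    simp only [Finset.mem_filter, Finset.mem_powerset, Finset.mem_insert, Finset.mem_singleton]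
    constructor
    · rintro ⟨hs, hg⟩
      have h1 := hg a (by simp) (by rw [ha]; exact hab.symm)
      rw [ha] at h1
      by_cases haB : a ∈ B
      · right
        have hbB : b ∉ B := fun k => (h1.1 k) haB
        ext q
        rw [Finset.mem_singleton]
        refine ⟨fun hq => ?_, fun hq => by rw [hq]; exact haB⟩
        rcases Finset.mem_insert.1 (hs hq) with k | k
        · exact k
        · rw [Finset.mem_singleton.1 k] at hq; exact absurd hq hbB
      · left
        have hbB : b ∈ B := h1.2 haB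
        ext q
        rw [Finset.mem_singleton]
        refine ⟨fun hq => ?_, fun hq => by rw [hq]; exact hbB⟩
        rcases Finset.mem_insert.1 (hs hq) with k | k
        · rw [k] at hq; exact absurd hq haB
        · exact Finset.mem_singleton.1 k
    · rintro (rfl | rfl)
      · refine ⟨by simp, fun q hq _ => ?_⟩
        rcases Finset.mem_insert.1 hq with k | k
        · rw [k, ha]; simp [hab]
        · rw [Finset.mem_singleton.1 k, hb]; simp [hab]
      · refine ⟨by simp, fun q hq _ => ?_⟩
        rcases Finset.mem_insert.1 hq with k | k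
        · rw [k, ha]; simp [hab.symm]
        · rw [Finset.mem_singleton.1 k, hb]; simp [hab.symm]
  have hne : ({b} : Finset P) ≠ {a} := fun h => hab (Finset.singleton_inj.1 h).symm
  rw [e0, Finset.sum_pair hne]
  have e1 : pb ch {a, b} {b} = χ * sg false := by
    rw [pb, Finset.sum_pair hab]
    simp [hab, ← hc]
    ring
  have e2 : pb ch {a, b} {a} = χ * sg true := by
    rw [pb, Finset.sum_pair hab]
    simp [hab.symm, ← hc]
    ring
  have e3 : ov {a, b} {b} σ = Function.update (Function.update σ a false) b (!false) := by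
    funext q
    by_cases hqb : q = b
    · subst hqb; simp [ov]
    · by_cases hqa : q = a
      · subst hqa; simp [ov, hqb]
      · simp [ov, hqb, hqa]
  have e4 : ov {a, b} {a} σ = Function.update (Function.update σ a true) b (!true) := by
    funext q
    by_cases hqb : q = b
    · subst hqb; simp [ov, hab.symm]
    · by_cases hqa : q = a
      · subst hqa; simp [ov, hqb]
      · simp [ov, hqb, hqa]
  rw [e1, e2, e3, e4]
  simp only [ctr, Fintype.sum_bool]
  ring

/-- ports of a list of glueings -/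
def gports : List (ℝ × P × P) → Finset P
  | [] => ∅
  | e :: l => {e.2.1, e.2.2} ∪ gports l

/-- ports of a list of cuts -/
def cports : List (ℝ × P) → Finset P
  | [] => ∅
  | e :: c => {e.2} ∪ cports c

/-- `be`, `ch` describe the list of glueings -/
def GOk (be : P → P) (ch : P → ℝ) : List (ℝ × P × P) → Prop
  | [] => True
  | e :: l => e.2.1 ≠ e.2.2 ∧ be e.2.1 = e.2.2 ∧ be e.2.2 = e.2.1 ∧ ch e.2.1 - ch e.2.2 = e.1 ∧
      e.2.1 ∉ gports l ∧ e.2.2 ∉ gports l ∧ GOk be ch l

/-- `be`, `ch` describe the list of cuts -/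
def COk (be : P → P) (ch : P → ℝ) : List (ℝ × P) → Prop
  | [] => True
  | e :: c => be e.2 = e.2 ∧ ch e.2 = e.1 ∧ e.2 ∉ cports c ∧ COk be ch c

lemma mem_gports {l : List (ℝ × P × P)} {p : P} :
    p ∈ gports l ↔ ∃ e ∈ l, p = e.2.1 ∨ p = e.2.2 := by
  induction l with
  | nil => simp [gports]
  | cons e l ih => simp [gports, ih, or_assoc]

lemma mem_cports {c : List (ℝ × P)} {p : P} : p ∈ cports c ↔ ∃ e ∈ c, p = e.2 := by
  induction c with
  | nil => simp [cports]
  | cons e c ih => simp [cports, ih]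

theorem rep_glueL {l : List (ℝ × P × P)} (h : GOk be ch l) : Rep be ch (glueL l) (gports l) := by
  induction l with
  | nil => exact rep_id
  | cons e l ih =>
    obtain ⟨h1, h2, h3, h4, h5, h6, h7⟩ := h
    have k := (ih h7).comp (rep_ctr h1 h2 h3 h4) (by
      rw [Finset.disjoint_right]
      intro q hq
      rcases Finset.mem_insert.1 hq with rfl | hq
      · exact h5
      · rw [Finset.mem_singleton.1 hq]; exact h6)
    rw [Finset.union_comm] at k
    exact k

/-- a list of cuts -/
theorem rep_cutL {c : List (ℝ × P)} (h : COk be ch c) :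
    Rep be ch (fun F => c.foldl (fun F e => cut e.1 e.2 F) F) (cports c) := by
  induction c with
  | nil => exact rep_id
  | cons e c ih =>
    obtain ⟨h1, h2, h3, h4⟩ := h
    have k := (ih h4).comp (rep_cut h1 h2) (by
      rw [Finset.disjoint_right]
      intro q hq
      rw [Finset.mem_singleton.1 hq]; exact h3)
    rw [Finset.union_comm] at k
    exact k

end Rep

section tiles

variable {T : Type*} [DecidableEq T]

/-- closed network of a tile set with splitting `s`, glueing `be`, phases `ch` -/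
def tnet (A : Finset T) (s : T → Bool) (be : Port T → Port T) (ch : Port T → ℝ) :
    Net (Port T) where
  V := ports A
  al := (ts A s).m
  be := be
  om := fun p => ch p - (ts A s).θ p / 2

lemma tnet_ok {A : Finset T} {s : T → Bool} {be : Port T → Port T} {ch : Port T → ℝ}
    (hb : ∀ p ∈ ports A, be p ∈ ports A) (hb2 : ∀ p ∈ ports A, be (be p) = p) :
    (tnet A s be ch).Ok :=
  ⟨(ts_ok A s).mem, (ts_ok A s).inv, (ts_ok A s).ne, hb, hb2⟩

/-- **contraction = sum of closed networks** -/
theorem Rep.tiles {be : Port T → Port T} {ch : Port T → ℝ}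
    {Φ : ((Port T → Bool) → ℂ) → (Port T → Bool) → ℂ} {A : Finset T}
    (h : Rep be ch Φ (ports A)) (σ : Port T → Bool) : Φ (tilesF A) σ =
      (1 / 2) ^ A.card * ∑ S ∈ A.powerset, (tnet A (fun t => decide (t ∈ S)) be ch).z (ports A) := by
  rw [h.2, Finset.mul_sum]
  have e1 : ∀ B, ei (pb ch (ports A) B) * tilesF A (ov (ports A) B σ) =
      ∑ S ∈ A.powerset, (1 / 2) ^ A.card * (ei (pb ch (ports A) B) *
        (ts A fun t => decide (t ∈ S)).vec (ov (ports A) B σ)) := by
    intro B
    rw [tiles_expand, ← Finset.mul_sum, ← Finset.mul_sum]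
    ring
  rw [Finset.sum_congr rfl fun B _ => e1 B, Finset.sum_comm]
  refine Finset.sum_congr rfl fun S _ => ?_
  rw [← Finset.mul_sum]
  congr 1
  set s : T → Bool := fun t => decide (t ∈ S) with hs
  have hV : ∀ p ∈ ports A, (ts A s).m p ∈ ports A := (ts_ok A s).mem
  have hov : ∀ B, ∀ p ∈ ports A, ov (ports A) B σ p = decide (p ∈ B) := fun B p hp => if_pos hp
  have hgood : ∀ B, (ts A s).good (ov (ports A) B σ) ↔
      ∀ p ∈ ports A, ((ts A s).m p ∈ B ↔ p ∉ B) := by
    intro B
    unfold St.good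
    refine forall₂_congr fun p hp => ?_
    rw [hov B p hp, hov B _ (hV p hp)]
    by_cases h1 : p ∈ B <;> by_cases h2 : (ts A s).m p ∈ B <;> simp [h1, h2]
  have hfil : ∀ B, (tnet A s be ch).good (ports A) B ↔ gb be (ports A) B ∧
      (ts A s).good (ov (ports A) B σ) := by
    intro B
    rw [hgood]
    unfold Net.good gb
    constructor
    · intro k
      exact ⟨fun p hp => (k p hp).2, fun p hp => (k p hp).1⟩
    · rintro ⟨k1, k2⟩ p hp
      exact ⟨k2 p hp, k1 p hp⟩
  unfold Net.z
  rw [Finset.sum_filter, Finset.sum_filter]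
  refine Finset.sum_congr rfl fun B _ => ?_
  by_cases h1 : gb be (ports A) B
  · rw [if_pos h1, St.vec]
    by_cases h2 : (ts A s).good (ov (ports A) B σ)
    · rw [if_pos h2, if_pos ((hfil B).2 ⟨h1, h2⟩), ← ei_add]
      congr 1
      have hL : (ts A s).L = ports A := rfl
      unfold Net.ph pb St.ph
      rw [Finset.sum_div, hL, ← Finset.sum_add_distrib]
      refine Finset.sum_congr rfl fun p hp => ?_
      have e2 : ov (ports A) B σ ((ts A s).m p) = !ov (ports A) B σ p := h2 p hp
      rw [e2, hov B p hp, sg_not]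
      simp only [tnet]
      ring
    · rw [if_neg h2, if_neg fun k => h2 ((hfil B).1 k).2, mul_zero]
  · rw [if_neg h1, if_neg fun k => h1 ((hfil B).1 k).1]

/-- the standard composition : a list of glueings, then a list of cuts -/
theorem glue_cut_tiles {be : Port T → Port T} {ch : Port T → ℝ} {A : Finset T}
    {l : List (ℝ × Port T × Port T)} {c : List (ℝ × Port T)} (hl : GOk be ch l)
    (hc : COk be ch c) (hd : ∀ p ∈ cports c, p ∉ gports l)
    (hA : ports A = cports c ∪ gports l) (σ : Port T → Bool) :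
    c.foldl (fun F e => cut e.1 e.2 F) (glueL l (tilesF A)) σ =
      (1 / 2) ^ A.card * ∑ S ∈ A.powerset, (tnet A (fun t => decide (t ∈ S)) be ch).z (ports A) := by
  have h := (rep_cutL hc).comp (rep_glueL hl) (Finset.disjoint_left.2 hd)
  rw [← hA] at h
  exact h.tiles σ

/-- `z` of a tile network only sees the splitting on `A` -/
lemma tnet_congr {A : Finset T} {s s' : T → Bool} (be : Port T → Port T) (ch : Port T → ℝ)
    (h : ∀ t ∈ A, s t = s' t) {C : Finset (Port T)} (hC : C ⊆ ports A) :
    (tnet A s be ch).z C = (tnet A s' be ch).z C := by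
  refine Net.z_congr (fun p hp => ?_) (fun p _ => rfl) fun p hp => ?_
  · obtain ⟨t, d, rfl, ht⟩ := mem_ports' (hC hp)
    simp [tnet, ts, h t ht]
  · obtain ⟨t, d, rfl, ht⟩ := mem_ports' (hC hp)
    simp [tnet, ts, h t ht]

/-! ### phase of a walk -/

/-- turning of a list of entering ports (counterclockwise quarter turns) -/
def tql (s : T → Bool) (l : List (Port T)) : ℝ :=
  (l.map fun p => p.elim 0 fun y => tq (s y.1) y.2).sum

lemma tql_append (s : T → Bool) (l l' : List (Port T)) :
    tql s (l ++ l') = tql s l + tql s l' := by simp [tql]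

/-- seams along a list of entering ports -/
def seam (be : Port T → Port T) (ch : Port T → ℝ) (l : List (Port T)) : ℝ :=
  (l.map fun p => ch (be p) - ch p).sum

lemma ths (A : Finset T) (s : T → Bool) (p : Port T) :
    (ts A s).θ p = Real.pi / 12 * p.elim 0 fun y => tq (s y.1) y.2 := by
  cases p <;> simp [ts]

lemma ths_al (A : Finset T) (s : T → Bool) (p : Port T) :
    (ts A s).θ ((ts A s).m p) = -(ts A s).θ p := by
  cases p with
  | none => simp [ts]
  | some y => simp [ts, tq_thru]

/-- **phase of a walk** : `φ_y - φ_x + π/12 ∑ tq + ∑ seams` -/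
theorem Wa_wl {A : Finset T} {s : T → Bool} {be : Port T → Port T} {ch : Port T → ℝ}
    (hb2 : ∀ p ∈ ports A, be (be p) = p) (hb : ∀ p ∈ ports A, be p ∈ ports A)
    {x y : Port T} {l : List (Port T)} (hx : x ∈ ports A) (w : (tnet A s be ch).Wa x y l) :
    y ∈ ports A ∧ (tnet A s be ch).wl l =
      Real.pi / 12 * tql s l + (ch y - ch x) + seam be ch l.tail := by
  induction w with
  | one =>
    refine ⟨(ts_ok A s).mem x hx, ?_⟩
    simp only [Net.wl, List.map_cons, List.map_nil, List.sum_cons, List.sum_nil, List.tail_cons,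
      seam, tql]
    simp only [tnet]
    rw [ths_al, ths]
    ring
  | @snoc q l w hne ih =>
    obtain ⟨hq, ih⟩ := ih
    have hbq : be q ∈ ports A := hb q hq
    refine ⟨(ts_ok A s).mem _ hbq, ?_⟩
    have hl : l ≠ [] := by cases w <;> simp
    have e1 : (l ++ [be q]).tail = l.tail ++ [be q] := List.tail_append_of_ne_nil hl
    show (tnet A s be ch).wl (l ++ [be q]) = _
    have e2 : (tnet A s be ch).wl (l ++ [be q]) = (tnet A s be ch).wl l +
        ((tnet A s be ch).om ((ts A s).m (be q)) - (tnet A s be ch).om (be q)) := by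
      simp [Net.wl, tnet]
    have e3 : seam be ch (l ++ [be q]).tail = seam be ch l.tail + (ch q - ch (be q)) := by
      rw [e1]; simp [seam, hb2 q hq]
    have e4 : tql s (l ++ [be q]) = tql s l + (be q).elim 0 fun y => tq (s y.1) y.2 := by
      simp [tql]
    show (tnet A s be ch).wl (l ++ [be q]) = Real.pi / 12 * tql s (l ++ [be q]) +
      (ch ((ts A s).m (be q)) - ch x) + seam be ch (l ++ [be q]).tail
    rw [e2, e3, e4, ih]
    simp only [tnet]
    rw [ths_al, ths]
    ring

end tiles

end Crest.Agent.R158.Ad350
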