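import Crest.Agent.R158.Ao7_857

/-!
# Row 158: the operations of `G^(z)` cover every port once (helper857)

* `flat l` : the ports of a list of operations
* `mem_flat_bandL`, `nodup_flat_bandL` : over `ℕ × ℕ`
* `mem_flat_bandOps`, `nodup_flat_bandOps` : the ring rows of `G^(z)`
* `cover` : `Ll ++ Lu ++ bandOps ++ joins` : all ports of `B.tG y0` except the leg port, once
* `bandOps_be`, `joinLow_be`, `joinUp_be` : compatible with `B.beG p y0`
-/

set_option autoImplicit false

noncomputable section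

open Finset Matrix

namespace Crest.Agent.R158.Ao857

open Crest.Agent.R158.Ad350
open Crest.Agent.R158.Ad350.St (glueL glueL_nil glueL_cons glueL_smul)
open Crest.Agent.R158.Sw300 (Port)
open Crest.Agent.R158.Bd932 (That e3 ins lsum)
open Crest.Agent.R158.Env664 (TG Band Run PortOf)

/-- ports of a list of operations -/
def flat {P : Type*} (l : List (Op P)) : List P := l.flatMap Op.pts

lemma flat_append {P : Type*} (l l' : List (Op P)) : flat (l ++ l') = flat l ++ flat l' := by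
  unfold flat; rw [List.flatMap_append]

lemma mem_flat {P : Type*} {l : List (Op P)} {q : P} : q ∈ flat l ↔ ∃ o ∈ l, q ∈ o.pts := by
  unfold flat; rw [List.mem_flatMap]

lemma flat_ren {P Q : Type*} (f : P → Q) (l : List (Op P)) :
    flat (l.map (Op.ren f)) = (flat l).map f := by
  unfold flat
  rw [List.flatMap_map, List.map_flatMap]
  refine List.flatMap_congr fun o _ => ?_
  cases o with
  | inl e => rfl
  | inr e => rfl

lemma mem_flat_inl {P : Type*} {l : List (ℝ × P × P)} {q : P} :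
    q ∈ flat (l.map Sum.inl) ↔ ∃ e ∈ l, q = e.2.1 ∨ q = e.2.2 := by
  rw [mem_flat]
  constructor
  · rintro ⟨o, ho, hq⟩
    obtain ⟨e, he, rfl⟩ := List.mem_map.1 ho
    simp only [Op.pts, List.mem_cons, List.not_mem_nil, or_false] at hq
    exact ⟨e, he, hq⟩
  · rintro ⟨e, he, hq⟩
    refine ⟨_, List.mem_map.2 ⟨e, he, rfl⟩, ?_⟩
    simpa only [Op.pts, List.mem_cons, List.not_mem_nil, or_false] using hq

lemma nodup_flat_inl {P : Type*} {l : List (ℝ × P × P)} (hd : Dis l)
    (hne : ∀ e ∈ l, e.2.1 ≠ e.2.2) : (flat (l.map Sum.inl)).Nodup := by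
  unfold flat
  rw [List.nodup_flatMap]
  refine ⟨?_, ?_⟩
  · intro o ho
    obtain ⟨e, he, rfl⟩ := List.mem_map.1 ho
    have := hne e he
    simp [Op.pts, this]
  · rw [List.pairwise_map]
    refine hd.imp fun {a b} hab => ?_
    obtain ⟨h1, h2, h3, h4⟩ := hab
    intro q hq hq'
    simp only [Op.pts, List.mem_cons, List.not_mem_nil, or_false] at hq hq'
    rcases hq with rfl | rfl <;> rcases hq' with h | h
    · exact h1 h
    · exact h2 h
    · exact h3 h
    · exact h4 h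

/-! ### over `ℕ × ℕ` -/

theorem mem_flat_bandL {n : ℕ} {p : Fin (n + 2)} {c c' : ℝ} {a b : ℕ} {q : Port (ℕ × ℕ)} :
    q ∈ flat ((bandL n p c c' a b).map Sum.inl) ↔ q ∈ ports (bandT n a b) ∧
      q ≠ tp p (a + 1) 3 ∧ (∀ i : ℕ, q ≠ tp i 0 3) ∧ (∀ i : ℕ, q ≠ tp i (a + 1 + b) 1) := by
  rw [mem_flat_inl]
  constructor
  · rintro ⟨e, he, hq⟩
    have hp := bandL_ports he
    refine ⟨?_, ?_⟩
    · rcases hq with rfl | rfl
      · exact hp.1
      · exact hp.2
    have hr : ∀ {m : ℕ} {c : ℝ} {y : ℕ}, e ∈ rowL m c y →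
        q ≠ tp p (a + 1) 3 ∧ (∀ i : ℕ, q ≠ tp i 0 3) ∧ (∀ i : ℕ, q ≠ tp i (a + 1 + b) 1) := by
      intro m c y h
      obtain ⟨i, rfl⟩ := mem_rowL.1 h
      rcases hq with rfl | rfl
      · exact ⟨tp_ne fun h => absurd h.2.2 (by decide),
          fun j => tp_ne fun h => absurd h.2.2 (by decide),
          fun j => tp_ne fun h => absurd h.2.2 (by decide)⟩
      · exact ⟨tp_ne fun h => absurd h.2.2 (by decide),
          fun j => tp_ne fun h => absurd h.2.2 (by decide),
          fun j => tp_ne fun h => absurd h.2.2 (by decide)⟩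
    have hv : ∀ {m : ℕ} {y : ℕ}, e ∈ verL m y → y ≠ a → y < a + 1 + b →
        q ≠ tp p (a + 1) 3 ∧ (∀ i : ℕ, q ≠ tp i 0 3) ∧ (∀ i : ℕ, q ≠ tp i (a + 1 + b) 1) := by
      intro m y h h1 h2
      obtain ⟨i, rfl⟩ := mem_verL.1 h
      rcases hq with rfl | rfl
      · exact ⟨tp_ne fun h => absurd h.2.2 (by decide),
          fun j => tp_ne fun h => absurd h.2.2 (by decide),
          fun j => tp_ne fun h => by have := h.2.1; omega⟩
      · exact ⟨tp_ne fun h => by have := h.2.1; omega,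
          fun j => tp_ne fun h => by have := h.2.1; omega,
          fun j => tp_ne fun h => absurd h.2.2 (by decide)⟩
    rcases mem_bandL.1 he with h | h | h
    · rcases mem_blockL.1 h with ⟨y, h1, h2, h3⟩ | ⟨y, h1, h2, h3⟩
      · exact hr h3
      · exact hv h3 (by omega) (by omega)
    · rcases mem_blockL.1 h with ⟨y, h1, h2, h3⟩ | ⟨y, h1, h2, h3⟩
      · exact hr h3
      · exact hv h3 (by omega) (by omega)
    · obtain ⟨i, rfl⟩ := mem_insL.1 h
      rcases hq with rfl | rfl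
      · exact ⟨tp_ne fun h => absurd h.2.2 (by decide),
          fun j => tp_ne fun h => absurd h.2.2 (by decide),
          fun j => tp_ne fun h => by have := h.2.1; omega⟩
      · exact ⟨tp_ne fun h => Fin.succAbove_ne p i (Fin.ext h.1),
          fun j => tp_ne fun h => by have := h.2.1; omega,
          fun j => tp_ne fun h => absurd h.2.2 (by decide)⟩
  · rintro ⟨hq, h1, h2, h3⟩
    obtain ⟨⟨i, y⟩, d, rfl, ht⟩ := mem_ports' hq
    rw [mem_bandT] at ht
    simp only at ht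
    rcases Env664.z4 d with rfl | rfl | rfl | rfl
    · -- W
      rcases ht with ht | ht
      · refine ⟨_, mem_bandL.2 (Or.inl (mem_blockL.2 (Or.inl ⟨y, by omega, by omega,
          mem_rowL.2 ⟨⟨i, ht.1⟩, rfl⟩⟩))), Or.inl rfl⟩
      · refine ⟨_, mem_bandL.2 (Or.inr (Or.inl (mem_blockL.2 (Or.inl ⟨y, by omega, by omega,
          mem_rowL.2 ⟨⟨i, ht.1⟩, rfl⟩⟩)))), Or.inl rfl⟩
    · -- N
      by_cases hy : y = a
      · subst hy
        have hi : i < n + 1 := by omega
        exact ⟨_, mem_bandL.2 (Or.inr (Or.inr (mem_insL.2 ⟨⟨i, hi⟩, rfl⟩))), Or.inl rfl⟩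
      · have hy2 : y ≠ a + 1 + b := fun e => h3 i (by rw [e]; rfl)
        rcases ht with ht | ht
        · exact ⟨_, mem_bandL.2 (Or.inl (mem_blockL.2 (Or.inr ⟨y, by omega, by omega,
            mem_verL.2 ⟨⟨i, ht.1⟩, rfl⟩⟩))), Or.inl rfl⟩
        · exact ⟨_, mem_bandL.2 (Or.inr (Or.inl (mem_blockL.2 (Or.inr ⟨y, by omega, by omega,
            mem_verL.2 ⟨⟨i, ht.1⟩, rfl⟩⟩)))), Or.inl rfl⟩
    · -- E
      rcases ht with ht | ht
      · refine ⟨_, mem_bandL.2 (Or.inl (mem_blockL.2 (Or.inl ⟨y, by omega, by omega,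
          mem_rowL.2 ⟨(⟨i, ht.1⟩ : Fin (n + 1)) + 1, rfl⟩⟩))), Or.inr ?_⟩
        show tp i y 2 = tp _ y 2
        rw [add_sub_cancel_right]
      · refine ⟨_, mem_bandL.2 (Or.inr (Or.inl (mem_blockL.2 (Or.inl ⟨y, by omega, by omega,
          mem_rowL.2 ⟨(⟨i, ht.1⟩ : Fin (n + 1 + 1)) + 1, rfl⟩⟩)))), Or.inr ?_⟩
        show tp i y 2 = tp _ y 2
        rw [add_sub_cancel_right]
    · -- S
      have hy0 : y ≠ 0 := fun e => h2 i (by rw [e]; rfl)
      by_cases hy : y = a + 1
      · subst hy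
        have hi : i < n + 2 := by omega
        have hip : (⟨i, hi⟩ : Fin (n + 2)) ≠ p := fun e => h1 (by rw [← e]; rfl)
        obtain ⟨j, hj⟩ := Fin.exists_succAbove_eq hip
        refine ⟨_, mem_bandL.2 (Or.inr (Or.inr (mem_insL.2 ⟨j, rfl⟩))), Or.inr ?_⟩
        show tp i (a + 1) 3 = tp _ (a + 1) 3
        rw [hj]
      · rcases ht with ht | ht
        · refine ⟨_, mem_bandL.2 (Or.inl (mem_blockL.2 (Or.inr ⟨y - 1, by omega, by omega,
            mem_verL.2 ⟨⟨i, ht.1⟩, rfl⟩⟩))), Or.inr ?_⟩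
          show tp i y 3 = tp _ (y - 1 + 1) 3
          congr 1
          omega
        · refine ⟨_, mem_bandL.2 (Or.inr (Or.inl (mem_blockL.2 (Or.inr ⟨y - 1, by omega, by omega,
            mem_verL.2 ⟨⟨i, ht.1⟩, rfl⟩⟩)))), Or.inr ?_⟩
          show tp i y 3 = tp _ (y - 1 + 1) 3
          congr 1
          omega

theorem nodup_flat_bandL (n : ℕ) (p : Fin (n + 2)) (c c' : ℝ) (a b : ℕ) :
    (flat ((bandL n p c c' a b).map Sum.inl)).Nodup :=
  nodup_flat_inl (dis_bandL n p c c' a b) fun _ he => ne_bandL he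

/-! ### the ring rows of `G^(z)` -/

variable {A : Finset (ℤ × ℤ)} (B : Band A)

theorem nodup_flat_bandOps (p y0 : ℤ) (c c' : ℝ) : (flat (bandOps B p y0 c c')).Nodup := by
  unfold bandOps
  rw [flat_ren]
  exact (nodup_flat_bandL _ _ _ _ _ _).map (tpm_inj (gB B).injective)

/-- the leg port -/
def legP (p y0 : ℤ) : Port TG := some (Sum.inl (p, y0), 3)

theorem mem_flat_bandOps {p y0 : ℤ} (h : B.At p y0) {c c' : ℝ} {q : Port TG} :
    q ∈ flat (bandOps B p y0 c c') ↔ q ∈ ports (bandM B y0) ∧ q ≠ legP p y0 ∧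
      (∀ i, q ≠ uP B i) ∧ (∀ i, q ≠ wP B i) := by
  have ha := aa_eq B h
  have hb := bb_eq B h
  have hpp := pp_eq B h
  have hy1 := h.hy1
  have hy2 := h.hy2
  have hp1 := h.hp1
  have hp2 := h.hp2
  have e1 : ∀ (i y : ℕ) (d : ZMod 4), tpm (gB B) (tp i y d) =
      some (gI B i (B.y1 + (y : ℤ)), d) := fun _ _ _ => rfl
  unfold bandOps
  rw [flat_ren, List.mem_map]
  constructor
  · rintro ⟨q0, hq0, rfl⟩
    rw [mem_flat_bandL] at hq0
    obtain ⟨k1, k2, k3, k4⟩ := hq0
    refine ⟨ports_map _ k1, ?_, ?_, ?_⟩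
    · intro hq
      apply k2
      apply tpm_inj (gB B).injective
      rw [hq, e1, legP, gI_le B (by omega)]
      have a1 : B.xl + ((pp B p : ℕ) : ℤ) = p := by omega
      have a2 : B.y1 + ((aa B y0 + 1 : ℕ) : ℤ) = y0 := by omega
      rw [a1, a2]
    · intro i hq
      apply k3 i
      apply tpm_inj (gB B).injective
      rw [hq, e1, uP]
      have a1 : B.y1 + ((0 : ℕ) : ℤ) = B.y1 := by omega
      rw [a1]
    · intro i hq
      apply k4 i
      apply tpm_inj (gB B).injective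
      rw [hq, e1, wP]
      have a1 : B.y1 + ((aa B y0 + 1 + bb B y0 : ℕ) : ℤ) = B.y2 - 1 := by omega
      rw [a1]
  · rintro ⟨k1, k2, k3, k4⟩
    obtain ⟨t, d, rfl, ht⟩ := mem_ports' k1
    unfold bandM at ht
    obtain ⟨⟨i, y⟩, hm, rfl⟩ := Finset.mem_map.1 ht
    refine ⟨tp i y d, ?_, rfl⟩
    have hm2 := hm
    rw [mem_bandT] at hm2
    simp only at hm2
    rw [mem_flat_bandL]
    refine ⟨mem_ports.2 hm, ?_, ?_, ?_⟩
    · intro hq
      obtain ⟨f1, f2, f3⟩ := tp_inj hq
      apply k2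
      show (some (gI B i (B.y1 + (y : ℤ)), d) : Port TG) = legP p y0
      rw [gI_le B (by omega), legP, f3]
      have a1 : B.xl + (i : ℤ) = p := by omega
      have a2 : B.y1 + (y : ℤ) = y0 := by omega
      rw [a1, a2]
    · intro j hq
      obtain ⟨f1, f2, f3⟩ := tp_inj hq
      have hi : i < nn B + 1 := by omega
      apply k3 ⟨i, hi⟩
      show (some (gI B i (B.y1 + (y : ℤ)), d) : Port TG) = some (gI B i B.y1, 3)
      have a1 : B.y1 + (y : ℤ) = B.y1 := by omega
      rw [a1, f3]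
    · intro j hq
      obtain ⟨f1, f2, f3⟩ := tp_inj hq
      have hi : i < nn B + 2 := by omega
      apply k4 ⟨i, hi⟩
      show (some (gI B i (B.y1 + (y : ℤ)), d) : Port TG) = some (gI B i (B.y2 - 1), 1)
      have a1 : B.y1 + (y : ℤ) = B.y2 - 1 := by omega
      rw [a1, f3]

/-! ### the crosscuts -/

lemma mem_flat_join {P : Type*} {m : ℕ} (D : Fin m → Prop) [DecidablePred D] (φ : Fin m → ℝ)
    (x u : Fin m → P) {q : P} : q ∈ flat (List.ofFn fun i =>
      if D i then (Sum.inl (0, x i, u i) : Op P) else Sum.inr (φ i, u i)) ↔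
      (∃ i, q = u i) ∨ ∃ i, D i ∧ q = x i := by
  rw [mem_flat]
  constructor
  · rintro ⟨o, ho, hq⟩
    rw [List.mem_ofFn] at ho
    obtain ⟨i, rfl⟩ := ho
    by_cases hD : D i
    · simp only [if_pos hD, Op.pts, List.mem_cons, List.not_mem_nil, or_false] at hq
      rcases hq with hq | hq
      · exact Or.inr ⟨i, hD, hq⟩
      · exact Or.inl ⟨i, hq⟩
    · simp only [if_neg hD, Op.pts, List.mem_cons, List.not_mem_nil, or_false] at hq
      exact Or.inl ⟨i, hq⟩
  · rintro (⟨i, rfl⟩ | ⟨i, hD, rfl⟩)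
    · refine ⟨_, (List.mem_ofFn ..).2 ⟨i, rfl⟩, ?_⟩
      by_cases hD : D i
      · simp [if_pos hD, Op.pts]
      · simp [if_neg hD, Op.pts]
    · refine ⟨_, (List.mem_ofFn ..).2 ⟨i, rfl⟩, ?_⟩
      simp [if_pos hD, Op.pts]

lemma nodup_flat_join {P : Type*} {m : ℕ} (D : Fin m → Prop) [DecidablePred D] (φ : Fin m → ℝ)
    {x u : Fin m → P} (hx : Function.Injective x) (hu : Function.Injective u)
    (hxu : ∀ i j, x i ≠ u j) : (flat (List.ofFn fun i =>
      if D i then (Sum.inl (0, x i, u i) : Op P) else Sum.inr (φ i, u i))).Nodup := by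
  unfold flat
  rw [List.nodup_flatMap]
  refine ⟨?_, ?_⟩
  · intro o ho
    rw [List.mem_ofFn] at ho
    obtain ⟨i, rfl⟩ := ho
    by_cases hD : D i
    · simp [if_pos hD, Op.pts, hxu i i]
    · simp [if_neg hD, Op.pts]
  · rw [List.pairwise_ofFn]
    intro i j hij q hq hq'
    have h1 : ∀ k : Fin m, q ∈ Op.pts (if D k then (Sum.inl (0, x k, u k) : Op P)
        else Sum.inr (φ k, u k)) → q = x k ∨ q = u k := by
      intro k hk
      by_cases hD : D k
      · simpa [if_pos hD, Op.pts] using hk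
      · right; simpa [if_neg hD, Op.pts] using hk
    rcases h1 i hq with h2 | h2 <;> rcases h1 j hq' with h3 | h3
    · exact hij.ne (hx (h2.symm.trans h3))
    · exact hxu i j (h2.symm.trans h3)
    · exact hxu j i (h3.symm.trans h2)
    · exact hij.ne (hu (h2.symm.trans h3))

lemma xP_inj : Function.Injective (xP B) := fun i j h => by
  have h1 : gI B i (B.y1 - 1) = gI B j (B.y1 - 1) := by unfold xP at h; simpa using h
  exact Fin.ext (gI_inj B h1).1
lemma uP_inj : Function.Injective (uP B) := fun i j h => by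
  have h1 : gI B i B.y1 = gI B j B.y1 := by unfold uP at h; simpa using h
  exact Fin.ext (gI_inj B h1).1
lemma vP_inj : Function.Injective (vP B) := fun i j h => by
  have h1 : gI B i B.y2 = gI B j B.y2 := by unfold vP at h; simpa using h
  exact Fin.ext (gI_inj B h1).1
lemma wP_inj : Function.Injective (wP B) := fun i j h => by
  have h1 : gI B i (B.y2 - 1) = gI B j (B.y2 - 1) := by unfold wP at h; simpa using h
  exact Fin.ext (gI_inj B h1).1

lemma d13 : ¬ ((1 : ZMod 4) = 3) := by decide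

/-- all ports of `G^(z)` except the leg port, once -/
theorem cover {p y0 : ℤ} (h : B.At p y0) {Al Au : Finset (ℤ × ℤ)} (hs : Split B Al Au)
    (c c' : ℝ) (φ : Port TG → ℝ) {Ll Lu : List (Op (Port TG))}
    (n1 : (flat Ll).Nodup) (n2 : (flat Lu).Nodup)
    (m1 : ∀ q, q ∈ flat Ll ↔ q ∈ ports (Al.map inlE) ∧ ∀ i, q ≠ xP B i)
    (m2 : ∀ q, q ∈ flat Lu ↔ q ∈ ports (Au.map inlE) ∧ ∀ i, q ≠ vP B i) :
    (flat (Ll ++ (Lu ++ (bandOps B p y0 c c' ++ (joinLow B Al φ ++ joinUp B Au φ))))).Nodup ∧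
    ∀ q, q ∈ flat (Ll ++ (Lu ++ (bandOps B p y0 c c' ++ (joinLow B Al φ ++ joinUp B Au φ)))) ↔
      q ∈ ports (B.tG y0) ∧ q ≠ legP p y0 := by
  have hn := nn_eq B h
  have hR := B.hR
  have hy1 := h.hy1
  have hy2 := h.hy2
  have hp1 := h.hp1
  have hp2 := h.hp2
  have hlow : ∀ q, q ∈ flat (joinLow B Al φ) ↔ (∃ i, q = uP B i) ∨ ∃ i, Dl B Al i ∧ q = xP B i :=
    fun q => mem_flat_join _ _ _ _
  have hup : ∀ q, q ∈ flat (joinUp B Au φ) ↔ (∃ i, q = wP B i) ∨ ∃ i, Du B Au i ∧ q = vP B i :=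
    fun q => mem_flat_join _ _ _ _
  -- where the ports are
  have pu : ∀ i, uP B i ∈ ports (bandM B y0) := fun i =>
    mem_ports.2 ((gI_mem_band B h).2 (Or.inl ⟨by omega, by omega, by omega⟩))
  have pw : ∀ i, wP B i ∈ ports (bandM B y0) := fun i =>
    mem_ports.2 ((gI_mem_band B h).2 (Or.inr ⟨by omega, by omega, by omega⟩))
  have px : ∀ i, Dl B Al i ↔ xP B i ∈ ports (Al.map inlE) := by
    intro i
    constructor
    · rintro ⟨k1, k2⟩
      unfold xP
      rw [gI_le B k1]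
      exact mem_ports.2 (mem_inlE.2 k2)
    · intro hm
      have hm' := mem_ports.1 hm
      by_cases k1 : ((i : ℕ) : ℤ) ≤ B.xr - B.xl
      · rw [gI_le B k1, mem_inlE] at hm'
        exact ⟨k1, hm'⟩
      · rw [gI_gt B k1] at hm'
        exact absurd hm' not_inlE
  have pv : ∀ i, Du B Au i ↔ vP B i ∈ ports (Au.map inlE) := by
    intro i
    constructor
    · rintro ⟨k1, k2⟩
      unfold vP
      rw [gI_le B k1]
      exact mem_ports.2 (mem_inlE.2 k2)
    · intro hm
      have hm' := mem_ports.1 hm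
      by_cases k1 : ((i : ℕ) : ℤ) ≤ B.xr - B.xl
      · rw [gI_le B k1, mem_inlE] at hm'
        exact ⟨k1, hm'⟩
      · rw [gI_gt B k1] at hm'
        exact absurd hm' not_inlE
  have hxu : ∀ i j, xP B i ≠ uP B j := fun i j => some_ne fun h => d13 h.2
  have hvw : ∀ i j, vP B i ≠ wP B j := fun i j => some_ne fun h => d13 h.2.symm
  have huw : ∀ i j, uP B i ≠ wP B j := fun i j => some_ne fun h => d13 h.2.symm
  have hxw : ∀ i j, xP B i ≠ wP B j := fun i j => some_ne fun h => by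
    have := (gI_inj B h.1).2; omega
  have hvu : ∀ i j, vP B i ≠ uP B j := fun i j => some_ne fun h => by
    have := (gI_inj B h.1).2; omega
  have hxv : ∀ i j, xP B i ≠ vP B j := fun i j => some_ne fun h => d13 h.2
  have hleg : legP p y0 ∈ ports (bandM B y0) :=
    mem_ports.2 ((inl_mem_band B h).2 ⟨by omega, by omega, by omega, by omega⟩)
  have lu : ∀ i, legP p y0 ≠ uP B i := fun i => some_ne fun h => by
    have h1 := h.1
    by_cases hi : ((i : ℕ) : ℤ) ≤ B.xr - B.xl
    · rw [gI_le B hi] at h1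
      have := Sum.inl_injective h1
      simp only [Prod.mk.injEq] at this
      omega
    · rw [gI_gt B hi] at h1
      exact absurd h1 (by simp)
  have lw : ∀ i, legP p y0 ≠ wP B i := fun i => some_ne fun h => d13 h.2.symm
  have lx : ∀ i, legP p y0 ≠ xP B i := fun i => some_ne fun h => d13 h.2.symm
  have lv : ∀ i, legP p y0 ≠ vP B i := fun i => some_ne fun h => by
    have h1 := h.1
    by_cases hi : ((i : ℕ) : ℤ) ≤ B.xr - B.xl
    · rw [gI_le B hi] at h1
      have := Sum.inl_injective h1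
      simp only [Prod.mk.injEq] at this
      omega
    · rw [gI_gt B hi] at h1
      exact absurd h1 (by simp)
  have plv : ∀ i, vP B i ∉ ports (Al.map inlE) := fun i hm => by
    have hm' := mem_ports.1 hm
    by_cases k1 : ((i : ℕ) : ℤ) ≤ B.xr - B.xl
    · rw [gI_le B k1, mem_inlE] at hm'
      exact hs.nl _ (by omega) (by omega) hm'
    · rw [gI_gt B k1] at hm'
      exact absurd hm' not_inlE
  have pux : ∀ i, xP B i ∉ ports (Au.map inlE) := fun i hm => by
    have hm' := mem_ports.1 hm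
    by_cases k1 : ((i : ℕ) : ℤ) ≤ B.xr - B.xl
    · rw [gI_le B k1, mem_inlE] at hm'
      exact hs.nu _ (by omega) (by omega) hm'
    · rw [gI_gt B k1] at hm'
      exact absurd hm' not_inlE
  have dlb : ∀ {q}, q ∈ ports (Al.map inlE) → q ∈ ports (bandM B y0) → False :=
    fun k1 k2 => ports_disj (hs.disj_lb h) k1 k2
  have dub : ∀ {q}, q ∈ ports (Au.map inlE) → q ∈ ports (bandM B y0) → False :=
    fun k1 k2 => ports_disj (hs.disj_ub h) k1 k2
  have dlu : ∀ {q}, q ∈ ports (Al.map inlE) → q ∈ ports (Au.map inlE) → False :=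
    fun k1 k2 => ports_disj hs.disj_lu k1 k2
  have hmem : ∀ q, q ∈ flat (bandOps B p y0 c c') ↔ q ∈ ports (bandM B y0) ∧ q ≠ legP p y0 ∧
      (∀ i, q ≠ uP B i) ∧ (∀ i, q ≠ wP B i) := fun q => mem_flat_bandOps B h
  constructor
  · simp only [flat_append]
    rw [List.nodup_append', List.nodup_append', List.nodup_append', List.nodup_append']
    refine ⟨n1, ⟨n2, ⟨nodup_flat_bandOps B p y0 c c', ⟨?_, ?_, ?_⟩, ?_⟩, ?_⟩, ?_⟩
    · exact nodup_flat_join _ _ (xP_inj B) (uP_inj B) hxu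
    · exact nodup_flat_join _ _ (vP_inj B) (wP_inj B) hvw
    · intro q h1 h2
      rw [hlow] at h1
      rw [hup] at h2
      rcases h1 with ⟨i, rfl⟩ | ⟨i, -, rfl⟩ <;> rcases h2 with ⟨j, hj⟩ | ⟨j, -, hj⟩
      · exact huw i j hj
      · exact hvu j i hj.symm
      · exact hxw i j hj
      · exact hxv i j hj
    · intro q h1 h2
      rw [hmem] at h1
      rw [List.mem_append, hlow, hup] at h2
      obtain ⟨k1, k2, k3, k4⟩ := h1
      rcases h2 with (⟨i, hi⟩ | ⟨i, hD, hi⟩) | ⟨i, hi⟩ | ⟨i, hD, hi⟩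
      · exact k3 i hi
      · exact dlb ((px i).1 hD) (by rw [← hi]; exact k1)
      · exact k4 i hi
      · exact dub ((pv i).1 hD) (by rw [← hi]; exact k1)
    · intro q h1 h2
      rw [m2] at h1
      rw [List.mem_append, List.mem_append, hmem, hlow, hup] at h2
      obtain ⟨k1, k2⟩ := h1
      rcases h2 with h2 | (⟨i, hi⟩ | ⟨i, hD, hi⟩) | ⟨i, hi⟩ | ⟨i, hD, hi⟩
      · exact dub k1 h2.1
      · exact dub k1 (by rw [hi]; exact pu i)
      · exact dlu ((px i).1 hD) (by rw [← hi]; exact k1)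
      · exact dub k1 (by rw [hi]; exact pw i)
      · exact k2 i hi
    · intro q h1 h2
      rw [m1] at h1
      rw [List.mem_append, List.mem_append, List.mem_append, m2, hmem, hlow, hup] at h2
      obtain ⟨k1, k2⟩ := h1
      rcases h2 with h2 | h2 | (⟨i, hi⟩ | ⟨i, hD, hi⟩) | ⟨i, hi⟩ | ⟨i, hD, hi⟩
      · exact dlu k1 h2.1
      · exact dlb k1 h2.1
      · exact dlb k1 (by rw [hi]; exact pu i)
      · exact k2 i hi
      · exact dlb k1 (by rw [hi]; exact pw i)
      · exact plv i (by rw [← hi]; exact k1)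
  · intro q
    simp only [flat_append]
    rw [List.mem_append, List.mem_append, List.mem_append, List.mem_append, m1, m2, hmem, hlow,
      hup]
    have htG : q ∈ ports (B.tG y0) ↔ (q ∈ ports (Al.map inlE) ∨ q ∈ ports (bandM B y0)) ∨
        q ∈ ports (Au.map inlE) := by
      rcases q with _ | ⟨t, d⟩
      · simp
      · rw [mem_ports, mem_ports, mem_ports, mem_ports, hs.tG_eq h, Finset.mem_union,
          Finset.mem_union]
    rw [htG]
    constructor
    · rintro (h1 | h1 | h1 | (⟨i, hi⟩ | ⟨i, hD, hi⟩) | ⟨i, hi⟩ | ⟨i, hD, hi⟩)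
      · exact ⟨Or.inl (Or.inl h1.1), fun e => dlb h1.1 (by rw [e]; exact hleg)⟩
      · exact ⟨Or.inr h1.1, fun e => dub h1.1 (by rw [e]; exact hleg)⟩
      · exact ⟨Or.inl (Or.inr h1.1), h1.2.1⟩
      · exact ⟨Or.inl (Or.inr (by rw [hi]; exact pu i)), fun e => lu i (e.symm.trans hi)⟩
      · exact ⟨Or.inl (Or.inl (by rw [hi]; exact (px i).1 hD)), fun e => lx i (e.symm.trans hi)⟩
      · exact ⟨Or.inl (Or.inr (by rw [hi]; exact pw i)), fun e => lw i (e.symm.trans hi)⟩
      · exact ⟨Or.inr (by rw [hi]; exact (pv i).1 hD), fun e => lv i (e.symm.trans hi)⟩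
    · rintro ⟨(h1 | h1) | h1, h2⟩
      · by_cases hx : ∃ i, q = xP B i
        · obtain ⟨i, hi⟩ := hx
          exact Or.inr (Or.inr (Or.inr (Or.inl (Or.inr ⟨i, (px i).2 (by rw [← hi]; exact h1),
            hi⟩))))
        · push Not at hx
          exact Or.inl ⟨h1, hx⟩
      · by_cases hu : ∃ i, q = uP B i
        · exact Or.inr (Or.inr (Or.inr (Or.inl (Or.inl hu))))
        · by_cases hw : ∃ i, q = wP B i
          · exact Or.inr (Or.inr (Or.inr (Or.inr (Or.inl hw))))
          · push Not at hu hw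
            exact Or.inr (Or.inr (Or.inl ⟨h1, h2, hu, hw⟩))
      · by_cases hx : ∃ i, q = vP B i
        · obtain ⟨i, hi⟩ := hx
          exact Or.inr (Or.inr (Or.inr (Or.inr (Or.inr ⟨i, (pv i).2 (by rw [← hi]; exact h1),
            hi⟩))))
        · push Not at hx
          exact Or.inr (Or.inl ⟨h1, hx⟩)

end Crest.Agent.R158.Ao857
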