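import Crest.Agent.R158.Rs2_689
import Crest.Agent.R161.Tas5_682

/-!
# Row 158, Block R (helper689): RSW for bond percolation on `ℤ²` at `p = 1/2`

* `nu p` : bond percolation on `Edge → Bool`
* `lr_or_bt` : either `LRc z x0 x1 y0 y1` or `BTc (dual z) x0 (x1-1) (y0-1) y1`; `not_both`: not both
* `sq_half` : crossing of the `(n+1) × n` rectangle has probability `1/2`
* `rsw` : circuits and long crossings
-/

set_option autoImplicit false

noncomputable section

namespace Crest.Agent.R158.Rs689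

open MeasureTheory ProbabilityTheory unitInterval
open Crest.Agent.R161.Geo729 Crest.Agent.R161.Topo374 Crest.Agent.R161.Dual374
open Crest.Agent.R161.Tas682 Crest.Agent.R161.Ring421 Crest.Agent.R161.Sym597
open Crest.Agent.R161.Ifc372 Crest.Agent.R161.Hull374
open scoped ENNReal

/-- bond percolation on `ℤ²` -/
def nu (p : I) : Measure Cfz := PB fun _ : Edge => p

instance (p : I) : IsProbabilityMeasure (nu p) := by unfold nu; infer_instance

theorem locOn_iff {S : Finset Edge} {A : Set Cfz} : LocOn S A ↔ Dep S A := Iff.rfl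

theorem incEv_iff {A : Set Cfz} : IncEv A ↔ Inc A := Iff.rfl

theorem fkgLoc (p : I) : FKGLoc (nu p) := by
  rintro A B ⟨S, hS⟩ ⟨T, hT⟩ iA iB
  have h := harris (fun _ : Edge => p) (locOn_iff.1 hS) (locOn_iff.1 hT) iA iB
  rw [measureReal_def, measureReal_def, measureReal_def, ← ENNReal.toReal_mul] at h
  exact (ENNReal.toReal_le_toReal (ENNReal.mul_ne_top (measure_ne_top _ _) (measure_ne_top _ _))
    (measure_ne_top _ _)).1 h

theorem rInv (p : I) : RInv (nu p) := by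
  intro R _
  have h := PB_map_equiv R.EEquiv (fun _ : Edge => p)
  exact h

theorem perc (p : I) : Perc (fun A => ((nu p) A).toReal) := perc_of (fkgLoc p) (rInv p)

/-! ### duality -/

theorem oc_of_re {z : Cfz} {x0 x1 y0 y1 : ℤ} (hx : x0 < x1) {a b : P2} (ha : a.1 = x0)
    (ha0 : y0 ≤ a.2) (ha1 : a.2 ≤ y1)
    (h : Relation.ReflTransGen (PStep (fun e => z e = true ∧ RE x0 x1 y0 y1 e)) a b) :
    OC z (Rect x0 x1 y0 y1) a b := by
  refine ⟨⟨by omega, by omega, ha0, ha1⟩, ?_⟩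
  refine Relation.ReflTransGen.mono ?_ _ _ h
  rintro u v ⟨e, ⟨h1, h2⟩, h3⟩
  refine ⟨⟨e, h1, h3⟩, ?_⟩
  obtain ⟨⟨i, j⟩, c⟩ := e
  simp only [RE] at h2
  simp only [mem_rect]
  rcases h3 with ⟨rfl, rfl⟩ | ⟨rfl, rfl⟩ <;> cases c <;> simp at h2 ⊢ <;> omega

/-- either a primal left-right crossing or a dual bottom-top crossing -/
theorem lr_or_bt (z : Cfz) (x0 x1 y0 y1 : ℤ) (hx : x0 < x1) (hy : y0 ≤ y1) :
    LRc z x0 x1 y0 y1 ∨ BTc (dual z) x0 (x1 - 1) (y0 - 1) y1 := by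
  rcases dual_rect x0 x1 y0 y1 hx hy (fun e => z e = true) with
    ⟨a, b, ha, ha0, ha1, hb, h⟩ | ⟨f, g, hf, hf0, hf1, hg, h⟩
  · exact Or.inl ⟨a, b, ha, hb, oc_of_re hx ha ha0 ha1 h⟩
  · refine Or.inr ⟨f, g, hf, hg, ⟨by omega, by omega, by omega, by omega⟩, ?_⟩
    refine Relation.ReflTransGen.mono ?_ _ _ h
    rintro u v ⟨e, ⟨h1, h2⟩, h3⟩
    refine ⟨⟨dE e, dual_dE.2 h1, by rw [src_dE, tgt_dE]; exact h3.symm⟩, ?_⟩
    obtain ⟨⟨i, j⟩, c⟩ := e
    simp only [RE] at h2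
    simp only [mem_rect]
    rcases h3 with ⟨rfl, rfl⟩ | ⟨rfl, rfl⟩ <;> cases c <;> simp at h2 ⊢ <;> omega

/-! ### doubling -/

/-- vertices of the doubled lattice visited by open edges inside `S` -/
def Dbl (z : Cfz) (S : Set P2) : Set P2 :=
  {w | (∃ v ∈ S, w = (2 * v.1, 2 * v.2)) ∨
    ∃ e : Edge, z e = true ∧ src e ∈ S ∧ tgt e ∈ S ∧
      w = ((src e).1 + (tgt e).1, (src e).2 + (tgt e).2)}

theorem oc_dbl {z : Cfz} {S : Set P2} {u v : P2} (h : OC z S u v) :
    Walk (Dbl z S) (2 * u.1, 2 * u.2) (2 * v.1, 2 * v.2) := by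
  obtain ⟨huS, h⟩ := h
  induction h with
  | refl => exact Walk.refl (Or.inl ⟨u, huS, rfl⟩)
  | @tail b c _ h2 ih =>
    refine ih.trans ?_
    obtain ⟨⟨e, he, hbc⟩, hb, hc⟩ := h2
    have hm : ((src e).1 + (tgt e).1, (src e).2 + (tgt e).2) ∈ Dbl z S := by
      refine Or.inr ⟨e, he, ?_, ?_, rfl⟩
      · rcases hbc with ⟨rfl, rfl⟩ | ⟨rfl, rfl⟩ <;> assumption
      · rcases hbc with ⟨rfl, rfl⟩ | ⟨rfl, rfl⟩ <;> assumption
    have hb' : ((2 * b.1, 2 * b.2) : P2) ∈ Dbl z S := Or.inl ⟨b, hb, rfl⟩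
    have hc' : ((2 * c.1, 2 * c.2) : P2) ∈ Dbl z S := Or.inl ⟨c, hc, rfl⟩
    have n1 : Nbr (2 * b.1, 2 * b.2) ((src e).1 + (tgt e).1, (src e).2 + (tgt e).2) := by
      obtain ⟨⟨i, j⟩, k⟩ := e
      unfold Nbr
      rcases hbc with ⟨rfl, rfl⟩ | ⟨rfl, rfl⟩ <;> cases k <;> simp <;> omega
    have n2 : Nbr ((src e).1 + (tgt e).1, (src e).2 + (tgt e).2) (2 * c.1, 2 * c.2) := by
      obtain ⟨⟨i, j⟩, k⟩ := e
      unfold Nbr
      rcases hbc with ⟨rfl, rfl⟩ | ⟨rfl, rfl⟩ <;> cases k <;> simp <;> omega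
    exact (Walk.step hb' hm n1).trans (Walk.step hm hc' n2)

/-- translation of walks by `(1,1)` -/
theorem walk_shift {T : Set P2} {a b : P2} (h : Walk T a b) :
    Walk {w : P2 | (w.1 - 1, w.2 - 1) ∈ T} (a.1 + 1, a.2 + 1) (b.1 + 1, b.2 + 1) := by
  obtain ⟨ha, h⟩ := h
  refine ⟨by simpa using ha, ?_⟩
  induction h with
  | refl => exact .refl
  | @tail b c _ h2 ih =>
    refine ih.tail ⟨?_, by simpa using h2.2.1, by simpa using h2.2.2⟩
    have := h2.1
    unfold Nbr at this ⊢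
    simp only
    omega

/-- primal and dual paths do not meet in the doubled lattice -/
theorem dbl_disj {z : Cfz} {S S' : Set P2} {w : P2} (h1 : w ∈ Dbl z S)
    (h2 : ((w.1 - 1, w.2 - 1) : P2) ∈ Dbl (dual z) S') : False := by
  obtain ⟨w1, w2⟩ := w
  rcases h1 with ⟨v, _, hv⟩ | ⟨e, he, _, _, hw⟩
  · rcases h2 with ⟨v', _, hv'⟩ | ⟨⟨⟨i, j⟩, k⟩, _, _, _, hw'⟩
    · simp only [Prod.mk.injEq] at hv hv'
      omega
    · simp only [Prod.mk.injEq] at hv
      cases k <;> simp at hw' <;> omega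
  · rcases h2 with ⟨v', _, hv'⟩ | ⟨e', he', _, _, hw'⟩
    · obtain ⟨⟨i, j⟩, k⟩ := e
      simp only [Prod.mk.injEq] at hv'
      cases k <;> simp at hw <;> omega
    · obtain ⟨e', rfl⟩ := dE.surjective e'
      rw [dual_dE] at he'
      apply he'
      have : e' = e := by
        obtain ⟨⟨i, j⟩, k⟩ := e
        obtain ⟨⟨i', j'⟩, k'⟩ := e'
        cases k <;> cases k' <;> simp at hw hw' ⊢ <;> omega
      rw [this]
      exact he

/-- a primal left-right path and a dual bottom-top path do not coexist -/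
theorem no_cross {z : Cfz} {S S' : Set P2} {a b f g : P2} (h1 : OC z S a b)
    (h2 : OC (dual z) S' f g) (hy : ∀ w ∈ S, f.2 < w.2 ∧ w.2 ≤ g.2)
    (hx : ∀ w ∈ S', a.1 ≤ w.1 ∧ w.1 < b.1) : False := by
  have k1 := oc_dbl h1
  have k2 := walk_shift (oc_dbl h2)
  obtain ⟨w, hw1, hw2⟩ := cross k1 k2 (by
    rintro w (⟨v, hv, rfl⟩ | ⟨e, _, hs, ht, rfl⟩)
    · have := hy v hv
      simp only
      omega
    · have h3 := hy _ hs
      have h4 := hy _ ht
      simp only
      omega) (by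
    rintro w (⟨v, hv, hw⟩ | ⟨e, _, hs, ht, hw⟩)
    · have := hx v hv
      simp only [Prod.mk.injEq] at hw
      simp only
      omega
    · have h3 := hx _ hs
      have h4 := hx _ ht
      simp only [Prod.mk.injEq] at hw
      simp only
      omega)
  exact dbl_disj hw1 hw2

theorem not_both {z : Cfz} {x0 x1 y0 y1 : ℤ} (h1 : LRc z x0 x1 y0 y1)
    (h2 : BTc (dual z) x0 (x1 - 1) (y0 - 1) y1) : False := by
  obtain ⟨a, b, ha, hb, h1⟩ := h1
  obtain ⟨f, g, hf, hg, h2⟩ := h2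
  refine no_cross h1 h2 (fun w hw => ?_) (fun w hw => ?_)
  · rw [mem_rect] at hw
    omega
  · rw [mem_rect] at hw
    omega

/-! ### crossing probabilities and duality -/

/-- probability of crossing a rectangle `[0,L] × [0,H]` from left to right -/
def xpr (p : I) (L H : ℤ) : ℝ := lr (fun A => ((nu p) A).toReal) 0 L 0 H

theorem xpr_nonneg (p : I) (L H : ℤ) : 0 ≤ xpr p L H := ENNReal.toReal_nonneg

theorem lr_eq_xpr (p : I) (a b c d : ℤ) :
    (nu p).real {z | LRc z a b c d} = xpr p (b - a) (d - c) := (perc p).lr_eq a b c d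

theorem bt_eq_xpr (p : I) (a b c d : ℤ) :
    (nu p).real {z | BTc z a b c d} = xpr p (d - c) (b - a) := (perc p).bt_eq a b c d

theorem measurableSet_lr (a b c d : ℤ) : MeasurableSet {z : Cfz | LRc z a b c d} :=
  (lrc_incLoc a b c d).measurableSet

theorem measurableSet_bt (a b c d : ℤ) : MeasurableSet {z : Cfz | BTc z a b c d} :=
  (btc_incLoc a b c d).measurableSet

theorem nu_dual (p : I) {A : Set Cfz} (hA : MeasurableSet A) :
    (nu p).real (dual ⁻¹' A) = (nu (σ p)).real A := by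
  have h := map_dual p
  unfold nu
  rw [← h, measureReal_def, measureReal_def, Measure.map_apply measurable_dual hA]

/-- **Self-duality** of crossing probabilities. -/
theorem xpr_dual (p : I) (L H : ℤ) (hL : 0 < L) (hH : 0 ≤ H) :
    xpr p L H + xpr (σ p) (H + 1) (L - 1) = 1 := by
  have h1 : (nu p).real {z | LRc z 0 L 0 H} = xpr p L H := by
    rw [lr_eq_xpr, sub_zero, sub_zero]
  have h2 : (nu (σ p)).real {z | BTc z 0 (L - 1) (0 - 1) H} = xpr (σ p) (H + 1) (L - 1) := by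
    rw [bt_eq_xpr]
    congr 1
    ring
  rw [← h1, ← h2, ← nu_dual p (measurableSet_bt _ _ _ _)]
  have h3 : dual ⁻¹' {z | BTc z 0 (L - 1) (0 - 1) H} = {z : Cfz | LRc z 0 L 0 H}ᶜ := by
    ext z
    constructor
    · intro hz hz'
      exact not_both hz' hz
    · intro hz
      exact (lr_or_bt z 0 L 0 H hL hH).resolve_left hz
  rw [h3, probReal_compl_eq_one_sub (measurableSet_lr _ _ _ _)]
  ring

/-- the parameter `1/2` -/
def hf : I := ⟨1 / 2, by norm_num, by norm_num⟩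

theorem sigma_hf : σ hf = hf := by
  ext
  simp [hf]
  norm_num

theorem clampUnit_half : Crest.ProbabilityR.Percolation.clampUnit (1 / 2) = hf := by
  unfold Crest.ProbabilityR.Percolation.clampUnit hf
  rw [Set.projIcc_of_mem (hx := ⟨by norm_num, by norm_num⟩)]

theorem xpr_self (n : ℤ) (hn : 0 ≤ n) : xpr hf (n + 1) n = 1 / 2 := by
  have h := xpr_dual hf (n + 1) n (by omega) hn
  rw [sigma_hf, add_sub_cancel_right] at h
  linarith

theorem xpr_mono (p : I) {L H L' H' : ℤ} (hL' : 0 ≤ L') (hL : L' ≤ L) (hH : H ≤ H') :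
    xpr p L H ≤ xpr p L' H' := (perc p).h_mono hL' hL hH

theorem xpr_sq (n : ℤ) (hn : 0 ≤ n) : 1 / 2 ≤ xpr hf n n := by
  rw [← xpr_self n hn]
  exact xpr_mono hf hn (by omega) le_rfl

end Crest.Agent.R158.Rs689
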