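import Crest.Agent.R158.Ad4_350
import Crest.Agent.R158.Ao8_857
import Crest.Agent.R158.Pt1_266
import Crest.Agent.R158.Rs3_689

/-!
# Block AD, leg with a fixed arrow, lists of operations, walks of the environment (helper350)

* `Net.zv C x₀ v` : orientations with given arrow at `x₀`; `zv_classes`, `zv_leg`
* `Rep.tiles_leg`, `rep_opL`
* `Wk_Wa` : strands of `Pt266` = walks of `tnet`
-/

set_option autoImplicit false
set_option linter.unusedSectionVars false

noncomputable section

open Finset
open Crest.Agent.R158.Sw300 (Port thru thru_thru thru_ne tn)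

namespace Crest.Agent.R158.Ad350

open St

namespace Net

variable {P : Type*} [DecidableEq P] {N : Net P}

/-- sum over the consistent orientations with given arrow at `x₀` -/
def zv (N : Net P) (C : Finset P) (x₀ : P) (v : Bool) : ℂ :=
  ∑ B ∈ C.powerset with N.good C B ∧ decide (x₀ ∈ B) = v, ei (N.ph C B)

lemma zv_add (C : Finset P) (x₀ : P) : N.zv C x₀ true + N.zv C x₀ false = N.z C := by
  unfold zv z
  rw [← Finset.sum_filter_add_sum_filter_not (C.powerset.filter (fun B => N.good C B))
    (fun B => x₀ ∈ B)]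
  rw [Finset.filter_filter, Finset.filter_filter]
  congr 1 <;> refine Finset.sum_congr ?_ fun _ _ => rfl <;> refine Finset.filter_congr ?_ <;>
    intro B _ <;> simp

lemma zv_congr {N' : Net P} {C : Finset P} (ha : ∀ p ∈ C, N.al p = N'.al p)
    (hb : ∀ p ∈ C, N.be p = N'.be p) (ho : ∀ p ∈ C, N.om p = N'.om p) (x₀ : P) (v : Bool) :
    N.zv C x₀ v = N'.zv C x₀ v := by
  unfold zv
  have hg : ∀ B, N.good C B ↔ N'.good C B := by
    intro B
    unfold good
    exact forall₂_congr fun p hp => by rw [ha p hp, hb p hp]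
  simp only [hg]
  refine Finset.sum_congr rfl fun B _ => ?_
  unfold ph
  congr 1
  exact Finset.sum_congr rfl fun p hp => by rw [ho p hp]

theorem zv_union {C D : Finset P} (hC : N.Cl C) (hD : N.Cl D) (hCD : Disjoint C D) {x₀ : P}
    (hx : x₀ ∈ C) (v : Bool) : N.zv (C ∪ D) x₀ v = N.zv C x₀ v * N.z D := by
  unfold zv z
  rw [sum_pow_union hCD (fun B => N.good C B ∧ decide (x₀ ∈ B) = v) (fun B => N.good D B)
    (fun B => N.good (C ∪ D) B ∧ decide (x₀ ∈ B) = v)]
  · rw [Finset.sum_mul_sum]
    refine Finset.sum_congr rfl fun B1 h1 => Finset.sum_congr rfl fun B2 h2 => ?_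
    have h1' := Finset.mem_powerset.1 (Finset.mem_filter.1 h1).1
    have h2' := Finset.mem_powerset.1 (Finset.mem_filter.1 h2).1
    rw [ph_union hCD h1' h2', ei_add]
  · intro B1 h1 B2 h2
    rw [good_union hC hD hCD h1 h2, decide_eq_decide.2 (mem_union_left_iff hCD h2 hx)]
    tauto

/-- **the strand of `x₀` and the others** -/
theorem zv_classes (h : N.Ok) {C : Finset P} (hC : N.Cl C) {x₀ : P} (hx : x₀ ∈ C) (v : Bool) :
    N.zv C x₀ v = N.zv (N.cls x₀) x₀ v * ∏ c ∈ (N.classes C).erase (N.cls x₀), N.z c := by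
  have hsub : N.cls x₀ ⊆ C := fun q hq => Cn.mem hC hx (mem_cls.1 hq).2
  have hcl := cls_cl h x₀
  have hsd : N.Cl (C \ N.cls x₀) := hC.sdiff h hcl
  have e1 : C = N.cls x₀ ∪ (C \ N.cls x₀) := (Finset.union_sdiff_of_subset hsub).symm
  have e2 : N.classes (C \ N.cls x₀) = (N.classes C).erase (N.cls x₀) := by
    ext c
    simp only [classes, Finset.mem_image, Finset.mem_erase, Finset.mem_sdiff]
    constructor
    · rintro ⟨p, ⟨hp, hp'⟩, rfl⟩
      refine ⟨fun e => hp' ?_, p, hp, rfl⟩
      rw [← e]
      exact self_mem_cls (hC.sub hp)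
    · rintro ⟨hne, p, hp, rfl⟩
      exact ⟨p, ⟨hp, fun k => hne (cls_eq_of_mem h (hC.sub hx) k)⟩, rfl⟩
  conv_lhs => rw [e1]
  rw [zv_union hcl hsd Finset.disjoint_sdiff (self_mem_cls (hC.sub hx)), z_classes h hsd, e2]

/-- **the leg strand** -/
theorem Strand.zv (h : N.Ok) {x : P} (hx : x ∈ N.V) {n : ℕ} (hs : N.Strand x n) (v : Bool) :
    N.zv (N.cls x) x v = ei (sg (!v) * N.W x n) := by
  have hcl := hs.cl h hx
  have hd := hs.disj h hx
  have hI : N.good (N.Iw x n ∪ N.Ow x n) (N.Iw x n) := by
    intro p hp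
    rcases Finset.mem_union.1 hp with hp | hp
    · refine ⟨iff_of_false (Finset.disjoint_right.1 hd (al_I hp)) (not_not.2 hp), fun k => ?_⟩
      rcases hs.be_I h hx hp with k' | k'
      · exact absurd k' k
      · exact iff_of_false (Finset.disjoint_right.1 hd k') (not_not.2 hp)
    · have hp' := Finset.disjoint_right.1 hd hp
      refine ⟨iff_of_true (al_O h hx hp) hp', fun k => ?_⟩
      rcases hs.be_O hp with k' | k'
      · exact absurd k' k
      · exact iff_of_true k' hp'
  have hO : N.good (N.Iw x n ∪ N.Ow x n) (N.Ow x n) := by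
    intro p hp
    rcases Finset.mem_union.1 hp with hp | hp
    · have hp' := Finset.disjoint_left.1 hd hp
      refine ⟨iff_of_true (al_I hp) hp', fun k => ?_⟩
      rcases hs.be_I h hx hp with k' | k'
      · exact absurd k' k
      · exact iff_of_true k' hp'
    · refine ⟨iff_of_false (Finset.disjoint_left.1 hd (al_O h hx hp)) (not_not.2 hp), fun k => ?_⟩
      rcases hs.be_O hp with k' | k'
      · exact absurd k' k
      · exact iff_of_false (Finset.disjoint_left.1 hd k') (not_not.2 hp)
  have hxI : x ∈ N.Iw x n := mem_Iw.2 ⟨0, by omega, rfl⟩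
  have hxO : x ∉ N.Ow x n := Finset.disjoint_left.1 hd hxI
  have hcls := hs.cls h hx
  have hW : N.W x n = ∑ p ∈ N.Ow x n, N.om p - ∑ p ∈ N.Iw x n, N.om p := by
    have inj := hs.inj h hx
    unfold W Ow Iw
    rw [Finset.sum_sub_distrib, Finset.sum_image, Finset.sum_image]
    · intro i hi j hj e
      simp only [Finset.coe_range, Set.mem_Iio] at hi hj
      exact inj i j (by omega) (by omega) e
    · intro i hi j hj e
      simp only [Finset.coe_range, Set.mem_Iio] at hi hj
      refine inj i j (by omega) (by omega) ?_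
      have := congrArg N.al e
      rwa [h.al2 _ (it_mem h hx i), h.al2 _ (it_mem h hx j)] at this
  have hcn : ∀ q ∈ N.Iw x n ∪ N.Ow x n, N.Cn x q := by
    intro q hq
    rw [← hcls] at hq
    exact (mem_cls.1 hq).2
  rw [hcls]
  unfold Net.zv
  cases v with
  | true =>
    have hset : (N.Iw x n ∪ N.Ow x n).powerset.filter (fun B => N.good (N.Iw x n ∪ N.Ow x n) B ∧
        decide (x ∈ B) = true) = {N.Iw x n} := by
      ext B
      simp only [Finset.mem_filter, Finset.mem_powerset, Finset.mem_singleton, decide_eq_true_eq]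
      constructor
      · rintro ⟨hB, hg, hxB⟩
        ext q
        by_cases hq : q ∈ N.Iw x n ∪ N.Ow x n
        · exact good_Cn hcl hg hI (Finset.mem_union_left _ hxI) (hcn q hq)
            (iff_of_true hxB hxI)
        · exact iff_of_false (fun k => hq (hB k)) fun k => hq (Finset.mem_union_left _ k)
      · rintro rfl
        exact ⟨Finset.subset_union_left, hI, hxI⟩
    rw [hset, Finset.sum_singleton]
    congr 1
    rw [hW]
    unfold ph
    rw [Finset.sum_union hd]
    have s1 : ∑ p ∈ N.Iw x n, N.om p * sg (decide (p ∈ N.Iw x n)) = ∑ p ∈ N.Iw x n, N.om p := by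
      refine Finset.sum_congr rfl fun p hp => ?_
      rw [decide_eq_true hp, sg_true]
      ring
    have s2 : ∑ p ∈ N.Ow x n, N.om p * sg (decide (p ∈ N.Iw x n)) =
        -∑ p ∈ N.Ow x n, N.om p := by
      rw [← Finset.sum_neg_distrib]
      refine Finset.sum_congr rfl fun p hp => ?_
      rw [decide_eq_false (Finset.disjoint_right.1 hd hp), sg_false]
      ring
    rw [s1, s2]
    simp
    ring
  | false =>
    have hset : (N.Iw x n ∪ N.Ow x n).powerset.filter (fun B => N.good (N.Iw x n ∪ N.Ow x n) B ∧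
        decide (x ∈ B) = false) = {N.Ow x n} := by
      ext B
      simp only [Finset.mem_filter, Finset.mem_powerset, Finset.mem_singleton,
        decide_eq_false_iff_not]
      constructor
      · rintro ⟨hB, hg, hxB⟩
        ext q
        by_cases hq : q ∈ N.Iw x n ∪ N.Ow x n
        · exact good_Cn hcl hg hO (Finset.mem_union_left _ hxI) (hcn q hq)
            (iff_of_false hxB hxO)
        · exact iff_of_false (fun k => hq (hB k)) fun k => hq (Finset.mem_union_right _ k)
      · rintro rfl
        exact ⟨Finset.subset_union_right, hO, hxO⟩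
    rw [hset, Finset.sum_singleton]
    congr 1
    rw [hW]
    unfold ph
    rw [Finset.sum_union hd]
    have s1 : ∑ p ∈ N.Iw x n, N.om p * sg (decide (p ∈ N.Ow x n)) =
        -∑ p ∈ N.Iw x n, N.om p := by
      rw [← Finset.sum_neg_distrib]
      refine Finset.sum_congr rfl fun p hp => ?_
      rw [decide_eq_false (Finset.disjoint_left.1 hd hp), sg_false]
      ring
    have s2 : ∑ p ∈ N.Ow x n, N.om p * sg (decide (p ∈ N.Ow x n)) = ∑ p ∈ N.Ow x n, N.om p := by
      refine Finset.sum_congr rfl fun p hp => ?_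
      rw [decide_eq_true hp, sg_true]
      ring
    rw [s1, s2]
    simp
    ring

/-- the leg strand, list form: `false` = the arrow enters at `x` -/
theorem zv_leg (h : N.Ok) {x y : P} (hx : x ∈ N.V) {l : List P} (w : N.Wa x y l)
    (h1 : N.be x = x) (h2 : N.be y = y) (v : Bool) :
    N.zv (N.cls x) x v = ei (sg (!v) * N.wl l) := by
  obtain ⟨n, rfl, rfl, h3⟩ := w.data
  have hs : N.Strand x n := ⟨h3, Or.inl ⟨h1, h2⟩⟩
  rw [hs.zv h hx, wl_eq]

/-- every strand with a fixed arrow has norm at most one -/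
lemma norm_zv_cls_le (h : N.Ok) {x : P} (hx : x ∈ N.V) (v : Bool) :
    ‖N.zv (N.cls x) x v‖ ≤ 1 := by
  unfold zv
  refine (norm_sum_le _ _).trans ?_
  have e1 : ∀ B ∈ (N.cls x).powerset.filter (fun B => N.good (N.cls x) B ∧
      decide (x ∈ B) = v), ‖ei (N.ph (N.cls x) B)‖ = 1 := fun B _ =>
    Complex.norm_exp_ofReal_mul_I _
  rw [Finset.sum_congr rfl e1, Finset.sum_const, nsmul_eq_mul, mul_one]
  have hx' := self_mem_cls hx
  have e2 : ((N.cls x).powerset.filter (fun B => N.good (N.cls x) B ∧
      decide (x ∈ B) = v)).card ≤ 1 := by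
    rw [Finset.card_le_one]
    intro B hB B' hB'
    simp only [Finset.mem_filter, Finset.mem_powerset] at hB hB'
    ext q
    by_cases hq : q ∈ N.cls x
    · refine good_Cn (cls_cl h x) hB.2.1 hB'.2.1 hx' (mem_cls.1 hq).2 ?_
      exact decide_eq_decide.1 (hB.2.2.trans hB'.2.2.symm)
    · exact iff_of_false (fun k => hq (hB.1 k)) fun k => hq (hB'.1 k)
  exact_mod_cast e2

end Net

/-! ### contraction with one open end -/

section leg

variable {T : Type*} [DecidableEq T]

/-- **all ports except `x₀` are operated** -/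
theorem Rep.tiles_leg {be : Port T → Port T} {ch : Port T → ℝ}
    {Φ : ((Port T → Bool) → ℂ) → (Port T → Bool) → ℂ} {A : Finset T} {x₀ : Port T}
    (h : Rep be ch Φ ((ports A).erase x₀)) (hx : x₀ ∈ ports A) (hb0 : be x₀ = x₀)
    (hc0 : ch x₀ = 0) (σ : Port T → Bool) : Φ (tilesF A) σ =
      (1 / 2) ^ A.card * ∑ S ∈ A.powerset,
        (tnet A (fun t => decide (t ∈ S)) be ch).zv (ports A) x₀ (σ x₀) := by
  rw [h.2, Finset.mul_sum]
  have e1 : ∀ B, ei (pb ch ((ports A).erase x₀) B) * tilesF A (ov ((ports A).erase x₀) B σ) =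
      ∑ S ∈ A.powerset, (1 / 2) ^ A.card * (ei (pb ch ((ports A).erase x₀) B) *
        (ts A fun t => decide (t ∈ S)).vec (ov ((ports A).erase x₀) B σ)) := by
    intro B
    rw [tiles_expand, ← Finset.mul_sum, ← Finset.mul_sum]
    ring
  rw [Finset.sum_congr rfl fun B _ => e1 B, Finset.sum_comm]
  refine Finset.sum_congr rfl fun S _ => ?_
  rw [← Finset.mul_sum]
  congr 1
  set s : T → Bool := fun t => decide (t ∈ S) with hs
  set D := (ports A).erase x₀ with hD
  have hxD : x₀ ∉ D := Finset.notMem_erase x₀ _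
  have hVD : ports A = insert x₀ D := (Finset.insert_erase hx).symm
  -- the arrow at `x₀` as a set
  set e : Finset (Port T) → Finset (Port T) := fun B => if σ x₀ = true then insert x₀ B else B
    with he
  have hmem : ∀ B ⊆ D, ∀ p, (p ∈ e B ↔ (p = x₀ ∧ σ x₀ = true) ∨ p ∈ B) := by
    intro B _ p
    simp only [he]
    split_ifs with hσ
    · rw [Finset.mem_insert]; simp [hσ]
    · simp [hσ]
  have hmemD : ∀ B ⊆ D, ∀ p, p ≠ x₀ → (p ∈ e B ↔ p ∈ B) := by
    intro B hB p hp
    rw [hmem B hB]
    simp [hp]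
  have hmemx : ∀ B ⊆ D, (x₀ ∈ e B ↔ σ x₀ = true) := by
    intro B hB
    rw [hmem B hB]
    constructor
    · rintro (h1 | h1)
      · exact h1.2
      · exact absurd (hB h1) hxD
    · exact fun h1 => Or.inl ⟨rfl, h1⟩
  have hov : ∀ B ⊆ D, ∀ p ∈ ports A, ov D B σ p = decide (p ∈ e B) := by
    intro B hB p hp
    unfold ov
    by_cases hpx : p = x₀
    · subst hpx
      rw [if_neg hxD]
      by_cases hσ : σ p = true
      · rw [decide_eq_true ((hmemx B hB).2 hσ), hσ]
      · rw [decide_eq_false (fun k => hσ ((hmemx B hB).1 k)), Bool.eq_false_iff.2 hσ]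
    · rw [if_pos (Finset.mem_erase.2 ⟨hpx, hp⟩)]
      exact decide_eq_decide.2 (hmemD B hB p hpx).symm
  have hV : ∀ p ∈ ports A, (ts A s).m p ∈ ports A := (ts_ok A s).mem
  have hgood : ∀ B ⊆ D, ((ts A s).good (ov D B σ) ↔
      ∀ p ∈ ports A, ((ts A s).m p ∈ e B ↔ p ∉ e B)) := by
    intro B hB
    unfold St.good
    refine forall₂_congr fun p hp => ?_
    rw [hov B hB p hp, hov B hB _ (hV p hp)]
    by_cases h1 : p ∈ e B <;> by_cases h2 : (ts A s).m p ∈ e B <;> simp [h1, h2]
  have hgb : ∀ B ⊆ D, (gb be D B ↔ ∀ p ∈ ports A, be p ≠ p → (be p ∈ e B ↔ p ∉ e B)) := by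
    intro B hB
    unfold gb
    constructor
    · intro k p hp hne
      have hpx : p ≠ x₀ := fun e' => hne (by rw [e', hb0])
      have hpD : p ∈ D := Finset.mem_erase.2 ⟨hpx, hp⟩
      have hbD := h.1 p hpD
      rw [hmemD B hB _ (Finset.ne_of_mem_erase hbD), hmemD B hB _ hpx]
      exact k p hpD hne
    · intro k p hpD hne
      have := k p (Finset.mem_of_mem_erase hpD) hne
      rwa [hmemD B hB _ (Finset.ne_of_mem_erase (h.1 p hpD)),
        hmemD B hB _ (Finset.ne_of_mem_erase hpD)] at this
  have hfil : ∀ B ⊆ D, ((tnet A s be ch).good (ports A) (e B) ↔ gb be D B ∧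
      (ts A s).good (ov D B σ)) := by
    intro B hB
    rw [hgood B hB, hgb B hB]
    unfold Net.good
    constructor
    · intro k
      exact ⟨fun p hp => (k p hp).2, fun p hp => (k p hp).1⟩
    · rintro ⟨k1, k2⟩ p hp
      exact ⟨k2 p hp, k1 p hp⟩
  have hterm : ∀ B ∈ D.powerset.filter (fun B => gb be D B),
      ei (pb ch D B) * (ts A s).vec (ov D B σ) =
        if (tnet A s be ch).good (ports A) (e B) then ei ((tnet A s be ch).ph (ports A) (e B))
        else 0 := by
    intro B hB
    obtain ⟨hB1, hB2⟩ := Finset.mem_filter.1 hB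
    have hB1 := Finset.mem_powerset.1 hB1
    rw [St.vec]
    by_cases h2 : (ts A s).good (ov D B σ)
    · rw [if_pos h2, if_pos ((hfil B hB1).2 ⟨hB2, h2⟩), ← ei_add]
      congr 1
      have hL : (ts A s).L = ports A := rfl
      have e2 : pb ch D B = ∑ p ∈ ports A, ch p * sg (decide (p ∈ e B)) := by
        rw [hVD, Finset.sum_insert hxD, hc0, zero_mul, zero_add]
        unfold pb
        refine Finset.sum_congr rfl fun p hp => ?_
        rw [decide_eq_decide.2 (hmemD B hB1 p (Finset.ne_of_mem_erase hp)).symm]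
      rw [e2]
      unfold Net.ph St.ph
      rw [Finset.sum_div, hL, ← Finset.sum_add_distrib]
      refine Finset.sum_congr rfl fun p hp => ?_
      have e3 : ov D B σ ((ts A s).m p) = !ov D B σ p := h2 p hp
      rw [e3, hov B hB1 p hp, sg_not]
      simp only [tnet]
      ring
    · rw [if_neg h2, if_neg fun k => h2 ((hfil B hB1).1 k).2, mul_zero]
  rw [Finset.sum_congr rfl hterm, ← Finset.sum_filter, Finset.filter_filter]
  unfold Net.zv
  refine Finset.sum_bij' (fun B _ => e B) (fun B _ => B.erase x₀) ?_ ?_ ?_ ?_ ?_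
  · intro B hB
    simp only [Finset.mem_filter, Finset.mem_powerset] at hB ⊢
    refine ⟨?_, hB.2.2, ?_⟩
    · intro p hp
      rcases (hmem B hB.1 p).1 hp with k | k
      · rw [k.1]; exact hx
      · exact Finset.mem_of_mem_erase (hB.1 k)
    · by_cases hσ : σ x₀ = true
      · rw [decide_eq_true ((hmemx B hB.1).2 hσ), hσ]
      · rw [decide_eq_false (fun k => hσ ((hmemx B hB.1).1 k)), Bool.eq_false_iff.2 hσ]
  · intro B hB
    simp only [Finset.mem_filter, Finset.mem_powerset] at hB ⊢
    have hs1 : B.erase x₀ ⊆ D := Finset.erase_subset_erase _ hB.1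
    have hs2 : e (B.erase x₀) = B := by
      simp only [he]
      split_ifs with hσ
      · rw [hσ, decide_eq_true_eq] at hB
        exact Finset.insert_erase hB.2.2
      · rw [Bool.eq_false_iff.2 hσ, decide_eq_false_iff_not] at hB
        exact Finset.erase_eq_of_notMem hB.2.2
    have hg : (tnet A s be ch).good (ports A) (e (B.erase x₀)) := by rw [hs2]; exact hB.2.1
    exact ⟨hs1, ((hfil _ hs1).1 hg).1, hg⟩
  · intro B hB
    simp only [Finset.mem_filter, Finset.mem_powerset] at hB
    ext p
    rw [Finset.mem_erase]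
    constructor
    · rintro ⟨h1, h2⟩
      exact (hmemD B hB.1 p h1).1 h2
    · intro h1
      have hpx : p ≠ x₀ := fun e' => hxD (e' ▸ hB.1 h1)
      exact ⟨hpx, (hmemD B hB.1 p hpx).2 h1⟩
  · intro B hB
    simp only [Finset.mem_filter, Finset.mem_powerset] at hB
    simp only [he]
    split_ifs with hσ
    · rw [hσ, decide_eq_true_eq] at hB
      exact Finset.insert_erase hB.2.2
    · rw [Bool.eq_false_iff.2 hσ, decide_eq_false_iff_not] at hB
      exact Finset.erase_eq_of_notMem hB.2.2
  · intro B hB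
    rfl

end leg

/-! ### lists of operations -/

section ops

open Crest.Agent.R158.Ao857 (Op Op.pts opF opL opL_cons opL_nil opF_inl opF_inr flat)

variable {P : Type*} [DecidableEq P] {be : P → P} {ch : P → ℝ}

/-- `be`, `ch` describe the operation -/
def OOk (be : P → P) (ch : P → ℝ) : Op P → Prop
  | Sum.inl e => be e.2.1 = e.2.2 ∧ be e.2.2 = e.2.1 ∧ ch e.2.1 - ch e.2.2 = e.1
  | Sum.inr e => be e.2 = e.2 ∧ ch e.2 = e.1

/-- **lists of operations** -/
theorem rep_opL {l : List (Op P)} (hn : (flat l).Nodup) (h : ∀ o ∈ l, OOk be ch o) :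
    Rep be ch (opL l) (flat l).toFinset := by
  induction l with
  | nil => exact rep_id
  | cons o l ih =>
    have e1 : flat (o :: l) = o.pts ++ flat l := by simp [flat]
    rw [e1, List.nodup_append] at hn
    obtain ⟨h1, h2, h3⟩ := hn
    have ho := h o List.mem_cons_self
    have k : Rep be ch (opF o) o.pts.toFinset := by
      cases o with
      | inl e =>
        have hne : e.2.1 ≠ e.2.2 := by
          simp [Op.pts] at h1
          exact h1
        have e2 : (Op.pts (Sum.inl e)).toFinset = {e.2.1, e.2.2} := by simp [Op.pts]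
        rw [e2]
        exact rep_ctr hne ho.1 ho.2.1 ho.2.2
      | inr e =>
        have e2 : (Op.pts (Sum.inr e)).toFinset = {e.2} := by simp [Op.pts]
        rw [e2]
        exact rep_cut ho.1 ho.2
    have hd : Disjoint (flat l).toFinset o.pts.toFinset := by
      rw [Finset.disjoint_left]
      intro q hq hq'
      exact h3 q (List.mem_toFinset.1 hq') q (List.mem_toFinset.1 hq) rfl
    have := (ih h2 fun o' ho' => h o' (List.mem_cons_of_mem _ ho')).comp k hd
    rw [e1, List.toFinset_append, Finset.union_comm]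
    exact this

end ops

/-! ### strands of the environment -/

section walks

open Crest.Agent.R158.Pt266 (Wk pass tt)

variable {T : Type*} [DecidableEq T]

/-- strands of `Pt266` are walks of the network -/
theorem Wk_Wa {A : Finset T} {s : T → Bool} {be : Port T → Port T} {ch : Port T → ℝ}
    {G : T × ZMod 4 → T × ZMod 4 → Prop} (hG : ∀ a b, G a b → be (some a) = some b ∧ a ≠ b)
    {x y : T × ZMod 4} {l : List (T × ZMod 4)} (w : Wk s G x y l) :
    (tnet A s be ch).Wa (some x) (some y) (l.map some) := by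
  induction w with
  | one => exact Net.Wa.one _
  | @snoc q r l w hg ih =>
    obtain ⟨h1, h2⟩ := hG q r hg
    rw [List.map_append, List.map_singleton]
    have := Net.Wa.snoc ih (by
      show be (some q) ≠ some q
      rw [h1]
      exact fun e => h2 (Option.some.inj e).symm)
    have e : (tnet A s be ch).be (some q) = some r := h1
    rw [e] at this
    exact this

lemma tql_tt (s : T → Bool) (l : List (T × ZMod 4)) : tql s (l.map some) = -(tt s l : ℝ) := by
  induction l with
  | nil => simp [tql, tt]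
  | cons p l ih =>
    have e1 : tql s ((p :: l).map some) = tq (s p.1) p.2 + tql s (l.map some) := by simp [tql]
    rw [e1, ih, Pt266.tt_cons, tq_eq]
    push_cast
    ring

end walks

/-! ### probability form -/

section prob

open MeasureTheory
open Crest.Agent.R158.Rs689 (PB hf bern wt)

variable {T : Type*} [DecidableEq T]

lemma integral_restrict_c (w : T → unitInterval) (S : Finset T) (f : (S → Bool) → ℂ) :
    ∫ z, f (S.restrict z) ∂(PB w) = ∑ y, (wt w S y : ℂ) * f y := by
  classical
  have h : (PB w).map S.restrict = Measure.pi fun e : S => bern (w e) :=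
    Measure.infinitePi_map_restrict _
  rw [← integral_map (φ := S.restrict) (Finset.measurable_restrict S).aemeasurable
    (Measurable.of_discrete).aestronglyMeasurable, h, integral_fintype Integrable.of_finite]
  refine Finset.sum_congr rfl fun y _ => ?_
  rw [Rs689.pi_real_singleton]
  rfl

lemma wt_half (S : Finset T) (y : S → Bool) : wt (fun _ : T => hf) S y = (1 / 2) ^ S.card := by
  have h : ∀ b : Bool, (bern hf).real {b} = 1 / 2 := by
    intro b
    cases b with
    | true => rw [Rs689.bern_real_true]; rfl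
    | false =>
      rw [Rs689.bern_real_false]
      show (1 : ℝ) - 1 / 2 = 1 / 2
      norm_num
  unfold wt
  rw [Finset.prod_congr rfl fun e _ => h (y e), Finset.prod_const, Finset.card_univ,
    Fintype.card_coe]

/-- **finite sum over splittings = expectation** -/
theorem pow_sum_eq_integral (A : Finset T) (f : (T → Bool) → ℂ)
    (hf' : ∀ s s' : T → Bool, (∀ t ∈ A, s t = s' t) → f s = f s') :
    (1 / 2) ^ A.card * ∑ S ∈ A.powerset, f (fun t => decide (t ∈ S)) =
      ∫ s, f s ∂(PB fun _ : T => hf) := by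
  classical
  set F : (A → Bool) → ℂ := fun y => f fun t => if h : t ∈ A then y ⟨t, h⟩ else false with hF
  have e1 : ∀ s, f s = F (A.restrict s) := by
    intro s
    rw [hF]
    refine hf' _ _ fun t ht => ?_
    simp only [dif_pos ht]
    rfl
  simp_rw [e1]
  rw [integral_restrict_c, Finset.mul_sum]
  simp_rw [wt_half]
  refine Finset.sum_bij' (fun S _ => A.restrict fun t => decide (t ∈ S))
    (fun y _ => (Finset.univ.filter fun e : A => y e = true).map (Function.Embedding.subtype _))
    ?_ ?_ ?_ ?_ ?_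
  · intro S _; exact Finset.mem_univ _
  · intro y _
    rw [Finset.mem_powerset]
    intro t ht
    obtain ⟨e, _, rfl⟩ := Finset.mem_map.1 ht
    exact e.2
  · intro S hS
    ext t
    simp only [Finset.mem_map, Finset.mem_filter, Finset.mem_univ, true_and, Finset.restrict,
      decide_eq_true_eq, Function.Embedding.subtype_apply, Subtype.exists, exists_and_right,
      exists_eq_right]
    exact ⟨fun h => h.2, fun h => ⟨Finset.mem_powerset.1 hS h, h⟩⟩
  · intro y _
    funext e
    simp only [Finset.restrict]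
    by_cases h : y e = true
    · rw [h, decide_eq_true_eq]
      exact Finset.mem_map.2 ⟨e, by simp [h], rfl⟩
    · rw [Bool.eq_false_iff.2 h, decide_eq_false_iff_not]
      intro k
      obtain ⟨e', he', h2⟩ := Finset.mem_map.1 k
      have : e' = e := Subtype.ext h2
      rw [this] at he'
      exact h (Finset.mem_filter.1 he').2
  · intro S _
    push_cast
    rfl

/-- **the value of a closed network as an expectation** -/
theorem Rep.tiles_int {be : Port T → Port T} {ch : Port T → ℝ}
    {Φ : ((Port T → Bool) → ℂ) → (Port T → Bool) → ℂ} {A : Finset T}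
    (h : Rep be ch Φ (ports A)) (σ : Port T → Bool) : Φ (tilesF A) σ =
      ∫ s, (tnet A s be ch).z (ports A) ∂(PB fun _ : T => hf) := by
  rw [h.tiles σ, ← pow_sum_eq_integral A (fun s => (tnet A s be ch).z (ports A))
    (fun s s' hs => tnet_congr be ch hs (Finset.Subset.refl _))]

lemma tnet_congr_zv {A : Finset T} {s s' : T → Bool} (be : Port T → Port T) (ch : Port T → ℝ)
    (h : ∀ t ∈ A, s t = s' t) {C : Finset (Port T)} (hC : C ⊆ ports A) (x₀ : Port T) (v : Bool) :
    (tnet A s be ch).zv C x₀ v = (tnet A s' be ch).zv C x₀ v := by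
  refine Net.zv_congr (N := tnet A s be ch) (N' := tnet A s' be ch) (C := C)
    (fun p hp => ?_) (fun p _ => rfl) (fun p hp => ?_) x₀ v
  · obtain ⟨t, d, rfl, ht⟩ := mem_ports' (hC hp)
    simp [tnet, ts, h t ht]
  · obtain ⟨t, d, rfl, ht⟩ := mem_ports' (hC hp)
    simp [tnet, ts, h t ht]

/-- **the same with one open end** -/
theorem Rep.tiles_leg_int {be : Port T → Port T} {ch : Port T → ℝ}
    {Φ : ((Port T → Bool) → ℂ) → (Port T → Bool) → ℂ} {A : Finset T} {x₀ : Port T}
    (h : Rep be ch Φ ((ports A).erase x₀)) (hx : x₀ ∈ ports A) (hb0 : be x₀ = x₀)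
    (hc0 : ch x₀ = 0) (σ : Port T → Bool) : Φ (tilesF A) σ =
      ∫ s, (tnet A s be ch).zv (ports A) x₀ (σ x₀) ∂(PB fun _ : T => hf) := by
  rw [h.tiles_leg hx hb0 hc0 σ, ← pow_sum_eq_integral A
    (fun s => (tnet A s be ch).zv (ports A) x₀ (σ x₀))
    (fun s s' hs => tnet_congr_zv be ch hs (Finset.Subset.refl _) _ _)]

end prob

end Crest.Agent.R158.Ad350
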