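import Crest.Agent.R158.Ao8_857

/-!
# Row 158: compatibility with `beG`, canonical lists of the plain parts (helper857)

* `seamG`, `chG` : phases with `chG a - chG b = χ` for every glueing, `chG q = φ q` for every cut end
* `OpOk be ch o`
* `bandOps_ok`, `joinLow_ok`, `joinUp_ok`


-/

set_option autoImplicit false

noncomputable section

open Finset Matrix

namespace Crest.Agent.R158.Ao857

open Crest.Agent.R158.Ad350
open Crest.Agent.R158.Sw300 (Port)
open Crest.Agent.R158.Bd932 (e3)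
open Crest.Agent.R158.Env664 (TG Band Run PortOf portOf_some portOf_none nbP res res_of Adj4 z4)

variable {A : Finset (ℤ × ℤ)} (B : Band A)

/-- seamG phases -/
def seamG (p y0 : ℤ) (c c' : ℝ) : Port TG → ℝ
  | none => 0
  | some (Sum.inl (x, y), d) =>
      if d = 0 ∧ x = B.xl ∧ B.y1 ≤ y ∧ y < B.y2 then (if y < y0 then c else c')
      else if d = 1 ∧ y = y0 - 1 ∧ B.xl ≤ x ∧ x < p then -e3 else 0
  | some (Sum.inr _, _) => 0

/-- phases of the ports of `G^(z)` -/
def chG (p y0 : ℤ) (c c' : ℝ) (φ : Port TG → ℝ) (q : Port TG) : ℝ :=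
  if B.beG p y0 q = q then φ q else seamG B p y0 c c' q

/-- compatibility of an operation with a glueing map and port phases -/
def OpOk (be : Port TG → Port TG) (ch : Port TG → ℝ) : Op (Port TG) → Prop
  | Sum.inl e => be e.2.1 = e.2.2 ∧ be e.2.2 = e.2.1 ∧ ch e.2.1 - ch e.2.2 = e.1
  | Sum.inr e => be e.2 = e.2 ∧ ch e.2 = e.1

lemma band_sub {p y0 : ℤ} (h : B.At p y0) {t : TG} (ht : t ∈ bandM B y0) : t ∈ B.tG y0 := by
  rcases t with ⟨x, y⟩ | ⟨i, y⟩
  · rw [inl_mem_band B h] at ht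
    rw [B.inl_mem]
    exact (B.run y ht.2.2.1 ht.2.2.2).mem x ht.1 ht.2.1
  · rw [inr_mem_band B h] at ht
    rw [B.inr_mem]
    exact ht

lemma beG_of {p y0 : ℤ} (h : B.At p y0) {s t : TG} {d d' : ZMod 4} (hs : s ∈ B.tG y0)
    (ht : t ∈ B.tG y0) (hn : B.nbG p y0 (some (s, d)) = some (t, d')) :
    B.beG p y0 (some (s, d)) = some (t, d') ∧ B.beG p y0 (some (t, d')) = some (s, d) := by
  have h1 : B.beG p y0 (some (s, d)) = some (t, d') := by
    unfold Band.beG
    rw [res_of (portOf_some.2 hs) (by rw [hn]; exact portOf_some.2 ht), hn]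
  refine ⟨h1, ?_⟩
  rw [← h1, B.beG_invol h]

lemma beG_fix {p y0 : ℤ} {s t : TG} {d d' : ZMod 4}
    (hn : B.nbG p y0 (some (s, d)) = some (t, d')) (ht : t ∉ B.tG y0) :
    B.beG p y0 (some (s, d)) = some (s, d) := by
  unfold Band.beG res
  rw [if_neg]
  rintro ⟨-, h2⟩
  rw [hn] at h2
  exact ht (portOf_some.1 h2)

lemma ok_glue {p y0 : ℤ} {c c' : ℝ} {φ : Port TG → ℝ} {χ : ℝ} {a b : Port TG} (hab : a ≠ b)
    (h : B.beG p y0 a = b ∧ B.beG p y0 b = a)
    (hs : seamG B p y0 c c' a - seamG B p y0 c c' b = χ) :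
    OpOk (B.beG p y0) (chG B p y0 c c' φ) (Sum.inl (χ, a, b)) := by
  refine ⟨h.1, h.2, ?_⟩
  show chG B p y0 c c' φ a - chG B p y0 c c' φ b = χ
  unfold chG
  rw [if_neg (by rw [h.1]; exact hab.symm), if_neg (by rw [h.2]; exact hab), hs]

lemma ok_cut {p y0 : ℤ} {c c' : ℝ} {φ : Port TG → ℝ} {q : Port TG} (h : B.beG p y0 q = q) :
    OpOk (B.beG p y0) (chG B p y0 c c' φ) (Sum.inr (φ q, q)) := by
  refine ⟨h, ?_⟩
  show chG B p y0 c c' φ q = φ q
  unfold chG
  rw [if_pos h]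

lemma seamG_inl0 {p y0 x y : ℤ} {c c' : ℝ} {d : ZMod 4}
    (h1 : ¬ (d = 0 ∧ x = B.xl ∧ B.y1 ≤ y ∧ y < B.y2))
    (h2 : ¬ (d = 1 ∧ y = y0 - 1 ∧ B.xl ≤ x ∧ x < p)) :
    seamG B p y0 c c' (some (Sum.inl (x, y), d)) = 0 := by
  simp only [seamG]; rw [if_neg h1, if_neg h2]

lemma seamG_gI {p y0 y : ℤ} {c c' : ℝ} {i : ℕ} {d : ZMod 4}
    (h1 : (i : ℤ) ≤ B.xr - B.xl → ¬ (d = 0 ∧ B.xl + (i : ℤ) = B.xl ∧ B.y1 ≤ y ∧ y < B.y2))
    (h2 : (i : ℤ) ≤ B.xr - B.xl → ¬ (d = 1 ∧ y = y0 - 1 ∧ B.xl ≤ B.xl + (i : ℤ) ∧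
      B.xl + (i : ℤ) < p)) :
    seamG B p y0 c c' (some (gI B i y, d)) = 0 := by
  by_cases hi : (i : ℤ) ≤ B.xr - B.xl
  · rw [gI_le B hi]
    exact seamG_inl0 B (h1 hi) (h2 hi)
  · rw [gI_gt B hi]
    rfl

lemma seamG_W {p y0 x y : ℤ} {c c' : ℝ} (h1 : x = B.xl) (h2 : B.y1 ≤ y) (h3 : y < B.y2) :
    seamG B p y0 c c' (some (Sum.inl (x, y), 0)) = if y < y0 then c else c' := by
  unfold seamG
  exact if_pos ⟨rfl, h1, h2, h3⟩

lemma seamG_N {p y0 x y : ℤ} {c c' : ℝ} (h1 : y = y0 - 1) (h2 : B.xl ≤ x) (h3 : x < p) :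
    seamG B p y0 c c' (some (Sum.inl (x, y), 1)) = -e3 := by
  unfold seamG
  show (if (1 : ZMod 4) = 0 ∧ x = B.xl ∧ B.y1 ≤ y ∧ y < B.y2 then (if y < y0 then c else c')
      else if (1 : ZMod 4) = 1 ∧ y = y0 - 1 ∧ B.xl ≤ x ∧ x < p then -e3 else 0) = -e3
  rw [if_neg (fun h => absurd h.1 (by decide)), if_pos ⟨rfl, h1, h2, h3⟩]

lemma z01 : (0 : ZMod 4) ≠ 1 := by decide
lemma z20 : (2 : ZMod 4) ≠ 0 := by decide
lemma z21 : (2 : ZMod 4) ≠ 1 := by decide
lemma z30 : (3 : ZMod 4) ≠ 0 := by decide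
lemma z31 : (3 : ZMod 4) ≠ 1 := by decide
lemma z10 : (1 : ZMod 4) ≠ 0 := by decide
lemma z02 : (0 : ZMod 4) ≠ 2 := by decide

/-- the horizontal glueings of a ring row -/
lemma row_ok {p y0 : ℤ} (h : B.At p y0) {c c' : ℝ} {φ : Port TG → ℝ} {m : ℕ} {y : ℤ}
    (hy1 : B.y1 ≤ y) (hy2 : y < B.y2) (hm : (m : ℤ) = B.xr - B.xl + B.wd y0 y)
    (i : Fin (m + 1)) :
    OpOk (B.beG p y0) (chG B p y0 c c' φ) (Sum.inl (if i = 0 then (if y < y0 then c else c') else 0,
      some (gI B i y, 0), some (gI B ((i - 1 : Fin (m + 1)) : ℕ) y, 2))) := by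
  have hwd : B.wd y0 y = if y < y0 then B.R else B.R + 1 := rfl
  have hR := B.hR
  have hle := le_run B h
  have hn := nn_eq B h
  have hmem : ∀ j : ℕ, j ≤ m → gI B j y ∈ B.tG y0 := by
    intro j hj
    apply band_sub B h
    rw [gI_mem_band B h]
    by_cases hy : y < y0
    · rw [if_pos hy] at hwd; omega
    · rw [if_neg hy] at hwd; omega
  have hi := i.2
  have hi1 := (i - 1 : Fin (m + 1)).2
  have hval : ((i - 1 : Fin (m + 1)) : ℕ) = if i = 0 then m else (i : ℕ) - 1 := Fin.coe_sub_one i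
  have hwp : 0 < B.wd y0 y := B.wd_pos y0 y
  apply ok_glue
  · exact fun h => z02 (by have := congrArg (fun q => Option.map Prod.snd q) h; simpa using this)
  · apply beG_of B h (hmem _ (by omega)) (hmem _ (by omega))
    by_cases h0 : i = 0
    · rw [if_pos h0] at hval
      have hi0 : (i : ℕ) = 0 := by rw [h0]; rfl
      rw [hval, hi0, gI_le B (by omega), gI_gt B (by omega),
        B.nbG_W1 ⟨by simp, hy1, hy2⟩]
      congr 3
      simp only [Prod.mk.injEq, and_true]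
      omega
    · rw [if_neg h0] at hval
      have hi0 : (i : ℕ) ≠ 0 := fun e => h0 (Fin.ext e)
      rw [hval]
      by_cases h1 : ((i : ℕ) : ℤ) ≤ B.xr - B.xl
      · rw [gI_le B h1, gI_le B (by omega), B.nbG_W (by omega)]
        congr 3
        simp only [Prod.mk.injEq, and_true]
        omega
      · by_cases h2 : ((i : ℕ) : ℤ) = B.xr - B.xl + 1
        · rw [gI_gt B h1, gI_le B (by omega)]
          have e1 : ((i : ℕ) : ℤ) - (B.xr - B.xl + 1) = 0 := by omega
          rw [e1, B.nbG_rW1]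
          congr 3
          simp only [Prod.mk.injEq, and_true]
          omega
        · rw [gI_gt B h1, gI_gt B (by omega), B.nbG_rW (by omega)]
          congr 3
          simp only [Prod.mk.injEq, and_true]
          omega
  · have s2 : seamG B p y0 c c' (some (gI B ((i - 1 : Fin (m + 1)) : ℕ) y, 2)) = 0 :=
      seamG_gI B (fun _ h => z20 h.1) (fun _ h => z21 h.1)
    rw [s2, sub_zero]
    by_cases h0 : i = 0
    · have hi0 : (i : ℕ) = 0 := by rw [h0]; rfl
      rw [if_pos h0, hi0, gI_le B (by omega), seamG_W B (by simp) hy1 hy2]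
    · have hi0 : (i : ℕ) ≠ 0 := fun e => h0 (Fin.ext e)
      rw [if_neg h0]
      exact seamG_gI B (fun _ h => by have := h.2.1; omega) (fun _ h => z01 h.1)

theorem bandOps_ok {p y0 : ℤ} (h : B.At p y0) (c c' : ℝ) (φ : Port TG → ℝ) :
    ∀ o ∈ bandOps B p y0 c c', OpOk (B.beG p y0) (chG B p y0 c c' φ) o := by
  have hn := nn_eq B h
  have ha := aa_eq B h
  have hb := bb_eq B h
  have hpp := pp_eq B h
  have hR := B.hR
  have hle := le_run B h
  have hy1 := h.hy1
  have hy2 := h.hy2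
  have hp1 := h.hp1
  have hp2 := h.hp2
  intro o ho
  unfold bandOps at ho
  rw [List.map_map, List.mem_map] at ho
  obtain ⟨e, he, rfl⟩ := ho
  -- rows
  have hrow : ∀ {m : ℕ} {k : ℝ} {y : ℕ}, e ∈ rowL m k y → (y : ℤ) < B.y2 - B.y1 →
      (m : ℤ) = B.xr - B.xl + B.wd y0 (B.y1 + y) → k = (if B.y1 + (y : ℤ) < y0 then c else c') →
      OpOk (B.beG p y0) (chG B p y0 c c' φ) ((Op.ren (tpm (gB B)) ∘ Sum.inl) e) := by
    intro m k y he hy hm hk
    obtain ⟨i, rfl⟩ := mem_rowL.1 he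
    have := row_ok B h (c := c) (c' := c') (φ := φ) (m := m) (y := B.y1 + y) (by omega) (by omega)
      hm i
    rw [← hk] at this
    exact this
  have hver : ∀ {m : ℕ} {y : ℕ}, e ∈ verL m y → (y : ℤ) + 1 < B.y2 - B.y1 →
      B.y1 + (y : ℤ) ≠ y0 - 1 → (m : ℤ) = B.xr - B.xl + B.wd y0 (B.y1 + y) →
      OpOk (B.beG p y0) (chG B p y0 c c' φ) ((Op.ren (tpm (gB B)) ∘ Sum.inl) e) := by
    intro m y he hy hyn hm
    obtain ⟨i, rfl⟩ := mem_verL.1 he
    have hwd : B.wd y0 (B.y1 + y) = if B.y1 + (y : ℤ) < y0 then B.R else B.R + 1 := rfl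
    have hi := i.2
    have hmem : ∀ k : ℤ, (k = 0 ∨ k = 1) → gI B i (B.y1 + (y : ℤ) + k) ∈ B.tG y0 := by
      intro k hk
      apply band_sub B h
      rw [gI_mem_band B h]
      by_cases hy : B.y1 + (y : ℤ) < y0
      · rw [if_pos hy] at hwd; omega
      · rw [if_neg hy] at hwd; omega
    have e2 : B.y1 + ((y + 1 : ℕ) : ℤ) = B.y1 + (y : ℤ) + 1 := by push_cast; ring
    show OpOk _ _ (Sum.inl (0, some (gI B i (B.y1 + (y : ℤ)), 1),
      some (gI B i (B.y1 + ((y + 1 : ℕ) : ℤ)), 3)))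
    rw [e2]
    apply ok_glue
    · exact some_ne fun h => by have := h.2; exact absurd this (by decide)
    · apply beG_of B h (by simpa using hmem 0 (Or.inl rfl)) (hmem 1 (Or.inr rfl))
      by_cases h1 : ((i : ℕ) : ℤ) ≤ B.xr - B.xl
      · rw [gI_le B h1, gI_le B h1, B.nbG_N (by omega)]
      · rw [gI_gt B h1, gI_gt B h1, B.nbG_rN hyn]
    · rw [seamG_gI B (fun _ h => z10 h.1) (fun _ h => hyn h.2.1),
        seamG_gI B (fun _ h => z30 h.1) (fun _ h => z31 h.1), sub_zero]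
  rcases mem_bandL.1 he with h1 | h1 | h1
  · rcases mem_blockL.1 h1 with ⟨y, k1, k2, k3⟩ | ⟨y, k1, k2, k3⟩
    · have hy : B.y1 + (y : ℤ) < y0 := by omega
      have hwd : B.wd y0 (B.y1 + y) = B.R := if_pos hy
      exact hrow k3 (by omega) (by rw [hwd]; omega) (by rw [if_pos hy])
    · have hy : B.y1 + (y : ℤ) < y0 := by omega
      have hwd : B.wd y0 (B.y1 + y) = B.R := if_pos hy
      exact hver k3 (by omega) (by omega) (by rw [hwd]; omega)
  · rcases mem_blockL.1 h1 with ⟨y, k1, k2, k3⟩ | ⟨y, k1, k2, k3⟩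
    · have hy : ¬ B.y1 + (y : ℤ) < y0 := by omega
      have hwd : B.wd y0 (B.y1 + y) = B.R + 1 := if_neg hy
      exact hrow k3 (by omega) (by rw [hwd]; omega) (by rw [if_neg hy])
    · have hy : ¬ B.y1 + (y : ℤ) < y0 := by omega
      have hwd : B.wd y0 (B.y1 + y) = B.R + 1 := if_neg hy
      exact hver k3 (by omega) (by omega) (by rw [hwd]; omega)
  · obtain ⟨i, rfl⟩ := mem_insL.1 h1
    have hi := i.2
    have hja : ((pp B p).succAbove i : ℕ) = if (i : ℕ) < (pp B p : ℕ) then (i : ℕ) else i + 1 := by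
      by_cases hc : (i : ℕ) < (pp B p : ℕ)
      · rw [if_pos hc, Fin.succAbove_of_castSucc_lt _ _ (Fin.lt_def.2 (by simpa using hc))]
        rfl
      · rw [if_neg hc, Fin.succAbove_of_le_castSucc _ _ (Fin.le_def.2 (by simpa using hc))]
        rfl
    have hlt : ((pp B p).succAbove i < pp B p) ↔ (i : ℕ) < (pp B p : ℕ) := by
      rw [Fin.lt_def, hja]
      split_ifs <;> omega
    have a1 : B.y1 + ((aa B y0 : ℕ) : ℤ) = y0 - 1 := by omega
    have a2 : B.y1 + ((aa B y0 + 1 : ℕ) : ℤ) = y0 := by push_cast; omega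
    show OpOk _ _ (Sum.inl (if (pp B p).succAbove i < pp B p then -e3 else 0,
      some (gI B i (B.y1 + ((aa B y0 : ℕ) : ℤ)), 1),
      some (gI B ((pp B p).succAbove i) (B.y1 + ((aa B y0 + 1 : ℕ) : ℤ)), 3)))
    rw [a1, a2, hja]
    have m1 : gI B i (y0 - 1) ∈ B.tG y0 := band_sub B h ((gI_mem_band B h).2 (by omega))
    have m2 : gI B (if (i : ℕ) < (pp B p : ℕ) then (i : ℕ) else i + 1) y0 ∈ B.tG y0 :=
      band_sub B h ((gI_mem_band B h).2 (by split_ifs <;> omega))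
    apply ok_glue
    · exact some_ne fun h => by have := h.2; exact absurd this (by decide)
    · apply beG_of B h m1 m2
      by_cases hc : (i : ℕ) < (pp B p : ℕ)
      · rw [if_pos hc, gI_le B (by omega), gI_le B (by omega), B.nbG_N (by omega)]
        congr 3
        simp only [Prod.mk.injEq, true_and]
        omega
      · rw [if_neg hc]
        by_cases h2 : ((i : ℕ) : ℤ) < B.xr - B.xl
        · rw [gI_le B (by omega), gI_le B (by omega), B.nbG_N1 ⟨rfl, by omega, by omega⟩]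
          congr 3
          simp only [Prod.mk.injEq, and_true]
          omega
        · by_cases h3 : ((i : ℕ) : ℤ) = B.xr - B.xl
          · rw [gI_le B (by omega), gI_gt B (by omega), B.nbG_N2 ⟨rfl, by omega⟩]
            congr 3
            simp only [Prod.mk.injEq, and_true]
            omega
          · rw [gI_gt B (by omega), gI_gt B (by omega), B.nbG_rN1 rfl]
            congr 3
            simp only [Prod.mk.injEq, and_true]
            omega
    · have s2 : seamG B p y0 c c' (some (gI B (if (i : ℕ) < (pp B p : ℕ) then (i : ℕ) else i + 1)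
          y0, 3)) = 0 := seamG_gI B (fun _ h => z30 h.1) (fun _ h => z31 h.1)
      rw [s2, sub_zero]
      by_cases hc : (i : ℕ) < (pp B p : ℕ)
      · rw [if_pos (hlt.2 hc), gI_le B (by omega), seamG_N B rfl (by omega) (by omega)]
      · rw [if_neg (fun h => hc (hlt.1 h))]
        exact seamG_gI B (fun _ h => z10 h.1) (fun _ h => by have := h.2.2.2; omega)

theorem joinLow_ok {p y0 : ℤ} (h : B.At p y0) {Al Au : Finset (ℤ × ℤ)} (hs : Split B Al Au)
    (c c' : ℝ) (φ : Port TG → ℝ) :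
    ∀ o ∈ joinLow B Al φ, OpOk (B.beG p y0) (chG B p y0 c c' φ) o := by
  have hn := nn_eq B h
  have hR := B.hR
  have hle := le_run B h
  have hy1 := h.hy1
  have hy2 := h.hy2
  intro o ho
  unfold joinLow joinOps at ho
  rw [List.mem_ofFn] at ho
  obtain ⟨i, rfl⟩ := ho
  have hi := i.2
  have mu : gI B i B.y1 ∈ B.tG y0 := band_sub B h ((gI_mem_band B h).2 (by omega))
  by_cases hD : Dl B Al i
  · rw [if_pos hD]
    have mx : gI B i (B.y1 - 1) ∈ B.tG y0 := by
      rw [gI_le B hD.1, B.inl_mem, hs.part]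
      exact Or.inl hD.2
    apply ok_glue
    · exact some_ne fun h => d13 h.2
    · refine beG_of B h mx mu ?_
      rw [gI_le B hD.1, gI_le B hD.1, B.nbG_N (by omega)]
      congr 3
      simp only [Prod.mk.injEq, true_and]
      omega
    · unfold xP uP
      rw [seamG_gI B (fun _ h => z10 h.1) (fun _ h => by have := h.2.1; omega),
        seamG_gI B (fun _ h => z30 h.1) (fun _ h => z31 h.1), sub_zero]
  · rw [if_neg hD]
    apply ok_cut
    unfold uP
    by_cases hi2 : ((i : ℕ) : ℤ) ≤ B.xr - B.xl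
    · refine beG_fix B (t := Sum.inl (B.xl + ((i : ℕ) : ℤ), B.y1 - 1)) (d' := 1) ?_ ?_
      · rw [gI_le B hi2, B.nbG_S (by omega)]
      · rw [B.inl_mem, hs.part]
        rintro (k | k | k)
        · exact hD ⟨hi2, k⟩
        · exact hs.nu _ (by omega) (by omega) k
        · omega
    · refine beG_fix B (t := Sum.inr (((i : ℕ) : ℤ) - (B.xr - B.xl + 1), B.y1 - 1)) (d' := 1) ?_ ?_
      · rw [gI_gt B hi2, B.nbG_rS (by omega)]
      · rw [B.inr_mem]
        omega

theorem joinUp_ok {p y0 : ℤ} (h : B.At p y0) {Al Au : Finset (ℤ × ℤ)} (hs : Split B Al Au)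
    (c c' : ℝ) (φ : Port TG → ℝ) :
    ∀ o ∈ joinUp B Au φ, OpOk (B.beG p y0) (chG B p y0 c c' φ) o := by
  have hn := nn_eq B h
  have hR := B.hR
  have hle := le_run B h
  have hy1 := h.hy1
  have hy2 := h.hy2
  intro o ho
  unfold joinUp joinOps at ho
  rw [List.mem_ofFn] at ho
  obtain ⟨i, rfl⟩ := ho
  have hi := i.2
  have mw : gI B i (B.y2 - 1) ∈ B.tG y0 := band_sub B h ((gI_mem_band B h).2 (by omega))
  by_cases hD : Du B Au i
  · rw [if_pos hD]
    have mv : gI B i B.y2 ∈ B.tG y0 := by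
      rw [gI_le B hD.1, B.inl_mem, hs.part]
      exact Or.inr (Or.inl hD.2)
    apply ok_glue
    · exact some_ne fun h => d13 h.2.symm
    · refine beG_of B h mv mw ?_
      rw [gI_le B hD.1, gI_le B hD.1, B.nbG_S (by omega)]
    · unfold vP wP
      rw [seamG_gI B (fun _ h => z30 h.1) (fun _ h => z31 h.1),
        seamG_gI B (fun _ h => z10 h.1) (fun _ h => by have := h.2.1; omega), sub_zero]
  · rw [if_neg hD]
    apply ok_cut
    unfold wP
    by_cases hi2 : ((i : ℕ) : ℤ) ≤ B.xr - B.xl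
    · refine beG_fix B (t := Sum.inl (B.xl + ((i : ℕ) : ℤ), B.y2 - 1 + 1)) (d' := 3) ?_ ?_
      · rw [gI_le B hi2, B.nbG_N (by omega)]
      · rw [B.inl_mem, hs.part, sub_add_cancel]
        rintro (k | k | k)
        · exact hs.nl _ (by omega) (by omega) k
        · exact hD ⟨hi2, k⟩
        · omega
    · refine beG_fix B (t := Sum.inr (((i : ℕ) : ℤ) - (B.xr - B.xl + 1), B.y2 - 1 + 1)) (d' := 3)
        ?_ ?_
      · rw [gI_gt B hi2, B.nbG_rN (by omega)]
      · rw [B.inr_mem]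
        omega

end Crest.Agent.R158.Ao857
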