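import Crest.Agent.R158.Ad5_350
import Crest.Agent.R158.Ao9_857

/-!
# Block AD, the amplitude of `G^(z)` as an expectation over splittings (helper350)

* `chL` : phases of `G^(z)` with value `0` at the leg
* `amp_G` : `⟨Out| K |In⟩ = ∫ s, zv (ports (B.tG y0)) leg false`
* `netG`, `netG_ok`
-/

set_option autoImplicit false
set_option linter.unusedSectionVars false

noncomputable section

open Finset Matrix MeasureTheory
open Crest.Agent.R158.Sw300 (Port thru thru_thru thru_ne tn)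

namespace Crest.Agent.R158.Ad350

open Crest.Agent.R158.Rs689 (PB hf)
open Crest.Agent.R158.Env664 (TG Band)
open Crest.Agent.R158.Ao857 (Op Op.pts opL flat OpOk chG seamG bandOps joinLow joinUp legP InZ OutZ
  Kz Split inlE xP vP cover env_amp bandOps_ok joinLow_ok joinUp_ok)

lemma OpOk.ook {be : Port TG → Port TG} {ch : Port TG → ℝ} {o : Op (Port TG)}
    (h : OpOk be ch o) : OOk be ch o := by
  cases o with
  | inl e => exact h
  | inr e => exact h

variable {A : Finset (ℤ × ℤ)} (B : Band A)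

/-- phases of `G^(z)`, value `0` at the leg -/
def chL (p y0 : ℤ) (c c' : ℝ) (φ : Port TG → ℝ) : Port TG → ℝ := fun q =>
  if q = legP p y0 then 0 else chG B p y0 c c' φ q

/-- glueing of `G^(z)`, the leg port is an end -/
def beL (p y0 : ℤ) : Port TG → Port TG := fun q =>
  if q = legP p y0 then q else B.beG p y0 q

/-- the network `G^(z)` -/
def netG (p y0 : ℤ) (c c' : ℝ) (φ : Port TG → ℝ) (s : TG → Bool) : Net (Port TG) :=
  tnet (B.tG y0) s (beL B p y0) (chL B p y0 c c' φ)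

variable {B}

lemma leg_mem {p y0 : ℤ} (h : B.At p y0) : legP p y0 ∈ ports (B.tG y0) := by
  refine mem_ports.2 ?_
  rw [B.inl_mem]
  exact (B.run y0 (le_of_lt h.hy1) h.hy2).mem p (le_of_lt h.hp1) h.hp2

lemma beG_none {p y0 : ℤ} (h : B.At p y0) : B.beG p y0 none = legP p y0 := by
  unfold Band.beG Env664.res
  rw [if_pos]
  · exact B.nbG_leg
  · refine ⟨Env664.portOf_none _, ?_⟩
    rw [B.nbG_leg]
    exact Env664.portOf_some.2 (mem_ports.1 (leg_mem h))

lemma beG_leg {p y0 : ℤ} (h : B.At p y0) : B.beG p y0 (legP p y0) = none := by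
  rw [← beG_none h, Band.beG_invol B h]

lemma beG_mem {p y0 : ℤ} (h : B.At p y0) {x : Port TG} (hx : x ∈ ports (B.tG y0))
    (hl : x ≠ legP p y0) : B.beG p y0 x ∈ ports (B.tG y0) := by
  by_cases hn : B.beG p y0 x = none
  · refine absurd ?_ hl
    rw [← beG_none h, ← hn, Band.beG_invol B h]
  · have h1 : Env664.PortOf (B.tG y0) (B.beG p y0 x) := by
      unfold Band.beG Env664.res
      split_ifs with k
      · exact k.2
      · obtain ⟨t, d, rfl, ht⟩ := mem_ports' hx
        exact Env664.portOf_some.2 ht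
    cases hb : B.beG p y0 x with
    | none => exact absurd hb hn
    | some y =>
      rw [hb] at h1
      exact mem_ports.2 (Env664.portOf_some.1 h1)

lemma beL_leg (p y0 : ℤ) : beL B p y0 (legP p y0) = legP p y0 := if_pos rfl

lemma beL_of {p y0 : ℤ} {q : Port TG} (hq : q ≠ legP p y0) : beL B p y0 q = B.beG p y0 q :=
  if_neg hq

lemma beL_mem {p y0 : ℤ} (h : B.At p y0) {x : Port TG} (hx : x ∈ ports (B.tG y0)) :
    beL B p y0 x ∈ ports (B.tG y0) := by
  by_cases hl : x = legP p y0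
  · rw [hl, beL_leg]; exact leg_mem h
  · rw [beL_of hl]; exact beG_mem h hx hl

lemma beL_invol {p y0 : ℤ} (h : B.At p y0) {x : Port TG} (hx : x ∈ ports (B.tG y0)) :
    beL B p y0 (beL B p y0 x) = x := by
  by_cases hl : x = legP p y0
  · rw [hl, beL_leg, beL_leg]
  · rw [beL_of hl]
    have : B.beG p y0 x ≠ legP p y0 := by
      intro e
      have e2 : x = none := by rw [← beG_leg h, ← e, Band.beG_invol B h]
      rw [e2] at hx
      exact none_ports hx
    rw [beL_of this, Band.beG_invol B h]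

lemma netG_ok {p y0 : ℤ} (h : B.At p y0) (c c' : ℝ) (φ : Port TG → ℝ) (s : TG → Bool) :
    (netG B p y0 c c' φ s).Ok :=
  tnet_ok (fun _ hx => beL_mem h hx) fun _ hx => beL_invol h hx

/-- **the amplitude of `G^(z)`** -/
theorem amp_G {p y0 : ℤ} (h : B.At p y0) {Al Au : Finset (ℤ × ℤ)} (hs : Split B Al Au)
    (c c' : ℝ) (φ : Port TG → ℝ) {Ll Lu : List (Op (Port TG))}
    (n1 : (flat Ll).Nodup) (n2 : (flat Lu).Nodup)
    (m1 : ∀ q, q ∈ flat Ll ↔ q ∈ ports (Al.map inlE) ∧ ∀ i, q ≠ xP B i)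
    (m2 : ∀ q, q ∈ flat Lu ↔ q ∈ ports (Au.map inlE) ∧ ∀ i, q ≠ vP B i)
    (o1 : ∀ o ∈ Ll, OpOk (B.beG p y0) (chG B p y0 c c' φ) o)
    (o2 : ∀ o ∈ Lu, OpOk (B.beG p y0) (chG B p y0 c c' φ) o)
    (σ : Port TG → Bool) (hσ : σ (legP p y0) = false) :
    OutZ B Au φ Lu σ ⬝ᵥ (Kz B p y0 c c' *ᵥ InZ B Al φ Ll σ) =
      ∫ s, (netG B p y0 c c' φ s).zv (ports (B.tG y0)) (legP p y0) false
        ∂(PB fun _ : TG => hf) := by
  have hmem : ∀ (L : List (Op (Port TG))), ∀ o ∈ L, ∀ q ∈ o.pts, q ∈ flat L := by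
    intro L o ho q hq
    exact List.mem_flatMap.2 ⟨o, ho, hq⟩
  rw [← env_amp B h hs c c' φ (fun o ho q hq => ((m1 q).1 (hmem Ll o ho q hq)).1)
    (fun o ho q hq => ((m2 q).1 (hmem Lu o ho q hq)).1) σ hσ]
  obtain ⟨k1, k2⟩ := cover B h hs c c' φ n1 n2 m1 m2
  set L := Ll ++ (Lu ++ (bandOps B p y0 c c' ++ (joinLow B Al φ ++ joinUp B Au φ))) with hL
  have hok : ∀ o ∈ L, OpOk (B.beG p y0) (chG B p y0 c c' φ) o := by
    intro o ho
    rw [hL] at ho
    simp only [List.mem_append] at ho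
    rcases ho with ho | ho | ho | ho | ho
    · exact o1 o ho
    · exact o2 o ho
    · exact bandOps_ok B h c c' φ o ho
    · exact joinLow_ok B h hs c c' φ o ho
    · exact joinUp_ok B h hs c c' φ o ho
  have hne : ∀ o ∈ L, ∀ q ∈ o.pts, q ≠ legP p y0 := fun o ho q hq => ((k2 q).1 (hmem L o ho q hq)).2
  have hrep : Rep (beL B p y0) (chL B p y0 c c' φ) (opL L) (flat L).toFinset := by
    refine rep_opL k1 fun o ho => ?_
    have h1 := hok o ho
    have h2 := hne o ho
    cases o with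
    | inl e =>
      obtain ⟨a1, a2, a3⟩ := h1
      have b1 : e.2.1 ≠ legP p y0 := h2 _ (by simp [Op.pts])
      have b2 : e.2.2 ≠ legP p y0 := h2 _ (by simp [Op.pts])
      refine ⟨by rw [beL_of b1]; exact a1, by rw [beL_of b2]; exact a2, ?_⟩
      simp only [chL, if_neg b1, if_neg b2]
      exact a3
    | inr e =>
      obtain ⟨a1, a2⟩ := h1
      have b1 : e.2 ≠ legP p y0 := h2 _ (by simp [Op.pts])
      refine ⟨by rw [beL_of b1]; exact a1, ?_⟩
      simp only [chL, if_neg b1]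
      exact a2
  have hD : (flat L).toFinset = (ports (B.tG y0)).erase (legP p y0) := by
    ext q
    rw [List.mem_toFinset, k2 q, Finset.mem_erase]
    exact and_comm
  rw [hD] at hrep
  have := hrep.tiles_leg_int (leg_mem h) (beL_leg p y0) (by simp [chL]) σ
  rw [hσ] at this
  exact this

end Crest.Agent.R158.Ad350
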