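import Crest.Agent.R158.Ad5_350
import Crest.Agent.R158.Ao10_857

/-!
# Block AD, the amplitude of `G^(z)` with the canonical lists (helper350)

* `Net.exists_leg` : the walk of an end; `Net.zv_prod`
* `netZ` : the network `G^(z)` (glueing `Ao857.beL`, phases `Ao857.chL`)
* `amp_int` : `⟨Out| K |In⟩ = ∫ s, zv (ports (B.tG y0)) leg false`
-/

set_option autoImplicit false
set_option linter.unusedSectionVars false

noncomputable section

open Finset Matrix MeasureTheory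
open Crest.Agent.R158.Sw300 (Port thru thru_thru thru_ne tn)

namespace Crest.Agent.R158.Ad350

namespace Net

variable {P : Type*} [DecidableEq P] {N : Net P}

/-- the strand that starts at an end -/
theorem exists_leg (h : N.Ok) {x : P} (hx : x ∈ N.V) (hb : N.be x = x) : ∃ y l, N.Wa x y l ∧
    N.be y = y ∧ y ∈ N.V ∧ y ≠ x ∧ y ∈ N.cls x := by
  classical
  have hex := exists_fail h hx hb
  have hn : ∀ i < Nat.find hex, N.be (N.al (N.g^[i] x)) ≠ N.al (N.g^[i] x) :=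
    fun i hi => Nat.find_min hex hi
  refine ⟨_, _, Wa.of_it (Nat.find hex) hn, Nat.find_spec hex, h.alV _ (it_mem h hx _), ?_, ?_⟩
  · exact it_ne h hx hn _ 0 le_rfl (Nat.zero_le _)
  · exact mem_cls.2 ⟨h.alV _ (it_mem h hx _), (Cn_it x _).trans (Cn.al _)⟩

/-- **value with an entering arrow at `x`** -/
theorem zv_prod (h : N.Ok) {x y : P} (hx : x ∈ N.V) {l : List P} (w : N.Wa x y l)
    (h1 : N.be x = x) (h2 : N.be y = y) : N.zv N.V x false =
      ei (N.wl l) * ∏ c ∈ (N.classes N.V).erase (N.cls x), N.z c := by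
  rw [zv_classes h h.clV hx, zv_leg h hx w h1 h2]
  simp

/-- the classes other than the one of `x` are arcs or loops that avoid `x` -/
theorem class_cases (h : N.Ok) {x : P} {c : Finset P}
    (hc : c ∈ (N.classes N.V).erase (N.cls x)) : x ∉ c ∧ ∃ a ∈ N.V, ∃ b l, N.Wa a b l ∧ l.Nodup ∧
      c = N.cls a ∧ c = l.toFinset ∪ (l.map N.al).toFinset ∧ N.z c = 2 * Real.cos (N.wl l) ∧
      ((N.be a = a ∧ N.be b = b) ∨ N.be b = a) := by
  obtain ⟨hne, hc⟩ := Finset.mem_erase.1 hc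
  obtain ⟨p, hp, rfl⟩ := Finset.mem_image.1 hc
  refine ⟨fun k => hne (cls_eq_of_mem h hp k).symm, ?_⟩
  obtain ⟨a, ha, b, l, w, hl, e, k⟩ := exists_walk h hp
  refine ⟨a, ha, b, l, w, hl, e, ?_⟩
  rw [e]
  rcases k with ⟨k1, k2⟩ | k
  · obtain ⟨-, k4, k5⟩ := z_arc h ha w k1 k2
    exact ⟨k4, k5, Or.inl ⟨k1, k2⟩⟩
  · obtain ⟨k4, k5⟩ := z_loop h ha w k hl
    exact ⟨k4, k5, Or.inr k⟩

end Net

open Crest.Agent.R158.Rs689 (PB hf)
open Crest.Agent.R158.Env664 (TG Band Adj4)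
open Crest.Agent.R158.Ao857 (Op Op.pts opL flat OpOk legP InZ OutZ Kz Split ampL amp_cover amp_ok
  amp_eq plainL)

variable {A : Finset (ℤ × ℤ)} (B : Band A)

/-- the network `G^(z)` -/
def netZ (p y0 : ℤ) (c c' : ℝ) (φ : Port TG → ℝ) (s : TG → Bool) : Net (Port TG) :=
  tnet (B.tG y0) s (Ao857.beL B p y0) (Ao857.chL B p y0 c c' φ)

variable {B}

lemma netZ_ok {p y0 : ℤ} (h : B.At p y0) (c c' : ℝ) (φ : Port TG → ℝ) (s : TG → Bool) :
    (netZ B p y0 c c' φ s).Ok :=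
  tnet_ok (fun _ hx => Ao857.beL_ports B h hx) fun _ hx =>
    Ao857.beL_invol B h (fun e => none_ports (e ▸ hx))

lemma legP_mem {p y0 : ℤ} (h : B.At p y0) : legP p y0 ∈ ports (B.tG y0) := by
  refine mem_ports.2 ?_
  rw [B.inl_mem]
  exact (B.run y0 (le_of_lt h.hy1) h.hy2).mem p (le_of_lt h.hp1) h.hp2

/-- **the amplitude of `G^(z)` as an expectation over splittings** -/
theorem amp_int {p y0 : ℤ} (h : B.At p y0) {Al Au : Finset (ℤ × ℤ)} (hs : Split B Al Au)
    (hadj : ∀ s ∈ Al, ∀ t ∈ Au, ¬ Adj4 s t) (c c' : ℝ) (φ : Port TG → ℝ)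
    (σ : Port TG → Bool) (hσ : σ (legP p y0) = false) :
    OutZ B Au φ (plainL A Au φ) σ ⬝ᵥ (Kz B p y0 c c' *ᵥ InZ B Al φ (plainL A Al φ) σ) =
      ∫ s, (netZ B p y0 c c' φ s).zv (ports (B.tG y0)) (legP p y0) false
        ∂(PB fun _ : TG => hf) := by
  rw [← amp_eq B h hs c c' φ σ hσ]
  obtain ⟨k1, k2⟩ := amp_cover B h hs hadj c c' φ
  have hrep : Rep (Ao857.beL B p y0) (Ao857.chL B p y0 c c' φ)
      (opL (ampL B Al Au p y0 c c' φ)) (flat (ampL B Al Au p y0 c c' φ)).toFinset := by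
    refine rep_opL k1 fun o ho => ?_
    have h1 := amp_ok B h hs hadj c c' φ o ho
    cases o with
    | inl e => exact h1
    | inr e => exact h1
  rw [k2] at hrep
  have := hrep.tiles_leg_int (legP_mem h) (Ao857.beL_leg B p y0) (Ao857.chL_leg B p y0 c c' φ) σ
  rw [hσ] at this
  exact this

end Crest.Agent.R158.Ad350
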