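import Crest.Agent.R158.Ad8_350

/-!
# Block AD, transport of strands between networks (helper350)

* `Net.z_image`, `Net.zv_image`, `Net.zn_image` : closed sets under an injective map of ports
* `Net.Emb N' N f` : `N'` is a restriction of `N` (cut at some ports)
* `Net.Emb.cls_image` : a class of `N` inside the image comes from a class of `N'`
* `Net.Emb.prod_near` : product over the classes that visit `Q`
-/

set_option autoImplicit false
set_option linter.unusedSectionVars false

noncomputable section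

open Finset

namespace Crest.Agent.R158.Ad350

namespace Net

variable {P P' : Type*} [DecidableEq P] [DecidableEq P'] {N : Net P} {N' : Net P'}

/-- `f` respects the two networks on `C` -/
structure Tr (N' : Net P') (N : Net P) (f : P' → P) (C : Finset P') : Prop where
  inj : Set.InjOn f C
  cal : ∀ q ∈ C, N'.al q ∈ C
  cbe : ∀ q ∈ C, N'.be q ∈ C
  al : ∀ q ∈ C, N.al (f q) = f (N'.al q)
  be : ∀ q ∈ C, N.be (f q) = f (N'.be q)
  om : ∀ q ∈ C, N.om (f q) = N'.om q

variable {f : P' → P} {C : Finset P'}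

lemma Tr.mem_iff (h : Tr N' N f C) {B : Finset P'} (hB : B ⊆ C) {q : P'} (hq : q ∈ C) :
    f q ∈ B.image f ↔ q ∈ B := by
  rw [Finset.mem_image]
  constructor
  · rintro ⟨r, hr, e⟩
    rw [← h.inj (hB hr) hq e]
    exact hr
  · exact fun k => ⟨q, k, rfl⟩

lemma Tr.good_iff (h : Tr N' N f C) {B : Finset P'} (hB : B ⊆ C) :
    N.good (C.image f) (B.image f) ↔ N'.good C B := by
  unfold good
  constructor
  · intro k q hq
    obtain ⟨k1, k2⟩ := k (f q) (Finset.mem_image_of_mem f hq)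
    rw [h.al q hq, h.mem_iff hB (h.cal q hq), h.mem_iff hB hq] at k1
    refine ⟨k1, fun hne => ?_⟩
    have := k2 (by
      rw [h.be q hq]
      exact fun e => hne (h.inj (h.cbe q hq) hq e))
    rwa [h.be q hq, h.mem_iff hB (h.cbe q hq), h.mem_iff hB hq] at this
  · intro k p hp
    obtain ⟨q, hq, rfl⟩ := Finset.mem_image.1 hp
    obtain ⟨k1, k2⟩ := k q hq
    rw [h.al q hq, h.mem_iff hB (h.cal q hq), h.mem_iff hB hq]
    refine ⟨k1, fun hne => ?_⟩
    rw [h.be q hq, h.mem_iff hB (h.cbe q hq)]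
    refine k2 fun e => hne ?_
    rw [h.be q hq, e]

lemma Tr.ph_eq (h : Tr N' N f C) {B : Finset P'} (hB : B ⊆ C) :
    N.ph (C.image f) (B.image f) = N'.ph C B := by
  unfold ph
  rw [Finset.sum_image fun a ha b hb e => h.inj ha hb e]
  refine Finset.sum_congr rfl fun q hq => ?_
  rw [h.om q hq, decide_eq_decide.2 (h.mem_iff hB hq)]

lemma preim {B : Finset P} (hB : B ⊆ C.image f) :
    (C.filter fun q => f q ∈ B).image f = B := by
  ext p
  simp only [Finset.mem_image, Finset.mem_filter]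
  constructor
  · rintro ⟨q, ⟨_, hq⟩, rfl⟩
    exact hq
  · intro hp
    obtain ⟨q, hq, rfl⟩ := Finset.mem_image.1 (hB hp)
    exact ⟨q, ⟨hq, hp⟩, rfl⟩

lemma Tr.image_inj (h : Tr N' N f C) {B B' : Finset P'} (hB : B ⊆ C) (hB' : B' ⊆ C)
    (e : B.image f = B'.image f) : B = B' := by
  ext q
  constructor
  · intro hq
    rw [← h.mem_iff hB' (hB hq), ← e]
    exact Finset.mem_image_of_mem f hq
  · intro hq
    rw [← h.mem_iff hB (hB' hq), e]
    exact Finset.mem_image_of_mem f hq

theorem Tr.z (h : Tr N' N f C) : N.z (C.image f) = N'.z C := by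
  unfold Net.z
  symm
  refine Finset.sum_bij (fun B _ => B.image f) ?_ ?_ ?_ ?_
  · intro B hB
    simp only [Finset.mem_filter, Finset.mem_powerset] at hB ⊢
    exact ⟨Finset.image_subset_image hB.1, (h.good_iff hB.1).2 hB.2⟩
  · intro B hB B' hB' e
    simp only [Finset.mem_filter, Finset.mem_powerset] at hB hB'
    exact h.image_inj hB.1 hB'.1 e
  · intro B hB
    simp only [Finset.mem_filter, Finset.mem_powerset] at hB
    refine ⟨C.filter fun q => f q ∈ B, ?_, preim hB.1⟩
    simp only [Finset.mem_filter, Finset.mem_powerset]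
    refine ⟨Finset.filter_subset _ _, ?_⟩
    rw [← h.good_iff (Finset.filter_subset _ _), preim hB.1]
    exact hB.2
  · intro B hB
    simp only [Finset.mem_filter, Finset.mem_powerset] at hB
    rw [h.ph_eq hB.1]

theorem Tr.zv (h : Tr N' N f C) {x : P'} (hx : x ∈ C) (v : Bool) :
    N.zv (C.image f) (f x) v = N'.zv C x v := by
  unfold Net.zv
  symm
  refine Finset.sum_bij (fun B _ => B.image f) ?_ ?_ ?_ ?_
  · intro B hB
    simp only [Finset.mem_filter, Finset.mem_powerset] at hB ⊢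
    refine ⟨Finset.image_subset_image hB.1, (h.good_iff hB.1).2 hB.2.1, ?_⟩
    rw [decide_eq_decide.2 (h.mem_iff hB.1 hx)]
    exact hB.2.2
  · intro B hB B' hB' e
    simp only [Finset.mem_filter, Finset.mem_powerset] at hB hB'
    exact h.image_inj hB.1 hB'.1 e
  · intro B hB
    simp only [Finset.mem_filter, Finset.mem_powerset] at hB
    have hs : (C.filter fun q => f q ∈ B) ⊆ C := Finset.filter_subset _ _
    refine ⟨C.filter fun q => f q ∈ B, ?_, preim hB.1⟩
    simp only [Finset.mem_filter, Finset.mem_powerset]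
    refine ⟨hs, ?_, ?_⟩
    · rw [← h.good_iff hs, preim hB.1]
      exact hB.2.1
    · rw [← hB.2.2]
      refine decide_eq_decide.2 ?_
      exact ⟨fun k => k.2, fun k => ⟨hx, k⟩⟩
  · intro B hB
    simp only [Finset.mem_filter, Finset.mem_powerset] at hB
    rw [h.ph_eq hB.1]

lemma Tr.ends (h : Tr N' N f C) : N.ends (C.image f) = (N'.ends C).image f := by
  ext p
  simp only [Net.ends, Finset.mem_filter, Finset.mem_image]
  constructor
  · rintro ⟨⟨q, hq, rfl⟩, e⟩
    refine ⟨q, ⟨hq, ?_⟩, rfl⟩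
    rw [h.be q hq] at e
    exact h.inj (h.cbe q hq) hq e
  · rintro ⟨q, ⟨hq, e⟩, rfl⟩
    exact ⟨⟨q, hq, rfl⟩, by rw [h.be q hq, e]⟩

theorem Tr.zn (h : Tr N' N f C) : N.zn (C.image f) = N'.zn C := by
  have e : (N.ends (C.image f)).Nonempty ↔ (N'.ends C).Nonempty := by
    rw [h.ends, Finset.image_nonempty]
  unfold Net.zn
  rw [h.z]
  by_cases k : (N'.ends C).Nonempty
  · rw [if_pos k, if_pos (e.2 k)]
  · rw [if_neg k, if_neg fun k' => k (e.1 k')]

/-- **`N'` is the network `N` cut at some ports** -/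
structure Emb (N' : Net P') (N : Net P) (f : P' → P) : Prop where
  ok' : N'.Ok
  ok : N.Ok
  inj : Set.InjOn f N'.V
  mem : ∀ q ∈ N'.V, f q ∈ N.V
  al : ∀ q ∈ N'.V, N.al (f q) = f (N'.al q)
  /-- inside the image the glueings are the same -/
  be : ∀ q ∈ N'.V, N.be (f q) ∈ N'.V.image f → N.be (f q) = f (N'.be q)
  /-- otherwise the port is a cut end of `N'` -/
  cut : ∀ q ∈ N'.V, N.be (f q) ∉ N'.V.image f → N'.be q = q
  om : ∀ q ∈ N'.V, N.be (f q) ∈ N'.V.image f → N.om (f q) = N'.om q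

variable (E : Emb N' N f)

include E in
lemma Emb.cn {p q : P'} (hp : p ∈ N'.V) (h : N'.Cn p q) : N.Cn (f p) (f q) := by
  induction h with
  | refl => exact Cn.refl _
  | @tail b c hb hs ih =>
    have hbV : b ∈ N'.V := Cn.mem E.ok'.clV hp hb
    refine ih.trans ?_
    rcases hs with rfl | rfl
    · rw [← E.al b hbV]; exact Cn.al _
    · by_cases k : N.be (f b) ∈ N'.V.image f
      · rw [← E.be b hbV k]; exact Cn.be _
      · rw [E.cut b hbV k]; exact Cn.refl _

include E in
/-- a class of `N` inside the image comes from a class of `N'` -/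
theorem Emb.cls_image {p : P'} (hp : p ∈ N'.V) (h : N.cls (f p) ⊆ N'.V.image f) :
    N.cls (f p) = (N'.cls p).image f ∧ Tr N' N f (N'.cls p) := by
  have hsub : (N'.cls p).image f ⊆ N.cls (f p) := by
    intro r hr
    obtain ⟨q, hq, rfl⟩ := Finset.mem_image.1 hr
    obtain ⟨h1, h2⟩ := mem_cls.1 hq
    exact mem_cls.2 ⟨E.mem q h1, E.cn hp h2⟩
  have hbe : ∀ q ∈ N'.cls p, N.be (f q) ∈ N'.V.image f := fun q hq =>
    h ((cls_cl E.ok (f p)).be _ (hsub (Finset.mem_image_of_mem f hq)))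
  have hV : ∀ q ∈ N'.cls p, q ∈ N'.V := fun q hq => (mem_cls.1 hq).1
  refine ⟨?_, ⟨E.inj.mono fun q hq => hV q hq, (cls_cl E.ok' p).al, (cls_cl E.ok' p).be,
    fun q hq => E.al q (hV q hq), fun q hq => E.be q (hV q hq) (hbe q hq),
    fun q hq => E.om q (hV q hq) (hbe q hq)⟩⟩
  refine Finset.Subset.antisymm ?_ hsub
  intro r hr
  replace hr := (mem_cls.1 hr).2
  induction hr with
  | refl => exact Finset.mem_image_of_mem f (self_mem_cls hp)
  | @tail b c hb hs ih =>
    obtain ⟨q, hq, rfl⟩ := Finset.mem_image.1 ih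
    rcases hs with rfl | rfl
    · rw [E.al q (hV q hq)]
      exact Finset.mem_image_of_mem f ((cls_cl E.ok' p).al q hq)
    · rw [E.be q (hV q hq) (hbe q hq)]
      exact Finset.mem_image_of_mem f ((cls_cl E.ok' p).be q hq)

/-- `C` visits `Q` -/
def Vis {P : Type*} (Q : P → Prop) (C : Finset P) : Prop := ∃ p ∈ C, Q p

include E in
/-- **the classes that visit `Q` are the same** -/
theorem Emb.prod_near {Q : P → Prop} [DecidablePred (Vis Q)]
    [DecidablePred (Vis fun q => Q (f q))]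
    (hQ : ∀ p ∈ N.V, Q p → N.cls p ⊆ N'.V.image f) {x : P'} (hx : x ∈ N'.V) (hxQ : Q (f x)) :
    (∏ c ∈ ((N.classes N.V).erase (N.cls (f x))).filter (Vis Q), N.zn c =
      ∏ c ∈ ((N'.classes N'.V).erase (N'.cls x)).filter (Vis fun q => Q (f q)), N'.zn c) ∧
    ∀ v, N.zv (N.cls (f x)) (f x) v = N'.zv (N'.cls x) x v := by
  have key : ∀ q ∈ N'.V, Vis (fun q => Q (f q)) (N'.cls q) →
      N.cls (f q) = (N'.cls q).image f ∧ Tr N' N f (N'.cls q) := by
    rintro q hq ⟨r, hr, hrQ⟩
    obtain ⟨h1, h2⟩ := mem_cls.1 hr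
    have h3 : f r ∈ N.cls (f q) := mem_cls.2 ⟨E.mem r h1, E.cn hq h2⟩
    have h4 := hQ (f r) (E.mem r h1) hrQ
    rw [cls_eq_of_mem E.ok (E.mem q hq) h3] at h4
    exact E.cls_image hq h4
  have hxv : Vis (fun q => Q (f q)) (N'.cls x) := ⟨x, self_mem_cls hx, hxQ⟩
  obtain ⟨kx1, kx2⟩ := key x hx hxv
  refine ⟨?_, fun v => ?_⟩
  · symm
    refine Finset.prod_bij (fun c _ => c.image f) ?_ ?_ ?_ ?_
    · intro c hc
      obtain ⟨hc1, hc2⟩ := Finset.mem_filter.1 hc
      obtain ⟨hne, hc1⟩ := Finset.mem_erase.1 hc1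
      obtain ⟨q, hq, rfl⟩ := Finset.mem_image.1 hc1
      obtain ⟨k1, k2⟩ := key q hq hc2
      refine Finset.mem_filter.2 ⟨Finset.mem_erase.2 ⟨?_, ?_⟩, ?_⟩
      · rw [kx1]
        intro e
        apply hne
        have hs1 : ∀ r ∈ N'.cls q, r ∈ N'.V := fun r hr => (mem_cls.1 hr).1
        have hs2 : ∀ r ∈ N'.cls x, r ∈ N'.V := fun r hr => (mem_cls.1 hr).1
        have h5 : f x ∈ (N'.cls q).image f := by
          show f x ∈ (fun c : Finset P' => c.image f) (N'.cls q)
          rw [show (fun c : Finset P' => c.image f) (N'.cls q) = (N'.cls x).image f from e]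
          exact Finset.mem_image_of_mem f (self_mem_cls hx)
        obtain ⟨r, hr, er⟩ := Finset.mem_image.1 h5
        have hrx : r = x := E.inj (hs1 r hr) hx er
        rw [hrx] at hr
        exact (cls_eq_of_mem E.ok' hq hr).symm
      · show (N'.cls q).image f ∈ N.classes N.V
        rw [← k1]
        exact Finset.mem_image_of_mem _ (E.mem q hq)
      · obtain ⟨r, hr, hrQ⟩ := hc2
        exact ⟨f r, Finset.mem_image_of_mem f hr, hrQ⟩
    · intro c hc d hd e
      obtain ⟨hc1, hc2⟩ := Finset.mem_filter.1 hc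
      obtain ⟨q, hq, rfl⟩ := Finset.mem_image.1 (Finset.mem_of_mem_erase hc1)
      obtain ⟨hd1, hd2⟩ := Finset.mem_filter.1 hd
      obtain ⟨r, hr, rfl⟩ := Finset.mem_image.1 (Finset.mem_of_mem_erase hd1)
      have h5 : f q ∈ (N'.cls r).image f := by
        rw [← show (N'.cls q).image f = (N'.cls r).image f from e]
        exact Finset.mem_image_of_mem f (self_mem_cls hq)
      obtain ⟨t, ht, et⟩ := Finset.mem_image.1 h5
      have : t = q := E.inj (mem_cls.1 ht).1 hq et
      rw [this] at ht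
      exact cls_eq_of_mem E.ok' hr ht
    · intro c hc
      obtain ⟨hc1, hc2⟩ := Finset.mem_filter.1 hc
      obtain ⟨hne, hc1⟩ := Finset.mem_erase.1 hc1
      obtain ⟨p, hp, rfl⟩ := Finset.mem_image.1 hc1
      obtain ⟨r, hr, hrQ⟩ := hc2
      obtain ⟨hrV, _⟩ := mem_cls.1 hr
      have h4 := hQ r hrV hrQ
      obtain ⟨q, hq, rfl⟩ := Finset.mem_image.1 (h4 (self_mem_cls hrV))
      have hcq : N.cls (f q) = N.cls p := cls_eq_of_mem E.ok hp hr
      have hvis : Vis (fun q => Q (f q)) (N'.cls q) := ⟨q, self_mem_cls hq, hrQ⟩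
      obtain ⟨k1, k2⟩ := key q hq hvis
      refine ⟨N'.cls q, Finset.mem_filter.2 ⟨Finset.mem_erase.2 ⟨?_,
        Finset.mem_image_of_mem _ hq⟩, hvis⟩, ?_⟩
      · intro e
        apply hne
        rw [← hcq, k1, e, kx1]
      · show (N'.cls q).image f = N.cls p
        rw [← k1, hcq]
    · intro c hc
      obtain ⟨hc1, hc2⟩ := Finset.mem_filter.1 hc
      obtain ⟨q, hq, rfl⟩ := Finset.mem_image.1 (Finset.mem_of_mem_erase hc1)
      obtain ⟨k1, k2⟩ := key q hq hc2
      exact k2.zn.symm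
  · rw [kx1]
    exact kx2.zv (self_mem_cls hx) v

end Net

end Crest.Agent.R158.Ad350
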