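import Crest.Agent.R158.Ad16_350

/-!
# R158, EvalP (helper350), part 1: the estimate at one point

* `int_law` : functions of finitely many tiles, read through an injective map
* `drop_D` : the observable of the region with stubs and the family (ends outside `J` dropped)
* **`eval_gen`** : `‖HGr - HW‖ ≤ 9 q^N + C / c √(4 q^N) + 7/2 (4 q^N + P(Bad))`
-/

set_option autoImplicit false
set_option linter.unusedSectionVars false
set_option linter.unusedVariables false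

noncomputable section

open Finset MeasureTheory

namespace Crest.Agent.R158.Ad350

open Crest.Agent.R158.Rs689 (PB hf Dep)
open Crest.Agent.R158.Nm211 (DepF)
open Crest.Agent.R158.Xr249 (rct mem_rct full eS eD Dp mem_Dp pm pm_some Dp_cases eD_in eD_r eD_l
  eD_A wd_cases pm_inj pm_portOf eD_glue)
open Crest.Agent.R158.Sw300 (Port Wd L M u tls)
open Crest.Agent.R158.Env664 (TG Band Adj4 PortOf portOf_some portOf_none nbP nbD beD res res_of Run)
open Crest.Agent.R158.Ao857 (legP beL chL beL_ne chL_ne chG beG_fix Split)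
open Crest.Agent.R158.Zg180 (Gq Near Far gate uc se)
open Crest.Agent.R158.Zc180 (Par Cf farG farS ballS Over Zs Sf Wf)
open Crest.Agent.R158.Zb180 (Pf)
open Crest.Agent.R158.Fm857 (ps psD cb cp clow ctw phi isLS freeG mem_freeG mem_flr mem_cil HGr kap inI)
open Crest.Agent.R158.Qd300 (C0 DB beC chN ND NDe inLS Art)
open Crest.Agent.R158.Ob664 (GW HV HW)
open Crest.Agent.R158.Qc405 (TabH psT sgD)
open Crest.Agent.R158.Al194 (hL rotl cM cS enL Mk idL integrable_hL Sm_port piL)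
open Crest.Agent.R158.Qe249 (VJ Pm gateS gateD gateD_zero gateD_prob gateD_dep SmP SmP_hL HV_eq_VJ
  norm_HV_sub_VJ integrable_VJ)

/-! ### laws -/

/-- functions of finitely many tiles, read through an injective map -/
theorem int_law {κ ι : Type*} [DecidableEq κ] (S0 : Finset κ) {g : κ → ι}
    (hg : Set.InjOn g S0) {f : (κ → Bool) → ℂ}
    (hf' : ∀ s s' : κ → Bool, (∀ t ∈ S0, s t = s' t) → f s = f s') :
    ∫ s, f (s ∘ g) ∂(PB fun _ : ι => hf) = ∫ s, f s ∂(PB fun _ : κ => hf) := by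
  classical
  let e : (S0 → Bool) → (κ → Bool) := fun z t => if h : t ∈ S0 then z ⟨t, h⟩ else false
  let G : (S0 → Bool) → ℂ := fun z => f (e z)
  have hG : ∀ s' : κ → Bool, f s' = G (fun t => s' t) := by
    intro s'
    refine hf' _ _ fun t ht => ?_
    simp only [e, dif_pos ht]
  have hGm : ∀ {μ : Measure (S0 → Bool)}, AEStronglyMeasurable G μ := fun {μ} =>
    (measurable_of_finite G).aestronglyMeasurable
  have j1 : Function.Injective (fun t : S0 => g t) := fun a c hac =>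
    Subtype.ext (hg a.2 c.2 hac)
  have h1 := Rs689.PB_map_inj (ι := ι) (κ := S0) j1 (fun _ => hf)
  have h2 := Rs689.PB_map_inj (ι := κ) (κ := S0) (j := fun t : S0 => (t : κ))
    Subtype.val_injective (fun _ => hf)
  have m1' : Measurable (fun (z : ι → Bool) (k : S0) => z (g k)) :=
    measurable_pi_lambda _ fun k => measurable_pi_apply _
  have m2' : Measurable (fun (z : κ → Bool) (k : S0) => z k) :=
    measurable_pi_lambda _ fun k => measurable_pi_apply _
  have e1 : (fun s : ι → Bool => f (s ∘ g)) = G ∘ fun (z : ι → Bool) (k : S0) => z (g k) := by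
    funext s
    exact hG _
  have e2 : f = G ∘ fun (z : κ → Bool) (k : S0) => z k := by
    funext s
    exact hG _
  rw [e1, e2]
  have i1 := integral_map (μ := PB fun _ : ι => hf) m1'.aemeasurable (f := G) hGm
  have i2 := integral_map (μ := PB fun _ : κ => hf) m2'.aemeasurable (f := G) hGm
  rw [h1] at i1
  rw [h2] at i2
  exact i1.symm.trans i2

/-! ### dropped ends -/

/-- **off `Bad` the dropped ends do not contribute** -/
theorem drop_D {T : Type*} [DecidableEq T] {w : Wd T} (h : Sw300.Ok w) {m1 m2 m3 : Port T}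
    (hM : Mk w m1 m2 m3) (P : Port T → Prop) (Bad : Set (T → Bool))
    (hBad : ∀ s ∉ Bad, ∀ j ∈ Ico (idL (L w) m1 m2) (idL (L w) m1 m3),
      P (enL (L w) m1 j) → SmP w s m1 m2 j = 0) :
    ‖HW w m1 m2 m3 - ∫ s, VJ w m1 m2 m3 P s ∂(PB fun _ : T => hf)‖ ≤
      7 / 2 * (PB fun _ : T => hf).real Bad := by
  classical
  obtain ⟨i1, e1⟩ := Dr945.hv_comp (ι := T) w m1 m2 m3 (g := id) (Set.injOn_id _)
  have i2 := integrable_VJ w m1 m2 m3 P
  rw [← e1, ← integral_sub i1 i2]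
  set μ := PB fun _ : T => hf with hμ
  have hB := measurableSet_toMeasurable μ Bad
  have h1 : ∀ s : T → Bool, ‖HV w m1 m2 m3 (s ∘ id) - VJ w m1 m2 m3 P s‖ ≤
      (toMeasurable μ Bad).indicator (fun _ => (7 / 2 : ℝ)) s := by
    intro s
    by_cases hs : s ∈ toMeasurable μ Bad
    · rw [Set.indicator_of_mem hs]
      exact norm_HV_sub_VJ h hM _ _
    · rw [Set.indicator_of_notMem hs]
      have hs' : s ∉ Bad := fun hh => hs (subset_toMeasurable μ Bad hh)
      have h2 : HV w m1 m2 m3 (s ∘ id) = VJ w m1 m2 m3 P s := by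
        show HV w m1 m2 m3 s = _
        rw [HV_eq_VJ h hM P, Finset.sum_eq_zero]
        · simp
        · intro j hj
          rw [mem_filter] at hj
          rw [← SmP_hL h m2 hM.1]
          exact hBad s hs' j hj.1 hj.2
      rw [h2, sub_self, norm_zero]
  refine (norm_integral_le_of_norm_le ?_ (Filter.Eventually.of_forall h1)).trans ?_
  · exact (integrable_const (7 / 2 : ℝ)).indicator hB
  · rw [integral_indicator hB, setIntegral_const, smul_eq_mul]
    have : μ.real (toMeasurable μ Bad) = μ.real Bad := by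
      unfold Measure.real; rw [measure_toMeasurable]
    rw [this]; linarith

/-- **the estimate at one point** -/
theorem eval_gen : ∃ c q : ℝ, 0 < c ∧ 0 < q ∧ q < 1 ∧
    ∀ (A : Finset (ℤ × ℤ)) (B : Band A) (p y0 k b : ℤ) (h N : ℕ) (hz : B.At p y0)
      (_ : Par B k b h N), 2 * q ^ N ≤ 1 / 2 →
      ∀ (H : TabH A B.xl B.xr B.y1 B.y2 k p y0 (psD B)) (w : Wd (ℤ × ℤ))
        (_ : GW (DB B k) (beD (DB B k) p y0 (B.xr + k)) w) (w0 : Wd (ℤ × ℤ))
        (l0 : List (Port (ℤ × ℤ))) (_ : Psi664.BW (full A) B.xl B.y1 w0 l0)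
        (m1 m2 m3 : Port (ℤ × ℤ)) (_ : Mk w m1 m2 m3)
        (_ : ∀ m, m = m1 ∨ m = m2 ∨ m = m3 → ∃ t d, m = some (t, d) ∧ t ∈ A)
        (J : Finset (Port TG)) (a' a0 b1 b' : ℤ)
        (_ : ∀ q ∈ J, EndOk a0 b1 (some q) ∧
          inI B b (pm (eD B y0 k) m2) (pm (eD B y0 k) m3) q ∧
          ∃ x, (Oc194.NatD B x ∨ Oc194.NatS B k x) ∧ pm (eD B y0 k) x = q)
        (_ : Pm B k a' a0 b1 b') (_ : (N : ℤ) * h ≤ a') (_ : (N : ℤ) * h ≤ a0 - a')
        (_ : (N : ℤ) * h ≤ b' - b1) (_ : (N : ℤ) * h ≤ B.R - 2 - b')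
        (_ : (N : ℤ) * h ≤ k - 2 - a0) (_ : (N : ℤ) * h ≤ b1 - (B.R - 1 - k))
        (Al Au : Finset (ℤ × ℤ)) (_ : Split B Al Au) (_ : ∀ s ∈ Al, ∀ t ∈ Au, ¬ Adj4 s t)
        (Y : (TG → Bool) → ℝ) (C : ℝ) (U : Finset TG) (_ : Disjoint (Wf B y0 b h) U)
        (_ : DepF U Y) (_ : ∀ s, 0 ≤ Y s) (_ : 0 ≤ C)
        (_ : ∫ s, Y s ^ 2 ∂(PB fun _ : TG => hf) ≤ C ^ 2)
        (_ : ∀ s, ‖valG B p y0 b (pm (eD B y0 k) m1) (pm (eD B y0 k) m2) J s‖ ≤ Y s)
        (Bad : Set (ℤ × ℤ → Bool))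
        (_ : ∀ s ∉ Bad, ∀ j ∈ Ico (idL (L w) m1 m2) (idL (L w) m1 m3),
          ¬ Qe249.Deep B y0 k a0 b1 (enL (L w) m1 j) → pm (eD B y0 k) (enL (L w) m1 j) ∉ J →
            SmP w s m1 m2 j = 0),
        ‖HGr B Al Au b (pm (eD B y0 k) m1) (pm (eD B y0 k) m2) J
          (star (Complex.exp (Complex.I * (Real.pi / 12))) *
          ((((3 : ℝ) ^ ((((freeG B).card : ℝ) - 1) / 4) * Zs B k b h : ℝ)) : ℂ)) p y0 -
          HW w m1 m2 m3‖ ≤
          9 / 2 * (2 * q ^ N) + C / c * Real.sqrt (4 * q ^ N) +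
            7 / 2 * (4 * q ^ N + (PB fun _ : ℤ × ℤ => hf).real Bad) := by
  obtain ⟨c, q1, hc, hq1, hq1', hS⟩ := ring_strip
  obtain ⟨q2, hq2, hq2', hgD⟩ := gateD_prob
  refine ⟨c, max q1 q2, hc, lt_max_of_lt_left hq1, max_lt hq1' hq2', ?_⟩
  intro A B p y0 k b h N hz hP hN H w hw w0 l0 hBW m1 m2 m3 hM hA J a' a0 b1 b' hJ hPm n1 n2 n3 n4
    n5 n6 Al Au hs hadj Y C U hU hY hY0 hC hC2 hval Bad hBad
  set q := max q1 q2 with hq
  have hqN1 : q1 ^ N ≤ q ^ N := pow_le_pow_left₀ hq1.le (le_max_left _ _) N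
  have hqN2 : q2 ^ N ≤ q ^ N := pow_le_pow_left₀ hq2.le (le_max_right _ _) N
  have hR := hPm.kR
  have hh := hP.hh
  have h3 := hP.h3
  have hk2 := hP.k2
  have hbl := hP.bl
  have hbr := hP.br
  have p0 := hPm.h0
  have p1 := hPm.h1
  have p2 := hPm.h2
  have p3 := hPm.h3
  have p4 := hPm.h4
  have p5 := hPm.h5
  have hNN : (0 : ℤ) ≤ (N : ℤ) * h := by positivity
  have hm : ∀ m, m = m1 ∨ m = m2 ∨ m = m3 → ∃ t d, pm (eD B y0 k) m = some (Sum.inl t, d) := by
    intro m hm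
    obtain ⟨t, d, rfl, ht⟩ := hA m hm
    exact ⟨t, d, Oc194.pm_A H.hf ht⟩
  have hnd : ∀ a b m, m = m1 ∨ m = m2 ∨ m = m3 → ¬ Qe249.Deep B y0 k a b m := by
    intro a b m hm
    obtain ⟨t, d, rfl, ht⟩ := hA m hm
    exact Qe249.not_deep H.hf ht d
  -- the observable
  have O := Oc194.ord_D H hR hBW hw
  have hVJ : ∀ s, VJ w m1 m2 m3 (fun x => pm (eD B y0 k) x ∉ J) s =
      valD B p y0 k b (pm (eD B y0 k) m1) (pm (eD B y0 k) m2) J w s := fun s =>
    Oc194.VJ_C0 H hw hR hz (by omega) (by omega) O hM hA J (fun q hq => (hJ q hq).2) s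
  have hv : ∀ s', ‖valD B p y0 k b (pm (eD B y0 k) m1) (pm (eD B y0 k) m2) J w s'‖ ≤ 9 / 2 := by
    intro s'
    rw [← hVJ]
    have h1 := norm_HV_sub_VJ hw.word.1 hM (fun x => pm (eD B y0 k) x ∉ J) s'
    have h2 : ‖HV w m1 m2 m3 s'‖ ≤ 1 := Ob664.norm_le_of_Tri Ob664.HV_mem
    have h3 : VJ w m1 m2 m3 (fun x => pm (eD B y0 k) x ∉ J) s' = HV w m1 m2 m3 s' -
        (HV w m1 m2 m3 s' - VJ w m1 m2 m3 (fun x => pm (eD B y0 k) x ∉ J) s') := by ring
    rw [h3]
    refine (norm_sub_le _ _).trans ?_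
    linarith
  obtain ⟨-, -, hmain⟩ := hS A B p y0 k b h N hz hP (by linarith)
  have t1 := hmain H w hw (pm (eD B y0 k) m1) (pm (eD B y0 k) m2) (hm _ (Or.inl rfl))
    (hm _ (Or.inr (Or.inl rfl))) J a0 b1 (fun q hq => (hJ q hq).1) (by omega) n5 (by omega) n6
    (by omega) (by omega) Al Au hs hadj (9 / 2) (by norm_num) hv Y C U hU hY hY0 hC hC2 hval
  -- the law of the tiles of `Dp`
  have t2 : ∫ s, valD B p y0 k b (pm (eD B y0 k) m1) (pm (eD B y0 k) m2) J w (s ∘ eD B y0 k)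
      ∂(PB fun _ : TG => hf) =
      ∫ s, VJ w m1 m2 m3 (fun x => pm (eD B y0 k) x ∉ J) s ∂(PB fun _ : ℤ × ℤ => hf) := by
    rw [int_law (DB B k) (g := eD B y0 k) ?_ fun s s' hss => valD_dep hw hss]
    · simp only [hVJ]
    · rintro ⟨x, y⟩ h1 ⟨x', y'⟩ h2 e
      exact Xr249.eD_inj H.hf hR h1 h2 e
  -- dropped ends
  have t3 := drop_D hw.word.1 hM (fun x => pm (eD B y0 k) x ∉ J) ((gateD hz hPm)ᶜ ∪ Bad)
    (fun s hs j hj hPj => by
      rw [Set.mem_union, not_or, Set.mem_compl_iff, not_not] at hs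
      have hjl : j < (L w).length := by
        have h1 := Al194.idL_lt (m1 := m1) hM.2.2.1
        have h2 := (mem_Ico.1 hj).2
        omega
      by_cases hd : Qe249.Deep B y0 k a0 b1 (enL (L w) m1 j)
      · exact gateD_zero H.hf hw hs.1 hM.1 hM.2.1 (hnd _ _ _ (Or.inl rfl))
          (hnd _ _ _ (Or.inr (Or.inl rfl))) hjl hd
      · exact hBad s hs.2 j hj hd hPj)
  have t4 := (hgD A B p y0 k a' a0 b1 b' H.hf hz hPm h N (by omega) hh n1 n2 n3 n4).2
  have t5 : (PB fun _ : ℤ × ℤ => hf).real ((gateD hz hPm)ᶜ ∪ Bad) ≤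
      4 * q ^ N + (PB fun _ : ℤ × ℤ => hf).real Bad :=
    (measureReal_union_le _ _).trans (by linarith)
  rw [t2] at t1
  have t6 : Real.sqrt (4 * q1 ^ N) ≤ Real.sqrt (4 * q ^ N) := Real.sqrt_le_sqrt (by linarith)
  have t7 : C / c * Real.sqrt (4 * q1 ^ N) ≤ C / c * Real.sqrt (4 * q ^ N) :=
    mul_le_mul_of_nonneg_left t6 (by positivity)
  rw [norm_sub_rev] at t3
  refine (norm_sub_le_norm_sub_add_norm_sub _ _ _).trans (add_le_add (t1.trans ?_) (t3.trans ?_))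
  · linarith
  · linarith

end Crest.Agent.R158.Ad350
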