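import Crest.Agent.R158.Vt4_300

/-!
# R158 block F5 (doc 1925), part 1: cyclic form of (A1)

Positions `i < N` of the free ends of a disc in clockwise order from the base, gaps `g ∈ [0, N]`
(`g` = just before position `g`; `0` and `N` are the base gap).  `π` is the partner map, `k` the
unmatched end (end of the leg).  Marks `x1 ≤ x2 ≤ x3` and the moving mark `m` are gaps.
-/

set_option autoImplicit false

namespace Crest.Agent.R158.Al194

open Crest.Agent.R158.Vt300 Finset

/-- non-crossing matching of the cyclic positions `0, ..., N - 1` with one unmatched position -/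
structure NCK (π : ℕ → ℕ) (N k : ℕ) : Prop where
  lt : k < N
  fix : π k = k
  mem : ∀ i, i < N → π i < N
  inv : ∀ i, i < N → π (π i) = i
  ne : ∀ i, i < N → i ≠ k → π i ≠ i
  nc : ∀ i j, i < j → j < π i → π i < N → j = k ∨ (i < π j ∧ π j < π i)

/-- `i` is the start of its arc: the clockwise interval from `i` to `π i` avoids `k` -/
def st (π : ℕ → ℕ) (k i : ℕ) : Prop := (i < π i ∧ (k < i ∨ π i < k)) ∨ (π i < k ∧ k < i)

instance (π : ℕ → ℕ) (k i : ℕ) : Decidable (st π k i) := inferInstanceAs (Decidable (_ ∨ _))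

/-- the gap `x` lies in the clockwise interval from `i` to `π i` -/
def ing (π : ℕ → ℕ) (x i : ℕ) : Prop := if i < π i then i < x ∧ x ≤ π i else i < x ∨ x ≤ π i

instance (π : ℕ → ℕ) (x i : ℕ) : Decidable (ing π x i) := by unfold ing; infer_instance

/-- some arc separates the gaps `x, y` from the gap `z` and from the leg -/
def Sep (π : ℕ → ℕ) (N k x y z : ℕ) : Prop :=
  ∃ i, i < N ∧ st π k i ∧ ing π x i ∧ ing π y i ∧ ¬ ing π z i

/-- cumulative charge (in units `π / 3`): `+1` at `x1`, `x2`, `-2` at `m` -/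
def chg (x1 x2 m i : ℕ) : ℤ :=
  (if x1 ≤ i then 1 else 0) + (if x2 ≤ i then 1 else 0) - 2 * (if m ≤ i then 1 else 0)

/-- product of the arc weights -/
def hz (π : ℕ → ℕ) (N k x1 x2 m : ℕ) : ℤ :=
  ∏ i ∈ (range N).filter (fun i => st π k i), wz (chg x1 x2 m (π i) - chg x1 x2 m i)

/-- product of the arc weights and of the phase of the leg -/
noncomputable def hc (π : ℕ → ℕ) (N k x1 x2 m : ℕ) : ℂ :=
  (hz π N k x1 x2 m : ℂ) * v2 ^ (chg x1 x2 m k)

open Classical in
/-- the triangle observable, by separation from the end `k` of the leg -/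
noncomputable def Vc (π : ℕ → ℕ) (N k x1 x2 x3 : ℕ) : ℂ :=
  if k < x1 ∨ x3 ≤ k then
    (if Sep π N k x2 x3 x1 then 0 else if Sep π N k x1 x2 x3 then 1 else 1 / 2)
  else if k < x2 then
    (if Sep π N k x2 x3 x1 then 0 else if Sep π N k x3 x1 x2 then v2 else v2 / 2)
  else
    (if Sep π N k x1 x2 x3 then 1 else if Sep π N k x3 x1 x2 then v2 else (v2 + 1) / 2)

/-! ### rotation -/

/-- position (or gap) seen from the leg -/
def rot (N k i : ℕ) : ℕ := if k < i then i - k - 1 else i + (N - 1 - k)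

/-- inverse of `rot` on positions -/
def unr (N k j : ℕ) : ℕ := if j < N - 1 - k then j + k + 1 else j - (N - 1 - k)

lemma rot_unr {N k j : ℕ} (hj : j < N - 1) (hk : k < N) : rot N k (unr N k j) = j := by
  unfold rot unr; split_ifs <;> omega

lemma unr_rot {N k i : ℕ} (hi : i < N) (hk : k < N) (h : i ≠ k) : unr N k (rot N k i) = i := by
  unfold rot unr; split_ifs <;> omega

lemma unr_lt {N k j : ℕ} (hj : j < N - 1) (hk : k < N) : unr N k j < N := by
  unfold unr; split_ifs <;> omega

lemma unr_ne {N k j : ℕ} (hj : j < N - 1) (hk : k < N) : unr N k j ≠ k := by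
  unfold unr; split_ifs <;> omega

lemma rot_lt {N k i : ℕ} (hi : i < N) (hk : k < N) (h : i ≠ k) : rot N k i < N - 1 := by
  unfold rot; split_ifs <;> omega

/-- partner map seen from the leg -/
def prt (π : ℕ → ℕ) (N k : ℕ) (j : ℕ) : ℕ := rot N k (π (unr N k j))

variable {π : ℕ → ℕ} {N k : ℕ}

lemma NCK.ne_k (h : NCK π N k) {i : ℕ} (hi : i < N) (hik : i ≠ k) : π i ≠ k := by
  intro he
  have := h.inv i hi
  rw [he, h.fix] at this
  exact hik this.symm

lemma NCK.nc' (h : NCK π N k) {a j : ℕ} (ha : a < N) (hj : j < N) (hjk : j ≠ k)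
    (h1 : a < j) (h2 : j < π a) : a < π j ∧ π j < π a := by
  rcases h.nc a j h1 h2 (h.mem a ha) with h3 | h3
  · exact absurd h3 hjk
  · exact h3

/-- the rotated matching is a non-crossing perfect matching of `[0, N - 1)` -/
theorem NCK.ncm (h : NCK π N k) : NCM (prt π N k) 0 (N - 1) := by
  have hk := h.lt
  constructor
  · intro i _ hi
    rw [zero_add] at hi ⊢
    exact ⟨Nat.zero_le _, rot_lt (h.mem _ (unr_lt hi hk)) hk (h.ne_k (unr_lt hi hk) (unr_ne hi hk))⟩
  · intro i _ hi he
    rw [zero_add] at hi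
    have h1 : unr N k (rot N k (π (unr N k i))) = unr N k i := by
      unfold prt at he; rw [he]
    rw [unr_rot (h.mem _ (unr_lt hi hk)) hk (h.ne_k (unr_lt hi hk) (unr_ne hi hk))] at h1
    exact h.ne _ (unr_lt hi hk) (unr_ne hi hk) h1
  · intro i _ hi
    rw [zero_add] at hi
    unfold prt
    rw [unr_rot (h.mem _ (unr_lt hi hk)) hk (h.ne_k (unr_lt hi hk) (unr_ne hi hk)),
      h.inv _ (unr_lt hi hk), rot_unr hi hk]
  · intro i j _ hij hj hN
    rw [zero_add] at hN
    have hj' : j < N - 1 := by omega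
    have hi' : i < N - 1 := by omega
    set a := unr N k i with ha
    set b := unr N k j with hb
    have haN : a < N := unr_lt hi' hk
    have hbN : b < N := unr_lt hj' hk
    have hak : a ≠ k := unr_ne hi' hk
    have hbk : b ≠ k := unr_ne hj' hk
    have hi0 : i = rot N k a := (rot_unr hi' hk).symm
    have hj0 : j = rot N k b := (rot_unr hj' hk).symm
    have e1 : prt π N k i = rot N k (π a) := rfl
    have e2 : prt π N k j = rot N k (π b) := rfl
    rw [e1] at hj
    rw [e1, e2]
    rw [hi0] at hij ⊢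
    rw [hj0] at hij hj
    have p1 := h.mem a haN
    have p2 := h.mem b hbN
    have p3 := h.ne_k haN hak
    have p4 := h.ne_k hbN hbk
    have p5 := h.inv a haN
    have p6 := h.inv b hbN
    have p7 := h.ne a haN hak
    have p8 := h.ne b hbN hbk
    have p9 : b ≠ π a := by
      intro hh; rw [hh] at hj; omega
    have p10 : π b ≠ a := by
      intro hh; rw [hh] at p6; exact p9 p6.symm
    have p11 : π b ≠ π a := by
      intro hh
      have : π (π b) = π (π a) := by rw [hh]
      rw [p5, p6] at this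
      rw [this] at hij; omega
    have q1 : a < b → b < π a → a < π b ∧ π b < π a := fun h1 h2 => h.nc' haN hbN hbk h1 h2
    have q2 : π a < b → b < a → π a < π b ∧ π b < a := by
      intro h1 h2
      have := h.nc' p1 hbN hbk h1 (by rw [p5]; exact h2)
      rwa [p5] at this
    have q3 : a < π b → π b < π a → a < b ∧ b < π a := by
      intro h1 h2
      have := h.nc' haN p2 p4 h1 h2
      rwa [p6] at this
    have q4 : π a < π b → π b < a → π a < b ∧ b < a := by
      intro h1 h2
      have := h.nc' p1 p2 p4 h1 (by rw [p5]; exact h2)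
      rwa [p5, p6] at this
    unfold rot at *
    split_ifs at * <;> omega

/-- starts of arcs = left ends seen from the leg -/
lemma NCK.st_iff (h : NCK π N k) {i : ℕ} (hi : i < N) (hik : i ≠ k) :
    st π k i ↔ rot N k i < rot N k (π i) := by
  have p1 := h.mem i hi
  have p2 := h.ne_k hi hik
  have p3 := h.ne i hi hik
  have hk := h.lt
  unfold st rot
  split_ifs <;> omega

lemma not_st_fix (h : NCK π N k) : ¬ st π k k := by
  unfold st; rw [h.fix]; omega

/-- interval membership seen from the leg -/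
lemma NCK.ing_iff (h : NCK π N k) {i x : ℕ} (hi : i < N) (hs : st π k i) (hx : x ≤ N) :
    ing π x i ↔ ins (rot N k x) (rot N k i, rot N k (π i)) := by
  have hik : i ≠ k := by rintro rfl; exact not_st_fix h hs
  have p1 := h.mem i hi
  have p2 := h.ne_k hi hik
  have p3 := h.ne i hi hik
  have hk := h.lt
  unfold st at hs
  unfold ing ins rot
  simp only
  split_ifs <;> omega

lemma NCK.ind_eq (h : NCK π N k) {i x : ℕ} (hi : i < N) (hs : st π k i) (hx : x ≤ N) :
    ind (rot N k x) (rot N k i, rot N k (π i)) =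
      (if x ≤ π i then 1 else 0) - (if x ≤ i then 1 else 0) + (if π i < i then 1 else 0) := by
  have hik : i ≠ k := by rintro rfl; exact not_st_fix h hs
  have p3 := h.ne i hi hik
  unfold ind
  rw [if_congr (h.ing_iff hi hs hx).symm rfl rfl]
  unfold ing
  split_ifs <;> omega

/-- arc charge seen from the leg -/
lemma NCK.chg_eq (h : NCK π N k) {i x1 x2 m : ℕ} (hi : i < N) (hs : st π k i) (h1 : x1 ≤ N)
    (h2 : x2 ≤ N) (hm : m ≤ N) :
    chg x1 x2 m (π i) - chg x1 x2 m i =
      ind (rot N k x1) (rot N k i, rot N k (π i)) + ind (rot N k x2) (rot N k i, rot N k (π i))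
        - 2 * ind (rot N k m) (rot N k i, rot N k (π i)) := by
  rw [h.ind_eq hi hs h1, h.ind_eq hi hs h2, h.ind_eq hi hs hm]
  unfold chg
  split_ifs <;> omega

/-- product over the arcs seen from the leg -/
lemma NCK.prod_eq (h : NCK π N k) (f : ℕ → ℕ → ℤ) :
    ∏ j ∈ (Ico 0 (0 + (N - 1))).filter (fun j => j < prt π N k j), f j (prt π N k j) =
      ∏ i ∈ (range N).filter (fun i => st π k i), f (rot N k i) (rot N k (π i)) := by
  have hk := h.lt
  symm
  apply prod_nbij' (i := rot N k) (j := unr N k)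
  · intro i hi
    simp only [mem_filter, mem_range, mem_Ico, zero_add] at hi ⊢
    have hik : i ≠ k := by rintro rfl; exact not_st_fix h hi.2
    refine ⟨⟨Nat.zero_le _, rot_lt hi.1 hk hik⟩, ?_⟩
    unfold prt
    rw [unr_rot hi.1 hk hik]
    exact (h.st_iff hi.1 hik).1 hi.2
  · intro j hj
    simp only [mem_filter, mem_range, mem_Ico, zero_add] at hj ⊢
    have hj' : j < N - 1 := hj.1.2
    refine ⟨unr_lt hj' hk, ?_⟩
    rw [h.st_iff (unr_lt hj' hk) (unr_ne hj' hk), rot_unr hj' hk]
    exact hj.2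
  · intro i hi
    simp only [mem_filter, mem_range] at hi
    have hik : i ≠ k := by rintro rfl; exact not_st_fix h hi.2
    exact unr_rot hi.1 hk hik
  · intro j hj
    simp only [mem_filter, mem_Ico, zero_add] at hj
    exact rot_unr hj.1.2 hk
  · intro i hi
    simp only [mem_filter, mem_range] at hi
    have hik : i ≠ k := by rintro rfl; exact not_st_fix h hi.2
    unfold prt
    rw [unr_rot hi.1 hk hik]

/-- the tree seen from the leg -/
theorem NCK.exists_tree (h : NCK π N k) :
    ∃ F : NC, NC.sz F = N - 1 ∧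
      (∀ x y z, x ≤ N → y ≤ N → z ≤ N →
        (Sep π N k x y z ↔ sep F 0 (rot N k x) (rot N k y) (rot N k z))) ∧
      (∀ x1 x2 m, x1 ≤ N → x2 ≤ N → m ≤ N →
        hz π N k x1 x2 m = hh (rot N k x1) (rot N k x2) (rot N k m) F 0) := by
  obtain ⟨F, h1, h2, h3⟩ := h.ncm.exists_tree
  have hk := h.lt
  refine ⟨F, h1, ?_, ?_⟩
  · intro x y z hx hy hz
    constructor
    · rintro ⟨i, hi, hs, a, b, c⟩
      have hik : i ≠ k := by rintro rfl; exact not_st_fix h hs
      refine ⟨(rot N k i, rot N k (π i)), ?_, (h.ing_iff hi hs hx).1 a, (h.ing_iff hi hs hy).1 b,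
        fun c' => c ((h.ing_iff hi hs hz).2 c')⟩
      rw [h2]
      refine ⟨Nat.zero_le _, (h.st_iff hi hik).1 hs, ?_, ?_⟩
      · rw [zero_add]; exact rot_lt (h.mem i hi) hk (h.ne_k hi hik)
      · simp only [prt]; rw [unr_rot hi hk hik]
    · rintro ⟨e, he, a, b, c⟩
      rw [h2] at he
      obtain ⟨-, he1, he2, he3⟩ := he
      rw [zero_add] at he2
      have hj' : e.1 < N - 1 := by omega
      have hs : st π k (unr N k e.1) := by
        rw [h.st_iff (unr_lt hj' hk) (unr_ne hj' hk), rot_unr hj' hk]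
        have : rot N k (π (unr N k e.1)) = e.2 := he3
        rw [this]; exact he1
      have hee : (rot N k (unr N k e.1), rot N k (π (unr N k e.1))) = e := by
        ext
        · exact rot_unr hj' hk
        · exact he3
      refine ⟨unr N k e.1, unr_lt hj' hk, hs, ?_, ?_, ?_⟩
      · rw [h.ing_iff (unr_lt hj' hk) hs hx, hee]; exact a
      · rw [h.ing_iff (unr_lt hj' hk) hs hy, hee]; exact b
      · rw [h.ing_iff (unr_lt hj' hk) hs hz, hee]; exact c
  · intro x1 x2 m hx1 hx2 hm
    unfold hz hh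
    rw [h3 (fun e => wz (ind (rot N k x1) e + ind (rot N k x2) e - 2 * ind (rot N k m) e))]
    rw [h.prod_eq (fun a b => wz (ind (rot N k x1) (a, b) + ind (rot N k x2) (a, b)
      - 2 * ind (rot N k m) (a, b)))]
    apply prod_congr rfl
    intro i hi
    simp only [mem_filter, mem_range] at hi
    rw [h.chg_eq hi.1 hi.2 hx1 hx2 hm]

/-- sum over gaps, shifted -/
lemma sum_shift {a b c : ℕ} (f : ℕ → ℂ) :
    ∑ m ∈ Icc a b, f (m + c) = ∑ m ∈ Icc (a + c) (b + c), f m := by
  rw [← Finset.map_add_right_Icc, sum_map]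
  rfl

/-- **(A1), cyclic form** -/
theorem NCK.Vc_eq (h : NCK π N k) {x1 x2 x3 : ℕ} (h12 : x1 ≤ x2) (h23 : x2 ≤ x3) (h3 : x3 ≤ N) :
    (∑ m ∈ Icc x2 x3, hc π N k x1 x2 m) - hc π N k x1 x2 x3 / 2 = Vc π N k x1 x2 x3 := by
  classical
  obtain ⟨F, hF, hS, hH⟩ := h.exists_tree
  have hk := h.lt
  have hv : v2 ^ 2 = v2 - 1 := v2_sq
  have hN : N = NC.sz F + 1 := by omega
  unfold Vc
  by_cases c1 : k < x1
  · -- leg before `x1`
    have r : ∀ x, k < x → rot N k x = x - k - 1 := fun x hx => by unfold rot; rw [if_pos hx]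
    rw [if_pos (Or.inl c1), if_congr (hS _ _ _ (by omega) (by omega) (by omega)) rfl rfl,
      if_congr (hS x1 x2 x3 (by omega) (by omega) (by omega)) rfl rfl,
      r x1 c1, r x2 (by omega), r x3 (by omega)]
    rw [← A1_31 (y1 := x1 - k - 1) (y2 := x2 - k - 1) (y3 := x3 - k - 1) (F := F) (by omega)
      (by omega) (by omega)]
    have hg : ∀ m, x2 ≤ m → m ≤ x3 → hc π N k x1 x2 m =
        (hh (x1 - k - 1) (x2 - k - 1) (m - k - 1) F 0 : ℂ) := by
      intro m hm1 hm2
      unfold hc
      rw [hH x1 x2 m (by omega) (by omega) (by omega), r x1 c1, r x2 (by omega), r m (by omega)]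
      have : chg x1 x2 m k = 0 := by
        unfold chg; rw [if_neg (by omega), if_neg (by omega), if_neg (by omega)]; norm_num
      rw [this]; simp
    rw [hg x3 h23 le_rfl]
    congr 1
    have e2 : x2 = (x2 - k - 1) + (k + 1) := by omega
    have e3 : x3 = (x3 - k - 1) + (k + 1) := by omega
    rw [sum_congr rfl (fun m hm => hg m (mem_Icc.1 hm).1 (mem_Icc.1 hm).2)]
    conv_lhs => rw [e2, e3]
    rw [← sum_shift (fun m => (hh (x1 - k - 1) ((x2 - k - 1) + (k + 1) - k - 1) (m - k - 1) F 0 : ℂ))]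
    apply sum_congr rfl
    intro m _
    have a1 : (x2 - k - 1) + (k + 1) - k - 1 = x2 - k - 1 := by omega
    have a2 : m + (k + 1) - k - 1 = m := by omega
    rw [a1, a2]
  by_cases c2 : x3 ≤ k
  · -- leg after `x3`
    have r : ∀ x, x ≤ k → rot N k x = x + (N - 1 - k) := fun x hx => by
      unfold rot; rw [if_neg (by omega)]
    rw [if_pos (Or.inr c2), if_congr (hS _ _ _ (by omega) (by omega) (by omega)) rfl rfl,
      if_congr (hS x1 x2 x3 (by omega) (by omega) (by omega)) rfl rfl,
      r x1 (by omega), r x2 (by omega), r x3 (by omega)]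
    rw [← A1_31 (F := F) (by omega) (by omega) (by omega)]
    have hg : ∀ m, x2 ≤ m → m ≤ x3 → hc π N k x1 x2 m =
        (hh (x1 + (N - 1 - k)) (x2 + (N - 1 - k)) (m + (N - 1 - k)) F 0 : ℂ) := by
      intro m hm1 hm2
      unfold hc
      rw [hH x1 x2 m (by omega) (by omega) (by omega), r x1 (by omega), r x2 (by omega),
        r m (by omega)]
      have : chg x1 x2 m k = 0 := by
        unfold chg; rw [if_pos (by omega), if_pos (by omega), if_pos (by omega)]; norm_num
      rw [this]; simp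
    rw [hg x3 h23 le_rfl, sum_congr rfl (fun m hm => hg m (mem_Icc.1 hm).1 (mem_Icc.1 hm).2),
      sum_shift (fun m => (hh (x1 + (N - 1 - k)) (x2 + (N - 1 - k)) m F 0 : ℂ))]
  rw [if_neg (by omega)]
  by_cases c3 : k < x2
  · -- leg in `[x1, x2)`
    have r : ∀ x, k < x → rot N k x = x - k - 1 := fun x hx => by unfold rot; rw [if_pos hx]
    have r' : rot N k x1 = x1 + (N - 1 - k) := by unfold rot; rw [if_neg (by omega)]
    rw [if_pos c3, if_congr (hS _ _ _ (by omega) (by omega) (by omega)) rfl rfl,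
      if_congr (hS x3 x1 x2 (by omega) (by omega) (by omega)) rfl rfl,
      r x2 c3, r x3 (by omega), r']
    rw [← A1_12 (F := F) (by omega) (by omega) (by omega)]
    have hg : ∀ m, x2 ≤ m → m ≤ x3 → hc π N k x1 x2 m =
        v2 * (hh (x1 + (N - 1 - k)) (x2 - k - 1) (m - k - 1) F 0 : ℂ) := by
      intro m hm1 hm2
      unfold hc
      rw [hH x1 x2 m (by omega) (by omega) (by omega), r', r x2 (by omega), r m (by omega)]
      have : chg x1 x2 m k = 1 := by
        unfold chg; rw [if_pos (by omega), if_neg (by omega), if_neg (by omega)]; norm_num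
      rw [this, zpow_one, mul_comm]
    rw [hg x3 h23 le_rfl, sum_congr rfl (fun m hm => hg m (mem_Icc.1 hm).1 (mem_Icc.1 hm).2),
      ← mul_sum]
    have e2 : x2 = (x2 - k - 1) + (k + 1) := by omega
    have e3 : x3 = (x3 - k - 1) + (k + 1) := by omega
    have e4 : ∑ m ∈ Icc x2 x3, (hh (x1 + (N - 1 - k)) (x2 - k - 1) (m - k - 1) F 0 : ℂ) =
        ∑ m ∈ Icc (x2 - k - 1) (x3 - k - 1), (hh (x1 + (N - 1 - k)) (x2 - k - 1) m F 0 : ℂ) := by
      conv_lhs => rw [e2, e3]
      rw [← sum_shift (fun m => (hh (x1 + (N - 1 - k)) ((x2 - k - 1) + (k + 1) - k - 1)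
        (m - k - 1) F 0 : ℂ))]
      apply sum_congr rfl
      intro m _
      have a1 : (x2 - k - 1) + (k + 1) - k - 1 = x2 - k - 1 := by omega
      have a2 : m + (k + 1) - k - 1 = m := by omega
      rw [a1, a2]
    rw [e4]
    ring
  · -- leg in `[x2, x3)`
    have r : ∀ x, k < x → rot N k x = x - k - 1 := fun x hx => by unfold rot; rw [if_pos hx]
    have r' : ∀ x, x ≤ k → rot N k x = x + (N - 1 - k) := fun x hx => by
      unfold rot; rw [if_neg (by omega)]
    rw [if_neg c3, if_congr (hS _ _ _ (by omega) (by omega) (by omega)) rfl rfl,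
      if_congr (hS x3 x1 x2 (by omega) (by omega) (by omega)) rfl rfl,
      r x3 (by omega), r' x1 (by omega), r' x2 (by omega)]
    rw [← A1_23 (F := F) (by omega) (by omega) (by omega)]
    have hg1 : ∀ m, x2 ≤ m → m ≤ k → hc π N k x1 x2 m =
        (hh (x1 + (N - 1 - k)) (x2 + (N - 1 - k)) (m + (N - 1 - k)) F 0 : ℂ) := by
      intro m hm1 hm2
      unfold hc
      rw [hH x1 x2 m (by omega) (by omega) (by omega), r' x1 (by omega), r' x2 (by omega),
        r' m (by omega)]
      have : chg x1 x2 m k = 0 := by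
        unfold chg; rw [if_pos (by omega), if_pos (by omega), if_pos (by omega)]; norm_num
      rw [this]; simp
    have hg2 : ∀ m, k < m → m ≤ x3 → hc π N k x1 x2 m =
        (v2 - 1) * (hh (x1 + (N - 1 - k)) (x2 + (N - 1 - k)) (m - k - 1) F 0 : ℂ) := by
      intro m hm1 hm2
      unfold hc
      rw [hH x1 x2 m (by omega) (by omega) (by omega), r' x1 (by omega), r' x2 (by omega),
        r m (by omega)]
      have : chg x1 x2 m k = 2 := by
        unfold chg; rw [if_pos (by omega), if_pos (by omega), if_neg (by omega)]; norm_num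
      have hv' : v2 ^ (2 : ℤ) = v2 - 1 := by rw [← hv]; norm_cast
      rw [this, mul_comm, hv']
    have hsplit : Icc x2 x3 = Icc x2 k ∪ Icc (k + 1) x3 := by
      ext t; simp only [mem_Icc, mem_union]; omega
    have hdis : Disjoint (Icc x2 k) (Icc (k + 1) x3) := by
      rw [disjoint_left]; intro t; simp only [mem_Icc]; omega
    rw [hsplit, sum_union hdis, hg2 x3 (by omega) le_rfl,
      sum_congr rfl (fun m hm => hg1 m (mem_Icc.1 hm).1 (mem_Icc.1 hm).2),
      sum_congr rfl (fun m hm => hg2 m (by have := (mem_Icc.1 hm).1; omega) (mem_Icc.1 hm).2),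
      ← mul_sum, sum_shift (fun m => (hh (x1 + (N - 1 - k)) (x2 + (N - 1 - k)) m F 0 : ℂ))]
    have e1 : k + (N - 1 - k) = NC.sz F := by omega
    have e4 : ∑ m ∈ Icc (k + 1) x3, (hh (x1 + (N - 1 - k)) (x2 + (N - 1 - k)) (m - k - 1) F 0 : ℂ) =
        ∑ m ∈ Icc 0 (x3 - k - 1), (hh (x1 + (N - 1 - k)) (x2 + (N - 1 - k)) m F 0 : ℂ) := by
      have e3 : (x3 - k - 1) + (k + 1) = x3 := by omega
      have e5 := sum_shift (a := 0) (b := x3 - k - 1) (c := k + 1)
        (fun m => (hh (x1 + (N - 1 - k)) (x2 + (N - 1 - k)) (m - k - 1) F 0 : ℂ))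
      rw [e3, zero_add] at e5
      rw [← e5]
      apply sum_congr rfl
      intro m _
      rw [show m + (k + 1) - k - 1 = m by omega]
    rw [e1, e4]
    ring

end Crest.Agent.R158.Al194
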