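import Mathlib

/-!
# R158 block F5 (doc 1925), part 3: the crude side of the mark sum (no planarity)

A closed strand state: finite set `E` of cut ends, partner `m`, walk phases `θ` (antisymmetric),
one optional unmatched end `u` (end of the leg).  For boundary phases `φ` its weight is
`∏ 2 cos (θ p + φ (m p) - φ p)` over the arcs, times the phase of the leg.
`R` is a set of representatives of the arcs.
-/

set_option autoImplicit false

namespace Crest.Agent.R158.Al194

open Finset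

/-- arcs with representatives `R`, partner `m`, walk phases `θ` -/
structure Arcs {P : Type*} (R : Finset P) (m : P → P) (θ : P → ℝ) : Prop where
  out : ∀ p ∈ R, m p ∉ R
  inv : ∀ p ∈ R, m (m p) = p
  anti : ∀ p ∈ R, θ (m p) = -θ p

/-- weight of the arcs at the boundary phases `φ` -/
noncomputable def Wn {P : Type*} (R : Finset P) (m : P → P) (θ φ : P → ℝ) : ℝ :=
  ∏ p ∈ R, 2 * Real.cos (θ p + φ (m p) - φ p)

variable {P : Type*} [DecidableEq P] {R : Finset P} {m : P → P} {θ : P → ℝ}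

omit [DecidableEq P] in
lemma Arcs.ne (h : Arcs R m θ) {p : P} (hp : p ∈ R) : m p ≠ p := by
  intro e
  have := h.out p hp
  rw [e] at this
  exact this hp

lemma two_cos_mid (x : ℝ) :
    2 * Real.cos (x + Real.pi / 3) + 2 * Real.cos (x - Real.pi / 3) = 2 * Real.cos x := by
  rw [Real.cos_add, Real.cos_sub, Real.cos_pi_div_three]; ring

/-- the factor of the arc of `e` split off -/
lemma Arcs.split (h : Arcs R m θ) {e : P} (he : e ∈ R ∨ (m e ∈ R ∧ m (m e) = e)) (φ : P → ℝ) :
    ∃ R' : Finset P, (∀ p ∈ R', p ∈ R ∧ p ≠ e ∧ m p ≠ e) ∧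
      ∀ t : ℝ, Wn R m θ (Function.update φ e t) =
        2 * Real.cos ((if e ∈ R then θ e else -θ (m e)) + φ (m e) - t) * Wn R' m θ φ := by
  rcases he with he | ⟨he, hm⟩
  · refine ⟨R.erase e, ?_, ?_⟩
    · intro p hp
      rw [mem_erase] at hp
      refine ⟨hp.2, hp.1, ?_⟩
      intro hh
      have := h.out p hp.2
      rw [hh] at this
      exact this he
    · intro t
      unfold Wn
      rw [← mul_prod_erase _ _ he, Function.update_self, Function.update_of_ne (h.ne he),
        if_pos he]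
      congr 1
      apply prod_congr rfl
      intro p hp
      rw [mem_erase] at hp
      have h1 : m p ≠ e := by
        intro hh
        have := h.out p hp.2
        rw [hh] at this
        exact this he
      rw [Function.update_of_ne hp.1, Function.update_of_ne h1]
  · have heR : e ∉ R := by
      have := h.out _ he
      rwa [hm] at this
    refine ⟨R.erase (m e), ?_, ?_⟩
    · intro p hp
      rw [mem_erase] at hp
      refine ⟨hp.2, ?_, ?_⟩
      · rintro rfl; exact heR hp.2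
      · intro hh
        have := h.inv p hp.2
        rw [hh] at this
        exact hp.1 this.symm
    · intro t
      unfold Wn
      rw [← mul_prod_erase _ _ he, hm, Function.update_self, if_neg heR,
        Function.update_of_ne (fun hh : m e = e => heR (hh ▸ he))]
      have e1 : θ (m e) + t - φ (m e) = -(-θ (m e) + φ (m e) - t) := by ring
      rw [e1, Real.cos_neg]
      congr 1
      apply prod_congr rfl
      intro p hp
      rw [mem_erase] at hp
      have h0 : p ≠ e := by rintro rfl; exact heR hp.2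
      have h1 : m p ≠ e := by
        intro hh
        have := h.inv p hp.2
        rw [hh] at this
        exact hp.1 this.symm
      rw [Function.update_of_ne h0, Function.update_of_ne h1]

/-- **middle phase at one end** -/
theorem Arcs.Wn_mid (h : Arcs R m θ) {e : P} (he : e ∈ R ∨ (m e ∈ R ∧ m (m e) = e)) (φ : P → ℝ) :
    Wn R m θ (Function.update φ e (φ e + Real.pi / 3)) +
      Wn R m θ (Function.update φ e (φ e - Real.pi / 3)) = Wn R m θ φ := by
  obtain ⟨R', -, h2⟩ := h.split he φ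
  have h3 := h2 (φ e)
  rw [Function.update_eq_self] at h3
  rw [h2, h2, h3, ← add_mul]
  congr 1
  set X := (if e ∈ R then θ e else -θ (m e)) + φ (m e) with hX
  have e1 : X - (φ e + Real.pi / 3) = (X - φ e) - Real.pi / 3 := by ring
  have e2 : X - (φ e - Real.pi / 3) = (X - φ e) + Real.pi / 3 := by ring
  rw [e1, e2, add_comm, two_cos_mid]

omit [DecidableEq P] in
/-- one vanishing factor -/
lemma Wn_zero {φ : P → ℝ} {p : P} (hp : p ∈ R) (h : Real.cos (θ p + φ (m p) - φ p) = 0) :
    Wn R m θ φ = 0 := by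
  unfold Wn
  exact prod_eq_zero hp (by rw [h, mul_zero])

omit [DecidableEq P] in
/-- one vanishing factor, seen from either end `e` of the arc -/
lemma Arcs.Wn_zero' (h : Arcs R m θ) {φ : P → ℝ} {e : P}
    (he : e ∈ R ∨ (m e ∈ R ∧ m (m e) = e ∧ θ (m e) = -θ e))
    (h0 : Real.cos (θ e + φ (m e) - φ e) = 0) : Wn R m θ φ = 0 := by
  rcases he with he | ⟨he, hm, ht⟩
  · exact Wn_zero he h0
  · apply Wn_zero he
    rw [hm, ht, show -θ e + φ e - φ (m e) = -(θ e + φ (m e) - φ e) by ring, Real.cos_neg, h0]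

/-- crude bound: exact arcs `R0` cost `√3`, the others `2` -/
lemma abs_Wn_le {φ : P → ℝ} {R0 : Finset P} (hR : R0 ⊆ R)
    (h : ∀ p ∈ R0, |2 * Real.cos (θ p + φ (m p) - φ p)| ≤ Real.sqrt 3) :
    |Wn R m θ φ| ≤ Real.sqrt 3 ^ R.card * (2 / Real.sqrt 3) ^ (R \ R0).card := by
  unfold Wn
  have h3 : (0 : ℝ) < Real.sqrt 3 := by positivity
  rw [abs_prod, ← prod_sdiff hR]
  have h1 : ∏ p ∈ R \ R0, |2 * Real.cos (θ p + φ (m p) - φ p)| ≤ 2 ^ (R \ R0).card := by
    rw [← prod_const]
    apply prod_le_prod (fun _ _ => abs_nonneg _)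
    intro p _
    rw [abs_mul, abs_two]
    have := Real.abs_cos_le_one (θ p + φ (m p) - φ p)
    linarith
  have h2 : ∏ p ∈ R0, |2 * Real.cos (θ p + φ (m p) - φ p)| ≤ Real.sqrt 3 ^ R0.card := by
    rw [← prod_const]
    exact prod_le_prod (fun _ _ => abs_nonneg _) h
  have h4 : R.card = (R \ R0).card + R0.card := by
    rw [card_sdiff_of_subset hR]; have := card_le_card hR; omega
  calc _ ≤ 2 ^ (R \ R0).card * Real.sqrt 3 ^ R0.card :=
        mul_le_mul h1 h2 (prod_nonneg fun _ _ => abs_nonneg _) (by positivity)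
    _ = _ := by
        rw [h4, pow_add, div_pow]
        field_simp

/-- phases with the moving mark at the end `e` (middle phase): `+ 2λ` after `e`, `+ λ` at `e` -/
noncomputable def phm (φ0 : P → ℝ) (aft : P → P → Prop) [∀ e p, Decidable (aft e p)] (e p : P) :
    ℝ := φ0 p + if p = e then Real.pi / 3 else if aft e p then 2 * (Real.pi / 3) else 0

lemma cos_half {x : ℝ} (h : x = Real.pi / 2 ∨ x = -(Real.pi / 2)) : Real.cos x = 0 := by
  rcases h with rfl | rfl
  · exact Real.cos_pi_div_two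
  · rw [Real.cos_neg, Real.cos_pi_div_two]

/-- an exact end whose arc stays in the piece (or goes over `x3`) kills the middle phase -/
theorem Arcs.mid_zero (h : Arcs R m θ) {φ0 : P → ℝ} {aft : P → P → Prop}
    [∀ e p, Decidable (aft e p)] {e : P}
    (he : e ∈ R ∨ (m e ∈ R ∧ m (m e) = e ∧ θ (m e) = -θ e)) (hne : m e ≠ e)
    (hX : (aft e (m e) ∧ θ e + φ0 (m e) - φ0 e = Real.pi / 6) ∨
      (¬ aft e (m e) ∧ θ e + φ0 (m e) - φ0 e = -(Real.pi / 6))) :
    Wn R m θ (phm φ0 aft e) = 0 := by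
  apply h.Wn_zero' he
  apply cos_half
  unfold phm
  rw [if_pos rfl, if_neg hne]
  rcases hX with ⟨h1, h2⟩ | ⟨h1, h2⟩
  · left; rw [if_pos h1]; linarith
  · right; rw [if_neg h1]; linarith

/-- an exact end `e` whose arc goes over `x2` kills the marks before `e` -/
theorem Arcs.over_zero (h : Arcs R m θ) {φ0 : P → ℝ} {aft : P → P → Prop}
    [∀ e p, Decidable (aft e p)] {e e' : P}
    (he : e ∈ R ∨ (m e ∈ R ∧ m (m e) = e ∧ θ (m e) = -θ e)) (hne : e ≠ e') (haft : aft e' e)
    (hm : m e ≠ e') (hm' : ¬ aft e' (m e)) (hX : θ e + φ0 (m e) - φ0 e = Real.pi / 6) :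
    Wn R m θ (phm φ0 aft e') = 0 := by
  apply h.Wn_zero' he
  apply cos_half
  unfold phm
  rw [if_neg hne, if_neg hm, if_pos haft, if_neg hm']
  right
  linarith

/-- abstract counting: at most one survivor off `Mac` -/
theorem sum_le_succ {ι : Type*} [DecidableEq ι] {J Mac : Finset ι} {f : ι → ℂ} {B : ℝ}
    (hB : 0 ≤ B) (hf : ∀ e ∈ J, ‖f e‖ ≤ B)
    (h0 : ∀ e ∈ J, e ∉ Mac → ∀ e' ∈ J, e' ∉ Mac → e ≠ e' → f e = 0 ∨ f e' = 0) :
    ‖∑ e ∈ J, f e‖ ≤ ((J ∩ Mac).card + 1) * B := by
  classical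
  have hJ : ∑ e ∈ J, f e = ∑ e ∈ J ∩ Mac, f e + ∑ e ∈ J \ Mac, f e := by
    rw [add_comm, ← sum_sdiff (inter_subset_left : J ∩ Mac ⊆ J), sdiff_inter_self_left]
  rw [hJ]
  refine (norm_add_le _ _).trans ?_
  have h1 : ‖∑ e ∈ J ∩ Mac, f e‖ ≤ (J ∩ Mac).card * B := by
    refine (norm_sum_le _ _).trans ?_
    rw [← nsmul_eq_mul, ← sum_const]
    exact sum_le_sum fun e he => hf e (mem_inter.1 he).1
  have h2 : ‖∑ e ∈ J \ Mac, f e‖ ≤ B := by
    by_cases hz : ∀ e ∈ J \ Mac, f e = 0
    · rw [sum_eq_zero hz, norm_zero]; exact hB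
    · push Not at hz
      obtain ⟨e, he, hne⟩ := hz
      have he' := mem_sdiff.1 he
      rw [sum_eq_single_of_mem e he]
      · exact hf e he'.1
      · intro b hb hbe
        have hb' := mem_sdiff.1 hb
        rcases h0 b hb'.1 hb'.2 e he'.1 he'.2 hbe with h | h
        · exact h
        · exact absurd h hne
  calc _ ≤ (J ∩ Mac).card * B + B := add_le_add h1 h2
    _ = _ := by ring

/-- **crude mark sum.**  `J` = ends of the piece `(x2, x3)`, `Mac` = the non-exact ones.  An exact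
end of `J` either has its partner in the same phase piece (or beyond `x3`), or its arc goes over
`x2`.  Then only `(K + 1)` middle phases contribute. -/
theorem Arcs.mark_sum (h : Arcs R m θ) {φ0 : P → ℝ} {aft : P → P → Prop}
    [∀ e p, Decidable (aft e p)] {J Mac : Finset P} {lg : P → ℂ} {B : ℝ} (hB : 0 ≤ B)
    (hR : ∀ e ∈ J, e ∉ Mac → (e ∈ R ∨ (m e ∈ R ∧ m (m e) = e ∧ θ (m e) = -θ e)) ∧ m e ≠ e)
    (htot : ∀ e ∈ J, ∀ e' ∈ J, e ≠ e' → aft e e' ∨ aft e' e)
    (hex : ∀ e ∈ J, e ∉ Mac →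
      ((aft e (m e) ∧ θ e + φ0 (m e) - φ0 e = Real.pi / 6) ∨
        (¬ aft e (m e) ∧ θ e + φ0 (m e) - φ0 e = -(Real.pi / 6))) ∨
      ((∀ e' ∈ J, m e ≠ e' ∧ ¬ aft e' (m e)) ∧ θ e + φ0 (m e) - φ0 e = Real.pi / 6))
    (hW : ∀ e ∈ J, ‖(Wn R m θ (phm φ0 aft e) : ℂ) * lg e‖ ≤ B) :
    ‖∑ e ∈ J, (Wn R m θ (phm φ0 aft e) : ℂ) * lg e‖ ≤ ((J ∩ Mac).card + 1) * B := by
  apply sum_le_succ hB hW
  intro e he heM e' he' heM' hne
  rcases hex e he heM with h1 | ⟨h1, h2⟩
  · left
    rw [h.mid_zero (hR e he heM).1 (hR e he heM).2 h1]; simp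
  rcases hex e' he' heM' with h1' | ⟨h1', h2'⟩
  · right
    rw [h.mid_zero (hR e' he' heM').1 (hR e' he' heM').2 h1']; simp
  rcases htot e he e' he' hne with h3 | h3
  · -- `e'` is after `e`: the mark at `e` is killed by the arc of `e'`
    left
    rw [h.over_zero (hR e' he' heM').1 (Ne.symm hne) h3 (h1' e he).1 (h1' e he).2 h2']; simp
  · right
    rw [h.over_zero (hR e he heM).1 hne h3 (h1 e' he').1 (h1 e' he').2 h2]; simp

end Crest.Agent.R158.Al194
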