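import Crest.Agent.R158.Sw4_300
import Crest.Agent.R158.Al1_194

/-!
# R158, exact lattice layer: index form of the planarity theorem (helper300)

`pi s w i` = index in `L w` of the partner of the `i`-th end, `ku s w` = index of the unmatched
end; `Ok.nck : Ok w → NCK (pi s w) (L w).length (ku s w)` (194's structure) and
`st_iff : st ... i ↔ S ...`.
-/

set_option autoImplicit false

namespace Crest.Agent.R158.Sw300

open Crest.Agent.R158.Al194

variable {T : Type*} [DecidableEq T]

/-- index of the partner -/
def pi (s : T → Bool) (w : Wd T) (i : ℕ) : ℕ :=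
  if h : i < (L w).length then (L w).idxOf (M s w ((L w)[i])) else i

/-- index of the unmatched end -/
def ku (s : T → Bool) (w : Wd T) : ℕ := (L w).idxOf (u s w)

/-- the `i`-th end -/
def en (w : Wd T) (i : ℕ) : Port T := (L w).getD i none

theorem en_mem {w : Wd T} {i : ℕ} (hi : i < (L w).length) : en w i ∈ L w := by
  unfold en
  rw [List.getD_eq_getElem _ _ hi]
  exact List.getElem_mem hi

theorem idx_en {w : Wd T} (h : Ok w) {i : ℕ} (hi : i < (L w).length) :
    (L w).idxOf (en w i) = i := by
  unfold en
  rw [List.getD_eq_getElem _ _ hi]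
  exact List.Nodup.idxOf_getElem (nodup h) i hi

theorem en_idx {w : Wd T} {x : Port T} (hx : x ∈ L w) : en w ((L w).idxOf x) = x := by
  unfold en
  rw [List.getD_eq_getElem _ _ (List.idxOf_lt_length_of_mem hx)]
  exact List.getElem_idxOf (List.idxOf_lt_length_of_mem hx)

theorem idx_lt {w : Wd T} {x : Port T} (hx : x ∈ L w) : (L w).idxOf x < (L w).length :=
  List.idxOf_lt_length_of_mem hx

theorem idx_inj {w : Wd T} {x y : Port T} (hx : x ∈ L w) (hy : y ∈ L w)
    (e : (L w).idxOf x = (L w).idxOf y) : x = y := by
  rw [← en_idx hx, e, en_idx hy]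

theorem pos_en_lt {w : Wd T} (h : Ok w) {i j : ℕ} (hij : i < j) (hj : j < (L w).length) :
    pos w (en w i) < pos w (en w j) := by
  have hi : i < (L w).length := lt_trans hij hj
  unfold en
  rw [List.getD_eq_getElem _ _ hi, List.getD_eq_getElem _ _ hj]
  exact List.pairwise_iff_getElem.1 (sorted w h) i j hi hj hij

theorem pos_en_iff {w : Wd T} (h : Ok w) {i j : ℕ} (hi : i < (L w).length)
    (hj : j < (L w).length) : pos w (en w i) < pos w (en w j) ↔ i < j := by
  constructor
  · intro hlt
    by_contra hn
    rcases Nat.lt_or_ge j i with h1 | h1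
    · exact absurd (pos_en_lt h h1 hi) (not_lt.2 (le_of_lt hlt))
    · have : i = j := by omega
      rw [this] at hlt; exact lt_irrefl _ hlt
  · exact fun hij => pos_en_lt h hij hj

theorem pi_eq {s : T → Bool} {w : Wd T} {i : ℕ} (hi : i < (L w).length) :
    pi s w i = (L w).idxOf (M s w (en w i)) := by
  unfold pi en
  rw [dif_pos hi, List.getD_eq_getElem _ _ hi]

theorem en_pi {s : T → Bool} {w : Wd T} (h : Ok w) {i : ℕ} (hi : i < (L w).length) :
    en w (pi s w i) = M s w (en w i) := by
  rw [pi_eq hi, en_idx ((Ok.inv s w h).mem _ (en_mem hi))]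

theorem pi_lt {s : T → Bool} {w : Wd T} (h : Ok w) {i : ℕ} (hi : i < (L w).length) :
    pi s w i < (L w).length := by
  rw [pi_eq hi]
  exact idx_lt ((Ok.inv s w h).mem _ (en_mem hi))

theorem en_ku {s : T → Bool} {w : Wd T} (h : Ok w) : en w (ku s w) = u s w :=
  en_idx (Ok.inv s w h).um

theorem ku_lt {s : T → Bool} {w : Wd T} (h : Ok w) : ku s w < (L w).length :=
  idx_lt (Ok.inv s w h).um

theorem en_inj {w : Wd T} (h : Ok w) {i j : ℕ} (hi : i < (L w).length) (hj : j < (L w).length)
    (e : en w i = en w j) : i = j := by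
  rw [← idx_en h hi, e, idx_en h hj]

/-- **planarity of a word in index form** -/
theorem Ok.nck (s : T → Bool) {w : Wd T} (h : Ok w) :
    NCK (pi s w) (L w).length (ku s w) := by
  have I := Ok.inv s w h
  refine ⟨ku_lt h, ?_, fun i hi => pi_lt h hi, ?_, ?_, ?_⟩
  · apply en_inj h (pi_lt h (ku_lt h)) (ku_lt h)
    rw [en_pi h (ku_lt h), en_ku h, I.uf]
  · intro i hi
    apply en_inj h (pi_lt h (pi_lt h hi)) hi
    rw [en_pi h (pi_lt h hi), en_pi h hi, I.inv _ (en_mem hi)]
  · intro i hi hk e
    apply hk
    apply en_inj h hi (ku_lt h)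
    rw [en_ku h]
    apply I.fix _ (en_mem hi)
    rw [← en_pi h hi, e]
  · intro i j hij hj hN
    have hjN : j < (L w).length := lt_trans hj hN
    have hi : i < (L w).length := lt_trans hij hjN
    by_cases hk : j = ku s w
    · exact Or.inl hk
    right
    have hiu : en w i ≠ u s w := by
      intro e
      have : pi s w i = i := by
        apply en_inj h hN hi
        rw [en_pi h hi, e, I.uf]
      omega
    have hju : en w j ≠ u s w := by
      intro e
      apply hk
      apply en_inj h hjN (ku_lt h)
      rw [e, en_ku h]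
    have n := I.nc (en w i) (en w j) (en_mem hi) (en_mem hjN) hiu hju
      (by intro e; have := en_inj h hjN hi e; omega)
      (by
        intro e
        rw [← en_pi h hi] at e
        have := en_inj h hjN hN e
        omega)
    rw [← en_pi h hi, ← en_pi h hjN] at n
    have p1 := pos_en_lt h hij hjN
    have p2 := pos_en_lt h hj hN
    have n' : pos w (en w i) < pos w (en w (pi s w j)) ∧
        pos w (en w (pi s w j)) < pos w (en w (pi s w i)) := by
      unfold cyc at n; omega
    rw [pos_en_iff h hi (pi_lt h hjN), pos_en_iff h (pi_lt h hjN) hN] at n'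
    exact n'

/-- the start of an arc in index form -/
theorem st_iff (s : T → Bool) {w : Wd T} (h : Ok w) {i : ℕ} (hi : i < (L w).length)
    (hk : i ≠ ku s w) : st (pi s w) (ku s w) i ↔ S s w (en w i) = true := by
  have I := Ok.inv s w h
  have hiu : en w i ≠ u s w := by
    intro e
    apply hk
    apply en_inj h hi (ku_lt h)
    rw [e, en_ku h]
  rw [I.st _ (en_mem hi) hiu, ← en_pi h hi, ← en_ku h]
  have a := pos_en_iff h hi (pi_lt (s := s) h hi)
  have b := pos_en_iff h (pi_lt (s := s) h hi) (ku_lt (s := s) h)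
  have c := pos_en_iff h (ku_lt (s := s) h) hi
  have hne : pi s w i ≠ i := (Ok.nck s h).ne i hi hk
  have hnk : pi s w i ≠ ku s w := by
    intro e
    apply hk
    have := (Ok.nck s h).inv i hi
    rw [e, (Ok.nck s h).fix] at this
    exact this.symm
  unfold st cyc
  rw [a, b, c]
  omega

end Crest.Agent.R158.Sw300
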