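import Crest.Agent.R158.Al5_194
import Crest.Agent.R158.Sw5_300

/-!
# R158 block F5 (doc 1925), part 4: the triangle observable on a word of tiles

`VL l M u m1 m2 m3` = the observable `Vc` for the clockwise list of free ends `l` (read from the
mark `m1`), partner map `M`, end of the leg `u`; gap `x_j` = the gap just before the port `m_j`.
-/

set_option autoImplicit false

namespace Crest.Agent.R158.Al194

open Crest.Agent.R158.Vt300 Crest.Agent.R158.Sw300 Finset

/-! ### cyclic shift of `NCK` -/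

/-- index after rotation by `r` -/
def sh (N r i : ℕ) : ℕ := if r ≤ i then i - r else i + (N - r)

/-- inverse of `sh` -/
def ush (N r j : ℕ) : ℕ := if j < N - r then j + r else j - (N - r)

lemma sh_lt {N r i : ℕ} (hr : r < N) (hi : i < N) : sh N r i < N := by
  unfold sh; split_ifs <;> omega

lemma ush_lt {N r i : ℕ} (hr : r < N) (hi : i < N) : ush N r i < N := by
  unfold ush; split_ifs <;> omega

lemma sh_ush {N r i : ℕ} (hr : r < N) (hi : i < N) : sh N r (ush N r i) = i := by
  unfold sh ush; split_ifs <;> omega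

lemma ush_sh {N r i : ℕ} (hr : r < N) (hi : i < N) : ush N r (sh N r i) = i := by
  unfold sh ush; split_ifs <;> omega

lemma ush_mod {N r i : ℕ} (hr : r < N) (hi : i < N) : (i + r) % N = ush N r i := by
  unfold ush
  split_ifs with h
  · exact Nat.mod_eq_of_lt (by omega)
  · rw [Nat.mod_eq_sub_mod (by omega), Nat.mod_eq_of_lt (by omega)]; omega

variable {π π' : ℕ → ℕ} {N k : ℕ}

lemma NCK.congr (h : NCK π N k) (e : ∀ i, i < N → π' i = π i) : NCK π' N k := by
  refine ⟨h.lt, by rw [e k h.lt, h.fix], fun i hi => by rw [e i hi]; exact h.mem i hi,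
    fun i hi => by rw [e i hi, e _ (h.mem i hi), h.inv i hi],
    fun i hi hk => by rw [e i hi]; exact h.ne i hi hk, ?_⟩
  intro i j hij hj hN
  have hjN : j < N := lt_trans hj hN
  have hi : i < N := lt_trans hij hjN
  rw [e i hi] at hj hN ⊢
  rw [e j hjN]
  exact h.nc i j hij hj hN

theorem NCK.shift (h : NCK π N k) {r : ℕ} (hr : r < N) :
    NCK (fun j => sh N r (π (ush N r j))) N (sh N r k) := by
  refine ⟨sh_lt hr h.lt, ?_, fun i hi => sh_lt hr (h.mem _ (ush_lt hr hi)), ?_, ?_, ?_⟩
  · rw [ush_sh hr h.lt, h.fix]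
  · intro i hi
    rw [ush_sh hr (h.mem _ (ush_lt hr hi)), h.inv _ (ush_lt hr hi), sh_ush hr hi]
  · intro i hi hk he
    have h1 : π (ush N r i) = ush N r i := by
      rw [← ush_sh hr (h.mem _ (ush_lt hr hi)), he]
    refine h.ne _ (ush_lt hr hi) (fun hh => hk ?_) h1
    rw [← hh, sh_ush hr hi]
  · intro i j hij hj hN
    have hjN : j < N := lt_trans hj hN
    have hiN : i < N := lt_trans hij hjN
    set a := ush N r i with ha
    set b := ush N r j with hb
    have haN : a < N := ush_lt hr hiN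
    have hbN : b < N := ush_lt hr hjN
    have hi0 : i = sh N r a := (sh_ush hr hiN).symm
    have hj0 : j = sh N r b := (sh_ush hr hjN).symm
    by_cases hbk : b = k
    · left; rw [hj0, hbk]
    right
    have hak : a ≠ k := by
      intro hh
      rw [hh, h.fix] at hj
      rw [hi0, hh] at hij
      omega
    rw [hi0] at hij ⊢
    rw [hj0] at hij hj
    have p1 := h.mem a haN
    have p2 := h.mem b hbN
    have p3 := h.ne_k haN hak
    have p4 := h.ne_k hbN hbk
    have p5 := h.inv a haN
    have p6 := h.inv b hbN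
    have p7 := h.ne a haN hak
    have p8 := h.ne b hbN hbk
    have p9 : b ≠ π a := by
      intro hh; rw [hh] at hj; omega
    have p10 : π b ≠ a := by
      intro hh; rw [hh] at p6; exact p9 p6.symm
    have p11 : π b ≠ π a := by
      intro hh
      have : π (π b) = π (π a) := by rw [hh]
      rw [p5, p6] at this
      rw [this] at hij; omega
    have q1 : a < b → b < π a → a < π b ∧ π b < π a := fun h1 h2 => h.nc' haN hbN hbk h1 h2
    have q2 : π a < b → b < a → π a < π b ∧ π b < a := by
      intro h1 h2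
      have := h.nc' p1 hbN hbk h1 (by rw [p5]; exact h2)
      rwa [p5] at this
    have q3 : a < π b → π b < π a → a < b ∧ b < π a := by
      intro h1 h2
      have := h.nc' haN p2 p4 h1 h2
      rwa [p6] at this
    have q4 : π a < π b → π b < a → π a < b ∧ b < a := by
      intro h1 h2
      have := h.nc' p1 p2 p4 h1 (by rw [p5]; exact h2)
      rwa [p5, p6] at this
    clear hi0 hj0
    unfold sh at *
    split_ifs at * <;> omega

/-! ### the list of ends read from a port -/

section lists

variable {α : Type*} [BEq α] [LawfulBEq α]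

/-- the cyclic list `l` read from `m` -/
def rotl (l : List α) (m : α) : List α := l.rotate (l.idxOf m)

lemma rotl_length (l : List α) (m : α) : (rotl l m).length = l.length := List.length_rotate _ _

lemma mem_rotl {l : List α} {m x : α} : x ∈ rotl l m ↔ x ∈ l := List.mem_rotate

lemma rotl_nodup {l : List α} {m : α} (h : l.Nodup) : (rotl l m).Nodup := List.nodup_rotate.2 h

lemma rotl_getElem {l : List α} {m : α} (hm : m ∈ l) {j : ℕ} (hj : j < l.length) :
    (rotl l m)[j]'(by rw [rotl_length]; exact hj) =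
      l[ush l.length (l.idxOf m) j]'(ush_lt (List.idxOf_lt_length_of_mem hm) hj) := by
  unfold rotl
  rw [List.getElem_rotate]
  congr 1
  exact ush_mod (List.idxOf_lt_length_of_mem hm) hj

lemma idxOf_rotl {l : List α} (h : l.Nodup) {m x : α} (hm : m ∈ l) (hx : x ∈ l) :
    (rotl l m).idxOf x = sh l.length (l.idxOf m) (l.idxOf x) := by
  have hr := List.idxOf_lt_length_of_mem hm
  have hi := List.idxOf_lt_length_of_mem hx
  have hs := sh_lt hr hi
  have hj : sh l.length (l.idxOf m) (l.idxOf x) < (rotl l m).length := by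
    rw [rotl_length]; exact hs
  have e1 : (rotl l m)[sh l.length (l.idxOf m) (l.idxOf x)] = x := by
    rw [rotl_getElem hm hs]
    have : ush l.length (l.idxOf m) (sh l.length (l.idxOf m) (l.idxOf x)) = l.idxOf x :=
      ush_sh hr hi
    simp only [this]
    exact List.getElem_idxOf hi
  have e2 := List.Nodup.idxOf_getElem (rotl_nodup (m := m) h) _ hj
  rw [e1] at e2
  exact e2

lemma idxOf_rotl_self {l : List α} (h : l.Nodup) {m : α} (hm : m ∈ l) : (rotl l m).idxOf m = 0 := by
  rw [idxOf_rotl h hm hm]; unfold sh; rw [if_pos le_rfl, Nat.sub_self]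

end lists

variable {T : Type*} [DecidableEq T]

/-- partner map on the indices of the list read from `m1` -/
def piL (l : List (Port T)) (M : Port T → Port T) (m1 : Port T) (i : ℕ) : ℕ :=
  (rotl l m1).idxOf (M ((rotl l m1).getD i none))

/-- the triangle observable of the cyclic list `l`, partner map `M`, end of the leg `u`, marks =
gaps just before the ports `m1, m2, m3` -/
noncomputable def VL (l : List (Port T)) (M : Port T → Port T) (u m1 m2 m3 : Port T) : ℂ :=
  Vc (piL l M m1) l.length ((rotl l m1).idxOf u) 0 ((rotl l m1).idxOf m2) ((rotl l m1).idxOf m3)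

variable {s : T → Bool} {w : Wd T}

lemma getD_rotl (h : Ok w) {m1 : Port T} (hm : m1 ∈ L w) {i : ℕ} (hi : i < (L w).length) :
    (rotl (L w) m1).getD i none = en w (ush (L w).length ((L w).idxOf m1) i) := by
  have hr := idx_lt hm
  unfold en
  rw [List.getD_eq_getElem _ _ (by rw [rotl_length]; exact hi),
    List.getD_eq_getElem _ _ (ush_lt hr hi), rotl_getElem hm hi]

lemma piL_eq (h : Ok w) {m1 : Port T} (hm : m1 ∈ L w) {i : ℕ} (hi : i < (L w).length) :
    piL (L w) (M s w) m1 i = sh (L w).length ((L w).idxOf m1)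
      (Sw300.pi s w (ush (L w).length ((L w).idxOf m1) i)) := by
  have hr := idx_lt hm
  unfold piL
  rw [getD_rotl h hm hi, idxOf_rotl (nodup h) hm ((Ok.inv s w h).mem _ (en_mem (ush_lt hr hi))),
    pi_eq (ush_lt hr hi)]

/-- **planarity in the indices read from `m1`** -/
theorem nckL (s : T → Bool) (h : Ok w) {m1 : Port T} (hm : m1 ∈ L w) :
    NCK (piL (L w) (M s w) m1) (L w).length ((rotl (L w) m1).idxOf (u s w)) := by
  have hr := idx_lt hm
  rw [idxOf_rotl (nodup h) hm (Ok.inv s w h).um]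
  exact ((Ok.nck s h).shift hr).congr fun i hi => piL_eq h hm hi

/-- the port with index `i` -/
def enL (l : List (Port T)) (m1 : Port T) (i : ℕ) : Port T := (rotl l m1).getD i none

/-- the index of a port -/
def idL (l : List (Port T)) (m1 x : Port T) : ℕ := (rotl l m1).idxOf x

lemma idL_lt {m1 x : Port T} (hx : x ∈ L w) : idL (L w) m1 x < (L w).length := by
  have := List.idxOf_lt_length_of_mem (mem_rotl.2 hx : x ∈ rotl (L w) m1)
  rwa [rotl_length] at this

lemma enL_mem {m1 : Port T} {i : ℕ} (hi : i < (L w).length) : enL (L w) m1 i ∈ L w := by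
  unfold enL
  rw [List.getD_eq_getElem _ _ (by rw [rotl_length]; exact hi)]
  exact mem_rotl.1 (List.getElem_mem _)

lemma enL_idL {m1 x : Port T} (hx : x ∈ L w) : enL (L w) m1 (idL (L w) m1 x) = x := by
  unfold enL idL
  have := List.idxOf_lt_length_of_mem (mem_rotl.2 hx : x ∈ rotl (L w) m1)
  rw [List.getD_eq_getElem _ _ this]
  exact List.getElem_idxOf this

lemma idL_enL (h : Ok w) {m1 : Port T} {i : ℕ} (hi : i < (L w).length) :
    idL (L w) m1 (enL (L w) m1 i) = i := by
  unfold enL idL
  have hi' : i < (rotl (L w) m1).length := by rw [rotl_length]; exact hi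
  rw [List.getD_eq_getElem _ _ hi']
  exact List.Nodup.idxOf_getElem (rotl_nodup (nodup h)) i hi'

lemma enL_piL (h : Ok w) {m1 : Port T} {i : ℕ} (hi : i < (L w).length) :
    enL (L w) m1 (piL (L w) (M s w) m1 i) = M s w (enL (L w) m1 i) :=
  enL_idL ((Ok.inv s w h).mem _ (enL_mem hi))

lemma enL_ku (h : Ok w) {m1 : Port T} : enL (L w) m1 ((rotl (L w) m1).idxOf (u s w)) = u s w :=
  enL_idL (Ok.inv s w h).um

/-- the start of an arc: cyclic positions are rotation invariant -/
lemma st_shift (h : NCK π N k) {r j : ℕ} (hr : r < N) (hj : j < N) (hjk : ush N r j ≠ k) :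
    st (fun j => sh N r (π (ush N r j))) (sh N r k) j ↔ st π k (ush N r j) := by
  set a := ush N r j with ha
  have haN : a < N := ush_lt hr hj
  have hj0 : j = sh N r a := (sh_ush hr hj).symm
  have p1 := h.mem a haN
  have p2 := h.ne a haN hjk
  have p3 := h.ne_k haN hjk
  have p4 := h.lt
  unfold st
  simp only [← ha]
  rw [hj0]
  clear hj0
  unfold sh
  split_ifs <;> omega

lemma stL_iff (h : Ok w) {m1 : Port T} (hm : m1 ∈ L w) {i : ℕ} (hi : i < (L w).length)
    (hk : i ≠ (rotl (L w) m1).idxOf (u s w)) :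
    st (piL (L w) (M s w) m1) ((rotl (L w) m1).idxOf (u s w)) i ↔ S s w (enL (L w) m1 i) = true := by
  have hr := idx_lt hm
  have hne : ush (L w).length ((L w).idxOf m1) i ≠ ku s w := by
    intro hh
    apply hk
    rw [idxOf_rotl (nodup h) hm (Ok.inv s w h).um]
    have : (L w).idxOf (u s w) = ku s w := rfl
    rw [this, ← hh, sh_ush hr hi]
  have h1 := st_shift (Ok.nck s h) hr hi hne
  have h2 := st_iff s h (ush_lt hr hi) hne
  have h3 : enL (L w) m1 i = en w (ush (L w).length ((L w).idxOf m1) i) := getD_rotl h hm hi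
  rw [h3, ← h2, ← h1]
  unfold st
  rw [piL_eq h hm hi, idxOf_rotl (nodup h) hm (Ok.inv s w h).um]
  rfl

/-- product over the arcs of a word at the port charges `c`, times the leg phase -/
noncomputable def hL (s : T → Bool) (w : Wd T) (c : Port T → ℝ) : ℂ :=
  ((∏ x ∈ ((L w).toFinset).filter (fun x => x ≠ u s w ∧ S s w x = true),
    wr (c (M s w x) - c x) : ℝ) : ℂ) * er (c (u s w))

/-- **ports versus indices** -/
theorem hL_eq (h : Ok w) {m1 : Port T} (hm : m1 ∈ L w) (c : Port T → ℝ) :
    hL s w c = hR (piL (L w) (M s w) m1) (L w).length ((rotl (L w) m1).idxOf (u s w))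
      (fun i => c (enL (L w) m1 i)) := by
  have hN := nckL s h hm
  have hku : enL (L w) m1 ((rotl (L w) m1).idxOf (u s w)) = u s w := enL_ku h
  unfold hL hR
  simp only [hku]
  congr 2
  apply prod_nbij' (i := idL (L w) m1) (j := enL (L w) m1)
  · intro x hx
    simp only [mem_filter, List.mem_toFinset, mem_range] at hx ⊢
    refine ⟨idL_lt hx.1, ?_⟩
    rw [stL_iff h hm (idL_lt hx.1), enL_idL hx.1]
    · exact hx.2.2
    · intro hh
      apply hx.2.1
      rw [← enL_idL (m1 := m1) hx.1]
      rw [show idL (L w) m1 x = (rotl (L w) m1).idxOf (u s w) from hh, enL_ku h]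
  · intro i hi
    simp only [mem_filter, List.mem_toFinset, mem_range] at hi ⊢
    have hik : i ≠ (rotl (L w) m1).idxOf (u s w) := by
      rintro rfl; exact not_st_fix hN hi.2
    refine ⟨enL_mem hi.1, ?_, (stL_iff h hm hi.1 hik).1 hi.2⟩
    intro hh
    apply hik
    rw [← idL_enL h (m1 := m1) hi.1, hh]
    rfl
  · intro x hx
    simp only [mem_filter, List.mem_toFinset] at hx
    exact enL_idL hx.1
  · intro i hi
    simp only [mem_filter, mem_range] at hi
    exact idL_enL h hi.1
  · intro x hx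
    simp only [mem_filter, List.mem_toFinset] at hx
    rw [enL_piL h (idL_lt hx.1), enL_idL hx.1]

/-- port charges of the marks: `+1` at `m1`, `m2`, sharp `-2` at the gap with index `j` -/
def cS (l : List (Port T)) (m1 m2 : Port T) (j : ℕ) (x : Port T) : ℤ :=
  chg 0 ((rotl l m1).idxOf m2) j ((rotl l m1).idxOf x)

/-- port charges of the marks, middle phase at the port with index `j` -/
def cM (l : List (Port T)) (m1 m2 : Port T) (j : ℕ) (x : Port T) : ℤ :=
  chm 0 ((rotl l m1).idxOf m2) j ((rotl l m1).idxOf x)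

lemma hR_congr {c c' : ℕ → ℝ} (h : NCK π N k) (e : ∀ i, i < N → c i = c' i) :
    hR π N k c = hR π N k c' := by
  unfold hR
  rw [e k h.lt]
  congr 2
  apply prod_congr rfl
  intro i hi
  simp only [mem_filter, mem_range] at hi
  rw [e i hi.1, e _ (h.mem i hi.1)]

theorem hc_port (h : Ok w) {m1 m2 : Port T} (hm : m1 ∈ L w) (hm2 : m2 ∈ L w) {j : ℕ}
    (hj : j ≤ (L w).length) :
    hc (piL (L w) (M s w) m1) (L w).length ((rotl (L w) m1).idxOf (u s w)) 0
      ((rotl (L w) m1).idxOf m2) j = hL s w (fun x => (cS (L w) m1 m2 j x : ℝ)) := by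
  have hN := nckL s h hm
  have h2 : (rotl (L w) m1).idxOf m2 ≤ (L w).length := (idL_lt (m1 := m1) hm2).le
  rw [hN.hc_eq (Nat.zero_le _) h2 hj, hL_eq h hm]
  apply hR_congr hN
  intro i hi
  unfold cS
  rw [show (rotl (L w) m1).idxOf (enL (L w) m1 i) = i from idL_enL h hi]

theorem Sm_port (h : Ok w) {m1 m2 : Port T} (hm : m1 ∈ L w) {j : ℕ} :
    Sm (piL (L w) (M s w) m1) (L w).length ((rotl (L w) m1).idxOf (u s w)) 0
      ((rotl (L w) m1).idxOf m2) j = hL s w (fun x => (cM (L w) m1 m2 j x : ℝ)) := by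
  have hN := nckL s h hm
  rw [hL_eq h hm]
  unfold Sm
  apply hR_congr hN
  intro i hi
  unfold cM
  rw [show (rotl (L w) m1).idxOf (enL (L w) m1 i) = i from idL_enL h hi]

/-- **(A1) on words, sharp marks** -/
theorem VL_eq (h : Ok w) {m1 m2 m3 : Port T} (hm : m1 ∈ L w) (hm2 : m2 ∈ L w) (hm3 : m3 ∈ L w)
    (h23 : (rotl (L w) m1).idxOf m2 ≤ (rotl (L w) m1).idxOf m3) :
    VL (L w) (M s w) (u s w) m1 m2 m3 =
      (∑ j ∈ Icc ((rotl (L w) m1).idxOf m2) ((rotl (L w) m1).idxOf m3),
        hL s w (fun x => (cS (L w) m1 m2 j x : ℝ)))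
      - hL s w (fun x => (cS (L w) m1 m2 ((rotl (L w) m1).idxOf m3) x : ℝ)) / 2 := by
  have hN := nckL s h hm
  have h3 : (rotl (L w) m1).idxOf m3 ≤ (L w).length := (idL_lt (m1 := m1) hm3).le
  unfold VL
  rw [← hN.Vc_eq (Nat.zero_le _) h23 h3, ← hc_port h hm hm2 h3]
  congr 1
  apply sum_congr rfl
  intro j hj
  rw [mem_Icc] at hj
  rw [hc_port h hm hm2 (hj.2.trans h3)]

/-- **(A1) on words, middle phases** -/
theorem VL_mid (h : Ok w) {m1 m2 m3 : Port T} (hm : m1 ∈ L w) (hm2 : m2 ∈ L w) (hm3 : m3 ∈ L w)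
    (h23 : (rotl (L w) m1).idxOf m2 ≤ (rotl (L w) m1).idxOf m3) :
    VL (L w) (M s w) (u s w) m1 m2 m3 =
      (∑ j ∈ Ico ((rotl (L w) m1).idxOf m2) ((rotl (L w) m1).idxOf m3),
        hL s w (fun x => (cM (L w) m1 m2 j x : ℝ))) / 2
      + hL s w (fun x => (cS (L w) m1 m2 ((rotl (L w) m1).idxOf m2) x : ℝ)) / 2 := by
  have hN := nckL s h hm
  have h3 : (rotl (L w) m1).idxOf m3 ≤ (L w).length := (idL_lt (m1 := m1) hm3).le
  unfold VL
  rw [hN.Vc_mid (Nat.zero_le _) h23 h3, hc_port h hm hm2 (h23.trans h3)]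
  congr 2
  apply sum_congr rfl
  intro j hj
  rw [Sm_port h hm]

theorem VL_mem (m1 : Port T) {m2 m3 : Port T} {l : List (Port T)} {M : Port T → Port T} {u : Port T}
    (h23 : (rotl l m1).idxOf m2 ≤ (rotl l m1).idxOf m3) : VL l M u m1 m2 m3 ∈ Tri :=
  Vc_mem (Nat.zero_le _) h23

theorem norm_VL_le (m1 : Port T) {m2 m3 : Port T} {l : List (Port T)} {M : Port T → Port T}
    {u : Port T} (h23 : (rotl l m1).idxOf m2 ≤ (rotl l m1).idxOf m3) : ‖VL l M u m1 m2 m3‖ ≤ 1 :=
  norm_Vc_le (Nat.zero_le _) h23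

/-! ### boundary phases -/

/-- cut phase of the port `x` at the charges `c` -/
noncomputable def cph (w : Wd T) (c : Port T → ℝ) (x : Port T) : ℝ :=
  Real.pi / 12 * (phi w x : ℝ) - Real.pi / 3 * c x

/-- the factor of an arc in the closed network form (walk phase `-(π/12) τ`) -/
theorem arc_factor (h : Ok w) (c : Port T → ℝ) {x : Port T} (hx : x ∈ L w) (hxu : x ≠ u s w)
    (hS : S s w x = true) :
    2 * Real.cos (-(Real.pi / 12) * (tau s w x : ℝ) + cph w c (M s w x) - cph w c x) =
      Real.sqrt 3 * wr (c (M s w x) - c x) := by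
  have ht := (Ok.tau s w h).arc x hx hxu hS
  have e1 : -(Real.pi / 12) * (tau s w x : ℝ) + cph w c (M s w x) - cph w c x =
      Real.pi / 6 - (c (M s w x) - c x) * (Real.pi / 3) := by
    rw [ht]; unfold cph; push_cast; ring
  rw [e1]
  unfold wr
  rw [Real.cos_pi_div_six]
  have h3 : Real.sqrt 3 ≠ 0 := by positivity
  field_simp

/-- the factor of the leg -/
theorem leg_factor (h : Ok w) (hl : isLeg w) (c : Port T → ℝ) :
    Complex.exp (Complex.I * ((-(Real.pi / 12) * (tau s w (u s w) : ℝ) - cph w c (u s w) : ℝ) : ℂ)) =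
      Complex.exp (Complex.I * ((-(Real.pi / 12) : ℝ) : ℂ)) * er (c (u s w)) := by
  have ht := (Ok.tau s w h).leg hl
  unfold er
  rw [← Complex.exp_add]
  congr 1
  rw [← mul_add, ← Complex.ofReal_add]
  congr 2
  rw [ht]; unfold cph; push_cast; ring

end Crest.Agent.R158.Al194
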