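import Crest.Agent.R158.Al2_194

/-!
# R158 block F5 (doc 1925), part 5: which ends carry the triangle observable

`S_e` (middle phase at `e`) vanishes as soon as one arc goes over `e` and not over `x1`.
Blocks of ends contribute `Vc (.., q) - Vc (.., p)`.
-/

set_option autoImplicit false

namespace Crest.Agent.R158.Al194

open Crest.Agent.R158.Vt300 Finset

variable {π : ℕ → ℕ} {N k : ℕ}

/-- indicator of `ing` -/
def ig (π : ℕ → ℕ) (x i : ℕ) : ℤ := if ing π x i then 1 else 0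

lemma NCK.ig_eq (h : NCK π N k) {i x : ℕ} (hi : i < N) (hs : st π k i) (hx : x ≤ N) :
    ig π x i = (if x ≤ π i then 1 else 0) - (if x ≤ i then 1 else 0) + (if π i < i then 1 else 0) := by
  rw [← h.ind_eq hi hs hx]
  unfold ig ind
  rw [if_congr (h.ing_iff hi hs hx) rfl rfl]

/-- charge of an arc, sharp mark -/
lemma NCK.chg_ig (h : NCK π N k) {i x1 x2 m : ℕ} (hi : i < N) (hs : st π k i) (h1 : x1 ≤ N)
    (h2 : x2 ≤ N) (hm : m ≤ N) :
    chg x1 x2 m (π i) - chg x1 x2 m i = ig π x1 i + ig π x2 i - 2 * ig π m i := by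
  rw [h.ig_eq hi hs h1, h.ig_eq hi hs h2, h.ig_eq hi hs hm]
  unfold chg
  ring

/-- charge of an arc, middle phase at `e` -/
lemma NCK.chm_ig (h : NCK π N k) {i x1 x2 e : ℕ} (hi : i < N) (hs : st π k i) (h1 : x1 ≤ N)
    (h2 : x2 ≤ N) (he : e < N) :
    chm x1 x2 e (π i) - chm x1 x2 e i = ig π x1 i + ig π x2 i - ig π e i - ig π (e + 1) i := by
  rw [h.ig_eq hi hs h1, h.ig_eq hi hs h2, h.ig_eq hi hs he.le, h.ig_eq hi hs (Nat.succ_le_of_lt he)]
  have c : ∀ j, (if e < j then (1 : ℤ) else 0) = if e + 1 ≤ j then 1 else 0 := fun j =>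
    if_congr Nat.lt_iff_add_one_le rfl rfl
  unfold chm
  rw [c, c]
  ring

lemma ig_cases (x i : ℕ) : ig π x i = 0 ∨ ig π x i = 1 := by
  unfold ig; split_ifs <;> simp

lemma ig_one {x i : ℕ} (h : ing π x i) : ig π x i = 1 := if_pos h

lemma ig_zero {x i : ℕ} (h : ¬ ing π x i) : ig π x i = 0 := if_neg h

/-- an arc not at `e` has both gaps around `e` or none -/
lemma ing_succ {i e : ℕ} (h1 : i ≠ e) (h2 : π i ≠ e) : ing π (e + 1) i ↔ ing π e i := by
  unfold ing; split_ifs <;> omega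

/-- an arc at `e` has exactly one of the two gaps around `e` -/
lemma NCK.ig_at (h : NCK π N k) {i e : ℕ} (hi : i < N) (hs : st π k i) (he : i = e ∨ π i = e) :
    ig π e i + ig π (e + 1) i = 1 := by
  have hik : i ≠ k := by rintro rfl; exact not_st_fix h hs
  have p3 := h.ne i hi hik
  unfold ig ing
  rcases he with rfl | rfl
  · split_ifs <;> omega
  · split_ifs <;> omega

/-- `S_e` as a product with integer weights -/
lemma NCK.Sm_prod (h : NCK π N k) {x1 x2 e : ℕ} (h1 : x1 ≤ N) (h2 : x2 ≤ N) (he : e < N) :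
    Sm π N k x1 x2 e = ((∏ i ∈ (range N).filter (fun i => st π k i),
      wz (ig π x1 i + ig π x2 i - ig π e i - ig π (e + 1) i) : ℤ) : ℂ) * er (chm x1 x2 e k) := by
  unfold Sm hR
  congr 1
  push_cast
  apply prod_congr rfl
  intro i hi
  simp only [mem_filter, mem_range] at hi
  rw [← Int.cast_sub, h.chm_ig hi.1 hi.2 h1 h2 he, wr_int]
  · push_cast; rfl
  · rcases ig_cases (π := π) x1 i with a | a <;> rcases ig_cases (π := π) x2 i with b | b <;>
      rcases ig_cases (π := π) e i with c | c <;> rcases ig_cases (π := π) (e + 1) i with d | d <;>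
      omega

lemma NCK.hc_prod (h : NCK π N k) {x1 x2 m : ℕ} (h1 : x1 ≤ N) (h2 : x2 ≤ N) (hm : m ≤ N) :
    hc π N k x1 x2 m = ((∏ i ∈ (range N).filter (fun i => st π k i),
      wz (ig π x1 i + ig π x2 i - 2 * ig π m i) : ℤ) : ℂ) * v2 ^ (chg x1 x2 m k) := by
  unfold hc hz
  congr 2
  apply prod_congr rfl
  intro i hi
  simp only [mem_filter, mem_range] at hi
  rw [h.chg_ig hi.1 hi.2 h1 h2 hm]

lemma abs_wz_le (q : ℤ) : |wz q| ≤ 1 := by
  unfold wz; split_ifs <;> simp

lemma norm_prod_wz_le {s : Finset ℕ} (f : ℕ → ℤ) : ‖((∏ i ∈ s, wz (f i) : ℤ) : ℂ)‖ ≤ 1 := by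
  rw [Complex.norm_intCast]
  rw [← Int.cast_abs, abs_prod]
  have : ∏ i ∈ s, |wz (f i)| ≤ 1 := prod_le_one (fun _ _ => abs_nonneg _) fun i _ => abs_wz_le _
  exact_mod_cast this

lemma NCK.norm_Sm_le (h : NCK π N k) {x1 x2 e : ℕ} (h1 : x1 ≤ N) (h2 : x2 ≤ N) (he : e < N) :
    ‖Sm π N k x1 x2 e‖ ≤ 1 := by
  rw [h.Sm_prod h1 h2 he, norm_mul, norm_er, mul_one]
  exact norm_prod_wz_le _

lemma NCK.norm_hc_le (h : NCK π N k) {x1 x2 m : ℕ} (h1 : x1 ≤ N) (h2 : x2 ≤ N) (hm : m ≤ N) :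
    ‖hc π N k x1 x2 m‖ ≤ 1 := by
  rw [h.hc_prod h1 h2 hm, norm_mul, norm_zpow, norm_v2, one_zpow, mul_one]
  exact norm_prod_wz_le _

/-- charge `-1` kills `S_e` -/
lemma NCK.Sm_zero (h : NCK π N k) {x1 x2 e i : ℕ} (h1 : x1 ≤ N) (h2 : x2 ≤ N) (he : e < N)
    (hi : i < N) (hs : st π k i)
    (hq : ig π x1 i + ig π x2 i - ig π e i - ig π (e + 1) i = -1 ∨
      ig π x1 i + ig π x2 i - ig π e i - ig π (e + 1) i = 2) : Sm π N k x1 x2 e = 0 := by
  rw [h.Sm_prod h1 h2 he, prod_eq_zero (i := i)]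
  · simp
  · simp only [mem_filter, mem_range]; exact ⟨hi, hs⟩
  · rcases hq with hq | hq <;> rw [hq] <;> rfl

lemma NCK.hc_zero (h : NCK π N k) {x1 x2 m i : ℕ} (h1 : x1 ≤ N) (h2 : x2 ≤ N) (hm : m ≤ N)
    (hi : i < N) (hs : st π k i)
    (hq : ig π x1 i + ig π x2 i - 2 * ig π m i = -1 ∨
      ig π x1 i + ig π x2 i - 2 * ig π m i = 2) : hc π N k x1 x2 m = 0 := by
  rw [h.hc_prod h1 h2 hm, prod_eq_zero (i := i)]
  · simp
  · simp only [mem_filter, mem_range]; exact ⟨hi, hs⟩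
  · rcases hq with hq | hq <;> rw [hq] <;> rfl

/-- nested arcs: an arc with an end strictly inside an arc is inside it -/
lemma NCK.nest (h : NCK π N k) {i j e x : ℕ} (hi : i < N) (hs : st π k i) (hj : j < N)
    (hsj : st π k j) (he : j = e ∨ π j = e) (h1 : ing π e i) (h2 : ing π (e + 1) i)
    (hie : i ≠ e) (hie' : π i ≠ e) (hx : x ≤ N) (hxj : ing π x j) : ing π x i := by
  have hk := h.lt
  have hik : i ≠ k := by rintro rfl; exact not_st_fix h hs
  have hjk : j ≠ k := by rintro rfl; exact not_st_fix h hsj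
  have heN : e < N := by
    rcases he with rfl | rfl
    · exact hj
    · exact h.mem j hj
  have hek : e ≠ k := by
    rcases he with rfl | rfl
    · exact hjk
    · exact h.ne_k hj hjk
  rw [h.ing_iff hj hsj hx] at hxj
  rw [h.ing_iff hi hs hx]
  rw [h.ing_iff hi hs heN.le] at h1
  rw [h.ing_iff hi hs (Nat.succ_le_of_lt heN)] at h2
  have hm := h.ncm
  have a1 := (h.st_iff hi hik).1 hs
  have a2 := (h.st_iff hj hjk).1 hsj
  have b1 : prt π N k (rot N k i) = rot N k (π i) := by unfold prt; rw [unr_rot hi hk hik]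
  have b2 : prt π N k (rot N k j) = rot N k (π j) := by unfold prt; rw [unr_rot hj hk hjk]
  have b3 : prt π N k (rot N k (π j)) = rot N k j := by
    unfold prt; rw [unr_rot (h.mem j hj) hk (h.ne_k hj hjk), h.inv j hj]
  have c1 : rot N k (π i) < N - 1 := rot_lt (h.mem i hi) hk (h.ne_k hi hik)
  have c2 : rot N k i < N - 1 := rot_lt hi hk hik
  -- injectivity of `rot` off `k`
  have inj : ∀ a b, a < N → b < N → a ≠ k → b ≠ k → rot N k a = rot N k b → a = b := by
    intro a b ha hb hak hbk hab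
    rw [← unr_rot ha hk hak, hab, unr_rot hb hk hbk]
  have d1 : rot N k e ≠ rot N k i := fun hh => hie (inj _ _ heN hi hek hik hh).symm
  have d2 : rot N k e ≠ rot N k (π i) := fun hh =>
    hie' (inj _ _ heN (h.mem i hi) hek (h.ne_k hi hik) hh).symm
  have d3 : rot N k (e + 1) = rot N k e + 1 ∨ (rot N k (e+1) = N - 1 - k) ∧ e + 1 = N + 0 ∨ e + 1 = k + 1 := by
    unfold rot; split_ifs <;> omega
  unfold ins at *
  simp only at *
  have key : rot N k i < rot N k e ∧ rot N k e < rot N k (π i) := by omega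
  have nc := hm.nc (rot N k i) (rot N k e) (Nat.zero_le _) key.1 (by rw [b1]; exact key.2)
    (by rw [b1]; omega)
  rw [b1] at nc
  rcases he with rfl | rfl
  · rw [b2] at nc; omega
  · rw [b3] at nc; omega

/-- **an arc over the end `e` and not over `x1` kills `S_e`** -/
theorem NCK.Sm_zero_of_over (h : NCK π N k) {x1 x2 e i : ℕ} (h1 : x1 ≤ N) (h2 : x2 ≤ N)
    (he : e < N) (hi : i < N) (hs : st π k i) (a1 : ing π e i) (a2 : ing π (e + 1) i)
    (a3 : ¬ ing π x1 i) : Sm π N k x1 x2 e = 0 := by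
  have hik : i ≠ k := by rintro rfl; exact not_st_fix h hs
  have hie : i ≠ e ∧ π i ≠ e := by
    constructor
    · intro hh
      have := h.ig_at hi hs (Or.inl hh)
      rw [ig_one a1, ig_one a2] at this; omega
    · intro hh
      have := h.ig_at hi hs (Or.inr hh)
      rw [ig_one a1, ig_one a2] at this; omega
  by_cases hx2 : ing π x2 i
  · apply h.Sm_zero h1 h2 he hi hs
    left
    rw [ig_zero a3, ig_one hx2, ig_one a1, ig_one a2]; norm_num
  · -- the arc of `e` contains neither `x1` nor `x2`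
    have hek : e ≠ k := by
      rintro rfl
      have hi' := (h.ing_iff hi hs (Nat.succ_le_of_lt he)).1 a2
      have hii := (h.ing_iff hi hs he.le).1 a1
      have hk := h.lt
      have c1 : rot N e (π i) < N - 1 := rot_lt (h.mem i hi) hk (h.ne_k hi hik)
      unfold ins at hi' hii
      simp only at hi' hii
      unfold rot at *
      split_ifs at * <;> omega
    obtain ⟨j, hj, hsj, hje⟩ : ∃ j, j < N ∧ st π k j ∧ (j = e ∨ π j = e) := by
      by_cases hse : st π k e
      · exact ⟨e, he, hse, Or.inl rfl⟩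
      · refine ⟨π e, h.mem e he, ?_, Or.inr (h.inv e he)⟩
        have q1 := h.ne e he hek
        have q2 := h.ne_k he hek
        unfold st at hse ⊢
        rw [h.inv e he]; omega
    have n1 : ¬ ing π x1 j := fun hh =>
      a3 (h.nest hi hs hj hsj hje a1 a2 hie.1 hie.2 h1 hh)
    have n2 : ¬ ing π x2 j := fun hh =>
      hx2 (h.nest hi hs hj hsj hje a1 a2 hie.1 hie.2 h2 hh)
    apply h.Sm_zero h1 h2 he hj hsj
    left
    have := h.ig_at hj hsj hje
    rw [ig_zero n1, ig_zero n2]; omega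

/-- an arc containing the gaps `p ≤ q` and not the gap `y ∉ (p, q]` contains all gaps between -/
lemma ing_between {i p q y x : ℕ} (h1 : ing π p i) (h2 : ing π q i) (h3 : ¬ ing π y i)
    (hy : y < p ∨ q < y ∨ y = p) (hx : p ≤ x) (hx' : x ≤ q) : ing π x i := by
  unfold ing at *
  split_ifs at * <;> omega

/-- **dropping a block**: if an arc contains the block `[p, q)` and not `x1`, nothing in the block
contributes -/
theorem NCK.block_zero (h : NCK π N k) {x1 x2 p q : ℕ} (h1 : x1 ≤ p) (h2 : x2 ≤ N) (hq : q ≤ N)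
    (hS : Sep π N k p q x1) {e : ℕ} (he : e ∈ Ico p q) : Sm π N k x1 x2 e = 0 := by
  obtain ⟨i, hi, hs, a, b, c⟩ := hS
  rw [mem_Ico] at he
  exact h.Sm_zero_of_over (by omega) h2 (by omega) hi hs
    (ing_between a b c (by omega) (by omega) (by omega))
    (ing_between a b c (by omega) (by omega) (by omega)) c

theorem NCK.hc_block_zero (h : NCK π N k) {x1 x2 q : ℕ} (h1 : x1 ≤ x2) (h2 : x2 ≤ N)
    (hS : Sep π N k x2 q x1) : hc π N k x1 x2 x2 = 0 := by
  obtain ⟨i, hi, hs, a, b, c⟩ := hS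
  apply h.hc_zero (by omega) h2 h2 hi hs
  left
  rw [ig_one a, ig_zero c]; norm_num

/-- the contribution of a block of ends -/
theorem NCK.block_sum (h : NCK π N k) {x1 x2 p q : ℕ} (h12 : x1 ≤ x2) (hp : x2 ≤ p) (hpq : p ≤ q)
    (hq : q ≤ N) :
    (∑ e ∈ Ico p q, Sm π N k x1 x2 e) / 2 = Vc π N k x1 x2 q - Vc π N k x1 x2 p := by
  rw [h.Vc_mid h12 (hp.trans hpq) hq, h.Vc_mid h12 hp (hpq.trans hq),
    ← sum_Ico_consecutive _ hp hpq]
  ring

theorem NCK.norm_block_le (h : NCK π N k) {x1 x2 p q : ℕ} (h12 : x1 ≤ x2) (hp : x2 ≤ p)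
    (hpq : p ≤ q) (hq : q ≤ N) : ‖(∑ e ∈ Ico p q, Sm π N k x1 x2 e) / 2‖ ≤ 2 := by
  rw [h.block_sum h12 hp hpq hq]
  refine (norm_sub_le _ _).trans ?_
  have := norm_Vc_le (π := π) (N := N) (k := k) h12 (hp.trans hpq)
  have := norm_Vc_le (π := π) (N := N) (k := k) h12 hp
  linarith

open Classical in
/-- **block estimate**: a dropped block costs at most `2 · 1(no arc around the block off x1)` -/
theorem NCK.norm_block_ind (h : NCK π N k) {x1 x2 p q : ℕ} (h12 : x1 ≤ x2) (hp : x2 ≤ p)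
    (hpq : p ≤ q) (hq : q ≤ N) :
    ‖(∑ e ∈ Ico p q, Sm π N k x1 x2 e) / 2‖ ≤ if Sep π N k p q x1 then 0 else 2 := by
  split_ifs with hS
  · rw [sum_eq_zero fun e he => h.block_zero (by omega) (by omega) hq hS he]; simp
  · exact h.norm_block_le h12 hp hpq hq

open Classical in
/-- the term at `x2` -/
theorem NCK.norm_hc_ind (h : NCK π N k) {x1 x2 q : ℕ} (h12 : x1 ≤ x2) (h2 : x2 ≤ N) :
    ‖hc π N k x1 x2 x2 / 2‖ ≤ if Sep π N k x2 q x1 then 0 else 1 := by
  split_ifs with hS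
  · rw [h.hc_block_zero h12 h2 hS]; simp
  · rw [norm_div]
    have := h.norm_hc_le (x1 := x1) (x2 := x2) (m := x2) (by omega) h2 h2
    have e2 : ‖(2 : ℂ)‖ = 2 := by simp
    rw [e2]
    linarith

/-- `Vc` does not see a mark `x3` moved inside an arc off `x1` -/
theorem NCK.Vc_eq_of_sep (h : NCK π N k) {x1 x2 p q : ℕ} (h12 : x1 ≤ x2) (hp : x2 ≤ p)
    (hpq : p ≤ q) (hq : q ≤ N) (hS : Sep π N k p q x1) :
    Vc π N k x1 x2 q = Vc π N k x1 x2 p := by
  have := h.block_sum h12 hp hpq hq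
  rw [sum_eq_zero fun e he => h.block_zero (by omega) (by omega) hq hS he] at this
  simp only [zero_div] at this
  exact (sub_eq_zero.1 this.symm)

end Crest.Agent.R158.Al194
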