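import Crest.Agent.R158.Sw2_300

/-!
# R158, exact lattice layer: planarity of admissible words (helper300)

`Ok.inv : Ok w → Inv (· ∈ L w) (pos w) (M s w) (S s w) (u s w)` for every splitting `s`.
-/

set_option autoImplicit false

namespace Crest.Agent.R158.Sw300

instance (a b c : ℤ) : Decidable (cyc a b c) := by unfold cyc; infer_instance

variable {T : Type*} [DecidableEq T]

theorem mem_att {w : Wd T} {p : Port T} {t : T} {d : ZMod 4} {x : Port T} (hp : p ∈ L w) :
    x ∈ L (.att w p t d) ↔
      (x ∈ L w ∧ x ≠ p) ∨ x = some (t, d + 1) ∨ x = some (t, d + 2) ∨ x = some (t, d + 3) := by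
  simp only [L, List.mem_flatMap]
  constructor
  · rintro ⟨y, hy, hx⟩
    split_ifs at hx with h
    · simp only [List.mem_cons, List.not_mem_nil, or_false] at hx
      right; exact hx
    · simp only [List.mem_cons, List.not_mem_nil, or_false] at hx
      left; exact ⟨hx ▸ hy, hx ▸ h⟩
  · rintro (⟨h1, h2⟩ | h)
    · exact ⟨x, h1, by rw [if_neg h2]; simp⟩
    · exact ⟨p, hp, by rw [if_pos rfl]; simpa using h⟩

theorem mem_con {w : Wd T} {p q x : Port T} :
    x ∈ L (.con w p q) ↔ x ∈ L w ∧ x ≠ p ∧ x ≠ q := by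
  simp [L]

theorem tl_mem : ∀ (w : Wd T), Ok w → ∀ x ∈ L w, ∀ t, tl x = some t → t ∈ tls w
  | .leg, _, x, hx, t, ht => by
      simp only [L, List.mem_cons, List.not_mem_nil, or_false] at hx
      subst hx; simp at ht
  | .tile t', _, x, hx, t, ht => by
      simp only [L, List.mem_cons, List.not_mem_nil, or_false] at hx
      rcases hx with rfl | rfl | rfl | rfl | rfl <;> simp at ht <;> simp [tls, ht]
  | .att w p t' d, h, x, hx, t, ht => by
      rw [mem_att h.2.1] at hx
      rcases hx with ⟨h1, _⟩ | rfl | rfl | rfl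
      · exact List.mem_cons_of_mem _ (tl_mem w h.1 x h1 t ht)
      all_goals (simp at ht; simp [tls, ht])
  | .con w p q, h, x, hx, t, ht => by
      rw [mem_con] at hx
      exact tl_mem w h.1 x hx.1 t ht

/-- ports of a new tile are not ends -/
theorem new_port {w : Wd T} (h : Ok w) {t : T} (ht : t ∉ tls w) (d : ZMod 4) :
    (some (t, d) : Port T) ∉ L w := fun hx => ht (tl_mem w h _ hx t rfl)

theorem ne_port {w : Wd T} (h : Ok w) {t : T} (ht : t ∉ tls w) (d : ZMod 4) {x : Port T}
    (hx : x ∈ L w) : x ≠ some (t, d) := by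
  rintro rfl; exact new_port h ht d hx

theorem tl_ne {w : Wd T} (h : Ok w) {t : T} (ht : t ∉ tls w) {x : Port T}
    (hx : x ∈ L w) : tl x ≠ some t := fun e => ht (tl_mem w h x hx t e)

theorem pos_att_old {w : Wd T} (h : Ok w) {t : T} (ht : t ∉ tls w) (p : Port T) (d : ZMod 4)
    {x : Port T} (hx : x ∈ L w) : pos (.att w p t d) x = 4 * pos w x := by
  simp only [pos]
  rw [if_neg (ne_port h ht _ hx), if_neg (ne_port h ht _ hx), if_neg (ne_port h ht _ hx)]

theorem d12 (d : ZMod 4) : d + 1 ≠ d + 2 ∧ d + 1 ≠ d + 3 ∧ d + 2 ≠ d + 3 := by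
  revert d; decide

theorem pos_att_1 (w : Wd T) (p : Port T) (t : T) (d : ZMod 4) :
    pos (.att w p t d) (some (t, d + 1)) = 4 * pos w p := by
  simp [pos]

theorem pos_att_2 (w : Wd T) (p : Port T) (t : T) (d : ZMod 4) :
    pos (.att w p t d) (some (t, d + 2)) = 4 * pos w p + 1 := by
  obtain ⟨h1, h2, h3⟩ := d12 d
  have e1 : (some (t, d + 2) : Port T) ≠ some (t, d + 1) := by simpa using Ne.symm h1
  simp only [pos, if_neg e1, if_true]

theorem pos_att_3 (w : Wd T) (p : Port T) (t : T) (d : ZMod 4) :
    pos (.att w p t d) (some (t, d + 3)) = 4 * pos w p + 2 := by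
  obtain ⟨h1, h2, h3⟩ := d12 d
  have e1 : (some (t, d + 3) : Port T) ≠ some (t, d + 1) := by simpa using Ne.symm h2
  have e2 : (some (t, d + 3) : Port T) ≠ some (t, d + 2) := by simpa using Ne.symm h3
  simp only [pos, if_neg e1, if_neg e2, if_true]

/-- the ends are listed with increasing positions -/
theorem sorted : ∀ (w : Wd T), Ok w → (L w).Pairwise fun x y => pos w x < pos w y
  | .leg, _ => by simp [L]
  | .tile t, _ => by
      simp [L, pos, List.pairwise_cons]
      decide
  | .att w p t d, h => by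
      have ih := sorted w h.1
      have ht := h.2.2.1
      simp only [L]
      rw [List.pairwise_flatMap]
      constructor
      · intro x hx
        split_ifs
        · simp only [List.pairwise_cons, List.mem_cons, List.not_mem_nil, or_false, forall_eq_or_imp,
            forall_eq, IsEmpty.forall_iff, implies_true, List.Pairwise.nil, and_true,
            pos_att_1, pos_att_2, pos_att_3]
          omega
        · simp
      · refine (List.pairwise_iff_forall_sublist.2 ?_)
        intro a b hab x hx y hy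
        have hlt : pos w a < pos w b := List.pairwise_iff_forall_sublist.1 ih hab
        have ha : a ∈ L w := hab.subset (by simp)
        have hb : b ∈ L w := hab.subset (by simp)
        have bound : ∀ z ∈ L w, ∀ v ∈ (if z = p then
            [some (t, d + 1), some (t, d + 2), some (t, d + 3)] else [z] : List (Port T)),
            4 * pos w z ≤ pos (.att w p t d) v ∧ pos (.att w p t d) v ≤ 4 * pos w z + 2 := by
          intro z hz v hv
          by_cases hzp : z = p
          · rw [if_pos hzp] at hv
            rw [hzp]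
            rw [List.mem_cons, List.mem_cons, List.mem_singleton] at hv
            rcases hv with rfl | rfl | rfl
            · rw [pos_att_1]; omega
            · rw [pos_att_2]; omega
            · rw [pos_att_3]; omega
          · rw [if_neg hzp, List.mem_singleton] at hv
            subst hv
            rw [pos_att_old h.1 ht p d hz]; omega
        have h1 := bound a ha x hx
        have h2 := bound b hb y hy
        omega
  | .con w p q, h => by
      have ih := sorted w h.1
      simp only [L]
      exact ih.filter _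

theorem nodup {w : Wd T} (h : Ok w) : (L w).Nodup := by
  refine (sorted w h).imp ?_
  intro a b hab e
  rw [e] at hab; exact lt_irrefl _ hab

theorem pos_inj {w : Wd T} (h : Ok w) {x y : Port T} (hx : x ∈ L w) (hy : y ∈ L w)
    (hxy : x ≠ y) : pos w x ≠ pos w y := by
  have h1 := sorted w h
  have h2 : (L w).Pairwise fun x y => pos w x ≠ pos w y := h1.imp fun h => ne_of_lt h
  have : Std.Symm (fun x y : Port T => pos w x ≠ pos w y) := ⟨fun _ _ h => Ne.symm h⟩
  exact h2.forall hx hy hxy

theorem not_cyc_of_adj {w : Wd T} (h : Ok w) {p q : Port T} (ha : Adj (L w) p q) :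
    ∀ z, z ∈ L w → z ≠ p → z ≠ q → ¬ cyc (pos w p) (pos w z) (pos w q) := by
  intro z hz h1 h2
  have hs := sorted w h
  rcases ha with ⟨l1, l2, e⟩ | ⟨l1, e⟩
  · rw [e] at hs hz
    rw [List.pairwise_append] at hs
    obtain ⟨_, hs2, hs3⟩ := hs
    rw [List.pairwise_cons, List.pairwise_cons] at hs2
    have hpq := hs2.1 q (by simp)
    simp only [List.mem_append, List.mem_cons] at hz
    rcases hz with hz | hz | hz | hz
    · have := hs3 z hz p (by simp)
      unfold cyc; omega
    · exact absurd hz h1
    · exact absurd hz h2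
    · have := hs2.2.1 z hz
      unfold cyc; omega
  · rw [e] at hs hz
    rw [List.cons_append, List.pairwise_cons, List.pairwise_append] at hs
    simp only [List.cons_append, List.mem_append, List.mem_cons, List.not_mem_nil, or_false] at hz
    rcases hz with hz | hz | hz
    · exact absurd hz h2
    · have a1 := hs.1 z (by simp [hz])
      have a2 := hs.2.2.2 z hz p (by simp)
      unfold cyc; omega
    · exact absurd hz h1

theorem mem_adj {w : Wd T} {p q : Port T} (ha : Adj (L w) p q) : p ∈ L w ∧ q ∈ L w := by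
  rcases ha with ⟨l1, l2, e⟩ | ⟨l1, e⟩ <;> rw [e] <;> simp

theorem tile_pos (t : T) (d : ZMod 4) : pos (.tile t) (some (t, d)) = (d.val : ℤ) + 1 := by
  simp [pos]

theorem tile_M (s : T → Bool) (t : T) (d : ZMod 4) :
    M s (.tile t) (some (t, d)) = some (t, thru (s t) d) := by
  simp [M]

theorem tile_mem (t : T) (x : Port T) : x ∈ L (.tile t) ↔ x = none ∨ ∃ d, x = some (t, d) := by
  simp only [L, List.mem_cons, List.not_mem_nil, or_false]
  constructor
  · rintro (h | h | h | h | h)
    · exact Or.inl h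
    all_goals exact Or.inr ⟨_, h⟩
  · rintro (h | ⟨d, h⟩)
    · exact Or.inl h
    · right
      have : d = 0 ∨ d = 1 ∨ d = 2 ∨ d = 3 := by clear h; revert d; decide
      rcases this with rfl | rfl | rfl | rfl
      · left; exact h
      · right; left; exact h
      · right; right; left; exact h
      · right; right; right; exact h

theorem inv_leg (s : T → Bool) :
    Inv (fun x => x ∈ L (.leg : Wd T)) (pos .leg) (M s .leg) (S s .leg) (u s .leg) := by
  refine ⟨⟨1, ?_⟩, ?_, ?_, ?_, ?_, ?_, ?_, ?_, ?_⟩
  all_goals simp [L, pos, M, u]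

theorem inv_tile (s : T → Bool) (t : T) :
    Inv (fun x => x ∈ L (.tile t)) (pos (.tile t)) (M s (.tile t)) (S s (.tile t))
      (u s (.tile t)) := by
  have hS : ∀ d : ZMod 4, S s (.tile t) (some (t, d)) =
      decide (d = 0 ∨ d = if s t then 2 else 1) := by
    intro d
    simp [S]
  have hN : pos (.tile t) (none : Port T) = 0 := rfl
  have hMN : M s (.tile t) (none : Port T) = none := by simp [M]
  have hu : u s (.tile t) = none := rfl
  refine ⟨⟨10, ?_⟩, ?_, ?_, ?_, ?_, ?_, ?_, ?_, ?_⟩
  · intro x hx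
    rcases (tile_mem t x).1 hx with rfl | ⟨d, rfl⟩
    · rw [hN]; omega
    · rw [tile_pos]
      have := ZMod.val_lt d
      omega
  · intro x y hx hy hxy
    rcases (tile_mem t x).1 hx with rfl | ⟨d, rfl⟩ <;>
      rcases (tile_mem t y).1 hy with rfl | ⟨d', rfl⟩
    · exact absurd rfl hxy
    · rw [hN, tile_pos]; omega
    · rw [hN, tile_pos]; omega
    · rw [tile_pos, tile_pos]
      intro e
      apply hxy
      have : d.val = d'.val := by omega
      rw [ZMod.val_injective 4 this]
  · rw [hu]; exact (tile_mem t _).2 (Or.inl rfl)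
  · rw [hu, hMN]
  · intro x hx
    rcases (tile_mem t x).1 hx with rfl | ⟨d, rfl⟩
    · rw [hMN]; exact (tile_mem t _).2 (Or.inl rfl)
    · rw [tile_M]; exact (tile_mem t _).2 (Or.inr ⟨_, rfl⟩)
  · intro x hx
    rcases (tile_mem t x).1 hx with rfl | ⟨d, rfl⟩
    · rw [hMN, hMN]
    · rw [tile_M, tile_M, thru_thru]
  · intro x hx e
    rcases (tile_mem t x).1 hx with rfl | ⟨d, rfl⟩
    · rfl
    · rw [tile_M] at e
      simp only [Option.some.injEq, Prod.mk.injEq, true_and] at e
      exact absurd e (thru_ne _ _)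
  · intro x hx hxu
    rcases (tile_mem t x).1 hx with rfl | ⟨d, rfl⟩
    · exact absurd rfl hxu
    · rw [hS, tile_M, tile_pos, tile_pos, hu, hN]
      clear hx hxu hS
      generalize s t = b
      revert b d
      decide
  · intro x y hx hy hxu hyu hyx hyM
    rcases (tile_mem t x).1 hx with rfl | ⟨d, rfl⟩
    · exact absurd rfl hxu
    rcases (tile_mem t y).1 hy with rfl | ⟨d', rfl⟩
    · exact absurd rfl hyu
    rw [tile_M] at hyM
    rw [tile_M, tile_M, tile_pos, tile_pos, tile_pos, tile_pos]
    have h1 : d' ≠ d := by rintro rfl; exact hyx rfl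
    have h2 : d' ≠ thru (s t) d := by rintro rfl; exact hyM rfl
    clear hyM hyx hyu hxu hx hy hS hN hMN hu
    generalize s t = b at *
    revert b d d'
    decide

theorem att_A {w : Wd T} {p : Port T} {t : T} {d : ZMod 4} (_s : T → Bool) (hp : p ∈ L w)
    {e f g : Port T}
    (h : (e = some (t, d + 1) ∧ f = some (t, d + 2) ∧ g = some (t, d + 3)) ∨
      (e = some (t, d + 3) ∧ f = some (t, d + 1) ∧ g = some (t, d + 2))) :
    (fun x => x ∈ L (.att w p t d)) =
      fun x => (x ∈ L w ∧ x ≠ p) ∨ x = e ∨ x = f ∨ x = g := by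
  funext x
  rw [mem_att hp]
  rcases h with ⟨rfl, rfl, rfl⟩ | ⟨rfl, rfl, rfl⟩
  · rfl
  · apply propext; tauto

theorem inv_att (s : T → Bool) {w : Wd T} {p : Port T} {t : T} {d : ZMod 4}
    (h : Ok (.att w p t d))
    (ih : Inv (fun x => x ∈ L w) (pos w) (M s w) (S s w) (u s w)) :
    Inv (fun x => x ∈ L (.att w p t d)) (pos (.att w p t d)) (M s (.att w p t d))
      (S s (.att w p t d)) (u s (.att w p t d)) := by
  obtain ⟨hw, hp, ht, -⟩ := h
  obtain ⟨e12, e13, e23⟩ := d12 d
  have dne : ∀ a b : ZMod 4, a ≠ b → (some (t, a) : Port T) ≠ some (t, b) := by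
    intro a b hab e; apply hab; simpa using e
  have ht2 : ∀ b : Bool, (thru b d = d + 1 → thru b (d + 2) = d + 3 ∧ thru b (d + 3) = d + 2) ∧
      (thru b d = d + 3 → thru b (d + 1) = d + 2 ∧ thru b (d + 2) = d + 1) := by
    intro b; revert b d; clear * -; decide
  have MeG : M s (.att w p t d) (some (t, thru (s t) d)) =
      if M s w p = p then some (t, thru (s t) d) else M s w p := by simp [M]
  have Mo : ∀ a : ZMod 4, a ≠ thru (s t) d →
      M s (.att w p t d) (some (t, a)) = some (t, thru (s t) a) := by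
    intro a ha; simp [M, ha]
  have Mx : ∀ x, x ∈ L w → M s (.att w p t d) x =
      if M s w x = p then some (t, thru (s t) d) else M s w x := by
    intro x hx
    simp only [M]
    rw [if_neg (tl_ne hw ht hx)]
  have SeG : S s (.att w p t d) (some (t, thru (s t) d)) = S s w p := by simp [S]
  have So : ∀ a : ZMod 4, a ≠ thru (s t) d → S s (.att w p t d) (some (t, a)) =
      decide (a = d + 1 ∨ (a = d + 2 ∧ thru (s t) d = d + 1)) := by
    intro a ha; simp [S, ha]
  have Sx : ∀ x, x ∈ L w → S s (.att w p t d) x = S s w x := by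
    intro x hx
    simp only [S]
    rw [if_neg (tl_ne hw ht hx)]
  have hu : u s (.att w p t d) = if u s w = p then some (t, thru (s t) d) else u s w := rfl
  rw [hu]
  rcases thru_cases (s t) d with hc | hc
  · obtain ⟨c1, c2⟩ := (ht2 (s t)).1 hc
    rw [hc] at MeG Mo Mx SeG So ⊢
    rw [att_A s hp (Or.inl ⟨rfl, rfl, rfl⟩)]
    refine ih.ins ⟨hp, new_port hw ht _, new_port hw ht _, new_port hw ht _,
      dne _ _ e12, dne _ _ e13, dne _ _ e23, fun x hx _ => pos_att_old hw ht p d hx,
      ?_, ?_, ?_, ?_, ?_, ?_, SeG, ?_, ?_, fun x hx _ => Sx x hx⟩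
    · rw [pos_att_2, pos_att_3]; omega
    · rw [pos_att_1, pos_att_2]; left; omega
    · exact MeG
    · rw [Mo _ (Ne.symm e12), c1]
    · rw [Mo _ (Ne.symm e13), c2]
    · exact fun x hx _ => Mx x hx
    · rw [So _ (Ne.symm e12)]; simp
    · rw [So _ (Ne.symm e13)]
      simp only [decide_eq_false_iff_not, not_or, not_and]
      exact ⟨Ne.symm e13, fun h => absurd h.symm e23⟩
  · obtain ⟨c1, c2⟩ := (ht2 (s t)).2 hc
    rw [hc] at MeG Mo Mx SeG So ⊢
    rw [att_A s hp (Or.inr ⟨rfl, rfl, rfl⟩)]
    refine ih.ins ⟨hp, new_port hw ht _, new_port hw ht _, new_port hw ht _,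
      dne _ _ (Ne.symm e13), dne _ _ (Ne.symm e23), dne _ _ e12,
      fun x hx _ => pos_att_old hw ht p d hx,
      ?_, ?_, ?_, ?_, ?_, ?_, SeG, ?_, ?_, fun x hx _ => Sx x hx⟩
    · rw [pos_att_1, pos_att_2]; omega
    · rw [pos_att_2, pos_att_3]; right; omega
    · exact MeG
    · rw [Mo _ e13, c1]
    · rw [Mo _ e23, c2]
    · exact fun x hx _ => Mx x hx
    · rw [So _ e13]; simp
    · rw [So _ e23]
      simp only [decide_eq_false_iff_not, not_or, not_and]
      exact ⟨Ne.symm e12, fun _ h => e13 h.symm⟩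

/-- **planarity of admissible words** -/
theorem Ok.inv (s : T → Bool) : ∀ (w : Wd T), Ok w →
    Inv (fun x => x ∈ L w) (pos w) (M s w) (S s w) (u s w)
  | .leg, _ => inv_leg s
  | .tile t, _ => inv_tile s t
  | .att w p t d, h => inv_att s h (Ok.inv s w h.1)
  | .con w p q, h => by
      have ih := Ok.inv s w h.1
      obtain ⟨hp, hq⟩ := mem_adj h.2.2.2.2
      have := ih.con hp hq h.2.2.2.1 (not_cyc_of_adj h.1 h.2.2.2.2)
      have hA : (fun x => x ∈ L (.con w p q)) = fun x => x ∈ L w ∧ x ≠ p ∧ x ≠ q := by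
        funext x; exact propext mem_con
      rw [hA]
      exact this

end Crest.Agent.R158.Sw300
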