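import Crest.Agent.R158.Xr5_249
import Crest.Agent.R158.Sw0_300

/-!
# R158, block XR (helper249), file Xr6: adapter to the official carrier `Sw300` (helper300)

* `Ad b w c A G` : the word `w` of `Sw300` has base `b`, boundary cycle `c`, tiles `A`, glueing `G`
* **`Wd.adapt`** : every `Wd b c A G` whose base side `W` is not glued is an `Ok` word of `Sw300`
* **`Reg.ok`** : hole-free connected region ⟹ `Ok` word with the same tiles and `be w` = glueing
-/

set_option autoImplicit false
set_option linter.unusedVariables false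

namespace Crest.Agent.R158.Xr249

variable {T : Type*} [DecidableEq T]

/-- base of a word of `Sw300` (`none` = leg) -/
def bas : Sw300.Wd T → Option T
  | .leg => none
  | .tile t => some t
  | .att w _ _ _ => bas w
  | .con w _ _ => bas w

/-- the marker (present iff the base is a tile) -/
def mk : Option T → List (Port T)
  | none => []
  | some _ => [none]

/-- `w` is a word of `Sw300` with base `b`, boundary cycle `c`, tiles `A`, glueing `G` -/
structure Ad (b : Option T) (w : Sw300.Wd T) (c : Cycle (Port T)) (A : Set (Option T))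
    (G : Port T → Port T → Prop) : Prop where
  ok : Sw300.Ok w
  bas : bas w = b
  tls : ∀ t, t ∈ Sw300.tls w ↔ some t ∈ A
  nod : (Sw300.tls w).Nodup
  be : ∀ p q, G p q ↔ (Sw300.be w p = q ∧ p ≠ q)
  L : ∃ l, Sw300.L w = mk b ++ l ∧ c = (l : Cycle (Port T)) ∧
    ∀ t, b = some t → ∃ l', l = some (t, 0) :: l'
  leg : none ∈ c → w = .leg
  fc : (∀ p q, G p q → Sw300.sd q = Sw300.sd p + 2) → Sw300.Fc w

omit [DecidableEq T] in
lemma Wd.none_mem {b : Option T} {c : Cycle (Port T)} {A : Set (Option T)}
    {G : Port T → Port T → Prop} (h : Wd b c A G) : none ∈ A ↔ b = none := by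
  induction h with
  | base => rw [Set.mem_singleton_iff]; exact eq_comm
  | att t d _ _ ih => rw [Set.mem_insert_iff, ih]; simp
  | con _ ih => exact ih

lemma flatMap_id {p : Port T} {m : List (Port T)} : ∀ {l : List (Port T)}, p ∉ l →
    (l.flatMap fun x => if x = p then m else [x]) = l := by
  intro l
  induction l with
  | nil => intro _; rfl
  | cons a l ih =>
    intro h
    rw [List.flatMap_cons, if_neg (fun e => h (by simp [e])), ih (fun e => h (by simp [e]))]
    rfl

lemma flatMap_at {p : Port T} {m l1 l2 : List (Port T)} (h1 : p ∉ l1) (h2 : p ∉ l2) :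
    ((l1 ++ p :: l2).flatMap fun x => if x = p then m else [x]) = l1 ++ (m ++ l2) := by
  rw [List.flatMap_append, List.flatMap_cons, if_pos rfl, flatMap_id h1, flatMap_id h2]

lemma filter_id {p q : Port T} {l : List (Port T)} (h1 : p ∉ l) (h2 : q ∉ l) :
    (l.filter fun x => x ≠ p ∧ x ≠ q) = l := by
  rw [List.filter_eq_self]
  intro a ha
  simp only [ne_eq, decide_eq_true_eq]
  exact ⟨fun e => h1 (e ▸ ha), fun e => h2 (e ▸ ha)⟩

omit [DecidableEq T] in
/-- rotating a nodup cons -/
lemma rot_cons {p : Port T} {l l1 l2 : List (Port T)} (hnd : (p :: l).Nodup)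
    (h : ((p :: l : List (Port T)) : Cycle (Port T)) = ((l1 ++ p :: l2 : List (Port T)) : Cycle (Port T))) :
    l = l2 ++ l1 := by
  have h1 : ((l1 ++ p :: l2 : List (Port T)) : Cycle (Port T)) =
      ((p :: (l2 ++ l1) : List (Port T)) : Cycle (Port T)) := by
    rw [Cycle.coe_eq_coe]
    have := List.isRotated_append (l := l1) (l' := p :: l2)
    simpa using this
  rw [h1, Cycle.coe_eq_coe] at h
  obtain ⟨n, hn⟩ := h
  have hlen : 0 < (p :: l).length := by simp
  have h2 : ((p :: l).rotate n)[0]? = some p := by rw [hn]; rfl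
  have h3 : (p :: l)[n % (p :: l).length]? = some p := by
    rw [← h2, List.getElem?_rotate hlen]
    simp
  have h4 : n % (p :: l).length = 0 := by
    by_contra h5
    obtain ⟨k, hk⟩ := Nat.exists_eq_succ_of_ne_zero h5
    rw [hk] at h3
    simp only [Nat.succ_eq_add_one, List.getElem?_cons_succ] at h3
    exact (List.nodup_cons.1 hnd).1 (List.mem_of_getElem? h3)
  have h5 : (p :: l).rotate n = p :: l := by
    rw [← List.rotate_mod, h4, List.rotate_zero]
  rw [h5] at hn
  exact (List.cons.inj hn).2

/-- **the adapter** -/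
theorem Wd.adapt {b : Option T} {c : Cycle (Port T)} {A : Set (Option T)}
    {G : Port T → Port T → Prop} (h : Wd b c A G)
    (h0 : ∀ t, b = some t → ∀ q, ¬ G (some (t, 0)) q) : ∃ w, Ad b w c A G := by
  induction h with
  | base =>
    rcases b with - | t
    · refine ⟨.leg, trivial, rfl, ?_, List.nodup_nil, ?_, ⟨[none], rfl, rfl, ?_⟩, fun _ => rfl,
        fun _ => trivial⟩
      · intro t; simp [Sw300.tls]
      · intro p q
        exact ⟨False.elim, fun h => h.2 h.1⟩
      · intro t h; cases h
    · refine ⟨.tile t, trivial, rfl, ?_, List.nodup_singleton _, ?_,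
        ⟨baseL (some t), rfl, rfl, ?_⟩, ?_, fun _ => trivial⟩
      · intro t'; simp [Sw300.tls]
      · intro p q
        exact ⟨False.elim, fun h => h.2 h.1⟩
      · rintro t' h
        cases h
        exact ⟨_, rfl⟩
      · intro h
        rw [Cycle.mem_coe_iff] at h
        simp [baseL] at h
  | @att p l A G t d h1 h2 ih =>
    obtain ⟨w, hw⟩ := ih fun t ht q hq => h0 t ht q (Or.inl hq)
    have hi := h1.inv
    have hi' := (h1.att t d h2).inv
    obtain ⟨l0, hL, hc, hb⟩ := hw.L
    have hnd := hi.nd
    rw [Cycle.nodup_coe_iff] at hnd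
    have hp : p ∈ l0 := by
      have : p ∈ ((p :: l : List (Port T)) : Cycle (Port T)) := by simp
      rwa [hc, Cycle.mem_coe_iff] at this
    have hnd0 : l0.Nodup := by
      have := hi.nd
      rwa [hc, Cycle.nodup_coe_iff] at this
    obtain ⟨l1, l2, rfl⟩ := List.append_of_mem hp
    have hl : l = l2 ++ l1 := rot_cons hnd hc
    have hnd1 : p ∉ l1 ∧ p ∉ l2 := by
      rw [hl] at hnd
      have := (List.nodup_cons.1 hnd).1
      simp only [List.mem_append, not_or] at this
      exact ⟨this.2, this.1⟩
    have hpm : p ∉ mk b := by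
      rcases b with - | t0
      · simp [mk]
      · simp only [mk, List.mem_singleton]
        rintro rfl
        have h3 := (hi.mem none).1 (by simp)
        have := h1.none_mem.1 (by simpa using h3.1)
        cases this
    have hpleg : p = none → w = .leg := by
      rintro rfl
      exact hw.leg (by simp)
    have hptd : p ≠ some (t, d) := by
      intro he
      exact h2 (by simpa [he] using ((hi.mem p).1 (by simp)).1)
    refine ⟨.att w p t d, ⟨hw.ok, ?_, ?_, hpleg⟩, hw.bas, ?_, ?_, ?_, ?_, ?_, ?_⟩
    · rw [hL]; simp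
    · rw [hw.tls]; exact h2
    · intro t'
      simp only [Sw300.tls, List.mem_cons, hw.tls, Set.mem_insert_iff, Option.some.injEq]
    · exact List.nodup_cons.2 ⟨fun h => h2 ((hw.tls t).1 h), hw.nod⟩
    · intro x y
      simp only [Sw300.be]
      by_cases hx : x = p
      · subst hx
        rw [if_pos rfl]
        constructor
        · intro h3
          have := hi'.fn _ _ _ h3 (Or.inr (Or.inl ⟨rfl, rfl⟩))
          exact ⟨this.symm, this ▸ hptd⟩
        · rintro ⟨rfl, -⟩
          exact Or.inr (Or.inl ⟨rfl, rfl⟩)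
      · rw [if_neg hx]
        by_cases hx2 : x = some (t, d)
        · subst hx2
          rw [if_pos rfl]
          constructor
          · intro h3
            have := hi'.fn _ _ _ h3 (Or.inr (Or.inr ⟨rfl, rfl⟩))
            exact ⟨this.symm, this ▸ hptd.symm⟩
          · rintro ⟨rfl, -⟩
            exact Or.inr (Or.inr ⟨rfl, rfl⟩)
        · rw [if_neg hx2, ← hw.be]
          constructor
          · rintro (h3 | ⟨h3, -⟩ | ⟨h3, -⟩)
            · exact h3
            · exact absurd h3 hx
            · exact absurd h3 hx2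
          · exact Or.inl
    · refine ⟨l1 ++ ([some (t, d + 1), some (t, d + 2), some (t, d + 3)] ++ l2), ?_, ?_, ?_⟩
      · simp only [Sw300.L]
        rw [hL, List.flatMap_append, flatMap_at hnd1.1 hnd1.2, flatMap_id hpm]
      · rw [hl, Cycle.coe_eq_coe]
        have := List.isRotated_append (l := some (t, d + 1) :: some (t, d + 2) :: some (t, d + 3) :: l2)
          (l' := l1)
        simpa using this
      · intro t0 ht0
        obtain ⟨l', hl'⟩ := hb t0 ht0
        cases l1 with
        | nil =>
          simp only [List.nil_append, List.cons.injEq] at hl'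
          exact absurd (Or.inr (Or.inl ⟨hl'.1.symm, rfl⟩)) (h0 t0 ht0 (some (t, d)))
        | cons a m =>
          simp only [List.cons_append, List.cons.injEq] at hl'
          exact ⟨_, by rw [hl'.1]; rfl⟩
    · intro hn
      exfalso
      rw [Cycle.mem_coe_iff] at hn
      simp only [List.mem_cons, reduceCtorEq, false_or] at hn
      have hwl := hw.leg (by rw [Cycle.mem_coe_iff]; exact List.mem_cons_of_mem _ hn)
      have hb' : b = none := by rw [← hw.bas, hwl]; rfl
      subst hb' hwl
      simp only [Sw300.L, mk, List.nil_append] at hL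
      have h5 := congrArg List.length hL
      simp only [List.length_cons, List.length_nil, List.length_append] at h5
      have h6 : l1 = [] := List.length_eq_zero_iff.1 (by omega)
      have h7 : l2 = [] := List.length_eq_zero_iff.1 (by omega)
      rw [hl, h6, h7] at hn
      simp at hn
    · intro h3
      refine ⟨hw.fc fun p q h4 => h3 p q (Or.inl h4), ?_⟩
      have := h3 p (some (t, d)) (Or.inr (Or.inl ⟨rfl, rfl⟩))
      simpa using this
  | @con p q l A G h1 ih =>
    obtain ⟨w, hw⟩ := ih fun t ht q hq => h0 t ht q (Or.inl hq)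
    have hi := h1.inv
    have hi' := h1.con.inv
    obtain ⟨l0, hL, hc, hb⟩ := hw.L
    have hnd := hi.nd
    rw [Cycle.nodup_coe_iff] at hnd
    have hp : p ∈ l0 := by
      have : p ∈ ((p :: q :: l : List (Port T)) : Cycle (Port T)) := by simp
      rwa [hc, Cycle.mem_coe_iff] at this
    have hnd2 := List.nodup_cons.1 hnd
    have hnd3 := List.nodup_cons.1 hnd2.2
    have hpq : p ≠ q := fun h => hnd2.1 (by simp [h])
    have hpl : p ∉ l := fun h => hnd2.1 (by simp [h])
    have hql : q ∉ l := hnd3.1
    have hnone : ∀ x, x ∈ p :: q :: l → x ≠ none := by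
      rintro x hx rfl
      have hwl := hw.leg (by rw [Cycle.mem_coe_iff]; exact hx)
      have hb' : b = none := by rw [← hw.bas, hwl]; rfl
      subst hb' hwl
      simp only [Sw300.L, mk, List.nil_append] at hL
      rw [← hL, Cycle.coe_eq_coe] at hc
      have := hc.perm.length_eq
      simp at this
    have hpn := hnone p (by simp)
    have hqn := hnone q (by simp)
    obtain ⟨l1, l2, rfl⟩ := List.append_of_mem hp
    have hl : q :: l = l2 ++ l1 := rot_cons hnd hc
    have hpm : p ∉ mk b := by
      rcases b with - | t0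
      · simp [mk]
      · simpa [mk] using hpn
    have hqm : q ∉ mk b := by
      rcases b with - | t0
      · simp [mk]
      · simpa [mk] using hqn
    -- the head is not `p`, not `q` if the base is a tile
    have hhead : ∀ t, b = some t → p ≠ some (t, 0) ∧ q ≠ some (t, 0) := by
      intro t ht
      exact ⟨fun h => h0 t ht q (Or.inr (Or.inl ⟨h.symm, rfl⟩)),
        fun h => h0 t ht p (Or.inr (Or.inr ⟨h.symm, rfl⟩))⟩
    have hmain : (Sw300.Adj (Sw300.L w) p q) ∧
        ∃ l', (Sw300.L w).filter (fun x => x ≠ p ∧ x ≠ q) = mk b ++ l' ∧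
          (l : Cycle (Port T)) = (l' : Cycle (Port T)) ∧
          ∀ t, b = some t → ∃ l'', l' = some (t, 0) :: l'' := by
      cases l2 with
      | nil =>
        -- `l0 = l1 ++ [p]`, `l1 = q :: l`
        rw [List.nil_append] at hl
        have hbn : b = none := by
          rcases b with - | t
          · rfl
          · exfalso
            obtain ⟨l', hl'⟩ := hb t rfl
            rw [← hl, List.cons_append] at hl'
            exact (hhead t rfl).2 (List.cons.inj hl').1
        subst hbn
        rw [← hl] at hL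
        simp only [mk, List.nil_append] at hL
        refine ⟨Or.inr ⟨l, by rw [hL]⟩, l, ?_, rfl, ?_⟩
        · rw [hL]
          simp only [mk, List.nil_append, List.cons_append, List.filter_cons, List.filter_append,
            filter_id hpl hql]
          simp
        · intro t h; cases h
      | cons q' m =>
        rw [List.cons_append] at hl
        obtain ⟨rfl, hl2⟩ := List.cons.inj hl
        refine ⟨Or.inl ⟨mk b ++ l1, m, by rw [hL, List.append_assoc]⟩, l1 ++ m, ?_, ?_, ?_⟩
        · have k1 : p ∉ l1 := fun h => hpl (by rw [hl2]; simp [h])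
          have k2 : q ∉ l1 := fun h => hql (by rw [hl2]; simp [h])
          have k3 : p ∉ m := fun h => hpl (by rw [hl2]; simp [h])
          have k4 : q ∉ m := fun h => hql (by rw [hl2]; simp [h])
          rw [hL]
          simp only [List.filter_cons, List.filter_append, filter_id hpm hqm, filter_id k1 k2,
            filter_id k3 k4]
          simp
        · rw [hl2, Cycle.coe_eq_coe]
          exact List.isRotated_append
        · intro t ht
          obtain ⟨l', hl'⟩ := hb t ht
          cases l1 with
          | nil =>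
            simp only [List.nil_append, List.cons.injEq] at hl'
            exact absurd hl'.1 (hhead t ht).1
          | cons a m' =>
            simp only [List.cons_append, List.cons.injEq] at hl'
            exact ⟨_, by rw [hl'.1]; rfl⟩
    obtain ⟨hadj, l', hf, hlc, hb'⟩ := hmain
    refine ⟨.con w p q, ⟨hw.ok, hpn, hqn, hpq, hadj⟩, hw.bas, hw.tls, hw.nod, ?_, ⟨l', hf, hlc, hb'⟩,
      ?_, ?_⟩
    · intro x y
      simp only [Sw300.be]
      by_cases hx : x = p
      · subst hx
        rw [if_pos rfl]
        constructor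
        · intro h3
          have := hi'.fn _ _ _ h3 (Or.inr (Or.inl ⟨rfl, rfl⟩))
          exact ⟨this.symm, this ▸ hpq⟩
        · rintro ⟨rfl, -⟩
          exact Or.inr (Or.inl ⟨rfl, rfl⟩)
      · rw [if_neg hx]
        by_cases hx2 : x = q
        · subst hx2
          rw [if_pos rfl]
          constructor
          · intro h3
            have := hi'.fn _ _ _ h3 (Or.inr (Or.inr ⟨rfl, rfl⟩))
            exact ⟨this.symm, this ▸ hpq.symm⟩
          · rintro ⟨rfl, -⟩
            exact Or.inr (Or.inr ⟨rfl, rfl⟩)
        · rw [if_neg hx2, ← hw.be]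
          constructor
          · rintro (h3 | ⟨h3, -⟩ | ⟨h3, -⟩)
            · exact h3
            · exact absurd h3 hx
            · exact absurd h3 hx2
          · exact Or.inl
    · intro hn
      rw [Cycle.mem_coe_iff] at hn
      exact absurd rfl (hnone none (by simp [hn]))
    · intro h3
      exact ⟨hw.fc fun p q h4 => h3 p q (Or.inl h4), h3 p q (Or.inr (Or.inl ⟨rfl, rfl⟩))⟩

namespace Reg

variable {R : Reg}

lemma gl_face {p q : Port (ℤ × ℤ)} (h : R.gl p q) : Sw300.sd q = Sw300.sd p + 2 := by
  rcases p with - | ⟨⟨x, y⟩, d⟩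
  · exact h.elim
  · rcases d4 d with rfl | rfl | rfl | rfl
    · rw [(gl_0.1 h).2]; rfl
    · rw [(gl_1.1 h).2]; rfl
    · rw [(gl_2.1 h).2]; rfl
    · rw [(gl_3.1 h).2]; rfl

lemma gl_GA {p q : Port (ℤ × ℤ)} (h : R.gl p q) : GA R.gl (some '' (R.P : Set (ℤ × ℤ))) p q := by
  rcases p with - | ⟨⟨x, y⟩, d⟩
  · exact h.elim
  · refine ⟨h, ?_⟩
    rcases d4 d with rfl | rfl | rfl | rfl
    · obtain ⟨h1, rfl⟩ := gl_0.1 h
      have := R.hP _ _ h1
      rw [sub_add_cancel] at this
      exact ⟨mem_some.2 (by exact_mod_cast this.2), mem_some.2 (by exact_mod_cast this.1)⟩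
    · obtain ⟨h1, rfl⟩ := gl_1.1 h
      have := R.vP _ _ h1
      exact ⟨mem_some.2 (by exact_mod_cast this.1), mem_some.2 (by exact_mod_cast this.2)⟩
    · obtain ⟨h1, rfl⟩ := gl_2.1 h
      have := R.hP _ _ h1
      exact ⟨mem_some.2 (by exact_mod_cast this.1), mem_some.2 (by exact_mod_cast this.2)⟩
    · obtain ⟨h1, rfl⟩ := gl_3.1 h
      have := R.vP _ _ h1
      rw [sub_add_cancel] at this
      exact ⟨mem_some.2 (by exact_mod_cast this.2), mem_some.2 (by exact_mod_cast this.1)⟩

/-- **hole-free connected region ⟹ admissible word of the official carrier** -/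
theorem ok (hsc : R.SC) (hc : R.Conn) {a0 b0 t0 : ℤ} (hr0 : R.IsRun a0 b0 t0) :
    ∃ (w : Sw300.Wd (ℤ × ℤ)) (l : List (Port (ℤ × ℤ))),
      Sw300.Ok w ∧ Sw300.Fc w ∧ bas w = some (a0, t0) ∧
      (∀ t, t ∈ Sw300.tls w ↔ t ∈ R.P) ∧ (Sw300.tls w).Nodup ∧
      (∀ p q, R.gl p q ↔ (Sw300.be w p = q ∧ p ≠ q)) ∧
      Sw300.L w = none :: some ((a0, t0), 0) :: l ∧
      (Sw300.L w).Nodup ∧
      (∀ p, p ∈ some ((a0, t0), 0) :: l ↔ (∃ t d, p = some (t, d) ∧ t ∈ R.P) ∧ ∀ q, ¬ R.gl p q) ∧
      List.IsChain (Nx R.gl) (some ((a0, t0), 0) :: l ++ [some ((a0, t0), 0)]) := by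
  obtain ⟨c, hw, hnd, hmem, hch, hbase⟩ := word hsc hc hr0
  have hG : GA R.gl (some '' (R.P : Set (ℤ × ℤ))) = R.gl := by
    funext p q
    exact propext ⟨fun h => h.1, gl_GA⟩
  rw [hG] at hw hch
  obtain ⟨w, ha⟩ := hw.adapt (by
    rintro t ht q hq
    cases ht
    exact hr0.la (gl_0.1 hq).1)
  obtain ⟨l0, hL, hcl, hb⟩ := ha.L
  obtain ⟨l, rfl⟩ := hb (a0, t0) rfl
  have hnd' : (some ((a0, t0), (0 : ZMod 4)) :: l).Nodup := by
    rwa [hcl, Cycle.nodup_coe_iff] at hnd
  refine ⟨w, l, ha.ok, ha.fc fun p q h => gl_face h, ha.bas, ?_, ha.nod, ha.be, hL, ?_, ?_, ?_⟩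
  · intro t
    rw [ha.tls, mem_some]
    exact_mod_cast Iff.rfl
  · rw [hL]
    refine List.nodup_cons.2 ⟨?_, hnd'⟩
    intro h
    obtain ⟨⟨t, d, h1, _⟩, _⟩ := (hmem none).1 (by rw [hcl, Cycle.mem_coe_iff]; exact h)
    cases h1
  · intro p
    rw [← hmem p, hcl, Cycle.mem_coe_iff]
  · rw [hcl, Cycle.chain_coe_cons] at hch
    exact hch

end Reg

end Crest.Agent.R158.Xr249
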