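import Crest.Agent.R158.Env_664
import Crest.Agent.R158.Sw3_300
import Crest.Agent.R158.Al2_194
import Crest.Agent.R158.Rs3_689
import Crest.Agent.R158.Xr6_249

/-!
# R158, OFFICIAL DEFINITION of the observable `V` and of `H_D(z)` (helper664)

Free ends of a word in clockwise order; a gap is named by the free end just AFTER it (clockwise).
Marks `m1, m2, m3` are three free ends in clockwise order (= the gaps just before them).

* `Und pos M a x` : the gap before `x` lies under the clockwise interval from `a` to `M a`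
* `SepO` : an arc separates two gaps from the third one and from the leg end
* `VO`   : the triangle observable, independent of the base point of the list
* `HV w m1 m2 m3 s`, `HW w m1 m2 m3` : value of a word at the splitting `s`, mean value
* `GW A b w` : `w` is a leg word with tiles `A`, glueing `b`, clockwise list of free ends
* `rgt A x y` : right end of the run of `A` at `(x, y)`
* `HA A p y0 m1 m2 m3`, `HD F L m p y0` : **the percolation observable `H_D(z)`**, `z = (p, y0)`
* `VO_mem`, `HW_mem`, `HD_mem` : values in the triangle `Tri` with vertices `0, 1, e^{iπ/3}`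
-/

set_option autoImplicit false

noncomputable section

namespace Crest.Agent.R158.Ob664

open MeasureTheory ProbabilityTheory
open Crest.Agent.R158.Sw300 Crest.Agent.R158.Env664
open Crest.Agent.R158.Rs689 (PB hf)
open Crest.Agent.R158.Vt300 (v2)
open Crest.Agent.R158.Al194 (Tri)

section VO

variable {α : Type*}

/-- the gap before `x` lies in the clockwise interval from `a` to `M a` -/
def Und (pos : α → ℤ) (M : α → α) (a x : α) : Prop := x = M a ∨ cyc (pos a) (pos x) (pos (M a))

/-- some arc separates the gaps before `x`, `y` from the gap before `z` and from the leg -/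
def SepO (A : α → Prop) (pos : α → ℤ) (M : α → α) (S : α → Bool) (x y z : α) : Prop :=
  ∃ a, A a ∧ S a = true ∧ Und pos M a x ∧ Und pos M a y ∧ ¬ Und pos M a z

/-- the end `u` lies in the clockwise sector from the gap before `x` to the gap before `y` -/
def Sect (pos : α → ℤ) (x y u : α) : Prop := u = x ∨ cyc (pos x) (pos u) (pos y)

open Classical in
/-- the triangle observable -/
def VO (A : α → Prop) (pos : α → ℤ) (M : α → α) (S : α → Bool) (u m1 m2 m3 : α) : ℂ :=
  if Sect pos m3 m1 u then
    (if SepO A pos M S m2 m3 m1 then 0 else if SepO A pos M S m1 m2 m3 then 1 else 1 / 2)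
  else if Sect pos m1 m2 u then
    (if SepO A pos M S m2 m3 m1 then 0 else if SepO A pos M S m3 m1 m2 then v2 else v2 / 2)
  else
    (if SepO A pos M S m1 m2 m3 then 1 else if SepO A pos M S m3 m1 m2 then v2 else (v2 + 1) / 2)

theorem seg_tri {a b : ℂ} (ha : a ∈ ({0, 1, v2} : Set ℂ)) (hb : b ∈ ({0, 1, v2} : Set ℂ)) :
    segment ℝ a b ⊆ Tri := segment_subset_convexHull ha hb

theorem half_mem (a b : ℂ) : (a + b) / 2 ∈ segment ℝ a b :=
  ⟨1 / 2, 1 / 2, by norm_num, by norm_num, by norm_num, by
    rw [Complex.real_smul, Complex.real_smul]; push_cast; ring⟩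

variable {A : α → Prop} {pos : α → ℤ} {M : α → α} {S : α → Bool} {u m1 m2 m3 : α}

theorem VO_31 (h : Sect pos m3 m1 u) : VO A pos M S u m1 m2 m3 ∈ segment ℝ (0 : ℂ) 1 := by
  classical
  unfold VO
  rw [if_pos h]
  split_ifs
  · exact left_mem_segment _ _ _
  · exact right_mem_segment _ _ _
  · have := half_mem 0 1; rwa [zero_add] at this

theorem VO_12 (h : ¬ Sect pos m3 m1 u) (h' : Sect pos m1 m2 u) :
    VO A pos M S u m1 m2 m3 ∈ segment ℝ (0 : ℂ) v2 := by
  classical
  unfold VO
  rw [if_neg h, if_pos h']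
  split_ifs
  · exact left_mem_segment _ _ _
  · exact right_mem_segment _ _ _
  · have := half_mem 0 v2; rwa [zero_add] at this

theorem VO_23 (h : ¬ Sect pos m3 m1 u) (h' : ¬ Sect pos m1 m2 u) :
    VO A pos M S u m1 m2 m3 ∈ segment ℝ v2 (1 : ℂ) := by
  classical
  unfold VO
  rw [if_neg h, if_neg h']
  split_ifs
  · exact right_mem_segment _ _ _
  · exact left_mem_segment _ _ _
  · exact half_mem v2 1

theorem VO_mem : VO A pos M S u m1 m2 m3 ∈ Tri := by
  by_cases h : Sect pos m3 m1 u
  · exact seg_tri (by simp) (by simp) (VO_31 h)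
  by_cases h' : Sect pos m1 m2 u
  · exact seg_tri (by simp) (by simp) (VO_12 h h')
  · exact seg_tri (by simp) (by simp) (VO_23 h h')

end VO

/-! ### words -/

variable {T : Type*} [DecidableEq T]

/-- value of the observable on the word `w` at the splitting `s` -/
def HV (w : Wd T) (m1 m2 m3 : Port T) (s : T → Bool) : ℂ :=
  VO (fun x => x ∈ L w) (pos w) (M s w) (S s w) (u s w) m1 m2 m3

/-- mean value -/
def HW (w : Wd T) (m1 m2 m3 : Port T) : ℂ := ∫ s, HV w m1 m2 m3 s ∂(PB fun _ : T => hf)

theorem state_congr {s s' : T → Bool} : ∀ (w : Wd T), (∀ t ∈ tls w, s t = s' t) →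
    M s w = M s' w ∧ S s w = S s' w ∧ u s w = u s' w
  | .leg, _ => ⟨rfl, rfl, rfl⟩
  | .tile t, h => by
      have e : s t = s' t := h t (by simp [tls])
      refine ⟨?_, ?_, rfl⟩ <;> funext x <;> simp only [M, S, e]
  | .att w p t d, h => by
      have e : s t = s' t := h t (by simp [tls])
      obtain ⟨h1, h2, h3⟩ := state_congr w fun t' ht' => h t' (by simp [tls, ht'])
      refine ⟨?_, ?_, ?_⟩
      · funext x; simp only [M, e, h1]
      · funext x; simp only [S, e, h2]
      · simp only [u, e, h3]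
  | .con w p q, h => by
      obtain ⟨h1, h2, h3⟩ := state_congr w fun t' ht' => h t' (by simpa [tls] using ht')
      refine ⟨?_, ?_, ?_⟩
      · funext x; simp only [M, h1]
      · funext x; simp only [S, h1, h2]
      · simp only [u, h1, h3]

/-- `HV` depends only on the splittings of the tiles of the word -/
theorem HV_congr {w : Wd T} {m1 m2 m3 : Port T} {s s' : T → Bool} (h : ∀ t ∈ tls w, s t = s' t) :
    HV w m1 m2 m3 s = HV w m1 m2 m3 s' := by
  obtain ⟨h1, h2, h3⟩ := state_congr w h
  unfold HV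
  rw [h1, h2, h3]

theorem HV_mem {w : Wd T} {m1 m2 m3 : Port T} {s : T → Bool} : HV w m1 m2 m3 s ∈ Tri := VO_mem

theorem measurable_HV (w : Wd T) (m1 m2 m3 : Port T) : Measurable (HV w m1 m2 m3) := by
  classical
  let S0 : Finset T := (tls w).toFinset
  let r : (T → Bool) → (S0 → Bool) := fun s t => s t
  let e : (S0 → Bool) → (T → Bool) := fun z t => if h : t ∈ S0 then z ⟨t, h⟩ else false
  have hr : Measurable r := measurable_pi_lambda _ fun t => measurable_pi_apply _
  have h1 : HV w m1 m2 m3 = (fun z => HV w m1 m2 m3 (e z)) ∘ r := by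
    funext s
    refine HV_congr fun t ht => ?_
    have : t ∈ S0 := List.mem_toFinset.2 ht
    simp only [e, r, dif_pos this]
  rw [h1]
  exact (measurable_of_finite _).comp hr

theorem isCompact_Tri : IsCompact Tri :=
  (Set.toFinite ({0, 1, v2} : Set ℂ)).isCompact_convexHull ℝ

theorem isClosed_Tri : IsClosed Tri := isCompact_Tri.isClosed

theorem norm_le_of_Tri {z : ℂ} (hz : z ∈ Tri) : ‖z‖ ≤ 1 := by
  have h1 : Tri ⊆ Metric.closedBall (0 : ℂ) 1 := by
    apply convexHull_min _ (convex_closedBall _ _)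
    intro z hz
    simp only [Set.mem_insert_iff, Set.mem_singleton_iff] at hz
    rcases hz with rfl | rfl | rfl
    · simp
    · simp
    · simp [Al194.norm_v2]
  simpa using h1 hz

instance PB_prob : IsProbabilityMeasure (PB fun _ : T => hf) := inferInstance

theorem integrable_HV (w : Wd T) (m1 m2 m3 : Port T) :
    Integrable (HV w m1 m2 m3) (PB fun _ : T => hf) :=
  Integrable.of_bound (measurable_HV w m1 m2 m3).aestronglyMeasurable 1
    (Filter.Eventually.of_forall fun _ => norm_le_of_Tri HV_mem)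

theorem HW_mem (w : Wd T) (m1 m2 m3 : Port T) : HW w m1 m2 m3 ∈ Tri :=
  (convex_convexHull ℝ _).integral_mem isClosed_Tri
    (Filter.Eventually.of_forall fun _ => HV_mem) (integrable_HV w m1 m2 m3)

theorem norm_HW_le (w : Wd T) (m1 m2 m3 : Port T) : ‖HW w m1 m2 m3‖ ≤ 1 :=
  norm_le_of_Tri (HW_mem w m1 m2 m3)

/-! ### the observable of a region -/

/-- glueing relation of a glueing involution -/
def Gl (b : Port T → Port T) (p q : Port T) : Prop := b p = q ∧ p ≠ q

/-- `w` is a leg word with tiles `A`, glueing `b`, and clockwise list of free ends -/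
structure GW (A : Finset T) (b : Port T → Port T) (w : Wd T) : Prop where
  word : IsWord w A b
  leg : Xr249.bas w = none
  nod : (tls w).Nodup
  nx : ∃ x l, L w = x :: l ∧ List.IsChain (Xr249.Nx (Gl b)) (x :: l ++ [x])

open Classical in
/-- observable of the region with tiles `A` and glueing `b` -/
def HG (A : Finset T) (b : Port T → Port T) (m1 m2 m3 : Port T) : ℂ :=
  if h : ∃ w, GW A b w then HW h.choose m1 m2 m3 else 0

theorem HG_mem (A : Finset T) (b : Port T → Port T) (m1 m2 m3 : Port T) : HG A b m1 m2 m3 ∈ Tri := by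
  unfold HG
  split_ifs
  · exact HW_mem _ _ _ _
  · exact subset_convexHull ℝ _ (by simp)

/-- what a consumer uses: `HG` is the value of some good word -/
theorem HG_spec {A : Finset T} {b : Port T → Port T} (h : ∃ w, GW A b w) (m1 m2 m3 : Port T) :
    ∃ w, GW A b w ∧ HG A b m1 m2 m3 = HW w m1 m2 m3 := by
  refine ⟨h.choose, h.choose_spec, ?_⟩
  unfold HG
  rw [dif_pos h]

theorem ex_right (A : Finset (ℤ × ℤ)) (x y : ℤ) : ∃ n : ℕ, (x + n + 1, y) ∉ A := by
  by_contra hcon
  push Not at hcon
  have hinj : Function.Injective (fun n : ℕ => ((x + n + 1, y) : ℤ × ℤ)) := by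
    intro m n hmn
    simp only [Prod.mk.injEq, and_true] at hmn
    omega
  exact Set.infinite_of_injective_forall_mem (s := (A : Set (ℤ × ℤ))) hinj (fun n => hcon n)
    A.finite_toSet

open Classical in
/-- right end of the run of `A` that contains `(x, y)` -/
def rgt (A : Finset (ℤ × ℤ)) (x y : ℤ) : ℤ := x + (Nat.find (ex_right A x y) : ℕ)

theorem le_rgt (A : Finset (ℤ × ℤ)) (x y : ℤ) : x ≤ rgt A x y := by
  unfold rgt; omega

theorem rgt_not_mem (A : Finset (ℤ × ℤ)) (x y : ℤ) : (rgt A x y + 1, y) ∉ A := by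
  classical
  have := Nat.find_spec (ex_right A x y)
  unfold rgt
  convert this

theorem rgt_mem {A : Finset (ℤ × ℤ)} {x y : ℤ} (h : (x, y) ∈ A) {x' : ℤ} (h1 : x ≤ x')
    (h2 : x' ≤ rgt A x y) : (x', y) ∈ A := by
  classical
  rcases eq_or_lt_of_le h1 with rfl | h1
  · exact h
  have h3 : (x' - x - 1).toNat < Nat.find (ex_right A x y) := by unfold rgt at h2; omega
  have h4 := Nat.find_min (ex_right A x y) h3
  push Not at h4
  have e : x + ((x' - x - 1).toNat : ℤ) + 1 = x' := by omega
  rwa [e] at h4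

/-- inside a maximal run `rgt` is its right end -/
theorem rgt_run {A : Finset (ℤ × ℤ)} {xl xr x y : ℤ} (h : Run A xl xr y) (h1 : xl ≤ x)
    (h2 : x ≤ xr) : rgt A x y = xr := by
  apply le_antisymm
  · by_contra hc
    push Not at hc
    exact h.right (rgt_mem (h.mem x h1 h2) (by omega) (by omega))
  · by_contra hc
    push Not at hc
    exact rgt_not_mem A x y (h.mem _ (by have := le_rgt A x y; omega) (by omega))

/-- **the observable `H_A(z)`**, `z = (p, y0)`, of a finite set of tiles -/
def HA (A : Finset (ℤ × ℤ)) (m1 m2 m3 : Port (ℤ × ℤ)) (p y0 : ℤ) : ℂ :=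
  HG A (beD A p y0 (rgt A p y0)) m1 m2 m3

/-- **the observable `H_D(z)`** of a polyomino with marks: `c k` = marked boundary edges of `F` -/
def HD (F : Finset (ℤ × ℤ)) (L : ℤ) (c : Fin 3 → (ℤ × ℤ) × ZMod 4) (p y0 : ℤ) : ℂ :=
  HA (D F L) (mark L (c 0).1 (c 0).2).2 (mark L (c 1).1 (c 1).2).2 (mark L (c 2).1 (c 2).2).2 p y0

theorem HD_mem (F : Finset (ℤ × ℤ)) (L : ℤ) (c : Fin 3 → (ℤ × ℤ) × ZMod 4) (p y0 : ℤ) :
    HD F L c p y0 ∈ Tri := HG_mem _ _ _ _ _

theorem norm_HD_le (F : Finset (ℤ × ℤ)) (L : ℤ) (c : Fin 3 → (ℤ × ℤ) × ZMod 4) (p y0 : ℤ) :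
    ‖HD F L c p y0‖ ≤ 1 := norm_le_of_Tri (HD_mem _ _ _ _ _)

end Crest.Agent.R158.Ob664
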