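import Crest.Agent.R158.Ao10_857

/-!
# Row 158: half environments (helper857)

* `rowsM B m k z0`, `rowsOps B m k c z0` : tiles and operations of the ring rows `z0, .., z0 + k`
  (`m + 1` columns)
* `low_amp` : `That ^ (a + 1) *ᵥ InZ` = the network of the lower part with `a + 1` ring rows, as a
  function of the open ports `topP B a`
* `up_amp` : `OutZ ᵥ* That ^ (b + 1)` = the network of the upper part with `b + 1` ring rows, as a
  function of the open ports `botP B b`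
* `low_cover`, `up_cover`, `low_ok`, `up_ok` (`OpOk` for `beL`, `chL`)
-/

set_option autoImplicit false

noncomputable section

open Finset Matrix

namespace Crest.Agent.R158.Ao857

open Crest.Agent.R158.Ad350
open Crest.Agent.R158.Ad350.St (glueL)
open Crest.Agent.R158.Sw300 (Port)
open Crest.Agent.R158.Bd932 (That e3)
open Crest.Agent.R158.Env664 (TG Band Run PortOf portOf_some portOf_none nbP res res_of Adj4 z4)

variable {A : Finset (ℤ × ℤ)} (B : Band A)

/-- tiles of the ring from the height `z0` on -/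
def gY (z0 : ℤ) : ℕ × ℕ ↪ TG := ⟨fun t => gI B t.1 (z0 + t.2), fun s t h => by
  obtain ⟨h1, h2⟩ := gI_inj B h
  exact Prod.ext h1 (by omega)⟩

lemma tpm_gY (z0 : ℤ) (i y : ℕ) (d : ZMod 4) : tpm (gY B z0) (tp i y d) =
    some (gI B i (z0 + (y : ℤ)), d) := rfl

/-- the ring rows `z0, .., z0 + k` -/
def rowsM (m k : ℕ) (z0 : ℤ) : Finset TG := (blockT m 0 k).map (gY B z0)

/-- operations of the ring rows `z0, .., z0 + k` -/
def rowsOps (m k : ℕ) (c : ℝ) (z0 : ℤ) : List (Op (Port TG)) :=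
  ((blockL m c 0 k).map Sum.inl).map (Op.ren (tpm (gY B z0)))

lemma mem_rowsM {m k : ℕ} {z0 : ℤ} {t : TG} : t ∈ rowsM B m k z0 ↔
    ∃ i j : ℕ, i < m + 1 ∧ j < k + 1 ∧ t = gI B i (z0 + (j : ℤ)) := by
  unfold rowsM
  rw [Finset.mem_map]
  constructor
  · rintro ⟨⟨i, j⟩, hm, rfl⟩
    rw [mem_blockT] at hm
    exact ⟨i, j, hm.1, by omega, rfl⟩
  · rintro ⟨i, j, h1, h2, rfl⟩
    exact ⟨(i, j), mem_blockT.2 ⟨h1, by simp, by simp only; omega⟩, rfl⟩

lemma gI_mem_rows {m k : ℕ} {z0 : ℤ} {i : ℕ} {y : ℤ} : gI B i y ∈ rowsM B m k z0 ↔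
    i < m + 1 ∧ z0 ≤ y ∧ y < z0 + k + 1 := by
  rw [mem_rowsM]
  constructor
  · rintro ⟨i', j, h1, h2, h3⟩
    obtain ⟨rfl, h4⟩ := gI_inj B h3
    omega
  · rintro ⟨h1, h2, h3⟩
    refine ⟨i, (y - z0).toNat, h1, by omega, ?_⟩
    rw [show z0 + (((y - z0).toNat : ℕ) : ℤ) = y by omega]

theorem rows_ker (m k : ℕ) (c : ℝ) (z0 : ℤ) :
    opL (rowsOps B m k c z0) (tilesF (rowsM B m k z0)) =
      ker (That (m + 1) c (1 / 2) ^ (k + 1)) (fun i => some (gI B i (z0 + (k : ℤ)), 1))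
        (fun i => some (gI B i z0, 3)) := by
  have f1 : tilesF (rowsM B m k z0) = fun σ => tilesF (blockT m 0 k) (σ ∘ tpm (gY B z0)) :=
    funext fun σ => tilesF_ren (gY B z0) _ σ
  funext σ
  rw [f1, rowsOps, opL_ren (tpm_inj (gY B z0).injective), opL_glueL]
  show glueL (blockL m c 0 k) (tilesF (blockT m 0 k)) (σ ∘ tpm (gY B z0)) = _
  rw [block_ker]
  have g1 : (fun i : Fin (m + 1) => (σ ∘ tpm (gY B z0)) (tp i (0 + k) 1)) =
      fun i : Fin (m + 1) => σ (some (gI B (i : ℕ) (z0 + (k : ℤ)), 1)) := by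
    funext i
    show σ (some (gI B i (z0 + ((0 + k : ℕ) : ℤ)), 1)) = _
    rw [zero_add]
  have g2 : (fun i : Fin (m + 1) => !(σ ∘ tpm (gY B z0)) (tp i 0 3)) =
      fun i : Fin (m + 1) => !σ (some (gI B (i : ℕ) z0, 3)) := by
    funext i
    show (!σ (some (gI B i (z0 + ((0 : ℕ) : ℤ)), 3))) = _
    rw [Nat.cast_zero, add_zero]
  unfold ker
  rw [g1, g2]

lemma blockL_ports {m k : ℕ} {c : ℝ} {e : Pr} (h : e ∈ blockL m c 0 k) :
    e.2.1 ∈ ports (blockT m 0 k) ∧ e.2.2 ∈ ports (blockT m 0 k) := by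
  rcases mem_blockL.1 h with ⟨y, h1, h2, h3⟩ | ⟨y, h1, h2, h3⟩
  · obtain ⟨i, rfl⟩ := mem_rowL.1 h3
    exact ⟨mem_ports.2 (mem_blockT.2 ⟨i.2, by simp, by simp only; omega⟩),
      mem_ports.2 (mem_blockT.2 ⟨(i - 1 : Fin (m + 1)).2, by simp, by simp only; omega⟩)⟩
  · obtain ⟨i, rfl⟩ := mem_verL.1 h3
    exact ⟨mem_ports.2 (mem_blockT.2 ⟨i.2, by simp, by simp only; omega⟩),
      mem_ports.2 (mem_blockT.2 ⟨i.2, by simp, by simp only; omega⟩)⟩

theorem mem_flat_blockL {m k : ℕ} {c : ℝ} {q : Port (ℕ × ℕ)} :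
    q ∈ flat ((blockL m c 0 k).map Sum.inl) ↔ q ∈ ports (blockT m 0 k) ∧
      (∀ i : ℕ, q ≠ tp i 0 3) ∧ (∀ i : ℕ, q ≠ tp i k 1) := by
  rw [mem_flat_inl]
  constructor
  · rintro ⟨e, he, hq⟩
    have hp := blockL_ports he
    refine ⟨?_, ?_⟩
    · rcases hq with rfl | rfl
      · exact hp.1
      · exact hp.2
    rcases mem_blockL.1 he with ⟨y, h1, h2, h3⟩ | ⟨y, h1, h2, h3⟩
    · obtain ⟨i, rfl⟩ := mem_rowL.1 h3
      rcases hq with rfl | rfl
      · exact ⟨fun j => tp_ne fun h => absurd h.2.2 (by decide),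
          fun j => tp_ne fun h => absurd h.2.2 (by decide)⟩
      · exact ⟨fun j => tp_ne fun h => absurd h.2.2 (by decide),
          fun j => tp_ne fun h => absurd h.2.2 (by decide)⟩
    · obtain ⟨i, rfl⟩ := mem_verL.1 h3
      rcases hq with rfl | rfl
      · exact ⟨fun j => tp_ne fun h => absurd h.2.2 (by decide),
          fun j => tp_ne fun h => by have := h.2.1; omega⟩
      · exact ⟨fun j => tp_ne fun h => by have := h.2.1; omega,
          fun j => tp_ne fun h => absurd h.2.2 (by decide)⟩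
  · rintro ⟨hq, h2, h3⟩
    obtain ⟨⟨i, y⟩, d, rfl, ht⟩ := mem_ports' hq
    rw [mem_blockT] at ht
    simp only at ht
    rcases z4 d with rfl | rfl | rfl | rfl
    · exact ⟨_, mem_blockL.2 (Or.inl ⟨y, by omega, by omega, mem_rowL.2 ⟨⟨i, ht.1⟩, rfl⟩⟩),
        Or.inl rfl⟩
    · have hy2 : y ≠ k := fun e => h3 i (by rw [e]; rfl)
      exact ⟨_, mem_blockL.2 (Or.inr ⟨y, by omega, by omega, mem_verL.2 ⟨⟨i, ht.1⟩, rfl⟩⟩),
        Or.inl rfl⟩
    · refine ⟨_, mem_blockL.2 (Or.inl ⟨y, by omega, by omega,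
        mem_rowL.2 ⟨(⟨i, ht.1⟩ : Fin (m + 1)) + 1, rfl⟩⟩), Or.inr ?_⟩
      show tp i y 2 = tp _ y 2
      rw [add_sub_cancel_right]
    · have hy0 : y ≠ 0 := fun e => h2 i (by rw [e]; rfl)
      refine ⟨_, mem_blockL.2 (Or.inr ⟨y - 1, by omega, by omega,
        mem_verL.2 ⟨⟨i, ht.1⟩, rfl⟩⟩), Or.inr ?_⟩
      show tp i y 3 = tp _ (y - 1 + 1) 3
      congr 1
      omega

lemma ne_blockL {m k : ℕ} {c : ℝ} {e : Pr} (he : e ∈ blockL m c 0 k) : e.2.1 ≠ e.2.2 := by
  rcases mem_blockL.1 he with ⟨y, h1, h2, h3⟩ | ⟨y, h1, h2, h3⟩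
  · obtain ⟨i, rfl⟩ := mem_rowL.1 h3
    exact tp_ne fun h => absurd h.2.2 (by decide)
  · obtain ⟨i, rfl⟩ := mem_verL.1 h3
    exact tp_ne fun h => absurd h.2.2 (by decide)

theorem nodup_flat_rows (m k : ℕ) (c : ℝ) (z0 : ℤ) : (flat (rowsOps B m k c z0)).Nodup := by
  unfold rowsOps
  rw [flat_ren]
  exact (nodup_flat_inl (dis_blockL m c 0 k) fun _ he => ne_blockL he).map
    (tpm_inj (gY B z0).injective)

theorem mem_flat_rows {m k : ℕ} {c : ℝ} {z0 : ℤ} {q : Port TG} :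
    q ∈ flat (rowsOps B m k c z0) ↔ q ∈ ports (rowsM B m k z0) ∧
      (∀ i : Fin (m + 1), q ≠ some (gI B i z0, 3)) ∧
      (∀ i : Fin (m + 1), q ≠ some (gI B i (z0 + (k : ℤ)), 1)) := by
  unfold rowsOps
  rw [flat_ren, List.mem_map]
  constructor
  · rintro ⟨q0, hq0, rfl⟩
    rw [mem_flat_blockL] at hq0
    obtain ⟨k1, k3, k4⟩ := hq0
    refine ⟨ports_map _ k1, ?_, ?_⟩
    · intro i hq
      apply k3 i
      apply tpm_inj (gY B z0).injective
      rw [hq, tpm_gY, Nat.cast_zero, add_zero]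
    · intro i hq
      apply k4 i
      apply tpm_inj (gY B z0).injective
      rw [hq, tpm_gY]
  · rintro ⟨k1, k3, k4⟩
    obtain ⟨t, d, rfl, ht⟩ := mem_ports' k1
    unfold rowsM at ht
    obtain ⟨⟨i, y⟩, hm, rfl⟩ := Finset.mem_map.1 ht
    refine ⟨tp i y d, ?_, rfl⟩
    have hm2 := hm
    rw [mem_blockT] at hm2
    simp only at hm2
    rw [mem_flat_blockL]
    refine ⟨mem_ports.2 hm, ?_, ?_⟩
    · intro j hq
      obtain ⟨f1, f2, f3⟩ := tp_inj hq
      apply k3 ⟨i, hm2.1⟩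
      show (some (gI B i (z0 + (y : ℤ)), d) : Port TG) = some (gI B i z0, 3)
      rw [f3, f2, Nat.cast_zero, add_zero]
    · intro j hq
      obtain ⟨f1, f2, f3⟩ := tp_inj hq
      apply k4 ⟨i, hm2.1⟩
      show (some (gI B i (z0 + (y : ℤ)), d) : Port TG) = some (gI B i (z0 + (k : ℤ)), 1)
      rw [f3, f2]

lemma rows_ports {m k : ℕ} {c : ℝ} {z0 : ℤ} {o : Op (Port TG)} (ho : o ∈ rowsOps B m k c z0) :
    ∀ q ∈ o.pts, q ∈ ports (rowsM B m k z0) := fun _ hq =>
  ((mem_flat_rows B).1 (mem_flat.2 ⟨o, ho, hq⟩)).1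

/-- open ports of the lower half environment -/
def topP (a : ℕ) (i : Fin (nn B + 1)) : Port TG := some (gI B i (B.y1 + (a : ℤ)), 1)

/-- open ports of the upper half environment -/
def botP (b : ℕ) (i : Fin (nn B + 2)) : Port TG := some (gI B i (B.y2 - 1 - (b : ℤ)), 3)

lemma topP_inj (a : ℕ) : Function.Injective (topP B a) := fun i j h => by
  have h1 : gI B i (B.y1 + (a : ℤ)) = gI B j (B.y1 + (a : ℤ)) := by
    unfold topP at h; simpa using h
  exact Fin.ext (gI_inj B h1).1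

lemma botP_inj (b : ℕ) : Function.Injective (botP B b) := fun i j h => by
  have h1 : gI B i (B.y2 - 1 - (b : ℤ)) = gI B j (B.y2 - 1 - (b : ℤ)) := by
    unfold botP at h; simpa using h
  exact Fin.ext (gI_inj B h1).1

/-- tiles of the lower half environment -/
def lowM (Al : Finset (ℤ × ℤ)) (a : ℕ) : Finset TG := Al.map inlE ∪ rowsM B (nn B) a B.y1

/-- tiles of the upper half environment -/
def upM (Au : Finset (ℤ × ℤ)) (b : ℕ) : Finset TG :=
  Au.map inlE ∪ rowsM B (nn B + 1) b (B.y2 - 1 - (b : ℤ))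

lemma gI_not_inlE {C : Finset (ℤ × ℤ)} {i : ℕ} {y : ℤ}
    (h : (i : ℤ) ≤ B.xr - B.xl → (B.xl + (i : ℤ), y) ∉ C) : gI B i y ∉ C.map inlE := by
  by_cases h1 : (i : ℤ) ≤ B.xr - B.xl
  · rw [gI_le B h1, mem_inlE]
    exact h h1
  · rw [gI_gt B h1]
    exact not_inlE

variable {B}

lemma Split.disj_low {Al Au : Finset (ℤ × ℤ)} (hs : Split B Al Au) {m k : ℕ} {z0 : ℤ}
    (h1 : B.y1 ≤ z0) (h2 : z0 + (k : ℤ) < B.y2) : Disjoint (Al.map inlE) (rowsM B m k z0) := by
  rw [Finset.disjoint_right]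
  intro t ht
  obtain ⟨i, j, hi, hj, rfl⟩ := (mem_rowsM B).1 ht
  exact gI_not_inlE B fun h3 h4 => hs.dl _ _ h4 (by omega)

lemma Split.disj_up {Al Au : Finset (ℤ × ℤ)} (hs : Split B Al Au) {m k : ℕ} {z0 : ℤ}
    (h1 : B.y1 ≤ z0) (h2 : z0 + (k : ℤ) < B.y2) : Disjoint (Au.map inlE) (rowsM B m k z0) := by
  rw [Finset.disjoint_right]
  intro t ht
  obtain ⟨i, j, hi, hj, rfl⟩ := (mem_rowsM B).1 ht
  exact gI_not_inlE B fun h3 h4 => hs.du _ _ h4 (by omega)

variable (B)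

/-- **the lower half environment** -/
theorem low_amp {p y0 : ℤ} (h : B.At p y0) {Al Au : Finset (ℤ × ℤ)} (hs : Split B Al Au)
    (c : ℝ) (φ : Port TG → ℝ) {Ll : List (Op (Port TG))}
    (hLl : ∀ o ∈ Ll, ∀ q ∈ o.pts, q ∈ ports (Al.map inlE)) {a : ℕ}
    (ha : B.y1 + (a : ℤ) < B.y2) :
    opL (Ll ++ (rowsOps B (nn B) a c B.y1 ++ joinLow B Al φ)) (tilesF (lowM B Al a)) = fun σ =>
      (That (nn B + 1) c (1 / 2) ^ (a + 1) *ᵥ InZ B Al φ Ll σ) (fun i => σ (topP B a i)) := by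
  have hn := nn_eq B h
  have hR := B.hR
  have hle := le_run B h
  have hy1 := h.hy1
  have hy2 := h.hy2
  have hd := hs.disj_low (m := nn B) le_rfl ha
  set F := opL Ll (tilesF (Al.map inlE)) with hF
  have sF : Sees F (↑(ports (Al.map inlE)) : Set (Port TG)) := opL_sees _ (tilesF_sees _)
  have e1 : tilesF (lowM B Al a) = fun σ => tilesF (Al.map inlE) σ *
      tilesF (rowsM B (nn B) a B.y1) σ := by
    funext σ
    exact tilesF_union hd σ
  rw [opL_append, opL_append, e1,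
    opL_mul_right (tilesF_sees (rowsM B (nn B) a B.y1)) Ll (fun o ho q hq hq' =>
      ports_disj hd (hLl o ho q hq) (Finset.mem_coe.1 hq')),
    opL_mul_left sF _ (fun o ho q hq hq' =>
      ports_disj hd (Finset.mem_coe.1 hq') (rows_ports B ho q hq)), rows_ker]
  have hj := join_low (That (nn B + 1) c (1 / 2) ^ (a + 1)) (w := topP B a) (u := uP B)
    (x := xP B) (Dl B Al) (fun i => φ (uP B i)) sF (xP_inj B) (uP_inj B)
    (fun i j => some_ne fun h => d13 h.2) (fun i j => some_ne fun h => ?_)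
    (fun i j => some_ne fun h => d13 h.2.symm)
    (fun i => gI_not_low B fun h1 h2 => hs.dl _ _ h2 (by omega))
    (fun i hi => gI_not_low B fun h1 h2 => hi ⟨h1, h2⟩)
  · exact hj
  · have := (gI_inj B h.1).2
    omega

/-- **the upper half environment** -/
theorem up_amp {p y0 : ℤ} (h : B.At p y0) {Al Au : Finset (ℤ × ℤ)} (hs : Split B Al Au)
    (c' : ℝ) (φ : Port TG → ℝ) {Lu : List (Op (Port TG))}
    (hLu : ∀ o ∈ Lu, ∀ q ∈ o.pts, q ∈ ports (Au.map inlE)) {b : ℕ}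
    (hb : B.y1 ≤ B.y2 - 1 - (b : ℤ)) :
    opL (Lu ++ (rowsOps B (nn B + 1) b c' (B.y2 - 1 - (b : ℤ)) ++ joinUp B Au φ))
        (tilesF (upM B Au b)) = fun σ =>
      (OutZ B Au φ Lu σ ᵥ* That (nn B + 2) c' (1 / 2) ^ (b + 1)) (fun i => !σ (botP B b i)) := by
  have hn := nn_eq B h
  have hR := B.hR
  have hle := le_run B h
  have hy1 := h.hy1
  have hy2 := h.hy2
  have hd := hs.disj_up (m := nn B + 1) (k := b) hb (by omega)
  set F := opL Lu (tilesF (Au.map inlE)) with hF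
  have sF : Sees F (↑(ports (Au.map inlE)) : Set (Port TG)) := opL_sees _ (tilesF_sees _)
  have e1 : tilesF (upM B Au b) = fun σ => tilesF (Au.map inlE) σ *
      tilesF (rowsM B (nn B + 1) b (B.y2 - 1 - (b : ℤ))) σ := by
    funext σ
    exact tilesF_union hd σ
  rw [opL_append, opL_append, e1,
    opL_mul_right (tilesF_sees (rowsM B (nn B + 1) b (B.y2 - 1 - (b : ℤ)))) Lu
      (fun o ho q hq hq' => ports_disj hd (hLu o ho q hq) (Finset.mem_coe.1 hq')),
    opL_mul_left sF _ (fun o ho q hq hq' =>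
      ports_disj hd (Finset.mem_coe.1 hq') (rows_ports B ho q hq)), rows_ker]
  set K := That (nn B + 2) c' (1 / 2) ^ (b + 1) with hK
  have hj := join_up (w := wP B) (v := vP B) (Du B Au) (fun i => φ (wP B i)) (F := F)
    (G := fun σ s => K s (fun i => !σ (botP B b i))) (A := ↑(ports (Au.map inlE)))
    (B := Set.range (botP B b)) sF ?_ (vP_inj B) (wP_inj B)
    (fun i j => some_ne fun h => d13 h.2.symm)
    (fun i => gI_not_low B fun h1 h2 => hs.du _ _ h2 (by omega))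
    (fun i hi => gI_not_low B fun h1 h2 => hi ⟨h1, h2⟩) ?_ ?_
  · have e2 : (fun σ => F σ * ker K (fun i => some (gI B i (B.y2 - 1 - (b : ℤ) + (b : ℤ)), 1))
        (fun i => some (gI B i (B.y2 - 1 - (b : ℤ)), 3)) σ) =
        fun σ => K (fun i => σ (wP B i)) (fun i => !σ (botP B b i)) * F σ := by
      funext σ
      rw [mul_comm]
      congr 1
      unfold ker
      congr 1
      funext i
      show σ (some (gI B i (B.y2 - 1 - (b : ℤ) + (b : ℤ)), 1)) = σ (wP B i)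
      rw [sub_add_cancel]
      rfl
    show opL (joinOps (Du B Au) (fun i => φ (wP B i)) (vP B) (wP B)) (fun σ => F σ *
      ker K (fun i => some (gI B i (B.y2 - 1 - (b : ℤ) + (b : ℤ)), 1))
        (fun i => some (gI B i (B.y2 - 1 - (b : ℤ)), 3)) σ) = _
    rw [e2]
    refine hj.trans ?_
    funext σ
    rfl
  · intro s σ σ' hσ
    show K s _ = K s _
    congr 1
    funext i
    rw [hσ _ ⟨i, rfl⟩]
  · rintro i ⟨j, hj⟩
    exact some_ne (fun h => d13 h.2.symm) hj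
  · rintro i ⟨j, hj⟩
    have h1 : gI B j (B.y2 - 1 - (b : ℤ)) = gI B i B.y2 := by
      unfold botP vP at hj; simpa using hj
    have := (gI_inj B h1).2
    omega

/-! ### Covers -/

/-- operations of the lower half environment -/
def lowL (Al : Finset (ℤ × ℤ)) (a : ℕ) (c : ℝ) (φ : Port TG → ℝ) : List (Op (Port TG)) :=
  plainL A Al φ ++ (rowsOps B (nn B) a c B.y1 ++ joinLow B Al φ)

/-- operations of the upper half environment -/
def upL (Au : Finset (ℤ × ℤ)) (b : ℕ) (c' : ℝ) (φ : Port TG → ℝ) : List (Op (Port TG)) :=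
  plainL A Au φ ++ (rowsOps B (nn B + 1) b c' (B.y2 - 1 - (b : ℤ)) ++ joinUp B Au φ)

theorem low_cover {p y0 : ℤ} (h : B.At p y0) {Al Au : Finset (ℤ × ℤ)} (hs : Split B Al Au)
    (hadj : ∀ s ∈ Al, ∀ t ∈ Au, ¬ Adj4 s t) (c : ℝ) (φ : Port TG → ℝ) {a : ℕ}
    (ha : B.y1 + (a : ℤ) < B.y2) :
    (flat (lowL B Al a c φ)).Nodup ∧
    ∀ q, q ∈ flat (lowL B Al a c φ) ↔ q ∈ ports (lowM B Al a) ∧ ∀ i, q ≠ topP B a i := by
  have hn := nn_eq B h
  have hR := B.hR
  have hle := le_run B h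
  have hy1 := h.hy1
  have hy2 := h.hy2
  have hd := hs.disj_low (m := nn B) le_rfl ha
  have m1 := plain_low B h hs hadj φ
  have hlow : ∀ q, q ∈ flat (joinLow B Al φ) ↔ (∃ i, q = uP B i) ∨ ∃ i, Dl B Al i ∧ q = xP B i :=
    fun q => mem_flat_join _ _ _ _
  have hrow : ∀ q, q ∈ flat (rowsOps B (nn B) a c B.y1) ↔ q ∈ ports (rowsM B (nn B) a B.y1) ∧
      (∀ i, q ≠ uP B i) ∧ (∀ i, q ≠ topP B a i) := fun q => mem_flat_rows B
  have pu : ∀ i, uP B i ∈ ports (rowsM B (nn B) a B.y1) := fun i =>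
    mem_ports.2 ((gI_mem_rows B).2 ⟨i.2, le_rfl, by omega⟩)
  have pt : ∀ i, topP B a i ∈ ports (rowsM B (nn B) a B.y1) := fun i =>
    mem_ports.2 ((gI_mem_rows B).2 ⟨i.2, by omega, by omega⟩)
  have px : ∀ i, Dl B Al i ↔ xP B i ∈ ports (Al.map inlE) := by
    intro i
    constructor
    · rintro ⟨k1, k2⟩
      unfold xP
      rw [gI_le B k1]
      exact mem_ports.2 (mem_inlE.2 k2)
    · intro hm
      have hm' := mem_ports.1 hm
      by_cases k1 : ((i : ℕ) : ℤ) ≤ B.xr - B.xl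
      · rw [gI_le B k1, mem_inlE] at hm'
        exact ⟨k1, hm'⟩
      · rw [gI_gt B k1] at hm'
        exact absurd hm' not_inlE
  have hxu : ∀ i j, xP B i ≠ uP B j := fun i j => some_ne fun h => d13 h.2
  have hxt : ∀ i j, xP B i ≠ topP B a j := fun i j => some_ne fun h => by
    have := (gI_inj B h.1).2; omega
  have hut : ∀ i j, uP B i ≠ topP B a j := fun i j => some_ne fun h => d13 h.2.symm
  have dd : ∀ {q}, q ∈ ports (Al.map inlE) → q ∈ ports (rowsM B (nn B) a B.y1) → False :=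
    fun k1 k2 => ports_disj hd k1 k2
  have hM : ∀ q, q ∈ ports (lowM B Al a) ↔ q ∈ ports (Al.map inlE) ∨
      q ∈ ports (rowsM B (nn B) a B.y1) := by
    intro q
    rcases q with _ | ⟨t, d⟩
    · simp
    · rw [mem_ports, mem_ports, mem_ports, lowM, Finset.mem_union]
  unfold lowL
  constructor
  · simp only [flat_append]
    rw [List.nodup_append', List.nodup_append']
    refine ⟨nodup_flat_plainL hs.subl φ, ⟨nodup_flat_rows B _ _ _ _,
      nodup_flat_join _ _ (xP_inj B) (uP_inj B) hxu, ?_⟩, ?_⟩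
    · intro q h1 h2
      rw [hrow] at h1
      rw [hlow] at h2
      rcases h2 with ⟨i, hi⟩ | ⟨i, hD, hi⟩
      · exact h1.2.1 i hi
      · exact dd ((px i).1 hD) (by rw [← hi]; exact h1.1)
    · intro q h1 h2
      rw [m1] at h1
      rw [List.mem_append, hrow, hlow] at h2
      rcases h2 with h2 | ⟨i, hi⟩ | ⟨i, hD, hi⟩
      · exact dd h1.1 h2.1
      · exact dd h1.1 (by rw [hi]; exact pu i)
      · exact h1.2 i hi
  · intro q
    simp only [flat_append]
    rw [List.mem_append, List.mem_append, m1, hrow, hlow, hM]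
    constructor
    · rintro (h1 | h1 | ⟨i, hi⟩ | ⟨i, hD, hi⟩)
      · exact ⟨Or.inl h1.1, fun i e => dd h1.1 (by rw [e]; exact pt i)⟩
      · exact ⟨Or.inr h1.1, h1.2.2⟩
      · exact ⟨Or.inr (by rw [hi]; exact pu i), fun j e => hut i j (hi.symm.trans e)⟩
      · exact ⟨Or.inl (by rw [hi]; exact (px i).1 hD), fun j e => hxt i j (hi.symm.trans e)⟩
    · rintro ⟨h1 | h1, h2⟩
      · by_cases hx : ∃ i, q = xP B i
        · obtain ⟨i, hi⟩ := hx
          exact Or.inr (Or.inr (Or.inr ⟨i, (px i).2 (by rw [← hi]; exact h1), hi⟩))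
        · push Not at hx
          exact Or.inl ⟨h1, hx⟩
      · by_cases hu : ∃ i, q = uP B i
        · exact Or.inr (Or.inr (Or.inl hu))
        · push Not at hu
          exact Or.inr (Or.inl ⟨h1, hu, h2⟩)

theorem up_cover {p y0 : ℤ} (h : B.At p y0) {Al Au : Finset (ℤ × ℤ)} (hs : Split B Al Au)
    (hadj : ∀ s ∈ Al, ∀ t ∈ Au, ¬ Adj4 s t) (c' : ℝ) (φ : Port TG → ℝ) {b : ℕ}
    (hb : B.y1 ≤ B.y2 - 1 - (b : ℤ)) :
    (flat (upL B Au b c' φ)).Nodup ∧
    ∀ q, q ∈ flat (upL B Au b c' φ) ↔ q ∈ ports (upM B Au b) ∧ ∀ i, q ≠ botP B b i := by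
  have hn := nn_eq B h
  have hR := B.hR
  have hle := le_run B h
  have hy1 := h.hy1
  have hy2 := h.hy2
  have hd := hs.disj_up (m := nn B + 1) (k := b) hb (by omega)
  have m1 := plain_up B h hs hadj φ
  have hlow : ∀ q, q ∈ flat (joinUp B Au φ) ↔ (∃ i, q = wP B i) ∨ ∃ i, Du B Au i ∧ q = vP B i :=
    fun q => mem_flat_join _ _ _ _
  have hw : ∀ i, (some (gI B (i : Fin (nn B + 2)) (B.y2 - 1 - (b : ℤ) + (b : ℤ)), 1) : Port TG) =
      wP B i := fun i => by rw [sub_add_cancel]; rfl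
  have hrow : ∀ q, q ∈ flat (rowsOps B (nn B + 1) b c' (B.y2 - 1 - (b : ℤ))) ↔
      q ∈ ports (rowsM B (nn B + 1) b (B.y2 - 1 - (b : ℤ))) ∧
      (∀ i, q ≠ botP B b i) ∧ (∀ i, q ≠ wP B i) := by
    intro q
    refine (mem_flat_rows B).trans ?_
    refine and_congr_right fun _ => and_congr_right fun _ => forall_congr' fun i => ?_
    rw [← hw i]
  have pu : ∀ i, wP B i ∈ ports (rowsM B (nn B + 1) b (B.y2 - 1 - (b : ℤ))) := fun i =>
    mem_ports.2 ((gI_mem_rows B).2 ⟨i.2, by omega, by omega⟩)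
  have pt : ∀ i, botP B b i ∈ ports (rowsM B (nn B + 1) b (B.y2 - 1 - (b : ℤ))) := fun i =>
    mem_ports.2 ((gI_mem_rows B).2 ⟨i.2, by omega, by omega⟩)
  have px : ∀ i, Du B Au i ↔ vP B i ∈ ports (Au.map inlE) := by
    intro i
    constructor
    · rintro ⟨k1, k2⟩
      unfold vP
      rw [gI_le B k1]
      exact mem_ports.2 (mem_inlE.2 k2)
    · intro hm
      have hm' := mem_ports.1 hm
      by_cases k1 : ((i : ℕ) : ℤ) ≤ B.xr - B.xl
      · rw [gI_le B k1, mem_inlE] at hm'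
        exact ⟨k1, hm'⟩
      · rw [gI_gt B k1] at hm'
        exact absurd hm' not_inlE
  have hxu : ∀ i j, vP B i ≠ wP B j := fun i j => some_ne fun h => d13 h.2.symm
  have hxt : ∀ i j, vP B i ≠ botP B b j := fun i j => some_ne fun h => by
    have := (gI_inj B h.1).2; omega
  have hut : ∀ i j, wP B i ≠ botP B b j := fun i j => some_ne fun h => d13 h.2
  have dd : ∀ {q}, q ∈ ports (Au.map inlE) →
      q ∈ ports (rowsM B (nn B + 1) b (B.y2 - 1 - (b : ℤ))) → False :=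
    fun k1 k2 => ports_disj hd k1 k2
  have hM : ∀ q, q ∈ ports (upM B Au b) ↔ q ∈ ports (Au.map inlE) ∨
      q ∈ ports (rowsM B (nn B + 1) b (B.y2 - 1 - (b : ℤ))) := by
    intro q
    rcases q with _ | ⟨t, d⟩
    · simp
    · rw [mem_ports, mem_ports, mem_ports, upM, Finset.mem_union]
  unfold upL
  constructor
  · simp only [flat_append]
    rw [List.nodup_append', List.nodup_append']
    refine ⟨nodup_flat_plainL hs.subu φ, ⟨nodup_flat_rows B _ _ _ _,
      nodup_flat_join _ _ (vP_inj B) (wP_inj B) hxu, ?_⟩, ?_⟩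
    · intro q h1 h2
      rw [hrow] at h1
      rw [hlow] at h2
      rcases h2 with ⟨i, hi⟩ | ⟨i, hD, hi⟩
      · exact h1.2.2 i hi
      · exact dd ((px i).1 hD) (by rw [← hi]; exact h1.1)
    · intro q h1 h2
      rw [m1] at h1
      rw [List.mem_append, hrow, hlow] at h2
      rcases h2 with h2 | ⟨i, hi⟩ | ⟨i, hD, hi⟩
      · exact dd h1.1 h2.1
      · exact dd h1.1 (by rw [hi]; exact pu i)
      · exact h1.2 i hi
  · intro q
    simp only [flat_append]
    rw [List.mem_append, List.mem_append, m1, hrow, hlow, hM]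
    constructor
    · rintro (h1 | h1 | ⟨i, hi⟩ | ⟨i, hD, hi⟩)
      · exact ⟨Or.inl h1.1, fun i e => dd h1.1 (by rw [e]; exact pt i)⟩
      · exact ⟨Or.inr h1.1, h1.2.1⟩
      · exact ⟨Or.inr (by rw [hi]; exact pu i), fun j e => hut i j (hi.symm.trans e)⟩
      · exact ⟨Or.inl (by rw [hi]; exact (px i).1 hD), fun j e => hxt i j (hi.symm.trans e)⟩
    · rintro ⟨h1 | h1, h2⟩
      · by_cases hx : ∃ i, q = vP B i
        · obtain ⟨i, hi⟩ := hx
          exact Or.inr (Or.inr (Or.inr ⟨i, (px i).2 (by rw [← hi]; exact h1), hi⟩))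
        · push Not at hx
          exact Or.inl ⟨h1, hx⟩
      · by_cases hu : ∃ i, q = wP B i
        · exact Or.inr (Or.inr (Or.inl hu))
        · push Not at hu
          exact Or.inr (Or.inl ⟨h1, h2, hu⟩)

/-! ### Compatibility -/

/-- vertical glueings of two consecutive rows -/
lemma ver_ok {p y0 : ℤ} (h : B.At p y0) {c c' : ℝ} {φ : Port TG → ℝ} {m : ℕ} {y : ℤ}
    (hy1 : B.y1 ≤ y) (hy2 : y + 1 < B.y2) (hyn : y ≠ y0 - 1)
    (hm : (m : ℤ) = B.xr - B.xl + B.wd y0 y) {i : ℕ} (hi : i < m + 1) :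
    OpOk (B.beG p y0) (chG B p y0 c c' φ) (Sum.inl (0, some (gI B i y, 1),
      some (gI B i (y + 1), 3))) := by
  have hn := nn_eq B h
  have hR := B.hR
  have hle := le_run B h
  have hwd : B.wd y0 y = if y < y0 then B.R else B.R + 1 := rfl
  have hmem : ∀ k : ℤ, (k = 0 ∨ k = 1) → gI B i (y + k) ∈ B.tG y0 := by
    intro k hk
    apply band_sub B h
    rw [gI_mem_band B h]
    by_cases hy : y < y0
    · rw [if_pos hy] at hwd; omega
    · rw [if_neg hy] at hwd; omega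
  apply ok_glue
  · exact some_ne fun h => d13 h.2
  · apply beG_of B h (by simpa using hmem 0 (Or.inl rfl)) (hmem 1 (Or.inr rfl))
    by_cases h1 : (i : ℤ) ≤ B.xr - B.xl
    · rw [gI_le B h1, gI_le B h1, B.nbG_N (by omega)]
    · rw [gI_gt B h1, gI_gt B h1, B.nbG_rN hyn]
  · rw [seamG_gI B (fun _ h => z10 h.1) (fun _ h => hyn h.2.1),
      seamG_gI B (fun _ h => z30 h.1) (fun _ h => z31 h.1), sub_zero]

theorem rows_ok {p y0 : ℤ} (h : B.At p y0) (c c' : ℝ) (φ : Port TG → ℝ) {m k : ℕ} {c0 : ℝ}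
    {z0 : ℤ} (h1 : B.y1 ≤ z0) (h2 : z0 + (k : ℤ) < B.y2)
    (hrow : ∀ y, z0 ≤ y → y ≤ z0 + (k : ℤ) → (m : ℤ) = B.xr - B.xl + B.wd y0 y ∧
      c0 = (if y < y0 then c else c'))
    (hcut : ∀ y, z0 ≤ y → y < z0 + (k : ℤ) → y ≠ y0 - 1) :
    ∀ o ∈ rowsOps B m k c0 z0, OpOk (B.beG p y0) (chG B p y0 c c' φ) o := by
  intro o ho
  unfold rowsOps at ho
  rw [List.map_map, List.mem_map] at ho
  obtain ⟨e, he, rfl⟩ := ho
  rcases mem_blockL.1 he with ⟨y, k1, k2, k3⟩ | ⟨y, k1, k2, k3⟩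
  · obtain ⟨i, rfl⟩ := mem_rowL.1 k3
    obtain ⟨hm, hc⟩ := hrow (z0 + (y : ℤ)) (by omega) (by omega)
    have := row_ok B h (c := c) (c' := c') (φ := φ) (m := m) (y := z0 + (y : ℤ)) (by omega)
      (by omega) hm i
    rw [← hc] at this
    exact this
  · obtain ⟨i, rfl⟩ := mem_verL.1 k3
    have hm := (hrow (z0 + (y : ℤ)) (by omega) (by omega)).1
    have := ver_ok B h (c := c) (c' := c') (φ := φ) (m := m) (y := z0 + (y : ℤ)) (by omega)
      (by omega) (hcut _ (by omega) (by omega)) hm i.2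
    have e2 : z0 + ((y + 1 : ℕ) : ℤ) = z0 + (y : ℤ) + 1 := by push_cast; ring
    show OpOk _ _ (Sum.inl (0, some (gI B i (z0 + (y : ℤ)), 1),
      some (gI B i (z0 + ((y + 1 : ℕ) : ℤ)), 3)))
    rw [e2]
    exact this

lemma ok_leg {p y0 : ℤ} {c c' : ℝ} {φ : Port TG → ℝ} {o : Op (Port TG)}
    (h1 : OpOk (B.beG p y0) (chG B p y0 c c' φ) o) (h2 : ∀ q ∈ o.pts, q ≠ legP p y0) :
    OpOk (beL B p y0) (chL B p y0 c c' φ) o := by
  rcases o with ⟨χ, a, b⟩ | ⟨ψ, a⟩
  · have ha := h2 a (by simp [Op.pts])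
    have hb := h2 b (by simp [Op.pts])
    refine ⟨?_, ?_, ?_⟩
    · show beL B p y0 a = b
      rw [beL_ne B ha]; exact h1.1
    · show beL B p y0 b = a
      rw [beL_ne B hb]; exact h1.2.1
    · show chL B p y0 c c' φ a - chL B p y0 c c' φ b = χ
      rw [chL_ne B ha, chL_ne B hb]; exact h1.2.2
  · have ha := h2 a (by simp [Op.pts])
    refine ⟨?_, ?_⟩
    · show beL B p y0 a = a
      rw [beL_ne B ha]; exact h1.1
    · show chL B p y0 c c' φ a = ψ
      rw [chL_ne B ha]; exact h1.2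

theorem low_ok {p y0 : ℤ} (h : B.At p y0) {Al Au : Finset (ℤ × ℤ)} (hs : Split B Al Au)
    (hadj : ∀ s ∈ Al, ∀ t ∈ Au, ¬ Adj4 s t) (c c' : ℝ) (φ : Port TG → ℝ) {a : ℕ}
    (ha : B.y1 + (a : ℤ) < y0) :
    ∀ o ∈ lowL B Al a c φ, OpOk (beL B p y0) (chL B p y0 c c' φ) o := by
  have hn := nn_eq B h
  have hy1 := h.hy1
  have hy2 := h.hy2
  have hp1 := h.hp1
  have hp2 := h.hp2
  intro o ho
  refine ok_leg B ?_ ?_
  · unfold lowL at ho
    simp only [List.mem_append] at ho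
    rcases ho with ho | ho | ho
    · exact plainL_ok B h c c' φ hs.subl hs.dl o ho
    · refine rows_ok B h c c' φ le_rfl (by omega) ?_ (fun y k1 k2 => by omega) o ho
      intro y k1 k2
      have hy : y < y0 := by omega
      have hwd : B.wd y0 y = B.R := if_pos hy
      rw [if_pos hy, hwd]
      exact ⟨by omega, rfl⟩
    · exact joinLow_ok B h hs c c' φ o ho
  · intro q hq e
    have hq' : q ∈ flat (lowL B Al a c φ) := mem_flat.2 ⟨o, ho, hq⟩
    rw [(low_cover B h hs hadj c φ (by omega)).2] at hq'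
    have h1 := hq'.1
    rw [e] at h1
    have h2 := mem_ports.1 h1
    unfold lowM at h2
    rw [Finset.mem_union, mem_inlE] at h2
    rcases h2 with h2 | h2
    · exact hs.dl _ _ h2 (by omega)
    · obtain ⟨i, j, k1, k2, k3⟩ := (mem_rowsM B).1 h2
      by_cases hi : (i : ℤ) ≤ B.xr - B.xl
      · rw [gI_le B hi] at k3
        have := Sum.inl_injective k3
        simp only [Prod.mk.injEq] at this
        omega
      · rw [gI_gt B hi] at k3
        exact absurd k3 (by simp)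

theorem up_ok {p y0 : ℤ} (h : B.At p y0) {Al Au : Finset (ℤ × ℤ)} (hs : Split B Al Au)
    (hadj : ∀ s ∈ Al, ∀ t ∈ Au, ¬ Adj4 s t) (c c' : ℝ) (φ : Port TG → ℝ) {b : ℕ}
    (hb : y0 ≤ B.y2 - 1 - (b : ℤ)) :
    ∀ o ∈ upL B Au b c' φ, OpOk (beL B p y0) (chL B p y0 c c' φ) o := by
  have hn := nn_eq B h
  have hy1 := h.hy1
  have hy2 := h.hy2
  have hp1 := h.hp1
  have hp2 := h.hp2
  intro o ho
  refine ok_leg B ?_ ?_
  · unfold upL at ho
    simp only [List.mem_append] at ho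
    rcases ho with ho | ho | ho
    · exact plainL_ok B h c c' φ hs.subu hs.du o ho
    · refine rows_ok B h c c' φ (by omega) (by omega) ?_ (fun y k1 k2 => by omega) o ho
      intro y k1 k2
      have hy : ¬ y < y0 := by omega
      have hwd : B.wd y0 y = B.R + 1 := if_neg hy
      rw [if_neg hy, hwd]
      exact ⟨by push_cast; omega, rfl⟩
    · exact joinUp_ok B h hs c c' φ o ho
  · intro q hq e
    have hq' : q ∈ flat (upL B Au b c' φ) := mem_flat.2 ⟨o, ho, hq⟩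
    rw [(up_cover B h hs hadj c' φ (by omega)).2] at hq'
    have h1 := hq'.1
    have h3 := hq'.2
    rw [e] at h1 h3
    have h2 := mem_ports.1 h1
    unfold upM at h2
    rw [Finset.mem_union, mem_inlE] at h2
    rcases h2 with h2 | h2
    · exact hs.du _ _ h2 (by omega)
    · obtain ⟨i, j, k1, k2, k3⟩ := (mem_rowsM B).1 h2
      by_cases hi : (i : ℤ) ≤ B.xr - B.xl
      · have k3' := k3
        rw [gI_le B hi] at k3'
        have := Sum.inl_injective k3'
        simp only [Prod.mk.injEq] at this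
        have hj : j = 0 := by omega
        apply h3 ⟨i, by omega⟩
        unfold legP botP
        rw [k3, hj, Nat.cast_zero, add_zero]
      · rw [gI_gt B hi] at k3
        exact absurd k3 (by simp)

end Crest.Agent.R158.Ao857
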