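import Mathlib

/-!
# R158, Block CS (helper410): the consumer of the band theorem

* `amp T' T X b a O I = O ⬝ᵥ ((T' ^ b * X * T ^ a) *ᵥ I)` : amplitude with `b` rows above and
  `a` rows below the insertion `X`
* `amp_step`, `amp_step_le` : the two-row / two-column relation from the operator estimate
* `cs s H x y P Q` : discrete contour sum (double steps) of a box, `cs_split`, `cs_le_of_step`,
  `cs_sub_le`, `cs_slices`
* `Fam` : amplitude of a finite family `(Out μ, In μ)` divided by `Z`, `fam_step`, `fam_cs`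
-/

set_option autoImplicit false

noncomputable section

open Matrix Finset
open scoped Matrix.Norms.L2Operator

namespace Crest.Agent.R158.Cs410

/-! ## amplitudes -/

section amp

variable {m n : Type*} [Fintype m] [DecidableEq m] [Fintype n] [DecidableEq n]

/-- Euclidean norm of a vector -/
def nrm {k : Type*} [Fintype k] (v : k → ℂ) : ℝ := ‖(WithLp.toLp 2 v : EuclideanSpace ℂ k)‖

lemma nrm_nonneg {k : Type*} [Fintype k] (v : k → ℂ) : 0 ≤ nrm v := norm_nonneg _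

lemma nrm_sq {k : Type*} [Fintype k] (v : k → ℂ) : nrm v ^ 2 = ∑ i, ‖v i‖ ^ 2 := by
  rw [nrm, EuclideanSpace.norm_eq, Real.sq_sqrt (Finset.sum_nonneg fun i _ => sq_nonneg _)]

lemma dot_le {k : Type*} [Fintype k] (u v : k → ℂ) : ‖u ⬝ᵥ v‖ ≤ nrm u * nrm v := by
  have h1 : ‖u ⬝ᵥ v‖ ≤ ∑ i, ‖u i‖ * ‖v i‖ := by
    rw [dotProduct]
    refine (norm_sum_le _ _).trans (le_of_eq ?_)
    exact Finset.sum_congr rfl fun i _ => norm_mul _ _
  refine h1.trans ?_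
  have h2 := Finset.sum_mul_sq_le_sq_mul_sq Finset.univ (fun i => ‖u i‖) fun i => ‖v i‖
  rw [← nrm_sq, ← nrm_sq, ← mul_pow] at h2
  exact le_of_sq_le_sq h2 (mul_nonneg (nrm_nonneg u) (nrm_nonneg v))

lemma mulVec_le (A : Matrix m n ℂ) (v : n → ℂ) : nrm (A *ᵥ v) ≤ ‖A‖ * nrm v :=
  Matrix.l2_opNorm_mulVec A (WithLp.toLp 2 v)

/-- amplitude with `b` rows above and `a` rows below the insertion -/
def amp (T' : Matrix m m ℂ) (T : Matrix n n ℂ) (X : Matrix m n ℂ) (b a : ℕ) (O : m → ℂ)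
    (I : n → ℂ) : ℂ :=
  O ⬝ᵥ ((T' ^ b * X * T ^ a) *ᵥ I)

theorem amp_step (T' : Matrix m m ℂ) (T : Matrix n n ℂ) (A A2 : Matrix m n ℂ) (s : ℂ) (b a : ℕ)
    (O : m → ℂ) (I : n → ℂ) :
    amp T' T A (b + 2) a O I - amp T' T A b (a + 2) O I -
        s * (amp T' T A2 (b + 2) a O I - amp T' T A (b + 2) a O I) =
      O ⬝ᵥ ((T' ^ b * ((T' ^ 2 * A - A * T ^ 2) - s • (T' ^ 2 * (A2 - A))) * T ^ a) *ᵥ I) := by
  simp only [amp]
  rw [← dotProduct_sub, ← Matrix.sub_mulVec, ← dotProduct_sub, ← Matrix.sub_mulVec,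
    ← smul_eq_mul, ← dotProduct_smul, ← Matrix.smul_mulVec, ← dotProduct_sub, ← Matrix.sub_mulVec]
  congr 2
  simp only [pow_add, Matrix.mul_sub, Matrix.sub_mul, Matrix.mul_smul, Matrix.smul_mul, smul_sub,
    Matrix.mul_assoc]
  have e : T ^ a * (T ^ 2) = T ^ 2 * T ^ a := by rw [← pow_add, ← pow_add, add_comm]
  rw [e]

theorem amp_step_le {T' : Matrix m m ℂ} {T : Matrix n n ℂ} {A A2 : Matrix m n ℂ} {s : ℂ} {b a : ℕ}
    {E : ℝ} (hE : ‖T' ^ b * ((T' ^ 2 * A - A * T ^ 2) - s • (T' ^ 2 * (A2 - A))) * T ^ a‖ ≤ E)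
    (O : m → ℂ) (I : n → ℂ) :
    ‖(amp T' T A b (a + 2) O I - amp T' T A (b + 2) a O I) +
        s * (amp T' T A2 (b + 2) a O I - amp T' T A (b + 2) a O I)‖ ≤ E * (nrm I * nrm O) := by
  have h1 := amp_step T' T A A2 s b a O I
  have h2 : (amp T' T A b (a + 2) O I - amp T' T A (b + 2) a O I) +
        s * (amp T' T A2 (b + 2) a O I - amp T' T A (b + 2) a O I) =
      -(O ⬝ᵥ ((T' ^ b * ((T' ^ 2 * A - A * T ^ 2) - s • (T' ^ 2 * (A2 - A))) * T ^ a) *ᵥ I)) := by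
    rw [← h1]; ring
  rw [h2, norm_neg]
  refine (dot_le _ _).trans ?_
  have h3 := mulVec_le
    (T' ^ b * ((T' ^ 2 * A - A * T ^ 2) - s • (T' ^ 2 * (A2 - A))) * T ^ a) I
  calc _ ≤ nrm O * (E * nrm I) :=
        mul_le_mul_of_nonneg_left (h3.trans (mul_le_mul_of_nonneg_right hE (nrm_nonneg I)))
          (nrm_nonneg O)
    _ = _ := by ring

end amp

/-! ## contour sums -/

/-- double-step contour sum of the box with lower left corner `(x, y)`, `P` double steps to the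
right, `Q` double steps up -/
def cs (s : ℂ) (H : ℤ → ℤ → ℂ) (x y : ℤ) (P Q : ℕ) : ℂ :=
  (∑ p ∈ range P, (H (x + 2 * p) (y + 2 * Q) - H (x + 2 * p) y)) +
    s * ∑ q ∈ range Q, (H (x + 2 * P) (y + 2 * q) - H x (y + 2 * q))

/-- box with one row of steps -/
lemma cs_eq_sum (s : ℂ) (H : ℤ → ℤ → ℂ) (x y : ℤ) (P Q : ℕ) :
    cs s H x y P Q = ∑ p ∈ range P, ∑ q ∈ range Q,
      ((H (x + 2 * p) (y + 2 * q + 2) - H (x + 2 * p) (y + 2 * q)) +
        s * (H (x + 2 * p + 2) (y + 2 * q) - H (x + 2 * p) (y + 2 * q))) := by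
  have h1 : ∀ p : ℕ, ∑ q ∈ range Q, (H (x + 2 * p) (y + 2 * q + 2) - H (x + 2 * p) (y + 2 * q)) =
      H (x + 2 * p) (y + 2 * Q) - H (x + 2 * p) y := by
    intro p
    have := Finset.sum_range_sub (fun q : ℕ => H (x + 2 * p) (y + 2 * (q : ℤ))) Q
    simp only [Nat.cast_zero, mul_zero, add_zero] at this
    rw [← this]
    refine Finset.sum_congr rfl fun q _ => ?_
    push_cast
    ring_nf
  have h2 : ∀ q : ℕ, ∑ p ∈ range P, (H (x + 2 * p + 2) (y + 2 * q) - H (x + 2 * p) (y + 2 * q)) =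
      H (x + 2 * P) (y + 2 * q) - H x (y + 2 * q) := by
    intro q
    have := Finset.sum_range_sub (fun p : ℕ => H (x + 2 * (p : ℤ)) (y + 2 * q)) P
    simp only [Nat.cast_zero, mul_zero, add_zero] at this
    rw [← this]
    refine Finset.sum_congr rfl fun p _ => ?_
    push_cast
    ring_nf
  simp only [Finset.sum_add_distrib, ← Finset.mul_sum]
  rw [Finset.sum_comm (s := range P) (t := range Q)
    (f := fun p q => (H (x + 2 * (p : ℤ) + 2) (y + 2 * (q : ℤ)) - H (x + 2 * p) (y + 2 * q)))]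
  simp only [h1, h2, cs]

theorem cs_le_of_step {s : ℂ} {H : ℤ → ℤ → ℂ} {x y : ℤ} {P Q : ℕ} {e : ℝ}
    (h : ∀ p < P, ∀ q < Q,
      ‖(H (x + 2 * p) (y + 2 * q + 2) - H (x + 2 * p) (y + 2 * q)) +
        s * (H (x + 2 * p + 2) (y + 2 * q) - H (x + 2 * p) (y + 2 * q))‖ ≤ e) :
    ‖cs s H x y P Q‖ ≤ P * Q * e := by
  rw [cs_eq_sum]
  refine (norm_sum_le _ _).trans ?_
  have h1 : ∀ p ∈ range P, ‖∑ q ∈ range Q,
      ((H (x + 2 * p) (y + 2 * q + 2) - H (x + 2 * p) (y + 2 * q)) +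
        s * (H (x + 2 * p + 2) (y + 2 * q) - H (x + 2 * p) (y + 2 * q)))‖ ≤ Q * e := by
    intro p hp
    refine (norm_sum_le _ _).trans ?_
    refine (Finset.sum_le_sum fun q hq => h p (mem_range.1 hp) q (mem_range.1 hq)).trans ?_
    simp
  refine (Finset.sum_le_sum h1).trans ?_
  simp [mul_assoc]

theorem cs_split (s : ℂ) (H : ℤ → ℤ → ℂ) (x y : ℤ) (P Q1 Q2 : ℕ) :
    cs s H x y P (Q1 + Q2) = cs s H x y P Q1 + cs s H x (y + 2 * Q1) P Q2 := by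
  simp only [cs]
  rw [Finset.sum_range_add]
  have h1 : ∑ p ∈ range P, (H (x + 2 * p) (y + 2 * ((Q1 + Q2 : ℕ) : ℤ)) - H (x + 2 * p) y) =
      ∑ p ∈ range P, (H (x + 2 * p) (y + 2 * Q1) - H (x + 2 * p) y) +
      ∑ p ∈ range P, (H (x + 2 * p) (y + 2 * Q1 + 2 * Q2) - H (x + 2 * p) (y + 2 * Q1)) := by
    rw [← Finset.sum_add_distrib]
    refine Finset.sum_congr rfl fun p _ => ?_
    push_cast
    ring_nf
  have h2 : ∑ q ∈ range Q2, (H (x + 2 * P) (y + 2 * ((Q1 + q : ℕ) : ℤ)) -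
        H x (y + 2 * ((Q1 + q : ℕ) : ℤ))) =
      ∑ q ∈ range Q2, (H (x + 2 * P) (y + 2 * Q1 + 2 * q) - H x (y + 2 * Q1 + 2 * q)) := by
    refine Finset.sum_congr rfl fun q _ => ?_
    push_cast
    ring_nf
  rw [h1, h2]
  ring

lemma cs_sub (s : ℂ) (H G : ℤ → ℤ → ℂ) (x y : ℤ) (P Q : ℕ) :
    cs s H x y P Q - cs s G x y P Q = cs s (fun a b => H a b - G a b) x y P Q := by
  simp only [cs, Finset.sum_sub_distrib]
  ring

/-- the contour sum only sees the boundary -/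
theorem cs_bound {s : ℂ} {H : ℤ → ℤ → ℂ} {x y : ℤ} {P Q : ℕ} {e : ℝ} (he : 0 ≤ e) (hs : ‖s‖ ≤ 1)
    (hb : ∀ p < P, ‖H (x + 2 * p) y‖ ≤ e) (ht : ∀ p < P, ‖H (x + 2 * p) (y + 2 * Q)‖ ≤ e)
    (hl : ∀ q < Q, ‖H x (y + 2 * q)‖ ≤ e) (hr : ∀ q < Q, ‖H (x + 2 * P) (y + 2 * q)‖ ≤ e) :
    ‖cs s H x y P Q‖ ≤ 2 * (P + Q) * e := by
  have h1 : ‖∑ p ∈ range P, (H (x + 2 * p) (y + 2 * Q) - H (x + 2 * p) y)‖ ≤ P * (2 * e) := by
    refine (norm_sum_le _ _).trans ?_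
    refine (Finset.sum_le_sum (g := fun _ => 2 * e) fun p hp => ?_).trans (by simp)
    refine (norm_sub_le _ _).trans ?_
    linarith [hb p (mem_range.1 hp), ht p (mem_range.1 hp)]
  have h2 : ‖∑ q ∈ range Q, (H (x + 2 * P) (y + 2 * q) - H x (y + 2 * q))‖ ≤ Q * (2 * e) := by
    refine (norm_sum_le _ _).trans ?_
    refine (Finset.sum_le_sum (g := fun _ => 2 * e) fun q hq => ?_).trans (by simp)
    refine (norm_sub_le _ _).trans ?_
    linarith [hl q (mem_range.1 hq), hr q (mem_range.1 hq)]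
  rw [cs]
  refine (norm_add_le _ _).trans ?_
  rw [norm_mul]
  have h3 : ‖s‖ * ‖∑ q ∈ range Q, (H (x + 2 * P) (y + 2 * q) - H x (y + 2 * q))‖ ≤
      1 * (Q * (2 * e)) := mul_le_mul hs h2 (norm_nonneg _) zero_le_one
  linarith

theorem cs_sub_le {s : ℂ} {H G : ℤ → ℤ → ℂ} {x y : ℤ} {P Q : ℕ} {e : ℝ} (he : 0 ≤ e)
    (hs : ‖s‖ ≤ 1)
    (h : ∀ p ≤ P, ∀ q ≤ Q,
      ‖H (x + 2 * p) (y + 2 * q) - G (x + 2 * p) (y + 2 * q)‖ ≤ e) :
    ‖cs s H x y P Q‖ ≤ ‖cs s G x y P Q‖ + 2 * (P + Q) * e := by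
  have h1 : ‖cs s H x y P Q - cs s G x y P Q‖ ≤ 2 * (P + Q) * e := by
    rw [cs_sub]
    refine cs_bound he hs (fun p hp => ?_) (fun p hp => ?_) (fun q hq => ?_) fun q hq => ?_
    · simpa using h p hp.le 0 (Nat.zero_le _)
    · exact h p hp.le Q le_rfl
    · simpa using h 0 (Nat.zero_le _) q hq.le
    · exact h P le_rfl q hq.le
  calc ‖cs s H x y P Q‖ = ‖cs s G x y P Q + (cs s H x y P Q - cs s G x y P Q)‖ := by congr 1; ring
    _ ≤ _ := (norm_add_le _ _).trans (by linarith)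

/-- **slices**: `H` compared on each horizontal slice with its own function `G i` -/
theorem cs_slices {s : ℂ} {H : ℤ → ℤ → ℂ} {x : ℤ} {P : ℕ} (hs : ‖s‖ ≤ 1) (G : ℕ → ℤ → ℤ → ℂ)
    (y : ℤ) (Q : ℕ → ℕ) (e d : ℕ → ℝ) (he : ∀ i, 0 ≤ e i) (k : ℕ)
    (h : ∀ i < k, ∀ p ≤ P, ∀ q ≤ Q i,
      ‖H (x + 2 * p) (y + 2 * ((∑ l ∈ range i, Q l : ℕ) : ℤ) + 2 * q) -
        G i (x + 2 * p) (y + 2 * ((∑ l ∈ range i, Q l : ℕ) : ℤ) + 2 * q)‖ ≤ e i)
    (hG : ∀ i < k, ‖cs s (G i) x (y + 2 * ((∑ l ∈ range i, Q l : ℕ) : ℤ)) P (Q i)‖ ≤ d i) :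
    ‖cs s H x y P (∑ l ∈ range k, Q l)‖ ≤ ∑ i ∈ range k, (d i + 2 * (P + Q i) * e i) := by
  induction k with
  | zero => simp [cs]
  | succ k ih =>
    rw [Finset.sum_range_succ, cs_split, Finset.sum_range_succ]
    refine (norm_add_le _ _).trans (add_le_add ?_ ?_)
    · exact ih (fun i hi => h i (by omega)) fun i hi => hG i (by omega)
    · refine (cs_sub_le (G := G k) (he k) hs (h k (by omega))).trans ?_
      linarith [hG k (by omega)]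

/-! ## families of amplitudes -/

section fam

variable {m n : Type*} [Fintype m] [DecidableEq m] [Fintype n] [DecidableEq n]
  {ι : Type*} [Fintype ι]

/-- `Σ_μ ⟨Out μ| T'^(L-a) A_j T^a |In μ⟩ / Z` -/
def Fam (T' : Matrix m m ℂ) (T : Matrix n n ℂ) (A : ℕ → Matrix m n ℂ) (L : ℕ) (O : ι → m → ℂ)
    (I : ι → n → ℂ) (Z : ℂ) (j a : ℕ) : ℂ :=
  (∑ μ, amp T' T (A j) (L - a) a (O μ) (I μ)) / Z

theorem fam_step {T' : Matrix m m ℂ} {T : Matrix n n ℂ} {A : ℕ → Matrix m n ℂ} {L : ℕ}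
    {s : ℂ} {j a : ℕ} {E K : ℝ} (hE0 : 0 ≤ E) (ha : a + 2 ≤ L)
    (hE : ‖T' ^ (L - (a + 2)) * ((T' ^ 2 * A j - A j * T ^ 2) - s • (T' ^ 2 * (A (j + 2) - A j))) *
      T ^ a‖ ≤ E) (O : ι → m → ℂ) (I : ι → n → ℂ) {Z : ℂ} (hZ : Z ≠ 0)
    (hK : ∑ μ, nrm (I μ) * nrm (O μ) ≤ K * ‖Z‖) :
    ‖(Fam T' T A L O I Z j (a + 2) - Fam T' T A L O I Z j a) +
        s * (Fam T' T A L O I Z (j + 2) a - Fam T' T A L O I Z j a)‖ ≤ E * K := by
  have hZ' : 0 < ‖Z‖ := norm_pos_iff.2 hZ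
  have e1 : L - a = L - (a + 2) + 2 := by omega
  have h1 : (Fam T' T A L O I Z j (a + 2) - Fam T' T A L O I Z j a) +
        s * (Fam T' T A L O I Z (j + 2) a - Fam T' T A L O I Z j a) =
      (∑ μ, ((amp T' T (A j) (L - (a + 2)) (a + 2) (O μ) (I μ) -
        amp T' T (A j) (L - (a + 2) + 2) a (O μ) (I μ)) +
        s * (amp T' T (A (j + 2)) (L - (a + 2) + 2) a (O μ) (I μ) -
          amp T' T (A j) (L - (a + 2) + 2) a (O μ) (I μ)))) / Z := by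
    simp only [Fam, e1, Finset.sum_add_distrib, Finset.sum_sub_distrib, ← Finset.mul_sum]
    ring
  rw [h1, norm_div, div_le_iff₀ hZ']
  refine (norm_sum_le _ _).trans ?_
  refine (Finset.sum_le_sum fun μ _ => amp_step_le hE (O μ) (I μ)).trans ?_
  rw [← Finset.mul_sum]
  calc E * ∑ μ, nrm (I μ) * nrm (O μ) ≤ E * (K * ‖Z‖) := mul_le_mul_of_nonneg_left hK hE0
    _ = _ := by ring

/-- contour sums of a family of amplitudes; `j₀`, `a₀` = lower left corner (`a₀` rows below) -/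
theorem fam_cs {T' : Matrix m m ℂ} {T : Matrix n n ℂ} {A : ℕ → Matrix m n ℂ} {L : ℕ}
    {s : ℂ} {E K : ℝ} (hE0 : 0 ≤ E) (O : ι → m → ℂ) (I : ι → n → ℂ) {Z : ℂ} (hZ : Z ≠ 0)
    (hK : ∑ μ, nrm (I μ) * nrm (O μ) ≤ K * ‖Z‖) (j₀ a₀ P Q : ℕ) (hL : a₀ + 2 * Q ≤ L)
    (hE : ∀ j a, j₀ ≤ j → j < j₀ + 2 * P → a₀ ≤ a → a + 2 ≤ a₀ + 2 * Q →
      ‖T' ^ (L - (a + 2)) * ((T' ^ 2 * A j - A j * T ^ 2) - s • (T' ^ 2 * (A (j + 2) - A j))) *
        T ^ a‖ ≤ E) (x y : ℤ) :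
    ‖cs s (fun u v => Fam T' T A L O I Z (j₀ + (u - x).toNat) (a₀ + (v - y).toNat)) x y P Q‖ ≤
      P * Q * (E * K) := by
  refine cs_le_of_step fun p hp q hq => ?_
  have e1 : (x + 2 * (p : ℤ) - x).toNat = 2 * p := by omega
  have e2 : (y + 2 * (q : ℤ) - y).toNat = 2 * q := by omega
  have e3 : (y + 2 * (q : ℤ) + 2 - y).toNat = 2 * q + 2 := by omega
  have e4 : (x + 2 * (p : ℤ) + 2 - x).toNat = 2 * p + 2 := by omega
  simp only [e1, e2, e3, e4]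
  have := fam_step (T' := T') (T := T) (A := A) (L := L) (s := s) (j := j₀ + 2 * p)
    (a := a₀ + 2 * q) (E := E) (K := K) hE0 (by omega)
    (hE _ _ (by omega) (by omega) (by omega) (by omega)) O I hZ hK
  simpa only [add_assoc] using this

end fam

end Crest.Agent.R158.Cs410
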