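import Crest.Agent.R158.Nm6_211

/-!
# Row 158, Block N (helper211): charts, macroscopic strands, ring loops

* `Far n c c'` : sup-distance at least `n`; `Mac f D X n` : the states `c ∈ X` whose strand stays in
  `D` until it is at distance `≥ n` from `c`
* `chart_moment` : finitely many charts `emb b : ℤ × ℤ → τ` of an arbitrary set of tiles `τ`
* `mac_moment` : the same with `Mac`
* `loop_moment` : strands that cross half of the ring horizontally (upper bound for the number of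
  non contractible loops, `wrap_hit`)
-/

set_option autoImplicit false

noncomputable section

namespace Crest.Agent.R158.Nm211

open MeasureTheory ProbabilityTheory unitInterval
open Crest.Agent.R158.Rs689

universe u

/-- sup-distance at least `n` -/
def Far (n : ℕ) (c c' : St ℤ) : Prop :=
  (n : ℤ) ≤ |c'.1.1 - c.1.1| ∨ (n : ℤ) ≤ |c'.1.2 - c.1.2|

/-- splittings read in a chart -/
def rd {τ : Type u} (emb : ℤ × ℤ → τ) (F : ℤ × ℤ → Bool) (s : τ → Bool) (v : ℤ × ℤ) : Bool :=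
  xor (F v) (s (emb v))

/-- **exponential moments in charts** -/
theorem chart_moment (a : ℝ) (ha : 1 ≤ a) (J k : ℕ) : ∃ C : ℝ, 1 ≤ C ∧ ∀ n : ℕ, 1 ≤ n →
    ∀ (τ : Type u) (emb : Fin J → ℤ × ℤ → τ) (F : Fin J → ℤ × ℤ → Bool) (x : Fin J → ℤ × ℤ)
      (D Y : Fin J → Set (St ℤ)) (X : Fin J → Finset (St ℤ)) (T : Fin J → Finset (ℤ × ℤ)),
      (∀ b, Set.InjOn (emb b) (T b)) →
      (∀ b, ∀ c ∈ D b, c.1 ∈ T b) →
      (∀ b, ∀ c ∈ D b, ∀ s : ℤ × ℤ → Bool, nx6 s c ∉ X b) →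
      (∀ b, ∀ c ∈ X b, |c.1.1 - (x b).1| ≤ (k : ℤ) * n ∧ |c.1.2 - (x b).2| ≤ (k : ℤ) * n) →
      (∀ b, ∀ c ∈ X b, ∀ c' ∈ Y b, Far n c c') →
      ∀ N : (τ → Bool) → ℕ,
      (∀ s, N s ≤ ∑ b, KK (nx6 (rd (emb b) (F b) s)) (D b) (Y b) (X b)) →
      ∫ s, a ^ (N s) ∂(PB fun _ : τ => hf) ≤ C := by
  classical
  have ha0 : 0 ≤ a := zero_le_one.trans ha
  rcases Nat.eq_zero_or_pos J with hJ | hJ
  · subst hJ
    refine ⟨1, le_rfl, fun n _ τ emb F x D Y X T _ _ _ _ _ N hN => ?_⟩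
    have h0 : ∀ s, N s = 0 := fun s => by
      have := hN s
      simpa using this
    simp only [h0, pow_zero, integral_const, probReal_univ, smul_eq_mul, mul_one, le_refl]
  obtain ⟨C, hC1, hC⟩ := plane_moment (a ^ J) (one_le_pow₀ ha) k
  refine ⟨J * ∏ _b : Fin J, C + 1, ?_, ?_⟩
  · have h1 : (0 : ℝ) ≤ J * ∏ _b : Fin J, C := by
      have : (0 : ℝ) ≤ ∏ _b : Fin J, C := Finset.prod_nonneg fun _ _ => by linarith
      positivity
    linarith
  intro n hn τ emb F x D Y X T hinj hDT hent hXn hXY N hN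
  let K : Fin J → (τ → Bool) → ℕ := fun b s => KK (nx6 (rd (emb b) (F b) s)) (D b) (Y b) (X b)
  have hTd : ∀ b, ∀ s s' : τ → Bool, (∀ e ∈ (T b).image (emb b), s e = s' e) →
      K b s = K b s' := by
    intro b s s' hs
    refine plane_dep (hDT b) fun e he => ?_
    simp only [rd, hs _ (Finset.mem_image_of_mem _ he)]
  have hKb : ∀ b : Fin J, ∫ s, (a ^ J) ^ (K b s) ∂(PB fun _ : τ => hf) ≤ C := by
    intro b
    have hdep : DepF (T b) fun s : ℤ × ℤ → Bool => (a ^ J) ^ (KK (nx6 s) (D b) (Y b) (X b)) :=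
      fun s s' hs => by
        show (a ^ J) ^ (KK (nx6 s) (D b) (Y b) (X b)) =
          (a ^ J) ^ (KK (nx6 s') (D b) (Y b) (X b))
        rw [plane_dep (Y := Y b) (X := X b) (hDT b) hs]
    have h1 := integral_transport (g := emb b) (hinj b) (F b) hdep
    have h2 : ∫ s, (a ^ J) ^ (K b s) ∂(PB fun _ : τ => hf) =
        ∫ s, (a ^ J) ^ (KK (nx6 s) (D b) (Y b) (X b)) ∂(PB fun _ : ℤ × ℤ => hf) := h1
    rw [h2]
    exact hC n hn (x b) (D b) (Y b) (X b) (T b) (hDT b) (hent b) (hXn b) (hXY b)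
  have h1 := local_moment (fun _ : τ => hf) (J := J) hJ (fun b : Fin J => b)
    (fun b => (T b).image (emb b)) (fun b b' h h' => absurd h' h) K hTd ha (Q := fun _ => C)
    hKb fun _ => hC1
  have hdep : DepF (Finset.univ.biUnion fun b => (T b).image (emb b))
      fun s : τ → Bool => a ^ (∑ b, K b s) := by
    intro s s' hs
    show a ^ (∑ b, K b s) = a ^ (∑ b, K b s')
    rw [Finset.sum_congr rfl fun b _ => hTd b s s' fun e he =>
      hs e (Finset.mem_biUnion.2 ⟨b, Finset.mem_univ _, he⟩)]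
  have h2 : ∫ s, a ^ (N s) ∂(PB fun _ : τ => hf) ≤ J * ∏ _b : Fin J, C := by
    by_cases hi : Integrable (fun s : τ → Bool => a ^ (N s)) (PB fun _ : τ => hf)
    · exact (integral_mono hi (hdep.integrable _) fun s => pow_le_pow_right₀ ha (hN s)).trans h1
    · rw [integral_undef hi]
      exact mul_nonneg (by positivity) (Finset.prod_nonneg fun _ _ => by linarith)
  linarith

/-- number of states of `X` whose strand stays in `D` until it is far -/
def Mac (f : St ℤ → St ℤ) (D : Set (St ℤ)) (X : Finset (St ℤ)) (n : ℕ) : ℕ := by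
  classical exact (X.filter fun c => ∃ m, (∀ j < m, f^[j] c ∈ D) ∧ Far n c (f^[m] c)).card

theorem kk_le_mac {f : St ℤ → St ℤ} {D Y : Set (St ℤ)} {X : Finset (St ℤ)} {n : ℕ}
    (h : ∀ c ∈ X, ∀ c' ∈ Y, Far n c c') : KK f D Y X ≤ Mac f D X n := by
  classical
  unfold KK Mac
  refine Finset.card_le_card fun c hc => ?_
  rw [Finset.mem_filter] at hc ⊢
  obtain ⟨h1, m, h2, h3⟩ := hc
  exact ⟨h1, m, h2, h c h1 _ h3⟩

theorem Far.tri {n w : ℕ} {c c0 c' : St ℤ} (h : Far n c c') (hw : 2 * w ≤ n + 1)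
    (h1 : |c.1.1 - c0.1.1| < w) (h2 : |c.1.2 - c0.1.2| < w) : Far w c0 c' := by
  have h3 := abs_sub_le c'.1.1 c0.1.1 c.1.1
  have h4 := abs_sub_le c'.1.2 c0.1.2 c.1.2
  rw [abs_sub_comm c0.1.1 c.1.1] at h3
  rw [abs_sub_comm c0.1.2 c.1.2] at h4
  unfold Far at h ⊢
  omega

theorem abs_lt_of_div_eq {s x y q : ℤ} (hs : 0 < s) (hx : x / s = q) (hy : y / s = q) :
    |x - y| < s := by
  have h1 := Int.mul_ediv_add_emod x s
  have h2 := Int.mul_ediv_add_emod y s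
  have h3 := Int.emod_nonneg x hs.ne'
  have h4 := Int.emod_nonneg y hs.ne'
  have h5 := Int.emod_lt_of_pos x hs
  have h6 := Int.emod_lt_of_pos y hs
  rw [hx] at h1
  rw [hy] at h2
  rw [abs_lt]
  constructor <;> linarith

/-- macroscopic strands are counted by finitely many blocks -/
theorem mac_le_blocks {k n : ℕ} (hn : 1 ≤ n) {x : ℤ × ℤ} {D : Set (St ℤ)} {X : Finset (St ℤ)}
    (hX : ∀ c ∈ X, |c.1.1 - x.1| ≤ (k : ℤ) * n ∧ |c.1.2 - x.2| ≤ (k : ℤ) * n) :
    ∃ (x' : Fin (4 * k + 1) × Fin (4 * k + 1) → ℤ × ℤ)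
      (Y' : Fin (4 * k + 1) × Fin (4 * k + 1) → Set (St ℤ))
      (X' : Fin (4 * k + 1) × Fin (4 * k + 1) → Finset (St ℤ)),
      (∀ b, X' b ⊆ X) ∧
      (∀ b, ∀ c ∈ X' b, |c.1.1 - (x' b).1| ≤ ((n + 1) / 2 : ℕ) ∧
        |c.1.2 - (x' b).2| ≤ ((n + 1) / 2 : ℕ)) ∧
      (∀ b, ∀ c ∈ X' b, ∀ c' ∈ Y' b, Far ((n + 1) / 2) c c') ∧
      ∀ f : St ℤ → St ℤ, Mac f D X n ≤ ∑ b, KK f D (Y' b) (X' b) := by
  classical
  set w : ℕ := (n + 1) / 2 with hw
  have hw1 : 1 ≤ w := by omega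
  have hw0 : (0 : ℤ) < w := by exact_mod_cast hw1
  have h2w : 2 * w ≤ n + 1 := Nat.mul_div_le _ _
  have hnw : n ≤ 2 * w := by omega
  set mm : ℤ := (k : ℤ) * n with hmm
  let X' : Fin (4 * k + 1) × Fin (4 * k + 1) → Finset (St ℤ) := fun b =>
    X.filter fun c => (c.1.1 - x.1 + mm) / w = (b.1 : ℤ) ∧ (c.1.2 - x.2 + mm) / w = (b.2 : ℤ)
  let Y' : Fin (4 * k + 1) × Fin (4 * k + 1) → Set (St ℤ) := fun b =>
    {c' | ∀ c ∈ X' b, Far w c c'}
  let x' : Fin (4 * k + 1) × Fin (4 * k + 1) → ℤ × ℤ := fun b =>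
    (x.1 - mm + w * (b.1 : ℤ), x.2 - mm + w * (b.2 : ℤ))
  have hidx : ∀ t : ℤ, 0 ≤ t → t ≤ 2 * mm → ∃ b : Fin (4 * k + 1), t / w = (b : ℤ) := by
    intro t ht0 ht
    have h0 : 0 ≤ t / w := Int.ediv_nonneg ht0 hw0.le
    have h1 : t / w < ((4 * k + 1 : ℕ) : ℤ) := by
      rw [Int.ediv_lt_iff_lt_mul hw0]
      have h3 : (n : ℤ) ≤ 2 * w := by exact_mod_cast hnw
      have h4 : (k : ℤ) * n ≤ k * (2 * w) := mul_le_mul_of_nonneg_left h3 (by positivity)
      push_cast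
      rw [hmm] at ht
      nlinarith
    refine ⟨⟨(t / w).toNat, by omega⟩, ?_⟩
    simp only
    rw [Int.toNat_of_nonneg h0]
  have hcen : ∀ t : ℤ, ∀ b : Fin (4 * k + 1), ∀ y : ℤ, (t - y + mm) / w = (b : ℤ) →
      |t - (y - mm + w * (b : ℤ))| ≤ w := by
    intro t b y h
    have h1 := Int.mul_ediv_add_emod (t - y + mm) w
    have h3 := Int.emod_nonneg (t - y + mm) hw0.ne'
    have h5 := Int.emod_lt_of_pos (t - y + mm) hw0
    rw [h] at h1
    rw [abs_le]
    constructor <;> linarith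
  refine ⟨x', Y', X', fun b => Finset.filter_subset _ _, fun b c hc => ?_,
    fun b c hc c' hc' => hc' c hc, fun f => ?_⟩
  · obtain ⟨_, h1, h2⟩ := Finset.mem_filter.1 hc
    exact ⟨hcen _ _ _ h1, hcen _ _ _ h2⟩
  · have hsub : (X.filter fun c => ∃ m, (∀ j < m, f^[j] c ∈ D) ∧ Far n c (f^[m] c)) ⊆
        Finset.univ.biUnion fun b => (X' b).filter fun c => Hit f D (Y' b) c := by
      intro c hc
      rw [Finset.mem_filter] at hc
      obtain ⟨hcX, m, h1, h2⟩ := hc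
      obtain ⟨h3, h4⟩ := hX c hcX
      rw [abs_le] at h3 h4
      obtain ⟨b1, hb1⟩ := hidx (c.1.1 - x.1 + mm) (by linarith) (by linarith)
      obtain ⟨b2, hb2⟩ := hidx (c.1.2 - x.2 + mm) (by linarith) (by linarith)
      rw [Finset.mem_biUnion]
      refine ⟨(b1, b2), Finset.mem_univ _, ?_⟩
      rw [Finset.mem_filter]
      refine ⟨Finset.mem_filter.2 ⟨hcX, hb1, hb2⟩, m, h1, fun c0 hc0 => ?_⟩
      obtain ⟨_, h5, h6⟩ := Finset.mem_filter.1 hc0
      have e1 := abs_lt_of_div_eq hw0 hb1 h5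
      have e2 := abs_lt_of_div_eq hw0 hb2 h6
      have e3 : c.1.1 - x.1 + mm - (c0.1.1 - x.1 + mm) = c.1.1 - c0.1.1 := by ring
      have e4 : c.1.2 - x.2 + mm - (c0.1.2 - x.2 + mm) = c.1.2 - c0.1.2 := by ring
      rw [e3] at e1
      rw [e4] at e2
      exact h2.tri h2w e1 e2
    have h1 : Mac f D X n = (X.filter fun c => ∃ m, (∀ j < m, f^[j] c ∈ D) ∧
        Far n c (f^[m] c)).card := by unfold Mac; rfl
    rw [h1]
    refine (Finset.card_le_card hsub).trans (Finset.card_biUnion_le.trans ?_)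
    refine Finset.sum_le_sum fun b _ => le_of_eq ?_
    unfold KK; rfl

/-- **macroscopic strands in charts** -/
theorem mac_moment (a : ℝ) (ha : 1 ≤ a) (J k : ℕ) : ∃ C : ℝ, 1 ≤ C ∧ ∀ n : ℕ, 1 ≤ n →
    ∀ (τ : Type u) (emb : Fin J → ℤ × ℤ → τ) (F : Fin J → ℤ × ℤ → Bool) (x : Fin J → ℤ × ℤ)
      (D : Fin J → Set (St ℤ)) (X : Fin J → Finset (St ℤ)) (T : Fin J → Finset (ℤ × ℤ)),
      (∀ b, Set.InjOn (emb b) (T b)) →
      (∀ b, ∀ c ∈ D b, c.1 ∈ T b) →
      (∀ b, ∀ c ∈ D b, ∀ s : ℤ × ℤ → Bool, nx6 s c ∉ X b) →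
      (∀ b, ∀ c ∈ X b, |c.1.1 - (x b).1| ≤ (k : ℤ) * n ∧ |c.1.2 - (x b).2| ≤ (k : ℤ) * n) →
      ∀ N : (τ → Bool) → ℕ,
      (∀ s, N s ≤ ∑ b, Mac (nx6 (rd (emb b) (F b) s)) (D b) (X b) n) →
      ∫ s, a ^ (N s) ∂(PB fun _ : τ => hf) ≤ C := by
  classical
  set L : ℕ := 4 * k + 1 with hL
  let J' : ℕ := J * (L * L)
  obtain ⟨C, hC1, hC⟩ := chart_moment.{u} a ha (J * (L * L)) 1
  refine ⟨C, hC1, fun n hn τ emb F x D X T hinj hDT hent hXn N hN => ?_⟩
  choose x' Y' X' hsub hbox hfar hle using fun b => mac_le_blocks (D := D b) hn (hXn b)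
  let e : Fin (J * (L * L)) ≃ Fin J × (Fin L × Fin L) :=
    finProdFinEquiv.symm.trans (Equiv.prodCongr (Equiv.refl _) finProdFinEquiv.symm)
  refine hC ((n + 1) / 2) (by omega) τ (fun i => emb (e i).1) (fun i => F (e i).1)
    (fun i => x' (e i).1 (e i).2) (fun i => D (e i).1) (fun i => Y' (e i).1 (e i).2)
    (fun i => X' (e i).1 (e i).2) (fun i => T (e i).1) (fun i => hinj _) (fun i => hDT _)
    (fun i c hc s h => hent _ c hc s (hsub _ _ h)) (fun i c hc => ?_)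
    (fun i => hfar _ _) N fun s => ?_
  · have := hbox _ _ c hc
    simpa using this
  · refine (hN s).trans ?_
    rw [Fintype.sum_equiv e (fun i => KK (nx6 (rd (emb (e i).1) (F (e i).1) s)) (D (e i).1)
      (Y' (e i).1 (e i).2) (X' (e i).1 (e i).2)) (fun p => KK (nx6 (rd (emb p.1) (F p.1) s))
      (D p.1) (Y' p.1 p.2) (X' p.1 p.2)) fun i => rfl, Fintype.sum_prod_type]
    exact Finset.sum_le_sum fun b _ => hle b _

/-! ### ring loops -/

/-- opposite direction -/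
def opp (d : Dir) : Dir :=
  match d with
  | 0 => 2
  | 1 => 3
  | 2 => 0
  | 3 => 1

@[simp] theorem opp_opp (d : Dir) : opp (opp d) = d := by fin_cases d <;> rfl

theorem trn_opp (b : Bool) (d : Dir) : trn b (opp (trn b d)) = opp d := by
  cases b <;> fin_cases d <;> rfl

theorem dx_opp (d : Dir) : dx (opp d) = - dx d := by fin_cases d <;> rfl
theorem dy_opp (d : Dir) : dy (opp d) = - dy d := by fin_cases d <;> rfl

/-- the same medial edge in the other direction -/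
def rev {G : Type*} [AddGroupWithOne G] (c : St G) : St G := (mv c.1 (opp c.2), opp c.2)

theorem rev_nx {G : Type*} [AddCommGroupWithOne G] (s : G × ℤ → Bool) (c : St G) :
    nx6 s (rev (nx6 s c)) = rev c := by
  obtain ⟨⟨i, j⟩, d⟩ := c
  have h1 : mv (mv (i, j) (trn (s (i, j)) d)) (opp (trn (s (i, j)) d)) = (i, j) := by
    unfold mv
    simp [dx_opp, dy_opp]
  unfold rev nx6
  simp only [h1, trn_opp]

/-- states that cross from column `0` to column `1` eastwards, rows `j0, …, j0 + H - 1` -/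
def Xl (M : ℕ) (j0 : ℤ) (H : ℕ) : Finset (St (ZMod M)) :=
  (Finset.Ico j0 (j0 + H)).image fun j => (((1 : ZMod M), j), (1 : Dir))

/-- columns `1, …, M / 2` -/
def Dl (M : ℕ) (j0 : ℤ) (H : ℕ) : Set (St (ZMod M)) :=
  {c | (1 ≤ c.1.1.val ∧ c.1.1.val ≤ M / 2) ∧ j0 ≤ c.1.2 ∧ c.1.2 < j0 + H}

/-- column `M / 2 + 1` -/
def Yl (M : ℕ) : Set (St (ZMod M)) := {c | c.1.1.val = M / 2 + 1}

/-- number of strands that cross from column `0` to column `1` and then go to column `M / 2 + 1`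
without returning, inside the rows `j0, …, j0 + H - 1` -/
def LR (M : ℕ) (j0 : ℤ) (H : ℕ) (s : ZMod M × ℤ → Bool) : ℕ :=
  KK (nx6 s) (Dl M j0 H) (Yl M) (Xl M j0 H)

theorem val_cast {M : ℕ} [NeZero M] {i : ℤ} (h0 : 0 ≤ i) (h1 : i < M) :
    (((i : ZMod M)).val : ℤ) = i := by
  rw [ZMod.val_intCast, Int.emod_eq_of_lt h0 h1]

theorem dx_abs (d : Dir) : -1 ≤ dx d ∧ dx d ≤ 1 := by fin_cases d <;> simp [dx]

/-- the lift of a strand that stays in the columns `1, …, M / 2` -/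
theorem lift_cols {M : ℕ} [NeZero M] (hM : 3 ≤ M) {j0 : ℤ} {H : ℕ} (s : ZMod M × ℤ → Bool)
    {c : St ℤ} (hc : 1 ≤ c.1.1 ∧ c.1.1 ≤ M / 2) {m : ℕ}
    (h : ∀ j < m, (nx6 s)^[j] (prj M c) ∈ Dl M j0 H)
    (hY : (nx6 s)^[m] (prj M c) ∈ Yl M ∨ (nx6 s)^[m] (prj M c) ∈ Dl M j0 H) :
    ∀ j ≤ m, 1 ≤ ((nx6 (lft s))^[j] c).1.1 ∧ ((nx6 (lft s))^[j] c).1.1 ≤ M / 2 + 1 ∧
      ((((nx6 s)^[j] (prj M c)).1.1.val : ℕ) : ℤ) = ((nx6 (lft s))^[j] c).1.1 := by
  have hM2 : M / 2 + 1 < M := by omega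
  have hM2' : ((M / 2 : ℕ) : ℤ) + 1 < M := by exact_mod_cast hM2
  have hdiv : ((M / 2 : ℕ) : ℤ) = (M : ℤ) / 2 := by norm_num
  intro j
  induction j with
  | zero =>
    intro _
    refine ⟨hc.1, by simp only [Function.iterate_zero, id_eq]; omega, ?_⟩
    simp only [Function.iterate_zero, id_eq]
    exact val_cast (by omega) (by omega)
  | succ j ih =>
    intro hj
    obtain ⟨h1, h2, h3⟩ := ih (by omega)
    have h4 := (h j (by omega)).1
    have h5 : ((nx6 (lft s))^[j + 1] c).1.1 = ((nx6 (lft s))^[j] c).1.1 +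
        dx (((nx6 (lft s))^[j + 1] c).2) := by
      rw [Function.iterate_succ_apply']
      simp [nx6, mv]
    have h6 := dx_abs (((nx6 (lft s))^[j + 1] c).2)
    have h7 : (nx6 s)^[j + 1] (prj M c) = prj M ((nx6 (lft s))^[j + 1] c) :=
      (prj_iter s c (j + 1)).symm
    have h8 : ((((nx6 s)^[j + 1] (prj M c)).1.1.val : ℕ) : ℤ) =
        ((nx6 (lft s))^[j + 1] c).1.1 := by
      rw [h7]
      refine val_cast ?_ ?_
      · omega
      · omega
    have h9 : 1 ≤ ((nx6 s)^[j + 1] (prj M c)).1.1.val := by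
      rcases Nat.lt_or_ge (j + 1) m with h10 | h10
      · exact (h (j + 1) h10).1.1
      · have : j + 1 = m := by omega
        rw [this]
        rcases hY with hY | hY
        · have hY' : ((nx6 s)^[m] (prj M c)).1.1.val = M / 2 + 1 := hY
          omega
        · exact hY.1.1
    refine ⟨by omega, by omega, h8⟩

/-- **exponential moments of the number of ring loops** -/
theorem loop_moment (a : ℝ) (ha : 1 ≤ a) (k : ℕ) : ∃ C : ℝ, 1 ≤ C ∧ ∀ (M : ℕ) [NeZero M],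
    3 ≤ M → ∀ (j0 : ℤ) (H : ℕ), H ≤ k * M →
      ∫ s, a ^ (LR M j0 H s) ∂(PB fun _ : ZMod M × ℤ => hf) ≤ C := by
  classical
  obtain ⟨C, hC1, hC⟩ := chart_moment a ha 1 (3 * k)
  refine ⟨C, hC1, fun M _ hM j0 H hH => ?_⟩
  have hM2 : M / 2 + 1 < M := by omega
  have hM2' : ((M / 2 : ℕ) : ℤ) + 1 < M := by exact_mod_cast hM2
  let X : Finset (St ℤ) := (Finset.Ico j0 (j0 + H)).image fun j => (((1 : ℤ), j), (1 : Dir))
  let D : Set (St ℤ) := {c | (1 ≤ c.1.1 ∧ c.1.1 ≤ M / 2) ∧ j0 ≤ c.1.2 ∧ c.1.2 < j0 + H}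
  let Y : Set (St ℤ) := {c | c.1.1 = M / 2 + 1}
  let T : Finset (ℤ × ℤ) := (Finset.Icc 1 ((M : ℤ) / 2)) ×ˢ (Finset.Ico j0 (j0 + H))
  refine hC (M / 2) (by omega) (ZMod M × ℤ) (fun _ => prv M) (fun _ _ => false)
    (fun _ => (1, j0)) (fun _ => D) (fun _ => Y) (fun _ => X) (fun _ => T) (fun _ => ?_)
    (fun _ c hc => ?_) (fun _ c hc s hmem => ?_) (fun _ c hc => ?_) (fun _ c hc c' hc' => ?_)
    _ fun s => ?_
  · intro v hv w hw h
    simp only [T, Finset.coe_product, Set.mem_prod, Finset.mem_coe, Finset.mem_Icc] at hv hw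
    simp only [prv, Prod.mk.injEq] at h
    have h1 := (ZMod.intCast_eq_intCast_iff_dvd_sub _ _ _).1 h.1
    have h2 : |w.1 - v.1| < M := by
      rw [abs_lt]
      constructor <;> omega
    have h3 := Int.eq_zero_of_abs_lt_dvd h1 h2
    exact Prod.ext (by omega) h.2
  · simp only [T, Finset.mem_product, Finset.mem_Icc, Finset.mem_Ico]
    exact hc
  · obtain ⟨j, _, hj⟩ := Finset.mem_image.1 hmem
    have h2 : trn (s c.1) c.2 = 1 := (congrArg Prod.snd hj).symm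
    have h3 : (nx6 s c).1.1 = 1 := (congrArg (fun x => x.1.1) hj).symm
    simp only [nx6, mv, h2, dx] at h3
    have h4 := hc.1.1
    simp only [Int.cast_one] at h3
    omega
  · obtain ⟨j, hj, rfl⟩ := Finset.mem_image.1 hc
    rw [Finset.mem_Ico] at hj
    have h1 : (M : ℤ) ≤ 3 * (M / 2 : ℕ) := by
      have : M ≤ 3 * (M / 2) := by omega
      exact_mod_cast this
    have h2 : (H : ℤ) ≤ k * M := by exact_mod_cast hH
    have h3 : (k : ℤ) * M ≤ k * (3 * (M / 2 : ℕ)) := mul_le_mul_of_nonneg_left h1 (by positivity)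
    have h4 : (((3 * k : ℕ) : ℤ)) * ((M / 2 : ℕ) : ℤ) = k * (3 * (M / 2 : ℕ)) := by
      push_cast; ring
    rw [h4]
    constructor
    · simp only [sub_self, abs_zero]
      positivity
    · simp only
      rw [abs_le]
      constructor <;> linarith
  · obtain ⟨j, _, rfl⟩ := Finset.mem_image.1 hc
    have h1 : c'.1.1 = (M : ℤ) / 2 + 1 := hc'
    left
    simp only
    rw [h1, le_abs]
    left
    have : ((M / 2 : ℕ) : ℤ) = (M : ℤ) / 2 := by norm_num
    omega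
  · rw [Fin.sum_univ_one]
    have hsub : ((Xl M j0 H).filter fun x => Hit (nx6 s) (Dl M j0 H) (Yl M) x) ⊆
        (X.filter fun c => Hit (nx6 (rd (prv M) (fun _ => false) s)) D Y c).image (prj M) := by
      intro x hx
      rw [Finset.mem_filter] at hx
      obtain ⟨hx, m, hm, hmY⟩ := hx
      obtain ⟨j, hj, rfl⟩ := Finset.mem_image.1 hx
      have hrd : rd (prv M) (fun _ => false) s = lft s := by
        funext v; simp [rd, lft]
      set c : St ℤ := ((1, j), 1) with hc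
      have hpc : prj M c = ((1, j), 1) := by
        simp [hc, prj, prv]
      rw [← hpc] at hm hmY
      have h1 := lift_cols hM s (c := c) (by
        simp only [hc]
        have : 1 ≤ M / 2 := by omega
        have h2 : (1 : ℤ) ≤ ((M / 2 : ℕ) : ℤ) := by exact_mod_cast this
        have h3 : ((M / 2 : ℕ) : ℤ) = (M : ℤ) / 2 := by norm_num
        omega) hm (Or.inl hmY)
      rw [Finset.mem_image]
      refine ⟨c, Finset.mem_filter.2 ⟨Finset.mem_image.2 ⟨j, hj, rfl⟩, m, fun i hi => ?_, ?_⟩,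
        hpc⟩
      · rw [hrd]
        obtain ⟨h2, h3, h4⟩ := h1 i hi.le
        have h5 := hm i hi
        have h6 := h5.1.2
        have h7 := h5.2
        rw [← prj_iter] at h7
        refine ⟨⟨h2, ?_⟩, h7⟩
        rw [← h4]
        have : ((M / 2 : ℕ) : ℤ) = (M : ℤ) / 2 := by norm_num
        omega
      · rw [hrd]
        obtain ⟨h2, h3, h4⟩ := h1 m le_rfl
        have h5 : ((nx6 s)^[m] (prj M c)).1.1.val = M / 2 + 1 := hmY
        show ((nx6 (lft s))^[m] c).1.1 = (M : ℤ) / 2 + 1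
        rw [← h4, h5]
        push_cast
        ring
    unfold LR KK
    exact (Finset.card_le_card hsub).trans Finset.card_image_le

theorem last_low {f : ℕ → ℤ} {A : ℤ} : ∀ {m : ℕ}, f 0 ≤ A → A < f m →
    ∃ j < m, f j ≤ A ∧ ∀ i, j < i → i ≤ m → A < f i
  | 0, h0, h1 => absurd h0 (not_le.2 h1)
  | m + 1, h0, h1 => by
    by_cases h : A < f m
    · obtain ⟨j, hj, h2, h3⟩ := last_low h0 h
      refine ⟨j, by omega, h2, fun i hi hi' => ?_⟩
      rcases Nat.lt_or_ge i (m + 1) with h4 | h4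
      · exact h3 i hi (by omega)
      · have : i = m + 1 := by omega
        rw [this]; exact h1
    · refine ⟨m, by omega, not_lt.1 h, fun i hi hi' => ?_⟩
      have : i = m + 1 := by omega
      rw [this]; exact h1

theorem first_high {f : ℕ → ℤ} {B : ℤ} {j m : ℕ} (hjm : j < m) (h : B ≤ f m) :
    ∃ m1, j < m1 ∧ m1 ≤ m ∧ B ≤ f m1 ∧ ∀ i, j < i → i < m1 → f i < B := by
  classical
  have hex : ∃ i, j < i ∧ i ≤ m ∧ B ≤ f i := ⟨m, hjm, le_rfl, h⟩
  obtain ⟨h1, h2, h3⟩ := Nat.find_spec hex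
  refine ⟨Nat.find hex, h1, h2, h3, fun i hi hi' => ?_⟩
  by_contra h4
  exact Nat.find_min hex hi' ⟨hi, by omega, not_lt.1 h4⟩

/-- a strand whose lift moves to the right by more than `M + M / 2` meets the set counted by
`LR` -/
theorem wrap_hit {M : ℕ} [NeZero M] (hM : 3 ≤ M) {j0 : ℤ} {H : ℕ} (s : ZMod M × ℤ → Bool)
    (c : St ℤ) {m : ℕ} (hrow : ∀ j ≤ m, j0 ≤ ((nx6 (lft s))^[j] c).1.2 ∧
      ((nx6 (lft s))^[j] c).1.2 < j0 + H) (q : ℤ) (h0 : c.1.1 ≤ q * M)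
    (h1 : q * M + M / 2 + 1 ≤ ((nx6 (lft s))^[m] c).1.1) :
    ∃ j ≤ m, (nx6 s)^[j] (prj M c) ∈ Xl M j0 H ∧
      Hit (nx6 s) (Dl M j0 H) (Yl M) ((nx6 s)^[j] (prj M c)) := by
  have hM2 : M / 2 + 1 < M := by omega
  have hM2' : (M : ℤ) / 2 + 1 < M := by
    have : ((M / 2 + 1 : ℕ) : ℤ) < M := by exact_mod_cast hM2
    push_cast at this
    exact this
  have hM0 : (0 : ℤ) ≤ (M : ℤ) / 2 := by positivity
  let f : ℕ → ℤ := fun j => ((nx6 (lft s))^[j] c).1.1
  have hstep : ∀ j, f (j + 1) = f j + dx ((nx6 (lft s))^[j + 1] c).2 := fun j => by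
    show ((nx6 (lft s))^[j + 1] c).1.1 = _
    rw [Function.iterate_succ_apply']
    simp [nx6, mv, f]
  obtain ⟨j, hjm, hj1, hj2⟩ := last_low (f := f) (A := q * M) (m := m) h0 (by
    show q * M < ((nx6 (lft s))^[m] c).1.1
    omega)
  obtain ⟨m1, hm1, hm1m, hm1h, hm1l⟩ := first_high (f := f) (B := q * M + M / 2 + 1) hjm h1
  -- the crossing
  have hd := dx_abs ((nx6 (lft s))^[j + 1] c).2
  have hcj := hstep j
  have hcj2 := hj2 (j + 1) (by omega) (by omega)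
  have hd1 : dx ((nx6 (lft s))^[j + 1] c).2 = 1 := by omega
  have hcol : f (j + 1) = q * M + 1 := by omega
  have hE : ((nx6 (lft s))^[j + 1] c).2 = 1 := by
    have key : ∀ d : Dir, dx d = 1 → d = 1 := by
      intro d
      fin_cases d <;> simp [dx]
    exact key _ hd1
  have hval : ∀ i, j < i → i ≤ m1 → ((((nx6 s)^[i] (prj M c)).1.1.val : ℕ) : ℤ) =
      f i - q * M := by
    intro i hi hi'
    have h2 := hj2 i hi (by omega)
    have h3 : f i ≤ q * M + M / 2 + 1 := by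
      rcases Nat.lt_or_ge i m1 with h4 | h4
      · exact (hm1l i hi h4).le
      · have h5 : i = m1 := by omega
        subst h5
        obtain ⟨i', rfl⟩ : ∃ i', i = i' + 1 := ⟨i - 1, by omega⟩
        have h6 := hstep i'
        have h7 := dx_abs ((nx6 (lft s))^[i' + 1] c).2
        rcases Nat.lt_or_ge j i' with h8 | h8
        · have h9 := hm1l i' h8 (by omega)
          omega
        · have h9 : i' = j := by omega
          rw [h9] at h6 h7 ⊢
          omega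
    rw [← prj_iter]
    show (((f i : ZMod M).val : ℕ) : ℤ) = f i - q * M
    have h5 : (f i : ZMod M) = ((f i - q * M : ℤ) : ZMod M) := by
      push_cast
      simp
    rw [h5]
    exact val_cast (by omega) (by omega)
  refine ⟨j + 1, by omega, ?_, m1 - (j + 1), fun i hi => ?_, ?_⟩
  · rw [Xl, Finset.mem_image]
    have h2 := hrow (j + 1) (by omega)
    refine ⟨((nx6 (lft s))^[j + 1] c).1.2, Finset.mem_Ico.2 h2, ?_⟩
    rw [← prj_iter]
    have h3 : (((nx6 (lft s))^[j + 1] c).1.1 : ZMod M) = 1 := by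
      have : ((nx6 (lft s))^[j + 1] c).1.1 = q * M + 1 := hcol
      rw [this]
      push_cast
      simp
    show _ = (((((nx6 (lft s))^[j + 1] c).1.1 : ZMod M), ((nx6 (lft s))^[j + 1] c).1.2),
      ((nx6 (lft s))^[j + 1] c).2)
    rw [h3, hE]
  · rw [← Function.iterate_add_apply]
    have h2 : i + (j + 1) < m1 := by omega
    have h3 := hval (i + (j + 1)) (by omega) h2.le
    have h4 := hj2 (i + (j + 1)) (by omega) (by omega)
    have h5 := hm1l (i + (j + 1)) (by omega) h2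
    have h6 := hrow (i + (j + 1)) (by omega)
    have h7 : ((nx6 s)^[i + (j + 1)] (prj M c)).1.2 =
        ((nx6 (lft s))^[i + (j + 1)] c).1.2 := by
      rw [← prj_iter]; rfl
    refine ⟨⟨by omega, ?_⟩, ?_⟩
    · have : ((M / 2 : ℕ) : ℤ) = (M : ℤ) / 2 := by norm_num
      omega
    · rw [h7]; exact h6
  · rw [← Function.iterate_add_apply]
    have h2 : m1 - (j + 1) + (j + 1) = m1 := by omega
    rw [h2]
    have h3 := hval m1 hm1 le_rfl
    have h4 : f m1 = q * M + M / 2 + 1 := by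
      have h5 := hj2 m1 hm1 hm1m
      obtain ⟨i', rfl⟩ : ∃ i', m1 = i' + 1 := ⟨m1 - 1, by omega⟩
      have h6 := hstep i'
      have h7 := dx_abs ((nx6 (lft s))^[i' + 1] c).2
      rcases Nat.lt_or_ge j i' with h8 | h8
      · have h9 := hm1l i' h8 (by omega)
        omega
      · have h9 : i' = j := by omega
        rw [h9] at h6 h7 hm1h ⊢
        omega
    show ((nx6 s)^[m1] (prj M c)).1.1.val = M / 2 + 1
    have : ((M / 2 : ℕ) : ℤ) = (M : ℤ) / 2 := by norm_num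
    omega

/-- pairwise disjoint orbits that all go around the ring to the right are at most `LR` many -/
theorem loops_le_LR {M : ℕ} [NeZero M] (hM : 3 ≤ M) {j0 : ℤ} {H : ℕ} (s : ZMod M × ℤ → Bool)
    {Λ : Type*} [Fintype Λ] (c : Λ → St ℤ) (m : Λ → ℕ) (q : Λ → ℤ)
    (hrow : ∀ l, ∀ j ≤ m l, j0 ≤ ((nx6 (lft s))^[j] (c l)).1.2 ∧
      ((nx6 (lft s))^[j] (c l)).1.2 < j0 + H) (h0 : ∀ l, (c l).1.1 ≤ q l * M)
    (h1 : ∀ l, q l * M + M / 2 + 1 ≤ ((nx6 (lft s))^[m l] (c l)).1.1)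
    (hdis : ∀ l l', l ≠ l' → ∀ i j, (nx6 s)^[i] (prj M (c l)) ≠ (nx6 s)^[j] (prj M (c l'))) :
    Fintype.card Λ ≤ LR M j0 H s := by
  classical
  choose g hg1 hg2 hg3 using fun l => wrap_hit hM s (c l) (hrow l) (q l) (h0 l) (h1 l)
  have hinj : Function.Injective fun l => (nx6 s)^[g l] (prj M (c l)) := by
    intro l l' h
    by_contra hne
    exact hdis l l' hne _ _ h
  unfold LR KK
  rw [← Finset.card_univ, ← Finset.card_image_of_injective _ hinj]
  refine Finset.card_le_card fun x hx => ?_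
  obtain ⟨l, _, rfl⟩ := Finset.mem_image.1 hx
  exact Finset.mem_filter.2 ⟨hg2 l, hg3 l⟩

end Crest.Agent.R158.Nm211
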