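import Crest.Agent.R158.Ad1_350

/-!
# Row 158: glueing many pairs at once (helper857)

* `ovr x τ σ` : overwrite the arrows at the ports `x i`
* `glueL_pairs` : glueing `m` disjoint pairs = one sum ovr `Fin m → Bool`
* `Sees F A` : `F` depends only on the ports in `A`; `glueL_mul_right`, `glueL_mul_left`
* `glue_stack` : glueing two networks
* `glueL_perm` : the order does not matter
-/

set_option autoImplicit false

noncomputable section

open Finset

namespace Crest.Agent.R158.Ao857

open Crest.Agent.R158.Ad350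
open Crest.Agent.R158.Ad350.St (glueL glueL_nil glueL_cons glueL_smul)

variable {P : Type*} [DecidableEq P]

/-- overwrite the arrows at the ports `x i` -/
def ovr {m : ℕ} (x : Fin m → P) (τ : Fin m → Bool) (σ : P → Bool) : P → Bool := fun q =>
  if h : ∃ i, x i = q then τ h.choose else σ q

lemma ovr_self {m : ℕ} {x : Fin m → P} (hx : Function.Injective x) (τ : Fin m → Bool)
    (σ : P → Bool) (i : Fin m) : ovr x τ σ (x i) = τ i := by
  have h : ∃ j, x j = x i := ⟨i, rfl⟩
  rw [ovr, dif_pos h]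
  exact congrArg τ (hx h.choose_spec)

lemma ovr_ne {m : ℕ} {x : Fin m → P} (τ : Fin m → Bool) (σ : P → Bool) {q : P}
    (h : ∀ i, x i ≠ q) : ovr x τ σ q = σ q := by
  rw [ovr, dif_neg]
  rintro ⟨i, hi⟩
  exact h i hi

lemma glueL_append (l l' : List (ℝ × P × P)) (F : (P → Bool) → ℂ) :
    glueL (l ++ l') F = glueL l' (glueL l F) := by
  unfold glueL
  rw [List.foldl_append]

/-- glueing `m` disjoint pairs = one sum -/
theorem glueL_pairs : ∀ {m : ℕ} (χ : Fin m → ℝ) (x y : Fin m → P), Function.Injective x →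
    Function.Injective y → (∀ i j, x i ≠ y j) → ∀ (F : (P → Bool) → ℂ) (σ : P → Bool),
    glueL (List.ofFn fun i => (χ i, x i, y i)) F σ =
      ∑ τ : Fin m → Bool, (∏ i, ei (χ i * sg (τ i))) *
        F (ovr x τ (ovr y (fun i => !τ i) σ)) := by
  intro m
  induction m with
  | zero =>
    intro χ x y _ _ _ F σ
    rw [List.ofFn_zero, glueL_nil]
    simp only [univ_unique, prod_of_isEmpty, one_mul, sum_singleton]
    rfl
  | succ m ih =>
    intro χ x y hx hy hxy F σ
    have hx' : Function.Injective fun i : Fin m => x i.succ := fun i j h =>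
      Fin.succ_injective _ (hx h)
    have hy' : Function.Injective fun i : Fin m => y i.succ := fun i j h =>
      Fin.succ_injective _ (hy h)
    rw [List.ofFn_succ, glueL_cons, ih (fun i => χ i.succ) (fun i => x i.succ)
      (fun i => y i.succ) hx' hy' (fun i j => hxy _ _), ← (Fin.consEquiv
      fun _ : Fin (m + 1) => Bool).sum_comp, Fintype.sum_prod_type, Finset.sum_comm]
    refine Finset.sum_congr rfl fun τ _ => ?_
    simp only [ctr, Finset.mul_sum, Fin.consEquiv_apply]
    refine Finset.sum_congr rfl fun τ0 _ => ?_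
    rw [Fin.prod_univ_succ]
    simp only [Fin.cons_zero, Fin.cons_succ]
    have e : Function.update (Function.update (ovr (fun i => x i.succ) τ
        (ovr (fun i => y i.succ) (fun i => !τ i) σ)) (x 0) τ0) (y 0) (!τ0) =
        ovr x (Fin.cons τ0 τ : Fin (m + 1) → Bool)
          (ovr y (fun i => !(Fin.cons τ0 τ : Fin (m + 1) → Bool) i) σ) := by
      funext q
      by_cases h1 : q = y 0
      · subst h1
        rw [Function.update_self, ovr_ne _ _ (fun i => hxy i 0), ovr_self hy]
        rfl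
      · rw [Function.update_of_ne h1]
        by_cases h2 : q = x 0
        · subst h2
          rw [Function.update_self, ovr_self hx]
          rfl
        · rw [Function.update_of_ne h2]
          by_cases h3 : ∃ i : Fin m, x i.succ = q
          · obtain ⟨i, rfl⟩ := h3
            rw [ovr_self hx, ovr_self (x := fun i : Fin m => x i.succ) hx' τ _ i]
            rfl
          · rw [not_exists] at h3
            rw [ovr_ne (x := fun i : Fin m => x i.succ) _ _ h3, ovr_ne (x := x) _ _ (fun i => by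
              refine Fin.cases (fun h => h2 h.symm) (fun i => h3 i) i)]
            by_cases h4 : ∃ i : Fin m, y i.succ = q
            · obtain ⟨i, rfl⟩ := h4
              rw [ovr_self hy, ovr_self (x := fun i : Fin m => y i.succ) hy' _ _ i]
              rfl
            · rw [not_exists] at h4
              rw [ovr_ne (x := fun i : Fin m => y i.succ) _ _ h4, ovr_ne (x := y) _ _
                (fun i => by refine Fin.cases (fun h => h1 h.symm) (fun i => h4 i) i)]
    rw [e]
    change _ = _ * F (ovr x (Fin.cons τ0 τ : Fin (m + 1) → Bool)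
          (ovr y (fun i => !(Fin.cons τ0 τ : Fin (m + 1) → Bool) i) σ))
    ring

/-! ### locality -/

/-- `F` depends only on the ports in `A` -/
def Sees (F : (P → Bool) → ℂ) (A : Set P) : Prop :=
  ∀ σ σ' : P → Bool, (∀ q ∈ A, σ q = σ' q) → F σ = F σ'

omit [DecidableEq P] in
lemma Sees.mono {F : (P → Bool) → ℂ} {A B : Set P} (h : Sees F A) (hAB : A ⊆ B) : Sees F B :=
  fun σ σ' h' => h σ σ' fun q hq => h' q (hAB hq)

omit [DecidableEq P] in
lemma Sees.mul {F G : (P → Bool) → ℂ} {A : Set P} (hF : Sees F A) (hG : Sees G A) :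
    Sees (fun σ => F σ * G σ) A := fun σ σ' h => by
  show F σ * G σ = F σ' * G σ'
  rw [hF σ σ' h, hG σ σ' h]

lemma Sees.update {F : (P → Bool) → ℂ} {A : Set P} (h : Sees F A) {a : P} (ha : a ∉ A)
    (σ : P → Bool) (v : Bool) : F (Function.update σ a v) = F σ :=
  h _ _ fun q hq => Function.update_of_ne (fun e : q = a => ha (by rwa [← e])) _ _

lemma ctr_mul_right {F G : (P → Bool) → ℂ} {A : Set P} (hG : Sees G A) (χ : ℝ) {a b : P}
    (ha : a ∉ A) (hb : b ∉ A) :
    ctr χ a b (fun σ => F σ * G σ) = fun σ => ctr χ a b F σ * G σ := by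
  funext σ
  simp only [ctr, Finset.sum_mul]
  refine Finset.sum_congr rfl fun τ _ => ?_
  rw [hG.update hb, hG.update ha]
  ring

lemma glueL_mul_right {G : (P → Bool) → ℂ} {A : Set P} (hG : Sees G A) :
    ∀ (l : List (ℝ × P × P)), (∀ e ∈ l, e.2.1 ∉ A ∧ e.2.2 ∉ A) → ∀ F : (P → Bool) → ℂ,
    glueL l (fun σ => F σ * G σ) = fun σ => glueL l F σ * G σ := by
  intro l
  induction l with
  | nil => intro _ F; rfl
  | cons e l ih =>
    intro h F
    have h1 := h e List.mem_cons_self
    rw [glueL_cons, ctr_mul_right hG e.1 h1.1 h1.2,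
      ih (fun e' he' => h e' (List.mem_cons_of_mem _ he')), glueL_cons]

lemma glueL_mul_left {F G : (P → Bool) → ℂ} {A : Set P} (hG : Sees G A)
    (l : List (ℝ × P × P)) (h : ∀ e ∈ l, e.2.1 ∉ A ∧ e.2.2 ∉ A) :
    glueL l (fun σ => G σ * F σ) = fun σ => G σ * glueL l F σ := by
  have e : (fun σ => G σ * F σ) = fun σ => F σ * G σ := by funext σ; ring
  rw [e, glueL_mul_right hG l h F]
  funext σ
  ring

lemma Sees.ovr {F : (P → Bool) → ℂ} {A : Set P} (h : Sees F A) {m : ℕ} {x : Fin m → P}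
    (hx : ∀ i, x i ∉ A) (τ : Fin m → Bool) (σ : P → Bool) : F (ovr x τ σ) = F σ :=
  h _ _ fun q hq => ovr_ne _ _ fun i e => hx i (by rwa [e])

lemma ovr_comm {m : ℕ} {x y : Fin m → P} (hxy : ∀ i j, x i ≠ y j) (τ τ' : Fin m → Bool)
    (σ : P → Bool) : ovr x τ (ovr y τ' σ) = ovr y τ' (ovr x τ σ) := by
  funext q
  by_cases h : ∃ i, x i = q
  · obtain ⟨i, rfl⟩ := h
    rw [ovr_ne (x := y) _ _ (fun j e => hxy i j e.symm)]
    unfold Ao857.ovr
    rw [dif_pos ⟨i, rfl⟩, dif_pos ⟨i, rfl⟩]
  · have h1 : ∀ i, x i ≠ q := fun i e => h ⟨i, e⟩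
    rw [ovr_ne _ _ h1]
    by_cases h' : ∃ i, y i = q
    · unfold Ao857.ovr
      rw [dif_pos h', dif_pos h']
    · have h2 : ∀ i, y i ≠ q := fun i e => h' ⟨i, e⟩
      rw [ovr_ne _ _ h2, ovr_ne _ _ h2, ovr_ne _ _ h1]

/-- glueing two networks -/
theorem glue_stack {m : ℕ} (χ : Fin m → ℝ) {x y : Fin m → P} (hx : Function.Injective x)
    (hy : Function.Injective y) (hxy : ∀ i j, x i ≠ y j) {F G : (P → Bool) → ℂ} {A B : Set P}
    (hF : Sees F A) (hG : Sees G B) (hyA : ∀ i, y i ∉ A) (hxB : ∀ i, x i ∉ B) (σ : P → Bool) :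
    glueL (List.ofFn fun i => (χ i, x i, y i)) (fun σ => F σ * G σ) σ =
      ∑ τ : Fin m → Bool, (∏ i, ei (χ i * sg (τ i))) *
        (F (ovr x τ σ) * G (ovr y (fun i => !τ i) σ)) := by
  rw [glueL_pairs χ x y hx hy hxy]
  refine Finset.sum_congr rfl fun τ _ => ?_
  have e1 : F (ovr x τ (ovr y (fun i => !τ i) σ)) = F (ovr x τ σ) := by
    rw [ovr_comm hxy]
    exact hF.ovr hyA _ _
  have e2 : G (ovr x τ (ovr y (fun i => !τ i) σ)) = G (ovr y (fun i => !τ i) σ) :=
    hG.ovr hxB _ _
  show _ * (F _ * G _) = _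
  rw [e1, e2]

/-! ### order of the glueings -/

/-- pairs of ports, pairwise disjoint -/
def Dis (l : List (ℝ × P × P)) : Prop :=
  l.Pairwise fun e e' => e.2.1 ≠ e'.2.1 ∧ e.2.1 ≠ e'.2.2 ∧ e.2.2 ≠ e'.2.1 ∧ e.2.2 ≠ e'.2.2

theorem glueL_perm {l l' : List (ℝ × P × P)} (h : l.Perm l') (hd : Dis l) :
    ∀ F : (P → Bool) → ℂ, glueL l F = glueL l' F := by
  induction h with
  | nil => intro F; rfl
  | cons e h ih =>
    intro F
    rw [glueL_cons, glueL_cons]
    exact ih (List.pairwise_cons.1 hd).2 _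
  | swap e e' l =>
    intro F
    rw [glueL_cons, glueL_cons, glueL_cons, glueL_cons]
    have h1 := (List.pairwise_cons.1 hd).1 e List.mem_cons_self
    rw [ctr_comm e.1 e'.1 h1.1.symm h1.2.1.symm h1.2.2.1.symm h1.2.2.2.symm]
  | trans h h' ih ih' =>
    intro F
    rw [ih hd F]
    refine ih' ?_ F
    exact (h.pairwise_iff (fun {a b} hab => ⟨hab.1.symm, hab.2.2.1.symm, hab.2.1.symm,
      hab.2.2.2.symm⟩)).1 hd

end Crest.Agent.R158.Ao857
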