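import Crest.Agent.R158.Bm7_857

/-!
# Row 158: the row operator as a sum over arrow fields (helper857)

* `v6 l r d t` : isotropic percolation weight (`1/2`, `1/2`, `√3/2`)
* `prod_path` : entry of a product of matrices = sum over paths
* `That_half` : the isotropic twisted row, percolation normalisation, as a product of `v6` matrices
* `That_row` : as a sum over the auxiliary (horizontal) arrows
* `That_pow` : powers as a sum over rows of vertical arrows
-/

set_option autoImplicit false

noncomputable section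

open Complex Matrix Finset
open scoped Matrix.Norms.L2Operator

namespace Crest.Agent.R158.Op857

open Crest.Agent.R150.Base357 Crest.Agent.R150.Unit961 Crest.Agent.R150.Gap970
open Crest.Agent.R150.Vt970
open Crest.Agent.R158.Bd932 (That e3 SS_e3 ins)

/-! ### paths -/

/-- entry of a product of matrices -/
theorem prod_path {R κ : Type*} [CommSemiring R] [Fintype κ] [DecidableEq κ] : ∀ {n : ℕ}
    (A : Fin n → Matrix κ κ R) (d t : κ), (List.ofFn A).prod d t =
      ∑ h : Fin (n + 1) → κ, if h 0 = d ∧ h (Fin.last n) = t then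
        ∏ j : Fin n, A j (h j.castSucc) (h j.succ) else 0 := by
  intro n
  induction n with
  | zero =>
    intro A d t
    rw [List.ofFn_zero, List.prod_nil, Matrix.one_apply,
      ← (Equiv.funUnique (Fin 1) κ).symm.sum_comp]
    by_cases h : d = t
    · subst h
      rw [if_pos rfl, Finset.sum_eq_single d]
      · simp
      · intro x _ hx
        simp [Equiv.funUnique, hx]
      · intro hx
        exact absurd (Finset.mem_univ _) hx
    · rw [if_neg h]
      symm
      apply Finset.sum_eq_zero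
      intro x _
      rw [if_neg]
      rintro ⟨h1, h2⟩
      apply h
      rw [← h1, ← h2]
      rfl
  | succ n ih =>
    intro A d t
    rw [List.ofFn_succ, List.prod_cons, Matrix.mul_apply]
    rw [← (Fin.consEquiv fun _ : Fin (n + 2) => κ).sum_comp, Fintype.sum_prod_type]
    symm
    rw [Finset.sum_eq_single d]
    · have e1 : ∀ k : κ, A 0 d k * (List.ofFn fun i => A i.succ).prod k t =
          ∑ h : Fin (n + 1) → κ, if h 0 = k then (if h (Fin.last n) = t then
            A 0 d k * ∏ j : Fin n, A j.succ (h j.castSucc) (h j.succ) else 0) else 0 := by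
        intro k
        rw [ih, Finset.mul_sum]
        refine Finset.sum_congr rfl fun h _ => ?_
        by_cases h1 : h 0 = k
        · by_cases h2 : h (Fin.last n) = t
          · rw [if_pos ⟨h1, h2⟩, if_pos h1, if_pos h2]
          · rw [if_neg (fun h3 => h2 h3.2), if_pos h1, if_neg h2, mul_zero]
        · rw [if_neg (fun h3 => h1 h3.1), if_neg h1, mul_zero]
      rw [Finset.sum_congr rfl fun k _ => e1 k, Finset.sum_comm]
      refine Finset.sum_congr rfl fun h _ => ?_
      rw [Finset.sum_ite_eq Finset.univ (h 0), if_pos (Finset.mem_univ _)]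
      simp only [Fin.consEquiv_apply]
      have e2 : (Fin.cons d h : Fin (n + 2) → κ) (Fin.last (n + 1)) = h (Fin.last n) := by
        rw [← Fin.succ_last, Fin.cons_succ]
      rw [e2, Fin.cons_zero]
      refine if_congr (by simp) ?_ rfl
      rw [Fin.prod_univ_succ]
      simp only [Fin.castSucc_zero, Fin.cons_zero, Fin.cons_succ, ← Fin.succ_castSucc]
    · intro x _ hx
      apply Finset.sum_eq_zero
      intro h _
      rw [if_neg]
      rintro ⟨h1, _⟩
      exact hx (by simpa using h1)
    · intro hx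
      exact absurd (Finset.mem_univ _) hx

/-- powers of a matrix -/
theorem pow_path {R κ : Type*} [CommSemiring R] [Fintype κ] [DecidableEq κ] (A : Matrix κ κ R)
    (n : ℕ) (d t : κ) : (A ^ n) d t =
      ∑ h : Fin (n + 1) → κ, if h 0 = d ∧ h (Fin.last n) = t then
        ∏ j : Fin n, A (h j.castSucc) (h j.succ) else 0 := by
  rw [← prod_path (fun _ => A)]
  simp

/-! ### the isotropic weights -/

/-- isotropic percolation weight -/
def v6 (l r d t : Bool) : ℂ := wt (1 / 2 : ℂ) (1 / 2) ((Real.sqrt 3 / 2 : ℝ) : ℂ) l r d t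

lemma sin_six : Complex.sin ((e3 : ℂ) * (1 / 2)) = 1 / 2 := by
  have : (e3 : ℂ) * (1 / 2) = ((Real.pi / 6 : ℝ) : ℂ) := by
    rw [show e3 = Real.pi / 3 from rfl]; push_cast; ring
  rw [this, ← Complex.ofReal_sin, Real.sin_pi_div_six]
  push_cast; ring

lemma sin_half : Complex.sin ((e3 : ℂ) * (1 + 1 / 2)) = 1 := by
  have : (e3 : ℂ) * (1 + 1 / 2) = ((Real.pi / 2 : ℝ) : ℂ) := by
    rw [show e3 = Real.pi / 3 from rfl]; push_cast; ring
  rw [this, ← Complex.ofReal_sin, Real.sin_pi_div_two]
  push_cast; ring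

lemma sin_third : Complex.sin ((e3 : ℂ) * 1) = ((Real.sqrt 3 / 2 : ℝ) : ℂ) := by
  rw [mul_one, ← Complex.ofReal_sin, show e3 = Real.pi / 3 from rfl, Real.sin_pi_div_three]

lemma wt_smul (k a b c : ℂ) (l r d t : Bool) : k * wt a b c l r d t =
    wt (k * a) (k * b) (k * c) l r d t := by
  unfold wt
  split_ifs <;> simp

lemma inv_wt (l r d t : Bool) : (SS (e3 : ℂ) (1 + 1 / 2))⁻¹ *
    wt (SS (e3 : ℂ) (1 - 1 / 2)) (SS (e3 : ℂ) (1 / 2)) (SS (e3 : ℂ) 1) l r d t =
      v6 l r d t := by
  have h3 : (e3 : ℂ) ≠ 0 := by exact_mod_cast Bd932.e3_ne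
  rw [wt_smul, v6]
  have e0 : SS (e3 : ℂ) (1 + 1 / 2) = 1 / e3 := by rw [SS_e3, sin_half]
  have e1 : SS (e3 : ℂ) (1 / 2) = (1 / 2) / e3 := by rw [SS_e3, sin_six]
  have e2 : SS (e3 : ℂ) (1 - 1 / 2) = (1 / 2) / e3 := by
    rw [show (1 : ℂ) - 1 / 2 = 1 / 2 by norm_num, e1]
  have e4 : SS (e3 : ℂ) 1 = ((Real.sqrt 3 / 2 : ℝ) : ℂ) / e3 := by rw [SS_e3, sin_third]
  rw [e0, e1, e2, e4]
  congr 1
  · field_simp
  · field_simp
  · field_simp

/-- monodromy blocks at the isotropic point -/
theorem Mh_half (M : ℕ) (d t : Bool) (s s' : Fin M → Bool) :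
    Bd932.Mh M (1 / 2) d t s s' =
      (List.ofFn fun j => (Matrix.of fun a b => v6 (s j) (s' j) a b : Matrix Bool Bool ℂ)).prod
        d t := by
  have key : ∀ (M : ℕ) (s s' : Fin M → Bool),
      (List.ofFn fun j => (Matrix.of fun a b => v6 (s j) (s' j) a b : Matrix Bool Bool ℂ)).prod =
        (SS (e3 : ℂ) (1 + 1 / 2) ^ M)⁻¹ • (List.ofFn fun j => LL (trigW (e3 : ℂ) (1 / 2 - 0)).1
          (trigW (e3 : ℂ) (1 / 2 - 0)).2.1 (trigW (e3 : ℂ) (1 / 2 - 0)).2.2 (s j) (s' j)).prod := by
    intro M
    induction M with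
    | zero => intro s s'; simp
    | succ M ih =>
      intro s s'
      have e0 : (Matrix.of fun a b => v6 (s 0) (s' 0) a b : Matrix Bool Bool ℂ) =
          (SS (e3 : ℂ) (1 + 1 / 2))⁻¹ • LL (trigW (e3 : ℂ) (1 / 2 - 0)).1
            (trigW (e3 : ℂ) (1 / 2 - 0)).2.1 (trigW (e3 : ℂ) (1 / 2 - 0)).2.2 (s 0) (s' 0) := by
        ext a b
        rw [Matrix.smul_apply, smul_eq_mul, LL_apply, sub_zero]
        exact (inv_wt _ _ _ _).symm
      rw [List.ofFn_succ, List.prod_cons, List.ofFn_succ, List.prod_cons,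
        ih (fun j => s j.succ) (fun j => s' j.succ), e0, pow_succ, mul_inv, Matrix.mul_smul,
        Matrix.smul_mul, smul_smul]
  rw [key, Bd932.Mh, Matrix.smul_apply, Matrix.smul_apply]
  rfl

/-- sign of an arrow -/
def sgn (b : Bool) : ℂ := if b then 1 else -1

/-- the isotropic twisted row -/
theorem That_half (M : ℕ) (c : ℝ) (s s' : Fin M → Bool) :
    That M c (1 / 2) s s' = ∑ d : Bool, Complex.exp (sgn d * c * I) *
      (List.ofFn fun j => (Matrix.of fun a b => v6 (s j) (s' j) a b : Matrix Bool Bool ℂ)).prod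
        d d := by
  rw [Bd932.That_eq, Matrix.add_apply, Matrix.smul_apply, Matrix.smul_apply, Mh_half, Mh_half,
    Fintype.sum_bool]
  simp only [sgn, if_true, Bool.false_eq_true, if_false, smul_eq_mul, one_mul, neg_mul]

/-- the isotropic twisted row as a sum over the horizontal arrows -/
theorem That_row (M : ℕ) (c : ℝ) (s s' : Fin M → Bool) :
    That M c (1 / 2) s s' = ∑ h : Fin (M + 1) → Bool, if h 0 = h (Fin.last M) then
      Complex.exp (sgn (h 0) * c * I) * ∏ j : Fin M, v6 (s j) (s' j) (h j.castSucc) (h j.succ)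
      else 0 := by
  rw [That_half]
  have e1 : ∀ d : Bool, Complex.exp (sgn d * c * I) *
      (List.ofFn fun j => (Matrix.of fun a b => v6 (s j) (s' j) a b : Matrix Bool Bool ℂ)).prod
        d d = ∑ h : Fin (M + 1) → Bool, if h 0 = d then (if h (Fin.last M) = d then
          Complex.exp (sgn d * c * I) * ∏ j : Fin M, v6 (s j) (s' j) (h j.castSucc) (h j.succ)
          else 0) else 0 := by
    intro d
    rw [prod_path, Finset.mul_sum]
    refine Finset.sum_congr rfl fun h _ => ?_
    by_cases h1 : h 0 = d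
    · by_cases h2 : h (Fin.last M) = d
      · rw [if_pos ⟨h1, h2⟩, if_pos h1, if_pos h2]
        rfl
      · rw [if_neg (fun h3 => h2 h3.2), if_pos h1, if_neg h2, mul_zero]
    · rw [if_neg (fun h3 => h1 h3.1), if_neg h1, mul_zero]
  rw [Finset.sum_congr rfl fun d _ => e1 d, Finset.sum_comm]
  refine Finset.sum_congr rfl fun h _ => ?_
  rw [Finset.sum_ite_eq Finset.univ (h 0), if_pos (Finset.mem_univ _)]
  exact if_congr eq_comm rfl rfl

/-- powers of the row as a sum over rows of vertical arrows (`v 0` on top) -/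
theorem That_pow (M : ℕ) (c : ℝ) (n : ℕ) (s s' : Fin M → Bool) :
    (That M c (1 / 2) ^ n) s s' = ∑ v : Fin (n + 1) → (Fin M → Bool),
      if v 0 = s ∧ v (Fin.last n) = s' then
        ∏ y : Fin n, That M c (1 / 2) (v y.castSucc) (v y.succ) else 0 :=
  pow_path _ _ _ _

end Crest.Agent.R158.Op857
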