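import Crest.Agent.R158.Ao1_857
import Crest.Agent.R158.Ad2_350
import Crest.Agent.R158.Op1_857

/-!
# Row 158: the row operator as a glued row of tiles (helper857)

Tile `(i, y)` = column `i`, row `y`; sides `W = 0, N = 1, E = 2, S = 3`.

* `That_ring` : the isotropic twisted row as a sum over `Fin (m + 1) → Bool`, cyclic
* `v6_w6` : the R150 weight is `w6`
* `rowL M c y` : the glueings of the row `y` (ring; seam phase `c` at the west side of column `0`)
* `row_glue` : `glueL (rowL ..) (tiles of the row) = That M c (1/2)` (kernel form)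
-/

set_option autoImplicit false

noncomputable section

open Finset Matrix
open scoped Matrix.Norms.L2Operator

namespace Crest.Agent.R158.Ao857

open Crest.Agent.R158.Ad350
open Crest.Agent.R158.Ad350.St (glueL glueL_nil glueL_cons glueL_smul)
open Crest.Agent.R158.Sw300 (Port)
open Crest.Agent.R158.Bd932 (That e3)
open Crest.Agent.R158.Op857 (v6 That_half prod_path sgn)

/-! ### the cyclic sum -/

/-- the isotropic twisted row as one cyclic sum -/
theorem That_ring (m : ℕ) (c : ℝ) (s s' : Fin (m + 1) → Bool) :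
    That (m + 1) c (1 / 2) s s' = ∑ τ : Fin (m + 1) → Bool, ei (c * sg (τ 0)) *
      ∏ j, v6 (s j) (s' j) (τ j) (τ (j + 1)) := by
  rw [Op857.That_row]
  rw [← (Fin.snocEquiv fun _ : Fin (m + 2) => Bool).sum_comp, Fintype.sum_prod_type,
    Finset.sum_comm]
  refine Finset.sum_congr rfl fun τ _ => ?_
  rw [Finset.sum_eq_single (τ 0)]
  · have e0 : (Fin.snocEquiv fun _ : Fin (m + 2) => Bool) (τ 0, τ) =
        (Fin.snoc τ (τ 0) : Fin (m + 2) → Bool) := rfl
    rw [e0]
    have e1 : (Fin.snoc τ (τ 0) : Fin (m + 2) → Bool) 0 = τ 0 := by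
      have : (0 : Fin (m + 2)) = (0 : Fin (m + 1)).castSucc := rfl
      rw [this, Fin.snoc_castSucc]
    have e2 : (Fin.snoc τ (τ 0) : Fin (m + 2) → Bool) (Fin.last (m + 1)) = τ 0 := Fin.snoc_last _ _
    rw [if_pos (by rw [e1, e2]), e1]
    have e3 : Complex.exp (sgn (τ 0) * c * Complex.I) = ei (c * sg (τ 0)) := by
      unfold ei sgn sg
      congr 1
      cases τ 0 <;> simp
    rw [e3]
    congr 1
    refine Finset.prod_congr rfl fun j _ => ?_
    have e4 : (Fin.snoc τ (τ 0) : Fin (m + 2) → Bool) j.castSucc = τ j := Fin.snoc_castSucc ..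
    have e5 : (Fin.snoc τ (τ 0) : Fin (m + 2) → Bool) j.succ = τ (j + 1) := by
      refine Fin.lastCases ?_ (fun k => ?_) j
      · rw [Fin.succ_last, Fin.snoc_last]
        congr 1
        simp
      · rw [Fin.succ_castSucc, Fin.snoc_castSucc]
        congr 1
        simp
    rw [e4, e5]
  · intro x _ hx
    have e0 : (Fin.snocEquiv fun _ : Fin (m + 2) => Bool) (x, τ) =
        (Fin.snoc τ x : Fin (m + 2) → Bool) := rfl
    rw [e0, if_neg]
    have e1 : (Fin.snoc τ x : Fin (m + 2) → Bool) 0 = τ 0 := by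
      have : (0 : Fin (m + 2)) = (0 : Fin (m + 1)).castSucc := rfl
      rw [this, Fin.snoc_castSucc]
    rw [e1, Fin.snoc_last]
    exact fun h => hx h.symm
  · intro h
    exact absurd (Finset.mem_univ _) h

/-- the weight in terms of outgoing arrows -/
lemma v6_w6 (l r d t : Bool) (o : ZMod 4 → Bool) (h0 : o 0 = d) (h1 : o 1 = l) (h2 : o 2 = !t)
    (h3 : o 3 = !r) : v6 l r d t = w6 o := by
  unfold v6 w6 Crest.Agent.R150.Base357.wt
  rw [h0, h1, h2, h3]
  cases l <;> cases r <;> cases d <;> cases t <;> simp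

/-! ### the row -/

/-- tile port -/
def tp (i y : ℕ) (d : ZMod 4) : Port (ℕ × ℕ) := some ((i, y), d)

lemma tp_inj {i y i' y' : ℕ} {d d' : ZMod 4} (h : tp i y d = tp i' y' d') :
    i = i' ∧ y = y' ∧ d = d' := by
  unfold tp at h
  simpa [and_assoc] using h

/-- glueings of the row `y` of the ring -/
def rowL (m : ℕ) (c : ℝ) (y : ℕ) : List (ℝ × Port (ℕ × ℕ) × Port (ℕ × ℕ)) :=
  List.ofFn fun i : Fin (m + 1) => (if i = 0 then c else 0, tp i y 0, tp ((i - 1 : Fin (m + 1)) : ℕ) y 2)

/-- tiles of the row `y` -/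
def rowT (m : ℕ) (y : ℕ) : Finset (ℕ × ℕ) := (Finset.range (m + 1)) ×ˢ {y}

lemma tilesF_row (m y : ℕ) (σ : Port (ℕ × ℕ) → Bool) :
    tilesF (rowT m y) σ = ∏ j : Fin (m + 1), w6 fun d => σ (tp j y d) := by
  unfold tilesF rowT
  rw [Finset.prod_product, Finset.prod_range]
  simp only [Finset.prod_singleton]
  rfl

theorem row_glue (m : ℕ) (c : ℝ) (y : ℕ) (σ : Port (ℕ × ℕ) → Bool) :
    glueL (rowL m c y) (tilesF (rowT m y)) σ =
      That (m + 1) c (1 / 2) (fun i => σ (tp i y 1)) (fun i => !σ (tp i y 3)) := by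
  have hx : Function.Injective fun i : Fin (m + 1) => tp i y 0 := fun i j h =>
    Fin.ext (tp_inj h).1
  have hy : Function.Injective fun i : Fin (m + 1) => tp ((i - 1 : Fin (m + 1)) : ℕ) y 2 := by
    intro i j h
    have := Fin.ext (tp_inj h).1
    exact sub_left_injective this
  have hxy : ∀ i j : Fin (m + 1), tp i y 0 ≠ tp ((j - 1 : Fin (m + 1)) : ℕ) y 2 := fun i j h =>
    absurd (tp_inj h).2.2 (by decide)
  rw [rowL, Ao857.glueL_pairs (fun i : Fin (m + 1) => if i = 0 then c else 0)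
    (fun i => tp i y 0) (fun i => tp ((i - 1 : Fin (m + 1)) : ℕ) y 2) hx hy hxy, That_ring]
  refine Finset.sum_congr rfl fun τ _ => ?_
  have e1 : ∏ i : Fin (m + 1), ei ((if i = 0 then c else 0) * sg (τ i)) = ei (c * sg (τ 0)) := by
    rw [Finset.prod_eq_single 0]
    · rw [if_pos rfl]
    · intro i _ hi
      rw [if_neg hi, zero_mul, ei_zero]
    · intro h
      exact absurd (Finset.mem_univ _) h
  rw [e1, tilesF_row]
  congr 1
  refine Finset.prod_congr rfl fun j _ => ?_
  symm
  apply v6_w6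
  · exact ovr_self hx τ _ j
  · rw [ovr_ne _ _ (fun i h => absurd (tp_inj h).2.2 (by decide)),
      ovr_ne _ _ (fun i h => absurd (tp_inj h).2.2 (by decide))]
  · rw [ovr_ne _ _ (fun i h => absurd (tp_inj h).2.2 (by decide))]
    have h := ovr_self hy (fun i => !τ i) σ (j + 1)
    simp only [add_sub_cancel_right] at h
    exact h
  · rw [ovr_ne _ _ (fun i h => absurd (tp_inj h).2.2 (by decide)),
      ovr_ne _ _ (fun i h => absurd (tp_inj h).2.2 (by decide)), Bool.not_not]

end Crest.Agent.R158.Ao857
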