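import Crest.Agent.R158.Ao2_857

/-!
# Row 158: the band operator with an inserted line as a glued network (helper857)

* `blockL m c y0 k`, `blockT m y0 k` : glueings and tiles of the rows `y0, .., y0 + k`
* `block_glue` : kernel of `That (m+1) c (1/2) ^ (k+1)`
* `insL n p a` : glueings between the row `a` (`n + 1` columns) and the row `a + 1`
  (`n + 2` columns, new column `p`), phase `-e3` west of `p`
* `band_glue` : kernel of `That' ^ (b+1) * ins n p * That ^ (a+1)`
-/

set_option autoImplicit false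

noncomputable section

open Finset Matrix
open scoped Matrix.Norms.L2Operator

namespace Crest.Agent.R158.Ao857

open Crest.Agent.R158.Ad350
open Crest.Agent.R158.Ad350.St (glueL glueL_nil glueL_cons glueL_smul)
open Crest.Agent.R158.Sw300 (Port)
open Crest.Agent.R158.Bd932 (That e3 ins lsum)

lemma tilesF_sees {T : Type*} [DecidableEq T] (A : Finset T) :
    Sees (tilesF A) (↑(ports A) : Set (Port T)) := by
  intro σ σ' h
  unfold tilesF
  refine Finset.prod_congr rfl fun t ht => ?_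
  congr 1
  funext d
  exact h _ (by simpa using ht)

/-! ### kernels -/

section

variable {P : Type*} [DecidableEq P]

/-- kernel form: upper ends `w` (arrow up = out), lower ends `u` (arrow up = in) -/
def ker {m k : ℕ} (K : Matrix (Fin m → Bool) (Fin k → Bool) ℂ) (w : Fin m → P) (u : Fin k → P) :
    (P → Bool) → ℂ := fun σ => K (fun i => σ (w i)) (fun i => !σ (u i))

omit [DecidableEq P] in
lemma ker_sees {m k : ℕ} (K : Matrix (Fin m → Bool) (Fin k → Bool) ℂ) (w : Fin m → P)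
    (u : Fin k → P) : Sees (ker K w u) (Set.range w ∪ Set.range u) := by
  intro σ σ' h
  unfold ker
  congr 1
  · funext i
    exact h _ (Or.inl ⟨i, rfl⟩)
  · funext i
    rw [h _ (Or.inr ⟨i, rfl⟩)]

/-- stacking two kernels -/
theorem ker_stack {m m' m'' : ℕ} (K1 : Matrix (Fin m → Bool) (Fin m' → Bool) ℂ)
    (K2 : Matrix (Fin m'' → Bool) (Fin m → Bool) ℂ) {x y : Fin m → P} {u : Fin m' → P}
    {w : Fin m'' → P} (hx : Function.Injective x) (hy : Function.Injective y)
    (hxy : ∀ i j, x i ≠ y j) (hxu : ∀ i j, x i ≠ u j) (hxw : ∀ i j, x i ≠ w j)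
    (hyu : ∀ i j, y i ≠ u j) (hyw : ∀ i j, y i ≠ w j) :
    glueL (List.ofFn fun i => ((0 : ℝ), x i, y i)) (fun σ => ker K1 x u σ * ker K2 w y σ) =
      ker (K2 * K1) w u := by
  funext σ
  rw [glue_stack (fun _ => 0) hx hy hxy (ker_sees K1 x u) (ker_sees K2 w y)
    (fun i => by
      rintro (⟨j, hj⟩ | ⟨j, hj⟩)
      · exact hxy j i hj
      · exact hyu i j hj.symm)
    (fun i => by
      rintro (⟨j, hj⟩ | ⟨j, hj⟩)
      · exact hxw i j hj.symm
      · exact hxy i j hj.symm)]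
  unfold ker
  rw [Matrix.mul_apply]
  refine Finset.sum_congr rfl fun τ _ => ?_
  have e1 : ∏ i : Fin m, ei (0 * sg (τ i)) = 1 := by simp
  rw [e1, one_mul, mul_comm]
  congr 1
  · congr 1
    · funext i
      exact ovr_ne _ _ fun j => hyw j i
    · funext i
      rw [ovr_self hy, Bool.not_not]
  · congr 1
    · funext i
      exact ovr_self hx _ _ i
    · funext i
      rw [ovr_ne _ _ fun j => hxu j i]

end

/-! ### blocks of rows -/

/-- vertical glueings between the rows `y` and `y + 1` -/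
def verL (m : ℕ) (y : ℕ) : List (ℝ × Port (ℕ × ℕ) × Port (ℕ × ℕ)) :=
  List.ofFn fun i : Fin (m + 1) => ((0 : ℝ), tp i y 1, tp i (y + 1) 3)

/-- glueings of the rows `y0, .., y0 + k` -/
def blockL (m : ℕ) (c : ℝ) (y0 : ℕ) : ℕ → List (ℝ × Port (ℕ × ℕ) × Port (ℕ × ℕ))
  | 0 => rowL m c y0
  | k + 1 => blockL m c y0 k ++ (rowL m c (y0 + k + 1) ++ verL m (y0 + k))

/-- tiles of the rows `y0, .., y0 + k` -/
def blockT (m y0 k : ℕ) : Finset (ℕ × ℕ) := (Finset.range (m + 1)) ×ˢ (Finset.Ico y0 (y0 + k + 1))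

lemma mem_blockT {m y0 k : ℕ} {t : ℕ × ℕ} : t ∈ blockT m y0 k ↔
    t.1 < m + 1 ∧ y0 ≤ t.2 ∧ t.2 < y0 + k + 1 := by
  simp [blockT]

lemma mem_rowT {m y : ℕ} {t : ℕ × ℕ} : t ∈ rowT m y ↔ t.1 < m + 1 ∧ t.2 = y := by
  rw [rowT, Finset.mem_product, Finset.mem_range, Finset.mem_singleton]

/-- a pair of ports with both rows in `[lo, hi]` -/
def InR (lo hi : ℕ) (e : ℝ × Port (ℕ × ℕ) × Port (ℕ × ℕ)) : Prop :=
  (∃ i y d, e.2.1 = tp i y d ∧ lo ≤ y ∧ y ≤ hi) ∧ (∃ i y d, e.2.2 = tp i y d ∧ lo ≤ y ∧ y ≤ hi)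

lemma InR.mono {lo hi lo' hi' : ℕ} {e : ℝ × Port (ℕ × ℕ) × Port (ℕ × ℕ)} (h : InR lo hi e)
    (h1 : lo' ≤ lo) (h2 : hi ≤ hi') : InR lo' hi' e := by
  obtain ⟨⟨i, y, d, e1, a1, a2⟩, ⟨j, z, f, e2, b1, b2⟩⟩ := h
  exact ⟨⟨i, y, d, e1, by omega, by omega⟩, ⟨j, z, f, e2, by omega, by omega⟩⟩

lemma rowL_in {m : ℕ} {c : ℝ} {y : ℕ} {e : ℝ × Port (ℕ × ℕ) × Port (ℕ × ℕ)}
    (h : e ∈ rowL m c y) : InR y y e := by
  unfold rowL at h
  rw [List.mem_ofFn] at h
  obtain ⟨i, rfl⟩ := h
  exact ⟨⟨_, _, _, rfl, le_rfl, le_rfl⟩, ⟨_, _, _, rfl, le_rfl, le_rfl⟩⟩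

lemma verL_in {m : ℕ} {y : ℕ} {e : ℝ × Port (ℕ × ℕ) × Port (ℕ × ℕ)}
    (h : e ∈ verL m y) : InR y (y + 1) e := by
  unfold verL at h
  rw [List.mem_ofFn] at h
  obtain ⟨i, rfl⟩ := h
  exact ⟨⟨_, _, _, rfl, le_rfl, by omega⟩, ⟨_, _, _, rfl, by omega, le_rfl⟩⟩

lemma blockL_in {m : ℕ} {c : ℝ} {y0 : ℕ} : ∀ {k : ℕ} {e : ℝ × Port (ℕ × ℕ) × Port (ℕ × ℕ)},
    e ∈ blockL m c y0 k → InR y0 (y0 + k) e := by
  intro k
  induction k with
  | zero => intro e h; exact rowL_in h
  | succ k ih =>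
    intro e h
    rw [blockL, List.mem_append, List.mem_append] at h
    rcases h with h | h | h
    · exact (ih h).mono le_rfl (by omega)
    · exact (rowL_in h).mono (by omega) (by omega)
    · exact (verL_in h).mono (by omega) (by omega)

lemma InR.not_ports {lo hi : ℕ} {e : ℝ × Port (ℕ × ℕ) × Port (ℕ × ℕ)} (h : InR lo hi e)
    {A : Finset (ℕ × ℕ)} (hA : ∀ t ∈ A, t.2 < lo ∨ hi < t.2) :
    e.2.1 ∉ (↑(ports A) : Set (Port (ℕ × ℕ))) ∧ e.2.2 ∉ (↑(ports A) : Set (Port (ℕ × ℕ))) := by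
  obtain ⟨⟨i, y, d, e1, a1, a2⟩, ⟨j, z, f, e2, b1, b2⟩⟩ := h
  constructor
  · rw [e1]
    intro h
    rcases hA _ (mem_ports.1 (Finset.mem_coe.1 h)) with h | h <;> simp only at h <;> omega
  · rw [e2]
    intro h
    rcases hA _ (mem_ports.1 (Finset.mem_coe.1 h)) with h | h <;> simp only at h <;> omega

lemma InR.not_range {lo hi : ℕ} {e : ℝ × Port (ℕ × ℕ) × Port (ℕ × ℕ)} (h : InR lo hi e)
    {A : Set (Port (ℕ × ℕ))} (hA : ∀ q ∈ A, ∃ i y d, q = tp i y d ∧ (y < lo ∨ hi < y)) :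
    e.2.1 ∉ A ∧ e.2.2 ∉ A := by
  obtain ⟨⟨i, y, d, e1, a1, a2⟩, ⟨j, z, f, e2, b1, b2⟩⟩ := h
  constructor
  · intro h
    obtain ⟨i', y', d', h1, h2⟩ := hA _ h
    rw [e1] at h1
    obtain ⟨-, h3, -⟩ := tp_inj h1
    omega
  · intro h
    obtain ⟨i', y', d', h1, h2⟩ := hA _ h
    rw [e2] at h1
    obtain ⟨-, h3, -⟩ := tp_inj h1
    omega

theorem row_ker (m : ℕ) (c : ℝ) (y : ℕ) : glueL (rowL m c y) (tilesF (rowT m y)) =
    ker (That (m + 1) c (1 / 2)) (fun i => tp i y 1) (fun i => tp i y 3) :=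
  funext fun σ => row_glue m c y σ

theorem block_ker (m : ℕ) (c : ℝ) (y0 : ℕ) : ∀ k : ℕ,
    glueL (blockL m c y0 k) (tilesF (blockT m y0 k)) =
      ker (That (m + 1) c (1 / 2) ^ (k + 1)) (fun i => tp i (y0 + k) 1) (fun i => tp i y0 3) := by
  intro k
  induction k with
  | zero =>
    have e1 : blockT m y0 0 = rowT m y0 := by
      ext t
      rw [mem_blockT, mem_rowT]
      omega
    rw [e1, blockL, row_ker, zero_add, pow_one]
    rfl
  | succ k ih =>
    have e1 : blockT m y0 (k + 1) = blockT m y0 k ∪ rowT m (y0 + k + 1) := by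
      ext t
      rw [Finset.mem_union, mem_blockT, mem_blockT, mem_rowT]
      omega
    have e2 : Disjoint (blockT m y0 k) (rowT m (y0 + k + 1)) := by
      rw [Finset.disjoint_left]
      intro t h1 h2
      rw [mem_blockT] at h1
      rw [mem_rowT] at h2
      omega
    have e3 : tilesF (blockT m y0 (k + 1)) = fun σ => tilesF (blockT m y0 k) σ *
        tilesF (rowT m (y0 + k + 1)) σ := by
      funext σ
      rw [e1]
      exact tilesF_union e2 σ
    rw [blockL, glueL_append, glueL_append, e3,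
      glueL_mul_right (tilesF_sees (rowT m (y0 + k + 1))) _ (fun e he =>
        (blockL_in he).not_ports fun t ht => Or.inr (by rw [mem_rowT] at ht; omega)), ih,
      glueL_mul_left (ker_sees _ _ _) _ (fun e he => (rowL_in he).not_range ?_), row_ker]
    · have h := ker_stack (That (m + 1) c (1 / 2) ^ (k + 1)) (That (m + 1) c (1 / 2))
        (x := fun i : Fin (m + 1) => tp i (y0 + k) 1)
        (y := fun i : Fin (m + 1) => tp i (y0 + k + 1) 3)
        (u := fun i : Fin (m + 1) => tp i y0 3)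
        (w := fun i : Fin (m + 1) => tp i (y0 + k + 1) 1)
        (fun i j h => Fin.ext (tp_inj h).1) (fun i j h => Fin.ext (tp_inj h).1)
        (fun i j h => absurd (tp_inj h).2.2 (by decide))
        (fun i j h => absurd (tp_inj h).2.2 (by decide))
        (fun i j h => by have := (tp_inj h).2.1; omega)
        (fun i j h => by have := (tp_inj h).2.1; omega)
        (fun i j h => absurd (tp_inj h).2.2 (by decide))
      rw [verL]
      refine h.trans ?_
      rw [← pow_succ']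
      rfl
    · rintro q (⟨i, rfl⟩ | ⟨i, rfl⟩)
      · exact ⟨_, _, _, rfl, Or.inl (by omega)⟩
      · exact ⟨_, _, _, rfl, Or.inl (by omega)⟩

/-! ### the inserted line -/

/-- glueings between the row `a` (`n + 1` columns) and the row `a + 1` (`n + 2` columns) -/
def insL (n : ℕ) (p : Fin (n + 2)) (a : ℕ) : List (ℝ × Port (ℕ × ℕ) × Port (ℕ × ℕ)) :=
  List.ofFn fun i : Fin (n + 1) => (if p.succAbove i < p then -e3 else 0, tp i a 1,
    tp (p.succAbove i) (a + 1) 3)

lemma lsum_insert {n : ℕ} (p : Fin (n + 2)) (τ : Fin (n + 1) → Bool) :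
    lsum p (p.insertNth true τ : Fin (n + 2) → Bool) =
      ∑ i : Fin (n + 1), if p.succAbove i < p then sg (τ i) else 0 := by
  unfold lsum
  rw [Fin.sum_univ_succAbove _ p, if_neg (lt_irrefl p), zero_add]
  refine Finset.sum_congr rfl fun i _ => ?_
  rw [Fin.insertNth_apply_succAbove]
  rfl

lemma mul_ins {n : ℕ} {k : ℕ} (K : Matrix (Fin k → Bool) (Fin (n + 2) → Bool) ℂ) (p : Fin (n + 2))
    (w : Fin k → Bool) (τ : Fin (n + 1) → Bool) : (K * ins n p) w τ =
      K w (p.insertNth true τ) *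
        ∏ i : Fin (n + 1), ei ((if p.succAbove i < p then -e3 else 0) * sg (τ i)) := by
  rw [Matrix.mul_apply]
  simp only [ins, Matrix.of_apply, mul_ite, mul_zero, Finset.sum_ite_eq', Finset.mem_univ,
    if_true]
  rw [lsum_insert]
  congr 1
  rw [ei_sum]
  unfold ei
  congr 1
  push_cast
  rw [Finset.mul_sum, ← Finset.sum_neg_distrib, Finset.sum_mul, Finset.sum_mul]
  refine Finset.sum_congr rfl fun i _ => ?_
  split_ifs <;> simp

/-- tiles of the band: rows `0..a` with `n + 1` columns, rows `a+1..a+b+1` with `n + 2` columns -/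
def bandT (n a b : ℕ) : Finset (ℕ × ℕ) := blockT n 0 a ∪ blockT (n + 1) (a + 1) b

/-- glueings of the band -/
def bandL (n : ℕ) (p : Fin (n + 2)) (c c' : ℝ) (a b : ℕ) :
    List (ℝ × Port (ℕ × ℕ) × Port (ℕ × ℕ)) :=
  blockL n c 0 a ++ (blockL (n + 1) c' (a + 1) b ++ insL n p a)

/-- **the band operator with an inserted line as a glued network** -/
theorem band_ker (n : ℕ) (p : Fin (n + 2)) (c c' : ℝ) (a b : ℕ) (σ : Port (ℕ × ℕ) → Bool)
    (hσ : σ (tp p (a + 1) 3) = false) :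
    glueL (bandL n p c c' a b) (tilesF (bandT n a b)) σ =
      (That (n + 2) c' (1 / 2) ^ (b + 1) * ins n p * That (n + 1) c (1 / 2) ^ (a + 1))
        (fun i => σ (tp i (a + 1 + b) 1)) (fun i => !σ (tp i 0 3)) := by
  have e2 : Disjoint (blockT n 0 a) (blockT (n + 1) (a + 1) b) := by
    rw [Finset.disjoint_left]
    intro t h1 h2
    rw [mem_blockT] at h1 h2
    omega
  have e4 : tilesF (bandT n a b) = fun σ => tilesF (blockT n 0 a) σ *
      tilesF (blockT (n + 1) (a + 1) b) σ := by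
    funext σ
    exact tilesF_union e2 σ
  rw [bandL, glueL_append, glueL_append, e4,
    glueL_mul_right (tilesF_sees (blockT (n + 1) (a + 1) b)) _ (fun e he =>
      (blockL_in he).not_ports fun t ht => Or.inr (by rw [mem_blockT] at ht; omega)),
    block_ker,
    glueL_mul_left (ker_sees _ _ _) _ (fun e he => (blockL_in he).not_range ?_), block_ker]
  · have hx : Function.Injective fun i : Fin (n + 1) => tp i (0 + a) 1 := fun i j h =>
      Fin.ext (tp_inj h).1
    have hy : Function.Injective fun i : Fin (n + 1) => tp (p.succAbove i) (a + 1) 3 :=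
      fun i j h => Fin.succAbove_right_injective (Fin.ext (tp_inj h).1)
    have hxy : ∀ i j : Fin (n + 1), tp i (0 + a) 1 ≠ tp (p.succAbove j) (a + 1) 3 :=
      fun i j h => absurd (tp_inj h).2.2 (by decide)
    have e0 : insL n p a = List.ofFn fun i : Fin (n + 1) =>
        ((if p.succAbove i < p then -e3 else 0 : ℝ), tp i (0 + a) 1,
          tp (p.succAbove i) (a + 1) 3) := by rw [insL, zero_add]
    rw [e0, glue_stack (fun i : Fin (n + 1) => if p.succAbove i < p then -e3 else 0) hx hy hxy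
      (ker_sees _ _ _) (ker_sees _ _ _) (fun i => by
        rintro (⟨j, hj⟩ | ⟨j, hj⟩)
        · exact absurd (tp_inj hj).2.2 (by decide)
        · have := (tp_inj hj).2.1; omega)
      (fun i => by
        rintro (⟨j, hj⟩ | ⟨j, hj⟩)
        · have := (tp_inj hj).2.1; omega
        · have := (tp_inj hj).2.1; omega)]
    unfold ker
    rw [Matrix.mul_apply]
    refine Finset.sum_congr rfl fun τ _ => ?_
    rw [mul_ins]
    have f1 : (fun i : Fin (n + 1) => ovr (fun i : Fin (n + 1) => tp i (0 + a) 1) τ σ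
        (tp i (0 + a) 1)) = τ := by
      funext i
      exact ovr_self hx _ _ i
    have f2 : (fun i : Fin (n + 1) => !ovr (fun i : Fin (n + 1) => tp i (0 + a) 1) τ σ
        (tp i 0 3)) = fun i : Fin (n + 1) => !σ (tp i 0 3) := by
      funext i
      rw [ovr_ne _ _ (fun j h => absurd (tp_inj h).2.2 (by decide))]
    have f3 : (fun i : Fin (n + 2) => ovr (fun i : Fin (n + 1) => tp (p.succAbove i) (a + 1) 3)
        (fun i => !τ i) σ (tp i (a + 1 + b) 1)) = fun i : Fin (n + 2) => σ (tp i (a + 1 + b) 1) := by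
      funext i
      rw [ovr_ne _ _ (fun j h => absurd (tp_inj h).2.2 (by decide))]
    have f4 : (fun i : Fin (n + 2) => !ovr (fun i : Fin (n + 1) => tp (p.succAbove i) (a + 1) 3)
        (fun i => !τ i) σ (tp i (a + 1) 3)) = p.insertNth true τ := by
      funext j
      refine Fin.succAboveCases p ?_ (fun i => ?_) j
      · rw [Fin.insertNth_apply_same, ovr_ne, hσ]
        · rfl
        · intro i h
          exact Fin.succAbove_ne p i (Fin.ext (tp_inj h).1)
      · rw [Fin.insertNth_apply_succAbove, ovr_self hy (fun i => !τ i) σ i, Bool.not_not]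
    rw [f1, f2, f3, f4]
    ring
  · rintro q (⟨i, rfl⟩ | ⟨i, rfl⟩)
    · exact ⟨_, _, _, rfl, Or.inl (by omega)⟩
    · exact ⟨_, _, _, rfl, Or.inl (by omega)⟩

end Crest.Agent.R158.Ao857
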