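import Crest.Agent.R158.Ao3_857

/-!
# Row 158: lists of glueings up to order and orientation (helper857)

* `ctr_swap` : `ctr χ a b = ctr (-χ) b a`
* `glueL_ext` : two lists of disjoint pairs with the same pairs up to orientation
* `mem_blockL`, `mem_bandL`, `dis_bandL`
-/

set_option autoImplicit false

noncomputable section

open Finset Matrix

namespace Crest.Agent.R158.Ao857

open Crest.Agent.R158.Ad350
open Crest.Agent.R158.Ad350.St (glueL glueL_nil glueL_cons glueL_smul)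
open Crest.Agent.R158.Sw300 (Port)
open Crest.Agent.R158.Bd932 (That e3 ins lsum)

section

variable {P : Type*} [DecidableEq P]

/-- the reversed glueing -/
def swp (e : ℝ × P × P) : ℝ × P × P := (-e.1, e.2.2, e.2.1)

omit [DecidableEq P] in
@[simp] lemma swp_swp (e : ℝ × P × P) : swp (swp e) = e := by
  simp [swp]

theorem ctr_swap (χ : ℝ) {a b : P} (hab : a ≠ b) (F : (P → Bool) → ℂ) :
    ctr χ a b F = ctr (-χ) b a F := by
  funext σ
  simp only [ctr]
  rw [Fintype.sum_bool, Fintype.sum_bool, add_comm]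
  rw [Function.update_comm hab, Function.update_comm hab]
  simp

omit [DecidableEq P] in
lemma Dis.ne {l : List (ℝ × P × P)} (hd : Dis l) {e e' : ℝ × P × P} (h : e ∈ l) (h' : e' ∈ l)
    (hne : e ≠ e') : e.2.1 ≠ e'.2.1 ∧ e.2.1 ≠ e'.2.2 ∧ e.2.2 ≠ e'.2.1 ∧ e.2.2 ≠ e'.2.2 := by
  have : Std.Symm (fun e e' : ℝ × P × P => e.2.1 ≠ e'.2.1 ∧ e.2.1 ≠ e'.2.2 ∧
    e.2.2 ≠ e'.2.1 ∧ e.2.2 ≠ e'.2.2) :=
    ⟨fun a b hab => ⟨hab.1.symm, hab.2.2.1.symm, hab.2.1.symm, hab.2.2.2.symm⟩⟩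
  exact List.Pairwise.forall hd h h' hne

omit [DecidableEq P] in
lemma Dis.nodup {l : List (ℝ × P × P)} (hd : Dis l) : l.Nodup :=
  hd.imp fun {a b} hab e => hab.1 (by rw [e])

/-- **order and orientation of the glueings do not matter** -/
theorem glueL_ext {l l' : List (ℝ × P × P)} (hd : Dis l) (hd' : Dis l')
    (hne : ∀ e ∈ l, e.2.1 ≠ e.2.2)
    (h1 : ∀ e ∈ l, e ∈ l' ∨ swp e ∈ l') (h2 : ∀ e ∈ l', e ∈ l ∨ swp e ∈ l)
    (F : (P → Bool) → ℂ) : glueL l F = glueL l' F := by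
  classical
  let f : ℝ × P × P → ℝ × P × P := fun e => if e ∈ l' then e else swp e
  have hf : ∀ e ∈ l, f e ∈ l' := by
    intro e he
    by_cases h : e ∈ l'
    · simp only [f, if_pos h]; exact h
    · simp only [f, if_neg h]
      exact (h1 e he).resolve_left h
  have hports : ∀ e : ℝ × P × P, (f e).2.1 = e.2.1 ∧ (f e).2.2 = e.2.2 ∨
      (f e).2.1 = e.2.2 ∧ (f e).2.2 = e.2.1 := by
    intro e
    by_cases h : e ∈ l'
    · left; simp only [f, if_pos h, and_self]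
    · right; simp only [f, if_neg h, swp, and_self]
  have hdm : Dis (l.map f) := by
    unfold Dis
    rw [List.pairwise_map]
    refine hd.imp fun {a b} hab => ?_
    obtain ⟨k1, k2, k3, k4⟩ := hab
    rcases hports a with ⟨ha1, ha2⟩ | ⟨ha1, ha2⟩ <;> rcases hports b with ⟨hb1, hb2⟩ | ⟨hb1, hb2⟩ <;>
      rw [ha1, ha2, hb1, hb2] <;> exact ⟨by assumption, by assumption, by assumption, by assumption⟩
  have hmem : ∀ e : ℝ × P × P, e ∈ l.map f ↔ e ∈ l' := by
    intro e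
    constructor
    · intro h
      obtain ⟨e0, he0, rfl⟩ := List.mem_map.1 h
      exact hf e0 he0
    · intro h
      rcases h2 e h with h3 | h3
      · refine List.mem_map.2 ⟨e, h3, ?_⟩
        simp only [f, if_pos h]
      · refine List.mem_map.2 ⟨swp e, h3, ?_⟩
        by_cases h4 : swp e ∈ l'
        · simp only [f, if_pos h4]
          by_contra h5
          have := hd'.ne h4 h h5
          exact this.2.1 rfl
        · simp only [f, if_neg h4, swp_swp]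
  have hperm : (l.map f).Perm l' :=
    (List.perm_ext_iff_of_nodup hdm.nodup hd'.nodup).2 hmem
  rw [← glueL_perm hperm hdm F]
  -- glueL (l.map f) = glueL l
  clear hperm hmem hdm hf h1 h2 hd
  induction l generalizing F with
  | nil => rfl
  | cons e l ih =>
    rw [List.map_cons, glueL_cons, glueL_cons, ih (fun e' he' => hne e' (List.mem_cons_of_mem _ he'))]
    congr 1
    by_cases h : e ∈ l'
    · simp only [f, if_pos h]
    · simp only [f, if_neg h]
      exact ctr_swap _ (hne e List.mem_cons_self) F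

end

/-! ### the lists of the band -/

abbrev Pr := ℝ × Port (ℕ × ℕ) × Port (ℕ × ℕ)

lemma mem_rowL {m : ℕ} {c : ℝ} {y : ℕ} {e : Pr} : e ∈ rowL m c y ↔
    ∃ i : Fin (m + 1), e = (if i = 0 then c else 0, tp i y 0, tp ((i - 1 : Fin (m + 1)) : ℕ) y 2) := by
  unfold rowL
  rw [List.mem_ofFn]
  exact exists_congr fun i => eq_comm

lemma mem_verL {m : ℕ} {y : ℕ} {e : Pr} : e ∈ verL m y ↔
    ∃ i : Fin (m + 1), e = ((0 : ℝ), tp i y 1, tp i (y + 1) 3) := by
  unfold verL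
  rw [List.mem_ofFn]
  exact exists_congr fun i => eq_comm

lemma mem_insL {n : ℕ} {p : Fin (n + 2)} {a : ℕ} {e : Pr} : e ∈ insL n p a ↔
    ∃ i : Fin (n + 1), e = (if p.succAbove i < p then -e3 else 0, tp i a 1,
      tp (p.succAbove i) (a + 1) 3) := by
  unfold insL
  rw [List.mem_ofFn]
  exact exists_congr fun i => eq_comm

lemma mem_blockL {m : ℕ} {c : ℝ} {y0 : ℕ} : ∀ {k : ℕ} {e : Pr}, e ∈ blockL m c y0 k ↔
    (∃ y, y0 ≤ y ∧ y ≤ y0 + k ∧ e ∈ rowL m c y) ∨ (∃ y, y0 ≤ y ∧ y < y0 + k ∧ e ∈ verL m y) := by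
  intro k
  induction k with
  | zero =>
    intro e
    rw [blockL]
    constructor
    · intro h
      exact Or.inl ⟨y0, le_rfl, by omega, h⟩
    · rintro (⟨y, h1, h2, h3⟩ | ⟨y, h1, h2, h3⟩)
      · have : y = y0 := by omega
        rwa [this] at h3
      · omega
  | succ k ih =>
    intro e
    rw [blockL, List.mem_append, List.mem_append, ih]
    constructor
    · rintro ((⟨y, h1, h2, h3⟩ | ⟨y, h1, h2, h3⟩) | h | h)
      · exact Or.inl ⟨y, h1, by omega, h3⟩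
      · exact Or.inr ⟨y, h1, by omega, h3⟩
      · exact Or.inl ⟨_, by omega, by omega, h⟩
      · exact Or.inr ⟨_, by omega, by omega, h⟩
    · rintro (⟨y, h1, h2, h3⟩ | ⟨y, h1, h2, h3⟩)
      · by_cases h : y = y0 + k + 1
        · rw [h] at h3; exact Or.inr (Or.inl h3)
        · exact Or.inl (Or.inl ⟨y, h1, by omega, h3⟩)
      · by_cases h : y = y0 + k
        · rw [h] at h3; exact Or.inr (Or.inr h3)
        · exact Or.inl (Or.inr ⟨y, h1, by omega, h3⟩)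

lemma mem_bandL {n : ℕ} {p : Fin (n + 2)} {c c' : ℝ} {a b : ℕ} {e : Pr} :
    e ∈ bandL n p c c' a b ↔ e ∈ blockL n c 0 a ∨ e ∈ blockL (n + 1) c' (a + 1) b ∨
      e ∈ insL n p a := by
  rw [bandL, List.mem_append, List.mem_append]

/-- disjoint ports -/
def DisP (e e' : Pr) : Prop :=
  e.2.1 ≠ e'.2.1 ∧ e.2.1 ≠ e'.2.2 ∧ e.2.2 ≠ e'.2.1 ∧ e.2.2 ≠ e'.2.2

lemma tp_ne {i y i' y' : ℕ} {d d' : ZMod 4} (h : ¬(i = i' ∧ y = y' ∧ d = d')) :
    tp i y d ≠ tp i' y' d' := fun h' => h (tp_inj h')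

lemma dis_row_row {m m' : ℕ} {c c' : ℝ} {y y' : ℕ} (hy : y ≠ y') {e e' : Pr}
    (h : e ∈ rowL m c y) (h' : e' ∈ rowL m' c' y') : DisP e e' := by
  obtain ⟨i, rfl⟩ := mem_rowL.1 h
  obtain ⟨j, rfl⟩ := mem_rowL.1 h'
  exact ⟨tp_ne fun h => hy h.2.1, tp_ne fun h => hy h.2.1, tp_ne fun h => hy h.2.1,
    tp_ne fun h => hy h.2.1⟩

lemma dis_row_ver {m m' : ℕ} {c : ℝ} {y y' : ℕ} {e e' : Pr}
    (h : e ∈ rowL m c y) (h' : e' ∈ verL m' y') : DisP e e' := by
  obtain ⟨i, rfl⟩ := mem_rowL.1 h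
  obtain ⟨j, rfl⟩ := mem_verL.1 h'
  exact ⟨tp_ne fun h => absurd h.2.2 (by decide), tp_ne fun h => absurd h.2.2 (by decide),
    tp_ne fun h => absurd h.2.2 (by decide), tp_ne fun h => absurd h.2.2 (by decide)⟩

lemma dis_row_ins {m n : ℕ} {c : ℝ} {y : ℕ} {p : Fin (n + 2)} {a : ℕ} {e e' : Pr}
    (h : e ∈ rowL m c y) (h' : e' ∈ insL n p a) : DisP e e' := by
  obtain ⟨i, rfl⟩ := mem_rowL.1 h
  obtain ⟨j, rfl⟩ := mem_insL.1 h'
  exact ⟨tp_ne fun h => absurd h.2.2 (by decide), tp_ne fun h => absurd h.2.2 (by decide),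
    tp_ne fun h => absurd h.2.2 (by decide), tp_ne fun h => absurd h.2.2 (by decide)⟩

lemma dis_ver_ver {m m' : ℕ} {y y' : ℕ} (hy : y ≠ y') {e e' : Pr}
    (h : e ∈ verL m y) (h' : e' ∈ verL m' y') : DisP e e' := by
  obtain ⟨i, rfl⟩ := mem_verL.1 h
  obtain ⟨j, rfl⟩ := mem_verL.1 h'
  exact ⟨tp_ne fun h => hy h.2.1, tp_ne fun h => absurd h.2.2 (by decide),
    tp_ne fun h => absurd h.2.2 (by decide), tp_ne fun h => hy (by omega)⟩

lemma dis_ver_ins {m n : ℕ} {y : ℕ} {p : Fin (n + 2)} {a : ℕ} (hy : y ≠ a) {e e' : Pr}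
    (h : e ∈ verL m y) (h' : e' ∈ insL n p a) : DisP e e' := by
  obtain ⟨i, rfl⟩ := mem_verL.1 h
  obtain ⟨j, rfl⟩ := mem_insL.1 h'
  exact ⟨tp_ne fun h => hy h.2.1, tp_ne fun h => absurd h.2.2 (by decide),
    tp_ne fun h => absurd h.2.2 (by decide), tp_ne fun h => hy (by omega)⟩

lemma DisP.symm {e e' : Pr} (h : DisP e e') : DisP e' e :=
  ⟨h.1.symm, h.2.2.1.symm, h.2.1.symm, h.2.2.2.symm⟩

lemma dis_rowL (m : ℕ) (c : ℝ) (y : ℕ) : Dis (rowL m c y) := by
  unfold Dis rowL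
  rw [List.pairwise_ofFn]
  intro i j hij
  refine ⟨tp_ne fun h => hij.ne (Fin.ext h.1), tp_ne fun h => absurd h.2.2 (by decide),
    tp_ne fun h => absurd h.2.2 (by decide), tp_ne fun h => hij.ne ?_⟩
  exact sub_left_injective (Fin.ext h.1)

lemma dis_verL (m : ℕ) (y : ℕ) : Dis (verL m y) := by
  unfold Dis verL
  rw [List.pairwise_ofFn]
  intro i j hij
  exact ⟨tp_ne fun h => hij.ne (Fin.ext h.1), tp_ne fun h => absurd h.2.2 (by decide),
    tp_ne fun h => absurd h.2.2 (by decide), tp_ne fun h => hij.ne (Fin.ext h.1)⟩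

lemma dis_insL (n : ℕ) (p : Fin (n + 2)) (a : ℕ) : Dis (insL n p a) := by
  unfold Dis insL
  rw [List.pairwise_ofFn]
  intro i j hij
  exact ⟨tp_ne fun h => hij.ne (Fin.ext h.1), tp_ne fun h => absurd h.2.2 (by decide),
    tp_ne fun h => absurd h.2.2 (by decide), tp_ne fun h => hij.ne
      (Fin.succAbove_right_injective (Fin.ext h.1))⟩

lemma dis_blockL (m : ℕ) (c : ℝ) (y0 : ℕ) : ∀ k : ℕ, Dis (blockL m c y0 k) := by
  intro k
  induction k with
  | zero => exact dis_rowL m c y0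
  | succ k ih =>
    rw [blockL]
    unfold Dis
    rw [List.pairwise_append, List.pairwise_append]
    refine ⟨ih, ⟨dis_rowL _ _ _, dis_verL _ _, fun e he e' he' => dis_row_ver he he'⟩, ?_⟩
    intro e he e' he'
    rw [List.mem_append] at he'
    rcases mem_blockL.1 he with ⟨y, h1, h2, h3⟩ | ⟨y, h1, h2, h3⟩ <;> rcases he' with h4 | h4
    · exact dis_row_row (by omega) h3 h4
    · exact dis_row_ver h3 h4
    · exact (dis_row_ver h4 h3).symm
    · exact dis_ver_ver (by omega) h3 h4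

theorem dis_bandL (n : ℕ) (p : Fin (n + 2)) (c c' : ℝ) (a b : ℕ) : Dis (bandL n p c c' a b) := by
  unfold bandL Dis
  rw [List.pairwise_append, List.pairwise_append]
  refine ⟨dis_blockL _ _ _ _, ⟨dis_blockL _ _ _ _, dis_insL _ _ _, ?_⟩, ?_⟩
  · intro e he e' he'
    rcases mem_blockL.1 he with ⟨y, h1, h2, h3⟩ | ⟨y, h1, h2, h3⟩
    · exact dis_row_ins h3 he'
    · exact dis_ver_ins (by omega) h3 he'
  · intro e he e' he'
    rw [List.mem_append] at he'
    rcases mem_blockL.1 he with ⟨y, h1, h2, h3⟩ | ⟨y, h1, h2, h3⟩ <;> rcases he' with h4 | h4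
    · rcases mem_blockL.1 h4 with ⟨z, k1, k2, k3⟩ | ⟨z, k1, k2, k3⟩
      · exact dis_row_row (by omega) h3 k3
      · exact dis_row_ver h3 k3
    · exact dis_row_ins h3 h4
    · rcases mem_blockL.1 h4 with ⟨z, k1, k2, k3⟩ | ⟨z, k1, k2, k3⟩
      · exact (dis_row_ver k3 h3).symm
      · exact dis_ver_ver (by omega) h3 k3
    · exact dis_ver_ins (by omega) h3 h4

lemma ne_bandL {n : ℕ} {p : Fin (n + 2)} {c c' : ℝ} {a b : ℕ} {e : Pr}
    (h : e ∈ bandL n p c c' a b) : e.2.1 ≠ e.2.2 := by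
  have hr : ∀ {m : ℕ} {c : ℝ} {y : ℕ} {e : Pr}, e ∈ rowL m c y → e.2.1 ≠ e.2.2 := by
    intro m c y e h
    obtain ⟨i, rfl⟩ := mem_rowL.1 h
    exact tp_ne fun h => absurd h.2.2 (by decide)
  have hv : ∀ {m : ℕ} {y : ℕ} {e : Pr}, e ∈ verL m y → e.2.1 ≠ e.2.2 := by
    intro m y e h
    obtain ⟨i, rfl⟩ := mem_verL.1 h
    exact tp_ne fun h => absurd h.2.2 (by decide)
  rcases mem_bandL.1 h with h | h | h
  · rcases mem_blockL.1 h with ⟨y, h1, h2, h3⟩ | ⟨y, h1, h2, h3⟩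
    · exact hr h3
    · exact hv h3
  · rcases mem_blockL.1 h with ⟨y, h1, h2, h3⟩ | ⟨y, h1, h2, h3⟩
    · exact hr h3
    · exact hv h3
  · obtain ⟨i, rfl⟩ := mem_insL.1 h
    exact tp_ne fun h => absurd h.2.2 (by decide)

end Crest.Agent.R158.Ao857
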