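import Crest.Agent.R158.Ao4_857

/-!
# Row 158: operations (glueings and cuts), renaming, mixed contraction (helper857)

* `Op P` : glueing `inl (χ, a, b)` or cut `inr (φ, p)`; `opF`, `opL`
* `opL_perm`, `opL_mul_right`, `opL_mul_left`
* `opL_ren`, `tilesF_ren` : injective renaming of the ports / tiles
* `mix_eval` : `m` ends, some glued, some cut, as one sum over `Fin m → Bool`
-/

set_option autoImplicit false

noncomputable section

open Finset Matrix

namespace Crest.Agent.R158.Ao857

open Crest.Agent.R158.Ad350
open Crest.Agent.R158.Ad350.St (glueL glueL_nil glueL_cons glueL_smul)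
open Crest.Agent.R158.Sw300 (Port)
open Crest.Agent.R158.Bd932 (That e3 ins lsum)

section

variable {P : Type*} [DecidableEq P]

/-- operations: glueing `(χ, a, b)` or cut `(φ, p)` -/
abbrev Op (P : Type*) := (ℝ × P × P) ⊕ (ℝ × P)

/-- ports used by an operation -/
def Op.pts {P : Type*} : Op P → List P
  | Sum.inl e => [e.2.1, e.2.2]
  | Sum.inr e => [e.2]

/-- action of an operation -/
def opF (o : Op P) (F : (P → Bool) → ℂ) : (P → Bool) → ℂ :=
  match o with
  | Sum.inl e => ctr e.1 e.2.1 e.2.2 F
  | Sum.inr e => cut e.1 e.2 F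

@[simp] lemma opF_inl (e : ℝ × P × P) (F : (P → Bool) → ℂ) :
    opF (Sum.inl e) F = ctr e.1 e.2.1 e.2.2 F := rfl
@[simp] lemma opF_inr (e : ℝ × P) (F : (P → Bool) → ℂ) : opF (Sum.inr e) F = cut e.1 e.2 F := rfl

/-- list of operations -/
def opL (l : List (Op P)) (F : (P → Bool) → ℂ) : (P → Bool) → ℂ :=
  l.foldl (fun F o => opF o F) F

@[simp] lemma opL_nil (F : (P → Bool) → ℂ) : opL [] F = F := rfl
@[simp] lemma opL_cons (o : Op P) (l : List (Op P)) (F : (P → Bool) → ℂ) :
    opL (o :: l) F = opL l (opF o F) := rfl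

lemma opL_append (l l' : List (Op P)) (F : (P → Bool) → ℂ) :
    opL (l ++ l') F = opL l' (opL l F) := by
  unfold opL
  rw [List.foldl_append]

lemma opL_glueL (l : List (ℝ × P × P)) : ∀ F : (P → Bool) → ℂ,
    opL (l.map Sum.inl) F = glueL l F := by
  induction l with
  | nil => intro F; rfl
  | cons e l ih => intro F; rw [List.map_cons, opL_cons, glueL_cons, ih]; rfl

lemma cut_mul_right {F G : (P → Bool) → ℂ} {A : Set P} (hG : Sees G A) (φ : ℝ) {p : P}
    (hp : p ∉ A) : cut φ p (fun σ => F σ * G σ) = fun σ => cut φ p F σ * G σ := by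
  funext σ
  simp only [cut, Finset.sum_mul]
  refine Finset.sum_congr rfl fun τ _ => ?_
  rw [hG.update hp]
  ring

lemma opL_mul_right {G : (P → Bool) → ℂ} {A : Set P} (hG : Sees G A) :
    ∀ (l : List (Op P)), (∀ o ∈ l, ∀ q ∈ o.pts, q ∉ A) → ∀ F : (P → Bool) → ℂ,
    opL l (fun σ => F σ * G σ) = fun σ => opL l F σ * G σ := by
  intro l
  induction l with
  | nil => intro _ F; rfl
  | cons o l ih =>
    intro h F
    have h1 := h o List.mem_cons_self
    have h2 := ih (fun o' ho' => h o' (List.mem_cons_of_mem _ ho'))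
    rw [opL_cons, opL_cons]
    cases o with
    | inl e =>
      rw [opF_inl, opF_inl, ctr_mul_right hG e.1 (h1 _ (by simp [Op.pts]))
        (h1 _ (by simp [Op.pts])), h2]
    | inr e =>
      rw [opF_inr, opF_inr, cut_mul_right hG e.1 (h1 _ (by simp [Op.pts])), h2]

lemma opL_mul_left {G : (P → Bool) → ℂ} {A : Set P} (hG : Sees G A) (l : List (Op P))
    (h : ∀ o ∈ l, ∀ q ∈ o.pts, q ∉ A) (F : (P → Bool) → ℂ) :
    opL l (fun σ => G σ * F σ) = fun σ => G σ * opL l F σ := by
  have e : (fun σ => G σ * F σ) = fun σ => F σ * G σ := by funext σ; ring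
  rw [e, opL_mul_right hG l h F]
  funext σ
  ring

/-! ### what the result sees -/

lemma ctr_sees {F : (P → Bool) → ℂ} {A : Set P} (hF : Sees F A) (χ : ℝ) (a b : P) :
    Sees (ctr χ a b F) (A \ {a, b}) := by
  intro σ σ' h
  simp only [ctr]
  refine Finset.sum_congr rfl fun τ _ => ?_
  congr 1
  refine hF _ _ fun q hq => ?_
  by_cases hb : q = b
  · subst hb; simp
  · by_cases ha : q = a
    · subst ha
      rw [Function.update_of_ne hb, Function.update_self, Function.update_of_ne hb,
        Function.update_self]
    · rw [Function.update_of_ne hb, Function.update_of_ne ha, Function.update_of_ne hb,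
        Function.update_of_ne ha]
      exact h q ⟨hq, by simp [ha, hb]⟩

lemma cut_sees {F : (P → Bool) → ℂ} {A : Set P} (hF : Sees F A) (φ : ℝ) (p : P) :
    Sees (cut φ p F) (A \ {p}) := by
  intro σ σ' h
  simp only [cut]
  refine Finset.sum_congr rfl fun τ _ => ?_
  congr 1
  refine hF _ _ fun q hq => ?_
  by_cases hb : q = p
  · subst hb; simp
  · rw [Function.update_of_ne hb, Function.update_of_ne hb]
    exact h q ⟨hq, by simpa using hb⟩

lemma opL_sees {A : Set P} : ∀ (l : List (Op P)) {F : (P → Bool) → ℂ}, Sees F A →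
    Sees (opL l F) A := by
  intro l
  induction l with
  | nil => intro F hF; exact hF
  | cons o l ih =>
    intro F hF
    rw [opL_cons]
    apply ih
    cases o with
    | inl e => exact (ctr_sees hF _ _ _).mono Set.sdiff_subset
    | inr e => exact (cut_sees hF _ _).mono Set.sdiff_subset

/-! ### order -/

/-- operations with pairwise disjoint ports -/
def DisO (l : List (Op P)) : Prop := l.Pairwise fun o o' => ∀ q ∈ o.pts, q ∉ o'.pts

lemma opF_comm {o o' : Op P} (h : ∀ q ∈ o.pts, q ∉ o'.pts) (F : (P → Bool) → ℂ) :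
    opF o (opF o' F) = opF o' (opF o F) := by
  cases o with
  | inl e =>
    cases o' with
    | inl e' =>
      simp only [opF_inl]
      have h1 := h e.2.1 (by simp [Op.pts])
      have h2 := h e.2.2 (by simp [Op.pts])
      simp only [Op.pts, List.mem_cons, List.not_mem_nil, or_false, not_or] at h1 h2
      exact ctr_comm _ _ h1.1 h2.1 h1.2 h2.2 F
    | inr e' =>
      simp only [opF_inl, opF_inr]
      have h1 := h e.2.1 (by simp [Op.pts])
      have h2 := h e.2.2 (by simp [Op.pts])
      simp only [Op.pts, List.mem_cons, List.not_mem_nil, or_false] at h1 h2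
      exact (cut_ctr _ _ h1 h2 F).symm
  | inr e =>
    cases o' with
    | inl e' =>
      simp only [opF_inl, opF_inr]
      have h1 := h e.2 (by simp [Op.pts])
      simp only [Op.pts, List.mem_cons, List.not_mem_nil, or_false, not_or] at h1
      exact cut_ctr _ _ (Ne.symm h1.1) (Ne.symm h1.2) F
    | inr e' =>
      simp only [opF_inr]
      have h1 := h e.2 (by simp [Op.pts])
      simp only [Op.pts, List.mem_cons, List.not_mem_nil, or_false] at h1
      exact cut_comm _ _ h1 F

theorem opL_perm {l l' : List (Op P)} (h : l.Perm l') (hd : DisO l) :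
    ∀ F : (P → Bool) → ℂ, opL l F = opL l' F := by
  induction h with
  | nil => intro F; rfl
  | cons e h ih =>
    intro F
    rw [opL_cons, opL_cons]
    exact ih (List.pairwise_cons.1 hd).2 _
  | swap e e' l =>
    intro F
    rw [opL_cons, opL_cons, opL_cons, opL_cons]
    have h1 := (List.pairwise_cons.1 hd).1 e List.mem_cons_self
    rw [opF_comm (o := e) (o' := e') (fun q hq hq' => h1 q hq' hq)]
  | trans h h' ih ih' =>
    intro F
    rw [ih hd F]
    refine ih' ?_ F
    exact (h.pairwise_iff (fun {a b} hab q hq hq' => hab q hq' hq)).1 hd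

/-! ### renaming -/

variable {Q : Type*} [DecidableEq Q]

/-- renamed operation -/
def Op.ren {P Q : Type*} (f : P → Q) : Op P → Op Q
  | Sum.inl e => Sum.inl (e.1, f e.2.1, f e.2.2)
  | Sum.inr e => Sum.inr (e.1, f e.2)

lemma update_comp {f : P → Q} (hf : Function.Injective f) (σ : Q → Bool) (a : P) (v : Bool) :
    Function.update σ (f a) v ∘ f = Function.update (σ ∘ f) a v := by
  funext q
  by_cases h : q = a
  · subst h; simp
  · simp only [Function.comp]
    rw [Function.update_of_ne h, Function.update_of_ne (fun e => h (hf e))]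
    rfl

lemma opF_ren {f : P → Q} (hf : Function.Injective f) (o : Op P) (F : (P → Bool) → ℂ) :
    opF (o.ren f) (fun σ => F (σ ∘ f)) = fun σ => opF o F (σ ∘ f) := by
  funext σ
  cases o with
  | inl e =>
    simp only [Op.ren, opF_inl, ctr]
    refine Finset.sum_congr rfl fun τ _ => ?_
    rw [update_comp hf, update_comp hf]
  | inr e =>
    simp only [Op.ren, opF_inr, cut]
    refine Finset.sum_congr rfl fun τ _ => ?_
    rw [update_comp hf]

theorem opL_ren {f : P → Q} (hf : Function.Injective f) (l : List (Op P)) :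
    ∀ F : (P → Bool) → ℂ, opL (l.map (Op.ren f)) (fun σ => F (σ ∘ f)) =
      fun σ => opL l F (σ ∘ f) := by
  induction l with
  | nil => intro F; rfl
  | cons o l ih =>
    intro F
    rw [List.map_cons, opL_cons, opF_ren hf, ih, opL_cons]

end

/-- tile map on ports -/
def tpm {T T' : Type*} (g : T → T') : Port T → Port T' := Option.map fun y => (g y.1, y.2)

lemma tpm_inj {T T' : Type*} {g : T → T'} (hg : Function.Injective g) :
    Function.Injective (tpm g) := by
  apply Option.map_injective
  intro x y h
  simp only [Prod.mk.injEq] at h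
  exact Prod.ext (hg h.1) h.2

lemma tilesF_ren {T T' : Type*} [DecidableEq T] [DecidableEq T'] (g : T ↪ T') (A : Finset T)
    (σ : Port T' → Bool) : tilesF (A.map g) σ = tilesF A (σ ∘ tpm g) := by
  unfold tilesF
  rw [Finset.prod_map]
  rfl

/-! ### mixed contraction -/

section

variable {P : Type*} [DecidableEq P]

lemma Blind.opF {F : (P → Bool) → ℂ} {p : P} (h : Blind F p) (o : Op P) :
    Blind (Ao857.opF o F) p := by
  cases o with
  | inl e => exact h.ctr _ _ _
  | inr e => exact h.cut _ _

/-- `m` ends `y i`, glued to `x i` (phase `χ i` when the arrow leaves through `x i`) or cut (phase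
`φ i`) -/
theorem mix_eval : ∀ {m : ℕ} (D : Fin m → Prop) [DecidablePred D] (χ φ : Fin m → ℝ)
    (x y : Fin m → P), Function.Injective x → Function.Injective y → (∀ i j, x i ≠ y j) →
    ∀ (F : (P → Bool) → ℂ), (∀ i, ¬ D i → Blind F (x i)) → ∀ (σ : P → Bool),
    opL (List.ofFn fun i => if D i then (Sum.inl (χ i, x i, y i) : Op P)
        else Sum.inr (φ i, y i)) F σ =
      ∑ τ : Fin m → Bool, (∏ i, if D i then ei (χ i * sg (τ i)) else ei (φ i * sg (!τ i))) *
        F (ovr x τ (ovr y (fun i => !τ i) σ)) := by
  intro m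
  induction m with
  | zero =>
    intro D _ χ φ x y _ _ _ F _ σ
    rw [List.ofFn_zero, opL_nil]
    simp only [univ_unique, prod_of_isEmpty, one_mul, sum_singleton]
    rfl
  | succ m ih =>
    intro D _ χ φ x y hx hy hxy F hF σ
    have hx' : Function.Injective fun i : Fin m => x i.succ := fun i j h =>
      Fin.succ_injective _ (hx h)
    have hy' : Function.Injective fun i : Fin m => y i.succ := fun i j h =>
      Fin.succ_injective _ (hy h)
    rw [List.ofFn_succ, opL_cons, ih (fun i => D i.succ) (fun i => χ i.succ) (fun i => φ i.succ)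
      (fun i => x i.succ) (fun i => y i.succ) hx' hy' (fun i j => hxy _ _) _
      (fun i hi => Blind.opF (hF i.succ hi) _), ← (Fin.consEquiv
      fun _ : Fin (m + 1) => Bool).sum_comp, Fintype.sum_prod_type, Finset.sum_comm]
    refine Finset.sum_congr rfl fun τ _ => ?_
    have e : ∀ τ0 : Bool, Function.update (Function.update (ovr (fun i => x i.succ) τ
        (ovr (fun i => y i.succ) (fun i => !τ i) σ)) (x 0) τ0) (y 0) (!τ0) =
        ovr x (Fin.cons τ0 τ : Fin (m + 1) → Bool)
          (ovr y (fun i => !(Fin.cons τ0 τ : Fin (m + 1) → Bool) i) σ) := by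
      intro τ0
      funext q
      by_cases h1 : q = y 0
      · subst h1
        rw [Function.update_self, ovr_ne _ _ (fun i => hxy i 0), ovr_self hy]
        rfl
      · rw [Function.update_of_ne h1]
        by_cases h2 : q = x 0
        · subst h2
          rw [Function.update_self, ovr_self hx]
          rfl
        · rw [Function.update_of_ne h2]
          by_cases h3 : ∃ i : Fin m, x i.succ = q
          · obtain ⟨i, rfl⟩ := h3
            rw [ovr_self hx, ovr_self (x := fun i : Fin m => x i.succ) hx' τ _ i]
            rfl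
          · rw [not_exists] at h3
            rw [ovr_ne (x := fun i : Fin m => x i.succ) _ _ h3, ovr_ne (x := x) _ _ (fun i => by
              refine Fin.cases (fun h => h2 h.symm) (fun i => h3 i) i)]
            by_cases h4 : ∃ i : Fin m, y i.succ = q
            · obtain ⟨i, rfl⟩ := h4
              rw [ovr_self hy, ovr_self (x := fun i : Fin m => y i.succ) hy' _ _ i]
              rfl
            · rw [not_exists] at h4
              rw [ovr_ne (x := fun i : Fin m => y i.succ) _ _ h4, ovr_ne (x := y) _ _
                (fun i => by refine Fin.cases (fun h => h1 h.symm) (fun i => h4 i) i)]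
    have key : ∀ σ' : P → Bool, Ao857.opF (if D 0 then (Sum.inl (χ 0, x 0, y 0) : Op P)
        else Sum.inr (φ 0, y 0)) F σ' = ∑ τ0 : Bool, (if D 0 then ei (χ 0 * sg τ0)
          else ei (φ 0 * sg (!τ0))) *
          F (Function.update (Function.update σ' (x 0) τ0) (y 0) (!τ0)) := by
      intro σ'
      by_cases hD : D 0
      · simp only [if_pos hD, opF_inl, ctr]
      · simp only [if_neg hD, opF_inr, cut]
        rw [Fintype.sum_bool, Fintype.sum_bool, add_comm]
        have hb := hF 0 hD
        have e2 : ∀ τ0 v : Bool, F (Function.update (Function.update σ' (x 0) τ0) (y 0) v) =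
            F (Function.update σ' (y 0) v) := by
          intro τ0 v
          rw [Function.update_comm (hxy 0 0)]
          exact hb _ _
        rw [e2, e2]
        rfl
    rw [key, Finset.mul_sum]
    refine Finset.sum_congr rfl fun τ0 _ => ?_
    rw [Fin.prod_univ_succ]
    rw [e]
    change _ = (_ * ∏ i : Fin m, if D i.succ then ei (χ i.succ * sg (τ i)) else
      ei (φ i.succ * sg (!τ i))) * F (ovr x (Fin.cons τ0 τ : Fin (m + 1) → Bool)
          (ovr y (fun i => !(Fin.cons τ0 τ : Fin (m + 1) → Bool) i) σ))
    have e4 : (Fin.consEquiv fun _ : Fin (m + 1) => Bool) (τ0, τ) 0 = τ0 := rfl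
    rw [e4]
    ring

end

end Crest.Agent.R158.Ao857
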