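import Crest.Agent.R158.Ao5_857

/-!
# Row 158: composition `Out ⬝ (K *ᵥ In)` as one network (helper857)

* `opL_congr` : equality on the configurations with a fixed arrow
* `InV`, `OutV` : vectors of the lower / upper part (glued columns, cut columns)
* `lowOps`, `upOps` : operations joining the kernel to the two parts
* `compose` : `opL (lowOps ++ upOps) (F_low * ker K * F_up) = OutV ⬝ᵥ (K *ᵥ InV)`
-/

set_option autoImplicit false

noncomputable section

open Finset Matrix

namespace Crest.Agent.R158.Ao857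

open Crest.Agent.R158.Ad350
open Crest.Agent.R158.Ad350.St (glueL glueL_nil glueL_cons glueL_smul)
open Crest.Agent.R158.Sw300 (Port)
open Crest.Agent.R158.Bd932 (That e3 ins lsum)

section

variable {P : Type*} [DecidableEq P]

/-- equality on the configurations with a fixed arrow -/
theorem opL_congr (p : P) (v : Bool) : ∀ (l : List (Op P)), (∀ o ∈ l, p ∉ o.pts) →
    ∀ {F G : (P → Bool) → ℂ}, (∀ σ, σ p = v → F σ = G σ) → ∀ σ, σ p = v →
    opL l F σ = opL l G σ := by
  intro l
  induction l with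
  | nil => intro _ F G h; exact h
  | cons o l ih =>
    intro hl F G h
    rw [opL_cons, opL_cons]
    refine ih (fun o' ho' => hl o' (List.mem_cons_of_mem _ ho')) ?_
    intro σ hσ
    have h1 := hl o List.mem_cons_self
    cases o with
    | inl e =>
      simp only [Op.pts, List.mem_cons, List.not_mem_nil, or_false, not_or] at h1
      simp only [opF_inl, ctr]
      refine Finset.sum_congr rfl fun τ _ => ?_
      rw [h]
      rw [Function.update_of_ne h1.2, Function.update_of_ne h1.1, hσ]
    | inr e =>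
      simp only [Op.pts, List.mem_cons, List.not_mem_nil, or_false] at h1
      simp only [opF_inr, cut]
      refine Finset.sum_congr rfl fun τ _ => ?_
      rw [h]
      rw [Function.update_of_ne h1, hσ]

/-- operations joining the lower ends `u` (glued to `x i` for `D i`, otherwise cut) -/
def joinOps {m : ℕ} (D : Fin m → Prop) [DecidablePred D] (φ : Fin m → ℝ) (x u : Fin m → P) :
    List (Op P) :=
  List.ofFn fun i => if D i then (Sum.inl (0, x i, u i) : Op P) else Sum.inr (φ i, u i)

/-- vector of the lower part: `t` = arrows (up = `true`) between the two parts -/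
def InV {m : ℕ} (D : Fin m → Prop) [DecidablePred D] (φ : Fin m → ℝ) (x : Fin m → P)
    (F : (P → Bool) → ℂ) (σ : P → Bool) (t : Fin m → Bool) : ℂ :=
  (∏ i, if D i then 1 else ei (φ i * sg (!t i))) * F (ovr x t σ)

/-- covector of the upper part -/
def OutV {m : ℕ} (D : Fin m → Prop) [DecidablePred D] (φ : Fin m → ℝ) (v : Fin m → P)
    (F : (P → Bool) → ℂ) (σ : P → Bool) (s : Fin m → Bool) : ℂ :=
  (∏ i, if D i then 1 else ei (φ i * sg (s i))) * F (ovr v (fun i => !s i) σ)

lemma sees_blind {F : (P → Bool) → ℂ} {A : Set P} (h : Sees F A) {p : P} (hp : p ∉ A) :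
    Blind F p := fun σ v => h.update hp σ v

/-- joining the lower part -/
theorem join_low {m k : ℕ} (K : Matrix (Fin k → Bool) (Fin m → Bool) ℂ) {w : Fin k → P}
    {u x : Fin m → P} (D : Fin m → Prop) [DecidablePred D] (φ : Fin m → ℝ)
    {F : (P → Bool) → ℂ} {A : Set P} (hF : Sees F A) (hx : Function.Injective x)
    (hu : Function.Injective u) (hxu : ∀ i j, x i ≠ u j) (hxw : ∀ i j, x i ≠ w j)
    (huw : ∀ i j, u i ≠ w j) (huA : ∀ i, u i ∉ A) (hxA : ∀ i, ¬ D i → x i ∉ A) :
    opL (joinOps D φ x u) (fun σ => F σ * ker K w u σ) =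
      fun σ => (K *ᵥ InV D φ x F σ) (fun i => σ (w i)) := by
  funext σ
  rw [joinOps, mix_eval D (fun _ => 0) φ x u hx hu hxu _ (fun i hi => ?_)]
  · rw [Matrix.mulVec, dotProduct]
    refine Finset.sum_congr rfl fun τ _ => ?_
    have e1 : F (ovr x τ (ovr u (fun i => !τ i) σ)) = F (ovr x τ σ) := by
      rw [ovr_comm hxu]
      exact hF.ovr huA _ _
    have e2 : ker K w u (ovr x τ (ovr u (fun i => !τ i) σ)) = K (fun i => σ (w i)) τ := by
      unfold ker
      congr 1
      · funext i
        rw [ovr_ne _ _ (fun j => hxw j i), ovr_ne _ _ (fun j => huw j i)]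
      · funext i
        rw [ovr_ne _ _ (fun j => hxu j i), ovr_self hu, Bool.not_not]
    have e3 : (∏ i, if D i then ei (0 * sg (τ i)) else ei (φ i * sg (!τ i))) =
        ∏ i, if D i then 1 else ei (φ i * sg (!τ i)) := by
      refine Finset.prod_congr rfl fun i _ => ?_
      rw [zero_mul, ei_zero]
    rw [e1, e2, e3, InV]
    ring
  · intro σ v
    have h1 : F (Function.update σ (x i) v) = F σ := hF.update (hxA i hi) σ v
    have h2 : ker K w u (Function.update σ (x i) v) = ker K w u σ := by
      refine (ker_sees K w u).update ?_ σ v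
      rintro (⟨j, hj⟩ | ⟨j, hj⟩)
      · exact hxw i j hj.symm
      · exact hxu i j hj.symm
    show F _ * ker K w u _ = F _ * ker K w u _
    rw [h1, h2]

/-- joining the upper part -/
theorem join_up {k : ℕ} {w v : Fin k → P} (D : Fin k → Prop) [DecidablePred D] (φ : Fin k → ℝ)
    {F : (P → Bool) → ℂ} {G : (P → Bool) → (Fin k → Bool) → ℂ} {A B : Set P} (hF : Sees F A)
    (hG : ∀ s, Sees (fun σ => G σ s) B) (hv : Function.Injective v)
    (hw : Function.Injective w) (hvw : ∀ i j, v i ≠ w j) (hwA : ∀ i, w i ∉ A)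
    (hvA : ∀ i, ¬ D i → v i ∉ A) (hwB : ∀ i, w i ∉ B) (hvB : ∀ i, v i ∉ B) :
    opL (joinOps D φ v w) (fun σ => G σ (fun i => σ (w i)) * F σ) =
      fun σ => OutV D φ v F σ ⬝ᵥ G σ := by
  funext σ
  rw [joinOps, mix_eval D (fun _ => 0) φ v w hv hw hvw _ (fun i hi => ?_)]
  · rw [dotProduct]
    have hb : Function.Bijective fun (τ : Fin k → Bool) => fun i => !τ i := by
      constructor
      · intro a b h
        funext i
        have := congrFun h i
        simpa using this
      · intro s
        exact ⟨fun i => !s i, by funext i; simp⟩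
    refine Fintype.sum_bijective _ hb _ _ fun τ => ?_
    have e1 : F (ovr v τ (ovr w (fun i => !τ i) σ)) = F (ovr v τ σ) := by
      rw [ovr_comm hvw]
      exact hF.ovr hwA _ _
    have e2 : G (ovr v τ (ovr w (fun i => !τ i) σ)) (fun i => ovr v τ
        (ovr w (fun i => !τ i) σ) (w i)) = G σ (fun i => !τ i) := by
      have h1 : (fun i => ovr v τ (ovr w (fun i => !τ i) σ) (w i)) = fun i => !τ i := by
        funext i
        rw [ovr_ne _ _ (fun j => hvw j i), ovr_self hw]
      rw [h1]
      have h2 := hG fun i => !τ i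
      exact (h2.ovr (x := v) hvB τ (ovr w (fun i => !τ i) σ)).trans
        (h2.ovr (x := w) hwB _ σ)
    have e3 : (∏ i, if D i then ei (0 * sg (τ i)) else ei (φ i * sg (!τ i))) =
        ∏ i, if D i then 1 else ei (φ i * sg (!τ i)) := by
      refine Finset.prod_congr rfl fun i _ => ?_
      rw [zero_mul, ei_zero]
    rw [e1, e2, e3, OutV]
    simp only [Bool.not_not]
    ring
  · intro σ v'
    have h1 : F (Function.update σ (v i) v') = F σ := hF.update (hvA i hi) σ v'
    have h2 : (fun j => Function.update σ (v i) v' (w j)) = fun j => σ (w j) := by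
      funext j
      exact Function.update_of_ne (fun e => hvw i j e.symm) _ _
    have h3 : G (Function.update σ (v i) v') (fun j => σ (w j)) = G σ (fun j => σ (w j)) :=
      (hG fun j => σ (w j)).update (hvB i) σ v'
    show G _ (fun j => Function.update σ (v i) v' (w j)) * F _ = _
    rw [h1, h2, h3]

lemma InV_sees {m : ℕ} (D : Fin m → Prop) [DecidablePred D] (φ : Fin m → ℝ) {x : Fin m → P}
    {F : (P → Bool) → ℂ} {A : Set P} (hF : Sees F A) (t : Fin m → Bool) :
    Sees (fun σ => InV D φ x F σ t) (A \ Set.range x) := by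
  intro σ σ' h
  show InV D φ x F σ t = InV D φ x F σ' t
  unfold InV
  congr 1
  refine hF _ _ fun q hq => ?_
  by_cases hq2 : ∃ i, x i = q
  · unfold ovr
    rw [dif_pos hq2, dif_pos hq2]
  · have hq3 : ∀ i, x i ≠ q := fun i e => hq2 ⟨i, e⟩
    rw [ovr_ne _ _ hq3, ovr_ne _ _ hq3]
    exact h q ⟨hq, fun ⟨i, hi⟩ => hq3 i hi⟩

/-- **composition** -/
theorem compose {m k : ℕ} (K : Matrix (Fin k → Bool) (Fin m → Bool) ℂ) {w v : Fin k → P}
    {u x : Fin m → P} (D : Fin m → Prop) [DecidablePred D] (φ : Fin m → ℝ)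
    (D' : Fin k → Prop) [DecidablePred D'] (φ' : Fin k → ℝ)
    {F F' : (P → Bool) → ℂ} {A A' : Set P} (hF : Sees F A) (hF' : Sees F' A')
    (hx : Function.Injective x) (hu : Function.Injective u) (hv : Function.Injective v)
    (hw : Function.Injective w) (hxu : ∀ i j, x i ≠ u j) (hxw : ∀ i j, x i ≠ w j)
    (huw : ∀ i j, u i ≠ w j) (hvw : ∀ i j, v i ≠ w j)
    (huA : ∀ i, u i ∉ A) (hxA : ∀ i, ¬ D i → x i ∉ A) (hwA : ∀ i, w i ∉ A) (hvA : ∀ i, v i ∉ A)
    (huA' : ∀ i, u i ∉ A') (hxA' : ∀ i, x i ∉ A') (hwA' : ∀ i, w i ∉ A')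
    (hvA' : ∀ i, ¬ D' i → v i ∉ A') :
    opL (joinOps D φ x u ++ joinOps D' φ' v w) (fun σ => (F σ * ker K w u σ) * F' σ) =
      fun σ => OutV D' φ' v F' σ ⬝ᵥ (K *ᵥ InV D φ x F σ) := by
  have h1 : ∀ o ∈ joinOps D φ x u, ∀ q ∈ o.pts, q ∉ A' := by
    intro o ho q hq
    unfold joinOps at ho
    rw [List.mem_ofFn] at ho
    obtain ⟨i, rfl⟩ := ho
    by_cases hD : D i
    · simp only [if_pos hD, Op.pts, List.mem_cons, List.not_mem_nil, or_false] at hq
      rcases hq with rfl | rfl
      · exact hxA' i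
      · exact huA' i
    · simp only [if_neg hD, Op.pts, List.mem_cons, List.not_mem_nil, or_false] at hq
      rw [hq]
      exact huA' i
  rw [opL_append, opL_mul_right hF' _ h1, join_low K D φ hF hx hu hxu hxw huw huA hxA]
  refine join_up D' φ' (G := fun σ => K *ᵥ InV D φ x F σ) (B := A) hF' ?_ hv hw hvw hwA' hvA'
    hwA hvA
  intro s σ σ' h
  show (K *ᵥ InV D φ x F σ) s = (K *ᵥ InV D φ x F σ') s
  have h3 : InV D φ x F σ = InV D φ x F σ' := by
    funext t
    exact InV_sees D φ hF t σ σ' fun q hq => h q hq.1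
  rw [h3]

end

end Crest.Agent.R158.Ao857
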