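import Crest.Agent.R158.Ao6_857
import Crest.Agent.R158.Env_664

/-!
# Row 158: the amplitude of `G^(z)` as `Out ⬝ (K *ᵥ In)` (helper857)

Over `Env664`: `B : Band A`, `z = (p, y0)`, `B.At p y0`, `Split B Al Au`.

* `gI B i y` : tile of the column `i` of the ring at height `y`
* `nn`, `aa`, `bb`, `pp` : `n + 1` = ring width below `z`, `a + 1`, `b + 1` rows below / above, gap
* `bandOps`, `joinLow`, `joinUp` : operations of the ring rows and of the two crosscuts
* `env_amp`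
-/

set_option autoImplicit false

noncomputable section

open Finset Matrix

namespace Crest.Agent.R158.Ao857

open Crest.Agent.R158.Ad350
open Crest.Agent.R158.Ad350.St (glueL glueL_nil glueL_cons glueL_smul)
open Crest.Agent.R158.Sw300 (Port)
open Crest.Agent.R158.Bd932 (That e3 ins lsum)
open Crest.Agent.R158.Env664 (TG Band Run)

variable {A : Finset (ℤ × ℤ)} (B : Band A)

/-- tile of the column `i` of the ring at height `y` -/
def gI (i : ℕ) (y : ℤ) : TG :=
  if (i : ℤ) ≤ B.xr - B.xl then Sum.inl (B.xl + i, y) else Sum.inr ((i : ℤ) - (B.xr - B.xl + 1), y)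

lemma gI_le {i : ℕ} (h : (i : ℤ) ≤ B.xr - B.xl) (y : ℤ) : gI B i y = Sum.inl (B.xl + i, y) :=
  if_pos h

lemma gI_gt {i : ℕ} (h : ¬ (i : ℤ) ≤ B.xr - B.xl) (y : ℤ) :
    gI B i y = Sum.inr ((i : ℤ) - (B.xr - B.xl + 1), y) := if_neg h

lemma gI_inj {i j : ℕ} {y z : ℤ} (h : gI B i y = gI B j z) : i = j ∧ y = z := by
  by_cases h1 : (i : ℤ) ≤ B.xr - B.xl <;> by_cases h2 : (j : ℤ) ≤ B.xr - B.xl
  · rw [gI_le B h1, gI_le B h2] at h
    have h3 := Sum.inl_injective h
    simp only [Prod.mk.injEq] at h3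
    omega
  · rw [gI_le B h1, gI_gt B h2] at h
    exact absurd h (by simp)
  · rw [gI_gt B h1, gI_le B h2] at h
    exact absurd h (by simp)
  · rw [gI_gt B h1, gI_gt B h2] at h
    have h3 := Sum.inr_injective h
    simp only [Prod.mk.injEq] at h3
    omega

/-- the tiles of the ring rows -/
def gB : ℕ × ℕ ↪ TG := ⟨fun t => gI B t.1 (B.y1 + t.2), fun s t h => by
  obtain ⟨h1, h2⟩ := gI_inj B h
  exact Prod.ext h1 (by omega)⟩

/-- `n + 1` = width of the ring below `z` -/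
def nn : ℕ := (B.xr - B.xl + B.R).toNat

/-- `a + 1` = number of rows below `z` -/
def aa (y0 : ℤ) : ℕ := (y0 - B.y1 - 1).toNat

/-- `b + 1` = number of rows above `z` -/
def bb (y0 : ℤ) : ℕ := (B.y2 - y0 - 1).toNat

/-- the gap of the leg -/
def pp (p : ℤ) : Fin (nn B + 2) := Fin.ofNat _ (p - B.xl).toNat

lemma le_run {p y0 : ℤ} (h : B.At p y0) : B.xl ≤ B.xr := by
  have := h.hp1; have := h.hp2; omega

lemma nn_eq {p y0 : ℤ} (h : B.At p y0) : (nn B : ℤ) = B.xr - B.xl + B.R := by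
  have := le_run B h
  have := B.hR
  unfold nn; omega

lemma aa_eq {p y0 : ℤ} (h : B.At p y0) : (aa B y0 : ℤ) = y0 - B.y1 - 1 := by
  have := h.hy1
  unfold aa; omega

lemma bb_eq {p y0 : ℤ} (h : B.At p y0) : (bb B y0 : ℤ) = B.y2 - y0 - 1 := by
  have := h.hy2
  unfold bb; omega

lemma pp_eq {p y0 : ℤ} (h : B.At p y0) : ((pp B p : ℕ) : ℤ) = p - B.xl := by
  have h1 := nn_eq B h
  have h2 := h.hp1
  have h3 := h.hp2
  have h4 := B.hR
  have h5 : (pp B p : ℕ) = (p - B.xl).toNat := by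
    unfold pp
    rw [Fin.val_ofNat]
    apply Nat.mod_eq_of_lt
    omega
  rw [h5]
  omega

/-- embedding of the tiles of the region -/
def inlE : (ℤ × ℤ) ↪ TG := ⟨Sum.inl, Sum.inl_injective⟩

lemma mem_inlE {C : Finset (ℤ × ℤ)} {t : ℤ × ℤ} : (Sum.inl t : TG) ∈ C.map inlE ↔ t ∈ C := by
  rw [Finset.mem_map]
  constructor
  · rintro ⟨s, hs, h⟩
    rwa [← Sum.inl_injective h]
  · intro h
    exact ⟨t, h, rfl⟩

lemma not_inlE {C : Finset (ℤ × ℤ)} {t : ℤ × ℤ} : (Sum.inr t : TG) ∉ C.map inlE := by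
  rw [Finset.mem_map]
  rintro ⟨s, -, h⟩
  exact absurd h (by simp [inlE])

/-- tiles of the ring rows -/
def bandM (y0 : ℤ) : Finset TG := (bandT (nn B) (aa B y0) (bb B y0)).map (gB B)

lemma mem_bandT {n a b : ℕ} {t : ℕ × ℕ} : t ∈ bandT n a b ↔
    (t.1 < n + 1 ∧ t.2 < a + 1) ∨ (t.1 < n + 2 ∧ a + 1 ≤ t.2 ∧ t.2 < a + 1 + b + 1) := by
  rw [bandT, Finset.mem_union, mem_blockT, mem_blockT]
  omega

lemma gI_mem_band {p y0 : ℤ} (h : B.At p y0) {i : ℕ} {y : ℤ} :
    gI B i y ∈ bandM B y0 ↔ (i ≤ nn B ∧ B.y1 ≤ y ∧ y < y0) ∨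
      (i ≤ nn B + 1 ∧ y0 ≤ y ∧ y < B.y2) := by
  have ha := aa_eq B h
  have hb := bb_eq B h
  have h1 := h.hy1
  have h2 := h.hy2
  unfold bandM
  rw [Finset.mem_map]
  constructor
  · rintro ⟨⟨j, k⟩, hm, he⟩
    rw [mem_bandT] at hm
    obtain ⟨e1, e2⟩ := gI_inj B he
    simp only at e1 e2 hm
    omega
  · intro hm
    refine ⟨(i, (y - B.y1).toNat), ?_, ?_⟩
    · rw [mem_bandT]
      simp only
      omega
    · show gI B i (B.y1 + ((y - B.y1).toNat : ℤ)) = gI B i y
      congr 1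
      omega

lemma inl_mem_band {p y0 : ℤ} (h : B.At p y0) {x y : ℤ} :
    (Sum.inl (x, y) : TG) ∈ bandM B y0 ↔ B.xl ≤ x ∧ x ≤ B.xr ∧ B.y1 ≤ y ∧ y < B.y2 := by
  have hn := nn_eq B h
  have hR := B.hR
  have h1 := h.hy1
  have h2 := h.hy2
  by_cases hx : B.xl ≤ x ∧ x ≤ B.xr
  · have e : (Sum.inl (x, y) : TG) = gI B (x - B.xl).toNat y := by
      rw [gI_le B (by omega)]
      congr 2
      omega
    rw [e, gI_mem_band B h]
    omega
  · constructor
    · intro hm
      exfalso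
      unfold bandM at hm
      rw [Finset.mem_map] at hm
      obtain ⟨⟨j, k⟩, hm, he⟩ := hm
      by_cases hj : (j : ℤ) ≤ B.xr - B.xl
      · have he' : gI B j (B.y1 + (k : ℤ)) = Sum.inl (x, y) := he
        rw [gI_le B hj] at he'
        have := Sum.inl_injective he'
        simp only [Prod.mk.injEq] at this
        omega
      · have he' : gI B j (B.y1 + (k : ℤ)) = Sum.inl (x, y) := he
        rw [gI_gt B hj] at he'
        exact absurd he' (by simp)
    · intro hm; omega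

lemma inr_mem_band {p y0 : ℤ} (h : B.At p y0) {i y : ℤ} :
    (Sum.inr (i, y) : TG) ∈ bandM B y0 ↔ B.y1 ≤ y ∧ y < B.y2 ∧ 0 ≤ i ∧ i < B.wd y0 y := by
  have hn := nn_eq B h
  have hR := B.hR
  have h0 := le_run B h
  have h1 := h.hy1
  have h2 := h.hy2
  have hwd : B.wd y0 y = if y < y0 then B.R else B.R + 1 := rfl
  by_cases hx : 0 ≤ i
  · have e : (Sum.inr (i, y) : TG) = gI B (i + (B.xr - B.xl + 1)).toNat y := by
      rw [gI_gt B (by omega)]
      congr 2
      omega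
    rw [e, gI_mem_band B h, hwd]
    split_ifs <;> omega
  · constructor
    · intro hm
      exfalso
      unfold bandM at hm
      rw [Finset.mem_map] at hm
      obtain ⟨⟨j, k⟩, hm, he⟩ := hm
      by_cases hj : (j : ℤ) ≤ B.xr - B.xl
      · have he' : gI B j (B.y1 + (k : ℤ)) = Sum.inr (i, y) := he
        rw [gI_le B hj] at he'
        exact absurd he' (by simp)
      · have he' : gI B j (B.y1 + (k : ℤ)) = Sum.inr (i, y) := he
        rw [gI_gt B hj] at he'
        have := Sum.inr_injective he'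
        simp only [Prod.mk.injEq] at this
        omega
    · intro hm; omega

/-- the region is the union of the lower part, the band and the upper part -/
structure Split (Al Au : Finset (ℤ × ℤ)) : Prop where
  part : ∀ x y : ℤ, (x, y) ∈ A ↔ (x, y) ∈ Al ∨ (x, y) ∈ Au ∨
    (B.xl ≤ x ∧ x ≤ B.xr ∧ B.y1 ≤ y ∧ y < B.y2)
  disj : Disjoint Al Au
  dl : ∀ x y : ℤ, (x, y) ∈ Al → ¬ (B.xl ≤ x ∧ x ≤ B.xr ∧ B.y1 ≤ y ∧ y < B.y2)
  du : ∀ x y : ℤ, (x, y) ∈ Au → ¬ (B.xl ≤ x ∧ x ≤ B.xr ∧ B.y1 ≤ y ∧ y < B.y2)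
  nl : ∀ x : ℤ, B.xl ≤ x → x ≤ B.xr → (x, B.y2) ∉ Al
  nu : ∀ x : ℤ, B.xl ≤ x → x ≤ B.xr → (x, B.y1 - 1) ∉ Au

variable {B}

lemma Split.tG_eq {Al Au : Finset (ℤ × ℤ)} (hs : Split B Al Au) {p y0 : ℤ} (h : B.At p y0) :
    B.tG y0 = (Al.map inlE ∪ bandM B y0) ∪ Au.map inlE := by
  ext t
  rw [Finset.mem_union, Finset.mem_union]
  rcases t with ⟨x, y⟩ | ⟨i, y⟩
  · rw [B.inl_mem, mem_inlE, mem_inlE, inl_mem_band B h, hs.part]
    tauto
  · rw [B.inr_mem, inr_mem_band B h]
    have h1 := not_inlE (C := Al) (t := (i, y))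
    have h2 := not_inlE (C := Au) (t := (i, y))
    tauto

lemma Split.disj_lb {Al Au : Finset (ℤ × ℤ)} (hs : Split B Al Au) {p y0 : ℤ} (h : B.At p y0) :
    Disjoint (Al.map inlE) (bandM B y0) := by
  rw [Finset.disjoint_left]
  rintro (⟨x, y⟩ | ⟨i, y⟩) h1 h2
  · rw [mem_inlE] at h1
    rw [inl_mem_band B h] at h2
    exact hs.dl x y h1 h2
  · exact not_inlE h1

lemma Split.disj_ub {Al Au : Finset (ℤ × ℤ)} (hs : Split B Al Au) {p y0 : ℤ} (h : B.At p y0) :
    Disjoint (Au.map inlE) (bandM B y0) := by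
  rw [Finset.disjoint_left]
  rintro (⟨x, y⟩ | ⟨i, y⟩) h1 h2
  · rw [mem_inlE] at h1
    rw [inl_mem_band B h] at h2
    exact hs.du x y h1 h2
  · exact not_inlE h1

lemma Split.disj_lu {Al Au : Finset (ℤ × ℤ)} (hs : Split B Al Au) :
    Disjoint (Al.map inlE) (Au.map inlE) := (Finset.disjoint_map inlE).2 hs.disj

lemma ports_disj {T : Type*} [DecidableEq T] {C C' : Finset T} (h : Disjoint C C') {q : Port T}
    (h1 : q ∈ ports C) (h2 : q ∈ ports C') : False := by
  obtain ⟨t, d, rfl, ht⟩ := mem_ports' h1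
  exact Finset.disjoint_left.1 h ht (mem_ports.1 h2)

variable (B)

/-- operations of the ring rows -/
def bandOps (p y0 : ℤ) (c c' : ℝ) : List (Op (Port TG)) :=
  ((bandL (nn B) (pp B p) c c' (aa B y0) (bb B y0)).map Sum.inl).map (Op.ren (tpm (gB B)))

lemma bandL_ports {n : ℕ} {q : Fin (n + 2)} {c c' : ℝ} {a b : ℕ} {e : Pr}
    (h : e ∈ bandL n q c c' a b) : e.2.1 ∈ ports (bandT n a b) ∧ e.2.2 ∈ ports (bandT n a b) := by
  have hr : ∀ {m : ℕ} {c : ℝ} {y : ℕ} {e : Pr}, e ∈ rowL m c y → (∀ i : ℕ, i < m + 1 →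
      (i, y) ∈ bandT n a b) → e.2.1 ∈ ports (bandT n a b) ∧ e.2.2 ∈ ports (bandT n a b) := by
    intro m c y e h hT
    obtain ⟨i, rfl⟩ := mem_rowL.1 h
    exact ⟨mem_ports.2 (hT _ i.2), mem_ports.2 (hT _ (i - 1 : Fin (m + 1)).2)⟩
  have hv : ∀ {m : ℕ} {y : ℕ} {e : Pr}, e ∈ verL m y → (∀ i : ℕ, i < m + 1 →
      (i, y) ∈ bandT n a b ∧ (i, y + 1) ∈ bandT n a b) →
      e.2.1 ∈ ports (bandT n a b) ∧ e.2.2 ∈ ports (bandT n a b) := by
    intro m y e h hT
    obtain ⟨i, rfl⟩ := mem_verL.1 h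
    exact ⟨mem_ports.2 (hT _ i.2).1, mem_ports.2 (hT _ i.2).2⟩
  rcases mem_bandL.1 h with h | h | h
  · rcases mem_blockL.1 h with ⟨y, h1, h2, h3⟩ | ⟨y, h1, h2, h3⟩
    · exact hr h3 fun i hi => mem_bandT.2 (by simp only; omega)
    · exact hv h3 fun i hi => ⟨mem_bandT.2 (by simp only; omega), mem_bandT.2 (by simp only; omega)⟩
  · rcases mem_blockL.1 h with ⟨y, h1, h2, h3⟩ | ⟨y, h1, h2, h3⟩
    · exact hr h3 fun i hi => mem_bandT.2 (by simp only; omega)
    · exact hv h3 fun i hi => ⟨mem_bandT.2 (by simp only; omega), mem_bandT.2 (by simp only; omega)⟩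
  · obtain ⟨i, rfl⟩ := mem_insL.1 h
    have := i.2
    have := (q.succAbove i).2
    exact ⟨mem_ports.2 (mem_bandT.2 (by simp only; omega)),
      mem_ports.2 (mem_bandT.2 (by simp only; omega))⟩

lemma ports_map {T T' : Type*} [DecidableEq T] [DecidableEq T'] (g : T ↪ T') {C : Finset T}
    {q : Port T} (h : q ∈ ports C) : tpm g q ∈ ports (C.map g) := by
  obtain ⟨t, d, rfl, ht⟩ := mem_ports' h
  exact mem_ports.2 (Finset.mem_map_of_mem g ht)

lemma bandOps_ports {p y0 : ℤ} {c c' : ℝ} {o : Op (Port TG)} (ho : o ∈ bandOps B p y0 c c') :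
    ∀ q ∈ o.pts, q ∈ ports (bandM B y0) := by
  intro q hq
  unfold bandOps at ho
  rw [List.map_map, List.mem_map] at ho
  obtain ⟨e, he, rfl⟩ := ho
  have h1 := bandL_ports he
  simp only [Function.comp, Op.ren, Op.pts, List.mem_cons, List.not_mem_nil, or_false] at hq
  rcases hq with rfl | rfl
  · exact ports_map _ h1.1
  · exact ports_map _ h1.2

/-- ports of the lower crosscut: the row below, the first row -/
def xP (i : Fin (nn B + 1)) : Port TG := some (gI B i (B.y1 - 1), 1)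
/-- lower ends of the ring rows -/
def uP (i : Fin (nn B + 1)) : Port TG := some (gI B i B.y1, 3)
/-- upper ends of the ring rows -/
def wP (i : Fin (nn B + 2)) : Port TG := some (gI B i (B.y2 - 1), 1)
/-- ports of the row above -/
def vP (i : Fin (nn B + 2)) : Port TG := some (gI B i B.y2, 3)

/-- glued columns of the lower crosscut -/
def Dl (Al : Finset (ℤ × ℤ)) (i : Fin (nn B + 1)) : Prop :=
  ((i : ℕ) : ℤ) ≤ B.xr - B.xl ∧ (B.xl + ((i : ℕ) : ℤ), B.y1 - 1) ∈ Al
/-- glued columns of the upper crosscut -/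
def Du (Au : Finset (ℤ × ℤ)) (i : Fin (nn B + 2)) : Prop :=
  ((i : ℕ) : ℤ) ≤ B.xr - B.xl ∧ (B.xl + ((i : ℕ) : ℤ), B.y2) ∈ Au

instance (Al : Finset (ℤ × ℤ)) : DecidablePred (Dl B Al) := fun _ => by unfold Dl; infer_instance
instance (Au : Finset (ℤ × ℤ)) : DecidablePred (Du B Au) := fun _ => by unfold Du; infer_instance

/-- operations of the lower crosscut -/
def joinLow (Al : Finset (ℤ × ℤ)) (φ : Port TG → ℝ) : List (Op (Port TG)) :=
  joinOps (Dl B Al) (fun i => φ (uP B i)) (xP B) (uP B)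
/-- operations of the upper crosscut -/
def joinUp (Au : Finset (ℤ × ℤ)) (φ : Port TG → ℝ) : List (Op (Port TG)) :=
  joinOps (Du B Au) (fun i => φ (wP B i)) (vP B) (wP B)

/-- the band operator -/
def Kz (p y0 : ℤ) (c c' : ℝ) : Matrix (Fin (nn B + 2) → Bool) (Fin (nn B + 1) → Bool) ℂ :=
  That (nn B + 2) c' (1 / 2) ^ (bb B y0 + 1) * ins (nn B) (pp B p) *
    That (nn B + 1) c (1 / 2) ^ (aa B y0 + 1)

/-- the vector of the lower part -/
def InZ (Al : Finset (ℤ × ℤ)) (φ : Port TG → ℝ) (Ll : List (Op (Port TG)))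
    (σ : Port TG → Bool) : (Fin (nn B + 1) → Bool) → ℂ :=
  InV (Dl B Al) (fun i => φ (uP B i)) (xP B) (opL Ll (tilesF (Al.map inlE))) σ

/-- the covector of the upper part -/
def OutZ (Au : Finset (ℤ × ℤ)) (φ : Port TG → ℝ) (Lu : List (Op (Port TG)))
    (σ : Port TG → Bool) : (Fin (nn B + 2) → Bool) → ℂ :=
  OutV (Du B Au) (fun i => φ (wP B i)) (vP B) (opL Lu (tilesF (Au.map inlE))) σ

lemma some_ne {s t : TG} {d d' : ZMod 4} (h : ¬ (s = t ∧ d = d')) :
    (some (s, d) : Port TG) ≠ some (t, d') := fun h' => h (by simpa using h')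

lemma gI_not_low {Al : Finset (ℤ × ℤ)} {i : ℕ} {y : ℤ} {d : ZMod 4}
    (h : (i : ℤ) ≤ B.xr - B.xl → (B.xl + (i : ℤ), y) ∉ Al) :
    (some (gI B i y, d) : Port TG) ∉ (↑(ports (Al.map inlE)) : Set (Port TG)) := by
  intro hm
  have hm' := mem_ports.1 (Finset.mem_coe.1 hm)
  by_cases h1 : (i : ℤ) ≤ B.xr - B.xl
  · rw [gI_le B h1, mem_inlE] at hm'
    exact h h1 hm'
  · rw [gI_gt B h1] at hm'
    exact not_inlE hm'

/-- **the amplitude of `G^(z)`** -/
theorem env_amp {p y0 : ℤ} (h : B.At p y0) {Al Au : Finset (ℤ × ℤ)} (hs : Split B Al Au)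
    (c c' : ℝ) (φ : Port TG → ℝ) {Ll Lu : List (Op (Port TG))}
    (hLl : ∀ o ∈ Ll, ∀ q ∈ o.pts, q ∈ ports (Al.map inlE))
    (hLu : ∀ o ∈ Lu, ∀ q ∈ o.pts, q ∈ ports (Au.map inlE))
    (σ : Port TG → Bool) (hσ : σ (some (Sum.inl (p, y0), 3)) = false) :
    opL (Ll ++ (Lu ++ (bandOps B p y0 c c' ++ (joinLow B Al φ ++ joinUp B Au φ))))
        (tilesF (B.tG y0)) σ =
      OutZ B Au φ Lu σ ⬝ᵥ (Kz B p y0 c c' *ᵥ InZ B Al φ Ll σ) := by
  have hn := nn_eq B h
  have ha := aa_eq B h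
  have hb := bb_eq B h
  have hpp := pp_eq B h
  have hR := B.hR
  have hy1 := h.hy1
  have hy2 := h.hy2
  have hp1 := h.hp1
  have hp2 := h.hp2
  set F := opL Ll (tilesF (Al.map inlE)) with hF
  set F' := opL Lu (tilesF (Au.map inlE)) with hF'
  have sF : Sees F (↑(ports (Al.map inlE)) : Set (Port TG)) := opL_sees _ (tilesF_sees _)
  have sF' : Sees F' (↑(ports (Au.map inlE)) : Set (Port TG)) := opL_sees _ (tilesF_sees _)
  -- the tiles
  have e1 : tilesF (B.tG y0) = fun σ => (tilesF (Al.map inlE) σ * tilesF (bandM B y0) σ) *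
      tilesF (Au.map inlE) σ := by
    funext σ
    rw [hs.tG_eq h, tilesF_union, tilesF_union (hs.disj_lb h)]
    rw [Finset.disjoint_union_left]
    exact ⟨hs.disj_lu, (hs.disj_ub h).symm⟩
  have e2 : opL Ll (fun σ => (tilesF (Al.map inlE) σ * tilesF (bandM B y0) σ) *
      tilesF (Au.map inlE) σ) = fun σ => (F σ * tilesF (bandM B y0) σ) *
      tilesF (Au.map inlE) σ := by
    rw [opL_mul_right (tilesF_sees (Au.map inlE)) Ll (fun o ho q hq hq' =>
      ports_disj hs.disj_lu (hLl o ho q hq) (Finset.mem_coe.1 hq')),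
      opL_mul_right (tilesF_sees (bandM B y0)) Ll (fun o ho q hq hq' =>
      ports_disj (hs.disj_lb h) (hLl o ho q hq) (Finset.mem_coe.1 hq'))]
  have e3 : opL Lu (fun σ => (F σ * tilesF (bandM B y0) σ) * tilesF (Au.map inlE) σ) =
      fun σ => (F σ * tilesF (bandM B y0) σ) * F' σ := by
    have hsee : Sees (fun σ => F σ * tilesF (bandM B y0) σ)
        ((↑(ports (Al.map inlE)) : Set (Port TG)) ∪ ↑(ports (bandM B y0))) :=
      (sF.mono Set.subset_union_left).mul ((tilesF_sees _).mono Set.subset_union_right)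
    refine opL_mul_left hsee Lu (fun o ho q hq hq' => ?_) _
    rcases hq' with hq' | hq'
    · exact ports_disj hs.disj_lu (Finset.mem_coe.1 hq') (hLu o ho q hq)
    · exact ports_disj (hs.disj_ub h) (hLu o ho q hq) (Finset.mem_coe.1 hq')
  have e4 : opL (bandOps B p y0 c c') (fun σ => (F σ * tilesF (bandM B y0) σ) * F' σ) =
      fun σ => (F σ * opL (bandOps B p y0 c c') (tilesF (bandM B y0)) σ) * F' σ := by
    rw [opL_mul_right sF' _ (fun o ho q hq hq' =>
      ports_disj (hs.disj_ub h) (Finset.mem_coe.1 hq') (bandOps_ports B ho q hq)),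
      opL_mul_left sF _ (fun o ho q hq hq' =>
      ports_disj (hs.disj_lb h) (Finset.mem_coe.1 hq') (bandOps_ports B ho q hq))]
  have e5 : ∀ σ : Port TG → Bool, σ (some (Sum.inl (p, y0), 3)) = false →
      opL (bandOps B p y0 c c') (tilesF (bandM B y0)) σ = ker (Kz B p y0 c c') (wP B) (uP B) σ := by
    intro σ hσ
    have f1 : tilesF (bandM B y0) = fun σ => tilesF (bandT (nn B) (aa B y0) (bb B y0))
        (σ ∘ tpm (gB B)) := funext fun σ => tilesF_ren (gB B) _ σ
    rw [f1, bandOps, opL_ren (tpm_inj (gB B).injective), opL_glueL]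
    have hleg : (σ ∘ tpm (gB B)) (tp (pp B p) (aa B y0 + 1) 3) = false := by
      have : tpm (gB B) (tp (pp B p) (aa B y0 + 1) 3) = some (Sum.inl (p, y0), 3) := by
        show (some (gI B (pp B p) (B.y1 + ((aa B y0 + 1 : ℕ) : ℤ)), 3) : Port TG) = _
        rw [gI_le B (by omega)]
        have a1 : B.xl + ((pp B p : ℕ) : ℤ) = p := by omega
        have a2 : B.y1 + ((aa B y0 + 1 : ℕ) : ℤ) = y0 := by omega
        rw [a1, a2]
      rw [Function.comp, this]
      exact hσ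
    show glueL (bandL (nn B) (pp B p) c c' (aa B y0) (bb B y0))
      (tilesF (bandT (nn B) (aa B y0) (bb B y0))) (σ ∘ tpm (gB B)) = _
    rw [band_ker _ _ c c' _ _ _ hleg]
    have g1 : (fun i : Fin (nn B + 2) => (σ ∘ tpm (gB B)) (tp i (aa B y0 + 1 + bb B y0) 1)) =
        fun i => σ (wP B i) := by
      funext i
      show σ (some (gI B i (B.y1 + ((aa B y0 + 1 + bb B y0 : ℕ) : ℤ)), 1)) = _
      unfold wP
      have a1 : B.y1 + ((aa B y0 + 1 + bb B y0 : ℕ) : ℤ) = B.y2 - 1 := by omega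
      rw [a1]
    have g2 : (fun i : Fin (nn B + 1) => !(σ ∘ tpm (gB B)) (tp i 0 3)) =
        fun i => !σ (uP B i) := by
      funext i
      show (!σ (some (gI B i (B.y1 + ((0 : ℕ) : ℤ)), 3))) = _
      unfold uP
      have a1 : B.y1 + ((0 : ℕ) : ℤ) = B.y1 := by omega
      rw [a1]
    rw [g1, g2]
    unfold ker Kz
    rfl
  rw [opL_append, opL_append, opL_append, e1, e2, e3, e4]
  have d13 : ¬ ((3 : ZMod 4) = 1) := by decide
  have hleg1 : ∀ o ∈ joinLow B Al φ ++ joinUp B Au φ,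
      (some (Sum.inl (p, y0), 3) : Port TG) ∉ o.pts := by
    have n1 : ∀ i, (some (Sum.inl (p, y0), 3) : Port TG) ≠ xP B i := fun i =>
      some_ne fun h => d13 h.2
    have n2 : ∀ i, (some (Sum.inl (p, y0), 3) : Port TG) ≠ uP B i := fun i => some_ne fun h => by
      have h1 := h.1
      by_cases hi : ((i : ℕ) : ℤ) ≤ B.xr - B.xl
      · rw [gI_le B hi] at h1
        have := Sum.inl_injective h1
        simp only [Prod.mk.injEq] at this
        omega
      · rw [gI_gt B hi] at h1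
        exact absurd h1 (by simp)
    have n3 : ∀ i, (some (Sum.inl (p, y0), 3) : Port TG) ≠ vP B i := fun i => some_ne fun h => by
      have h1 := h.1
      by_cases hi : ((i : ℕ) : ℤ) ≤ B.xr - B.xl
      · rw [gI_le B hi] at h1
        have := Sum.inl_injective h1
        simp only [Prod.mk.injEq] at this
        omega
      · rw [gI_gt B hi] at h1
        exact absurd h1 (by simp)
    have n4 : ∀ i, (some (Sum.inl (p, y0), 3) : Port TG) ≠ wP B i := fun i =>
      some_ne fun h => d13 h.2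
    intro o ho hm
    rw [List.mem_append] at ho
    rcases ho with ho | ho
    · unfold joinLow joinOps at ho
      rw [List.mem_ofFn] at ho
      obtain ⟨i, rfl⟩ := ho
      by_cases hD : Dl B Al i
      · simp only [if_pos hD, Op.pts, List.mem_cons, List.not_mem_nil, or_false] at hm
        rcases hm with hm | hm
        · exact n1 i hm
        · exact n2 i hm
      · simp only [if_neg hD, Op.pts, List.mem_cons, List.not_mem_nil, or_false] at hm
        exact n2 i hm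
    · unfold joinUp joinOps at ho
      rw [List.mem_ofFn] at ho
      obtain ⟨i, rfl⟩ := ho
      by_cases hD : Du B Au i
      · simp only [if_pos hD, Op.pts, List.mem_cons, List.not_mem_nil, or_false] at hm
        rcases hm with hm | hm
        · exact n3 i hm
        · exact n4 i hm
      · simp only [if_neg hD, Op.pts, List.mem_cons, List.not_mem_nil, or_false] at hm
        exact n4 i hm
  rw [opL_congr (some (Sum.inl (p, y0), 3)) false _ hleg1 (G := fun σ =>
    (F σ * ker (Kz B p y0 c c') (wP B) (uP B) σ) * F' σ) (fun σ hσ => by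
      show (F σ * opL (bandOps B p y0 c c') (tilesF (bandM B y0)) σ) * F' σ = _
      rw [e5 σ hσ]) σ hσ]
  have hcomp := compose (Kz B p y0 c c') (w := wP B) (v := vP B) (u := uP B) (x := xP B)
    (Dl B Al) (fun i => φ (uP B i)) (Du B Au) (fun i => φ (wP B i)) sF sF'
    (fun i j h => ?_) (fun i j h => ?_) (fun i j h => ?_) (fun i j h => ?_)
    (fun i j => some_ne fun h => d13 h.2.symm) (fun i j => some_ne fun h => ?_)
    (fun i j => some_ne fun h => d13 h.2) (fun i j => some_ne fun h => d13 h.2)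
    (fun i => gI_not_low B fun h1 h2 => ?_) (fun i hi => gI_not_low B fun h1 h2 => hi ⟨h1, h2⟩)
    (fun i => gI_not_low B fun h1 h2 => ?_) (fun i => gI_not_low B fun h1 h2 => ?_)
    (fun i => gI_not_low B fun h1 h2 => ?_) (fun i => gI_not_low B fun h1 h2 => ?_)
    (fun i => gI_not_low B fun h1 h2 => ?_) (fun i hi => gI_not_low B fun h1 h2 => hi ⟨h1, h2⟩)
  · exact congrFun hcomp σ
  · have h1 : gI B i (B.y1 - 1) = gI B j (B.y1 - 1) := by
      unfold xP at h; simpa using h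
    exact Fin.ext (gI_inj B h1).1
  · have h1 : gI B i B.y1 = gI B j B.y1 := by
      unfold uP at h; simpa using h
    exact Fin.ext (gI_inj B h1).1
  · have h1 : gI B i B.y2 = gI B j B.y2 := by
      unfold vP at h; simpa using h
    exact Fin.ext (gI_inj B h1).1
  · have h1 : gI B i (B.y2 - 1) = gI B j (B.y2 - 1) := by
      unfold wP at h; simpa using h
    exact Fin.ext (gI_inj B h1).1
  · have := (gI_inj B h.1).2
    omega
  · exact hs.dl _ _ h2 ⟨by omega, by omega, by omega, by omega⟩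
  · exact hs.dl _ _ h2 ⟨by omega, by omega, by omega, by omega⟩
  · exact hs.nl _ (by omega) (by omega) h2
  · exact hs.du _ _ h2 ⟨by omega, by omega, by omega, by omega⟩
  · exact hs.nu _ (by omega) (by omega) h2
  · exact hs.du _ _ h2 ⟨by omega, by omega, by omega, by omega⟩

end Crest.Agent.R158.Ao857
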