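import Mathlib

/-!
# R158, A4 (helper107): exponent closure `B, C, D => α₂ = 1/4, α₄ = 5/4`

Abstract decreasing sequences `P2, P4 : ℕ → ℝ` in `[0,1]`, with polynomial slack in the scales:
* `SB P2`    : `n^(-1/4-ε) ≤ P2 n`
* `SC P2 P4` : `P4 m ≤ n^(-1+ε) P2 n` for `m ≥ n^(1+ε)`
* `SD P2 P4` : `n^(-3/4-ε) (P2 m)^2 ≤ P4 n` for `m ≥ n^(1+ε)`

Conclusions `p2_up`, `p4_up`, `p4_lo`.
-/

set_option autoImplicit false

noncomputable section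

namespace Crest.Agent.R158.Ax107

open Filter Topology

/-- lower bound for the two-arm probability -/
def SB (P2 : ℕ → ℝ) : Prop :=
  ∀ ε : ℝ, 0 < ε → ∀ᶠ n : ℕ in atTop, (n : ℝ) ^ (-(1 / 4 : ℝ) - ε) ≤ P2 n

/-- upper bound of four arms by two arms -/
def SC (P2 P4 : ℕ → ℝ) : Prop :=
  ∀ ε : ℝ, 0 < ε → ∀ᶠ n : ℕ in atTop, ∀ m : ℕ, (n : ℝ) ^ (1 + ε) ≤ m →
    P4 m ≤ (n : ℝ) ^ (-1 + ε) * P2 n

/-- lower bound of four arms by two arms -/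
def SD (P2 P4 : ℕ → ℝ) : Prop :=
  ∀ ε : ℝ, 0 < ε → ∀ᶠ n : ℕ in atTop, ∀ m : ℕ, (n : ℝ) ^ (1 + ε) ≤ m →
    (n : ℝ) ^ (-(3 / 4 : ℝ) - ε) * P2 m ^ 2 ≤ P4 n

/-- `P2 ≤ n^(-a+ε)` -/
def UpB (P : ℕ → ℝ) (a : ℝ) : Prop :=
  ∀ ε : ℝ, 0 < ε → ∀ᶠ n : ℕ in atTop, P n ≤ (n : ℝ) ^ (-a + ε)

/-- `n^(-a-ε) ≤ P2` -/
def LoB (P : ℕ → ℝ) (a : ℝ) : Prop :=
  ∀ ε : ℝ, 0 < ε → ∀ᶠ n : ℕ in atTop, (n : ℝ) ^ (-a - ε) ≤ P n

theorem ev_pow (c : ℝ) (hc : 0 < c) (K : ℝ) : ∀ᶠ n : ℕ in atTop, K ≤ (n : ℝ) ^ c :=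
  ((tendsto_rpow_atTop hc).comp tendsto_natCast_atTop_atTop).eventually_ge_atTop K

/-- comparison of scales: `lo N ≤ n ≤ N^b` -/
theorem fl_bounds {b : ℝ} (hb : 0 < b) : ∀ᶠ N : ℕ in atTop,
    ((⌊(N : ℝ) ^ b⌋₊ : ℕ) : ℝ) ≤ (N : ℝ) ^ b ∧ (N : ℝ) ^ b / 2 ≤ ((⌊(N : ℝ) ^ b⌋₊ : ℕ) : ℝ) := by
  filter_upwards [ev_pow b hb 2] with N h
  have h0 : 0 ≤ (N : ℝ) ^ b := by linarith
  refine ⟨Nat.floor_le h0, ?_⟩
  have := Nat.lt_floor_add_one ((N : ℝ) ^ b)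
  linarith

theorem fl_tendsto {b : ℝ} (hb : 0 < b) :
    Tendsto (fun N : ℕ => ⌊(N : ℝ) ^ b⌋₊) atTop atTop :=
  tendsto_nat_floor_atTop.comp ((tendsto_rpow_atTop hb).comp tendsto_natCast_atTop_atTop)

theorem ce_bounds {b : ℝ} (hb : 0 < b) : ∀ᶠ N : ℕ in atTop,
    (N : ℝ) ^ b ≤ ((⌈(N : ℝ) ^ b⌉₊ : ℕ) : ℝ) ∧ ((⌈(N : ℝ) ^ b⌉₊ : ℕ) : ℝ) ≤ 2 * (N : ℝ) ^ b := by
  filter_upwards [ev_pow b hb 1] with N h
  have h0 : 0 ≤ (N : ℝ) ^ b := by linarith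
  refine ⟨Nat.le_ceil _, ?_⟩
  have := Nat.ceil_lt_add_one h0
  linarith

theorem ce_tendsto {b : ℝ} (hb : 0 < b) :
    Tendsto (fun N : ℕ => ⌈(N : ℝ) ^ b⌉₊) atTop atTop :=
  tendsto_nat_ceil_atTop.comp ((tendsto_rpow_atTop hb).comp tendsto_natCast_atTop_atTop)

/-- one step of the closure -/
theorem step {P2 P4 : ℕ → ℝ} (h0 : ∀ n, 0 ≤ P2 n) (hC : SC P2 P4) (hD : SD P2 P4) {a : ℝ}
    (ha0 : 0 ≤ a) (ha1 : a ≤ 1 / 4) (ha : UpB P2 a) : UpB P2 ((a + 1 / 4) / 2) := by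
  intro ε hε
  obtain ⟨δ, hδ0, hδ1, hδ2⟩ : ∃ δ : ℝ, 0 < δ ∧ δ ≤ 1 / 16 ∧ 5 * δ ≤ ε :=
    ⟨min (1 / 16) (ε / 5), by positivity, min_le_left _ _,
      by have := min_le_right (1 / 16) (ε / 5); linarith⟩
  set b : ℝ := 1 - 4 * δ with hb
  have hb0 : 0 < b := by linarith
  -- `n = ⌊N^b⌋`, `m = ⌈n^(1+δ)⌉`
  have e1 := (fl_tendsto hb0).eventually (hC δ hδ0)
  have e2 := ((ce_tendsto (b := 1 + δ) (by linarith)).comp (fl_tendsto hb0)).eventually (hD δ hδ0)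
  have e3 := (fl_tendsto hb0).eventually (ha δ hδ0)
  have e4 := (fl_tendsto hb0).eventually (ce_bounds (b := 1 + δ) (by linarith))
  have e5 := (fl_tendsto hb0).eventually (eventually_ge_atTop 1)
  filter_upwards [e1, e2, e3, e4, e5, fl_bounds hb0, ev_pow δ hδ0 4, eventually_ge_atTop 1] with
    N h1 h2 h3 h4 h5 h6 h7 hN1
  set n : ℕ := ⌊(N : ℝ) ^ b⌋₊ with hn
  set m : ℕ := ⌈(n : ℝ) ^ (1 + δ)⌉₊ with hm
  have hN : (1 : ℝ) ≤ N := by exact_mod_cast hN1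
  have hN0 : (0 : ℝ) < N := by linarith
  have hn1 : (1 : ℝ) ≤ n := by exact_mod_cast h5
  have hn0 : (0 : ℝ) < n := by linarith
  have k1 : P4 m ≤ (n : ℝ) ^ (-1 + δ) * P2 n := h1 m h4.1
  have hmN : (m : ℝ) ≤ (N : ℝ) ^ (1 - 2 * δ) := by
    have q1 : (n : ℝ) ^ (1 + δ) ≤ (N : ℝ) ^ (b * (1 + δ)) := by
      rw [Real.rpow_mul hN0.le]
      exact Real.rpow_le_rpow hn0.le h6.1 (by linarith)
    have q2 : (2 : ℝ) ≤ (N : ℝ) ^ δ := by linarith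
    calc (m : ℝ) ≤ 2 * (n : ℝ) ^ (1 + δ) := h4.2
      _ ≤ (N : ℝ) ^ δ * (N : ℝ) ^ (b * (1 + δ)) :=
          mul_le_mul q2 q1 (Real.rpow_nonneg hn0.le _) (by linarith)
      _ = (N : ℝ) ^ (δ + b * (1 + δ)) := (Real.rpow_add hN0 _ _).symm
      _ ≤ _ := Real.rpow_le_rpow_of_exponent_le hN (by rw [hb]; nlinarith)
  have hm1 : (1 : ℝ) ≤ m := (Real.one_le_rpow hn1 (by linarith)).trans h4.1
  have hm0 : (0 : ℝ) < m := by linarith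
  have hmN' : (m : ℝ) ^ (1 + δ) ≤ N := by
    calc (m : ℝ) ^ (1 + δ) ≤ ((N : ℝ) ^ (1 - 2 * δ)) ^ (1 + δ) :=
          Real.rpow_le_rpow hm0.le hmN (by linarith)
      _ = (N : ℝ) ^ ((1 - 2 * δ) * (1 + δ)) := (Real.rpow_mul hN0.le _ _).symm
      _ ≤ (N : ℝ) ^ (1 : ℝ) := Real.rpow_le_rpow_of_exponent_le hN (by nlinarith)
      _ = N := Real.rpow_one _
  have k2 : (m : ℝ) ^ (-(3 / 4 : ℝ) - δ) * P2 N ^ 2 ≤ P4 m := h2 N hmN'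
  -- combine
  have k3 : (m : ℝ) ^ (-(3 / 4 : ℝ) - δ) * P2 N ^ 2 ≤ (n : ℝ) ^ (-1 + δ) * (n : ℝ) ^ (-a + δ) :=
    k2.trans (k1.trans (mul_le_mul_of_nonneg_left h3 (Real.rpow_nonneg hn0.le _)))
  have k4 : P2 N ^ 2 ≤ (m : ℝ) ^ ((3 / 4 : ℝ) + δ) *
      ((n : ℝ) ^ (-1 + δ) * (n : ℝ) ^ (-a + δ)) := by
    have hp : 0 < (m : ℝ) ^ (-(3 / 4 : ℝ) - δ) := Real.rpow_pos_of_pos hm0 _
    have hq : (m : ℝ) ^ ((3 / 4 : ℝ) + δ) * (m : ℝ) ^ (-(3 / 4 : ℝ) - δ) = 1 := by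
      rw [← Real.rpow_add hm0]
      rw [show (3 / 4 : ℝ) + δ + (-(3 / 4 : ℝ) - δ) = 0 by ring, Real.rpow_zero]
    calc P2 N ^ 2 = ((m : ℝ) ^ ((3 / 4 : ℝ) + δ) * (m : ℝ) ^ (-(3 / 4 : ℝ) - δ)) * P2 N ^ 2 := by
          rw [hq, one_mul]
      _ = (m : ℝ) ^ ((3 / 4 : ℝ) + δ) * ((m : ℝ) ^ (-(3 / 4 : ℝ) - δ) * P2 N ^ 2) := by ring
      _ ≤ _ := mul_le_mul_of_nonneg_left k3 (Real.rpow_nonneg hm0.le _)
  have k5 : (m : ℝ) ^ ((3 / 4 : ℝ) + δ) ≤ (N : ℝ) ^ ((3 / 4 : ℝ) + δ) := by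
    refine Real.rpow_le_rpow hm0.le (hmN.trans ?_) (by linarith)
    calc (N : ℝ) ^ (1 - 2 * δ) ≤ (N : ℝ) ^ (1 : ℝ) :=
          Real.rpow_le_rpow_of_exponent_le hN (by linarith)
      _ = N := Real.rpow_one _
  have k6 : (n : ℝ) ^ (-1 + δ) * (n : ℝ) ^ (-a + δ) ≤
      (N : ℝ) ^ δ * (N : ℝ) ^ (-(1 + a) + 7 * δ) := by
    rw [← Real.rpow_add hn0]
    have q1 : (n : ℝ) ^ (-1 + δ + (-a + δ)) ≤ ((N : ℝ) ^ b / 2) ^ (-1 + δ + (-a + δ)) :=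
      Real.rpow_le_rpow_of_nonpos (by positivity) h6.2 (by linarith)
    have q2 : ((N : ℝ) ^ b / 2) ^ (-1 + δ + (-a + δ)) =
        (N : ℝ) ^ (b * (-1 + δ + (-a + δ))) * (2 : ℝ) ^ (1 - δ + (a - δ)) := by
      rw [Real.div_rpow (Real.rpow_nonneg hN0.le _) (by norm_num), ← Real.rpow_mul hN0.le,
        div_eq_mul_inv, ← Real.rpow_neg (by norm_num)]
      congr 2
      ring
    have q3 : (2 : ℝ) ^ (1 - δ + (a - δ)) ≤ 4 := by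
      calc (2 : ℝ) ^ (1 - δ + (a - δ)) ≤ (2 : ℝ) ^ (2 : ℝ) :=
            Real.rpow_le_rpow_of_exponent_le (by norm_num) (by linarith)
        _ = 4 := by norm_num
    have q4 : (N : ℝ) ^ (b * (-1 + δ + (-a + δ))) ≤ (N : ℝ) ^ (-(1 + a) + 7 * δ) :=
      Real.rpow_le_rpow_of_exponent_le hN (by rw [hb]; nlinarith)
    calc _ ≤ _ := q1
      _ = _ := q2
      _ ≤ (N : ℝ) ^ (-(1 + a) + 7 * δ) * (N : ℝ) ^ δ :=
          mul_le_mul q4 (q3.trans h7) (by positivity) (Real.rpow_nonneg hN0.le _)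
      _ = _ := mul_comm _ _
  have k7 : P2 N ^ 2 ≤ ((N : ℝ) ^ (-((a + 1 / 4) / 2) + ε)) ^ 2 := by
    calc P2 N ^ 2 ≤ _ := k4
      _ ≤ (N : ℝ) ^ ((3 / 4 : ℝ) + δ) * ((N : ℝ) ^ δ * (N : ℝ) ^ (-(1 + a) + 7 * δ)) :=
          mul_le_mul k5 k6 (by positivity) (by positivity)
      _ = (N : ℝ) ^ ((3 / 4 : ℝ) + δ + (δ + (-(1 + a) + 7 * δ))) := by
          rw [← Real.rpow_add hN0 δ, ← Real.rpow_add hN0]
      _ ≤ (N : ℝ) ^ ((-((a + 1 / 4) / 2) + ε) * 2) :=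
          Real.rpow_le_rpow_of_exponent_le hN (by nlinarith)
      _ = _ := by rw [Real.rpow_mul hN0.le]; norm_cast
  exact (sq_le_sq₀ (h0 N) (Real.rpow_nonneg hN0.le _)).1 k7

/-- **upper bound of the two-arm probability** -/
theorem p2_up {P2 P4 : ℕ → ℝ} (h0 : ∀ n, 0 ≤ P2 n) (h1 : ∀ n, P2 n ≤ 1) (hC : SC P2 P4)
    (hD : SD P2 P4) : UpB P2 (1 / 4) := by
  have base : UpB P2 0 := by
    intro ε hε
    filter_upwards [eventually_ge_atTop 1] with n hn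
    have : (1 : ℝ) ≤ (n : ℝ) ^ (-0 + ε) := Real.one_le_rpow (by exact_mod_cast hn) (by linarith)
    exact (h1 n).trans this
  have key : ∀ k : ℕ, UpB P2 (1 / 4 - (1 / 4) * (1 / 2) ^ k) := by
    intro k
    induction k with
    | zero => simpa using base
    | succ k ih =>
        have hk0 : (0 : ℝ) ≤ (1 / 2 : ℝ) ^ k := by positivity
        have hk1 : (1 / 2 : ℝ) ^ k ≤ 1 := pow_le_one₀ (by norm_num) (by norm_num)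
        have := step h0 hC hD (by linarith) (by linarith) ih
        rw [pow_succ]
        convert this using 1
        ring
  intro ε hε
  obtain ⟨k, hk⟩ : ∃ k : ℕ, (1 / 2 : ℝ) ^ k < ε := exists_pow_lt_of_lt_one hε (by norm_num)
  filter_upwards [key k (ε / 2) (by positivity), eventually_ge_atTop 1] with n hn hn1
  exact hn.trans (Real.rpow_le_rpow_of_exponent_le (by exact_mod_cast hn1) (by linarith))

/-- **upper bound of the four-arm probability** -/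
theorem p4_up {P2 P4 : ℕ → ℝ} (hP : UpB P2 (1 / 4)) (hC : SC P2 P4) : UpB P4 (5 / 4) := by
  intro ε hε
  obtain ⟨δ, hδ0, hδ1, hδ2⟩ : ∃ δ : ℝ, 0 < δ ∧ δ ≤ 1 / 16 ∧ 6 * δ ≤ ε :=
    ⟨min (1 / 16) (ε / 6), by positivity, min_le_left _ _,
      by have := min_le_right (1 / 16) (ε / 6); linarith⟩
  set b : ℝ := 1 - 2 * δ with hb
  have hb0 : 0 < b := by linarith
  have e1 := (fl_tendsto hb0).eventually (hC δ hδ0)
  have e3 := (fl_tendsto hb0).eventually (hP δ hδ0)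
  have e5 := (fl_tendsto hb0).eventually (eventually_ge_atTop 1)
  filter_upwards [e1, e3, e5, fl_bounds hb0, ev_pow δ hδ0 4, eventually_ge_atTop 1] with
    N h1 h3 h5 h6 h7 hN1
  set n : ℕ := ⌊(N : ℝ) ^ b⌋₊ with hn
  have hN : (1 : ℝ) ≤ N := by exact_mod_cast hN1
  have hN0 : (0 : ℝ) < N := by linarith
  have hn1 : (1 : ℝ) ≤ n := by exact_mod_cast h5
  have hn0 : (0 : ℝ) < n := by linarith
  have hnN : (n : ℝ) ^ (1 + δ) ≤ N := by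
    calc (n : ℝ) ^ (1 + δ) ≤ ((N : ℝ) ^ b) ^ (1 + δ) :=
          Real.rpow_le_rpow hn0.le h6.1 (by linarith)
      _ = (N : ℝ) ^ (b * (1 + δ)) := (Real.rpow_mul hN0.le _ _).symm
      _ ≤ (N : ℝ) ^ (1 : ℝ) := Real.rpow_le_rpow_of_exponent_le hN (by rw [hb]; nlinarith)
      _ = N := Real.rpow_one _
  have k1 : P4 N ≤ (n : ℝ) ^ (-1 + δ) * P2 n := h1 N hnN
  have q1 : (n : ℝ) ^ (-1 + δ + (-(1 / 4) + δ)) ≤ ((N : ℝ) ^ b / 2) ^ (-1 + δ + (-(1 / 4) + δ)) :=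
    Real.rpow_le_rpow_of_nonpos (by positivity) h6.2 (by linarith)
  have q2 : ((N : ℝ) ^ b / 2) ^ (-1 + δ + (-(1 / 4) + δ)) =
      (N : ℝ) ^ (b * (-1 + δ + (-(1 / 4) + δ))) * (2 : ℝ) ^ (5 / 4 - 2 * δ) := by
    rw [Real.div_rpow (Real.rpow_nonneg hN0.le _) (by norm_num), ← Real.rpow_mul hN0.le,
      div_eq_mul_inv, ← Real.rpow_neg (by norm_num)]
    congr 2
    ring
  have q3 : (2 : ℝ) ^ (5 / 4 - 2 * δ) ≤ 4 := by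
    calc (2 : ℝ) ^ (5 / 4 - 2 * δ) ≤ (2 : ℝ) ^ (2 : ℝ) :=
          Real.rpow_le_rpow_of_exponent_le (by norm_num) (by linarith)
      _ = 4 := by norm_num
  calc P4 N ≤ (n : ℝ) ^ (-1 + δ) * P2 n := k1
    _ ≤ (n : ℝ) ^ (-1 + δ) * (n : ℝ) ^ (-(1 / 4) + δ) :=
        mul_le_mul_of_nonneg_left h3 (Real.rpow_nonneg hn0.le _)
    _ = (n : ℝ) ^ (-1 + δ + (-(1 / 4) + δ)) := (Real.rpow_add hn0 _ _).symm
    _ ≤ _ := q1
    _ = _ := q2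
    _ ≤ (N : ℝ) ^ (b * (-1 + δ + (-(1 / 4) + δ))) * (N : ℝ) ^ δ :=
        mul_le_mul_of_nonneg_left (q3.trans h7) (Real.rpow_nonneg hN0.le _)
    _ = (N : ℝ) ^ (b * (-1 + δ + (-(1 / 4) + δ)) + δ) := (Real.rpow_add hN0 _ _).symm
    _ ≤ _ := Real.rpow_le_rpow_of_exponent_le hN (by rw [hb]; nlinarith)

/-- **lower bound of the four-arm probability** -/
theorem p4_lo {P2 P4 : ℕ → ℝ} (hB : SB P2) (hD : SD P2 P4) : LoB P4 (5 / 4) := by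
  intro ε hε
  obtain ⟨δ, hδ0, hδ1, hδ2⟩ : ∃ δ : ℝ, 0 < δ ∧ δ ≤ 1 / 16 ∧ 5 * δ ≤ ε :=
    ⟨min (1 / 16) (ε / 5), by positivity, min_le_left _ _,
      by have := min_le_right (1 / 16) (ε / 5); linarith⟩
  have e1 := (ce_tendsto (b := 1 + δ) (by linarith)).eventually (hB δ hδ0)
  filter_upwards [e1, hD δ hδ0, ce_bounds (b := 1 + δ) (by linarith), ev_pow δ hδ0 2,
    eventually_ge_atTop 1] with N h1 h2 h4 h7 hN1
  set m : ℕ := ⌈(N : ℝ) ^ (1 + δ)⌉₊ with hm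
  have hN : (1 : ℝ) ≤ N := by exact_mod_cast hN1
  have hN0 : (0 : ℝ) < N := by linarith
  have hm1 : (1 : ℝ) ≤ m := (Real.one_le_rpow hN (by linarith)).trans h4.1
  have hm0 : (0 : ℝ) < m := by linarith
  have hmN : (m : ℝ) ≤ (N : ℝ) ^ (1 + 2 * δ) := by
    calc (m : ℝ) ≤ 2 * (N : ℝ) ^ (1 + δ) := h4.2
      _ ≤ (N : ℝ) ^ δ * (N : ℝ) ^ (1 + δ) :=
          mul_le_mul_of_nonneg_right h7 (Real.rpow_nonneg hN0.le _)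
      _ = (N : ℝ) ^ (δ + (1 + δ)) := (Real.rpow_add hN0 _ _).symm
      _ = _ := by ring_nf
  have k1 : (N : ℝ) ^ ((1 + 2 * δ) * (-(1 / 4 : ℝ) - δ)) ≤ P2 m := by
    refine le_trans ?_ h1
    rw [Real.rpow_mul hN0.le]
    exact Real.rpow_le_rpow_of_nonpos hm0 hmN (by linarith)
  have k2 : (N : ℝ) ^ (-(3 / 4 : ℝ) - δ) *
      ((N : ℝ) ^ ((1 + 2 * δ) * (-(1 / 4 : ℝ) - δ))) ^ 2 ≤ P4 N := by
    refine le_trans ?_ (h2 m h4.1)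
    exact mul_le_mul_of_nonneg_left (pow_le_pow_left₀ (Real.rpow_nonneg hN0.le _) k1 2)
      (Real.rpow_nonneg hN0.le _)
  refine le_trans ?_ k2
  rw [← Real.rpow_natCast, ← Real.rpow_mul hN0.le, ← Real.rpow_add hN0]
  refine Real.rpow_le_rpow_of_exponent_le hN ?_
  push_cast
  nlinarith

/-! ### from stronger forms of the hypotheses -/

/-- exact scales -/
theorem sc_of {P2 P4 : ℕ → ℝ} (m4 : Antitone P4)
    (h : ∀ ε : ℝ, 0 < ε → ∀ᶠ n : ℕ in atTop, P4 n ≤ (n : ℝ) ^ (-1 + ε) * P2 n) : SC P2 P4 := by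
  intro ε hε
  filter_upwards [h ε hε, eventually_ge_atTop 1] with n hn hn1 m hm
  refine (m4 ?_).trans hn
  have h1 : (n : ℝ) ≤ (n : ℝ) ^ (1 + ε) := by
    conv_lhs => rw [← Real.rpow_one (n : ℝ)]
    exact Real.rpow_le_rpow_of_exponent_le (by exact_mod_cast hn1) (by linarith)
  exact_mod_cast h1.trans hm

/-- scales up to a constant factor -/
theorem sc_of_const {P2 P4 : ℕ → ℝ} (m4 : Antitone P4)
    (h : ∀ ε : ℝ, 0 < ε → ∃ K : ℕ, ∀ᶠ n : ℕ in atTop,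
      P4 (K * n) ≤ (n : ℝ) ^ (-1 + ε) * P2 n) : SC P2 P4 := by
  intro ε hε
  obtain ⟨K, hK⟩ := h ε hε
  filter_upwards [hK, eventually_ge_atTop 1, ev_pow ε hε K] with n hn hn1 hKn m hm
  refine (m4 ?_).trans hn
  have hn0 : (0 : ℝ) < n := by exact_mod_cast hn1
  have h1 : ((K * n : ℕ) : ℝ) ≤ (n : ℝ) ^ (1 + ε) := by
    push_cast
    rw [Real.rpow_add hn0, Real.rpow_one, mul_comm]
    exact mul_le_mul_of_nonneg_left hKn hn0.le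
  exact_mod_cast h1.trans hm

theorem sd_of {P2 P4 : ℕ → ℝ} (h0 : ∀ n, 0 ≤ P2 n) (m2 : Antitone P2)
    (h : ∀ ε : ℝ, 0 < ε → ∀ᶠ n : ℕ in atTop, (n : ℝ) ^ (-(3 / 4 : ℝ) - ε) * P2 n ^ 2 ≤ P4 n) :
    SD P2 P4 := by
  intro ε hε
  filter_upwards [h ε hε, eventually_ge_atTop 1] with n hn hn1 m hm
  refine le_trans ?_ hn
  have h1 : (n : ℝ) ≤ (n : ℝ) ^ (1 + ε) := by
    conv_lhs => rw [← Real.rpow_one (n : ℝ)]
    exact Real.rpow_le_rpow_of_exponent_le (by exact_mod_cast hn1) (by linarith)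
  have h2 : n ≤ m := by exact_mod_cast h1.trans hm
  exact mul_le_mul_of_nonneg_left (pow_le_pow_left₀ (h0 _) (m2 h2) 2) (by positivity)

theorem sd_of_const {P2 P4 : ℕ → ℝ} (h0 : ∀ n, 0 ≤ P2 n) (m2 : Antitone P2)
    (h : ∀ ε : ℝ, 0 < ε → ∃ K : ℕ, ∀ᶠ n : ℕ in atTop,
      (n : ℝ) ^ (-(3 / 4 : ℝ) - ε) * P2 (K * n) ^ 2 ≤ P4 n) : SD P2 P4 := by
  intro ε hε
  obtain ⟨K, hK⟩ := h ε hε
  filter_upwards [hK, eventually_ge_atTop 1, ev_pow ε hε K] with n hn hn1 hKn m hm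
  refine le_trans ?_ hn
  have hn0 : (0 : ℝ) < n := by exact_mod_cast hn1
  have h1 : ((K * n : ℕ) : ℝ) ≤ (n : ℝ) ^ (1 + ε) := by
    push_cast
    rw [Real.rpow_add hn0, Real.rpow_one, mul_comm]
    exact mul_le_mul_of_nonneg_left hKn hn0.le
  have h2 : K * n ≤ m := by exact_mod_cast h1.trans hm
  exact mul_le_mul_of_nonneg_left (pow_le_pow_left₀ (h0 _) (m2 h2) 2) (by positivity)

/-- scale lost by a polynomial factor in the lower bound of `P2` -/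
theorem sb_of_slack {P2 : ℕ → ℝ}
    (h : ∀ ε : ℝ, 0 < ε → ∀ᶠ n : ℕ in atTop, ∀ m : ℕ, (m : ℝ) ^ (1 + ε) ≤ n →
      (n : ℝ) ^ (-(1 / 4 : ℝ) - ε) ≤ P2 m) : SB P2 := by
  intro ε hε
  obtain ⟨δ, hδ0, hδ1, hδ2⟩ : ∃ δ : ℝ, 0 < δ ∧ δ ≤ 1 / 16 ∧ 3 * δ ≤ ε :=
    ⟨min (1 / 16) (ε / 3), by positivity, min_le_left _ _,
      by have := min_le_right (1 / 16) (ε / 3); linarith⟩
  have e1 := (ce_tendsto (b := 1 + δ) (by linarith)).eventually (h δ hδ0)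
  filter_upwards [e1, ce_bounds (b := 1 + δ) (by linarith), ev_pow δ hδ0 2,
    eventually_ge_atTop 1] with N h1 h4 h7 hN1
  set m : ℕ := ⌈(N : ℝ) ^ (1 + δ)⌉₊ with hm
  have hN : (1 : ℝ) ≤ N := by exact_mod_cast hN1
  have hN0 : (0 : ℝ) < N := by linarith
  have hm1 : (1 : ℝ) ≤ m := (Real.one_le_rpow hN (by linarith)).trans h4.1
  have hm0 : (0 : ℝ) < m := by linarith
  have hmN : (m : ℝ) ≤ (N : ℝ) ^ (1 + 2 * δ) := by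
    calc (m : ℝ) ≤ 2 * (N : ℝ) ^ (1 + δ) := h4.2
      _ ≤ (N : ℝ) ^ δ * (N : ℝ) ^ (1 + δ) :=
          mul_le_mul_of_nonneg_right h7 (Real.rpow_nonneg hN0.le _)
      _ = (N : ℝ) ^ (δ + (1 + δ)) := (Real.rpow_add hN0 _ _).symm
      _ = _ := by ring_nf
  refine le_trans ?_ (h1 N h4.1)
  calc (N : ℝ) ^ (-(1 / 4 : ℝ) - ε) ≤ (N : ℝ) ^ ((1 + 2 * δ) * (-(1 / 4 : ℝ) - δ)) :=
        Real.rpow_le_rpow_of_exponent_le hN (by nlinarith)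
    _ = ((N : ℝ) ^ (1 + 2 * δ)) ^ (-(1 / 4 : ℝ) - δ) := Real.rpow_mul hN0.le _ _
    _ ≤ (m : ℝ) ^ (-(1 / 4 : ℝ) - δ) := Real.rpow_le_rpow_of_nonpos hm0 hmN (by linarith)

end Crest.Agent.R158.Ax107
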