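import Crest.Agent.R158.Rs9_689
import Crest.Agent.R158.Ru2_874

/-!
# Row 158, Block SEP (helper580): literal interfaces of the separation / gluing block

Everything is centred at `(0,0)` (`src e = (0,0)`); `n` = side of the cells of `Rs6_689`.

* `Sq R`, `FSq R` : closed ball of radius `R` about `0`, faces (lower left corners) meeting it
* `Bk n k m` : block of cells at distance `≤ m` from the cell `k`
* `A4 e R` : four arms from `e` (general centre)
* `UinP`, `UinD` : inner arms landing in given boundary cells, avoiding the landing blocks of the other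
  colour; `Uin = UinP ∩ UinD`
* `OutV`, `OutF`, `UoutP`, `UoutD`, `Uout` : the same outside the ball of radius `ρ`
* `co d`, `Corr d n`, `Gate d n`, `GArm`, `NiceP`, `NiceD`, `Nice` : nice four arms (four gates)
* `Glued` : four arms from `e` to given targets
-/

set_option autoImplicit false

noncomputable section

namespace Crest.Agent.R158.Sp580

open MeasureTheory ProbabilityTheory unitInterval
open Crest.Agent.R161.Geo729 Crest.Agent.R161.Topo374 Crest.Agent.R161.Dual374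
open Crest.Agent.R161.Tas682 Crest.Agent.R158.Rs689 Crest.Agent.R158.Ru874

/-! ### sets -/

/-- closed ball about `0` (vertices) -/
def Sq (R : ℤ) : Set P2 := Rect (-R) R (-R) R

/-- faces (lower left corner) with a corner in `Sq R` -/
def FSq (R : ℤ) : Set P2 := Rect (-R - 1) R (-R - 1) R

/-- block of cells -/
def Bk (n : ℕ) (k : P2) (m : ℤ) : Set P2 :=
  Rect ((k.1 - m) * n) ((k.1 + m + 1) * n) ((k.2 - m) * n) ((k.2 + m + 1) * n)

/-- vertices of `L` outside the open ball of radius `ρ` -/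
def OutV (L : Set P2) (ρ : ℤ) : Set P2 := L ∩ {v | ρ ≤ sd (0, 0) v}

/-- faces of `FL` outside the ball of radius `ρ` -/
def OutF (FL : Set P2) (ρ : ℤ) : Set P2 :=
  FL ∩ {f | ¬ (-ρ ≤ f.1 ∧ f.1 ≤ ρ - 1 ∧ -ρ ≤ f.2 ∧ f.2 ≤ ρ - 1)}

theorem mem_Sq {R : ℤ} {v : P2} : v ∈ Sq R ↔ -R ≤ v.1 ∧ v.1 ≤ R ∧ -R ≤ v.2 ∧ v.2 ≤ R := Iff.rfl

theorem mem_FSq {R : ℤ} {v : P2} :
    v ∈ FSq R ↔ -R - 1 ≤ v.1 ∧ v.1 ≤ R ∧ -R - 1 ≤ v.2 ∧ v.2 ≤ R := Iff.rfl

theorem mem_Bk {n : ℕ} {k : P2} {m : ℤ} {v : P2} : v ∈ Bk n k m ↔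
    (k.1 - m) * n ≤ v.1 ∧ v.1 ≤ (k.1 + m + 1) * n ∧
      (k.2 - m) * n ≤ v.2 ∧ v.2 ≤ (k.2 + m + 1) * n := Iff.rfl

/-- the blocks at distance `≤ m` of two cells -/
def Bk2 (n : ℕ) (k k' : P2) (m : ℤ) : Set P2 := Bk n k m ∪ Bk n k' m

/-- `u` is joined to `A` inside `D` -/
def Arm (z : Cf) (D A : Set P2) (u : P2) : Prop := ∃ a ∈ A, OC z D u a

/-! ### four arms -/

/-- **Four arms** from `e` to distance `R` (general centre `src e`). -/
def A4 (e : Edge) (R : ℤ) : Set Cf :=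
  {z | Arm (frc e false z) {v | sd (src e) v ≤ R} {v | sd (src e) v = R} (src e) ∧
    Arm (frc e false z) {v | sd (src e) v ≤ R} {v | sd (src e) v = R} (tgt e) ∧
    ¬ OC (frc e false z) {v | sd (src e) v ≤ R} (src e) (tgt e)}

/-! ### inner landing events -/

/-- open arms of `e` landing in `k1` (`src e`) and `k3` (`tgt e`), off the blocks of `k2`, `k4` -/
def UinP (e : Edge) (R : ℤ) (n : ℕ) (k1 k2 k3 k4 : P2) : Set Cf :=
  {z | Arm (frc e false z) (Sq R \ Bk2 n k2 k4 8) (Bk n k1 1) (src e) ∧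
    Arm (frc e false z) (Sq R \ Bk2 n k2 k4 8) (Bk n k3 1) (tgt e)}

/-- dual arms of `e` landing in `k2` (`fA e`) and `k4` (`fB e`), off the blocks of `k1`, `k3` -/
def UinD (e : Edge) (R : ℤ) (n : ℕ) (k1 k2 k3 k4 : P2) : Set Cf :=
  {z | Arm (dual (frc e true z)) (FSq R \ Bk2 n k1 k3 8) (Bk n k2 1) (fA e) ∧
    Arm (dual (frc e true z)) (FSq R \ Bk2 n k1 k3 8) (Bk n k4 1) (fB e)}

def Uin (e : Edge) (R : ℤ) (n : ℕ) (k1 k2 k3 k4 : P2) : Set Cf :=
  UinP e R n k1 k2 k3 k4 ∩ UinD e R n k1 k2 k3 k4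

/-! ### outer landing events -/

/-- open arms outside `Sq ρ`, inside `L`, from `k1` to `P1` and from `k3` to `P2`, off the blocks of
`k2`, `k4` -/
def UoutP (L : Set P2) (ρ : ℤ) (n : ℕ) (k1 k2 k3 k4 : P2) (P1 P3 : Set P2) : Set Cf :=
  {z | (∃ a ∈ Bk n k1 1, Arm z (OutV L ρ \ Bk2 n k2 k4 8) P1 a) ∧
    ∃ a ∈ Bk n k3 1, Arm z (OutV L ρ \ Bk2 n k2 k4 8) P3 a}

/-- dual arms outside `Sq ρ`, inside `FL`, from `k2` to `Q2` and from `k4` to `Q4`, off the blocks of
`k1`, `k3` -/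
def UoutD (FL : Set P2) (ρ : ℤ) (n : ℕ) (k1 k2 k3 k4 : P2) (Q2 Q4 : Set P2) : Set Cf :=
  {z | (∃ a ∈ Bk n k2 1, Arm (dual z) (OutF FL ρ \ Bk2 n k1 k3 8) Q2 a) ∧
    ∃ a ∈ Bk n k4 1, Arm (dual z) (OutF FL ρ \ Bk2 n k1 k3 8) Q4 a}

def Uout (L FL : Set P2) (ρ : ℤ) (n : ℕ) (k1 k2 k3 k4 : P2) (P1 P3 Q2 Q4 : Set P2) : Set Cf :=
  UoutP L ρ n k1 k2 k3 k4 P1 P3 ∩ UoutD FL ρ n k1 k2 k3 k4 Q2 Q4

/-! ### nice four arms -/

/-- coordinates in which the direction `d` (0 = E, 1 = N, 2 = W, 3 = S) points to the east -/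
def co (d : Fin 4) (v : P2) : P2 :=
  match d with
  | 0 => v
  | 1 => (v.2, -v.1)
  | 2 => (-v.1, -v.2)
  | 3 => (-v.2, v.1)

/-- corridor in direction `d` -/
def Corr (d : Fin 4) (n : ℕ) : Set P2 :=
  {v | 16 * (n : ℤ) ≤ (co d v).1 ∧ (co d v).1 ≤ 32 * n ∧ -(8 * (n : ℤ)) ≤ (co d v).2 ∧
    (co d v).2 ≤ 8 * n}

/-- gate in direction `d` -/
def Gate (d : Fin 4) (n : ℕ) : Set P2 :=
  {v | 20 * (n : ℤ) ≤ (co d v).1 ∧ (co d v).1 ≤ 32 * n ∧ -(8 * (n : ℤ)) ≤ (co d v).2 ∧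
    (co d v).2 ≤ 8 * n}

/-- `u` is joined inside `Sq (16 n) ∪ Corr d n` to a transversal crossing of the gate `Gate d n` -/
def GArm (z : Cf) (d : Fin 4) (n : ℕ) (u : P2) : Prop :=
  ∃ A B : P2, (co d A).2 ≤ -(4 * (n : ℤ)) ∧ 4 * (n : ℤ) ≤ (co d B).2 ∧ OC z (Gate d n) A B ∧
    OC z (Sq (16 * n) ∪ Corr d n) u A

/-- open part of the nice event (`s` : `src e` goes east, otherwise west) -/
def NiceP (e : Edge) (n : ℕ) (s : Bool) : Set Cf :=
  {z | GArm (frc e false z) (if s then 0 else 2) n (src e) ∧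
    GArm (frc e false z) (if s then 2 else 0) n (tgt e)}

/-- dual part of the nice event (`t` : `fA e` goes north, otherwise south) -/
def NiceD (e : Edge) (n : ℕ) (t : Bool) : Set Cf :=
  {z | GArm (dual (frc e true z)) (if t then 1 else 3) n (fA e) ∧
    GArm (dual (frc e true z)) (if t then 3 else 1) n (fB e)}

/-- nice four arms, given sides -/
def Nice (e : Edge) (n : ℕ) (s t : Bool) : Set Cf := NiceP e n s ∩ NiceD e n t

/-- nice four arms -/
def NiceU (e : Edge) (n : ℕ) : Set Cf := {z | ∃ s t, z ∈ Nice e n s t}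

/-! ### glued event -/

/-- four arms from `e` to the targets `P1`, `P3` (primal, in some order), `Q2`, `Q4` (dual, in some
order) inside `L`, `FL` -/
def Glued (e : Edge) (L FL P1 P3 Q2 Q4 : Set P2) : Set Cf :=
  {z | ((Arm (frc e false z) L P1 (src e) ∧ Arm (frc e false z) L P3 (tgt e)) ∨
      (Arm (frc e false z) L P3 (src e) ∧ Arm (frc e false z) L P1 (tgt e))) ∧
    ((Arm (dual (frc e true z)) FL Q2 (fA e) ∧ Arm (dual (frc e true z)) FL Q4 (fB e)) ∨
      (Arm (dual (frc e true z)) FL Q4 (fA e) ∧ Arm (dual (frc e true z)) FL Q2 (fB e)))}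

/-! ### RSW hypothesis -/

/-- both colours, all scales up to `N` -/
def RSp (c : ℝ) (p : I) (N : ℕ) : Prop :=
  0 < c ∧ ∀ n : ℕ, 1 ≤ n → n ≤ N → c ≤ xpr p (3 * n) n ∧ c ≤ xpr (σ p) (3 * n) n

theorem RSp.mono {c : ℝ} {p : I} {N N' : ℕ} (h : RSp c p N) (hN : N' ≤ N) : RSp c p N' :=
  ⟨h.1, fun n h1 h2 => h.2 n h1 (h2.trans hN)⟩

theorem xpr_le_one (p : I) (a b : ℤ) : xpr p a b ≤ 1 := by
  have h : xpr p a b = (nu p).real {z | LRc z 0 a 0 b} := by
    have := lr_eq_xpr p 0 a 0 b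
    rw [sub_zero, sub_zero] at this
    exact this.symm
  rw [h]
  exact measureReal_le_one

theorem RSp.le_one {c : ℝ} {p : I} {N : ℕ} (h : RSp c p N) (hN : 1 ≤ N) : c ≤ 1 :=
  (h.2 1 le_rfl hN).1.trans (xpr_le_one _ _ _)

/-- price of a primal tube -/
theorem RSp.tube {c : ℝ} {p : I} {N : ℕ} (h : RSp c p N) {n : ℕ} (h1 : 1 ≤ n) (h2 : n ≤ N)
    {K : Finset P2} {M : ℕ} (hK : K.card ≤ M) :
    c ^ (2 * M) ≤ (nu p).real (tubeX n K) ∧ c ^ (2 * M) ≤ (nu (σ p)).real (tubeX n K) := by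
  have hc := h.le_one (h1.trans h2)
  have h3 : c ^ (2 * M) ≤ c ^ (2 * K.card) :=
    pow_le_pow_of_le_one h.1.le hc (by omega)
  obtain ⟨h4, h5⟩ := h.2 n h1 h2
  exact ⟨h3.trans ((pow_le_pow_left₀ h.1.le h4 _).trans (tube_prob p n K)),
    h3.trans ((pow_le_pow_left₀ h.1.le h5 _).trans (tube_prob (σ p) n K))⟩

/-! ### locality and monotonicity -/

theorem Sq_finite (R : ℤ) : (Sq R).Finite := rect_finite _ _ _ _

theorem FSq_finite (R : ℤ) : (FSq R).Finite := rect_finite _ _ _ _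

theorem frc_inc (e : Edge) (b : Bool) {z z' : Cf} (h : ∀ i, z i = true → z' i = true) :
    ∀ i, frc e b z i = true → frc e b z' i = true := by
  intro i hi
  by_cases h1 : i = e
  · subst h1
    rwa [frc_self] at hi ⊢
  · rw [frc_ne h1] at hi ⊢
    exact h i hi

theorem oc_mono {z z' : Cf} (h : ∀ i, z i = true → z' i = true) {S S' : Set P2} (hS : S ⊆ S')
    {u v : P2} (huv : OC z S u v) : OC z' S' u v := by
  refine huv.mono (fun e => ?_) hS
  rcases hz : z e with _ | _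
  · exact Bool.false_le _
  · rw [h e hz]

theorem Arm.mono {z z' : Cf} (h : ∀ i, z i = true → z' i = true) {D D' A A' : Set P2}
    (hD : D ⊆ D') (hA : A ⊆ A') {u : P2} (hu : Arm z D A u) : Arm z' D' A' u := by
  obtain ⟨a, ha, hu⟩ := hu
  exact ⟨a, hA ha, oc_mono h hD hu⟩

theorem dual_anti {z z' : Cf} (h : ∀ i, z i = true → z' i = true) :
    ∀ i, dual z' i = true → dual z i = true := by
  intro i hi
  rw [dual_eq_true] at hi ⊢
  by_contra h1
  rw [Bool.not_eq_false] at h1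
  rw [h _ h1] at hi
  exact absurd hi (by simp)

/-- any statement on open connections of `frc e b z` inside the finite set `D` -/
theorem dep_frc_oc {D : Set P2} (hD : D.Finite) (e : Edge) (b : Bool)
    (F : (P2 → P2 → Prop) → Prop) : Dep (edF D) {z : Cf | F (OC (frc e b z) D)} := by
  refine Dep.mono ?_ (dep_sec (dep_oc hD F) e b)
  exact @Finset.erase_subset _ (Classical.decEq Edge) _ _

/-- any statement on dual connections of `frc e b z` inside the finite set `D` -/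
theorem dep_frc_dual_oc {D : Set P2} (hD : D.Finite) (e : Edge) (b : Bool)
    (F : (P2 → P2 → Prop) → Prop) :
    Dep ((edF D).map dE.symm.toEmbedding) {z : Cf | F (OC (dual (frc e b z)) D)} := by
  refine Dep.mono ?_ (dep_sec (dep_oc hD F).dual e b)
  exact @Finset.erase_subset _ (Classical.decEq Edge) _ _

theorem dep_dual_oc {D : Set P2} (hD : D.Finite) (F : (P2 → P2 → Prop) → Prop) :
    Dep ((edF D).map dE.symm.toEmbedding) {z : Cf | F (OC (dual z) D)} := (dep_oc hD F).dual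

theorem dep_UinP (e : Edge) (R : ℤ) (n : ℕ) (k1 k2 k3 k4 : P2) :
    Dep (edF (Sq R \ Bk2 n k2 k4 8)) (UinP e R n k1 k2 k3 k4) :=
  dep_frc_oc ((Sq_finite R).subset Set.sdiff_subset) e false fun f =>
    (∃ a ∈ Bk n k1 1, f (src e) a) ∧ ∃ a ∈ Bk n k3 1, f (tgt e) a

theorem dep_UinD (e : Edge) (R : ℤ) (n : ℕ) (k1 k2 k3 k4 : P2) :
    Dep ((edF (FSq R \ Bk2 n k1 k3 8)).map dE.symm.toEmbedding) (UinD e R n k1 k2 k3 k4) :=
  dep_frc_dual_oc ((FSq_finite R).subset Set.sdiff_subset) e true fun f =>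
    (∃ a ∈ Bk n k2 1, f (fA e) a) ∧ ∃ a ∈ Bk n k4 1, f (fB e) a

theorem inc_UinP (e : Edge) (R : ℤ) (n : ℕ) (k1 k2 k3 k4 : P2) : Inc (UinP e R n k1 k2 k3 k4) :=
  fun _ _ h hz => ⟨hz.1.mono (frc_inc e false h) subset_rfl subset_rfl,
    hz.2.mono (frc_inc e false h) subset_rfl subset_rfl⟩

theorem decr_UinD (e : Edge) (R : ℤ) (n : ℕ) (k1 k2 k3 k4 : P2) :
    Decr (UinD e R n k1 k2 k3 k4) :=
  fun _ _ h hz => ⟨hz.1.mono (dual_anti (frc_inc e true h)) subset_rfl subset_rfl,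
    hz.2.mono (dual_anti (frc_inc e true h)) subset_rfl subset_rfl⟩

theorem dep_UoutP {L : Set P2} (hL : L.Finite) (ρ : ℤ) (n : ℕ) (k1 k2 k3 k4 : P2)
    (P1 P3 : Set P2) :
    Dep (edF (OutV L ρ \ Bk2 n k2 k4 8)) (UoutP L ρ n k1 k2 k3 k4 P1 P3) :=
  dep_oc (hL.subset (Set.sdiff_subset.trans Set.inter_subset_left)) fun f =>
    (∃ a ∈ Bk n k1 1, ∃ b ∈ P1, f a b) ∧ ∃ a ∈ Bk n k3 1, ∃ b ∈ P3, f a b

theorem dep_UoutD {FL : Set P2} (hL : FL.Finite) (ρ : ℤ) (n : ℕ) (k1 k2 k3 k4 : P2)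
    (Q2 Q4 : Set P2) :
    Dep ((edF (OutF FL ρ \ Bk2 n k1 k3 8)).map dE.symm.toEmbedding)
      (UoutD FL ρ n k1 k2 k3 k4 Q2 Q4) :=
  dep_dual_oc (hL.subset (Set.sdiff_subset.trans Set.inter_subset_left)) fun f =>
    (∃ a ∈ Bk n k2 1, ∃ b ∈ Q2, f a b) ∧ ∃ a ∈ Bk n k4 1, ∃ b ∈ Q4, f a b

theorem inc_UoutP (L : Set P2) (ρ : ℤ) (n : ℕ) (k1 k2 k3 k4 : P2) (P1 P3 : Set P2) :
    Inc (UoutP L ρ n k1 k2 k3 k4 P1 P3) := by
  rintro z z' h ⟨⟨a, ha, h1⟩, b, hb, h2⟩
  exact ⟨⟨a, ha, h1.mono h subset_rfl subset_rfl⟩, b, hb, h2.mono h subset_rfl subset_rfl⟩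

theorem decr_UoutD (FL : Set P2) (ρ : ℤ) (n : ℕ) (k1 k2 k3 k4 : P2) (Q2 Q4 : Set P2) :
    Decr (UoutD FL ρ n k1 k2 k3 k4 Q2 Q4) := by
  rintro z z' h ⟨⟨a, ha, h1⟩, b, hb, h2⟩
  exact ⟨⟨a, ha, h1.mono (dual_anti h) subset_rfl subset_rfl⟩, b, hb,
    h2.mono (dual_anti h) subset_rfl subset_rfl⟩

/-- support of `NiceP` (vertex set) -/
def NVP (n : ℕ) : Set P2 := Sq (16 * n) ∪ (Corr 0 n ∪ Corr 2 n)

/-- support of `NiceD` (face set) -/
def NVD (n : ℕ) : Set P2 := Sq (16 * n) ∪ (Corr 1 n ∪ Corr 3 n)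

theorem Gate_sub (d : Fin 4) (n : ℕ) : Gate d n ⊆ Corr d n := fun v hv => by
  obtain ⟨h1, h2, h3, h4⟩ := hv
  exact ⟨by omega, h2, h3, h4⟩

theorem Corr_sub (d : Fin 4) (n : ℕ) : Corr d n ⊆ Sq (32 * n) := by
  intro v hv
  obtain ⟨h1, h2, h3, h4⟩ := hv
  rw [mem_Sq]
  fin_cases d <;> simp only [co] at h1 h2 h3 h4 <;> omega

theorem Sq_sub {R R' : ℤ} (h : R ≤ R') : Sq R ⊆ Sq R' := fun v hv => by
  rw [mem_Sq] at hv ⊢
  omega

theorem NVP_sub (n : ℕ) : NVP n ⊆ Sq (32 * n) := by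
  refine Set.union_subset (Sq_sub (by omega)) (Set.union_subset (Corr_sub 0 n) (Corr_sub 2 n))

theorem NVD_sub (n : ℕ) : NVD n ⊆ Sq (32 * n) := by
  refine Set.union_subset (Sq_sub (by omega)) (Set.union_subset (Corr_sub 1 n) (Corr_sub 3 n))

theorem NVP_finite (n : ℕ) : (NVP n).Finite := (Sq_finite _).subset (NVP_sub n)

theorem NVD_finite (n : ℕ) : (NVD n).Finite := (Sq_finite _).subset (NVD_sub n)

theorem oc_sub_iff {z z' : Cf} {S D : Set P2} (hSD : S ⊆ D) (hD : D.Finite)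
    (h : ∀ e ∈ edF D, z e = z' e) {u v : P2} : OC z S u v ↔ OC z' S u v :=
  oc_iff fun e h1 h2 => h e ((mem_edF hD).2 ⟨hSD h1, hSD h2⟩)

theorem garm_iff {z z' : Cf} {d : Fin 4} {n : ℕ} {D : Set P2} (hD : D.Finite)
    (hS : Sq (16 * n) ∪ Corr d n ⊆ D) (h : ∀ e ∈ edF D, z e = z' e) {u : P2} :
    GArm z d n u ↔ GArm z' d n u := by
  have hG : Gate d n ⊆ D := ((Gate_sub d n).trans Set.subset_union_right).trans hS
  unfold GArm
  simp only [oc_sub_iff hG hD h, oc_sub_iff hS hD h]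

theorem frc_congr {e : Edge} {b : Bool} {z z' : Cf} {S : Finset Edge}
    (h : ∀ i ∈ S, z i = z' i) : ∀ i ∈ S, frc e b z i = frc e b z' i := by
  intro i hi
  by_cases h1 : i = e
  · subst h1
    rw [frc_self, frc_self]
  · rw [frc_ne h1, frc_ne h1]
    exact h i hi

theorem dual_congr {z z' : Cf} {S : Finset Edge}
    (h : ∀ i ∈ S.map dE.symm.toEmbedding, z i = z' i) : ∀ i ∈ S, dual z i = dual z' i := by
  intro i hi
  have h1 := h (dE.symm i) (Finset.mem_map.2 ⟨i, hi, rfl⟩)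
  show (!z (dE.symm i)) = !z' (dE.symm i)
  rw [h1]

theorem dep_NiceP (e : Edge) (n : ℕ) (s : Bool) : Dep (edF (NVP n)) (NiceP e n s) := by
  intro z z' h
  have h' := frc_congr (e := e) (b := false) h
  cases s
  · exact and_congr (garm_iff (NVP_finite n) (Set.union_subset_union_right _
      Set.subset_union_right) h') (garm_iff (NVP_finite n) (Set.union_subset_union_right _
      Set.subset_union_left) h')
  · exact and_congr (garm_iff (NVP_finite n) (Set.union_subset_union_right _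
      Set.subset_union_left) h') (garm_iff (NVP_finite n) (Set.union_subset_union_right _
      Set.subset_union_right) h')

theorem dep_NiceD (e : Edge) (n : ℕ) (t : Bool) :
    Dep ((edF (NVD n)).map dE.symm.toEmbedding) (NiceD e n t) := by
  intro z z' h
  have h' := dual_congr (frc_congr (e := e) (b := true) h)
  cases t
  · exact and_congr (garm_iff (NVD_finite n) (Set.union_subset_union_right _
      Set.subset_union_right) h') (garm_iff (NVD_finite n) (Set.union_subset_union_right _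
      Set.subset_union_left) h')
  · exact and_congr (garm_iff (NVD_finite n) (Set.union_subset_union_right _
      Set.subset_union_left) h') (garm_iff (NVD_finite n) (Set.union_subset_union_right _
      Set.subset_union_right) h')

theorem GArm.mono {z z' : Cf} (h : ∀ i, z i = true → z' i = true) {d : Fin 4} {n : ℕ} {u : P2}
    (hu : GArm z d n u) : GArm z' d n u := by
  obtain ⟨A, B, h1, h2, h3, h4⟩ := hu
  exact ⟨A, B, h1, h2, oc_mono h subset_rfl h3, oc_mono h subset_rfl h4⟩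

theorem inc_NiceP (e : Edge) (n : ℕ) (s : Bool) : Inc (NiceP e n s) :=
  fun _ _ h hz => ⟨hz.1.mono (frc_inc e false h), hz.2.mono (frc_inc e false h)⟩

theorem decr_NiceD (e : Edge) (n : ℕ) (t : Bool) : Decr (NiceD e n t) :=
  fun _ _ h hz => ⟨hz.1.mono (dual_anti (frc_inc e true h)),
    hz.2.mono (dual_anti (frc_inc e true h))⟩

/-- some choice of sides carries a quarter of the probability -/
theorem nice_choice (p : I) (e : Edge) (n : ℕ) :
    ∃ s t, (nu p).real (NiceU e n) ≤ 4 * (nu p).real (Nice e n s t) := by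
  by_contra hcon
  push Not at hcon
  have h1 : NiceU e n = (Nice e n true true ∪ Nice e n true false) ∪
      (Nice e n false true ∪ Nice e n false false) := by
    ext z
    constructor
    · rintro ⟨s, t, h⟩
      cases s <;> cases t
      · exact Or.inr (Or.inr h)
      · exact Or.inr (Or.inl h)
      · exact Or.inl (Or.inr h)
      · exact Or.inl (Or.inl h)
    · rintro ((h | h) | (h | h))
      · exact ⟨_, _, h⟩
      · exact ⟨_, _, h⟩
      · exact ⟨_, _, h⟩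
      · exact ⟨_, _, h⟩
  have h2 := measureReal_union_le (μ := nu p) (Nice e n true true ∪ Nice e n true false)
    (Nice e n false true ∪ Nice e n false false)
  have h3 := measureReal_union_le (μ := nu p) (Nice e n true true) (Nice e n true false)
  have h4 := measureReal_union_le (μ := nu p) (Nice e n false true) (Nice e n false false)
  rw [← h1] at h2
  have a1 := hcon true true
  have a2 := hcon true false
  have a3 := hcon false true
  have a4 := hcon false false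
  linarith

end Crest.Agent.R158.Sp580
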