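import Crest.Agent.R158.Cpl7_963
import Crest.Agent.R158.Sp0_580

/-!
# Row 158 (helper963): the window statements in the language of `Sp0_580`

* `A4_eq` : the four-arm event of `Sp580` is the one of `Cpl963`
* `L4` : lower point bound at `p = 1/2` (`Sp580.A4`)
* `A4low` : 570's form in the window
-/

set_option autoImplicit false

noncomputable section

namespace Crest.Agent.R158.Cpl963

open MeasureTheory ProbabilityTheory unitInterval Filter Topology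
open Crest.Agent.R161.Geo729 Crest.Agent.R161.Topo374 Crest.Agent.R161.Dual374
open Crest.Agent.R161.Tas682 Crest.Agent.R161.Ring421
open Crest.Agent.R158.Rs689 Crest.Agent.R158.Qm522
open Crest.ProbabilityR.Percolation

theorem frc_eq (e : Edge) (b : Bool) (z : Cf) : Ru874.frc e b z = Function.update z e b := by
  unfold Ru874.frc
  congr!

/-- the two four-arm events coincide -/
theorem A4_eq (e : Edge) (R : ℤ) : Sp580.A4 e R = A4 e R := by
  ext z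
  unfold Sp580.A4 A4 A4c Sp580.Arm
  rw [Set.mem_ofPred_eq, Set.mem_ofPred_eq, Set.mem_ofPred_eq, frc_eq]
  rfl

/-- lower four-arm point bound at `p = 1/2`, in the language of `Sp580` -/
def L4 : Prop :=
  ∀ ε : ℝ, 0 < ε → ∀ᶠ r : ℕ in atTop, ∀ e : Edge,
    (r : ℝ) ^ (-(5 / 4 : ℝ) - ε) ≤ (nu hf).real (Sp580.A4 e r)

theorem L4_iff : L4 ↔ HypL4 := by
  unfold L4 HypL4
  simp only [A4_eq]

/-- **(A4low)** -/
theorem A4low (hU : HypU4) (hL : L4) {δ ε : ℝ} (hδ : 0 < δ) (hε : 0 < ε) :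
    ∀ᶠ r : ℕ in atTop, ∀ q : ℝ, |q - 1 / 2| ≤ (r : ℝ) ^ (-(3 / 4 : ℝ) - δ) → ∀ e : Edge,
      (r : ℝ) ^ (-(5 / 4 : ℝ) - ε) ≤ Fr158.Pr q (Sp580.A4 e r) := by
  have h := A4_low_q hU (L4_iff.1 hL) hδ hε
  simpa only [A4_eq] using h

/-- (A4low) for the laws `nu q`, `q : I` -/
theorem A4low_I (hU : HypU4) (hL : L4) {δ ε : ℝ} (hδ : 0 < δ) (hε : 0 < ε) :
    ∀ᶠ r : ℕ in atTop, ∀ q : I, |(q : ℝ) - 1 / 2| ≤ (r : ℝ) ^ (-(3 / 4 : ℝ) - δ) → ∀ e : Edge,
      (r : ℝ) ^ (-(5 / 4 : ℝ) - ε) ≤ (nu q).real (Sp580.A4 e r) := by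
  filter_upwards [A4_low hU (L4_iff.1 hL) hδ hε] with r h
  intro q hq e
  rw [A4_eq]
  exact h (fun _ => q) (fun f => by rw [hf_coe]; exact hq) e

/-- upper point bound in the window -/
theorem A4up_I (hU : HypU4) {δ ε : ℝ} (hδ : 0 < δ) (hε : 0 < ε) :
    ∀ᶠ r : ℕ in atTop, ∀ q : I, |(q : ℝ) - 1 / 2| ≤ (r : ℝ) ^ (-(3 / 4 : ℝ) - δ) → ∀ e : Edge,
      (nu q).real (Sp580.A4 e r) ≤ (r : ℝ) ^ (-(5 / 4 : ℝ) + ε) := by
  filter_upwards [A4_up hU hδ hε] with r h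
  intro q hq e
  rw [A4_eq]
  exact h (fun _ => q) (fun f => by rw [hf_coe]; exact hq) e

end Crest.Agent.R158.Cpl963
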