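import Crest.Agent.R158.Ax1_107
import Crest.Agent.R158.Cpl8_963
import Crest.Agent.R158.It3_200

/-!
# R158, A4 (helper107): literal form of the closure

* `p4 n` : `P_{1/2}(Sp580.A4 ((0,0),false) n)`; `A4_prob` : the same for every edge
* `p2 n` : `P_{1/2}(P2ev n)`, `P2ev n` : the open cluster of `(0,0)` and the dual cluster of the face
  `(0,0)` reach sup distance `n`
* `final` : `SB p2 → SC p2 p4 → SD p2 p4 → L4 ∧ P4U ∧ P2 bounds`
-/

set_option autoImplicit false

noncomputable section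

namespace Crest.Agent.R158.Ax107

open Filter Topology MeasureTheory ProbabilityTheory unitInterval
open Crest.Agent.R161.Geo729 Crest.Agent.R161.Topo374 Crest.Agent.R161.Dual374
open Crest.Agent.R161.Tas682 Crest.Agent.R161.Ring421
open Crest.Agent.R158.Rs689 Crest.Agent.R158.Cpl963 Crest.Agent.R158.Sp580 Crest.Agent.R158.Ru874
open Crest.Agent.R158.It200 (OCl DCl)

local notation "μh" => Crest.Agent.R158.Rs689.nu Crest.Agent.R158.Rs689.hf

/-! ### symmetries of the four-arm event -/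

theorem frc_shift (a : P2) (e : Edge) (b : Bool) (z : Cf) :
    frc e b (shiftZ a z) = shiftZ a (frc (e.1 + a, e.2) b z) := by
  funext i
  by_cases h : i = e
  · subst h
    rw [frc_self]
    show b = frc (i.1 + a, i.2) b z (i.1 + a, i.2)
    rw [frc_self]
  · rw [frc_ne h]
    show z (i.1 + a, i.2) = frc (e.1 + a, e.2) b z (i.1 + a, i.2)
    rw [frc_ne]
    intro h'
    apply h
    rw [Prod.mk.injEq] at h'
    exact Prod.ext (add_right_cancel h'.1) h'.2

theorem src_add (e : Edge) (a : P2) : src (e.1 + a, e.2) = src e + a := rfl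

theorem tgt_add (e : Edge) (a : P2) : tgt (e.1 + a, e.2) = tgt e + a := by
  obtain ⟨⟨x, y⟩, b⟩ := e
  obtain ⟨a1, a2⟩ := a
  cases b
  · simp [tgt]; ring
  · simp [tgt]; ring

theorem ball_shift (x a : P2) (R : ℤ) :
    {w : P2 | w - a ∈ {v : P2 | sd x v ≤ R}} = {v | sd (x + a) v ≤ R} := by
  ext w
  have h := sd_add x a (w - a)
  rw [sub_add_cancel] at h
  simp only [Set.mem_ofPred_eq, h]

theorem A4_shift (e : Edge) (a : P2) (R : ℤ) :
    shiftZ a ⁻¹' Sp580.A4 e R = Sp580.A4 (e.1 + a, e.2) R := by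
  ext z
  have key : ∀ u v : P2, OC (frc e false (shiftZ a z)) {v | sd (src e) v ≤ R} u v ↔
      OC (frc (e.1 + a, e.2) false z) {v | sd (src e + a) v ≤ R} (u + a) (v + a) := by
    intro u v
    rw [frc_shift, OC_shift_iff, ball_shift]
  show ((∃ v ∈ {v | sd (src e) v = R}, OC (frc e false (shiftZ a z)) {v | sd (src e) v ≤ R}
      (src e) v) ∧ (∃ v ∈ {v | sd (src e) v = R}, OC (frc e false (shiftZ a z))
      {v | sd (src e) v ≤ R} (tgt e) v) ∧ ¬ OC (frc e false (shiftZ a z))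
      {v | sd (src e) v ≤ R} (src e) (tgt e)) ↔
    ((∃ v ∈ {v | sd (src e + a) v = R}, OC (frc (e.1 + a, e.2) false z)
      {v | sd (src e + a) v ≤ R} (src e + a) v) ∧ (∃ v ∈ {v | sd (src e + a) v = R},
      OC (frc (e.1 + a, e.2) false z) {v | sd (src e + a) v ≤ R} (tgt (e.1 + a, e.2)) v) ∧
      ¬ OC (frc (e.1 + a, e.2) false z) {v | sd (src e + a) v ≤ R} (src e + a)
        (tgt (e.1 + a, e.2)))
  rw [tgt_add]
  have ex : ∀ u : P2, (∃ v ∈ {v | sd (src e) v = R}, OC (frc e false (shiftZ a z))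
      {v | sd (src e) v ≤ R} u v) ↔ ∃ v ∈ {v | sd (src e + a) v = R},
      OC (frc (e.1 + a, e.2) false z) {v | sd (src e + a) v ≤ R} (u + a) v := by
    intro u
    constructor
    · rintro ⟨v, hv, h⟩
      exact ⟨v + a, by
        show sd (src e + a) (v + a) = R
        rw [sd_add]; exact hv, (key u v).1 h⟩
    · rintro ⟨v, hv, h⟩
      refine ⟨v - a, ?_, (key u (v - a)).2 (by rw [sub_add_cancel]; exact h)⟩
      show sd (src e) (v - a) = R
      rw [← sd_add (src e) a, sub_add_cancel]; exact hv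
  rw [ex, ex, key]

/-- transposition of edges -/
def trE : Edge ≃ Edge where
  toFun e := ((e.1.2, e.1.1), !e.2)
  invFun e := ((e.1.2, e.1.1), !e.2)
  left_inv e := by simp
  right_inv e := by simp

/-- transposition of configurations -/
def trZ (z : Cf) : Cf := fun e => z (trE e)

theorem src_trE (e : Edge) : src (trE e) = (src e).swap := rfl

theorem tgt_trE (e : Edge) : tgt (trE e) = (tgt e).swap := by
  obtain ⟨⟨x, y⟩, b⟩ := e
  cases b <;> rfl

theorem trE_trE (e : Edge) : trE (trE e) = e := by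
  obtain ⟨⟨x, y⟩, b⟩ := e
  simp [trE]

theorem trZ_trZ (z : Cf) : trZ (trZ z) = z := by
  funext e
  show z (trE (trE e)) = z e
  rw [trE_trE]

theorem trZ_map (p : I) : (Rs689.nu p).map trZ = Rs689.nu p :=
  PB_map_equiv trE.symm (fun _ : Edge => p)

theorem meas_trZ : Measurable trZ := measurable_pi_lambda _ fun _ => measurable_pi_apply _

theorem sd_swap (x v : P2) : sd x.swap v.swap = sd x v := by
  unfold sd
  exact max_comm _ _

theorem OC_tr {z : Cf} {S : Set P2} {u v : P2} (h : OC (trZ z) S u v) :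
    OC z {w | w.swap ∈ S} u.swap v.swap := by
  refine ⟨by simpa using h.1, ?_⟩
  obtain ⟨_, h⟩ := h
  induction h with
  | refl => exact .refl
  | @tail b c _ h2 ih =>
    obtain ⟨⟨e, he, h3⟩, hb, hc⟩ := h2
    refine ih.tail ⟨⟨trE e, he, ?_⟩, by simpa using hb, by simpa using hc⟩
    rw [src_trE, tgt_trE]
    rcases h3 with ⟨rfl, rfl⟩ | ⟨rfl, rfl⟩
    · exact Or.inl ⟨rfl, rfl⟩
    · exact Or.inr ⟨rfl, rfl⟩

theorem OC_tr_iff {z : Cf} {S : Set P2} {u v : P2} :
    OC (trZ z) S u v ↔ OC z {w | w.swap ∈ S} u.swap v.swap := by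
  refine ⟨OC_tr, fun h => ?_⟩
  have h1 : OC (trZ (trZ z)) {w | w.swap ∈ S} u.swap v.swap := by
    rw [trZ_trZ]; exact h
  have h2 := OC_tr h1
  have h3 : {w : P2 | w.swap ∈ {w : P2 | w.swap ∈ S}} = S := by
    ext w
    simp
  rw [h3] at h2
  simpa using h2

theorem frc_tr (e : Edge) (b : Bool) (z : Cf) : frc e b (trZ z) = trZ (frc (trE e) b z) := by
  funext i
  by_cases h : i = e
  · subst h
    rw [frc_self]
    show b = frc (trE i) b z (trE i)
    rw [frc_self]
  · rw [frc_ne h]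
    show z (trE i) = frc (trE e) b z (trE i)
    rw [frc_ne]
    intro h'
    exact h (trE.injective h')

theorem ball_swap (x : P2) (R : ℤ) :
    {w : P2 | w.swap ∈ {v : P2 | sd x v ≤ R}} = {v | sd x.swap v ≤ R} := by
  ext w
  have h := sd_swap x w.swap
  rw [Prod.swap_swap] at h
  simp only [Set.mem_ofPred_eq, h]

theorem A4_tr (e : Edge) (R : ℤ) : trZ ⁻¹' Sp580.A4 e R = Sp580.A4 (trE e) R := by
  ext z
  have key : ∀ u v : P2, OC (frc e false (trZ z)) {v | sd (src e) v ≤ R} u v ↔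
      OC (frc (trE e) false z) {v | sd (src e).swap v ≤ R} u.swap v.swap := by
    intro u v
    rw [frc_tr, OC_tr_iff, ball_swap]
  show ((∃ v ∈ {v | sd (src e) v = R}, OC (frc e false (trZ z)) {v | sd (src e) v ≤ R}
      (src e) v) ∧ (∃ v ∈ {v | sd (src e) v = R}, OC (frc e false (trZ z))
      {v | sd (src e) v ≤ R} (tgt e) v) ∧ ¬ OC (frc e false (trZ z))
      {v | sd (src e) v ≤ R} (src e) (tgt e)) ↔
    ((∃ v ∈ {v | sd (src e).swap v = R}, OC (frc (trE e) false z)
      {v | sd (src e).swap v ≤ R} (src e).swap v) ∧ (∃ v ∈ {v | sd (src e).swap v = R},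
      OC (frc (trE e) false z) {v | sd (src e).swap v ≤ R} (tgt (trE e)) v) ∧
      ¬ OC (frc (trE e) false z) {v | sd (src e).swap v ≤ R} (src e).swap
        (tgt (trE e)))
  rw [tgt_trE]
  have ex : ∀ u : P2, (∃ v ∈ {v | sd (src e) v = R}, OC (frc e false (trZ z))
      {v | sd (src e) v ≤ R} u v) ↔ ∃ v ∈ {v | sd (src e).swap v = R},
      OC (frc (trE e) false z) {v | sd (src e).swap v ≤ R} u.swap v := by
    intro u
    constructor
    · rintro ⟨v, hv, h⟩
      exact ⟨v.swap, by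
        show sd (src e).swap v.swap = R
        rw [sd_swap]; exact hv, (key u v).1 h⟩
    · rintro ⟨v, hv, h⟩
      refine ⟨v.swap, ?_, (key u v.swap).2 (by rw [Prod.swap_swap]; exact h)⟩
      show sd (src e) v.swap = R
      rw [← sd_swap (src e), Prod.swap_swap]; exact hv
  rw [ex, ex, key]

theorem A4_meas (e : Edge) (R : ℤ) : MeasurableSet (Sp580.A4 e R) := by
  rw [Cpl963.A4_eq]
  exact (Cpl963.A4_dep e R).measurableSet

theorem A4_prob_shift (p : I) (e : Edge) (a : P2) (R : ℤ) :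
    (Rs689.nu p).real (Sp580.A4 (e.1 + a, e.2) R) = (Rs689.nu p).real (Sp580.A4 e R) := by
  have h := tInv p a
  rw [← A4_shift]
  conv_rhs => rw [← h]
  rw [measureReal_def, measureReal_def, Measure.map_apply (measurable_shiftZ a)
    (A4_meas _ _)]

theorem A4_prob_tr (p : I) (e : Edge) (R : ℤ) :
    (Rs689.nu p).real (Sp580.A4 (trE e) R) = (Rs689.nu p).real (Sp580.A4 e R) := by
  have h := trZ_map p
  rw [← A4_tr]
  conv_rhs => rw [← h]
  rw [measureReal_def, measureReal_def, Measure.map_apply meas_trZ (A4_meas _ _)]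

/-- **the probability of four arms does not depend on the edge** -/
theorem A4_prob (p : I) (e : Edge) (R : ℤ) :
    (Rs689.nu p).real (Sp580.A4 e R) = (Rs689.nu p).real (Sp580.A4 ((0, 0), false) R) := by
  obtain ⟨v, b⟩ := e
  have h1 := A4_prob_shift p ((0, 0), b) v R
  have h2 : (((0, 0), b).1 + v, ((0, 0), b).2) = ((v, b) : Edge) := by
    have : ((0, 0) : P2) + v = v := zero_add v
    exact Prod.ext this rfl
  rw [h2] at h1
  rw [h1]
  cases b
  · rfl
  · exact A4_prob_tr p ((0, 0), false) R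

/-! ### the two sequences -/

/-- four-arm probability at `p = 1/2` -/
def p4 (n : ℕ) : ℝ := (μh).real (Sp580.A4 ((0, 0), false) n)

/-- two-arm event at the corner `((0,0),0)` -/
def P2ev (n : ℕ) : Set Cf :=
  {z | (∃ v ∈ OCl z (0, 0), (n : ℤ) ≤ sd (0, 0) v) ∧ ∃ g ∈ DCl z (0, 0), (n : ℤ) ≤ sd (0, 0) g}

/-- two-arm probability at `p = 1/2` -/
def p2 (n : ℕ) : ℝ := (μh).real (P2ev n)

theorem p2_nonneg (n : ℕ) : 0 ≤ p2 n := measureReal_nonneg

theorem p2_le_one (n : ℕ) : p2 n ≤ 1 := measureReal_le_one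

theorem p4_nonneg (n : ℕ) : 0 ≤ p4 n := measureReal_nonneg

theorem p4_le_one (n : ℕ) : p4 n ≤ 1 := measureReal_le_one

theorem p2_anti : Antitone p2 := by
  intro n m h
  refine measureReal_mono ?_
  rintro z ⟨⟨v, hv, h1⟩, g, hg, h2⟩
  have h3 : (n : ℤ) ≤ m := by exact_mod_cast h
  exact ⟨⟨v, hv, h3.trans h1⟩, g, hg, h3.trans h2⟩

/-- upper four-arm point bound at `p = 1/2` (808's input) -/
def P4U : Prop :=
  ∀ ε : ℝ, 0 < ε → ∀ᶠ r : ℕ in atTop, ∀ e : Edge,
    (μh).real (Sp580.A4 e r) ≤ (r : ℝ) ^ (-(5 / 4 : ℝ) + ε)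

/-- **the closure** -/
theorem final (hB : SB p2) (hC : SC p2 p4) (hD : SD p2 p4) :
    Cpl963.L4 ∧ P4U ∧ UpB p2 (1 / 4) ∧ LoB p2 (1 / 4) := by
  have h1 := p2_up p2_nonneg p2_le_one hC hD
  refine ⟨?_, ?_, h1, hB⟩
  · intro ε hε
    filter_upwards [p4_lo hB hD ε hε] with r hr e
    rw [A4_prob]; exact hr
  · intro ε hε
    filter_upwards [p4_up h1 hC ε hε] with r hr e
    rw [A4_prob]; exact hr

end Crest.Agent.R158.Ax107
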