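import Crest.Agent.R158.Hp6_814

/-!
# Row 158, Block HP (helper814): no bad position on the boundary of a square

* `side_bound` : one flat side
* `Bad_sy` : symmetries
* `not_good_in`, `not_good_out` : two distinct clusters crossing `D ∩ An x s r`, some `x` on the
  boundary of a square, `D` = square or complement of the open square
-/

set_option autoImplicit false

noncomputable section

namespace Crest.Agent.R158.Hp814

open MeasureTheory ProbabilityTheory unitInterval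
open Crest.Agent.R161.Geo729 Crest.Agent.R161.Topo374 Crest.Agent.R161.Dual374
open Crest.Agent.R161.Tas682 Crest.Agent.R158.Rs689 Crest.Agent.R161.Sym597
open Crest.Agent.R158.Ru874

/-! ### a convergent sum -/

/-- `ζ(1+b)` -/
def Zb (b : ℝ) : ℝ := ∑' k : ℕ, 1 / ((k : ℝ) + 1) ^ (1 + b)

theorem summable_zb {b : ℝ} (hb : 0 < b) : Summable fun k : ℕ => 1 / ((k : ℝ) + 1) ^ (1 + b) := by
  have h := (summable_nat_add_iff 1).2 (Real.summable_one_div_nat_rpow.2 (by linarith : 1 < 1 + b))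
  refine h.congr fun k => ?_
  push_cast
  rfl

theorem zb_nonneg (b : ℝ) : 0 ≤ Zb b := tsum_nonneg fun k => by positivity

/-- the terms of the sum, shifted by two -/
def fz (b : ℝ) (k : ℕ) : ℝ := 1 / (((k - 2 : ℕ) : ℝ) + 1) ^ (1 + b)

theorem fz_nonneg (b : ℝ) (k : ℕ) : 0 ≤ fz b k := by unfold fz; positivity

theorem sum_fz_le {b : ℝ} (hb : 0 < b) (n : ℕ) : ∑ j ∈ Finset.range n, fz b j ≤ 2 + Zb b := by
  have h1 : ∑ j ∈ Finset.range n, fz b j ≤ ∑ j ∈ Finset.range (n + 2), fz b j :=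
    Finset.sum_le_sum_of_subset_of_nonneg (Finset.range_mono (by omega)) fun j _ _ =>
      fz_nonneg b j
  refine h1.trans ?_
  rw [Finset.sum_range_succ', Finset.sum_range_succ']
  have h2 : ∑ k ∈ Finset.range n, fz b (k + 1 + 1) ≤ Zb b := by
    have h3 : ∀ k ∈ Finset.range n, fz b (k + 1 + 1) = 1 / ((k : ℝ) + 1) ^ (1 + b) := by
      intro k _
      simp [fz]
    rw [Finset.sum_congr rfl h3]
    exact (summable_zb hb).sum_le_tsum _ fun k _ => by positivity
  have h4 : fz b (0 + 1) = 1 := by simp [fz]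
  have h5 : fz b 0 = 1 := by simp [fz]
  rw [h4, h5]
  linarith

/-! ### one side -/

/-- `D` looks like the upper half plane near the segment `[x0, x0+L] × {y1}` -/
def Flat (D : Set P2) (x0 y1 L : ℤ) : Prop :=
  ∀ i ρ l : ℤ, ρ < i → ρ < L - i → 1 ≤ l →
    D ∩ An (x0 + i, y1) l ρ = (HA (x0 + i, y1) l ρ : Finset P2)

/-- the segment -/
def Seg (x0 y1 L : ℤ) : Set P2 := {v | v.2 = y1 ∧ x0 ≤ v.1 ∧ v.1 ≤ x0 + L}

/-- one net point -/
theorem net_bound {p : I} {c : ℝ} {N1 N2 : ℤ} (h : Rsw p c N1 N2) (hc2 : c ≤ 1 / 2) {D : Set P2}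
    {x0 y1 L : ℤ} (hF : Flat D x0 y1 L) {s m : ℤ} (hs : 1 ≤ s) (hsm : 2 * s ≤ m)
    (hN1 : 2 * s + 1 ≤ N1) (hN2 : m ≤ N2) (k : ℕ) (i : ℤ) (hk : (k : ℤ) * s ≤ i)
    (hk' : (k : ℤ) * s ≤ L - i) :
    (nu p).real (LT D (x0 + i, y1) (2 * s) m) ≤ K0 c *
      (4 * fz (aex c / 2) k * (((2 * s : ℤ) : ℝ) / m) ^ (aex c / 2) +
        (((2 * s : ℤ) : ℝ) / m) ^ (1 + aex c)) := by
  have hc := h.pos
  have ha := aex_pos hc hc2
  have ha1 := aex_le_one hc hc2
  have hK := K0_pos hc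
  have hs0 : (1 : ℝ) ≤ s := by exact_mod_cast hs
  have hm0 : (2 : ℝ) * s ≤ m := by exact_mod_cast hsm
  have hmp : (0 : ℝ) < m := by linarith
  have hlp : (0 : ℝ) < ((2 * s : ℤ) : ℝ) := by push_cast; linarith
  have hq1 : 0 ≤ (((2 * s : ℤ) : ℝ) / m) ^ (aex c / 2) := by positivity
  have hq2 : 0 ≤ (((2 * s : ℤ) : ℝ) / m) ^ (1 + aex c) := by positivity
  by_cases hk2 : k ≤ 2
  · have h1 := pos_bound0 h hc2 D (x0 + i, y1) (l := 2 * s) (by omega) hsm hN2
    have h2 : fz (aex c / 2) k = 1 := by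
      unfold fz
      rw [Nat.sub_eq_zero_of_le hk2]
      simp
    refine h1.trans (mul_le_mul_of_nonneg_left ?_ hK.le)
    rw [h2]
    linarith
  · push Not at hk2
    have hk3 : (3 : ℤ) ≤ k := by exact_mod_cast hk2
    have hks : 3 * s ≤ k * s := mul_le_mul_of_nonneg_right hk3 (by omega)
    by_cases hkm : (k : ℤ) * s - 1 < m
    · have h1 := pos_bound1 h hc2 D (x0 + i, y1) (l := 2 * s) (ρ := k * s - 1) (m := m)
        (by omega) (by omega) (by omega) hN1 hN2
        (hF i _ _ (by omega) (by omega) (by omega))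
      have h2 : (((2 * s : ℤ) : ℝ) / ((k * s - 1 : ℤ) : ℝ)) ^ (1 + aex c / 2) ≤
          4 * fz (aex c / 2) k := by
        have hkk : (((k - 2 : ℕ) : ℝ) + 1) = (k : ℝ) - 1 := by
          rw [Nat.cast_sub (by omega)]
          push_cast
          ring
        have hk4 : (3 : ℝ) ≤ k := by exact_mod_cast hk2
        have h3 : ((2 * s : ℤ) : ℝ) / ((k * s - 1 : ℤ) : ℝ) ≤ 2 * (1 / ((k : ℝ) - 1)) := by
          push_cast
          rw [mul_one_div, div_le_div_iff₀ (by nlinarith) (by linarith)]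
          nlinarith
        have h4 : (2 : ℝ) ^ (1 + aex c / 2) ≤ 4 := by
          calc (2 : ℝ) ^ (1 + aex c / 2) ≤ 2 ^ (2 : ℝ) :=
                Real.rpow_le_rpow_of_exponent_le (by norm_num) (by linarith)
            _ = 4 := by rw [Real.rpow_two]; norm_num
        have hkp : (0 : ℝ) < 1 / ((k : ℝ) - 1) := by
          apply one_div_pos.2
          linarith
        have hdp : (0 : ℝ) ≤ ((2 * s : ℤ) : ℝ) / ((k * s - 1 : ℤ) : ℝ) := by
          push_cast
          apply div_nonneg (by linarith)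
          nlinarith
        calc (((2 * s : ℤ) : ℝ) / ((k * s - 1 : ℤ) : ℝ)) ^ (1 + aex c / 2)
            ≤ (2 * (1 / ((k : ℝ) - 1))) ^ (1 + aex c / 2) :=
              Real.rpow_le_rpow hdp h3 (by linarith)
          _ = 2 ^ (1 + aex c / 2) * (1 / ((k : ℝ) - 1)) ^ (1 + aex c / 2) :=
              Real.mul_rpow (by norm_num) hkp.le
          _ ≤ 4 * fz (aex c / 2) k := by
              unfold fz
              rw [hkk]
              have h6 : (1 / ((k : ℝ) - 1)) ^ (1 + aex c / 2) =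
                  1 / ((k : ℝ) - 1) ^ (1 + aex c / 2) := by
                rw [Real.div_rpow (by norm_num) (by linarith), Real.one_rpow]
              rw [h6]
              refine mul_le_mul_of_nonneg_right h4 ?_
              rw [← h6]
              positivity
      refine h1.trans (mul_le_mul_of_nonneg_left ?_ hK.le)
      have h5 := mul_le_mul_of_nonneg_right h2 hq1
      linarith
    · push Not at hkm
      have h1 := pos_bound2 h hc2 D (x0 + i, y1) (l := 2 * s) (m := m)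
        (by omega) hsm hN1 hN2 (hF i _ _ (by omega) (by omega) (by omega))
      refine h1.trans (mul_le_mul_of_nonneg_left ?_ hK.le)
      have h5 := mul_nonneg (mul_nonneg (by norm_num : (0 : ℝ) ≤ 4) (fz_nonneg (aex c / 2) k)) hq1
      linarith

/-- the net -/
theorem bad_net (D : Set P2) (x0 y1 L : ℤ) {s r : ℤ} (hs : 1 ≤ s) (hsr : 3 * s ≤ r) :
    Bad D (Seg x0 y1 L) s r ⊆ ⋃ j ∈ Finset.range ((L / s).toNat + 1),
      LT D (x0 + (j : ℤ) * s, y1) (2 * s) (r - s) := by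
  rintro y ⟨x, ⟨hx2, hx1, hx1'⟩, hy⟩
  set i := x.1 - x0 with hi
  have h1 := Int.emod_add_mul_ediv i s
  have h2 := Int.emod_nonneg i (by omega : s ≠ 0)
  have h3 := Int.emod_lt_of_pos i (by omega : 0 < s)
  have h4 : 0 ≤ i / s := Int.ediv_nonneg (by omega) (by omega)
  have h5 : i / s ≤ L / s := Int.ediv_le_ediv (by omega) (by omega)
  simp only [Set.mem_iUnion, Finset.mem_range]
  refine ⟨(i / s).toNat, by omega, ?_⟩
  have h6 : (((i / s).toNat : ℕ) : ℤ) = i / s := Int.toNat_of_nonneg h4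
  rw [h6]
  have h7 : sd x (x0 + i / s * s, y1) ≤ s := by
    have : i / s * s = s * (i / s) := by ring
    refine sd_le.2 ⟨?_, ?_, ?_, ?_⟩ <;> simp only <;> omega
  exact LT_move D (by omega) (by omega) (by omega) hy

/-- the constant -/
def K1 (c : ℝ) : ℝ := K0 c * (24 * (2 + Zb (aex c / 2)) + 18)

theorem K1_pos {c : ℝ} (hc : 0 < c) : 0 < K1 c := by
  unfold K1
  have := K0_pos hc
  have h2 := zb_nonneg (aex c / 2)
  positivity

theorem K1_ge {c : ℝ} (hc : 0 < c) (hc2 : c ≤ 1 / 2) : 3 ≤ K1 c := by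
  unfold K1
  have h1 := K0_ge hc hc2
  have h2 := zb_nonneg (aex c / 2)
  nlinarith

/-- **One side.** -/
theorem side_bound {p : I} {c : ℝ} {N1 N2 : ℤ} (h : Rsw p c N1 N2) (hc2 : c ≤ 1 / 2) {D : Set P2}
    {x0 y1 L : ℤ} (hF : Flat D x0 y1 L) {s r : ℤ} (hs : 1 ≤ s) (hsr : s ≤ r) (hrL : r ≤ L)
    (hN1 : 2 * s + 1 ≤ N1) (hN2 : r ≤ N2) :
    (nu p).real (Bad D (Seg x0 y1 L) s r) ≤
      K1 c * (((L : ℝ) / r) * ((s : ℝ) / r) ^ (aex c / 2)) := by
  have hc := h.pos
  have ha := aex_pos hc hc2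
  have ha1 := aex_le_one hc hc2
  have hK := K0_pos hc
  have hs0 : (1 : ℝ) ≤ s := by exact_mod_cast hs
  have hr0 : (s : ℝ) ≤ r := by exact_mod_cast hsr
  have hL0 : (r : ℝ) ≤ L := by exact_mod_cast hrL
  have hsp : (0 : ℝ) < s := by linarith
  have hrp : (0 : ℝ) < r := by linarith
  have hLr : 1 ≤ (L : ℝ) / r := by
    rw [le_div_iff₀ hrp]
    linarith
  set b := aex c / 2 with hb
  have hb0 : 0 < b := by positivity
  have hb1 : b ≤ 1 := by rw [hb]; linarith
  by_cases h3 : 3 * s ≤ r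
  · set l := 2 * s with hl
    set m := r - s with hm
    have hm0 : (2 : ℝ) / 3 * r ≤ (m : ℝ) := by
      rw [hm]
      push_cast
      have : (3 : ℝ) * s ≤ r := by exact_mod_cast h3
      linarith
    have hmp : (0 : ℝ) < (m : ℝ) := by nlinarith
    have hlp : (0 : ℝ) < (l : ℝ) := by rw [hl]; push_cast; linarith
    have hlm : (l : ℝ) / m ≤ 3 * ((s : ℝ) / r) := by
      rw [hl, ← mul_div_assoc, div_le_div_iff₀ hmp hrp]
      push_cast
      nlinarith
    set J := (L / s).toNat with hJ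
    have hJs : (J : ℤ) * s ≤ L := by
      have h4 : (J : ℤ) = L / s := Int.toNat_of_nonneg (Int.ediv_nonneg (by omega) (by omega))
      rw [h4]
      exact Int.ediv_mul_le L (by omega)
    have e1 : (nu p).real (Bad D (Seg x0 y1 L) s r) ≤
        ∑ j ∈ Finset.range (J + 1), K0 c *
          (4 * (fz b j + fz b (J - j)) * ((l : ℝ) / m) ^ b + ((l : ℝ) / m) ^ (1 + aex c)) := by
      refine (measureReal_mono (bad_net D x0 y1 L hs h3) (measure_ne_top _ _)).trans ?_
      refine (measureReal_biUnion_finset_le _ _).trans ?_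
      refine Finset.sum_le_sum fun j hj => ?_
      rw [Finset.mem_range] at hj
      have hjJ : j ≤ J := by omega
      set k := min j (J - j) with hk
      have h5 := net_bound h hc2 hF (s := s) (m := m) hs (by omega) hN1 (by omega) k ((j : ℤ) * s)
        (by
          have : (k : ℤ) ≤ j := by omega
          exact mul_le_mul_of_nonneg_right this (by omega)) (by
          have h6 : (k : ℤ) ≤ (J : ℤ) - j := by omega
          have h7 : (k : ℤ) * s ≤ ((J : ℤ) - j) * s := mul_le_mul_of_nonneg_right h6 (by omega)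
          have h8 : ((J : ℤ) - j) * s = (J : ℤ) * s - j * s := by ring
          omega)
      refine h5.trans (mul_le_mul_of_nonneg_left ?_ hK.le)
      have h6 : fz b k ≤ fz b j + fz b (J - j) := by
        rcases min_choice j (J - j) with h7 | h7 <;> rw [hk, h7]
        · linarith [fz_nonneg b (J - j)]
        · linarith [fz_nonneg b j]
      have h7 : 0 ≤ ((l : ℝ) / m) ^ b := by positivity
      have h8 := mul_le_mul_of_nonneg_right (mul_le_mul_of_nonneg_left h6 (by norm_num :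
        (0 : ℝ) ≤ 4)) h7
      linarith
    have e2 : ∑ j ∈ Finset.range (J + 1), K0 c *
          (4 * (fz b j + fz b (J - j)) * ((l : ℝ) / m) ^ b + ((l : ℝ) / m) ^ (1 + aex c)) =
        K0 c * (8 * (∑ j ∈ Finset.range (J + 1), fz b j) * ((l : ℝ) / m) ^ b +
          (J + 1) * ((l : ℝ) / m) ^ (1 + aex c)) := by
      have h5 : ∑ j ∈ Finset.range (J + 1), fz b (J - j) = ∑ j ∈ Finset.range (J + 1), fz b j := by
        have := Finset.sum_range_reflect (fun j => fz b j) (J + 1)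
        simpa using this
      rw [← Finset.mul_sum, Finset.sum_add_distrib, ← Finset.sum_mul, ← Finset.mul_sum,
        Finset.sum_add_distrib, h5, Finset.sum_const, Finset.card_range, nsmul_eq_mul]
      push_cast
      ring
    rw [e2] at e1
    refine e1.trans ?_
    have e3 := sum_fz_le hb0 (J + 1)
    have e4 : ((l : ℝ) / m) ^ b ≤ 3 * ((s : ℝ) / r) ^ b := by
      calc ((l : ℝ) / m) ^ b ≤ (3 * ((s : ℝ) / r)) ^ b :=
            Real.rpow_le_rpow (by positivity) hlm hb0.le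
        _ = 3 ^ b * ((s : ℝ) / r) ^ b := Real.mul_rpow (by norm_num) (by positivity)
        _ ≤ 3 * ((s : ℝ) / r) ^ b := by
            refine mul_le_mul_of_nonneg_right ?_ (by positivity)
            calc (3 : ℝ) ^ b ≤ 3 ^ (1 : ℝ) :=
                  Real.rpow_le_rpow_of_exponent_le (by norm_num) hb1
              _ = 3 := Real.rpow_one _
    have hsr1 : (s : ℝ) / r ≤ 1 := by
      rw [div_le_one hrp]
      exact hr0
    have e5 : ((l : ℝ) / m) ^ (1 + aex c) ≤ 9 * ((s : ℝ) / r) * ((s : ℝ) / r) ^ b := by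
      calc ((l : ℝ) / m) ^ (1 + aex c) ≤ (3 * ((s : ℝ) / r)) ^ (1 + aex c) :=
            Real.rpow_le_rpow (by positivity) hlm (by linarith)
        _ = 3 ^ (1 + aex c) * ((s : ℝ) / r) ^ (1 + aex c) :=
            Real.mul_rpow (by norm_num) (by positivity)
        _ ≤ 9 * (((s : ℝ) / r) * ((s : ℝ) / r) ^ b) := by
            have h5 : (3 : ℝ) ^ (1 + aex c) ≤ 9 := by
              calc (3 : ℝ) ^ (1 + aex c) ≤ 3 ^ (2 : ℝ) :=
                    Real.rpow_le_rpow_of_exponent_le (by norm_num) (by linarith)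
                _ = 9 := by rw [Real.rpow_two]; norm_num
            have h6 : ((s : ℝ) / r) ^ (1 + aex c) ≤ ((s : ℝ) / r) * ((s : ℝ) / r) ^ b := by
              calc ((s : ℝ) / r) ^ (1 + aex c) ≤ ((s : ℝ) / r) ^ (1 + b) :=
                    Real.rpow_le_rpow_of_exponent_ge (by positivity) hsr1 (by rw [hb]; linarith)
                _ = _ := by rw [Real.rpow_add (by positivity), Real.rpow_one]
            exact mul_le_mul h5 h6 (by positivity) (by norm_num)
        _ = _ := by ring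
    have e6 : ((J : ℝ) + 1) * ((s : ℝ) / r) ≤ 2 * ((L : ℝ) / r) := by
      rw [← mul_div_assoc, ← mul_div_assoc, div_le_div_iff_of_pos_right hrp]
      have h5 : (J : ℝ) * s ≤ L := by exact_mod_cast hJs
      nlinarith
    set Z := Zb b with hZ
    have hZ0 : 0 ≤ Z := zb_nonneg b
    set q := ((s : ℝ) / r) ^ b with hq
    have hq0 : 0 ≤ q := by positivity
    have hK1 : K1 c * ((L : ℝ) / r * q) = K0 c * ((24 * (2 + Z) + 18) * ((L : ℝ) / r * q)) := by
      unfold K1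
      rw [← hb, ← hZ]
      ring
    rw [hK1]
    refine mul_le_mul_of_nonneg_left ?_ hK.le
    have hS0 : 0 ≤ ∑ j ∈ Finset.range (J + 1), fz b j :=
      Finset.sum_nonneg fun j _ => fz_nonneg b j
    have t1 : 8 * (∑ j ∈ Finset.range (J + 1), fz b j) * ((l : ℝ) / m) ^ b ≤
        8 * (2 + Z) * (3 * q) := by
      refine mul_le_mul (by linarith) e4 (by positivity) (by positivity)
    have t2 : ((J : ℝ) + 1) * ((l : ℝ) / m) ^ (1 + aex c) ≤ 18 * ((L : ℝ) / r) * q := by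
      calc ((J : ℝ) + 1) * ((l : ℝ) / m) ^ (1 + aex c)
          ≤ ((J : ℝ) + 1) * (9 * ((s : ℝ) / r) * q) :=
            mul_le_mul_of_nonneg_left e5 (by positivity)
        _ = 9 * (((J : ℝ) + 1) * ((s : ℝ) / r)) * q := by ring
        _ ≤ 9 * (2 * ((L : ℝ) / r)) * q := by
            refine mul_le_mul_of_nonneg_right ?_ hq0
            linarith
        _ = _ := by ring
    have t3 : 8 * (2 + Z) * (3 * q) ≤ 24 * (2 + Z) * ((L : ℝ) / r * q) := by
      have h5 : q ≤ (L : ℝ) / r * q := by nlinarith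
      have h6 : 0 ≤ 24 * (2 + Z) := by positivity
      calc 8 * (2 + Z) * (3 * q) = 24 * (2 + Z) * q := by ring
        _ ≤ _ := mul_le_mul_of_nonneg_left h5 h6
    calc _ ≤ 24 * (2 + Z) * ((L : ℝ) / r * q) + 18 * ((L : ℝ) / r) * q :=
          add_le_add (t1.trans t3) t2
      _ = _ := by ring
  · refine measureReal_le_one.trans ?_
    have h4 : (r : ℝ) ≤ 3 * s := by exact_mod_cast (show r ≤ 3 * s by omega)
    have h5 : (1 : ℝ) / 3 ≤ (s : ℝ) / r := by
      rw [div_le_div_iff₀ (by norm_num) hrp]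
      linarith
    have h6 : (s : ℝ) / r ≤ 1 := by
      rw [div_le_one hrp]
      exact hr0
    have h7 : (1 : ℝ) / 3 ≤ ((s : ℝ) / r) ^ b := by
      calc (1 : ℝ) / 3 ≤ (s : ℝ) / r := h5
        _ = ((s : ℝ) / r) ^ (1 : ℝ) := (Real.rpow_one _).symm
        _ ≤ _ := Real.rpow_le_rpow_of_exponent_ge (by positivity) h6 hb1
    have h8 := K1_ge hc hc2
    have h9 : (1 : ℝ) / 3 ≤ (L : ℝ) / r * ((s : ℝ) / r) ^ b := by nlinarith
    nlinarith

/-! ### symmetries -/

theorem Bad_sy (g : Sy) (hsd : ∀ x v, sd (g.V x) (g.V v) = sd x v) (p : I)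
    {D D' X X' : Set P2} (hD : ∀ v, v ∈ D ↔ g.V v ∈ D') (hX : ∀ v, v ∈ X ↔ g.V v ∈ X')
    (hfin : X.Finite) (s r : ℤ) :
    (nu p).real (Bad D' X' s r) = (nu p).real (Bad D X s r) := by
  have hm : MeasurableSet (Bad D X s r) := by
    have : Bad D X s r = ⋃ x ∈ X, LT D x s r := by
      ext z
      simp [Bad]
    rw [this]
    exact hfin.measurableSet_biUnion fun x _ => (LT_dep D x s r).measurableSet
  rw [← g.prob p hm]
  congr 1
  ext z
  have key : ∀ x u v : P2, OC (fun e => z (g.E e)) (D ∩ An x s r) u v ↔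
      OC z (D' ∩ An (g.V x) s r) (g.V u) (g.V v) := by
    intro x u v
    refine g.oc_iff fun w => ?_
    simp only [Set.mem_inter_iff, An, Set.mem_ofPred_eq, hsd, hD]
  have hSp : ∀ x v k, v ∈ Sp x k ↔ g.V v ∈ Sp (g.V x) k := by
    intro x v k
    show sd x v = k ↔ sd (g.V x) (g.V v) = k
    rw [hsd]
  have hLT : ∀ x, (fun e => z (g.E e)) ∈ LT D x s r ↔ z ∈ LT D' (g.V x) s r := by
    intro x
    constructor
    · rintro ⟨u, hu, v, hv, u', hu', v', hv', h1, h2, h3⟩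
      exact ⟨g.V u, (hSp x u s).1 hu, g.V v, (hSp x v r).1 hv, g.V u', (hSp x u' s).1 hu',
        g.V v', (hSp x v' r).1 hv', (key x u v).1 h1, (key x u' v').1 h2,
        fun h4 => h3 ((key x u u').2 h4)⟩
    · rintro ⟨u, hu, v, hv, u', hu', v', hv', h1, h2, h3⟩
      obtain ⟨u, rfl⟩ := g.V.surjective u
      obtain ⟨v, rfl⟩ := g.V.surjective v
      obtain ⟨u', rfl⟩ := g.V.surjective u'
      obtain ⟨v', rfl⟩ := g.V.surjective v'
      exact ⟨u, (hSp x u s).2 hu, v, (hSp x v r).2 hv, u', (hSp x u' s).2 hu',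
        v', (hSp x v' r).2 hv', (key x u v).2 h1, (key x u' v').2 h2,
        fun h4 => h3 ((key x u u').1 h4)⟩
  constructor
  · rintro ⟨x, hx, h1⟩
    obtain ⟨x, rfl⟩ := g.V.surjective x
    exact ⟨x, (hX x).2 hx, (hLT x).2 h1⟩
  · rintro ⟨x, hx, h1⟩
    exact ⟨g.V x, (hX x).1 hx, (hLT x).1 h1⟩

/-- the closed square -/
def SqI (x0 y0 L : ℤ) : Set P2 := Rect x0 (x0 + L) y0 (y0 + L)

/-- the complement of the open square -/
def SqO (x0 y0 L : ℤ) : Set P2 := {v | v.1 ≤ x0 ∨ x0 + L ≤ v.1 ∨ v.2 ≤ y0 ∨ y0 + L ≤ v.2}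

/-- the boundary of the square -/
def bdS (x0 y0 L : ℤ) : Set P2 :=
  {v | v ∈ SqI x0 y0 L ∧ (v.1 = x0 ∨ v.1 = x0 + L ∨ v.2 = y0 ∨ v.2 = y0 + L)}

/-- vertical segment -/
def SegV (x1 y0 L : ℤ) : Set P2 := {v | v.1 = x1 ∧ y0 ≤ v.2 ∧ v.2 ≤ y0 + L}

theorem seg_finite (x0 y1 L : ℤ) : (Seg x0 y1 L).Finite := by
  refine (rect_finite x0 (x0 + L) y1 y1).subset ?_
  rintro v ⟨h1, h2, h3⟩
  exact ⟨h2, h3, h1.ge, h1.le⟩

theorem segV_finite (x0 y1 L : ℤ) : (SegV x0 y1 L).Finite := by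
  refine (rect_finite x0 x0 y1 (y1 + L)).subset ?_
  rintro v ⟨h1, h2, h3⟩
  exact ⟨h1.ge, h1.le, h2, h3⟩

theorem bdS_sub (x0 y0 L : ℤ) : bdS x0 y0 L ⊆
    (Seg x0 y0 L ∪ Seg x0 (y0 + L) L) ∪ (SegV x0 y0 L ∪ SegV (x0 + L) y0 L) := by
  rintro v ⟨⟨h1, h2, h3, h4⟩, h5⟩
  rcases h5 with h5 | h5 | h5 | h5
  · right; left; exact ⟨h5, h3, h4⟩
  · right; right; exact ⟨h5, h3, h4⟩
  · left; left; exact ⟨h5, h1, h2⟩
  · left; right; exact ⟨h5, h1, h2⟩

theorem Bad_union (D X Y : Set P2) (s r : ℤ) : Bad D (X ∪ Y) s r = Bad D X s r ∪ Bad D Y s r := by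
  ext z
  constructor
  · rintro ⟨x, hx | hx, h⟩
    · exact Or.inl ⟨x, hx, h⟩
    · exact Or.inr ⟨x, hx, h⟩
  · rintro (⟨x, hx, h⟩ | ⟨x, hx, h⟩)
    · exact ⟨x, Or.inl hx, h⟩
    · exact ⟨x, Or.inr hx, h⟩

theorem Bad_mono {D X Y : Set P2} (h : X ⊆ Y) (s r : ℤ) : Bad D X s r ⊆ Bad D Y s r := by
  rintro z ⟨x, hx, h1⟩
  exact ⟨x, h hx, h1⟩

theorem vert_V (n : ℤ) (v : P2) : (syR (Refl.vert n)).V v = (n - v.1, v.2) := rfl
theorem horiz_V (n : ℤ) (v : P2) : (syR (Refl.horiz n)).V v = (v.1, n - v.2) := rfl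
theorem diag_V (v : P2) : (syR (Refl.diag 0)).V v = (v.2, v.1) := by
  show (v.2 - 0, v.1 + 0) = (v.2, v.1)
  simp

theorem vert_sd (n : ℤ) (x v : P2) :
    sd ((syR (Refl.vert n)).V x) ((syR (Refl.vert n)).V v) = sd x v := by
  rw [vert_V, vert_V]
  unfold sd
  simp only
  have : n - v.1 - (n - x.1) = -(v.1 - x.1) := by ring
  rw [this, abs_neg]

theorem horiz_sd (n : ℤ) (x v : P2) :
    sd ((syR (Refl.horiz n)).V x) ((syR (Refl.horiz n)).V v) = sd x v := by
  rw [horiz_V, horiz_V]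
  unfold sd
  simp only
  have : n - v.2 - (n - x.2) = -(v.2 - x.2) := by ring
  rw [this, abs_neg]

theorem diag_sd (x v : P2) :
    sd ((syR (Refl.diag 0)).V x) ((syR (Refl.diag 0)).V v) = sd x v := by
  rw [diag_V, diag_V]
  unfold sd
  simp only
  rw [max_comm]

/-- four sides from one, for a family of domains invariant under the symmetries -/
theorem four_sides (p : I) (D : ℤ → ℤ → Set P2) (L s r : ℤ) {B : ℝ}
    (hv : ∀ x0 y0 (v : P2), v ∈ D x0 y0 ↔ ((2 * x0 + L - v.1, v.2) : P2) ∈ D x0 y0)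
    (hh : ∀ x0 y0 (v : P2), v ∈ D x0 y0 ↔ ((v.1, 2 * y0 + L - v.2) : P2) ∈ D x0 y0)
    (hd : ∀ x0 y0 (v : P2), v ∈ D x0 y0 ↔ ((v.2, v.1) : P2) ∈ D y0 x0)
    (hB : ∀ x0 y0, (nu p).real (Bad (D x0 y0) (Seg x0 y0 L) s r) ≤ B) (x0 y0 : ℤ) :
    (nu p).real (Bad (D x0 y0) (bdS x0 y0 L) s r) ≤ 4 * B := by
  have e1 := hB x0 y0
  have e2 : (nu p).real (Bad (D x0 y0) (Seg x0 (y0 + L) L) s r) ≤ B := by
    rw [Bad_sy (syR (Refl.horiz (2 * y0 + L))) (horiz_sd _) p (D := D x0 y0)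
      (X := Seg x0 y0 L) (hh x0 y0) ?_ (seg_finite _ _ _)]
    · exact e1
    · intro v
      rw [horiz_V]
      simp only [Seg, Set.mem_ofPred_eq]
      omega
  have e3 : ∀ x0 y0, (nu p).real (Bad (D x0 y0) (SegV x0 y0 L) s r) ≤ B := by
    intro x0 y0
    rw [Bad_sy (syR (Refl.diag 0)) diag_sd p (D := D y0 x0)
      (X := Seg y0 x0 L) ?_ ?_ (seg_finite _ _ _)]
    · exact hB y0 x0
    · intro v
      rw [diag_V]
      exact hd y0 x0 v
    · intro v
      rw [diag_V]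
      simp only [Seg, SegV, Set.mem_ofPred_eq]
  have e4 : (nu p).real (Bad (D x0 y0) (SegV (x0 + L) y0 L) s r) ≤ B := by
    rw [Bad_sy (syR (Refl.vert (2 * x0 + L))) (vert_sd _) p (D := D x0 y0)
      (X := SegV x0 y0 L) (hv x0 y0) ?_ (segV_finite _ _ _)]
    · exact e3 x0 y0
    · intro v
      rw [vert_V]
      simp only [SegV, Set.mem_ofPred_eq]
      omega
  have h1 := measureReal_mono (μ := nu p) (Bad_mono (D := D x0 y0) (bdS_sub x0 y0 L) s r)
  rw [Bad_union, Bad_union, Bad_union] at h1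
  have h2 := measureReal_union_le (μ := nu p)
    (Bad (D x0 y0) (Seg x0 y0 L) s r ∪ Bad (D x0 y0) (Seg x0 (y0 + L) L) s r)
    (Bad (D x0 y0) (SegV x0 y0 L) s r ∪ Bad (D x0 y0) (SegV (x0 + L) y0 L) s r)
  have h3 := measureReal_union_le (μ := nu p)
    (Bad (D x0 y0) (Seg x0 y0 L) s r) (Bad (D x0 y0) (Seg x0 (y0 + L) L) s r)
  have h4 := measureReal_union_le (μ := nu p)
    (Bad (D x0 y0) (SegV x0 y0 L) s r) (Bad (D x0 y0) (SegV (x0 + L) y0 L) s r)
  have e5 := e3 x0 y0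
  linarith

/-- **No bad position on the boundary, inner domain.** -/
theorem not_good_in {p : I} {c : ℝ} {N1 N2 : ℤ} (h : Rsw p c N1 N2) (hc2 : c ≤ 1 / 2)
    (x0 y0 : ℤ) {L s r : ℤ} (hs : 1 ≤ s) (hsr : s ≤ r) (hrL : r ≤ L)
    (hN1 : 2 * s + 1 ≤ N1) (hN2 : r ≤ N2) :
    (nu p).real (Bad (SqI x0 y0 L) (bdS x0 y0 L) s r) ≤
      4 * (K1 c * (((L : ℝ) / r) * ((s : ℝ) / r) ^ (aex c / 2))) := by
  refine four_sides p (fun x0 y0 => SqI x0 y0 L) L s r ?_ ?_ ?_ ?_ x0 y0
  · intro x0 y0 v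
    simp only [SqI, mem_rect]
    omega
  · intro x0 y0 v
    simp only [SqI, mem_rect]
    omega
  · intro x0 y0 v
    simp only [SqI, mem_rect]
    omega
  · intro x0 y0
    refine side_bound h hc2 ?_ hs hsr hrL hN1 hN2
    intro i ρ l h1 h2 h3
    ext v
    simp only [SqI, An, Set.mem_inter_iff, mem_rect, Set.mem_ofPred_eq, Finset.mem_coe, mem_HA]
    constructor
    · rintro ⟨⟨h4, h5, h6, h7⟩, h8, h9⟩
      exact ⟨h6, h8, h9⟩
    · rintro ⟨h4, h5, h6⟩
      have h7 := sd_le.1 h6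
      simp only at h7 h4
      exact ⟨⟨by omega, by omega, by omega, by omega⟩, h5, h6⟩

/-- **No bad position on the boundary, outer domain.** -/
theorem not_good_out {p : I} {c : ℝ} {N1 N2 : ℤ} (h : Rsw p c N1 N2) (hc2 : c ≤ 1 / 2)
    (x0 y0 : ℤ) {L s r : ℤ} (hs : 1 ≤ s) (hsr : s ≤ r) (hrL : r ≤ L)
    (hN1 : 2 * s + 1 ≤ N1) (hN2 : r ≤ N2) :
    (nu p).real (Bad (SqO x0 y0 L) (bdS x0 y0 L) s r) ≤
      4 * (K1 c * (((L : ℝ) / r) * ((s : ℝ) / r) ^ (aex c / 2))) := by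
  refine four_sides p (fun x0 y0 => SqO x0 y0 L) L s r ?_ ?_ ?_ ?_ x0 y0
  · intro x0 y0 v
    simp only [SqO, Set.mem_ofPred_eq]
    omega
  · intro x0 y0 v
    simp only [SqO, Set.mem_ofPred_eq]
    omega
  · intro x0 y0 v
    simp only [SqO, Set.mem_ofPred_eq]
    omega
  · intro x0 y0
    -- from the top side
    have e1 : (nu p).real (Bad (SqO x0 y0 L) (Seg x0 (y0 + L) L) s r) ≤
        K1 c * (((L : ℝ) / r) * ((s : ℝ) / r) ^ (aex c / 2)) := by
      refine side_bound h hc2 ?_ hs hsr hrL hN1 hN2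
      intro i ρ l h1 h2 h3
      ext v
      simp only [SqO, An, Set.mem_inter_iff, Set.mem_ofPred_eq, Finset.mem_coe, mem_HA]
      constructor
      · rintro ⟨h4, h5, h6⟩
        have h7 := sd_le.1 h6
        simp only at h7
        exact ⟨by omega, h5, h6⟩
      · rintro ⟨h4, h5, h6⟩
        exact ⟨by omega, h5, h6⟩
    rw [Bad_sy (syR (Refl.horiz (2 * y0 + L))) (horiz_sd _) p (D := SqO x0 y0 L)
      (X := Seg x0 (y0 + L) L) ?_ ?_ (seg_finite _ _ _)]
    · exact e1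
    · intro v
      rw [horiz_V]
      simp only [SqO, Set.mem_ofPred_eq]
      omega
    · intro v
      rw [horiz_V]
      simp only [Seg, Set.mem_ofPred_eq]
      omega

end Crest.Agent.R158.Hp814
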