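import Crest.Agent.R158.Ld2_570
import Crest.Agent.R158.Hp7_814

/-!
# Row 158, Block G (helper488): boundary blocks, part 1: one block

* `TT_sy`, `TW_sy` : symmetries
* `blk_L`, `blk_R`, `blk_B`, `blk_T` : a block close to one side of the rectangle
-/

set_option autoImplicit false

noncomputable section

namespace Crest.Agent.R158.Bb488

open MeasureTheory ProbabilityTheory unitInterval
open Crest.ProbabilityR.Percolation (clampUnit)
open Crest.Agent.R161.Geo729 Crest.Agent.R161.Topo374 Crest.Agent.R161.Dual374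
open Crest.Agent.R161.Tas682 Crest.Agent.R158.Rs689 Crest.Agent.R161.Sym597
open Crest.Agent.R158.Ru874 Crest.Agent.R158.Hp814 Crest.Agent.R158.Os488
open Crest.Agent.R158.Ld570 (XR bdK Blk)

/-! ### symmetries -/

theorem TT_sy (g : Sy) (p : I) {D D' J J' O O' : Set P2} (hf : D.Finite)
    (hD : ∀ v, v ∈ D ↔ g.V v ∈ D') (hI : ∀ v, v ∈ J ↔ g.V v ∈ J') (hO : ∀ v, v ∈ O ↔ g.V v ∈ O') :
    (nu p).real (TT D' J' O') = (nu p).real (TT D J O) := by
  have hm : MeasurableSet (TT D J O) := (dep_TT hf J O).measurableSet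
  rw [← g.prob p hm]
  congr 1
  ext z
  have key : ∀ u v : P2, OC (fun e => z (g.E e)) D u v ↔ OC z D' (g.V u) (g.V v) :=
    fun u v => g.oc_iff hD
  constructor
  · rintro ⟨u, hu, v, hv, u', hu', v', hv', h1, h2, h3⟩
    obtain ⟨u, rfl⟩ := g.V.surjective u
    obtain ⟨v, rfl⟩ := g.V.surjective v
    obtain ⟨u', rfl⟩ := g.V.surjective u'
    obtain ⟨v', rfl⟩ := g.V.surjective v'
    exact ⟨u, (hI u).2 hu, v, (hO v).2 hv, u', (hI u').2 hu', v', (hO v').2 hv', (key _ _).2 h1,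
      (key _ _).2 h2, fun h => h3 ((key _ _).1 h)⟩
  · rintro ⟨u, hu, v, hv, u', hu', v', hv', h1, h2, h3⟩
    exact ⟨g.V u, (hI u).1 hu, g.V v, (hO v).1 hv, g.V u', (hI u').1 hu', g.V v', (hO v').1 hv',
      (key _ _).1 h1, (key _ _).1 h2, fun h => h3 ((key _ _).2 h)⟩

theorem TW_sy (g : Sy) (p : I) {D D' J J' O O' W W' : Set P2} (hf : D.Finite)
    (hD : ∀ v, v ∈ D ↔ g.V v ∈ D') (hI : ∀ v, v ∈ J ↔ g.V v ∈ J') (hO : ∀ v, v ∈ O ↔ g.V v ∈ O')
    (hW : ∀ v, v ∈ W ↔ g.V v ∈ W') :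
    (nu p).real (TW D' J' O' W') = (nu p).real (TW D J O W) := by
  have hm : MeasurableSet (TW D J O W) := (dep_TW hf J O W).measurableSet
  rw [← g.prob p hm]
  congr 1
  ext z
  have key : ∀ u v : P2, OC (fun e => z (g.E e)) D u v ↔ OC z D' (g.V u) (g.V v) :=
    fun u v => g.oc_iff hD
  constructor
  · rintro ⟨u, hu, v, hv, h1, h2⟩
    obtain ⟨u, rfl⟩ := g.V.surjective u
    obtain ⟨v, rfl⟩ := g.V.surjective v
    refine ⟨u, (hI u).2 hu, v, (hO v).2 hv, (key _ _).2 h1, fun w hw h => ?_⟩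
    exact h2 _ ((hW w).1 hw) ((key _ _).1 h)
  · rintro ⟨u, hu, v, hv, h1, h2⟩
    refine ⟨g.V u, (hI u).1 hu, g.V v, (hO v).1 hv, (key _ _).1 h1, fun w hw h => ?_⟩
    obtain ⟨w, rfl⟩ := g.V.surjective w
    exact h2 _ ((hW w).2 hw) ((key _ _).2 h)

/-! ### half annuli -/

theorem TT_HA (z : P2) (s R : ℤ) :
    TT (HA z s R : Finset P2) {v | sd z v = s} {v | sd z v = R} = TTh z s R := rfl

theorem TW_HA (z : P2) (s R : ℤ) :
    TW (HA z s R : Finset P2) {v | sd z v = s} {v | sd z v = R} {v | v.2 = z.2} ⊆ TWh z s R := by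
  rintro y ⟨u, hu, v, hv, h1, h2⟩
  exact ⟨u, hu, v, hv, h1, fun b hb h => h2 b hb h.symm⟩

section Half

variable {p : I} {c : ℝ} {N1 N2 : ℤ} (h : Rsw p c N1 N2) {l R : ℤ} (hl : 1 ≤ l) (hlR : l ≤ R)
  (hN1 : l + 1 ≤ N1) (hN2 : R ≤ N2)

include h hl hlR hN1 hN2

/-- bottom -/
theorem half_B {z : P2} {D : Set P2} (hD : D = (HA z l R : Finset P2)) :
    (nu p).real (TT D {v | sd z v = l} {v | sd z v = R}) ≤ 160 / c ^ 3 * ((l : ℝ) / R) ∧
    (nu p).real (TW D {v | sd z v = l} {v | sd z v = R} {v | v.2 = z.2}) ≤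
      160 / c ^ 3 * ((l : ℝ) / R) := by
  subst hD
  have h1 := two_arm h z hl hlR hN1 hN2
  constructor
  · rw [TT_HA]
    exact (measureReal_mono Set.subset_union_left).trans h1
  · exact (measureReal_mono ((TW_HA z l R).trans Set.subset_union_right)).trans h1

/-- general position, through a symmetry -/
theorem half_sy (g : Sy) (hsd : ∀ x v, sd (g.V x) (g.V v) = sd x v) {z : P2} {D : Set P2}
    (hD : ∀ v, v ∈ (HA z l R : Finset P2) ↔ g.V v ∈ D) {W : Set P2}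
    (hW : ∀ v : P2, v.2 = z.2 ↔ g.V v ∈ W) :
    (nu p).real (TT D {v | sd (g.V z) v = l} {v | sd (g.V z) v = R}) ≤
      160 / c ^ 3 * ((l : ℝ) / R) ∧
    (nu p).real (TW D {v | sd (g.V z) v = l} {v | sd (g.V z) v = R} W) ≤
      160 / c ^ 3 * ((l : ℝ) / R) := by
  have h1 := half_B h hl hlR hN1 hN2 (z := z) rfl
  constructor
  · rw [TT_sy g p (D := (HA z l R : Finset P2)) (J := {v | sd z v = l}) (O := {v | sd z v = R})
      (Finset.finite_toSet _) hD (fun v => by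
        show sd z v = l ↔ sd (g.V z) (g.V v) = l
        rw [hsd]) (fun v => by
        show sd z v = R ↔ sd (g.V z) (g.V v) = R
        rw [hsd])]
    exact h1.1
  · rw [TW_sy g p (D := (HA z l R : Finset P2)) (J := {v | sd z v = l}) (O := {v | sd z v = R})
      (W := {v | v.2 = z.2})
      (Finset.finite_toSet _) hD (fun v => by
        show sd z v = l ↔ sd (g.V z) (g.V v) = l
        rw [hsd]) (fun v => by
        show sd z v = R ↔ sd (g.V z) (g.V v) = R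
        rw [hsd]) hW]
    exact h1.2

end Half

/-! ### composition of symmetries -/

/-- composition -/
def comp (g k : Sy) : Sy where
  V := k.V.trans g.V
  E := k.E.trans g.E
  ok e := by
    show (src (g.E (k.E e)) = g.V (k.V (src e)) ∧ tgt (g.E (k.E e)) = g.V (k.V (tgt e))) ∨
      (src (g.E (k.E e)) = g.V (k.V (tgt e)) ∧ tgt (g.E (k.E e)) = g.V (k.V (src e)))
    rcases k.ok e with ⟨h1, h2⟩ | ⟨h1, h2⟩ <;> rcases g.ok (k.E e) with ⟨h3, h4⟩ | ⟨h3, h4⟩
    · left; rw [h3, h4, h1, h2]; exact ⟨rfl, rfl⟩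
    · right; rw [h3, h4, h1, h2]; exact ⟨rfl, rfl⟩
    · right; rw [h3, h4, h1, h2]; exact ⟨rfl, rfl⟩
    · left; rw [h3, h4, h1, h2]; exact ⟨rfl, rfl⟩

theorem comp_V (g k : Sy) (v : P2) : (comp g k).V v = g.V (k.V v) := rfl

/-! ### the four sides of a rectangle -/

section Sides

variable {p : I} {c : ℝ} {N1 N2 : ℤ} (h : Rsw p c N1 N2) {l R : ℤ} (hl : 1 ≤ l) (hlR : l ≤ R)
  (hN1 : l + 1 ≤ N1) (hN2 : R ≤ N2)

include h hl hlR hN1 hN2

theorem side_B {b d x : ℤ} (h1 : R ≤ x) (h2 : x + R ≤ b) (h3 : R ≤ d) :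
    (nu p).real (TT (Rect 0 b 0 d ∩ An (x, 0) l R) {v | sd (x, 0) v = l} {v | sd (x, 0) v = R}) ≤
      160 / c ^ 3 * ((l : ℝ) / R) := by
  refine (half_B h hl hlR hN1 hN2 (z := (x, 0)) ?_).1
  ext v
  simp only [An, Set.mem_inter_iff, mem_rect, Set.mem_ofPred_eq, Finset.mem_coe, mem_HA]
  constructor
  · rintro ⟨⟨h4, h5, h6, h7⟩, h8, h9⟩
    exact ⟨h6, h8, h9⟩
  · rintro ⟨h4, h5, h6⟩
    have h7 := sd_le.1 h6
    simp only at h7 h4
    exact ⟨⟨by omega, by omega, by omega, by omega⟩, h5, h6⟩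

theorem side_T {b d x : ℤ} (h1 : R ≤ x) (h2 : x + R ≤ b) (h3 : R ≤ d) :
    (nu p).real (TT (Rect 0 b 0 d ∩ An (x, d) l R) {v | sd (x, d) v = l} {v | sd (x, d) v = R}) ≤
      160 / c ^ 3 * ((l : ℝ) / R) := by
  have key := (half_sy h hl hlR hN1 hN2 (syR (Refl.horiz d)) (horiz_sd _) (z := (x, 0))
    (D := Rect 0 b 0 d ∩ An (x, d) l R) (W := {v | v.2 = d}) ?_ ?_).1
  · rw [horiz_V] at key
    simpa using key
  · intro v
    have e1 : sd (x, d) ((syR (Refl.horiz d)).V v) = sd (x, 0) v := by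
      have := horiz_sd d (x, 0) v
      rw [horiz_V d (x, 0)] at this
      simpa using this
    simp only [An, Set.mem_inter_iff, mem_rect, Set.mem_ofPred_eq, mem_HA, e1]
    rw [horiz_V]
    simp only
    constructor
    · rintro ⟨h4, h5, h6⟩
      have h7 := sd_le.1 h6
      simp only at h7
      exact ⟨⟨by omega, by omega, by omega, by omega⟩, h5, h6⟩
    · rintro ⟨⟨h4, h5, h6, h7⟩, h8, h9⟩
      exact ⟨by omega, h8, h9⟩
  · intro v
    rw [horiz_V]
    simp only [Set.mem_ofPred_eq]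
    omega

theorem side_L {b d y : ℤ} (h1 : R ≤ y) (h2 : y + R ≤ d) (h3 : R ≤ b) :
    (nu p).real (TW (Rect 0 b 0 d ∩ An (0, y) l R) {v | sd (0, y) v = l} {v | sd (0, y) v = R}
      {v | v.1 = 0}) ≤ 160 / c ^ 3 * ((l : ℝ) / R) := by
  have key := (half_sy h hl hlR hN1 hN2 (syR (Refl.diag 0)) diag_sd (z := (y, 0))
    (D := Rect 0 b 0 d ∩ An (0, y) l R) (W := {v | v.1 = 0}) ?_ ?_).2
  · rw [diag_V] at key
    exact key
  · intro v
    have e1 : sd (0, y) ((syR (Refl.diag 0)).V v) = sd (y, 0) v := by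
      have := diag_sd (y, 0) v
      rw [diag_V (y, 0)] at this
      exact this
    simp only [An, Set.mem_inter_iff, mem_rect, Set.mem_ofPred_eq, mem_HA, e1]
    rw [diag_V]
    simp only
    constructor
    · rintro ⟨h4, h5, h6⟩
      have h7 := sd_le.1 h6
      simp only at h7
      exact ⟨⟨by omega, by omega, by omega, by omega⟩, h5, h6⟩
    · rintro ⟨⟨h4, h5, h6, h7⟩, h8, h9⟩
      exact ⟨by omega, h8, h9⟩
  · intro v
    rw [diag_V]
    exact Iff.rfl

theorem side_R {b d y : ℤ} (h1 : R ≤ y) (h2 : y + R ≤ d) (h3 : R ≤ b) :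
    (nu p).real (TW (Rect 0 b 0 d ∩ An (b, y) l R) {v | sd (b, y) v = l} {v | sd (b, y) v = R}
      {v | v.1 = b}) ≤ 160 / c ^ 3 * ((l : ℝ) / R) := by
  have hsd : ∀ x v, sd ((comp (syR (Refl.vert b)) (syR (Refl.diag 0))).V x)
      ((comp (syR (Refl.vert b)) (syR (Refl.diag 0))).V v) = sd x v := by
    intro x v
    rw [comp_V, comp_V, vert_sd, diag_sd]
  have key := (half_sy h hl hlR hN1 hN2 (comp (syR (Refl.vert b)) (syR (Refl.diag 0))) hsd
    (z := (y, 0)) (D := Rect 0 b 0 d ∩ An (b, y) l R) (W := {v | v.1 = b}) ?_ ?_).2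
  · rw [comp_V, diag_V, vert_V] at key
    simpa using key
  · intro v
    have e1 : sd (b, y) ((comp (syR (Refl.vert b)) (syR (Refl.diag 0))).V v) = sd (y, 0) v := by
      have := hsd (y, 0) v
      rw [comp_V _ _ (y, 0), diag_V, vert_V] at this
      simpa using this
    simp only [An, Set.mem_inter_iff, mem_rect, Set.mem_ofPred_eq, mem_HA, e1]
    rw [comp_V, diag_V, vert_V]
    simp only
    constructor
    · rintro ⟨h4, h5, h6⟩
      have h7 := sd_le.1 h6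
      simp only at h7
      exact ⟨⟨by omega, by omega, by omega, by omega⟩, h5, h6⟩
    · rintro ⟨⟨h4, h5, h6, h7⟩, h8, h9⟩
      exact ⟨by omega, h8, h9⟩
  · intro v
    rw [comp_V, diag_V, vert_V]
    simp only [Set.mem_ofPred_eq]
    omega

end Sides

/-! ### pivotal blocks -/

/-- a pivotal block of the grid is a pivotal block of edges -/
theorem pivS_sub (m : ℕ) (k : P2) (A : Set Cf) :
    PivS (blk m) k A ⊆ Ru874.BPiv {e | blk m e = k} A := by
  rintro z ⟨z', hz, hn⟩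
  by_cases h1 : z ∈ A
  · have h2 : z' ∉ A := fun h => hn ⟨fun _ => h1, fun _ => h⟩
    exact ⟨z, z', fun _ _ => rfl, fun e he => hz e he, h1, h2⟩
  · have h2 : z' ∈ A := by
      by_contra h
      exact hn ⟨fun h' => absurd h' h, fun h' => absurd h' h1⟩
    exact ⟨z', z, fun e he => hz e he, fun _ _ => rfl, h2, h1⟩

/-- coordinates of an edge of the block `k` -/
theorem blk_coord {m : ℕ} (hm : 1 ≤ m) {k : P2} {e : Edge} (he : blk m e = k) :
    ((m : ℤ) * k.1 ≤ (src e).1 ∧ (src e).1 ≤ m * k.1 + m - 1) ∧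
    ((m : ℤ) * k.2 ≤ (src e).2 ∧ (src e).2 ≤ m * k.2 + m - 1) := by
  have hm0 : (0 : ℤ) < m := by exact_mod_cast hm
  subst he
  have a3 := Int.emod_nonneg (src e).1 hm0.ne'
  have a4 := Int.emod_lt_of_pos (src e).1 hm0
  have a5 := Int.emod_nonneg (src e).2 hm0.ne'
  have a6 := Int.emod_lt_of_pos (src e).2 hm0
  have a7 := Int.mul_ediv_add_emod (src e).1 m
  have a8 := Int.mul_ediv_add_emod (src e).2 m
  unfold blk
  simp only
  refine ⟨⟨by linarith, by linarith⟩, by linarith, by linarith⟩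

theorem tgt_coord (e : Edge) : (src e).1 ≤ (tgt e).1 ∧ (tgt e).1 ≤ (src e).1 + 1 ∧
    (src e).2 ≤ (tgt e).2 ∧ (tgt e).2 ≤ (src e).2 + 1 := by
  obtain ⟨⟨x, y⟩, b⟩ := e
  cases b <;> simp [src, tgt]

/-- the block is in the open ball of radius `l` around `c0`, with its targets in the closed one -/
theorem blk_ball {m : ℕ} (hm : 1 ≤ m) {k c0 : P2} {l : ℤ}
    (h1 : c0.1 - l < m * k.1) (h2 : (m : ℤ) * k.1 + m - 1 < c0.1 + l)
    (h3 : c0.2 - l < m * k.2) (h4 : (m : ℤ) * k.2 + m - 1 < c0.2 + l) :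
    (∀ e ∈ {e : Edge | blk m e = k}, sd c0 (src e) ≤ l ∧ sd c0 (tgt e) ≤ l) ∧
    (∀ e ∈ {e : Edge | blk m e = k}, ¬ (l ≤ sd c0 (src e) ∧ l ≤ sd c0 (tgt e))) := by
  have key : ∀ e ∈ {e : Edge | blk m e = k}, sd c0 (src e) ≤ l - 1 ∧ sd c0 (tgt e) ≤ l := by
    intro e he
    obtain ⟨⟨a1, a2⟩, a3, a4⟩ := blk_coord hm he
    obtain ⟨b1, b2, b3, b4⟩ := tgt_coord e
    exact ⟨sd_le.2 ⟨by omega, by omega, by omega, by omega⟩,
      sd_le.2 ⟨by omega, by omega, by omega, by omega⟩⟩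
  refine ⟨fun e he => ⟨(key e he).1.trans (by omega), (key e he).2⟩, fun e he h => ?_⟩
  have := (key e he).1
  omega

section OneBlock

variable {p : I} {c : ℝ} {N1 N2 : ℤ} (h : Rsw p c N1 N2) {m : ℕ} (hm : 1 ≤ m) {l R : ℤ}
  (hl : 1 ≤ l) (hlR : l ≤ R) (hN1 : l + 1 ≤ N1) (hN2 : R ≤ N2)

include h hm hl hlR hN1 hN2

/-- a block close to the bottom -/
theorem blk_B {b d : ℤ} {k : P2} (hk0 : 0 ≤ k.2) (hk : (m : ℤ) * k.2 + m - 1 < l)
    (hml : (m : ℤ) ≤ l) (h1 : R ≤ m * k.1) (h2 : m * k.1 + R ≤ b) (h3 : R ≤ d) :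
    (nu p).real (PivS (blk m) k (XR 0 b 0 d)) ≤ 160 / c ^ 3 * ((l : ℝ) / R) := by
  have hm0 : (0 : ℤ) < m := by exact_mod_cast hm
  have hk2 : 0 ≤ (m : ℤ) * k.2 := by positivity
  obtain ⟨hH, hD⟩ := blk_ball hm (k := k) (c0 := ((m : ℤ) * k.1, 0)) (l := l)
    (by simp only; omega) (by simp only; omega) (by simp only; omega) (by simp only; omega)
  refine (measureReal_mono ((pivS_sub m k _).trans ?_)).trans
    (side_B h hl hlR hN1 hN2 (b := b) (d := d) (x := m * k.1) h1 h2 h3)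
  unfold XR
  rw [setOf_LRc]
  refine bpiv_TT hlR hH hD ?_ ?_
  · intro a ha
    have ha' : a.1 = 0 := ha
    exact le_sd.2 (by simp only; omega)
  · intro a ha
    have ha' : a.1 = b := ha
    exact le_sd.2 (by simp only; omega)

/-- a block close to the top -/
theorem blk_T {b d : ℤ} {k : P2} (hk0 : (m : ℤ) * k.2 ≤ d) (hk : d - l < (m : ℤ) * k.2)
    (hml : (m : ℤ) ≤ l) (h1 : R ≤ m * k.1) (h2 : m * k.1 + R ≤ b) (h3 : R ≤ d) :
    (nu p).real (PivS (blk m) k (XR 0 b 0 d)) ≤ 160 / c ^ 3 * ((l : ℝ) / R) := by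
  have hm0 : (0 : ℤ) < m := by exact_mod_cast hm
  obtain ⟨hH, hD⟩ := blk_ball hm (k := k) (c0 := ((m : ℤ) * k.1, d)) (l := l)
    (by simp only; omega) (by simp only; omega) (by simp only; omega) (by simp only; omega)
  refine (measureReal_mono ((pivS_sub m k _).trans ?_)).trans
    (side_T h hl hlR hN1 hN2 (b := b) (d := d) (x := m * k.1) h1 h2 h3)
  unfold XR
  rw [setOf_LRc]
  refine bpiv_TT hlR hH hD ?_ ?_
  · intro a ha
    have ha' : a.1 = 0 := ha
    exact le_sd.2 (by simp only; omega)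
  · intro a ha
    have ha' : a.1 = b := ha
    exact le_sd.2 (by simp only; omega)

/-- a block close to the left side -/
theorem blk_L {b d : ℤ} {k : P2} (hk0 : 0 ≤ k.1) (hk : (m : ℤ) * k.1 + m - 1 < l)
    (hml : (m : ℤ) ≤ l) (h1 : R ≤ m * k.2) (h2 : m * k.2 + R ≤ d) (h3 : R ≤ b) :
    (nu p).real (PivS (blk m) k (XR 0 b 0 d)) ≤ 160 / c ^ 3 * ((l : ℝ) / R) := by
  have hm0 : (0 : ℤ) < m := by exact_mod_cast hm
  have hk2 : 0 ≤ (m : ℤ) * k.1 := by positivity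
  obtain ⟨hH, hD⟩ := blk_ball hm (k := k) (c0 := (0, (m : ℤ) * k.2)) (l := l)
    (by simp only; omega) (by simp only; omega) (by simp only; omega) (by simp only; omega)
  refine (measureReal_mono ((pivS_sub m k _).trans ?_)).trans
    (side_L h hl hlR hN1 hN2 (b := b) (d := d) (y := m * k.2) h1 h2 h3)
  unfold XR
  rw [setOf_LRc]
  refine bpiv_TW hlR hH hD ?_
  intro a ha
  have ha' : a.1 = b := ha
  exact le_sd.2 (by simp only; omega)

/-- a block close to the right side -/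
theorem blk_R {b d : ℤ} {k : P2} (hk0 : (m : ℤ) * k.1 ≤ b) (hk : b - l < (m : ℤ) * k.1)
    (hml : (m : ℤ) ≤ l) (h1 : R ≤ m * k.2) (h2 : m * k.2 + R ≤ d) (h3 : R ≤ b) :
    (nu p).real (PivS (blk m) k (XR 0 b 0 d)) ≤ 160 / c ^ 3 * ((l : ℝ) / R) := by
  have hm0 : (0 : ℤ) < m := by exact_mod_cast hm
  obtain ⟨hH, hD⟩ := blk_ball hm (k := k) (c0 := (b, (m : ℤ) * k.2)) (l := l)
    (by simp only; omega) (by simp only; omega) (by simp only; omega) (by simp only; omega)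
  refine (measureReal_mono ((pivS_sub m k _).trans ?_)).trans
    (side_R h hl hlR hN1 hN2 (b := b) (d := d) (y := m * k.2) h1 h2 h3)
  unfold XR
  rw [setOf_LRc]
  refine bpiv_TW' hlR hH hD ?_
  intro a ha
  have ha' : a.1 = 0 := ha
  exact le_sd.2 (by simp only; omega)

end OneBlock

end Crest.Agent.R158.Bb488
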