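import Crest.Agent.R158.Bb1_488
import Mathlib.NumberTheory.Harmonic.Bounds

/-!
# Row 158, Block G (helper488): boundary blocks, part 2: counting

* `hypBD : HypBD`
-/

set_option autoImplicit false

noncomputable section

namespace Crest.Agent.R158.Bb488

open MeasureTheory ProbabilityTheory unitInterval
open Crest.ProbabilityR.Percolation (clampUnit)
open Crest.Agent.R161.Geo729 Crest.Agent.R161.Topo374 Crest.Agent.R161.Dual374
open Crest.Agent.R161.Tas682 Crest.Agent.R158.Rs689 Crest.Agent.R161.Sym597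
open Crest.Agent.R158.Ru874 Crest.Agent.R158.Hp814 Crest.Agent.R158.Os488
open Crest.Agent.R158.Fr158 (eIn mem_eIn Pr Pr_nonneg Pr_le_one)
open Crest.Agent.R158.Ld570 (XR bdK Blk HypBD)

/-- the summand -/
def G (m W s n : ℕ) (j : ℤ) : ℝ :=
  (s : ℝ) / (m * (j + 1)) + (s : ℝ) / (W - m * j + m) + (s : ℝ) / n

theorem G_nonneg {m W s n : ℕ} {j : ℤ} (hj0 : 0 ≤ j) (hj : (m : ℤ) * j ≤ W) :
    0 ≤ G m W s n j := by
  have h1 : (0 : ℝ) ≤ j := by exact_mod_cast hj0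
  have h2 : (m : ℝ) * j ≤ W := by exact_mod_cast hj
  have h3 : (0 : ℝ) ≤ (W : ℝ) - m * j + m := by
    have : (0 : ℝ) ≤ m := by positivity
    linarith
  unfold G
  positivity

/-- one block -/
theorem one_block {K P : ℝ} (hK : 1 ≤ K) {m s n W : ℕ} (hm : 1 ≤ m) (hms : m ≤ s) (hsn : s ≤ n)
    {j : ℤ} (hj0 : 0 ≤ j) (hj : (m : ℤ) * j ≤ W) (hP1 : P ≤ 1)
    (hP : ∀ R : ℤ, 2 * (s : ℤ) ≤ R → R ≤ m * j → m * j + R ≤ W → R ≤ n →
      P ≤ K * (((2 * s : ℤ) : ℝ) / R)) : P ≤ 4 * K * G m W s n j := by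
  have hm0 : (1 : ℝ) ≤ m := by exact_mod_cast hm
  have hms0 : (m : ℝ) ≤ s := by exact_mod_cast hms
  have hsn0 : (s : ℝ) ≤ n := by exact_mod_cast hsn
  have hj1 : (0 : ℝ) ≤ j := by exact_mod_cast hj0
  have hj2 : (m : ℝ) * j ≤ W := by exact_mod_cast hj
  have hs0 : (0 : ℝ) < s := by linarith
  have hn0 : (0 : ℝ) < n := by linarith
  have hmj : (0 : ℝ) ≤ (m : ℝ) * j := by positivity
  have d1 : (0 : ℝ) < (m : ℝ) * (j + 1) := by positivity
  have d2 : (0 : ℝ) < (W : ℝ) - m * j + m := by linarith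
  have g1 : 0 ≤ (s : ℝ) / (m * (j + 1)) := by positivity
  have g2 : 0 ≤ (s : ℝ) / (W - m * j + m) := by positivity
  have g3 : 0 ≤ (s : ℝ) / n := by positivity
  -- it is enough to bound by one term
  have key : ∀ t : ℝ, (t = (s : ℝ) / (m * (j + 1)) ∨ t = (s : ℝ) / (W - m * j + m) ∨
      t = (s : ℝ) / n) → P ≤ 4 * K * t → P ≤ 4 * K * G m W s n j := by
    intro t ht h1
    refine h1.trans (mul_le_mul_of_nonneg_left ?_ (by positivity))
    unfold G
    rcases ht with rfl | rfl | rfl <;> linarith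
  set R : ℤ := min (min (m * j) (W - m * j)) n with hR
  have hR1 : R ≤ m * j := (min_le_left _ _).trans (min_le_left _ _)
  have hR2 : R ≤ W - m * j := (min_le_left _ _).trans (min_le_right _ _)
  have hR3 : R ≤ n := min_le_right _ _
  have hRc : R = m * j ∨ R = W - m * j ∨ R = n := by omega
  by_cases h2 : 2 * (s : ℤ) ≤ R
  · have h3 := hP R h2 hR1 (by omega) hR3
    have h4 : 2 * (s : ℝ) ≤ R := by exact_mod_cast h2
    have hR0 : (0 : ℝ) < R := by linarith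
    have h5 : ((2 * s : ℤ) : ℝ) = 2 * s := by push_cast; ring
    rw [h5] at h3
    have fin : ∀ d : ℝ, 0 < d → d ≤ 2 * R → K * (2 * (s : ℝ) / R) ≤ 4 * K * (s / d) := by
      intro d hd hdR
      have : 2 * (s : ℝ) / R ≤ 4 * (s / d) := by
        rw [← mul_div_assoc, div_le_div_iff₀ hR0 hd]
        nlinarith
      calc K * (2 * (s : ℝ) / R) ≤ K * (4 * (s / d)) :=
            mul_le_mul_of_nonneg_left this (by linarith)
        _ = _ := by ring
    rcases hRc with h6 | h6 | h6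
    · refine key _ (Or.inl rfl) (h3.trans (fin _ d1 ?_))
      have : (R : ℝ) = m * j := by rw [h6]; push_cast; ring
      rw [this] at h4 ⊢
      nlinarith
    · refine key _ (Or.inr (Or.inl rfl)) (h3.trans (fin _ d2 ?_))
      have : (R : ℝ) = W - m * j := by rw [h6]; push_cast; ring
      rw [this] at h4 ⊢
      linarith
    · refine key _ (Or.inr (Or.inr rfl)) (h3.trans (fin _ hn0 ?_))
      have : (R : ℝ) = n := by rw [h6]; push_cast; ring
      rw [this]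
      linarith
  · have h4 : (R : ℝ) < 2 * s := by
      have : R < 2 * (s : ℤ) := not_le.1 h2
      exact_mod_cast this
    have fin : ∀ d : ℝ, 0 < d → d ≤ 4 * s → P ≤ 4 * K * (s / d) := by
      intro d hd hds
      have : 1 ≤ 4 * (s / d) := by
        rw [← mul_div_assoc, le_div_iff₀ hd]
        linarith
      refine hP1.trans ?_
      calc (1 : ℝ) = 1 * 1 := by ring
        _ ≤ K * (4 * (s / d)) := mul_le_mul hK this (by norm_num) (by linarith)
        _ = _ := by ring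
    rcases hRc with h6 | h6 | h6
    · refine key _ (Or.inl rfl) (fin _ d1 ?_)
      have : (R : ℝ) = m * j := by rw [h6]; push_cast; ring
      rw [this] at h4
      linarith
    · refine key _ (Or.inr (Or.inl rfl)) (fin _ d2 ?_)
      have : (R : ℝ) = W - m * j := by rw [h6]; push_cast; ring
      rw [this] at h4
      linarith
    · refine key _ (Or.inr (Or.inr rfl)) (fin _ hn0 ?_)
      have : (R : ℝ) = n := by rw [h6]; push_cast; ring
      rw [this] at h4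
      linarith

/-- sums over integer intervals -/
theorem sum_Icc_int (M : ℕ) (g : ℤ → ℝ) :
    ∑ j ∈ Finset.Icc (0 : ℤ) M, g j = ∑ i ∈ Finset.range (M + 1), g i := by
  refine (Finset.sum_nbij (fun i : ℕ => (i : ℤ)) ?_ ?_ ?_ fun _ _ => rfl).symm
  · intro i hi
    rw [Finset.mem_range] at hi
    rw [Finset.mem_Icc]
    exact ⟨by omega, by omega⟩
  · intro a _ b _ h
    have h' : (a : ℤ) = (b : ℤ) := h
    exact_mod_cast h'
  · intro j hj
    rw [Finset.coe_Icc, Set.mem_Icc] at hj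
    refine ⟨j.toNat, ?_, ?_⟩
    · rw [Finset.mem_coe, Finset.mem_range]
      omega
    · show ((j.toNat : ℕ) : ℤ) = j
      omega

/-- harmonic sum -/
theorem harm (M : ℕ) : ∑ i ∈ Finset.range (M + 1), (1 : ℝ) / ((i : ℝ) + 1) ≤
    1 + Real.log ((M : ℝ) + 1) := by
  have h1 := harmonic_le_one_add_log (M + 1)
  have h2 : ((harmonic (M + 1) : ℚ) : ℝ) = ∑ i ∈ Finset.range (M + 1), (1 : ℝ) / ((i : ℝ) + 1) := by
    unfold harmonic
    push_cast
    exact Finset.sum_congr rfl fun i _ => (one_div _).symm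
  rw [h2] at h1
  exact_mod_cast h1

theorem sum_G {m W s n : ℕ} (hm : 1 ≤ m) (hms : m ≤ s) (hsn : s ≤ n) (hW : W ≤ 3 * n) :
    ∑ j ∈ Finset.Icc (0 : ℤ) ((W : ℤ) / m), G m W s n j ≤
      10 * ((s : ℝ) / m) * (1 + Real.log ((n : ℝ) / m)) := by
  have hm0 : (1 : ℝ) ≤ m := by exact_mod_cast hm
  have hms0 : (m : ℝ) ≤ s := by exact_mod_cast hms
  have hsn0 : (s : ℝ) ≤ n := by exact_mod_cast hsn
  have hmp : (0 : ℝ) < m := by linarith
  have hsp : (0 : ℝ) < s := by linarith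
  have hnp : (0 : ℝ) < n := by linarith
  have hmn0 : (m : ℝ) ≤ n := by linarith
  set M : ℕ := W / m with hM
  have e0 : (W : ℤ) / m = (M : ℕ) := by rw [hM]; push_cast; rfl
  have hMW : m * M ≤ W := Nat.mul_div_le W m
  have hMW' : (m : ℝ) * M ≤ W := by exact_mod_cast hMW
  have hW' : (W : ℝ) ≤ 3 * n := by exact_mod_cast hW
  have hM1 : (M : ℝ) + 1 ≤ 4 * ((n : ℝ) / m) := by
    rw [← mul_div_assoc, le_div_iff₀ hmp]
    nlinarith
  rw [e0, sum_Icc_int]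
  -- the three sums
  set H := ∑ i ∈ Finset.range (M + 1), (1 : ℝ) / ((i : ℝ) + 1) with hH
  have hH0 := harm M
  have hL0 : 0 ≤ Real.log ((n : ℝ) / m) := Real.log_nonneg (by
    rw [le_div_iff₀ hmp]
    linarith)
  have hlog : Real.log ((M : ℝ) + 1) ≤ 1.4 + Real.log ((n : ℝ) / m) := by
    have h1 : Real.log ((M : ℝ) + 1) ≤ Real.log (4 * ((n : ℝ) / m)) :=
      Real.log_le_log (by positivity) hM1
    rw [Real.log_mul (by norm_num) (by positivity)] at h1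
    have h2 : Real.log 4 ≤ 1.4 := by
      have h3 : Real.log 4 = 2 * Real.log 2 := by
        rw [show (4 : ℝ) = 2 ^ 2 by norm_num, Real.log_pow]
        push_cast
        ring
      have h4 := Real.log_two_lt_d9
      rw [h3]
      linarith
    linarith
  have t1 : ∑ i ∈ Finset.range (M + 1), (s : ℝ) / (m * (((i : ℕ) : ℤ) + 1)) = (s : ℝ) / m * H := by
    rw [hH, Finset.mul_sum]
    refine Finset.sum_congr rfl fun i _ => ?_
    have : (0 : ℝ) < (i : ℝ) + 1 := by positivity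
    push_cast
    field_simp
  have t2 : ∑ i ∈ Finset.range (M + 1), (s : ℝ) / (W - m * ((i : ℕ) : ℤ) + m) ≤
      (s : ℝ) / m * H := by
    rw [hH, Finset.mul_sum,
      ← Finset.sum_range_reflect (fun i : ℕ => (s : ℝ) / m * (1 / ((i : ℝ) + 1))) (M + 1)]
    refine Finset.sum_le_sum fun i hi => ?_
    rw [Finset.mem_range] at hi
    have h1 : ((M + 1 - 1 - i : ℕ) : ℝ) = M - i := by
      rw [Nat.add_sub_cancel, Nat.cast_sub (by omega)]
    rw [h1]
    have h2 : (i : ℝ) ≤ M := by exact_mod_cast (by omega : i ≤ M)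
    have h3 : (0 : ℝ) < (M : ℝ) - i + 1 := by linarith
    have h4 : (m : ℝ) * ((M : ℝ) - i + 1) ≤ W - m * i + m := by linarith
    have h5 : (0 : ℝ) < m * ((M : ℝ) - i + 1) := by positivity
    push_cast
    calc (s : ℝ) / (W - m * i + m) ≤ s / (m * ((M : ℝ) - i + 1)) :=
          div_le_div_of_nonneg_left hsp.le h5 h4
      _ = _ := by field_simp
  have t3 : ∑ _i ∈ Finset.range (M + 1), (s : ℝ) / n ≤ 4 * ((s : ℝ) / m) := by
    rw [Finset.sum_const, Finset.card_range, nsmul_eq_mul]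
    push_cast
    calc ((M : ℝ) + 1) * (s / n) ≤ 4 * ((n : ℝ) / m) * (s / n) :=
          mul_le_mul_of_nonneg_right hM1 (by positivity)
      _ = _ := by field_simp
  have e1 : ∑ i ∈ Finset.range (M + 1), G m W s n ((i : ℕ) : ℤ) =
      ∑ i ∈ Finset.range (M + 1), (s : ℝ) / (m * (((i : ℕ) : ℤ) + 1)) +
      ∑ i ∈ Finset.range (M + 1), (s : ℝ) / (W - m * ((i : ℕ) : ℤ) + m) +
      ∑ _i ∈ Finset.range (M + 1), (s : ℝ) / n := by
    rw [← Finset.sum_add_distrib, ← Finset.sum_add_distrib]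
    rfl
  rw [e1, t1]
  have hH1 : H ≤ 2.4 + Real.log ((n : ℝ) / m) := by linarith
  have hq : 0 < (s : ℝ) / m := by positivity
  calc (s : ℝ) / m * H + ∑ i ∈ Finset.range (M + 1), (s : ℝ) / (W - m * ((i : ℕ) : ℤ) + m) +
        ∑ _i ∈ Finset.range (M + 1), (s : ℝ) / n
      ≤ (s : ℝ) / m * H + (s : ℝ) / m * H + 4 * ((s : ℝ) / m) := by linarith
    _ = (s : ℝ) / m * (2 * H + 4) := by ring
    _ ≤ (s : ℝ) / m * (10 * (1 + Real.log ((n : ℝ) / m))) :=
        mul_le_mul_of_nonneg_left (by linarith) hq.le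
    _ = _ := by ring

/-! ### strips -/

theorem strip1 {T : Finset P2} {a b M : ℤ} {f : P2 → ℝ} {g : ℤ → ℝ}
    (hT : ∀ k ∈ T, (a ≤ k.1 ∧ k.1 ≤ b) ∧ 0 ≤ k.2 ∧ k.2 ≤ M) (hf : ∀ k ∈ T, f k ≤ g k.2)
    (hg : ∀ j ∈ Finset.Icc (0 : ℤ) M, 0 ≤ g j) {N : ℝ} (hN : ((b - a + 1).toNat : ℝ) ≤ N) {B : ℝ}
    (hB : ∑ j ∈ Finset.Icc (0 : ℤ) M, g j ≤ B) : ∑ k ∈ T, f k ≤ N * B := by
  have h0 : 0 ≤ ∑ j ∈ Finset.Icc (0 : ℤ) M, g j := Finset.sum_nonneg hg
  calc ∑ k ∈ T, f k ≤ ∑ k ∈ T, g k.2 := Finset.sum_le_sum hf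
    _ ≤ ∑ k ∈ Finset.Icc a b ×ˢ Finset.Icc (0 : ℤ) M, g k.2 := by
        refine Finset.sum_le_sum_of_subset_of_nonneg (fun k hk => ?_) fun k hk _ => ?_
        · rw [Finset.mem_product, Finset.mem_Icc, Finset.mem_Icc]
          exact hT k hk
        · exact hg _ (Finset.mem_product.1 hk).2
    _ = (b - a + 1).toNat * ∑ j ∈ Finset.Icc (0 : ℤ) M, g j := by
        rw [Finset.sum_product]
        simp only
        rw [Finset.sum_const, Int.card_Icc, nsmul_eq_mul]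
        congr 3
        ring
    _ ≤ N * B := mul_le_mul hN hB h0 ((Nat.cast_nonneg _).trans hN)

theorem strip2 {T : Finset P2} {a b M : ℤ} {f : P2 → ℝ} {g : ℤ → ℝ}
    (hT : ∀ k ∈ T, (a ≤ k.2 ∧ k.2 ≤ b) ∧ 0 ≤ k.1 ∧ k.1 ≤ M) (hf : ∀ k ∈ T, f k ≤ g k.1)
    (hg : ∀ j ∈ Finset.Icc (0 : ℤ) M, 0 ≤ g j) {N : ℝ} (hN : ((b - a + 1).toNat : ℝ) ≤ N) {B : ℝ}
    (hB : ∑ j ∈ Finset.Icc (0 : ℤ) M, g j ≤ B) : ∑ k ∈ T, f k ≤ N * B := by
  have h1 := strip1 (T := T.map (Equiv.prodComm ℤ ℤ).toEmbedding) (f := fun k => f k.swap) (g := g)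
    (a := a) (b := b) (M := M) (by
      intro k hk
      rw [Finset.mem_map_equiv] at hk
      exact hT _ hk) (by
      intro k hk
      rw [Finset.mem_map_equiv] at hk
      exact hf _ hk) hg hN hB
  rw [Finset.sum_map] at h1
  simpa using h1

theorem sum_union_le' {T U : Finset P2} {f : P2 → ℝ} (hf : ∀ k, 0 ≤ f k) :
    ∑ k ∈ T ∪ U, f k ≤ ∑ k ∈ T, f k + ∑ k ∈ U, f k := by
  rw [← Finset.sum_union_inter]
  have : 0 ≤ ∑ k ∈ T ∩ U, f k := Finset.sum_nonneg fun k _ => hf k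
  linarith

/-- membership in `bdK` -/
theorem mem_bdK {m : ℕ} (hm : 1 ≤ m) {b d s : ℤ} {k : P2} (hk : k ∈ bdK m 0 b 0 d s) :
    (0 ≤ k.1 ∧ (m : ℤ) * k.1 ≤ b) ∧ (0 ≤ k.2 ∧ (m : ℤ) * k.2 ≤ d) ∧
    ((m : ℤ) * k.1 < s ∨ b - s < m * k.1 + m - 1 ∨ (m : ℤ) * k.2 < s ∨
      d - s < m * k.2 + m - 1) := by
  classical
  have hm0 : (0 : ℤ) < m := by exact_mod_cast hm
  unfold bdK at hk
  rw [Finset.mem_filter, Finset.mem_image] at hk
  obtain ⟨⟨e0, h0, h1⟩, h2⟩ := hk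
  unfold rS at h0
  rw [mem_eIn, mem_rV, mem_rV, mem_rect, mem_rect] at h0
  obtain ⟨⟨a1, a2⟩, a3, a4⟩ := blk_coord hm h1
  push Not at h2
  obtain ⟨e, h3, h4⟩ := h2
  obtain ⟨⟨b1, b2⟩, b3, b4⟩ := blk_coord hm h3
  have c1 : 0 ≤ k.1 := by
    by_contra h
    have : k.1 ≤ -1 := by omega
    have : (m : ℤ) * k.1 ≤ m * (-1) := mul_le_mul_of_nonneg_left this hm0.le
    omega
  have c2 : 0 ≤ k.2 := by
    by_contra h
    have : k.2 ≤ -1 := by omega
    have : (m : ℤ) * k.2 ≤ m * (-1) := mul_le_mul_of_nonneg_left this hm0.le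
    omega
  refine ⟨⟨c1, by omega⟩, ⟨c2, by omega⟩, ?_⟩
  unfold Ld570.Blk at h4
  omega

/-- number of rows of a strip -/
theorem rows_low {m s : ℕ} (hm : 1 ≤ m) (hms : m ≤ s) :
    ((((s : ℤ) / m) - 0 + 1).toNat : ℝ) ≤ 4 * ((s : ℝ) / m) := by
  have hm0 : (0 : ℤ) < m := by exact_mod_cast hm
  have hmp : (0 : ℝ) < m := by exact_mod_cast hm
  rw [← mul_div_assoc, le_div_iff₀ hmp]
  have h1 : (0 : ℤ) ≤ (s : ℤ) / m := Int.ediv_nonneg (by omega) hm0.le
  have h2 : (((s : ℤ) / m) - 0 + 1).toNat * (m : ℤ) ≤ 4 * s := by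
    rw [Int.toNat_of_nonneg (by omega)]
    have h3 : (s : ℤ) / m * m ≤ s := Int.ediv_mul_le _ hm0.ne'
    have h4 : (m : ℤ) ≤ s := by exact_mod_cast hms
    nlinarith
  exact_mod_cast h2

theorem rows_high {m s W : ℕ} (hm : 1 ≤ m) (hms : m ≤ s) :
    ((((W : ℤ) / m) - ((W : ℤ) - 2 * s) / m + 1).toNat : ℝ) ≤ 4 * ((s : ℝ) / m) := by
  have hm0 : (0 : ℤ) < m := by exact_mod_cast hm
  have hmp : (0 : ℝ) < m := by exact_mod_cast hm
  rw [← mul_div_assoc, le_div_iff₀ hmp]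
  have h1 : ((W : ℤ) - 2 * s) / m ≤ (W : ℤ) / m := Int.ediv_le_ediv hm0 (by omega)
  have h2 : (((W : ℤ) / m) - ((W : ℤ) - 2 * s) / m + 1).toNat * (m : ℤ) ≤ 4 * s := by
    rw [Int.toNat_of_nonneg (by omega)]
    have h3 : (W : ℤ) / m * m ≤ W := Int.ediv_mul_le _ hm0.ne'
    have h4 : (m : ℤ) ≤ s := by exact_mod_cast hms
    have h5 := Int.lt_ediv_add_one_mul_self ((W : ℤ) - 2 * s) hm0
    nlinarith
  exact_mod_cast h2

/-- **(BD)** boundary blocks -/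
theorem hypBD : HypBD := by
  obtain ⟨c0, hc0, hc1, hbelow⟩ := rsw_below
  intro c hc
  set c' := cR (min c c0) with hc'
  have hcp : 0 < c' := cR_pos (lt_min hc hc0)
  have hcl : c' ≤ 1 := (cR_le_half (lt_min hc hc0) ((min_le_right _ _).trans hc1)).trans
    (by norm_num)
  set K : ℝ := 160 / c' ^ 3 with hK
  have hK1 : 1 ≤ K := by
    have h1 : c' ^ 3 ≤ 1 := pow_le_one₀ hcp.le hcl
    rw [hK, le_div_iff₀ (by positivity)]
    linarith
  refine ⟨4 * (4 * (4 * K * 10)), by positivity, fun q hq0 hq m s n hm hms hsn hR => ?_⟩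
  have hm0 : (1 : ℝ) ≤ m := by exact_mod_cast hm
  have hmp : (0 : ℝ) < m := by linarith
  have hmpz : (0 : ℤ) < m := by exact_mod_cast hm
  have hms' : (m : ℤ) ≤ s := by exact_mod_cast hms
  have hqh : clampUnit q ≤ hf := by
    rw [← clampUnit_half]
    exact Set.monotone_projIcc _ hq
  have hRs := hbelow (clampUnit q) hqh c ((16 * s : ℕ) : ℤ) hc (rs_primal hR)
  set f : P2 → ℝ := fun k => Pr q (PivS (blk m) k (XR 0 n 0 (3 * n))) with hf'
  have hf0 : ∀ k, 0 ≤ f k := fun k => Pr_nonneg _ _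
  have hf1 : ∀ k, f k ≤ 1 := fun k => Pr_le_one _ _
  classical
  set B := bdK m 0 n 0 (3 * n) s with hB
  set T1 := B.filter fun k => (m : ℤ) * k.1 < s with hT1
  set T2 := B.filter fun k => (n : ℤ) - s < m * k.1 + m - 1 with hT2
  set T3 := B.filter fun k => (m : ℤ) * k.2 < s with hT3
  set T4 := B.filter fun k => (3 * n : ℤ) - s < m * k.2 + m - 1 with hT4
  have hsub : B ⊆ (T1 ∪ T2) ∪ (T3 ∪ T4) := by
    intro k hk
    have h1 := (mem_bdK hm hk).2.2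
    rw [Finset.mem_union, Finset.mem_union, Finset.mem_union, hT1, hT2, hT3, hT4,
      Finset.mem_filter, Finset.mem_filter, Finset.mem_filter, Finset.mem_filter]
    tauto
  have hsum : ∑ k ∈ B, f k ≤ (∑ k ∈ T1, f k + ∑ k ∈ T2, f k) + (∑ k ∈ T3, f k + ∑ k ∈ T4, f k) := by
    refine (Finset.sum_le_sum_of_subset_of_nonneg hsub fun k _ _ => hf0 k).trans ?_
    refine (sum_union_le' hf0).trans ?_
    exact add_le_add (sum_union_le' hf0) (sum_union_le' hf0)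
  -- the four strips
  set X : ℝ := 4 * ((s : ℝ) / m) * (4 * K * (10 * ((s : ℝ) / m) *
    (1 + Real.log ((n : ℝ) / m)))) with hX
  have hidx : ∀ {W : ℕ} {j : ℤ}, 0 ≤ j → (m : ℤ) * j ≤ W → j ≤ (W : ℤ) / m := by
    intro W j _ h
    rw [Int.le_ediv_iff_mul_le hmpz]
    linarith
  have hidx' : ∀ {W : ℕ} {j : ℤ}, j ∈ Finset.Icc (0 : ℤ) ((W : ℤ) / m) →
      0 ≤ j ∧ (m : ℤ) * j ≤ W := by
    intro W j hj
    rw [Finset.mem_Icc, Int.le_ediv_iff_mul_le hmpz] at hj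
    exact ⟨hj.1, by linarith [hj.2]⟩
  have hGn : ∀ {W : ℕ}, ∀ j ∈ Finset.Icc (0 : ℤ) ((W : ℤ) / m), 0 ≤ 4 * K * G m W s n j := by
    intro W j hj
    obtain ⟨h1, h2⟩ := hidx' hj
    have := G_nonneg (s := s) (n := n) h1 h2
    positivity
  have hGs : ∀ {W : ℕ}, W ≤ 3 * n → ∑ j ∈ Finset.Icc (0 : ℤ) ((W : ℤ) / m), 4 * K * G m W s n j ≤
      4 * K * (10 * ((s : ℝ) / m) * (1 + Real.log ((n : ℝ) / m))) := by
    intro W hW
    rw [← Finset.mul_sum]
    exact mul_le_mul_of_nonneg_left (sum_G hm hms hsn hW) (by positivity)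
  have e3n : (((3 * n : ℕ) : ℕ) : ℤ) = 3 * (n : ℤ) := by push_cast; ring
  have s1 : ∑ k ∈ T1, f k ≤ X := by
    refine strip1 (a := 0) (b := (s : ℤ) / m) (M := ((3 * n : ℕ) : ℤ) / m)
      (g := fun j => 4 * K * G m (3 * n) s n j) ?_ ?_ hGn (rows_low hm hms) (hGs le_rfl)
    · intro k hk
      rw [hT1, Finset.mem_filter] at hk
      obtain ⟨⟨a1, a2⟩, ⟨a3, a4⟩, -⟩ := mem_bdK hm hk.1
      exact ⟨⟨a1, hidx a1 hk.2.le⟩, a3, hidx a3 (by rw [e3n]; exact a4)⟩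
    · intro k hk
      rw [hT1, Finset.mem_filter] at hk
      obtain ⟨⟨a1, a2⟩, ⟨a3, a4⟩, -⟩ := mem_bdK hm hk.1
      refine one_block hK1 hm hms hsn a3 (by rw [e3n]; exact a4) (hf1 k) fun R h1 h2 h3 h4 => ?_
      exact blk_L (hRs R) hm (l := 2 * (s : ℤ)) (by omega) h1 (by push_cast; omega) le_rfl a1
        (by omega) (by omega) h2 (by rw [e3n] at h3; exact h3) h4
  have s2 : ∑ k ∈ T2, f k ≤ X := by
    refine strip1 (a := ((n : ℤ) - 2 * s) / m) (b := (n : ℤ) / m) (M := ((3 * n : ℕ) : ℤ) / m)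
      (g := fun j => 4 * K * G m (3 * n) s n j) ?_ ?_ hGn (rows_high hm hms) (hGs le_rfl)
    · intro k hk
      rw [hT2, Finset.mem_filter] at hk
      obtain ⟨⟨a1, a2⟩, ⟨a3, a4⟩, -⟩ := mem_bdK hm hk.1
      refine ⟨⟨?_, hidx a1 a2⟩, a3, hidx a3 (by rw [e3n]; exact a4)⟩
      rw [← Int.lt_add_one_iff, Int.ediv_lt_iff_lt_mul hmpz]
      have h1 : (k.1 + 1) * (m : ℤ) = m * k.1 + m := by ring
      rw [h1]
      omega
    · intro k hk
      rw [hT2, Finset.mem_filter] at hk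
      obtain ⟨⟨a1, a2⟩, ⟨a3, a4⟩, -⟩ := mem_bdK hm hk.1
      refine one_block hK1 hm hms hsn a3 (by rw [e3n]; exact a4) (hf1 k) fun R h1 h2 h3 h4 => ?_
      exact blk_R (hRs R) hm (l := 2 * (s : ℤ)) (by omega) h1 (by push_cast; omega) le_rfl a2
        (by omega) (by omega) h2 (by rw [e3n] at h3; exact h3) h4
  have s3 : ∑ k ∈ T3, f k ≤ X := by
    refine strip2 (a := 0) (b := (s : ℤ) / m) (M := (n : ℤ) / m)
      (g := fun j => 4 * K * G m n s n j) ?_ ?_ hGn (rows_low hm hms) (hGs (by omega))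
    · intro k hk
      rw [hT3, Finset.mem_filter] at hk
      obtain ⟨⟨a1, a2⟩, ⟨a3, a4⟩, -⟩ := mem_bdK hm hk.1
      exact ⟨⟨a3, hidx a3 hk.2.le⟩, a1, hidx a1 a2⟩
    · intro k hk
      rw [hT3, Finset.mem_filter] at hk
      obtain ⟨⟨a1, a2⟩, ⟨a3, a4⟩, -⟩ := mem_bdK hm hk.1
      refine one_block hK1 hm hms hsn a1 a2 (hf1 k) fun R h1 h2 h3 h4 => ?_
      exact blk_B (hRs R) hm (l := 2 * (s : ℤ)) (by omega) h1 (by push_cast; omega) le_rfl a3
        (by omega) (by omega) h2 h3 (by omega)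
  have s4 : ∑ k ∈ T4, f k ≤ X := by
    refine strip2 (a := (((3 * n : ℕ) : ℤ) - 2 * s) / m) (b := ((3 * n : ℕ) : ℤ) / m)
      (M := (n : ℤ) / m)
      (g := fun j => 4 * K * G m n s n j) ?_ ?_ hGn (rows_high hm hms) (hGs (by omega))
    · intro k hk
      rw [hT4, Finset.mem_filter] at hk
      obtain ⟨⟨a1, a2⟩, ⟨a3, a4⟩, -⟩ := mem_bdK hm hk.1
      refine ⟨⟨?_, hidx a3 (by rw [e3n]; exact a4)⟩, a1, hidx a1 a2⟩
      rw [← Int.lt_add_one_iff, Int.ediv_lt_iff_lt_mul hmpz]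
      have h1 : (k.2 + 1) * (m : ℤ) = m * k.2 + m := by ring
      rw [h1, e3n]
      omega
    · intro k hk
      rw [hT4, Finset.mem_filter] at hk
      obtain ⟨⟨a1, a2⟩, ⟨a3, a4⟩, -⟩ := mem_bdK hm hk.1
      refine one_block hK1 hm hms hsn a1 a2 (hf1 k) fun R h1 h2 h3 h4 => ?_
      exact blk_T (hRs R) hm (l := 2 * (s : ℤ)) (by omega) h1 (by push_cast; omega) le_rfl a4
        (by omega) (by omega) h2 h3 (by omega)
  have hfin : ∑ k ∈ B, f k ≤ 4 * X := by linarith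
  refine hfin.trans (le_of_eq ?_)
  rw [hX]
  ring

end Crest.Agent.R158.Bb488
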