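import Mathlib
import Crest.Agent.R150.Jul_361
import Crest.Agent.R150.Sc1_962
import Crest.Agent.R150.Om1_932

/-!
# Band theorem, scalar part (helper932)

`Ev N g`: `g` is an eigenvalue of the row transfer matrix (percolation normalisation,
crossing parameter `π / 3`), `x = 3 v / π`.

* `Ev.maj`: `‖g x‖ ≤ exp (96 Re W_N x)` on the closed strip `0 ≤ Re x ≤ 1`;
* `Ev.harn`: near the middle line a good eigenvalue is close to its sign.
-/

open Complex Set
open scoped ComplexConjugate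

namespace Crest.Agent.R158.Bd932

noncomputable section

/-- eigenvalue of a joint eigenvector, percolation normalisation -/
structure Ev (N : ℝ) (g : ℂ → ℂ) : Prop where
  diff : ∀ x : ℂ, -1 < x.re → x.re < 2 → DifferentiableAt ℂ g x
  refl : ∀ x : ℂ, -1 < x.re → x.re < 2 → g (1 - conj x) = conj (g x)
  bd : ∀ x : ℂ, 0 ≤ x.re → x.re ≤ 1 → ‖g x‖ ≤ 2
  inv : ∀ x : ℂ, |x.re| ≤ 1 / 4 →
    ‖g x * g (x + 1) - 1‖ ≤ 3 * Real.exp (-(N / 4 * Real.exp (-(Real.pi * |x.im|))))

/-! ## the majorant -/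

lemma one_add_ne {w : ℂ} (h : 0 ≤ w.re) : (1 : ℂ) + w ≠ 0 := by
  intro h0
  have := congrArg Complex.re h0
  simp at this
  linarith

lemma inv_re {w : ℂ} : (1 / (1 + w)).re = (1 + w.re) / (1 + 2 * w.re + ‖w‖ ^ 2) := by
  rw [one_div, Complex.inv_re, Complex.normSq_apply]
  have : ‖w‖ ^ 2 = w.re * w.re + w.im * w.im := by
    rw [← Complex.normSq_eq_norm_sq, Complex.normSq_apply]
  rw [this]
  simp only [Complex.add_re, Complex.one_re, Complex.add_im, Complex.one_im, zero_add]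
  congr 1
  ring

lemma inv_re_nonneg {w : ℂ} (h : 0 ≤ w.re) : 0 ≤ (1 / (1 + w)).re := by
  rw [inv_re]; positivity

lemma inv_norm_le {w : ℂ} (h : 0 ≤ w.re) (hw : w ≠ 0) : ‖1 / (1 + w)‖ ≤ 1 / ‖w‖ := by
  rw [norm_div, norm_one]
  have hw' := norm_pos_iff.2 hw
  apply one_div_le_one_div_of_le hw'
  have h1 : ‖w‖ ^ 2 ≤ ‖1 + w‖ ^ 2 := by
    rw [← Complex.normSq_eq_norm_sq, ← Complex.normSq_eq_norm_sq, Complex.normSq_apply,
      Complex.normSq_apply]
    simp only [Complex.add_re, Complex.one_re, Complex.add_im, Complex.one_im, zero_add]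
    nlinarith
  exact le_of_sq_le_sq h1 (norm_nonneg _)

/-- first exponential -/
def pN (N : ℝ) (z : ℂ) : ℂ := -(I * N * Complex.exp (I * Real.pi * z))

/-- second exponential -/
def qN (N : ℝ) (z : ℂ) : ℂ := I * N * Complex.exp (-(I * Real.pi * z))

/-- the majorant -/
def WN (N : ℝ) (z : ℂ) : ℂ := 1 / (1 + pN N z) + 1 / (1 + qN N z)

lemma pN_eq (N : ℝ) (z : ℂ) : pN N z =
    ((N * Real.exp (-(Real.pi * z.im)) * Real.sin (Real.pi * z.re) : ℝ) : ℂ)
      + ((-(N * Real.exp (-(Real.pi * z.im)) * Real.cos (Real.pi * z.re)) : ℝ) : ℂ) * I := by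
  have e : I * Real.pi * z = ((-(Real.pi * z.im) : ℝ) : ℂ) + ((Real.pi * z.re : ℝ) : ℂ) * I := by
    apply Complex.ext <;> simp
  rw [pN, e, Complex.exp_add, Complex.exp_mul_I, ← Complex.ofReal_exp, ← Complex.ofReal_cos,
    ← Complex.ofReal_sin]
  push_cast
  linear_combination (-(N : ℂ) * Complex.exp (-(Real.pi * z.im)) * Complex.sin (Real.pi * z.re))
    * Complex.I_sq

lemma qN_eq (N : ℝ) (z : ℂ) : qN N z =
    ((N * Real.exp (Real.pi * z.im) * Real.sin (Real.pi * z.re) : ℝ) : ℂ)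
      + ((N * Real.exp (Real.pi * z.im) * Real.cos (Real.pi * z.re) : ℝ) : ℂ) * I := by
  have e : -(I * Real.pi * z) = ((Real.pi * z.im : ℝ) : ℂ) + ((-(Real.pi * z.re) : ℝ) : ℂ) * I := by
    apply Complex.ext <;> simp
  rw [qN, e, Complex.exp_add, Complex.exp_mul_I, ← Complex.ofReal_exp, ← Complex.ofReal_cos,
    ← Complex.ofReal_sin, Real.cos_neg, Real.sin_neg]
  push_cast
  linear_combination (-(N : ℂ) * Complex.exp (Real.pi * z.im) * Complex.sin (Real.pi * z.re))
    * Complex.I_sq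

lemma re_form (a b : ℝ) : ((a : ℂ) + (b : ℂ) * I).re = a := by simp

lemma pN_re (N : ℝ) (z : ℂ) : (pN N z).re =
    N * Real.exp (-(Real.pi * z.im)) * Real.sin (Real.pi * z.re) := by
  rw [pN_eq, re_form]

lemma qN_re (N : ℝ) (z : ℂ) : (qN N z).re =
    N * Real.exp (Real.pi * z.im) * Real.sin (Real.pi * z.re) := by
  rw [qN_eq, re_form]

lemma pN_norm {N : ℝ} (hN : 0 < N) (z : ℂ) : ‖pN N z‖ = N * Real.exp (-(Real.pi * z.im)) := by
  rw [pN, norm_neg, norm_mul, norm_mul, Complex.norm_I, one_mul, Complex.norm_real,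
    Real.norm_of_nonneg hN.le, Complex.norm_exp]
  congr 2
  simp

lemma qN_norm {N : ℝ} (hN : 0 < N) (z : ℂ) : ‖qN N z‖ = N * Real.exp (Real.pi * z.im) := by
  rw [qN, norm_mul, norm_mul, Complex.norm_I, one_mul, Complex.norm_real,
    Real.norm_of_nonneg hN.le, Complex.norm_exp]
  congr 2
  simp

lemma sin_nonneg_strip {z : ℂ} (h0 : 0 ≤ z.re) (h1 : z.re ≤ 1) :
    0 ≤ Real.sin (Real.pi * z.re) := by
  have hpi := Real.pi_pos
  apply Real.sin_nonneg_of_nonneg_of_le_pi (by positivity)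
  nlinarith

lemma pN_re_nonneg {N : ℝ} (hN : 0 < N) {z : ℂ} (h0 : 0 ≤ z.re) (h1 : z.re ≤ 1) :
    0 ≤ (pN N z).re := by
  rw [pN_re]
  have := sin_nonneg_strip h0 h1
  positivity

lemma qN_re_nonneg {N : ℝ} (hN : 0 < N) {z : ℂ} (h0 : 0 ≤ z.re) (h1 : z.re ≤ 1) :
    0 ≤ (qN N z).re := by
  rw [qN_re]
  have := sin_nonneg_strip h0 h1
  positivity

lemma WN_re_nonneg {N : ℝ} (hN : 0 < N) {z : ℂ} (h0 : 0 ≤ z.re) (h1 : z.re ≤ 1) :
    0 ≤ (WN N z).re := by
  rw [WN, Complex.add_re]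
  have a := inv_re_nonneg (pN_re_nonneg hN h0 h1)
  have b := inv_re_nonneg (qN_re_nonneg hN h0 h1)
  linarith

lemma WN_diff {N : ℝ} (hN : 0 < N) {z : ℂ} (h0 : 0 ≤ z.re) (h1 : z.re ≤ 1) :
    DifferentiableAt ℂ (WN N) z := by
  unfold WN
  apply DifferentiableAt.add
  · apply DifferentiableAt.div (differentiableAt_const _)
    · unfold pN; fun_prop
    · exact one_add_ne (pN_re_nonneg hN h0 h1)
  · apply DifferentiableAt.div (differentiableAt_const _)
    · unfold qN; fun_prop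
    · exact one_add_ne (qN_re_nonneg hN h0 h1)

lemma WN_norm_le {N : ℝ} (hN : 0 < N) {z : ℂ} (h0 : 0 ≤ z.re) (h1 : z.re ≤ 1) :
    ‖WN N z‖ ≤ 2 * Real.exp (Real.pi * |z.im|) / N := by
  have hpi := Real.pi_pos
  have hp : pN N z ≠ 0 := by
    rw [← norm_pos_iff, pN_norm hN]; positivity
  have hq : qN N z ≠ 0 := by
    rw [← norm_pos_iff, qN_norm hN]; positivity
  have a := inv_norm_le (pN_re_nonneg hN h0 h1) hp
  have b := inv_norm_le (qN_re_nonneg hN h0 h1) hq
  rw [pN_norm hN] at a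
  rw [qN_norm hN] at b
  have hle1 : Real.exp (-(Real.pi * |z.im|)) ≤ Real.exp (-(Real.pi * z.im)) := by
    apply Real.exp_le_exp.2
    have := le_abs_self z.im
    nlinarith
  have hle2 : Real.exp (-(Real.pi * |z.im|)) ≤ Real.exp (Real.pi * z.im) := by
    apply Real.exp_le_exp.2
    have := neg_abs_le z.im
    nlinarith
  have a' : 1 / (N * Real.exp (-(Real.pi * z.im))) ≤ Real.exp (Real.pi * |z.im|) / N := by
    rw [div_le_div_iff₀ (by positivity) hN]
    have : 1 ≤ Real.exp (Real.pi * |z.im|) * Real.exp (-(Real.pi * z.im)) := by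
      calc (1 : ℝ) = Real.exp (Real.pi * |z.im|) * Real.exp (-(Real.pi * |z.im|)) := by
            rw [← Real.exp_add]; simp
        _ ≤ _ := by gcongr
    nlinarith
  have b' : 1 / (N * Real.exp (Real.pi * z.im)) ≤ Real.exp (Real.pi * |z.im|) / N := by
    rw [div_le_div_iff₀ (by positivity) hN]
    have : 1 ≤ Real.exp (Real.pi * |z.im|) * Real.exp (Real.pi * z.im) := by
      calc (1 : ℝ) = Real.exp (Real.pi * |z.im|) * Real.exp (-(Real.pi * |z.im|)) := by
            rw [← Real.exp_add]; simp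
        _ ≤ _ := by gcongr
    nlinarith
  have : 2 * Real.exp (Real.pi * |z.im|) / N =
      Real.exp (Real.pi * |z.im|) / N + Real.exp (Real.pi * |z.im|) / N := by ring
  rw [this, WN]
  exact (norm_add_le _ _).trans (add_le_add (a.trans a') (b.trans b'))

lemma inv_re_zero {w : ℂ} (h : w.re = 0) : (1 / (1 + w)).re = 1 / (1 + ‖w‖ ^ 2) := by
  rw [inv_re, h]; simp

lemma WN_side {N : ℝ} (hN : 0 < N) {z : ℂ} (h : z.re = 0 ∨ z.re = 1) :
    1 / (1 + (N * Real.exp (-(Real.pi * |z.im|))) ^ 2) ≤ (WN N z).re := by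
  have hs : Real.sin (Real.pi * z.re) = 0 := by
    rcases h with h | h <;> rw [h] <;> simp
  have hp : (pN N z).re = 0 := by rw [pN_re, hs, mul_zero]
  have hq : (qN N z).re = 0 := by rw [qN_re, hs, mul_zero]
  rw [WN, Complex.add_re, inv_re_zero hp, inv_re_zero hq, pN_norm hN, qN_norm hN]
  rcases le_total 0 z.im with h0 | h0
  · rw [abs_of_nonneg h0]
    have : 0 ≤ 1 / (1 + (N * Real.exp (Real.pi * z.im)) ^ 2) := by positivity
    linarith
  · rw [abs_of_nonpos h0]
    have e : -(Real.pi * -z.im) = Real.pi * z.im := by ring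
    rw [e]
    have : 0 ≤ 1 / (1 + (N * Real.exp (-(Real.pi * z.im))) ^ 2) := by positivity
    linarith

lemma WN_half {N : ℝ} (hN : 0 < N) : WN N (1 / 2) = ((2 / (1 + N) : ℝ) : ℂ) := by
  have hre : ((1 / 2 : ℂ)).re = 1 / 2 := by norm_num
  have him : ((1 / 2 : ℂ)).im = 0 := by norm_num
  have hp : pN N (1 / 2) = N := by
    rw [pN_eq, hre, him]
    have : Real.pi * (1 / 2) = Real.pi / 2 := by ring
    rw [this]
    simp
  have hq : qN N (1 / 2) = N := by
    rw [qN_eq, hre, him]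
    have : Real.pi * (1 / 2) = Real.pi / 2 := by ring
    rw [this]
    simp
  rw [WN, hp, hq]
  push_cast
  ring

/-! ## eigenvalue majorant -/

lemma exp_poly {t : ℝ} (ht : 0 ≤ t) : 3 / 2 * Real.exp (-(t / 4)) ≤ 96 * (1 / (1 + t ^ 2)) := by
  have h1 : (1 + t / 8) ^ 2 ≤ Real.exp (t / 4) := by
    have h2 := Real.add_one_le_exp (t / 8)
    have h3 : Real.exp (t / 4) = Real.exp (t / 8) ^ 2 := by
      rw [← Real.exp_nat_mul]; congr 1; push_cast; ring
    rw [h3]
    apply pow_le_pow_left₀ (by positivity)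
    linarith
  have h4 : Real.exp (-(t / 4)) ≤ 64 / (1 + t ^ 2) := by
    rw [Real.exp_neg, inv_eq_one_div, div_le_div_iff₀ (Real.exp_pos _) (by positivity)]
    nlinarith
  calc 3 / 2 * Real.exp (-(t / 4)) ≤ 3 / 2 * (64 / (1 + t ^ 2)) := by gcongr
    _ = 96 * (1 / (1 + t ^ 2)) := by ring

variable {N : ℝ} {g : ℂ → ℂ}

lemma Ev.left_sq (hg : Ev N g) (y : ℝ) : ‖g (y * I)‖ ^ 2 ≤
    1 + 3 * Real.exp (-(N / 4 * Real.exp (-(Real.pi * |y|)))) := by
  have hre : ((y : ℂ) * I).re = 0 := by simp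
  have him : ((y : ℂ) * I).im = y := by simp
  have h1 := hg.refl (y * I) (by rw [hre]; norm_num) (by rw [hre]; norm_num)
  have h2 : (1 : ℂ) - conj ((y : ℂ) * I) = (y : ℂ) * I + 1 := by
    rw [map_mul, Complex.conj_ofReal, Complex.conj_I]; ring
  rw [h2] at h1
  have h3 := hg.inv (y * I) (by rw [hre]; norm_num)
  rw [h1, him, Complex.mul_conj, Complex.normSq_eq_norm_sq] at h3
  have h4 : ((‖g (y * I)‖ ^ 2 : ℝ) : ℂ) - 1 = ((‖g (y * I)‖ ^ 2 - 1 : ℝ) : ℂ) := by push_cast; ring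
  rw [h4, Complex.norm_real] at h3
  have := (abs_le.1 (by simpa using h3 : |‖g (y * I)‖ ^ 2 - 1| ≤ _)).2
  linarith

lemma Ev.right_eq (hg : Ev N g) (y : ℝ) : ‖g (1 + y * I)‖ = ‖g (y * I)‖ := by
  have hre : ((y : ℂ) * I).re = 0 := by simp
  have h1 := hg.refl (y * I) (by rw [hre]; norm_num) (by rw [hre]; norm_num)
  have h2 : (1 : ℂ) - conj ((y : ℂ) * I) = 1 + (y : ℂ) * I := by
    rw [map_mul, Complex.conj_ofReal, Complex.conj_I]; ring
  rw [h2] at h1
  rw [h1, RCLike.norm_conj]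

lemma Ev.side_le (hN : 0 < N) (hg : Ev N g) {z : ℂ} (h : z.re = 0 ∨ z.re = 1) :
    ‖g z‖ ≤ Real.exp (96 * (WN N z).re) := by
  set t : ℝ := N * Real.exp (-(Real.pi * |z.im|)) with ht
  have ht0 : 0 ≤ t := by positivity
  have hz : ‖g z‖ = ‖g (z.im * I)‖ := by
    rcases h with h | h
    · congr 2
      apply Complex.ext <;> simp [h]
    · rw [← hg.right_eq z.im]
      congr 2
      apply Complex.ext <;> simp [h]
  have h1 := hg.left_sq z.im
  have h2 := WN_side hN h
  have h3 := exp_poly ht0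
  have e : N / 4 * Real.exp (-(Real.pi * |z.im|)) = t / 4 := by rw [ht]; ring
  rw [e] at h1
  have h4 : ‖g (z.im * I)‖ ^ 2 ≤ Real.exp (96 * (WN N z).re) ^ 2 := by
    rw [← Real.exp_nat_mul]
    have h5 := Real.add_one_le_exp (3 * Real.exp (-(t / 4)))
    have h6 : 3 * Real.exp (-(t / 4)) ≤ ((2 : ℕ) : ℝ) * (96 * (WN N z).re) := by
      push_cast
      have : 96 * (1 / (1 + t ^ 2)) ≤ 96 * (WN N z).re := by gcongr
      linarith
    have h7 := Real.exp_le_exp.2 h6
    exact h1.trans ((by linarith only [h5] : _ ≤ Real.exp (3 * Real.exp (-(t / 4)))).trans h7)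
  rw [hz]
  exact le_of_sq_le_sq h4 (Real.exp_pos _).le

/-- the normalised function is bounded by one in the closed strip -/
lemma Ev.norm_le_one (hN : 0 < N) (hg : Ev N g) {z : ℂ} (h0 : 0 ≤ z.re) (h1 : z.re ≤ 1) :
    ‖g z * Complex.exp (-(96 * WN N z))‖ ≤ 1 := by
  have hpi := Real.pi_pos
  have hd : ∀ w : ℂ, 0 ≤ w.re → w.re ≤ 1 →
      DifferentiableAt ℂ (fun w => g w * Complex.exp (-(96 * WN N w))) w := by
    intro w a b
    apply DifferentiableAt.mul (hg.diff w (by linarith) (by linarith))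
    exact (((WN_diff hN a b).const_mul 96).neg).cexp
  have hn : ∀ w : ℂ, ‖g w * Complex.exp (-(96 * WN N w))‖ =
      ‖g w‖ * Real.exp (-(96 * (WN N w).re)) := by
    intro w
    rw [norm_mul, Complex.norm_exp]
    congr 2
    simp
  have key := PhragmenLindelof.vertical_strip (a := 0) (b := 1) (C := 1)
    (f := fun w => g w * Complex.exp (-(96 * WN N w))) (z := z) ?_ ?_ ?_ ?_ h0 h1
  · exact key
  · constructor
    · intro w hw
      have hw' : 0 < w.re ∧ w.re < 1 := by simpa using hw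
      exact (hd w hw'.1.le hw'.2.le).differentiableWithinAt
    · intro w hw
      have hw' : w ∈ Complex.re ⁻¹' Icc 0 1 := by
        have : closure (Complex.re ⁻¹' Ioo (0 : ℝ) 1) ⊆ Complex.re ⁻¹' Icc 0 1 := by
          apply closure_minimal
          · exact preimage_mono Ioo_subset_Icc_self
          · exact isClosed_Icc.preimage Complex.continuous_re
        exact this hw
      exact (hd w hw'.1 hw'.2).continuousAt.continuousWithinAt
  · refine ⟨0, by positivity, 0, ?_⟩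
    apply Asymptotics.IsBigO.of_bound 2
    rw [Filter.eventually_inf_principal]
    filter_upwards with w hw
    have hw' : 0 < w.re ∧ w.re < 1 := by simpa using hw
    rw [hn]
    have a := hg.bd w hw'.1.le hw'.2.le
    have b := WN_re_nonneg hN hw'.1.le hw'.2.le
    have c : Real.exp (-(96 * (WN N w).re)) ≤ 1 := Real.exp_le_one_iff.2 (by linarith)
    have d : ‖g w‖ * Real.exp (-(96 * (WN N w).re)) ≤ 2 * 1 := by
      apply mul_le_mul a c (Real.exp_pos _).le (by norm_num)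
    simpa using d
  · intro w hw
    rw [hn]
    have a := hg.side_le hN (z := w) (Or.inl hw)
    calc ‖g w‖ * Real.exp (-(96 * (WN N w).re))
        ≤ Real.exp (96 * (WN N w).re) * Real.exp (-(96 * (WN N w).re)) := by gcongr
      _ = 1 := by rw [← Real.exp_add]; simp
  · intro w hw
    rw [hn]
    have a := hg.side_le hN (z := w) (Or.inr hw)
    calc ‖g w‖ * Real.exp (-(96 * (WN N w).re))
        ≤ Real.exp (96 * (WN N w).re) * Real.exp (-(96 * (WN N w).re)) := by gcongr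
      _ = 1 := by rw [← Real.exp_add]; simp

/-- **Lemma A.** -/
theorem Ev.maj (hN : 0 < N) (hg : Ev N g) {z : ℂ} (h0 : 0 ≤ z.re) (h1 : z.re ≤ 1) :
    ‖g z‖ ≤ Real.exp (96 * (WN N z).re) := by
  have h := hg.norm_le_one hN h0 h1
  rw [norm_mul, Complex.norm_exp] at h
  have e : (-(96 * WN N z)).re = -(96 * (WN N z).re) := by simp
  rw [e] at h
  calc ‖g z‖ = ‖g z‖ * Real.exp (-(96 * (WN N z).re)) * Real.exp (96 * (WN N z).re) := by
        rw [mul_assoc, ← Real.exp_add]; simp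
    _ ≤ 1 * Real.exp (96 * (WN N z).re) := by gcongr
    _ = _ := one_mul _

theorem Ev.half_le (hN : 0 < N) (hg : Ev N g) : ‖g (1 / 2)‖ ≤ Real.exp (192 / (1 + N)) := by
  have h := hg.maj hN (z := 1 / 2) (by norm_num) (by norm_num)
  rw [WN_half hN, Complex.ofReal_re] at h
  refine h.trans (le_of_eq ?_)
  congr 1
  ring

/-! ## Harnack on the middle line -/

lemma Ev.half_im (hg : Ev N g) : (g (1 / 2)).im = 0 := by
  have hre : ((1 / 2 : ℂ)).re = 1 / 2 := by norm_num
  have h := hg.refl (1 / 2) (by rw [hre]; norm_num) (by rw [hre]; norm_num)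
  have e : (1 : ℂ) - conj (1 / 2 : ℂ) = 1 / 2 := by
    simp only [map_div₀, map_one, Complex.conj_ofNat]
    norm_num
  rw [e] at h
  exact Complex.conj_eq_iff_im.1 h.symm

/-- the sign of the eigenvalue at the isotropic point -/
def sg (g : ℂ → ℂ) : ℝ := if 0 ≤ (g (1 / 2)).re then 1 else -1

lemma sg_sq (g : ℂ → ℂ) : sg g * sg g = 1 := by
  unfold sg; split_ifs <;> norm_num

lemma sg_norm (g : ℂ → ℂ) : ‖((sg g : ℝ) : ℂ)‖ = 1 := by
  rw [Complex.norm_real]
  unfold sg; split_ifs <;> simp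

lemma Ev.sg_half (hg : Ev N g) : ((sg g : ℝ) : ℂ) * g (1 / 2) = (‖g (1 / 2)‖ : ℝ) := by
  have h := hg.half_im
  have e : g (1 / 2) = (((g (1 / 2)).re : ℝ) : ℂ) := by
    apply Complex.ext
    · rw [Complex.ofReal_re]
    · rw [Complex.ofReal_im, h]
  rw [e, Complex.norm_real, ← Complex.ofReal_mul]
  congr 1
  unfold sg
  split_ifs with h0
  · rw [one_mul, Real.norm_of_nonneg h0]
  · rw [Real.norm_of_nonpos (by linarith)]; ring

lemma one_sub_sq_le {w : ℂ} (hw : ‖w‖ ≤ 1) : ‖1 - w‖ ^ 2 ≤ 2 * (1 - w).re := by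
  have h1 : ‖w‖ ^ 2 ≤ 1 := by
    have := norm_nonneg w
    nlinarith
  rw [← Complex.normSq_eq_norm_sq, Complex.normSq_apply] at h1 ⊢
  simp only [Complex.sub_re, Complex.one_re, Complex.sub_im, Complex.one_im]
  nlinarith

lemma Ev.harn (hN : 0 < N) (hg : Ev N g) (y : ℝ) :
    ‖1 - (sg g : ℂ) * g (1 / 2 + y * I) * Complex.exp (-(96 * WN N (1 / 2 + y * I)))‖ ^ 2 ≤
      8 * Real.exp (Real.pi * |y|) * ((1 - ‖g (1 / 2)‖) + 384 / N) := by
  have hpi := Real.pi_pos
  set φ : ℂ → ℂ := fun z => 1 - (sg g : ℂ) * g z * Complex.exp (-(96 * WN N z)) with hφ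
  have hn : ∀ z : ℂ, 0 ≤ z.re → z.re ≤ 1 →
      ‖(sg g : ℂ) * g z * Complex.exp (-(96 * WN N z))‖ ≤ 1 := by
    intro z a b
    rw [mul_assoc, norm_mul, sg_norm, one_mul]
    exact hg.norm_le_one hN a b
  have hre : ∀ z : ℂ, 0 ≤ z.re → z.re ≤ 1 → 0 ≤ (φ z).re := by
    intro z a b
    have h1 := (Complex.abs_re_le_norm _).trans (hn z a b)
    simp only [hφ, Complex.sub_re, Complex.one_re]
    have := (abs_le.1 h1).2
    linarith
  have e1 : (1 / 2 + (y : ℂ) * I).re = 1 / 2 := by simp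
  have e2 : (1 / 2 + (y : ℂ) * I).im = y := by simp
  have e3 : ((1 / 2 : ℂ)).re = 1 / 2 := by norm_num
  have e4 : ((1 / 2 : ℂ)).im = 0 := by norm_num
  have key := Crest.Agent.R150.Jul361.strip_harnack (φ := φ) (z1 := 1 / 2 + y * I) (z2 := 1 / 2) ?_ ?_
    (by rw [e1]; norm_num) (by rw [e1]; norm_num) (by rw [e3]; norm_num) (by rw [e3]; norm_num)
  · have hHK : Crest.Agent.R150.Jul361.HK (1 / 2 + y * I) (1 / 2) ≤ 4 * Real.exp (Real.pi * |y|) := by
      rw [Crest.Agent.R150.Jul361.HK, e1, e2, e3, e4]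
      have a1 : Real.pi * (1 / 2 + 1 / 2) = Real.pi := by ring
      have a2 : Real.pi * (1 / 2) = Real.pi / 2 := by ring
      rw [a1, a2, Real.cos_pi, Real.sin_pi_div_two, sub_zero, ← Real.cosh_abs, abs_mul,
        abs_of_pos hpi, Real.cosh_eq]
      have b1 : Real.exp (-(Real.pi * |y|)) ≤ Real.exp (Real.pi * |y|) := by
        apply Real.exp_le_exp.2
        have := abs_nonneg y
        nlinarith
      have b2 : 1 ≤ Real.exp (Real.pi * |y|) := Real.one_le_exp (by positivity)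
      rw [one_mul, div_one]
      linarith
    have h2 : (φ (1 / 2)).re ≤ (1 - ‖g (1 / 2)‖) + 384 / N := by
      have e : φ (1 / 2) = ((1 - ‖g (1 / 2)‖ * Real.exp (-(192 / (1 + N))) : ℝ) : ℂ) := by
        simp only [hφ]
        rw [hg.sg_half, WN_half hN]
        push_cast
        congr 3
        ring
      rw [e, Complex.ofReal_re]
      have h3 := Real.add_one_le_exp (-(192 / (1 + N)))
      have h4 := hg.bd (1 / 2) (by rw [e3]; norm_num) (by rw [e3]; norm_num)
      have h5 : 0 ≤ ‖g (1 / 2)‖ := norm_nonneg _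
      have h6 : 192 / (1 + N) ≤ 192 / N := by gcongr; linarith
      have h7 : 0 ≤ 192 / (1 + N) := by positivity
      have h8 : ‖g (1 / 2)‖ * (192 / (1 + N)) ≤ 2 * (192 / N) := by
        apply mul_le_mul h4 h6 h7 (by norm_num)
      have h9 : ‖g (1 / 2)‖ * (-(192 / (1 + N)) + 1) ≤
          ‖g (1 / 2)‖ * Real.exp (-(192 / (1 + N))) := by gcongr
      have h10 : 2 * (192 / N) = 384 / N := by ring
      nlinarith
    have h0 : 0 ≤ (φ (1 / 2)).re := hre _ (by rw [e3]; norm_num) (by rw [e3]; norm_num)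
    have h3 := one_sub_sq_le (hn (1 / 2 + y * I) (by rw [e1]; norm_num) (by rw [e1]; norm_num))
    refine h3.trans ?_
    have h4 : (φ (1 / 2 + y * I)).re ≤ 4 * Real.exp (Real.pi * |y|) *
        ((1 - ‖g (1 / 2)‖) + 384 / N) := by
      refine key.trans ?_
      exact mul_le_mul hHK h2 h0 (by positivity)
    have h5 : (φ (1 / 2 + y * I)).re = (1 - (sg g : ℂ) * g (1 / 2 + y * I) *
      Complex.exp (-(96 * WN N (1 / 2 + y * I)))).re := rfl
    rw [← h5]
    linarith
  · intro z a b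
    apply DifferentiableAt.sub (differentiableAt_const _)
    apply DifferentiableAt.mul
    · exact (hg.diff z (by linarith) (by linarith)).const_mul _
    · exact (((WN_diff hN a.le b.le).const_mul 96).neg).cexp
  · intro z a b
    exact hre z a.le b.le

/-- **Lemma B.** -/
lemma Ev.mid (hN : 0 < N) (hg : Ev N g) {y D : ℝ} (hD : (1 - ‖g (1 / 2)‖) + 384 / N ≤ D)
    (hy : 192 * Real.exp (Real.pi * |y|) / N ≤ 1) :
    ‖(sg g : ℂ) * g (1 / 2 + y * I) - 1‖ ≤
      384 * Real.exp (Real.pi * |y|) / N + Real.sqrt (8 * Real.exp (Real.pi * |y|) * D) := by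
  have e1 : (1 / 2 + (y : ℂ) * I).re = 1 / 2 := by simp
  have e2 : (1 / 2 + (y : ℂ) * I).im = y := by simp
  set z : ℂ := 1 / 2 + y * I with hz
  have h1 := hg.harn hN y
  rw [← hz] at h1
  set w : ℂ := (sg g : ℂ) * g z * Complex.exp (-(96 * WN N z)) with hw
  have hw1 : ‖w‖ ≤ 1 := by
    rw [hw, mul_assoc, norm_mul, sg_norm, one_mul]
    exact hg.norm_le_one hN (by rw [e1]; norm_num) (by rw [e1]; norm_num)
  have h2 : (sg g : ℂ) * g z - 1 = w * (Complex.exp (96 * WN N z) - 1) + -(1 - w) := by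
    have : (sg g : ℂ) * g z = w * Complex.exp (96 * WN N z) := by
      rw [hw, mul_assoc, ← Complex.exp_add]; simp
    rw [this]; ring
  have h3 : ‖96 * WN N z‖ ≤ 192 * Real.exp (Real.pi * |y|) / N := by
    have := WN_norm_le hN (z := z) (by rw [e1]; norm_num) (by rw [e1]; norm_num)
    rw [e2] at this
    rw [norm_mul]
    have e : ‖(96 : ℂ)‖ = 96 := by simp
    rw [e]
    calc 96 * ‖WN N z‖ ≤ 96 * (2 * Real.exp (Real.pi * |y|) / N) := by gcongr
      _ = _ := by ring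
  have h4 := Complex.norm_exp_sub_one_le (h3.trans hy)
  have h5 : ‖1 - w‖ ≤ Real.sqrt (8 * Real.exp (Real.pi * |y|) * D) := by
    apply Real.le_sqrt_of_sq_le
    refine h1.trans ?_
    gcongr
  rw [h2]
  refine (norm_add_le _ _).trans ?_
  rw [norm_neg, norm_mul]
  have h6 : ‖w‖ * ‖Complex.exp (96 * WN N z) - 1‖ ≤ 1 * (2 * ‖96 * WN N z‖) := by
    gcongr
  have h7 : 384 * Real.exp (Real.pi * |y|) / N = 2 * (192 * Real.exp (Real.pi * |y|) / N) := by
    ring
  linarith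

end

end Crest.Agent.R158.Bd932
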