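import Mathlib
import Crest.Agent.R150.Om1_932

/-!
# Chirality by contour shift (helper932)

`f` analytic and bounded by `B` on `[-r, 1 + r] × [-V, V]`, antiperiodic up to `s`.  If `f` is at
most `X` on the segment `[0, 1] + i y0` then its growing mode is small:
`‖f (1/2) - i f 0‖ ≤ C (X e^{-π y0} + B e^{-3 π V} + s)`.
-/

open Complex Set MeasureTheory intervalIntegral
open scoped ComplexConjugate Interval

namespace Crest.Agent.R158.Bd932

/-- the shifted Fourier coefficient -/
lemma shift_coeff {f : ℂ → ℂ} {y0 s X : ℝ} (hy : 0 ≤ y0)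
    (hf : ∀ z : ℂ, 0 ≤ z.re → z.re ≤ 1 → 0 ≤ z.im → z.im ≤ y0 → DifferentiableAt ℂ f z)
    (hs : ∀ y : ℝ, 0 ≤ y → y ≤ y0 → ‖f (1 + y * I) + f (y * I)‖ ≤ s)
    (hX : ∀ x : ℝ, 0 ≤ x → x ≤ 1 → ‖f (x + y0 * I)‖ ≤ X) :
    ‖∫ x in (0 : ℝ)..1, f x * Complex.exp (I * Real.pi * x)‖ ≤
      X * Real.exp (-(Real.pi * y0)) + s := by
  have hpi := Real.pi_pos
  have hs0 : 0 ≤ s := (norm_nonneg _).trans (hs 0 le_rfl hy)
  set G : ℂ → ℂ := fun z => f z * Complex.exp (I * Real.pi * z) with hG
  have hGd : DifferentiableOn ℂ G ([[(0 : ℂ).re, (1 + y0 * I : ℂ).re]] ×ℂ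
      [[(0 : ℂ).im, (1 + y0 * I : ℂ).im]]) := by
    intro z hz
    have e1 : (1 + (y0 : ℂ) * I).re = 1 := by simp
    have e2 : (1 + (y0 : ℂ) * I).im = y0 := by simp
    rw [e1, e2, Complex.zero_re, Complex.zero_im, uIcc_of_le zero_le_one, uIcc_of_le hy,
      mem_reProdIm] at hz
    apply DifferentiableAt.differentiableWithinAt
    apply DifferentiableAt.mul (hf z hz.1.1 hz.1.2 hz.2.1 hz.2.2)
    fun_prop
  have key := Complex.integral_boundary_rect_eq_zero_of_differentiableOn G 0 (1 + y0 * I) hGd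
  have e1 : (1 + (y0 : ℂ) * I).re = 1 := by simp
  have e2 : (1 + (y0 : ℂ) * I).im = y0 := by simp
  rw [e1, e2, Complex.zero_re, Complex.zero_im] at key
  simp only [Complex.ofReal_zero, zero_mul, add_zero, zero_add, Complex.ofReal_one,
    smul_eq_mul] at key
  -- continuity along the vertical sides
  have hc1 : ContinuousOn (fun y : ℝ => G (1 + y * I)) [[0, y0]] := by
    intro y hy'
    rw [uIcc_of_le hy] at hy'
    apply ContinuousAt.continuousWithinAt
    have h1 : DifferentiableAt ℂ G (1 + y * I) := by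
      apply DifferentiableAt.mul (hf _ (by simp) (by simp) (by simpa using hy'.1)
        (by simpa using hy'.2))
      fun_prop
    exact ContinuousAt.comp (f := fun y : ℝ => (1 : ℂ) + y * I) (g := G) h1.continuousAt
      (by fun_prop)
  have hc0 : ContinuousOn (fun y : ℝ => G (y * I)) [[0, y0]] := by
    intro y hy'
    rw [uIcc_of_le hy] at hy'
    apply ContinuousAt.continuousWithinAt
    have h1 : DifferentiableAt ℂ G (y * I) := by
      apply DifferentiableAt.mul (hf _ (by simp) (by simp) (by simpa using hy'.1)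
        (by simpa using hy'.2))
      fun_prop
    exact ContinuousAt.comp (f := fun y : ℝ => (y : ℂ) * I) (g := G) h1.continuousAt
      (by fun_prop)
  have hsplit : (∫ x in (0 : ℝ)..1, G x) = (∫ x in (0 : ℝ)..1, G (x + y0 * I))
      - I * ∫ y in (0 : ℝ)..y0, (G (1 + y * I) - G (y * I)) := by
    rw [intervalIntegral.integral_sub hc1.intervalIntegrable hc0.intervalIntegrable]
    linear_combination key
  have hA : ‖∫ x in (0 : ℝ)..1, G (x + y0 * I)‖ ≤ X * Real.exp (-(Real.pi * y0)) := by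
    have := intervalIntegral.norm_integral_le_of_norm_le_const (a := (0 : ℝ)) (b := 1)
      (f := fun x : ℝ => G (x + y0 * I)) (C := X * Real.exp (-(Real.pi * y0))) ?_
    · simpa using this
    · intro x hx
      rw [uIoc_of_le zero_le_one] at hx
      rw [hG]
      simp only
      rw [norm_mul, Complex.norm_exp]
      have e : (I * Real.pi * ((x : ℂ) + y0 * I)).re = -(Real.pi * y0) := by simp
      rw [e]
      have := hX x hx.1.le hx.2
      gcongr
  have hB : ‖∫ y in (0 : ℝ)..y0, (G (1 + y * I) - G (y * I))‖ ≤ s := by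
    have h1 : ∀ y ∈ Ioc (0 : ℝ) y0, ‖G (1 + y * I) - G (y * I)‖ ≤ s * Real.exp (-(Real.pi * y)) := by
      intro y hy'
      have e0 : Complex.exp (I * Real.pi * (1 + (y : ℂ) * I)) =
          -Complex.exp (I * Real.pi * ((y : ℂ) * I)) := by
        rw [mul_add, Complex.exp_add, mul_one, mul_comm I (Real.pi : ℂ), Complex.exp_pi_mul_I]
        ring
      have e : G (1 + y * I) - G (y * I) =
          -((f (1 + y * I) + f (y * I)) * Complex.exp (I * Real.pi * ((y : ℂ) * I))) := by
        rw [hG]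
        simp only
        rw [e0]
        ring
      rw [e, norm_neg, norm_mul, Complex.norm_exp]
      have e3 : (I * Real.pi * ((y : ℂ) * I)).re = -(Real.pi * y) := by simp
      rw [e3]
      have := hs y hy'.1.le hy'.2
      gcongr
    have h2 : ‖∫ y in (0 : ℝ)..y0, (G (1 + y * I) - G (y * I))‖ ≤
        ∫ y in (0 : ℝ)..y0, s * Real.exp (-(Real.pi * y)) := by
      apply intervalIntegral.norm_integral_le_of_norm_le hy
      · filter_upwards with y hy'
        exact h1 y hy'
      · apply Continuous.intervalIntegrable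
        fun_prop
    refine h2.trans ?_
    have h3 : ∫ y in (0 : ℝ)..y0, s * Real.exp (-(Real.pi * y)) =
        s * ((1 - Real.exp (-(Real.pi * y0))) / Real.pi) := by
      rw [intervalIntegral.integral_const_mul]
      congr 1
      have h4 : ∀ y ∈ uIcc (0 : ℝ) y0, HasDerivAt (fun y => -(Real.exp (-(Real.pi * y)) / Real.pi))
          (Real.exp (-(Real.pi * y))) y := by
        intro y _
        have h5 : HasDerivAt (fun y : ℝ => -(Real.pi * y)) (-Real.pi) y := by
          have h := (hasDerivAt_id y).const_mul (-Real.pi)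
          rw [mul_one] at h
          refine h.congr_of_eventuallyEq ?_
          filter_upwards with t
          simp
        have h6 : HasDerivAt (fun y => -(Real.exp (-(Real.pi * y)) / Real.pi))
            (-(Real.exp (-(Real.pi * y)) * -Real.pi / Real.pi)) y :=
          (h5.exp.div_const Real.pi).neg
        rwa [mul_neg, neg_div, neg_neg, mul_div_assoc, div_self hpi.ne', mul_one] at h6
      rw [intervalIntegral.integral_eq_sub_of_hasDerivAt h4
        (Continuous.intervalIntegrable (by fun_prop) _ _)]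
      simp
      ring
    rw [h3]
    have h7 : (1 - Real.exp (-(Real.pi * y0))) / Real.pi ≤ 1 := by
      rw [div_le_one hpi]
      have := Real.exp_pos (-(Real.pi * y0))
      have := Real.pi_gt_three
      linarith
    nlinarith
  rw [show (∫ x in (0 : ℝ)..1, f x * Complex.exp (I * Real.pi * x)) = ∫ x in (0 : ℝ)..1, G x from rfl,
    hsplit]
  refine (norm_sub_le _ _).trans ?_
  rw [norm_mul, Complex.norm_I, one_mul]
  linarith

lemma int_exp_two : ∫ x in (0 : ℝ)..1, Complex.exp (2 * (I * Real.pi * x)) = 0 := by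
  have hpi : (Real.pi : ℂ) ≠ 0 := by exact_mod_cast Real.pi_ne_zero
  have hne : (2 * (I * Real.pi) : ℂ) ≠ 0 := by
    simp [hpi]
  have h := integral_exp_mul_complex (a := 0) (b := 1) hne
  have e : (fun x : ℝ => Complex.exp (2 * (I * Real.pi * x))) =
      fun x : ℝ => Complex.exp (2 * (I * Real.pi) * x) := by
    funext x; congr 1; ring
  rw [e, h]
  have : Complex.exp (2 * (I * Real.pi) * ((1 : ℝ) : ℂ)) = 1 := by
    rw [Complex.ofReal_one, mul_one, show 2 * (I * Real.pi) = 2 * Real.pi * I by ring,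
      Complex.exp_two_pi_mul_I]
  rw [this]
  simp

/-- **Chirality**, upper half plane small. -/
theorem chiral43 {r : ℝ} (hr : 0 < r) (hr2 : r ≤ 1 / 4) :
    ∃ C : ℝ, 0 < C ∧ ∀ V : ℝ, 2 ≤ V → ∀ (f : ℂ → ℂ) (B s X y0 : ℝ), 0 ≤ B → 0 ≤ s →
      0 ≤ y0 → y0 ≤ V →
      (∀ z : ℂ, -r ≤ z.re → z.re ≤ 1 + r → |z.im| ≤ V → DifferentiableAt ℂ f z ∧ ‖f z‖ ≤ B) →
      (∀ z : ℂ, |z.re| ≤ r → |z.im| ≤ V → ‖f (z + 1) + f z‖ ≤ s) →
      (∀ x : ℝ, 0 ≤ x → x ≤ 1 → ‖f (x + y0 * I)‖ ≤ X) →
      ‖f (1 / 2) - I * f 0‖ ≤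
        C * (X * Real.exp (-(Real.pi * y0)) + B * Real.exp (-(3 * Real.pi * V)) + s) := by
  have hpi := Real.pi_pos
  obtain ⟨C1, hC1, H⟩ := Crest.Agent.R150.Om932.one_mode hr hr2
  refine ⟨2 + 3 * C1, by positivity, ?_⟩
  intro V hV f B s X y0 hB hs hy0 hy0V hf he hX
  have H' := H V hV f B s hB hs hf (by
    intro z h1 h2
    refine (he z h1 h2).trans ?_
    have : 0 ≤ B * Real.exp (-(4 * Real.pi * (V - |z.im|))) := by positivity
    linarith)
  set α : ℂ := f 0 with hα
  set β : ℂ := deriv f 0 / Real.pi with hβ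
  set T : ℝ := B * Real.exp (-(3 * Real.pi * V)) + s with hT
  have hT0 : 0 ≤ T := by positivity
  set E : ℂ → ℂ := fun z => f z - α * Complex.cos (Real.pi * z) - β * Complex.sin (Real.pi * z)
    with hE
  have hEb : ∀ x : ℝ, 0 ≤ x → x ≤ 1 → ‖E x‖ ≤ C1 * T := by
    intro x h0 h1
    have := H' (x : ℂ) (by simp; linarith) (by simp; linarith) (by simp; linarith)
    simpa using this
  -- the coefficient
  have hX0 : 0 ≤ X := (norm_nonneg _).trans (hX 0 le_rfl zero_le_one)
  have hI := shift_coeff (f := f) (s := s) hy0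
    (fun z a b c d => (hf z (by linarith) (by linarith) (by rw [abs_of_nonneg c]; linarith)).1)
    (fun y a b => by
      have := he (y * I) (by simp; exact hr.le) (by simp; rw [abs_of_nonneg a]; linarith)
      rwa [add_comm ((y : ℂ) * I) 1] at this)
    hX
  have hcont : ContinuousOn (fun x : ℝ => f x) [[0, 1]] := by
    intro x hx
    rw [uIcc_of_le zero_le_one] at hx
    apply ContinuousAt.continuousWithinAt
    have h1 := (hf (x : ℂ) (by simp; linarith [hx.1]) (by simp; linarith [hx.2])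
      (by simp; linarith)).1
    exact ContinuousAt.comp (f := fun y : ℝ => (y : ℂ)) (g := f) h1.continuousAt (by fun_prop)
  have hcE : ContinuousOn (fun x : ℝ => E x) [[0, 1]] := by
    rw [hE]
    apply ContinuousOn.sub
    · apply ContinuousOn.sub hcont
      fun_prop
    · fun_prop
  have hcoef : ∫ x in (0 : ℝ)..1, f x * Complex.exp (I * Real.pi * x) =
      (α + I * β) / 2 + ∫ x in (0 : ℝ)..1, E x * Complex.exp (I * Real.pi * x) := by
    have e : ∀ x : ℝ, f x * Complex.exp (I * Real.pi * x) =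
        ((α + I * β) / 2 + (α - I * β) / 2 * Complex.exp (2 * (I * Real.pi * x))) +
          E x * Complex.exp (I * Real.pi * x) := by
      intro x
      have h1 : Complex.exp (2 * (I * Real.pi * x)) =
          Complex.exp (I * Real.pi * x) * Complex.exp (I * Real.pi * x) := by
        rw [← Complex.exp_add]; congr 1; ring
      have h2 : Complex.exp (-(I * Real.pi * x)) * Complex.exp (I * Real.pi * x) = 1 := by
        rw [← Complex.exp_add]; simp
      have h3 : Complex.cos (Real.pi * x) =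
          (Complex.exp (I * Real.pi * x) + Complex.exp (-(I * Real.pi * x))) / 2 := by
        rw [Complex.cos]; congr 3 <;> ring_nf
      have h4 : Complex.sin (Real.pi * x) =
          (Complex.exp (-(I * Real.pi * x)) - Complex.exp (I * Real.pi * x)) * I / 2 := by
        rw [Complex.sin]; congr 4 <;> ring_nf
      rw [hE]
      simp only
      rw [h1, h3, h4]
      linear_combination ((α + I * β) / 2) * h2
    have hi1 : IntervalIntegrable (fun x : ℝ => (α + I * β) / 2 + (α - I * β) / 2 *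
        Complex.exp (2 * (I * Real.pi * x))) volume 0 1 :=
      Continuous.intervalIntegrable (by fun_prop) _ _
    have hi2 : IntervalIntegrable (fun x : ℝ => E x * Complex.exp (I * Real.pi * x)) volume 0 1 :=
      (hcE.mul (by fun_prop)).intervalIntegrable
    rw [intervalIntegral.integral_congr (fun x _ => e x), intervalIntegral.integral_add hi1 hi2,
      intervalIntegral.integral_add (Continuous.intervalIntegrable (by fun_prop) _ _)
        (Continuous.intervalIntegrable (by fun_prop) _ _),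
      intervalIntegral.integral_const_mul, int_exp_two]
    simp
  have hEi : ‖∫ x in (0 : ℝ)..1, E x * Complex.exp (I * Real.pi * x)‖ ≤ C1 * T := by
    have := intervalIntegral.norm_integral_le_of_norm_le_const (a := (0 : ℝ)) (b := 1)
      (f := fun x : ℝ => E x * Complex.exp (I * Real.pi * x)) (C := C1 * T) ?_
    · simpa using this
    · intro x hx
      rw [uIoc_of_le zero_le_one] at hx
      rw [norm_mul, Complex.norm_exp]
      have e : (I * Real.pi * (x : ℂ)).re = 0 := by simp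
      rw [e, Real.exp_zero, mul_one]
      exact hEb x hx.1.le hx.2
  have hb : ‖(α + I * β) / 2‖ ≤ X * Real.exp (-(Real.pi * y0)) + s + C1 * T := by
    have e : (α + I * β) / 2 = (∫ x in (0 : ℝ)..1, f x * Complex.exp (I * Real.pi * x))
        - ∫ x in (0 : ℝ)..1, E x * Complex.exp (I * Real.pi * x) := by
      rw [hcoef]; ring
    rw [e]
    exact (norm_sub_le _ _).trans (by linarith)
  have hhalf : f (1 / 2) = β + E (1 / 2) := by
    rw [hE]
    simp only
    have h1 : (Real.pi : ℂ) * (1 / 2) = Real.pi / 2 := by ring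
    rw [h1, Complex.cos_pi_div_two, Complex.sin_pi_div_two]
    ring
  have hEh : ‖E (1 / 2)‖ ≤ C1 * T := by
    have := hEb (1 / 2) (by norm_num) (by norm_num)
    simpa using this
  have hfin : f (1 / 2) - I * f 0 = -(2 * I) * ((α + I * β) / 2) + E (1 / 2) := by
    rw [hhalf, ← hα]
    linear_combination β * Complex.I_sq
  rw [hfin]
  refine (norm_add_le _ _).trans ?_
  rw [norm_mul, norm_neg, norm_mul, Complex.norm_I, mul_one]
  have e2 : ‖(2 : ℂ)‖ = 2 := by simp
  rw [e2]
  have hXe : 0 ≤ X * Real.exp (-(Real.pi * y0)) := by positivity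
  have hBe : 0 ≤ B * Real.exp (-(3 * Real.pi * V)) := by positivity
  calc 2 * ‖(α + I * β) / 2‖ + ‖E (1 / 2)‖
      ≤ 2 * (X * Real.exp (-(Real.pi * y0)) + s + C1 * T) + C1 * T := by gcongr
    _ ≤ (2 + 3 * C1) * (X * Real.exp (-(Real.pi * y0)) + B * Real.exp (-(3 * Real.pi * V)) + s) := by
        rw [hT]
        nlinarith [mul_nonneg hC1.le hXe, mul_nonneg hC1.le hBe, mul_nonneg hC1.le hs]

/-- **Chirality**, lower half plane small. -/
theorem chiral43' {r : ℝ} (hr : 0 < r) (hr2 : r ≤ 1 / 4) :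
    ∃ C : ℝ, 0 < C ∧ ∀ V : ℝ, 2 ≤ V → ∀ (f : ℂ → ℂ) (B s X y0 : ℝ), 0 ≤ B → 0 ≤ s →
      0 ≤ y0 → y0 ≤ V →
      (∀ z : ℂ, -r ≤ z.re → z.re ≤ 1 + r → |z.im| ≤ V → DifferentiableAt ℂ f z ∧ ‖f z‖ ≤ B) →
      (∀ z : ℂ, |z.re| ≤ r → |z.im| ≤ V → ‖f (z + 1) + f z‖ ≤ s) →
      (∀ x : ℝ, 0 ≤ x → x ≤ 1 → ‖f (x - y0 * I)‖ ≤ X) →
      ‖f (1 / 2) + I * f 0‖ ≤
        C * (X * Real.exp (-(Real.pi * y0)) + B * Real.exp (-(3 * Real.pi * V)) + s) := by
  obtain ⟨C, hC, H⟩ := chiral43 hr hr2
  refine ⟨C, hC, ?_⟩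
  intro V hV f B s X y0 hB hs hy0 hy0V hf he hX
  have h := H V hV (fun z => conj (f (conj z))) B s X y0 hB hs hy0 hy0V ?_ ?_ ?_
  · have e1 : conj (1 / 2 : ℂ) = 1 / 2 := by
      simp only [map_div₀, map_one, Complex.conj_ofNat]
    simp only [e1, map_zero] at h
    have e2 : conj (f (1 / 2)) - I * conj (f 0) = conj (f (1 / 2) + I * f 0) := by
      rw [map_add, map_mul, Complex.conj_I]; ring
    rw [e2, RCLike.norm_conj] at h
    exact h
  · intro z h1 h2 h3
    have h4 := hf (conj z) (by simpa using h1) (by simpa using h2) (by simpa using h3)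
    refine ⟨?_, ?_⟩
    · have h5 := DifferentiableAt.conj_conj h4.1
      rw [Complex.conj_conj] at h5
      exact h5
    · rw [RCLike.norm_conj]; exact h4.2
  · intro z h1 h2
    have h3 := he (conj z) (by simpa using h1) (by simpa using h2)
    rw [← map_add, RCLike.norm_conj, map_add, map_one]
    exact h3
  · intro x h0 h1
    rw [RCLike.norm_conj, map_add, Complex.conj_ofReal, map_mul, Complex.conj_ofReal,
      Complex.conj_I, mul_neg, ← sub_eq_add_neg]
    exact hX x h0 h1

/-- 857's interface -/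
def Chi43 (r C : ℝ) : Prop := ∀ V y0 : ℝ, 2 ≤ V → 0 ≤ y0 → y0 ≤ V - 1 →
  ∀ (f : ℂ → ℂ) (B X s : ℝ), 0 ≤ B → 0 ≤ s →
    (∀ z : ℂ, -r ≤ z.re → z.re ≤ 1 + r → |z.im| ≤ V → DifferentiableAt ℂ f z ∧ ‖f z‖ ≤ B) →
    (∀ z : ℂ, |z.re| ≤ r → |z.im| ≤ V → ‖f (z + 1) + f z‖ ≤ s) →
    (∀ x : ℝ, 0 ≤ x → x ≤ 1 → ‖f (x + y0 * I)‖ ≤ X) →
    ‖f (1 / 2) - I * f 0‖ ≤
      C * (X * Real.exp (-(Real.pi * y0)) + B * Real.exp (-(3 * Real.pi * V)) + s * (1 + V))

theorem chi43_of {r : ℝ} (hr : 0 < r) (hr2 : r ≤ 1 / 4) : ∃ C : ℝ, 0 < C ∧ Chi43 r C := by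
  obtain ⟨C, hC, H⟩ := chiral43 hr hr2
  refine ⟨C, hC, ?_⟩
  intro V y0 hV hy0 hy0V f B X s hB hs hf he hX
  refine (H V hV f B s X y0 hB hs hy0 (by linarith) hf he hX).trans ?_
  have : s ≤ s * (1 + V) := by nlinarith
  gcongr

end Crest.Agent.R158.Bd932
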