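import Mathlib
import Crest.Agent.R150.Vt1_970

/-!
# Band theorem, the instance at crossing parameter `π / 3` (helper932)

* `Mh M x d t` : monodromy blocks in percolation normalisation, `‖Mh M x d t‖ ≤ 1` on the closed
  strip `0 ≤ Re x ≤ 1` (`l²` operator norm)
* `That M c x` : twisted transfer matrix in percolation normalisation
-/

set_option autoImplicit false

noncomputable section

open Matrix Finset
open scoped Matrix.Norms.L2Operator
open Crest.Agent.R150.Base357 Crest.Agent.R150.Fus932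
open Crest.Agent.R150.Unit961
open Crest.Agent.R150.Gap970 Crest.Agent.R150.Ham970 Crest.Agent.R150.Vt970

namespace Crest.Agent.R158.Bd932

/-- the crossing parameter -/
def e3 : ℝ := Real.pi / 3

lemma e3_pos : 0 < e3 := by unfold e3; positivity

lemma e3_ne : e3 ≠ 0 := e3_pos.ne'

/-! ### the weights in the strip -/

lemma SS_e3 (x : ℂ) : SS (e3 : ℂ) x = Complex.sin (e3 * x) / e3 := by
  unfold SS
  rw [if_neg]
  exact_mod_cast e3_ne

lemma sr_e3 (t : ℝ) : sr e3 t = Real.sin (e3 * t) / e3 := by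
  rw [sr, SS_e3, ← Complex.ofReal_mul, ← Complex.ofReal_sin, ← Complex.ofReal_div,
    Complex.ofReal_re]

lemma SS_two_add (x : ℂ) : SS (e3 : ℂ) (1 + (1 + x)) = SS (e3 : ℂ) (1 - x) := by
  rw [SS_e3, SS_e3]
  congr 1
  have h : (e3 : ℂ) * (1 + (1 + x)) = Real.pi - e3 * (1 - x) := by
    unfold e3; push_cast; ring
  rw [h, Complex.sin_pi_sub]

lemma sin_up {t : ℝ} (h0 : 0 ≤ t) (h1 : t ≤ 1) :
    Real.sin (e3 * (1 - t)) ≤ Real.sin (e3 * (1 + t)) := by
  have hpi := Real.pi_pos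
  have h : Real.sin (e3 * (1 + t)) - Real.sin (e3 * (1 - t)) = Real.sin (e3 * t) := by
    have e : e3 * (1 + t) = e3 + e3 * t := by ring
    have e' : e3 * (1 - t) = e3 - e3 * t := by ring
    rw [e, e', Real.sin_add, Real.sin_sub, show e3 = Real.pi / 3 from rfl, Real.cos_pi_div_three]
    ring
  have h2 : 0 ≤ Real.sin (e3 * t) := by
    apply Real.sin_nonneg_of_nonneg_of_le_pi
    · have := e3_pos; positivity
    · unfold e3; nlinarith
  linarith

lemma sin_lo {t : ℝ} (h0 : 0 ≤ t) (h1 : t ≤ 1) :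
    Real.sin (e3 * t) ≤ Real.sin (e3 * (1 + t)) := by
  have := sin_up (t := 1 - t) (by linarith) (by linarith)
  have e : e3 * (1 - (1 - t)) = e3 * t := by ring
  have e' : e3 * (1 + (1 - t)) = Real.pi - e3 * (1 + t) := by unfold e3; ring
  rwa [e, e', Real.sin_pi_sub] at this

lemma sin_one {t : ℝ} (h0 : 0 ≤ t) (h1 : t ≤ 1) :
    Real.sin (e3 * 1) ≤ Real.sin (e3 * (1 + t)) := by
  have hpi := Real.pi_pos
  have e : e3 * (1 + t) = e3 + e3 * t := by ring
  have h3 : Real.sin e3 = Real.sqrt 3 / 2 := by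
    rw [show e3 = Real.pi / 3 from rfl, Real.sin_pi_div_three]
  have h4 : Real.cos e3 = 1 / 2 := by
    rw [show e3 = Real.pi / 3 from rfl, Real.cos_pi_div_three]
  rw [mul_one, e, Real.sin_add, h3, h4]
  -- `√3/2 (1 - cos u) ≤ sin u / 2`
  have hu0 : 0 ≤ e3 * t := by have := e3_pos; positivity
  have hu1 : e3 * t ≤ Real.pi / 3 := by unfold e3; nlinarith
  have h5 : 0 ≤ Real.sin (Real.pi / 3 - e3 * t / 2) := by
    apply Real.sin_nonneg_of_nonneg_of_le_pi <;> linarith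
  have h6 : 0 ≤ Real.cos (Real.pi / 3 + e3 * t / 2) := by
    apply Real.cos_nonneg_of_neg_pi_div_two_le_of_le <;> linarith
  have h7 : 0 ≤ Real.sin (e3 * t / 2) := by
    apply Real.sin_nonneg_of_nonneg_of_le_pi <;> linarith
  have h8 : Real.cos (e3 * t) = 1 - 2 * Real.sin (e3 * t / 2) ^ 2 := by
    have := Real.cos_two_mul (e3 * t / 2)
    have h9 := Real.sin_sq_add_cos_sq (e3 * t / 2)
    rw [show 2 * (e3 * t / 2) = e3 * t by ring] at this
    nlinarith
  have h9 : Real.sin (e3 * t) = 2 * Real.sin (e3 * t / 2) * Real.cos (e3 * t / 2) := by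
    have := Real.sin_two_mul (e3 * t / 2)
    rwa [show 2 * (e3 * t / 2) = e3 * t by ring] at this
  rw [Real.cos_add, Real.cos_pi_div_three, Real.sin_pi_div_three] at h6
  rw [h8, h9]
  nlinarith [mul_nonneg h7 h6]

lemma sr_nonneg {t : ℝ} (h0 : 0 ≤ t) (h1 : t ≤ 3) : 0 ≤ sr e3 t := by
  rw [sr_e3]
  apply div_nonneg _ e3_pos.le
  apply Real.sin_nonneg_of_nonneg_of_le_pi
  · have := e3_pos; positivity
  · unfold e3; have := Real.pi_pos; nlinarith

lemma norm_SS_sq (x : ℂ) : ‖SS (e3 : ℂ) x‖ ^ 2 = sr e3 x.re ^ 2 + shy e3 x.im ^ 2 := by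
  have := normSq_SS e3 x.re x.im
  rwa [Complex.re_add_im] at this

lemma norm_SS_mono {x y : ℂ} (h : 0 ≤ sr e3 x.re) (h1 : sr e3 x.re ≤ sr e3 y.re)
    (h2 : shy e3 x.im ^ 2 ≤ shy e3 y.im ^ 2) : ‖SS (e3 : ℂ) x‖ ≤ ‖SS (e3 : ℂ) y‖ := by
  apply le_of_sq_le_sq _ (norm_nonneg _)
  rw [norm_SS_sq, norm_SS_sq]
  nlinarith

variable {x : ℂ}

lemma a_le (h0 : 0 ≤ x.re) (h1 : x.re ≤ 1) : ‖SS (e3 : ℂ) (1 - x)‖ ≤ ‖SS (e3 : ℂ) (1 + x)‖ := by
  apply norm_SS_mono
  · apply sr_nonneg <;> simp <;> linarith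
  · rw [sr_e3, sr_e3]
    apply div_le_div_of_nonneg_right _ e3_pos.le
    simpa using sin_up h0 h1
  · simp only [Complex.sub_im, Complex.one_im, Complex.add_im, zero_sub, zero_add]
    rw [shy_neg]

lemma b_le (h0 : 0 ≤ x.re) (h1 : x.re ≤ 1) : ‖SS (e3 : ℂ) x‖ ≤ ‖SS (e3 : ℂ) (1 + x)‖ := by
  apply norm_SS_mono
  · apply sr_nonneg <;> linarith
  · rw [sr_e3, sr_e3]
    apply div_le_div_of_nonneg_right _ e3_pos.le
    simpa using sin_lo h0 h1
  · simp

lemma c_le (h0 : 0 ≤ x.re) (h1 : x.re ≤ 1) : ‖SS (e3 : ℂ) 1‖ ≤ ‖SS (e3 : ℂ) (1 + x)‖ := by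
  apply norm_SS_mono
  · apply sr_nonneg <;> simp
  · rw [sr_e3, sr_e3]
    apply div_le_div_of_nonneg_right _ e3_pos.le
    simpa using sin_one h0 h1
  · simp only [Complex.one_im, Complex.add_im, zero_add]
    have h0 : shy e3 0 = 0 := by simp [shy]
    rw [h0]
    have := sq_nonneg (shy e3 x.im)
    simpa using this

lemma sr_one_pos : 0 < sr e3 1 := by
  rw [sr_e3]
  apply div_pos _ e3_pos
  apply Real.sin_pos_of_pos_of_lt_pi
  · rw [mul_one]; exact e3_pos
  · unfold e3; have := Real.pi_pos; linarith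

lemma SS_one_pos : 0 < ‖SS (e3 : ℂ) 1‖ := by
  have h := norm_SS_sq 1
  have h2 := sr_one_pos
  have h3 : 0 < ‖SS (e3 : ℂ) 1‖ ^ 2 := by
    rw [h, Complex.one_re]
    positivity
  by_contra h4
  have h5 : ‖SS (e3 : ℂ) 1‖ = 0 := le_antisymm (not_lt.1 h4) (norm_nonneg _)
  rw [h5] at h3
  norm_num at h3

lemma S1_pos (h0 : 0 ≤ x.re) (h1 : x.re ≤ 1) : 0 < ‖SS (e3 : ℂ) (1 + x)‖ :=
  SS_one_pos.trans_le (c_le h0 h1)

lemma S1_ne (h0 : 0 ≤ x.re) (h1 : x.re ≤ 1) : SS (e3 : ℂ) (1 + x) ≠ 0 :=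
  norm_pos_iff.1 (S1_pos h0 h1)

/-! ### monodromy blocks -/

lemma prod_entry_le {n : ℕ} (A : Fin n → Matrix Bool Bool ℂ) {K : ℝ} (hK : 0 ≤ K)
    (h : ∀ j d t, ‖A j d t‖ ≤ K) (d t : Bool) : ‖(List.ofFn A).prod d t‖ ≤ (2 * K) ^ n := by
  induction n generalizing d t with
  | zero =>
    simp only [List.ofFn_zero, List.prod_nil, Matrix.one_apply, pow_zero]
    split_ifs <;> simp
  | succ n ih =>
    rw [List.ofFn_succ, List.prod_cons, Matrix.mul_apply]
    refine (norm_sum_le _ _).trans ?_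
    rw [Fintype.sum_bool]
    have h1 : ∀ k : Bool, ‖A 0 d k * (List.ofFn fun i : Fin n => A i.succ).prod k t‖ ≤
        K * (2 * K) ^ n := by
      intro k
      rw [norm_mul]
      exact mul_le_mul (h 0 d k) (ih _ (fun j => h j.succ) k t) (norm_nonneg _) hK
    have := h1 true
    have := h1 false
    rw [pow_succ]
    linarith

lemma LL_entry_le {a b c : ℂ} {K : ℝ} (hK : 0 ≤ K) (ha : ‖a‖ ≤ K) (hb : ‖b‖ ≤ K)
    (hc : ‖c‖ ≤ K) (l r d t : Bool) : ‖LL a b c l r d t‖ ≤ K := by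
  simp only [LL_apply, wt]
  split_ifs <;> simp [*]

lemma mon_entry_le (h0 : 0 ≤ x.re) (h1 : x.re ≤ 1) {M : ℕ} (d t : Bool) (s s' : Fin M → Bool) :
    ‖mon (e3 : ℂ) (fun _ : Fin M => 0) x d t s s'‖ ≤ (2 * ‖SS (e3 : ℂ) (1 + x)‖) ^ M := by
  unfold mon
  rw [Matrix.of_apply]
  apply prod_entry_le _ (norm_nonneg _)
  intro j d t
  rw [sub_zero]
  exact LL_entry_le (norm_nonneg _) (a_le h0 h1) (b_le h0 h1) (c_le h0 h1) _ _ _ _

lemma SS_diff (z : ℂ) : DifferentiableAt ℂ (fun z => SS (e3 : ℂ) z) z := by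
  have : (fun z => SS (e3 : ℂ) z) = fun z => Complex.sin (e3 * z) / e3 := by
    funext z; exact SS_e3 z
  rw [this]
  fun_prop

lemma prod_entry_diff {n : ℕ} (A : ℂ → Fin n → Matrix Bool Bool ℂ)
    (h : ∀ j d t, Differentiable ℂ (fun z => A z j d t)) (d t : Bool) :
    Differentiable ℂ (fun z => (List.ofFn (A z)).prod d t) := by
  induction n generalizing d t with
  | zero =>
    simp only [List.ofFn_zero, List.prod_nil]
    exact differentiable_const _
  | succ n ih =>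
    simp only [List.ofFn_succ, List.prod_cons, Matrix.mul_apply, Fintype.sum_bool]
    apply Differentiable.add
    · exact (h 0 d true).mul (ih (fun z j => A z j.succ) (fun j => h j.succ) true t)
    · exact (h 0 d false).mul (ih (fun z j => A z j.succ) (fun j => h j.succ) false t)

lemma mon_diff {M : ℕ} (d t : Bool) (s s' : Fin M → Bool) :
    Differentiable ℂ (fun z => mon (e3 : ℂ) (fun _ : Fin M => 0) z d t s s') := by
  unfold mon
  simp only [Matrix.of_apply]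
  apply prod_entry_diff
  intro j d t z
  simp only [LL_apply, wt, trigW, sub_zero]
  split_ifs
  · exact (SS_diff (1 - z)).comp z (by fun_prop)
  · exact SS_diff z
  · exact differentiableAt_const _
  · exact differentiableAt_const _

/-- monodromy blocks, percolation normalisation -/
def Mh (M : ℕ) (x : ℂ) (d t : Bool) : Matrix (Fin M → Bool) (Fin M → Bool) ℂ :=
  (SS (e3 : ℂ) (1 + x) ^ M)⁻¹ • mon (e3 : ℂ) (fun _ : Fin M => 0) x d t

lemma l2_of_opBd {n : Type*} [Fintype n] [DecidableEq n] {A : Matrix n n ℂ} {C : ℝ}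
    (hC : 0 ≤ C) (h : OpBd A C) : ‖A‖ ≤ C := by
  rw [Matrix.l2_opNorm_def]
  apply ContinuousLinearMap.opNorm_le_bound _ hC
  intro x
  have h1 := h x
  rw [EuclideanSpace.norm_eq, EuclideanSpace.norm_eq]
  have h2 : Real.sqrt (∑ i, ‖(A *ᵥ x) i‖ ^ 2) ≤ C * Real.sqrt (∑ i, ‖x i‖ ^ 2) := by
    rw [← Real.sqrt_sq hC, ← Real.sqrt_mul (sq_nonneg C)]
    exact Real.sqrt_le_sqrt h1
  exact h2

theorem Mh_opBd (M : ℕ) (h0 : 0 ≤ x.re) (h1 : x.re ≤ 1) (d t : Bool) : OpBd (Mh M x d t) 1 := by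
  refine OpBd.of_form zero_le_one fun φ ψ => ?_
  rw [one_mul]
  set Sφ := Real.sqrt (∑ i, ‖φ i‖ ^ 2) with hSφ
  set Sψ := Real.sqrt (∑ i, ‖ψ i‖ ^ 2) with hSψ
  set F : ℂ → ℂ := fun z => star φ ⬝ᵥ (Mh M z d t *ᵥ ψ) with hF
  have hFe : ∀ z, F z = ∑ i, ∑ j, star (φ i) * ((SS (e3 : ℂ) (1 + z) ^ M)⁻¹ *
      mon (e3 : ℂ) (fun _ : Fin M => 0) z d t i j * ψ j) := by
    intro z
    simp only [hF, dotProduct, Matrix.mulVec, Finset.mul_sum, Mh, Matrix.smul_apply, smul_eq_mul,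
      Pi.star_apply]
  have hd : ∀ z : ℂ, 0 ≤ z.re → z.re ≤ 1 → DifferentiableAt ℂ F z := by
    intro z a b
    have : F = fun z => ∑ i, ∑ j, star (φ i) * ((SS (e3 : ℂ) (1 + z) ^ M)⁻¹ *
      mon (e3 : ℂ) (fun _ : Fin M => 0) z d t i j * ψ j) := by
      funext z; exact hFe z
    rw [this]
    apply DifferentiableAt.fun_sum
    intro i _
    apply DifferentiableAt.fun_sum
    intro j _
    apply DifferentiableAt.const_mul
    apply DifferentiableAt.mul_const
    apply DifferentiableAt.mul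
    · apply DifferentiableAt.inv
      · apply DifferentiableAt.pow
        exact (SS_diff (1 + z)).comp z (by fun_prop)
      · exact pow_ne_zero _ (S1_ne a b)
    · exact mon_diff d t i j z
  have hline : ∀ z : ℂ, (z.re = 0 ∨ z.re = 1) → ‖F z‖ ≤ Sφ * Sψ := by
    intro z hz
    have hzr : 0 ≤ z.re ∧ z.re ≤ 1 := by rcases hz with h | h <;> rw [h] <;> norm_num
    have hp := S1_pos hzr.1 hzr.2
    have hm : OpBd (mon (e3 : ℂ) (fun _ : Fin M => 0) z d t) (‖SS (e3 : ℂ) (1 + z)‖ ^ M) := by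
      rcases hz with h | h
      · have e : z = (z.im : ℂ) * Complex.I := by apply Complex.ext <;> simp [h]
        have k := mon_opBd_left e3 z.im (fun _ : Fin M => 0) d t
        rw [← e] at k
        have e2 : ∏ _j : Fin M, aI e3 (z.im - 0) = ‖SS (e3 : ℂ) (1 + z)‖ ^ M := by
          rw [Finset.prod_const, Finset.card_univ, Fintype.card_fin, sub_zero, aI_eq, ← e]
        rw [e2, iy_zero] at k
        exact k
      · have e : z = 1 + (z.im : ℂ) * Complex.I := by apply Complex.ext <;> simp [h]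
        have k := mon_opBd_right e3 z.im (fun _ : Fin M => 0) d t
        rw [← e] at k
        have e2 : ∏ _j : Fin M, aI e3 (z.im - 0) = ‖SS (e3 : ℂ) (1 + z)‖ ^ M := by
          rw [Finset.prod_const, Finset.card_univ, Fintype.card_fin, sub_zero, aI]
          congr 2
          have e3' : (1 : ℂ) + z = 1 + (1 + (z.im : ℂ) * Complex.I) := by rw [← e]
          rw [e3', SS_two_add]
        rw [e2, iy_zero] at k
        exact k
    have hf := hm.form (by positivity) φ ψ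
    have e : F z = (SS (e3 : ℂ) (1 + z) ^ M)⁻¹ *
        (star φ ⬝ᵥ (mon (e3 : ℂ) (fun _ : Fin M => 0) z d t *ᵥ ψ)) := by
      simp only [hF, Mh, Matrix.smul_mulVec, dotProduct_smul, smul_eq_mul]
    rw [e, norm_mul, norm_inv, norm_pow]
    calc (‖SS (e3 : ℂ) (1 + z)‖ ^ M)⁻¹ * ‖star φ ⬝ᵥ (mon (e3 : ℂ) (fun _ : Fin M => 0) z d t *ᵥ ψ)‖
        ≤ (‖SS (e3 : ℂ) (1 + z)‖ ^ M)⁻¹ * (‖SS (e3 : ℂ) (1 + z)‖ ^ M * (Sφ * Sψ)) := by
          gcongr
      _ = Sφ * Sψ := by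
          rw [← mul_assoc, inv_mul_cancel₀ (pow_pos hp M).ne', one_mul]
  set B : ℝ := ∑ i, ∑ j, ‖φ i‖ * (2 ^ M * ‖ψ j‖) with hB
  have key := PhragmenLindelof.vertical_strip (a := 0) (b := 1) (C := Sφ * Sψ) (f := F) (z := x)
    ?_ ?_ ?_ ?_ h0 h1
  · exact key
  · constructor
    · intro w hw
      have hw' : 0 < w.re ∧ w.re < 1 := by simpa using hw
      exact (hd w hw'.1.le hw'.2.le).differentiableWithinAt
    · intro w hw
      have hw' : w ∈ Complex.re ⁻¹' Set.Icc 0 1 := by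
        have : closure (Complex.re ⁻¹' Set.Ioo (0 : ℝ) 1) ⊆ Complex.re ⁻¹' Set.Icc 0 1 := by
          apply closure_minimal
          · exact Set.preimage_mono Set.Ioo_subset_Icc_self
          · exact isClosed_Icc.preimage Complex.continuous_re
        exact this hw
      exact (hd w hw'.1 hw'.2).continuousAt.continuousWithinAt
  · refine ⟨0, by have := Real.pi_pos; positivity, 0, ?_⟩
    apply Asymptotics.IsBigO.of_bound B
    rw [Filter.eventually_inf_principal]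
    filter_upwards with w hw
    have hw' : 0 < w.re ∧ w.re < 1 := by simpa using hw
    have hp := S1_pos hw'.1.le hw'.2.le
    have : ‖F w‖ ≤ B := by
      rw [hFe]
      refine (norm_sum_le _ _).trans (Finset.sum_le_sum fun i _ => ?_)
      refine (norm_sum_le _ _).trans (Finset.sum_le_sum fun j _ => ?_)
      rw [norm_mul, norm_star, norm_mul, norm_mul, norm_inv, norm_pow]
      have h3 := mon_entry_le hw'.1.le hw'.2.le (M := M) d t i j
      have h4 : (‖SS (e3 : ℂ) (1 + w)‖ ^ M)⁻¹ *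
          ‖mon (e3 : ℂ) (fun _ : Fin M => 0) w d t i j‖ ≤ 2 ^ M := by
        rw [mul_pow] at h3
        calc _ ≤ (‖SS (e3 : ℂ) (1 + w)‖ ^ M)⁻¹ * (2 ^ M * ‖SS (e3 : ℂ) (1 + w)‖ ^ M) := by
              gcongr
          _ = 2 ^ M := by
              rw [mul_comm (2 ^ M : ℝ), ← mul_assoc, inv_mul_cancel₀ (pow_pos hp M).ne', one_mul]
      gcongr
    simpa using this
  · intro w hw
    exact hline w (Or.inl hw)
  · intro w hw
    exact hline w (Or.inr hw)

theorem Mh_norm (M : ℕ) (h0 : 0 ≤ x.re) (h1 : x.re ≤ 1) (d t : Bool) : ‖Mh M x d t‖ ≤ 1 :=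
  l2_of_opBd zero_le_one (Mh_opBd M h0 h1 d t)

/-- twisted transfer matrix, percolation normalisation -/
def That (M : ℕ) (c : ℝ) (x : ℂ) : Matrix (Fin M → Bool) (Fin M → Bool) ℂ :=
  (SS (e3 : ℂ) (1 + x) ^ M)⁻¹ • TPh (e3 : ℂ) M c x

lemma That_eq (M : ℕ) (c : ℝ) (x : ℂ) : That M c x =
    Complex.exp (c * Complex.I) • Mh M x true true +
      Complex.exp (-c * Complex.I) • Mh M x false false := by
  rw [That, TPh_eq2, smul_add, Mh, Mh, smul_comm, smul_comm _ (Complex.exp (-c * Complex.I))]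

lemma norm_exp_c (c : ℝ) : ‖Complex.exp (c * Complex.I)‖ = 1 := Complex.norm_exp_ofReal_mul_I c

lemma norm_exp_c' (c : ℝ) : ‖Complex.exp (-c * Complex.I)‖ = 1 := by
  rw [← Complex.ofReal_neg]; exact Complex.norm_exp_ofReal_mul_I (-c)

theorem That_norm (M : ℕ) (c : ℝ) (h0 : 0 ≤ x.re) (h1 : x.re ≤ 1) : ‖That M c x‖ ≤ 2 := by
  rw [That_eq]
  refine (norm_add_le _ _).trans ?_
  rw [norm_smul, norm_smul, norm_exp_c, norm_exp_c']
  have := Mh_norm M h0 h1 true true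
  have := Mh_norm M h0 h1 false false
  linarith

lemma That_comm (M : ℕ) (c : ℝ) (x y : ℂ) : That M c x * That M c y = That M c y * That M c x := by
  unfold That
  rw [Matrix.smul_mul, Matrix.mul_smul, Matrix.smul_mul, Matrix.mul_smul, TPh_comm, smul_comm]

lemma SS_conj_e3 (x : ℂ) : (starRingEnd ℂ) (SS (e3 : ℂ) x) = SS (e3 : ℂ) ((starRingEnd ℂ) x) := by
  rw [SS_conj, Complex.conj_ofReal]

lemma That_adj (M : ℕ) (c : ℝ) (x : ℂ) : (That M c x)ᴴ = That M c (1 - (starRingEnd ℂ) x) := by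
  unfold That
  rw [Matrix.conjTranspose_smul, TPh_adj]
  congr 1
  rw [RCLike.star_def, map_inv₀, map_pow, SS_conj_e3]
  congr 2
  rw [SS_e3, SS_e3, map_add, map_one]
  congr 1
  have h : (e3 : ℂ) * (1 + (1 - (starRingEnd ℂ) x)) = Real.pi - e3 * (1 + (starRingEnd ℂ) x) := by
    unfold e3; push_cast; ring
  rw [h, Complex.sin_pi_sub]

end Crest.Agent.R158.Bd932
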