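import Mathlib
import Crest.Agent.R158.Bd3_932

/-!
# Band theorem: insertion of a line and the defect identity (helper932)

* `A0 M e` : insert the arrow `e` at site `0`
* `defect` : `That (M+1) (c+θ) x * A0 M true - A0 M true * That M c x` as three blocks
* `defect_norm` : `≤ 4 e^{-(π/3) Im x}` for `θ = π/3`, `0 ≤ Re x ≤ 1`, `0 ≤ Im x`
* `Aj M c j` : insertion at the gap `j`
-/

set_option autoImplicit false

noncomputable section

open Matrix Finset
open scoped Matrix.Norms.L2Operator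
open Crest.Agent.R150.Base357 Crest.Agent.R150.Fus932
open Crest.Agent.R150.Unit961
open Crest.Agent.R150.Gap970 Crest.Agent.R150.Ham970 Crest.Agent.R150.Vt970

namespace Crest.Agent.R158.Bd932

/-- insert the arrow `e` at site `0` -/
def A0 (M : ℕ) (e : Bool) : Matrix (Fin (M + 1) → Bool) (Fin M → Bool) ℂ :=
  Matrix.of fun t s => if t = (Fin.cons e s : Fin (M + 1) → Bool) then 1 else 0

variable {M : ℕ} {x : ℂ}

lemma A0_mul {n : Type*} [Fintype n] (e : Bool) (X : Matrix (Fin M → Bool) n ℂ)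
    (t : Fin (M + 1) → Bool) (s' : n) :
    (A0 M e * X) t s' = if t 0 = e then X (Fin.tail t) s' else 0 := by
  rw [Matrix.mul_apply]
  simp only [A0, Matrix.of_apply, ite_mul, one_mul, zero_mul]
  split_ifs with h
  · rw [Finset.sum_eq_single (Fin.tail t)]
    · rw [if_pos]
      rw [← h, Fin.cons_self_tail]
    · intro s _ hs
      rw [if_neg]
      intro h2
      apply hs
      rw [h2, Fin.tail_cons]
    · intro h2; exact absurd (Finset.mem_univ _) h2
  · apply Finset.sum_eq_zero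
    intro s _
    rw [if_neg]
    intro h2
    apply h
    rw [h2, Fin.cons_zero]

lemma mul_A0 {n : Type*} (e : Bool) (Y : Matrix n (Fin (M + 1) → Bool) ℂ)
    (t : n) (s' : Fin M → Bool) : (Y * A0 M e) t s' = Y t (Fin.cons e s') := by
  rw [Matrix.mul_apply]
  simp only [A0, Matrix.of_apply, mul_ite, mul_one, mul_zero, Finset.sum_ite_eq',
    Finset.mem_univ, if_true]

lemma A0_adj_mul (e : Bool) : (A0 M e)ᴴ * A0 M e = 1 := by
  ext s s'
  rw [mul_A0, Matrix.conjTranspose_apply, A0, Matrix.of_apply, Matrix.one_apply]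
  by_cases h : s = s'
  · subst h; simp
  · rw [if_neg h, if_neg]
    · simp
    · intro h2
      apply h
      have := congrArg Fin.tail h2
      rw [Fin.tail_cons, Fin.tail_cons] at this
      exact this.symm

lemma norm_one_le' {n : Type*} [Fintype n] [DecidableEq n] : ‖(1 : Matrix n n ℂ)‖ ≤ 1 := by
  rw [← Matrix.diagonal_one, Matrix.l2_opNorm_diagonal]
  exact (pi_norm_le_iff_of_nonneg zero_le_one).2 fun i => by simp

lemma A0_norm (e : Bool) : ‖A0 M e‖ ≤ 1 := by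
  have h := Matrix.l2_opNorm_conjTranspose_mul_self (A0 M e)
  rw [A0_adj_mul] at h
  have h1 := norm_one_le' (n := Fin M → Bool)
  rw [h] at h1
  by_contra h2
  push Not at h2
  nlinarith

lemma mon_cons (x : ℂ) (d t l r : Bool) (s s' : Fin M → Bool) :
    mon (e3 : ℂ) (fun _ : Fin (M + 1) => 0) x d t (Fin.cons l s) (Fin.cons r s') =
      ∑ k, LL (SS (e3 : ℂ) (1 - x)) (SS (e3 : ℂ) x) (SS (e3 : ℂ) 1) l r d k *
        mon (e3 : ℂ) (fun _ : Fin M => 0) x k t s s' := by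
  unfold mon
  simp only [Matrix.of_apply]
  rw [List.ofFn_succ, List.prod_cons, Matrix.mul_apply]
  refine Finset.sum_congr rfl fun k _ => ?_
  simp [trigW]

lemma Mh_cons (x : ℂ) (d t l r : Bool) (s s' : Fin M → Bool) :
    Mh (M + 1) x d t (Fin.cons l s) (Fin.cons r s') =
      ∑ k, (SS (e3 : ℂ) (1 + x))⁻¹ *
        LL (SS (e3 : ℂ) (1 - x)) (SS (e3 : ℂ) x) (SS (e3 : ℂ) 1) l r d k * Mh M x k t s s' := by
  simp only [Mh, Matrix.smul_apply, smul_eq_mul]
  rw [mon_cons, Finset.mul_sum]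
  refine Finset.sum_congr rfl fun k _ => ?_
  rw [pow_succ, mul_inv]
  ring

/-- the defect identity -/
theorem defect (c θ : ℝ) (x : ℂ) :
    That (M + 1) (c + θ) x * A0 M true - A0 M true * That M c x =
      (Complex.exp (c * Complex.I) * (Complex.exp (θ * Complex.I) *
        (SS (e3 : ℂ) (1 - x) / SS (e3 : ℂ) (1 + x)) - 1)) • (A0 M true * Mh M x true true) +
      (Complex.exp (-c * Complex.I) * (Complex.exp (-θ * Complex.I) *
        (SS (e3 : ℂ) x / SS (e3 : ℂ) (1 + x)) - 1)) • (A0 M true * Mh M x false false) +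
      (Complex.exp ((c + θ) * Complex.I) * (SS (e3 : ℂ) 1 / SS (e3 : ℂ) (1 + x))) •
        (A0 M false * Mh M x false true) := by
  have e1 : Complex.exp (((c + θ : ℝ) : ℂ) * Complex.I) =
      Complex.exp (c * Complex.I) * Complex.exp (θ * Complex.I) := by
    rw [← Complex.exp_add]; congr 1; push_cast; ring
  have e2 : Complex.exp (-((c + θ : ℝ) : ℂ) * Complex.I) =
      Complex.exp (-c * Complex.I) * Complex.exp (-θ * Complex.I) := by
    rw [← Complex.exp_add]; congr 1; push_cast; ring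
  have e3' : Complex.exp (((c : ℂ) + θ) * Complex.I) =
      Complex.exp (c * Complex.I) * Complex.exp (θ * Complex.I) := by
    rw [← Complex.exp_add]; congr 1; ring
  ext t s'
  obtain ⟨l, s, rfl⟩ : ∃ (l : Bool) (s : Fin M → Bool), t = Fin.cons l s :=
    ⟨t 0, Fin.tail t, (Fin.cons_self_tail t).symm⟩
  simp only [Matrix.sub_apply, Matrix.add_apply, Matrix.smul_apply, mul_A0, A0_mul, Fin.cons_zero,
    Fin.tail_cons, smul_eq_mul]
  rw [That_eq, That_eq, e1, e2, e3']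
  simp only [Matrix.add_apply, Matrix.smul_apply, smul_eq_mul, Mh_cons, Fintype.sum_bool,
    LL_apply, wt]
  cases l
  · simp
    ring
  · simp
    ring

/-! ### size of the coefficients -/

lemma norm_sin_lower {u : ℂ} (h : Real.sqrt 3 / 2 ≤ Real.sin u.re) :
    Real.sqrt 3 / 4 * Real.exp |u.im| ≤ ‖Complex.sin u‖ := by
  have h3 : (0 : ℝ) ≤ Real.sqrt 3 := Real.sqrt_nonneg 3
  have h33 : Real.sqrt 3 ^ 2 = 3 := Real.sq_sqrt (by norm_num)
  have h1 : ‖Complex.sin u‖ ^ 2 = Real.sin u.re ^ 2 + Real.sinh u.im ^ 2 := by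
    have h : Complex.sin u = ((Real.sin u.re * Real.cosh u.im : ℝ) : ℂ)
        + ((Real.cos u.re * Real.sinh u.im : ℝ) : ℂ) * Complex.I := by
      conv_lhs => rw [← Complex.re_add_im u]
      rw [Complex.sin_add, Complex.sin_mul_I, Complex.cos_mul_I]
      push_cast
      ring
    rw [h, ← Complex.normSq_eq_norm_sq, Complex.normSq_add_mul_I]
    have h1 := Real.cosh_sq u.im
    have h2 := Real.sin_sq_add_cos_sq u.re
    nlinarith
  apply le_of_sq_le_sq _ (norm_nonneg _)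
  rw [h1]
  have h2 : Real.sinh u.im ^ 2 = Real.cosh u.im ^ 2 - 1 := by
    have := Real.cosh_sq u.im; linarith
  have h4 : 1 ≤ Real.cosh u.im := Real.one_le_cosh u.im
  have h5 : 1 / 2 * Real.exp |u.im| ≤ Real.cosh u.im := by
    rw [← Real.cosh_abs, Real.cosh_eq]
    have := Real.exp_pos (-|u.im|)
    linarith
  have h6 : (3 : ℝ) / 4 ≤ Real.sin u.re ^ 2 := by nlinarith
  have h7 : 0 ≤ Real.exp |u.im| := (Real.exp_pos _).le
  have h8 : (1 / 2 * Real.exp |u.im|) ^ 2 ≤ Real.cosh u.im ^ 2 :=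
    pow_le_pow_left₀ (by positivity) h5 2
  rw [mul_pow, div_pow, h33, h2]
  nlinarith

lemma sin_re_ge (h0 : 0 ≤ x.re) (h1 : x.re ≤ 1) :
    Real.sqrt 3 / 2 ≤ Real.sin ((e3 : ℂ) * (1 + x)).re := by
  have := sin_one h0 h1
  rw [mul_one, show Real.sin e3 = Real.sqrt 3 / 2 by
    rw [show e3 = Real.pi / 3 from rfl, Real.sin_pi_div_three]] at this
  simpa using this

lemma norm_sin_S1 (h0 : 0 ≤ x.re) (h1 : x.re ≤ 1) :
    Real.sqrt 3 / 4 * Real.exp (e3 * |x.im|) ≤ ‖Complex.sin ((e3 : ℂ) * (1 + x))‖ := by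
  have h := norm_sin_lower (sin_re_ge h0 h1)
  have e : ((e3 : ℂ) * (1 + x)).im = e3 * x.im := by simp
  rwa [e, abs_mul, abs_of_pos e3_pos] at h

lemma norm_sin_S1' (h0 : 0 ≤ x.re) (h1 : x.re ≤ 1) :
    Real.sqrt 3 / 2 ≤ ‖Complex.sin ((e3 : ℂ) * (1 + x))‖ := by
  have h3 : (0 : ℝ) ≤ Real.sqrt 3 := Real.sqrt_nonneg 3
  have hs := sin_re_ge h0 h1
  apply hs.trans
  have h4 : 0 ≤ Real.sin ((e3 : ℂ) * (1 + x)).re := by linarith
  apply le_of_sq_le_sq _ (norm_nonneg _)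
  generalize (e3 : ℂ) * (1 + x) = u at *
  have h : Complex.sin u = ((Real.sin u.re * Real.cosh u.im : ℝ) : ℂ)
      + ((Real.cos u.re * Real.sinh u.im : ℝ) : ℂ) * Complex.I := by
    conv_lhs => rw [← Complex.re_add_im u]
    rw [Complex.sin_add, Complex.sin_mul_I, Complex.cos_mul_I]
    push_cast
    ring
  rw [h, ← Complex.normSq_eq_norm_sq, Complex.normSq_add_mul_I]
  have h1 : 1 ≤ Real.cosh u.im := Real.one_le_cosh u.im
  have h5 : Real.sin u.re ≤ Real.sin u.re * Real.cosh u.im := by nlinarith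
  have h6 : Real.sin u.re ^ 2 ≤ (Real.sin u.re * Real.cosh u.im) ^ 2 :=
    pow_le_pow_left₀ h4 h5 2
  have := sq_nonneg (Real.cos u.re * Real.sinh u.im)
  linarith

lemma S1_ratio (y : ℂ) : SS (e3 : ℂ) y / SS (e3 : ℂ) (1 + x) =
    Complex.sin (e3 * y) / Complex.sin (e3 * (1 + x)) := by
  rw [SS_e3, SS_e3]
  have h : (e3 : ℂ) ≠ 0 := by exact_mod_cast e3_ne
  rw [div_div_div_cancel_right₀ h]

lemma sin_exp (u : ℂ) : Complex.sin u = (Complex.exp (-(u * Complex.I)) -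
    Complex.exp (u * Complex.I)) * Complex.I / 2 := by
  rw [Complex.sin, neg_mul]

lemma e3_pow : Complex.exp ((e3 : ℂ) * Complex.I) ^ 3 = -1 := by
  rw [← Complex.exp_nat_mul]
  have : ((3 : ℕ) : ℂ) * ((e3 : ℂ) * Complex.I) = Real.pi * Complex.I := by
    unfold e3; push_cast; ring
  rw [this, Complex.exp_pi_mul_I]

lemma e3_val : Complex.exp ((e3 : ℂ) * Complex.I) =
    ((1 / 2 : ℝ) : ℂ) + ((Real.sqrt 3 / 2 : ℝ) : ℂ) * Complex.I := by
  rw [Complex.exp_mul_I, ← Complex.ofReal_cos, ← Complex.ofReal_sin,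
    show e3 = Real.pi / 3 from rfl, Real.cos_pi_div_three, Real.sin_pi_div_three]

lemma e3_val' : Complex.exp (-((e3 : ℂ) * Complex.I)) =
    ((1 / 2 : ℝ) : ℂ) - ((Real.sqrt 3 / 2 : ℝ) : ℂ) * Complex.I := by
  have h : -((e3 : ℂ) * Complex.I) = ((-e3 : ℝ) : ℂ) * Complex.I := by push_cast; ring
  rw [h, Complex.exp_mul_I, ← Complex.ofReal_cos, ← Complex.ofReal_sin, Real.cos_neg,
    Real.sin_neg, show e3 = Real.pi / 3 from rfl, Real.cos_pi_div_three, Real.sin_pi_div_three]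
  push_cast; ring

lemma sqrt3_sq : ((Real.sqrt 3 / 2 : ℝ) : ℂ) ^ 2 = 3 / 4 := by
  rw [← Complex.ofReal_pow, div_pow, Real.sq_sqrt (by norm_num)]
  push_cast; norm_num

/-- first coefficient -/
lemma coefA (x : ℂ) : Complex.exp (e3 * Complex.I) * Complex.sin (e3 * (1 - x)) -
    Complex.sin (e3 * (1 + x)) = Complex.exp (e3 * Complex.I * x) *
      (Complex.I * (1 + Complex.exp (e3 * Complex.I)) / 2) := by
  rw [sin_exp, sin_exp]
  have h1 : Complex.exp (-((e3 : ℂ) * (1 - x) * Complex.I)) =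
      Complex.exp (-((e3 : ℂ) * Complex.I)) * Complex.exp (e3 * Complex.I * x) := by
    rw [← Complex.exp_add]; congr 1; ring
  have h2 : Complex.exp ((e3 : ℂ) * (1 - x) * Complex.I) =
      Complex.exp ((e3 : ℂ) * Complex.I) * Complex.exp (-(e3 * Complex.I * x)) := by
    rw [← Complex.exp_add]; congr 1; ring
  have h3 : Complex.exp (-((e3 : ℂ) * (1 + x) * Complex.I)) =
      Complex.exp (-((e3 : ℂ) * Complex.I)) * Complex.exp (-(e3 * Complex.I * x)) := by
    rw [← Complex.exp_add]; congr 1; ring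
  have h4 : Complex.exp ((e3 : ℂ) * (1 + x) * Complex.I) =
      Complex.exp ((e3 : ℂ) * Complex.I) * Complex.exp (e3 * Complex.I * x) := by
    rw [← Complex.exp_add]; congr 1; ring
  rw [h1, h2, h3, h4]
  generalize Complex.exp (e3 * Complex.I * x) = p
  generalize Complex.exp (-(e3 * Complex.I * x)) = q
  rw [e3_val, e3_val']
  have := sqrt3_sq
  have hI := Complex.I_sq
  push_cast at *
  linear_combination ((-(3 : ℂ) / 8) * Complex.I * p - (3 / 8) * Complex.I * q) * hI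
    + (p / 2 * Complex.I * (-1) * Complex.I ^ 2 - q / 2 * Complex.I ^ 3) * this

/-- second coefficient -/
lemma coefB (x : ℂ) : Complex.exp (-e3 * Complex.I) * Complex.sin (e3 * x) -
    Complex.sin (e3 * (1 + x)) = Complex.exp (e3 * Complex.I * x) *
      (-((Real.sqrt 3 / 2 : ℝ) : ℂ)) := by
  rw [sin_exp, sin_exp]
  have h0 : Complex.exp (-(e3 : ℂ) * Complex.I) = Complex.exp (-((e3 : ℂ) * Complex.I)) := by
    congr 1; ring
  have h1 : Complex.exp (-((e3 : ℂ) * x * Complex.I)) =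
      Complex.exp (-(e3 * Complex.I * x)) := by
    congr 1; ring
  have h2 : Complex.exp ((e3 : ℂ) * x * Complex.I) = Complex.exp (e3 * Complex.I * x) := by
    congr 1; ring
  have h3 : Complex.exp (-((e3 : ℂ) * (1 + x) * Complex.I)) =
      Complex.exp (-((e3 : ℂ) * Complex.I)) * Complex.exp (-(e3 * Complex.I * x)) := by
    rw [← Complex.exp_add]; congr 1; ring
  have h4 : Complex.exp ((e3 : ℂ) * (1 + x) * Complex.I) =
      Complex.exp ((e3 : ℂ) * Complex.I) * Complex.exp (e3 * Complex.I * x) := by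
    rw [← Complex.exp_add]; congr 1; ring
  rw [h0, h1, h2, h3, h4]
  generalize Complex.exp (e3 * Complex.I * x) = p
  generalize Complex.exp (-(e3 * Complex.I * x)) = q
  rw [e3_val, e3_val']
  have hI := Complex.I_sq
  push_cast
  linear_combination ((Real.sqrt 3 : ℂ) / 2 * p) * hI

lemma norm_exp_e3 (x : ℂ) : ‖Complex.exp (e3 * Complex.I * x)‖ = Real.exp (-(e3 * x.im)) := by
  rw [Complex.norm_exp]
  congr 1
  simp

lemma norm_one_add_w : ‖Complex.I * (1 + Complex.exp (e3 * Complex.I)) / 2‖ = Real.sqrt 3 / 2 := by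
  rw [norm_div, norm_mul, Complex.norm_I, one_mul]
  have h : ‖(1 : ℂ) + Complex.exp (e3 * Complex.I)‖ = Real.sqrt 3 := by
    rw [e3_val]
    have e : (1 : ℂ) + (((1 / 2 : ℝ) : ℂ) + ((Real.sqrt 3 / 2 : ℝ) : ℂ) * Complex.I) =
        ((3 / 2 : ℝ) : ℂ) + ((Real.sqrt 3 / 2 : ℝ) : ℂ) * Complex.I := by push_cast; ring
    rw [e]
    have h2 : ‖((3 / 2 : ℝ) : ℂ) + ((Real.sqrt 3 / 2 : ℝ) : ℂ) * Complex.I‖ ^ 2 =
        Real.sqrt 3 ^ 2 := by
      have h33 : Real.sqrt 3 ^ 2 = 3 := Real.sq_sqrt (by norm_num)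
      rw [← Complex.normSq_eq_norm_sq, Complex.normSq_add_mul_I]
      linear_combination (-(3 : ℝ) / 4) * h33
    exact (sq_eq_sq₀ (norm_nonneg _) (Real.sqrt_nonneg _)).1 h2
  rw [h]
  simp

lemma kA_norm (h0 : 0 ≤ x.re) (h1 : x.re ≤ 1) : ‖Complex.exp (e3 * Complex.I) *
    (SS (e3 : ℂ) (1 - x) / SS (e3 : ℂ) (1 + x)) - 1‖ ≤ Real.exp (-(e3 * x.im)) := by
  have hs := norm_sin_S1' h0 h1
  have h3 : 0 < Real.sqrt 3 := Real.sqrt_pos.2 (by norm_num)
  have hp : 0 < ‖Complex.sin ((e3 : ℂ) * (1 + x))‖ := lt_of_lt_of_le (by positivity) hs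
  have hne := norm_pos_iff.1 hp
  have e : Complex.exp (e3 * Complex.I) * (SS (e3 : ℂ) (1 - x) / SS (e3 : ℂ) (1 + x)) - 1 =
      (Complex.exp (e3 * Complex.I * x) * (Complex.I * (1 + Complex.exp (e3 * Complex.I)) / 2)) /
        Complex.sin (e3 * (1 + x)) := by
    rw [← coefA, S1_ratio]
    field_simp
  rw [e, norm_div, norm_mul, norm_exp_e3, norm_one_add_w, div_le_iff₀ hp]
  exact mul_le_mul_of_nonneg_left hs (Real.exp_pos _).le

lemma kB_norm (h0 : 0 ≤ x.re) (h1 : x.re ≤ 1) : ‖Complex.exp (-e3 * Complex.I) *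
    (SS (e3 : ℂ) x / SS (e3 : ℂ) (1 + x)) - 1‖ ≤ Real.exp (-(e3 * x.im)) := by
  have hs := norm_sin_S1' h0 h1
  have h3 : 0 < Real.sqrt 3 := Real.sqrt_pos.2 (by norm_num)
  have hp : 0 < ‖Complex.sin ((e3 : ℂ) * (1 + x))‖ := lt_of_lt_of_le (by positivity) hs
  have hne := norm_pos_iff.1 hp
  have e : Complex.exp (-e3 * Complex.I) * (SS (e3 : ℂ) x / SS (e3 : ℂ) (1 + x)) - 1 =
      (Complex.exp (e3 * Complex.I * x) * (-((Real.sqrt 3 / 2 : ℝ) : ℂ))) /
        Complex.sin (e3 * (1 + x)) := by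
    rw [← coefB, S1_ratio]
    field_simp
  rw [e, norm_div, norm_mul, norm_exp_e3, norm_neg, Complex.norm_real,
    Real.norm_of_nonneg (by positivity), div_le_iff₀ hp]
  exact mul_le_mul_of_nonneg_left hs (Real.exp_pos _).le

lemma kC_norm (h0 : 0 ≤ x.re) (h1 : x.re ≤ 1) :
    ‖SS (e3 : ℂ) 1 / SS (e3 : ℂ) (1 + x)‖ ≤ 2 * Real.exp (-(e3 * |x.im|)) := by
  have hs := norm_sin_S1 h0 h1
  have h3 : 0 < Real.sqrt 3 := Real.sqrt_pos.2 (by norm_num)
  have hp : 0 < ‖Complex.sin ((e3 : ℂ) * (1 + x))‖ := lt_of_lt_of_le (by positivity) hs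
  rw [S1_ratio, norm_div, div_le_iff₀ hp, mul_one, ← Complex.ofReal_sin,
    show Real.sin e3 = Real.sqrt 3 / 2 by
      rw [show e3 = Real.pi / 3 from rfl, Real.sin_pi_div_three], Complex.norm_real,
    Real.norm_of_nonneg (by positivity)]
  calc Real.sqrt 3 / 2 = 2 * Real.exp (-(e3 * |x.im|)) *
        (Real.sqrt 3 / 4 * Real.exp (e3 * |x.im|)) := by
        have : Real.exp (-(e3 * |x.im|)) * Real.exp (e3 * |x.im|) = 1 := by
          rw [← Real.exp_add]; simp
        linear_combination (-(Real.sqrt 3) / 2) * this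
    _ ≤ _ := by gcongr

/-- **the defect bound** -/
theorem defect_norm (c : ℝ) (h0 : 0 ≤ x.re) (h1 : x.re ≤ 1) (h2 : 0 ≤ x.im) :
    ‖That (M + 1) (c + e3) x * A0 M true - A0 M true * That M c x‖ ≤
      4 * Real.exp (-(e3 * x.im)) := by
  rw [defect]
  have hm : ∀ (e d t : Bool), ‖A0 M e * Mh M x d t‖ ≤ 1 := by
    intro e d t
    refine (Matrix.l2_opNorm_mul _ _).trans ?_
    have a := A0_norm (M := M) e
    have b := Mh_norm M h0 h1 d t
    calc _ ≤ 1 * 1 := mul_le_mul a b (norm_nonneg _) zero_le_one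
      _ = 1 := one_mul 1
  have hE : ‖Complex.exp (((c : ℂ) + e3) * Complex.I)‖ = 1 := by
    rw [← Complex.ofReal_add]; exact norm_exp_c (c + e3)
  have kA := kA_norm h0 h1
  have kB := kB_norm h0 h1
  have kC := kC_norm h0 h1
  rw [abs_of_nonneg h2] at kC
  have t1 : ‖(Complex.exp (c * Complex.I) * (Complex.exp (e3 * Complex.I) *
        (SS (e3 : ℂ) (1 - x) / SS (e3 : ℂ) (1 + x)) - 1)) • (A0 M true * Mh M x true true)‖ ≤
      Real.exp (-(e3 * x.im)) := by
    rw [norm_smul, norm_mul, norm_exp_c, one_mul]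
    calc _ ≤ Real.exp (-(e3 * x.im)) * 1 :=
          mul_le_mul kA (hm _ _ _) (norm_nonneg _) (Real.exp_pos _).le
      _ = _ := mul_one _
  have t2 : ‖(Complex.exp (-c * Complex.I) * (Complex.exp (-e3 * Complex.I) *
        (SS (e3 : ℂ) x / SS (e3 : ℂ) (1 + x)) - 1)) • (A0 M true * Mh M x false false)‖ ≤
      Real.exp (-(e3 * x.im)) := by
    rw [norm_smul, norm_mul, norm_exp_c', one_mul]
    calc _ ≤ Real.exp (-(e3 * x.im)) * 1 :=
          mul_le_mul kB (hm _ _ _) (norm_nonneg _) (Real.exp_pos _).le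
      _ = _ := mul_one _
  have t3 : ‖(Complex.exp (((c : ℂ) + e3) * Complex.I) * (SS (e3 : ℂ) 1 / SS (e3 : ℂ) (1 + x))) •
        (A0 M false * Mh M x false true)‖ ≤ 2 * Real.exp (-(e3 * x.im)) := by
    rw [norm_smul, norm_mul, hE, one_mul]
    calc _ ≤ (2 * Real.exp (-(e3 * x.im))) * 1 :=
          mul_le_mul kC (hm _ _ _) (norm_nonneg _) (by positivity)
      _ = _ := mul_one _
  refine (norm_add_le _ _).trans ?_
  have := norm_add_le ((Complex.exp (c * Complex.I) * (Complex.exp (e3 * Complex.I) *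
        (SS (e3 : ℂ) (1 - x) / SS (e3 : ℂ) (1 + x)) - 1)) • (A0 M true * Mh M x true true))
    ((Complex.exp (-c * Complex.I) * (Complex.exp (-e3 * Complex.I) *
        (SS (e3 : ℂ) x / SS (e3 : ℂ) (1 + x)) - 1)) • (A0 M true * Mh M x false false))
  linarith

/-! ### the shift -/

lemma That_zero_mulVec [NeZero M] (c : ℝ) (ψ : (Fin M → Bool) → ℂ) (s : Fin M → Bool) :
    (That M c 0 *ᵥ ψ) s =
      Complex.exp (c * (sg (s (-1)) : ℂ) * Complex.I) * ψ (fun k => s (k - 1)) := by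
  rw [That, Matrix.smul_mulVec, Pi.smul_apply, TPh_zero_mulVec, smul_eq_mul, add_zero]
  have h : SS (e3 : ℂ) 1 ≠ 0 := norm_pos_iff.1 SS_one_pos
  rw [← mul_assoc, inv_mul_cancel₀ (pow_ne_zero M h), one_mul]

lemma That_zero_norm (M : ℕ) [NeZero M] (c : ℝ) (ψ : (Fin M → Bool) → ℂ) :
    ∑ s, ‖(That M c 0 *ᵥ ψ) s‖ ^ 2 = ∑ s, ‖ψ s‖ ^ 2 := by
  have h : ∀ s : Fin M → Bool, ‖(That M c 0 *ᵥ ψ) s‖ ^ 2 = ‖ψ (fun k => s (k - 1))‖ ^ 2 := by
    intro s
    rw [That_zero_mulVec, norm_mul]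
    have : ‖Complex.exp (c * (sg (s (-1)) : ℂ) * Complex.I)‖ = 1 := by
      rw [← Complex.ofReal_mul]
      exact Complex.norm_exp_ofReal_mul_I _
    rw [this, one_mul]
  rw [Finset.sum_congr rfl fun s _ => h s]
  refine Fintype.sum_bijective (fun (s : Fin M → Bool) => fun k => s (k - 1)) ?_ _ _ (fun _ => rfl)
  constructor
  · intro s s' hss
    funext k
    have := congrFun hss (k + 1)
    simpa using this
  · intro s
    refine ⟨fun k => s (k + 1), ?_⟩
    funext k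
    simp

lemma That_zero_isometry (M : ℕ) [NeZero M] (c : ℝ) : (That M c 0)ᴴ * That M c 0 = 1 := by
  -- polarisation through the explicit formula
  have hcol : ∀ (ψ φ : (Fin M → Bool) → ℂ), star (That M c 0 *ᵥ φ) ⬝ᵥ (That M c 0 *ᵥ ψ) =
      star φ ⬝ᵥ ψ := by
    intro ψ φ
    have h : ∀ s : Fin M → Bool, star ((That M c 0 *ᵥ φ) s) * (That M c 0 *ᵥ ψ) s =
        star (φ (fun k => s (k - 1))) * ψ (fun k => s (k - 1)) := by
      intro s
      rw [That_zero_mulVec, That_zero_mulVec, star_mul']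
      have : star (Complex.exp (c * (sg (s (-1)) : ℂ) * Complex.I)) *
          Complex.exp (c * (sg (s (-1)) : ℂ) * Complex.I) = 1 := by
        rw [RCLike.star_def, ← Complex.exp_conj, ← Complex.exp_add]
        simp
      linear_combination (star (φ (fun k => s (k - 1))) * ψ (fun k => s (k - 1))) * this
    simp only [dotProduct, Pi.star_apply]
    rw [Finset.sum_congr rfl fun s _ => h s]
    refine Fintype.sum_bijective (fun (s : Fin M → Bool) => fun k => s (k - 1)) ?_ _ _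
      (fun _ => rfl)
    constructor
    · intro s s' hss
      funext k
      have := congrFun hss (k + 1)
      simpa using this
    · intro s
      refine ⟨fun k => s (k + 1), ?_⟩
      funext k
      simp
  ext i j
  have h := hcol (Pi.single j 1) (Pi.single i 1)
  rw [Matrix.mulVec_single_one, Matrix.mulVec_single_one] at h
  rw [Matrix.mul_apply]
  have e : ∑ k, (That M c 0)ᴴ i k * That M c 0 k j =
      star ((That M c 0).col i) ⬝ᵥ (That M c 0).col j := by
    simp [dotProduct, Matrix.conjTranspose_apply, Matrix.col_apply]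
  rw [e, h, Matrix.one_apply]
  simp [dotProduct, Pi.single_apply, eq_comm]

lemma That_zero_isometry' (M : ℕ) [NeZero M] (c : ℝ) : That M c 0 * (That M c 0)ᴴ = 1 :=
  mul_eq_one_comm.1 (That_zero_isometry M c)

lemma That_zero_le (M : ℕ) [NeZero M] (c : ℝ) : ‖That M c 0‖ ≤ 1 := by
  have h := Matrix.l2_opNorm_conjTranspose_mul_self (That M c 0)
  rw [That_zero_isometry] at h
  have h1 := norm_one_le' (n := Fin M → Bool)
  rw [h] at h1
  by_contra h2
  push Not at h2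
  nlinarith

lemma That_zero_adj_le (M : ℕ) [NeZero M] (c : ℝ) : ‖(That M c 0)ᴴ‖ ≤ 1 := by
  rw [Matrix.l2_opNorm_conjTranspose]; exact That_zero_le M c

lemma pow_norm_le {n : Type*} [Fintype n] [DecidableEq n] {A : Matrix n n ℂ} (h : ‖A‖ ≤ 1)
    (j : ℕ) : ‖A ^ j‖ ≤ 1 := by
  induction j with
  | zero => rw [pow_zero]; exact norm_one_le'
  | succ j ih =>
    rw [pow_succ]
    refine (Matrix.l2_opNorm_mul _ _).trans ?_
    calc _ ≤ 1 * 1 := mul_le_mul ih h (norm_nonneg _) zero_le_one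
      _ = 1 := one_mul 1

/-- insertion at the gap `j` (counted from the seam) -/
def Aj (M : ℕ) (c : ℝ) (j : ℕ) : Matrix (Fin (M + 1) → Bool) (Fin M → Bool) ℂ :=
  That (M + 1) (c + e3) 0 ^ j * A0 M true * (That M c 0)ᴴ ^ j

lemma Aj_zero (M : ℕ) (c : ℝ) : Aj M c 0 = A0 M true := by
  simp [Aj]

lemma sandwich_norm {n m : Type*} [Fintype n] [DecidableEq n] [Fintype m] [DecidableEq m]
    {L : Matrix m m ℂ} {R : Matrix n n ℂ} (X : Matrix m n ℂ) (hL : ‖L‖ ≤ 1) (hR : ‖R‖ ≤ 1) :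
    ‖L * X * R‖ ≤ ‖X‖ := by
  calc ‖L * X * R‖ ≤ ‖L * X‖ * ‖R‖ := Matrix.l2_opNorm_mul _ _
    _ ≤ (‖L‖ * ‖X‖) * 1 := mul_le_mul (Matrix.l2_opNorm_mul _ _) hR (norm_nonneg _) (by positivity)
    _ ≤ (1 * ‖X‖) * 1 := by gcongr
    _ = ‖X‖ := by ring

theorem Aj_norm (M : ℕ) [NeZero M] (c : ℝ) (j : ℕ) : ‖Aj M c j‖ ≤ 1 :=
  (sandwich_norm _ (pow_norm_le (That_zero_le (M + 1) (c + e3)) j)
    (pow_norm_le (That_zero_adj_le M c) j)).trans (A0_norm true)

theorem Aj_shift (M : ℕ) [NeZero M] (c : ℝ) (j : ℕ) :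
    That (M + 1) (c + e3) 0 * Aj M c j = Aj M c (j + 1) * That M c 0 := by
  unfold Aj
  rw [pow_succ' (That (M + 1) (c + e3) 0) j, pow_succ (That M c 0)ᴴ j]
  simp only [Matrix.mul_assoc]
  rw [That_zero_isometry, Matrix.mul_one]

theorem Aj_shift2 (M : ℕ) [NeZero M] (c : ℝ) (j : ℕ) :
    That (M + 1) (c + e3) 0 ^ 2 * Aj M c j = Aj M c (j + 2) * That M c 0 ^ 2 := by
  rw [pow_two, pow_two, Matrix.mul_assoc, Aj_shift, ← Matrix.mul_assoc, Aj_shift,
    Matrix.mul_assoc]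

theorem Aj_defect (M : ℕ) [NeZero M] (c : ℝ) (j : ℕ) (x : ℂ) :
    That (M + 1) (c + e3) x * Aj M c j - Aj M c j * That M c x =
      That (M + 1) (c + e3) 0 ^ j * (That (M + 1) (c + e3) x * A0 M true -
        A0 M true * That M c x) * (That M c 0)ᴴ ^ j := by
  have h1 : That (M + 1) (c + e3) x * That (M + 1) (c + e3) 0 ^ j =
      That (M + 1) (c + e3) 0 ^ j * That (M + 1) (c + e3) x :=
    (Commute.pow_right (That_comm (M + 1) (c + e3) x 0) j).eq
  have h2 : (That M c 0)ᴴ ^ j * That M c x = That M c x * (That M c 0)ᴴ ^ j := by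
    rw [That_adj]
    exact (Commute.pow_left (That_comm M c _ x) j).eq
  unfold Aj
  rw [Matrix.mul_sub, Matrix.sub_mul]
  congr 1
  · rw [← Matrix.mul_assoc, ← Matrix.mul_assoc, h1]
    simp only [Matrix.mul_assoc]
  · simp only [Matrix.mul_assoc]
    rw [h2]

theorem Aj_defect_norm (M : ℕ) [NeZero M] (c : ℝ) (j : ℕ) {x : ℂ} (h0 : 0 ≤ x.re)
    (h1 : x.re ≤ 1) (h2 : 0 ≤ x.im) :
    ‖That (M + 1) (c + e3) x * Aj M c j - Aj M c j * That M c x‖ ≤
      4 * Real.exp (-(e3 * x.im)) := by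
  rw [Aj_defect]
  exact (sandwich_norm _ (pow_norm_le (That_zero_le (M + 1) (c + e3)) j)
    (pow_norm_le (That_zero_adj_le M c) j)).trans (defect_norm c h0 h1 h2)

end Crest.Agent.R158.Bd932
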