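import Mathlib
import Crest.Agent.R158.Bd4_932

/-!
# Band theorem: the explicit insertion operator (helper932)

`ins n p : (Fin (n+1) → Bool) → (Fin (n+2) → Bool)` inserts an arrow `true` at site `p`, with the
diagonal phase `exp (-i (π/3) ∑_{i<p} sg (t i))`.

* `ins_zero`, `ins_shift : That' 0 * ins p.succ = ins p.castSucc * That 0`
* `ins_norm`, `ins_defect_norm`
-/

set_option autoImplicit false

noncomputable section

open Matrix Finset
open scoped Matrix.Norms.L2Operator
open Crest.Agent.R150.Base357 Crest.Agent.R150.Fus932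
open Crest.Agent.R150.Unit961
open Crest.Agent.R150.Gap970 Crest.Agent.R150.Ham970 Crest.Agent.R150.Vt970

namespace Crest.Agent.R158.Bd932

variable {n : ℕ}

/-- the sum of the arrows left of `p` -/
def lsum {m : ℕ} (p : Fin m) (t : Fin m → Bool) : ℝ := ∑ i, if i < p then sg (t i) else 0

/-- insertion at site `p` -/
def ins (n : ℕ) (p : Fin (n + 2)) : Matrix (Fin (n + 2) → Bool) (Fin (n + 1) → Bool) ℂ :=
  Matrix.of fun t s => if t = (Fin.insertNth p true s : Fin (n + 2) → Bool) then
    Complex.exp (-(e3 * (lsum p t : ℂ)) * Complex.I) else 0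

lemma ins_mulVec (p : Fin (n + 2)) (ψ : (Fin (n + 1) → Bool) → ℂ) (t : Fin (n + 2) → Bool) :
    (ins n p *ᵥ ψ) t = if t p = true then
      Complex.exp (-(e3 * (lsum p t : ℂ)) * Complex.I) * ψ (fun i => t (p.succAbove i)) else 0 := by
  rw [Matrix.mulVec, dotProduct]
  simp only [ins, Matrix.of_apply, ite_mul, zero_mul]
  split_ifs with h
  · rw [Finset.sum_eq_single (fun i => t (p.succAbove i))]
    · rw [if_pos]
      funext i
      rcases Fin.eq_self_or_eq_succAbove p i with hi | ⟨j, hj⟩
      · rw [hi, Fin.insertNth_apply_same, h]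
      · rw [hj, Fin.insertNth_apply_succAbove]
    · intro s _ hs
      rw [if_neg]
      intro h2
      apply hs
      funext i
      rw [h2, Fin.insertNth_apply_succAbove]
    · intro h2; exact absurd (Finset.mem_univ _) h2
  · apply Finset.sum_eq_zero
    intro s _
    rw [if_neg]
    intro h2
    apply h
    rw [h2, Fin.insertNth_apply_same]

lemma ins_zero : ins n 0 = A0 (n + 1) true := by
  ext t s
  simp only [ins, A0, Matrix.of_apply]
  have h : lsum (0 : Fin (n + 2)) t = 0 := by
    unfold lsum
    apply Finset.sum_eq_zero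
    intro i _
    rw [if_neg]
    simp
  rw [h]
  have h2 : (Fin.insertNth 0 true s : Fin (n + 2) → Bool) = Fin.cons true s := by
    rw [Fin.insertNth_zero]
    rfl
  rw [h2]
  simp

lemma succ_sub_one {m : ℕ} (j : Fin m) : j.succ - 1 = j.castSucc := by
  rw [sub_eq_iff_eq_add, Fin.coeSucc_eq_succ]

lemma zero_sub_one : (0 : Fin (n + 1)) - 1 = Fin.last n := by
  rw [sub_eq_iff_eq_add]
  apply Fin.ext
  simp

lemma neg_one_last : (-1 : Fin (n + 1)) = Fin.last n := by
  rw [← zero_sub_one, zero_sub]

lemma lsum_shift (p : Fin (n + 1)) (t : Fin (n + 2) → Bool) :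
    lsum p.succ (fun k => t (k - 1)) = sg (t (Fin.last (n + 1))) + lsum p.castSucc t := by
  have hL : lsum p.succ (fun k => t (k - 1)) = sg (t (Fin.last (n + 1))) +
      ∑ j : Fin (n + 1), if j < p then sg (t j.castSucc) else 0 := by
    unfold lsum
    rw [Fin.sum_univ_succ, if_pos (Fin.succ_pos p)]
    simp only [zero_sub_one, succ_sub_one, Fin.succ_lt_succ_iff]
  have hR : lsum p.castSucc t = ∑ j : Fin (n + 1), if j < p then sg (t j.castSucc) else 0 := by
    unfold lsum
    have h2 : ¬ Fin.last (n + 1) < p.castSucc := by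
      rw [not_lt]
      exact (Fin.castSucc_lt_last p).le
    rw [Fin.sum_univ_castSucc, if_neg h2, add_zero]
    simp only [Fin.castSucc_lt_castSucc_iff]
  rw [hL, hR]

lemma succAbove_last (p : Fin (n + 1)) :
    p.castSucc.succAbove (Fin.last n) = Fin.last (n + 1) := by
  rw [Fin.succAbove_of_le_castSucc, Fin.succ_last]
  simpa using Fin.le_last p

lemma succAbove_shift (p k : Fin (n + 1)) :
    p.succ.succAbove k - 1 = p.castSucc.succAbove (k - 1) := by
  rcases Fin.eq_zero_or_eq_succ k with rfl | ⟨j, rfl⟩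
  · rw [Fin.succ_succAbove_zero, zero_sub_one, zero_sub_one, succAbove_last]
  · rw [Fin.succ_succAbove_succ, succ_sub_one, succ_sub_one, Fin.castSucc_succAbove_castSucc]

/-- the insertion operators are moved by the shift -/
theorem ins_shift (c : ℝ) (p : Fin (n + 1)) :
    That (n + 2) (c + e3) 0 * ins n p.succ = ins n p.castSucc * That (n + 1) c 0 := by
  have h : ∀ ψ : (Fin (n + 1) → Bool) → ℂ,
      (That (n + 2) (c + e3) 0 * ins n p.succ) *ᵥ ψ =
        (ins n p.castSucc * That (n + 1) c 0) *ᵥ ψ := by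
    intro ψ
    rw [← Matrix.mulVec_mulVec, ← Matrix.mulVec_mulVec]
    funext t
    rw [That_zero_mulVec, ins_mulVec, ins_mulVec, That_zero_mulVec, succ_sub_one]
    split_ifs with ht
    · have e1 : t (p.castSucc.succAbove (-1 : Fin (n + 1))) = t (-1 : Fin (n + 2)) := by
        rw [neg_one_last, neg_one_last, succAbove_last]
      have e2 : (fun i : Fin (n + 1) => t (p.succ.succAbove i - 1)) =
          fun k => t (p.castSucc.succAbove (k - 1)) := by
        funext i; rw [succAbove_shift]
      rw [e2, e1, lsum_shift, neg_one_last, ← mul_assoc, ← mul_assoc, ← Complex.exp_add,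
        ← Complex.exp_add]
      congr 2
      push_cast
      ring
    · rw [mul_zero]
  ext i j
  have h2 := congrFun (h (Pi.single j 1)) i
  rw [Matrix.mulVec_single_one, Matrix.mulVec_single_one] at h2
  exact h2

/-- recursion from site `0` -/
lemma ins_succ (c : ℝ) (p : Fin (n + 1)) :
    ins n p.succ = (That (n + 2) (c + e3) 0)ᴴ * ins n p.castSucc * That (n + 1) c 0 := by
  rw [Matrix.mul_assoc, ← ins_shift, ← Matrix.mul_assoc, That_zero_isometry, Matrix.one_mul]

theorem ins_norm (p : Fin (n + 2)) : ‖ins n p‖ ≤ 1 := by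
  induction p using Fin.induction with
  | zero => rw [ins_zero]; exact A0_norm true
  | succ p ih =>
    rw [ins_succ 0 p]
    exact (sandwich_norm _ (That_zero_adj_le (n + 2) _) (That_zero_le (n + 1) _)).trans ih

lemma ins_defect (c : ℝ) (p : Fin (n + 1)) (x : ℂ) :
    That (n + 2) (c + e3) x * ins n p.succ - ins n p.succ * That (n + 1) c x =
      (That (n + 2) (c + e3) 0)ᴴ * (That (n + 2) (c + e3) x * ins n p.castSucc -
        ins n p.castSucc * That (n + 1) c x) * That (n + 1) c 0 := by
  have h1 : That (n + 2) (c + e3) x * (That (n + 2) (c + e3) 0)ᴴ =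
      (That (n + 2) (c + e3) 0)ᴴ * That (n + 2) (c + e3) x := by
    rw [That_adj]; exact That_comm _ _ _ _
  have h2 : That (n + 1) c 0 * That (n + 1) c x = That (n + 1) c x * That (n + 1) c 0 :=
    That_comm _ _ _ _
  rw [ins_succ c p, Matrix.mul_sub, Matrix.sub_mul]
  congr 1
  · rw [← Matrix.mul_assoc, ← Matrix.mul_assoc, h1]
    simp only [Matrix.mul_assoc]
  · simp only [Matrix.mul_assoc]
    rw [h2]

/-- **the defect bound for the explicit insertion** -/
theorem ins_defect_norm (c : ℝ) (p : Fin (n + 2)) {x : ℂ} (h0 : 0 ≤ x.re) (h1 : x.re ≤ 1)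
    (h2 : 0 ≤ x.im) :
    ‖That (n + 2) (c + e3) x * ins n p - ins n p * That (n + 1) c x‖ ≤
      4 * Real.exp (-(e3 * x.im)) := by
  induction p using Fin.induction with
  | zero => rw [ins_zero]; exact defect_norm c h0 h1 h2
  | succ p ih =>
    rw [ins_defect]
    exact (sandwich_norm _ (That_zero_adj_le (n + 2) _) (That_zero_le (n + 1) _)).trans ih

/-- two steps -/
theorem ins_shift2 (c : ℝ) (p : Fin n) :
    That (n + 2) (c + e3) 0 ^ 2 * ins n p.succ.succ = ins n p.castSucc.castSucc * That (n + 1) c 0 ^ 2 := by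
  have h1 := ins_shift (n := n) c p.succ
  have h2 := ins_shift (n := n) c p.castSucc
  rw [pow_two, pow_two, Matrix.mul_assoc, h1, ← Matrix.mul_assoc, ← Fin.succ_castSucc, h2,
    Matrix.mul_assoc]

end Crest.Agent.R158.Bd932
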