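import Crest.Agent.R150.Nut2_979
import Crest.Agent.R150.Nu1_932
import Crest.Agent.R150.Vt1_970

/-!
# Row 158: joint eigenvectors of the twisted lines at `η = π / 3` (helper979)

`Lh M Λ x = Λ x / SS (π/3) (1 + x) ^ M` for a joint eigenvector `TJE (π/3) M c Ψ Λ`, every `M ≥ 1`
(odd too) and every real twist `c`.

* `Lh_diff`, `Lh_cross`, `Lh_prod`, `Lh_side`
* `Lh_le` : `‖Lh x‖ ≤ exp (12 cosh (π im x) / M)`, `Lh_le6` : `‖Lh x‖ ≤ exp 6` in the closed strip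
* `Lh_mid` : `‖Lh (1/2 + i v)‖ ≤ exp (12 cosh (π v) / M)`
* `Lh_grow` : the majorant with `cos (k (re x - 1/2)) cosh (k im x)`, `k < π`
-/

set_option autoImplicit false

noncomputable section

open Matrix Filter Topology
open Crest.Agent.R150
open Crest.Agent.R150.Base357 (SS T)
open Crest.Agent.R150.Unit961 (aI aI_nonneg mon sr shy)
open Crest.Agent.R150.Nut979 (TJE tanh_nn tanh_mono)
open Crest.Agent.R150.Fus932 (cc cc_pos x0 OpBd)

namespace Crest.Agent.R158.Be979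

variable {c : ℝ} {M : ℕ} {Ψ : (Fin M → Bool) → ℂ} {Λ : ℂ → ℂ}

/-- the crossing parameter of percolation -/
def et : ℝ := Real.pi / 3

lemma et0 : 0 ≤ et := by unfold et; positivity

lemma et_pos : 0 < et := by unfold et; positivity

lemma et1 : et < Real.pi := by unfold et; linarith [Real.pi_pos]

lemma x0_et : x0 et = 1 / 2 := by
  unfold x0 et
  rw [if_pos (by linarith [Real.pi_pos])]

lemma cc_et : cc et = Real.pi / 2 := by
  unfold cc
  rw [x0_et]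
  ring

lemma SS_et (x : ℂ) : SS (et : ℂ) x = Complex.sin (et * x) / et := by
  unfold SS
  rw [if_neg (by exact_mod_cast et_pos.ne')]

lemma SS_two_add (x : ℂ) : SS (et : ℂ) (2 + x) = SS (et : ℂ) (1 - x) := by
  rw [SS_et, SS_et]
  congr 1
  have e : (et : ℂ) * (2 + x) = Real.pi - et * (1 - x) := by
    unfold et; push_cast; ring
  rw [e, Complex.sin_pi_sub]

lemma sr_et (a : ℝ) : sr et a = Real.sin (et * a) / et := by
  unfold sr
  rw [SS_et, ← Complex.ofReal_mul, ← Complex.ofReal_sin, ← Complex.ofReal_div, Complex.ofReal_re]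

lemma SS_ne {x : ℂ} (h0 : -1 < x.re) (h1 : x.re < 2) : SS (et : ℂ) (1 + x) ≠ 0 := by
  intro h
  have h2 := Unit961.normSq_SS et (1 + x.re) x.im
  have e : ((1 + x.re : ℝ) : ℂ) + x.im * Complex.I = 1 + x := by
    apply Complex.ext <;> simp
  rw [e, h, norm_zero] at h2
  have h3 : 0 < sr et (1 + x.re) := by
    rw [sr_et]
    refine div_pos (Real.sin_pos_of_pos_of_lt_pi ?_ ?_) et_pos
    · have := et_pos; nlinarith
    · have := Real.pi_pos; unfold et; nlinarith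
  nlinarith [sq_nonneg (shy et x.im)]

lemma SS_ne' {x : ℂ} (h0 : -2 < x.re) (h1 : x.re < 1) : SS (et : ℂ) (1 - x) ≠ 0 := by
  have := SS_ne (x := -x) (by simpa using by linarith) (by simpa using by linarith)
  rwa [← sub_eq_add_neg] at this

/-- the ratio -/
def Lh (M : ℕ) (Λ : ℂ → ℂ) (x : ℂ) : ℂ := Λ x / SS (et : ℂ) (1 + x) ^ M

lemma SS_diff : Differentiable ℂ (SS (et : ℂ)) := Unit961.SS_differentiable _

lemma Lh_diff (h : TJE et M c Ψ Λ) {x : ℂ} (h0 : -1 < x.re) (h1 : x.re < 2) :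
    DifferentiableAt ℂ (Lh M Λ) x := by
  unfold Lh
  refine (h.diff x).div ?_ (pow_ne_zero _ (SS_ne h0 h1))
  exact ((SS_diff.comp (by fun_prop)).pow M) x

lemma SS_cj (x : ℂ) : (starRingEnd ℂ) (SS (et : ℂ) x) = SS (et : ℂ) ((starRingEnd ℂ) x) := by
  have h := Base357.SS_conj (et : ℂ) x
  rwa [Complex.conj_ofReal] at h

lemma Lh_cross (h : TJE et M c Ψ Λ) (x : ℂ) :
    Lh M Λ (1 - (starRingEnd ℂ) x) = (starRingEnd ℂ) (Lh M Λ x) := by
  unfold Lh
  rw [h.conj, map_div₀, map_pow, SS_cj, map_add, map_one,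
    show (1 : ℂ) + (1 - (starRingEnd ℂ) x) = 2 + -(starRingEnd ℂ) x by ring, SS_two_add,
    sub_neg_eq_add]

/-- near inversion -/
theorem Lh_prod_tan (h : TJE et M c Ψ Λ) {x : ℂ} (hx : |x.re| ≤ 1 / 2) :
    ‖Lh M Λ x * Lh M Λ (x + 1) - 1‖ ≤ 3 * ‖Complex.tan (cc et * x)‖ ^ M := by
  have hx' := abs_le.1 hx
  have h1 := Gq979.tw_fus et0 et1 h.ne h.tc (x := x) (by rw [x0_et]; exact hx)
  have n1 : SS (et : ℂ) (1 - x) ≠ 0 := SS_ne' (by linarith) (by linarith)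
  have n2 : SS (et : ℂ) (1 + x) ≠ 0 := SS_ne (by linarith) (by linarith)
  have e1 : SS (et : ℂ) (1 + (x + 1)) = SS (et : ℂ) (1 - x) := by
    rw [← SS_two_add]; congr 1; ring
  have e2 : Lh M Λ x * Lh M Λ (x + 1) - 1 =
      (Λ x * Λ (x + 1) - (SS (et : ℂ) (1 - x) * SS (et : ℂ) (1 + x)) ^ M) /
        (SS (et : ℂ) (1 - x) * SS (et : ℂ) (1 + x)) ^ M := by
    unfold Lh
    rw [e1, mul_pow]
    have m1 := pow_ne_zero M n1
    have m2 := pow_ne_zero M n2
    field_simp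
  have hp : 0 < ‖SS (et : ℂ) (1 - x) * SS (et : ℂ) (1 + x)‖ := norm_pos_iff.2 (mul_ne_zero n1 n2)
  rw [e2, norm_div, norm_pow, div_le_iff₀ (by positivity)]
  refine h1.trans (le_of_eq ?_)
  rw [mul_pow]
  ring

lemma cos_quarter : 7 / 10 ≤ Real.cos (2 * (cc et * (1 / 4))) := by
  rw [cc_et, show 2 * (Real.pi / 2 * (1 / 4)) = Real.pi / 4 by ring, Real.cos_pi_div_four]
  have : (7 / 5 : ℝ) ≤ √2 := Real.le_sqrt_of_sq_le (by norm_num)
  linarith

/-- near inversion, explicit -/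
theorem Lh_prod (h : TJE et M c Ψ Λ) {x : ℂ} (hx : |x.re| ≤ 1 / 4) :
    ‖Lh M Λ x * Lh M Λ (x + 1) - 1‖ ≤
      3 * Real.exp (-(M / 3 * Real.exp (-(Real.pi * |x.im|)))) := by
  refine (Lh_prod_tan h (by linarith)).trans ?_
  have h2 := Nu932.tan_pow_le et0 et1 (d := 1 / 4) (by rw [x0_et]; norm_num) hx M
  refine mul_le_mul_of_nonneg_left (h2.trans ?_) (by norm_num)
  unfold Nu932.nuE
  refine Real.exp_le_exp.2 (neg_le_neg ?_)
  have h3 := cos_quarter
  have e : -(2 * cc et * |x.im|) = -(Real.pi * |x.im|) := by rw [cc_et]; ring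
  rw [e]
  have h4 := Real.exp_pos (-(Real.pi * |x.im|))
  have h5 : (0 : ℝ) ≤ M := Nat.cast_nonneg M
  have h6 : (2 / 3 : ℝ) * Real.exp (-(Real.pi * |x.im|)) ≤
      Real.cos (2 * (cc et * (1 / 4))) * Real.exp (-(Real.pi * |x.im|)) := by
    refine mul_le_mul_of_nonneg_right (by linarith) h4.le
  nlinarith

/-- the side -/
theorem Lh_side (h : TJE et M c Ψ Λ) (v : ℝ) :
    ‖Lh M Λ (v * Complex.I)‖ ≤
      Real.exp (3 / 2 * Real.exp (-(M / 2 * Real.exp (-(Real.pi * |v|))))) := by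
  have h1 := Lh_prod_tan h (x := v * Complex.I) (by simp)
  have e3 : Lh M Λ (v * Complex.I + 1) = (starRingEnd ℂ) (Lh M Λ (v * Complex.I)) := by
    rw [← Lh_cross h]
    congr 1
    simp [Complex.conj_ofReal, add_comm]
  have h2 := Nu932.tan_pow_le et0 et1 (d := 0) (x := v * Complex.I) (by rw [x0_et]; norm_num)
    (by simp) M
  rw [e3, Complex.mul_conj, Complex.normSq_eq_norm_sq] at h1
  set t : ℝ := Real.exp (-(M / 2 * Real.exp (-(Real.pi * |v|)))) with ht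
  have e4 : Nu932.nuE et 0 M (v * Complex.I).im = t := by
    unfold Nu932.nuE
    rw [ht, cc_et]
    simp only [mul_zero, Real.cos_zero, one_mul, Complex.mul_im, Complex.ofReal_re, Complex.I_im,
      mul_one, Complex.ofReal_im, Complex.I_re, add_zero]
    congr 4
    ring
  rw [e4] at h2
  have h5 : ‖((‖Lh M Λ (v * Complex.I)‖ ^ 2 : ℝ) : ℂ) - 1‖ = |‖Lh M Λ (v * Complex.I)‖ ^ 2 - 1| := by
    rw [← Complex.ofReal_one, ← Complex.ofReal_sub, Complex.norm_real, Real.norm_eq_abs]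
  rw [h5] at h1
  have h6 := (abs_le.1 h1).2
  have h7 : ‖Lh M Λ (v * Complex.I)‖ ^ 2 ≤ Real.exp (3 / 2 * t) ^ 2 := by
    have h8 : Real.exp (3 / 2 * t) ^ 2 = Real.exp (3 * t) := by
      rw [← Real.exp_nat_mul]; congr 1; push_cast; ring
    rw [h8]
    have := Real.add_one_le_exp (3 * t)
    linarith
  exact (pow_le_pow_iff_left₀ (norm_nonneg _) (Real.exp_pos _).le two_ne_zero).1 h7

theorem Lh_side' (h : TJE et M c Ψ Λ) (v : ℝ) :
    ‖Lh M Λ (1 + v * Complex.I)‖ ≤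
      Real.exp (3 / 2 * Real.exp (-(M / 2 * Real.exp (-(Real.pi * |v|))))) := by
  have e3 : Lh M Λ (1 + v * Complex.I) = (starRingEnd ℂ) (Lh M Λ (v * Complex.I)) := by
    rw [← Lh_cross h]
    congr 1
    simp [Complex.conj_ofReal]
  rw [e3, Complex.norm_conj]
  exact Lh_side h v

theorem Lh_zero (hM : 0 < M) (h : TJE et M c Ψ Λ) : ‖Lh M Λ 0‖ = 1 := by
  have h1 := Lh_prod_tan h (x := 0) (by simp)
  rw [mul_zero, Complex.tan_zero, norm_zero, zero_pow hM.ne', mul_zero] at h1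
  have e3 : Lh M Λ (0 + 1) = (starRingEnd ℂ) (Lh M Λ 0) := by
    rw [← Lh_cross h]
    congr 1
    simp
  rw [e3, Complex.mul_conj, Complex.normSq_eq_norm_sq] at h1
  have h2 : ((‖Lh M Λ 0‖ ^ 2 : ℝ) : ℂ) - 1 = 0 := norm_le_zero_iff.1 h1
  have h3 : ‖Lh M Λ 0‖ ^ 2 = 1 := by
    have : ((‖Lh M Λ 0‖ ^ 2 : ℝ) : ℂ) = 1 := by linear_combination h2
    exact_mod_cast this
  exact (pow_eq_one_iff_of_nonneg (norm_nonneg _) two_ne_zero).1 h3

/-! ### a priori bound -/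

theorem Lh_bounded (h : TJE et M c Ψ Λ) :
    ∃ C : ℝ, ∀ x : ℂ, 0 ≤ x.re → x.re ≤ 1 → ‖Lh M Λ x‖ ≤ C := by
  have hcomp : IsCompact (Set.Icc (0 : ℝ) 1 ×ℂ Set.Icc (-1 : ℝ) 1) :=
    isCompact_Icc.reProdIm isCompact_Icc
  have hcont : ContinuousOn (Lh M Λ) (Set.Icc (0 : ℝ) 1 ×ℂ Set.Icc (-1 : ℝ) 1) := by
    intro x hx
    rw [Complex.mem_reProdIm] at hx
    exact (Lh_diff h (by linarith [hx.1.1]) (by linarith [hx.1.2])).continuousAt.continuousWithinAt
  obtain ⟨C1, hC1⟩ := hcomp.exists_bound_of_continuousOn hcont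
  obtain ⟨i, hi⟩ := Function.ne_iff.1 h.ne
  have hi' : Ψ i ≠ 0 := hi
  set K : ℝ := (∑ s', 2 * ‖Ψ s'‖) / ‖Ψ i‖ with hK
  refine ⟨max C1 (4 ^ M * K), fun x hx0 hx1 => ?_⟩
  by_cases hy : |x.im| ≤ 1
  · exact (hC1 x (by
      rw [Complex.mem_reProdIm]
      exact ⟨⟨hx0, hx1⟩, abs_le.1 hy⟩)).trans (le_max_left _ _)
  · refine le_trans ?_ (le_max_right _ _)
    rw [not_le] at hy
    have hS1 : 1 ≤ shy et x.im := hy.le.trans (Asy961.le_shy et x.im)
    have hxe : (x.re : ℂ) + x.im * Complex.I = x := Complex.re_add_im x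
    have hent : ∀ (d t : Bool) s s', ‖mon (et : ℂ) (fun _ : Fin M => 0) x d t s s'‖ ≤
        (4 * shy et x.im) ^ M := by
      intro d t s s'
      have := Asy961.mon_entry_le et M hx0 hx1 hS1 d t s s'
      rwa [hxe] at this
    have hT : ∀ s', ‖Gap970.TPh (et : ℂ) M c x i s'‖ ≤ 2 * (4 * shy et x.im) ^ M := by
      intro s'
      rw [Vt970.TPh_eq2, Matrix.add_apply, Matrix.smul_apply, Matrix.smul_apply]
      refine (norm_add_le _ _).trans ?_
      have u1 : ‖Complex.exp (c * Complex.I)‖ = 1 := Complex.norm_exp_ofReal_mul_I c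
      have u2 : ‖Complex.exp (-c * Complex.I)‖ = 1 := by
        have := Complex.norm_exp_ofReal_mul_I (-c)
        rwa [Complex.ofReal_neg] at this
      rw [smul_eq_mul, smul_eq_mul, norm_mul, norm_mul, u1, u2, one_mul, one_mul]
      linarith [hent true true i s', hent false false i s']
    have hΛ : ‖Λ x‖ * ‖Ψ i‖ ≤ (4 * shy et x.im) ^ M * ∑ s', 2 * ‖Ψ s'‖ := by
      have h3 := congrFun (h.eig x) i
      simp only [Matrix.mulVec, dotProduct, Pi.smul_apply, smul_eq_mul] at h3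
      rw [← norm_mul, ← h3, Finset.mul_sum]
      refine (norm_sum_le _ _).trans (Finset.sum_le_sum fun s' _ => ?_)
      rw [norm_mul]
      have := mul_le_mul_of_nonneg_right (hT s') (norm_nonneg (Ψ s'))
      linarith
    have hpos : 0 < shy et x.im := by linarith
    have hSS : shy et x.im ≤ ‖SS (et : ℂ) (1 + x)‖ := by
      have h2 := Unit961.normSq_SS et (1 + x.re) x.im
      have e : ((1 + x.re : ℝ) : ℂ) + x.im * Complex.I = 1 + x := by
        apply Complex.ext <;> simp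
      rw [e] at h2
      refine (pow_le_pow_iff_left₀ hpos.le (norm_nonneg _) two_ne_zero).1 ?_
      rw [h2]
      nlinarith [sq_nonneg (sr et (1 + x.re))]
    have hPi : 0 < ‖Ψ i‖ := norm_pos_iff.2 hi'
    unfold Lh
    have hSS0 : 0 < ‖SS (et : ℂ) (1 + x)‖ := hpos.trans_le hSS
    rw [norm_div, norm_pow, div_le_iff₀ (by positivity)]
    have h5 : ‖Λ x‖ ≤ (4 * shy et x.im) ^ M * K := by
      rw [hK, mul_div_assoc', le_div_iff₀ hPi]
      exact hΛ
    refine h5.trans ?_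
    have hK0 : 0 ≤ K := by rw [hK]; positivity
    calc (4 * shy et x.im) ^ M * K = 4 ^ M * K * shy et x.im ^ M := by rw [mul_pow]; ring
      _ ≤ _ := by gcongr

/-! ### Phragmén-Lindelöf with an analytic majorant -/

theorem pl_an {f g : ℂ → ℂ} {C0 : ℝ}
    (hf : ∀ x : ℂ, 0 ≤ x.re → x.re ≤ 1 → DifferentiableAt ℂ f x)
    (hg : ∀ x : ℂ, 0 ≤ x.re → x.re ≤ 1 → DifferentiableAt ℂ g x)
    (hb : ∀ x : ℂ, 0 ≤ x.re → x.re ≤ 1 → ‖f x‖ ≤ C0)
    (hg0 : ∀ x : ℂ, 0 ≤ x.re → x.re ≤ 1 → 0 ≤ (g x).re)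
    (hl : ∀ v : ℝ, ‖f (v * Complex.I)‖ ≤ Real.exp (g (v * Complex.I)).re)
    (hr : ∀ v : ℝ, ‖f (1 + v * Complex.I)‖ ≤ Real.exp (g (1 + v * Complex.I)).re)
    {x : ℂ} (h0 : 0 ≤ x.re) (h1 : x.re ≤ 1) : ‖f x‖ ≤ Real.exp (g x).re := by
  have hn : ∀ z : ℂ, ‖f z * Complex.exp (-g z)‖ = ‖f z‖ * Real.exp (-(g z).re) := by
    intro z
    rw [norm_mul, Complex.norm_exp, Complex.neg_re]
  have hC0 : 0 ≤ C0 := (norm_nonneg _).trans (hb 0 (by simp) (by simp))
  have hdc : DiffContOnCl ℂ (fun z => f z * Complex.exp (-g z)) (Complex.re ⁻¹' Set.Ioo 0 1) := by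
    have hd : ∀ z : ℂ, 0 ≤ z.re → z.re ≤ 1 →
        DifferentiableAt ℂ (fun z => f z * Complex.exp (-g z)) z := fun z hz0 hz1 =>
      (hf z hz0 hz1).mul ((hg z hz0 hz1).neg.cexp)
    constructor
    · intro z hz
      have hz' : 0 < z.re ∧ z.re < 1 := hz
      exact (hd z hz'.1.le hz'.2.le).differentiableWithinAt
    · rw [ThmB961.strip_closure]
      intro z hz
      have hz' : 0 ≤ z.re ∧ z.re ≤ 1 := hz
      exact (hd z hz'.1 hz'.2).continuousAt.continuousWithinAt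
  have key := PhragmenLindelof.vertical_strip (a := 0) (b := 1) (C := 1) hdc ?_ ?_ ?_ h0 h1
  · rw [hn, Real.exp_neg, ← div_eq_mul_inv, div_le_one (Real.exp_pos _)] at key
    exact key
  · refine ⟨0, by simp [Real.pi_pos], 0, ?_⟩
    refine Asymptotics.IsBigO.of_bound C0 ?_
    rw [Filter.eventually_inf_principal]
    refine Filter.Eventually.of_forall fun z hz => ?_
    have hz' : 0 < z.re ∧ z.re < 1 := hz
    rw [hn]
    have h3 := hb z hz'.1.le hz'.2.le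
    have h4 : Real.exp (-(g z).re) ≤ 1 := Real.exp_le_one_iff.2 (by linarith [hg0 z hz'.1.le hz'.2.le])
    have h5 : ‖f z‖ * Real.exp (-(g z).re) ≤ C0 * 1 :=
      mul_le_mul h3 h4 (Real.exp_pos _).le hC0
    simpa using h5
  · intro z hz
    have e : z = (z.im : ℂ) * Complex.I := by
      apply Complex.ext <;> simp [hz]
    have h2 := hl z.im
    rw [← e] at h2
    rw [hn, Real.exp_neg, ← div_eq_mul_inv, div_le_one (Real.exp_pos _)]
    exact h2
  · intro z hz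
    have e : z = 1 + (z.im : ℂ) * Complex.I := by
      apply Complex.ext <;> simp [hz]
    have h2 := hr z.im
    rw [← e] at h2
    rw [hn, Real.exp_neg, ← div_eq_mul_inv, div_le_one (Real.exp_pos _)]
    exact h2

/-! ### the half plane majorant -/

/-- `D = 1 - i m e^{iπx}` -/
def Dp (m : ℝ) (x : ℂ) : ℂ := 1 - Complex.I * m * Complex.exp (Complex.I * Real.pi * x)

/-- `D = 1 + i m e^{-iπx}` -/
def Dm (m : ℝ) (x : ℂ) : ℂ := 1 + Complex.I * m * Complex.exp (-(Complex.I * Real.pi * x))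

lemma exp_re (x : ℂ) : (Complex.exp (Complex.I * Real.pi * x)).re =
    Real.exp (-(Real.pi * x.im)) * Real.cos (Real.pi * x.re) := by
  rw [Complex.exp_re]
  congr 2 <;> simp

lemma exp_im (x : ℂ) : (Complex.exp (Complex.I * Real.pi * x)).im =
    Real.exp (-(Real.pi * x.im)) * Real.sin (Real.pi * x.re) := by
  rw [Complex.exp_im]
  congr 2 <;> simp

lemma exp_re' (x : ℂ) : (Complex.exp (-(Complex.I * Real.pi * x))).re =
    Real.exp (Real.pi * x.im) * Real.cos (Real.pi * x.re) := by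
  have h := exp_re (-x)
  rw [mul_neg] at h
  rw [h]
  simp

lemma exp_im' (x : ℂ) : (Complex.exp (-(Complex.I * Real.pi * x))).im =
    -(Real.exp (Real.pi * x.im) * Real.sin (Real.pi * x.re)) := by
  have h := exp_im (-x)
  rw [mul_neg] at h
  rw [h]
  simp

lemma Dp_re (m : ℝ) (x : ℂ) : (Dp m x).re =
    1 + m * (Real.exp (-(Real.pi * x.im)) * Real.sin (Real.pi * x.re)) := by
  unfold Dp
  rw [Complex.sub_re, Complex.mul_re, exp_im]
  simp

lemma Dp_im (m : ℝ) (x : ℂ) : (Dp m x).im =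
    -(m * (Real.exp (-(Real.pi * x.im)) * Real.cos (Real.pi * x.re))) := by
  unfold Dp
  rw [Complex.sub_im, Complex.mul_im, exp_re]
  simp

lemma Dm_re (m : ℝ) (x : ℂ) : (Dm m x).re =
    1 + m * (Real.exp (Real.pi * x.im) * Real.sin (Real.pi * x.re)) := by
  unfold Dm
  rw [Complex.add_re, Complex.mul_re, exp_im']
  simp

lemma Dm_im (m : ℝ) (x : ℂ) : (Dm m x).im =
    m * (Real.exp (Real.pi * x.im) * Real.cos (Real.pi * x.re)) := by
  unfold Dm
  rw [Complex.add_im, Complex.mul_im, exp_re']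
  simp

lemma sin_nn {x : ℂ} (h0 : 0 ≤ x.re) (h1 : x.re ≤ 1) : 0 ≤ Real.sin (Real.pi * x.re) :=
  Real.sin_nonneg_of_nonneg_of_le_pi (by have := Real.pi_pos; positivity)
    (by have := Real.pi_pos; nlinarith)

lemma inv_re_le {D : ℂ} (hD : 1 ≤ D.re) : 0 ≤ (D⁻¹).re ∧ (D⁻¹).re ≤ 1 ∧ (D⁻¹).re ≤ 1 / ‖D‖ := by
  have h1 : 0 < Complex.normSq D := Complex.normSq_pos.2 (by
    intro h; rw [h] at hD; simp at hD; linarith)
  rw [Complex.inv_re]
  refine ⟨div_nonneg (by linarith) h1.le, ?_, ?_⟩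
  · rw [div_le_one h1, Complex.normSq_apply]
    nlinarith [mul_self_nonneg D.im]
  · have h2 : 0 < ‖D‖ := norm_pos_iff.2 (by intro h; rw [h] at hD; simp at hD; linarith)
    rw [Complex.normSq_eq_norm_sq, div_le_div_iff₀ (by positivity) h2, one_mul, sq]
    exact mul_le_mul_of_nonneg_right (Complex.re_le_norm D) h2.le

/-- the majorant -/
def Wm (m : ℝ) (x : ℂ) : ℂ := 3 * ((Dp m x)⁻¹ + (Dm m x)⁻¹)

section maj

variable {m : ℝ}

lemma Dp_one (hm : 0 ≤ m) {x : ℂ} (h0 : 0 ≤ x.re) (h1 : x.re ≤ 1) : 1 ≤ (Dp m x).re := by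
  rw [Dp_re]
  have := sin_nn h0 h1
  have h2 := Real.exp_pos (-(Real.pi * x.im))
  have : 0 ≤ m * (Real.exp (-(Real.pi * x.im)) * Real.sin (Real.pi * x.re)) := by positivity
  linarith

lemma Dm_one (hm : 0 ≤ m) {x : ℂ} (h0 : 0 ≤ x.re) (h1 : x.re ≤ 1) : 1 ≤ (Dm m x).re := by
  rw [Dm_re]
  have := sin_nn h0 h1
  have h2 := Real.exp_pos (Real.pi * x.im)
  have : 0 ≤ m * (Real.exp (Real.pi * x.im) * Real.sin (Real.pi * x.re)) := by positivity
  linarith

lemma ne_of_re {D : ℂ} (hD : 1 ≤ D.re) : D ≠ 0 := by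
  intro h; rw [h] at hD; simp at hD; linarith

lemma Wm_diff (hm : 0 ≤ m) {x : ℂ} (h0 : 0 ≤ x.re) (h1 : x.re ≤ 1) :
    DifferentiableAt ℂ (Wm m) x := by
  have d1 : DifferentiableAt ℂ (Dp m) x := by unfold Dp; fun_prop
  have d2 : DifferentiableAt ℂ (Dm m) x := by unfold Dm; fun_prop
  exact ((d1.inv (ne_of_re (Dp_one hm h0 h1))).add (d2.inv (ne_of_re (Dm_one hm h0 h1)))).const_mul 3

lemma Wm_re (m : ℝ) (x : ℂ) : (Wm m x).re = 3 * (((Dp m x)⁻¹).re + ((Dm m x)⁻¹).re) := by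
  unfold Wm
  rw [show (3 : ℂ) = ((3 : ℝ) : ℂ) by norm_num, Complex.re_ofReal_mul, Complex.add_re]

lemma Wm_nn (hm : 0 ≤ m) {x : ℂ} (h0 : 0 ≤ x.re) (h1 : x.re ≤ 1) : 0 ≤ (Wm m x).re := by
  rw [Wm_re]
  have a1 := (inv_re_le (Dp_one hm h0 h1)).1
  have a2 := (inv_re_le (Dm_one hm h0 h1)).1
  positivity

lemma Wm_le6 (hm : 0 ≤ m) {x : ℂ} (h0 : 0 ≤ x.re) (h1 : x.re ≤ 1) : (Wm m x).re ≤ 6 := by
  rw [Wm_re]
  linarith [(inv_re_le (Dp_one hm h0 h1)).2.1, (inv_re_le (Dm_one hm h0 h1)).2.1]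

lemma norm_Dp (hm : 0 ≤ m) {x : ℂ} (h0 : 0 ≤ x.re) (h1 : x.re ≤ 1) :
    m * Real.exp (-(Real.pi * x.im)) ≤ ‖Dp m x‖ := by
  refine (pow_le_pow_iff_left₀ (by positivity) (norm_nonneg _) two_ne_zero).1 ?_
  rw [← Complex.normSq_eq_norm_sq, Complex.normSq_apply, Dp_re, Dp_im]
  have h2 := Real.sin_sq_add_cos_sq (Real.pi * x.re)
  have h3 := sin_nn h0 h1
  set E := Real.exp (-(Real.pi * x.im)) with hE
  have hE0 : 0 < E := Real.exp_pos _
  have h4 : 0 ≤ m * (E * Real.sin (Real.pi * x.re)) := by positivity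
  have h5 : (m * E) ^ 2 = (m * E) ^ 2 * (Real.sin (Real.pi * x.re) ^ 2 +
    Real.cos (Real.pi * x.re) ^ 2) := by rw [h2, mul_one]
  nlinarith

lemma norm_Dm (hm : 0 ≤ m) {x : ℂ} (h0 : 0 ≤ x.re) (h1 : x.re ≤ 1) :
    m * Real.exp (Real.pi * x.im) ≤ ‖Dm m x‖ := by
  refine (pow_le_pow_iff_left₀ (by positivity) (norm_nonneg _) two_ne_zero).1 ?_
  rw [← Complex.normSq_eq_norm_sq, Complex.normSq_apply, Dm_re, Dm_im]
  have h2 := Real.sin_sq_add_cos_sq (Real.pi * x.re)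
  have h3 := sin_nn h0 h1
  set E := Real.exp (Real.pi * x.im) with hE
  have hE0 : 0 < E := Real.exp_pos _
  have h4 : 0 ≤ m * (E * Real.sin (Real.pi * x.re)) := by positivity
  have h5 : (m * E) ^ 2 = (m * E) ^ 2 * (Real.sin (Real.pi * x.re) ^ 2 +
    Real.cos (Real.pi * x.re) ^ 2) := by rw [h2, mul_one]
  nlinarith

lemma Wm_le (hm : 0 < m) {x : ℂ} (h0 : 0 ≤ x.re) (h1 : x.re ≤ 1) :
    (Wm m x).re ≤ 6 * Real.cosh (Real.pi * x.im) / m := by
  rw [Wm_re]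
  have a1 := (inv_re_le (Dp_one hm.le h0 h1)).2.2
  have a2 := (inv_re_le (Dm_one hm.le h0 h1)).2.2
  have b1 := norm_Dp hm.le h0 h1
  have b2 := norm_Dm hm.le h0 h1
  have c1 : 1 / ‖Dp m x‖ ≤ 1 / (m * Real.exp (-(Real.pi * x.im))) :=
    one_div_le_one_div_of_le (by positivity) b1
  have c2 : 1 / ‖Dm m x‖ ≤ 1 / (m * Real.exp (Real.pi * x.im)) :=
    one_div_le_one_div_of_le (by positivity) b2
  have d1 : 1 / (m * Real.exp (-(Real.pi * x.im))) = Real.exp (Real.pi * x.im) / m := by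
    rw [Real.exp_neg]; field_simp
  have d2 : 1 / (m * Real.exp (Real.pi * x.im)) = Real.exp (-(Real.pi * x.im)) / m := by
    rw [Real.exp_neg]; field_simp
  rw [Real.cosh_eq]
  rw [d1] at c1
  rw [d2] at c2
  calc 3 * (((Dp m x)⁻¹).re + ((Dm m x)⁻¹).re) ≤
        3 * (Real.exp (Real.pi * x.im) / m + Real.exp (-(Real.pi * x.im)) / m) := by
        linarith
    _ = _ := by ring

/-- real part on the sides -/
lemma inv_side {D : ℂ} {y : ℝ} (hr : D.re = 1) (hi : D.im ^ 2 = y ^ 2) :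
    (D⁻¹).re = 1 / (1 + y ^ 2) := by
  rw [Complex.inv_re, Complex.normSq_apply, hr, mul_one, ← sq, hi]

lemma exp_dom {y : ℝ} (hy : 0 ≤ y) : 3 / 2 * Real.exp (-y) ≤ 3 * (1 / (1 + y ^ 2)) := by
  have h := Real.quadratic_le_exp_of_nonneg hy
  rw [Real.exp_neg, mul_one_div, le_div_iff₀ (by positivity)]
  have h2 : 0 < Real.exp y := Real.exp_pos y
  rw [mul_assoc, inv_mul_eq_div, mul_div_assoc', div_le_iff₀ h2]
  nlinarith

lemma side_dom (hm : 0 ≤ m) {x : ℂ} (hx : x.re = 0 ∨ x.re = 1) :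
    3 / 2 * Real.exp (-(m * Real.exp (-(Real.pi * |x.im|)))) ≤ (Wm m x).re := by
  have h0 : 0 ≤ x.re := by rcases hx with h | h <;> simp [h]
  have h1 : x.re ≤ 1 := by rcases hx with h | h <;> simp [h]
  have hs : Real.sin (Real.pi * x.re) = 0 := by rcases hx with h | h <;> simp [h]
  have hc : Real.cos (Real.pi * x.re) ^ 2 = 1 := by rcases hx with h | h <;> simp [h]
  rw [Wm_re]
  have a1 := (inv_re_le (Dp_one hm h0 h1)).1
  have a2 := (inv_re_le (Dm_one hm h0 h1)).1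
  have e1 : ((Dp m x)⁻¹).re = 1 / (1 + (m * Real.exp (-(Real.pi * x.im))) ^ 2) := by
    refine inv_side (by rw [Dp_re, hs]; ring) ?_
    rw [Dp_im]
    linear_combination (m * Real.exp (-(Real.pi * x.im))) ^ 2 * hc
  have e2 : ((Dm m x)⁻¹).re = 1 / (1 + (m * Real.exp (Real.pi * x.im)) ^ 2) := by
    refine inv_side (by rw [Dm_re, hs]; ring) ?_
    rw [Dm_im]
    linear_combination (m * Real.exp (Real.pi * x.im)) ^ 2 * hc
  rcases le_total 0 x.im with hi | hi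
  · rw [abs_of_nonneg hi]
    have := exp_dom (y := m * Real.exp (-(Real.pi * x.im))) (by positivity)
    rw [← e1] at this
    linarith
  · rw [abs_of_nonpos hi]
    have := exp_dom (y := m * Real.exp (Real.pi * x.im)) (by positivity)
    rw [← e2] at this
    rw [show -(Real.pi * -x.im) = Real.pi * x.im by ring]
    linarith

end maj

/-- **the bound in the strip** -/
theorem Lh_Wm (h : TJE et M c Ψ Λ) {x : ℂ} (h0 : 0 ≤ x.re) (h1 : x.re ≤ 1) :
    ‖Lh M Λ x‖ ≤ Real.exp (Wm (M / 2) x).re := by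
  obtain ⟨C0, hC0⟩ := Lh_bounded h
  have hm : (0 : ℝ) ≤ M / 2 := by positivity
  refine pl_an (C0 := C0) (fun z hz0 hz1 => Lh_diff h (by linarith) (by linarith))
    (fun z hz0 hz1 => Wm_diff hm hz0 hz1) hC0 (fun z hz0 hz1 => Wm_nn hm hz0 hz1) ?_ ?_ h0 h1
  · intro v
    refine (Lh_side h v).trans (Real.exp_le_exp.2 ?_)
    have := side_dom hm (x := v * Complex.I) (Or.inl (by simp))
    simpa using this
  · intro v
    refine (Lh_side' h v).trans (Real.exp_le_exp.2 ?_)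
    have := side_dom hm (x := 1 + v * Complex.I) (Or.inr (by simp))
    simpa using this

theorem Lh_le6 (h : TJE et M c Ψ Λ) {x : ℂ} (h0 : 0 ≤ x.re) (h1 : x.re ≤ 1) :
    ‖Lh M Λ x‖ ≤ Real.exp 6 :=
  (Lh_Wm h h0 h1).trans (Real.exp_le_exp.2 (Wm_le6 (by positivity) h0 h1))

theorem Lh_le (hM : 0 < M) (h : TJE et M c Ψ Λ) {x : ℂ} (h0 : 0 ≤ x.re) (h1 : x.re ≤ 1) :
    ‖Lh M Λ x‖ ≤ Real.exp (12 * Real.cosh (Real.pi * x.im) / M) := by
  have hM' : (0 : ℝ) < M := by exact_mod_cast hM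
  refine (Lh_Wm h h0 h1).trans (Real.exp_le_exp.2 ((Wm_le (by positivity) h0 h1).trans
    (le_of_eq ?_)))
  field_simp
  ring

/-- the norm of the isotropic row -/
theorem Lh_mid (hM : 0 < M) (h : TJE et M c Ψ Λ) : ‖Lh M Λ (1 / 2)‖ ≤ Real.exp (12 / M) := by
  have h2 := Lh_le hM h (x := 1 / 2) (by norm_num) (by norm_num)
  simpa using h2

end Crest.Agent.R158.Be979
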