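import Crest.Agent.R150.OM1_361

/-!
# Row 158: antiperiodic functions in a rectangle (helper410)

* `two_modes` : bounds of the two coefficients
* `anti_small` : a bounded antiperiodic function is `O (exp (-π (h - |im|)))`
* `near_one` : the same for `F - 1 / F`, `F` nearly inverse to its shift
* `extract` : discrete Cauchy-Riemann relation from decay on one side
-/

set_option autoImplicit false

noncomputable section

open Complex Set Filter Topology

namespace Crest.Agent.R158.Cut410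

open Crest.Agent.R150

variable {f F : ℂ → ℂ} {b h M s : ℝ}

lemma norm_e1 (z : ℂ) : ‖Complex.exp (-(I * (Real.pi * z)))‖ = Real.exp (Real.pi * z.im) := by
  rw [Complex.norm_exp]
  congr 1
  simp

lemma norm_e2 (z : ℂ) : ‖Complex.exp (I * (Real.pi * z))‖ = Real.exp (-(Real.pi * z.im)) := by
  rw [Complex.norm_exp]
  congr 1
  simp

lemma exp_pi_le : Real.exp Real.pi ≤ 55 := by
  have h1 : Real.exp Real.pi ≤ Real.exp 4 := Real.exp_le_exp.2 Real.pi_lt_four.le
  have h2 : Real.exp 4 = Real.exp 1 ^ 4 := by rw [← Real.exp_nat_mul]; norm_num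
  have h3 := Real.exp_one_lt_d9
  have h4 : Real.exp 1 ^ 4 ≤ 2.7182818286 ^ 4 :=
    pow_le_pow_left₀ (Real.exp_pos _).le h3.le 4
  rw [h2] at h1
  refine h1.trans (h4.trans ?_)
  norm_num

/-- the two coefficients -/
theorem two_modes (hh : 2 ≤ h) (hM : 0 ≤ M)
    (hf : ∀ x : ℂ, b ≤ x.re → x.re ≤ b + 1 → |x.im| ≤ h → DifferentiableAt ℂ f x ∧ ‖f x‖ ≤ M)
    (hs : ∀ y : ℝ, |y| ≤ h → ‖f (((b + 1 : ℝ) : ℂ) + y * I) + f (b + y * I)‖ ≤ s) :
    ∃ α β : ℂ, ‖α‖ + ‖β‖ ≤ (440 * M + 110 * s) * Real.exp (-(Real.pi * h)) ∧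
      ∀ z : ℂ, b < z.re → z.re < b + 1 → |z.im| ≤ h - 1 →
      ‖f z - α * Complex.exp (-(I * (Real.pi * z))) - β * Complex.exp (I * (Real.pi * z))‖ ≤
      4 * M * Real.exp (-(3 * (Real.pi * (h - |z.im|)))) +
        s / (2 * Real.sin (Real.pi * (z.re - b))) := by
  have hpi := Real.pi_pos
  have hpi3 := Real.pi_gt_three
  have hs0 : 0 ≤ s := (norm_nonneg _).trans (hs 0 (by simp; linarith))
  have hh0 : 0 ≤ h := by linarith
  obtain ⟨α, β, hE⟩ := OM361.modes (f := f) (b := b) (h := h) (M := M) (s := s) (by linarith)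
    (fun x h1 h2 h3 => (hf x h1 h2 h3).1)
    (fun t h1 h2 => (hf _ (by simpa using h1) (by simpa using h2) (by
      simp [abs_of_nonneg hh0])).2)
    (fun t h1 h2 => (hf _ (by simpa using h1) (by simpa using h2) (by
      simp [abs_of_nonneg hh0])).2) hs
  have hE' : ∀ z : ℂ, b < z.re → z.re < b + 1 → |z.im| ≤ h - 1 →
      ‖f z - α * Complex.exp (-(I * (Real.pi * z))) - β * Complex.exp (I * (Real.pi * z))‖ ≤
      4 * M * Real.exp (-(3 * (Real.pi * (h - |z.im|)))) +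
        s / (2 * Real.sin (Real.pi * (z.re - b))) := by
    intro z h1 h2 h3
    refine (hE z h1 h2 h3).trans ?_
    have h4 : Real.exp (-(3 * (Real.pi * (h - z.im)))) ≤
        Real.exp (-(3 * (Real.pi * (h - |z.im|)))) := by
      refine Real.exp_le_exp.2 ?_
      have : Real.pi * (h - |z.im|) ≤ Real.pi * (h - z.im) := by
        gcongr
        exact le_abs_self _
      linarith
    have h5 : Real.exp (-(3 * (Real.pi * (h + z.im)))) ≤
        Real.exp (-(3 * (Real.pi * (h - |z.im|)))) := by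
      refine Real.exp_le_exp.2 ?_
      have : Real.pi * (h - |z.im|) ≤ Real.pi * (h + z.im) := by
        gcongr
        linarith [neg_abs_le z.im]
      linarith
    have h6 : 2 * M * (Real.exp (-(3 * (Real.pi * (h - z.im)))) +
        Real.exp (-(3 * (Real.pi * (h + z.im))))) ≤
        2 * M * (Real.exp (-(3 * (Real.pi * (h - |z.im|)))) +
          Real.exp (-(3 * (Real.pi * (h - |z.im|))))) := by gcongr
    linarith
  refine ⟨α, β, ?_, hE'⟩
  -- evaluation at the edges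
  have hedge : ∀ σ : ℝ, |σ| = h - 1 →
      ‖α * Complex.exp (-(I * (Real.pi * (((b + 1 / 2 : ℝ) : ℂ) + σ * I)))) +
        β * Complex.exp (I * (Real.pi * (((b + 1 / 2 : ℝ) : ℂ) + σ * I)))‖ ≤ 2 * M + s / 2 := by
    intro σ hσ
    set z : ℂ := ((b + 1 / 2 : ℝ) : ℂ) + σ * I with hz
    have hzr : z.re = b + 1 / 2 := by simp [hz]
    have hzi : z.im = σ := by simp [hz]
    have h1 := hE' z (by rw [hzr]; linarith) (by rw [hzr]; linarith) (by rw [hzi, hσ])
    rw [hzr, hzi, hσ, show Real.pi * (b + 1 / 2 - b) = Real.pi / 2 by ring,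
      Real.sin_pi_div_two, mul_one, show h - (h - 1) = 1 by ring, mul_one] at h1
    have h2 : ‖f z‖ ≤ M := (hf z (by rw [hzr]; linarith) (by rw [hzr]; linarith)
      (by rw [hzi, hσ]; linarith)).2
    have h3 : 4 * Real.exp (-(3 * Real.pi)) ≤ 1 := by
      have h4 : Real.exp (-(3 * Real.pi)) ≤ Real.exp (-(3 : ℝ)) := Real.exp_le_exp.2 (by linarith)
      have h5 : Real.exp (-(3 : ℝ)) ≤ 1 / 4 := by
        rw [Real.exp_neg, ← one_div]
        have h6 := Real.add_one_le_exp (3 : ℝ)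
        exact one_div_le_one_div_of_le (by norm_num) (by linarith)
      linarith
    have h4 : 4 * M * Real.exp (-(3 * Real.pi)) ≤ M := by nlinarith
    have e : α * Complex.exp (-(I * (Real.pi * z))) + β * Complex.exp (I * (Real.pi * z)) =
        f z - (f z - α * Complex.exp (-(I * (Real.pi * z))) -
          β * Complex.exp (I * (Real.pi * z))) := by ring
    rw [e]
    refine (norm_sub_le _ _).trans ?_
    linarith
  have hne : ∀ z : ℂ, ‖α * Complex.exp (-(I * (Real.pi * z)))‖ = ‖α‖ * Real.exp (Real.pi * z.im) :=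
    fun z => by rw [norm_mul, norm_e1]
  have hne' : ∀ z : ℂ, ‖β * Complex.exp (I * (Real.pi * z))‖ =
      ‖β‖ * Real.exp (-(Real.pi * z.im)) := fun z => by rw [norm_mul, norm_e2]
  set P : ℝ := Real.exp (Real.pi * (h - 1)) with hP
  set Q : ℝ := Real.exp (-(Real.pi * (h - 1))) with hQ
  have hP0 : 0 < P := Real.exp_pos _
  have hQP : 2 * Q ≤ P := by
    have h1 : Real.exp 1 * Q ≤ P := by
      rw [hQ, hP, ← Real.exp_add]
      refine Real.exp_le_exp.2 ?_
      have : Real.pi * 1 ≤ Real.pi * (h - 1) := by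
        gcongr
        linarith
      linarith
    have h2 : (2 : ℝ) ≤ Real.exp 1 := by
      have := Real.add_one_le_exp (1 : ℝ); linarith
    have h3 : 0 < Q := Real.exp_pos _
    nlinarith
  have a1 : ‖α‖ * P ≤ 2 * M + s / 2 + ‖β‖ * Q := by
    have h1 := hedge (h - 1) (abs_of_nonneg (by linarith))
    have h2 := hne (((b + 1 / 2 : ℝ) : ℂ) + ((h - 1 : ℝ) : ℂ) * I)
    have h3 := hne' (((b + 1 / 2 : ℝ) : ℂ) + ((h - 1 : ℝ) : ℂ) * I)
    have e : (((b + 1 / 2 : ℝ) : ℂ) + ((h - 1 : ℝ) : ℂ) * I).im = h - 1 := by simp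
    rw [e] at h2 h3
    rw [← hP] at h2
    rw [← hQ] at h3
    rw [← h2, ← h3]
    have h4 := norm_sub_norm_le (α * Complex.exp (-(I * (Real.pi *
      (((b + 1 / 2 : ℝ) : ℂ) + ((h - 1 : ℝ) : ℂ) * I)))))
      (-(β * Complex.exp (I * (Real.pi * (((b + 1 / 2 : ℝ) : ℂ) + ((h - 1 : ℝ) : ℂ) * I)))))
    rw [norm_neg, sub_neg_eq_add] at h4
    linarith
  have a2 : ‖β‖ * P ≤ 2 * M + s / 2 + ‖α‖ * Q := by
    have h1 := hedge (-(h - 1)) (by rw [abs_neg, abs_of_nonneg (by linarith)])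
    have h2 := hne (((b + 1 / 2 : ℝ) : ℂ) + ((-(h - 1) : ℝ) : ℂ) * I)
    have h3 := hne' (((b + 1 / 2 : ℝ) : ℂ) + ((-(h - 1) : ℝ) : ℂ) * I)
    have e : (((b + 1 / 2 : ℝ) : ℂ) + ((-(h - 1) : ℝ) : ℂ) * I).im = -(h - 1) := by simp
    rw [e, mul_neg] at h2 h3
    rw [neg_neg, ← hP] at h3
    rw [← hQ] at h2
    rw [← h2, ← h3]
    have h4 := norm_sub_norm_le (β * Complex.exp (I * (Real.pi *
      (((b + 1 / 2 : ℝ) : ℂ) + ((-(h - 1) : ℝ) : ℂ) * I))))
      (-(α * Complex.exp (-(I * (Real.pi * (((b + 1 / 2 : ℝ) : ℂ) + ((-(h - 1) : ℝ) : ℂ) * I))))))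
    rw [norm_neg, sub_neg_eq_add, add_comm (β * _)] at h4
    linarith
  have hS : (‖α‖ + ‖β‖) * P ≤ 2 * (4 * M + s) := by
    have h1 : 0 ≤ ‖α‖ + ‖β‖ := by positivity
    nlinarith
  have hP1 : 1 ≤ P * (55 * Real.exp (-(Real.pi * h))) := by
    have h1 : P = Real.exp (Real.pi * h) * Real.exp (-Real.pi) := by
      rw [hP, ← Real.exp_add]; congr 1; ring
    have h2 : Real.exp (Real.pi * h) * Real.exp (-(Real.pi * h)) = 1 := by
      rw [← Real.exp_add, add_neg_cancel, Real.exp_zero]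
    have h3 : 1 ≤ Real.exp (-Real.pi) * 55 := by
      rw [Real.exp_neg, inv_mul_eq_div, one_le_div (Real.exp_pos _)]
      exact exp_pi_le
    calc (1 : ℝ) ≤ Real.exp (-Real.pi) * 55 := h3
      _ = (Real.exp (Real.pi * h) * Real.exp (-(Real.pi * h))) * (Real.exp (-Real.pi) * 55) := by
          rw [h2, one_mul]
      _ = _ := by rw [h1]; ring
  have h1 : 0 ≤ ‖α‖ + ‖β‖ := by positivity
  have h2 : 0 < Real.exp (-(Real.pi * h)) := Real.exp_pos _
  calc ‖α‖ + ‖β‖ ≤ (‖α‖ + ‖β‖) * (P * (55 * Real.exp (-(Real.pi * h)))) :=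
        le_mul_of_one_le_right h1 hP1
    _ = ((‖α‖ + ‖β‖) * P) * (55 * Real.exp (-(Real.pi * h))) := by ring
    _ ≤ (2 * (4 * M + s)) * (55 * Real.exp (-(Real.pi * h))) := by gcongr
    _ = _ := by ring

/-- **a bounded antiperiodic function is small away from the edges** -/
theorem anti_small (hh : 2 ≤ h) (hM : 0 ≤ M)
    (hf : ∀ x : ℂ, b ≤ x.re → x.re ≤ b + 1 → |x.im| ≤ h → DifferentiableAt ℂ f x ∧ ‖f x‖ ≤ M)
    (hs : ∀ y : ℝ, |y| ≤ h → ‖f (((b + 1 : ℝ) : ℂ) + y * I) + f (b + y * I)‖ ≤ s)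
    {z : ℂ} (hz1 : b < z.re) (hz2 : z.re < b + 1) (hz3 : |z.im| ≤ h - 1) :
    ‖f z‖ ≤ (444 * M + 110 * s) * Real.exp (-(Real.pi * (h - |z.im|))) +
      s / (2 * Real.sin (Real.pi * (z.re - b))) := by
  have hpi := Real.pi_pos
  have hs0 : 0 ≤ s := (norm_nonneg _).trans (hs 0 (by simp; linarith))
  obtain ⟨α, β, hab, hE⟩ := two_modes hh hM hf hs
  have h1 := hE z hz1 hz2 hz3
  have h2 : ‖α * Complex.exp (-(I * (Real.pi * z)))‖ ≤ ‖α‖ * Real.exp (Real.pi * |z.im|) := by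
    rw [norm_mul, norm_e1]
    have := le_abs_self z.im
    gcongr
  have h3 : ‖β * Complex.exp (I * (Real.pi * z))‖ ≤ ‖β‖ * Real.exp (Real.pi * |z.im|) := by
    rw [norm_mul, norm_e2]
    have : -(Real.pi * z.im) ≤ Real.pi * |z.im| := by
      have := neg_abs_le z.im
      nlinarith
    gcongr
  have h4 : Real.exp (-(3 * (Real.pi * (h - |z.im|)))) ≤ Real.exp (-(Real.pi * (h - |z.im|))) := by
    refine Real.exp_le_exp.2 ?_
    have : 0 ≤ Real.pi * (h - |z.im|) := mul_nonneg hpi.le (by linarith)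
    linarith
  have e : f z = (f z - α * Complex.exp (-(I * (Real.pi * z))) -
      β * Complex.exp (I * (Real.pi * z))) + α * Complex.exp (-(I * (Real.pi * z))) +
      β * Complex.exp (I * (Real.pi * z)) := by ring
  have h5 : ‖f z‖ ≤ ‖f z - α * Complex.exp (-(I * (Real.pi * z))) -
      β * Complex.exp (I * (Real.pi * z))‖ + ‖α * Complex.exp (-(I * (Real.pi * z)))‖ +
      ‖β * Complex.exp (I * (Real.pi * z))‖ := by
    conv_lhs => rw [e]
    exact norm_add₃_le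
  have h6 : (‖α‖ + ‖β‖) * Real.exp (Real.pi * |z.im|) ≤
      (440 * M + 110 * s) * Real.exp (-(Real.pi * (h - |z.im|))) := by
    have h7 : Real.exp (-(Real.pi * (h - |z.im|))) =
        Real.exp (-(Real.pi * h)) * Real.exp (Real.pi * |z.im|) := by
      rw [← Real.exp_add]; congr 1; ring
    rw [h7, ← mul_assoc]
    exact mul_le_mul_of_nonneg_right hab (Real.exp_pos _).le
  have h8 : 4 * M * Real.exp (-(3 * (Real.pi * (h - |z.im|)))) ≤
      4 * M * Real.exp (-(Real.pi * (h - |z.im|))) := by gcongr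
  linarith

/-- **`F - 1 / F` is small**, `F` close to `1` and nearly inverse to its shift -/
theorem near_one (hh : 2 ≤ h) (hs1 : s ≤ 1)
    (hF : ∀ x : ℂ, b ≤ x.re → x.re ≤ b + 1 → |x.im| ≤ h →
      DifferentiableAt ℂ F x ∧ ‖F x - 1‖ ≤ 1 / 2)
    (hs : ∀ y : ℝ, |y| ≤ h → ‖F (b + y * I) * F (((b + 1 : ℝ) : ℂ) + y * I) - 1‖ ≤ s)
    {z : ℂ} (hz1 : b < z.re) (hz2 : z.re < b + 1) (hz3 : |z.im| ≤ h - 1) :
    ‖F z - (F z)⁻¹‖ ≤ 3000 * Real.exp (-(Real.pi * (h - |z.im|))) +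
      2 * s / Real.sin (Real.pi * (z.re - b)) := by
  have hs0 : 0 ≤ s := (norm_nonneg _).trans (hs 0 (by simp; linarith))
  have hlow : ∀ w : ℂ, ‖w - 1‖ ≤ 1 / 2 → w ≠ 0 ∧ ‖w⁻¹‖ ≤ 2 ∧ ‖w‖ ≤ 3 / 2 := by
    intro w hw
    have h1 : 1 / 2 ≤ ‖w‖ := by
      have h2 := norm_sub_norm_le (1 : ℂ) (1 - w)
      rw [norm_one, sub_sub_cancel, norm_sub_rev] at h2
      linarith
    have h3 : ‖w‖ ≤ 3 / 2 := by
      have h2 := norm_add_le (w - 1) 1
      rw [sub_add_cancel, norm_one] at h2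
      linarith
    refine ⟨norm_pos_iff.1 (by linarith), ?_, h3⟩
    rw [norm_inv]
    exact (inv_anti₀ (by norm_num) h1).trans (by norm_num)
  have key := anti_small (f := fun x => F x - (F x)⁻¹) (b := b) (h := h) (M := 7 / 2) (s := 4 * s)
    hh (by norm_num) (fun x h1 h2 h3 => ?_) (fun y hy => ?_) hz1 hz2 hz3
  · refine key.trans ?_
    have h1 : 0 ≤ Real.exp (-(Real.pi * (h - |z.im|))) := (Real.exp_pos _).le
    have h2 : 4 * s / (2 * Real.sin (Real.pi * (z.re - b))) =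
        2 * s / Real.sin (Real.pi * (z.re - b)) := by
      rw [mul_comm 2 (Real.sin _), ← div_div, div_right_comm]
      ring
    rw [h2]
    nlinarith
  · obtain ⟨h4, h5⟩ := hF x h1 h2 h3
    obtain ⟨h6, h7, h8⟩ := hlow _ h5
    refine ⟨h4.sub (h4.inv h6), (norm_sub_le _ _).trans (by linarith)⟩
  · have h4 := hF (b + y * I) (by simp) (by simp) (by simpa using hy)
    have h5 := hF (((b + 1 : ℝ) : ℂ) + y * I) (by simp) (by simp) (by simpa using hy)
    obtain ⟨a1, a2, a3⟩ := hlow _ h4.2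
    obtain ⟨b1, b2, b3⟩ := hlow _ h5.2
    have h6 := hs y hy
    set A := F (b + y * I)
    set B := F (((b + 1 : ℝ) : ℂ) + y * I)
    have e : B - B⁻¹ + (A - A⁻¹) = (A * B - 1) * A⁻¹ + (A * B - 1) * B⁻¹ := by
      field_simp
      ring
    rw [e]
    refine (norm_add_le _ _).trans ?_
    rw [norm_mul, norm_mul]
    have h7 : ‖A * B - 1‖ * ‖A⁻¹‖ ≤ s * 2 := mul_le_mul h6 a2 (norm_nonneg _) hs0
    have h8 : ‖A * B - 1‖ * ‖B⁻¹‖ ≤ s * 2 := mul_le_mul h6 b2 (norm_nonneg _) hs0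
    linarith

/-- the two values -/
lemma two_values {d : ℝ} (hd : 0 < d) (hd1 : d ≤ 1 / 8) (hh : 2 ≤ h) {α β : ℂ}
    (hE : ∀ z : ℂ, -d < z.re → z.re < -d + 1 → |z.im| ≤ h - 1 →
      ‖f z - α * Complex.exp (-(I * (Real.pi * z))) - β * Complex.exp (I * (Real.pi * z))‖ ≤
      4 * M * Real.exp (-(3 * (Real.pi * (h - |z.im|)))) +
        s / (2 * Real.sin (Real.pi * (z.re - -d)))) (hs0 : 0 ≤ s) :
    ‖f (1 / 2) - I * f 0‖ ≤ 2 * ‖α‖ + 8 * M * Real.exp (-(3 * (Real.pi * h))) + s / d ∧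
    ‖f (1 / 2) + I * f 0‖ ≤ 2 * ‖β‖ + 8 * M * Real.exp (-(3 * (Real.pi * h))) + s / d := by
  have hpi := Real.pi_pos
  have h0 := hE 0 (by simp; linarith) (by simp; linarith) (by simp; linarith)
  have h1 := hE (1 / 2) (by norm_num; linarith) (by norm_num; linarith) (by norm_num; linarith)
  have e1 : Complex.exp (-(I * (Real.pi * (1 / 2 : ℂ)))) = -I := by
    rw [show -(I * (Real.pi * (1 / 2 : ℂ))) = ((-(Real.pi / 2) : ℝ) : ℂ) * I by push_cast; ring,
      Complex.exp_mul_I, ← Complex.ofReal_cos, ← Complex.ofReal_sin, Real.cos_neg, Real.sin_neg,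
      Real.cos_pi_div_two, Real.sin_pi_div_two]
    simp
  have e2 : Complex.exp (I * (Real.pi * (1 / 2 : ℂ))) = I := by
    rw [show I * (Real.pi * (1 / 2 : ℂ)) = ((Real.pi / 2 : ℝ) : ℂ) * I by push_cast; ring,
      Complex.exp_mul_I, ← Complex.ofReal_cos, ← Complex.ofReal_sin,
      Real.cos_pi_div_two, Real.sin_pi_div_two]
    simp
  rw [e1, e2] at h1
  simp only [mul_zero, neg_zero, Complex.exp_zero, mul_one, Complex.zero_re, Complex.zero_im,
    abs_zero, sub_zero, zero_sub, neg_neg] at h0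
  have r1 : ((1 : ℂ) / 2).re = 1 / 2 := by norm_num
  have r2 : ((1 : ℂ) / 2).im = 0 := by norm_num
  rw [r1, r2, abs_zero, sub_zero, sub_neg_eq_add] at h1
  -- the sines
  have s0 : s / (2 * Real.sin (Real.pi * d)) ≤ s / (2 * d) := by
    have h2 : d ≤ Real.sin (Real.pi * d) := by
      have h3 : Real.pi * d ≤ Real.pi / 2 := by nlinarith
      have h4 := Real.mul_le_sin (x := Real.pi * d) (by positivity) h3
      have h5 : 2 / Real.pi * (Real.pi * d) = 2 * d := by field_simp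
      linarith
    gcongr
  have s1 : s / (2 * Real.sin (Real.pi * (1 / 2 + d))) ≤ s / (2 * d) := by
    have h2 : d ≤ Real.sin (Real.pi * (1 / 2 + d)) := by
      rw [show Real.pi * (1 / 2 + d) = Real.pi / 2 + Real.pi * d by ring, Real.sin_add,
        Real.sin_pi_div_two, Real.cos_pi_div_two]
      have h3 : 1 - (Real.pi * d) ^ 2 / 2 ≤ Real.cos (Real.pi * d) :=
        Real.one_sub_sq_div_two_le_cos
      have h4 : Real.pi * d ≤ 1 / 2 := by
        have := Real.pi_lt_four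
        nlinarith
      have h5 : 0 ≤ Real.pi * d := by positivity
      nlinarith
    gcongr
  have s2 : s / (2 * d) + s / (2 * d) = s / d := by
    field_simp
    norm_num
  have n1 : ‖I‖ = 1 := Complex.norm_I
  constructor
  · have e : f (1 / 2) - I * f 0 = (f (1 / 2) - α * -I - β * I) - I * (f 0 - α - β) -
        2 * I * α := by ring
    rw [e]
    refine (norm_sub_le _ _).trans ?_
    have h5 : ‖(f (1 / 2) - α * -I - β * I) - I * (f 0 - α - β)‖ ≤
        ‖f (1 / 2) - α * -I - β * I‖ + ‖f 0 - α - β‖ := by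
      refine (norm_sub_le _ _).trans ?_
      rw [norm_mul, n1, one_mul]
    have h6 : ‖2 * I * α‖ = 2 * ‖α‖ := by
      rw [norm_mul, norm_mul, n1]; norm_num
    linarith
  · have e : f (1 / 2) + I * f 0 = (f (1 / 2) - α * -I - β * I) + I * (f 0 - α - β) +
        2 * I * β := by ring
    rw [e]
    refine (norm_add_le _ _).trans ?_
    have h5 : ‖(f (1 / 2) - α * -I - β * I) + I * (f 0 - α - β)‖ ≤
        ‖f (1 / 2) - α * -I - β * I‖ + ‖f 0 - α - β‖ := by
      refine (norm_add_le _ _).trans ?_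
      rw [norm_mul, n1, one_mul]
    have h6 : ‖2 * I * β‖ = 2 * ‖β‖ := by
      rw [norm_mul, norm_mul, n1]; norm_num
    linarith

/-- **discrete Cauchy-Riemann relation**: an antiperiodic function which is small at one height
above the axis -/
theorem extract_up {d M1 h1 : ℝ} (hd : 0 < d) (hd1 : d ≤ 1 / 8) (hh : 2 ≤ h) (hM : 0 ≤ M)
    (hf : ∀ x : ℂ, -d ≤ x.re → x.re ≤ -d + 1 → |x.im| ≤ h → DifferentiableAt ℂ f x ∧ ‖f x‖ ≤ M)
    (hs : ∀ y : ℝ, |y| ≤ h → ‖f (((-d + 1 : ℝ) : ℂ) + y * I) + f (((-d : ℝ) : ℂ) + y * I)‖ ≤ s)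
    (hh1 : 0 ≤ h1) (hh2 : h1 ≤ h - 1)
    (hM1 : ‖f (((-d + 1 / 2 : ℝ) : ℂ) + h1 * I)‖ ≤ M1) :
    ‖f (1 / 2) - I * f 0‖ ≤ 2 * Real.exp (-(Real.pi * h1)) * (M1 + 4 * M *
      Real.exp (-(3 * (Real.pi * (h - h1)))) + s / 2 +
      (440 * M + 110 * s) * Real.exp (-(Real.pi * h))) +
      8 * M * Real.exp (-(3 * (Real.pi * h))) + s / d := by
  have hpi := Real.pi_pos
  have hs0 : 0 ≤ s := (norm_nonneg _).trans (hs 0 (by simp; linarith))
  obtain ⟨α, β, hab, hE⟩ := two_modes (b := -d) hh hM hf hs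
  refine (two_values hd hd1 hh hE hs0).1.trans ?_
  have key : ‖α‖ * Real.exp (Real.pi * h1) ≤ M1 + 4 * M *
      Real.exp (-(3 * (Real.pi * (h - h1)))) + s / 2 +
      (440 * M + 110 * s) * Real.exp (-(Real.pi * h)) := by
    set z : ℂ := ((-d + 1 / 2 : ℝ) : ℂ) + h1 * I with hz
    have hzr : z.re = -d + 1 / 2 := by simp [hz]
    have hzi : z.im = h1 := by simp [hz]
    have h2 := hE z (by rw [hzr]; linarith) (by rw [hzr]; linarith)
      (by rw [hzi, abs_of_nonneg hh1]; exact hh2)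
    rw [hzr, hzi, abs_of_nonneg hh1, show Real.pi * (-d + 1 / 2 - -d) = Real.pi / 2 by ring,
      Real.sin_pi_div_two, mul_one] at h2
    have h3 : ‖α * Complex.exp (-(I * (Real.pi * z)))‖ = ‖α‖ * Real.exp (Real.pi * h1) := by
      rw [norm_mul, norm_e1, hzi]
    have h4 : ‖β * Complex.exp (I * (Real.pi * z))‖ ≤ ‖β‖ := by
      rw [norm_mul, norm_e2, hzi]
      refine mul_le_of_le_one_right (norm_nonneg _) (Real.exp_le_one_iff.2 ?_)
      have := mul_nonneg hpi.le hh1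
      linarith
    have h5 : ‖β‖ ≤ (440 * M + 110 * s) * Real.exp (-(Real.pi * h)) := by
      have := norm_nonneg α
      linarith
    have e : α * Complex.exp (-(I * (Real.pi * z))) = f z - (f z - α * Complex.exp (-(I * (Real.pi * z))) -
        β * Complex.exp (I * (Real.pi * z))) - β * Complex.exp (I * (Real.pi * z)) := by ring
    rw [← h3, e]
    refine (norm_sub_le _ _).trans ?_
    have h6 := norm_sub_le (f z) (f z - α * Complex.exp (-(I * (Real.pi * z))) -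
        β * Complex.exp (I * (Real.pi * z)))
    linarith
  have h2 : ‖α‖ ≤ Real.exp (-(Real.pi * h1)) * (M1 + 4 * M *
      Real.exp (-(3 * (Real.pi * (h - h1)))) + s / 2 +
      (440 * M + 110 * s) * Real.exp (-(Real.pi * h))) := by
    rw [Real.exp_neg, ← div_eq_inv_mul, le_div_iff₀ (Real.exp_pos _)]
    exact key
  linarith

/-- **discrete Cauchy-Riemann relation**: an antiperiodic function which is small at one height
below the axis -/
theorem extract_down {d M1 h1 : ℝ} (hd : 0 < d) (hd1 : d ≤ 1 / 8) (hh : 2 ≤ h) (hM : 0 ≤ M)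
    (hf : ∀ x : ℂ, -d ≤ x.re → x.re ≤ -d + 1 → |x.im| ≤ h → DifferentiableAt ℂ f x ∧ ‖f x‖ ≤ M)
    (hs : ∀ y : ℝ, |y| ≤ h → ‖f (((-d + 1 : ℝ) : ℂ) + y * I) + f (((-d : ℝ) : ℂ) + y * I)‖ ≤ s)
    (hh1 : 0 ≤ h1) (hh2 : h1 ≤ h - 1)
    (hM1 : ‖f (((-d + 1 / 2 : ℝ) : ℂ) - h1 * I)‖ ≤ M1) :
    ‖f (1 / 2) + I * f 0‖ ≤ 2 * Real.exp (-(Real.pi * h1)) * (M1 + 4 * M *
      Real.exp (-(3 * (Real.pi * (h - h1)))) + s / 2 +
      (440 * M + 110 * s) * Real.exp (-(Real.pi * h))) +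
      8 * M * Real.exp (-(3 * (Real.pi * h))) + s / d := by
  have hpi := Real.pi_pos
  have hs0 : 0 ≤ s := (norm_nonneg _).trans (hs 0 (by simp; linarith))
  obtain ⟨α, β, hab, hE⟩ := two_modes (b := -d) hh hM hf hs
  refine (two_values hd hd1 hh hE hs0).2.trans ?_
  have key : ‖β‖ * Real.exp (Real.pi * h1) ≤ M1 + 4 * M *
      Real.exp (-(3 * (Real.pi * (h - h1)))) + s / 2 +
      (440 * M + 110 * s) * Real.exp (-(Real.pi * h)) := by
    set z : ℂ := ((-d + 1 / 2 : ℝ) : ℂ) - h1 * I with hz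
    have hzr : z.re = -d + 1 / 2 := by simp [hz]
    have hzi : z.im = -h1 := by simp [hz]
    have h2 := hE z (by rw [hzr]; linarith) (by rw [hzr]; linarith)
      (by rw [hzi, abs_neg, abs_of_nonneg hh1]; exact hh2)
    rw [hzr, hzi, abs_neg, abs_of_nonneg hh1,
      show Real.pi * (-d + 1 / 2 - -d) = Real.pi / 2 by ring,
      Real.sin_pi_div_two, mul_one] at h2
    have h3 : ‖β * Complex.exp (I * (Real.pi * z))‖ = ‖β‖ * Real.exp (Real.pi * h1) := by
      rw [norm_mul, norm_e2, hzi, mul_neg, neg_neg]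
    have h4 : ‖α * Complex.exp (-(I * (Real.pi * z)))‖ ≤ ‖α‖ := by
      rw [norm_mul, norm_e1, hzi]
      refine mul_le_of_le_one_right (norm_nonneg _) (Real.exp_le_one_iff.2 ?_)
      have := mul_nonneg hpi.le hh1
      linarith
    have h5 : ‖α‖ ≤ (440 * M + 110 * s) * Real.exp (-(Real.pi * h)) := by
      have := norm_nonneg β
      linarith
    have e : β * Complex.exp (I * (Real.pi * z)) = f z - (f z - α * Complex.exp (-(I * (Real.pi * z))) -
        β * Complex.exp (I * (Real.pi * z))) - α * Complex.exp (-(I * (Real.pi * z))) := by ring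
    rw [← h3, e]
    refine (norm_sub_le _ _).trans ?_
    have h6 := norm_sub_le (f z) (f z - α * Complex.exp (-(I * (Real.pi * z))) -
        β * Complex.exp (I * (Real.pi * z)))
    linarith
  have h2 : ‖β‖ ≤ Real.exp (-(Real.pi * h1)) * (M1 + 4 * M *
      Real.exp (-(3 * (Real.pi * (h - h1)))) + s / 2 +
      (440 * M + 110 * s) * Real.exp (-(Real.pi * h))) := by
    rw [Real.exp_neg, ← div_eq_inv_mul, le_div_iff₀ (Real.exp_pos _)]
    exact key
  linarith

end Crest.Agent.R158.Cut410
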