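import Crest.Agent.R150.Jul_361
import Crest.Agent.R150.Sc1_962
import Crest.Agent.R150.Bp1_110

/-!
# Row 158: low energy eigenvectors are close to `± 1` (helper410)

* `good` : `F` with growth `exp (τ cos cosh)` on the closed strip, crossing symmetric, nearly inverse
  to its shift, and `1 - μ ≤ ‖F (1/2)‖`, `(μ + τ) exp (π h) ≤ δ`: then `F` is close to a sign on the
  rectangle `[-d, 1 + d] × [-(h - C), h - C]`
-/

set_option autoImplicit false

noncomputable section

open Complex Set Filter Topology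
open scoped ComplexConjugate

namespace Crest.Agent.R158.Cut410

open Crest.Agent.R150

/-- Harnack comparison on the midline for a function bounded by one -/
lemma mid_close {G : ℂ → ℂ} {s μ : ℝ} (hs : s = 1 ∨ s = -1)
    (hd : ∀ z : ℂ, 0 < z.re → z.re < 1 → DifferentiableAt ℂ G z)
    (hb : ∀ z : ℂ, 0 < z.re → z.re < 1 → ‖G z‖ < 1)
    (hr : ∀ v : ℝ, (G (1 / 2 + v * I)).im = 0)
    (h0 : 0 ≤ s * (G (1 / 2)).re) (hμ : 1 - μ ≤ s * (G (1 / 2)).re) (v : ℝ) :
    ‖(s : ℂ) * G (1 / 2 + v * I) - 1‖ ≤ 8 * Real.exp (Real.pi * |v|) * μ := by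
  have hpi := Real.pi_pos
  have hs1 : ‖(s : ℂ)‖ = 1 := by rcases hs with h | h <;> simp [h]
  have hbs : ∀ z : ℂ, 0 < z.re → z.re < 1 → ‖(s : ℂ) * G z‖ < 1 := by
    intro z h1 h2
    rw [norm_mul, hs1, one_mul]
    exact hb z h1 h2
  have hne : ∀ w : ℂ, ‖w‖ < 1 → 1 + w ≠ 0 := by
    intro w hw h
    have : w = -1 := by linear_combination h
    rw [this, norm_neg, norm_one] at hw
    exact lt_irrefl _ hw
  have hre : ∀ w : ℂ, ‖w‖ < 1 → 0 ≤ ((1 - w) / (1 + w)).re := by
    intro w hw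
    have h1 : ((1 - w) / (1 + w)).re = (1 - ‖w‖ ^ 2) / Complex.normSq (1 + w) := by
      rw [Complex.div_re, ← Complex.normSq_eq_norm_sq, Complex.normSq_apply w]
      simp only [Complex.sub_re, Complex.one_re, Complex.add_re, Complex.sub_im, Complex.one_im,
        Complex.add_im]
      ring
    rw [h1]
    have h2 : 0 ≤ Complex.normSq (1 + w) := Complex.normSq_nonneg _
    have h3 : 0 ≤ ‖w‖ := norm_nonneg _
    exact div_nonneg (by nlinarith) h2
  set φ : ℂ → ℂ := fun z => (1 - s * G z) / (1 + s * G z) with hφ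
  have key := Jul361.strip_harnack (φ := φ)
    (fun z h1 h2 => ((differentiableAt_const _).sub ((hd z h1 h2).const_mul _)).div
      ((differentiableAt_const _).add ((hd z h1 h2).const_mul _)) (hne _ (hbs z h1 h2)))
    (fun z h1 h2 => hre _ (hbs z h1 h2)) (z1 := 1 / 2 + v * I) (z2 := 1 / 2)
    (by norm_num) (by norm_num) (by norm_num) (by norm_num)
  -- the constant
  have hK : Jul361.HK (1 / 2 + v * I) (1 / 2) ≤ 4 * Real.exp (Real.pi * |v|) := by
    unfold Jul361.HK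
    have e1 : ((1 : ℂ) / 2 + v * I).im = v := by simp
    have e2 : ((1 : ℂ) / 2 + v * I).re = 1 / 2 := by simp
    have e3 : ((1 : ℂ) / 2).im = 0 := by norm_num
    have e4 : ((1 : ℂ) / 2).re = 1 / 2 := by norm_num
    rw [e1, e2, e3, e4, sub_zero, show Real.pi * (1 / 2 + 1 / 2) = Real.pi by ring, Real.cos_pi,
      show Real.pi * (1 / 2) = Real.pi / 2 by ring, Real.sin_pi_div_two, mul_one, div_one,
      ← Real.cosh_abs, abs_mul, abs_of_pos hpi, Real.cosh_eq]
    have h1 : Real.exp (-(Real.pi * |v|)) ≤ 1 := Real.exp_le_one_iff.2 (by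
      have : 0 ≤ Real.pi * |v| := by positivity
      linarith)
    have h2 : 1 ≤ Real.exp (Real.pi * |v|) := Real.one_le_exp (by positivity)
    linarith
  -- the value at the centre
  have hreal : ∀ t : ℝ, (s : ℂ) * G (1 / 2 + t * I) = ((s * (G (1 / 2 + t * I)).re : ℝ) : ℂ) := by
    intro t
    apply Complex.ext
    · rw [Complex.re_ofReal_mul, Complex.ofReal_re]
    · rw [Complex.im_ofReal_mul, hr t, Complex.ofReal_im, mul_zero]
  have hval : ∀ t : ℝ, (φ (1 / 2 + t * I)).re =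
      (1 - s * (G (1 / 2 + t * I)).re) / (1 + s * (G (1 / 2 + t * I)).re) := by
    intro t
    have : φ (1 / 2 + t * I) = (((1 - s * (G (1 / 2 + t * I)).re) /
        (1 + s * (G (1 / 2 + t * I)).re) : ℝ) : ℂ) := by
      simp only [hφ]
      rw [hreal t]
      push_cast
      ring
    rw [this, Complex.ofReal_re]
  have hbd : ∀ t : ℝ, |s * (G (1 / 2 + t * I)).re| < 1 := by
    intro t
    have h1 := hbs (1 / 2 + t * I) (by simp) (by simp; norm_num)
    rw [hreal t, Complex.norm_real, Real.norm_eq_abs] at h1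
    exact h1
  have hc : (φ (1 / 2)).re ≤ μ ∧ 0 ≤ (φ (1 / 2)).re := by
    have h1 := hval 0
    have h2 := abs_lt.1 (hbd 0)
    simp only [Complex.ofReal_zero, zero_mul, add_zero] at h1 h2
    have h3 : 0 < 1 + s * (G (1 / 2)).re := by linarith [h2.1]
    refine ⟨?_, by rw [h1]; exact div_nonneg (by linarith [h2.2]) h3.le⟩
    rw [h1, div_le_iff₀ h3]
    nlinarith [h2.2]
  have hv := hval v
  have h2 := abs_lt.1 (hbd v)
  have h3 : 0 < 1 + s * (G (1 / 2 + v * I)).re := by linarith [h2.1]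
  rw [hreal v, show (((s * (G (1 / 2 + v * I)).re : ℝ) : ℂ) - 1) =
    ((s * (G (1 / 2 + v * I)).re - 1 : ℝ) : ℂ) by push_cast; ring, Complex.norm_real,
    Real.norm_eq_abs, abs_of_neg (by linarith [h2.2])]
  have h4 : (φ (1 / 2 + v * I)).re ≤ 4 * Real.exp (Real.pi * |v|) * μ := by
    refine key.trans ?_
    have h5 : 0 ≤ 4 * Real.exp (Real.pi * |v|) := by positivity
    calc Jul361.HK (1 / 2 + v * I) (1 / 2) * (φ (1 / 2)).re ≤
          4 * Real.exp (Real.pi * |v|) * (φ (1 / 2)).re := mul_le_mul_of_nonneg_right hK hc.2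
      _ ≤ _ := mul_le_mul_of_nonneg_left hc.1 h5
  rw [hv, div_le_iff₀ h3] at h4
  have h5 : 0 ≤ 4 * Real.exp (Real.pi * |v|) * μ := by
    have : 0 ≤ μ := hc.2.trans hc.1
    positivity
  nlinarith [h2.2]

set_option maxHeartbeats 800000 in
/-- **low energy eigenvectors are close to a sign** -/
theorem good {d ε : ℝ} (hd : 0 < d) (hd8 : d ≤ 1 / 8) (hε : 0 < ε) :
    ∃ δ > 0, ∃ C ≥ 1, ∀ (F : ℂ → ℂ) (k h μ τ : ℝ), 0 < k → k < Real.pi → C ≤ h → 0 ≤ μ → 0 < τ →
      (∀ x : ℂ, -(2 * d) < x.re → x.re < 1 + 2 * d → |x.im| ≤ h → DifferentiableAt ℂ F x) →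
      (∀ x : ℂ, 0 < x.re → x.re < 1 → DifferentiableAt ℂ F x) →
      (∀ x : ℂ, 0 ≤ x.re → x.re ≤ 1 →
        ‖F x‖ ≤ Real.exp (τ * (Real.cos (k * (x.re - 1 / 2)) * Real.cosh (k * x.im)))) →
      (∀ x : ℂ, F (1 - conj x) = conj (F x)) →
      (∀ x : ℂ, |x.re| < 2 * d → |x.im| ≤ h → ‖F x * F (x + 1) - 1‖ ≤ δ) →
      1 - μ ≤ ‖F (1 / 2)‖ → (μ + τ) * Real.exp (Real.pi * h) ≤ δ →
      ∃ s : ℝ, (s = 1 ∨ s = -1) ∧
        ∀ x : ℂ, -d ≤ x.re → x.re ≤ 1 + d → |x.im| ≤ h - C → ‖(s : ℂ) * F x - 1‖ ≤ ε := by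
  have hpi := Real.pi_pos
  obtain ⟨δ', hδ', C, hC, hsc⟩ := Sc962.strip_close hd hd8 hε
  obtain ⟨δ, hδ⟩ : ∃ δ : ℝ, δ = min (δ' / 40) (1 / 8) := ⟨_, rfl⟩
  have hδ0 : 0 < δ := by rw [hδ]; exact lt_min (by positivity) (by norm_num)
  have hδ1 : 40 * δ ≤ δ' := by
    have : δ ≤ δ' / 40 := by rw [hδ]; exact min_le_left _ _
    linarith
  have hδ2 : δ ≤ 1 / 8 := by rw [hδ]; exact min_le_right _ _
  refine ⟨δ, hδ0, C, hC, ?_⟩
  intro F k h μ τ hk0 hk1 hh hμ0 hτ hdF hdS hg hcr hprod hμ hsm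
  have hh0 : 0 ≤ h := by linarith
  -- the values on the midline are real
  have hFr : ∀ v : ℝ, (F (1 / 2 + v * I)).im = 0 := by
    intro v
    have h1 := hcr (1 / 2 + v * I)
    have e : (1 : ℂ) - conj (1 / 2 + v * I) = 1 / 2 + v * I := by
      simp only [map_add, map_mul, Complex.conj_ofReal, Complex.conj_I, map_div₀, map_one,
        map_ofNat]
      ring
    rw [e] at h1
    exact Complex.conj_eq_iff_im.1 h1.symm
  have hFr0 : (F (1 / 2)).im = 0 := by
    have := hFr 0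
    simpa using this
  have hnF : ‖F (1 / 2)‖ = |(F (1 / 2)).re| := by
    have : F (1 / 2) = (((F (1 / 2)).re : ℝ) : ℂ) := by
      apply Complex.ext
      · rw [Complex.ofReal_re]
      · rw [Complex.ofReal_im, hFr0]
    rw [this, Complex.norm_real, Real.norm_eq_abs, Complex.ofReal_re]
  -- the sign
  obtain ⟨s, hs, hsF⟩ : ∃ s : ℝ, (s = 1 ∨ s = -1) ∧ s * (F (1 / 2)).re = |(F (1 / 2)).re| := by
    rcases le_total 0 (F (1 / 2)).re with h1 | h1
    · exact ⟨1, Or.inl rfl, by rw [one_mul, abs_of_nonneg h1]⟩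
    · exact ⟨-1, Or.inr rfl, by rw [neg_one_mul, abs_of_nonpos h1]⟩
  have hs1 : ‖(s : ℂ)‖ = 1 := by rcases hs with h | h <;> simp [h]
  have hss : (s : ℂ) * s = 1 := by rcases hs with h | h <;> simp [h]
  -- the majorant
  have hcc : ∀ x : ℂ, 0 ≤ x.re → x.re ≤ 1 →
      0 < Real.cos (k * (x.re - 1 / 2)) * Real.cosh (k * x.im) := by
    intro x h1 h2
    refine mul_pos (Real.cos_pos_of_mem_Ioo ⟨?_, ?_⟩) (Real.cosh_pos _)
    · nlinarith
    · nlinarith
  set G : ℂ → ℂ := fun x => F x * Complex.exp (-(2 * τ * Complex.cos (k * (x - 1 / 2)))) with hG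
  have hGn : ∀ x : ℂ, ‖G x‖ = ‖F x‖ *
      Real.exp (-(2 * τ * (Real.cos (k * (x.re - 1 / 2)) * Real.cosh (k * x.im)))) := by
    intro x
    rw [hG]
    simp only [norm_mul, Complex.norm_exp]
    congr 2
    rw [Complex.neg_re, ← Bp110.cos_re', show (2 * (τ : ℂ) * Complex.cos (k * (x - 1 / 2))) =
      ((2 * τ : ℝ) : ℂ) * Complex.cos (k * (x - 1 / 2)) by push_cast; ring, Complex.re_ofReal_mul]
  have hGb : ∀ z : ℂ, 0 < z.re → z.re < 1 → ‖G z‖ < 1 := by
    intro z h1 h2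
    rw [hGn]
    have h3 := hg z h1.le h2.le
    have h4 := hcc z h1.le h2.le
    calc ‖F z‖ * Real.exp (-(2 * τ * (Real.cos (k * (z.re - 1 / 2)) * Real.cosh (k * z.im)))) ≤
          Real.exp (τ * (Real.cos (k * (z.re - 1 / 2)) * Real.cosh (k * z.im))) *
          Real.exp (-(2 * τ * (Real.cos (k * (z.re - 1 / 2)) * Real.cosh (k * z.im)))) :=
          mul_le_mul_of_nonneg_right h3 (Real.exp_pos _).le
      _ = Real.exp (-(τ * (Real.cos (k * (z.re - 1 / 2)) * Real.cosh (k * z.im)))) := by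
          rw [← Real.exp_add]; congr 1; ring
      _ < 1 := by
          rw [Real.exp_lt_one_iff]
          have := mul_pos hτ h4
          linarith
  -- on the midline
  have hGv : ∀ v : ℝ, G (1 / 2 + v * I) =
      F (1 / 2 + v * I) * ((Real.exp (-(2 * τ * Real.cosh (k * v))) : ℝ) : ℂ) := by
    intro v
    rw [hG]
    simp only
    congr 1
    rw [Complex.ofReal_exp]
    congr 1
    have e : (k : ℂ) * (1 / 2 + v * I - 1 / 2) = ((k * v : ℝ) : ℂ) * I := by push_cast; ring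
    rw [e, Complex.cos_mul_I]
    push_cast
    ring
  have hGr : ∀ v : ℝ, (G (1 / 2 + v * I)).im = 0 := by
    intro v
    rw [hGv, Complex.im_mul_ofReal, hFr, zero_mul]
  have hG0 : (G (1 / 2)).re = (F (1 / 2)).re * Real.exp (-(2 * τ)) := by
    have := hGv 0
    simp only [Complex.ofReal_zero, zero_mul, add_zero, mul_zero, Real.cosh_zero, mul_one] at this
    rw [this, Complex.re_mul_ofReal]
  have hm := mid_close (G := G) (s := s) (μ := μ + 2 * τ) hs
    (fun z h1 h2 => (hdS z h1 h2).mul (by fun_prop)) hGb hGr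
    (by
      rw [hG0, ← mul_assoc, hsF]
      positivity)
    (by
      rw [hG0, ← mul_assoc, hsF, ← hnF]
      have h1 : 1 - 2 * τ ≤ Real.exp (-(2 * τ)) := by
        have := Real.add_one_le_exp (-(2 * τ)); linarith
      have h2 : Real.exp (-(2 * τ)) ≤ 1 := Real.exp_le_one_iff.2 (by linarith)
      have h3 : 0 ≤ ‖F (1 / 2)‖ := norm_nonneg _
      have h4 : 0 < Real.exp (-(2 * τ)) := Real.exp_pos _
      rcases le_total 0 (1 - μ) with h5 | h5
      · calc 1 - (μ + 2 * τ) ≤ (1 - μ) * Real.exp (-(2 * τ)) := by nlinarith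
          _ ≤ _ := mul_le_mul_of_nonneg_right hμ h4.le
      · have : 0 ≤ ‖F (1 / 2)‖ * Real.exp (-(2 * τ)) := by positivity
        linarith)
  -- the midline
  have hexp : ∀ v : ℝ, |v| ≤ h → Real.exp (Real.pi * |v|) ≤ Real.exp (Real.pi * h) := by
    intro v hv
    exact Real.exp_le_exp.2 (mul_le_mul_of_nonneg_left hv hpi.le)
  have hch : ∀ v : ℝ, |v| ≤ h → Real.cosh (k * v) ≤ Real.exp (Real.pi * h) := by
    intro v hv
    rw [← Real.cosh_abs, abs_mul, abs_of_pos hk0, Real.cosh_eq]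
    have h1 : Real.exp (-(k * |v|)) ≤ Real.exp (k * |v|) := Real.exp_le_exp.2 (by
      have : 0 ≤ k * |v| := by positivity
      linarith)
    have h2 : Real.exp (k * |v|) ≤ Real.exp (Real.pi * h) := Real.exp_le_exp.2 (by
      have : 0 ≤ |v| := abs_nonneg v
      nlinarith)
    linarith
  have hE0 : 0 < Real.exp (Real.pi * h) := Real.exp_pos _
  have hmid : ∀ v : ℝ, |v| ≤ h → ‖(s : ℂ) * F (1 / 2 + v * I) - 1‖ ≤ δ' := by
    intro v hv
    have h1 := hm v
    have h2 : 8 * Real.exp (Real.pi * |v|) * (μ + 2 * τ) ≤ 16 * δ := by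
      calc 8 * Real.exp (Real.pi * |v|) * (μ + 2 * τ) ≤
            8 * Real.exp (Real.pi * h) * (2 * (μ + τ)) := by
            have := hexp v hv
            gcongr
            linarith
        _ = 16 * ((μ + τ) * Real.exp (Real.pi * h)) := by ring
        _ ≤ 16 * δ := by gcongr
    have h3 : 2 * τ * Real.cosh (k * v) ≤ 2 * δ := by
      calc 2 * τ * Real.cosh (k * v) ≤ 2 * τ * Real.exp (Real.pi * h) := by
            have := hch v hv
            gcongr
        _ ≤ 2 * ((μ + τ) * Real.exp (Real.pi * h)) := by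
            have := mul_nonneg hμ0 hE0.le
            linarith
        _ ≤ _ := by gcongr
    have h4 : 0 ≤ 2 * τ * Real.cosh (k * v) := by
      have := Real.cosh_pos (k * v)
      positivity
    -- undo the factor
    have e : (s : ℂ) * F (1 / 2 + v * I) - 1 =
        ((s : ℂ) * G (1 / 2 + v * I)) * ((Real.exp (2 * τ * Real.cosh (k * v)) - 1 : ℝ) : ℂ) +
          ((s : ℂ) * G (1 / 2 + v * I) - 1) := by
      rw [hGv]
      have h5 : (((Real.exp (-(2 * τ * Real.cosh (k * v))) : ℝ) : ℂ)) *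
          ((Real.exp (2 * τ * Real.cosh (k * v)) : ℝ) : ℂ) = 1 := by
        rw [← Complex.ofReal_mul, ← Real.exp_add, neg_add_cancel, Real.exp_zero, Complex.ofReal_one]
      rw [Complex.ofReal_sub, Complex.ofReal_one]
      linear_combination (-(s : ℂ) * F (1 / 2 + v * I)) * h5
    rw [e]
    refine (norm_add_le _ _).trans ?_
    rw [norm_mul, norm_mul, hs1, one_mul, Complex.norm_real, Real.norm_eq_abs]
    have h5 : ‖G (1 / 2 + v * I)‖ ≤ 1 := (hGb _ (by simp) (by simp; norm_num)).le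
    have h6 : |Real.exp (2 * τ * Real.cosh (k * v)) - 1| ≤ 4 * δ := by
      rw [abs_of_nonneg (by linarith [Real.one_le_exp h4])]
      have h7 : Real.exp (2 * τ * Real.cosh (k * v)) ≤ Real.exp (2 * δ) := Real.exp_le_exp.2 h3
      have h8 : Real.exp (2 * δ) ≤ 1 / (1 - 2 * δ) :=
        Real.exp_bound_div_one_sub_of_interval (by linarith) (by linarith)
      have h9 : 1 / (1 - 2 * δ) ≤ 1 + 4 * δ := by
        rw [div_le_iff₀ (by linarith)]
        nlinarith
      linarith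
    have h7 : ‖G (1 / 2 + v * I)‖ * |Real.exp (2 * τ * Real.cosh (k * v)) - 1| ≤ 1 * (4 * δ) :=
      mul_le_mul h5 h6 (abs_nonneg _) zero_le_one
    linarith
  refine ⟨s, hs, ?_⟩
  refine hsc (fun x => (s : ℂ) * F x) h hh (fun x h1 h2 h3 => (hdF x h1 h2 h3).const_mul _)
    (fun x h1 h2 h3 => ?_) (fun x _ _ _ => ?_) (fun x h1 h2 => ?_) hmid
  · rw [norm_mul, hs1, one_mul]
    refine (hg x h1 h2).trans (Real.exp_le_exp.2 ?_)
    have h4 : Real.cos (k * (x.re - 1 / 2)) ≤ 1 := Real.cos_le_one _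
    have h5 := hch x.im h3
    have h6 := Real.cosh_pos (k * x.im)
    have h7 : Real.cos (k * (x.re - 1 / 2)) * Real.cosh (k * x.im) ≤ Real.exp (Real.pi * h) := by
      nlinarith
    calc τ * (Real.cos (k * (x.re - 1 / 2)) * Real.cosh (k * x.im)) ≤
          τ * Real.exp (Real.pi * h) := by gcongr
      _ ≤ (μ + τ) * Real.exp (Real.pi * h) := by gcongr; linarith
      _ ≤ δ := hsm
      _ ≤ δ' := by linarith
  · rw [hcr, map_mul, Complex.conj_ofReal]
  · have e : (s : ℂ) * F x * ((s : ℂ) * F (x + 1)) - 1 = F x * F (x + 1) - 1 := by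
      linear_combination (F x * F (x + 1)) * hss
    rw [e]
    exact (hprod x h1 h2).trans (by linarith)

end Crest.Agent.R158.Cut410
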