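import Crest.Agent.R158.Be1_979
import Crest.Agent.R158.Cut_410
import Crest.Agent.R158.Cut2_410

/-!
# Row 158: good joint eigenvectors at `η = π / 3` (helper979)

* `Lh_grow` : the majorant `exp (τ cos (k (re x - 1/2)) cosh (k im x))`, `τ = 6 M^(-k/π) / cos (k/2)`
* `Lh_good` : `1 - M^(-1+ε) ≤ ‖Lh (1/2)‖` ⇒ `Lh = ± (1 + small)` on the box of height
  `V = (1 - 2 ε) / π * log M - C`, `‖Lh² - 1‖ ≤ 1/3 exp (-π (V - |im x|))`
* `Lh_bad` : otherwise `‖Lh (1/2)‖ ^ n ≤ exp (- n M^(-1+ε))`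
-/

set_option autoImplicit false

noncomputable section

open Matrix Filter Topology
open Crest.Agent.R150
open Crest.Agent.R150.Nut979 (TJE)

namespace Crest.Agent.R158.Be979

variable {c : ℝ} {M : ℕ} {Ψ : (Fin M → Bool) → ℂ} {Λ : ℂ → ℂ}

lemma exp_neg_le_rpow {t a : ℝ} (ht : 0 < t) (ha0 : 0 ≤ a) (ha1 : a ≤ 1) :
    Real.exp (-t) ≤ t ^ (-a) := by
  rw [Real.rpow_def_of_pos ht]
  refine Real.exp_le_exp.2 ?_
  have h1 := Real.log_le_sub_one_of_pos ht
  rcases le_total 0 (Real.log t) with h | h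
  · nlinarith
  · nlinarith

lemma side_pow (hM : 0 < M) {k : ℝ} (hk0 : 0 < k) (hk1 : k < Real.pi) (v : ℝ) :
    3 / 2 * Real.exp (-(M / 2 * Real.exp (-(Real.pi * |v|)))) ≤
      6 * (M : ℝ) ^ (-(k / Real.pi)) * Real.cosh (k * v) := by
  have hpi := Real.pi_pos
  have hM' : (0 : ℝ) < M := by exact_mod_cast hM
  have ha0 : 0 < k / Real.pi := div_pos hk0 hpi
  have ha1 : k / Real.pi < 1 := (div_lt_one hpi).2 hk1
  have h1 := exp_neg_le_rpow (t := M / 2 * Real.exp (-(Real.pi * |v|))) (by positivity) ha0.le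
    ha1.le
  have h2 : (M / 2 * Real.exp (-(Real.pi * |v|))) ^ (-(k / Real.pi)) =
      (M : ℝ) ^ (-(k / Real.pi)) * (2 : ℝ) ^ (k / Real.pi) * Real.exp (k * |v|) := by
    rw [Real.mul_rpow (by positivity) (Real.exp_pos _).le, Real.div_rpow hM'.le two_pos.le,
      ← Real.exp_mul]
    have e1 : -(Real.pi * |v|) * -(k / Real.pi) = k * |v| := by field_simp
    have e2 : (2 : ℝ) ^ (-(k / Real.pi)) = ((2 : ℝ) ^ (k / Real.pi))⁻¹ :=
      Real.rpow_neg two_pos.le _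
    rw [e1, e2, div_inv_eq_mul]
  have h3 : (2 : ℝ) ^ (k / Real.pi) ≤ 2 := by
    calc (2 : ℝ) ^ (k / Real.pi) ≤ 2 ^ (1 : ℝ) :=
          Real.rpow_le_rpow_of_exponent_le one_le_two ha1.le
      _ = 2 := Real.rpow_one 2
  have h4 : Real.exp (k * |v|) ≤ 2 * Real.cosh (k * v) := by
    rw [← Real.cosh_abs, abs_mul, abs_of_pos hk0, Real.cosh_eq]
    have := Real.exp_pos (-(k * |v|))
    linarith
  have h5 : 0 < (M : ℝ) ^ (-(k / Real.pi)) := Real.rpow_pos_of_pos hM' _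
  rw [h2] at h1
  have h6 : (M : ℝ) ^ (-(k / Real.pi)) * (2 : ℝ) ^ (k / Real.pi) * Real.exp (k * |v|) ≤
      (M : ℝ) ^ (-(k / Real.pi)) * 2 * (2 * Real.cosh (k * v)) := by gcongr
  linarith

/-- **growth** -/
theorem Lh_grow (hM : 0 < M) (h : TJE et M c Ψ Λ) {k : ℝ} (hk0 : 0 < k) (hk1 : k < Real.pi)
    {x : ℂ} (h0 : 0 ≤ x.re) (h1 : x.re ≤ 1) :
    ‖Lh M Λ x‖ ≤ Real.exp (6 * (M : ℝ) ^ (-(k / Real.pi)) / Real.cos (k / 2) *
      (Real.cos (k * (x.re - 1 / 2)) * Real.cosh (k * x.im))) := by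
  obtain ⟨C0, hC0⟩ := Lh_bounded h
  have hC00 : 0 ≤ C0 := (norm_nonneg _).trans (hC0 0 (by simp) (by simp))
  have hpi := Real.pi_pos
  have hM' : (0 : ℝ) < M := by exact_mod_cast hM
  have hcos : 0 < Real.cos (k / 2) := Real.cos_pos_of_mem_Ioo ⟨by linarith, by linarith⟩
  set τ : ℝ := 6 * (M : ℝ) ^ (-(k / Real.pi)) / Real.cos (k / 2) with hτ
  have hside : ∀ v : ℝ, 3 / 2 * Real.exp (-(M / 2 * Real.exp (-(Real.pi * |v|)))) ≤
      τ * (Real.cos (k / 2) * Real.cosh (k * v)) := by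
    intro v
    refine (side_pow hM hk0 hk1 v).trans (le_of_eq ?_)
    rw [hτ]
    field_simp
  have key := Bp110.pl_cos (a := 0) (b := 1) (k := k) (A := τ) (B := 1) (C := C0) (D := 0)
    (g := Lh M Λ) zero_lt_one hk0 (by linarith) hC00 le_rfl
    (fun x hx0 hx1 => Lh_diff h (by linarith) (by linarith))
    (fun x hx0 hx1 => by rw [zero_mul, Real.exp_zero, mul_one]; exact hC0 x hx0 hx1)
    (fun x hx => ?_) h0 h1
  · rwa [one_mul] at key
  · rw [one_mul]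
    rcases hx with hx | hx
    · have e : x = (x.im : ℂ) * Complex.I := by apply Complex.ext <;> simp [hx]
      have h2 := Lh_side h x.im
      rw [← e] at h2
      refine h2.trans (Real.exp_le_exp.2 ((hside x.im).trans (le_of_eq ?_)))
      rw [hx, show k * (0 - 1 / 2) = -(k / 2) by ring, Real.cos_neg]
    · have e : x = 1 + (x.im : ℂ) * Complex.I := by apply Complex.ext <;> simp [hx]
      have h2 := Lh_side' h x.im
      rw [← e] at h2
      refine h2.trans (Real.exp_le_exp.2 ((hside x.im).trans (le_of_eq ?_)))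
      rw [hx, show k * (1 - 1 / 2) = k / 2 by ring]

/-! ### asymptotics -/

lemma ev_small {a : ℝ} (ha : 0 < a) (K : ℝ) {δ : ℝ} (hδ : 0 < δ) :
    ∀ᶠ M : ℕ in atTop, K * (M : ℝ) ^ (-a) ≤ δ := by
  have h1 : Tendsto (fun M : ℕ => K * (M : ℝ) ^ (-a)) atTop (𝓝 (K * 0)) :=
    ((tendsto_rpow_neg_atTop ha).comp tendsto_natCast_atTop_atTop).const_mul K
  rw [mul_zero] at h1
  exact (h1.eventually (gt_mem_nhds hδ)).mono fun _ h => le_of_lt h

lemma ev_exp {a : ℝ} (ha : 0 < a) (K : ℝ) (hK : 0 ≤ K) :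
    ∀ᶠ M : ℕ in atTop, K * Real.exp (-((M : ℝ) ^ a / 3)) ≤ (M : ℝ) ^ (-1 : ℝ) := by
  obtain ⟨n, hn⟩ := exists_nat_ge (1 / a)
  have h1 : Tendsto (fun M : ℕ => (M : ℝ) ^ a / 3) atTop atTop :=
    ((tendsto_rpow_atTop ha).comp tendsto_natCast_atTop_atTop).atTop_div_const (by norm_num)
  have h2 := (Real.tendsto_pow_mul_exp_neg_atTop_nhds_zero n).comp h1
  have h3 : 0 < 1 / ((K + 1) * 3 ^ n) := by positivity
  filter_upwards [h2.eventually (gt_mem_nhds h3), eventually_ge_atTop 1] with M hM hM1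
  have hM' : (1 : ℝ) ≤ M := by exact_mod_cast hM1
  simp only [Function.comp] at hM
  have h4 : (M : ℝ) ≤ 3 ^ n * ((M : ℝ) ^ a / 3) ^ n := by
    rw [div_pow, mul_div_cancel₀ _ (by positivity), ← Real.rpow_natCast, ← Real.rpow_mul (by positivity)]
    calc (M : ℝ) = (M : ℝ) ^ (1 : ℝ) := (Real.rpow_one _).symm
      _ ≤ _ := Real.rpow_le_rpow_of_exponent_le hM' (by
        rw [div_le_iff₀ ha] at hn
        linarith)
  rw [Real.rpow_neg (by positivity), Real.rpow_one, ← one_div, le_div_iff₀ (by positivity)]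
  have h5 := Real.exp_pos (-((M : ℝ) ^ a / 3))
  rw [lt_div_iff₀ (by positivity)] at hM
  calc K * Real.exp (-((M : ℝ) ^ a / 3)) * M ≤
        (K + 1) * Real.exp (-((M : ℝ) ^ a / 3)) * (3 ^ n * ((M : ℝ) ^ a / 3) ^ n) := by
        gcongr; linarith
    _ = ((M : ℝ) ^ a / 3) ^ n * Real.exp (-((M : ℝ) ^ a / 3)) * ((K + 1) * 3 ^ n) := by ring
    _ ≤ 1 := hM.le

/-- the height -/
def hh (ε : ℝ) (M : ℕ) : ℝ := (1 - 2 * ε) / Real.pi * Real.log M

lemma exp_hh {ε : ℝ} (hM : 0 < M) : Real.exp (Real.pi * hh ε M) = (M : ℝ) ^ (1 - 2 * ε) := by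
  have hM' : (0 : ℝ) < M := by exact_mod_cast hM
  rw [hh, Real.rpow_def_of_pos hM']
  congr 1
  have := Real.pi_pos
  field_simp

lemma exp_hh' {ε : ℝ} (hM : 0 < M) : Real.exp (-(Real.pi * hh ε M)) = (M : ℝ) ^ (-(1 - 2 * ε)) := by
  have hM' : (0 : ℝ) < M := by exact_mod_cast hM
  rw [Real.exp_neg, exp_hh hM, Real.rpow_neg hM'.le]

lemma ev_hh {ε : ℝ} (hε : ε < 1 / 2) (C : ℝ) : ∀ᶠ M : ℕ in atTop, C ≤ hh ε M := by
  have h1 : 0 < (1 - 2 * ε) / Real.pi := div_pos (by linarith) Real.pi_pos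
  exact ((Real.tendsto_log_atTop.comp tendsto_natCast_atTop_atTop).const_mul_atTop
    h1).eventually_ge_atTop C

/-- the product error below the height `hh` -/
lemma prod_err {ε : ℝ} (hM : 0 < M) {y : ℝ} (hy : |y| ≤ hh ε M) :
    Real.exp (-(M / 3 * Real.exp (-(Real.pi * |y|)))) ≤
      Real.exp (-((M : ℝ) ^ (2 * ε) / 3)) := by
  have hM' : (0 : ℝ) < M := by exact_mod_cast hM
  refine Real.exp_le_exp.2 (neg_le_neg ?_)
  have h1 : Real.exp (-(Real.pi * hh ε M)) ≤ Real.exp (-(Real.pi * |y|)) := by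
    refine Real.exp_le_exp.2 (neg_le_neg ?_)
    exact mul_le_mul_of_nonneg_left hy Real.pi_pos.le
  rw [exp_hh' hM] at h1
  have h2 : (M : ℝ) ^ (2 * ε) = M * (M : ℝ) ^ (-(1 - 2 * ε)) := by
    have e : 2 * ε = 1 + -(1 - 2 * ε) := by ring
    conv_lhs => rw [e, Real.rpow_add hM', Real.rpow_one]
  rw [h2]
  have : (M : ℝ) / 3 * (M : ℝ) ^ (-(1 - 2 * ε)) ≤ M / 3 * Real.exp (-(Real.pi * |y|)) := by gcongr
  linarith

lemma sin_low {t : ℝ} (h0 : 1 / 16 ≤ t) (h1 : t ≤ 5 / 8) : 1 / 8 ≤ Real.sin (Real.pi * t) := by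
  have hpi := Real.pi_pos
  rcases le_total t (1 / 2) with h | h
  · have h2 := Real.mul_le_sin (x := Real.pi * t) (by positivity) (by nlinarith)
    have h3 : 2 / Real.pi * (Real.pi * t) = 2 * t := by field_simp
    linarith
  · have h2 := Real.mul_le_sin (x := Real.pi * (1 - t)) (by
      have : 0 ≤ 1 - t := by linarith
      positivity) (by nlinarith)
    have h3 : 2 / Real.pi * (Real.pi * (1 - t)) = 2 * (1 - t) := by field_simp
    have h4 : Real.sin (Real.pi * (1 - t)) = Real.sin (Real.pi * t) := by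
      rw [mul_sub, mul_one, Real.sin_pi_sub]
    linarith

/-- **good joint eigenvectors** -/
theorem Lh_good {ε : ℝ} (hε : 0 < ε) (hε2 : ε < 1 / 2) : ∃ C : ℝ, 0 ≤ C ∧ ∀ᶠ M : ℕ in atTop,
    ∀ (c : ℝ) (Ψ : (Fin M → Bool) → ℂ) (Λ : ℂ → ℂ), TJE et M c Ψ Λ →
      1 - (M : ℝ) ^ (-1 + ε) ≤ ‖Lh M Λ (1 / 2)‖ →
      (∃ s : ℝ, (s = 1 ∨ s = -1) ∧ ∀ x : ℂ, -(1 / 16) ≤ x.re → x.re ≤ 1 + 1 / 16 →
        |x.im| ≤ hh ε M - C → ‖(s : ℂ) * Lh M Λ x - 1‖ ≤ 1 / 2) ∧
      ∀ x : ℂ, -(1 / 16) ≤ x.re → x.re ≤ 1 + 1 / 16 → |x.im| ≤ hh ε M - C →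
        ‖Lh M Λ x ^ 2 - 1‖ ≤ 1 / 3 * Real.exp (-(Real.pi * (hh ε M - C - |x.im|))) := by
  have hpi := Real.pi_pos
  obtain ⟨δ, hδ, C1, hC1, hgood⟩ := Cut410.good (d := 1 / 8) (ε := 1 / 2) (by norm_num)
    (by norm_num) (by norm_num)
  set k : ℝ := Real.pi * (1 - ε / 2) with hk
  have hk0 : 0 < k := by
    have : 0 < 1 - ε / 2 := by linarith
    positivity
  have hk1 : k < Real.pi := by rw [hk]; nlinarith
  have hcos : 0 < Real.cos (k / 2) := Real.cos_pos_of_mem_Ioo ⟨by linarith, by linarith⟩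
  have hka : k / Real.pi = 1 - ε / 2 := by rw [hk]; field_simp
  refine ⟨C1 + 4, by linarith, ?_⟩
  filter_upwards [ev_hh hε2 (C1 + 4), ev_small hε 1 (δ := δ / 2) (by positivity),
    ev_small (a := 3 / 2 * ε) (by positivity) (6 / Real.cos (k / 2)) (δ := δ / 2) (by positivity),
    ev_exp (a := 2 * ε) (by positivity) 3 (by norm_num), ev_small one_pos 1 hδ,
    eventually_ge_atTop 1] with M w1 w2 w3 w4 w5 w6 c Ψ Λ h hmid
  have hM : 0 < M := w6
  have hM' : (1 : ℝ) ≤ M := by exact_mod_cast w6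
  have hM0 : (0 : ℝ) < M := by linarith
  set F : ℂ → ℂ := Lh M Λ with hF
  set H : ℝ := hh ε M with hH
  -- the product error
  have hprod : ∀ x : ℂ, |x.re| ≤ 1 / 4 → |x.im| ≤ H → ‖F x * F (x + 1) - 1‖ ≤
      3 * Real.exp (-((M : ℝ) ^ (2 * ε) / 3)) := by
    intro x hx hy
    refine (Lh_prod h hx).trans (mul_le_mul_of_nonneg_left ?_ (by norm_num))
    exact prod_err hM hy
  have hinv1 : (M : ℝ) ^ (-1 : ℝ) ≤ 1 := Real.rpow_le_one_of_one_le_of_nonpos hM' (by norm_num)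
  set e3 : ℝ := 3 * Real.exp (-((M : ℝ) ^ (2 * ε) / 3)) with he3
  have he30 : 0 < e3 := by positivity
  have hcr : ∀ x : ℂ, F (1 - (starRingEnd ℂ) x) = (starRingEnd ℂ) (F x) := Lh_cross h
  obtain ⟨s, hs, hbox⟩ := hgood F k H ((M : ℝ) ^ (-1 + ε))
    (6 * (M : ℝ) ^ (-(k / Real.pi)) / Real.cos (k / 2)) hk0 hk1 (by linarith)
    (by positivity) (by positivity)
    (fun x h1 h2 h3 => Lh_diff h (by linarith) (by linarith))
    (fun x h1 h2 => Lh_diff h (by linarith) (by linarith))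
    (fun x h1 h2 => Lh_grow hM h hk0 hk1 h1 h2) hcr
    (fun x h1 h2 => (hprod x (by linarith) h2).trans (by
      rw [one_mul] at w5; exact w4.trans w5)) hmid (by
      rw [exp_hh hM, hka, add_mul, ← Real.rpow_add hM0]
      have e1 : -1 + ε + (1 - 2 * ε) = -ε := by ring
      have e2 : 6 * (M : ℝ) ^ (-(1 - ε / 2)) / Real.cos (k / 2) * (M : ℝ) ^ (1 - 2 * ε) =
          6 / Real.cos (k / 2) * (M : ℝ) ^ (-(3 / 2 * ε)) := by
        have e3 : -(3 / 2 * ε) = -(1 - ε / 2) + (1 - 2 * ε) := by ring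
        rw [e3, Real.rpow_add hM0]
        ring
      rw [e1, e2]
      linarith)
  refine ⟨⟨s, hs, fun x h1 h2 h3 => hbox x (by linarith) (by linarith) (by linarith)⟩, ?_⟩
  have hss : (s : ℂ) * s = 1 := by rcases hs with h' | h' <;> simp [h']
  have hsn : ‖(s : ℂ)‖ = 1 := by rcases hs with h' | h' <;> simp [h']
  -- left half
  have hleft : ∀ x : ℂ, -(1 / 16) ≤ x.re → x.re ≤ 1 / 2 → |x.im| ≤ H - (C1 + 4) →
      ‖F x ^ 2 - 1‖ ≤ 1 / 3 * Real.exp (-(Real.pi * (H - (C1 + 4) - |x.im|))) := by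
    intro x h1 h2 h3
    have hN := Cut410.near_one (F := fun x => (s : ℂ) * F x) (b := -(1 / 8)) (h := H - C1)
      (s := e3) (by linarith) (w4.trans hinv1) (fun z z1 z2 z3 => ⟨
        (Lh_diff h (by linarith) (by linarith)).const_mul _,
        hbox z (by linarith) (by linarith) (by linarith)⟩) (fun y hy => ?_) (z := x)
      (by linarith) (by linarith) (by linarith)
    · have hsin := sin_low (t := x.re - -(1 / 8)) (by linarith) (by linarith)
      have hF1 := hbox x (by linarith) (by linarith) (by linarith)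
      have hFn : ‖(s : ℂ) * F x‖ ≤ 3 / 2 := by
        have := norm_add_le ((s : ℂ) * F x - 1) 1
        rw [sub_add_cancel, norm_one] at this
        linarith
      have hF0 : (s : ℂ) * F x ≠ 0 := by
        intro h0
        rw [h0, zero_sub, norm_neg, norm_one] at hF1
        norm_num at hF1
      have e4 : F x ^ 2 - 1 = (s : ℂ) * F x * ((s : ℂ) * F x - ((s : ℂ) * F x)⁻¹) := by
        rw [mul_sub, mul_inv_cancel₀ hF0]
        linear_combination (-(F x) ^ 2) * hss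
      set E : ℝ := Real.exp (-(Real.pi * (H - C1 - |x.im|))) with hE
      have hE0 : 0 < E := Real.exp_pos _
      have h5 : e3 ≤ E := by
        have h6 : Real.exp (-(Real.pi * H)) ≤ E := by
          refine Real.exp_le_exp.2 (neg_le_neg ?_)
          refine mul_le_mul_of_nonneg_left ?_ hpi.le
          linarith [abs_nonneg x.im]
        rw [hH, exp_hh' hM] at h6
        refine (w4.trans ?_).trans h6
        exact Real.rpow_le_rpow_of_exponent_le hM' (by linarith)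
      have h7 : 2 * e3 / Real.sin (Real.pi * (x.re - -(1 / 8))) ≤ 16 * E := by
        rw [div_le_iff₀ (by linarith)]
        nlinarith
      have h8 : E ≤ 1 / 15000 * Real.exp (-(Real.pi * (H - (C1 + 4) - |x.im|))) := by
        have e5 : -(Real.pi * (H - C1 - |x.im|)) =
            -(4 * Real.pi) + -(Real.pi * (H - (C1 + 4) - |x.im|)) := by ring
        rw [hE, e5, Real.exp_add]
        refine mul_le_mul_of_nonneg_right ?_ (Real.exp_pos _).le
        rw [Real.exp_neg, ← one_div]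
        refine one_div_le_one_div_of_le (by norm_num) ?_
        have h9 : (2.7182818283 : ℝ) ≤ Real.exp 1 := Real.exp_one_gt_d9.le
        calc (15000 : ℝ) ≤ 2.7182818283 ^ 12 := by norm_num
          _ ≤ Real.exp 1 ^ 12 := by gcongr
          _ = Real.exp 12 := by rw [← Real.exp_nat_mul]; norm_num
          _ ≤ Real.exp (4 * Real.pi) := Real.exp_le_exp.2 (by linarith [Real.pi_gt_three])
      rw [e4, norm_mul]
      calc ‖(s : ℂ) * F x‖ * ‖(s : ℂ) * F x - ((s : ℂ) * F x)⁻¹‖ ≤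
            3 / 2 * (3000 * E + 16 * E) := by
            gcongr
            exact hN.trans (by linarith)
        _ ≤ _ := by linarith
    · have h4 := hprod (((-(1 / 8) : ℝ) : ℂ) + y * Complex.I) (by simp; norm_num) (by
        simp; linarith)
      have e5 : (((-(1 / 8) : ℝ) : ℂ) + y * Complex.I) + 1 =
          ((-(1 / 8) + 1 : ℝ) : ℂ) + y * Complex.I := by push_cast; ring
      rw [e5] at h4
      have e6 : (s : ℂ) * F (((-(1 / 8) : ℝ) : ℂ) + y * Complex.I) *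
          ((s : ℂ) * F (((-(1 / 8) + 1 : ℝ) : ℂ) + y * Complex.I)) - 1 =
          F (((-(1 / 8) : ℝ) : ℂ) + y * Complex.I) *
            F (((-(1 / 8) + 1 : ℝ) : ℂ) + y * Complex.I) - 1 := by
        linear_combination (F (((-(1 / 8) : ℝ) : ℂ) + y * Complex.I) *
            F (((-(1 / 8) + 1 : ℝ) : ℂ) + y * Complex.I)) * hss
      rw [e6]
      exact h4
  intro x h1 h2 h3
  rcases le_total x.re (1 / 2) with h4 | h4
  · exact hleft x h1 h4 h3
  · have e5 : (1 - (starRingEnd ℂ) x).re = 1 - x.re := by simp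
    have e6 : (1 - (starRingEnd ℂ) x).im = x.im := by simp
    have h5 := hleft (1 - (starRingEnd ℂ) x) (by rw [e5]; linarith) (by rw [e5]; linarith)
      (by rw [e6]; exact h3)
    rw [hcr, e6, ← map_pow, ← map_one (starRingEnd ℂ), ← map_sub, Complex.norm_conj] at h5
    exact h5

/-- near inversion of the squares -/
theorem Lh_inv2 {ε : ℝ} (hε : 0 < ε) : ∀ᶠ M : ℕ in atTop,
    ∀ (c : ℝ) (Ψ : (Fin M → Bool) → ℂ) (Λ : ℂ → ℂ), TJE et M c Ψ Λ →
      ∀ x : ℂ, |x.re| ≤ 1 / 4 → |x.im| ≤ hh ε M →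
        ‖Lh M Λ (x + 1) ^ 2 * Lh M Λ x ^ 2 - 1‖ ≤ 9 * Real.exp (-((M : ℝ) ^ (2 * ε) / 3)) := by
  filter_upwards [ev_exp (a := 2 * ε) (by positivity) 3 (by norm_num),
    eventually_ge_atTop 1] with M w4 w6 c Ψ Λ h x hx hy
  have hM : 0 < M := w6
  have hM' : (1 : ℝ) ≤ M := by exact_mod_cast w6
  have h1 : ‖Lh M Λ x * Lh M Λ (x + 1) - 1‖ ≤ 3 * Real.exp (-((M : ℝ) ^ (2 * ε) / 3)) := by
    refine (Lh_prod h hx).trans (mul_le_mul_of_nonneg_left ?_ (by norm_num))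
    exact prod_err hM hy
  have h2 : 3 * Real.exp (-((M : ℝ) ^ (2 * ε) / 3)) ≤ 1 :=
    w4.trans (Real.rpow_le_one_of_one_le_of_nonpos hM' (by norm_num))
  set p : ℂ := Lh M Λ x * Lh M Λ (x + 1) with hp
  have e : Lh M Λ (x + 1) ^ 2 * Lh M Λ x ^ 2 - 1 = (p - 1) * ((p - 1) + 2) := by
    rw [hp]; ring
  rw [e, norm_mul]
  have h3 : ‖(p - 1) + 2‖ ≤ 3 := by
    refine (norm_add_le _ _).trans ?_
    have : ‖(2 : ℂ)‖ = 2 := by norm_num
    rw [this]
    linarith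
  calc ‖p - 1‖ * ‖(p - 1) + 2‖ ≤ (3 * Real.exp (-((M : ℝ) ^ (2 * ε) / 3))) * 3 := by gcongr
    _ = _ := by ring

/-- **bad joint eigenvectors** -/
theorem Lh_bad {ε : ℝ} (h : ¬ (1 - (M : ℝ) ^ (-1 + ε) ≤ ‖Lh M Λ (1 / 2)‖)) (n : ℕ) :
    ‖Lh M Λ (1 / 2)‖ ^ n ≤ Real.exp (-(n * (M : ℝ) ^ (-1 + ε))) := by
  rw [not_le] at h
  have h2 : ‖Lh M Λ (1 / 2)‖ ≤ Real.exp (-(M : ℝ) ^ (-1 + ε)) := by
    have := Real.add_one_le_exp (-(M : ℝ) ^ (-1 + ε))
    linarith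
  calc ‖Lh M Λ (1 / 2)‖ ^ n ≤ Real.exp (-(M : ℝ) ^ (-1 + ε)) ^ n :=
        pow_le_pow_left₀ (norm_nonneg _) h2 n
    _ = _ := by rw [← Real.exp_nat_mul]; congr 1; ring

end Crest.Agent.R158.Be979
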