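import Mathlib

/-!
# R158, block W-E (helper297): pure real analysis F1 + F2 + F3 => density and exponents

Abstract form: a filter `𝓕` on an index type, `ell → ∞` (= log K), `D` (difference of the local
means), `M i x = E x^N` (generating function of the number of long loops).
-/

namespace Crest.Agent.R158.We297

open Real Filter Topology

noncomputable section

def kap : ℝ := 3 / (2 * π ^ 2)
def lam : ℝ := π / 3
def ff (x : ℝ) : ℝ := 2 * Real.cos (lam + x)
def eta (t : ℝ) : ℝ := (3 / 4) * ((t / π) ^ 2 - 1 / 9)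

theorem kap_pos : 0 < kap := by unfold kap; positivity

theorem kap_lam : kap * lam = 1 / (2 * π) := by
  unfold kap lam; field_simp

theorem eta_eq (t : ℝ) : kap * (t - lam) ^ 2 / 2 + (t - lam) * (kap * lam) = eta t := by
  unfold kap lam eta; field_simp; ring

variable {ι : Type*}

structure Hyp (𝓕 : Filter ι) (ell D : ι → ℝ) (M : ι → ℝ → ℝ) : Prop where
  ell_top : Tendsto ell 𝓕 atTop
  nonneg : ∀ i x, 0 ≤ x → 0 ≤ M i x
  mono : ∀ i x y, 0 ≤ x → x ≤ y → M i x ≤ M i y
  F1 : ∀ a, ff a ≠ 0 → ∀ p : ℝ, 1 < p → ∃ C, 0 < C ∧ ∀ᶠ i in 𝓕,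
    Real.exp (-(kap * a ^ 2 / 2) * ell i)
      ≤ C * Real.exp (√3 * a * D i) * (M i (|ff a| ^ p)) ^ (1 / p)
  F2 : ∀ a, |a| < π / 6 → ∀ p : ℝ, 1 < p → ∃ C, 0 < C ∧ ∀ᶠ i in 𝓕,
    Real.exp (√3 * a * D i) * (M i ((ff a) ^ (1 / p))) ^ p
      ≤ C * Real.exp (-(kap * a ^ 2 / 2) * ell i)
  F3 : ∀ a, -(π / 3) < a → a < 0 → ∀ e, 0 < e → ∃ p0 : ℝ, 1 < p0 ∧ ∀ p : ℝ, 1 < p → p < p0 →
    ∀ᶠ i in 𝓕, Real.exp (√3 * a * D i) * (M i ((ff a) ^ (1 / p))) ^ p
      ≤ Real.exp ((-(kap * a ^ 2 / 2) + e) * ell i)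

theorem log1 {A B C m p : ℝ} (hC : 0 < C) (hm : 0 ≤ m) (hp : 0 < p)
    (h : Real.exp A ≤ C * Real.exp B * m ^ (1 / p)) :
    0 < m ∧ A ≤ Real.log C + B + (1 / p) * Real.log m := by
  have hm0 : 0 < m := by
    rcases hm.lt_or_eq with h0 | h0
    · exact h0
    · exfalso
      rw [← h0, Real.zero_rpow (by positivity), mul_zero] at h
      exact absurd h (not_le.mpr (Real.exp_pos A))
  refine ⟨hm0, ?_⟩
  have h1 : Real.log (Real.exp A) ≤ Real.log (C * Real.exp B * m ^ (1 / p)) :=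
    Real.log_le_log (Real.exp_pos A) h
  rw [Real.log_exp, Real.log_mul (by positivity) (by positivity),
    Real.log_mul (by positivity) (by positivity), Real.log_exp, Real.log_rpow hm0] at h1
  exact h1

theorem log2 {A B C m p : ℝ} (hC : 0 < C) (hm : 0 < m)
    (h : Real.exp B * m ^ p ≤ C * Real.exp A) :
    B + p * Real.log m ≤ Real.log C + A := by
  have h1 : Real.log (Real.exp B * m ^ p) ≤ Real.log (C * Real.exp A) :=
    Real.log_le_log (by positivity) h
  rw [Real.log_mul (by positivity) (by positivity),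
    Real.log_mul (by positivity) (by positivity), Real.log_exp, Real.log_exp,
    Real.log_rpow hm] at h1
  exact h1

/-- The two-point comparison. -/
theorem comp {𝓕 : Filter ι} {ell D : ι → ℝ} {M : ι → ℝ → ℝ} (H : Hyp 𝓕 ell D M)
    {a a' p e : ℝ} (hp : 1 < p) (hfa : ff a ≠ 0) (_hfa' : 0 ≤ ff a')
    (hle : |ff a| ^ p ≤ (ff a') ^ (1 / p))
    (hG : ∃ C, 0 < C ∧ ∀ᶠ i in 𝓕, Real.exp (√3 * a' * D i) * (M i ((ff a') ^ (1 / p))) ^ p
      ≤ C * Real.exp ((-(kap * a' ^ 2 / 2) + e) * ell i)) :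
    ∃ Cst, ∀ᶠ i in 𝓕, (√3 * D i / ell i) * (-a + a' / p ^ 2)
      ≤ kap * a ^ 2 / 2 - kap * a' ^ 2 / (2 * p ^ 2) + e / p ^ 2 + Cst / ell i := by
  obtain ⟨C1, hC1, h1⟩ := H.F1 a hfa p hp
  obtain ⟨C2, hC2, h2⟩ := hG
  refine ⟨Real.log C1 + Real.log C2 / p ^ 2, ?_⟩
  filter_upwards [h1, h2, H.ell_top.eventually_gt_atTop 0] with i h1i h2i hell
  have hp0 : 0 < p := by linarith
  have hx0 : 0 ≤ |ff a| ^ p := by positivity
  obtain ⟨hm, k1⟩ := log1 hC1 (H.nonneg i _ hx0) hp0 h1i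
  have hmm : M i (|ff a| ^ p) ≤ M i ((ff a') ^ (1 / p)) := H.mono i _ _ hx0 hle
  have hm' : 0 < M i ((ff a') ^ (1 / p)) := lt_of_lt_of_le hm hmm
  have k2 := log2 hC2 hm' h2i
  have hlog : Real.log (M i (|ff a| ^ p)) ≤ Real.log (M i ((ff a') ^ (1 / p))) :=
    Real.log_le_log hm hmm
  set X := Real.log (M i (|ff a| ^ p))
  set Y := Real.log (M i ((ff a') ^ (1 / p)))
  have hD : √3 * D i = (√3 * D i / ell i) * ell i := by field_simp
  set c := √3 * D i / ell i
  have k1' : -(kap * a ^ 2 / 2) * ell i ≤ Real.log C1 + a * (c * ell i) + (1 / p) * X := by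
    have : √3 * a * D i = a * (c * ell i) := by rw [← hD]; ring
    rw [this] at k1; exact k1
  have k2' : a' * (c * ell i) + p * Y ≤ Real.log C2 + (-(kap * a' ^ 2 / 2) + e) * ell i := by
    have : √3 * a' * D i = a' * (c * ell i) := by rw [← hD]; ring
    rw [this] at k2; exact k2
  have k3 : (1 / p) * X ≤ (1 / p) * Y := by
    apply mul_le_mul_of_nonneg_left hlog; positivity
  have k4 : (1 / p) * Y = (1 / p ^ 2) * (p * Y) := by field_simp
  have k5 : (1 / p ^ 2) * (p * Y) ≤ (1 / p ^ 2) *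
      (Real.log C2 + (-(kap * a' ^ 2 / 2) + e) * ell i - a' * (c * ell i)) := by
    apply mul_le_mul_of_nonneg_left _ (by positivity); linarith
  have k6 : -(kap * a ^ 2 / 2) * ell i ≤ Real.log C1 + a * (c * ell i) + (1 / p ^ 2) *
      (Real.log C2 + (-(kap * a' ^ 2 / 2) + e) * ell i - a' * (c * ell i)) := by linarith
  have k7 : (c * (-a + a' / p ^ 2)) * ell i ≤ (kap * a ^ 2 / 2 - kap * a' ^ 2 / (2 * p ^ 2)
      + e / p ^ 2) * ell i + (Real.log C1 + Real.log C2 / p ^ 2) := by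
    have e1 : (1 / p ^ 2) *
      (Real.log C2 + (-(kap * a' ^ 2 / 2) + e) * ell i - a' * (c * ell i))
      = Real.log C2 / p ^ 2 + (- (kap * a' ^ 2 / (2 * p ^ 2)) + e / p ^ 2) * ell i
        - (a' / p ^ 2) * (c * ell i) := by
      field_simp
    rw [e1] at k6
    linarith
  have k8 : (kap * a ^ 2 / 2 - kap * a' ^ 2 / (2 * p ^ 2) + e / p ^ 2
      + (Real.log C1 + Real.log C2 / p ^ 2) / ell i) * ell i
      = (kap * a ^ 2 / 2 - kap * a' ^ 2 / (2 * p ^ 2)
      + e / p ^ 2) * ell i + (Real.log C1 + Real.log C2 / p ^ 2) := by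
    field_simp
  rw [← k8] at k7
  exact le_of_mul_le_mul_right k7 hell

theorem small_div {𝓕 : Filter ι} {ell : ι → ℝ} (h : Tendsto ell 𝓕 atTop) (C : ℝ) {d : ℝ}
    (hd : 0 < d) : ∀ᶠ i in 𝓕, C / ell i ≤ d := by
  have : Tendsto (fun i => C / ell i) 𝓕 (𝓝 0) := h.const_div_atTop C
  filter_upwards [this.eventually (gt_mem_nhds hd)] with i hi
  exact le_of_lt hi

/-- the angle `t'` with `2 cos t' = (2 cos t)^s` -/
def ang (t s : ℝ) : ℝ := Real.arccos ((2 * Real.cos t) ^ s / 2)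

theorem ang_one {t : ℝ} (h0 : 0 ≤ t) (h1 : t < π / 2) : ang t 1 = t := by
  unfold ang
  rw [Real.rpow_one, mul_div_cancel_left₀ _ (two_ne_zero), Real.arccos_cos h0 (by linarith [pi_pos])]

theorem ang_cont {t : ℝ} (h0 : 0 ≤ t) (h1 : t < π / 2) (s : ℝ) : ContinuousAt (ang t) s := by
  have hc : 0 < 2 * Real.cos t := by
    have := Real.cos_pos_of_mem_Ioo (x := t) ⟨by linarith [pi_pos], h1⟩
    linarith
  unfold ang
  apply Real.continuous_arccos.continuousAt.comp
  apply ContinuousAt.div_const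
  exact (Real.continuousAt_const_rpow hc.ne')

theorem ang_cos {t s : ℝ} (h0 : 0 ≤ t) (h1 : t < π / 2) (hs : (2 * Real.cos t) ^ s ≤ 2) :
    2 * Real.cos (ang t s) = (2 * Real.cos t) ^ s := by
  have hc : 0 < 2 * Real.cos t := by
    have := Real.cos_pos_of_mem_Ioo (x := t) ⟨by linarith [pi_pos], h1⟩
    linarith
  unfold ang
  rw [Real.cos_arccos]
  · ring
  · have : 0 < (2 * Real.cos t) ^ s := Real.rpow_pos_of_pos hc s
    linarith
  · linarith

theorem ff_sub (t : ℝ) : ff (t - lam) = 2 * Real.cos t := by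
  unfold ff; congr 1; congr 1; ring

theorem ff_neg (t : ℝ) : ff (-lam - t) = 2 * Real.cos t := by
  unfold ff
  rw [show lam + (-lam - t) = -t by ring, Real.cos_neg]

/-- (A) upper bound of the density. -/
theorem upper {𝓕 : Filter ι} {ell D : ι → ℝ} {M : ι → ℝ → ℝ} (H : Hyp 𝓕 ell D M)
    {d : ℝ} (hd : 0 < d) : ∀ᶠ i in 𝓕, √3 * D i / ell i ≤ kap * lam + d := by
  set τ : ℝ := 5 * π / 12 with hτ
  have hpi := pi_pos
  have hτ0 : 0 ≤ τ := by rw [hτ]; positivity
  have hτ1 : τ < π / 2 := by rw [hτ]; linarith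
  have hcos : 0 < 2 * Real.cos τ := by
    have := Real.cos_pos_of_mem_Ioo (x := τ) ⟨by linarith, hτ1⟩
    linarith
  have hcos1 : 2 * Real.cos τ < 1 := by
    have h3 : Real.cos τ < Real.cos (π / 3) :=
      Real.cos_lt_cos_of_nonneg_of_le_pi (by positivity) (by linarith) (by rw [hτ]; linarith)
    rw [Real.cos_pi_div_three] at h3; linarith
  -- functions of p
  set b : ℝ → ℝ := fun p => ang τ (p * p) - lam with hb
  have hbc : ContinuousAt b 1 := by
    rw [hb]
    apply ContinuousAt.sub _ continuousAt_const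
    have h1 : ContinuousAt (ang τ) ((1 : ℝ) * 1) := ang_cont hτ0 hτ1 _
    exact ContinuousAt.comp (f := fun p : ℝ => p * p) (g := ang τ) (x := (1:ℝ)) h1
      (by fun_prop)
  have hb1 : b 1 = τ - lam := by
    simp only [hb]; rw [mul_one, ang_one hτ0 hτ1]
  set den : ℝ → ℝ := fun p => -(-lam - τ) + b p / p ^ 2 with hden
  set num : ℝ → ℝ := fun p => kap * (-lam - τ) ^ 2 / 2 - kap * (b p) ^ 2 / (2 * p ^ 2)
      + 0 / p ^ 2 with hnum
  have hdenc : ContinuousAt den 1 := by
    rw [hden]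
    apply ContinuousAt.add continuousAt_const
    exact hbc.div (by fun_prop) (by norm_num)
  have hnumc : ContinuousAt num 1 := by
    rw [hnum]
    apply ContinuousAt.add
    · apply ContinuousAt.sub continuousAt_const
      exact (continuousAt_const.mul (hbc.pow 2)).div (by fun_prop) (by norm_num)
    · exact continuousAt_const.div (by fun_prop) (by norm_num)
  have hden1 : den 1 = 2 * τ := by simp only [hden, hb1]; ring
  have hnum1 : num 1 = (kap * lam) * (2 * τ) := by simp only [hnum, hb1]; ring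
  have hτp : 0 < τ := by rw [hτ]; positivity
  have e1 : ∀ᶠ p in 𝓝 (1 : ℝ), 0 < den p :=
    hdenc.eventually (lt_mem_nhds (by rw [hden1]; linarith))
  have e2 : ∀ᶠ p in 𝓝 (1 : ℝ), num p < (kap * lam + d / 2) * den p := by
    have h1 : ContinuousAt (fun p => (kap * lam + d / 2) * den p - num p) 1 :=
      (continuousAt_const.mul hdenc).sub hnumc
    have h2 : 0 < (kap * lam + d / 2) * den 1 - num 1 := by
      rw [hden1, hnum1]; nlinarith
    filter_upwards [h1.eventually (lt_mem_nhds h2)] with p hp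
    linarith
  have e3 : ∀ᶠ p in 𝓝 (1 : ℝ), |b p| < π / 6 := by
    have h1 : ContinuousAt (fun p => |b p|) 1 := hbc.abs
    have h2 : |b 1| < π / 6 := by
      rw [hb1, hτ, lam, abs_lt]; constructor <;> linarith
    exact h1.eventually (gt_mem_nhds h2)
  have e4 : ∀ᶠ p in 𝓝[>] (1 : ℝ), 0 < den p ∧ num p < (kap * lam + d / 2) * den p ∧
      |b p| < π / 6 ∧ 1 < p := by
    filter_upwards [e1.filter_mono nhdsWithin_le_nhds, e2.filter_mono nhdsWithin_le_nhds,
      e3.filter_mono nhdsWithin_le_nhds, self_mem_nhdsWithin] with p h1 h2 h3 h4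
    exact ⟨h1, h2, h3, h4⟩
  obtain ⟨p, hdp, hnp, hbp, hp⟩ := e4.exists
  have hp0 : 0 < p := by linarith
  have hpow2 : (2 * Real.cos τ) ^ (p * p) ≤ 2 := by
    have : (2 * Real.cos τ) ^ (p * p) ≤ 1 :=
      Real.rpow_le_one hcos.le hcos1.le (by positivity)
    linarith
  have hffb : ff (b p) = (2 * Real.cos τ) ^ (p * p) := by
    simp only [hb]; rw [ff_sub, ang_cos hτ0 hτ1 hpow2]
  have hffa : ff (-lam - τ) = 2 * Real.cos τ := ff_neg τ
  have hF2 : ∃ C, 0 < C ∧ ∀ᶠ i in 𝓕, Real.exp (√3 * b p * D i) *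
      (M i ((ff (b p)) ^ (1 / p))) ^ p
      ≤ C * Real.exp ((-(kap * (b p) ^ 2 / 2) + 0) * ell i) := by
    obtain ⟨C, hC, h⟩ := H.F2 (b p) hbp p hp
    exact ⟨C, hC, by simpa using h⟩
  obtain ⟨Cst, hcomp⟩ := comp H (a := -lam - τ) (a' := b p) (p := p) (e := 0) hp
    (by rw [hffa]; exact hcos.ne') (by rw [hffb]; positivity)
    (by
      rw [hffa, hffb, abs_of_pos hcos, ← Real.rpow_mul hcos.le]
      apply le_of_eq; congr 1; field_simp) hF2
  have hs := small_div H.ell_top Cst (d := den p * (d / 2)) (by positivity)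
  filter_upwards [hcomp, hs] with i h1 h2
  have h3 : (√3 * D i / ell i) * den p ≤ (kap * lam + d) * den p := by
    have : (√3 * D i / ell i) * den p ≤ num p + Cst / ell i := h1
    nlinarith
  exact le_of_mul_le_mul_right h3 hdp

/-- (B) lower bound of the density. -/
theorem lower {𝓕 : Filter ι} {ell D : ι → ℝ} {M : ι → ℝ → ℝ} (H : Hyp 𝓕 ell D M)
    {d : ℝ} (hd : 0 < d) : ∀ᶠ i in 𝓕, kap * lam - d ≤ √3 * D i / ell i := by
  have hpi := pi_pos
  have hk := kap_pos
  -- choice of θ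
  obtain ⟨θ, hθ0, hθ1, hθ2⟩ : ∃ θ : ℝ, 0 < θ ∧ θ < π / 12 ∧ 3 / 2 * kap * θ < d / 4 := by
    refine ⟨min (π / 24) (d / (12 * kap)), by positivity, ?_, ?_⟩
    · exact lt_of_le_of_lt (min_le_left _ _) (by linarith)
    · have h1 : min (π / 24) (d / (12 * kap)) ≤ d / (12 * kap) := min_le_right _ _
      have h2 : 3 / 2 * kap * min (π / 24) (d / (12 * kap)) ≤ 3 / 2 * kap * (d / (12 * kap)) := by
        apply mul_le_mul_of_nonneg_left h1; positivity
      have h3 : 3 / 2 * kap * (d / (12 * kap)) = d / 8 := by field_simp; ring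
      linarith
  set e : ℝ := θ * (d / 4) with he
  have he0 : 0 < e := by positivity
  have hc2 : 0 < 2 * Real.cos (2 * θ) := by
    have := Real.cos_pos_of_mem_Ioo (x := 2 * θ) ⟨by linarith, by linarith⟩
    linarith
  have hc1 : 0 < 2 * Real.cos θ := by
    have := Real.cos_pos_of_mem_Ioo (x := θ) ⟨by linarith, by linarith⟩
    linarith
  have hcc : 2 * Real.cos (2 * θ) < 2 * Real.cos θ := by
    have h3 : Real.cos (2 * θ) < Real.cos θ :=
      Real.cos_lt_cos_of_nonneg_of_le_pi (by positivity) (by linarith) (by linarith)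
    linarith
  obtain ⟨p0, hp0, hF3⟩ := H.F3 (θ - lam) (by unfold lam; linarith) (by unfold lam; linarith) e he0
  set den : ℝ → ℝ := fun p => -(2 * θ - lam) + (θ - lam) / p ^ 2 with hden
  set num : ℝ → ℝ := fun p => kap * (2 * θ - lam) ^ 2 / 2 - kap * (θ - lam) ^ 2 / (2 * p ^ 2)
      + e / p ^ 2 with hnum
  have hdenc : ContinuousAt den 1 := by
    rw [hden]
    apply ContinuousAt.add continuousAt_const
    exact continuousAt_const.div (by fun_prop) (by norm_num)
  have hnumc : ContinuousAt num 1 := by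
    rw [hnum]
    apply ContinuousAt.add
    · apply ContinuousAt.sub continuousAt_const
      exact continuousAt_const.div (by fun_prop) (by norm_num)
    · exact continuousAt_const.div (by fun_prop) (by norm_num)
  have hden1 : den 1 = -θ := by simp only [hden]; ring
  have hnum1 : num 1 = -(kap * lam * θ - 3 / 2 * kap * θ ^ 2) + e := by simp only [hnum]; ring
  have e1 : ∀ᶠ p in 𝓝 (1 : ℝ), den p < 0 :=
    hdenc.eventually (gt_mem_nhds (by rw [hden1]; linarith))
  have e2 : ∀ᶠ p in 𝓝 (1 : ℝ), num p < (kap * lam - 3 * d / 4) * den p := by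
    have h1 : ContinuousAt (fun p => (kap * lam - 3 * d / 4) * den p - num p) 1 :=
      (continuousAt_const.mul hdenc).sub hnumc
    have h2 : 0 < (kap * lam - 3 * d / 4) * den 1 - num 1 := by
      rw [hden1, hnum1, he]; nlinarith
    filter_upwards [h1.eventually (lt_mem_nhds h2)] with p hp
    linarith
  have e3 : ∀ᶠ p in 𝓝 (1 : ℝ), (2 * Real.cos (2 * θ)) ^ p < (2 * Real.cos θ) ^ (1 / p) := by
    have h1 : ContinuousAt (fun p : ℝ => (2 * Real.cos θ) ^ (1 / p)
        - (2 * Real.cos (2 * θ)) ^ p) 1 := by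
      apply ContinuousAt.sub
      · have h1 : ContinuousAt (fun s : ℝ => (2 * Real.cos θ) ^ s) (1 / 1) :=
          Real.continuousAt_const_rpow hc1.ne'
        have h2 : ContinuousAt (fun p : ℝ => 1 / p) 1 :=
          continuousAt_const.div continuousAt_id (by norm_num)
        exact ContinuousAt.comp (f := fun p : ℝ => 1 / p)
          (g := fun s : ℝ => (2 * Real.cos θ) ^ s) (x := (1:ℝ)) h1 h2
      · exact Real.continuousAt_const_rpow hc2.ne'
    have h2 : 0 < (2 * Real.cos θ) ^ ((1 : ℝ) / 1) - (2 * Real.cos (2 * θ)) ^ (1 : ℝ) := by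
      rw [div_one, Real.rpow_one, Real.rpow_one]; linarith
    filter_upwards [h1.eventually (lt_mem_nhds h2)] with p hp
    linarith
  have e4 : ∀ᶠ p in 𝓝[>] (1 : ℝ), den p < 0 ∧ num p < (kap * lam - 3 * d / 4) * den p ∧
      (2 * Real.cos (2 * θ)) ^ p < (2 * Real.cos θ) ^ (1 / p) ∧ p < p0 ∧ 1 < p := by
    filter_upwards [e1.filter_mono nhdsWithin_le_nhds, e2.filter_mono nhdsWithin_le_nhds,
      e3.filter_mono nhdsWithin_le_nhds,
      (gt_mem_nhds hp0 : ∀ᶠ p in 𝓝 (1:ℝ), p < p0).filter_mono nhdsWithin_le_nhds,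
      self_mem_nhdsWithin] with p h1 h2 h3 h4 h5
    exact ⟨h1, h2, h3, h4, h5⟩
  obtain ⟨p, hdp, hnp, hpp, hpp0, hp⟩ := e4.exists
  have hp' : 0 < p := by linarith
  have hG : ∃ C, 0 < C ∧ ∀ᶠ i in 𝓕, Real.exp (√3 * (θ - lam) * D i) *
      (M i ((ff (θ - lam)) ^ (1 / p))) ^ p
      ≤ C * Real.exp ((-(kap * (θ - lam) ^ 2 / 2) + e) * ell i) :=
    ⟨1, one_pos, by simpa using hF3 p hp hpp0⟩
  obtain ⟨Cst, hcomp⟩ := comp H (a := 2 * θ - lam) (a' := θ - lam) (p := p) (e := e) hp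
    (by rw [ff_sub]; exact hc2.ne') (by rw [ff_sub]; exact hc1.le)
    (by rw [ff_sub, ff_sub, abs_of_pos hc2]; exact hpp.le) hG
  have hs := small_div H.ell_top Cst (d := (-den p) * (d / 4)) (by nlinarith)
  filter_upwards [hcomp, hs] with i h1 h2
  have h3 : (√3 * D i / ell i) * den p ≤ (kap * lam - d) * den p := by
    have : (√3 * D i / ell i) * den p ≤ num p + Cst / ell i := h1
    nlinarith
  by_contra hcon
  push Not at hcon
  nlinarith

/-- The density: `√3 D / log K → kap lam = 1/(2π)`. -/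
theorem density {𝓕 : Filter ι} {ell D : ι → ℝ} {M : ι → ℝ → ℝ} (H : Hyp 𝓕 ell D M) :
    Tendsto (fun i => √3 * D i / ell i) 𝓕 (𝓝 (kap * lam)) := by
  rw [Metric.tendsto_nhds]
  intro d hd
  filter_upwards [upper H (half_pos hd), lower H (half_pos hd)] with i h1 h2
  rw [Real.dist_eq, abs_lt]
  constructor <;> linarith

theorem density' {𝓕 : Filter ι} {ell D : ι → ℝ} {M : ι → ℝ → ℝ} (H : Hyp 𝓕 ell D M) :
    Tendsto (fun i => D i / ell i) 𝓕 (𝓝 (1 / (2 * √3 * π))) := by
  have h := (density H).const_mul (1 / √3)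
  have e1 : (1 / √3) * (kap * lam) = 1 / (2 * √3 * π) := by
    rw [kap_lam]; field_simp
  rw [e1] at h
  refine h.congr (fun i => ?_)
  have h3 : (√3 : ℝ) ≠ 0 := by positivity
  field_simp

/-- (X), upper half. -/
theorem X_upper {𝓕 : Filter ι} {ell D : ι → ℝ} {M : ι → ℝ → ℝ} (H : Hyp 𝓕 ell D M)
    {t d : ℝ} (ht0 : π / 6 < t) (ht1 : t < π / 2) (hd : 0 < d) :
    ∀ᶠ i in 𝓕, 0 < M i (2 * Real.cos t) →
      Real.log (M i (2 * Real.cos t)) ≤ (-eta t + d) * ell i := by
  have hpi := pi_pos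
  have ht : 0 ≤ t := by linarith
  have hc : 0 < 2 * Real.cos t := by
    have := Real.cos_pos_of_mem_Ioo (x := t) ⟨by linarith, ht1⟩
    linarith
  set b : ℝ → ℝ := fun p => ang t p - lam with hb
  have hbc : ContinuousAt b 1 := (ang_cont ht ht1 1).sub continuousAt_const
  have hb1 : b 1 = t - lam := by simp only [hb]; rw [ang_one ht ht1]
  have e1 : ∀ᶠ p in 𝓝 (1 : ℝ), |b p| < π / 6 := by
    have h1 : ContinuousAt (fun p => |b p|) 1 := hbc.abs
    have h2 : |b 1| < π / 6 := by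
      rw [hb1, lam, abs_lt]; constructor <;> linarith
    exact h1.eventually (gt_mem_nhds h2)
  have e2 : ∀ᶠ p in 𝓝 (1 : ℝ), (2 * Real.cos t) ^ p < 2 := by
    have h1 : ContinuousAt (fun p : ℝ => (2 * Real.cos t) ^ p) 1 :=
      Real.continuousAt_const_rpow hc.ne'
    have h2 : (2 * Real.cos t) ^ (1 : ℝ) < 2 := by
      rw [Real.rpow_one]
      have h3 : Real.cos t < Real.cos 0 :=
        Real.cos_lt_cos_of_nonneg_of_le_pi le_rfl (by linarith) (by linarith)
      rw [Real.cos_zero] at h3; linarith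
    exact h1.eventually (gt_mem_nhds h2)
  set g : ℝ → ℝ := fun p => (1 / p) * (-(kap * (b p) ^ 2 / 2) - b p * (kap * lam)) with hg
  have hgc : ContinuousAt g 1 := by
    rw [hg]
    apply ContinuousAt.mul (continuousAt_const.div continuousAt_id (by norm_num))
    exact ((continuousAt_const.mul (hbc.pow 2)).div_const 2).neg.sub (hbc.mul continuousAt_const)
  have hg1 : g 1 = -eta t := by
    simp only [hg, hb1]
    rw [← eta_eq t]; ring
  have e3 : ∀ᶠ p in 𝓝 (1 : ℝ), g p < -eta t + d / 3 :=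
    hgc.eventually (gt_mem_nhds (by rw [hg1]; linarith))
  have e4 : ∀ᶠ p in 𝓝[>] (1 : ℝ), |b p| < π / 6 ∧ (2 * Real.cos t) ^ p < 2 ∧
      g p < -eta t + d / 3 ∧ 1 < p := by
    filter_upwards [e1.filter_mono nhdsWithin_le_nhds, e2.filter_mono nhdsWithin_le_nhds,
      e3.filter_mono nhdsWithin_le_nhds, self_mem_nhdsWithin] with p h1 h2 h3 h4
    exact ⟨h1, h2, h3, h4⟩
  obtain ⟨p, hbp, hpow, hgp, hp⟩ := e4.exists
  have hp' : 0 < p := by linarith
  have hffb : ff (b p) = (2 * Real.cos t) ^ p := by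
    simp only [hb]; rw [ff_sub, ang_cos ht ht1 hpow.le]
  have hroot : (ff (b p)) ^ (1 / p) = 2 * Real.cos t := by
    rw [hffb, ← Real.rpow_mul hc.le, mul_one_div_cancel hp'.ne', Real.rpow_one]
  obtain ⟨C, hC, h⟩ := H.F2 (b p) hbp p hp
  -- constants
  have hden := (Metric.tendsto_nhds.mp (density H)) (d / 3) (by positivity)
  have hs := small_div H.ell_top (Real.log C / p) (d := d / 3) (by positivity)
  filter_upwards [h, hden, hs, H.ell_top.eventually_gt_atTop 0] with i h1 h2 h3 hell hm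
  rw [hroot] at h1
  have k := log2 hC hm h1
  set X := Real.log (M i (2 * Real.cos t))
  have hD : √3 * D i = (√3 * D i / ell i) * ell i := by field_simp
  set c := √3 * D i / ell i
  rw [Real.dist_eq, abs_lt] at h2
  have k1 : b p * (c * ell i) + p * X ≤ Real.log C + -(kap * (b p) ^ 2 / 2) * ell i := by
    have : √3 * b p * D i = b p * (c * ell i) := by rw [← hD]; ring
    rw [this] at k; exact k
  have hbl : |b p| ≤ 1 := by
    have : π / 6 < 1 := by linarith [Real.pi_lt_four]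
    linarith
  have k2 : - (b p * c) ≤ - (b p * (kap * lam)) + d / 3 := by
    have h5 : |b p * (c - kap * lam)| ≤ 1 * (d / 3) := by
      rw [abs_mul]
      apply mul_le_mul hbl _ (abs_nonneg _) (by norm_num)
      rw [abs_le]; constructor <;> linarith
    have h6 := (abs_le.mp h5).1
    linarith
  have k3 : X ≤ (1 / p) * (Real.log C + (-(kap * (b p) ^ 2 / 2) - b p * c) * ell i) := by
    rw [div_mul_eq_mul_div, one_mul, le_div_iff₀ hp']
    linarith
  have k4 : (1 / p) * (Real.log C + (-(kap * (b p) ^ 2 / 2) - b p * c) * ell i)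
      ≤ (1 / p) * (Real.log C + (-(kap * (b p) ^ 2 / 2) - b p * (kap * lam) + d / 3) * ell i) := by
    apply mul_le_mul_of_nonneg_left _ (by positivity)
    have : (-(kap * (b p) ^ 2 / 2) - b p * c) * ell i
      ≤ (-(kap * (b p) ^ 2 / 2) - b p * (kap * lam) + d / 3) * ell i := by
      apply mul_le_mul_of_nonneg_right _ hell.le; linarith
    linarith
  have k5 : (1 / p) * (Real.log C + (-(kap * (b p) ^ 2 / 2) - b p * (kap * lam) + d / 3) * ell i)
      = Real.log C / p + g p * ell i + (1 / p) * (d / 3) * ell i := by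
    simp only [hg]; field_simp; ring
  have k6 : Real.log C / p ≤ d / 3 * ell i := by
    rwa [div_le_iff₀ hell] at h3
  have k7 : (1 / p) * (d / 3) * ell i ≤ d / 3 * ell i := by
    have h8 : 1 / p ≤ 1 := by rw [div_le_one hp']; exact hp.le
    have : (1 / p) * (d / 3 * ell i) ≤ 1 * (d / 3 * ell i) := by
      apply mul_le_mul_of_nonneg_right h8; positivity
    linarith
  have k8 : g p * ell i ≤ (-eta t + d / 3) * ell i :=
    mul_le_mul_of_nonneg_right hgp.le hell.le
  linarith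

/-- (X), lower half (with positivity of the moment). -/
theorem X_lower {𝓕 : Filter ι} {ell D : ι → ℝ} {M : ι → ℝ → ℝ} (H : Hyp 𝓕 ell D M)
    {t d : ℝ} (ht0 : 0 ≤ t) (ht1 : t < π / 2) (ht2 : 0 < t) (hd : 0 < d) :
    ∀ᶠ i in 𝓕, 0 < M i (2 * Real.cos t) ∧
      (-eta t - d) * ell i ≤ Real.log (M i (2 * Real.cos t)) := by
  have hpi := pi_pos
  have ht : 0 ≤ t := ht0
  have hc : 0 < 2 * Real.cos t := by
    have := Real.cos_pos_of_mem_Ioo (x := t) ⟨by linarith, ht1⟩
    linarith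
  set b : ℝ → ℝ := fun p => ang t (1 / p) - lam with hb
  have hinv : ContinuousAt (fun p : ℝ => 1 / p) 1 :=
    continuousAt_const.div continuousAt_id (by norm_num)
  have hbc : ContinuousAt b 1 := by
    apply ContinuousAt.sub _ continuousAt_const
    have h1 : ContinuousAt (ang t) (1 / 1) := ang_cont ht ht1 _
    exact ContinuousAt.comp (f := fun p : ℝ => 1 / p) (g := ang t) (x := (1:ℝ)) h1 hinv
  have hb1 : b 1 = t - lam := by simp only [hb]; rw [div_one, ang_one ht ht1]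
  have e2 : ∀ᶠ p in 𝓝 (1 : ℝ), (2 * Real.cos t) ^ (1 / p) < 2 := by
    have h0 : ContinuousAt (fun s : ℝ => (2 * Real.cos t) ^ s) (1 / 1) :=
      Real.continuousAt_const_rpow hc.ne'
    have h1 : ContinuousAt (fun p : ℝ => (2 * Real.cos t) ^ (1 / p)) 1 :=
      ContinuousAt.comp (f := fun p : ℝ => 1 / p)
          (g := fun s : ℝ => (2 * Real.cos t) ^ s) (x := (1:ℝ)) h0 hinv
    have h2 : (2 * Real.cos t) ^ ((1 : ℝ) / 1) < 2 := by
      rw [div_one, Real.rpow_one]
      have h3 : Real.cos t < Real.cos 0 :=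
        Real.cos_lt_cos_of_nonneg_of_le_pi le_rfl (by linarith) (by linarith)
      rw [Real.cos_zero] at h3; linarith
    exact h1.eventually (gt_mem_nhds h2)
  set g : ℝ → ℝ := fun p => p * (-(kap * (b p) ^ 2 / 2) - b p * (kap * lam)) with hg
  have hgc : ContinuousAt g 1 := by
    rw [hg]
    apply ContinuousAt.mul continuousAt_id
    exact ((continuousAt_const.mul (hbc.pow 2)).div_const 2).neg.sub (hbc.mul continuousAt_const)
  have hg1 : g 1 = -eta t := by
    simp only [hg, hb1]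
    rw [← eta_eq t]; ring
  have e3 : ∀ᶠ p in 𝓝 (1 : ℝ), -eta t - d / 4 < g p :=
    hgc.eventually (lt_mem_nhds (by rw [hg1]; linarith))
  have e5 : ∀ᶠ p in 𝓝 (1 : ℝ), p < 2 := gt_mem_nhds (by norm_num)
  have e4 : ∀ᶠ p in 𝓝[>] (1 : ℝ), (2 * Real.cos t) ^ (1 / p) < 2 ∧
      -eta t - d / 4 < g p ∧ p < 2 ∧ 1 < p := by
    filter_upwards [e2.filter_mono nhdsWithin_le_nhds,
      e3.filter_mono nhdsWithin_le_nhds, e5.filter_mono nhdsWithin_le_nhds,
      self_mem_nhdsWithin] with p h1 h2 h3 h4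
    exact ⟨h1, h2, h3, h4⟩
  obtain ⟨p, hpow, hgp, hp2, hp⟩ := e4.exists
  have hp' : 0 < p := by linarith
  have hffb : ff (b p) = (2 * Real.cos t) ^ (1 / p) := by
    simp only [hb]; rw [ff_sub, ang_cos ht ht1 hpow.le]
  have hffpos : 0 < ff (b p) := by rw [hffb]; positivity
  have hroot : |ff (b p)| ^ p = 2 * Real.cos t := by
    rw [abs_of_pos hffpos, hffb, ← Real.rpow_mul hc.le, one_div_mul_cancel hp'.ne', Real.rpow_one]
  obtain ⟨C, hC, h⟩ := H.F1 (b p) hffpos.ne' p hp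
  have hden := (Metric.tendsto_nhds.mp (density H)) (d / 12) (by positivity)
  have hs := small_div H.ell_top (p * Real.log C) (d := d / 4) (by positivity)
  filter_upwards [h, hden, hs, H.ell_top.eventually_gt_atTop 0] with i h1 h2 h3 hell
  rw [hroot] at h1
  obtain ⟨hm, k⟩ := log1 hC (H.nonneg i _ hc.le) hp' h1
  refine ⟨hm, ?_⟩
  set X := Real.log (M i (2 * Real.cos t))
  have hD : √3 * D i = (√3 * D i / ell i) * ell i := by field_simp
  set c := √3 * D i / ell i
  rw [Real.dist_eq, abs_lt] at h2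
  have k1 : -(kap * (b p) ^ 2 / 2) * ell i ≤ Real.log C + b p * (c * ell i) + (1 / p) * X := by
    have : √3 * b p * D i = b p * (c * ell i) := by rw [← hD]; ring
    rw [this] at k; exact k
  have hbl : |b p| ≤ 3 := by
    have h5 : 0 ≤ ang t (1 / p) := Real.arccos_nonneg _
    have h6 : ang t (1 / p) ≤ π / 2 := by
      unfold ang
      rw [Real.arccos_le_pi_div_two]; positivity
    have : |b p| ≤ π / 2 := by
      simp only [hb]; rw [lam, abs_le]; constructor <;> linarith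
    linarith [Real.pi_lt_four]
  have k2 : - (b p * (kap * lam)) - d / 4 ≤ - (b p * c) := by
    have h5 : |b p * (c - kap * lam)| ≤ 3 * (d / 12) := by
      rw [abs_mul]
      apply mul_le_mul hbl _ (abs_nonneg _) (by norm_num)
      rw [abs_le]; constructor <;> linarith
    have h6 := (abs_le.mp h5).2
    linarith
  have k3 : p * ((-(kap * (b p) ^ 2 / 2) - b p * c) * ell i - Real.log C) ≤ X := by
    have h7 : (-(kap * (b p) ^ 2 / 2) - b p * c) * ell i - Real.log C ≤ (1 / p) * X := by linarith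
    have h8 := mul_le_mul_of_nonneg_left h7 hp'.le
    have h9 : p * ((1 / p) * X) = X := by field_simp
    linarith
  have k4 : p * ((-(kap * (b p) ^ 2 / 2) - b p * (kap * lam) - d / 4) * ell i - Real.log C)
      ≤ p * ((-(kap * (b p) ^ 2 / 2) - b p * c) * ell i - Real.log C) := by
    apply mul_le_mul_of_nonneg_left _ hp'.le
    have : (-(kap * (b p) ^ 2 / 2) - b p * (kap * lam) - d / 4) * ell i
      ≤ (-(kap * (b p) ^ 2 / 2) - b p * c) * ell i := by
      apply mul_le_mul_of_nonneg_right _ hell.le; linarith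
    linarith
  have k5 : p * ((-(kap * (b p) ^ 2 / 2) - b p * (kap * lam) - d / 4) * ell i - Real.log C)
      = g p * ell i - p * (d / 4) * ell i - p * Real.log C := by
    simp only [hg]; ring
  have k6 : p * Real.log C ≤ d / 4 * ell i := by
    rwa [div_le_iff₀ hell] at h3
  have k7 : p * (d / 4) * ell i ≤ 2 * (d / 4) * ell i := by
    apply mul_le_mul_of_nonneg_right _ hell.le
    apply mul_le_mul_of_nonneg_right hp2.le; positivity
  have k8 : (-eta t - d / 4) * ell i ≤ g p * ell i :=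
    mul_le_mul_of_nonneg_right hgp.le hell.le
  linarith

/-- (X): the exponent of `E (2 cos t)^N`. -/
theorem X {𝓕 : Filter ι} {ell D : ι → ℝ} {M : ι → ℝ → ℝ} (H : Hyp 𝓕 ell D M)
    {t d : ℝ} (ht0 : π / 6 < t) (ht1 : t < π / 2) (hd : 0 < d) :
    ∀ᶠ i in 𝓕, Real.exp ((-eta t - d) * ell i) ≤ M i (2 * Real.cos t) ∧
      M i (2 * Real.cos t) ≤ Real.exp ((-eta t + d) * ell i) := by
  have hpi := pi_pos
  filter_upwards [X_upper H ht0 ht1 hd, X_lower H (by linarith) ht1 (by linarith) hd] with i h1 h2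
  obtain ⟨hm, h3⟩ := h2
  have h4 := h1 hm
  constructor
  · calc Real.exp ((-eta t - d) * ell i) ≤ Real.exp (Real.log (M i (2 * Real.cos t))) :=
          Real.exp_le_exp.mpr h3
      _ = _ := Real.exp_log hm
  · calc M i (2 * Real.cos t) = Real.exp (Real.log (M i (2 * Real.cos t))) := (Real.exp_log hm).symm
      _ ≤ _ := Real.exp_le_exp.mpr h4

end

end Crest.Agent.R158.We297
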