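import Crest.Agent.R158.Lc5_522
import Crest.Agent.R158.We1_297

/-!
# Row 158 (helper522): one-block bounds at `v = 2` from `We297.Hyp`

* `X_upper3` : upper bound for the moments at `2 cos t`, `0 < t < π/3` (from F3)
* `MM i x = ∫ x ^ NN (0,0) r (K r / 2)`, `i = (K, r)`
* `blk_of_hyp : We297.Hyp (curry atTop atTop) (log K) D MM → Blk (log 2) (1/12)`
* `E2_of_hyp`
-/

set_option autoImplicit false

noncomputable section

namespace Crest.Agent.R158.Lc522

open Finset unitInterval MeasureTheory Filter Topology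
open Crest.Agent.R161.Geo729 Crest.Agent.R161.Tas682
open Crest.Agent.R158.Rs689 (PB nu hf)
open Crest.Agent.R158.It200 (Cfz Corner)
open Crest.Agent.R158.Wf850 (NN NN_dep)
open Crest.Agent.R158.Cn109 (DepF holder_exp)
open Crest.Agent.R158.We297 (Hyp kap lam ff eta eta_eq ff_sub density)

/-- upper bound for the moments at `2 cos t` from F3 -/
theorem X_upper3 {ι : Type*} {𝓕 : Filter ι} {ell D : ι → ℝ} {M : ι → ℝ → ℝ} (H : Hyp 𝓕 ell D M)
    {t d : ℝ} (ht0 : 0 < t) (ht1 : t < Real.pi / 3) (hd : 0 < d) :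
    ∀ᶠ i in 𝓕, 0 < M i (2 * Real.cos t) →
      M i (2 * Real.cos t) ≤ Real.exp ((-eta t + d) * ell i) := by
  have hpi := Real.pi_pos
  have hct : 0 < Real.cos t := Real.cos_pos_of_mem_Ioo ⟨by linarith, by linarith⟩
  -- choose `t'`
  have hec : ContinuousAt eta t := by unfold eta; fun_prop
  have e1 : ∀ᶠ t' in 𝓝 t, -eta t' < -eta t + d / 3 :=
    hec.neg.eventually (gt_mem_nhds (by show -eta t < _; linarith))
  have e2 : ∀ᶠ t' in 𝓝[<] t, -eta t' < -eta t + d / 3 ∧ 0 < t' ∧ t' < t := by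
    filter_upwards [e1.filter_mono nhdsWithin_le_nhds,
      (lt_mem_nhds ht0 : ∀ᶠ t' in 𝓝 t, 0 < t').filter_mono nhdsWithin_le_nhds,
      self_mem_nhdsWithin] with t' h1 h2 h3
    exact ⟨h1, h2, h3⟩
  obtain ⟨t', h1, h2, h3⟩ := e2.exists
  have hct' : Real.cos t < Real.cos t' :=
    Real.cos_lt_cos_of_nonneg_of_le_pi h2.le (by linarith) h3
  have heta : 0 ≤ -eta t' := by
    unfold eta
    have h5 : t' / Real.pi ≤ 1 / 3 := by
      rw [div_le_iff₀ hpi]; linarith
    have h6 : 0 ≤ t' / Real.pi := by positivity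
    have h7 : (t' / Real.pi) ^ 2 ≤ (1 / 3) ^ 2 := pow_le_pow_left₀ h6 h5 2
    norm_num at h7
    linarith
  obtain ⟨p0, hp0, hF⟩ := H.F3 (t' - lam) (by unfold lam; linarith) (by unfold lam; linarith)
    (d / 3) (by positivity)
  have hffa : ff (t' - lam) = 2 * Real.cos t' := ff_sub t'
  -- choose `p`
  have hcp : 0 < 2 * Real.cos t' := by linarith
  have e3 : ∀ᶠ p in 𝓝 (1 : ℝ), 2 * Real.cos t < (2 * Real.cos t') ^ (1 / p) := by
    have hinv : ContinuousAt (fun p : ℝ => 1 / p) 1 :=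
      continuousAt_const.div continuousAt_id (by norm_num)
    have h0 : ContinuousAt (fun s : ℝ => (2 * Real.cos t') ^ s) (1 / 1) :=
      Real.continuousAt_const_rpow hcp.ne'
    have h4 : ContinuousAt (fun p : ℝ => (2 * Real.cos t') ^ (1 / p)) 1 :=
      ContinuousAt.comp (f := fun p : ℝ => 1 / p)
        (g := fun s : ℝ => (2 * Real.cos t') ^ s) (x := (1:ℝ)) h0 hinv
    refine h4.eventually (lt_mem_nhds ?_)
    show 2 * Real.cos t < (2 * Real.cos t') ^ ((1 : ℝ) / 1)
    rw [div_one, Real.rpow_one]; linarith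
  have e4 : ∀ᶠ p in 𝓝[>] (1 : ℝ), 2 * Real.cos t < (2 * Real.cos t') ^ (1 / p) ∧ p < p0 ∧
      1 < p := by
    filter_upwards [e3.filter_mono nhdsWithin_le_nhds,
      (gt_mem_nhds hp0 : ∀ᶠ p in 𝓝 (1 : ℝ), p < p0).filter_mono nhdsWithin_le_nhds,
      self_mem_nhdsWithin] with p h1 h2 h3
    exact ⟨h1, h2, h3⟩
  obtain ⟨p, hp1, hp2, hp3⟩ := e4.exists
  have hp' : 0 < p := by linarith
  have hden := (Metric.tendsto_nhds.mp (density H)) (d / 12) (by positivity)
  filter_upwards [hF p hp3 hp2, hden, H.ell_top.eventually_gt_atTop 0] with i g1 g2 hell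
  intro hpos
  rw [hffa] at g1
  have hmono : M i (2 * Real.cos t) ≤ M i ((2 * Real.cos t') ^ (1 / p)) :=
    H.mono i _ _ (by linarith) hp1.le
  have hpos' : 0 < M i ((2 * Real.cos t') ^ (1 / p)) := hpos.trans_le hmono
  refine hmono.trans ?_
  set Y := M i ((2 * Real.cos t') ^ (1 / p)) with hY
  rw [← Real.exp_log hpos']
  refine Real.exp_le_exp.2 ?_
  have k := We297.log2 (C := 1) one_pos hpos' (by rw [one_mul]; exact g1)
  rw [Real.log_one, zero_add] at k
  have hD : √3 * D i = (√3 * D i / ell i) * ell i := by field_simp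
  set c := √3 * D i / ell i
  rw [Real.dist_eq, abs_lt] at g2
  have k1 : (t' - lam) * (c * ell i) + p * Real.log Y ≤
      (-(kap * (t' - lam) ^ 2 / 2) + d / 3) * ell i := by
    have : √3 * (t' - lam) * D i = (t' - lam) * (c * ell i) := by rw [← hD]; ring
    rw [this] at k; exact k
  have hal : |t' - lam| ≤ 2 := by
    unfold lam
    rw [abs_le]
    constructor <;> linarith [Real.pi_lt_four, Real.pi_gt_three]
  have k2 : - ((t' - lam) * c) ≤ - ((t' - lam) * (kap * lam)) + d / 6 := by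
    have h5 : |(t' - lam) * (c - kap * lam)| ≤ 2 * (d / 12) := by
      rw [abs_mul]
      apply mul_le_mul hal _ (abs_nonneg _) (by norm_num)
      rw [abs_le]; constructor <;> linarith
    have h6 := (abs_le.mp h5).1
    linarith
  have k3 : p * Real.log Y ≤ (-eta t' + d / 2) * ell i := by
    have h7 := eta_eq t'
    have h8 : (-(kap * (t' - lam) ^ 2 / 2) + d / 3 - (t' - lam) * c) * ell i ≤
        (-eta t' + d / 2) * ell i := by
      refine mul_le_mul_of_nonneg_right ?_ hell.le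
      linarith
    linarith
  have k4 : Real.log Y ≤ (-eta t' + d / 2) * ell i := by
    have h9 : 0 ≤ (-eta t' + d / 2) * ell i := by positivity
    by_cases h10 : 0 ≤ Real.log Y
    · have h11 := mul_le_mul_of_nonneg_right hp3.le h10
      linarith
    · linarith
  refine k4.trans (mul_le_mul_of_nonneg_right ?_ hell.le)
  linarith

/-! ### the moments -/

/-- the one-block moments, `i = (K, r)` -/
def MM (i : ℕ × ℕ) (x : ℝ) : ℝ :=
  ∫ z, x ^ NN (0, 0) (i.2 : ℕ) ((i.1 * i.2 / 2 : ℕ) : ℤ) z ∂(nu hf)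

theorem MM_exp (i : ℕ × ℕ) (s : ℝ) : MM i (Real.exp s) =
    ∫ z, Real.exp (s * NN (0, 0) (i.2 : ℕ) ((i.1 * i.2 / 2 : ℕ) : ℤ) z) ∂(nu hf) := by
  unfold MM
  congr 1
  funext z
  rw [← Real.exp_nat_mul, mul_comm]

/-- Hölder interpolation -/
theorem interp {x : P2} {r R : ℤ} {s1 s2 θ : ℝ} (h0 : 0 ≤ θ) (h1 : θ ≤ 1) :
    ∫ z, Real.exp (((1 - θ) * s1 + θ * s2) * NN x r R z) ∂(nu hf) ≤
      (∫ z, Real.exp (s1 * NN x r R z) ∂(nu hf)) ^ (1 - θ) *
        (∫ z, Real.exp (s2 * NN x r R z) ∂(nu hf)) ^ θ := by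
  have hd : ∀ s : ℝ, DepF (Wf850.annF x r R) (fun z => s * (NN x r R z : ℝ)) := fun s =>
    (NN_dep x r R).comp fun n : ℕ => s * (n : ℝ)
  have hh := holder_exp (fun _ : Edge => hf) (univ : Finset Bool) (S := Wf850.annF x r R)
    (fun b => cond b (1 - θ) θ) (fun b _ => by cases b <;> simp <;> assumption)
    (by simp) (fun b z => cond b (s1 * (NN x r R z : ℝ)) (s2 * (NN x r R z : ℝ)))
    (fun b _ => by
      cases b
      · exact hd s2
      · exact hd s1)
  simp only [Fintype.sum_bool, Fintype.prod_bool, cond_true, cond_false] at hh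
  refine le_trans (le_of_eq ?_) hh
  refine integral_congr_ae (Filter.Eventually.of_forall fun z => ?_)
  simp only
  congr 1
  ring

theorem eta_zero_near {d : ℝ} (hd : 0 < d) : ∀ᶠ t in 𝓝[>] (0 : ℝ), -eta t ≤ 1 / 12 ∧
    1 / 12 - d ≤ -eta t := by
  have hec : ContinuousAt eta 0 := by unfold eta; fun_prop
  have e0 : eta 0 = -(1 / 12) := by unfold eta; norm_num
  have e1 : ∀ᶠ t in 𝓝 (0 : ℝ), eta t < eta 0 + d := hec.eventually (gt_mem_nhds (by linarith))
  filter_upwards [e1.filter_mono nhdsWithin_le_nhds] with t h1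
  constructor
  · unfold eta; nlinarith [sq_nonneg (t / Real.pi)]
  · rw [e0] at h1; linarith

/-- **one-block bounds at `v = 2`** -/
theorem blk_of_hyp {D : ℕ × ℕ → ℝ}
    (H : Hyp (Filter.curry atTop atTop) (fun i : ℕ × ℕ => Real.log i.1) D MM) :
    Blk (Real.log 2) (1 / 12) := by
  intro d hd
  have hl2 : 0 < Real.log 2 := Real.log_pos (by norm_num)
  obtain ⟨Ca, hCa, hap⟩ := apriori_pow (2 * Real.log 2) (by positivity)
  obtain ⟨Cb, hCb, hap'⟩ := apriori (2 * Real.log 2) (by positivity)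
  -- choose `t1`
  have hlogc : ContinuousAt (fun t => Real.log (Real.cos t)) 0 :=
    ContinuousAt.log Real.continuous_cos.continuousAt (by simp)
  have hlog0 : Real.log (Real.cos 0) = 0 := by simp
  set ε := min (Real.log 2 / 2) (d / (16 * Ca) * Real.log 2) with hε
  have hε0 : 0 < ε := lt_min (by positivity) (by positivity)
  have e1 : ∀ᶠ t in 𝓝[>] (0 : ℝ), -ε < Real.log (Real.cos t) :=
    (hlogc.eventually (lt_mem_nhds (by
      show -ε < Real.log (Real.cos 0); rw [hlog0]; linarith))).filter_mono nhdsWithin_le_nhds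
  have e2 : ∀ᶠ t in 𝓝[>] (0 : ℝ), t < Real.pi / 3 :=
    (gt_mem_nhds (by positivity : (0 : ℝ) < Real.pi / 3)).filter_mono nhdsWithin_le_nhds
  obtain ⟨t, ⟨ht1, ht2⟩, ht3, ht4, ht5⟩ := ((eta_zero_near (d := d / 4) (by positivity)).and
    (e1.and (e2.and self_mem_nhdsWithin))).exists
  have ht5 : 0 < t := ht5
  have hct : 0 < Real.cos t := Real.cos_pos_of_mem_Ioo ⟨by linarith [Real.pi_pos], by
    linarith [Real.pi_pos]⟩
  have hct1 : Real.cos t < 1 := by
    have := Real.cos_lt_cos_of_nonneg_of_le_pi le_rfl (by linarith [Real.pi_pos]) ht5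
    rwa [Real.cos_zero] at this
  set η := -Real.log (Real.cos t) with hη
  have hη0 : 0 < η := by
    rw [hη, neg_pos]; exact Real.log_neg hct hct1
  have hηε : η < ε := by rw [hη]; linarith
  have hη2 : η < Real.log 2 / 2 := hηε.trans_le (min_le_left _ _)
  have hs1 : Real.exp (Real.log 2 - η) = 2 * Real.cos t := by
    rw [hη, sub_neg_eq_add, Real.exp_add, Real.exp_log (by norm_num), Real.exp_log hct]
  -- `θ`
  set θ := 2 * η / (Real.log 2 + η) with hθ
  have hθ0 : 0 ≤ θ := by positivity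
  have hθ1 : θ ≤ 1 := by rw [hθ, div_le_one (by positivity)]; linarith
  have hθs : (1 - θ) * (Real.log 2 - η) + θ * (2 * Real.log 2) = Real.log 2 + η := by
    rw [hθ]; field_simp; ring
  have hCθ : Ca * θ ≤ d / 8 := by
    have h1 : θ ≤ 2 * η / Real.log 2 := by
      rw [hθ]
      exact div_le_div_of_nonneg_left (by positivity) hl2 (by linarith)
    have h2 : η ≤ d / (16 * Ca) * Real.log 2 := hηε.le.trans (min_le_right _ _)
    calc Ca * θ ≤ Ca * (2 * η / Real.log 2) := mul_le_mul_of_nonneg_left h1 (by linarith)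
      _ ≤ Ca * (2 * (d / (16 * Ca) * Real.log 2) / Real.log 2) := by
          refine mul_le_mul_of_nonneg_left ?_ (by linarith)
          exact div_le_div_of_nonneg_right (by linarith) hl2.le
      _ = d / 8 := by field_simp; ring
  -- the two inputs
  have hup := X_upper3 H ht5 ht4 (d := d / 4) (by positivity)
  have hlo := We297.X_lower H ht5.le (by linarith [Real.pi_pos]) ht5 (d := d / 4) (by positivity)
  have hboth : ∀ᶠ i in Filter.curry (atTop : Filter ℕ) (atTop : Filter ℕ),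
      Real.exp ((1 / 12 - d / 2) * Real.log i.1) ≤ MM i (2 * Real.cos t) ∧
      MM i (2 * Real.cos t) ≤ Real.exp ((1 / 12 + d / 4) * Real.log i.1) := by
    filter_upwards [hup, hlo, H.ell_top.eventually_gt_atTop 0] with i g1 g2 hell
    constructor
    · rw [← Real.exp_log g2.1]
      refine Real.exp_le_exp.2 (le_trans ?_ g2.2)
      exact mul_le_mul_of_nonneg_right (by linarith) hell.le
    · refine (g1 g2.1).trans (Real.exp_le_exp.2 ?_)
      exact mul_le_mul_of_nonneg_right (by linarith) hell.le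
  rw [Filter.eventually_curry_iff] at hboth
  -- large `K`
  have hKbig : ∀ᶠ K : ℕ in atTop, Ca ≤ (K : ℝ) ^ (d / 4) :=
    ((tendsto_rpow_atTop (by positivity : 0 < d / 4)).comp
      tendsto_natCast_atTop_atTop).eventually_ge_atTop Ca
  obtain ⟨K0, hK0⟩ := Filter.eventually_atTop.1 (hboth.and (hKbig.and (eventually_ge_atTop 2)))
  refine ⟨η, hη0, max (Cb ^ (K0 + 1)) ((K0 + 1 : ℕ) : ℝ), le_max_of_le_right (by simp), ?_⟩
  intro K hK
  have hK1 : (1 : ℝ) ≤ K := by exact_mod_cast hK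
  have hKpos : (0 : ℝ) < K := by linarith
  set C := max (Cb ^ (K0 + 1)) ((K0 + 1 : ℕ) : ℝ) with hC
  have hC1 : 1 ≤ C := le_max_of_le_right (by simp)
  by_cases hKK : K0 ≤ K
  · -- large `K`
    obtain ⟨g1, g2, g3⟩ := hK0 K hKK
    obtain ⟨r0, hr0⟩ := Filter.eventually_atTop.1 g1
    refine ⟨max r0 1, fun r hr s hs => ?_⟩
    obtain ⟨a1, a2⟩ := hr0 r ((le_max_left _ _).trans hr)
    rw [← hs1, MM_exp] at a1 a2
    simp only at a1 a2
    rw [abs_le] at hs
    have hr1 : 1 ≤ r := (le_max_right _ _).trans hr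
    constructor
    · calc (K : ℝ) ^ (1 / 12 - d) / C ≤ (K : ℝ) ^ (1 / 12 - d) / 1 :=
            div_le_div_of_nonneg_left (Real.rpow_nonneg hKpos.le _) one_pos hC1
        _ = (K : ℝ) ^ (1 / 12 - d) := div_one _
        _ ≤ (K : ℝ) ^ (1 / 12 - d / 2) := Real.rpow_le_rpow_of_exponent_le hK1 (by linarith)
        _ = Real.exp ((1 / 12 - d / 2) * Real.log K) := by
            rw [Real.rpow_def_of_pos hKpos, mul_comm]
        _ ≤ _ := a1
        _ ≤ _ := exp_mono_s (by linarith [hs.1])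
    · have hR : r ≤ K * r / 2 := by
        rw [Nat.le_div_iff_mul_le (by norm_num), mul_comm]
        exact Nat.mul_le_mul_right _ g3
      have b1 := hap (0, 0) r (K * r / 2) hr1 hR
      have b2 : (((K * r / 2 : ℕ) : ℝ) / r) ≤ K := by
        rw [div_le_iff₀ (by exact_mod_cast hr1)]
        have : K * r / 2 ≤ K * r := Nat.div_le_self _ _
        exact_mod_cast this
      have b3 : ∫ z, Real.exp (2 * Real.log 2 * NN (0, 0) (r : ℕ) ((K * r / 2 : ℕ) : ℤ) z) ∂(nu hf) ≤
          Ca * (K : ℝ) ^ Ca :=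
        b1.trans (mul_le_mul_of_nonneg_left
          (Real.rpow_le_rpow (by positivity) b2 (by linarith)) (by linarith))
      have b4 := interp (x := (0, 0)) (r := (r : ℕ)) (R := ((K * r / 2 : ℕ) : ℤ))
        (s1 := Real.log 2 - η) (s2 := 2 * Real.log 2) hθ0 hθ1
      rw [hθs] at b4
      have b5 : (∫ z, Real.exp ((Real.log 2 - η) * NN (0, 0) (r : ℕ) ((K * r / 2 : ℕ) : ℤ) z)
          ∂(nu hf)) ^ (1 - θ) ≤ (K : ℝ) ^ (1 / 12 + d / 4) := by
        have c1 : 1 ≤ (K : ℝ) ^ (1 / 12 + d / 4) := Real.one_le_rpow hK1 (by positivity)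
        have c2 : ∫ z, Real.exp ((Real.log 2 - η) * NN (0, 0) (r : ℕ) ((K * r / 2 : ℕ) : ℤ) z)
            ∂(nu hf) ≤ (K : ℝ) ^ (1 / 12 + d / 4) := by
          refine a2.trans (le_of_eq ?_)
          rw [Real.rpow_def_of_pos hKpos, mul_comm]
        calc _ ≤ ((K : ℝ) ^ (1 / 12 + d / 4)) ^ (1 - θ) :=
              Real.rpow_le_rpow (integral_nonneg fun z => (Real.exp_pos _).le) c2 (by linarith)
          _ ≤ ((K : ℝ) ^ (1 / 12 + d / 4)) ^ (1 : ℝ) :=
              Real.rpow_le_rpow_of_exponent_le c1 (by linarith)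
          _ = _ := Real.rpow_one _
      have b6 : (∫ z, Real.exp (2 * Real.log 2 * NN (0, 0) (r : ℕ) ((K * r / 2 : ℕ) : ℤ) z)
          ∂(nu hf)) ^ θ ≤ (K : ℝ) ^ (d / 4) * (K : ℝ) ^ (d / 8) := by
        calc _ ≤ (Ca * (K : ℝ) ^ Ca) ^ θ :=
              Real.rpow_le_rpow (integral_nonneg fun z => (Real.exp_pos _).le) b3 hθ0
          _ = Ca ^ θ * (K : ℝ) ^ (Ca * θ) := by
              rw [Real.mul_rpow (by linarith) (Real.rpow_nonneg hKpos.le _),
                ← Real.rpow_mul hKpos.le]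
          _ ≤ (K : ℝ) ^ (d / 4) * (K : ℝ) ^ (d / 8) := by
              refine mul_le_mul ?_ (Real.rpow_le_rpow_of_exponent_le hK1 hCθ)
                (Real.rpow_nonneg hKpos.le _) (Real.rpow_nonneg hKpos.le _)
              calc Ca ^ θ ≤ Ca ^ (1 : ℝ) := Real.rpow_le_rpow_of_exponent_le hCa hθ1
                _ = Ca := Real.rpow_one _
                _ ≤ _ := g2
      calc ∫ z, Real.exp (s * NN (0, 0) (r : ℕ) ((K * r / 2 : ℕ) : ℤ) z) ∂(nu hf)
          ≤ ∫ z, Real.exp ((Real.log 2 + η) * NN (0, 0) (r : ℕ) ((K * r / 2 : ℕ) : ℤ) z)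
            ∂(nu hf) := exp_mono_s (by linarith [hs.2])
        _ ≤ (K : ℝ) ^ (1 / 12 + d / 4) * ((K : ℝ) ^ (d / 4) * (K : ℝ) ^ (d / 8)) :=
            b4.trans (mul_le_mul b5 b6 (Real.rpow_nonneg
              (integral_nonneg fun z => (Real.exp_pos _).le) _) (Real.rpow_nonneg hKpos.le _))
        _ = (K : ℝ) ^ (1 / 12 + 5 * d / 8) := by
            rw [← Real.rpow_add hKpos, ← Real.rpow_add hKpos]; ring_nf
        _ ≤ (K : ℝ) ^ (1 / 12 + d) := Real.rpow_le_rpow_of_exponent_le hK1 (by linarith)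
        _ ≤ C * (K : ℝ) ^ (1 / 12 + d) :=
            le_mul_of_one_le_left (Real.rpow_nonneg hKpos.le _) hC1
  · -- small `K`
    push Not at hKK
    refine ⟨1, fun r hr s hs => ?_⟩
    rw [abs_le] at hs
    have hs0 : 0 ≤ s := by linarith [hs.1]
    constructor
    · refine le_trans ?_ (one_le_exp_nn hs0)
      rw [div_le_one (by linarith)]
      calc (K : ℝ) ^ (1 / 12 - d) ≤ (K : ℝ) ^ (1 : ℝ) :=
            Real.rpow_le_rpow_of_exponent_le hK1 (by linarith)
        _ = K := Real.rpow_one _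
        _ ≤ ((K0 + 1 : ℕ) : ℝ) := by exact_mod_cast (by omega : K ≤ K0 + 1)
        _ ≤ C := le_max_right _ _
    · have hr1 : 1 ≤ r := hr
      have b1 := hap' (0, 0) r (K * r / 2) K hr1 (by
        have h1 : K < 2 ^ K := Nat.lt_two_pow_self
        have h2 : K * r / 2 ≤ K * r := Nat.div_le_self _ _
        have h3 : K * r < 2 ^ K * r := Nat.mul_lt_mul_of_pos_right h1 (by omega)
        omega)
      calc ∫ z, Real.exp (s * NN (0, 0) (r : ℕ) ((K * r / 2 : ℕ) : ℤ) z) ∂(nu hf)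
          ≤ ∫ z, Real.exp (2 * Real.log 2 * NN (0, 0) (r : ℕ) ((K * r / 2 : ℕ) : ℤ) z)
            ∂(nu hf) := exp_mono_s (by linarith [hs.2])
        _ ≤ Cb ^ K := b1
        _ ≤ Cb ^ (K0 + 1) := pow_le_pow_right₀ hCb (by omega)
        _ ≤ C := le_max_left _ _
        _ = C * 1 := (mul_one _).symm
        _ ≤ C * (K : ℝ) ^ (1 / 12 + d) := by
            refine mul_le_mul_of_nonneg_left (Real.one_le_rpow hK1 (by positivity)) (by linarith)

/-- **(I2) of doc 1912** from `We297.Hyp` -/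
theorem E2_of_hyp {D : ℕ × ℕ → ℝ}
    (H : Hyp (Filter.curry atTop atTop) (fun i : ℕ × ℕ => Real.log i.1) D MM) :
    ∀ d : ℝ, d > 0 → ∃ η > 0, ∀ᶠ n : ℕ in atTop, ∀ s : ℝ, |s - Real.log 2| ≤ η →
      (n : ℝ) ^ (1 / 12 - d) ≤ ∫ z, Real.exp (s * NN (0, 0) 0 n z) ∂(nu hf) ∧
      ∫ z, Real.exp (s * NN (0, 0) 0 n z) ∂(nu hf) ≤ (n : ℝ) ^ (1 / 12 + d) :=
  e2 (Real.log_pos (by norm_num)) (by norm_num) (blk_of_hyp H)

end Crest.Agent.R158.Lc522
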