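import Crest.Agent.R158.Cn4_109
import Crest.Agent.R158.We1_297

/-!
# Row 158, BLOCK W (helper109): growth of the mean `VV` of the local statistic

* `growth` (abstract): one-block increments of a sequence ⟹ linear growth with error `ε k + K`
* `VV_growth`, `VV_log` from the density of `We1_297`
-/

set_option autoImplicit false

noncomputable section

namespace Crest.Agent.R158.Vg109

open Real Filter Topology

/-- density of loops per unit of `log` -/
def den : ℝ := 1 / (2 * √3 * π)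

theorem den_pos : 0 < den := by unfold den; positivity

/-- density of loops per dyadic level -/
def v0 : ℝ := log 2 * den

/-- **abstract growth lemma** -/
theorem growth {V : ℕ → ℝ} {v : ℝ}
    (h : ∀ d : ℝ, 0 < d → ∃ j : ℕ, 1 ≤ j ∧ ∃ k0 : ℕ, ∀ k, k0 ≤ k → |V (k + j) - V k - j * v| ≤ d * j)
    {e : ℝ} (he : 0 < e) : ∃ K : ℝ, 0 ≤ K ∧ ∀ k : ℕ, |V k - k * v| ≤ e * k + K := by
  obtain ⟨j, hj, k0, hk⟩ := h e he
  set K : ℝ := ∑ i ∈ Finset.range (k0 + j), |V i - i * v| with hK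
  have hK0 : 0 ≤ K := Finset.sum_nonneg fun i _ => abs_nonneg _
  refine ⟨K, hK0, fun k => ?_⟩
  induction k using Nat.strong_induction_on with
  | _ k ih =>
    by_cases hlt : k < k0 + j
    · have h1 : |V k - k * v| ≤ K :=
        Finset.single_le_sum (f := fun i : ℕ => |V i - i * v|) (fun i _ => abs_nonneg _)
          (Finset.mem_range.2 hlt)
      have h2 : 0 ≤ e * k := by positivity
      linarith
    · push Not at hlt
      obtain ⟨m, rfl⟩ : ∃ m, k = m + j := ⟨k - j, by omega⟩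
      have h1 := ih m (by omega)
      have h2 := hk m (by omega)
      have h3 : V (m + j) - ((m + j : ℕ) : ℝ) * v
          = (V (m + j) - V m - j * v) + (V m - m * v) := by push_cast; ring
      rw [h3]
      refine (abs_add_le _ _).trans ?_
      push_cast
      nlinarith

/-- the one-block form from a `curry` density statement -/
theorem block_of_tendsto {V : ℕ → ℝ}
    (hD : Tendsto (fun i : ℕ × ℕ => (V (Nat.log 2 (i.1 * i.2)) - V (Nat.log 2 i.2)) /
      Real.log (i.1 : ℝ)) (Filter.curry atTop atTop) (𝓝 den)) {d : ℝ} (hd : 0 < d) :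
    ∃ j : ℕ, 1 ≤ j ∧ ∃ k0 : ℕ, ∀ k, k0 ≤ k → |V (k + j) - V k - j * v0| ≤ d * j := by
  have h1 := (Metric.tendsto_nhds.mp hD) d hd
  rw [Filter.eventually_curry_iff] at h1
  obtain ⟨K0, hK0⟩ := eventually_atTop.1 h1
  have hK1 : K0 ≤ 2 ^ (K0 + 1) := (Nat.lt_two_pow_self (n := K0)).le.trans
    (Nat.pow_le_pow_right (by norm_num) (by omega))
  obtain ⟨r0, hr0⟩ := eventually_atTop.1 (hK0 (2 ^ (K0 + 1)) hK1)
  refine ⟨K0 + 1, by omega, r0, fun k hk => ?_⟩
  have h2 := hr0 (2 ^ k) (hk.trans (Nat.lt_two_pow_self (n := k)).le)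
  have e1 : Nat.log 2 (2 ^ (K0 + 1) * 2 ^ k) = k + (K0 + 1) := by
    rw [← pow_add, Nat.log_pow (by norm_num)]; omega
  have e2 : Nat.log 2 (2 ^ k) = k := Nat.log_pow (by norm_num) k
  simp only [e1, e2] at h2
  have hl2 : (0 : ℝ) < log 2 := log_pos (by norm_num)
  have hl2' : log 2 ≤ 1 := by
    have := log_two_lt_d9
    linarith
  have e3 : Real.log ((2 ^ (K0 + 1) : ℕ) : ℝ) = ((K0 + 1 : ℕ) : ℝ) * log 2 := by
    push_cast
    rw [Real.log_pow]
    push_cast
    ring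
  have hj : (0 : ℝ) < ((K0 + 1 : ℕ) : ℝ) := by positivity
  rw [e3, Real.dist_eq] at h2
  have hp : 0 < ((K0 + 1 : ℕ) : ℝ) * log 2 := by positivity
  have h3 : |V (k + (K0 + 1)) - V k - ((K0 + 1 : ℕ) : ℝ) * v0|
      = |(V (k + (K0 + 1)) - V k) / (((K0 + 1 : ℕ) : ℝ) * log 2) - den| *
        (((K0 + 1 : ℕ) : ℝ) * log 2) := by
    rw [← abs_of_pos hp, ← abs_mul, abs_of_pos hp, sub_mul, div_mul_cancel₀ _ hp.ne']
    congr 1
    unfold v0
    ring
  rw [h3]
  calc _ ≤ d * (((K0 + 1 : ℕ) : ℝ) * log 2) := mul_le_mul_of_nonneg_right h2.le hp.le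
    _ ≤ d * (((K0 + 1 : ℕ) : ℝ) * 1) := by
        refine mul_le_mul_of_nonneg_left ?_ hd.le
        exact mul_le_mul_of_nonneg_left hl2' hj.le
    _ = _ := by ring

/-- from levels to radii -/
theorem log_form {V : ℕ → ℝ} (h : ∀ e : ℝ, 0 < e → ∃ K : ℝ, 0 ≤ K ∧ ∀ k : ℕ,
    |V k - k * v0| ≤ e * k + K) {e : ℝ} (he : 0 < e) :
    ∃ K : ℝ, 0 ≤ K ∧ ∀ n : ℕ, 1 ≤ n → |V (Nat.log 2 n) - den * log n| ≤ e * log n + K := by
  obtain ⟨K, hK, hV⟩ := h (e / 2) (by positivity)
  have hl2 : (0 : ℝ) < log 2 := log_pos (by norm_num)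
  have hl3 : (1 : ℝ) / 2 ≤ log 2 := by
    have := log_two_gt_d9
    linarith
  refine ⟨K + v0, by unfold v0; have := den_pos; positivity, fun n hn => ?_⟩
  have h1 := hV (Nat.log 2 n)
  have h2 : (2 : ℝ) ^ (Nat.log 2 n) ≤ n := by
    exact_mod_cast Nat.pow_log_le_self 2 (by omega)
  have h3 : (n : ℝ) < (2 : ℝ) ^ (Nat.log 2 n + 1) := by
    exact_mod_cast Nat.lt_pow_succ_log_self (by norm_num) n
  have hn0 : (0 : ℝ) < n := by exact_mod_cast hn
  have h4 : (Nat.log 2 n : ℝ) * log 2 ≤ log n := by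
    have := Real.log_le_log (by positivity) h2
    rwa [Real.log_pow] at this
  have h5 : log n ≤ ((Nat.log 2 n : ℝ) + 1) * log 2 := by
    have := Real.log_le_log hn0 h3.le
    rw [Real.log_pow] at this
    push_cast at this
    exact this
  have h6 : |(Nat.log 2 n : ℝ) * v0 - den * log n| ≤ v0 := by
    have hd := den_pos
    unfold v0
    rw [abs_le]
    constructor <;> nlinarith
  have h7 : V (Nat.log 2 n) - den * log n
      = (V (Nat.log 2 n) - (Nat.log 2 n : ℝ) * v0) + ((Nat.log 2 n : ℝ) * v0 - den * log n) := by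
    ring
  rw [h7]
  refine (abs_add_le _ _).trans ?_
  have h8 : e / 2 * (Nat.log 2 n : ℝ) ≤ e * log n := by
    have h9 : (Nat.log 2 n : ℝ) ≤ 2 * log n := by
      have : (Nat.log 2 n : ℝ) * (1 / 2) ≤ (Nat.log 2 n : ℝ) * log 2 :=
        mul_le_mul_of_nonneg_left hl3 (Nat.cast_nonneg _)
      linarith
    nlinarith
  linarith

/-- the density statement consumed -/
def HD : Prop := Tendsto (fun i : ℕ × ℕ => (Cn109.VV (Nat.log 2 (i.1 * i.2)) -
  Cn109.VV (Nat.log 2 i.2)) / Real.log (i.1 : ℝ)) (Filter.curry atTop atTop) (𝓝 den)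

theorem VV_growth (hD : HD) {e : ℝ} (he : 0 < e) :
    ∃ K : ℝ, 0 ≤ K ∧ ∀ k : ℕ, |Cn109.VV k - k * v0| ≤ e * k + K :=
  growth (fun _ hd => block_of_tendsto hD hd) he

theorem VV_log (hD : HD) {e : ℝ} (he : 0 < e) :
    ∃ K : ℝ, 0 ≤ K ∧ ∀ n : ℕ, 1 ≤ n → |Cn109.VV (Nat.log 2 n) - den * log n| ≤ e * log n + K :=
  log_form (fun _ he' => VV_growth hD he') he

/-- the density statement from `We297.Hyp` -/
theorem HD_of_hyp {M : ℕ × ℕ → ℝ → ℝ}
    (H : We297.Hyp (Filter.curry atTop atTop) (fun i : ℕ × ℕ => Real.log (i.1 : ℝ))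
      (fun i => Cn109.VV (Nat.log 2 (i.1 * i.2)) - Cn109.VV (Nat.log 2 i.2)) M) : HD :=
  We297.density' H

end Crest.Agent.R158.Vg109
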