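import Crest.Agent.R158.Ax2_107
import Crest.Agent.R158.Lc6_522
import Crest.Agent.R158.Vg1_109

/-!
# Row 158, identity B (helper109): final step

* `MainB` : output of 612's integration of identity B
* `sb_of_main` : `MainB`, the growth of `VV` and the lower bound of `E 2 ^ N` give `SB p2`
* `sb_of_hyp` : the same from `We297.Hyp`
-/

set_option autoImplicit false

noncomputable section

namespace Crest.Agent.R158.Bf109

open Real MeasureTheory Filter Topology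
open Crest.Agent.R158.Rs689 (nu hf)
open Crest.Agent.R158.Wf850 (NN)
open Crest.Agent.R158.Cn109 (VV)
open Crest.Agent.R158.Vg109 (v0 den VV_growth HD_of_hyp)

/-- identity B after integration (helper612) -/
def MainB : Prop := ∃ q c1 C2 : ℝ, 0 < q ∧ q ≤ 1 ∧ 0 < c1 ∧ 0 < C2 ∧ ∀ ε : ℝ, ε > 0 → ∃ k0 : ℕ,
  ∀ k ≥ k0, ∀ J : ℕ, 1 ≤ J →
    (c1 - C2 * ((2 : ℝ) ^ k) ^ ε * (1 - q) ^ J) *
        (∫ z, Real.exp (Real.log 2 * (NN (0, 0) 0 (2 ^ k) z : ℝ)) ∂(nu hf)) *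
        Real.exp (-(√3 * (π / 6)) * (VV (k + 4) + VV (k + 10 + 2 * J))) ≤
      C2 * Ax107.p2 (2 ^ k) *
        Real.exp (√3 * (π / 6) * (VV (k + 4) + VV (k + 10 + 2 * J)))

theorem bv0 : √3 * (π / 6) * v0 = log 2 / 12 := by
  unfold v0 den
  have h3 : √3 ≠ 0 := by positivity
  have hp : π ≠ 0 := pi_ne_zero
  field_simp
  norm_num

/-- the bad term is small -/
theorem small_bad {q τ C2 c1 : ℝ} (hq : 0 < q) (hq1 : q ≤ 1) (hτ : 0 < τ) (hc : 0 < c1)
    (hC : 0 < C2) : ∀ᶠ k : ℕ in atTop, ∀ J : ℕ, τ * k ≤ J →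
      C2 * ((2 : ℝ) ^ k) ^ (q * τ / (2 * log 2)) * (1 - q) ^ J ≤ c1 / 2 := by
  have hl : 0 < log 2 := log_pos (by norm_num)
  have hlim : Tendsto (fun k : ℕ => C2 * exp (-(q * τ / 2) * (k : ℝ))) atTop (𝓝 (C2 * 0)) := by
    refine Tendsto.const_mul _ (tendsto_exp_atBot.comp ?_)
    exact Tendsto.const_mul_atTop_of_neg (by nlinarith [mul_pos hq hτ]) tendsto_natCast_atTop_atTop
  rw [mul_zero] at hlim
  filter_upwards [hlim.eventually_le_const (show (0 : ℝ) < c1 / 2 by positivity)] with k hk J hJ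
  have e1 : ((2 : ℝ) ^ k) ^ (q * τ / (2 * log 2)) = exp (q * τ / 2 * k) := by
    rw [← rpow_natCast, ← rpow_mul (by norm_num), rpow_def_of_pos (by norm_num)]
    congr 1
    field_simp
  have e2 : (1 - q) ^ J ≤ exp (-(q * τ) * k) := by
    have h1 : (1 - q) ^ J ≤ exp (-q) ^ J :=
      pow_le_pow_left₀ (by linarith) (by have := add_one_le_exp (-q); linarith) _
    refine h1.trans ?_
    rw [← exp_nat_mul]
    refine exp_le_exp.2 ?_
    nlinarith [mul_le_mul_of_nonneg_left hJ hq.le]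
  calc C2 * ((2 : ℝ) ^ k) ^ (q * τ / (2 * log 2)) * (1 - q) ^ J
      ≤ C2 * exp (q * τ / 2 * k) * exp (-(q * τ) * k) := by
        rw [e1]
        exact mul_le_mul_of_nonneg_left e2 (by positivity)
    _ = C2 * exp (-(q * τ / 2) * (k : ℝ)) := by
        rw [mul_assoc, ← exp_add]
        congr 2
        ring
    _ ≤ c1 / 2 := hk

set_option maxHeartbeats 1000000 in
theorem sb_dyadic (hM : MainB)
    (hV : ∀ e : ℝ, 0 < e → ∃ K : ℝ, 0 ≤ K ∧ ∀ k : ℕ, |VV k - k * v0| ≤ e * k + K)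
    (hE : ∀ d : ℝ, 0 < d → ∀ᶠ n : ℕ in atTop, (n : ℝ) ^ (1 / 12 - d) ≤
      ∫ z, Real.exp (Real.log 2 * (NN (0, 0) 0 n z : ℝ)) ∂(nu hf)) {ε : ℝ} (hε : 0 < ε) :
    ∀ᶠ k : ℕ in atTop, ((2 : ℝ) ^ k) ^ (-(1 / 4 : ℝ) - ε) ≤ Ax107.p2 (2 ^ k) := by
  obtain ⟨q, c1, C2, hq, hq1, hc1, hC2, hmain⟩ := hM
  have hl : 0 < log 2 := log_pos (by norm_num)
  set b : ℝ := √3 * (π / 6) with hb
  have hb0 : 0 < b := by positivity
  set τ : ℝ := min 1 (ε / 4) with hτ
  have hτ0 : 0 < τ := lt_min one_pos (by positivity)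
  have hτ1 : τ ≤ 1 := min_le_left _ _
  have hτε : τ ≤ ε / 4 := min_le_right _ _
  set e : ℝ := ε * log 2 / (64 * b) with he
  have he0 : 0 < e := by positivity
  have hbe : 64 * (b * e) = ε * log 2 := by rw [he]; field_simp
  obtain ⟨K, hK0, hK⟩ := hV e he0
  obtain ⟨k0, hk0⟩ := hmain (q * τ / (2 * log 2)) (by positivity)
  have hE' : ∀ᶠ k : ℕ in atTop, (((2 ^ k : ℕ) : ℝ)) ^ (1 / 12 - ε / 8) ≤
      ∫ z, Real.exp (Real.log 2 * (NN (0, 0) 0 ((2 ^ k : ℕ) : ℤ) z : ℝ)) ∂(nu hf) :=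
    (tendsto_pow_atTop_atTop_of_one_lt (by norm_num : 1 < 2)).eventually
      (hE (ε / 8) (by positivity))
  -- the constant
  set D : ℝ := 2 * b * ((v0 + e) * 16 + 2 * K) - log (c1 / (2 * C2)) with hD
  have hlast : ∀ᶠ k : ℕ in atTop, D ≤ (k : ℝ) * (log 2 * (ε / 8)) :=
    (tendsto_natCast_atTop_atTop.atTop_mul_const (show 0 < log 2 * (ε / 8) by positivity)
      |>.eventually_ge_atTop D)
  filter_upwards [small_bad (τ := τ) hq hq1 hτ0 hc1 hC2, eventually_ge_atTop k0,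
    eventually_ge_atTop 1, hE', hlast] with k h1 h2 h3 h4 h5
  have hk1 : (1 : ℝ) ≤ k := by exact_mod_cast h3
  set J : ℕ := ⌈τ * k⌉₊ with hJ
  have hJ1 : τ * k ≤ J := Nat.le_ceil _
  have hJ2 : (J : ℝ) ≤ τ * k + 1 := (Nat.ceil_lt_add_one (by positivity)).le
  have hJ3 : 1 ≤ J := by
    rw [hJ]
    exact Nat.one_le_iff_ne_zero.2 (Nat.ceil_pos.2 (by positivity)).ne'
  have h6 := hk0 k h2 J hJ3
  have h7 := h1 J hJ1
  set I0 : ℝ := ∫ z, Real.exp (Real.log 2 * (NN (0, 0) 0 (2 ^ k) z : ℝ)) ∂(nu hf) with hI0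
  have h4' : ((2 : ℝ) ^ k) ^ (1 / 12 - ε / 8) ≤ I0 := by
    rw [hI0]
    push_cast at h4
    exact h4
  set S : ℝ := VV (k + 4) + VV (k + 10 + 2 * J) with hS
  have hSle : S ≤ (v0 + e) * ((2 + 2 * τ) * k + 16) + 2 * K := by
    have q1 := (abs_le.1 (hK (k + 4))).2
    have q2 := (abs_le.1 (hK (k + 10 + 2 * J))).2
    push_cast at q1 q2
    have hv : 0 ≤ v0 + e := by
      have : 0 < v0 := by unfold v0; exact mul_pos hl Vg109.den_pos
      linarith
    have q3 : S ≤ (v0 + e) * (2 * k + 14 + 2 * J) + 2 * K := by rw [hS]; linarith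
    have q4 : (v0 + e) * (2 * k + 14 + 2 * J) ≤ (v0 + e) * ((2 + 2 * τ) * k + 16) :=
      mul_le_mul_of_nonneg_left (by linarith) hv
    linarith
  have hI0nn : 0 ≤ I0 := (by positivity : (0 : ℝ) ≤ ((2 : ℝ) ^ k) ^ (1 / 12 - ε / 8)).trans h4'
  -- lower bound of `p2`
  have h8 : c1 / 2 * I0 * exp (-b * S) ≤ C2 * Ax107.p2 (2 ^ k) * exp (b * S) := by
    refine le_trans ?_ h6
    refine mul_le_mul_of_nonneg_right ?_ (exp_pos _).le
    refine mul_le_mul_of_nonneg_right ?_ hI0nn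
    linarith
  have h9 : c1 / (2 * C2) * I0 * exp (-(2 * b * S)) ≤ Ax107.p2 (2 ^ k) := by
    have e1 : exp (-(2 * b * S)) = exp (-b * S) * exp (-(b * S)) := by
      rw [← exp_add]; congr 1; ring
    have e2 : exp (b * S) * exp (-(b * S)) = 1 := by rw [← exp_add, add_neg_cancel, exp_zero]
    have h10 := mul_le_mul_of_nonneg_right h8 (exp_pos (-(b * S))).le
    have e3 : C2 * Ax107.p2 (2 ^ k) * exp (b * S) * exp (-(b * S)) = C2 * Ax107.p2 (2 ^ k) := by
      rw [mul_assoc, e2, mul_one]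
    rw [e3] at h10
    rw [e1]
    calc c1 / (2 * C2) * I0 * (exp (-b * S) * exp (-(b * S)))
        = (c1 / 2 * I0 * exp (-b * S) * exp (-(b * S))) / C2 := by field_simp
      _ ≤ (C2 * Ax107.p2 (2 ^ k)) / C2 := div_le_div_of_nonneg_right h10 hC2.le
      _ = Ax107.p2 (2 ^ k) := by field_simp
  refine le_trans ?_ h9
  have e4 : ((2 : ℝ) ^ k) ^ (-(1 / 4 : ℝ) - ε) = exp (k * (log 2 * (-(1 / 4 : ℝ) - ε))) := by
    rw [← rpow_natCast, ← rpow_mul (by norm_num), rpow_def_of_pos (by norm_num)]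
    congr 1; ring
  have e5 : ((2 : ℝ) ^ k) ^ (1 / 12 - ε / 8) = exp (k * (log 2 * (1 / 12 - ε / 8))) := by
    rw [← rpow_natCast, ← rpow_mul (by norm_num), rpow_def_of_pos (by norm_num)]
    congr 1; ring
  have hcc : 0 < c1 / (2 * C2) := by positivity
  calc ((2 : ℝ) ^ k) ^ (-(1 / 4 : ℝ) - ε)
      ≤ exp (log (c1 / (2 * C2)) + k * (log 2 * (1 / 12 - ε / 8)) + -(2 * b * S)) := by
        rw [e4]
        refine exp_le_exp.2 ?_
        have q1 : 2 * b * S ≤ 2 * b * ((v0 + e) * ((2 + 2 * τ) * k + 16) + 2 * K) :=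
          mul_le_mul_of_nonneg_left hSle (by positivity)
        have q2 : 2 * b * ((v0 + e) * ((2 + 2 * τ) * k + 16) + 2 * K) =
            4 * (b * v0) * (1 + τ) * k + 4 * (b * e) * (1 + τ) * k +
              2 * b * ((v0 + e) * 16 + 2 * K) := by ring
        have q3 : b * v0 = log 2 / 12 := bv0
        have q4 : 4 * (b * v0) * (1 + τ) * k ≤ log 2 / 3 * k + log 2 * (ε / 12) * k := by
          rw [q3]
          have : log 2 * k * τ ≤ log 2 * k * (ε / 4) := mul_le_mul_of_nonneg_left hτε (by positivity)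
          linarith
        have q5 : 4 * (b * e) * (1 + τ) * k ≤ log 2 * (ε / 8) * k := by
          have h11 : b * e = ε * log 2 / 64 := by linarith
          rw [h11]
          have h12 : ε * log 2 / 64 * (1 + τ) * k ≤ ε * log 2 / 64 * 2 * k := by
            have : ε * log 2 / 64 * (1 + τ) ≤ ε * log 2 / 64 * 2 :=
              mul_le_mul_of_nonneg_left (by linarith) (by positivity)
            exact mul_le_mul_of_nonneg_right this (by positivity)
          linarith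
        have hkε : 0 ≤ (k : ℝ) * (log 2 * ε) := by positivity
        rw [hD] at h5
        rw [q2] at q1
        clear_value b τ e D I0 S J
        linarith
    _ = c1 / (2 * C2) * ((2 : ℝ) ^ k) ^ (1 / 12 - ε / 8) * exp (-(2 * b * S)) := by
        rw [exp_add, exp_add, exp_log hcc, e5]
    _ ≤ c1 / (2 * C2) * I0 * exp (-(2 * b * S)) := by
        refine mul_le_mul_of_nonneg_right ?_ (exp_pos _).le
        exact mul_le_mul_of_nonneg_left h4' hcc.le

theorem tendsto_clog : Tendsto (fun n : ℕ => Nat.clog 2 n) atTop atTop := by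
  refine tendsto_atTop.2 fun b => ?_
  filter_upwards [eventually_gt_atTop (2 ^ b)] with n hn
  by_contra hcon
  have h1 : n ≤ 2 ^ Nat.clog 2 n := Nat.le_pow_clog (by norm_num) n
  have h2 : 2 ^ Nat.clog 2 n ≤ 2 ^ b := Nat.pow_le_pow_right (by norm_num) (by omega)
  omega

/-- **final step of identity B** -/
theorem sb_of_main (hM : MainB)
    (hV : ∀ e : ℝ, 0 < e → ∃ K : ℝ, 0 ≤ K ∧ ∀ k : ℕ, |VV k - k * v0| ≤ e * k + K)
    (hE : ∀ d : ℝ, 0 < d → ∀ᶠ n : ℕ in atTop, (n : ℝ) ^ (1 / 12 - d) ≤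
      ∫ z, Real.exp (Real.log 2 * (NN (0, 0) 0 n z : ℝ)) ∂(nu hf)) : Ax107.SB Ax107.p2 := by
  intro ε hε
  have h1 := tendsto_clog.eventually
    (sb_dyadic hM hV hE (ε := ε / 2) (by positivity))
  filter_upwards [h1, eventually_ge_atTop 2, Ax107.ev_pow (ε / 2) (by positivity)
    ((2 : ℝ) ^ (1 / 4 + ε / 2))] with n hn hn2 hbig
  have hn0 : (0 : ℝ) < n := by
    have : (2 : ℝ) ≤ n := by exact_mod_cast hn2
    linarith
  set k : ℕ := Nat.clog 2 n with hk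
  have hk1 : n ≤ 2 ^ k := Nat.le_pow_clog (by norm_num) n
  have hk2 : 2 ^ k ≤ 2 * n := by
    have h2 : 2 ^ (k - 1) < n := Nat.pow_pred_clog_lt_self (by norm_num) (by omega)
    have h3 : 1 ≤ k := by
      by_contra hcon
      have : k = 0 := by omega
      rw [this] at hk1
      omega
    have h4 : 2 ^ k = 2 * 2 ^ (k - 1) := by
      rw [← pow_succ', Nat.sub_add_cancel h3]
    omega
  refine le_trans ?_ (Ax107.p2_anti hk1)
  refine le_trans ?_ hn
  have hk2' : (2 : ℝ) ^ k ≤ 2 * n := by exact_mod_cast hk2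
  have h3 : (2 * (n : ℝ)) ^ (-(1 / 4 : ℝ) - ε / 2) ≤ ((2 : ℝ) ^ k) ^ (-(1 / 4 : ℝ) - ε / 2) :=
    rpow_le_rpow_of_nonpos (by positivity) hk2' (by linarith)
  refine le_trans ?_ h3
  rw [mul_rpow (by norm_num) hn0.le]
  have h4 : (n : ℝ) ^ (-(1 / 4 : ℝ) - ε) = (n : ℝ) ^ (-(ε / 2)) * (n : ℝ) ^ (-(1 / 4 : ℝ) - ε / 2) := by
    rw [← rpow_add hn0]; congr 1; ring
  rw [h4]
  refine mul_le_mul_of_nonneg_right ?_ (by positivity)
  rw [rpow_neg hn0.le, show (-(1 / 4 : ℝ) - ε / 2) = -(1 / 4 + ε / 2) by ring,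
    rpow_neg (by norm_num : (0 : ℝ) ≤ 2)]
  exact inv_anti₀ (by positivity) hbig

/-- **final step of identity B, from `We297.Hyp`** -/
theorem sb_of_hyp (hM : MainB)
    (H : We297.Hyp (Filter.curry atTop atTop) (fun i : ℕ × ℕ => Real.log (i.1 : ℝ))
      (fun i => VV (Nat.log 2 (i.1 * i.2)) - VV (Nat.log 2 i.2)) Lc522.MM) :
    Ax107.SB Ax107.p2 := by
  refine sb_of_main hM (fun e he => VV_growth (HD_of_hyp H) he) fun d hd => ?_
  obtain ⟨η, hη, h⟩ := Lc522.E2_of_hyp H d hd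
  filter_upwards [h] with n hn
  exact (hn (Real.log 2) (by rw [sub_self, abs_zero]; exact hη.le)).1

end Crest.Agent.R158.Bf109
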