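import Mathlib

/-!
# R158, Block B (helper430), file 0: splittings of the square lattice and strands

Coordinates of `Def_SixVertex` (S0211): vertices `(i,j)`, faces by their lower-left corner,
`(v,false)` = horizontal edge from `v` to `v+(1,0)` (faces `v` above, `v-(0,1)` below),
`(v,true)` = vertical edge from `v` to `v+(0,1)` (faces `v-(1,0)` left, `v` right).
The coordinate groups are `ℤ × ℤ` or `ZMod M × ZMod L` with `M, L` even.

* `vp v` parity of `v` (`true` = odd); even faces are primal, odd faces are dual.
* canonical orientation `ori e` (`true` = right / up): the odd face is on the left of every edge: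
  `(v,false)` is directed right iff `v` is odd, `(v,true)` up iff `v` is even.
* a splitting `s` : at `v`, `false` pairs W–N, S–E (joins the faces NE, SW), `true` pairs W–S, N–E
  (joins NW, SE).
* `nx s e` = next edge of the strand of `e`, `hd e` = head vertex, `kap s v` = turn (`+1` left) of
  the two strands at `v` (`+1` iff the even faces are joined at `v`).
-/

set_option autoImplicit false

namespace Crest.Agent.R158.Bk430

/-- parity on a coordinate group -/
class HasPar (A : Type*) [AddGroupWithOne A] where
  par : A → Bool
  par_add_one : ∀ a, par (a + 1) = !par a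

export HasPar (par par_add_one)

instance : HasPar ℤ where
  par a := decide (a % 2 = 1)
  par_add_one a := by
    by_cases h : a % 2 = 1
    · have h2 : ¬ ((a + 1) % 2 = 1) := by omega
      simp [h, h2]
    · have h2 : ((a + 1) % 2 = 1) := by omega
      simp [h, h2]

section Generic

variable {A B : Type*} [AddGroupWithOne A] [AddGroupWithOne B] [HasPar A] [HasPar B]

theorem par_sub_one (a : A) : par (a - 1) = !par a := by
  have h := par_add_one (a - 1)
  rw [sub_add_cancel] at h
  rw [h, Bool.not_not]

/-- vertex / face parity (`true` = odd) -/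
def vp (v : A × B) : Bool := xor (par v.1) (par v.2)

@[simp] theorem vp_add_fst (a : A) (b : B) : vp (a + 1, b) = !vp (a, b) := by
  simp [vp, par_add_one]

@[simp] theorem vp_sub_fst (a : A) (b : B) : vp (a - 1, b) = !vp (a, b) := by
  simp [vp, par_sub_one]

@[simp] theorem vp_add_snd (a : A) (b : B) : vp (a, b + 1) = !vp (a, b) := by
  simp [vp, par_add_one]

@[simp] theorem vp_sub_snd (a : A) (b : B) : vp (a, b - 1) = !vp (a, b) := by
  simp [vp, par_sub_one]

end Generic

/-- medial edges: `(v,false)` from `v` to `v+(1,0)`, `(v,true)` from `v` to `v+(0,1)` -/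
abbrev ME (A B : Type*) := (A × B) × Bool

section Generic

variable {A B : Type*} [AddGroupWithOne A] [AddGroupWithOne B] [HasPar A] [HasPar B]

/-- canonical orientation (`true` = right / up): odd face on the left -/
def ori (e : ME A B) : Bool := xor (vp e.1) e.2

/-- head vertex of `e` in the canonical orientation -/
def hd (e : ME A B) : A × B :=
  if e.2 then (if vp e.1 then e.1 else (e.1.1, e.1.2 + 1))
  else (if vp e.1 then (e.1.1 + 1, e.1.2) else e.1)

/-- tail vertex of `e` in the canonical orientation -/
def tl (e : ME A B) : A × B :=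
  if e.2 then (if vp e.1 then (e.1.1, e.1.2 + 1) else e.1)
  else (if vp e.1 then e.1 else (e.1.1 + 1, e.1.2))

/-- next edge of the strand -/
def nx (s : A × B → Bool) (e : ME A B) : ME A B :=
  if e.2 then
    (if s (hd e) = vp e.1 then (hd e, false) else (((hd e).1 - 1, (hd e).2), false))
  else
    (if s (hd e) = !vp e.1 then (hd e, true) else (((hd e).1, (hd e).2 - 1), true))

/-- previous edge of the strand -/
def px (s : A × B → Bool) (e : ME A B) : ME A B :=
  if e.2 then
    (if s (tl e) = !vp e.1 then (tl e, false) else (((tl e).1 - 1, (tl e).2), false))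
  else
    (if s (tl e) = vp e.1 then (tl e, true) else (((tl e).1, (tl e).2 - 1), true))

theorem tl_nx (s : A × B → Bool) (e : ME A B) : tl (nx s e) = hd e := by
  obtain ⟨⟨a, b⟩, c⟩ := e
  cases c <;> cases hv : vp (a, b) <;> simp only [nx, hd, hv] <;> split_ifs <;> simp_all [tl]

theorem hd_px (s : A × B → Bool) (e : ME A B) : hd (px s e) = tl e := by
  obtain ⟨⟨a, b⟩, c⟩ := e
  cases c <;> cases hv : vp (a, b) <;> simp only [px, tl, hv] <;> split_ifs <;> simp_all [hd]

theorem px_nx (s : A × B → Bool) (e : ME A B) : px s (nx s e) = e := by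
  obtain ⟨⟨a, b⟩, c⟩ := e
  cases c <;> cases hv : vp (a, b) <;> simp only [nx, hd, hv] <;> split_ifs <;> simp_all [px, tl]

theorem nx_px (s : A × B → Bool) (e : ME A B) : nx s (px s e) = e := by
  obtain ⟨⟨a, b⟩, c⟩ := e
  cases c <;> cases hv : vp (a, b) <;> simp only [px, tl, hv] <;> split_ifs <;> simp_all [nx, hd]

/-- the strand permutation -/
def nxE (s : A × B → Bool) : Equiv.Perm (ME A B) where
  toFun := nx s
  invFun := px s
  left_inv := px_nx s
  right_inv := nx_px s

@[simp] theorem nxE_apply (s : A × B → Bool) (e : ME A B) : nxE s e = nx s e := rfl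

/-- turn of the strands at a vertex (`+1` = left = the even faces are joined) -/
def kap (s : A × B → Bool) (v : A × B) : ℤ := if s v = vp v then 1 else -1

/-- turn of the strand of `e` at its head -/
def turn (s : A × B → Bool) (e : ME A B) : ℤ := kap s (hd e)

/-- sign of a Boolean flip -/
def sgb (b : Bool) : ℤ := if b then -1 else 1

end Generic

end Crest.Agent.R158.Bk430
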