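import Mathlib
import Crest.Agent.R158.Bk0_430

/-!
# R158, Block B (helper430), file 1: six-vertex weights as sums over splittings

`f : ME A B → Bool` = set of edges whose arrow is opposite to the canonical orientation.
* `cmp b fW fE fN fS` : compatibility of the flips with the splitting `b` at a vertex
* `lw` local weight of (flips, splitting), `lw_sum` : sum over the splitting = six-vertex weight
* `W6 f s = ∏ v, lw`, `W6_eq` : `= if f ∘ nx s = f then exp (i lam/4 ∑ turn e * sgb (f e)) else 0`
-/

set_option autoImplicit false

namespace Crest.Agent.R158.Bk430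

open Finset Complex

/-- compatibility with a splitting -/
def cmp (b fW fE fN fS : Bool) : Prop := if b then fW = fS ∧ fE = fN else fW = fN ∧ fE = fS

instance (b fW fE fN fS : Bool) : Decidable (cmp b fW fE fN fS) := by unfold cmp; infer_instance

/-- turn at a vertex of parity `p` for the splitting `b` -/
def kb (p b : Bool) : ℤ := if b = p then 1 else -1

/-- ice rule in terms of flips -/
def ice (fW fE fN fS : Bool) : Prop := fW.toNat + fE.toNat = fN.toNat + fS.toNat

instance (fW fE fN fS : Bool) : Decidable (ice fW fE fN fS) := by unfold ice; infer_instance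

/-- local weight of a splitting -/
noncomputable def lw (lam : ℝ) (p b fW fE fN fS : Bool) : ℂ :=
  if cmp b fW fE fN fS then exp (I * (lam / 4 * (kb p b * (sgb fW + sgb fE) : ℤ))) else 0

theorem exp_two_cos (x : ℝ) : exp (I * x) + exp (-(I * x)) = (2 * Real.cos x : ℝ) := by
  have h := Complex.two_cos (x : ℂ)
  push_cast
  rw [h]
  congr 1
  · congr 1; ring
  · congr 1; ring

/-- local six-vertex weight -/
noncomputable def w6 (lam : ℝ) (fW fE fN fS : Bool) : ℝ :=
  if ice fW fE fN fS then (if fW = fE then 2 * Real.cos (lam / 2) else 1) else 0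

theorem lw_sum (lam : ℝ) (p fW fE fN fS : Bool) :
    ∑ b : Bool, lw lam p b fW fE fN fS = (w6 lam fW fE fN fS : ℂ) := by
  have h1 : exp (I * (lam / 4 * 2)) + exp (-(I * (lam / 4 * 2))) = 2 * Complex.cos (lam / 2) := by
    have h := exp_two_cos (lam / 2)
    have e1 : I * ((lam : ℂ) / 4 * 2) = I * ((lam / 2 : ℝ) : ℂ) := by push_cast; ring
    rw [e1, h]
    push_cast
    rfl
  have h2 : exp (-(I * (lam / 4 * 2))) + exp (I * (lam / 4 * 2)) = 2 * Complex.cos (lam / 2) := by
    rw [add_comm, h1]
  rw [Fintype.sum_bool]
  cases p <;> cases fW <;> cases fE <;> cases fN <;> cases fS <;>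
    simp [lw, cmp, kb, sgb, w6, ice] <;>
    first | exact h1 | exact h2

section Generic

variable {A B : Type*} [AddGroupWithOne A] [AddGroupWithOne B] [HasPar A] [HasPar B]

/-- the four edges at a vertex -/
def eW (v : A × B) : ME A B := ((v.1 - 1, v.2), false)
def eE (v : A × B) : ME A B := (v, false)
def eN (v : A × B) : ME A B := (v, true)
def eS (v : A × B) : ME A B := ((v.1, v.2 - 1), true)

theorem kap_eq (s : A × B → Bool) (v : A × B) : kap s v = kb (vp v) (s v) := rfl

/-- compatibility of the flips `f` with the splitting `s` at `v` -/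
def cmpAt (f : ME A B → Bool) (s : A × B → Bool) (v : A × B) : Prop :=
  cmp (s v) (f (eW v)) (f (eE v)) (f (eN v)) (f (eS v))

theorem hd_eq_iff (e : ME A B) (v : A × B) :
    hd e = v ↔ e = (if vp v then eN v else eE v) ∨ e = (if vp v then eS v else eW v) := by
  obtain ⟨⟨a, b⟩, c⟩ := e
  obtain ⟨x, y⟩ := v
  cases c
  · cases h : vp (a, b)
    · simp only [hd, h]
      constructor
      · intro he
        simp only [Bool.false_eq_true, if_false, Prod.mk.injEq] at he
        obtain ⟨rfl, rfl⟩ := he
        simp [h, eE]
      · rintro (he | he)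
        · split_ifs at he with h1
          · simp [eN] at he
          · simp only [eE, Prod.mk.injEq, and_true] at he
            simp [he.1, he.2]
        · split_ifs at he with h1
          · simp [eS] at he
          · simp only [eW, Prod.mk.injEq, and_true] at he
            obtain ⟨rfl, rfl⟩ := he
            simp at h h1
            rw [h] at h1
            exact absurd h1 (by simp)
    · simp only [hd, h]
      constructor
      · intro he
        simp only [Bool.false_eq_true, if_false, if_true, Prod.mk.injEq] at he
        obtain ⟨rfl, rfl⟩ := he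
        simp [h, eW]
      · rintro (he | he)
        · split_ifs at he with h1
          · simp [eN] at he
          · simp only [eE, Prod.mk.injEq, and_true] at he
            obtain ⟨rfl, rfl⟩ := he
            exact absurd h h1
        · split_ifs at he with h1
          · simp [eS] at he
          · simp only [eW, Prod.mk.injEq, and_true] at he
            obtain ⟨rfl, rfl⟩ := he
            simp
  · cases h : vp (a, b)
    · simp only [hd, h]
      constructor
      · intro he
        simp only [Bool.false_eq_true, if_false, if_true, Prod.mk.injEq] at he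
        obtain ⟨rfl, rfl⟩ := he
        simp [h, eS]
      · rintro (he | he)
        · split_ifs at he with h1
          · simp only [eN, Prod.mk.injEq, and_true] at he
            obtain ⟨rfl, rfl⟩ := he
            rw [h] at h1
            exact absurd h1 (by simp)
          · simp [eE] at he
        · split_ifs at he with h1
          · simp only [eS, Prod.mk.injEq, and_true] at he
            obtain ⟨rfl, rfl⟩ := he
            simp
          · simp [eW] at he
    · simp only [hd, h]
      constructor
      · intro he
        simp only [if_true, Prod.mk.injEq] at he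
        obtain ⟨rfl, rfl⟩ := he
        simp [h, eN]
      · rintro (he | he)
        · split_ifs at he with h1
          · simp only [eN, Prod.mk.injEq, and_true] at he
            simp [he.1, he.2]
          · simp [eE] at he
        · split_ifs at he with h1
          · simp only [eS, Prod.mk.injEq, and_true] at he
            obtain ⟨rfl, rfl⟩ := he
            simp only [vp_sub_snd, h1] at h
            exact absurd h (by simp)
          · simp [eW] at he

theorem in_ne (v : A × B) : (if vp v then eN v else eE v) ≠ (if vp v then eS v else eW v) := by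
  intro h
  have : vp (if vp v then eN v else eE v).1 = vp (if vp v then eS v else eW v).1 := by rw [h]
  cases hv : vp v <;> simp [hv, eN, eE, eS, eW] at this

theorem sum_hd {R : Type*} [AddCommMonoid R] [Fintype A] [Fintype B] [DecidableEq A]
    [DecidableEq B] (v : A × B) (g : ME A B → R) :
    ∑ e ∈ univ.filter (fun e => hd e = v), g e =
      g (if vp v then eN v else eE v) + g (if vp v then eS v else eW v) := by
  have : univ.filter (fun e : ME A B => hd e = v) =
      {(if vp v then eN v else eE v), (if vp v then eS v else eW v)} := by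
    ext e
    simp only [mem_filter, mem_univ, true_and, mem_insert, mem_singleton]
    exact hd_eq_iff e v
  rw [this, Finset.sum_pair (in_ne v)]

/-- global compatibility = invariance along strands -/
theorem cmp_iff (f : ME A B → Bool) (s : A × B → Bool) :
    (∀ v, cmpAt f s v) ↔ ∀ e, f (nx s e) = f e := by
  constructor
  · intro h e
    have h1 := h (hd e)
    unfold cmpAt cmp at h1
    obtain ⟨⟨a, b⟩, c⟩ := e
    cases c <;> cases hv : vp (a, b) <;> simp only [nx, hd, hv] at h1 ⊢ <;>
      simp [eW, eE, eN, eS] at h1 ⊢ <;> split_ifs at h1 ⊢ <;> simp_all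
  · intro h v
    unfold cmpAt cmp
    cases hv : vp v
    · have h1 := h (eE v)
      have h2 := h (eW v)
      cases hs : s v <;>
        simp [nx, hd, eW, eE, eN, eS, hv, hs] at h1 h2 ⊢ <;> simp_all
    · have h1 := h (eN v)
      have h2 := h (eS v)
      cases hs : s v <;>
        simp [nx, hd, eW, eE, eN, eS, hv, hs] at h1 h2 ⊢ <;> simp_all

section Fin

variable [Fintype A] [Fintype B] [DecidableEq A] [DecidableEq B]

/-- sum of the local exponents = sum of the turns along the strands -/
theorem sum_turn (f : ME A B → Bool) (s : A × B → Bool) (h : ∀ v, cmpAt f s v) :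
    ∑ v : A × B, kap s v * (sgb (f (eW v)) + sgb (f (eE v))) =
      ∑ e : ME A B, turn s e * sgb (f e) := by
  rw [← Finset.sum_fiberwise (s := univ) (g := fun e : ME A B => hd e)]
  refine Finset.sum_congr rfl fun v _ => ?_
  have h1 : ∑ e ∈ univ.filter (fun e : ME A B => hd e = v), turn s e * sgb (f e) =
      ∑ e ∈ univ.filter (fun e : ME A B => hd e = v), kap s v * sgb (f e) := by
    refine Finset.sum_congr rfl fun e he => ?_
    rw [mem_filter] at he
    rw [turn, he.2]
  rw [h1, sum_hd v (fun e => kap s v * sgb (f e))]
  have h2 := h v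
  unfold cmpAt cmp at h2
  cases hv : vp v
  · simp only [Bool.false_eq_true, if_false]
    ring
  · simp only [if_true]
    cases hs : s v
    · rw [hs] at h2
      simp only [Bool.false_eq_true, if_false] at h2
      rw [h2.1, h2.2]
      ring
    · rw [hs] at h2
      simp only [if_true] at h2
      rw [h2.1, h2.2]
      ring

/-- product of the local weights -/
noncomputable def W6 (lam : ℝ) (f : ME A B → Bool) (s : A × B → Bool) : ℂ :=
  ∏ v : A × B, lw lam (vp v) (s v) (f (eW v)) (f (eE v)) (f (eN v)) (f (eS v))

open Classical in
theorem W6_eq (lam : ℝ) (f : ME A B → Bool) (s : A × B → Bool) :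
    W6 lam f s = if ∀ e, f (nx s e) = f e then
      exp (I * (lam / 4 * (∑ e : ME A B, turn s e * sgb (f e) : ℤ))) else 0 := by
  unfold W6 lw
  rw [Finset.prod_ite_zero]
  have hiff : (∀ v ∈ (univ : Finset (A × B)), cmp (s v) (f (eW v)) (f (eE v)) (f (eN v)) (f (eS v)))
      ↔ ∀ e, f (nx s e) = f e := by
    rw [← cmp_iff]
    simp [cmpAt]
  by_cases h : ∀ e, f (nx s e) = f e
  · rw [if_pos h, if_pos (hiff.2 h), ← Complex.exp_sum, ← sum_turn f s ((cmp_iff f s).2 h)]
    congr 1
    rw [← Finset.mul_sum, ← Finset.mul_sum]
    congr 1
    congr 1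
    push_cast
    rfl
  · rw [if_neg h, if_neg (fun h' => h (hiff.1 h'))]

/-- six-vertex weight in terms of flips -/
noncomputable def wt6 (lam : ℝ) (f : ME A B → Bool) : ℝ :=
  ∏ v : A × B, w6 lam (f (eW v)) (f (eE v)) (f (eN v)) (f (eS v))

theorem sum_W6 (lam : ℝ) (f : ME A B → Bool) :
    ∑ s : A × B → Bool, W6 lam f s = (wt6 lam f : ℂ) := by
  have h : ∀ v : A × B, ((w6 lam (f (eW v)) (f (eE v)) (f (eN v)) (f (eS v)) : ℝ) : ℂ) =
      ∑ b : Bool, lw lam (vp v) b (f (eW v)) (f (eE v)) (f (eN v)) (f (eS v)) :=
    fun v => (lw_sum lam (vp v) _ _ _ _).symm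
  unfold W6 wt6
  rw [Complex.ofReal_prod]
  simp_rw [h]
  rw [Finset.prod_univ_sum, Fintype.piFinset_univ]

/-- sum over the splittings with an insertion at one vertex -/
theorem sum_W6_insert (lam : ℝ) (f : ME A B → Bool) (x : A × B) (g : Bool → ℂ) :
    ∑ s : A × B → Bool, g (s x) * W6 lam f s =
      (∑ b : Bool, g b * lw lam (vp x) b (f (eW x)) (f (eE x)) (f (eN x)) (f (eS x))) *
        ∏ v ∈ univ.erase x, (w6 lam (f (eW v)) (f (eE v)) (f (eN v)) (f (eS v)) : ℂ) := by
  have h1 : ∀ s : A × B → Bool, g (s x) * W6 lam f s =
      ∏ v : A × B, (if v = x then g (s v) else 1) *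
        lw lam (vp v) (s v) (f (eW v)) (f (eE v)) (f (eN v)) (f (eS v)) := by
    intro s
    rw [Finset.prod_mul_distrib, Finset.prod_ite_eq' univ x (fun v => g (s v))]
    simp [W6]
  simp_rw [h1]
  have h2 := Finset.prod_univ_sum (fun _ : A × B => (univ : Finset Bool))
    (fun v b => (if v = x then g b else 1) *
        lw lam (vp v) b (f (eW v)) (f (eE v)) (f (eN v)) (f (eS v)))
  rw [Fintype.piFinset_univ] at h2
  rw [← h2, ← Finset.mul_prod_erase univ _ (mem_univ x)]
  congr 1
  · simp
  · refine Finset.prod_congr rfl fun v hv => ?_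
    rw [← lw_sum lam (vp v)]
    simp [Finset.ne_of_mem_erase hv]

end Fin

end Generic

end Crest.Agent.R158.Bk430
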