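import Mathlib
import Crest.Agent.R158.Bk1_430

/-!
# R158, Block B (helper430), file 2: orbit sums

* `so e` canonical sign, `Bal f` balance of the columns
* `Gw lam c s` = sum over the balanced orientations of the loops of `s` of
  `cos (∑ e, (lam/4 * turn s e + c e * so e) * sgb (f e))`
* `sum_Gw` : six-vertex sum = `∑ s, Gw lam c s`
* `sum_inv` : invariant flips = functions on the orbits
-/

set_option autoImplicit false

namespace Crest.Agent.R158.Bk430

open Finset

section Orbits

variable {E : Type*} [Fintype E] [DecidableEq E]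

/-- orbits of a permutation -/
abbrev Orb (P : Equiv.Perm E) : Type _ := Quotient (Equiv.Perm.SameCycle.setoid P)

/-- the orbit of a point -/
def orb (P : Equiv.Perm E) (e : E) : Orb P := Quotient.mk _ e

omit [Fintype E] [DecidableEq E] in
theorem orb_apply (P : Equiv.Perm E) (e : E) : orb P (P e) = orb P e :=
  Quotient.sound (s := Equiv.Perm.SameCycle.setoid P)
    ((Equiv.Perm.sameCycle_apply_left (f := P)).2 (Equiv.Perm.SameCycle.refl P e))

omit [Fintype E] [DecidableEq E] in
theorem inv_zpow {X : Type*} (P : Equiv.Perm E) (f : E → X) (h : ∀ e, f (P e) = f e) (k : ℤ)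
    (e : E) : f ((P ^ k) e) = f e := by
  have h' : ∀ e, f (P⁻¹ e) = f e := fun e => by
    have := h (P⁻¹ e)
    rw [show P (P⁻¹ e) = e from P.apply_symm_apply e] at this
    exact this.symm
  induction k using Int.induction_on generalizing e with
  | zero => simp
  | succ n ih =>
    rw [zpow_add_one, Equiv.Perm.mul_apply, ih, h]
  | pred n ih =>
    rw [zpow_sub_one, Equiv.Perm.mul_apply, ih, h']

open Classical in
noncomputable instance (P : Equiv.Perm E) : Fintype (Orb P) := Quotient.fintype _

/-- invariant functions = functions on the orbits -/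
def invEquiv {X : Type*} (P : Equiv.Perm E) :
    {f : E → X // ∀ e, f (P e) = f e} ≃ (Orb P → X) where
  toFun f := Quotient.lift f.1 (fun a b hab => by
    obtain ⟨k, hk⟩ : Equiv.Perm.SameCycle P a b := hab
    rw [← hk, inv_zpow P f.1 f.2])
  invFun g := ⟨fun e => g (orb P e), fun e => congrArg g (orb_apply P e)⟩
  left_inv f := by
    ext e
    rfl
  right_inv g := by
    funext l
    induction l using Quotient.inductionOn with
    | h e => rfl

open Classical in
theorem sum_inv {R : Type*} [AddCommMonoid R] (P : Equiv.Perm E) (F : (E → Bool) → R) :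
    ∑ f : E → Bool, (if ∀ e, f (P e) = f e then F f else 0) =
      ∑ g : Orb P → Bool, F (fun e => g (orb P e)) := by
  rw [← Finset.sum_filter]
  rw [← Finset.sum_subtype_eq_sum_filter]
  rw [show (univ.subtype fun f : E → Bool => ∀ e, f (P e) = f e) =
    (univ : Finset {f : E → Bool // ∀ e, f (P e) = f e}) from by ext; simp]
  refine Fintype.sum_equiv (invEquiv P) _ _ fun f => ?_
  congr 1

open Classical in
omit [DecidableEq E] in
theorem sum_orb {R : Type*} [CommRing R] (P : Equiv.Perm E) (a : E → R) (g : Orb P → R) :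
    ∑ e, a e * g (orb P e) = ∑ l, (∑ e with orb P e = l, a e) * g l := by
  rw [← Finset.sum_fiberwise (s := univ) (g := fun e => orb P e)]
  refine Finset.sum_congr rfl fun l _ => ?_
  rw [Finset.sum_mul]
  refine Finset.sum_congr rfl fun e he => ?_
  rw [mem_filter] at he
  rw [he.2]

end Orbits

section Factor

variable {Λ : Type*} [Fintype Λ] [DecidableEq Λ]

omit [Fintype Λ] [DecidableEq Λ] in
theorem exp_sgb_sum (a : ℝ) :
    ∑ b : Bool, Complex.exp (Complex.I * (a * (sgb b : ℤ))) = (2 * Real.cos a : ℝ) := by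
  rw [Fintype.sum_bool, ← exp_two_cos, add_comm]
  congr 1
  · congr 1; simp [sgb]
  · congr 1; simp [sgb]

open Classical in
/-- factorisation of a constrained sum over signs -/
theorem factor (p : Λ → Prop) (a : Λ → ℝ) (Q : (Λ → Bool) → Prop)
    (Q' : ({l // ¬ p l} → Bool) → Prop) (hQ : ∀ g, Q g ↔ Q' (fun l => g l)) :
    ∑ g : Λ → Bool, (if Q g then Real.cos (∑ l, a l * sgb (g l)) else 0) =
      (∏ l : {l // p l}, 2 * Real.cos (a l)) *
        ∑ g : {l // ¬ p l} → Bool, (if Q' g then Real.cos (∑ l : {l // ¬ p l}, a l * sgb (g l))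
          else 0) := by
  have h1 : ∀ g : Λ → Bool, (if Q g then Real.cos (∑ l, a l * sgb (g l)) else 0) =
      (if Q' (fun l => g l) then Complex.exp (Complex.I * (∑ l : {l // p l}, a l * sgb (g l) : ℝ)) *
        Complex.exp (Complex.I * (∑ l : {l // ¬ p l}, a l * sgb (g l) : ℝ)) else 0 : ℂ).re := by
    intro g
    by_cases h : Q g
    · rw [if_pos h, if_pos ((hQ g).1 h), ← Complex.exp_add, ← mul_add, ← Complex.ofReal_add,
        Fintype.sum_subtype_add_sum_subtype p (fun l => a l * ((sgb (g l) : ℤ) : ℝ)), mul_comm,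
        Complex.exp_ofReal_mul_I_re]
    · rw [if_neg h, if_neg (fun h' => h ((hQ g).2 h'))]
      simp
  simp_rw [h1]
  rw [← Complex.re_sum]
  have h6 : ∑ g : Λ → Bool, (if Q' (fun l => g l) then
        Complex.exp (Complex.I * (∑ l : {l // p l}, a l * sgb (g l) : ℝ)) *
        Complex.exp (Complex.I * (∑ l : {l // ¬ p l}, a l * sgb (g l) : ℝ)) else 0 : ℂ) =
      ∑ q : ({l // p l} → Bool) × ({l // ¬ p l} → Bool), (if Q' q.2 then
        Complex.exp (Complex.I * (∑ l : {l // p l}, a l * sgb (q.1 l) : ℝ)) *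
        Complex.exp (Complex.I * (∑ l : {l // ¬ p l}, a l * sgb (q.2 l) : ℝ)) else 0 : ℂ) :=
    Fintype.sum_equiv (Equiv.piEquivPiSubtypeProd p (fun _ => Bool)) _ _ (fun g => rfl)
  rw [h6, Fintype.sum_prod_type]
  have h2 : ∑ g : {l // p l} → Bool,
      Complex.exp (Complex.I * (∑ l : {l // p l}, a l * sgb (g l) : ℝ)) =
      ((∏ l : {l // p l}, 2 * Real.cos (a l) : ℝ) : ℂ) := by
    have h3 : ∀ g : {l // p l} → Bool,
        Complex.exp (Complex.I * (∑ l : {l // p l}, a l * sgb (g l) : ℝ)) =
        ∏ l : {l // p l}, Complex.exp (Complex.I * (a l * (sgb (g l) : ℤ))) := by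
      intro g
      rw [← Complex.exp_sum, ← Finset.mul_sum]
      push_cast
      rfl
    simp_rw [h3]
    have h4 := Finset.prod_univ_sum (fun _ : {l // p l} => (univ : Finset Bool))
      (fun l b => Complex.exp (Complex.I * (a l * (sgb b : ℤ))))
    rw [Fintype.piFinset_univ] at h4
    rw [← h4, Complex.ofReal_prod]
    exact Finset.prod_congr rfl fun l _ => exp_sgb_sum (a l)
  have h5 : ∀ (g : {l // p l} → Bool), ∑ g' : {l // ¬ p l} → Bool,
      (if Q' g' then Complex.exp (Complex.I * (∑ l : {l // p l}, a l * sgb (g l) : ℝ)) *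
        Complex.exp (Complex.I * (∑ l : {l // ¬ p l}, a l * sgb (g' l) : ℝ)) else 0 : ℂ) =
      Complex.exp (Complex.I * (∑ l : {l // p l}, a l * sgb (g l) : ℝ)) *
        ∑ g' : {l // ¬ p l} → Bool, (if Q' g' then
          Complex.exp (Complex.I * (∑ l : {l // ¬ p l}, a l * sgb (g' l) : ℝ)) else 0 : ℂ) := by
    intro g
    rw [Finset.mul_sum]
    refine Finset.sum_congr rfl fun g' _ => ?_
    split_ifs <;> simp
  simp only
  simp_rw [h5]
  rw [← Finset.sum_mul, h2, Complex.re_ofReal_mul, Complex.re_sum]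
  congr 1
  refine Finset.sum_congr rfl fun g' _ => ?_
  split_ifs
  · rw [mul_comm, Complex.exp_ofReal_mul_I_re]
  · simp

end Factor

section Torus

variable {A B : Type*} [AddGroupWithOne A] [AddGroupWithOne B] [HasPar A] [HasPar B]

/-- canonical sign of an edge: `1` if right / up -/
def so (e : ME A B) : ℤ := if ori e then 1 else -1

variable [Fintype A] [Fintype B]

/-- balance: the net horizontal flux through every column vanishes -/
def Bal (f : ME A B → Bool) : Prop :=
  ∀ i : A, ∑ j : B, so (((i, j), false) : ME A B) * sgb (f ((i, j), false)) = 0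

variable [DecidableEq A] [DecidableEq B]

open Classical in
/-- sum over the balanced orientations of the loops -/
noncomputable def Gw (lam : ℝ) (c : ME A B → ℝ) (s : A × B → Bool) : ℝ :=
  ∑ f : ME A B → Bool, if ∀ e, f (nx s e) = f e then
    (if Bal f then Real.cos (∑ e, (lam / 4 * turn s e + c e * so e) * sgb (f e)) else 0) else 0

open Classical in
/-- **six-vertex sum = sum over the splittings** -/
theorem sum_Gw (lam : ℝ) (c : ME A B → ℝ) :
    ∑ f : ME A B → Bool, (if Bal f then wt6 lam f * Real.cos (∑ e, c e * so e * sgb (f e)) else 0) =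
      ∑ s : A × B → Bool, Gw lam c s := by
  have h1 : ∀ f : ME A B → Bool, (if Bal f then
      wt6 lam f * Real.cos (∑ e, c e * so e * sgb (f e)) else 0) =
      (if Bal f then ∑ s : A × B → Bool,
        W6 lam f s * Complex.exp (Complex.I * (∑ e, c e * so e * sgb (f e) : ℝ)) else 0).re := by
    intro f
    split_ifs with h
    · rw [← Finset.sum_mul, sum_W6, Complex.re_ofReal_mul]
      congr 1
      rw [mul_comm, Complex.exp_ofReal_mul_I_re]
    · simp
  simp_rw [h1]
  rw [← Complex.re_sum]
  have h2 : ∀ f : ME A B → Bool, (if Bal f then ∑ s : A × B → Bool,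
        W6 lam f s * Complex.exp (Complex.I * (∑ e, c e * so e * sgb (f e) : ℝ)) else 0) =
        ∑ s : A × B → Bool, if Bal f then
          W6 lam f s * Complex.exp (Complex.I * (∑ e, c e * so e * sgb (f e) : ℝ)) else 0 := by
    intro f
    split_ifs with h
    · rfl
    · simp
  simp_rw [h2]
  rw [Finset.sum_comm, Complex.re_sum]
  refine Finset.sum_congr rfl fun s _ => ?_
  rw [Complex.re_sum, Gw]
  refine Finset.sum_congr rfl fun f _ => ?_
  by_cases hb : Bal f
  · rw [if_pos hb, if_pos hb, W6_eq]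
    split_ifs with hc
    · rw [← Complex.exp_add]
      rw [show (Complex.I * ((lam : ℂ) / 4 * ((∑ e : ME A B, turn s e * sgb (f e) : ℤ) : ℂ)) +
        Complex.I * ((∑ e, c e * so e * sgb (f e) : ℝ) : ℂ)) =
        ((∑ e, (lam / 4 * turn s e + c e * so e) * sgb (f e) : ℝ) : ℂ) * Complex.I from by
          push_cast
          rw [← mul_add, mul_comm]
          congr 1
          rw [Finset.mul_sum, ← Finset.sum_add_distrib]
          refine Finset.sum_congr rfl fun e _ => ?_
          ring]
      rw [Complex.exp_ofReal_mul_I_re]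
    · simp
  · rw [if_neg hb, if_neg hb]
    split_ifs <;> simp

/-- loops of a splitting -/
abbrev Lp (s : A × B → Bool) : Type _ := Orb (nxE s)

open Classical in
/-- total turn of a loop -/
noncomputable def Tl (s : A × B → Bool) (l : Lp s) : ℤ := ∑ e with orb (nxE s) e = l, turn s e

open Classical in
/-- pairing of the edge function `c` with a loop -/
noncomputable def th (c : ME A B → ℝ) (s : A × B → Bool) (l : Lp s) : ℝ :=
  ∑ e with orb (nxE s) e = l, c e * so e

open Classical in
/-- horizontal flux of a loop through the column `i` -/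
noncomputable def Fl (s : A × B → Bool) (i : A) (l : Lp s) : ℤ :=
  ∑ j with orb (nxE s) ((i, j), false) = l, so (((i, j), false) : ME A B)

open Classical in
theorem Gw_orb (lam : ℝ) (c : ME A B → ℝ) (s : A × B → Bool) :
    Gw lam c s = ∑ g : Lp s → Bool, if ∀ i, ∑ l, Fl s i l * sgb (g l) = 0 then
      Real.cos (∑ l, (lam / 4 * Tl s l + th c s l) * sgb (g l)) else 0 := by
  unfold Gw
  have h := sum_inv (nxE s) (fun f : ME A B → Bool => if Bal f then
    Real.cos (∑ e, (lam / 4 * turn s e + c e * so e) * sgb (f e)) else 0)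
  refine Eq.trans (Finset.sum_congr rfl fun f _ => ?_) (h.trans ?_)
  · congr 1
  refine Finset.sum_congr rfl fun g _ => ?_
  have h1 : Bal (fun e => g (orb (nxE s) e)) ↔ ∀ i, ∑ l, Fl s i l * sgb (g l) = 0 := by
    unfold Bal
    refine forall_congr' fun i => ?_
    have : ∑ j : B, so (((i, j), false) : ME A B) * sgb (g (orb (nxE s) ((i, j), false))) =
        ∑ l, Fl s i l * sgb (g l) := by
      rw [← Finset.sum_fiberwise (s := univ) (g := fun j => orb (nxE s) (((i, j), false) : ME A B))]
      refine Finset.sum_congr rfl fun l _ => ?_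
      rw [Fl, Finset.sum_mul]
      refine Finset.sum_congr rfl fun j hj => ?_
      rw [mem_filter] at hj
      rw [hj.2]
    rw [this]
  have h2 : ∑ e, (lam / 4 * turn s e + c e * so e) * sgb (g (orb (nxE s) e)) =
      ∑ l, (lam / 4 * Tl s l + th c s l) * sgb (g l) := by
    have := sum_orb (nxE s) (fun e => lam / 4 * (turn s e : ℝ) + c e * (so e : ℝ))
      (fun l => ((sgb (g l) : ℤ) : ℝ))
    rw [this]
    refine Finset.sum_congr rfl fun l _ => ?_
    congr 1
    rw [Finset.sum_add_distrib, Tl, th, ← Finset.mul_sum]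
    push_cast
    rfl
  by_cases hb : Bal (fun e => g (orb (nxE s) e))
  · rw [if_pos hb, if_pos (h1.1 hb), h2]
  · rw [if_neg hb, if_neg (fun h' => hb (h1.2 h'))]

/-- topology of the loops on the torus (helper405's T1), `Ctr` = contractible -/
structure TT (s : A × B → Bool) (Ctr : Lp s → Prop) : Prop where
  c_turn : ∀ l, Ctr l → Tl s l = 4 ∨ Tl s l = -4
  c_flux : ∀ l, Ctr l → ∀ i, Fl s i l = 0
  n_turn : ∀ l, ¬ Ctr l → Tl s l = 0
  n_card : ∀ l, ¬ Ctr l → min (Fintype.card A) (Fintype.card B) ≤
    Nat.card {e : ME A B // orb (nxE s) e = l}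

open Classical in
/-- balanced orientations of the non contractible loops -/
def BalN (s : A × B → Bool) (Ctr : Lp s → Prop) (g : {l // ¬ Ctr l} → Bool) : Prop :=
  ∀ i, ∑ l : {l // ¬ Ctr l}, Fl s i l * sgb (g l) = 0

open Classical in
/-- non contractible part -/
noncomputable def Nb (c : ME A B → ℝ) (s : A × B → Bool) (Ctr : Lp s → Prop) : ℝ :=
  ∑ g : {l // ¬ Ctr l} → Bool, if BalN s Ctr g then
    Real.cos (∑ l : {l // ¬ Ctr l}, th c s l * sgb (g l)) else 0

open Classical in
theorem Gw_factor {s : A × B → Bool} {Ctr : Lp s → Prop} (h : TT s Ctr) (c : ME A B → ℝ) :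
    Gw (Real.pi / 3) c s =
      (∏ l : {l // Ctr l}, 2 * Real.cos (Real.pi / 12 * Tl s l + th c s l)) * Nb c s Ctr := by
  rw [Gw_orb]
  have hf := factor Ctr (fun l => Real.pi / 3 / 4 * Tl s l + th c s l)
    (fun g => ∀ i, ∑ l, Fl s i l * sgb (g l) = 0) (BalN s Ctr) ?_
  · refine Eq.trans (Finset.sum_congr rfl fun g _ => by congr) (hf.trans ?_)
    congr 1
    · refine Finset.prod_congr rfl fun l _ => ?_
      congr 2
      ring
    · unfold Nb
      refine Finset.sum_congr rfl fun g _ => ?_
      congr 2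
      refine Finset.sum_congr rfl fun l _ => ?_
      rw [h.n_turn l.1 l.2]
      simp
  · intro g
    unfold BalN
    refine forall_congr' fun i => ?_
    rw [← Fintype.sum_subtype_add_sum_subtype Ctr (fun l => Fl s i l * sgb (g l))]
    have : ∑ l : {l // Ctr l}, Fl s i l * sgb (g l) = 0 :=
      Finset.sum_eq_zero fun l _ => by rw [h.c_flux l.1 l.2 i]; simp
    rw [this, zero_add]

theorem cos_turn {x : ℤ} (h : x = 4 ∨ x = -4) : 2 * Real.cos (Real.pi / 12 * x) = 1 := by
  rcases h with rfl | rfl
  · rw [show Real.pi / 12 * ((4 : ℤ) : ℝ) = Real.pi / 3 by push_cast; ring, Real.cos_pi_div_three]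
    norm_num
  · rw [show Real.pi / 12 * ((-4 : ℤ) : ℝ) = -(Real.pi / 3) by push_cast; ring, Real.cos_neg,
      Real.cos_pi_div_three]
    norm_num

omit [DecidableEq A] [DecidableEq B] in
theorem th_zero (s : A × B → Bool) (l : Lp s) : th (fun _ => 0) s l = 0 := by
  simp [th]

/-- weight of a splitting -/
noncomputable def wG (s : A × B → Bool) : ℝ := Gw (Real.pi / 3) (fun _ => 0) s

open Classical in
theorem wG_eq {s : A × B → Bool} {Ctr : Lp s → Prop} (h : TT s Ctr) :
    wG s = ((univ.filter fun g : {l // ¬ Ctr l} → Bool => BalN s Ctr g).card : ℝ) := by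
  unfold wG
  rw [Gw_factor h, Finset.prod_eq_one, one_mul]
  · unfold Nb
    simp only [th_zero, zero_mul, Finset.sum_const_zero, Real.cos_zero]
    rw [Finset.sum_boole]
  · intro l _
    rw [th_zero, add_zero, cos_turn (h.c_turn l.1 l.2)]

omit [Fintype A] [DecidableEq A] [DecidableEq B] in
theorem sum_so_column (i : A) : ∑ j : B, so (((i, j), false) : ME A B) = 0 := by
  have h1 : ∑ j : B, so (((i, j), false) : ME A B) = ∑ j : B, so (((i, j + 1), false) : ME A B) :=
    (Equiv.sum_comp (Equiv.addRight (1 : B)) fun j => so (((i, j), false) : ME A B)).symm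
  have h2 : ∀ j : B, so (((i, j + 1), false) : ME A B) = - so (((i, j), false) : ME A B) := by
    intro j
    have h3 : ori (((i, j + 1), false) : ME A B) = !ori (((i, j), false) : ME A B) := by
      simp [ori]
    unfold so
    rw [h3]
    cases ori (((i, j), false) : ME A B) <;> simp
  simp_rw [h2] at h1
  rw [Finset.sum_neg_distrib] at h1
  omega

open Classical in
theorem one_le_wG {s : A × B → Bool} {Ctr : Lp s → Prop} (h : TT s Ctr) : 1 ≤ wG s := by
  rw [wG_eq h]
  have : (fun _ => false) ∈ univ.filter fun g : {l // ¬ Ctr l} → Bool => BalN s Ctr g := by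
    rw [mem_filter]
    refine ⟨mem_univ _, fun i => ?_⟩
    have h1 : ∑ l, Fl s i l = 0 := by
      unfold Fl
      rw [Finset.sum_fiberwise (s := univ) (g := fun j => orb (nxE s) (((i, j), false) : ME A B))
        (f := fun j => so (((i, j), false) : ME A B))]
      exact sum_so_column i
    rw [← Fintype.sum_subtype_add_sum_subtype Ctr (fun l => Fl s i l)] at h1
    have h2 : ∑ l : {l // Ctr l}, Fl s i l = 0 :=
      Finset.sum_eq_zero fun l _ => h.c_flux l.1 l.2 i
    rw [h2, zero_add] at h1
    simpa [sgb] using h1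
  exact_mod_cast Finset.card_pos.2 ⟨_, this⟩

omit [DecidableEq A] [DecidableEq B] in
open Classical in
theorem card_nc {s : A × B → Bool} {Ctr : Lp s → Prop} (h : TT s Ctr)
    (hA : 0 < Fintype.card A) (hB : 0 < Fintype.card B) :
    Fintype.card {l // ¬ Ctr l} ≤ 2 * max (Fintype.card A) (Fintype.card B) := by
  have h1 : ∑ l : {l // ¬ Ctr l}, Nat.card {e : ME A B // orb (nxE s) e = l.1} ≤
      Fintype.card (ME A B) := by
    have h2 : ∑ l : Lp s, Nat.card {e : ME A B // orb (nxE s) e = l} =
        Fintype.card (ME A B) := by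
      simp_rw [Nat.card_eq_fintype_card]
      rw [← Fintype.card_sigma]
      exact Fintype.card_congr (Equiv.sigmaFiberEquiv (fun e : ME A B => orb (nxE s) e))
    rw [← h2, ← Fintype.sum_subtype_add_sum_subtype Ctr
      (fun l => Nat.card {e : ME A B // orb (nxE s) e = l})]
    exact Nat.le_add_left _ _
  have h3 : Fintype.card {l // ¬ Ctr l} * min (Fintype.card A) (Fintype.card B) ≤
      Fintype.card (ME A B) := by
    refine le_trans ?_ h1
    rw [← smul_eq_mul, ← Finset.card_univ, ← Finset.sum_const]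
    exact Finset.sum_le_sum fun l _ => h.n_card l.1 l.2
  rw [Fintype.card_prod, Fintype.card_prod, Fintype.card_bool] at h3
  rcases le_total (Fintype.card A) (Fintype.card B) with hle | hle
  · rw [min_eq_left hle] at h3
    rw [max_eq_right hle]
    refine Nat.le_of_mul_le_mul_right (c := Fintype.card A) ?_ hA
    calc _ ≤ _ := h3
      _ = _ := by ring
  · rw [min_eq_right hle] at h3
    rw [max_eq_left hle]
    refine Nat.le_of_mul_le_mul_right (c := Fintype.card B) ?_ hB
    calc _ ≤ _ := h3
      _ = _ := by ring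

open Classical in
theorem wG_le {s : A × B → Bool} {Ctr : Lp s → Prop} (h : TT s Ctr)
    (hA : 0 < Fintype.card A) (hB : 0 < Fintype.card B) :
    wG s ≤ 2 ^ (2 * max (Fintype.card A) (Fintype.card B)) := by
  rw [wG_eq h]
  have h1 : (univ.filter fun g : {l // ¬ Ctr l} → Bool => BalN s Ctr g).card ≤
      2 ^ (Fintype.card {l // ¬ Ctr l}) := by
    refine (Finset.card_le_univ _).trans ?_
    rw [Fintype.card_fun, Fintype.card_bool]
  have h2 : 2 ^ (Fintype.card {l // ¬ Ctr l}) ≤
      2 ^ (2 * max (Fintype.card A) (Fintype.card B)) :=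
    Nat.pow_le_pow_right (by norm_num) (card_nc h hA hB)
  exact_mod_cast h1.trans h2

open Classical in
theorem abs_Nb_le {s : A × B → Bool} {Ctr : Lp s → Prop} (h : TT s Ctr) (c : ME A B → ℝ) :
    |Nb c s Ctr| ≤ wG s := by
  rw [wG_eq h]
  unfold Nb
  refine (Finset.abs_sum_le_sum_abs _ _).trans ?_
  rw [← Finset.sum_boole]
  refine Finset.sum_le_sum fun g _ => ?_
  split_ifs
  · exact Real.abs_cos_le_one _
  · simp

omit [DecidableEq A] [DecidableEq B] in
open Classical in
theorem abs_prod_le {s : A × B → Bool} {Ctr : Lp s → Prop} (h : TT s Ctr) (c : ME A B → ℝ) :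
    |∏ l : {l // Ctr l}, 2 * Real.cos (Real.pi / 12 * Tl s l + th c s l)| ≤
      2 ^ (univ.filter fun e : ME A B => c e ≠ 0).card := by
  rw [Finset.abs_prod]
  have h1 : ∀ l : {l // Ctr l}, |2 * Real.cos (Real.pi / 12 * Tl s l + th c s l)| ≤
      if ∃ e, orb (nxE s) e = l.1 ∧ c e ≠ 0 then 2 else 1 := by
    intro l
    split_ifs with hl
    · rw [abs_mul, abs_of_pos (by norm_num : (0 : ℝ) < 2)]
      have := Real.abs_cos_le_one (Real.pi / 12 * Tl s l + th c s l)
      linarith
    · have h2 : th c s l = 0 := by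
        unfold th
        refine Finset.sum_eq_zero fun e he => ?_
        rw [mem_filter] at he
        have : c e = 0 := by
          by_contra hce
          exact hl ⟨e, he.2, hce⟩
        rw [this, zero_mul]
      rw [h2, add_zero, cos_turn (h.c_turn l.1 l.2)]
      norm_num
  refine (Finset.prod_le_prod (fun _ _ => abs_nonneg _) (fun l _ => h1 l)).trans ?_
  rw [Finset.prod_ite, Finset.prod_const, Finset.prod_const, one_pow, mul_one]
  refine pow_le_pow_right₀ (by norm_num) ?_
  have h3 : ∀ l ∈ (univ.filter fun l : {l // Ctr l} => ∃ e, orb (nxE s) e = l.1 ∧ c e ≠ 0),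
      ∃ e ∈ (univ.filter fun e : ME A B => c e ≠ 0), orb (nxE s) e = l.1 := by
    intro l hl
    rw [mem_filter] at hl
    obtain ⟨e, he, hce⟩ := hl.2
    exact ⟨e, by rw [mem_filter]; exact ⟨mem_univ _, hce⟩, he⟩
  have h4 : (univ.filter fun l : {l // Ctr l} => ∃ e, orb (nxE s) e = l.1 ∧ c e ≠ 0).card =
      ((univ.filter fun l : {l // Ctr l} => ∃ e, orb (nxE s) e = l.1 ∧ c e ≠ 0).image
        Subtype.val).card := (Finset.card_image_of_injective _ Subtype.val_injective).symm
  rw [h4]
  refine (Finset.card_le_card (t := (univ.filter fun e : ME A B => c e ≠ 0).image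
    (fun e => orb (nxE s) e)) ?_).trans Finset.card_image_le
  intro l hl
  rw [mem_image] at hl
  obtain ⟨l', hl', rfl⟩ := hl
  obtain ⟨e, he, hel⟩ := h3 l' hl'
  rw [mem_image]
  exact ⟨e, he, hel⟩

theorem abs_Gw_le {s : A × B → Bool} {Ctr : Lp s → Prop} (h : TT s Ctr) (c : ME A B → ℝ) :
    |Gw (Real.pi / 3) c s| ≤ 2 ^ (univ.filter fun e : ME A B => c e ≠ 0).card * wG s := by
  classical
  rw [Gw_factor h, abs_mul]
  have h1 : 0 ≤ wG s := le_trans zero_le_one (one_le_wG h)
  refine mul_le_mul ?_ (abs_Nb_le h c) (abs_nonneg _) (by positivity)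
  convert abs_prod_le h c

end Torus

end Crest.Agent.R158.Bk430
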