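import Crest.Prelude.Def_SixVertex

/-!
# R158, Block B (helper410), file Bs: the law part of `S0211` at `c = √3` as a statement on charges

* `cell δ p`, `mass μ δ p` : the cell of the face `p` at mesh `δ` and its mass
* `chg μ δ : ℤ × ℤ →₀ ℝ` : the charge `m_δ`; `chg_sum` : it is neutral
* `hq σ m` : pairing of the relative height with a charge; `heightPairing_eq`
* `plane_char` : limit of the plane characteristic function
-/

set_option autoImplicit false

noncomputable section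

open Filter Topology MeasureTheory Set
open Crest.ProbabilityR.SixVertex

namespace Crest.Agent.R158.Bs410

/-- the cell of the face `p` at mesh `δ` -/
def cell (δ : ℝ) (p : ℤ × ℤ) : Set (ℝ × ℝ) := {x | ⌊x.1 / δ⌋ = p.1 ∧ ⌊x.2 / δ⌋ = p.2}

/-- its mass -/
def mass (μ : SignedMeasure (ℝ × ℝ)) (δ : ℝ) (p : ℤ × ℤ) : ℝ := μ (cell δ p)

/-- measures of compact carrier -/
def CC (μ : SignedMeasure (ℝ × ℝ)) : Prop := ∃ K : Set (ℝ × ℝ), IsCompact K ∧ μ.variation Kᶜ = 0

lemma measurableSet_cell (δ : ℝ) (p : ℤ × ℤ) : MeasurableSet (cell δ p) := by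
  have h1 : Measurable fun x : ℝ × ℝ => (⌊x.1 / δ⌋, ⌊x.2 / δ⌋) :=
    ((measurable_fst.div_const δ).floor).prodMk ((measurable_snd.div_const δ).floor)
  have h2 : cell δ p = (fun x : ℝ × ℝ => (⌊x.1 / δ⌋, ⌊x.2 / δ⌋)) ⁻¹' {p} := by
    ext x
    simp [cell, Prod.ext_iff]
  rw [h2]
  exact h1 (MeasurableSet.singleton p)

/-- finitely many cells meet a compact set -/
lemma finite_cells {K : Set (ℝ × ℝ)} (hK : IsCompact K) (δ : ℝ) :
    {p : ℤ × ℤ | (cell δ p ∩ K).Nonempty}.Finite := by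
  obtain ⟨C, hC⟩ := hK.isBounded.exists_norm_le
  have key : ∀ y : ℝ, |y| ≤ C → ⌊y / δ⌋ ∈ Set.Icc (-(⌈|C / δ|⌉ + 1)) (⌈|C / δ|⌉ + 1) := by
    intro y hy
    have h1 : |y / δ| ≤ |C / δ| := by
      rw [abs_div, abs_div]
      exact div_le_div_of_nonneg_right (hy.trans (le_abs_self C)) (abs_nonneg _)
    have h2 : |C / δ| ≤ ⌈|C / δ|⌉ := Int.le_ceil _
    have h3 := abs_le.1 (h1.trans h2)
    constructor
    · have h4 := Int.lt_floor_add_one (y / δ)
      have h5 : (-(⌈|C / δ|⌉ : ℝ)) < ⌊y / δ⌋ + 1 := lt_of_le_of_lt h3.1 h4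
      have h6 : (-(⌈|C / δ|⌉ : ℤ)) < ⌊y / δ⌋ + 1 := by exact_mod_cast h5
      linarith
    · have h4 := Int.floor_le (y / δ)
      have h5 : (⌊y / δ⌋ : ℝ) ≤ ⌈|C / δ|⌉ := h4.trans h3.2
      have h6 : ⌊y / δ⌋ ≤ (⌈|C / δ|⌉ : ℤ) := by exact_mod_cast h5
      linarith
  refine ((Set.finite_Icc (-(⌈|C / δ|⌉ + 1)) (⌈|C / δ|⌉ + 1)).prod
    (Set.finite_Icc (-(⌈|C / δ|⌉ + 1)) (⌈|C / δ|⌉ + 1))).subset ?_
  rintro p ⟨x, ⟨h1, h2⟩, hxK⟩
  have hx := hC x hxK
  refine Set.mk_mem_prod (a := p.1) (b := p.2) ?_ ?_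
  · rw [← h1]; exact key x.1 ((norm_fst_le x).trans hx)
  · rw [← h2]; exact key x.2 ((norm_snd_le x).trans hx)

instance instFiniteVar (μ : SignedMeasure (ℝ × ℝ)) : IsFiniteMeasure μ.variation := by
  rw [← μ.totalVariation_eq_variation, SignedMeasure.totalVariation]
  infer_instance

/-- the mass is carried by finitely many cells -/
lemma finite_mass {μ : SignedMeasure (ℝ × ℝ)} (hμ : CC μ) (δ : ℝ) :
    (Function.support (mass μ δ)).Finite := by
  obtain ⟨K, hK, hμK⟩ := hμ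
  refine (finite_cells hK δ).subset fun p hp => ?_
  by_contra hcon
  have h1 : cell δ p ⊆ Kᶜ := by
    intro x hx hxK
    exact hcon ⟨x, hx, hxK⟩
  have h2 : μ.variation (cell δ p) = 0 := measure_mono_null h1 hμK
  apply hp
  have h3 := VectorMeasure.enorm_measure_le_variation μ (cell δ p)
  rw [h2, nonpos_iff_eq_zero, enorm_eq_zero] at h3
  exact h3

/-- **the charge `m_δ`** -/
def chg (μ : SignedMeasure (ℝ × ℝ)) (δ : ℝ) : ℤ × ℤ →₀ ℝ := by
  classical exact
  if h : (Function.support (mass μ δ)).Finite then Finsupp.ofSupportFinite (mass μ δ) h else 0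

lemma chg_apply {μ : SignedMeasure (ℝ × ℝ)} (hμ : CC μ) (δ : ℝ) (p : ℤ × ℤ) :
    chg μ δ p = mass μ δ p := by
  unfold chg
  rw [dif_pos (finite_mass hμ δ)]
  rfl

/-- integral of a function of the face -/
theorem integral_face {μ : SignedMeasure (ℝ × ℝ)} (hμ : CC μ) (δ : ℝ) (g : ℤ × ℤ → ℝ) :
    ∫ᵛ x, g (⌊x.1 / δ⌋, ⌊x.2 / δ⌋) ∂<•μ = (chg μ δ).sum fun p a => a * g p := by
  classical
  have hfm := finite_mass hμ δ
  obtain ⟨K, hK, hμK⟩ := id hμ
  have hfc := finite_cells hK δ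
  set S : Finset (ℤ × ℤ) := hfc.toFinset ∪ hfm.toFinset with hS
  have hae : (fun x : ℝ × ℝ => g (⌊x.1 / δ⌋, ⌊x.2 / δ⌋)) =ᵐ[μ.variation]
      fun x => ∑ p ∈ S, (cell δ p).indicator (fun _ => g p) x := by
    have h1 : ∀ᵐ x ∂μ.variation, x ∈ K := by
      rw [ae_iff]
      exact hμK
    filter_upwards [h1] with x hx
    set p0 : ℤ × ℤ := (⌊x.1 / δ⌋, ⌊x.2 / δ⌋) with hp0
    have hx0 : x ∈ cell δ p0 := ⟨rfl, rfl⟩
    have hmem : p0 ∈ S := by
      rw [hS, Finset.mem_union]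
      left
      rw [Set.Finite.mem_toFinset]
      exact ⟨x, hx0, hx⟩
    rw [Finset.sum_eq_single_of_mem p0 hmem, Set.indicator_of_mem hx0]
    intro p _ hp
    refine Set.indicator_of_notMem (fun h => hp ?_) _
    rw [hp0, Prod.ext_iff]
    exact ⟨h.1.symm, h.2.symm⟩
  rw [VectorMeasure.integral_congr_ae hae]
  have hone : ∀ p : ℤ × ℤ, ∫ᵛ x, (cell δ p).indicator (fun _ => g p) x ∂<•μ = mass μ δ p * g p := by
    intro p
    have hc := measurableSet_cell δ p
    rw [VectorMeasure.integral_indicator hc]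
    have : IsFiniteMeasure (μ.restrict (cell δ p)).variation := instFiniteVar _
    rw [VectorMeasure.integral_const, VectorMeasure.restrict_apply μ hc MeasurableSet.univ,
      Set.univ_inter]
    simp [mass, mul_comm]
  have hint : ∀ p ∈ S, μ.Integrable (fun x => (cell δ p).indicator (fun _ => g p) x) := by
    intro p _
    have : Integrable (fun x => (cell δ p).indicator (fun _ => g p) x) μ.variation :=
      (integrable_const (g p)).indicator (measurableSet_cell δ p)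
    exact this
  rw [VectorMeasure.integral_finsetSum S hint]
  simp only [hone]
  have hsub : (chg μ δ).support ⊆ S := by
    intro p hp
    rw [hS, Finset.mem_union]
    right
    rw [Set.Finite.mem_toFinset, Function.mem_support, ← chg_apply hμ]
    exact Finsupp.mem_support_iff.1 hp
  rw [Finsupp.sum_of_support_subset (chg μ δ) hsub (fun p a => a * g p) (fun p _ => zero_mul _)]
  refine Finset.sum_congr rfl fun p _ => ?_
  rw [chg_apply hμ]

/-- the total charge -/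
lemma chg_sum {μ : SignedMeasure (ℝ × ℝ)} (hμ : CC μ) (δ : ℝ) :
    (chg μ δ).sum (fun _ a => a) = μ Set.univ := by
  have h := integral_face hμ δ (fun _ => 1)
  rw [VectorMeasure.integral_const] at h
  simp only [mul_one] at h
  rw [← h]
  simp

/-- pairing of the relative height with a charge -/
def hq {M L : ℕ} (σ : Arrows M L) (m : ℤ × ℤ →₀ ℝ) : ℝ :=
  m.sum fun p a => a * (relHeight σ p.1 p.2 : ℝ)

/-- **the height pairing of `S0211` is the pairing with the charge `m_δ`** -/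
theorem heightPairing_eq {μ : SignedMeasure (ℝ × ℝ)} (hμ : CC μ) {M L : ℕ} (σ : Arrows M L)
    (δ : ℝ) : heightPairing σ δ μ = hq σ (chg μ δ) :=
  integral_face hμ δ fun p => (relHeight σ p.1 p.2 : ℝ)

/-- torus mean of `cos (h (m))`, `0` by convention on a degenerate torus -/
def latMean (M L : ℕ) (c : ℝ) (m : ℤ × ℤ →₀ ℝ) : ℝ :=
  if h : M ≠ 0 ∧ L ≠ 0 then
    haveI : NeZero M := ⟨h.1⟩
    haveI : NeZero L := ⟨h.2⟩
    torusExpectation M L c (fun σ => Real.cos (hq σ m))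
  else 0

/-- the bounded continuous cosine -/
def cosB : BoundedContinuousFunction ℝ ℝ :=
  BoundedContinuousFunction.ofNormedAddCommGroup Real.cos Real.continuous_cos 1
    (fun x => by rw [Real.norm_eq_abs]; exact Real.abs_cos_le_one x)

lemma cosB_apply (x : ℝ) : cosB x = Real.cos x := rfl

lemma hfm_eq {μ : SignedMeasure (ℝ × ℝ)} (hμ : CC μ) (M L : ℕ) (c δ : ℝ) :
    heightFunctionalMean M L c δ μ cosB = latMean M L c (chg μ δ) := by
  unfold heightFunctionalMean latMean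
  simp only [heightPairing_eq hμ, cosB_apply]

/-- characteristic function of the centred Gaussian law -/
lemma gauss_cos (v : NNReal) : ∫ t, cosB t ∂ProbabilityTheory.gaussianReal 0 v =
    Real.exp (-(v : ℝ) / 2) := by
  have h := ProbabilityTheory.charFun_gaussianReal (μ := 0) (v := v) (1 : ℝ)
  rw [charFun_apply_real] at h
  have h1 : Integrable (fun x : ℝ => Complex.exp (((1 : ℝ) : ℂ) * (x : ℂ) * Complex.I))
      (ProbabilityTheory.gaussianReal 0 v) := by
    refine (integrable_const (1 : ℝ)).mono' (by fun_prop) (Eventually.of_forall fun x => ?_)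
    rw [Complex.norm_exp]
    simp
  have h2 := congrArg Complex.re h
  have h3 : (∫ x, Complex.exp (((1 : ℝ) : ℂ) * (x : ℂ) * Complex.I)
      ∂ProbabilityTheory.gaussianReal 0 v).re =
      ∫ x, (Complex.exp (((1 : ℝ) : ℂ) * (x : ℂ) * Complex.I)).re
        ∂ProbabilityTheory.gaussianReal 0 v := by
    have := integral_re h1
    simpa using this.symm
  rw [h3] at h2
  have h4 : ∀ x : ℝ, (Complex.exp (((1 : ℝ) : ℂ) * (x : ℂ) * Complex.I)).re = cosB x := by
    intro x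
    rw [Complex.ofReal_one, one_mul, Complex.exp_ofReal_mul_I_re]
    rfl
  simp only [h4] at h2
  rw [h2]
  have h5 : (((1 : ℝ) : ℂ) * ((0 : ℝ) : ℂ) * Complex.I - (v : ℂ) * ((1 : ℝ) : ℂ) ^ 2 / 2) =
      ((-(v : ℝ) / 2 : ℝ) : ℂ) := by
    push_cast
    ring
  rw [h5, ← Complex.ofReal_exp, Complex.ofReal_re]

lemma varMul_sqrt3 : varianceMultiplier (Real.sqrt 3) = 3 / Real.pi := by
  unfold varianceMultiplier
  have h : Real.arcsin (Real.sqrt 3 / 2) = Real.pi / 3 := by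
    rw [← Real.sin_pi_div_three]
    refine Real.arcsin_sin ?_ ?_ <;> linarith [Real.pi_pos]
  rw [h]
  field_simp

/-- **the lattice identity** (output of helper430): `Pi` is the percolation functional -/
def StarLat (Pi : (ℤ × ℤ →₀ ℝ) → ℝ) : Prop := ∀ m : ℤ × ℤ →₀ ℝ, m.sum (fun _ a => a) = 0 →
  ∃ A : ℕ → ℝ, (∀ᶠ L : ℕ in atTop,
    Tendsto (fun M : ℕ => latMean (2 * M) (2 * L) (Real.sqrt 3) m) atTop (𝓝 (A L))) ∧
    Tendsto A atTop (𝓝 (Pi m))

/-- the law part of `S0211` at `c = √3` (first component of the frozen statement) -/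
def Law3 : Prop := ∀ μ : SignedMeasure (ℝ × ℝ),
  (∃ K : Set (ℝ × ℝ), IsCompact K ∧ μ.variation Kᶜ = 0) → μ Set.univ = 0 →
  HasFiniteEnergy μ → ∀ ψ : BoundedContinuousFunction ℝ ℝ,
  ∃ (A : ℝ → ℕ → ℝ) (a : ℝ → ℝ),
    (∀ δ : ℝ, 0 < δ → ∀ L : ℕ, 2 ≤ L →
      Filter.Tendsto (fun M : ℕ => heightFunctionalMean M (2 * L) (Real.sqrt 3) δ μ ψ)
        Filter.atTop (nhds (A δ L))) ∧
    (∀ δ : ℝ, 0 < δ → Filter.Tendsto (A δ) Filter.atTop (nhds (a δ))) ∧
    Filter.Tendsto a (nhdsWithin 0 (Set.Ioi 0))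
      (nhds (∫ t, ψ t ∂ProbabilityTheory.gaussianReal 0
        (Real.toNNReal (varianceMultiplier (Real.sqrt 3) * energy μ))))

/-- **the plane characteristic function** -/
theorem plane_char (hLaw : Law3) {Pi : (ℤ × ℤ →₀ ℝ) → ℝ} (hPi : StarLat Pi)
    {μ : SignedMeasure (ℝ × ℝ)} (hμ : CC μ) (h0 : μ Set.univ = 0) (hE : HasFiniteEnergy μ) :
    Tendsto (fun δ => Pi (chg μ δ)) (𝓝[>] 0)
      (𝓝 (Real.exp (-(3 / (2 * Real.pi)) * max (energy μ) 0))) := by
  have hpi := Real.pi_pos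
  obtain ⟨A, a, h1, h2, h3⟩ := hLaw μ hμ h0 hE cosB
  rw [gauss_cos, varMul_sqrt3] at h3
  have e : -((Real.toNNReal (3 / Real.pi * energy μ) : NNReal) : ℝ) / 2 =
      -(3 / (2 * Real.pi)) * max (energy μ) 0 := by
    rw [Real.coe_toNNReal']
    have h4 : max (3 / Real.pi * energy μ) 0 = 3 / Real.pi * max (energy μ) 0 := by
      have h5 : (0 : ℝ) ≤ 3 / Real.pi := by positivity
      rw [mul_max_of_nonneg _ _ h5, mul_zero]
    rw [h4]
    field_simp
  rw [e] at h3
  refine h3.congr' ?_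
  filter_upwards [self_mem_nhdsWithin] with δ hδ
  obtain ⟨A', h4, h5⟩ := hPi (chg μ δ) (by rw [chg_sum hμ, h0])
  have h6 : ∀ᶠ L : ℕ in atTop, A δ L = A' L := by
    filter_upwards [h4, eventually_ge_atTop 2] with L h7 hL
    have h8 := (h1 δ hδ L hL).comp (tendsto_id.const_mul_atTop' (by norm_num : 0 < 2))
    refine tendsto_nhds_unique h8 (h7.congr fun M => ?_)
    rw [Function.comp_apply, id, hfm_eq hμ]
  exact tendsto_nhds_unique (h2 δ hδ) (h5.congr' (h6.mono fun L h => h.symm))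

/-- the lattice identity in the uniform form of helper430 -/
def StarE (Pi : (ℤ × ℤ →₀ ℝ) → ℝ) : Prop := ∀ m : ℤ × ℤ →₀ ℝ, m.sum (fun _ a => a) = 0 →
  ∀ ε : ℝ, 0 < ε → ∃ L0 : ℕ, ∀ L : ℕ, L0 ≤ L → ∀ M : ℕ, 2 * L ≤ M → Even M →
    |latMean M (2 * L) (Real.sqrt 3) m - Pi m| ≤ ε

/-- **the plane characteristic function**, uniform form of the lattice identity -/
theorem plane_charE (hLaw : Law3) {Pi : (ℤ × ℤ →₀ ℝ) → ℝ} (hPi : StarE Pi)
    {μ : SignedMeasure (ℝ × ℝ)} (hμ : CC μ) (h0 : μ Set.univ = 0) (hE : HasFiniteEnergy μ) :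
    Tendsto (fun δ => Pi (chg μ δ)) (𝓝[>] 0)
      (𝓝 (Real.exp (-(3 / (2 * Real.pi)) * max (energy μ) 0))) := by
  have hpi := Real.pi_pos
  obtain ⟨A, a, h1, h2, h3⟩ := hLaw μ hμ h0 hE cosB
  rw [gauss_cos, varMul_sqrt3] at h3
  have e : -((Real.toNNReal (3 / Real.pi * energy μ) : NNReal) : ℝ) / 2 =
      -(3 / (2 * Real.pi)) * max (energy μ) 0 := by
    rw [Real.coe_toNNReal']
    have h4 : max (3 / Real.pi * energy μ) 0 = 3 / Real.pi * max (energy μ) 0 := by
      have h5 : (0 : ℝ) ≤ 3 / Real.pi := by positivity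
      rw [mul_max_of_nonneg _ _ h5, mul_zero]
    rw [h4]
    field_simp
  rw [e] at h3
  refine h3.congr' ?_
  filter_upwards [self_mem_nhdsWithin] with δ hδ
  refine tendsto_nhds_unique (h2 δ hδ) ?_
  rw [Metric.tendsto_atTop]
  intro ε hε
  obtain ⟨L0, hL0⟩ := hPi (chg μ δ) (by rw [chg_sum hμ, h0]) (ε / 2) (by positivity)
  refine ⟨max L0 2, fun L hL => ?_⟩
  have hLa : L0 ≤ L := (le_max_left _ _).trans hL
  have hLb : 2 ≤ L := (le_max_right _ _).trans hL
  have h8 := (h1 δ hδ L hLb).comp (tendsto_id.const_mul_atTop' (by norm_num : 0 < 2))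
  have h9 : |A δ L - Pi (chg μ δ)| ≤ ε / 2 := by
    refine le_of_tendsto ((h8.sub_const _).abs) ?_
    filter_upwards [eventually_ge_atTop L] with M hM
    have h10 := hL0 L hLa (2 * M) (by omega) (even_two_mul M)
    rwa [Function.comp_apply, id, hfm_eq hμ]
  rw [Real.dist_eq]
  linarith

end Crest.Agent.R158.Bs410
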