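import Mathlib
import Crest.Prelude.Def_SixVertex
import Crest.Agent.R158.Bk2_430
import Crest.Agent.R158.Bs_410

/-!
# R158, Block B (helper430), file 3: the torus expectation of S0211 as a sum over splittings
-/

set_option autoImplicit false

namespace Crest.Agent.R158.Bk430

open Finset Crest.ProbabilityR.SixVertex

/-! ### parity on `ZMod M`, `M` even -/

instance instHasParZMod (M : ℕ) [NeZero M] [hM : Fact (Even M)] : HasPar (ZMod M) where
  par a := decide (a.val % 2 = 1)
  par_add_one a := by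
    obtain ⟨k, hk⟩ := hM.out
    have hpos : 0 < M := Nat.pos_of_ne_zero (NeZero.ne M)
    have h1 : 1 < M := by omega
    have : Fact (1 < M) := ⟨h1⟩
    have hlt := a.val_lt
    have h2 : (a + 1).val = (a.val + 1) % M := by rw [ZMod.val_add, ZMod.val_one]
    rw [h2]
    rcases Nat.lt_or_ge (a.val + 1) M with h | h
    · rw [Nat.mod_eq_of_lt h]
      by_cases h3 : a.val % 2 = 1
      · have : ¬ ((a.val + 1) % 2 = 1) := by omega
        simp [h3, this]
      · have : ((a.val + 1) % 2 = 1) := by omega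
        simp [h3, this]
    · have h3 : a.val + 1 = M := by omega
      rw [h3, Nat.mod_self]
      have h4 : a.val % 2 = 1 := by omega
      simp [h4]

theorem par_intCast (M : ℕ) [NeZero M] [hM : Fact (Even M)] (a : ℤ) :
    par ((a : ZMod M)) = par a := by
  induction a using Int.induction_on with
  | zero =>
    simp [par]
  | succ n ih =>
    push_cast at ih ⊢
    rw [par_add_one, par_add_one, ih]
  | pred n ih =>
    push_cast at ih ⊢
    rw [par_sub_one, par_sub_one, ih]

/-! ### arrows and flips -/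

section Arr

variable {M L : ℕ} [NeZero M] [NeZero L] [Fact (Even M)] [Fact (Even L)]

/-- direction of an edge -/
def dir (σ : Arrows M L) (e : ME (ZMod M) (ZMod L)) : Bool := if e.2 then σ.2 e.1 else σ.1 e.1

/-- arrows ↔ flips with respect to the canonical orientation -/
def flipEquiv : Arrows M L ≃ (ME (ZMod M) (ZMod L) → Bool) where
  toFun σ e := xor (dir σ e) (ori e)
  invFun f := (fun v => xor (f (v, false)) (ori (v, false)), fun v => xor (f (v, true)) (ori (v, true)))
  left_inv σ := by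
    ext v <;> simp [dir]
  right_inv f := by
    funext e
    obtain ⟨v, b⟩ := e
    cases b <;> simp [dir]

/-- sign of the direction -/
def sgd (σ : Arrows M L) (e : ME (ZMod M) (ZMod L)) : ℤ := if dir σ e then 1 else -1

theorem sgd_eq (σ : Arrows M L) (e : ME (ZMod M) (ZMod L)) :
    sgd σ e = so e * sgb (flipEquiv σ e) := by
  have h : flipEquiv σ e = xor (dir σ e) (ori e) := rfl
  rcases Bool.eq_false_or_eq_true (dir σ e) with h1 | h1 <;>
    rcases Bool.eq_false_or_eq_true (ori e) with h2 | h2 <;> simp [sgd, so, sgb, h, h1, h2]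

theorem ice_iff (σ : Arrows M L) (v : ZMod M × ZMod L) :
    inDegree σ v = 2 ↔ ice (flipEquiv σ (eW v)) (flipEquiv σ (eE v)) (flipEquiv σ (eN v))
      (flipEquiv σ (eS v)) := by
  obtain ⟨a, b⟩ := v
  simp only [inDegree, ice, flipEquiv, Equiv.coe_fn_mk, dir, ori, eW, eE, eN, eS]
  simp only [vp_sub_fst, vp_sub_snd, Bool.false_eq_true, if_false, if_true]
  cases vp (a, b) <;> cases σ.1 (a - 1, b) <;> cases σ.1 (a, b) <;> cases σ.2 (a, b - 1) <;>
    cases σ.2 (a, b) <;> simp

theorem typeC_iff (σ : Arrows M L) (v : ZMod M × ZMod L) :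
    σ.1 (v.1 - 1, v.2) ≠ σ.1 v ↔ flipEquiv σ (eW v) = flipEquiv σ (eE v) := by
  obtain ⟨a, b⟩ := v
  simp only [flipEquiv, Equiv.coe_fn_mk, dir, ori, eW, eE]
  simp only [vp_sub_fst, Bool.false_eq_true, if_false]
  cases vp (a, b) <;> cases σ.1 (a - 1, b) <;> cases σ.1 (a, b) <;> simp

theorem bal_iff (σ : Arrows M L) :
    (∀ i : ZMod M, 2 * (univ.filter fun j : ZMod L => σ.1 (i, j) = true).card = L) ↔
      Bal (flipEquiv σ) := by
  unfold Bal
  refine forall_congr' fun i => ?_
  have h1 : ∑ j : ZMod L, so (((i, j), false) : ME (ZMod M) (ZMod L)) *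
      sgb (flipEquiv σ ((i, j), false)) = ∑ j : ZMod L, (if σ.1 (i, j) = true then (1 : ℤ) else -1) := by
    refine Finset.sum_congr rfl fun j _ => ?_
    rw [← sgd_eq]
    simp [sgd, dir]
  rw [h1]
  have h2 : ∑ j : ZMod L, (if σ.1 (i, j) = true then (1 : ℤ) else -1) =
      2 * ((univ.filter fun j : ZMod L => σ.1 (i, j) = true).card : ℤ) - L := by
    have h3 : ∀ j : ZMod L, (if σ.1 (i, j) = true then (1 : ℤ) else -1) =
        2 * (if σ.1 (i, j) = true then (1 : ℤ) else 0) - 1 := by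
      intro j; split_ifs <;> norm_num
    simp_rw [h3]
    rw [Finset.sum_sub_distrib, ← Finset.mul_sum, Finset.sum_boole]
    simp [ZMod.card]
  rw [h2]
  omega

open Classical in
theorem wt6_eq (lam : ℝ) (σ : Arrows M L) :
    wt6 lam (flipEquiv σ) = if ∀ v, inDegree σ v = 2 then
      (2 * Real.cos (lam / 2)) ^ numTypeC σ else 0 := by
  unfold wt6 w6
  rw [Finset.prod_ite_zero]
  have h1 : (∀ v ∈ (univ : Finset (ZMod M × ZMod L)), ice (flipEquiv σ (eW v))
      (flipEquiv σ (eE v)) (flipEquiv σ (eN v)) (flipEquiv σ (eS v))) ↔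
      ∀ v, inDegree σ v = 2 := by
    simp only [mem_univ, true_implies]
    exact forall_congr' fun v => (ice_iff σ v).symm
  by_cases h : ∀ v, inDegree σ v = 2
  · rw [if_pos h, if_pos (h1.2 h)]
    unfold numTypeC
    rw [Finset.prod_ite, Finset.prod_const, Finset.prod_const, one_pow, mul_one]
    congr 2
    ext v
    simp only [mem_filter, mem_univ, true_and]
    exact (typeC_iff σ v).symm
  · rw [if_neg h, if_neg (fun h' => h (h1.1 h'))]

theorem sqrt_three_eq : Real.sqrt 3 = 2 * Real.cos (Real.pi / 3 / 2) := by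
  rw [show Real.pi / 3 / 2 = Real.pi / 6 by ring, Real.cos_pi_div_six]
  ring

open Classical in
theorem sum_arrows (c : ME (ZMod M) (ZMod L) → ℝ) :
    ∑ σ : Arrows M L, (if IsBalancedIce σ then Real.sqrt 3 ^ numTypeC σ *
      Real.cos (∑ e, c e * sgd σ e) else 0) = ∑ s, Gw (Real.pi / 3) c s := by
  rw [← sum_Gw]
  refine Fintype.sum_equiv flipEquiv _ _ fun σ => ?_
  have h1 : ∑ e, c e * (sgd σ e : ℝ) = ∑ e, c e * so e * sgb (flipEquiv σ e) := by
    refine Finset.sum_congr rfl fun e _ => ?_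
    rw [sgd_eq]
    push_cast
    ring
  rw [wt6_eq, h1, ← sqrt_three_eq]
  unfold IsBalancedIce
  by_cases h2 : ∀ v, inDegree σ v = 2
  · by_cases h3 : Bal (flipEquiv σ)
    · rw [if_pos ⟨h2, (bal_iff σ).2 h3⟩, if_pos h3, if_pos h2]
    · rw [if_neg (fun h => h3 ((bal_iff σ).1 h.2)), if_neg h3]
  · rw [if_neg (fun h => h2 h.1), if_neg h2]
    simp

theorem sum_arrows_one : (∑ σ : Arrows M L, by
    classical exact if IsBalancedIce σ then Real.sqrt 3 ^ numTypeC σ else 0) =
    ∑ s : ZMod M × ZMod L → Bool, wG s := by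
  classical
  have h := sum_arrows (M := M) (L := L) (fun _ => 0)
  simp only [zero_mul, Finset.sum_const_zero, Real.cos_zero, mul_one] at h
  unfold wG
  rw [← h]

/-- **torus expectation of the cosine of a linear functional of the arrows** -/
theorem torusExpectation_cos (c : ME (ZMod M) (ZMod L) → ℝ) :
    torusExpectation M L (Real.sqrt 3) (fun σ => Real.cos (∑ e, c e * sgd σ e)) =
      (∑ s, Gw (Real.pi / 3) c s) / ∑ s : ZMod M × ZMod L → Bool, wG s := by
  classical
  unfold torusExpectation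
  rw [← sum_arrows, ← sum_arrows_one]

end Arr

/-! ### the relative height as a linear functional of the arrows -/

/-- coefficients of the path from the face `(0,0)` to the face `(p,q)` -/
noncomputable def pathC (p q : ℤ) : ME ℤ ℤ →₀ ℝ :=
  (∑ i ∈ Ico (p + 1) 1, Finsupp.single (((i, 0), true) : ME ℤ ℤ) (1 : ℝ) -
    ∑ i ∈ Ico 1 (p + 1), Finsupp.single (((i, 0), true) : ME ℤ ℤ) (1 : ℝ)) +
  (∑ j ∈ Ico 1 (q + 1), Finsupp.single (((p, j), false) : ME ℤ ℤ) (1 : ℝ) -
    ∑ j ∈ Ico (q + 1) 1, Finsupp.single (((p, j), false) : ME ℤ ℤ) (1 : ℝ))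

/-- coefficients of the pairing of the height with the charge `m` -/
noncomputable def chC (m : ℤ × ℤ →₀ ℝ) : ME ℤ ℤ →₀ ℝ :=
  m.sum fun pq a => a • pathC pq.1 pq.2

theorem lc_pathC (x : ME ℤ ℤ → ℝ) (p q : ℤ) :
    Finsupp.linearCombination ℝ x (pathC p q) =
      (∑ i ∈ Ico (p + 1) 1, x ((i, 0), true) - ∑ i ∈ Ico 1 (p + 1), x ((i, 0), true)) +
      (∑ j ∈ Ico 1 (q + 1), x ((p, j), false) - ∑ j ∈ Ico (q + 1) 1, x ((p, j), false)) := by
  simp [pathC, map_sum, Finsupp.linearCombination_single]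

theorem lc_chC (x : ME ℤ ℤ → ℝ) (m : ℤ × ℤ →₀ ℝ) :
    Finsupp.linearCombination ℝ x (chC m) =
      m.sum fun pq a => a * Finsupp.linearCombination ℝ x (pathC pq.1 pq.2) := by
  unfold chC
  rw [Finsupp.sum, map_sum, Finsupp.sum]
  refine Finset.sum_congr rfl fun pq _ => ?_
  rw [map_smul, smul_eq_mul]

/-- discrete integration along the path -/
theorem lc_path_grad (H : ℤ × ℤ → ℝ) (x : ME ℤ ℤ → ℝ)
    (h1 : ∀ i j, H (i, j) - H (i - 1, j) = - x ((i, j), true))
    (h2 : ∀ i j, H (i, j) - H (i, j - 1) = x ((i, j), false)) (p q : ℤ) :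
    Finsupp.linearCombination ℝ x (pathC p q) = H (p, q) - H (0, 0) := by
  rw [lc_pathC]
  have key : ∀ (f g : ℤ → ℝ) (hfg : ∀ i, f i - f (i - 1) = g i) (n : ℤ),
      ∑ i ∈ Ico 1 (n + 1), g i - ∑ i ∈ Ico (n + 1) 1, g i = f n - f 0 := by
    intro f g hfg n
    have up : ∀ k : ℕ, ∑ i ∈ Ico 1 ((k : ℤ) + 1), g i = f k - f 0 := by
      intro k
      induction k with
      | zero => simp
      | succ k ih =>
        have h3 : Ico 1 (((k + 1 : ℕ) : ℤ) + 1) = insert ((k : ℤ) + 1) (Ico 1 ((k : ℤ) + 1)) := by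
          ext z; simp only [mem_Ico, mem_insert]; push_cast; omega
        rw [h3, Finset.sum_insert (by simp), ih]
        have h4 := hfg ((k : ℤ) + 1)
        rw [add_sub_cancel_right] at h4
        push_cast
        linarith
    have dn : ∀ k : ℕ, ∑ i ∈ Ico (-(k : ℤ) + 1) 1, g i = f 0 - f (-(k : ℤ)) := by
      intro k
      induction k with
      | zero => simp
      | succ k ih =>
        have h3 : Ico (-((k + 1 : ℕ) : ℤ) + 1) 1 = insert (-(k : ℤ)) (Ico (-(k : ℤ) + 1) 1) := by
          ext z; simp only [mem_Ico, mem_insert]; push_cast; omega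
        rw [h3, Finset.sum_insert (by simp), ih]
        have h4 := hfg (-(k : ℤ))
        have h5 : -((k + 1 : ℕ) : ℤ) = -(k : ℤ) - 1 := by push_cast; ring
        rw [h5]
        linarith
    rcases le_total 0 n with hn | hn
    · obtain ⟨k, rfl⟩ := Int.eq_ofNat_of_zero_le hn
      rw [up k, Ico_eq_empty (by omega)]
      simp
    · obtain ⟨k, hk⟩ := Int.eq_ofNat_of_zero_le (show (0 : ℤ) ≤ -n by omega)
      obtain rfl : n = -(k : ℤ) := by omega
      rw [dn k, Ico_eq_empty (by omega)]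
      simp
  have e1 := key (fun i => H (i, 0)) (fun i => - x ((i, 0), true)) (fun i => h1 i 0) p
  have e2 := key (fun j => H (p, j)) (fun j => x ((p, j), false)) (fun j => h2 p j) q
  simp only [Finset.sum_neg_distrib] at e1
  linarith

/-- neutral charges only see the gradient -/
theorem lc_chC_grad (H : ℤ × ℤ → ℝ) (x : ME ℤ ℤ → ℝ)
    (h1 : ∀ i j, H (i, j) - H (i - 1, j) = - x ((i, j), true))
    (h2 : ∀ i j, H (i, j) - H (i, j - 1) = x ((i, j), false)) (m : ℤ × ℤ →₀ ℝ)
    (hm : m.sum (fun _ a => a) = 0) :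
    Finsupp.linearCombination ℝ x (chC m) = m.sum fun pq a => a * H pq := by
  rw [lc_chC]
  simp_rw [lc_path_grad H x h1 h2]
  have : (m.sum fun pq a => a * (H (pq.1, pq.2) - H (0, 0))) =
      (m.sum fun pq a => a * H pq) - (m.sum fun _ a => a) * H (0, 0) := by
    simp only [Finsupp.sum, mul_sub, Finset.sum_sub_distrib, Finset.sum_mul]
  rw [this, hm, zero_mul, sub_zero]

/-- projection of the medial edges of the plane to the torus -/
def proj (M L : ℕ) (e : ME ℤ ℤ) : ME (ZMod M) (ZMod L) := (((e.1.1 : ZMod M), (e.1.2 : ZMod L)), e.2)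

section Arr2

variable {M L : ℕ} [NeZero M] [NeZero L] [Fact (Even M)] [Fact (Even L)]

omit [NeZero M] [NeZero L] [Fact (Even M)] [Fact (Even L)] in
theorem relHeight_eq (σ : Arrows M L) (p q : ℤ) : (relHeight σ p q : ℝ) =
    Finsupp.linearCombination ℝ (fun e => (sgd σ (proj M L e) : ℝ)) (pathC p q) := by
  rw [lc_pathC]
  unfold relHeight signedSum
  have h1 : ∀ i : ℤ, (if σ.2 ((i : ZMod M), (0 : ZMod L)) then (-1 : ℤ) else 1) =
      - sgd σ (proj M L ((i, 0), true)) := by
    intro i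
    simp only [sgd, dir, proj, if_true, Int.cast_zero]
    split_ifs <;> simp
  have h2 : ∀ j : ℤ, (if σ.1 ((p : ZMod M), (j : ZMod L)) then (1 : ℤ) else -1) =
      sgd σ (proj M L ((p, j), false)) := by
    intro j
    simp [sgd, dir, proj]
  simp_rw [h1, h2]
  push_cast
  simp only [Finset.sum_neg_distrib]
  ring

omit [NeZero M] [NeZero L] [Fact (Even M)] [Fact (Even L)] in
theorem hq_eq (σ : Arrows M L) (m : ℤ × ℤ →₀ ℝ) : Bs410.hq σ m =
    Finsupp.linearCombination ℝ (fun e => (sgd σ (proj M L e) : ℝ)) (chC m) := by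
  rw [lc_chC]
  unfold Bs410.hq
  simp_rw [relHeight_eq]

/-- coefficients on the torus -/
noncomputable def pushC (M L : ℕ) (C : ME ℤ ℤ →₀ ℝ) : ME (ZMod M) (ZMod L) → ℝ :=
  Finsupp.mapDomain (proj M L) C

omit [Fact (Even M)] [Fact (Even L)] in
theorem sum_pushC (C : ME ℤ ℤ →₀ ℝ) (x : ME (ZMod M) (ZMod L) → ℝ) :
    ∑ e, pushC M L C e * x e = Finsupp.linearCombination ℝ (fun e => x (proj M L e)) C := by
  have h := Finsupp.linearCombination_mapDomain ℝ (v' := x) (proj M L) C
  rw [show (fun e => x (proj M L e)) = x ∘ proj M L from rfl, ← h]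
  rw [Finsupp.linearCombination_apply, Finsupp.sum_fintype _ _ (by simp)]
  simp [pushC]

/-- **the torus mean of `cos (h (m))` as a ratio of sums over splittings** -/
theorem latMean_eq (m : ℤ × ℤ →₀ ℝ) : Bs410.latMean M L (Real.sqrt 3) m =
    (∑ s, Gw (Real.pi / 3) (pushC M L (chC m)) s) / ∑ s : ZMod M × ZMod L → Bool, wG s := by
  unfold Bs410.latMean
  rw [dif_pos ⟨NeZero.ne M, NeZero.ne L⟩, ← torusExpectation_cos]
  congr 1
  funext σ
  rw [hq_eq, ← sum_pushC (C := chC m) (fun e => (sgd σ e : ℝ))]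

end Arr2

end Crest.Agent.R158.Bk430
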