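import Mathlib
import Crest.Agent.R158.Bk3_430

/-!
# R158, Block B (helper430), file 4: loops of the torus through a window = loops of the plane

* `pv M L v`, `proj M L e` projections, `proj_nx`
* `Bx N` box of medial edges, `Loc C N s` : the strands through the support of `C` stay in `Bx N`
* `GN C N s` : product over these strands of `2 cos (∑ (π/12 turn + C so))`
* `CtrM` : loops of the torus whose lift closes
* `Gw_eq_GN` : on `Loc`, `Gw (π/3) (pushC C) s = GN C N (lift of s) * wG s`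
-/

set_option autoImplicit false

namespace Crest.Agent.R158.Bk430

open Finset

/-- projection of the vertices of the plane to the torus -/
def pv (M L : ℕ) (v : ℤ × ℤ) : ZMod M × ZMod L := ((v.1 : ZMod M), (v.2 : ZMod L))

theorem proj_fst (M L : ℕ) (e : ME ℤ ℤ) : (proj M L e).1 = pv M L e.1 := rfl
theorem proj_snd (M L : ℕ) (e : ME ℤ ℤ) : (proj M L e).2 = e.2 := rfl

section

variable {M L : ℕ} [NeZero M] [NeZero L] [Fact (Even M)] [Fact (Even L)]

theorem vp_pv (v : ℤ × ℤ) : vp (pv M L v) = vp v := by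
  simp [vp, pv, par_intCast]

theorem ori_proj (e : ME ℤ ℤ) : ori (proj M L e) = ori e := by
  unfold ori
  rw [proj_fst, proj_snd, vp_pv]

theorem so_proj (e : ME ℤ ℤ) : so (proj M L e) = so e := by
  unfold so
  rw [ori_proj]

theorem hd_proj (e : ME ℤ ℤ) : hd (proj M L e) = pv M L (hd e) := by
  unfold hd
  rw [proj_fst, proj_snd, vp_pv]
  obtain ⟨⟨a, b⟩, c⟩ := e
  cases c <;> cases vp ((a, b) : ℤ × ℤ) <;> simp [pv]

/-- periodic lift of a splitting -/
def lift (s : ZMod M × ZMod L → Bool) : ℤ × ℤ → Bool := fun v => s (pv M L v)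

theorem proj_nx (s : ZMod M × ZMod L → Bool) (e : ME ℤ ℤ) :
    proj M L (nx (lift s) e) = nx s (proj M L e) := by
  unfold nx
  rw [hd_proj, proj_fst, proj_snd, vp_pv]
  show proj M L (if e.2 then (if s (pv M L (hd e)) = vp e.1 then _ else _) else
    (if s (pv M L (hd e)) = !vp e.1 then _ else _)) = _
  generalize hd e = u
  obtain ⟨a, b⟩ := u
  split_ifs <;> simp [proj, pv]

theorem turn_proj (s : ZMod M × ZMod L → Bool) (e : ME ℤ ℤ) :
    turn s (proj M L e) = turn (lift s) e := by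
  unfold turn kap lift
  rw [hd_proj, vp_pv]

theorem proj_iter (s : ZMod M × ZMod L → Bool) (k : ℕ) (e : ME ℤ ℤ) :
    proj M L ((nx (lift s))^[k] e) = (nx s)^[k] (proj M L e) := by
  induction k generalizing e with
  | zero => rfl
  | succ k ih => rw [Function.iterate_succ_apply, Function.iterate_succ_apply, ih, proj_nx]

end

/-- box of medial edges -/
noncomputable def Bx (N : ℕ) : Finset (ME ℤ ℤ) := (Icc (-(N : ℤ)) N ×ˢ Icc (-(N : ℤ)) N) ×ˢ univ

theorem mem_Bx {N : ℕ} {e : ME ℤ ℤ} :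
    e ∈ Bx N ↔ (-(N : ℤ) ≤ e.1.1 ∧ e.1.1 ≤ N) ∧ (-(N : ℤ) ≤ e.1.2 ∧ e.1.2 ≤ N) := by
  simp [Bx]

/-- box of vertices -/
noncomputable def Vx (N : ℕ) : Finset (ℤ × ℤ) := Icc (-(N : ℤ)) N ×ˢ Icc (-(N : ℤ)) N

theorem mem_Vx {N : ℕ} {v : ℤ × ℤ} :
    v ∈ Vx N ↔ (-(N : ℤ) ≤ v.1 ∧ v.1 ≤ N) ∧ (-(N : ℤ) ≤ v.2 ∧ v.2 ≤ N) := by
  simp [Vx]

theorem hd_mem_Vx {N : ℕ} {e : ME ℤ ℤ} (h : e ∈ Bx N) : hd e ∈ Vx (N + 1) := by
  rw [mem_Bx] at h
  rw [mem_Vx]
  unfold hd
  split_ifs <;> push_cast <;> refine ⟨⟨?_, ?_⟩, ⟨?_, ?_⟩⟩ <;> omega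

/-- the strands through the support of `C` stay in the box -/
def Loc (C : ME ℤ ℤ →₀ ℝ) (N : ℕ) (s : ℤ × ℤ → Bool) : Prop :=
  ∀ e ∈ C.support, ∀ k : ℕ, (nx s)^[k] e ∈ Bx N

open Classical in
/-- the strand of `e` inside the box -/
noncomputable def stF (N : ℕ) (s : ℤ × ℤ → Bool) (e : ME ℤ ℤ) : Finset (ME ℤ ℤ) :=
  (Bx N).filter fun e' => ∃ k : ℕ, (nx s)^[k] e = e'

/-- weight of a strand -/
noncomputable def wst (C : ME ℤ ℤ →₀ ℝ) (s : ℤ × ℤ → Bool) (l : Finset (ME ℤ ℤ)) : ℝ :=
  2 * Real.cos (∑ e ∈ l, (Real.pi / 12 * turn s e + C e * so e))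

open Classical in
/-- local functional -/
noncomputable def GN (C : ME ℤ ℤ →₀ ℝ) (N : ℕ) (s : ℤ × ℤ → Bool) : ℝ :=
  if Loc C N s then ∏ l ∈ C.support.image (stF N s), wst C s l else 0

/-! ### locality -/

theorem nx_congr {N : ℕ} {s s' : ℤ × ℤ → Bool} (h : ∀ v ∈ Vx (N + 1), s v = s' v) {e : ME ℤ ℤ}
    (he : e ∈ Bx N) : nx s e = nx s' e := by
  unfold nx
  rw [h _ (hd_mem_Vx he)]

theorem iter_congr {N : ℕ} {s s' : ℤ × ℤ → Bool} (h : ∀ v ∈ Vx (N + 1), s v = s' v) {e : ME ℤ ℤ}
    (he : ∀ k : ℕ, (nx s)^[k] e ∈ Bx N) (k : ℕ) : (nx s')^[k] e = (nx s)^[k] e := by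
  induction k with
  | zero => rfl
  | succ k ih => rw [Function.iterate_succ_apply', Function.iterate_succ_apply', ih,
      nx_congr h (he k)]

theorem Loc_congr {C : ME ℤ ℤ →₀ ℝ} {N : ℕ} {s s' : ℤ × ℤ → Bool}
    (h : ∀ v ∈ Vx (N + 1), s v = s' v) : Loc C N s ↔ Loc C N s' := by
  constructor
  · intro hl e he k
    rw [iter_congr h (hl e he)]
    exact hl e he k
  · intro hl e he k
    rw [iter_congr (fun v hv => (h v hv).symm) (hl e he)]
    exact hl e he k

theorem GN_congr {C : ME ℤ ℤ →₀ ℝ} {N : ℕ} {s s' : ℤ × ℤ → Bool}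
    (h : ∀ v ∈ Vx (N + 1), s v = s' v) : GN C N s = GN C N s' := by
  classical
  unfold GN
  by_cases hl : Loc C N s
  · rw [if_pos hl, if_pos ((Loc_congr h).1 hl)]
    have h1 : C.support.image (stF N s) = C.support.image (stF N s') := by
      refine Finset.image_congr fun e he => ?_
      unfold stF
      ext e'
      simp only [mem_filter]
      refine and_congr_right fun _ => exists_congr fun k => ?_
      rw [iter_congr h (hl e he)]
    rw [h1]
    refine Finset.prod_congr rfl fun l hl' => ?_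
    unfold wst
    congr 2
    refine Finset.sum_congr rfl fun e he => ?_
    have he' : e ∈ Bx N := by
      rw [mem_image] at hl'
      obtain ⟨e0, _, rfl⟩ := hl'
      unfold stF at he
      exact (mem_filter.1 he).1
    have : turn s e = turn s' e := by
      unfold turn kap
      rw [h _ (hd_mem_Vx he')]
    rw [this]
  · rw [if_neg hl, if_neg (fun h' => hl ((Loc_congr h).2 h'))]

theorem abs_GN_le (C : ME ℤ ℤ →₀ ℝ) (N : ℕ) (s : ℤ × ℤ → Bool) :
    |GN C N s| ≤ 2 ^ C.support.card := by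
  classical
  unfold GN
  split_ifs
  · rw [Finset.abs_prod]
    calc ∏ l ∈ C.support.image (stF N s), |wst C s l|
        ≤ ∏ l ∈ C.support.image (stF N s), (2 : ℝ) := by
          refine Finset.prod_le_prod (fun _ _ => abs_nonneg _) fun l _ => ?_
          unfold wst
          rw [abs_mul, abs_of_pos (by norm_num : (0 : ℝ) < 2)]
          have := Real.abs_cos_le_one (∑ e ∈ l, (Real.pi / 12 * turn s e + C e * so e))
          linarith
      _ = 2 ^ (C.support.image (stF N s)).card := by rw [Finset.prod_const]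
      _ ≤ 2 ^ C.support.card := pow_le_pow_right₀ (by norm_num) Finset.card_image_le
  · rw [abs_zero]; positivity

/-! ### the matching -/

section Match

variable {M L : ℕ} [NeZero M] [NeZero L] [Fact (Even M)] [Fact (Even L)]

/-- loops of the torus whose lift closes -/
def CtrM (s : ZMod M × ZMod L → Bool) (l : Lp s) : Prop :=
  ∃ e : ME ℤ ℤ, orb (nxE s) (proj M L e) = l ∧ ∃ k : ℕ, 0 < k ∧ (nx (lift s))^[k] e = e

omit [NeZero M] [NeZero L] [Fact (Even M)] [Fact (Even L)] in
theorem proj_inj {N : ℕ} (hM : 2 * N < M) (hL : 2 * N < L) {e e' : ME ℤ ℤ} (he : e ∈ Bx N)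
    (he' : e' ∈ Bx N) (h : proj M L e = proj M L e') : e = e' := by
  obtain ⟨⟨a, b⟩, c⟩ := e
  obtain ⟨⟨a', b'⟩, c'⟩ := e'
  simp only [proj, Prod.mk.injEq] at h
  obtain ⟨⟨h1, h2⟩, rfl⟩ := h
  rw [mem_Bx] at he he'
  simp only at he he'
  rw [ZMod.intCast_eq_intCast_iff_dvd_sub] at h1 h2
  obtain ⟨x, hx⟩ := h1
  obtain ⟨y, hy⟩ := h2
  have hx0 : x = 0 := by
    by_contra hne
    rcases lt_or_gt_of_ne hne with hlt | hgt
    · have : (M : ℤ) * x ≤ (M : ℤ) * (-1) := by
        apply mul_le_mul_of_nonneg_left <;> omega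
      omega
    · have : (M : ℤ) * 1 ≤ (M : ℤ) * x := by
        apply mul_le_mul_of_nonneg_left <;> omega
      omega
  have hy0 : y = 0 := by
    by_contra hne
    rcases lt_or_gt_of_ne hne with hlt | hgt
    · have : (L : ℤ) * y ≤ (L : ℤ) * (-1) := by
        apply mul_le_mul_of_nonneg_left <;> omega
      omega
    · have : (L : ℤ) * 1 ≤ (L : ℤ) * y := by
        apply mul_le_mul_of_nonneg_left <;> omega
      omega
  subst hx0 hy0
  simp only [Prod.mk.injEq, and_true]
  omega

/-- a strand staying in a finite box closes -/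
theorem closes {N : ℕ} {s : ℤ × ℤ → Bool} {e : ME ℤ ℤ} (h : ∀ k : ℕ, (nx s)^[k] e ∈ Bx N) :
    ∃ k : ℕ, 0 < k ∧ (nx s)^[k] e = e := by
  obtain ⟨i, j, hij, hne⟩ : ∃ i j : ℕ, i < j ∧ (nx s)^[i] e = (nx s)^[j] e := by
    have hf : Set.MapsTo (fun k : ℕ => (nx s)^[k] e) Set.univ (Bx N : Set (ME ℤ ℤ)) :=
      fun k _ => h k
    obtain ⟨i, _, j, _, hne, heq⟩ :=
      Set.infinite_univ.exists_ne_map_eq_of_mapsTo hf (Finset.finite_toSet _)
    rcases lt_or_gt_of_ne hne with h1 | h1
    · exact ⟨i, j, h1, heq⟩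
    · exact ⟨j, i, h1, heq.symm⟩
  refine ⟨j - i, by omega, ?_⟩
  have hinj : Function.Injective (nx s)^[i] := (nxE s).injective.iterate i
  apply hinj
  rw [← Function.iterate_add_apply, show i + (j - i) = j by omega]
  exact hne.symm

/-- the orbit of a projected edge is the projection of the strand -/
theorem orb_proj_iff (s : ZMod M × ZMod L → Bool) (e : ME ℤ ℤ) (x : ME (ZMod M) (ZMod L)) :
    orb (nxE s) x = orb (nxE s) (proj M L e) ↔ ∃ k : ℕ, proj M L ((nx (lift s))^[k] e) = x := by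
  have h1 : orb (nxE s) x = orb (nxE s) (proj M L e) ↔
      Equiv.Perm.SameCycle (nxE s) x (proj M L e) := by
    unfold orb
    rw [Quotient.eq]
    rfl
  rw [h1]
  constructor
  · intro h
    obtain ⟨k, hk⟩ := h.symm.exists_nat_pow_eq
    refine ⟨k, ?_⟩
    rw [proj_iter, ← hk]
    rw [Equiv.Perm.coe_pow]
    rfl
  · rintro ⟨k, rfl⟩
    rw [proj_iter]
    refine Equiv.Perm.SameCycle.symm ?_
    refine ⟨k, ?_⟩
    rw [zpow_natCast, Equiv.Perm.coe_pow]
    rfl

open Classical in
/-- fibre of a loop of the torus -/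
noncomputable def Tf (s : ZMod M × ZMod L → Bool) (l : Lp s) : Finset (ME (ZMod M) (ZMod L)) :=
  univ.filter fun x => orb (nxE s) x = l

open Classical in
theorem Tf_inj (s : ZMod M × ZMod L → Bool) :
    Function.Injective (Tf s) := by
  intro l l' h
  induction l using Quotient.inductionOn with
  | h e =>
    have h1 : e ∈ Tf s (Quotient.mk _ e) := by
      unfold Tf
      rw [mem_filter]
      exact ⟨mem_univ _, rfl⟩
    rw [h] at h1
    unfold Tf at h1
    rw [mem_filter] at h1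
    exact h1.2

open Classical in
theorem Tf_orb {N : ℕ} (s : ZMod M × ZMod L → Bool) {e : ME ℤ ℤ}
    (h : ∀ k : ℕ, (nx (lift s))^[k] e ∈ Bx N) :
    Tf s (orb (nxE s) (proj M L e)) = (stF N (lift s) e).image (proj M L) := by
  unfold Tf stF
  ext x
  simp only [mem_filter, mem_univ, true_and, mem_image]
  rw [orb_proj_iff]
  constructor
  · rintro ⟨k, hk⟩
    exact ⟨_, ⟨h k, k, rfl⟩, hk⟩
  · rintro ⟨e', ⟨_, k, rfl⟩, hx⟩
    exact ⟨k, hx⟩

/-- weight of a torus loop as a function of its fibre -/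
noncomputable def wT (c : ME (ZMod M) (ZMod L) → ℝ) (s : ZMod M × ZMod L → Bool)
    (X : Finset (ME (ZMod M) (ZMod L))) : ℝ :=
  2 * Real.cos (∑ e ∈ X, (Real.pi / 12 * turn s e + c e * so e))

open Classical in
theorem wT_Tf (c : ME (ZMod M) (ZMod L) → ℝ) (s : ZMod M × ZMod L → Bool) (l : Lp s) :
    wT c s (Tf s l) = 2 * Real.cos (Real.pi / 12 * Tl s l + th c s l) := by
  unfold wT Tf Tl th
  rw [Finset.sum_add_distrib, ← Finset.mul_sum]
  push_cast
  rfl

omit [NeZero M] [NeZero L] [Fact (Even M)] [Fact (Even L)] in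
theorem pushC_proj {N : ℕ} (hM : 2 * N < M) (hL : 2 * N < L) {C : ME ℤ ℤ →₀ ℝ}
    (hC : ∀ e ∈ C.support, e ∈ Bx N) {e : ME ℤ ℤ} (he : e ∈ Bx N) :
    pushC M L C (proj M L e) = C e := by
  classical
  unfold pushC
  rw [Finsupp.mapDomain, Finsupp.sum_apply, Finsupp.sum]
  by_cases h : e ∈ C.support
  · rw [Finset.sum_eq_single_of_mem e h]
    · simp
    · intro e' he' hne
      rw [Finsupp.single_apply, if_neg]
      intro h'
      exact hne (proj_inj hM hL (hC e' he') he h')
  · rw [Finset.sum_eq_zero]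
    · rw [Finsupp.notMem_support_iff.1 h]
    · intro e' he'
      rw [Finsupp.single_apply, if_neg]
      intro h'
      exact h (proj_inj hM hL (hC e' he') he h' ▸ he')

omit [NeZero M] [NeZero L] [Fact (Even M)] [Fact (Even L)] in
theorem pushC_zero {C : ME ℤ ℤ →₀ ℝ} {x : ME (ZMod M) (ZMod L)}
    (h : ∀ e ∈ C.support, proj M L e ≠ x) : pushC M L C x = 0 := by
  classical
  unfold pushC
  rw [Finsupp.mapDomain, Finsupp.sum_apply, Finsupp.sum]
  refine Finset.sum_eq_zero fun e he => ?_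
  rw [Finsupp.single_apply, if_neg (h e he)]

open Classical in
/-- **the matching** -/
theorem Gw_eq_GN {N : ℕ} (hM : 2 * N < M) (hL : 2 * N < L) {C : ME ℤ ℤ →₀ ℝ}
    {s : ZMod M × ZMod L → Bool} (hT : TT s (CtrM s)) (hl : Loc C N (lift s)) :
    Gw (Real.pi / 3) (pushC M L C) s = GN C N (lift s) * wG s := by
  have hC : ∀ e ∈ C.support, e ∈ Bx N := fun e he => hl e he 0
  have hctr : ∀ e ∈ C.support, CtrM s (orb (nxE s) (proj M L e)) := fun e he =>
    ⟨e, rfl, closes (hl e he)⟩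
  have hth : ∀ l : Lp s, (∀ e ∈ C.support, orb (nxE s) (proj M L e) ≠ l) →
      th (pushC M L C) s l = 0 := by
    intro l hl'
    unfold th
    refine Finset.sum_eq_zero fun x hx => ?_
    rw [mem_filter] at hx
    rw [pushC_zero, zero_mul]
    intro e he hex
    exact hl' e he (by rw [hex]; exact hx.2)
  rw [Gw_factor hT]
  have hNb : Nb (pushC M L C) s (CtrM s) = wG s := by
    rw [wG_eq hT]
    unfold Nb
    rw [← Finset.sum_boole]
    refine Finset.sum_congr rfl fun g _ => ?_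
    congr 1
    have : ∑ l : {l // ¬ CtrM s l}, th (pushC M L C) s l * sgb (g l) = 0 :=
      Finset.sum_eq_zero fun l _ => by
        rw [hth l.1 (fun e he h => l.2 (h ▸ hctr e he)), zero_mul]
    rw [this, Real.cos_zero]
  rw [hNb]
  congr 1
  unfold GN
  rw [if_pos hl]
  -- product over the contractible loops = product over the image of the window
  have h1 : ∏ l : {l // CtrM s l}, 2 * Real.cos (Real.pi / 12 * Tl s l + th (pushC M L C) s l) =
      ∏ l ∈ C.support.image (fun e => orb (nxE s) (proj M L e)),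
        2 * Real.cos (Real.pi / 12 * Tl s l + th (pushC M L C) s l) := by
    have h2 : ∏ l : {l // CtrM s l}, 2 * Real.cos (Real.pi / 12 * Tl s l + th (pushC M L C) s l) =
        ∏ l ∈ univ.filter (fun l => CtrM s l),
          2 * Real.cos (Real.pi / 12 * Tl s l + th (pushC M L C) s l) := by
      exact (Finset.prod_subtype (univ.filter fun l => CtrM s l) (fun l => by simp)
        (fun l => 2 * Real.cos (Real.pi / 12 * Tl s l + th (pushC M L C) s l))).symm
    rw [h2]
    symm
    refine Finset.prod_subset ?_ ?_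
    · intro l hl'
      rw [mem_image] at hl'
      obtain ⟨e, he, rfl⟩ := hl'
      rw [mem_filter]
      exact ⟨mem_univ _, hctr e he⟩
    · intro l hl1 hl2
      rw [mem_filter] at hl1
      have : th (pushC M L C) s l = 0 := hth l fun e he h => hl2 (mem_image.2 ⟨e, he, h⟩)
      rw [this, add_zero, cos_turn (hT.c_turn l hl1.2)]
  rw [h1]
  have h3 : ∏ l ∈ C.support.image (fun e => orb (nxE s) (proj M L e)),
        2 * Real.cos (Real.pi / 12 * Tl s l + th (pushC M L C) s l) =
      ∏ X ∈ (C.support.image (fun e => orb (nxE s) (proj M L e))).image (Tf s),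
        wT (pushC M L C) s X := by
    rw [Finset.prod_image (fun a _ b _ h => Tf_inj s h)]
    refine Finset.prod_congr rfl fun l _ => ?_
    rw [wT_Tf]
  have h4 : (C.support.image (fun e => orb (nxE s) (proj M L e))).image (Tf s) =
      (C.support.image (stF N (lift s))).image (fun l => l.image (proj M L)) := by
    rw [Finset.image_image, Finset.image_image]
    refine Finset.image_congr fun e he => ?_
    simp only [Function.comp]
    exact Tf_orb s (hl e he)
  have hsub : ∀ l ∈ C.support.image (stF N (lift s)), ∀ e ∈ l, e ∈ Bx N := by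
    intro l hl' e he
    rw [mem_image] at hl'
    obtain ⟨e0, _, rfl⟩ := hl'
    unfold stF at he
    exact (mem_filter.1 he).1
  have hinj : Set.InjOn (fun l : Finset (ME ℤ ℤ) => l.image (proj M L))
      (C.support.image (stF N (lift s)) : Finset (Finset (ME ℤ ℤ))) := by
    intro l1 hl1 l2 hl2 h
    have key : ∀ l1 ∈ C.support.image (stF N (lift s)), ∀ l2 ∈ C.support.image (stF N (lift s)),
        l1.image (proj M L) = l2.image (proj M L) → l1 ⊆ l2 := by
      intro l1 hl1 l2 hl2 h e he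
      have h5 : proj M L e ∈ l2.image (proj M L) := h ▸ mem_image_of_mem _ he
      rw [mem_image] at h5
      obtain ⟨e', he', hee⟩ := h5
      rwa [← proj_inj hM hL (hsub l2 hl2 e' he') (hsub l1 hl1 e he) hee]
    exact Finset.Subset.antisymm (key l1 hl1 l2 hl2 h) (key l2 hl2 l1 hl1 h.symm)
  rw [h3, h4, Finset.prod_image hinj]
  refine Finset.prod_congr rfl fun l hl' => ?_
  unfold wT wst
  congr 2
  rw [Finset.sum_image (fun a ha b hb h => proj_inj hM hL (hsub l hl' a ha) (hsub l hl' b hb) h)]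
  refine Finset.sum_congr rfl fun e he => ?_
  rw [turn_proj, so_proj, pushC_proj hM hL hC (hsub l hl' e he)]

end Match

end Crest.Agent.R158.Bk430
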