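import Mathlib
import Crest.Agent.R158.Bk4_430
import Crest.Agent.R158.Rs3_689

/-!
# R158, Block B (helper430), file 5: the plane functional `Pi6` and `StarE`

* `PU` uniform law of the splittings of the plane
* `Gpl C s` product over the strands through the support of `C` (`0` if one of them is infinite)
* `Pi6 m = ∫ Gpl (chC m)`
* `starE` : `Bs410.StarE Pi6` from `T1`, `B3` and finiteness
-/

set_option autoImplicit false

namespace Crest.Agent.R158.Bk430

open Finset MeasureTheory Crest.Agent.R158.Rs689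

/-- uniform law of the splittings of the plane -/
noncomputable def PU : Measure (ℤ × ℤ → Bool) := PB fun _ => hf

instance : IsProbabilityMeasure PU := by unfold PU; infer_instance

theorem Bx_mono {N N' : ℕ} (h : N ≤ N') {e : ME ℤ ℤ} (he : e ∈ Bx N) : e ∈ Bx N' := by
  rw [mem_Bx] at he ⊢
  refine ⟨⟨?_, ?_⟩, ⟨?_, ?_⟩⟩ <;> omega

theorem Loc_mono {C : ME ℤ ℤ →₀ ℝ} {N N' : ℕ} (h : N ≤ N') {s : ℤ × ℤ → Bool} (hl : Loc C N s) :
    Loc C N' s := fun e he k => Bx_mono h (hl e he k)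

theorem stF_mono {N N' : ℕ} (h : N ≤ N') {s : ℤ × ℤ → Bool} {e : ME ℤ ℤ}
    (he : ∀ k : ℕ, (nx s)^[k] e ∈ Bx N) : stF N' s e = stF N s e := by
  classical
  unfold stF
  ext e'
  simp only [mem_filter]
  constructor
  · rintro ⟨_, k, rfl⟩
    exact ⟨he k, k, rfl⟩
  · rintro ⟨h1, k, rfl⟩
    exact ⟨Bx_mono h h1, k, rfl⟩

theorem GN_mono {C : ME ℤ ℤ →₀ ℝ} {N N' : ℕ} (h : N ≤ N') {s : ℤ × ℤ → Bool} (hl : Loc C N s) :
    GN C N' s = GN C N s := by
  classical
  unfold GN
  rw [if_pos hl, if_pos (Loc_mono h hl)]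
  rw [Finset.image_congr (g := stF N s) fun e he => stF_mono h (hl e he)]

open Classical in
/-- product over the strands through the support of `C` of `2 cos (…)`; `0` if one is infinite -/
noncomputable def Gpl (C : ME ℤ ℤ →₀ ℝ) (s : ℤ × ℤ → Bool) : ℝ :=
  if h : ∃ N, Loc C N s then GN C h.choose s else 0

theorem Gpl_eq {C : ME ℤ ℤ →₀ ℝ} {N : ℕ} {s : ℤ × ℤ → Bool} (h : Loc C N s) :
    Gpl C s = GN C N s := by
  unfold Gpl
  have h1 : ∃ N, Loc C N s := ⟨N, h⟩
  rw [dif_pos h1]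
  rcases le_total N h1.choose with h2 | h2
  · exact GN_mono h2 h
  · exact (GN_mono h2 h1.choose_spec).symm

theorem abs_Gpl_le (C : ME ℤ ℤ →₀ ℝ) (s : ℤ × ℤ → Bool) : |Gpl C s| ≤ 2 ^ C.support.card := by
  unfold Gpl
  split_ifs
  · exact abs_GN_le _ _ _
  · rw [abs_zero]; positivity

theorem dep_Loc (C : ME ℤ ℤ →₀ ℝ) (N : ℕ) : Dep (Vx (N + 1)) {s | Loc C N s} :=
  fun _ _ h => Loc_congr h

/-- functions of finitely many coordinates are measurable -/
theorem meas_loc {ι β : Type*} [MeasurableSpace β] {S : Finset ι} {F : (ι → Bool) → β}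
    (hF : ∀ s s' : ι → Bool, (∀ v ∈ S, s v = s' v) → F s = F s') : Measurable F := by
  intro t _
  have : Dep S (F ⁻¹' t) := by
    intro z z' h
    rw [Set.mem_preimage, Set.mem_preimage, hF z z' h]
  exact this.measurableSet

theorem meas_GN (C : ME ℤ ℤ →₀ ℝ) (N : ℕ) : Measurable (GN C N) :=
  meas_loc (S := Vx (N + 1)) fun _ _ h => GN_congr h

theorem Gpl_lim (C : ME ℤ ℤ →₀ ℝ) (s : ℤ × ℤ → Bool) :
    Filter.Tendsto (fun N => GN C N s) Filter.atTop (nhds (Gpl C s)) := by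
  by_cases h : ∃ N, Loc C N s
  · obtain ⟨N, hN⟩ := h
    refine tendsto_const_nhds.congr' ?_
    filter_upwards [Filter.eventually_ge_atTop N] with N' hN'
    exact Gpl_eq (Loc_mono hN' hN)
  · have h1 : Gpl C s = 0 := by unfold Gpl; rw [dif_neg h]
    rw [h1]
    refine tendsto_const_nhds.congr fun N => ?_
    unfold GN
    rw [if_neg fun h' => h ⟨N, h'⟩]

theorem meas_Gpl (C : ME ℤ ℤ →₀ ℝ) : Measurable (Gpl C) :=
  measurable_of_tendsto_metrizable (fun N => meas_GN C N)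
    (tendsto_pi_nhds.2 fun s => Gpl_lim C s)

/-- **the plane functional** -/
noncomputable def Pi6 (m : ℤ × ℤ →₀ ℝ) : ℝ := ∫ s, Gpl (chC m) s ∂PU

theorem int_GN (C : ME ℤ ℤ →₀ ℝ) (N : ℕ) : Integrable (GN C N) PU := by
  refine Integrable.of_bound (meas_GN C N).aestronglyMeasurable (2 ^ C.support.card)
    (Filter.Eventually.of_forall fun s => ?_)
  rw [Real.norm_eq_abs]
  exact abs_GN_le _ _ _

theorem int_Gpl (C : ME ℤ ℤ →₀ ℝ) : Integrable (Gpl C) PU := by
  refine Integrable.of_bound (meas_Gpl C).aestronglyMeasurable (2 ^ C.support.card)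
    (Filter.Eventually.of_forall fun s => ?_)
  rw [Real.norm_eq_abs]
  exact abs_Gpl_le _ _

theorem GN_Gpl (C : ME ℤ ℤ →₀ ℝ) (N : ℕ) :
    |∫ s, GN C N s ∂PU - ∫ s, Gpl C s ∂PU| ≤ 2 ^ C.support.card * PU.real {s | ¬ Loc C N s} := by
  rw [← integral_sub (int_GN C N) (int_Gpl C)]
  have hm : MeasurableSet {s | ¬ Loc C N s} := (dep_Loc C N).compl.measurableSet
  have h1 : ∀ s, |GN C N s - Gpl C s| ≤
      ({s | ¬ Loc C N s} : Set (ℤ × ℤ → Bool)).indicator (fun _ => (2 : ℝ) ^ C.support.card) s := by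
    intro s
    by_cases h : Loc C N s
    · rw [Gpl_eq h, sub_self, abs_zero, Set.indicator_of_notMem (by simpa using h)]
    · rw [Set.indicator_of_mem (by simpa using h)]
      have : GN C N s = 0 := by unfold GN; rw [if_neg h]
      rw [this, zero_sub, abs_neg]
      exact abs_Gpl_le _ _
  refine (abs_integral_le_integral_abs).trans ?_
  refine (integral_mono ((int_GN C N).sub (int_Gpl C)).abs
    ((integrable_const _).indicator hm) h1).trans ?_
  rw [integral_indicator_const _ hm, smul_eq_mul, mul_comm]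

section Star

/-- topology of the torus (helper405) -/
def T1 : Prop := ∀ (M L : ℕ) [NeZero M] [NeZero L] [Fact (Even M)] [Fact (Even L)]
  (s : ZMod M × ZMod L → Bool), TT s (CtrM s)

/-- the weight of the torus is locally uniform (helper405) -/
def B3 : Prop := ∀ (n : ℕ) (ε : ℝ), 0 < ε → ∃ L0 : ℕ, ∀ L : ℕ, L0 ≤ L → ∀ M : ℕ, 2 * L ≤ M →
  ∀ [NeZero M] [NeZero (2 * L)] [Fact (Even M)] [Fact (Even (2 * L))],
  ∀ F : (ℤ × ℤ → Bool) → ℝ, (∀ s, |F s| ≤ 1) →
  (∀ s s' : ℤ × ℤ → Bool, (∀ v ∈ Vx n, s v = s' v) → F s = F s') →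
  |(∑ s : ZMod M × ZMod (2 * L) → Bool, F (lift s) * wG s) /
    (∑ s : ZMod M × ZMod (2 * L) → Bool, wG s) - ∫ s, F s ∂PU| ≤ ε

/-- all the strands are finite -/
def FinS : Prop := ∀ᵐ s ∂PU, ∀ e : ME ℤ ℤ, ∃ N : ℕ, ∀ k : ℕ, (nx s)^[k] e ∈ Bx N

/-- all the strands of a configuration are finite -/
theorem exists_Loc {s : ℤ × ℤ → Bool} (h : ∀ e : ME ℤ ℤ, ∃ N : ℕ, ∀ k : ℕ, (nx s)^[k] e ∈ Bx N)
    (C : ME ℤ ℤ →₀ ℝ) : ∃ N, Loc C N s := by
  classical
  choose f hf' using h
  refine ⟨C.support.sup f, fun e he k => Bx_mono (Finset.le_sup he) (hf' e k)⟩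

theorem Loc_small (hF : FinS) (C : ME ℤ ℤ →₀ ℝ) {δ : ℝ} (hδ : 0 < δ) :
    ∃ N, PU.real {s | ¬ Loc C N s} ≤ δ := by
  have h1 : Filter.Tendsto (fun N => PU {s | ¬ Loc C N s}) Filter.atTop
      (nhds (PU (⋂ N, {s | ¬ Loc C N s}))) := by
    refine tendsto_measure_iInter_atTop
      (fun N => ((dep_Loc C N).compl.measurableSet).nullMeasurableSet) ?_ ⟨0, measure_ne_top _ _⟩
    intro N N' h s hs hl
    exact hs (Loc_mono h hl)
  have h2 : PU (⋂ N, {s | ¬ Loc C N s}) = 0 := by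
    have h3 : ∀ᵐ s ∂PU, s ∉ ⋂ N, {s | ¬ Loc C N s} := by
      filter_upwards [hF] with s hs
      obtain ⟨N, hN⟩ := exists_Loc hs C
      rw [Set.mem_iInter]
      push Not
      exact ⟨N, fun h => h hN⟩
    have h4 := ae_iff.1 h3
    simp only [not_not] at h4
    exact h4
  rw [h2] at h1
  have h5 : Filter.Tendsto (fun N => PU.real {s | ¬ Loc C N s}) Filter.atTop (nhds 0) := by
    have := (ENNReal.tendsto_toReal (ENNReal.zero_ne_top)).comp h1
    simpa [measureReal_def, Function.comp_def] using this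
  obtain ⟨N, hN⟩ := (h5.eventually (ge_mem_nhds hδ)).exists
  exact ⟨N, hN⟩

theorem card_pushC {M L : ℕ} [NeZero M] [NeZero L] (C : ME ℤ ℤ →₀ ℝ) :
    (univ.filter fun e : ME (ZMod M) (ZMod L) => pushC M L C e ≠ 0).card ≤ C.support.card := by
  classical
  refine (Finset.card_le_card (t := C.support.image (proj M L)) ?_).trans Finset.card_image_le
  intro e he
  rw [mem_filter] at he
  by_contra h
  refine he.2 (pushC_zero fun e' he' hee => h ?_)
  rw [mem_image]
  exact ⟨e', he', hee⟩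

/-- comparison on one torus -/
theorem latMean_GN (hT : T1) {M L : ℕ} [NeZero M] [NeZero L] [Fact (Even M)] [Fact (Even L)]
    {N : ℕ} (hM : 2 * N < M) (hL : 2 * N < L) (m : ℤ × ℤ →₀ ℝ) :
    |Bs410.latMean M L (Real.sqrt 3) m -
      (∑ s : ZMod M × ZMod L → Bool, GN (chC m) N (lift s) * wG s) /
        (∑ s : ZMod M × ZMod L → Bool, wG s)| ≤
      2 ^ (chC m).support.card * ((∑ s : ZMod M × ZMod L → Bool,
        ({s | ¬ Loc (chC m) N s} : Set (ℤ × ℤ → Bool)).indicator (fun _ => (1 : ℝ)) (lift s) *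
          wG s) / (∑ s : ZMod M × ZMod L → Bool, wG s)) := by
  classical
  set C := chC m
  have hZ : 0 < ∑ s : ZMod M × ZMod L → Bool, wG s :=
    Finset.sum_pos (fun s _ => lt_of_lt_of_le one_pos (one_le_wG (hT M L s))) ⟨_, mem_univ fun _ => false⟩
  rw [latMean_eq, ← sub_div, abs_div, abs_of_pos hZ, ← mul_div_assoc]
  refine div_le_div_of_nonneg_right ?_ hZ.le
  rw [← Finset.sum_sub_distrib, Finset.mul_sum]
  refine (Finset.abs_sum_le_sum_abs _ _).trans (Finset.sum_le_sum fun s _ => ?_)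
  by_cases h : Loc C N (lift s)
  · rw [Gw_eq_GN hM hL (hT M L s) h, sub_self, abs_zero]
    have : (0 : ℝ) ≤ wG s := zero_le_one.trans (one_le_wG (hT M L s))
    refine mul_nonneg (by positivity) (mul_nonneg ?_ this)
    exact Set.indicator_nonneg (fun _ _ => zero_le_one) _
  · have h1 : GN C N (lift s) = 0 := by unfold GN; rw [if_neg h]
    rw [h1, zero_mul, sub_zero, Set.indicator_of_mem (by simpa using h), one_mul]
    refine (abs_Gw_le (hT M L s) _).trans ?_
    refine mul_le_mul_of_nonneg_right ?_ (zero_le_one.trans (one_le_wG (hT M L s)))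
    exact pow_le_pow_right₀ (by norm_num) (card_pushC C)

/-- **the lattice identity** -/
theorem starE (hT : T1) (hB : B3) (hF : FinS) : Bs410.StarE Pi6 := by
  classical
  intro m _ ε hε
  set C := chC m with hC
  set W : ℝ := 2 ^ C.support.card with hW
  have hWpos : 0 < W := by positivity
  have hδ : 0 < ε / (4 * W) := by positivity
  set δ := ε / (4 * W) with hδdef
  obtain ⟨N, hN⟩ := Loc_small hF C hδ
  obtain ⟨L0, hL0⟩ := hB (N + 1) δ hδ
  refine ⟨max L0 (N + 1), fun L hL M hM hMe => ?_⟩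
  have hLa : L0 ≤ L := (le_max_left _ _).trans hL
  have hLb : N + 1 ≤ L := (le_max_right _ _).trans hL
  have : NeZero M := ⟨by omega⟩
  have : NeZero (2 * L) := ⟨by omega⟩
  have : Fact (Even M) := ⟨hMe⟩
  have : Fact (Even (2 * L)) := ⟨even_two_mul L⟩
  have h1 := latMean_GN hT (M := M) (L := 2 * L) (N := N) (by omega) (by omega) m
  have h2 := hL0 L hLa M hM (fun s => GN C N s / W)
    (fun s => by
      rw [abs_div, abs_of_pos hWpos, div_le_one hWpos]
      exact abs_GN_le _ _ _)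
    (fun s s' h => by rw [GN_congr h])
  have h3 := hL0 L hLa M hM
    (({s | ¬ Loc C N s} : Set (ℤ × ℤ → Bool)).indicator (fun _ => (1 : ℝ)))
    (fun s => by
      by_cases h : s ∈ {s | ¬ Loc C N s}
      · rw [Set.indicator_of_mem h, abs_one]
      · rw [Set.indicator_of_notMem h, abs_zero]; exact zero_le_one)
    (fun s s' h => by
      have h4 := Loc_congr (C := C) h
      by_cases h5 : s ∈ {s | ¬ Loc C N s}
      · have h6 : s' ∈ {s | ¬ Loc C N s} := fun h7 => h5 (h4.2 h7)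
        rw [Set.indicator_of_mem h5, Set.indicator_of_mem h6]
      · have h6 : s' ∉ {s | ¬ Loc C N s} := fun h7 => h5 fun h8 => h7 (h4.1 h8)
        rw [Set.indicator_of_notMem h5, Set.indicator_of_notMem h6])
  have hm : MeasurableSet {s | ¬ Loc C N s} := (dep_Loc C N).compl.measurableSet
  rw [integral_indicator_const _ hm, smul_eq_mul, mul_one] at h3
  have h4 := GN_Gpl C N
  have h5 : (∑ s : ZMod M × ZMod (2 * L) → Bool, GN C N (lift s) / W * wG s) /
      (∑ s : ZMod M × ZMod (2 * L) → Bool, wG s) =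
      ((∑ s : ZMod M × ZMod (2 * L) → Bool, GN C N (lift s) * wG s) /
      (∑ s : ZMod M × ZMod (2 * L) → Bool, wG s)) / W := by
    rw [div_right_comm]
    congr 1
    rw [Finset.sum_div]
    refine Finset.sum_congr rfl fun s _ => ?_
    ring
  rw [h5, integral_div, ← sub_div, abs_div, abs_of_pos hWpos, div_le_iff₀ hWpos] at h2
  set X := (∑ s : ZMod M × ZMod (2 * L) → Bool, GN C N (lift s) * wG s) /
      (∑ s : ZMod M × ZMod (2 * L) → Bool, wG s)
  set Y := (∑ s : ZMod M × ZMod (2 * L) → Bool,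
        ({s | ¬ Loc C N s} : Set (ℤ × ℤ → Bool)).indicator (fun _ => (1 : ℝ)) (lift s) *
          wG s) / (∑ s : ZMod M × ZMod (2 * L) → Bool, wG s)
  have h6 : Y ≤ 2 * δ := by
    have := (abs_le.1 h3).2
    linarith
  have h7 : W * Y ≤ W * (2 * δ) := mul_le_mul_of_nonneg_left h6 hWpos.le
  have h8 : W * PU.real {s | ¬ Loc C N s} ≤ W * δ := mul_le_mul_of_nonneg_left hN hWpos.le
  have h9 : W * δ = ε / 4 := by rw [hδdef]; field_simp
  have h10 : Pi6 m = ∫ s, Gpl C s ∂PU := rfl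
  rw [h10]
  have e1 := abs_le.1 (h1.trans h7)
  have e2 := abs_le.1 h2
  have e3 := abs_le.1 (h4.trans h8)
  rw [abs_le]
  constructor <;> nlinarith [e1.1, e1.2, e2.1, e2.2, e3.1, e3.2]

end Star

end Crest.Agent.R158.Bk430
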