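import Crest.Agent.R158.Ts6_405
import Crest.Agent.R158.Bk0_430

/-!
# R158, T1 part 7: turning numbers of the strands of `Bk0_430` over `ℤ × ℤ`
-/

set_option autoImplicit false

namespace Crest.Agent.R158.Ts405

open Crest.Agent.R158.Bk430 (ME HasPar par vp ori hd tl kap turn)

/-- brickwork coordinates of a canonically oriented edge -/
def Phi (e : ME ℤ ℤ) : AD :=
  (if e.2 then e.1.1 - e.1.2 else e.1.1 - e.1.2 + 1, e.1.1 + e.1.2, ori e)

/-- the splitting in brickwork coordinates -/
def sbr (s : ℤ × ℤ → Bool) (q n : ℤ) : Bool := s ((q + n) / 2, (n - q) / 2)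

theorem sbr_at (s : ℤ × ℤ → Bool) {q n i j : ℤ} (h1 : q = i - j) (h2 : n = i + j) :
    sbr s q n = s (i, j) := by
  unfold sbr
  have e1 : (q + n) / 2 = i := by omega
  have e2 : (n - q) / 2 = j := by omega
  rw [e1, e2]

theorem vp_int (i j : ℤ) : vp ((i, j) : ℤ × ℤ) = decide ((i + j) % 2 = 1) := by
  unfold vp
  simp only [HasPar.par]
  by_cases h1 : i % 2 = 1 <;> by_cases h2 : j % 2 = 1
  · have : ¬ (i + j) % 2 = 1 := by omega
    simp [h1, h2, this]
  · have : (i + j) % 2 = 1 := by omega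
    simp [h1, h2, this]
  · have : (i + j) % 2 = 1 := by omega
    simp [h1, h2, this]
  · have : ¬ (i + j) % 2 = 1 := by omega
    simp [h1, h2, this]

/-- type of an edge -/
def ty (e : ME ℤ ℤ) : ℤ := if e.2 then 1 else 0

theorem step_main (s : ℤ × ℤ → Bool) (e : ME ℤ ℤ) :
    nb (sbr s) (Phi e) = Phi (Bk430.nx s e) ∧
      turn s e = 2 * rb (sbr s) (Phi e) + (ty (Bk430.nx s e) - ty e) := by
  obtain ⟨⟨i, j⟩, c⟩ := e
  by_cases hp : (i + j) % 2 = 1
  · have hv : vp ((i, j) : ℤ × ℤ) = true := by rw [vp_int]; simp [hp]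
    have hv1 : vp ((i + 1, j) : ℤ × ℤ) = false := by rw [vp_int]; simp; omega
    have hv2 : vp ((i, j - 1) : ℤ × ℤ) = false := by rw [vp_int]; simp; omega
    have hv3 : vp ((i - 1, j) : ℤ × ℤ) = false := by rw [vp_int]; simp; omega
    have hv4 : vp ((i + 1, j - 1) : ℤ × ℤ) = true := by rw [vp_int]; simp; omega
    cases c
    · -- H(v), v odd, directed right
      have hhd : hd (((i, j), false) : ME ℤ ℤ) = (i + 1, j) := by simp [hd, hv]
      have hphi : Phi ((i, j), false) = (i - j + 1, i + j, true) := by simp [Phi, ori, hv]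
      have hvq : vq (i - j + 1) (i + j + 1) = i - j + 1 := vq_unique (by omega) (Or.inl rfl)
      have hsb : sbr s (i - j + 1) (i + j + 1) = s (i + 1, j) := sbr_at s (by ring) (by ring)
      rcases hs : s (i + 1, j) with _ | _
      · have hnx : Bk430.nx s ((i, j), false) = ((i + 1, j), true) := by
          simp [Bk430.nx, hhd, hv, hs]
        rw [hs] at hsb
        rw [hnx, hphi]
        refine ⟨?_, ?_⟩
        · simp [nb, hvq, hsb, Phi, ori, hv1]
          constructor <;> ring
        · simp [turn, kap, hhd, hv1, hs, rb, hvq, hsb, ty]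
      · have hnx : Bk430.nx s ((i, j), false) = ((i + 1, j - 1), true) := by
          simp [Bk430.nx, hhd, hv, hs]
        rw [hs] at hsb
        rw [hnx, hphi]
        refine ⟨?_, ?_⟩
        · simp [nb, hvq, hsb, Phi, ori, hv4]
          ring
        · simp [turn, kap, hhd, hv1, hs, rb, hvq, hsb, ty]
    · -- V(v), v odd, directed down
      have hhd : hd (((i, j), true) : ME ℤ ℤ) = (i, j) := by simp [hd, hv]
      have hphi : Phi ((i, j), true) = (i - j, i + j, false) := by simp [Phi, ori, hv]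
      have hvq : vq (i - j) (i + j) = i - j := vq_unique (by omega) (Or.inl rfl)
      have hsb : sbr s (i - j) (i + j) = s (i, j) := sbr_at s (by ring) (by ring)
      rcases hs : s (i, j) with _ | _
      · have hnx : Bk430.nx s ((i, j), true) = ((i - 1, j), false) := by
          simp [Bk430.nx, hhd, hv, hs]
        rw [hs] at hsb
        rw [hnx, hphi]
        refine ⟨?_, ?_⟩
        · simp [nb, hvq, hsb, Phi, ori, hv3]
          constructor <;> ring
        · simp [turn, kap, hhd, hv, hs, rb, hvq, hsb, ty]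
      · have hnx : Bk430.nx s ((i, j), true) = ((i, j), false) := by
          simp [Bk430.nx, hhd, hv, hs]
        rw [hs] at hsb
        rw [hnx, hphi]
        refine ⟨?_, ?_⟩
        · simp [nb, hvq, hsb, Phi, ori, hv]
          ring
        · simp [turn, kap, hhd, hv, hs, rb, hvq, hsb, ty]
  · have hv : vp ((i, j) : ℤ × ℤ) = false := by rw [vp_int]; simp; omega
    have hv1 : vp ((i - 1, j) : ℤ × ℤ) = true := by rw [vp_int]; simp; omega
    have hv2 : vp ((i, j - 1) : ℤ × ℤ) = true := by rw [vp_int]; simp; omega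
    have hv3 : vp ((i, j + 1) : ℤ × ℤ) = true := by rw [vp_int]; simp; omega
    have hv4 : vp ((i - 1, j + 1) : ℤ × ℤ) = false := by rw [vp_int]; simp; omega
    cases c
    · -- H(v), v even, directed left
      have hhd : hd (((i, j), false) : ME ℤ ℤ) = (i, j) := by simp [hd, hv]
      have hphi : Phi ((i, j), false) = (i - j + 1, i + j, false) := by simp [Phi, ori, hv]
      have hvq : vq (i - j + 1) (i + j) = i - j := vq_unique (by omega) (Or.inr rfl)
      have hsb : sbr s (i - j) (i + j) = s (i, j) := sbr_at s (by ring) (by ring)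
      rcases hs : s (i, j) with _ | _
      · have hnx : Bk430.nx s ((i, j), false) = ((i, j - 1), true) := by
          simp [Bk430.nx, hhd, hv, hs]
        rw [hs] at hsb
        rw [hnx, hphi]
        refine ⟨?_, ?_⟩
        · simp [nb, hvq, hsb, Phi, ori, hv2]
          constructor <;> ring
        · simp [turn, kap, hhd, hv, hs, rb, hvq, hsb, ty]
      · have hnx : Bk430.nx s ((i, j), false) = ((i, j), true) := by
          simp [Bk430.nx, hhd, hv, hs]
        rw [hs] at hsb
        rw [hnx, hphi]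
        refine ⟨?_, ?_⟩
        · simp [nb, hvq, hsb, Phi, ori, hv]
          ring
        · simp [turn, kap, hhd, hv, hs, rb, hvq, hsb, ty]
    · -- V(v), v even, directed up
      have hhd : hd (((i, j), true) : ME ℤ ℤ) = (i, j + 1) := by simp [hd, hv]
      have hphi : Phi ((i, j), true) = (i - j, i + j, true) := by simp [Phi, ori, hv]
      have hvq : vq (i - j) (i + j + 1) = i - j - 1 := vq_unique (by omega) (Or.inr (by ring))
      have hsb : sbr s (i - j - 1) (i + j + 1) = s (i, j + 1) := sbr_at s (by ring) (by ring)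
      rcases hs : s (i, j + 1) with _ | _
      · have hnx : Bk430.nx s ((i, j), true) = ((i, j + 1), false) := by
          simp [Bk430.nx, hhd, hv, hs]
        rw [hs] at hsb
        rw [hnx, hphi]
        refine ⟨?_, ?_⟩
        · simp [nb, hvq, hsb, Phi, ori, hv3]
          constructor <;> ring
        · simp [turn, kap, hhd, hv3, hs, rb, hvq, hsb, ty]
      · have hnx : Bk430.nx s ((i, j), true) = ((i - 1, j + 1), false) := by
          simp [Bk430.nx, hhd, hv, hs]
        rw [hs] at hsb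
        rw [hnx, hphi]
        refine ⟨?_, ?_⟩
        · simp [nb, hvq, hsb, Phi, ori, hv4]
          ring
        · have hne : i - j ≠ i - j - 1 := by omega
          simp [turn, kap, hhd, hv3, hs, rb, hvq, hsb, ty, hne]


theorem iter_main (s : ℤ × ℤ → Bool) (e : ME ℤ ℤ) (k : ℕ) :
    (nb (sbr s))^[k] (Phi e) = Phi ((Bk430.nx s)^[k] e) := by
  induction k with
  | zero => rfl
  | succ k ih =>
    rw [Function.iterate_succ_apply', ih, (step_main s _).1, Function.iterate_succ_apply']

/-- sum of the turns along a strand -/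
theorem turn_sum (s : ℤ × ℤ → Bool) (e : ME ℤ ℤ) (k : ℕ) :
    ∑ i ∈ Finset.range k, turn s ((Bk430.nx s)^[i] e)
      = 2 * rotb (sbr s) k (Phi e) + (ty ((Bk430.nx s)^[k] e) - ty e) := by
  induction k with
  | zero => simp [rotb]
  | succ k ih =>
    rw [Finset.sum_range_succ, ih, rotb_add, rotb_one, iter_main, (step_main s _).2,
      Function.iterate_succ_apply']
    ring

theorem Phi_inj : Function.Injective Phi := by
  rintro ⟨⟨i, j⟩, c⟩ ⟨⟨i', j'⟩, c'⟩ h
  have h1 : (if c then i - j else i - j + 1) = (if c' then i' - j' else i' - j' + 1) :=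
    congrArg (fun x : AD => x.1) h
  have h2 : i + j = i' + j' := congrArg (fun x : AD => x.2.1) h
  cases c <;> cases c' <;> simp at h1
  · have e1 : i = i' := by omega
    have e2 : j = j' := by omega
    rw [e1, e2]
  · omega
  · omega
  · have e1 : i = i' := by omega
    have e2 : j = j' := by omega
    rw [e1, e2]

/-- **T1 (a): turning number of a closed strand, with its top vertex `u`.**  All edges of the
strand are below the antidiagonal through `u`; the strand passes the cap at `u` (`s u = true`);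
the turning number is `+4` iff it goes from S to W there (`+4`: the inside is on the left). -/
theorem T1_closed (s : ℤ × ℤ → Bool) (e : ME ℤ ℤ) (k : ℕ) (hk : 0 < k)
    (hper : (Bk430.nx s)^[k] e = e) (hmin : ∀ i, 0 < i → i < k → (Bk430.nx s)^[i] e ≠ e) :
    ∃ (i : ℕ) (u : ℤ × ℤ), i < k ∧ s u = true ∧
      (∀ l, ((Bk430.nx s)^[l] e).1.1 + ((Bk430.nx s)^[l] e).1.2 ≤ u.1 + u.2 - 1) ∧
      (((Bk430.nx s)^[i] e = ((u.1, u.2 - 1), true) ∧ ori ((Bk430.nx s)^[i] e) = true ∧
          ∑ l ∈ Finset.range k, turn s ((Bk430.nx s)^[l] e) = 4) ∨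
        ((Bk430.nx s)^[i] e = ((u.1 - 1, u.2), false) ∧ ori ((Bk430.nx s)^[i] e) = true ∧
          ∑ l ∈ Finset.range k, turn s ((Bk430.nx s)^[l] e) = -4)) := by
  have h1 : (nb (sbr s))^[k] (Phi e) = Phi e := by rw [iter_main, hper]
  have h2 : ∀ i, 0 < i → i < k → (nb (sbr s))^[i] (Phi e) ≠ Phi e := by
    intro i hi1 hi2 h
    rw [iter_main] at h
    exact hmin i hi1 hi2 (Phi_inj h)
  obtain ⟨i, q, n, hi, hpar, hs, hlev, hcase⟩ := brick_closed (sbr s) k hk (Phi e) h1 h2
  have hsum := turn_sum s e k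
  rw [hper, sub_self, add_zero] at hsum
  have e1 : (n + q) / 2 + (n - q) / 2 = n := by omega
  have e2 : (n + q) / 2 - (n - q) / 2 = q := by omega
  refine ⟨i, ((q + n) / 2, (n - q) / 2), hi, hs, ?_, ?_⟩
  · intro l
    have h3 := hlev l
    rw [iter_main] at h3
    have h4 : (Phi ((Bk430.nx s)^[l] e)).2.1
      = ((Bk430.nx s)^[l] e).1.1 + ((Bk430.nx s)^[l] e).1.2 := rfl
    rw [h4] at h3
    simp only
    omega
  · rcases hcase with ⟨h3, h4⟩ | ⟨h3, h4⟩
    · left
      rw [iter_main] at h3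
      rcases he : (Bk430.nx s)^[i] e with ⟨⟨a, b⟩, c⟩
      rw [he] at h3
      have h5 : (if c then a - b else a - b + 1) = q + 1 := congrArg (fun x : AD => x.1) h3
      have h6 : a + b = n - 1 := congrArg (fun x : AD => x.2.1) h3
      have h7 : ori (((a, b), c) : ME ℤ ℤ) = true := congrArg (fun x : AD => x.2.2) h3
      refine ⟨?_, h7, by rw [hsum, h4]; norm_num⟩
      cases c
      · simp at h5; omega
      · simp at h5
        simp only [Prod.mk.injEq, and_true]
        constructor <;> omega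
    · right
      rw [iter_main] at h3
      rcases he : (Bk430.nx s)^[i] e with ⟨⟨a, b⟩, c⟩
      rw [he] at h3
      have h5 : (if c then a - b else a - b + 1) = q := congrArg (fun x : AD => x.1) h3
      have h6 : a + b = n - 1 := congrArg (fun x : AD => x.2.1) h3
      have h7 : ori (((a, b), c) : ME ℤ ℤ) = true := congrArg (fun x : AD => x.2.2) h3
      refine ⟨?_, h7, by rw [hsum, h4]; norm_num⟩
      cases c
      · simp at h5
        simp only [Prod.mk.injEq, and_true]
        constructor <;> omega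
      · simp at h5; omega

/-- translation of an edge -/
def shE (P : ℤ × ℤ) (e : ME ℤ ℤ) : ME ℤ ℤ := ((e.1.1 + P.1, e.1.2 + P.2), e.2)

theorem Phi_shE {P : ℤ × ℤ} (hP : (P.1 + P.2) % 2 = 0) (e : ME ℤ ℤ) :
    Phi (shE P e) = sh (P.1 - P.2) (P.1 + P.2) (Phi e) := by
  obtain ⟨⟨i, j⟩, c⟩ := e
  have h1 : vp ((i + P.1, j + P.2) : ℤ × ℤ) = vp ((i, j) : ℤ × ℤ) := by
    rw [vp_int, vp_int]
    congr 1
    apply propext
    omega
  have h2 : ori (((i + P.1, j + P.2), c) : ME ℤ ℤ) = ori (((i, j), c) : ME ℤ ℤ) := by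
    unfold ori; rw [h1]
  unfold Phi shE sh
  simp only [Prod.mk.injEq]
  refine ⟨?_, by ring, h2⟩
  split_ifs <;> ring

/-- **T1 (b), first case: drift not antidiagonal** -/
theorem T1_periodic_diag (s : ℤ × ℤ → Bool) (P : ℤ × ℤ) (hP : (P.1 + P.2) % 2 = 0)
    (hs : ∀ u : ℤ × ℤ, s (u.1 + P.1, u.2 + P.2) = s u) (hne : P.1 + P.2 ≠ 0)
    (e : ME ℤ ℤ) (k : ℕ) (hk : 0 < k) (hper : (Bk430.nx s)^[k] e = shE P e) :
    ∑ l ∈ Finset.range k, turn s ((Bk430.nx s)^[l] e) = 0 := by
  rw [turn_sum, hper]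
  have h1 : ty (shE P e) = ty e := rfl
  rw [h1, sub_self, add_zero]
  have h2 : rotb (sbr s) k (Phi e) = 0 := by
    refine brick_periodic (P := P.1 - P.2) (D := P.1 + P.2) (by omega) ?_ hne hk ?_
    · intro q n
      unfold sbr
      have := hs ((q + n) / 2, (n - q) / 2)
      simp only at this
      rw [← this]
      congr 2
      · omega
      · omega
    · rw [iter_main, hper, Phi_shE hP]
  rw [h2]; norm_num

/-! ### reflection `i ↦ -i` -/

def rfE (e : ME ℤ ℤ) : ME ℤ ℤ := if e.2 then ((-e.1.1, e.1.2), true) else ((-e.1.1 - 1, e.1.2), false)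

def rfS (s : ℤ × ℤ → Bool) (u : ℤ × ℤ) : Bool := !s (-u.1, u.2)

theorem vp_rf (i j : ℤ) : vp ((-i, j) : ℤ × ℤ) = vp ((i, j) : ℤ × ℤ) := by
  rw [vp_int, vp_int]; congr 1; apply propext; omega

theorem vp_rf' (i j : ℤ) : vp ((-i - 1, j) : ℤ × ℤ) = !vp ((i, j) : ℤ × ℤ) := by
  rw [vp_int, vp_int]
  by_cases h : (i + j) % 2 = 1
  · have : ¬ (-i - 1 + j) % 2 = 1 := by omega
    simp [h, this]
  · have : (-i - 1 + j) % 2 = 1 := by omega
    simp [h, this]

theorem nx_rf (s : ℤ × ℤ → Bool) (e : ME ℤ ℤ) :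
    Bk430.nx (rfS s) (rfE e) = rfE (Bk430.nx s e) ∧ turn (rfS s) (rfE e) = - turn s e := by
  obtain ⟨⟨i, j⟩, c⟩ := e
  have g1 := vp_rf i j
  have g2 := vp_rf' i j
  have g3 := vp_rf i (j + 1)
  have g4 := vp_rf (i + 1) j
  cases c <;> cases hv : vp ((i, j) : ℤ × ℤ)
  · -- H, even: directed left, head (i,j)
    have hhd : hd (((i, j), false) : ME ℤ ℤ) = (i, j) := by simp [hd, hv]
    have hhd' : hd (((-i - 1, j), false) : ME ℤ ℤ) = (-i, j) := by simp [hd, g2, hv]
    refine ⟨?_, ?_⟩
    · cases hs : s (i, j) <;> simp [Bk430.nx, rfE, rfS, hhd, hhd', g2, hv, hs]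
    · cases hs : s (i, j) <;> simp [turn, kap, rfE, rfS, hhd, hhd', g1, hv, hs]
  · have hhd : hd (((i, j), false) : ME ℤ ℤ) = (i + 1, j) := by simp [hd, hv]
    have hhd' : hd (((-i - 1, j), false) : ME ℤ ℤ) = (-i - 1, j) := by simp [hd, g2, hv]
    have e1 : -(-i - 1) = i + 1 := by ring
    have e2 : -(i + 1) = -i - 1 := by ring
    have hv1 : vp ((i + 1, j) : ℤ × ℤ) = false := by simp [hv]
    rw [hv1, e2] at g4
    refine ⟨?_, ?_⟩
    · cases hs : s (i + 1, j) <;> simp [Bk430.nx, rfE, rfS, hhd, hhd', g2, hv, hs, e1, e2]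
    · cases hs : s (i + 1, j) <;> simp [turn, kap, rfE, rfS, hhd, hhd', g4, hv, hs, e1]
  · have hhd : hd (((i, j), true) : ME ℤ ℤ) = (i, j + 1) := by simp [hd, hv]
    have hhd' : hd (((-i, j), true) : ME ℤ ℤ) = (-i, j + 1) := by simp [hd, g1, hv]
    have hv1 : vp ((i, j + 1) : ℤ × ℤ) = true := by simp [hv]
    rw [hv1] at g3
    refine ⟨?_, ?_⟩
    · cases hs : s (i, j + 1) <;> simp [Bk430.nx, rfE, rfS, hhd, hhd', g1, hv, hs]
    · cases hs : s (i, j + 1) <;> simp [turn, kap, rfE, rfS, hhd, hhd', g3, hv, hs]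
  · have hhd : hd (((i, j), true) : ME ℤ ℤ) = (i, j) := by simp [hd, hv]
    have hhd' : hd (((-i, j), true) : ME ℤ ℤ) = (-i, j) := by simp [hd, g1, hv]
    refine ⟨?_, ?_⟩
    · cases hs : s (i, j) <;> simp [Bk430.nx, rfE, rfS, hhd, hhd', g1, hv, hs]
    · cases hs : s (i, j) <;> simp [turn, kap, rfE, rfS, hhd, hhd', g1, hv, hs]

end Crest.Agent.R158.Ts405
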