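import Mathlib
import Crest.Agent.R158.Bk5_430
import Crest.Agent.R158.Ts7_405

/-!
# R158, Block B (helper430), file 6: the weight of a closed strand

`wst_closed` : a closed strand with height function `H` (values `0` outside) has weight
`2 cos (π/3 + ε * ∑ m H)`, `ε = ±1` a value of `H`.
-/

set_option autoImplicit false

namespace Crest.Agent.R158.Bk430

open Finset

section Closed

variable {N : ℕ} {s : ℤ × ℤ → Bool} {e : ME ℤ ℤ}

theorem period_pos (he : ∀ k : ℕ, (nx s)^[k] e ∈ Bx N) :
    0 < Function.minimalPeriod (nx s) e := by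
  obtain ⟨k, hk, h⟩ := closes he
  exact Function.IsPeriodicPt.minimalPeriod_pos hk h

theorem stF_eq (he : ∀ k : ℕ, (nx s)^[k] e ∈ Bx N) :
    stF N s e = (range (Function.minimalPeriod (nx s) e)).image fun j => (nx s)^[j] e := by
  classical
  unfold stF
  ext e'
  simp only [mem_filter, mem_image, mem_range]
  constructor
  · rintro ⟨_, k, rfl⟩
    exact ⟨k % Function.minimalPeriod (nx s) e, Nat.mod_lt _ (period_pos he),
      Function.iterate_mod_minimalPeriod_eq⟩
  · rintro ⟨k, _, rfl⟩
    exact ⟨he k, k, rfl⟩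

theorem sum_stF (he : ∀ k : ℕ, (nx s)^[k] e ∈ Bx N) {R : Type*} [AddCommMonoid R]
    (f : ME ℤ ℤ → R) : ∑ e' ∈ stF N s e, f e' =
      ∑ j ∈ range (Function.minimalPeriod (nx s) e), f ((nx s)^[j] e) := by
  classical
  rw [stF_eq he, Finset.sum_image]
  intro a ha b hb h
  rw [mem_coe, mem_range] at ha hb
  exact Function.iterate_injOn_Iio_minimalPeriod ha hb h

theorem mem_stF (he : ∀ k : ℕ, (nx s)^[k] e ∈ Bx N) {e' : ME ℤ ℤ} :
    e' ∈ stF N s e ↔ ∃ k : ℕ, (nx s)^[k] e = e' := by
  classical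
  unfold stF
  rw [mem_filter]
  constructor
  · exact fun h => h.2
  · rintro ⟨k, rfl⟩
    exact ⟨he k, k, rfl⟩

/-- canonical gradient of a strand -/
noncomputable def grd (l : Finset (ME ℤ ℤ)) (e : ME ℤ ℤ) : ℝ := by
  classical exact if e ∈ l then (so e : ℝ) else 0

theorem sum_grd (C : ME ℤ ℤ →₀ ℝ) (l : Finset (ME ℤ ℤ)) :
    ∑ e ∈ l, C e * so e = Finsupp.linearCombination ℝ (grd l) C := by
  classical
  rw [Finsupp.linearCombination_apply, Finsupp.sum]
  have h1 : ∑ e ∈ l, C e * so e = ∑ e ∈ l ∩ C.support, C e * so e := by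
    symm
    refine Finset.sum_subset Finset.inter_subset_left fun e he1 he2 => ?_
    have : C e = 0 := by
      by_contra h
      exact he2 (mem_inter.2 ⟨he1, Finsupp.mem_support_iff.2 h⟩)
    rw [this, zero_mul]
  have h2 : ∑ e ∈ C.support, C e • grd l e = ∑ e ∈ l ∩ C.support, C e • grd l e := by
    symm
    refine Finset.sum_subset Finset.inter_subset_right fun e he1 he2 => ?_
    have : e ∉ l := fun h => he2 (mem_inter.2 ⟨h, he1⟩)
    unfold grd
    rw [if_neg this, smul_zero]
  rw [h1, h2]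
  refine Finset.sum_congr rfl fun e he => ?_
  unfold grd
  rw [if_pos (mem_inter.1 he).1, smul_eq_mul]

/-- **weight of a closed strand** -/
theorem wst_closed (he : ∀ k : ℕ, (nx s)^[k] e ∈ Bx N) (H : ℤ × ℤ → ℝ)
    (hfin : (Function.support H).Finite)
    (h1 : ∀ i j, H (i, j) - H (i - 1, j) = - grd (stF N s e) ((i, j), true))
    (h2 : ∀ i j, H (i, j) - H (i, j - 1) = grd (stF N s e) ((i, j), false))
    (m : ℤ × ℤ →₀ ℝ) (hm : m.sum (fun _ a => a) = 0) :
    ∃ (ε : ℝ) (u : ℤ × ℤ), (ε = 1 ∨ ε = -1) ∧ H u = ε ∧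
      wst (chC m) s (stF N s e) =
        2 * Real.cos (Real.pi / 3 + ε * m.sum fun pq a => a * H pq) := by
  have hp := period_pos he
  obtain ⟨i, u, _, _, hle, hcase⟩ := Ts405.T1_closed s e (Function.minimalPeriod (nx s) e) hp
    (Function.iterate_minimalPeriod) (fun i hi1 hi2 h =>
      absurd (Function.IsPeriodicPt.minimalPeriod_le hi1 h) (by omega))
  have hout : ∀ a b : ℤ, u.1 + u.2 - 1 ≤ a + b → H (a, b) = 0 := by
    intro a b hab
    by_contra hne
    have h3 : ∀ n : ℕ, H (a + n, b) = H (a, b) := by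
      intro n
      induction n with
      | zero => simp
      | succ n ih =>
        have h4 := h1 (a + (n + 1 : ℕ)) b
        have h5 : ((((a + (n + 1 : ℕ) : ℤ), b), true) : ME ℤ ℤ) ∉ stF N s e := by
          rw [mem_stF he]
          rintro ⟨k, hk⟩
          have := hle k
          rw [hk] at this
          simp only at this
          push_cast at this
          omega
        unfold grd at h4
        rw [if_neg h5] at h4
        have h6 : (a + (n + 1 : ℕ) : ℤ) - 1 = a + n := by push_cast; ring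
        rw [h6, ih] at h4
        linarith
    refine (Set.infinite_of_injective_forall_mem (f := fun n : ℕ => ((a + n, b) : ℤ × ℤ)) ?_ ?_) hfin
    · intro n n' h
      simp only [Prod.mk.injEq, and_true] at h
      omega
    · intro n
      rw [Function.mem_support, h3]
      exact hne
  have hw : wst (chC m) s (stF N s e) =
      2 * Real.cos (Real.pi / 12 * (∑ l ∈ range (Function.minimalPeriod (nx s) e),
        turn s ((nx s)^[l] e) : ℤ) + m.sum fun pq a => a * H pq) := by
    unfold wst
    rw [Finset.sum_add_distrib, sum_grd, lc_chC_grad H (grd (stF N s e)) h1 h2 m hm,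
      ← Finset.mul_sum]
    congr 4
    rw [sum_stF he (fun e' => ((turn s e' : ℤ) : ℝ))]
    push_cast
    rfl
  rcases hcase with ⟨hi, ho, hsum⟩ | ⟨hi, ho, hsum⟩
  · refine ⟨1, (u.1 - 1, u.2 - 1), Or.inl rfl, ?_, ?_⟩
    · have h3 := h1 u.1 (u.2 - 1)
      have h4 : (((u.1, u.2 - 1), true) : ME ℤ ℤ) ∈ stF N s e := (mem_stF he).2 ⟨i, hi⟩
      unfold grd at h3
      rw [if_pos h4, hout u.1 (u.2 - 1) (by omega)] at h3
      have h5 : so (((u.1, u.2 - 1), true) : ME ℤ ℤ) = 1 := by
        rw [hi] at ho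
        unfold so
        rw [if_pos ho]
      rw [h5] at h3
      push_cast at h3
      linarith
    · rw [hw, hsum, one_mul]
      congr 3
      push_cast
      ring
  · refine ⟨-1, (u.1 - 1, u.2 - 1), Or.inr rfl, ?_, ?_⟩
    · have h3 := h2 (u.1 - 1) u.2
      have h4 : (((u.1 - 1, u.2), false) : ME ℤ ℤ) ∈ stF N s e := (mem_stF he).2 ⟨i, hi⟩
      unfold grd at h3
      rw [if_pos h4, hout (u.1 - 1) u.2 (by omega)] at h3
      have h5 : so (((u.1 - 1, u.2), false) : ME ℤ ℤ) = 1 := by
        rw [hi] at ho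
        unfold so
        rw [if_pos ho]
      rw [h5] at h3
      push_cast at h3
      linarith
    · rw [hw, hsum, ← Real.cos_neg]
      congr 2
      push_cast
      ring

/-- a strand that does not meet the support has trivial weight only through its turn; a strand
with `∑ m H = 0` has weight `1` -/
theorem cos_third : 2 * Real.cos (Real.pi / 3) = 1 := by
  rw [Real.cos_pi_div_three]; norm_num

end Closed

/-! ### evenness -/

theorem latMean_neg (M L : ℕ) (c : ℝ) (m : ℤ × ℤ →₀ ℝ) :
    Bs410.latMean M L c (-m) = Bs410.latMean M L c m := by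
  unfold Bs410.latMean
  split_ifs with h
  · congr 1
    funext σ
    have : Bs410.hq σ (-m) = - Bs410.hq σ m := by
      unfold Bs410.hq
      rw [Finsupp.sum_neg_index (by simp), Finsupp.sum, Finsupp.sum, ← Finset.sum_neg_distrib]
      refine Finset.sum_congr rfl fun p _ => ?_
      ring
    rw [this, Real.cos_neg]
  · rfl

/-- **evenness of the plane functional** -/
theorem even_of_starE {Pi : (ℤ × ℤ →₀ ℝ) → ℝ} (h : Bs410.StarE Pi) {m : ℤ × ℤ →₀ ℝ}
    (hm : m.sum (fun _ a => a) = 0) : Pi (-m) = Pi m := by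
  have hm' : (-m).sum (fun _ a => a) = 0 := by
    rw [Finsupp.sum_neg_index (by simp), Finsupp.sum, Finset.sum_neg_distrib]
    rw [Finsupp.sum] at hm
    rw [hm, neg_zero]
  refine eq_of_forall_dist_le fun ε hε => ?_
  rw [Real.dist_eq]
  obtain ⟨L1, h1⟩ := h m hm (ε / 2) (by positivity)
  obtain ⟨L2, h2⟩ := h (-m) hm' (ε / 2) (by positivity)
  have e1 := h1 (max L1 L2) (le_max_left _ _) (2 * max L1 L2) le_rfl (even_two_mul _)
  have e2 := h2 (max L1 L2) (le_max_right _ _) (2 * max L1 L2) le_rfl (even_two_mul _)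
  rw [latMean_neg] at e2
  rw [abs_le] at e1 e2 ⊢
  constructor <;> linarith [e1.1, e1.2, e2.1, e2.2]

end Crest.Agent.R158.Bk430
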