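import Mathlib

/-!
# R158, Block V (helper107), file 1: trigonometry of one vertex

`Fw q = 2 cos (π/3 + q)` (loop weight with enclosed charge `q`), `Sw q = 2 sin (π/3 + q)`.
A loop of sign `σ = ±1` and height pairing `θ` encloses the charge `σ θ`.

* `Fw_add_half`, `Fw_sub_half` : a half charge `± π/2`
* `vert_open`, `vert_closed`   : the two identities behind the vertex algebra
-/

set_option autoImplicit false

noncomputable section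

namespace Crest.Agent.R158.Vx107

open Real

/-- loop weight -/
def Fw (q : ℝ) : ℝ := 2 * cos (π / 3 + q)

/-- its conjugate -/
def Sw (q : ℝ) : ℝ := 2 * sin (π / 3 + q)

theorem Fw_zero : Fw 0 = 1 := by
  unfold Fw; rw [add_zero, cos_pi_div_three]; norm_num

theorem abs_Fw_le (q : ℝ) : |Fw q| ≤ 2 := by
  unfold Fw; rw [abs_mul]; have := abs_cos_le_one (π / 3 + q)
  rw [abs_of_pos (by norm_num : (0 : ℝ) < 2)]; linarith

theorem abs_Sw_le (q : ℝ) : |Sw q| ≤ 2 := by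
  unfold Sw; rw [abs_mul]; have := abs_sin_le_one (π / 3 + q)
  rw [abs_of_pos (by norm_num : (0 : ℝ) < 2)]; linarith

theorem Fw_add_half (q : ℝ) : Fw (q + π / 2) = -Sw q := by
  unfold Fw Sw; rw [← add_assoc, cos_add_pi_div_two]; ring

theorem Fw_sub_half (q : ℝ) : Fw (q - π / 2) = Sw q := by
  unfold Fw Sw
  rw [show π / 3 + (q - π / 2) = (π / 3 + q) - π / 2 by ring, cos_sub_pi_div_two]

theorem Fw_add_pi (q : ℝ) : Fw (q + π) = -Fw q := by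
  unfold Fw; rw [← add_assoc, cos_add_pi]; ring

theorem Fw_sub_pi (q : ℝ) : Fw (q - π) = -Fw q := by
  unfold Fw
  rw [show π / 3 + (q - π) = (π / 3 + q) - π by ring, cos_sub_pi]; ring

/-- sign `σ = ±1`: pairing changed by a half charge -/
theorem Fw_sg_add {σ : ℝ} (hσ : σ = 1 ∨ σ = -1) (θ : ℝ) :
    Fw (σ * (θ + π / 2)) = -(σ * Sw (σ * θ)) := by
  rcases hσ with rfl | rfl
  · rw [one_mul, one_mul, one_mul, Fw_add_half]
  · rw [show (-1 : ℝ) * (θ + π / 2) = -1 * θ - π / 2 by ring, Fw_sub_half]; ring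

theorem Fw_sg_sub {σ : ℝ} (hσ : σ = 1 ∨ σ = -1) (θ : ℝ) :
    Fw (σ * (θ - π / 2)) = σ * Sw (σ * θ) := by
  rcases hσ with rfl | rfl
  · rw [one_mul, one_mul, one_mul, Fw_sub_half]
  · rw [show (-1 : ℝ) * (θ - π / 2) = -1 * θ + π / 2 by ring, Fw_add_half]; ring

theorem tan_pi_div_six' : tan (π / 6) = 1 / √3 := tan_pi_div_six

theorem sqrt3_sq : (√3 : ℝ) * √3 = 3 := mul_self_sqrt (by norm_num)

/-- expansion of the weights -/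
theorem Fw_eq (q : ℝ) : Fw q = cos q - √3 * sin q := by
  unfold Fw; rw [cos_add, cos_pi_div_three, sin_pi_div_three]; ring

theorem Sw_eq (q : ℝ) : Sw q = √3 * cos q + sin q := by
  unfold Sw; rw [sin_add, cos_pi_div_three, sin_pi_div_three]; ring

/-- side by side -/
theorem vert_side (a b : ℝ) :
    Fw a * Fw b - Fw (a + b) = (1 / 2) * (Fw a * Fw b + Sw a * Sw b)
      - tan (π / 6) / 2 * (Sw a * Fw b + Sw b * Fw a + 2 * Sw (a + b)) := by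
  have h3 := sqrt3_sq
  have hp : (√3 : ℝ) ≠ 0 := by
    intro h; rw [h] at h3; norm_num at h3
  rw [tan_pi_div_six', Fw_eq a, Fw_eq b, Fw_eq (a + b), Sw_eq a, Sw_eq b, Sw_eq (a + b), cos_add,
    sin_add]
  field_simp
  ring_nf
  have h2 : (√3 : ℝ) ^ 2 = 3 := by rw [sq]; exact h3
  have h4 : (√3 : ℝ) ^ 3 = 3 * √3 := by rw [pow_succ, h2]
  rw [h4, h2]
  ring

/-- nested -/
theorem vert_nest (a b : ℝ) :
    Fw a * Fw b - Fw (a - b) = (1 / 2) * (Fw a * Fw b - Sw a * Sw b)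
      + tan (π / 6) / 2 * (Sw a * Fw b - Sw b * Fw a + 2 * Sw (a - b)) := by
  have h3 := sqrt3_sq
  have hp : (√3 : ℝ) ≠ 0 := by
    intro h; rw [h] at h3; norm_num at h3
  rw [tan_pi_div_six', Fw_eq a, Fw_eq b, Fw_eq (a - b), Sw_eq a, Sw_eq b, Sw_eq (a - b), cos_sub,
    sin_sub]
  field_simp
  ring_nf
  have h2 : (√3 : ℝ) ^ 2 = 3 := by rw [sq]; exact h3
  have h4 : (√3 : ℝ) ^ 3 = 3 * √3 := by rw [pow_succ, h2]
  rw [h4, h2]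
  ring

/-- **two loops at an open edge, one at the closed edge** (signs `σ` of the big loop, `σ₁ σ₂` of the
pieces, as in `It200.split_closed_open`) -/
theorem vert_open {σ σ₁ σ₂ : ℝ}
    (h : (σ = 1 ∧ σ₁ = 1 ∧ σ₂ = 1) ∨ (σ = -1 ∧ σ₁ = -1 ∧ σ₂ = 1) ∨ (σ = -1 ∧ σ₁ = 1 ∧ σ₂ = -1))
    (θ₁ θ₂ : ℝ) :
    Fw (σ₁ * θ₁) * Fw (σ₂ * θ₂) - Fw (σ * (θ₁ + θ₂)) =
      (1 / 2) * (Fw (σ₁ * θ₁) * Fw (σ₂ * θ₂) + σ₁ * Sw (σ₁ * θ₁) * (σ₂ * Sw (σ₂ * θ₂)))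
      - tan (π / 6) / 2 * (σ₁ * Sw (σ₁ * θ₁) * Fw (σ₂ * θ₂) + σ₂ * Sw (σ₂ * θ₂) * Fw (σ₁ * θ₁)
          + 2 * (σ * Sw (σ * (θ₁ + θ₂)))) := by
  rcases h with ⟨rfl, rfl, rfl⟩ | ⟨rfl, rfl, rfl⟩ | ⟨rfl, rfl, rfl⟩
  · have h := vert_side θ₁ θ₂
    simp only [one_mul]
    linarith
  · have h := vert_nest (-θ₁) θ₂
    rw [show -θ₁ - θ₂ = -1 * (θ₁ + θ₂) by ring] at h
    simp only [one_mul, show (-1 : ℝ) * θ₁ = -θ₁ by ring]
    linarith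
  · have h := vert_nest (-θ₂) θ₁
    rw [show -θ₂ - θ₁ = -1 * (θ₁ + θ₂) by ring] at h
    simp only [one_mul, show (-1 : ℝ) * θ₂ = -θ₂ by ring]
    linarith

/-- **two loops at a closed edge, one at the open edge** (signs as in `It200.split_open_closed`) -/
theorem vert_closed {σ σ₁ σ₂ : ℝ}
    (h : (σ = -1 ∧ σ₁ = -1 ∧ σ₂ = -1) ∨ (σ = 1 ∧ σ₁ = 1 ∧ σ₂ = -1) ∨ (σ = 1 ∧ σ₁ = -1 ∧ σ₂ = 1))
    (θ₁ θ₂ : ℝ) :
    Fw (σ * (θ₁ + θ₂)) - Fw (σ₁ * θ₁) * Fw (σ₂ * θ₂) =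
      -((1 / 2) * (Fw (σ₁ * θ₁) * Fw (σ₂ * θ₂) + σ₁ * Sw (σ₁ * θ₁) * (σ₂ * Sw (σ₂ * θ₂))))
      - tan (π / 6) / 2 * (σ₁ * Sw (σ₁ * θ₁) * Fw (σ₂ * θ₂) + σ₂ * Sw (σ₂ * θ₂) * Fw (σ₁ * θ₁)
          + 2 * (σ * Sw (σ * (θ₁ + θ₂)))) := by
  rcases h with ⟨rfl, rfl, rfl⟩ | ⟨rfl, rfl, rfl⟩ | ⟨rfl, rfl, rfl⟩
  · have h := vert_side (-θ₁) (-θ₂)
    rw [show -θ₁ + -θ₂ = -1 * (θ₁ + θ₂) by ring] at h
    simp only [show (-1 : ℝ) * θ₁ = -θ₁ by ring, show (-1 : ℝ) * θ₂ = -θ₂ by ring]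
    linarith
  · have h := vert_nest θ₁ (-θ₂)
    rw [show θ₁ - -θ₂ = 1 * (θ₁ + θ₂) by ring] at h
    simp only [one_mul, show (-1 : ℝ) * θ₂ = -θ₂ by ring] at h ⊢
    linarith
  · have h := vert_nest θ₂ (-θ₁)
    rw [show θ₂ - -θ₁ = 1 * (θ₁ + θ₂) by ring] at h
    simp only [one_mul, show (-1 : ℝ) * θ₁ = -θ₁ by ring] at h ⊢
    linarith

/-! ### normal forms of the difference (open minus closed) -/

theorem Fw_mul_sub_side (a b : ℝ) : Fw a * Fw b - Fw (a + b) = 4 * sin a * sin b := by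
  have h3 := sqrt3_sq
  rw [Fw_eq a, Fw_eq b, Fw_eq (a + b), cos_add, sin_add]
  have h2 : (√3 : ℝ) ^ 2 = 3 := by rw [sq]; exact h3
  ring_nf
  rw [h2]
  ring

theorem Fw_mul_sub_nest (a b : ℝ) : Fw a * Fw b - Fw (a - b) = 4 * sin (a - π / 3) * sin b := by
  have h3 := sqrt3_sq
  rw [Fw_eq a, Fw_eq b, Fw_eq (a - b), cos_sub, sin_sub, sin_sub, cos_pi_div_three,
    sin_pi_div_three]
  have h2 : (√3 : ℝ) ^ 2 = 3 := by rw [sq]; exact h3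
  ring_nf
  rw [h2]
  ring

end Crest.Agent.R158.Vx107
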