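import Crest.Agent.R158.FrDef_158
import Crest.Agent.R158.Rs3_689

/-!
# Row 158, Block F (helper158): common prelude layer

* `percP` : `Pr p` is a `Tas682.Perc` for every real `p`
* `Pr_mono_p`, `Pr_fkg`, `Pr_indep`, `Pr_shift`
* `eIn S`, `dep_EV` : `EV S A B` depends on the edges inside `S`
* `rch_iff`, `arm_of_rch`, `arm1_iff`
* literal: `oneArmProb`, `percolationProb`, `originCluster` in terms of `Pr`
-/

set_option autoImplicit false

noncomputable section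

namespace Crest.Agent.R158.Fr158

open MeasureTheory Filter Topology
open Crest.ProbabilityR.Percolation Crest.ProbabilityR.FirstPassage
open Crest.Agent.R158.Rs689 Crest.Agent.R161.Tas682 Crest.Agent.R161.Geo729
open Crest.Agent.R161.Topo374 Crest.Agent.R161.Dual374
open scoped ENNReal

/-! ### probability of local events -/

theorem Pr_def (p : ℝ) (A : Set Cf) : Pr p A = ((Rs689.nu (clampUnit p)) A).toReal := rfl

theorem percP (p : ℝ) : Perc (Pr p) := perc (clampUnit p)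

theorem Pr_nonneg (p : ℝ) (A : Set Cf) : 0 ≤ Pr p A := measureReal_nonneg

theorem Pr_le_one (p : ℝ) (A : Set Cf) : Pr p A ≤ 1 := (percP p).le_one A

theorem Pr_mono {p : ℝ} {A B : Set Cf} (h : A ⊆ B) : Pr p A ≤ Pr p B := (percP p).mono A B h

theorem Pr_univ (p : ℝ) : Pr p Set.univ = 1 := (percP p).univ

theorem Pr_fkg {p : ℝ} {A B : Set Cf} (hA : IncLoc A) (hB : IncLoc B) :
    Pr p A * Pr p B ≤ Pr p (A ∩ B) := (percP p).fkg A B hA hB

theorem Pr_compl {p : ℝ} {A : Set Cf} (hA : MeasurableSet A) : Pr p Aᶜ = 1 - Pr p A :=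
  probReal_compl_eq_one_sub hA

theorem inc_of {A : Set Cf} (hA : IncLoc A) : Inc A := hA.inc

theorem clampUnit_mono {p q : ℝ} (h : p ≤ q) : clampUnit p ≤ clampUnit q :=
  Set.monotone_projIcc _ h

/-- monotonicity in the parameter -/
theorem Pr_mono_p {p q : ℝ} (h : p ≤ q) {A : Set Cf} (hA : MeasurableSet A) (iA : Inc A) :
    Pr p A ≤ Pr q A :=
  PB_mono (fun _ => clampUnit_mono h) hA iA

theorem Pr_mono_loc {p q : ℝ} (h : p ≤ q) {A : Set Cf} (hA : IncLoc A) : Pr p A ≤ Pr q A :=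
  Pr_mono_p h hA.measurableSet (inc_of hA)

/-- the edges with both ends in the finite set `S` -/
def eIn (S : Finset P2) : Finset Edge := (S ×ˢ Finset.univ).filter fun e => tgt e ∈ S

theorem mem_eIn {S : Finset P2} {e : Edge} : e ∈ eIn S ↔ src e ∈ S ∧ tgt e ∈ S := by
  unfold eIn
  rw [Finset.mem_filter, Finset.mem_product]
  simp [src]

theorem eIn_disjoint {S T : Finset P2} (h : Disjoint S T) : Disjoint (eIn S) (eIn T) := by
  rw [Finset.disjoint_left] at h ⊢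
  intro e he he'
  exact h (mem_eIn.1 he).1 (mem_eIn.1 he').1

theorem eIn_mono {S T : Finset P2} (h : S ⊆ T) : eIn S ⊆ eIn T := by
  intro e he
  rw [mem_eIn] at he ⊢
  exact ⟨h he.1, h he.2⟩

/-- a connection inside `S` only sees the edges inside `S` -/
theorem OC.congr {S : Set P2} {z z' : Cf} {u v : P2} (h : OC z S u v)
    (hz : ∀ e : Edge, src e ∈ S → tgt e ∈ S → z e = true → z' e = true) : OC z' S u v := by
  obtain ⟨hu, h⟩ := h
  refine ⟨hu, Relation.ReflTransGen.mono (fun a b hab => ?_) _ _ h⟩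
  obtain ⟨⟨e, he, h1⟩, ha, hb⟩ := hab
  refine ⟨⟨e, ?_, h1⟩, ha, hb⟩
  rcases h1 with ⟨rfl, rfl⟩ | ⟨rfl, rfl⟩
  · exact hz e ha hb he
  · exact hz e hb ha he

theorem dep_EV {S : Set P2} {T : Finset P2} (hS : ∀ v ∈ S, v ∈ T) (A B : Set P2) :
    Dep (eIn T) (EV S A B) := by
  intro z z' h
  constructor
  · rintro ⟨u, hu, v, hv, hc⟩
    refine ⟨u, hu, v, hv, OC.congr hc fun e h1 h2 h3 => ?_⟩
    rw [← h e (mem_eIn.2 ⟨hS _ h1, hS _ h2⟩)]
    exact h3
  · rintro ⟨u, hu, v, hv, hc⟩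
    refine ⟨u, hu, v, hv, OC.congr hc fun e h1 h2 h3 => ?_⟩
    rw [h e (mem_eIn.2 ⟨hS _ h1, hS _ h2⟩)]
    exact h3

/-- independence over disjoint vertex sets -/
theorem Pr_indep {p : ℝ} {S T : Finset P2} (hST : Disjoint S T) {A B : Set Cf}
    (hA : Dep (eIn S) A) (hB : Dep (eIn T) B) : Pr p (A ∩ B) = Pr p A * Pr p B :=
  PB_indep_real _ (eIn_disjoint hST) hA hB

/-- translations -/
theorem Pr_shift (p : ℝ) (a b : ℤ) {S : Set P2} (hS : S.Finite) (A B : Set P2) :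
    Pr p (EV {v | (v.1 - a, v.2 - b) ∈ S} {v | (v.1 - a, v.2 - b) ∈ A}
      {v | (v.1 - a, v.2 - b) ∈ B}) = Pr p (EV S A B) :=
  (percP p).EV_shift a b hS A B

/-! ### boxes and arms -/

/-- the box `x + [-n,n]²` as a finset -/
def bx (x : P2) (n : ℤ) : Finset P2 :=
  Finset.Icc (x.1 - n) (x.1 + n) ×ˢ Finset.Icc (x.2 - n) (x.2 + n)

theorem mem_bx {x : P2} {n : ℤ} {v : P2} : v ∈ bx x n ↔
    x.1 - n ≤ v.1 ∧ v.1 ≤ x.1 + n ∧ x.2 - n ≤ v.2 ∧ v.2 ≤ x.2 + n := by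
  unfold bx
  rw [Finset.mem_product, Finset.mem_Icc, Finset.mem_Icc]
  tauto

theorem mem_bx_sd {x : P2} {n : ℤ} {v : P2} : v ∈ bx x n ↔ sd x v ≤ n := by
  rw [mem_bx, sd_le]

theorem mem_Bx {n : ℤ} {v : P2} : v ∈ Bx n ↔ v ∈ bx (0, 0) n := by
  rw [mem_bx]
  simp [Bx, Rect]

theorem Bx_finite (n : ℤ) : (Bx n).Finite := rect_finite _ _ _ _

theorem Bx_mono {m n : ℤ} (h : m ≤ n) : Bx m ⊆ Bx n := by
  rintro v ⟨h1, h2, h3, h4⟩
  exact ⟨by omega, by omega, by omega, by omega⟩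

theorem mem_Out {n : ℤ} {v : P2} : v ∈ Out n ↔ n ≤ sd (0, 0) v := by
  unfold Out sd
  simp only [Set.mem_ofPred_eq, sub_zero, le_max_iff]

theorem Out_anti {m n : ℤ} (h : m ≤ n) : Out n ⊆ Out m := by
  intro v hv
  rw [mem_Out] at hv ⊢
  exact h.trans hv

theorem not_mem_Bx {n : ℤ} {v : P2} (h : v ∉ Bx n) : v ∈ Out (n + 1) := by
  rw [mem_Bx, mem_bx_sd] at h
  rw [mem_Out]
  omega

theorem arm1_incLoc (n : ℤ) : IncLoc (Arm1 n) := EV_incLoc (Bx_finite n) _ _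

theorem arm1_meas (n : ℤ) : MeasurableSet (Arm1 n) := (arm1_incLoc n).measurableSet

theorem arm1_dep (n : ℤ) : Dep (eIn (bx (0, 0) n)) (Arm1 n) :=
  dep_EV (fun _ hv => mem_Bx.1 hv) _ _

/-- first exit -/
theorem arm_of_oc {z : Cf} {n : ℤ} (hn : 0 ≤ n) {S : Set P2} {v : P2} (h : OC z S (0, 0) v)
    (hv : n ≤ sd (0, 0) v) : z ∈ Arm1 n := by
  obtain ⟨w, h1, h2⟩ := first_hit (sd (0, 0)) (sd_nbr (0, 0)) n h
    (by simpa [sd] using hn) hv
  refine ⟨(0, 0), rfl, w, mem_Out.2 h1.ge, h2.monoS ?_⟩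
  rintro p ⟨_, hp⟩
  exact mem_Bx.2 (mem_bx_sd.2 hp)

theorem arm1_anti {m n : ℤ} (hm : 0 ≤ m) (h : m ≤ n) : Arm1 n ⊆ Arm1 m := by
  rintro z ⟨u, hu, v, hv, hc⟩
  rw [Set.mem_singleton_iff] at hu
  subst hu
  exact arm_of_oc hm hc (h.trans (mem_Out.1 hv))

/-! ### connections in the whole lattice -/

theorem rch_of_oc {z : Cf} {S : Set P2} {u v : P2} (h : OC z S u v) : Rch z u v :=
  Relation.ReflTransGen.mono (fun _ _ hab => hab.1) _ _ h.2

theorem rch_oc_univ {z : Cf} {u v : P2} : Rch z u v ↔ OC z Set.univ u v :=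
  ⟨fun h => ⟨trivial, Relation.ReflTransGen.mono (fun _ _ hab => ⟨hab, trivial, trivial⟩) _ _ h⟩,
    rch_of_oc⟩

/-- a connection of the lattice lives in a box -/
theorem rch_iff {z : Cf} {u v : P2} : Rch z u v ↔ ∃ n : ℕ, OC z (Bx n) u v := by
  constructor
  · intro h
    induction h with
    | refl =>
      refine ⟨(sd (0, 0) u).toNat, OC.refl ?_⟩
      rw [mem_Bx, mem_bx_sd]
      omega
    | @tail b c _ h2 ih =>
      obtain ⟨n, hn⟩ := ih
      refine ⟨n + 1, ?_⟩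
      have h3 : OC z (Bx (n + 1 : ℕ)) u b := hn.monoS (Bx_mono (by push_cast; omega))
      have h4 : c ∈ Bx (n + 1 : ℕ) := by
        have h5 := sd_nbr (0, 0) b c (pstep_nbr h2)
        have h6 := hn.right
        rw [mem_Bx, mem_bx_sd] at h6 ⊢
        push_cast
        omega
      exact ⟨h3.1, h3.2.tail ⟨h2, h3.right, h4⟩⟩
  · rintro ⟨n, hn⟩
    exact rch_of_oc hn

theorem arm_of_rch {z : Cf} {n : ℤ} (hn : 0 ≤ n) {v : P2} (h : Rch z (0, 0) v)
    (hv : v ∈ Out n) : z ∈ Arm1 n := arm_of_oc hn (rch_oc_univ.1 h) (mem_Out.1 hv)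

theorem arm1_iff {z : Cf} {n : ℤ} (hn : 0 ≤ n) :
    z ∈ Arm1 n ↔ ∃ v ∈ Out n, Rch z (0, 0) v := by
  constructor
  · rintro ⟨u, hu, v, hv, hc⟩
    rw [Set.mem_singleton_iff] at hu
    subst hu
    exact ⟨v, hv, rch_of_oc hc⟩
  · rintro ⟨v, hv, h⟩
    exact arm_of_rch hn h hv

theorem setOf_rch (u v : P2) : {z : Cf | Rch z u v} = ⋃ n : ℕ, EV (Bx n) {u} {v} := by
  ext z
  simp only [Set.mem_ofPred_eq, Set.mem_iUnion, rch_iff, mem_EV, Set.mem_singleton_iff,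
    exists_eq_left]

theorem rch_meas (u v : P2) : MeasurableSet {z : Cf | Rch z u v} := by
  rw [setOf_rch]
  exact MeasurableSet.iUnion fun n => (EV_incLoc (Bx_finite n) _ _).measurableSet

theorem rch_inc (u v : P2) : Inc {z : Cf | Rch z u v} := by
  intro z z' h hz
  exact Relation.ReflTransGen.mono (fun _ _ hab => pstep_mono h hab) _ _ hz

/-- the cluster of the origin -/
def clu (z : Cf) : Set P2 := {v | Rch z (0, 0) v}

theorem clu_infinite_iff {z : Cf} : (clu z).Infinite ↔ ∀ n : ℕ, z ∈ Arm1 n := by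
  constructor
  · intro h n
    by_contra hn
    apply h
    refine (Bx_finite n).subset fun v hv => ?_
    by_contra hv'
    exact hn (arm_of_rch (by omega) hv (Out_anti (by omega) (not_mem_Bx hv')))
  · intro h hf
    obtain ⟨N, hN⟩ : ∃ N : ℕ, ∀ v ∈ clu z, sd (0, 0) v < N := by
      have hb := hf.image (sd (0, 0))
      obtain ⟨M, hM⟩ := hb.bddAbove
      refine ⟨M.toNat + 1, fun v hv => ?_⟩
      have := hM (Set.mem_image_of_mem _ hv)
      push_cast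
      omega
    obtain ⟨v, hv, hc⟩ := (arm1_iff (by omega)).1 (h N)
    have h1 := hN v hc
    rw [mem_Out] at hv
    omega

theorem setOf_infinite : {z : Cf | (clu z).Infinite} = ⋂ n : ℕ, Arm1 n := by
  ext z
  simp only [Set.mem_ofPred_eq, Set.mem_iInter, clu_infinite_iff]

theorem infinite_meas : MeasurableSet {z : Cf | (clu z).Infinite} := by
  rw [setOf_infinite]
  exact MeasurableSet.iInter fun n => arm1_meas n

theorem finite_meas : MeasurableSet {z : Cf | (clu z).Finite} := by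
  have : {z : Cf | (clu z).Finite} = {z : Cf | (clu z).Infinite}ᶜ := by
    ext z
    simp [Set.not_infinite]
  rw [this]
  exact infinite_meas.compl

/-! ### the literal quantities -/

theorem originCluster_eq (ω : Set (Sym2 (ℤ × ℤ))) : originCluster ω = clu (conf ω) := by
  ext v
  exact mem_originCluster

theorem squareBondLaw_conf_real (p : ℝ) {A : Set Cf} (hA : MeasurableSet A) :
    (squareBondLaw p (conf ⁻¹' A)).toReal = Pr p A := by
  rw [squareBondLaw_conf p hA]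
  rfl

/-- the event of the one-arm probability with the Euclidean norm -/
def ArmE (R : ℝ) : Set Cf :=
  {z | ∃ v : ℤ × ℤ, R ^ 2 ≤ ((v.1 : ℝ) ^ 2 + (v.2 : ℝ) ^ 2) ∧ Rch z (0, 0) v}

theorem armE_meas (R : ℝ) : MeasurableSet (ArmE R) := by
  have : ArmE R = ⋃ v : ℤ × ℤ, {z | R ^ 2 ≤ ((v.1 : ℝ) ^ 2 + (v.2 : ℝ) ^ 2) ∧ Rch z (0, 0) v} := by
    ext z
    simp [ArmE]
  rw [this]
  refine MeasurableSet.iUnion fun v => ?_
  by_cases h : R ^ 2 ≤ ((v.1 : ℝ) ^ 2 + (v.2 : ℝ) ^ 2)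
  · simpa [h] using rch_meas (0, 0) v
  · simp [h]

theorem oneArmProb_eq (R : ℝ) : (oneArmProb R).toReal = Pr (1 / 2) (ArmE R) := by
  rw [← squareBondLaw_conf_real (1 / 2) (armE_meas R)]
  unfold oneArmProb squareBondLaw
  congr 2
  ext ω
  simp only [Set.mem_ofPred_eq, Set.mem_preimage, ArmE, reach_iff]

theorem percolationProb_eq (p : ℝ) :
    (percolationProb p).toReal = Pr p {z | (clu z).Infinite} := by
  rw [← squareBondLaw_conf_real p infinite_meas]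
  have h : {ω : Set (Sym2 (ℤ × ℤ)) | ((openSubgraph squareLattice ω).connectedComponentMk
      ((0 : ℤ), (0 : ℤ))).supp.Infinite} = conf ⁻¹' {z | (clu z).Infinite} := by
    ext ω
    show (originCluster ω).Infinite ↔ (clu (conf ω)).Infinite
    rw [originCluster_eq]
  unfold percolationProb squareBondLaw
  rw [h]

/-! ### comparison of the Euclidean and the sup norm -/

theorem armE_sub {R : ℝ} (hR : 0 ≤ R) : ArmE R ⊆ Arm1 ⌊R / 2⌋₊ := by
  rintro z ⟨v, hv, hc⟩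
  refine arm_of_rch (by omega) hc ?_
  by_contra hcon
  rw [mem_Out, not_le] at hcon
  have h0 : (⌊R / 2⌋₊ : ℝ) ≤ R / 2 := Nat.floor_le (by positivity)
  have h1 : sd (0, 0) v ≤ (⌊R / 2⌋₊ : ℤ) - 1 := by omega
  rw [sd_le] at h1
  obtain ⟨a1, a2, a3, a4⟩ := h1
  have b1 : (-(⌊R / 2⌋₊ : ℝ)) + 1 ≤ v.1 := by
    have : -(⌊R / 2⌋₊ : ℤ) + 1 ≤ v.1 := by simp only at a1; omega
    exact_mod_cast this
  have b2 : (v.1 : ℝ) ≤ ⌊R / 2⌋₊ - 1 := by
    have : v.1 ≤ (⌊R / 2⌋₊ : ℤ) - 1 := by simp only at a2; omega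
    exact_mod_cast this
  have b3 : (-(⌊R / 2⌋₊ : ℝ)) + 1 ≤ v.2 := by
    have : -(⌊R / 2⌋₊ : ℤ) + 1 ≤ v.2 := by simp only at a3; omega
    exact_mod_cast this
  have b4 : (v.2 : ℝ) ≤ ⌊R / 2⌋₊ - 1 := by
    have : v.2 ≤ (⌊R / 2⌋₊ : ℤ) - 1 := by simp only at a4; omega
    exact_mod_cast this
  have c1 : (v.1 : ℝ) ^ 2 ≤ (R / 2 - 1) ^ 2 := by
    apply sq_le_sq'
    · linarith
    · linarith
  have c2 : (v.2 : ℝ) ^ 2 ≤ (R / 2 - 1) ^ 2 := by
    apply sq_le_sq'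
    · linarith
    · linarith
  have c3 : 1 ≤ R / 2 := by linarith
  nlinarith

theorem arm1_sub_armE {R : ℝ} (hR : 0 ≤ R) : Arm1 ⌈R⌉₊ ⊆ ArmE R := by
  intro z hz
  obtain ⟨v, hv, hc⟩ := (arm1_iff (by omega)).1 hz
  refine ⟨v, ?_, hc⟩
  have h0 : R ≤ ⌈R⌉₊ := Nat.le_ceil R
  rcases hv with h1 | h1
  · have h2 : (⌈R⌉₊ : ℝ) ≤ |(v.1 : ℝ)| := by
      rw [← Int.cast_abs]
      exact_mod_cast h1
    have h3 : R ^ 2 ≤ (v.1 : ℝ) ^ 2 := by
      rw [← sq_abs (v.1 : ℝ)]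
      exact pow_le_pow_left₀ hR (h0.trans h2) 2
    nlinarith [sq_nonneg (v.2 : ℝ)]
  · have h2 : (⌈R⌉₊ : ℝ) ≤ |(v.2 : ℝ)| := by
      rw [← Int.cast_abs]
      exact_mod_cast h1
    have h3 : R ^ 2 ≤ (v.2 : ℝ) ^ 2 := by
      rw [← sq_abs (v.2 : ℝ)]
      exact pow_le_pow_left₀ hR (h0.trans h2) 2
    nlinarith [sq_nonneg (v.1 : ℝ)]

end Crest.Agent.R158.Fr158
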