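import Crest.Agent.R158.It3_200
import Crest.Agent.R158.FrPre_158

/-!
# Row 158, BLOCK W (helper850), part 0: the loops of a bond configuration as finite sets of faces

* `Face` : `(v, false)` = the vertex `v`, `(f, true)` = the dual face with lower left corner `f`
* `Lps z` : the interiors of the finite loops (finite strands of `It200.nx z`)
* `sepC A d` : the corner `d` separates `A`;  `bdE A` : the edges visited by the loop of `A`
* `loc`, `sep_uniq`, `lam`, `lps_open`, `lps_closed`, `fin_split`, `cross2`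
-/

set_option autoImplicit false

noncomputable section

namespace Crest.Agent.R158.Wf850

open Crest.Agent.R161.Geo729 Crest.Agent.R161.Dual374 Crest.Agent.R161.Tas682
open Crest.Agent.R158.Rs689 (Dep)
open Crest.Agent.R158.It200
open Crest.Agent.R158.Fr158 (bx mem_bx mem_bx_sd)

/-- medial faces: vertices (`false`) and dual faces (`true`) -/
abbrev Face : Type := P2 × Bool

/-- all the faces with base point at distance at most `n` from `x` -/
def BF (x : P2) (n : ℤ) : Finset Face := bx x n ×ˢ Finset.univ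

theorem mem_BF {x : P2} {n : ℤ} {f : Face} : f ∈ BF x n ↔ sd x f.1 ≤ n := by
  unfold BF
  rw [Finset.mem_product, mem_bx_sd]
  simp

theorem BF_mono {x : P2} {n m : ℤ} (h : n ≤ m) : BF x n ⊆ BF x m := fun f hf => by
  rw [mem_BF] at hf ⊢; exact hf.trans h

/-- the vertex of a corner -/
def cv (d : Corner) : Face := (d.1, false)

/-- the dual face of a corner -/
def cf (d : Corner) : Face := (fc d, true)

/-- height of the strand through `c` at a face -/
def ht (z : Cfz) (c : Corner) (f : Face) : ℤ := if f.2 then hf z c f.1 else hv z c f.1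

@[simp] theorem ht_cv (z : Cfz) (c d : Corner) : ht z c (cv d) = hv z c d.1 := rfl
@[simp] theorem ht_cf (z : Cfz) (c d : Corner) : ht z c (cf d) = hf z c (fc d) := rfl
@[simp] theorem ht_false (z : Cfz) (c : Corner) (v : P2) : ht z c (v, false) = hv z c v := rfl
@[simp] theorem ht_true (z : Cfz) (c : Corner) (v : P2) : ht z c (v, true) = hf z c v := rfl

/-- the interiors of the finite loops -/
def Lps (z : Cfz) : Set (Finset Face) :=
  {A | ∃ c, (Lp z c).Finite ∧ ∀ f, f ∈ A ↔ ht z c f ≠ 0}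

/-- the corner `d` separates `A` -/
def sepC (A : Finset Face) (d : Corner) : Prop := ¬ (cv d ∈ A ↔ cf d ∈ A)

theorem sep_iff {z : Cfz} {c : Corner} (hfin : (Lp z c).Finite) {A : Finset Face}
    (hA : ∀ f, f ∈ A ↔ ht z c f ≠ 0) (d : Corner) : sepC A d ↔ d ∈ Lp z c := by
  unfold sepC
  rw [hA, hA, ht_cv, ht_cf]
  have hg := hv_grad hfin d
  constructor
  · intro h
    by_contra hd
    rw [JL_not_mem hd] at hg
    apply h
    rw [sub_eq_zero.1 hg]
  · intro hd h
    rcases sg_cases hfin with ⟨_, h1, _, _⟩ | ⟨_, h1, _, _⟩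
    · obtain ⟨a, b⟩ := h1 d hd
      rw [a, b] at h; simp at h
    · obtain ⟨a, b⟩ := h1 d hd
      rw [a, b] at h; simp at h

/-- each separated corner determines the loop -/
theorem sep_uniq {z : Cfz} {A B : Finset Face} (hA : A ∈ Lps z) (hB : B ∈ Lps z) {d : Corner}
    (h1 : sepC A d) (h2 : sepC B d) : A = B := by
  obtain ⟨c, hc, hA⟩ := hA
  obtain ⟨c', hc', hB⟩ := hB
  rw [sep_iff hc hA] at h1
  rw [sep_iff hc' hB] at h2
  ext f
  rw [hA, hB]
  have e1 : hv z c = hv z c' := by rw [← hv_eq h1, ← hv_eq h2]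
  have e2 : hf z c = hf z c' := by rw [← hf_eq h1, ← hf_eq h2]
  unfold ht
  rw [e1, e2]

theorem sepC_finite (A : Finset Face) : {d : Corner | sepC A d}.Finite := by
  have h1 : {d : Corner | sepC A d} ⊆
      (((A.image Prod.fst) ∪ (A.image fun f => ((f.1.1 + 1, f.1.2) : P2)) ∪
        (A.image fun f => ((f.1.1, f.1.2 + 1) : P2)) ∪
        (A.image fun f => ((f.1.1 + 1, f.1.2 + 1) : P2))) ×ˢ
          (Finset.univ : Finset (Fin 4)) : Finset Corner) := by
    intro d hd
    have hd : sepC A d := hd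
    rw [Finset.mem_coe, Finset.mem_product]
    refine ⟨?_, Finset.mem_univ _⟩
    simp only [Finset.mem_union, Finset.mem_image]
    by_cases hv : cv d ∈ A
    · exact Or.inl (Or.inl (Or.inl ⟨_, hv, rfl⟩))
    · have hf : cf d ∈ A := by
        unfold sepC at hd
        by_contra h
        exact hd ⟨fun h' => absurd h' hv, fun h' => absurd h' h⟩
      obtain ⟨⟨x, y⟩, q⟩ := d
      fin_cases q
      · exact Or.inl (Or.inl (Or.inl ⟨_, hf, rfl⟩))
      · refine Or.inl (Or.inr ⟨_, hf, ?_⟩)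
        simp [cf, fc]
      · refine Or.inr ⟨_, hf, ?_⟩
        simp [cf, fc]
      · refine Or.inl (Or.inl (Or.inr ⟨_, hf, ?_⟩))
        simp [cf, fc]
  exact (Finset.finite_toSet _).subset h1

/-- the edges visited by the loop around `A` -/
def bdE (A : Finset Face) : Finset Edge := (sepC_finite A).toFinset.image ah

theorem mem_bdE {A : Finset Face} {e : Edge} : e ∈ bdE A ↔ ∃ d, sepC A d ∧ ah d = e := by
  unfold bdE
  simp

theorem loc_aux {z z' : Cfz} {A : Finset Face} (h : ∀ e ∈ bdE A, z e = z' e)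
    (hA : A ∈ Lps z) : A ∈ Lps z' := by
  obtain ⟨c, hc, hA⟩ := hA
  have h1 : Lp z c = Lp z' c := by
    refine Lp_congr ?_
    rintro e ⟨d, hd, rfl⟩
    exact h _ (mem_bdE.2 ⟨d, (sep_iff hc hA d).2 hd, rfl⟩)
  refine ⟨c, h1 ▸ hc, fun f => ?_⟩
  rw [hA]
  have h2 : JL z c = JL z' c := by unfold JL; rw [h1]
  unfold ht hv hf
  rw [h2]

/-- **locality** -/
theorem loc (A : Finset Face) : Dep (bdE A) {z | A ∈ Lps z} := fun _ _ h =>
  ⟨loc_aux h, loc_aux fun e he => (h e he).symm⟩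

theorem meas_lps (A : Finset Face) : MeasurableSet {z : Cfz | A ∈ Lps z} :=
  (loc A).measurableSet

/-- **laminarity** -/
theorem lam {z : Cfz} {A B : Finset Face} (hA : A ∈ Lps z) (hB : B ∈ Lps z) :
    A ⊆ B ∨ B ⊆ A ∨ Disjoint A B := by
  obtain ⟨c, hc, hA⟩ := hA
  obtain ⟨d, hd, hB⟩ := hB
  by_cases hne : c ∈ Lp z d
  · left
    intro f
    rw [hA, hB]
    unfold ht
    rw [hv_eq hne, hf_eq hne]
    exact id
  · rcases laminar hc hd hne with ⟨h1, h2⟩ | ⟨h1, h2⟩ | ⟨h1, h2⟩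
    · right; left
      rintro ⟨f, b⟩
      rw [hA, hB]
      cases b
      · exact fun h => h1 h
      · exact fun h => h2 h
    · left
      rintro ⟨f, b⟩
      rw [hA, hB]
      cases b
      · exact fun h => h1 h
      · exact fun h => h2 h
    · right; right
      rw [Finset.disjoint_left]
      rintro ⟨f, b⟩
      rw [hA, hB]
      rw [Set.disjoint_left] at h1 h2
      cases b
      · exact fun h h' => h1 h h'
      · exact fun h h' => h2 h h'

/-- interiors are constant on open clusters -/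
theorem lps_open {z : Cfz} {A : Finset Face} (hA : A ∈ Lps z) {u v : P2}
    (h : Relation.ReflTransGen (PStep (fun e => z e = true)) u v) :
    (u, false) ∈ A ↔ (v, false) ∈ A := by
  obtain ⟨c, hc, hA⟩ := hA
  rw [hA, hA, ht_false, ht_false]
  have := (JL_inv z c).hv_path (JL_fs hc) h
  unfold hv
  rw [this]

/-- interiors are constant on dual clusters -/
theorem lps_closed {z : Cfz} {A : Finset Face} (hA : A ∈ Lps z) {f g : P2}
    (h : Relation.ReflTransGen (DStep (fun e => z e = false)) f g) :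
    (f, true) ∈ A ↔ (g, true) ∈ A := by
  obtain ⟨c, hc, hA⟩ := hA
  rw [hA, hA, ht_true, ht_true]
  have := (JL_inv z c).hf_path (JL_fs hc) h
  unfold hf
  rw [this]

/-- `A` splits the set `B` -/
def Splits (A B : Finset Face) : Prop := (∃ f ∈ B, f ∈ A) ∧ ∃ f ∈ B, f ∉ A

/-- a set that is not cut inside a box is constant on the box -/
theorem const_box {A : Finset Face} {x : P2} {n : ℤ}
    (h : ∀ d : Corner, cv d ∈ BF x n → cf d ∈ BF x n → ¬ sepC A d) {f g : Face}
    (hf : f ∈ BF x n) (hg : g ∈ BF x n) : f ∈ A ↔ g ∈ A := by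
  have hsep : ∀ d : Corner, cv d ∈ BF x n → cf d ∈ BF x n → (cv d ∈ A ↔ cf d ∈ A) := by
    intro d h1 h2
    have := h d h1 h2
    unfold sepC at this
    exact not_not.1 this
  have memB : ∀ (v : P2) (b : Bool), (v, b) ∈ BF x n ↔
      (x.1 - n ≤ v.1 ∧ v.1 ≤ x.1 + n ∧ x.2 - n ≤ v.2 ∧ v.2 ≤ x.2 + n) := by
    intro v b
    rw [mem_BF, ← mem_bx_sd, mem_bx]
  -- vertex and face with the same base point
  have h0 : ∀ v : P2, (v, false) ∈ BF x n → ((v, false) ∈ A ↔ (v, true) ∈ A) := by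
    intro v hv
    have h1 := hsep (v, 0) hv (by
      show (fc (v, 0), true) ∈ BF x n
      rw [fc_zero]; rw [memB] at hv ⊢; exact hv)
    have e : cf (v, 0) = (v, true) := by unfold cf; rw [fc_zero]
    rw [e] at h1
    exact h1
  have hr : ∀ a b : ℤ, ((a, b), false) ∈ BF x n → ((a + 1, b), false) ∈ BF x n →
      (((a, b), false) ∈ A ↔ ((a + 1, b), false) ∈ A) := by
    intro a b h1 h2
    have e : cf ((a + 1, b), 3) = ((a, b), true) := by simp [cf, fc]
    have h3 := hsep ((a + 1, b), 3) h2 (by rw [e, memB]; rw [memB] at h1; exact h1)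
    rw [e] at h3
    rw [h0 _ h1]
    exact h3.symm
  have hu : ∀ a b : ℤ, ((a, b), false) ∈ BF x n → ((a, b + 1), false) ∈ BF x n →
      (((a, b), false) ∈ A ↔ ((a, b + 1), false) ∈ A) := by
    intro a b h1 h2
    have e : cf ((a, b + 1), 1) = ((a, b), true) := by simp [cf, fc]
    have h3 := hsep ((a, b + 1), 1) h2 (by rw [e, memB]; rw [memB] at h1; exact h1)
    rw [e] at h3
    rw [h0 _ h1]
    exact h3.symm
  -- everything equals the lower left corner
  have hrow : ∀ k : ℕ, ∀ b : ℤ, x.2 - n ≤ b → b ≤ x.2 + n → x.1 - n + k ≤ x.1 + n →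
      (((x.1 - n, b), false) ∈ A ↔ ((x.1 - n + k, b), false) ∈ A) := by
    intro k
    induction k with
    | zero => intro b _ _ _; simp
    | succ k ih =>
        intro b h1 h2 h3
        push_cast at h3 ⊢
        rw [ih b h1 h2 (by linarith), hr _ _ (by rw [memB]; dsimp only; omega)
          (by rw [memB]; dsimp only; omega)]
        rw [show x.1 - n + (k : ℤ) + 1 = x.1 - n + (k + 1) by ring]
  have hcol : ∀ k : ℕ, x.1 - n ≤ x.1 + n → x.2 - n + k ≤ x.2 + n →
      (((x.1 - n, x.2 - n), false) ∈ A ↔ ((x.1 - n, x.2 - n + k), false) ∈ A) := by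
    intro k
    induction k with
    | zero => intro _ _; simp
    | succ k ih =>
        intro h2 h3
        push_cast at h3 ⊢
        rw [ih h2 (by linarith), hu _ _ (by rw [memB]; dsimp only; omega)
          (by rw [memB]; dsimp only; omega)]
        rw [show x.2 - n + (k : ℤ) + 1 = x.2 - n + (k + 1) by ring]
  have key : ∀ f : Face, f ∈ BF x n → (((x.1 - n, x.2 - n), false) ∈ A ↔ f ∈ A) := by
    rintro ⟨⟨a, b⟩, s⟩ hfB
    rw [memB] at hfB
    dsimp only at hfB
    obtain ⟨h1, h2, h3, h4⟩ := hfB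
    have e1 : x.1 - n + ((a - (x.1 - n)).toNat : ℤ) = a := by
      rw [Int.toNat_of_nonneg (by linarith)]; ring
    have e2 : x.2 - n + ((b - (x.2 - n)).toNat : ℤ) = b := by
      rw [Int.toNat_of_nonneg (by linarith)]; ring
    have k1 := hcol (b - (x.2 - n)).toNat (by linarith) (by rw [e2]; exact h4)
    have k2 := hrow (a - (x.1 - n)).toNat b h3 h4 (by rw [e1]; exact h2)
    rw [e2] at k1
    rw [e1] at k2
    rw [k1, k2]
    cases s
    · exact Iff.rfl
    · exact h0 _ (by rw [memB]; exact ⟨h1, h2, h3, h4⟩)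
  rw [← key f hf, ← key g hg]

/-- a set splitting a box is cut by a corner inside the box -/
theorem exists_sep {A : Finset Face} {x : P2} {n : ℤ} (h : Splits A (BF x n)) :
    ∃ d : Corner, cv d ∈ BF x n ∧ cf d ∈ BF x n ∧ sepC A d := by
  by_contra hcon
  push Not at hcon
  obtain ⟨⟨f, hf, hfA⟩, g, hg, hgA⟩ := h
  exact hgA ((const_box (fun d h1 h2 => hcon d h1 h2) hf hg).1 hfA)

/-- only finitely many loops meet a box without containing it -/
theorem fin_split (z : Cfz) (x : P2) (n : ℤ) : {A | A ∈ Lps z ∧ Splits A (BF x n)}.Finite := by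
  classical
  have h1 : ∀ A : {A | A ∈ Lps z ∧ Splits A (BF x n)}, ∃ d : Corner, cv d ∈ BF x n ∧
      cf d ∈ BF x n ∧ sepC A d := fun A => exists_sep A.2.2
  choose φ hφ using h1
  have h2 : Function.Injective φ := by
    intro A B h
    exact Subtype.ext (sep_uniq A.2.1 B.2.1 (hφ A).2.2 (by rw [h]; exact (hφ B).2.2))
  have h3 : (Set.range φ).Finite := by
    refine ((bx x n ×ˢ (Finset.univ : Finset (Fin 4))).finite_toSet).subset ?_
    rintro _ ⟨A, rfl⟩
    rw [Finset.mem_coe, Finset.mem_product]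
    refine ⟨?_, Finset.mem_univ _⟩
    have := (hφ A).1
    rw [mem_BF] at this
    rw [mem_bx_sd]
    exact this
  have := h3.to_subtype
  have h4 : Finite {A | A ∈ Lps z ∧ Splits A (BF x n)} :=
    Finite.of_injective (fun A => (⟨φ A, ⟨A, rfl⟩⟩ : Set.range φ)) fun A B h =>
      h2 (congrArg Subtype.val h)
  exact Set.finite_coe_iff.1 h4

theorem sd_near {x u v : P2} (h1 : |u.1 - v.1| ≤ 1) (h2 : |u.2 - v.2| ≤ 1) :
    sd x u ≤ sd x v + 1 := by
  have h3 : v ∈ bx x (sd x v) := mem_bx_sd.2 le_rfl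
  rw [mem_bx] at h3
  rw [abs_le] at h1 h2
  rw [← mem_bx_sd, mem_bx]
  omega

/-- distance changes by at most one across a corner -/
theorem sd_corner (x : P2) (d : Corner) : sd x d.1 ≤ sd x (fc d) + 1 ∧ sd x (fc d) ≤ sd x d.1 + 1 := by
  obtain ⟨⟨a, b⟩, q⟩ := d
  constructor <;> refine sd_near ?_ ?_ <;> fin_cases q <;> simp [fc]

theorem ht_out {z : Cfz} {c : Corner} (hfin : (Lp z c).Finite) {x : P2} {m : ℤ}
    (hB : ∀ d ∈ Lp z c, sd x d.1 ≤ m) {f : Face} (hf : m < sd x f.1) : ht z c f = 0 := by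
  have hB' : ∀ d : Corner, JL z c d ≠ 0 →
      x.1 - m ≤ d.1.1 ∧ d.1.1 ≤ x.1 + m ∧ x.2 - m ≤ d.1.2 ∧ d.1.2 ≤ x.2 + m := by
    intro d hd
    have h1 : d ∈ Lp z c := by
      by_contra h
      exact hd (JL_not_mem h)
    have := hB d h1
    rw [← mem_bx_sd, mem_bx] at this
    exact this
  have hf' : f.1.1 < x.1 - m ∨ x.1 + m < f.1.1 ∨ f.1.2 < x.2 - m ∨ x.2 + m < f.1.2 := by
    by_contra hcon
    have : f.1 ∈ bx x m := by rw [mem_bx]; omega
    rw [mem_bx_sd] at this
    omega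
  obtain ⟨v, b⟩ := f
  cases b
  · exact Hv_out (JL_fs hfin) (JL_inv z c).cons hB' hf'
  · have := Hf_out (JL_fs hfin) (JL_inv z c).cons hB' (c := (v, 0)) hf'
    rw [fc_zero] at this
    exact this

/-- every finite strand bounds an element of `Lps` -/
theorem exists_int {z : Cfz} {c : Corner} (hfin : (Lp z c).Finite) :
    ∃ A ∈ Lps z, ∀ f, f ∈ A ↔ ht z c f ≠ 0 := by
  classical
  obtain ⟨m, hm⟩ : ∃ m : ℤ, ∀ d ∈ Lp z c, sd (0, 0) d.1 ≤ m := by
    obtain ⟨M, hM⟩ := (hfin.image fun d => sd (0, 0) d.1).bddAbove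
    exact ⟨M, fun d hd => hM ⟨d, hd, rfl⟩⟩
  have key : ∀ f, f ∈ (BF (0, 0) m).filter (fun f => ht z c f ≠ 0) ↔ ht z c f ≠ 0 := by
    intro f
    rw [Finset.mem_filter]
    refine ⟨fun h => h.2, fun h => ⟨?_, h⟩⟩
    rw [mem_BF]
    by_contra hcon
    exact h (ht_out hfin hm (not_le.1 hcon))
  exact ⟨_, ⟨c, hfin, key⟩, key⟩

theorem ocl_symm {z : Cfz} {u v : P2} (h : v ∈ OCl z u) : u ∈ OCl z v :=
  rtg_symm (fun _ _ h => h.symm) h

theorem dcl_symm {z : Cfz} {u v : P2} (h : v ∈ DCl z u) : u ∈ DCl z v :=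
  rtg_symm (fun _ _ h => h.symm) h

/-- a loop cutting the box `BF x n` and leaving the box `BF x m`: both its clusters cross -/
theorem cross2 {z : Cfz} {A : Finset Face} (hA : A ∈ Lps z) {x : P2} {n m : ℤ}
    (h : Splits A (BF x n)) (hm : ¬ A ⊆ BF x m) :
    (∃ u v, sd x u ≤ n ∧ m + 1 ≤ sd x v ∧ v ∈ OCl z u) ∧
      (∃ f g, sd x f ≤ n ∧ m ≤ sd x g ∧ g ∈ DCl z f) := by
  obtain ⟨c, hc, hA⟩ := hA
  obtain ⟨d, hd1, hd2, hd3⟩ := exists_sep h
  rw [sep_iff hc hA] at hd3
  rw [mem_BF] at hd1 hd2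
  have h1 : ∃ d' ∈ Lp z c, m + 1 ≤ sd x d'.1 := by
    by_contra hcon
    push Not at hcon
    apply hm
    intro f hf
    rw [mem_BF]
    by_contra hlt
    exact (hA f).1 hf (ht_out hc (fun d hd => by have := hcon d hd; omega) (not_le.1 hlt))
  obtain ⟨d', hd', hd''⟩ := h1
  refine ⟨⟨d.1, d'.1, hd1, hd'', ?_⟩, ⟨fc d, fc d', hd2, ?_, ?_⟩⟩
  · exact Relation.ReflTransGen.trans (ocl_symm (Lp_v d hd3)) (Lp_v d' hd')
  · have := (sd_corner x d').1
    omega
  · exact Relation.ReflTransGen.trans (dcl_symm (Lp_f d hd3)) (Lp_f d' hd')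

/-! ### existence of loops -/

/-- same cluster, either colour -/
def Cl (z : Cfz) (g f : Face) : Prop :=
  g.2 = f.2 ∧ ((f.2 = false ∧ f.1 ∈ OCl z g.1) ∨ (f.2 = true ∧ f.1 ∈ DCl z g.1))

theorem Cl.refl (z : Cfz) (f : Face) : Cl z f f := by
  refine ⟨rfl, ?_⟩
  cases h : f.2
  · exact Or.inl ⟨rfl, .refl⟩
  · exact Or.inr ⟨rfl, .refl⟩

theorem Cl.trans {z : Cfz} {f g k : Face} (h1 : Cl z f g) (h2 : Cl z g k) : Cl z f k := by
  obtain ⟨a, b⟩ := h1
  obtain ⟨a', b'⟩ := h2
  refine ⟨a.trans a', ?_⟩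
  rcases b with ⟨b1, b2⟩ | ⟨b1, b2⟩ <;> rcases b' with ⟨b1', b2'⟩ | ⟨b1', b2'⟩
  · exact Or.inl ⟨b1', Relation.ReflTransGen.trans b2 b2'⟩
  · rw [b1, b1'] at a'; cases a'
  · rw [b1, b1'] at a'; cases a'
  · exact Or.inr ⟨b1', Relation.ReflTransGen.trans b2 b2'⟩

theorem Cl.symm {z : Cfz} {f g : Face} (h1 : Cl z f g) : Cl z g f := by
  obtain ⟨a, b⟩ := h1
  refine ⟨a.symm, ?_⟩
  rcases b with ⟨b1, b2⟩ | ⟨b1, b2⟩
  · exact Or.inl ⟨a.trans b1, ocl_symm b2⟩
  · exact Or.inr ⟨a.trans b1, dcl_symm b2⟩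

theorem lps_cl {z : Cfz} {A : Finset Face} (hA : A ∈ Lps z) {f g : Face} (h : Cl z f g) :
    f ∈ A ↔ g ∈ A := by
  obtain ⟨u, b⟩ := f
  obtain ⟨v, b'⟩ := g
  obtain ⟨a, h⟩ := h
  dsimp only at a
  subst a
  rcases h with ⟨b1, b2⟩ | ⟨b1, b2⟩
  · dsimp only at b1; subst b1
    exact lps_open hA b2
  · dsimp only at b1; subst b1
    exact lps_closed hA b2

/-- the ray of faces from `x` to the north east -/
def ray (x : P2) (j : ℕ) : Face := (dg x (j / 2), decide (j % 2 = 1))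

theorem ray_even (x : P2) (k : ℕ) : ray x (2 * k) = (dg x k, false) := by
  unfold ray
  rw [show 2 * k / 2 = k by omega, show 2 * k % 2 = 0 by omega]
  simp

theorem ray_odd (x : P2) (k : ℕ) : ray x (2 * k + 1) = (dg x k, true) := by
  unfold ray
  rw [show (2 * k + 1) / 2 = k by omega, show (2 * k + 1) % 2 = 1 by omega]
  simp

/-- the corner between `ray x j` and `ray x (j+1)` -/
theorem ray_corner (x : P2) (j : ℕ) : ∃ d : Corner,
    (cv d = ray x j ∧ cf d = ray x (j + 1)) ∨ (cf d = ray x j ∧ cv d = ray x (j + 1)) := by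
  rcases Nat.even_or_odd' j with ⟨k, rfl | rfl⟩
  · refine ⟨(dg x k, 0), Or.inl ?_⟩
    rw [ray_even, ray_odd]
    unfold cv cf
    rw [fc_zero]
    exact ⟨rfl, rfl⟩
  · refine ⟨(dg x (k + 1), 2), Or.inr ?_⟩
    rw [ray_odd, show 2 * k + 1 + 1 = 2 * (k + 1) by ring, ray_even]
    unfold cv cf
    refine ⟨?_, rfl⟩
    have : fc (dg x (k + 1), 2) = dg x k := by
      rw [← dg_dg, fc_dg2]
    rw [this]

theorem ray_far (x : P2) (j : ℕ) : (j / 2 : ℕ) ≤ sd x (ray x j).1 := by
  unfold ray sd dg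
  dsimp only
  have h1 : x.1 + ((j / 2 : ℕ) : ℤ) - x.1 = ((j / 2 : ℕ) : ℤ) := by ring
  rw [h1]
  exact le_max_of_le_left (le_abs_self _)

/-- **a loop between two boxes**: if no cluster of either colour meeting `BF x r` leaves `BF x R` then
some loop surrounds `BF x r` inside `BF x (R+1)` -/
theorem loop_between {z : Cfz} {x : P2} {r R : ℤ} (hr : 0 ≤ r)
    (h : ∀ f g : Face, f ∈ BF x r → Cl z f g → g ∈ BF x R) :
    ∃ A ∈ Lps z, BF x r ⊆ A ∧ A ⊆ BF x (R + 1) := by
  classical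
  set U : Set Face := {g | ∃ f ∈ BF x r, Cl z f g} with hU
  have hUR : ∀ g ∈ U, g ∈ BF x R := by
    rintro g ⟨f, hf, hfg⟩
    exact h f g hf hfg
  have hUcl : ∀ f g, f ∈ U → Cl z f g → g ∈ U := by
    rintro f g ⟨k, hk, hkf⟩ hfg
    exact ⟨k, hk, hkf.trans hfg⟩
  have hBU : ∀ f ∈ BF x r, f ∈ U := fun f hf => ⟨f, hf, Cl.refl z f⟩
  have hx0 : ray x 0 ∈ U := by
    refine hBU _ ?_
    rw [mem_BF]
    have : (ray x 0).1 = x := by simp [ray, dg]
    rw [this]
    unfold sd
    simpa using hr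
  -- last index on the ray
  obtain ⟨j, hjU, hjmax⟩ : ∃ j, ray x j ∈ U ∧ ∀ i, j < i → ray x i ∉ U := by
    have hfin : {j | ray x j ∈ U}.Finite := by
      refine (Set.finite_le_nat (2 * R.toNat + 1)).subset ?_
      intro j hj
      have h1 := hUR _ hj
      rw [mem_BF] at h1
      have h2 := ray_far x j
      have h3 : (j / 2 : ℕ) ≤ R.toNat := by
        have : ((j / 2 : ℕ) : ℤ) ≤ R := h2.trans h1
        omega
      show j ≤ 2 * R.toNat + 1
      omega
    obtain ⟨j, hj, hmax⟩ := hfin.exists_maximalFor id _ ⟨0, hx0⟩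
    refine ⟨j, hj, fun i hi hiU => ?_⟩
    have := hmax hiU (le_of_lt hi)
    simp only [id] at this
    omega
  obtain ⟨d, hd⟩ := ray_corner x j
  -- the strand through `d`
  have hone : ∀ d' ∈ Lp z d, ((cv d' ∈ U ∧ cf d' ∉ U) ∨ (cv d' ∉ U ∧ cf d' ∈ U)) := by
    intro d' hd'
    have e1 : Cl z (cv d) (cv d') := ⟨rfl, Or.inl ⟨rfl, Lp_v d' hd'⟩⟩
    have e2 : Cl z (cf d) (cf d') := ⟨rfl, Or.inr ⟨rfl, Lp_f d' hd'⟩⟩
    rcases hd with ⟨a, b⟩ | ⟨a, b⟩
    · left
      refine ⟨hUcl _ _ (by rw [a]; exact hjU) e1, fun hcon => ?_⟩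
      have := hUcl _ _ hcon e2.symm
      rw [b] at this
      exact hjmax _ (Nat.lt_succ_self j) this
    · right
      refine ⟨fun hcon => ?_, hUcl _ _ (by rw [a]; exact hjU) e2⟩
      have := hUcl _ _ hcon e1.symm
      rw [b] at this
      exact hjmax _ (Nat.lt_succ_self j) this
  have hfin : (Lp z d).Finite := by
    rcases hd with ⟨a, b⟩ | ⟨a, b⟩
    · refine Lp_finite_of_v ?_
      refine (((bx x R)).finite_toSet).subset fun v hv => ?_
      rw [Finset.mem_coe, mem_bx_sd]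
      have h1 : Cl z (cv d) (v, false) := ⟨rfl, Or.inl ⟨rfl, hv⟩⟩
      have h2 := hUR _ (hUcl _ _ (by rw [a]; exact hjU) h1)
      rw [mem_BF] at h2
      exact h2
    · refine Lp_finite_of_f ?_
      refine (((bx x R)).finite_toSet).subset fun v hv => ?_
      rw [Finset.mem_coe, mem_bx_sd]
      have h1 : Cl z (cf d) (v, true) := ⟨rfl, Or.inr ⟨rfl, hv⟩⟩
      have h2 := hUR _ (hUcl _ _ (by rw [a]; exact hjU) h1)
      rw [mem_BF] at h2
      exact h2
  obtain ⟨A, hA, hAf⟩ := exists_int hfin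
  have hsd : ∀ d' ∈ Lp z d, sd x d'.1 ≤ R + 1 := by
    intro d' hd'
    rcases hone d' hd' with ⟨a, _⟩ | ⟨_, a⟩
    · have := hUR _ a
      rw [mem_BF] at this
      have h2 : sd x d'.1 ≤ R := this
      omega
    · have := hUR _ a
      rw [mem_BF] at this
      have h2 : sd x (fc d') ≤ R := this
      have h3 := (sd_corner x d').1
      omega
  have hout : ∀ i, j < i → ray x i ∉ A := by
    have hstep : ∀ i, j < i → (ray x i ∈ A ↔ ray x (i + 1) ∈ A) := by
      intro i hi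
      obtain ⟨d', hd'⟩ := ray_corner x i
      have h1 := hjmax i hi
      have h2 := hjmax (i + 1) (by omega)
      have h3 : ¬ sepC A d' := by
        rw [sep_iff hfin hAf]
        intro hcon
        rcases hone d' hcon with ⟨a, _⟩ | ⟨_, a⟩ <;> rcases hd' with ⟨b, c⟩ | ⟨b, c⟩
        · exact h1 (b ▸ a)
        · exact h2 (c ▸ a)
        · exact h2 (c ▸ a)
        · exact h1 (b ▸ a)
      unfold sepC at h3
      rw [not_not] at h3
      rcases hd' with ⟨b, c⟩ | ⟨b, c⟩
      · rw [← b, ← c]; exact h3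
      · rw [← b, ← c]; exact h3.symm
    have hshift : ∀ n i, j < i → (ray x i ∈ A ↔ ray x (i + n) ∈ A) := by
      intro n
      induction n with
      | zero => intro i _; simp
      | succ n ih =>
          intro i hi
          rw [ih i hi, hstep (i + n) (by omega)]
          rw [show i + n + 1 = i + (n + 1) by ring]
    intro i hi hcon
    rw [hshift (2 * (R + 2).toNat) i hi, hAf] at hcon
    refine hcon (ht_out hfin hsd ?_)
    have h1 := ray_far x (i + 2 * (R + 2).toNat)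
    have h2 : ((R + 2).toNat : ℤ) ≤ ((i + 2 * (R + 2).toNat) / 2 : ℕ) := by
      push_cast; omega
    have h3 := Int.self_le_toNat (R + 2)
    linarith
  have hjA : ray x j ∈ A := by
    have h1 : sepC A d := (sep_iff hfin hAf d).2 (mem_Lp_self z d)
    have h2 := hout (j + 1) (Nat.lt_succ_self j)
    unfold sepC at h1
    rcases hd with ⟨b, c⟩ | ⟨b, c⟩
    · rw [b, c] at h1
      by_contra hcon
      exact h1 ⟨fun h => absurd h hcon, fun h => absurd h h2⟩
    · rw [b, c] at h1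
      by_contra hcon
      exact h1 ⟨fun h => absurd h h2, fun h => absurd h hcon⟩
  refine ⟨A, hA, ?_, ?_⟩
  · obtain ⟨k, hk, hkj⟩ := hjU
    have hkA : k ∈ A := (lps_cl hA hkj).2 hjA
    intro f hf
    refine (const_box (A := A) (x := x) (n := r) (fun d' h1 h2 h3 => ?_) hk hf).1 hkA
    rw [sep_iff hfin hAf] at h3
    rcases hone d' h3 with ⟨_, b⟩ | ⟨a, _⟩
    · exact b (hBU _ h2)
    · exact a (hBU _ h1)
  · intro f hf
    rw [mem_BF]
    by_contra hcon
    exact (hAf f).1 hf (ht_out hfin hsd (not_le.1 hcon))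

end Crest.Agent.R158.Wf850
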