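import Crest.Agent.R158.It4_200
import Crest.Agent.R158.Wf0_850
import Crest.Agent.R158.Vx1_107

/-!
# R158, Block V (helper107), file 2: the weight functional and its value at the strands of one edge

* `mass m A`  : charge of `m : Face →₀ ℝ` inside `A`;  `Ntr m` : total charge zero
* `W m z`     : `∏ᶠ A ∈ Lps z, Fw (mass m A)`
* `th m z c`  : pairing of `m` with the winding height of the strand through `c`
* `mass_eq`   : the charge inside the loop of `c` is `sg z c * th m z c`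
* `Rest z e`  : the loops of `z` not passing at the edge `e`; `rest_flip`
* `W_one`, `W_two` : factorisation if one / two strands pass at `e`
-/

set_option autoImplicit false

noncomputable section

namespace Crest.Agent.R158.Vx107

open Crest.Agent.R161.Geo729 Crest.Agent.R161.Dual374
open Crest.Agent.R161.Tas682 (sd)
open Crest.Agent.R158.It200 Crest.Agent.R158.Wf850
open Function

/-- charge inside `A` -/
def mass (m : Face →₀ ℝ) (A : Finset Face) : ℝ := ∑ f ∈ A, m f

/-- total charge -/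
def tot (m : Face →₀ ℝ) : ℝ := m.sum fun _ a => a

/-- neutral charges -/
def Ntr (m : Face →₀ ℝ) : Prop := tot m = 0

theorem mass_add (m x : Face →₀ ℝ) (A : Finset Face) : mass (m + x) A = mass m A + mass x A := by
  unfold mass; rw [← Finset.sum_add_distrib]; rfl

theorem mass_neg (m : Face →₀ ℝ) (A : Finset Face) : mass (-m) A = -mass m A := by
  unfold mass; rw [← Finset.sum_neg_distrib]; rfl

theorem mass_smul (r : ℝ) (m : Face →₀ ℝ) (A : Finset Face) : mass (r • m) A = r * mass m A := by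
  unfold mass; rw [Finset.mul_sum]; rfl

theorem tot_add (m x : Face →₀ ℝ) : tot (m + x) = tot m + tot x := by
  unfold tot
  rw [Finsupp.sum_add_index' (fun _ => rfl) (fun _ _ _ => rfl)]

theorem tot_neg (m : Face →₀ ℝ) : tot (-m) = -tot m := by
  have h := tot_add m (-m)
  rw [add_neg_cancel] at h
  have h0 : tot (0 : Face →₀ ℝ) = 0 := Finsupp.sum_zero_index
  rw [h0] at h
  linarith

theorem tot_smul (r : ℝ) (m : Face →₀ ℝ) : tot (r • m) = r * tot m := by
  unfold tot
  rw [Finsupp.sum_smul_index (fun _ => rfl), Finsupp.mul_sum]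

theorem Ntr.add {m x : Face →₀ ℝ} (h1 : Ntr m) (h2 : Ntr x) : Ntr (m + x) := by
  unfold Ntr at *
  rw [tot_add, h1, h2, add_zero]

theorem Ntr.neg {m : Face →₀ ℝ} (h1 : Ntr m) : Ntr (-m) := by
  unfold Ntr at *
  rw [tot_neg, h1, neg_zero]

theorem Ntr.smul {m : Face →₀ ℝ} (r : ℝ) (h1 : Ntr m) : Ntr (r • m) := by
  unfold Ntr at *
  rw [tot_smul, h1, mul_zero]

/-- the weight of a configuration -/
def W (m : Face →₀ ℝ) (z : Cfz) : ℝ := ∏ᶠ A ∈ Lps z, Fw (mass m A)

theorem sd_nonneg (x v : P2) : 0 ≤ sd x v := le_max_of_le_left (abs_nonneg _)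

/-- the support lies in a box -/
theorem exists_box (m : Face →₀ ℝ) : ∃ n : ℤ, m.support ⊆ BF (0, 0) n := by
  refine ⟨∑ f ∈ m.support, sd (0, 0) f.1, fun f hf => ?_⟩
  rw [mem_BF]
  exact Finset.single_le_sum (f := fun f : Face => sd (0, 0) f.1) (fun g _ => sd_nonneg _ _) hf

/-- a loop with non-zero charge splits a box containing the charges -/
theorem splits_of_mass {m : Face →₀ ℝ} (hm : Ntr m) {n : ℤ} (hn : m.support ⊆ BF (0, 0) n)
    {A : Finset Face} (hA : mass m A ≠ 0) : Splits A (BF (0, 0) n) := by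
  constructor
  · by_contra hcon
    push Not at hcon
    apply hA
    unfold mass
    refine Finset.sum_eq_zero fun f hf => ?_
    by_contra h
    exact hcon f (hn (Finsupp.mem_support_iff.2 h)) hf
  · by_contra hcon
    push Not at hcon
    apply hA
    have h1 : tot m = ∑ f ∈ A, m f :=
      Finsupp.sum_of_support_subset m (hn.trans hcon) _ (fun _ _ => rfl)
    unfold mass
    rw [← h1]; exact hm

theorem fin_mass {m : Face →₀ ℝ} (hm : Ntr m) (z : Cfz) :
    {A | A ∈ Lps z ∧ mass m A ≠ 0}.Finite := by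
  obtain ⟨n, hn⟩ := exists_box m
  exact (fin_split z (0, 0) n).subset fun A hA => ⟨hA.1, splits_of_mass hm hn hA.2⟩

theorem fin_supp {m : Face →₀ ℝ} (hm : Ntr m) {z : Cfz} {S : Set (Finset Face)} (hS : S ⊆ Lps z) :
    (S ∩ mulSupport fun A => Fw (mass m A)).Finite := by
  refine (fin_mass hm z).subset fun A hA => ⟨hS hA.1, fun h => hA.2 ?_⟩
  show Fw (mass m A) = 1
  rw [h, Fw_zero]

/-! ### pairing with heights -/

/-- pairing of the charge with the height of the strand through `c` -/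
def th (m : Face →₀ ℝ) (z : Cfz) (c : Corner) : ℝ := m.sum fun f a => a * (ht z c f : ℝ)

theorem th_add (m x : Face →₀ ℝ) (z : Cfz) (c : Corner) :
    th (m + x) z c = th m z c + th x z c := by
  unfold th
  exact Finsupp.sum_add_index' (fun _ => by ring) (fun _ _ _ => by ring)

theorem th_smul (r : ℝ) (m : Face →₀ ℝ) (z : Cfz) (c : Corner) :
    th (r • m) z c = r * th m z c := by
  unfold th
  rw [Finsupp.sum_smul_index (fun _ => by ring), Finsupp.mul_sum]
  exact Finsupp.sum_congr fun f _ => by ring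

theorem th_single (f : Face) (r : ℝ) (z : Cfz) (c : Corner) :
    th (Finsupp.single f r) z c = r * (ht z c f : ℝ) := by
  unfold th
  exact Finsupp.sum_single_index (by ring)

theorem th_neg (m : Face →₀ ℝ) (z : Cfz) (c : Corner) : th (-m) z c = -th m z c := by
  have h := th_smul (-1) m z c
  rw [neg_one_smul] at h
  rw [h]; ring

theorem ht_eq {z : Cfz} {c d : Corner} (h : d ∈ Lp z c) : ht z d = ht z c := by
  funext f; unfold ht; rw [hv_eq h, hf_eq h]

theorem th_eq {z : Cfz} {c d : Corner} (h : d ∈ Lp z c) (m : Face →₀ ℝ) : th m z d = th m z c := by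
  unfold th; rw [ht_eq h]

theorem ht_cases {z : Cfz} {c : Corner} (hfin : (Lp z c).Finite) (f : Face) :
    ht z c f = 0 ∨ ht z c f = sg z c := by
  obtain ⟨v, b⟩ := f
  cases b
  · exact hv_eq_sg hfin v
  · exact hf_eq_sg hfin v

theorem sg_one {z : Cfz} {c : Corner} (hfin : (Lp z c).Finite) : sg z c = 1 ∨ sg z c = -1 := by
  rcases sg_cases hfin with ⟨h, -⟩ | ⟨h, -⟩
  · exact Or.inr h
  · exact Or.inl h

theorem sg_one' {z : Cfz} {c : Corner} (hfin : (Lp z c).Finite) :
    (sg z c : ℝ) = 1 ∨ (sg z c : ℝ) = -1 := by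
  rcases sg_one hfin with h | h
  · left; rw [h]; norm_num
  · right; rw [h]; norm_num

theorem sg_eq {z : Cfz} {c d : Corner} (hfin : (Lp z c).Finite) (h : d ∈ Lp z c) :
    sg z d = sg z c := by
  have hfin' : (Lp z d).Finite := by rw [Lp_eq h]; exact hfin
  have e1 : hv z d d.1 + hf z d (fc d) = hv z c d.1 + hf z c (fc d) := by rw [hv_eq h, hf_eq h]
  have e2 : sg z d = hv z c d.1 + hf z c (fc d) := e1
  rcases sg_cases hfin with ⟨h0, h1, -⟩ | ⟨h0, h1, -⟩
  · rw [e2, h0, (h1 d h).1, (h1 d h).2]; rfl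
  · rw [e2, h0, (h1 d h).1, (h1 d h).2]; rfl

/-- **the charge inside a loop** -/
theorem mass_eq {z : Cfz} {c : Corner} (hfin : (Lp z c).Finite) {A : Finset Face}
    (hA : ∀ f, f ∈ A ↔ ht z c f ≠ 0) (m : Face →₀ ℝ) : mass m A = sg z c * th m z c := by
  classical
  have h1 : mass m A = ∑ f ∈ m.support, if f ∈ A then m f else 0 := by
    unfold mass
    rw [← Finset.sum_filter]
    refine (Finset.sum_subset_zero_on_sdiff ?_ ?_ fun _ _ => rfl).symm
    · intro f hf; exact (Finset.mem_filter.1 hf).2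
    · intro f hf
      rw [Finset.mem_sdiff, Finset.mem_filter, not_and_or] at hf
      rcases hf.2 with h | h
      · exact Finsupp.notMem_support_iff.1 h
      · exact absurd hf.1 h
  have hs : (sg z c : ℝ) * sg z c = 1 := by
    rcases sg_one' hfin with h | h <;> rw [h] <;> norm_num
  rw [h1]
  unfold th Finsupp.sum
  rw [Finset.mul_sum]
  refine Finset.sum_congr rfl fun f _ => ?_
  dsimp only
  by_cases hf : f ∈ A
  · rw [if_pos hf]
    have h2 := (hA f).1 hf
    rcases ht_cases hfin f with h | h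
    · exact absurd h h2
    · rw [h]
      calc m f = m f * 1 := (mul_one _).symm
        _ = m f * ((sg z c : ℝ) * sg z c) := by rw [hs]
        _ = _ := by ring
  · rw [if_neg hf]
    have h2 : ht z c f = 0 := by
      by_contra h
      exact hf ((hA f).2 h)
    rw [h2]; simp

/-! ### the strands at an edge -/

/-- loops of `z` which do not pass at `e` -/
def Rest (z : Cfz) (e : Edge) : Set (Finset Face) :=
  {A | A ∈ Lps z ∧ ¬ sepC A (i1 e) ∧ ¬ sepC A (i2 e)}

/-- their weight -/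
def RP (m : Face →₀ ℝ) (z : Cfz) (e : Edge) : ℝ := ∏ᶠ A ∈ Rest z e, Fw (mass m A)

theorem rest_flip_sub (z : Cfz) (e : Edge) : Rest z e ⊆ Rest (flip z e) e := by
  rintro A ⟨⟨c, hc, hA⟩, h1, h2⟩
  rw [sep_iff hc hA] at h1 h2
  have h3 : Lp (flip z e) c = Lp z c := flip_other h1 h2
  have h4 : JL (flip z e) c = JL z c := by unfold JL; rw [h3]
  have h5 : ht (flip z e) c = ht z c := by funext f; unfold ht hv hf; rw [h4]
  have hc' : (Lp (flip z e) c).Finite := by rw [h3]; exact hc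
  have hA' : ∀ f, f ∈ A ↔ ht (flip z e) c f ≠ 0 := by intro f; rw [h5]; exact hA f
  refine ⟨⟨c, hc', hA'⟩, ?_, ?_⟩
  · rw [sep_iff hc' hA', h3]; exact h1
  · rw [sep_iff hc' hA', h3]; exact h2

theorem rest_flip (z : Cfz) (e : Edge) : Rest (flip z e) e = Rest z e := by
  refine Set.Subset.antisymm ?_ (rest_flip_sub z e)
  have h := rest_flip_sub (flip z e) e
  rwa [It200.flip_flip] at h

theorem RP_flip (m : Face →₀ ℝ) (z : Cfz) (e : Edge) : RP m (flip z e) e = RP m z e := by
  unfold RP; rw [rest_flip]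

theorem fc_o2 (e : Edge) : fc (o2 e) = fc (i1 e) := by rw [← nxo_i1, fc_nxo]
theorem fc_o1 (e : Edge) : fc (o1 e) = fc (i2 e) := by rw [← nxo_i2, fc_nxo]

/-- the outgoing corners belong to the strands of the incoming ones -/
theorem out_mem (z : Cfz) (e : Edge) :
    (o1 e ∈ Lp z (i1 e) ∧ o2 e ∈ Lp z (i2 e)) ∨ (o1 e ∈ Lp z (i2 e) ∧ o2 e ∈ Lp z (i1 e)) := by
  cases h : z e with
  | true => exact Or.inr ⟨o1_mem_open h, o2_mem_open h⟩
  | false => exact Or.inl ⟨o1_mem_closed h, o2_mem_closed h⟩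

/-- the four faces at `e` are on the same side of a loop that does not pass at `e` -/
theorem rest_faces {z : Cfz} {e : Edge} {A : Finset Face} (hA : A ∈ Rest z e) :
    ((src e, false) ∈ A ↔ (tgt e, false) ∈ A) ∧ ((src e, false) ∈ A ↔ (fc (i1 e), true) ∈ A) ∧
      ((src e, false) ∈ A ↔ (fc (i2 e), true) ∈ A) := by
  obtain ⟨⟨c, hc, hA'⟩, h1, h2⟩ := hA
  have h3 : ¬ sepC A (o1 e) := by
    rw [sep_iff hc hA'] at h1 h2 ⊢
    intro h
    rcases out_mem z e with ⟨h4, -⟩ | ⟨h4, -⟩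
    · exact h1 (by rw [← Lp_eq h, Lp_eq h4]; exact mem_Lp_self _ _)
    · exact h2 (by rw [← Lp_eq h, Lp_eq h4]; exact mem_Lp_self _ _)
  unfold sepC cv cf at h1 h2 h3
  rw [not_not] at h1 h2 h3
  rw [fst_i1] at h1
  rw [fst_i2] at h2
  rw [fst_o1, fc_o1] at h3
  exact ⟨h3.trans h2.symm, h1, h3⟩

/-- one strand -/
theorem lps_one {z : Cfz} {e : Edge} (hfin : (Lp z (i1 e)).Finite) (h : i2 e ∈ Lp z (i1 e))
    {A : Finset Face} (hA : ∀ f, f ∈ A ↔ ht z (i1 e) f ≠ 0) :
    Lps z = insert A (Rest z e) ∧ A ∉ Rest z e := by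
  have hAL : A ∈ Lps z := ⟨_, hfin, hA⟩
  have s1 : sepC A (i1 e) := (sep_iff hfin hA _).2 (mem_Lp_self _ _)
  have s2 : sepC A (i2 e) := (sep_iff hfin hA _).2 h
  refine ⟨?_, fun h => h.2.1 s1⟩
  ext B
  constructor
  · intro hB
    by_cases b1 : sepC B (i1 e)
    · exact Or.inl (sep_uniq hB hAL b1 s1)
    · by_cases b2 : sepC B (i2 e)
      · exact Or.inl (sep_uniq hB hAL b2 s2)
      · exact Or.inr ⟨hB, b1, b2⟩
  · rintro (rfl | hB)
    · exact hAL
    · exact hB.1

/-- two strands -/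
theorem lps_two {z : Cfz} {e : Edge} (hfin : (Lp z (i1 e)).Finite) (hfin' : (Lp z (i2 e)).Finite)
    (h : i2 e ∉ Lp z (i1 e)) {A B : Finset Face} (hA : ∀ f, f ∈ A ↔ ht z (i1 e) f ≠ 0)
    (hB : ∀ f, f ∈ B ↔ ht z (i2 e) f ≠ 0) :
    Lps z = insert A (insert B (Rest z e)) ∧ A ∉ insert B (Rest z e) ∧ B ∉ Rest z e := by
  have hAL : A ∈ Lps z := ⟨_, hfin, hA⟩
  have hBL : B ∈ Lps z := ⟨_, hfin', hB⟩
  have s1 : sepC A (i1 e) := (sep_iff hfin hA _).2 (mem_Lp_self _ _)
  have s2 : sepC B (i2 e) := (sep_iff hfin' hB _).2 (mem_Lp_self _ _)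
  have s3 : ¬ sepC A (i2 e) := by rw [sep_iff hfin hA]; exact h
  refine ⟨?_, ?_, fun h => h.2.2 s2⟩
  · ext C
    constructor
    · intro hC
      by_cases b1 : sepC C (i1 e)
      · exact Or.inl (sep_uniq hC hAL b1 s1)
      · by_cases b2 : sepC C (i2 e)
        · exact Or.inr (Or.inl (sep_uniq hC hBL b2 s2))
        · exact Or.inr (Or.inr ⟨hC, b1, b2⟩)
    · rintro (rfl | rfl | hB)
      · exact hAL
      · exact hBL
      · exact hB.1
  · rintro (h' | h')
    · rw [h'] at s3; exact s3 s2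
    · exact h'.2.1 s1

theorem rest_sub (z : Cfz) (e : Edge) : Rest z e ⊆ Lps z := fun _ h => h.1

/-- **factorisation, one strand** -/
theorem W_one {z : Cfz} {e : Edge} (hfin : (Lp z (i1 e)).Finite) (h : i2 e ∈ Lp z (i1 e))
    {m : Face →₀ ℝ} (hm : Ntr m) :
    W m z = Fw (sg z (i1 e) * th m z (i1 e)) * RP m z e := by
  obtain ⟨A, -, hA⟩ := exists_int hfin
  obtain ⟨h1, h2⟩ := lps_one hfin h hA
  unfold W RP
  rw [h1, finprod_mem_insert' _ h2 (fin_supp hm (rest_sub z e)), mass_eq hfin hA]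

/-- **factorisation, two strands** -/
theorem W_two {z : Cfz} {e : Edge} (hfin : (Lp z (i1 e)).Finite) (hfin' : (Lp z (i2 e)).Finite)
    (h : i2 e ∉ Lp z (i1 e)) {m : Face →₀ ℝ} (hm : Ntr m) :
    W m z = Fw (sg z (i1 e) * th m z (i1 e)) * Fw (sg z (i2 e) * th m z (i2 e)) * RP m z e := by
  obtain ⟨A, -, hA⟩ := exists_int hfin
  obtain ⟨B, hBL, hB⟩ := exists_int hfin'
  obtain ⟨h1, h2, h3⟩ := lps_two hfin hfin' h hA hB
  have h4 : insert B (Rest z e) ⊆ Lps z := by
    rintro C (rfl | hC)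
    · exact hBL
    · exact hC.1
  unfold W RP
  rw [h1, finprod_mem_insert' _ h2 (fin_supp hm h4),
    finprod_mem_insert' _ h3 (fin_supp hm (rest_sub z e)), mass_eq hfin hA, mass_eq hfin' hB]
  ring

/-- charges which do not see the other loops -/
def Loc0 (x : Face →₀ ℝ) (z : Cfz) (e : Edge) : Prop := ∀ A ∈ Rest z e, mass x A = 0

theorem RP_add {m x : Face →₀ ℝ} {z : Cfz} {e : Edge} (h : Loc0 x z e) :
    RP (m + x) z e = RP m z e := by
  unfold RP
  refine finprod_mem_congr rfl fun A hA => ?_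
  rw [mass_add, h A hA, add_zero]

end Crest.Agent.R158.Vx107
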