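import Mathlib
import Crest.Agent.R158.Bk6_430
import Crest.Agent.R158.Vx2_107

/-!
# R158, Block B (helper430), file 7: dictionary between percolation and six-vertex coordinates

* `fm : Face → ℤ × ℤ`, `fmE`  : vertex `(x,y)` ↦ face `(x+y, y-x)`, dual face `(x,y)` ↦ `(x+y+1, y-x)`
* `ev : Edge → ℤ × ℤ`, `evE`  : edge `((x,y),false)` ↦ vertex `(x+y+1, y-x)`,
  `((x,y),true)` ↦ `(x+y+1, y-x+1)`
* `spl z` : splitting of the configuration `z`, `spl z (ev e) = xor (z e) e.2`
* `cm : Corner → ME ℤ ℤ`, `cm_nx : cm (nx z c) = nx (spl z) (cm c)`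
* `map_spl : (nu hf).map spl = PU`
* `H6` : height in six-vertex coordinates; `wst_cm`
-/

set_option autoImplicit false

noncomputable section

namespace Crest.Agent.R158.Bk430

open Finset MeasureTheory
open Crest.Agent.R161.Geo729 Crest.Agent.R161.Dual374
open Crest.Agent.R158.It200 (Cfz Corner Lp Lp_induct Lp_eq mem_Lp_self JL JL_mem JL_not_mem ah fc wa
  nxo nxc rl rr)
open Crest.Agent.R158.Wf850 (Face Lps cv cf ht sepC sep_iff exists_int)
open Crest.Agent.R158.Rs689 (PB nu)

/-! ### faces -/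

/-- percolation faces → six-vertex faces -/
def fm (f : Face) : ℤ × ℤ :=
  if f.2 then (f.1.1 + f.1.2 + 1, f.1.2 - f.1.1) else (f.1.1 + f.1.2, f.1.2 - f.1.1)

/-- the dictionary of the faces -/
def fmE : Face ≃ ℤ × ℤ where
  toFun := fm
  invFun v := if (v.1 + v.2) % 2 = 0 then (((v.1 - v.2) / 2, (v.1 + v.2) / 2), false)
    else (((v.1 - 1 - v.2) / 2, (v.1 - 1 + v.2) / 2), true)
  left_inv f := by
    obtain ⟨⟨x, y⟩, b⟩ := f
    cases b
    · simp only [fm, Bool.false_eq_true, if_false]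
      rw [if_pos (by omega)]
      congr 2 <;> omega
    · simp only [fm, if_true]
      rw [if_neg (by omega)]
      congr 2 <;> omega
  right_inv v := by
    obtain ⟨a, b⟩ := v
    simp only [fm]
    split_ifs with h1 h2 h2 <;> simp only [Prod.mk.injEq] <;> simp_all <;> omega

@[simp] theorem fmE_apply (f : Face) : fmE f = fm f := rfl

/-! ### edges -/

/-- percolation edges → six-vertex vertices -/
def ev (e : Edge) : ℤ × ℤ :=
  if e.2 then (e.1.1 + e.1.2 + 1, e.1.2 - e.1.1 + 1) else (e.1.1 + e.1.2 + 1, e.1.2 - e.1.1)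

/-- the dictionary of the edges -/
def evE : Edge ≃ ℤ × ℤ where
  toFun := ev
  invFun v := if (v.1 + v.2) % 2 = 0 then (((v.1 - v.2) / 2, (v.1 + v.2) / 2 - 1), true)
    else (((v.1 - 1 - v.2) / 2, (v.1 - 1 + v.2) / 2), false)
  left_inv e := by
    obtain ⟨⟨x, y⟩, b⟩ := e
    cases b
    · simp only [ev, Bool.false_eq_true, if_false]
      rw [if_neg (by omega)]
      congr 2 <;> omega
    · simp only [ev, if_true]
      rw [if_pos (by omega)]
      congr 2 <;> omega
  right_inv v := by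
    obtain ⟨a, b⟩ := v
    simp only [ev]
    split_ifs with h1 h2 h2 <;> simp only [Prod.mk.injEq] <;> simp_all <;> omega

@[simp] theorem evE_apply (e : Edge) : evE e = ev e := rfl

/-- splitting of a configuration -/
def spl (z : Cfz) : ℤ × ℤ → Bool := fun v => xor (z (evE.symm v)) (evE.symm v).2

theorem spl_ev (z : Cfz) (e : Edge) : spl z (ev e) = xor (z e) e.2 := by
  unfold spl
  rw [← evE_apply, Equiv.symm_apply_apply]

theorem vp_ev (e : Edge) : vp (ev e) = !e.2 := by
  obtain ⟨⟨x, y⟩, b⟩ := e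
  simp only [vp, par, ev]
  cases b
  · simp only [Bool.false_eq_true, if_false, Bool.not_false]
    by_cases h1 : (x + y + 1) % 2 = 1
    · have h2 : ¬ ((y - x) % 2 = 1) := by omega
      simp [h1, h2]
    · have h2 : ((y - x) % 2 = 1) := by omega
      simp [h1, h2]
  · simp only [if_true, Bool.not_true]
    by_cases h1 : (x + y + 1) % 2 = 1
    · have h2 : ((y - x + 1) % 2 = 1) := by omega
      simp [h1, h2]
    · have h2 : ¬ ((y - x + 1) % 2 = 1) := by omega
      simp [h1, h2]

/-! ### corners -/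

/-- corners → medial edges -/
def cm (c : Corner) : ME ℤ ℤ :=
  match c.2 with
  | 0 => ((c.1.1 + c.1.2 + 1, c.1.2 - c.1.1), true)
  | 1 => ((c.1.1 + c.1.2, c.1.2 - c.1.1), false)
  | 2 => ((c.1.1 + c.1.2, c.1.2 - c.1.1), true)
  | 3 => ((c.1.1 + c.1.2, c.1.2 - c.1.1 + 1), false)

/-- inverse of `cm` -/
def mc (e : ME ℤ ℤ) : Corner :=
  if e.2 then
    if (e.1.1 + e.1.2) % 2 = 0 then (((e.1.1 - e.1.2) / 2, (e.1.1 + e.1.2) / 2), 2)
    else (((e.1.1 - 1 - e.1.2) / 2, (e.1.1 - 1 + e.1.2) / 2), 0)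
  else
    if (e.1.1 + e.1.2) % 2 = 0 then (((e.1.1 - e.1.2) / 2, (e.1.1 + e.1.2) / 2), 1)
    else (((e.1.1 - e.1.2 + 1) / 2, (e.1.1 + e.1.2 - 1) / 2), 3)

theorem fin4 (q : Fin 4) : q = 0 ∨ q = 1 ∨ q = 2 ∨ q = 3 := by fin_cases q <;> simp

theorem cm0 (x y : ℤ) : cm ((x, y), 0) = ((x + y + 1, y - x), true) := rfl
theorem cm1 (x y : ℤ) : cm ((x, y), 1) = ((x + y, y - x), false) := rfl
theorem cm2 (x y : ℤ) : cm ((x, y), 2) = ((x + y, y - x), true) := rfl
theorem cm3 (x y : ℤ) : cm ((x, y), 3) = ((x + y, y - x + 1), false) := rfl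

theorem mc_cm (c : Corner) : mc (cm c) = c := by
  obtain ⟨⟨x, y⟩, q⟩ := c
  rcases fin4 q with rfl | rfl | rfl | rfl
  · rw [cm0]
    simp only [mc, if_true]
    rw [if_neg (by omega)]
    congr 2 <;> omega
  · rw [cm1]
    simp only [mc, Bool.false_eq_true, if_false]
    rw [if_pos (by omega)]
    congr 2 <;> omega
  · rw [cm2]
    simp only [mc, if_true]
    rw [if_pos (by omega)]
    congr 2 <;> omega
  · rw [cm3]
    simp only [mc, Bool.false_eq_true, if_false]
    rw [if_neg (by omega)]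
    congr 2 <;> omega

theorem cm_mc (e : ME ℤ ℤ) : cm (mc e) = e := by
  obtain ⟨⟨a, b⟩, c⟩ := e
  cases c
  · simp only [mc, Bool.false_eq_true, if_false]
    split_ifs with h
    · simp only [cm]; congr 2 <;> omega
    · simp only [cm]; congr 2 <;> omega
  · simp only [mc, if_true]
    split_ifs with h
    · simp only [cm]; congr 2 <;> omega
    · simp only [cm]; congr 2 <;> omega

/-- the dictionary of the medial edges -/
def cmE : Corner ≃ ME ℤ ℤ := ⟨cm, mc, mc_cm, cm_mc⟩

theorem vp_eq (a b : ℤ) : vp (a, b) = decide ((a + b) % 2 = 1) := by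
  simp only [vp, par]
  by_cases h1 : a % 2 = 1 <;> by_cases h2 : b % 2 = 1 <;> simp [h1, h2] <;> omega

theorem hd_cm (c : Corner) : hd (cm c) = ev (ah c) := by
  obtain ⟨⟨x, y⟩, q⟩ := c
  rcases fin4 q with rfl | rfl | rfl | rfl
  · have e : vp ((x + y + 1, y - x) : ℤ × ℤ) = true := by rw [vp_eq, decide_eq_true_eq]; omega
    rw [cm0]
    simp [hd, ah, ev, e] <;> omega
  · have e : vp ((x + y, y - x) : ℤ × ℤ) = false := by
      rw [vp_eq, decide_eq_false_iff_not]; omega
    rw [cm1]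
    simp [hd, ah, ev, e] <;> omega
  · have e : vp ((x + y, y - x) : ℤ × ℤ) = false := by
      rw [vp_eq, decide_eq_false_iff_not]; omega
    rw [cm2]
    simp [hd, ah, ev, e] <;> omega
  · have e : vp ((x + y, y - x + 1) : ℤ × ℤ) = true := by rw [vp_eq, decide_eq_true_eq]; omega
    rw [cm3]
    simp [hd, ah, ev, e] <;> omega

/-- **conjugation of the successor maps** -/
theorem cm_nx (z : Cfz) (c : Corner) : cm (It200.nx z c) = nx (spl z) (cm c) := by
  have h1 : spl z (hd (cm c)) = xor (z (ah c)) (ah c).2 := by rw [hd_cm, spl_ev]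
  unfold nx
  rw [h1, hd_cm]
  obtain ⟨⟨x, y⟩, q⟩ := c
  cases hz : z (ah ((x, y), q))
  · rw [It200.nx_closed hz]
    fin_cases q
    · have e : vp ((x + y + 1, y - x) : ℤ × ℤ) = true := by
        rw [vp_eq, decide_eq_true_eq]; omega
      simp [cm, nxc, rr, ah, ev, e] <;> omega
    · have e : vp ((x + y, y - x) : ℤ × ℤ) = false := by
        rw [vp_eq, decide_eq_false_iff_not]; omega
      simp [cm, nxc, rr, ah, ev, e] <;> omega
    · have e : vp ((x + y, y - x) : ℤ × ℤ) = false := by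
        rw [vp_eq, decide_eq_false_iff_not]; omega
      simp [cm, nxc, rr, ah, ev, e] <;> omega
    · have e : vp ((x + y, y - x + 1) : ℤ × ℤ) = true := by
        rw [vp_eq, decide_eq_true_eq]; omega
      simp [cm, nxc, rr, ah, ev, e] <;> omega
  · rw [It200.nx_open hz]
    fin_cases q
    · have e : vp ((x + y + 1, y - x) : ℤ × ℤ) = true := by
        rw [vp_eq, decide_eq_true_eq]; omega
      simp [cm, nxo, wa, rl, ah, ev, e] <;> omega
    · have e : vp ((x + y, y - x) : ℤ × ℤ) = false := by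
        rw [vp_eq, decide_eq_false_iff_not]; omega
      simp [cm, nxo, wa, rl, ah, ev, e] <;> omega
    · have e : vp ((x + y, y - x) : ℤ × ℤ) = false := by
        rw [vp_eq, decide_eq_false_iff_not]; omega
      simp [cm, nxo, wa, rl, ah, ev, e] <;> omega
    · have e : vp ((x + y, y - x + 1) : ℤ × ℤ) = true := by
        rw [vp_eq, decide_eq_true_eq]; omega
      simp [cm, nxo, wa, rl, ah, ev, e] <;> omega

theorem cm_iter (z : Cfz) (k : ℕ) (c : Corner) :
    cm ((It200.nx z)^[k] c) = (nx (spl z))^[k] (cm c) := by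
  induction k generalizing c with
  | zero => rfl
  | succ k ih => rw [Function.iterate_succ_apply, Function.iterate_succ_apply, ih, cm_nx]

end Crest.Agent.R158.Bk430
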