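import Mathlib
import Crest.Agent.R158.Bk7_430

/-!
# R158, Block B (helper430), file 8: the plane functional in percolation coordinates

* `map_spl : (nu hf).map spl = PU`
* `Gpl_W` : `Gpl (chC (m.mapDomain fm)) (spl z) = Vx107.W m z` if the strands through the paths
  are finite
* `Pi6_W` : `Pi6 (m.mapDomain fm) = ∫ z, Vx107.W m z ∂(nu hf)`
-/

set_option autoImplicit false

noncomputable section

namespace Crest.Agent.R158.Bk430

open Finset MeasureTheory
open Crest.Agent.R161.Geo729 Crest.Agent.R161.Dual374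
open Crest.Agent.R158.It200 (Cfz Corner Lp Lp_induct Lp_eq mem_Lp_self JL JL_mem JL_not_mem ah fc
  hv_grad sg nx_mem_Lp)
open Crest.Agent.R158.Wf850 (Face Lps cv cf ht sepC sep_iff exists_int sep_uniq ht_cv ht_cf)
open Crest.Agent.R158.Rs689 (PB nu bern bern_map_not PB_map_equiv hf)

/-! ### the law -/

theorem sym_hf : unitInterval.symm hf = hf := by
  ext
  simp [hf]
  norm_num

theorem bern_xor (b : Bool) : (bern hf).map (fun x => xor x b) = bern hf := by
  cases b
  · simp
  · have h := bern_map_not hf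
    rw [sym_hf] at h
    simpa using h

theorem meas_spl : Measurable spl :=
  measurable_pi_lambda _ fun v =>
    (Measurable.of_discrete (f := fun x : Bool => xor x (evE.symm v).2)).comp
      (measurable_pi_apply (evE.symm v))

theorem map_spl : (nu hf).map spl = PU := by
  have h1 : (PB fun _ : Edge => hf).map (fun (z : Edge → Bool) (v : ℤ × ℤ) => z (evE.symm v)) =
      PB fun _ : ℤ × ℤ => hf := PB_map_equiv evE (fun _ => hf)
  have h2 : (PB fun _ : ℤ × ℤ => hf).map (fun (z : ℤ × ℤ → Bool) (v : ℤ × ℤ) =>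
      xor (z v) (evE.symm v).2) = PB fun _ : ℤ × ℤ => hf := by
    unfold PB
    rw [Measure.infinitePi_map_pi (μ := fun _ : ℤ × ℤ => bern hf)
      (f := fun (v : ℤ × ℤ) (x : Bool) => xor x (evE.symm v).2) fun v => Measurable.of_discrete]
    congr 1
    funext v
    exact bern_xor _
  have h3 : spl = (fun (z : ℤ × ℤ → Bool) (v : ℤ × ℤ) => xor (z v) (evE.symm v).2) ∘
      (fun (z : Edge → Bool) (v : ℤ × ℤ) => z (evE.symm v)) := rfl
  have m1 : Measurable (fun (z : Edge → Bool) (v : ℤ × ℤ) => z (evE.symm v)) :=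
    measurable_pi_lambda _ fun v => measurable_pi_apply _
  have m2 : Measurable (fun (z : ℤ × ℤ → Bool) (v : ℤ × ℤ) => xor (z v) (evE.symm v).2) :=
    measurable_pi_lambda _ fun v =>
      (Measurable.of_discrete (f := fun x : Bool => xor x (evE.symm v).2)).comp
        (measurable_pi_apply v)
  rw [h3, ← Measure.map_map m2 m1]
  unfold nu PU
  rw [h1, h2]

/-! ### heights -/

/-- height of a strand in six-vertex coordinates -/
def H6 (z : Cfz) (c : Corner) (v : ℤ × ℤ) : ℝ := (ht z c (fmE.symm v) : ℝ)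

theorem H6_fm (z : Cfz) (c : Corner) (f : Face) : H6 z c (fm f) = ht z c f := by
  unfold H6
  rw [← fmE_apply, Equiv.symm_apply_apply]

/-- the medial edge of a corner separates its dual face and its vertex -/
theorem fm_cv (x y : ℤ) : fm ((x, y), false) = (x + y, y - x) := rfl
theorem fm_cf (x y : ℤ) : fm ((x, y), true) = (x + y + 1, y - x) := rfl

theorem jump_true {z : Cfz} {c : Corner} (hfin : (It200.Lp z c).Finite) {l : Finset (ME ℤ ℤ)}
    (hl : ∀ d, cm d ∈ l ↔ d ∈ It200.Lp z c) (i j : ℤ) :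
    H6 z c (i, j) - H6 z c (i - 1, j) = - grd l ((i, j), true) := by
  classical
  rcases Int.even_or_odd (i + j) with h | h
  · obtain ⟨x, y, rfl, rfl⟩ : ∃ x y : ℤ, i = x + y ∧ j = y - x :=
      ⟨(i - j) / 2, (i + j) / 2, by obtain ⟨k, hk⟩ := h; omega, by obtain ⟨k, hk⟩ := h; omega⟩
    have e1 : H6 z c (x + y, y - x) = It200.hv z c (x, y) := H6_fm z c ((x, y), false)
    have e2 : H6 z c (x + y - 1, y - x) = It200.hf z c (x - 1, y - 1) := by
      have := H6_fm z c ((x - 1, y - 1), true)
      rw [fm_cf] at this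
      rw [← show ((x - 1 + (y - 1) + 1, y - 1 - (x - 1)) : ℤ × ℤ) = (x + y - 1, y - x) from by
        congr 1 <;> ring]
      exact this
    have e3 := hv_grad hfin ((x, y), 2)
    have e4 : so (((x + y, y - x), true) : ME ℤ ℤ) = 1 := by
      unfold so ori
      rw [vp_eq]
      rw [decide_eq_false (by omega)]
      rfl
    have e5 : fc ((x, y), 2) = (x - 1, y - 1) := rfl
    rw [e5] at e3
    have e6 := hl ((x, y), 2)
    rw [cm2] at e6
    rw [e1, e2]
    unfold grd
    by_cases h3 : ((x, y), 2) ∈ It200.Lp z c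
    · rw [if_pos (e6.2 h3), e4]
      rw [JL_mem h3] at e3
      have e7 : (It200.hf z c (x - 1, y - 1) : ℝ) - (It200.hv z c (x, y) : ℝ) = 1 := by
        exact_mod_cast e3
      push_cast
      linarith
    · rw [if_neg (fun h => h3 (e6.1 h))]
      rw [JL_not_mem h3] at e3
      have e7 : (It200.hf z c (x - 1, y - 1) : ℝ) - (It200.hv z c (x, y) : ℝ) = 0 := by
        exact_mod_cast e3
      linarith
  · obtain ⟨x, y, rfl, rfl⟩ : ∃ x y : ℤ, i = x + y + 1 ∧ j = y - x :=
      ⟨(i - 1 - j) / 2, (i - 1 + j) / 2, by obtain ⟨k, hk⟩ := h; omega,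
        by obtain ⟨k, hk⟩ := h; omega⟩
    have e1 : H6 z c (x + y + 1, y - x) = It200.hf z c (x, y) := H6_fm z c ((x, y), true)
    have e2 : H6 z c (x + y + 1 - 1, y - x) = It200.hv z c (x, y) := by
      rw [add_sub_cancel_right]
      exact H6_fm z c ((x, y), false)
    have e3 := hv_grad hfin ((x, y), 0)
    have e4 : so (((x + y + 1, y - x), true) : ME ℤ ℤ) = -1 := by
      unfold so ori
      rw [vp_eq]
      rw [decide_eq_true (by omega)]
      rfl
    have e5 : fc ((x, y), 0) = (x, y) := rfl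
    rw [e5] at e3
    have e6 := hl ((x, y), 0)
    rw [cm0] at e6
    rw [e1, e2]
    unfold grd
    by_cases h3 : ((x, y), 0) ∈ It200.Lp z c
    · rw [if_pos (e6.2 h3), e4]
      rw [JL_mem h3] at e3
      have e7 : (It200.hf z c (x, y) : ℝ) - (It200.hv z c (x, y) : ℝ) = 1 := by
        exact_mod_cast e3
      push_cast
      linarith
    · rw [if_neg (fun h => h3 (e6.1 h))]
      rw [JL_not_mem h3] at e3
      have e7 : (It200.hf z c (x, y) : ℝ) - (It200.hv z c (x, y) : ℝ) = 0 := by
        exact_mod_cast e3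
      linarith

theorem jump_false {z : Cfz} {c : Corner} (hfin : (It200.Lp z c).Finite) {l : Finset (ME ℤ ℤ)}
    (hl : ∀ d, cm d ∈ l ↔ d ∈ It200.Lp z c) (i j : ℤ) :
    H6 z c (i, j) - H6 z c (i, j - 1) = grd l ((i, j), false) := by
  classical
  rcases Int.even_or_odd (i + j) with h | h
  · obtain ⟨x, y, rfl, rfl⟩ : ∃ x y : ℤ, i = x + y ∧ j = y - x :=
      ⟨(i - j) / 2, (i + j) / 2, by obtain ⟨k, hk⟩ := h; omega, by obtain ⟨k, hk⟩ := h; omega⟩
    have e1 : H6 z c (x + y, y - x) = It200.hv z c (x, y) := H6_fm z c ((x, y), false)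
    have e2 : H6 z c (x + y, y - x - 1) = It200.hf z c (x, y - 1) := by
      have := H6_fm z c ((x, y - 1), true)
      rw [fm_cf] at this
      rw [← show ((x + (y - 1) + 1, y - 1 - x) : ℤ × ℤ) = (x + y, y - x - 1) from by
        congr 1 <;> ring]
      exact this
    have e3 := hv_grad hfin ((x, y), 1)
    have e4 : so (((x + y, y - x), false) : ME ℤ ℤ) = -1 := by
      unfold so ori
      rw [vp_eq]
      rw [decide_eq_false (by omega)]
      rfl
    have e5 : fc ((x, y), 1) = (x, y - 1) := rfl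
    rw [e5] at e3
    have e6 := hl ((x, y), 1)
    rw [cm1] at e6
    rw [e1, e2]
    unfold grd
    by_cases h3 : ((x, y), 1) ∈ It200.Lp z c
    · rw [if_pos (e6.2 h3), e4]
      rw [JL_mem h3] at e3
      have e7 : (It200.hf z c (x, y - 1) : ℝ) - (It200.hv z c (x, y) : ℝ) = 1 := by
        exact_mod_cast e3
      push_cast
      linarith
    · rw [if_neg (fun h => h3 (e6.1 h))]
      rw [JL_not_mem h3] at e3
      have e7 : (It200.hf z c (x, y - 1) : ℝ) - (It200.hv z c (x, y) : ℝ) = 0 := by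
        exact_mod_cast e3
      linarith
  · obtain ⟨x, y, rfl, rfl⟩ : ∃ x y : ℤ, i = x + y ∧ j = y - x + 1 :=
      ⟨(i - j + 1) / 2, (i + j - 1) / 2, by obtain ⟨k, hk⟩ := h; omega,
        by obtain ⟨k, hk⟩ := h; omega⟩
    have e1 : H6 z c (x + y, y - x + 1) = It200.hf z c (x - 1, y) := by
      have := H6_fm z c ((x - 1, y), true)
      rw [fm_cf] at this
      rw [← show ((x - 1 + y + 1, y - (x - 1)) : ℤ × ℤ) = (x + y, y - x + 1) from by
        congr 1 <;> ring]
      exact this
    have e2 : H6 z c (x + y, y - x + 1 - 1) = It200.hv z c (x, y) := by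
      rw [add_sub_cancel_right]
      exact H6_fm z c ((x, y), false)
    have e3 := hv_grad hfin ((x, y), 3)
    have e4 : so (((x + y, y - x + 1), false) : ME ℤ ℤ) = 1 := by
      unfold so ori
      rw [vp_eq]
      rw [decide_eq_true (by omega)]
      rfl
    have e5 : fc ((x, y), 3) = (x - 1, y) := rfl
    rw [e5] at e3
    have e6 := hl ((x, y), 3)
    rw [cm3] at e6
    rw [e1, e2]
    unfold grd
    by_cases h3 : ((x, y), 3) ∈ It200.Lp z c
    · rw [if_pos (e6.2 h3), e4]
      rw [JL_mem h3] at e3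
      have e7 : (It200.hf z c (x - 1, y) : ℝ) - (It200.hv z c (x, y) : ℝ) = 1 := by
        exact_mod_cast e3
      push_cast
      linarith
    · rw [if_neg (fun h => h3 (e6.1 h))]
      rw [JL_not_mem h3] at e3
      have e7 : (It200.hf z c (x - 1, y) : ℝ) - (It200.hv z c (x, y) : ℝ) = 0 := by
        exact_mod_cast e3
      linarith

end Crest.Agent.R158.Bk430
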