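import Mathlib
import Crest.Agent.R158.Bk8_430

/-!
# R158, Block B (helper430), file 9: `Pi6 = ∫ W`

* `Gpl_W` : `Gpl (chC (m.mapDomain fm)) (spl z) = Vx107.W m z` if the strands through the paths
  are finite
* `Pi6_W` : `Pi6 (m.mapDomain fm) = ∫ z, Vx107.W m z ∂(nu hf)`
-/

set_option autoImplicit false

noncomputable section

namespace Crest.Agent.R158.Bk430

open Finset MeasureTheory
open Crest.Agent.R161.Geo729 Crest.Agent.R161.Dual374
open Crest.Agent.R158.It200 (Cfz Corner Lp_induct Lp_eq mem_Lp_self JL JL_mem JL_not_mem ah fc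
  hv_grad sg nx_mem_Lp nx_pv)
open Crest.Agent.R158.Wf850 (Face Lps cv cf ht sepC sep_iff exists_int sep_uniq ht_cv ht_cf)
open Crest.Agent.R158.Rs689 (PB nu hf)
open Crest.Agent.R158.Vx107 (Ntr tot mass Fw W mass_eq ht_cases sg_one' Fw_zero)

theorem cm_inj : Function.Injective cm := cmE.injective

theorem iter_mem_Lp (z : Cfz) (c : Corner) (k : ℕ) : (It200.nx z)^[k] c ∈ It200.Lp z c := by
  induction k with
  | zero => exact mem_Lp_self z c
  | succ k ih => rw [Function.iterate_succ_apply']; exact nx_mem_Lp.2 ih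

theorem px_stF {N : ℕ} {s : ℤ × ℤ → Bool} {e e' : ME ℤ ℤ} (he : ∀ k : ℕ, (nx s)^[k] e ∈ Bx N)
    (h : e' ∈ stF N s e) : px s e' ∈ stF N s e := by
  rw [mem_stF he] at h ⊢
  obtain ⟨k, rfl⟩ := h
  rcases Nat.eq_zero_or_pos k with rfl | hk
  · obtain ⟨p, hp, hpe⟩ := closes he
    refine ⟨p - 1, ?_⟩
    have : (nx s)^[p - 1 + 1] e = e := by rw [Nat.sub_add_cancel hp]; exact hpe
    rw [Function.iterate_succ_apply'] at this
    rw [Function.iterate_zero_apply]
    conv_rhs => rw [← this, px_nx]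
  · refine ⟨k - 1, ?_⟩
    conv_rhs => rw [← Nat.sub_add_cancel hk, Function.iterate_succ_apply', px_nx]

theorem cm_pv (z : Cfz) (c : Corner) : cm (It200.pv z c) = px (spl z) (cm c) := by
  have h := cm_nx z (It200.pv z c)
  rw [nx_pv] at h
  rw [h, px_nx]

theorem mem_strand {z : Cfz} {c : Corner} {N : ℕ}
    (he : ∀ k : ℕ, (nx (spl z))^[k] (cm c) ∈ Bx N) (d : Corner) :
    cm d ∈ stF N (spl z) (cm c) ↔ d ∈ It200.Lp z c := by
  constructor
  · intro h
    rw [mem_stF he] at h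
    obtain ⟨k, hk⟩ := h
    rw [← cm_iter] at hk
    rw [← cm_inj hk]
    exact iter_mem_Lp z c k
  · refine Lp_induct (P := fun d => cm d ∈ stF N (spl z) (cm c)) ?_ ?_ ?_ d
    · rw [mem_stF he]; exact ⟨0, rfl⟩
    · intro d _ hd
      rw [mem_stF he] at hd ⊢
      obtain ⟨k, hk⟩ := hd
      exact ⟨k + 1, by rw [Function.iterate_succ_apply', hk, cm_nx]⟩
    · intro d _ hd
      rw [cm_pv]
      exact px_stF he hd

theorem fin_strand {z : Cfz} {c : Corner} {N : ℕ}
    (he : ∀ k : ℕ, (nx (spl z))^[k] (cm c) ∈ Bx N) : (It200.Lp z c).Finite := by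
  refine Set.Finite.subset (Set.Finite.preimage (cm_inj.injOn)
    (Finset.finite_toSet (stF N (spl z) (cm c)))) fun d hd => ?_
  exact (mem_strand he d).2 hd

theorem exists_Bx (S : Set (ME ℤ ℤ)) (hS : S.Finite) : ∃ N : ℕ, ∀ e ∈ S, e ∈ Bx N := by
  refine ⟨hS.toFinset.sup fun e => max e.1.1.natAbs e.1.2.natAbs, fun e he => ?_⟩
  have h1 : max e.1.1.natAbs e.1.2.natAbs ≤
      hS.toFinset.sup fun e : ME ℤ ℤ => max e.1.1.natAbs e.1.2.natAbs :=
    Finset.le_sup (f := fun e : ME ℤ ℤ => max e.1.1.natAbs e.1.2.natAbs)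
      (hS.mem_toFinset.2 he)
  rw [max_le_iff] at h1
  rw [mem_Bx]
  omega

theorem loc_of_fin {z : Cfz} {c : Corner} (h : (It200.Lp z c).Finite) :
    ∃ N : ℕ, ∀ k : ℕ, (nx (spl z))^[k] (cm c) ∈ Bx N := by
  obtain ⟨N, hN⟩ := exists_Bx (cm '' It200.Lp z c) (h.image _)
  refine ⟨N, fun k => ?_⟩
  rw [← cm_iter]
  exact hN _ ⟨_, iter_mem_Lp z c k, rfl⟩

/-! ### the weight of a strand -/

theorem sum_m6 (m : Face →₀ ℝ) (z : Cfz) (c : Corner) :
    ((m.mapDomain fm).sum fun pq a => a * H6 z c pq) = Vx107.th m z c := by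
  rw [Finsupp.sum_mapDomain_index (fun _ => by ring) (fun _ _ _ => by ring)]
  unfold Vx107.th
  refine Finsupp.sum_congr fun f _ => ?_
  rw [H6_fm]

theorem ntr_m6 {m : Face →₀ ℝ} (hm : Ntr m) : (m.mapDomain fm).sum (fun _ a => a) = 0 := by
  rw [Finsupp.sum_mapDomain_index (fun _ => rfl) (fun _ _ _ => rfl)]
  exact hm

theorem H6_fin {z : Cfz} {c : Corner} {A : Finset Face} (hA : ∀ f, f ∈ A ↔ ht z c f ≠ 0) :
    (Function.support (H6 z c)).Finite := by
  refine Set.Finite.subset ((Finset.finite_toSet A).image fm) fun v hv => ?_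
  refine ⟨fmE.symm v, ?_, ?_⟩
  · rw [Finset.mem_coe, hA]
    intro h
    apply hv
    unfold H6
    rw [h]
    norm_num
  · rw [← fmE_apply, Equiv.apply_symm_apply]

theorem wst_fin {z : Cfz} {c : Corner} {N : ℕ}
    (he : ∀ k : ℕ, (nx (spl z))^[k] (cm c) ∈ Bx N) {m : Face →₀ ℝ} (hm : Ntr m)
    {A : Finset Face} (hA : ∀ f, f ∈ A ↔ ht z c f ≠ 0) :
    wst (chC (m.mapDomain fm)) (spl z) (stF N (spl z) (cm c)) = Fw (mass m A) := by
  have hfin := fin_strand he
  have hl : ∀ d, cm d ∈ stF N (spl z) (cm c) ↔ d ∈ It200.Lp z c := mem_strand he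
  obtain ⟨ε, u, hε, hu, hw⟩ := wst_closed he (H6 z c) (H6_fin hA)
    (fun i j => jump_true hfin hl i j) (fun i j => jump_false hfin hl i j)
    (m.mapDomain fm) (ntr_m6 hm)
  rw [hw, sum_m6, mass_eq hfin hA]
  have h1 : ε = sg z c := by
    unfold H6 at hu
    rcases ht_cases hfin (fmE.symm u) with h | h
    · rw [h] at hu
      push_cast at hu
      rcases hε with h' | h' <;> rw [h'] at hu <;> norm_num at hu
    · rw [h] at hu
      exact hu.symm
  rw [h1]
  rfl

/-- a loop that does not meet the paths has charge zero -/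
theorem mass_zero {z : Cfz} {c : Corner} {N : ℕ}
    (he : ∀ k : ℕ, (nx (spl z))^[k] (cm c) ∈ Bx N) {m : Face →₀ ℝ} (hm : Ntr m)
    {A : Finset Face} (hA : ∀ f, f ∈ A ↔ ht z c f ≠ 0)
    (hd : ∀ e ∈ (chC (m.mapDomain fm)).support, e ∉ stF N (spl z) (cm c)) : mass m A = 0 := by
  classical
  have hfin := fin_strand he
  have hl : ∀ d, cm d ∈ stF N (spl z) (cm c) ↔ d ∈ It200.Lp z c := mem_strand he
  have h1 := lc_chC_grad (H6 z c) (grd (stF N (spl z) (cm c)))
    (fun i j => jump_true hfin hl i j) (fun i j => jump_false hfin hl i j)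
    (m.mapDomain fm) (ntr_m6 hm)
  rw [sum_m6] at h1
  rw [mass_eq hfin hA, ← h1, Finsupp.linearCombination_apply, Finsupp.sum]
  rw [Finset.sum_eq_zero, mul_zero]
  intro e he'
  unfold grd
  rw [if_neg (hd e he'), smul_zero]

/-! ### the functional -/

/-- **the plane functional of the paths is the product over the loops** -/
theorem Gpl_W {z : Cfz} {N : ℕ} {m : Face →₀ ℝ} (hm : Ntr m)
    (hl : Loc (chC (m.mapDomain fm)) N (spl z)) :
    Gpl (chC (m.mapDomain fm)) (spl z) = W m z := by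
  classical
  rw [Gpl_eq hl]
  unfold GN
  rw [if_pos hl]
  set C := chC (m.mapDomain fm) with hC
  set s := spl z with hs
  have hcm : ∀ e : ME ℤ ℤ, ∃ c, cm c = e := fun e => ⟨mc e, cm_mc e⟩
  have h1 : ∀ l ∈ C.support.image (stF N s), ∃ A, A ∈ Lps z ∧ (∀ d, sepC A d ↔ cm d ∈ l) ∧
      wst C s l = Fw (mass m A) := by
    intro l hl'
    rw [mem_image] at hl'
    obtain ⟨e, he, rfl⟩ := hl'
    obtain ⟨c, rfl⟩ := hcm e
    have h2 := hl _ he
    have hfin := fin_strand h2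
    obtain ⟨A, hAL, hA⟩ := exists_int hfin
    refine ⟨A, hAL, fun d => ?_, wst_fin h2 hm hA⟩
    rw [sep_iff hfin hA, mem_strand h2]
  choose! Φ hΦ1 hΦ2 hΦ3 using h1
  have hinj : Set.InjOn Φ (C.support.image (stF N s) : Finset (Finset (ME ℤ ℤ))) := by
    intro l1 hl1 l2 hl2 h
    ext e
    obtain ⟨c, rfl⟩ := hcm e
    rw [← hΦ2 l1 hl1, ← hΦ2 l2 hl2, h]
  have h2 : ∏ l ∈ C.support.image (stF N s), wst C s l =
      ∏ A ∈ (C.support.image (stF N s)).image Φ, Fw (mass m A) := by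
    rw [Finset.prod_image hinj]
    exact Finset.prod_congr rfl fun l hl' => hΦ3 l hl'
  rw [h2]
  unfold W
  symm
  refine finprod_mem_eq_prod_of_inter_mulSupport_eq _ ?_
  ext A
  simp only [Set.mem_inter_iff]
  refine and_congr_left fun hA1 => ?_
  constructor
  · intro hA2
    obtain ⟨c, hc, hA⟩ := id hA2
    obtain ⟨N', he'⟩ := loc_of_fin hc
    have hmass : mass m A ≠ 0 := by
      intro h
      apply hA1
      show Fw (mass m A) = 1
      rw [h, Fw_zero]
    have h3 : ∃ e ∈ C.support, e ∈ stF N' s (cm c) := by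
      by_contra hcon
      push Not at hcon
      exact hmass (mass_zero he' hm hA hcon)
    obtain ⟨e, he, hel⟩ := h3
    obtain ⟨d, rfl⟩ := hcm e
    have h4 : stF N s (cm d) ∈ C.support.image (stF N s) := mem_image_of_mem _ he
    have h5 : sepC (Φ (stF N s (cm d))) d := by
      rw [hΦ2 _ h4, mem_stF (hl _ he)]
      exact ⟨0, rfl⟩
    have h6 : sepC A d := by
      rw [sep_iff hc hA, ← mem_strand he']
      exact hel
    rw [sep_uniq hA2 (hΦ1 _ h4) h6 h5]
    exact Finset.mem_coe.2 (mem_image_of_mem _ h4)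
  · intro hA2
    rw [Finset.mem_coe, mem_image] at hA2
    obtain ⟨l, hl', rfl⟩ := hA2
    exact hΦ1 l hl'

theorem fin_all (hF : FinS) : ∀ᵐ z ∂(nu hf), ∀ e : ME ℤ ℤ, ∃ N : ℕ, ∀ k : ℕ,
    (nx (spl z))^[k] e ∈ Bx N := by
  unfold FinS at hF
  rw [← map_spl] at hF
  exact ae_of_ae_map meas_spl.aemeasurable hF

/-- **the plane functional in percolation coordinates** -/
theorem Pi6_W (hF : FinS) {m : Face →₀ ℝ} (hm : Ntr m) :
    Pi6 (m.mapDomain fm) = ∫ z, W m z ∂(nu hf) := by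
  unfold Pi6
  rw [← map_spl, integral_map meas_spl.aemeasurable (meas_Gpl _).aestronglyMeasurable]
  refine integral_congr_ae ?_
  filter_upwards [fin_all hF] with z hz
  obtain ⟨N, hN⟩ := exists_Loc hz (chC (m.mapDomain fm))
  exact Gpl_W hm hN

end Crest.Agent.R158.Bk430
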