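import Crest.Agent.R158.En5_510

/-!
# Row 158, block EN (helper510), part 6: finite families of concentric squares

* `fg a s` : the density `∑ i, a i • Uq (s i)`, `mug a s` the signed measure
* `energy_mug`, `quad_nonpos`
* `star_fam` : (STAR) for a finite family of concentric squares
-/

set_option autoImplicit false

noncomputable section

open MeasureTheory Filter Topology Set
open scoped ENNReal NNReal
open Crest.ProbabilityR.SixVertex

namespace Crest.Agent.R158.En510

open Crest.Agent.R158.Bs410 (CC chg chg_apply mass StarLat Law3 plane_char)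

variable {ι : Type*} [Fintype ι]

/-- density of a finite family of concentric charges -/
def fg (a s : ι → ℝ) (x : P2r) : ℝ := ∑ i, a i * Uq (s i) x

lemma le_sum_abs (s : ι → ℝ) (i : ι) : s i ≤ ∑ j, |s j| :=
  (le_abs_self _).trans (Finset.single_le_sum (f := fun j => |s j|) (fun _ _ => abs_nonneg _)
      (Finset.mem_univ i))

lemma pf_fg (a s : ι → ℝ) :
    Pf (fg a s) (2 * ∑ j, |s j|) (∑ i, |a i| * (4 * s i ^ 2)⁻¹) :=
  Pf.sum Finset.univ (fun _ _ => le_rfl) fun i _ => (pf_Uq (le_sum_abs s i)).const_mul (a i)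

lemma integral_fg (a : ι → ℝ) {s : ι → ℝ} (hs : ∀ i, 0 < s i) :
    ∫ x, fg a s x = ∑ i, a i := by
  unfold fg
  rw [integral_finsetSum]
  · refine Finset.sum_congr rfl fun i _ => ?_
    rw [integral_const_mul, integral_Uq (hs i), mul_one]
  · exact fun i _ => ((pf_Uq (le_refl (s i))).integrable).const_mul _

lemma En_fg (a s : ι → ℝ) :
    En (fg a s) (fg a s) = ∑ i, ∑ j, a i * a j * En (Uq (s i)) (Uq (s j)) := by
  have h1 := En_sum_left Finset.univ (f := fun i x => a i * Uq (s i) x)
    (fun i _ => (pf_Uq (le_sum_abs s i)).const_mul (a i)) (pf_fg a s)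
  have h2 : ∀ i, En (fun x => a i * Uq (s i) x) (fg a s) =
      ∑ j, a i * a j * En (Uq (s i)) (Uq (s j)) := by
    intro i
    rw [En_const_mul_left]
    have h3 := En_sum_right Finset.univ (f := fun j x => a j * Uq (s j) x)
      (fun j _ => (pf_Uq (le_sum_abs s j)).const_mul (a j)) (pf_Uq (le_sum_abs s i))
    have h4 : En (Uq (s i)) (fg a s) = ∑ j, a j * En (Uq (s i)) (Uq (s j)) := by
      refine Eq.trans h3 (Finset.sum_congr rfl fun j _ => En_const_mul_right _ _ _)
    rw [h4, Finset.mul_sum]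
    exact Finset.sum_congr rfl fun j _ => by ring
  exact h1.trans (Finset.sum_congr rfl fun i _ => h2 i)

/-- the logarithmic quadratic form of the sizes -/
def quad (a s : ι → ℝ) : ℝ := ∑ i, ∑ j, a i * a j * Real.log (max (s i) (s j))

lemma En_fg_quad (a : ι → ℝ) {s : ι → ℝ} (hs : ∀ i, 0 < s i) :
    |En (fg a s) (fg a s) + (2 * Real.pi)⁻¹ * quad a s| ≤ cq * (∑ i, |a i|) ^ 2 := by
  rw [En_fg, quad, Finset.mul_sum, ← Finset.sum_add_distrib]
  have e2 : ∀ i, (∑ j, a i * a j * En (Uq (s i)) (Uq (s j))) +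
      (2 * Real.pi)⁻¹ * ∑ j, a i * a j * Real.log (max (s i) (s j)) =
      ∑ j, a i * a j * (En (Uq (s i)) (Uq (s j)) +
        (2 * Real.pi)⁻¹ * Real.log (max (s i) (s j))) := by
    intro i
    rw [Finset.mul_sum, ← Finset.sum_add_distrib]
    exact Finset.sum_congr rfl fun j _ => by ring
  simp only [e2]
  calc |∑ i, ∑ j, a i * a j * (En (Uq (s i)) (Uq (s j)) +
        (2 * Real.pi)⁻¹ * Real.log (max (s i) (s j)))|
      ≤ ∑ i, ∑ j, |a i| * |a j| * cq := by
        refine (Finset.abs_sum_le_sum_abs _ _).trans (Finset.sum_le_sum fun i _ => ?_)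
        refine (Finset.abs_sum_le_sum_abs _ _).trans (Finset.sum_le_sum fun j _ => ?_)
        rw [abs_mul, abs_mul]
        exact mul_le_mul_of_nonneg_left (En_Uq (hs i) (hs j)) (by positivity)
    _ = cq * (∑ i, |a i|) ^ 2 := by
        rw [pow_two, Finset.sum_mul_sum, Finset.mul_sum]
        refine Finset.sum_congr rfl fun i _ => ?_
        rw [Finset.mul_sum]
        exact Finset.sum_congr rfl fun j _ => by ring

/-- the logarithmic form is nonpositive on neutral charges -/
lemma quad_nonpos {a : ι → ℝ} (ha : ∑ i, a i = 0) {s : ι → ℝ} (hs : ∀ i, 1 ≤ s i) :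
    quad a s ≤ 0 := by
  set S : ℝ := ∑ j, |s j| + 1 with hS
  have hsS : ∀ i, s i ≤ S := fun i => (le_sum_abs s i).trans (by rw [hS]; linarith)
  have hS1 : 1 ≤ S := by
    rw [hS]; have : 0 ≤ ∑ j, |s j| := Finset.sum_nonneg fun j _ => abs_nonneg _
    linarith
  -- `log S - log (max s s') = ∫ t in 1..S, 1[s ≤ t] 1[s' ≤ t] / t`
  set H : ι → ℝ → ℝ := fun i t => if s i ≤ t then 1 else 0 with hH
  have hHm : ∀ i, Measurable (H i) := fun i =>
    Measurable.ite measurableSet_Ici measurable_const measurable_const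
  have hI : ∀ i j, IntegrableOn (fun t => H i t * H j t * t⁻¹) (Ioc 1 S) := by
    intro i j
    refine Measure.integrableOn_of_bounded (M := 1) (measure_Ioc_lt_top).ne
      (((hHm i).mul (hHm j)).mul measurable_inv).aestronglyMeasurable ?_
    filter_upwards [ae_restrict_mem measurableSet_Ioc] with t ht
    have ht0 : 0 < t := one_pos.trans ht.1
    have h1 : t⁻¹ ≤ 1 := inv_le_one_of_one_le₀ ht.1.le
    have h2 : 0 ≤ t⁻¹ := (inv_pos.2 ht0).le
    rw [Real.norm_eq_abs, abs_mul, abs_of_nonneg h2]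
    have h3 : |H i t * H j t| ≤ 1 := by
      simp only [hH]; split_ifs <;> simp
    calc |H i t * H j t| * t⁻¹ ≤ 1 * 1 := mul_le_mul h3 h1 h2 zero_le_one
      _ = 1 := one_mul 1
  have key : ∀ i j, ∫ t in Ioc 1 S, H i t * H j t * t⁻¹ =
      Real.log S - Real.log (max (s i) (s j)) := by
    intro i j
    set m := max (s i) (s j) with hm
    have hm1 : 1 ≤ m := (hs i).trans (le_max_left _ _)
    have hmS : m ≤ S := max_le (hsS i) (hsS j)
    have hm0 : 0 < m := one_pos.trans_le hm1
    have e1 : ∀ t, H i t * H j t = if m ≤ t then 1 else 0 := by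
      intro t
      simp only [hH]
      by_cases h1 : s i ≤ t
      · by_cases h2 : s j ≤ t
        · rw [if_pos h1, if_pos h2, if_pos (max_le h1 h2), mul_one]
        · rw [if_neg h2, if_neg (fun h => h2 ((le_max_right _ _).trans h)), mul_zero]
      · rw [if_neg h1, if_neg (fun h => h1 ((le_max_left _ _).trans h)), zero_mul]
    simp only [e1]
    rw [← intervalIntegral.integral_of_le hS1,
      ← intervalIntegral.integral_add_adjacent_intervals (b := m)]
    · have a1 : ∫ t in (1:ℝ)..m, (if m ≤ t then (1:ℝ) else 0) * t⁻¹ = 0 := by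
        rw [intervalIntegral.integral_of_le hm1, integral_Ioc_eq_integral_Ioo]
        rw [setIntegral_congr_fun (g := fun _ => (0:ℝ)) measurableSet_Ioo]
        · simp
        · intro t ht
          simp only [if_neg (not_le.2 ht.2), zero_mul]
      have a2 : ∫ t in m..S, (if m ≤ t then (1:ℝ) else 0) * t⁻¹ = ∫ t in m..S, t⁻¹ := by
        refine intervalIntegral.integral_congr fun t ht => ?_
        rw [uIcc_of_le hmS] at ht
        simp only [if_pos ht.1, one_mul]
      rw [a1, a2, zero_add, integral_inv_of_pos hm0 (hm0.trans_le hmS), Real.log_div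
        (hm0.trans_le hmS).ne' hm0.ne']
    · rw [intervalIntegrable_iff_integrableOn_Ioc_of_le hm1]
      have := (hI i j).mono_set (Ioc_subset_Ioc_right hmS)
      simpa only [e1] using this
    · rw [intervalIntegrable_iff_integrableOn_Ioc_of_le hmS]
      have := (hI i j).mono_set (Ioc_subset_Ioc_left hm1)
      simpa only [e1] using this
  have e3 : quad a s = - ∫ t in Ioc 1 S, (∑ i, a i * H i t) ^ 2 * t⁻¹ := by
    have b1 : ∀ t, (∑ i, a i * H i t) ^ 2 * t⁻¹ =
        ∑ i, ∑ j, a i * a j * (H i t * H j t * t⁻¹) := by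
      intro t
      rw [pow_two, Finset.sum_mul_sum, Finset.sum_mul]
      refine Finset.sum_congr rfl fun i _ => ?_
      rw [Finset.sum_mul]
      exact Finset.sum_congr rfl fun j _ => by ring
    simp only [b1]
    rw [integral_finsetSum _ fun i _ => integrable_finsetSum _ fun j _ => (hI i j).const_mul _]
    have b2 : ∀ i, ∫ t in Ioc 1 S, ∑ j, a i * a j * (H i t * H j t * t⁻¹) =
        ∑ j, a i * a j * (Real.log S - Real.log (max (s i) (s j))) := by
      intro i
      rw [integral_finsetSum _ fun j _ => (hI i j).const_mul _]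
      exact Finset.sum_congr rfl fun j _ => by rw [integral_const_mul, key]
    simp only [b2]
    have b3 : ∑ i, ∑ j, a i * a j * (Real.log S - Real.log (max (s i) (s j))) =
        (∑ i, a i) * (∑ j, a j) * Real.log S - quad a s := by
      rw [quad, Finset.sum_mul_sum, Finset.sum_mul, ← Finset.sum_sub_distrib]
      refine Finset.sum_congr rfl fun i _ => ?_
      rw [Finset.sum_mul, ← Finset.sum_sub_distrib]
      exact Finset.sum_congr rfl fun j _ => by ring
    rw [b3, ha]
    ring
  rw [e3, neg_nonpos]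
  refine setIntegral_nonneg measurableSet_Ioc fun t ht => ?_
  have ht0 : 0 < t := one_pos.trans ht.1
  positivity

/-- the literal signed measure of a family of concentric charges -/
def mug (a s : ι → ℝ) : SignedMeasure P2r := sd (fg a s)

theorem carrier_mug (a s : ι → ℝ) :
    ∃ Z : Set P2r, IsCompact Z ∧ (mug a s).variation Zᶜ = 0 := carrier_sd (pf_fg a s)

theorem mass_mug {a : ι → ℝ} (ha : ∑ i, a i = 0) {s : ι → ℝ} (hs : ∀ i, 0 < s i) :
    mug a s univ = 0 := by
  rw [mug, mass_sd (pf_fg a s).integrable, integral_fg a hs, ha]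

theorem fin_mug (a s : ι → ℝ) : HasFiniteEnergy (mug a s) := fin_sd (pf_fg a s)

theorem energy_mug (a : ι → ℝ) {s : ι → ℝ} (hs : ∀ i, 0 < s i) :
    |energy (mug a s) + (2 * Real.pi)⁻¹ * quad a s| ≤ cq * (∑ i, |a i|) ^ 2 := by
  rw [mug, energy_sd (pf_fg a s)]
  exact En_fg_quad a hs

/-- the lattice charge of a family of concentric squares -/
def chf (a : ι → ℝ) (s : ι → ℕ) (r : ℕ) : ℤ × ℤ →₀ ℝ := ∑ i, a i • sqc (s i * r)

lemma chf_apply (a : ι → ℝ) (s : ι → ℕ) (r : ℕ) (p : ℤ × ℤ) :
    chf a s r p = ∑ i, a i * uq (s i * r) p.1 p.2 := by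
  simp [chf, Finsupp.finsetSum_apply, sqc_apply]

theorem mug_cell (a : ι → ℝ) {s : ι → ℕ} (hs : ∀ i, 1 ≤ s i) {r : ℕ} (hr : 1 ≤ r) (p q : ℤ) :
    mug a (fun i => (s i : ℝ)) (cellS (r : ℝ)⁻¹ p q) = ∑ i, a i * uq (s i * r) p q := by
  have hr0 : (r : ℝ) ≠ 0 := by positivity
  rw [mug, sd_apply (pf_fg a _).integrable (measurableSet_cellS p q)]
  unfold fg
  rw [integral_finsetSum]
  · refine Finset.sum_congr rfl fun i _ => ?_
    have e : ((s i : ℕ) : ℝ) = ((s i * r : ℕ) : ℝ) / r := by
      push_cast; field_simp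
    rw [integral_const_mul]
    simp only
    rw [e, setIntegral_Uq_cell hr (Nat.mul_pos (hs i) hr)]
  · exact fun i _ => (((pf_Uq (le_refl ((s i : ℕ) : ℝ))).integrable).const_mul _).integrableOn

theorem chg_mug (a : ι → ℝ) {s : ι → ℕ} (hs : ∀ i, 1 ≤ s i) {r : ℕ} (hr : 1 ≤ r) :
    chg (mug a (fun i => (s i : ℝ))) (r : ℝ)⁻¹ = chf a s r := by
  ext p
  rw [chg_apply (carrier_mug a _), chf_apply]
  exact mug_cell a hs hr p.1 p.2

/-- **(STAR)** for a finite family of concentric squares -/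
theorem star_fam (hLaw : Law3) {Pi : (ℤ × ℤ →₀ ℝ) → ℝ} (hPi : StarLat Pi) (a : ι → ℝ)
    (ha : ∑ i, a i = 0) {s : ι → ℕ} (hs : ∀ i, 1 ≤ s i) : ∃ Lam : ℝ, 0 < Lam ∧
      |Real.log Lam - 3 / (4 * Real.pi ^ 2) *
        ∑ i, ∑ j, a i * a j * Real.log (max (s i : ℝ) (s j))| ≤
        3 / (2 * Real.pi) * cq * (∑ i, |a i|) ^ 2 ∧
      Tendsto (fun r : ℕ => Pi (chf a s r)) atTop (𝓝 Lam) := by
  have hpi := Real.pi_pos
  have hs1 : ∀ i, (1 : ℝ) ≤ (s i : ℝ) := fun i => by exact_mod_cast hs i
  have hs0 : ∀ i, (0 : ℝ) < (s i : ℝ) := fun i => one_pos.trans_le (hs1 i)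
  refine ⟨Real.exp (-(3 / (2 * Real.pi)) * max (energy (mug a fun i => (s i : ℝ))) 0),
    Real.exp_pos _, ?_, ?_⟩
  · rw [Real.log_exp]
    have h1 := energy_mug a hs0
    have hq := quad_nonpos ha hs1
    have e0 : (∑ i, ∑ j, a i * a j * Real.log (max (s i : ℝ) (s j))) =
        quad a (fun i => (s i : ℝ)) := rfl
    rw [e0]
    set E := energy (mug a fun i => (s i : ℝ)) with hE
    set Q := quad a (fun i => (s i : ℝ)) with hQ
    have e1 : -(3 / (2 * Real.pi)) * max E 0 - 3 / (4 * Real.pi ^ 2) * Q =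
        -(3 / (2 * Real.pi) * (max E 0 + (2 * Real.pi)⁻¹ * Q)) := by
      field_simp; ring
    rw [e1, abs_neg, abs_mul, abs_of_nonneg (by positivity : (0:ℝ) ≤ 3 / (2 * Real.pi)), mul_assoc]
    refine mul_le_mul_of_nonneg_left ?_ (by positivity)
    have hq2 : (2 * Real.pi)⁻¹ * Q ≤ 0 := mul_nonpos_of_nonneg_of_nonpos (by positivity) hq
    refine le_trans ?_ h1
    rcases le_total 0 E with h | h
    · rw [max_eq_left h]
    · rw [max_eq_right h, zero_add, abs_of_nonpos hq2, abs_of_nonpos (by linarith)]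
      linarith
  · have h2 := plane_char hLaw hPi (carrier_mug a _) (mass_mug ha hs0) (fin_mug a _)
    have h3 : Tendsto (fun r : ℕ => ((r : ℝ))⁻¹) atTop (𝓝[>] 0) :=
      tendsto_inv_atTop_nhdsGT_zero.comp tendsto_natCast_atTop_atTop
    refine (h2.comp h3).congr' ?_
    filter_upwards [eventually_ge_atTop 1] with r hr
    rw [Function.comp_apply, chg_mug a hs hr]

end Crest.Agent.R158.En510
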