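import Crest.Agent.R158.Rs4_689

/-!
# Row 158, Block R (helper689): uniform RSW constants, one-arm bounds

* `tInv p` : translation invariance; `circ_x` : circuits around any centre
* `xpr_pos`, `rsw_long` (hard crossings, all `n ≥ 1`), `rsw_short` (easy crossings `≤ 1 - c`)
* `rsw_circ` (circuits in `ball x (2n) \\ ball x n`, all `n ≥ 1`, all centres)
* `arm_le_pow`, `arm_half` : one-arm upper bound; `arm_ge` : `P(0 ↔ distance n) ≥ 1/(2(n+1))`
-/

set_option autoImplicit false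

noncomputable section

namespace Crest.Agent.R158.Rs689

open MeasureTheory ProbabilityTheory unitInterval
open Crest.Agent.R161.Geo729 Crest.Agent.R161.Topo374 Crest.Agent.R161.Dual374
open Crest.Agent.R161.Tas682 Crest.Agent.R161.Ring421 Crest.Agent.R161.Sym597
open Crest.Agent.R161.Ifc372 Crest.Agent.R161.Hull374 Crest.Agent.R161.Ann374
open scoped ENNReal

/-! ### translations -/

/-- translation of edges -/
def shE (a : P2) : Edge ≃ Edge where
  toFun e := (e.1 + a, e.2)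
  invFun e := (e.1 - a, e.2)
  left_inv e := by simp
  right_inv e := by simp

theorem tInv (p : I) : TInv (nu p) := by
  intro a
  have h := PB_map_equiv (shE a).symm (fun _ : Edge => p)
  exact h

theorem circ_x (p : I) (x : P2) (n m : ℕ) :
    (nu p).real (CircZ x n m) = (nu p).real (CircZ (0, 0) n m) := by
  rw [measureReal_def, measureReal_def, (tInv p).circZ]

theorem src_shE (a : P2) (e : Edge) : src (shE a e) = src e + a := rfl

theorem tgt_shE (a : P2) (e : Edge) : tgt (shE a e) = tgt e + a := by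
  obtain ⟨⟨i, j⟩, k⟩ := e
  obtain ⟨a1, a2⟩ := a
  cases k
  · show ((i + a1 + 1, j + a2) : P2) = (i + 1, j) + (a1, a2)
    rw [Prod.mk_add_mk]; congr 1; ring
  · show ((i + a1, j + a2 + 1) : P2) = (i, j + 1) + (a1, a2)
    rw [Prod.mk_add_mk]; congr 1; ring

theorem rch_shift {z : Cfz} (a : P2) {u v : P2} (h : Rch (shiftZ a z) u v) :
    Rch z (u + a) (v + a) := by
  induction h with
  | refl => exact .refl
  | @tail b c _ h2 ih =>
    refine ih.tail ?_
    obtain ⟨e, he, h3⟩ := h2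
    refine ⟨shE a e, he, ?_⟩
    rw [src_shE, tgt_shE]
    rcases h3 with ⟨rfl, rfl⟩ | ⟨rfl, rfl⟩
    · exact Or.inl ⟨rfl, rfl⟩
    · exact Or.inr ⟨rfl, rfl⟩

theorem shiftZ_shiftZ (a b : P2) (z : Cfz) : shiftZ a (shiftZ b z) = shiftZ (a + b) z := by
  funext e
  simp only [shiftZ, add_assoc]

theorem shiftZ_zero (z : Cfz) : shiftZ 0 z = z := by
  funext e
  simp [shiftZ]

theorem rch_shift_iff {z : Cfz} (a : P2) {u v : P2} :
    Rch (shiftZ a z) u v ↔ Rch z (u + a) (v + a) := by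
  refine ⟨rch_shift a, fun h => ?_⟩
  have h1 : Rch (shiftZ (-a) (shiftZ a z)) (u + a) (v + a) := by
    rw [shiftZ_shiftZ, neg_add_cancel, shiftZ_zero]
    exact h
  simpa using rch_shift (-a) h1

/-! ### RSW, all scales -/

theorem xpr_edge : 1 / 4 ≤ xpr hf 1 0 := by
  have h := (perc hf).h_edge (c0 := 1 / 2) (xpr_sq 1 (by norm_num))
  calc (1 / 4 : ℝ) = 1 / 2 / 2 := by norm_num
    _ ≤ _ := h

theorem xpr_pos (L : ℕ) {H : ℤ} (hH : 0 ≤ H) : (1 / 4 : ℝ) ^ (L + 1) ≤ xpr hf L H := by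
  have h1 := (perc hf).h_line (e0 := 1 / 4) (by norm_num) xpr_edge L
  have h2 : xpr hf ((L : ℤ) + 1) 0 ≤ xpr hf L H := xpr_mono hf (by omega) (by omega) hH
  exact le_trans h1 h2

/-- **RSW (hard way)**, all scales. -/
theorem rsw_long (k : ℕ) : ∃ c : ℝ, 0 < c ∧ ∀ n : ℕ, 1 ≤ n → c ≤ xpr hf (k * n) n := by
  obtain ⟨c, hc, n0, h⟩ := rsw.2 k
  refine ⟨min c ((1 / 4) ^ (k * n0 + 1)), lt_min hc (by positivity), fun n hn => ?_⟩
  by_cases hn0 : n0 ≤ n
  · refine (min_le_left _ _).trans ?_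
    exact h n hn0
  · refine (min_le_right _ _).trans ?_
    have h1 := xpr_pos (k * n) (H := (n : ℤ)) (by omega)
    push_cast at h1
    refine le_trans ?_ h1
    apply pow_le_pow_of_le_one (by norm_num) (by norm_num)
    have : k * n ≤ k * n0 := Nat.mul_le_mul_left _ (by omega)
    omega

/-- **RSW (easy way)**: crossings are not almost certain. -/
theorem rsw_short (k : ℕ) : ∃ c : ℝ, 0 < c ∧ ∀ n : ℕ, 1 ≤ n → xpr hf n (k * n) ≤ 1 - c := by
  obtain ⟨c, hc, h⟩ := rsw_long (2 * k + 2)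
  refine ⟨min c ((1 / 4) ^ (k + 1 + 1)), lt_min hc (by positivity), fun n hn => ?_⟩
  have h1 := xpr_dual hf n (k * n) (by omega) (by positivity)
  rw [sigma_hf] at h1
  have h2 : min c ((1 / 4) ^ (k + 1 + 1)) ≤ xpr hf (k * n + 1) (n - 1) := by
    by_cases hn1 : n = 1
    · refine (min_le_right _ _).trans ?_
      subst hn1
      have h3 := xpr_pos (k + 1) (H := 0) le_rfl
      push_cast at h3 ⊢
      simpa using h3
    · refine (min_le_left _ _).trans ((h (n - 1) (by omega)).trans ?_)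
      rw [Nat.cast_sub hn]
      push_cast
      refine xpr_mono hf (by positivity) ?_ le_rfl
      have h4 : (2 : ℤ) ≤ n := by omega
      have h5 : (0 : ℤ) ≤ k := by positivity
      nlinarith
  linarith

/-- all edges of an annulus open -/
theorem circ_of_open {z : Cfz} {x : P2} {n m : ℕ} (hnm : n ≤ m) (h : ∀ e ∈ annE x n m, z e = true) :
    z ∈ CircZ x n m := by
  have hsub : (ball x n : Set P2) ⊆ ball x m := by
    intro f hf
    have h1 : f ∈ ball x n := hf
    rw [mem_ball] at h1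
    show f ∈ ball x m
    rw [mem_ball]
    omega
  refine (reach_subset (T := (ball x n : Set P2)) le_rfl ?_).trans hsub
  rintro f g hf ⟨e, he, h'⟩
  by_contra hg
  refine he (h e (mem_annE.2 ⟨?_, ?_⟩))
  · rcases h' with ⟨h1, _⟩ | ⟨h1, _⟩
    · exact Or.inl (h1 ▸ hsub hf)
    · exact Or.inr (h1 ▸ hsub hf)
  · rintro ⟨hA, hB⟩
    rcases h' with ⟨_, h2⟩ | ⟨_, h2⟩
    · exact hg (h2 ▸ hB)
    · exact hg (h2 ▸ hA)

/-- probability that finitely many given edges are open -/
theorem open_prob {ι : Type*} (w : ι → I) (S : Finset ι) :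
    (PB w).real {z | ∀ e ∈ S, z e = true} = ∏ e ∈ S, (w e : ℝ) := by
  have h1 : {z : ι → Bool | ∀ e ∈ S, z e = true} = (S : Set ι).pi fun _ => {true} := by
    ext z
    simp
  rw [h1, measureReal_def, PB, Measure.infinitePi_pi _ (fun _ _ => MeasurableSet.of_discrete),
    ENNReal.toReal_prod]
  exact Finset.prod_congr rfl fun e _ => by simp

theorem circ_pos (p : I) (hp : 0 < (p : ℝ)) (x : P2) {n m : ℕ} (hnm : n ≤ m) :
    0 < (nu p).real (CircZ x n m) := by
  have h1 := open_prob (fun _ : Edge => p) (annE x n m)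
  rw [Finset.prod_const] at h1
  have h2 : (nu p).real {z | ∀ e ∈ annE x n m, z e = true} ≤ (nu p).real (CircZ x n m) :=
    measureReal_mono fun z hz => circ_of_open hnm hz
  have h3 : 0 < (p : ℝ) ^ (annE x n m).card := by positivity
  have h4 : (nu p).real {z | ∀ e ∈ annE x n m, z e = true} = (p : ℝ) ^ (annE x n m).card := h1
  linarith

theorem hf_coe : ((hf : I) : ℝ) = 1 / 2 := rfl

/-- **RSW (circuits)**, all scales, all centres. -/
theorem rsw_circ : ∃ q : ℝ, 0 < q ∧ q ≤ 1 ∧ ∀ (x : P2) (n : ℕ), 1 ≤ n →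
    q ≤ (nu hf).real (CircZ x n (2 * n)) := by
  obtain ⟨q, n0, hq, h⟩ := rsw.1
  have h1 : ∀ N : ℕ, ∃ q' : ℝ, 0 < q' ∧ ∀ n : ℕ, n < N →
      q' ≤ (nu hf).real (CircZ (0, 0) n (2 * n)) := by
    intro N
    induction N with
    | zero => exact ⟨1, one_pos, fun n hn => absurd hn (by omega)⟩
    | succ N ih =>
      obtain ⟨q', hq', h'⟩ := ih
      refine ⟨min q' ((nu hf).real (CircZ (0, 0) N (2 * N))), lt_min hq'
        (circ_pos hf (by rw [hf_coe]; norm_num) _ (by omega)), fun n hn => ?_⟩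
      rcases Nat.lt_succ_iff_lt_or_eq.1 hn with h2 | h2
      · exact (min_le_left _ _).trans (h' n h2)
      · subst h2
        exact min_le_right _ _
  obtain ⟨q', hq', h'⟩ := h1 n0
  refine ⟨min (min q q') 1, lt_min (lt_min hq hq') one_pos, min_le_right _ _, fun x n _ => ?_⟩
  rw [circ_x]
  refine (min_le_left _ _).trans ?_
  by_cases hn : n0 ≤ n
  · exact (min_le_left _ _).trans (h n hn)
  · exact (min_le_right _ _).trans (h' n (by omega))

/-! ### one-arm bounds -/

/-- one arm from `{|u - x| ≤ s}` to `{|v - x| ≥ R}` -/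
def ArmX (x : P2) (s R : ℕ) : Set Cfz :=
  {z | ∃ u v : P2, |u.1 - x.1| ≤ (s : ℤ) ∧ |u.2 - x.2| ≤ (s : ℤ) ∧
    ((R : ℤ) ≤ |v.1 - x.1| ∨ (R : ℤ) ≤ |v.2 - x.2|) ∧ Rch z u v}

theorem armX_zero (s R : ℕ) : ArmX (0, 0) s R = Crest.Agent.R161.Blk868.Arm s R := by
  ext z
  simp only [ArmX, Set.mem_ofPred_eq, sub_zero]
  rfl

theorem armX_shift (x : P2) (s R : ℕ) : shiftZ x ⁻¹' ArmX (0, 0) s R = ArmX x s R := by
  ext z
  constructor
  · rintro ⟨u, v, h1, h2, h3, h4⟩
    refine ⟨u + x, v + x, ?_, ?_, ?_, rch_shift x h4⟩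
    · simpa using h1
    · simpa using h2
    · simpa using h3
  · rintro ⟨u, v, h1, h2, h3, h4⟩
    refine ⟨u - x, v - x, ?_, ?_, ?_, ?_⟩
    · simpa using h1
    · simpa using h2
    · simpa using h3
    · rw [rch_shift_iff]
      simpa using h4

theorem armX_prob (p : I) (x : P2) (s R : ℕ) :
    (nu p).real (ArmX x s R) = (nu p).real (ArmX (0, 0) s R) := by
  have h := tInv p x
  rw [← armX_shift]
  conv_rhs => rw [← h]
  rw [measureReal_def, measureReal_def, Measure.map_apply (measurable_shiftZ x)]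
  rw [armX_zero]
  exact Crest.Agent.R161.Blk868.measurableSet_arm s R

theorem armX_sub_noC {x : P2} {s R J : ℕ} (hs : 1 ≤ s) (hJ : 4 * s * 4 ^ J ≤ R) :
    ArmX x s R ⊆ NoC x J (sc s) := by
  rintro z ⟨u, v, hu1, hu2, hv, huv⟩
  simp only [NoC, Set.mem_iInter, Finset.mem_range]
  intro i hi hz
  have h1 := circ_block hz (u := u) (v := v) (by
    rw [abs_le] at hu1 hu2
    rw [mem_ball]
    have h2 : 4 * s ≤ sc s i := by
      unfold sc
      exact Nat.le_mul_of_pos_right _ (by positivity)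
    simp only
    omega) huv
  rw [mem_ball] at h1
  have h2 : 2 * sc s i < R := by
    refine lt_of_lt_of_le ?_ hJ
    unfold sc
    have h3 : 4 ^ (i + 1) ≤ 4 ^ J := Nat.pow_le_pow_right (by norm_num) hi
    have h4 : 1 ≤ s * 4 ^ i := Nat.one_le_iff_ne_zero.2 (by positivity)
    have h5 : s * 4 ^ (i + 1) ≤ s * 4 ^ J := Nat.mul_le_mul_left _ h3
    have h6 : s * 4 ^ (i + 1) = 4 * (s * 4 ^ i) := by ring
    nlinarith
  simp only at h1
  rcases hv with hv | hv <;> rw [le_abs] at hv <;> omega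

/-- one-arm bound from dual circuits, any parameter -/
theorem arm_le_pow (p : I) {q : ℝ} {x : P2} {s R J : ℕ} (hs : 1 ≤ s)
    (hJ : 4 * s * 4 ^ J ≤ R)
    (h : ∀ i < J, q ≤ (nu (σ p)).real (CircZ x (sc s i) (2 * sc s i))) :
    (nu p).real (ArmX x s R) ≤ (1 - q) ^ J := by
  have h1 : (nu p).real (ArmX x s R) ≤ (nu p).real (NoC x J (sc s)) :=
    measureReal_mono (armX_sub_noC hs hJ)
  refine h1.trans ?_
  rw [noC_prob p x J (sc s) fun i j hij => sc_step hs hij]
  calc ∏ i ∈ Finset.range J, (1 - (nu (σ p)).real (CircZ x (sc s i) (2 * sc s i)))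
      ≤ ∏ _i ∈ Finset.range J, (1 - q) := by
        refine Finset.prod_le_prod (fun i _ => ?_) fun i hi => ?_
        · have : (nu (σ p)).real (CircZ x (sc s i) (2 * sc s i)) ≤ 1 := measureReal_le_one
          linarith
        · have h3 := h i (Finset.mem_range.1 hi)
          linarith
    _ = (1 - q) ^ J := by rw [Finset.prod_const, Finset.card_range]

/-- **One-arm upper bound** at `p = 1/2`, all centres. -/
theorem arm_half : ∃ C a : ℝ, 0 < C ∧ 0 < a ∧ ∀ (x : P2) (s R : ℕ), 1 ≤ s → s ≤ R →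
    (nu hf).real (ArmX x s R) ≤ C * ((s : ℝ) / R) ^ a := by
  obtain ⟨q0, hq00, hq01, hq0⟩ := rsw_circ
  set q := min q0 (1 / 2) with hqdef
  have hq : 0 < q := lt_min hq00 (by norm_num)
  have hq1 : q ≤ 1 / 2 := min_le_right _ _
  have h1q : 0 < 1 - q := by linarith
  have h1q' : 1 - q < 1 := by linarith
  set a := -Real.log (1 - q) / Real.log 4 with ha
  have hl4 : 0 < Real.log 4 := Real.log_pos (by norm_num)
  have ha0 : 0 < a := div_pos (neg_pos.2 (Real.log_neg h1q h1q')) hl4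
  refine ⟨(16 : ℝ) ^ a, a, by positivity, ha0, fun x s R hs hsR => ?_⟩
  have hs0 : (0 : ℝ) < s := by exact_mod_cast hs
  have hR0 : (0 : ℝ) < R := by exact_mod_cast (hs.trans hsR)
  by_cases hbig : 4 * s ≤ R
  · -- largest `J` with `4 s 4^J ≤ R`
    have hex : ∃ J : ℕ, 4 * s * 4 ^ J ≤ R ∧ R < 4 * s * 4 ^ (J + 1) := by
      have hlt : ∃ J : ℕ, R < 4 * s * 4 ^ (J + 1) := by
        refine ⟨R, ?_⟩
        have h2 : R < 4 ^ R := Nat.lt_pow_self (by norm_num)
        have h3 : 4 ^ R ≤ 4 ^ (R + 1) := Nat.pow_le_pow_right (by norm_num) (by omega)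
        have h4 : 1 * 4 ^ (R + 1) ≤ 4 * s * 4 ^ (R + 1) := Nat.mul_le_mul_right _ (by omega)
        omega
      classical
      refine ⟨Nat.find hlt, ?_, Nat.find_spec hlt⟩
      rcases Nat.eq_zero_or_pos (Nat.find hlt) with h0 | h0
      · rw [h0]; simpa using hbig
      · have h2 := Nat.find_min hlt (m := Nat.find hlt - 1) (by omega)
        rw [Nat.sub_add_cancel h0] at h2
        omega
    obtain ⟨J, hJ1, hJ2⟩ := hex
    have h2 : (nu hf).real (ArmX x s R) ≤ (1 - q) ^ J := by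
      refine arm_le_pow hf hs hJ1 fun i _ => ?_
      rw [sigma_hf]
      refine (min_le_left _ _).trans (hq0 x _ ?_)
      unfold sc
      exact Nat.one_le_iff_ne_zero.2 (by positivity)
    refine h2.trans ?_
    have h3 : (1 - q) ^ J = ((4 : ℝ) ^ J)⁻¹ ^ a := by
      rw [← Real.rpow_natCast 4 J, ← Real.rpow_neg (by norm_num), ← Real.rpow_mul (by norm_num),
        ← Real.rpow_natCast (1 - q) J]
      rw [Real.rpow_def_of_pos h1q, Real.rpow_def_of_pos (by norm_num : (0 : ℝ) < 4)]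
      congr 1
      rw [ha]
      field_simp
    rw [h3, ← Real.mul_rpow (by norm_num) (by positivity)]
    refine Real.rpow_le_rpow (by positivity) ?_ ha0.le
    have h4 : (R : ℝ) < 4 * s * 4 ^ (J + 1) := by exact_mod_cast hJ2
    rw [pow_succ] at h4
    rw [inv_le_iff_one_le_mul₀ (by positivity)]
    rw [← mul_div_assoc, div_mul_eq_mul_div, le_div_iff₀ hR0]
    nlinarith
  · have h2 : (nu hf).real (ArmX x s R) ≤ 1 := measureReal_le_one
    refine h2.trans ?_
    rw [← Real.mul_rpow (by norm_num) (by positivity)]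
    refine Real.one_le_rpow ?_ ha0.le
    rw [← mul_div_assoc, le_div_iff₀ hR0]
    have h4 : (R : ℝ) ≤ 4 * s := by exact_mod_cast (by omega : R ≤ 4 * s)
    linarith

/-- connection from the origin to distance `n` -/
def Arm0 (n : ℕ) : Set Cfz := {z | ∃ v : P2, ((n : ℤ) ≤ |v.1| ∨ (n : ℤ) ≤ |v.2|) ∧ Rch z (0, 0) v}

theorem arm0_eq (n : ℕ) : Arm0 n = ArmX (0, 0) 0 n := by
  ext z
  simp only [ArmX, Arm0, Set.mem_ofPred_eq, sub_zero]
  constructor
  · rintro ⟨v, h1, h2⟩
    exact ⟨(0, 0), v, by simp, by simp, h1, h2⟩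
  · rintro ⟨u, v, h1, h2, h3, h4⟩
    have e1 : u.1 = 0 := by simpa using h1
    have e2 : u.2 = 0 := by simpa using h2
    have : u = (0, 0) := Prod.ext e1 e2
    exact ⟨v, h3, this ▸ h4⟩

theorem measurableSet_arm0 (n : ℕ) : MeasurableSet (Arm0 n) := by
  rw [arm0_eq, armX_zero]
  exact Crest.Agent.R161.Blk868.measurableSet_arm 0 n

/-- **One-arm lower bound** at `p = 1/2`. -/
theorem arm_ge (n : ℕ) : 1 / (2 * ((n : ℝ) + 1)) ≤ (nu hf).real (Arm0 n) := by
  have h1 := xpr_sq n (by omega)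
  have h2 : xpr hf n n = (nu hf).real {z | LRc z 0 n 0 n} := by
    rw [lr_eq_xpr]; simp
  have h3 : {z : Cfz | LRc z 0 n 0 n} ⊆
      ⋃ j ∈ Finset.range (n + 1), shiftZ ((0, (j : ℤ)) : P2) ⁻¹' Arm0 n := by
    rintro z ⟨u, v, hu, hv, h⟩
    have hu' := h.left
    rw [mem_rect] at hu'
    simp only [Set.mem_iUnion, Finset.mem_range]
    refine ⟨u.2.toNat, by omega, ?_⟩
    refine ⟨v - (0, ((u.2.toNat : ℕ) : ℤ)), Or.inl ?_, ?_⟩
    · simp only [Prod.fst_sub, sub_zero, hv]
      exact le_abs_self _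
    · rw [rch_shift_iff]
      have e1 : ((0, 0) : P2) + (0, ((u.2.toNat : ℕ) : ℤ)) = u := by
        refine Prod.ext ?_ ?_
        · simp [hu]
        · simp only [Prod.snd_add, zero_add]
          omega
      rw [e1, sub_add_cancel]
      exact Relation.ReflTransGen.mono (fun a b hab => hab.1) _ _ h.2
  have h4 : ∀ j : ℕ, (nu hf).real (shiftZ ((0, (j : ℤ)) : P2) ⁻¹' Arm0 n) =
      (nu hf).real (Arm0 n) := by
    intro j
    have h := tInv hf (0, (j : ℤ))
    conv_rhs => rw [← h]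
    rw [measureReal_def, measureReal_def, Measure.map_apply (measurable_shiftZ _)
      (measurableSet_arm0 n)]
  have h5 : (nu hf).real {z | LRc z 0 n 0 n} ≤ (n + 1) * (nu hf).real (Arm0 n) := by
    calc (nu hf).real {z | LRc z 0 n 0 n}
        ≤ (nu hf).real (⋃ j ∈ Finset.range (n + 1), shiftZ ((0, (j : ℤ)) : P2) ⁻¹' Arm0 n) :=
          measureReal_mono h3 (measure_ne_top _ _)
      _ ≤ ∑ j ∈ Finset.range (n + 1), (nu hf).real (shiftZ ((0, (j : ℤ)) : P2) ⁻¹' Arm0 n) :=
          measureReal_biUnion_finset_le _ _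
      _ = (n + 1) * (nu hf).real (Arm0 n) := by
          rw [Finset.sum_congr rfl fun j _ => h4 j, Finset.sum_const, Finset.card_range,
            nsmul_eq_mul]
          push_cast
          ring
  rw [div_le_iff₀ (by positivity)]
  rw [h2] at h1
  nlinarith

end Crest.Agent.R158.Rs689
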