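import Crest.Agent.R158.Bk4_430
import Crest.Agent.R158.It2_200
import Crest.Agent.R158.Rs5_689

/-!
# Row 158 (helper442): dictionary percolation `ℤ²` ↔ splittings (G1, G2) and a.e. finiteness of strands

* `eV : Edge ≃ ℤ × ℤ` (edge ↔ 6V vertex), `spl z` (splitting of a bond configuration),
  `unspl s` (its inverse), `map_spl`, `map_unspl` (uniform laws correspond).
* `cm : Corner ≃ ME ℤ ℤ`, `cm_nx : cm (It200.nx z c) = Bk430.nx (spl z) (cm c)`.
* `ae_corner` : for `nu hf`-a.e. `z` every strand of corners is finite.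
* `ae_strand` : for a.e. splitting `s` every strand is finite; `ae_loc`, `loc_tendsto`.
-/

set_option autoImplicit false

noncomputable section

namespace Crest.Agent.R158.Fi442

open MeasureTheory ProbabilityTheory unitInterval Filter
open Crest.Agent.R161.Geo729 Crest.Agent.R161.Dual374
open Crest.Agent.R158.Bk430
open Crest.Agent.R158.Rs689 (nu hf PB Rch ArmX arm_half measurable_dual)
open Crest.Agent.R158.It200 (Corner Cfz)
open scoped Topology

/-! ### edges and vertices (G1) -/

/-- percolation edges = 6V vertices -/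
def eV : Edge ≃ ℤ × ℤ where
  toFun e := (e.1.1 + e.1.2 + 1, e.1.2 - e.1.1 + (if e.2 then 1 else 0))
  invFun v := ((v.1 - 1 - (v.1 + v.2 - 1) / 2, (v.1 + v.2 - 1) / 2), decide ((v.1 + v.2) % 2 = 0))
  left_inv := by
    rintro ⟨⟨x, y⟩, b⟩
    cases b
    · simp only [Bool.false_eq_true, if_false, Prod.mk.injEq]
      refine ⟨⟨?_, ?_⟩, ?_⟩
      · omega
      · omega
      · rw [decide_eq_false_iff_not]; omega
    · simp only [if_true, Prod.mk.injEq]
      refine ⟨⟨?_, ?_⟩, ?_⟩
      · omega
      · omega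
      · rw [decide_eq_true_iff]; omega
  right_inv := by
    rintro ⟨i, j⟩
    by_cases h : (i + j) % 2 = 0
    · simp only [h, decide_true, if_true, Prod.mk.injEq]
      constructor <;> omega
    · simp only [h, decide_false, Bool.false_eq_true, if_false, Prod.mk.injEq]
      constructor <;> omega

theorem eV_h (x y : ℤ) : eV ((x, y), false) = (x + y + 1, y - x) := by
  simp [eV]

theorem eV_v (x y : ℤ) : eV ((x, y), true) = (x + y + 1, y - x + 1) := by
  simp [eV]

/-- splitting of a bond configuration -/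
def spl (z : Cfz) : ℤ × ℤ → Bool := fun v => xor (z (eV.symm v)) (eV.symm v).2

/-- bond configuration of a splitting -/
def unspl (s : ℤ × ℤ → Bool) : Cfz := fun e => xor (s (eV e)) e.2

theorem spl_eV (z : Cfz) (e : Edge) : spl z (eV e) = xor (z e) e.2 := by
  unfold spl
  rw [Equiv.symm_apply_apply]

theorem spl_unspl (s : ℤ × ℤ → Bool) : spl (unspl s) = s := by
  funext v
  obtain ⟨e, rfl⟩ := eV.surjective v
  rw [spl_eV]
  unfold unspl
  cases s (eV e) <;> cases e.2 <;> rfl

theorem unspl_spl (z : Cfz) : unspl (spl z) = z := by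
  funext e
  unfold unspl
  rw [spl_eV]
  cases z e <;> cases e.2 <;> rfl

theorem spl_h (z : Cfz) (x y : ℤ) : spl z (x + y + 1, y - x) = z ((x, y), false) := by
  rw [← eV_h, spl_eV]; simp

theorem spl_v (z : Cfz) (x y : ℤ) : spl z (x + y + 1, y - x + 1) = !z ((x, y), true) := by
  rw [← eV_v, spl_eV]; simp

theorem measurable_unspl : Measurable unspl :=
  measurable_pi_lambda _ fun e =>
    (Measurable.of_discrete (f := fun b : Bool => xor b e.2)).comp (measurable_pi_apply (eV e))

theorem measurable_spl : Measurable spl :=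
  measurable_pi_lambda _ fun v =>
    (Measurable.of_discrete (f := fun b : Bool => xor b (eV.symm v).2)).comp
      (measurable_pi_apply (eV.symm v))

/-- the uniform law is invariant under flips of a fixed set of coordinates -/
theorem PB_flip {ι : Type*} (b : ι → Bool) :
    (PB fun _ : ι => hf).map (fun z e => xor (z e) (b e)) = PB fun _ : ι => hf := by
  unfold PB
  rw [Measure.infinitePi_map_pi (μ := fun _ : ι => Rs689.bern hf)
    (f := fun e (x : Bool) => xor x (b e)) fun e => Measurable.of_discrete]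
  congr 1
  funext e
  cases b e
  · have : (fun x : Bool => xor x false) = id := by funext x; simp
    rw [this, Measure.map_id]
  · have : (fun x : Bool => xor x true) = fun x => !x := by funext x; simp
    rw [this, Rs689.bern_map_not, Rs689.sigma_hf]

theorem map_spl : (nu hf).map spl = PB fun _ : ℤ × ℤ => hf := by
  have h1 := Rs689.PB_map_equiv eV (fun _ : ℤ × ℤ => hf)
  have h2 := PB_flip (fun v : ℤ × ℤ => (eV.symm v).2)
  have h3 : spl = (fun (z : ℤ × ℤ → Bool) v => xor (z v) (eV.symm v).2) ∘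
      fun (z : Cfz) v => z (eV.symm v) := rfl
  rw [h3, ← Measure.map_map]
  · have h4 : (nu hf).map (fun (z : Cfz) v => z (eV.symm v)) = PB fun _ : ℤ × ℤ => hf := h1
    rw [h4]
    exact h2
  · exact measurable_pi_lambda _ fun v =>
      (Measurable.of_discrete (f := fun b : Bool => xor b (eV.symm v).2)).comp
        (measurable_pi_apply v)
  · exact measurable_pi_lambda _ fun v => measurable_pi_apply _

theorem map_unspl : (PB fun _ : ℤ × ℤ => hf).map unspl = nu hf := by
  rw [← map_spl, Measure.map_map measurable_unspl measurable_spl]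
  have : unspl ∘ spl = id := by funext z; exact unspl_spl z
  rw [this, Measure.map_id]

/-! ### corners and medial edges (G2) -/

/-- primal vertex as a 6V face -/
def fp (v : P2) : ℤ × ℤ := (v.1 + v.2, v.2 - v.1)

/-- corners = medial edges -/
def cmF (c : Corner) : ME ℤ ℤ :=
  match c.2 with
  | 0 => ((c.1.1 + c.1.2 + 1, c.1.2 - c.1.1), true)
  | 1 => ((c.1.1 + c.1.2, c.1.2 - c.1.1), false)
  | 2 => ((c.1.1 + c.1.2, c.1.2 - c.1.1), true)
  | 3 => ((c.1.1 + c.1.2, c.1.2 - c.1.1 + 1), false)

/-- the inverse of `cmF` -/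
def cmG (e : ME ℤ ℤ) : Corner :=
  if (e.1.1 + e.1.2) % 2 = 0 then
    (((e.1.1 - e.1.2) / 2, (e.1.1 + e.1.2) / 2), if e.2 then 2 else 1)
  else if e.2 then (((e.1.1 - 1 - e.1.2) / 2, (e.1.1 - 1 + e.1.2) / 2), 0)
  else (((e.1.1 - e.1.2 + 1) / 2, (e.1.1 + e.1.2 - 1) / 2), 3)

theorem cmG_cmF (c : Corner) : cmG (cmF c) = c := by
  obtain ⟨⟨x, y⟩, q⟩ := c
  fin_cases q
  · have h : ¬ ((x + y + 1 + (y - x)) % 2 = 0) := by omega
    simp only [cmF, cmG, h, if_false, if_true, Fin.zero_eta, Prod.mk.injEq, and_true]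
    constructor <;> omega
  · have h : ((x + y + (y - x)) % 2 = 0) := by omega
    simp only [cmF, cmG, h, Bool.false_eq_true, if_false, if_true, Fin.mk_one, Prod.mk.injEq,
      and_true]
    constructor <;> omega
  · have h : ((x + y + (y - x)) % 2 = 0) := by omega
    simp only [cmF, cmG, h, if_true, Fin.reduceFinMk, Prod.mk.injEq, and_true]
    constructor <;> omega
  · have h : ¬ ((x + y + (y - x + 1)) % 2 = 0) := by omega
    simp only [cmF, cmG, h, Bool.false_eq_true, if_false, Fin.reduceFinMk, Prod.mk.injEq, and_true]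
    constructor <;> omega

theorem cmF_cmG (e : ME ℤ ℤ) : cmF (cmG e) = e := by
  obtain ⟨⟨i, j⟩, b⟩ := e
  by_cases h : (i + j) % 2 = 0
  · cases b
    · simp only [cmG, h, if_true, Bool.false_eq_true, if_false, cmF, Prod.mk.injEq, and_true]
      constructor <;> omega
    · simp only [cmG, h, if_true, cmF, Prod.mk.injEq, and_true]
      constructor <;> omega
  · cases b
    · simp only [cmG, h, Bool.false_eq_true, if_false, cmF, Prod.mk.injEq, and_true]
      constructor <;> omega
    · simp only [cmG, h, if_true, if_false, cmF, Prod.mk.injEq, and_true]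
      constructor <;> omega

/-- corners = medial edges -/
def cm : Corner ≃ ME ℤ ℤ where
  toFun := cmF
  invFun := cmG
  left_inv := cmG_cmF
  right_inv := cmF_cmG

theorem cm_apply (c : Corner) : cm c = cmF c := rfl

theorem vp_even (x y : ℤ) : vp ((x + y, y - x) : ℤ × ℤ) = false := by
  have h : par (x + y) = par (y - x) := by
    show decide ((x + y) % 2 = 1) = decide ((y - x) % 2 = 1)
    rw [decide_eq_decide]; omega
  unfold vp
  rw [h, Bool.xor_self]

theorem vp_odd1 (x y : ℤ) : vp ((x + y + 1, y - x) : ℤ × ℤ) = true := by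
  rw [vp_add_fst, vp_even]; rfl

theorem vp_odd2 (x y : ℤ) : vp ((x + y, y - x + 1) : ℤ × ℤ) = true := by
  rw [vp_add_snd, vp_even]; rfl

/-- **conjugation of the successor maps** -/
theorem cm_nx (z : Cfz) (c : Corner) : cm (It200.nx z c) = nx (spl z) (cm c) := by
  obtain ⟨⟨x, y⟩, q⟩ := c
  rw [cm_apply, cm_apply]
  fin_cases q
  · have h1 := spl_h z x y
    have h2 := vp_odd1 x y
    cases hz : z ((x, y), false)
    · rw [hz] at h1
      rw [It200.nx_closed (by exact hz)]
      simp only [cmF, nx, hd, h2, if_true, h1, Bool.false_eq_true, if_false,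
        It200.nxc, It200.rr, Prod.mk.injEq, and_true]
      omega
    · rw [hz] at h1
      rw [It200.nx_open (by exact hz)]
      simp only [cmF, nx, hd, h2, if_true, h1, It200.nxo, It200.wa, It200.rl,
        Prod.mk.injEq, and_true]
      constructor <;> omega
  · have h1 := spl_v z x (y - 1)
    have e1 : ((x + (y - 1) + 1, y - 1 - x + 1) : ℤ × ℤ) = (x + y, y - x) := by
      congr 1 <;> ring
    rw [e1] at h1
    have h2 := vp_even x y
    cases hz : z ((x, y - 1), true)
    · rw [hz] at h1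
      rw [It200.nx_closed (by exact hz)]
      simp only [cmF, nx, hd, h2, h1, Bool.false_eq_true, if_false,
        Bool.not_false, if_true, It200.nxc, It200.rr]
    · rw [hz] at h1
      rw [It200.nx_open (by exact hz)]
      simp only [cmF, nx, hd, h2, h1, Bool.false_eq_true, if_false,
        Bool.not_false, Bool.not_true, It200.nxo, It200.wa,
        It200.rl, Prod.mk.injEq, and_true]
      constructor <;> omega
  · have h1 := spl_h z (x - 1) y
    have e1 : ((x - 1 + y + 1, y - (x - 1)) : ℤ × ℤ) = (x + y, y - x + 1) := by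
      congr 1 <;> ring
    rw [e1] at h1
    have h2 := vp_even x y
    cases hz : z ((x - 1, y), false)
    · rw [hz] at h1
      rw [It200.nx_closed (by exact hz)]
      simp only [cmF, nx, hd, h2, if_true, Bool.false_eq_true,
        if_false, h1, It200.nxc, It200.rr]
    · rw [hz] at h1
      rw [It200.nx_open (by exact hz)]
      simp only [cmF, nx, hd, h2, if_true, Bool.false_eq_true, Bool.true_eq_false,
        if_false, h1, It200.nxo, It200.wa, It200.rl, Prod.mk.injEq, and_true]
      constructor <;> omega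
  · have h1 := spl_v z x y
    have h2 := vp_odd2 x y
    cases hz : z ((x, y), true)
    · rw [hz] at h1
      rw [It200.nx_closed (by exact hz)]
      simp only [cmF, nx, hd, h2, if_true, Bool.false_eq_true,
        if_false, h1, Bool.not_true, Bool.not_false, Bool.true_eq_false, It200.nxc, It200.rr,
        Prod.mk.injEq, and_true]
      exact ⟨trivial, by omega⟩
    · rw [hz] at h1
      rw [It200.nx_open (by exact hz)]
      simp only [cmF, nx, hd, h2, if_true, Bool.false_eq_true,
        if_false, h1, Bool.not_true, It200.nxo, It200.wa, It200.rl, Prod.mk.injEq, and_true]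
      constructor <;> omega

theorem cm_iter (z : Cfz) (k : ℕ) (c : Corner) :
    cm ((It200.nx z)^[k] c) = (nx (spl z))^[k] (cm c) := by
  induction k generalizing c with
  | zero => rfl
  | succ k ih => rw [Function.iterate_succ_apply, Function.iterate_succ_apply, ih, cm_nx]

/-! ### finiteness -/

/-- an infinite strand leaves every ball -/
theorem arm_of_inf {z : Cfz} {c : Corner} (h : ∀ k : ℕ, 0 < k → (It200.nx z)^[k] c ≠ c) (n : ℕ) :
    z ∈ ArmX c.1 1 n := by
  classical
  have hinj : Function.Injective (It200.nx z) := (It200.nxE z).injective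
  have hi : Function.Injective fun k : ℕ => (It200.nx z)^[k] c := by
    intro j k hjk
    by_contra hne
    rcases Nat.lt_or_gt_of_ne hne with hlt | hlt
    · refine h (k - j) (by omega) ?_
      have h1 : (It200.nx z)^[j] ((It200.nx z)^[k - j] c) = (It200.nx z)^[j] c := by
        rw [← Function.iterate_add_apply, show j + (k - j) = k by omega]
        exact hjk.symm
      exact hinj.iterate j h1
    · refine h (j - k) (by omega) ?_
      have h1 : (It200.nx z)^[k] ((It200.nx z)^[j - k] c) = (It200.nx z)^[k] c := by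
        rw [← Function.iterate_add_apply, show k + (j - k) = j by omega]
        exact hjk
      exact hinj.iterate k h1
  have hbig : ∃ k : ℕ, (n : ℤ) ≤ |((It200.nx z)^[k] c).1.1 - c.1.1| ∨
      (n : ℤ) ≤ |((It200.nx z)^[k] c).1.2 - c.1.2| := by
    by_contra hno
    push Not at hno
    have hfin : (Set.range fun k : ℕ => (It200.nx z)^[k] c).Finite := by
      refine Set.Finite.subset
        (s := ((Finset.Icc (c.1.1 - n) (c.1.1 + n) ×ˢ Finset.Icc (c.1.2 - n) (c.1.2 + n)) ×ˢ
          (Finset.univ : Finset (Fin 4)) : Finset Corner)) (Finset.finite_toSet _) ?_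
      rintro _ ⟨k, rfl⟩
      have h1 := hno k
      rw [abs_lt, abs_lt] at h1
      simp only [Finset.coe_product, Finset.coe_univ, Set.mem_prod, Finset.mem_coe,
        Finset.mem_Icc, Set.mem_univ, and_true]
      omega
    exact Set.infinite_range_of_injective hi hfin
  obtain ⟨k, hk⟩ := hbig
  exact ⟨c.1, ((It200.nx z)^[k] c).1, by simp, by simp, hk, It200.side_v z c k⟩

theorem ae_corner1 (c : Corner) :
    ∀ᵐ z ∂(nu hf), ∃ k : ℕ, 0 < k ∧ (It200.nx z)^[k] c = c := by
  obtain ⟨C, a, hC, ha, h⟩ := arm_half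
  rw [ae_iff]
  have hle : ∀ n : ℕ, 1 ≤ n →
      (nu hf).real {z : Cfz | ¬ ∃ k : ℕ, 0 < k ∧ (It200.nx z)^[k] c = c} ≤ C * (1 / (n : ℝ)) ^ a := by
    intro n hn
    have h1 := h c.1 1 n le_rfl hn
    rw [Nat.cast_one] at h1
    refine le_trans (measureReal_mono fun z hz => ?_) h1
    simp only [Set.mem_ofPred_eq, not_exists, not_and] at hz
    exact arm_of_inf hz n
  have hlim : Tendsto (fun n : ℕ => C * (1 / (n : ℝ)) ^ a) atTop (𝓝 0) := by
    have h2 : Tendsto (fun n : ℕ => (1 / (n : ℝ)) ^ a) atTop (𝓝 ((0 : ℝ) ^ a)) :=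
      (tendsto_one_div_atTop_nhds_zero_nat (𝕜 := ℝ)).rpow_const (Or.inr ha.le)
    rw [Real.zero_rpow ha.ne'] at h2
    simpa using h2.const_mul C
  have h0 : (nu hf).real {z : Cfz | ¬ ∃ k : ℕ, 0 < k ∧ (It200.nx z)^[k] c = c} ≤ 0 :=
    ge_of_tendsto hlim (eventually_atTop.2 ⟨1, hle⟩)
  have h1 : (nu hf).real {z : Cfz | ¬ ∃ k : ℕ, 0 < k ∧ (It200.nx z)^[k] c = c} = 0 :=
    le_antisymm h0 measureReal_nonneg
  rwa [measureReal_eq_zero_iff (measure_ne_top _ _)] at h1

/-- **a.e. every strand of corners is finite** -/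
theorem ae_corner : ∀ᵐ z ∂(nu hf), ∀ c : Corner, ∃ k : ℕ, 0 < k ∧ (It200.nx z)^[k] c = c :=
  ae_all_iff.2 ae_corner1

/-- **a.e. every strand of a uniform splitting is finite** -/
theorem ae_strand : ∀ᵐ s ∂(PB fun _ : ℤ × ℤ => hf), ∀ e : ME ℤ ℤ,
    ∃ k : ℕ, 0 < k ∧ (nx s)^[k] e = e := by
  have h1 := ae_corner
  rw [← map_unspl] at h1
  have h2 := ae_of_ae_map measurable_unspl.aemeasurable h1
  filter_upwards [h2] with s hs e
  obtain ⟨k, hk, h3⟩ := hs (cm.symm e)
  refine ⟨k, hk, ?_⟩
  have h4 := cm_iter (unspl s) k (cm.symm e)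
  rw [h3, spl_unspl, Equiv.apply_symm_apply] at h4
  exact h4.symm

/-! ### localization of the strands through a finite window -/

theorem Bx_mono {N N' : ℕ} (h : N ≤ N') : Bx N ⊆ Bx N' := by
  intro e he
  rw [mem_Bx] at he ⊢
  omega

theorem Loc_mono {C : ME ℤ ℤ →₀ ℝ} {N N' : ℕ} (h : N ≤ N') {s : ℤ × ℤ → Bool} (hs : Loc C N s) :
    Loc C N' s := fun e he k => Bx_mono h (hs e he k)

/-- a periodic strand stays in a box -/
theorem exists_box {s : ℤ × ℤ → Bool} {e : ME ℤ ℤ}
    (hs : ∃ k : ℕ, 0 < k ∧ (nx s)^[k] e = e) : ∃ N : ℕ, ∀ k : ℕ, (nx s)^[k] e ∈ Bx N := by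
  classical
  obtain ⟨p, hp, hpe⟩ := hs
  have h2 : ∀ m : ℕ, ∃ N, ∀ k < m, (nx s)^[k] e ∈ Bx N := by
    intro m
    induction m with
    | zero => exact ⟨0, fun k hk => absurd hk (by omega)⟩
    | succ m ih =>
      obtain ⟨N, hN⟩ := ih
      set x := (nx s)^[m] e
      refine ⟨max N (max x.1.1.natAbs x.1.2.natAbs), fun k hk => ?_⟩
      rcases Nat.lt_succ_iff_lt_or_eq.1 hk with h3 | h3
      · exact Bx_mono (le_max_left _ _) (hN k h3)
      · subst h3
        refine Bx_mono (le_max_right _ _) ?_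
        show x ∈ _
        rw [mem_Bx]
        omega
  obtain ⟨N, hN⟩ := h2 p
  refine ⟨N, fun k => ?_⟩
  have h3 : (nx s)^[k] e = (nx s)^[k % p] e :=
    (Function.IsPeriodicPt.iterate_mod_apply (show Function.IsPeriodicPt (nx s) p e from hpe) k).symm
  rw [h3]
  exact hN _ (Nat.mod_lt _ hp)

theorem exists_loc (C : ME ℤ ℤ →₀ ℝ) {s : ℤ × ℤ → Bool}
    (hs : ∀ e : ME ℤ ℤ, ∃ k : ℕ, 0 < k ∧ (nx s)^[k] e = e) : ∃ N, Loc C N s := by
  classical
  choose F hF using fun e => exists_box (hs e)
  refine ⟨C.support.sup F, fun e he k => Bx_mono (Finset.le_sup he) (hF e k)⟩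

theorem ae_loc (C : ME ℤ ℤ →₀ ℝ) : ∀ᵐ s ∂(PB fun _ : ℤ × ℤ => hf), ∃ N, Loc C N s := by
  filter_upwards [ae_strand] with s hs
  exact exists_loc C hs

theorem loc_dep (C : ME ℤ ℤ →₀ ℝ) (N : ℕ) : Rs689.Dep (Vx (N + 1)) {s | Loc C N s} :=
  fun _ _ h => Loc_congr h

theorem loc_tendsto (C : ME ℤ ℤ →₀ ℝ) :
    Tendsto (fun N : ℕ => (PB fun _ : ℤ × ℤ => hf).real {s | Loc C N s}) atTop (𝓝 1) := by
  have hmono : Monotone fun N : ℕ => {s : ℤ × ℤ → Bool | Loc C N s} :=
    fun N N' h s hs => Loc_mono h hs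
  have h1 := tendsto_measure_iUnion_atTop (μ := PB fun _ : ℤ × ℤ => hf) hmono
  have h2 : (PB fun _ : ℤ × ℤ => hf) (⋃ N : ℕ, {s : ℤ × ℤ → Bool | Loc C N s}) = 1 := by
    rw [← prob_compl_eq_zero_iff₀]
    · rw [← ae_iff.1 (ae_loc C)]
      congr 1
      ext s
      simp
    · exact (MeasurableSet.iUnion fun N => (loc_dep C N).measurableSet).nullMeasurableSet
  rw [h2] at h1
  have h3 := (ENNReal.continuousAt_toReal ENNReal.one_ne_top).tendsto.comp h1
  rw [ENNReal.toReal_one] at h3
  exact h3

end Crest.Agent.R158.Fi442
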