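import Mathlib
import Crest.Agent.R158.Bk5_430
import Crest.Agent.R158.Fi1_442

/-!
# R158, Block B (helper442), file 2: `Bk430.FinS`

* `finS : Bk430.FinS` : almost surely all the strands of a uniform splitting of the plane are finite
-/

set_option autoImplicit false

namespace Crest.Agent.R158.Fi442

open MeasureTheory Crest.Agent.R158.Rs689

/-- **all the strands are finite** -/
theorem finS : Bk430.FinS := by
  have h := ae_strand
  unfold Bk430.FinS Bk430.PU
  filter_upwards [h] with s hs e
  exact exists_box (hs e)

end Crest.Agent.R158.Fi442
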