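import Crest.Agent.R158.Tl3_405
import Crest.Agent.R158.Bk5_430

/-!
# R158: the two torus inputs `T1` and `B3` of `Bk5_430`
-/

set_option autoImplicit false

namespace Crest.Agent.R158.Tl405

open Finset MeasureTheory
open Crest.Agent.R158.Bk430 (wG ME TT CtrM lift proj orb nxE PU Vx mem_Vx)
open Crest.Agent.R158.Ts405 (sL Ctr TT_torus per per_pos per_iter per_min shE lift_iter iter_proj)
open Crest.Agent.R158.Rs689 (PB hf wt integral_restrict bern_real_true bern_real_false)

section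

variable {M L : ℕ} [NeZero M] [NeZero L] [Fact (Even M)] [Fact (Even L)]

omit [NeZero M] [NeZero L] [Fact (Even M)] [Fact (Even L)] in
theorem shE_zero_of_iter (s : ZMod M × ZMod L → Bool) {P : ℤ × ℤ} (hP : (P.1 + P.2) % 2 = 0)
    (hs : ∀ u : ℤ × ℤ, sL s (u.1 + P.1, u.2 + P.2) = sL s u) {e : ME ℤ ℤ} {k : ℕ}
    (h : (Bk430.nx (sL s))^[k] e = shE P e) (c : ℕ) :
    (Bk430.nx (sL s))^[c * k] e = shE (c * P.1, c * P.2) e := by
  have hnx : ∀ e : ME ℤ ℤ, Bk430.nx (sL s) (shE P e) = shE P (Bk430.nx (sL s) e) := by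
    intro e
    have hab : ∀ v : ℤ × ℤ, Bk430.vp (trV P.1 P.2 v) = Bk430.vp v := by
      intro v
      show Bk430.vp ((v.1 + P.1, v.2 + P.2) : ℤ × ℤ) = Bk430.vp ((v.1, v.2) : ℤ × ℤ)
      rw [Ts405.vp_int, Ts405.vp_int]
      congr 1
      apply propext
      omega
    have h1 := nx_tr hab (sL s) e
    have h2 : (fun v : ℤ × ℤ => sL s (trV P.1 P.2 v)) = sL s := by
      funext v
      exact hs v
    rw [h2] at h1
    exact h1
  have hit : ∀ (m : ℕ) (e : ME ℤ ℤ), (Bk430.nx (sL s))^[m] (shE P e)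
      = shE P ((Bk430.nx (sL s))^[m] e) := by
    intro m e
    induction m with
    | zero => rfl
    | succ m ih => rw [Function.iterate_succ_apply', ih, hnx, Function.iterate_succ_apply']
  induction c with
  | zero => simp [shE]
  | succ c ih =>
    have e1 : (c + 1) * k = c * k + k := by ring
    rw [e1, Function.iterate_add_apply, h, hit, ih]
    unfold shE
    simp only [Prod.mk.injEq, and_true]
    push_cast
    constructor <;> ring

theorem CtrM_eq (s : ZMod M × ZMod L → Bool) : CtrM s = Ctr s := by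
  funext l
  apply propext
  constructor
  · rintro ⟨e, he, k, hk, hke⟩
    refine ⟨e, he, ?_⟩
    have hke' : (Bk430.nx (sL s))^[k] e = e := hke
    obtain ⟨a, b, hab⟩ := lift_iter s e
    set p := per s (proj M L e) with hp
    have hdvd : p ∣ k := by
      have h1 : (Bk430.nx s)^[k] (proj M L e) = proj M L e := by
        rw [← iter_proj, hke']
      have h2 : Function.IsPeriodicPt (nxE s) k (proj M L e) := h1
      exact h2.minimalPeriod_dvd
    obtain ⟨c, hc⟩ := hdvd
    have hc0 : 0 < c := by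
      rcases Nat.eq_zero_or_pos c with h | h
      · subst h; omega
      · exact h
    have h3 := shE_zero_of_iter s (P := (M * a, L * b)) (Ts405.even_MP M L a b)
      (by intro u; simp [sL]) hab c
    rw [mul_comm c p, ← hc, hke'] at h3
    have h4 : e.1.1 = e.1.1 + c * (M * a) := congrArg (fun x : ME ℤ ℤ => x.1.1) h3
    have h5 : e.1.2 = e.1.2 + c * (L * b) := congrArg (fun x : ME ℤ ℤ => x.1.2) h3
    have h6 : (c : ℤ) * (M * a) = 0 := by linarith
    have h7 : (c : ℤ) * (L * b) = 0 := by linarith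
    have hc' : (c : ℤ) ≠ 0 := by exact_mod_cast hc0.ne'
    have h8 : (M : ℤ) * a = 0 := (mul_eq_zero.mp h6).resolve_left hc'
    have h9 : (L : ℤ) * b = 0 := (mul_eq_zero.mp h7).resolve_left hc'
    rw [hab, h8, h9]
    simp [shE]
  · rintro ⟨e, he, h⟩
    exact ⟨e, he, _, per_pos s _, h⟩

end

/-- **T1 of `Bk5_430`** -/
theorem T1_main : Bk430.T1 := by
  intro M L _ _ _ _ s
  rw [CtrM_eq]
  exact TT_torus s

/-- uniform version of `B3` -/
theorem B3u (B : Finset (ℤ × ℤ)) (ε : ℝ) (hε : 0 < ε) :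
    ∃ L0 : ℕ, ∀ (M L : ℕ) [NeZero M] [NeZero L] [Fact (Even M)] [Fact (Even L)],
      L0 ≤ L → L ≤ M → ∀ g : (ℤ × ℤ → Bool) → ℝ, (∀ s, |g s| ≤ 1) →
      (∀ s s', (∀ u ∈ B, s u = s' u) → g s = g s') →
      |(∑ s : ZMod M × ZMod L → Bool, wG s * g (sL s)) / (∑ s : ZMod M × ZMod L → Bool, wG s)
        - (1 / 2 : ℝ) ^ B.card * ∑ y : B → Bool, g (ext B y)| ≤ ε := by
  classical
  set Q : ℝ := 2 ^ B.card with hQ
  have hQ1 : 1 ≤ Q := one_le_pow₀ (by norm_num)
  have hcardQ : ((Fintype.card (B → Bool) : ℕ) : ℝ) = Q := by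
    rw [Fintype.card_fun, Fintype.card_bool, Fintype.card_coe, hQ]
    push_cast
    rfl
  -- apply B3 to each pattern
  have h1 : ∀ y : B → Bool, ∃ L0 : ℕ, ∀ (M L : ℕ) [NeZero M] [NeZero L] [Fact (Even M)]
      [Fact (Even L)], L0 ≤ L → L ≤ M →
      |(∑ s : ZMod M × ZMod L → Bool, wG s * agB B (ext B y) (sL s)) /
        (∑ s : ZMod M × ZMod L → Bool, wG s)
        - (1 / 2 : ℝ) ^ B.card * ∑ z : B → Bool, agB B (ext B y) (ext B z)| ≤ ε / Q := by
    intro y
    refine B3 B (agB B (ext B y)) ?_ (ε / Q) (by positivity)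
    intro s s' h
    rw [agB_ext, agB_ext]
    have : (fun u : B => s u) = fun u : B => s' u := by funext u; exact h u u.2
    rw [this]
  choose L0 hL0 using h1
  refine ⟨univ.sup L0, ?_⟩
  intro M L _ _ _ _ hL hML g hg1 hg
  set Z : ℝ := ∑ s : ZMod M × ZMod L → Bool, wG s with hZ
  have hone : ∀ y : B → Bool, ∑ z : B → Bool, agB B (ext B y) (ext B z) = 1 := by
    intro y
    have e : ∀ z : B → Bool, agB B (ext B y) (ext B z) = if y = z then 1 else 0 := by
      intro z
      rw [agB_ext]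
      congr 1
      apply propext
      constructor
      · intro h; rw [h]; funext u; rw [ext_mem B z u.2]
      · intro h; rw [h]; funext u; rw [ext_mem B z u.2]
    simp_rw [e]
    simp
  have hrep : (∑ s : ZMod M × ZMod L → Bool, wG s * g (sL s)) / Z
      = ∑ y : B → Bool, g (ext B y) *
        ((∑ s : ZMod M × ZMod L → Bool, wG s * agB B (ext B y) (sL s)) / Z) := by
    have h2 : ∀ s : ZMod M × ZMod L → Bool, wG s * g (sL s)
        = ∑ y : B → Bool, g (ext B y) * (wG s * agB B (ext B y) (sL s)) := by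
      intro s
      have h3 := sum_agB B (fun y => g (ext B y)) (sL s)
      have h4 : g (ext B fun u : B => sL s u) = g (sL s) := by
        apply hg
        intro u hu
        rw [ext_mem B _ hu]
      rw [h4] at h3
      rw [← h3, Finset.mul_sum]
      refine Finset.sum_congr rfl fun y _ => ?_
      ring
    rw [Finset.sum_congr rfl (fun s _ => h2 s), Finset.sum_comm, Finset.sum_div]
    refine Finset.sum_congr rfl fun y _ => ?_
    rw [← Finset.mul_sum, mul_div_assoc]
  rw [hrep, Finset.mul_sum, ← Finset.sum_sub_distrib]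
  have h5 : ∀ y : B → Bool, |g (ext B y) *
        ((∑ s : ZMod M × ZMod L → Bool, wG s * agB B (ext B y) (sL s)) / Z)
        - (1 / 2 : ℝ) ^ B.card * g (ext B y)| ≤ ε / Q := by
    intro y
    have h6 := hL0 y M L (le_trans (Finset.le_sup (mem_univ y)) hL) hML
    rw [hone y, mul_one] at h6
    have h7 : g (ext B y) *
        ((∑ s : ZMod M × ZMod L → Bool, wG s * agB B (ext B y) (sL s)) / Z)
        - (1 / 2 : ℝ) ^ B.card * g (ext B y) = g (ext B y) *
        ((∑ s : ZMod M × ZMod L → Bool, wG s * agB B (ext B y) (sL s)) / Z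
          - (1 / 2 : ℝ) ^ B.card) := by ring
    rw [h7, abs_mul]
    calc _ ≤ 1 * (ε / Q) := mul_le_mul (hg1 _) h6 (abs_nonneg _) zero_le_one
      _ = ε / Q := one_mul _
  refine le_trans (Finset.abs_sum_le_sum_abs _ _) (le_trans (Finset.sum_le_sum fun y _ => h5 y) ?_)
  rw [Finset.sum_const, Finset.card_univ, nsmul_eq_mul, hcardQ]
  apply le_of_eq
  field_simp

theorem wt_half (B : Finset (ℤ × ℤ)) (y : B → Bool) :
    wt (fun _ : ℤ × ℤ => hf) B y = (1 / 2 : ℝ) ^ B.card := by
  unfold wt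
  have h : ∀ e : B, (Rs689.bern hf).real {y e} = 1 / 2 := by
    intro e
    cases y e
    · rw [bern_real_false]; show (1 : ℝ) - 1 / 2 = 1 / 2; norm_num
    · rw [bern_real_true]; rfl
  simp_rw [h]
  rw [Finset.prod_const, Finset.card_univ, Fintype.card_coe]

theorem integral_loc (B : Finset (ℤ × ℤ)) (g : (ℤ × ℤ → Bool) → ℝ)
    (hg : ∀ s s', (∀ u ∈ B, s u = s' u) → g s = g s') :
    ∫ s, g s ∂PU = (1 / 2 : ℝ) ^ B.card * ∑ y : B → Bool, g (ext B y) := by
  have h1 := integral_restrict (fun _ : ℤ × ℤ => hf) B (fun y => g (ext B y))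
  have h2 : ∀ z : ℤ × ℤ → Bool, g (ext B (B.restrict z)) = g z := by
    intro z
    apply hg
    intro u hu
    rw [ext_mem B _ hu]
    rfl
  simp_rw [h2] at h1
  unfold Bk430.PU
  rw [h1, Finset.mul_sum]
  simp_rw [wt_half]
  congr!

/-- **B3 of `Bk5_430`** -/
theorem B3_main : Bk430.B3 := by
  intro n ε hε
  obtain ⟨L0, hL0⟩ := B3u (Vx n) ε hε
  refine ⟨L0, fun L hL M hM _ _ _ _ F hF1 hF => ?_⟩
  have h := hL0 M (2 * L) (by omega) hM F hF1 hF
  rw [integral_loc (Vx n) F hF]
  have h2 : ∀ s : ZMod M × ZMod (2 * L) → Bool, F (lift s) * wG s = wG s * F (sL s) := by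
    intro s
    rw [mul_comm]
    rfl
  rw [Finset.sum_congr rfl (fun s _ => h2 s)]
  exact h

end Crest.Agent.R158.Tl405
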