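import Crest.Agent.R158.Vx4_107

/-!
# R158, Block V (helper107), file 5: the identity (ID)

* `flip_mp`  : the flip of one edge preserves `nu hf`
* `nab m e z` : `W m` with `e` open minus `W m` with `e` closed
* `Even`     : `∫ W m = ∫ W (-m)` for all neutral charges (the input from the six-vertex side)
* `IDlat`    : `∫ nab (-m) e - ∫ nab m e = tan (π/6) * ∑ over the four corners, ∫ Dr m c`
* `X1`       : the same with charges `chv μ u = μ - π δ_u` (`tot μ = π`), with the corner reading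
  `Xs μ c z = Sw (mass of the loop of c) * ∏ (other loops, sign -1 if around c)` (`Xs_eq`, `Fv_eq`)
* `integrable_nab`, `integrable_Xs`, `nab_chv`, `nab_chv_neg` (free choice of the base point)
-/

set_option autoImplicit false

noncomputable section

namespace Crest.Agent.R158.Vx107

open Crest.Agent.R161.Geo729 Crest.Agent.R161.Dual374
open Crest.Agent.R161.Tas682 (sd)
open Crest.Agent.R158.It200 Crest.Agent.R158.Wf850
open Crest.Agent.R158.Rs689 (nu)
open Function Real MeasureTheory Filter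

local notation "μh" => nu Crest.Agent.R158.Rs689.hf

theorem flip_eq_map (e : Edge) : (fun z : Cfz => It200.flip z e) =
    fun z e' => (if e' = e then (fun b : Bool => !b) else id) (z e') := by
  funext z e'
  by_cases h : e' = e
  · subst h; rw [flip_same, if_pos rfl]
  · rw [flip_ne z h, if_neg h]; rfl

theorem flip_map (e : Edge) : (μh).map (fun z => It200.flip z e) = μh := by
  rw [flip_eq_map]
  unfold nu Crest.Agent.R158.Rs689.PB
  rw [Measure.infinitePi_map_pi
    (μ := fun _ : Edge => Crest.Agent.R158.Rs689.bern Crest.Agent.R158.Rs689.hf)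
    (f := fun e' => if e' = e then (fun b : Bool => !b) else id) fun e' => Measurable.of_discrete]
  congr 1
  funext e'
  by_cases h : e' = e
  · rw [if_pos h, Crest.Agent.R158.Rs689.bern_map_not, Crest.Agent.R158.Rs689.sigma_hf]
  · rw [if_neg h, Measure.map_id]

theorem meas_flip (e : Edge) : Measurable (fun z : Cfz => It200.flip z e) := by
  rw [flip_eq_map]
  exact measurable_pi_lambda _ fun e' => Measurable.of_discrete.comp (measurable_pi_apply e')

theorem flip_mp (e : Edge) : MeasurePreserving (fun z : Cfz => It200.flip z e) μh μh :=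
  ⟨meas_flip e, flip_map e⟩

/-- `e` open -/
def op (z : Cfz) (e : Edge) : Cfz := Function.update z e true

/-- `e` closed -/
def cl (z : Cfz) (e : Edge) : Cfz := Function.update z e false

theorem op_of {z : Cfz} {e : Edge} (h : z e = true) : op z e = z := by
  unfold op; rw [← h, Function.update_eq_self]

theorem cl_of {z : Cfz} {e : Edge} (h : z e = false) : cl z e = z := by
  unfold cl; rw [← h, Function.update_eq_self]

theorem op_of' {z : Cfz} {e : Edge} (h : z e = false) : op z e = It200.flip z e := by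
  unfold op It200.flip; rw [h]; rfl

theorem cl_of' {z : Cfz} {e : Edge} (h : z e = true) : cl z e = It200.flip z e := by
  unfold cl It200.flip; rw [h]; rfl

theorem flip_cl (z : Cfz) (e : Edge) : It200.flip (cl z e) e = op z e := by
  unfold It200.flip cl op
  rw [Function.update_self, Function.update_idem]; rfl

@[simp] theorem cl_same (z : Cfz) (e : Edge) : cl z e e = false := Function.update_self _ _ _

@[simp] theorem op_same (z : Cfz) (e : Edge) : op z e e = true := Function.update_self _ _ _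

theorem op_add_cl (G : Cfz → ℝ) (z : Cfz) (e : Edge) :
    G (op z e) + G (cl z e) = G z + G (It200.flip z e) := by
  cases h : z e with
  | true => rw [op_of h, cl_of' h]
  | false => rw [op_of' h, cl_of h]; ring

/-- `W m` with `e` open minus `W m` with `e` closed -/
def nab (m : Face →₀ ℝ) (e : Edge) (z : Cfz) : ℝ := W m (op z e) - W m (cl z e)

theorem finE {z : Cfz} {e : Edge} (hz : AllFin z) (c : Corner) : (Lp (It200.flip z e) c).Finite := by
  by_cases h1 : i1 e ∈ Lp z c
  · have h := (fin_flip (hz (i1 e)) (hz (i2 e))).1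
    have h2 : Lp z (i1 e) ∪ Lp z (i2 e) = Lp (It200.flip z e) (i1 e) ∪ Lp (It200.flip z e) (i2 e) :=
      (flip_union z e).symm
    have h3 : c ∈ Lp (It200.flip z e) (i1 e) ∪ Lp (It200.flip z e) (i2 e) := by
      rw [← h2]; left; rw [Lp_eq h1]; exact mem_Lp_self _ _
    rcases h3 with h3 | h3
    · rw [Lp_eq h3]; exact h
    · rw [Lp_eq h3]; exact (fin_flip (hz (i1 e)) (hz (i2 e))).2
  · by_cases h1' : i2 e ∈ Lp z c
    · have h := (fin_flip (hz (i1 e)) (hz (i2 e))).1
      have h2 : Lp z (i1 e) ∪ Lp z (i2 e) = Lp (It200.flip z e) (i1 e) ∪ Lp (It200.flip z e) (i2 e) :=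
        (flip_union z e).symm
      have h3 : c ∈ Lp (It200.flip z e) (i1 e) ∪ Lp (It200.flip z e) (i2 e) := by
        rw [← h2]; right; rw [Lp_eq h1']; exact mem_Lp_self _ _
      rcases h3 with h3 | h3
      · rw [Lp_eq h3]; exact h
      · rw [Lp_eq h3]; exact (fin_flip (hz (i1 e)) (hz (i2 e))).2
    · rw [flip_other h1 h1']; exact hz c

theorem AllFin.flip {z : Cfz} (hz : AllFin z) (e : Edge) : AllFin (It200.flip z e) := fun c => finE hz c

theorem AllFin.op {z : Cfz} (hz : AllFin z) (e : Edge) : AllFin (op z e) := by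
  cases h : z e with
  | true => rw [op_of h]; exact hz
  | false => rw [op_of' h]; exact hz.flip e

theorem AllFin.cl {z : Cfz} (hz : AllFin z) (e : Edge) : AllFin (cl z e) := by
  cases h : z e with
  | true => rw [cl_of' h]; exact hz.flip e
  | false => rw [cl_of h]; exact hz

/-- **V1, symmetric form** -/
theorem nab_eq {z : Cfz} (hz : AllFin z) {m : Face →₀ ℝ} (hm : Ntr m) (e : Edge) :
    nab m e z =
      (1 / 2) * ((W (m + (π / 2) • dE e) z + W (m + (π / 2) • dE e) (It200.flip z e))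
        - (W (m + (π / 2) • dO e) z + W (m + (π / 2) • dO e) (It200.flip z e)))
      + tan (π / 6) / 4 * (S4 m z e + S4 m (It200.flip z e) e) := by
  have h := V1 (z := cl z e) (e := e) (cl_same z e) (hz.cl e _) (hz.cl e _) hm
  rw [flip_cl] at h
  have h1 := op_add_cl (W (m + (π / 2) • dE e)) z e
  have h2 := op_add_cl (W (m + (π / 2) • dO e)) z e
  have h3 : S4 m (op z e) e + S4 m (cl z e) e = S4 m z e + S4 m (It200.flip z e) e :=
    op_add_cl (fun z => S4 m z e) z e
  unfold nab
  rw [h, h1, h2, h3]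

/-! ### integration -/

theorem int_flip {G : Cfz → ℝ} (hG : Integrable G μh) (e : Edge) :
    Integrable (fun z => G (It200.flip z e)) μh :=
  (flip_mp e).integrable_comp_of_integrable hG

theorem integral_flip {G : Cfz → ℝ} (hG : Integrable G μh) (e : Edge) :
    ∫ z, G (It200.flip z e) ∂μh = ∫ z, G z ∂μh := by
  have h := integral_map (μ := μh) (φ := fun z => It200.flip z e) (meas_flip e).aemeasurable (f := G)
    (by rw [flip_map]; exact hG.aestronglyMeasurable)
  rw [flip_map] at h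
  exact h.symm

theorem iW {m : Face →₀ ℝ} (hm : Ntr m) : Integrable (W m) μh := integrable_W hm _

theorem iWf {m : Face →₀ ℝ} (hm : Ntr m) (e : Edge) : Integrable (fun z => W m (It200.flip z e)) μh :=
  int_flip (iW hm) e

theorem int4 {a b c d : Cfz → ℝ} (ha : Integrable a μh) (hb : Integrable b μh)
    (hc : Integrable c μh) (hd : Integrable d μh) :
    ∫ z, (a z + b z + c z + d z) ∂μh =
      ∫ z, a z ∂μh + ∫ z, b z ∂μh + ∫ z, c z ∂μh + ∫ z, d z ∂μh := by
  have h1 : Integrable (fun z => a z + b z) μh := ha.add hb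
  have h2 : Integrable (fun z => a z + b z + c z) μh := h1.add hc
  rw [integral_add h2 hd, integral_add h1 hc, integral_add ha hb]

/-- mean value -/
def Pi0 (m : Face →₀ ℝ) : ℝ := ∫ z, W m z ∂μh

theorem iS4 {m : Face →₀ ℝ} (hm : Ntr m) (e : Edge) : Integrable (fun z => S4 m z e) μh := by
  unfold S4
  exact (((iW (hm.add ((ntr_dC _).smul _))).add (iW (hm.add ((ntr_dC _).smul _)))).add
    (iW (hm.add ((ntr_dC _).smul _)))).add (iW (hm.add ((ntr_dC _).smul _)))

theorem int_S4 {m : Face →₀ ℝ} (hm : Ntr m) (e : Edge) :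
    ∫ z, S4 m z e ∂μh = Pi0 (m + (π / 2) • dC (i1 e)) + Pi0 (m + (π / 2) • dC (i2 e)) +
      Pi0 (m + (π / 2) • dC (o1 e)) + Pi0 (m + (π / 2) • dC (o2 e)) := by
  have i0 : ∀ c : Corner, Integrable (W (m + (π / 2) • dC c)) μh := fun c =>
    iW (hm.add ((ntr_dC c).smul _))
  unfold S4 Pi0
  exact int4 (i0 _) (i0 _) (i0 _) (i0 _)

/-- **V1 integrated** -/
theorem int_nab (hfin : ∀ᵐ z ∂μh, AllFin z) {m : Face →₀ ℝ} (hm : Ntr m) (e : Edge) :
    ∫ z, nab m e z ∂μh = Pi0 (m + (π / 2) • dE e) - Pi0 (m + (π / 2) • dO e) +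
      tan (π / 6) / 2 * (Pi0 (m + (π / 2) • dC (i1 e)) + Pi0 (m + (π / 2) • dC (i2 e)) +
      Pi0 (m + (π / 2) • dC (o1 e)) + Pi0 (m + (π / 2) • dC (o2 e))) := by
  have hE := hm.add ((ntr_dE e).smul (π / 2))
  have hO := hm.add ((ntr_dO e).smul (π / 2))
  have h1 : ∫ z, nab m e z ∂μh = ∫ z, ((1 / 2) * ((W (m + (π / 2) • dE e) z +
      W (m + (π / 2) • dE e) (It200.flip z e)) - (W (m + (π / 2) • dO e) z +
      W (m + (π / 2) • dO e) (It200.flip z e))) + tan (π / 6) / 4 * (S4 m z e + S4 m (It200.flip z e) e)) ∂μh :=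
    integral_congr_ae (hfin.mono fun _ hz => nab_eq hz hm e)
  have iS' : Integrable (fun z => S4 m (It200.flip z e) e) μh := int_flip (iS4 hm e) e
  have jE : Integrable (fun z => W (m + (π / 2) • dE e) z + W (m + (π / 2) • dE e) (It200.flip z e))
    μh := (iW hE).add (iWf hE e)
  have jO : Integrable (fun z => W (m + (π / 2) • dO e) z + W (m + (π / 2) • dO e) (It200.flip z e))
    μh := (iW hO).add (iWf hO e)
  have jS : Integrable (fun z => S4 m z e + S4 m (It200.flip z e) e) μh := (iS4 hm e).add iS'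
  have jEO : Integrable (fun z => (W (m + (π / 2) • dE e) z +
      W (m + (π / 2) • dE e) (It200.flip z e)) - (W (m + (π / 2) • dO e) z +
      W (m + (π / 2) • dO e) (It200.flip z e))) μh := jE.sub jO
  rw [h1, integral_add (jEO.const_mul _) (jS.const_mul _), integral_const_mul, integral_const_mul,
    integral_sub jE jO, integral_add (iW hE) (iWf hE e), integral_add (iW hO) (iWf hO e),
    integral_add (iS4 hm e) iS', integral_flip (iW hE), integral_flip (iW hO),
    integral_flip (iS4 hm e), int_S4 hm e]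
  unfold Pi0
  ring

/-- the input from the six-vertex side -/
def Even : Prop := ∀ m : Face →₀ ℝ, Ntr m → Pi0 m = Pi0 (-m)

theorem Pi0_dC (hfin : ∀ᵐ z ∂μh, AllFin z) {m : Face →₀ ℝ} (hm : Ntr m) (c : Corner) :
    Pi0 (m + (π / 2) • dC c) = -∫ z, Dr m c z ∂μh := by
  unfold Pi0
  rw [← integral_neg]
  exact integral_congr_ae (hfin.mono fun _ hz => V0 (hz c) hm)

theorem Pi0_dC_neg (hfin : ∀ᵐ z ∂μh, AllFin z) {m : Face →₀ ℝ} (hm : Ntr m) (c : Corner) :
    Pi0 (m + (-(π / 2)) • dC c) = ∫ z, Dr m c z ∂μh :=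
  integral_congr_ae (hfin.mono fun _ hz => V0_neg (hz c) hm)

theorem neg_half (m x : Face →₀ ℝ) : -(m + (-(π / 2)) • x) = -m + (π / 2) • x := by
  rw [neg_add, neg_smul, neg_neg]

/-- **(ID)** -/
theorem IDlat (hfin : ∀ᵐ z ∂μh, AllFin z) (hev : Even) {m : Face →₀ ℝ} (hm : Ntr m) (e : Edge) :
    ∫ z, nab (-m) e z ∂μh - ∫ z, nab m e z ∂μh = tan (π / 6) *
      (∫ z, Dr m (i1 e) z ∂μh + ∫ z, Dr m (i2 e) z ∂μh + ∫ z, Dr m (o1 e) z ∂μh +
        ∫ z, Dr m (o2 e) z ∂μh) := by
  have hE : Pi0 (-m + (π / 2) • dE e) = Pi0 (m + (π / 2) • dE e) := by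
    rw [← neg_half, ← hev _ (hm.add ((ntr_dE e).smul _))]
    exact integral_congr_ae (hfin.mono fun _ hz => V2E (hz _) (hz _) hm)
  have hO : Pi0 (-m + (π / 2) • dO e) = Pi0 (m + (π / 2) • dO e) := by
    rw [← neg_half, ← hev _ (hm.add ((ntr_dO e).smul _))]
    exact integral_congr_ae (hfin.mono fun _ hz => V2O (hz _) (hz _) hm)
  have hC : ∀ c, Pi0 (-m + (π / 2) • dC c) = ∫ z, Dr m c z ∂μh := fun c => by
    rw [← neg_half, ← hev _ (hm.add ((ntr_dC c).smul _)), Pi0_dC_neg hfin hm]
  rw [int_nab hfin hm.neg, int_nab hfin hm, hE, hO, hC, hC, hC, hC, Pi0_dC hfin hm,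
    Pi0_dC hfin hm, Pi0_dC hfin hm, Pi0_dC hfin hm]
  ring

/-! ### the form with a base point -/

/-- reading of the charge `μ - π δ` at the corner `c` -/
def Xs (μ : Face →₀ ℝ) (c : Corner) (z : Cfz) : ℝ := Dr (chv μ c.1) c z

/-- `Xs` : the loop `A` through `c` gives `Sw (mass μ A)`, the other loops `± Fw (mass μ B)`, with
sign `-` if they are around `c` (`Fv_eq`) -/
theorem Xs_eq {z : Cfz} {c : Corner} (hfin : (Lp z c).Finite) {A : Finset Face}
    (hA : ∀ f, f ∈ A ↔ ht z c f ≠ 0) (μ : Face →₀ ℝ) :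
    Xs μ c z = Sw (mass μ A) * ∏ᶠ B ∈ Oth z c, Fv μ c.1 B := Dr_base hfin hA μ

theorem Xs_W {z : Cfz} {c : Corner} (hfin : (Lp z c).Finite) {μ : Face →₀ ℝ} (h : tot μ = π) :
    Xs μ c z = W (chv μ c.1 + (-(π / 2)) • dC c) z := (V0_neg hfin (ntr_chv h _)).symm

theorem integrable_Dr (hfin : ∀ᵐ z ∂μh, AllFin z) {m : Face →₀ ℝ} (hm : Ntr m) (c : Corner) :
    Integrable (Dr m c) μh :=
  (iW (hm.add ((ntr_dC c).smul (-(π / 2))))).congr (hfin.mono fun _ hz => V0_neg (hz c) hm)

theorem integrable_Xs (hfin : ∀ᵐ z ∂μh, AllFin z) {μ : Face →₀ ℝ} (h : tot μ = π) (c : Corner) :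
    Integrable (Xs μ c) μh := integrable_Dr hfin (ntr_chv h _) c

theorem int_op {G : Cfz → ℝ} (hG : Integrable G μh) (e : Edge) :
    Integrable (fun z => G (op z e)) μh := by
  have h1 : Measurable (fun z : Cfz => z e) := measurable_pi_apply e
  have hs : MeasurableSet {z : Cfz | z e = true} := h1 (measurableSet_singleton true)
  have h2 := (hG.indicator hs).add ((int_flip hG e).indicator hs.compl)
  refine h2.congr (Filter.Eventually.of_forall fun z => ?_)
  show Set.indicator {z : Cfz | z e = true} G z +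
    Set.indicator {z : Cfz | z e = true}ᶜ (fun z => G (It200.flip z e)) z = G (op z e)
  by_cases h : z e = true
  · rw [Set.indicator_of_mem (show z ∈ {z : Cfz | z e = true} from h),
      Set.indicator_of_notMem (fun h' : z ∈ {z : Cfz | z e = true}ᶜ => h' h), add_zero, op_of h]
  · have h' : z e = false := by simpa using h
    rw [Set.indicator_of_notMem (show z ∉ {z : Cfz | z e = true} from h),
      Set.indicator_of_mem (show z ∈ {z : Cfz | z e = true}ᶜ from h), zero_add, op_of' h']

theorem int_cl {G : Cfz → ℝ} (hG : Integrable G μh) (e : Edge) :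
    Integrable (fun z => G (cl z e)) μh := by
  have h := ((hG.add (int_flip hG e)).sub (int_op hG e))
  refine h.congr (Filter.Eventually.of_forall fun z => ?_)
  show G z + G (It200.flip z e) - G (op z e) = G (cl z e)
  rw [← op_add_cl]; ring

theorem integrable_nab {m : Face →₀ ℝ} (hm : Ntr m) (e : Edge) : Integrable (nab m e) μh :=
  (int_op (iW hm) e).sub (int_cl (iW hm) e)

/-- the base point of `nab` does not matter -/
theorem nab_chv {z : Cfz} (hz : AllFin z) {μ : Face →₀ ℝ} (h : tot μ = π) (e : Edge) (u v : P2) :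
    nab (chv μ u) e z = nab (chv μ v) e z := by
  unfold nab; rw [W_chv (hz.op e) h u v, W_chv (hz.cl e) h u v]

theorem W_chv_neg {z : Cfz} (hz : AllFin z) {μ : Face →₀ ℝ} (h : tot μ = π) (u v : P2) :
    W (-chv μ u) z = W (-chv μ v) z := by
  have h1 : -chv μ v = -chv μ u + π • dV v u := by
    rw [← chv_add μ u v, neg_add, ← smul_neg, dV_neg]
  rw [h1, V3_path hz v u _ (ntr_chv h u).neg]

theorem nab_chv_neg {z : Cfz} (hz : AllFin z) {μ : Face →₀ ℝ} (h : tot μ = π) (e : Edge)
    (u v : P2) : nab (-chv μ u) e z = nab (-chv μ v) e z := by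
  unfold nab; rw [W_chv_neg (hz.op e) h u v, W_chv_neg (hz.cl e) h u v]

/-- **(X1)** (doc 1912) -/
theorem X1 (hfin : ∀ᵐ z ∂μh, AllFin z) (hev : Even) {μ : Face →₀ ℝ} (h : tot μ = π) (e : Edge)
    (u : P2) :
    ∫ z, nab (-chv μ u) e z ∂μh - ∫ z, nab (chv μ u) e z ∂μh = tan (π / 6) *
      (∫ z, Xs μ (i1 e) z ∂μh + ∫ z, Xs μ (i2 e) z ∂μh + ∫ z, Xs μ (o1 e) z ∂μh +
        ∫ z, Xs μ (o2 e) z ∂μh) := by
  have hc : ∀ c, ∫ z, Dr (chv μ u) c z ∂μh = ∫ z, Xs μ c z ∂μh := fun c =>
    integral_congr_ae (hfin.mono fun _ hz => Dr_chv hz h c u c.1)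
  rw [IDlat hfin hev (ntr_chv h u) e, hc, hc, hc, hc]

end Crest.Agent.R158.Vx107
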