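import Mathlib
import Crest.Agent.R158.Bk9_430
import Crest.Agent.R158.Tl4_405
import Crest.Agent.R158.Fi2_442
import Crest.Agent.R158.En6_510
import Crest.Agent.R158.Vx5_107

/-!
# R158, Block B (helper430), file 10: the bridge, unconditional

* `starE_main : Bs410.StarE Pi6`
* `even_main : Vx107.Even`
* `pull m6` : six-vertex charge in percolation coordinates, `W6 m6 := ∫ z, W (pull m6) z`
* `char_W` : plane characteristic function in percolation coordinates
* `star_W` : (STAR) for concentric squares in percolation coordinates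
-/

set_option autoImplicit false

noncomputable section

namespace Crest.Agent.R158.Bk430

open Finset MeasureTheory Filter Topology
open Crest.ProbabilityR.SixVertex
open Crest.Agent.R158.It200 (Cfz)
open Crest.Agent.R158.Wf850 (Face)
open Crest.Agent.R158.Rs689 (PB nu hf)
open Crest.Agent.R158.Vx107 (Ntr tot mass Fw W)
open Crest.Agent.R158.Bs410 (StarE CC chg chg_apply chg_sum Law3 plane_charE)
open Crest.Agent.R158.En510 (chf mug carrier_mug mass_mug fin_mug energy_mug quad quad_nonpos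
  chg_mug)

/-- **the lattice identity** -/
theorem starE_main : StarE Pi6 := starE Tl405.T1_main Tl405.B3_main Fi442.finS

/-- **the plane functional in percolation coordinates** -/
theorem Pi6_main {m : Face →₀ ℝ} (hm : Ntr m) : Pi6 (m.mapDomain fm) = ∫ z, W m z ∂(nu hf) :=
  Pi6_W Fi442.finS hm

/-- **evenness** -/
theorem even_main : Vx107.Even := by
  intro m hm
  unfold Vx107.Pi0
  rw [← Pi6_main hm, ← Pi6_main hm.neg]
  have h : (-m).mapDomain fm = -(m.mapDomain fm) := map_neg (Finsupp.mapDomain.addMonoidHom fm) m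
  rw [h, even_of_starE starE_main (ntr_m6 hm)]

/-- six-vertex charge in percolation coordinates -/
def pull (m : ℤ × ℤ →₀ ℝ) : Face →₀ ℝ := m.mapDomain fmE.symm

@[simp] theorem pull_apply (m : ℤ × ℤ →₀ ℝ) (f : Face) : pull m f = m (fm f) := by
  unfold pull
  rw [← fmE_apply]
  conv_lhs => rw [show f = fmE.symm (fmE f) from (fmE.symm_apply_apply f).symm]
  exact Finsupp.mapDomain_apply fmE.symm.injective m (fmE f)

theorem pull_push (m : ℤ × ℤ →₀ ℝ) : (pull m).mapDomain fm = m := by
  unfold pull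
  rw [← Finsupp.mapDomain_comp]
  have : fm ∘ fmE.symm = id := by
    funext v
    exact fmE.apply_symm_apply v
  rw [this, Finsupp.mapDomain_id]

theorem pull_ntr {m : ℤ × ℤ →₀ ℝ} (hm : m.sum (fun _ a => a) = 0) : Ntr (pull m) := by
  unfold Ntr tot pull
  rw [Finsupp.sum_mapDomain_index (fun _ => rfl) (fun _ _ _ => rfl)]
  exact hm

theorem Pi6_pull {m : ℤ × ℤ →₀ ℝ} (hm : m.sum (fun _ a => a) = 0) :
    Pi6 m = ∫ z, W (pull m) z ∂(nu hf) := by
  rw [← Pi6_main (pull_ntr hm), pull_push]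

/-- **the plane characteristic function in percolation coordinates** -/
theorem char_W (hLaw : Law3) {μ : SignedMeasure (ℝ × ℝ)} (hμ : CC μ) (h0 : μ Set.univ = 0)
    (hE : HasFiniteEnergy μ) :
    Tendsto (fun δ => ∫ z, W (pull (chg μ δ)) z ∂(nu hf)) (𝓝[>] 0)
      (𝓝 (Real.exp (-(3 / (2 * Real.pi)) * max (energy μ) 0))) := by
  refine (plane_charE hLaw starE_main hμ h0 hE).congr fun δ => ?_
  exact Pi6_pull (by rw [chg_sum hμ, h0])

section Fam

variable {ι : Type*} [Fintype ι]

theorem chf_ntr {a : ι → ℝ} (ha : ∑ i, a i = 0) {s : ι → ℕ} (hs : ∀ i, 1 ≤ s i) {r : ℕ}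
    (hr : 1 ≤ r) : (chf a s r).sum (fun _ a => a) = 0 := by
  have hs0 : ∀ i, (0 : ℝ) < (s i : ℝ) := fun i => by exact_mod_cast hs i
  rw [← chg_mug a hs hr, chg_sum (carrier_mug a _), mass_mug ha hs0]

/-- **(STAR)** for a finite family of concentric squares, percolation coordinates -/
theorem star_W (hLaw : Law3) (a : ι → ℝ)
    (ha : ∑ i, a i = 0) {s : ι → ℕ} (hs : ∀ i, 1 ≤ s i) : ∃ Lam : ℝ, 0 < Lam ∧
      |Real.log Lam - 3 / (4 * Real.pi ^ 2) *
        ∑ i, ∑ j, a i * a j * Real.log (max (s i : ℝ) (s j))| ≤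
        3 / (2 * Real.pi) * En510.cq * (∑ i, |a i|) ^ 2 ∧
      Tendsto (fun r : ℕ => ∫ z, W (pull (chf a s r)) z ∂(nu hf)) atTop (𝓝 Lam) := by
  have hpi := Real.pi_pos
  have hs1 : ∀ i, (1 : ℝ) ≤ (s i : ℝ) := fun i => by exact_mod_cast hs i
  have hs0 : ∀ i, (0 : ℝ) < (s i : ℝ) := fun i => one_pos.trans_le (hs1 i)
  refine ⟨Real.exp (-(3 / (2 * Real.pi)) * max (energy (mug a fun i => (s i : ℝ))) 0),
    Real.exp_pos _, ?_, ?_⟩
  · rw [Real.log_exp]
    have h1 := energy_mug a hs0
    have hq := quad_nonpos ha hs1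
    have e0 : (∑ i, ∑ j, a i * a j * Real.log (max (s i : ℝ) (s j))) =
        quad a (fun i => (s i : ℝ)) := rfl
    rw [e0]
    set E := energy (mug a fun i => (s i : ℝ)) with hE
    set Q := quad a (fun i => (s i : ℝ)) with hQ
    have e1 : -(3 / (2 * Real.pi)) * max E 0 - 3 / (4 * Real.pi ^ 2) * Q =
        -(3 / (2 * Real.pi) * (max E 0 + (2 * Real.pi)⁻¹ * Q)) := by
      field_simp; ring
    rw [e1, abs_neg, abs_mul, abs_of_nonneg (by positivity : (0:ℝ) ≤ 3 / (2 * Real.pi)), mul_assoc]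
    refine mul_le_mul_of_nonneg_left ?_ (by positivity)
    have hq2 : (2 * Real.pi)⁻¹ * Q ≤ 0 := mul_nonpos_of_nonneg_of_nonpos (by positivity) hq
    refine le_trans ?_ h1
    rcases le_total 0 E with h | h
    · rw [max_eq_left h]
    · rw [max_eq_right h, zero_add, abs_of_nonpos hq2, abs_of_nonpos (by linarith)]
      linarith
  · have h2 := char_W hLaw (carrier_mug a fun i => (s i : ℝ)) (mass_mug ha hs0) (fin_mug a _)
    have h3 : Tendsto (fun r : ℕ => ((r : ℝ))⁻¹) atTop (𝓝[>] 0) :=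
      tendsto_inv_atTop_nhdsGT_zero.comp tendsto_natCast_atTop_atTop
    refine (h2.comp h3).congr' ?_
    filter_upwards [eventually_ge_atTop 1] with r hr
    rw [Function.comp_apply, chg_mug a hs hr]

end Fam

end Crest.Agent.R158.Bk430
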