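import Crest.Agent.R158.Bg6_612
import Crest.Agent.R158.Bk10_430

/-!
# Row 158, identity B (helper612), part 7: the main estimate

* `left_int`, `good_int`, `bad_int`, `main_est`
-/

set_option autoImplicit false

noncomputable section

namespace Crest.Agent.R158.B612

open MeasureTheory hiding Lp
open Crest.Agent.R161.Geo729 Crest.Agent.R161.Dual374
open Crest.Agent.R161.Tas682 (sd)
open Crest.Agent.R161.Ifc372 (CircZ)
open Crest.Agent.R161.Ann374 (mem_ball)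
open Crest.Agent.R158.It200 hiding hf
open Crest.Agent.R158.Wf850
open Crest.Agent.R158.Fr158 (bx mem_bx mem_bx_sd eIn mem_eIn)
open Crest.Agent.R158.Cn109 (lsW smalls mem_smalls SS QQ DepF VV Sup integral_mul_indep)
open Crest.Agent.R158.Rs689 (dual Dep nu hf dE annE mem_annE circ_dep PB NoC noC_prob sc ArmX
  armX_sub_noC rsw_circ sigma_hf Rch)

local notation "μh" => Crest.Agent.R158.Rs689.nu Crest.Agent.R158.Rs689.hf
local notation "α" => (√3 * (Real.pi / 6))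

theorem al_pos : 0 < α := by
  have := Real.pi_pos
  positivity

theorem al_le : α ≤ 1 := by
  have h1 := Real.pi_lt_d2
  have h2 : (√3 : ℝ) ≤ 1.8 := by
    rw [show (1.8 : ℝ) = √(1.8 ^ 2) by rw [Real.sqrt_sq (by norm_num)]]
    exact Real.sqrt_le_sqrt (by norm_num)
  have h3 := Real.pi_pos
  have h4 : Real.pi / 6 ≤ 0.525 := by linarith
  have h5 : (0 : ℝ) ≤ √3 := Real.sqrt_nonneg _
  nlinarith

theorem er_nonneg (k : ℕ) (KT : Cfz → ℕ) (z : Cfz) : 0 ≤ er k KT z := by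
  unfold er
  have := Cn109.QQ_nonneg lsW (fun _ => uc (2 ^ k)) (VR (2 ^ k)) (k + 4) z
  positivity

theorem ind_indep {a b a' b' : ℤ} (h : b < a') {f g : Cfz → ℝ} (hf' : DepF (Rg a b) f)
    (hg : DepF (Rg a' b') g) :
    ∫ z, f z * g z ∂μh = (∫ z, f z ∂μh) * ∫ z, g z ∂μh :=
  integral_mul_indep _ (Rg_disj h) hf' hg

theorem lin_arith {a c D s1 s2 v1 v2 t1 t2 r1 r2 n1 n2 : ℝ} (ha : 0 < a) (ha' : a ≤ 1)
    (hDc : D ≤ c) (hc : 1 ≤ c) (k1 : r1 ≤ n1) (k2 : r2 ≤ n2) (hr1 : 0 ≤ r1)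
    (hr2 : 0 ≤ r2) (q1 : 0 ≤ t1) (q2 : 0 ≤ t2) :
    a * (s1 + s2) + D * (r1 + r2 + t1 + t2) ≤
      a * (v1 + v2) + (c * (|s1 - v1| + t1 + n1) + c * (|s2 - v2| + t2 + n2)) ∧
    -(a * (s1 + s2)) + D * (r1 + r2 + t1 + t2) ≤
      -(a * (v1 + v2)) + (c * (|s1 - v1| + t1 + n1) + c * (|s2 - v2| + t2 + n2)) := by
  have m1 : D * (r1 + r2 + t1 + t2) ≤ c * (n1 + t1) + c * (n2 + t2) := by
    have e1 : D * (r1 + r2 + t1 + t2) ≤ c * (r1 + r2 + t1 + t2) :=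
      mul_le_mul_of_nonneg_right hDc (by positivity)
    have e2 : c * (r1 + r2 + t1 + t2) ≤ c * (n1 + t1 + (n2 + t2)) :=
      mul_le_mul_of_nonneg_left (by linarith) (by linarith)
    linarith
  have m2 : ∀ x y : ℝ, a * (x - y) ≤ c * |x - y| := fun x y => by
    have e1 : a * (x - y) ≤ a * |x - y| := mul_le_mul_of_nonneg_left (le_abs_self _) ha.le
    have e2 : a * |x - y| ≤ c * |x - y| :=
      mul_le_mul_of_nonneg_right (by linarith) (abs_nonneg _)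
    linarith
  have m3 : ∀ x y : ℝ, -(a * (x - y)) ≤ c * |x - y| := fun x y => by
    have e1 := m2 y x
    rw [abs_sub_comm] at e1
    linarith
  constructor
  · have a1 := m2 s1 v1
    have a2 := m2 s2 v2
    linarith
  · have a1 := m3 s1 v1
    have a2 := m3 s2 v2
    linarith

/-- exponents -/
theorem lin_ect {k k' : ℕ} {KT1 KT2 : Cfz → ℕ} {z : Cfz} (h1 : (RCs (2 ^ k) z).ncard ≤ KT1 z)
    (h2 : (RCs (2 ^ k') z).ncard ≤ KT2 z) {D c : ℝ} (hDc : D ≤ c) (hc : 1 ≤ c) :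
    α * Lin (2 ^ k) (2 ^ k') (k + 4) (k' + 4) z + D * Ect (2 ^ k) (2 ^ k') (k + 4) (k' + 4) z ≤
      α * (VV (k + 4) + VV (k' + 4)) + (c * er k KT1 z + c * er k' KT2 z) ∧
    -(α * Lin (2 ^ k) (2 ^ k') (k + 4) (k' + 4) z) +
        D * Ect (2 ^ k) (2 ^ k') (k + 4) (k' + 4) z ≤
      -(α * (VV (k + 4) + VV (k' + 4))) + (c * er k KT1 z + c * er k' KT2 z) :=
  lin_arith al_pos al_le hDc hc (Nat.cast_le.2 h1) (Nat.cast_le.2 h2) (Nat.cast_nonneg _)
    (Nat.cast_nonneg _)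
    (Cn109.QQ_nonneg lsW (fun _ => uc (2 ^ k)) (VR (2 ^ k)) (k + 4) z)
    (Cn109.QQ_nonneg lsW (fun _ => uc (2 ^ k')) (VR (2 ^ k')) (k' + 4) z)

/-! ### regions -/

theorem pw (k : ℕ) : (1 : ℤ) ≤ 2 ^ k := one_le_pow₀ (by norm_num)

theorem pw2 (k J : ℕ) (hJ : 1 ≤ J) : 256 * (2 : ℤ) ^ k ≤ 2 ^ (k + 6 + 2 * J) := by
  have h : (2 : ℤ) ^ (k + 6 + 2 * J) = 2 ^ k * 2 ^ (6 + 2 * J) := by rw [← pow_add]; congr 1; ring
  rw [h]
  have h2 : (2 : ℤ) ^ 8 ≤ 2 ^ (6 + 2 * J) := pow_le_pow_right₀ (by norm_num) (by omega)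
  have h3 := pw k
  nlinarith

theorem pwN (k J : ℕ) (hJ : 1 ≤ J) : 256 * 2 ^ k ≤ 2 ^ (k + 6 + 2 * J) := by
  have := pw2 k J hJ
  exact_mod_cast this

section

variable {k J : ℕ} {c G : ℝ} {KT1 KT2 : Cfz → ℕ}

/-- **left side, integrated** -/
theorem left_int (hJ : 1 ≤ J) (hc : 64 ≤ c) (hG : 1 ≤ G)
    (h1 : ∀ z, (RCs (2 ^ k) z).ncard ≤ KT1 z)
    (h2 : ∀ z, (RCs (2 ^ (k + 6 + 2 * J)) z).ncard ≤ KT2 z)
    (d1 : DepF (Rg (38 * 2 ^ k) (1060 * 2 ^ k)) (er k KT1))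
    (d2 : DepF (Rg (38 * 2 ^ (k + 6 + 2 * J)) (1060 * 2 ^ (k + 6 + 2 * J)))
      (er (k + 6 + 2 * J) KT2))
    (g1 : ∫ z, Real.exp (c * er k KT1 z) ∂μh ≤ G)
    (g2 : ∫ z, Real.exp (c * er (k + 6 + 2 * J) KT2 z) ∂μh ≤ G) :
    ∫ z, WS (Real.pi / 3) (-(Real.pi / 6)) (2 ^ k) (2 ^ (k + 6 + 2 * J)) z ∂μh ≤
      2 * √3 * G ^ 2 * Ax107.p2 (2 ^ k) *
        Real.exp (α * (VV (k + 4) + VV (k + 6 + 2 * J + 4))) := by
  have hS : 1 ≤ 2 ^ k := Nat.one_le_two_pow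
  have hp := pw k
  have hp2 := pw2 k J hJ
  have hpN := pwN k J hJ
  set k' := k + 6 + 2 * J with hk'
  set V := VV (k + 4) + VV (k' + 4) with hV
  have dA : DepF (Rg 0 (2 ^ k)) (ind (Arms2 ((2 ^ k : ℕ) : ℤ))) := by
    have := dep_ind (dep_arms2 (m := ((2 ^ k : ℕ) : ℤ)) (by positivity))
    refine this.mono (Rg_mono le_rfl (by push_cast; exact le_rfl))
  have e1 : DepF (Rg (38 * 2 ^ k) (1060 * 2 ^ k)) (fun z => Real.exp (c * er k KT1 z)) :=
    d1.comp fun x => Real.exp (c * x)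
  have e2 : DepF (Rg (38 * 2 ^ k') (1060 * 2 ^ k')) (fun z => Real.exp (c * er k' KT2 z)) :=
    d2.comp fun x => Real.exp (c * x)
  have e12 : DepF (Rg (38 * 2 ^ k) (1060 * 2 ^ k'))
      (fun z => Real.exp (c * er k KT1 z) * Real.exp (c * er k' KT2 z)) :=
    (e1.mono (Rg_mono le_rfl (by linarith))).mul (e2.mono (Rg_mono (by linarith) le_rfl))
  have e0 : DepF (Rg 0 (1060 * 2 ^ k')) (fun z => ind (Arms2 ((2 ^ k : ℕ) : ℤ)) z *
      (Real.exp (c * er k KT1 z) * Real.exp (c * er k' KT2 z))) :=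
    (dA.mono (Rg_mono le_rfl (by linarith))).mul (e12.mono (Rg_mono (by linarith) le_rfl))
  have hI : ∫ z, ind (Arms2 ((2 ^ k : ℕ) : ℤ)) z *
      (Real.exp (c * er k KT1 z) * Real.exp (c * er k' KT2 z)) ∂μh ≤
        Ax107.p2 (2 ^ k) * G ^ 2 := by
    rw [ind_indep (by linarith) dA e12, ind_indep (by linarith) e1 e2,
      int_ind (dep_arms2 (by positivity))]
    have hp2' : (μh).real (Arms2 ((2 ^ k : ℕ) : ℤ)) = Ax107.p2 (2 ^ k) := rfl
    rw [hp2']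
    refine mul_le_mul_of_nonneg_left ?_ measureReal_nonneg
    rw [sq]
    exact mul_le_mul g1 g2 (integral_nonneg fun z => (Real.exp_pos _).le) (by linarith)
  have hW : Integrable (fun z => WS (Real.pi / 3) (-(Real.pi / 6)) (2 ^ k) (2 ^ k') z) μh := by
    have i1 := Vx107.integrable_W (ntr_chg (g := v0) (a := Real.pi / 3) (b := -(Real.pi / 6)) hS
      (S2 := 2 ^ k') Nat.one_le_two_pow (by ring)) μh
    have i2 := Vx107.integrable_W (ntr_chg (g := f0) (a := Real.pi / 3) (b := -(Real.pi / 6)) hS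
      (S2 := 2 ^ k') Nat.one_le_two_pow (by ring)) μh
    exact i1.add i2
  calc ∫ z, WS (Real.pi / 3) (-(Real.pi / 6)) (2 ^ k) (2 ^ k') z ∂μh
      ≤ ∫ z, (2 * √3 * Real.exp (α * V)) * (ind (Arms2 ((2 ^ k : ℕ) : ℤ)) z *
          (Real.exp (c * er k KT1 z) * Real.exp (c * er k' KT2 z))) ∂μh := by
        refine integral_mono hW ((e0.integrable _).const_mul _) fun z => ?_
        have b := left_bound (S1 := 2 ^ k) (S2 := 2 ^ k') (κ1 := k + 4) (κ2 := k' + 4) hS (by omega)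
          (hk4 k) (hk4 k') z
        have l := (lin_ect (D := 64) (h1 z) (h2 z) hc (by linarith)).1
        refine (le_abs_self _).trans (b.trans ?_)
        have hle : (Arms2 (64 * ((2 ^ k : ℕ) : ℤ))).indicator (fun _ => 2 * √3) z ≤
            2 * √3 * ind (Arms2 ((2 ^ k : ℕ) : ℤ)) z := by
          by_cases hz : z ∈ Arms2 (64 * ((2 ^ k : ℕ) : ℤ))
          · have hz' : z ∈ Arms2 ((2 ^ k : ℕ) : ℤ) := arms2_anti (by
              have : (0 : ℤ) ≤ ((2 ^ k : ℕ) : ℤ) := by positivity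
              linarith) hz
            rw [Set.indicator_of_mem hz, ind_mem hz', mul_one]
          · rw [Set.indicator_of_notMem hz]
            exact mul_nonneg (by positivity) (ind_nonneg _ _)
        have hexp : Real.exp (α * Lin (2 ^ k) (2 ^ k') (k + 4) (k' + 4) z +
            64 * Ect (2 ^ k) (2 ^ k') (k + 4) (k' + 4) z) ≤
            Real.exp (α * V) * (Real.exp (c * er k KT1 z) * Real.exp (c * er k' KT2 z)) := by
          rw [← Real.exp_add, ← Real.exp_add]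
          exact Real.exp_le_exp.2 l
        calc _ ≤ (2 * √3 * ind (Arms2 ((2 ^ k : ℕ) : ℤ)) z) * (Real.exp (α * V) *
              (Real.exp (c * er k KT1 z) * Real.exp (c * er k' KT2 z))) :=
              mul_le_mul hle hexp (Real.exp_pos _).le
                (mul_nonneg (by positivity) (ind_nonneg _ _))
          _ = _ := by ring
    _ = (2 * √3 * Real.exp (α * V)) * ∫ z, (ind (Arms2 ((2 ^ k : ℕ) : ℤ)) z *
          (Real.exp (c * er k KT1 z) * Real.exp (c * er k' KT2 z))) ∂μh := integral_const_mul _ _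
    _ ≤ (2 * √3 * Real.exp (α * V)) * (Ax107.p2 (2 ^ k) * G ^ 2) :=
        mul_le_mul_of_nonneg_left hI (by positivity)
    _ = _ := by ring

/-- weight of the inner loops -/
def Xn (k : ℕ) (z : Cfz) : ℝ := Real.exp (Real.log 2 * (NN (0, 0) 0 (2 ^ k) z : ℝ))

theorem Xn_eq (k : ℕ) (z : Cfz) : Xn k z = 2 ^ NN (0, 0) 0 (2 ^ k) z := by
  unfold Xn
  rw [mul_comm, Real.exp_nat_mul, Real.exp_log (by norm_num)]

theorem Xn_pos (k : ℕ) (z : Cfz) : 0 < Xn k z := Real.exp_pos _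

theorem dep_Xn (k : ℕ) : DepF (Rg 0 (2 ^ k + 2)) (Xn k) := by
  have h := dep_NN (2 ^ k)
  have h2 := h.comp fun n : ℕ => Real.exp (Real.log 2 * (n : ℝ))
  exact h2.mono (Rg_mono le_rfl (by push_cast; exact le_rfl))

/-- the function of the good event -/
def Lf (k k' : ℕ) (c : ℝ) (KT1 KT2 : Cfz → ℕ) (z : Cfz) : ℝ :=
  Xn k z * (ind (dual ⁻¹' CircZ (0, 0) (4 * 2 ^ k) (8 * 2 ^ k)) z *
    ((ind (CircZ (0, 0) (128 * 2 ^ k) (256 * 2 ^ k)) z * Real.exp (-(c * er k KT1 z))) *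
      (ind (CircZ (0, 0) (2048 * 2 ^ k) (4096 * 2 ^ k)) z *
        (ind (CircZ (0, 0) (128 * 2 ^ k') (256 * 2 ^ k')) z *
          Real.exp (-(c * er k' KT2 z))))))

theorem circ_q {q : ℝ} (hq : ∀ (x : P2) (n : ℕ), 1 ≤ n → q ≤ (μh).real (CircZ x n (2 * n)))
    {a b : ℕ} (ha : 1 ≤ a) (hb : b = 2 * a) : q ≤ (μh).real (CircZ (0, 0) a b) := by
  rw [hb]; exact hq _ _ ha

theorem circ_q' {q : ℝ} (hq : ∀ (x : P2) (n : ℕ), 1 ≤ n → q ≤ (μh).real (CircZ x n (2 * n)))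
    {a b : ℕ} (ha : 1 ≤ a) (hb : b = 2 * a) : q ≤ (μh).real (dual ⁻¹' CircZ (0, 0) a b) := by
  rw [Rs689.nu_dual hf (circ_dep _ _ _).measurableSet, sigma_hf]
  exact circ_q hq ha hb

/-- **good event, integrated** -/
theorem good_int {q : ℝ} (hq0 : 0 < q)
    (hq : ∀ (x : P2) (n : ℕ), 1 ≤ n → q ≤ (μh).real (CircZ x n (2 * n)))
    (hk : 1 ≤ k) (hJ : 1 ≤ J) (hG : 1 ≤ G)
    (d1 : DepF (Rg (38 * 2 ^ k) (1060 * 2 ^ k)) (er k KT1))
    (d2 : DepF (Rg (38 * 2 ^ (k + 6 + 2 * J)) (1060 * 2 ^ (k + 6 + 2 * J)))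
      (er (k + 6 + 2 * J) KT2))
    (g1 : ∫ z, Real.exp (c * er k KT1 z) ∂μh ≤ G)
    (g2 : ∫ z, Real.exp (c * er (k + 6 + 2 * J) KT2 z) ∂μh ≤ G) :
    Integrable (Lf k (k + 6 + 2 * J) c KT1 KT2) μh ∧
    q ^ 6 / G ^ 2 * ∫ z, Xn k z ∂μh ≤ ∫ z, Lf k (k + 6 + 2 * J) c KT1 KT2 z ∂μh := by
  have hS : 1 ≤ 2 ^ k := Nat.one_le_two_pow
  have hp : (2 : ℤ) ≤ 2 ^ k := by
    calc (2 : ℤ) = 2 ^ 1 := by norm_num
      _ ≤ 2 ^ k := pow_le_pow_right₀ (by norm_num) hk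
  have hp2 := pw2 k J hJ
  have hpN := pwN k J hJ
  set k' := k + 6 + 2 * J with hk'
  have hS' : 1 ≤ 2 ^ k' := Nat.one_le_two_pow
  -- supports
  have D1 := (dep_Xn k)
  have D2 : Dep (Rg (4 * 2 ^ k - 2) (8 * 2 ^ k + 2))
      (dual ⁻¹' CircZ (0, 0) (4 * 2 ^ k) (8 * 2 ^ k)) :=
    (dep_circ' (4 * 2 ^ k) (8 * 2 ^ k)).mono (Rg_mono (by push_cast; exact le_rfl)
      (by push_cast; exact le_rfl))
  have D3 : Dep (Rg (38 * 2 ^ k) (1060 * 2 ^ k))
      (CircZ (0, 0) (128 * 2 ^ k) (256 * 2 ^ k)) :=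
    (dep_circ (128 * 2 ^ k) (256 * 2 ^ k)).mono (Rg_mono (by push_cast; linarith)
      (by push_cast; linarith))
  have D4 : Dep (Rg (2048 * 2 ^ k - 1) (4096 * 2 ^ k + 1))
      (CircZ (0, 0) (2048 * 2 ^ k) (4096 * 2 ^ k)) :=
    (dep_circ (2048 * 2 ^ k) (4096 * 2 ^ k)).mono (Rg_mono (by push_cast; exact le_rfl)
      (by push_cast; exact le_rfl))
  have D5 : Dep (Rg (38 * 2 ^ k') (1060 * 2 ^ k'))
      (CircZ (0, 0) (128 * 2 ^ k') (256 * 2 ^ k')) :=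
    (dep_circ (128 * 2 ^ k') (256 * 2 ^ k')).mono (Rg_mono (by push_cast; linarith)
      (by push_cast; linarith))
  have F3 : DepF (Rg (38 * 2 ^ k) (1060 * 2 ^ k)) (fun z =>
      ind (CircZ (0, 0) (128 * 2 ^ k) (256 * 2 ^ k)) z * Real.exp (-(c * er k KT1 z))) :=
    (dep_ind D3).mul (d1.comp fun x => Real.exp (-(c * x)))
  have F5 : DepF (Rg (38 * 2 ^ k') (1060 * 2 ^ k')) (fun z =>
      ind (CircZ (0, 0) (128 * 2 ^ k') (256 * 2 ^ k')) z * Real.exp (-(c * er k' KT2 z))) :=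
    (dep_ind D5).mul (d2.comp fun x => Real.exp (-(c * x)))
  have F45 : DepF (Rg (2048 * 2 ^ k - 1) (1060 * 2 ^ k')) (fun z =>
      ind (CircZ (0, 0) (2048 * 2 ^ k) (4096 * 2 ^ k)) z *
      (ind (CircZ (0, 0) (128 * 2 ^ k') (256 * 2 ^ k')) z * Real.exp (-(c * er k' KT2 z)))) :=
    ((dep_ind D4).mono (Rg_mono le_rfl (by linarith))).mul
      (F5.mono (Rg_mono (by linarith) le_rfl))
  have F345 : DepF (Rg (38 * 2 ^ k) (1060 * 2 ^ k')) (fun z =>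
      (ind (CircZ (0, 0) (128 * 2 ^ k) (256 * 2 ^ k)) z * Real.exp (-(c * er k KT1 z))) *
      (ind (CircZ (0, 0) (2048 * 2 ^ k) (4096 * 2 ^ k)) z *
      (ind (CircZ (0, 0) (128 * 2 ^ k') (256 * 2 ^ k')) z * Real.exp (-(c * er k' KT2 z))))) :=
    (F3.mono (Rg_mono le_rfl (by linarith))).mul (F45.mono (Rg_mono (by linarith) le_rfl))
  have F2 : DepF (Rg (4 * 2 ^ k - 2) (1060 * 2 ^ k')) (fun z =>
      ind (dual ⁻¹' CircZ (0, 0) (4 * 2 ^ k) (8 * 2 ^ k)) z *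
      ((ind (CircZ (0, 0) (128 * 2 ^ k) (256 * 2 ^ k)) z * Real.exp (-(c * er k KT1 z))) *
      (ind (CircZ (0, 0) (2048 * 2 ^ k) (4096 * 2 ^ k)) z *
      (ind (CircZ (0, 0) (128 * 2 ^ k') (256 * 2 ^ k')) z * Real.exp (-(c * er k' KT2 z)))))) :=
    ((dep_ind D2).mono (Rg_mono le_rfl (by linarith))).mul
      (F345.mono (Rg_mono (by linarith) le_rfl))
  have F1 : DepF (Rg 0 (1060 * 2 ^ k')) (Lf k k' c KT1 KT2) :=
    (D1.mono (Rg_mono le_rfl (by linarith))).mul (F2.mono (Rg_mono (by linarith) le_rfl))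
  refine ⟨F1.integrable _, ?_⟩
  have t3 := low_tilt D3 (f := fun z => c * er k KT1 z) (d1.comp fun x => c * x) g1
  have t5 := low_tilt D5 (f := fun z => c * er k' KT2 z) (d2.comp fun x => c * x) g2
  have p2 := circ_q' hq (a := 4 * 2 ^ k) (b := 8 * 2 ^ k) (by omega) (by omega)
  have p3 := circ_q hq (a := 128 * 2 ^ k) (b := 256 * 2 ^ k) (by omega) (by omega)
  have p4 := circ_q hq (a := 2048 * 2 ^ k) (b := 4096 * 2 ^ k) (by omega) (by omega)
  have p5 := circ_q hq (a := 128 * 2 ^ k') (b := 256 * 2 ^ k') (by omega) (by omega)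
  have hG0 : 0 < G := by linarith
  have b3 : q ^ 2 / G ≤ ∫ z, ind (CircZ (0, 0) (128 * 2 ^ k) (256 * 2 ^ k)) z *
      Real.exp (-(c * er k KT1 z)) ∂μh := by
    rw [div_le_iff₀ hG0]
    exact (pow_le_pow_left₀ hq0.le p3 2).trans t3
  have b5 : q ^ 2 / G ≤ ∫ z, ind (CircZ (0, 0) (128 * 2 ^ k') (256 * 2 ^ k')) z *
      Real.exp (-(c * er k' KT2 z)) ∂μh := by
    rw [div_le_iff₀ hG0]
    exact (pow_le_pow_left₀ hq0.le p5 2).trans t5
  have hX0 : 0 ≤ ∫ z, Xn k z ∂μh := integral_nonneg fun z => (Xn_pos k z).le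
  have hqG : 0 ≤ q ^ 2 / G := by positivity
  show _ ≤ ∫ z, Xn k z * (ind (dual ⁻¹' CircZ (0, 0) (4 * 2 ^ k) (8 * 2 ^ k)) z *
      ((ind (CircZ (0, 0) (128 * 2 ^ k) (256 * 2 ^ k)) z * Real.exp (-(c * er k KT1 z))) *
      (ind (CircZ (0, 0) (2048 * 2 ^ k) (4096 * 2 ^ k)) z *
      (ind (CircZ (0, 0) (128 * 2 ^ k') (256 * 2 ^ k')) z *
        Real.exp (-(c * er k' KT2 z)))))) ∂μh
  rw [ind_indep (by linarith) D1 F2, ind_indep (by linarith) (dep_ind D2) F345,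
    ind_indep (by linarith) F3 F45, ind_indep (by linarith) (dep_ind D4) F5, int_ind D2,
    int_ind D4]
  have m4 : q * (q ^ 2 / G) ≤ (μh).real (CircZ (0, 0) (2048 * 2 ^ k) (4096 * 2 ^ k)) *
      ∫ z, ind (CircZ (0, 0) (128 * 2 ^ k') (256 * 2 ^ k')) z *
      Real.exp (-(c * er k' KT2 z)) ∂μh :=
    mul_le_mul p4 b5 hqG measureReal_nonneg
  have m3 := mul_le_mul b3 m4 (by positivity) (hqG.trans b3)
  have m2 := mul_le_mul p2 m3 (by positivity) measureReal_nonneg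
  have m1 := mul_le_mul_of_nonneg_left m2 hX0
  refine le_trans (le_of_eq ?_) m1
  field_simp

end

/-! ### the bad term -/

/-- **truncation of the local factors** -/
theorem tr_k (c : ℝ) (hc : 0 ≤ c) {ε : ℝ} (hε : 0 < ε) : ∃ k0 : ℕ, ∀ k : ℕ, k0 ≤ k →
    ∃ KM KT : Cfz → ℕ, (∀ z, (Mids (2 ^ k) z).ncard ≤ KM z) ∧
      (∀ z, (RCs (2 ^ k) z).ncard ≤ KT z) ∧
      DepF (Rg 0 (2049 * 2 ^ k)) KM ∧ DepF (Rg (38 * 2 ^ k) (1060 * 2 ^ k)) (er k KT) ∧
      ∫ z, Xn k z * Real.exp ((KM z : ℝ) + c * er k KT z) ∂μh ≤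
        ((2 : ℝ) ^ k) ^ ε * ∫ z, Xn k z ∂μh := by
  obtain ⟨C1, hC1, hap⟩ := Lc522.apriori0 (2 * Real.log 2) (by
    have := Real.log_pos (show (1 : ℝ) < 2 by norm_num)
    positivity)
  obtain ⟨m, hm⟩ := exists_nat_ge C1
  have hm2 : C1 ≤ (2 : ℝ) ^ m := by
    refine hm.trans ?_
    have : m ≤ 2 ^ m := Nat.lt_two_pow_self.le
    exact_mod_cast this
  obtain ⟨q, hq⟩ := Tr612.tr_eps (C1 + m) hε
  set p : ℝ := ((2 * q + 2 : ℕ) : ℝ) with hp
  have hp0 : 0 ≤ p := Nat.cast_nonneg _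
  obtain ⟨G1, hG1, h1⟩ := ring_pack (2 * (p * c)) (by positivity)
  obtain ⟨G2, hG2, h2⟩ := mids_count (2 * p) (by positivity)
  obtain ⟨N, hN1, hN⟩ := hq (G1 + G2)
  obtain ⟨k0, hk0⟩ := exists_nat_ge N
  refine ⟨k0 + 1, fun k hk => ?_⟩
  have hk1 : 1 ≤ k := by omega
  obtain ⟨KT, t1, t2, t3⟩ := h1 k
  obtain ⟨KM, m1, m2, m3⟩ := h2 (2 ^ k) Nat.one_le_two_pow
  have m1' : DepF (Rg 0 (2049 * 2 ^ k)) KM := m1.mono (Rg_mono le_rfl (by push_cast; exact le_rfl))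
  refine ⟨KM, KT, m2, t1, m1', t2, ?_⟩
  have hpw := pw k
  -- supports
  have D1 : DepF (Rg 0 (2049 * 2 ^ k)) (Xn k) :=
    (dep_Xn k).mono (Rg_mono le_rfl (by linarith))
  have D2 : DepF (Rg 0 (2049 * 2 ^ k)) (fun z => (KM z : ℝ)) := m1'.comp fun n : ℕ => (n : ℝ)
  have D3 : DepF (Rg 0 (2049 * 2 ^ k)) (fun z => c * er k KT z) :=
    (t2.mono (Rg_mono (by linarith) (by linarith))).comp fun x => c * x
  have D4 : DepF (Rg 0 (2049 * 2 ^ k)) (fun z => Real.exp ((KM z : ℝ) + c * er k KT z)) :=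
    (D2.add D3).comp Real.exp
  have hnk : N ≤ (2 : ℝ) ^ k := by
    refine hk0.trans ?_
    have h3 : k0 ≤ 2 ^ k := (by omega : k0 ≤ k).trans Nat.lt_two_pow_self.le
    exact_mod_cast h3
  have h2k : (2 : ℝ) ≤ 2 ^ k := by
    calc (2 : ℝ) = 2 ^ 1 := by norm_num
      _ ≤ 2 ^ k := pow_le_pow_right₀ (by norm_num) hk1
  refine hN _ hnk μh (Xn k) (fun z => Real.exp ((KM z : ℝ) + c * er k KT z))
    (fun z => (Xn_pos k z).le) (fun z => (Real.exp_pos _).le) ((D1.mul D4).integrable _)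
    (D1.integrable _) ((D1.comp fun x => x ^ 2).integrable _)
    ((D4.comp fun x => x ^ (2 * q + 2)).integrable _) ?_ ?_ ?_
  · have h4 := hap (0, 0) (2 ^ k) Nat.one_le_two_pow
    have e1 : ∀ z, Xn k z ^ 2 = Real.exp (2 * Real.log 2 * (NN (0, 0) 0 ((2 ^ k : ℕ) : ℤ) z : ℝ)) := by
      intro z
      unfold Xn
      rw [← Real.exp_nat_mul]
      push_cast
      congr 1
      ring
    simp only [e1]
    refine h4.trans ?_
    push_cast
    rw [Real.rpow_add (by positivity)]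
    rw [mul_comm]
    refine mul_le_mul_of_nonneg_left ?_ (by positivity)
    rw [Real.rpow_natCast]
    exact hm2.trans (pow_le_pow_left₀ (by norm_num) h2k m)
  · have h5 : (1 : ℝ) ≤ ∫ z, Xn k z ∂μh := by
      have h6 : ∫ _z : Cfz, (1 : ℝ) ∂μh ≤ ∫ z, Xn k z ∂μh := by
        refine integral_mono (integrable_const _) (D1.integrable _) fun z => ?_
        show 1 ≤ Xn k z
        rw [Xn_eq]
        exact one_le_pow₀ (by norm_num)
      simpa using h6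
    refine le_trans ?_ h5
    refine Real.rpow_le_one_of_one_le_of_nonpos (by linarith) ?_
    have : (0 : ℝ) ≤ m := Nat.cast_nonneg _
    linarith
  · have i2 := ((D2.comp fun x => Real.exp (2 * p * x)).integrable fun _ => hf)
    have i3 := ((t2.comp fun x => Real.exp (2 * (p * c) * x)).integrable fun _ => hf)
    calc ∫ z, Real.exp ((KM z : ℝ) + c * er k KT z) ^ (2 * q + 2) ∂μh
        ≤ ∫ z, (Real.exp (2 * p * (KM z : ℝ)) + Real.exp (2 * (p * c) * er k KT z)) ∂μh := by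
          refine integral_mono ((D4.comp fun x => x ^ (2 * q + 2)).integrable _) (i2.add i3)
            fun z => ?_
          show Real.exp ((KM z : ℝ) + c * er k KT z) ^ (2 * q + 2) ≤
            Real.exp (2 * p * (KM z : ℝ)) + Real.exp (2 * (p * c) * er k KT z)
          rw [← Real.exp_nat_mul, ← hp]
          rcases le_total (KM z : ℝ) (c * er k KT z) with h | h
          · have h6 : Real.exp (p * ((KM z : ℝ) + c * er k KT z)) ≤
                Real.exp (2 * (p * c) * er k KT z) := Real.exp_le_exp.2 (by nlinarith)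
            have := Real.exp_pos (2 * p * (KM z : ℝ))
            linarith
          · have h6 : Real.exp (p * ((KM z : ℝ) + c * er k KT z)) ≤
                Real.exp (2 * p * (KM z : ℝ)) := Real.exp_le_exp.2 (by nlinarith)
            have := Real.exp_pos (2 * (p * c) * er k KT z)
            linarith
      _ ≤ G1 + G2 := by
          have e2 := integral_add i2 i3
          refine le_trans (le_of_eq e2) ?_
          rw [add_comm]
          exact add_le_add t3 m3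

theorem two_le_exp (n : ℕ) : (2 : ℝ) ^ n ≤ Real.exp n := by
  have h : (2 : ℝ) ≤ Real.exp 1 := by
    have := Real.add_one_le_exp (1 : ℝ)
    linarith
  calc (2 : ℝ) ^ n ≤ Real.exp 1 ^ n := pow_le_pow_left₀ (by norm_num) h n
    _ = Real.exp n := by rw [← Real.exp_nat_mul, mul_one]

/-- the majorant on the bad event -/
def Uf (k J : ℕ) (c : ℝ) (KM KT1 KT2 : Cfz → ℕ) (z : Cfz) : ℝ :=
  (Xn k z * Real.exp ((KM z : ℝ) + c * er k KT1 z)) *
    (ind (NoC (0, 0) J (sc (1024 * 2 ^ k))) z *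
      Real.exp ((c + 1) * er (k + 6 + 2 * J) KT2 z))

theorem Uf_nonneg (k J : ℕ) (c : ℝ) (KM KT1 KT2 : Cfz → ℕ) (z : Cfz) :
    0 ≤ Uf k J c KM KT1 KT2 z :=
  mul_nonneg (mul_nonneg (Xn_pos k z).le (Real.exp_pos _).le)
    (mul_nonneg (ind_nonneg _ _) (Real.exp_pos _).le)

/-- **bad event, integrated** -/
theorem bad_int {q : ℝ} (hq1 : q ≤ 1)
    (hq : ∀ (x : P2) (n : ℕ), 1 ≤ n → q ≤ (μh).real (CircZ x n (2 * n)))
    (c : ℝ) (hc : 0 ≤ c) {ε : ℝ} (hε : 0 < ε) : ∃ k0 : ℕ, ∃ G : ℝ, 1 ≤ G ∧ ∀ k : ℕ, k0 ≤ k →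
      ∀ J : ℕ, 1 ≤ J → ∃ KM KT1 KT2 : Cfz → ℕ, (∀ z, (Mids (2 ^ k) z).ncard ≤ KM z) ∧
      (∀ z, (RCs (2 ^ k) z).ncard ≤ KT1 z) ∧ (∀ z, (RCs (2 ^ (k + 6 + 2 * J)) z).ncard ≤ KT2 z) ∧
      Integrable (Uf k J c KM KT1 KT2) μh ∧
      ∫ z, Uf k J c KM KT1 KT2 z ∂μh ≤
        G * ((2 : ℝ) ^ k) ^ ε * (1 - q) ^ J * ∫ z, Xn k z ∂μh := by
  obtain ⟨k0, h1⟩ := tr_k c hc hε
  obtain ⟨G, hG, h2⟩ := ring_pack (c + 1) (by linarith)
  refine ⟨k0, G, hG, fun k hk J hJ => ?_⟩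
  obtain ⟨KM, KT1, a1, a2, a3, a4, a5⟩ := h1 k hk
  set k' := k + 6 + 2 * J with hk'
  obtain ⟨KT2, b1, b2, b3⟩ := h2 k'
  have hpw := pw k
  have hp2 := pw2 k J hJ
  rw [← hk'] at hp2
  have D1 : DepF (Rg 0 (2049 * 2 ^ k)) (fun z =>
      Xn k z * Real.exp ((KM z : ℝ) + c * er k KT1 z)) :=
    ((dep_Xn k).mono (Rg_mono le_rfl (by linarith))).mul
      (((a3.comp fun n : ℕ => (n : ℝ)).add
        ((a4.mono (Rg_mono (by linarith) (by linarith))).comp fun x => c * x)).comp Real.exp)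
  have D2 := dep_noC (k := k) (J := J)
  have D3 : DepF (Rg (38 * 2 ^ k') (1060 * 2 ^ k')) (fun z =>
      Real.exp ((c + 1) * er k' KT2 z)) := b2.comp fun x => Real.exp ((c + 1) * x)
  have D23 : DepF (Rg (4096 * 2 ^ k - 2) (1060 * 2 ^ k')) (fun z =>
      ind (NoC (0, 0) J (sc (1024 * 2 ^ k))) z * Real.exp ((c + 1) * er k' KT2 z)) :=
    ((dep_ind D2).mono (Rg_mono le_rfl (by linarith))).mul
      (D3.mono (Rg_mono (by linarith) le_rfl))
  have D : DepF (Rg 0 (1060 * 2 ^ k')) (Uf k J c KM KT1 KT2) :=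
    (D1.mono (Rg_mono le_rfl (by linarith))).mul (D23.mono (Rg_mono (by linarith) le_rfl))
  refine ⟨KM, KT1, KT2, a1, a2, b1, D.integrable _, ?_⟩
  have hE : ∫ z, Uf k J c KM KT1 KT2 z ∂μh =
      (∫ z, Xn k z * Real.exp ((KM z : ℝ) + c * er k KT1 z) ∂μh) *
        ((μh).real (NoC (0, 0) J (sc (1024 * 2 ^ k))) *
          ∫ z, Real.exp ((c + 1) * er k' KT2 z) ∂μh) := by
    show ∫ z, (Xn k z * Real.exp ((KM z : ℝ) + c * er k KT1 z)) *
      (ind (NoC (0, 0) J (sc (1024 * 2 ^ k))) z *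
      Real.exp ((c + 1) * er k' KT2 z)) ∂μh = _
    rw [ind_indep (by linarith) D1 D23, ind_indep (by linarith) (dep_ind D2) D3, int_ind D2]
  rw [hE]
  have n1 := noC_le hq k J
  have n2 : 0 ≤ ∫ z, Real.exp ((c + 1) * er k' KT2 z) ∂μh :=
    integral_nonneg fun z => (Real.exp_pos _).le
  have hX0 : 0 ≤ ∫ z, Xn k z ∂μh := integral_nonneg fun z => (Xn_pos k z).le
  have n3 : (μh).real (NoC (0, 0) J (sc (1024 * 2 ^ k))) *
      ∫ z, Real.exp ((c + 1) * er k' KT2 z) ∂μh ≤ (1 - q) ^ J * G :=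
    mul_le_mul n1 b3 n2 (pow_nonneg (by linarith) _)
  calc _ ≤ (((2 : ℝ) ^ k) ^ ε * ∫ z, Xn k z ∂μh) * ((1 - q) ^ J * G) :=
        mul_le_mul a5 n3 (mul_nonneg measureReal_nonneg n2) (by positivity)
    _ = _ := by ring

/-- integrability and evenness -/
theorem WS_int (a b : ℝ) (h : a + 2 * b = 0) (k k' : ℕ) :
    Integrable (fun z => WS a b (2 ^ k) (2 ^ k') z) μh := by
  have i1 := Vx107.integrable_W (ntr_chg (g := v0) (a := a) (b := b) (S1 := 2 ^ k) (S2 := 2 ^ k')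
    Nat.one_le_two_pow Nat.one_le_two_pow h) μh
  have i2 := Vx107.integrable_W (ntr_chg (g := f0) (a := a) (b := b) (S1 := 2 ^ k) (S2 := 2 ^ k')
    Nat.one_le_two_pow Nat.one_le_two_pow h) μh
  exact i1.add i2

theorem WS_even (a b : ℝ) (h : a + 2 * b = 0) (k k' : ℕ) :
    ∫ z, WS a b (2 ^ k) (2 ^ k') z ∂μh = ∫ z, WS (-a) (-b) (2 ^ k) (2 ^ k') z ∂μh := by
  have key : ∀ g : Face, ∫ z, Vx107.W (chg g a b (2 ^ k) (2 ^ k')) z ∂μh =
      ∫ z, Vx107.W (chg g (-a) (-b) (2 ^ k) (2 ^ k')) z ∂μh := fun g => by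
    have h1 := Bk430.even_main (chg g a b (2 ^ k) (2 ^ k'))
      (ntr_chg Nat.one_le_two_pow Nat.one_le_two_pow h)
    rw [chg_neg] at h1
    exact h1
  have hint : ∀ (a b : ℝ), a + 2 * b = 0 → ∀ g : Face,
      Integrable (Vx107.W (chg g a b (2 ^ k) (2 ^ k'))) μh := fun a b h g =>
    Vx107.integrable_W (ntr_chg Nat.one_le_two_pow Nat.one_le_two_pow h) μh
  unfold WS
  have h' : -a + 2 * -b = 0 := by linarith
  rw [integral_add (hint a b h v0) (hint a b h f0),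
    integral_add (hint (-a) (-b) h' v0) (hint (-a) (-b) h' f0), key v0, key f0]

/-- **the main estimate** -/
theorem main_est : ∃ q c1 C2 : ℝ, 0 < q ∧ q ≤ 1 ∧ 0 < c1 ∧ 0 < C2 ∧
    ∀ ε : ℝ, 0 < ε → ∃ k0 : ℕ, ∀ k ≥ k0, ∀ J : ℕ, 1 ≤ J →
      (c1 - C2 * ((2 : ℝ) ^ k) ^ ε * (1 - q) ^ J) *
        (∫ z, Real.exp (Real.log 2 * (NN (0, 0) 0 (2 ^ k) z : ℝ)) ∂μh) *
        Real.exp (-(√3 * (Real.pi / 6)) * (VV (k + 4) + VV (k + 10 + 2 * J))) ≤
      C2 * Ax107.p2 (2 ^ k) *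
        Real.exp (√3 * (Real.pi / 6) * (VV (k + 4) + VV (k + 10 + 2 * J))) := by
  obtain ⟨q, hq0, hq1, hq⟩ := rsw_circ
  obtain ⟨C0, hC0, hlow⟩ := exists_low
  set c : ℝ := 68 + 2 * C0 with hc
  have hc64 : 64 ≤ c := by linarith
  obtain ⟨G, hG, hR⟩ := ring_pack c (by linarith)
  have hG0 : 0 < G := by linarith
  have h3 := sqrt3_ge
  refine ⟨q, q ^ 6 / G ^ 2, 2 * √3 * G ^ 2, hq0, hq1, by positivity, by positivity, fun ε hε => ?_⟩
  obtain ⟨k0, G', hG', hB⟩ := bad_int hq1 hq c (by linarith) (half_pos hε)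
  -- absorb the constant
  obtain ⟨k1, hk1⟩ : ∃ k1 : ℕ, ∀ k ≥ k1, G' ≤ ((2 : ℝ) ^ k) ^ (ε / 2) := by
    have t1 : Filter.Tendsto (fun n : ℝ => n ^ (ε / 2)) Filter.atTop Filter.atTop :=
      tendsto_rpow_atTop (by positivity)
    have t2 : Filter.Tendsto (fun k : ℕ => (2 : ℝ) ^ k) Filter.atTop Filter.atTop :=
      tendsto_pow_atTop_atTop_of_one_lt (by norm_num)
    exact Filter.eventually_atTop.1 ((t1.comp t2).eventually_ge_atTop G')
  refine ⟨max (max k0 k1) 1, fun k hk J hJ => ?_⟩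
  have hk0 : k0 ≤ k := (le_max_left _ _).trans ((le_max_left _ _).trans hk)
  have hk1' : k1 ≤ k := (le_max_right _ _).trans ((le_max_left _ _).trans hk)
  have hkk : 1 ≤ k := (le_max_right _ _).trans hk
  have e10 : k + 10 + 2 * J = k + 6 + 2 * J + 4 := by omega
  rw [e10]
  obtain ⟨KM, KB1, KB2, b1, b2, b3, b4, b5⟩ := hB k hk0 J hJ
  set k' := k + 6 + 2 * J with hk'
  obtain ⟨KT1, r1, r2, r3⟩ := hR k
  obtain ⟨KT2, r4, r5, r6⟩ := hR k'
  have hpN := pwN k J hJ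
  rw [← hk'] at hpN
  have hS : 1 ≤ 2 ^ k := Nat.one_le_two_pow
  set V := VV (k + 4) + VV (k' + 4) with hV
  have hL := left_int hJ hc64 hG r1 r4 r2 r5 r3 r6
  obtain ⟨gi, hGd⟩ := good_int (c := c) hq0 hq hkk hJ hG r2 r5 r3 r6
  rw [← hk'] at hL gi hGd
  rw [← hV] at hL
  rw [WS_even _ _ (by ring), neg_neg] at hL
  have hX0 : 0 ≤ ∫ z, Xn k z ∂μh := integral_nonneg fun z => (Xn_pos k z).le
  -- pointwise
  have hpt : ∀ z, Real.exp (-(α * V)) * Lf k k' c KT1 KT2 z -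
      2 * √3 * Real.exp (-(α * V)) * Uf k J c KM KB1 KB2 z ≤
      WS (-(Real.pi / 3)) (Real.pi / 6) (2 ^ k) (2 ^ k') z := by
    intro z
    have hU0 : 0 ≤ 2 * √3 * Real.exp (-(α * V)) * Uf k J c KM KB1 KB2 z :=
      mul_nonneg (by positivity) (Uf_nonneg _ _ _ _ _ _ _)
    by_cases hg : GoodS (2 ^ k) (2 ^ k') z
    · have g := right_good (S1 := 2 ^ k) (S2 := 2 ^ k') (κ1 := k + 4) (κ2 := k' + 4) hS (by omega)
        (hk4 k) (hk4 k') hC0 hlow hg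
      have l := (lin_ect (D := 4 + 2 * C0) (c := c) (r1 z) (r4 z) (by linarith) (by linarith)).1
      have hLf : Lf k k' c KT1 KT2 z = Xn k z *
          Real.exp (-(c * er k KT1 z + c * er k' KT2 z)) := by
        unfold Lf
        rw [ind_mem (show z ∈ dual ⁻¹' CircZ (0, 0) (4 * 2 ^ k) (8 * 2 ^ k) from hg.g1),
          ind_mem hg.g2, ind_mem hg.g3, ind_mem hg.g4, neg_add, Real.exp_add]
        ring
      have h5 : Real.exp (-(α * V)) * Lf k k' c KT1 KT2 z ≤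
          2 ^ NN (0, 0) 0 (2 ^ k : ℕ) z *
            Real.exp (-(α * Lin (2 ^ k) (2 ^ k') (k + 4) (k' + 4) z) -
              (4 + 2 * C0) * Ect (2 ^ k) (2 ^ k') (k + 4) (k' + 4) z) := by
        rw [hLf, Xn_eq, mul_left_comm, ← Real.exp_add]
        have e1 : ((2 : ℤ) ^ k) = ((2 ^ k : ℕ) : ℤ) := by push_cast; rfl
        rw [e1]
        refine mul_le_mul_of_nonneg_left (Real.exp_le_exp.2 ?_) (by positivity)
        rw [← hV] at l
        linarith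
      linarith
    · have hLf : Lf k k' c KT1 KT2 z ≤ 0 := by
        have hor : z ∉ dual ⁻¹' CircZ (0, 0) (4 * 2 ^ k) (8 * 2 ^ k) ∨
            z ∉ CircZ (0, 0) (128 * 2 ^ k) (256 * 2 ^ k) ∨
            z ∉ CircZ (0, 0) (2048 * 2 ^ k) (4096 * 2 ^ k) ∨
            z ∉ CircZ (0, 0) (128 * 2 ^ k') (256 * 2 ^ k') := by
          by_contra hcon
          push Not at hcon
          exact hg ⟨hcon.1, hcon.2.1, hcon.2.2.1, hcon.2.2.2⟩
        unfold Lf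
        rcases hor with h | h | h | h
        · rw [ind_not h]; simp
        · rw [ind_not h]; simp
        · rw [ind_not h]; simp
        · rw [ind_not h]; simp
      have hLf' : Real.exp (-(α * V)) * Lf k k' c KT1 KT2 z ≤ 0 :=
        mul_nonpos_of_nonneg_of_nonpos (Real.exp_pos _).le hLf
      by_cases hb : z ∈ BadS (2 ^ k) (2 ^ k')
      · have g := right_bad (S1 := 2 ^ k) (S2 := 2 ^ k') (κ1 := k + 4) (κ2 := k' + 4) hS (by omega)
          (hk4 k) (hk4 k') hb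
        have l := (lin_ect (D := 64) (b2 z) (b3 z) hc64 (by linarith)).2
        have hno : z ∈ NoC (0, 0) J (sc (1024 * 2 ^ k)) := bad_sub hb
        have hUf : 2 ^ (NN (0, 0) 0 (2 ^ k : ℕ) z + (Mids (2 ^ k) z).ncard +
              (RCs (2 ^ k') z).ncard) *
            Real.exp (-(α * Lin (2 ^ k) (2 ^ k') (k + 4) (k' + 4) z) +
              64 * Ect (2 ^ k) (2 ^ k') (k + 4) (k' + 4) z) ≤
            Real.exp (-(α * V)) * Uf k J c KM KB1 KB2 z := by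
          have f1 : (2 : ℝ) ^ (Mids (2 ^ k) z).ncard ≤ Real.exp (KM z) :=
            (two_le_exp _).trans (Real.exp_le_exp.2 (by exact_mod_cast b1 z))
          have f2 : (2 : ℝ) ^ (RCs (2 ^ k') z).ncard ≤ Real.exp (er k' KB2 z) := by
            refine (two_le_exp _).trans (Real.exp_le_exp.2 ?_)
            have := Cn109.QQ_nonneg lsW (fun _ => uc (2 ^ k')) (VR (2 ^ k')) (k' + 4) z
            have h6 : ((RCs (2 ^ k') z).ncard : ℝ) ≤ KB2 z := by exact_mod_cast b3 z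
            have h7 := abs_nonneg (SS lsW (fun _ => uc (2 ^ k')) (VR (2 ^ k')) (k' + 4) z -
              VV (k' + 4))
            unfold er
            linarith
          have f3 : Real.exp (-(α * Lin (2 ^ k) (2 ^ k') (k + 4) (k' + 4) z) +
              64 * Ect (2 ^ k) (2 ^ k') (k + 4) (k' + 4) z) ≤ Real.exp (-(α * V)) *
                (Real.exp (c * er k KB1 z) * Real.exp (c * er k' KB2 z)) := by
            rw [← Real.exp_add, ← Real.exp_add]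
            exact Real.exp_le_exp.2 l
          have e1 : ((2 : ℤ) ^ k) = ((2 ^ k : ℕ) : ℤ) := by push_cast; rfl
          rw [pow_add, pow_add]
          unfold Uf
          have e2 : Real.exp ((c + 1) * er k' KB2 z) =
              Real.exp (c * er k' KB2 z) * Real.exp (er k' KB2 z) := by
            rw [← Real.exp_add]; congr 1; ring
          rw [← hk', ind_mem hno, Xn_eq, e1, Real.exp_add (KM z : ℝ), one_mul, e2]
          calc (2 : ℝ) ^ NN (0, 0) 0 (2 ^ k : ℕ) z * 2 ^ (Mids (2 ^ k) z).ncard *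
                2 ^ (RCs (2 ^ k') z).ncard *
                Real.exp (-(α * Lin (2 ^ k) (2 ^ k') (k + 4) (k' + 4) z) +
                  64 * Ect (2 ^ k) (2 ^ k') (k + 4) (k' + 4) z)
              ≤ (2 : ℝ) ^ NN (0, 0) 0 (2 ^ k : ℕ) z * Real.exp (KM z) *
                Real.exp (er k' KB2 z) * (Real.exp (-(α * V)) *
                (Real.exp (c * er k KB1 z) * Real.exp (c * er k' KB2 z))) := by
                refine mul_le_mul (mul_le_mul (mul_le_mul_of_nonneg_left f1 (by positivity)) f2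
                  (by positivity) (by positivity)) f3 (Real.exp_pos _).le (by positivity)
            _ = _ := by ring
        have hw := neg_le_of_abs_le g
        have h8 : 2 * √3 * 2 ^ (NN (0, 0) 0 (2 ^ k : ℕ) z + (Mids (2 ^ k) z).ncard +
              (RCs (2 ^ k') z).ncard) *
            Real.exp (-(α * Lin (2 ^ k) (2 ^ k') (k + 4) (k' + 4) z) +
              64 * Ect (2 ^ k) (2 ^ k') (k + 4) (k' + 4) z) ≤
            2 * √3 * Real.exp (-(α * V)) * Uf k J c KM KB1 KB2 z := by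
          rw [mul_assoc, mul_assoc (2 * √3) (Real.exp _)]
          exact mul_le_mul_of_nonneg_left hUf (by positivity)
        linarith
      · have := right_nonneg hS (by omega : 64 * 2 ^ k ≤ 2 ^ k') hb
        linarith
  -- integrate
  have hint : Real.exp (-(α * V)) * ∫ z, Lf k k' c KT1 KT2 z ∂μh -
      2 * √3 * Real.exp (-(α * V)) * ∫ z, Uf k J c KM KB1 KB2 z ∂μh ≤
      ∫ z, WS (-(Real.pi / 3)) (Real.pi / 6) (2 ^ k) (2 ^ k') z ∂μh := by
    rw [← integral_const_mul, ← integral_const_mul, ← integral_sub (gi.const_mul _)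
      (b4.const_mul _)]
    exact integral_mono ((gi.const_mul _).sub (b4.const_mul _))
      (WS_int _ _ (by ring) k k') hpt
  have hEp : 0 < Real.exp (-(α * V)) := Real.exp_pos _
  have hpe : ((2 : ℝ) ^ k) ^ ε = ((2 : ℝ) ^ k) ^ (ε / 2) * ((2 : ℝ) ^ k) ^ (ε / 2) := by
    rw [← Real.rpow_add (by positivity)]
    congr 1
    ring
  have hpe0 : 0 < ((2 : ℝ) ^ k) ^ (ε / 2) := by positivity
  have hq1' : 0 ≤ (1 - q) ^ J := pow_nonneg (by linarith) _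
  have hbad : ∫ z, Uf k J c KM KB1 KB2 z ∂μh ≤
      ((2 : ℝ) ^ k) ^ ε * (1 - q) ^ J * ∫ z, Xn k z ∂μh := by
    refine b5.trans ?_
    rw [hpe]
    refine mul_le_mul_of_nonneg_right (mul_le_mul_of_nonneg_right
      (mul_le_mul_of_nonneg_right (hk1 k hk1') hpe0.le) hq1') hX0
  have hbad2 : 2 * √3 * ∫ z, Uf k J c KM KB1 KB2 z ∂μh ≤
      2 * √3 * G ^ 2 * (((2 : ℝ) ^ k) ^ ε * (1 - q) ^ J * ∫ z, Xn k z ∂μh) := by
    have h9 : 2 * √3 ≤ 2 * √3 * G ^ 2 := by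
      have : 1 ≤ G ^ 2 := one_le_pow₀ hG
      nlinarith
    have h10 : 0 ≤ ((2 : ℝ) ^ k) ^ ε * (1 - q) ^ J * ∫ z, Xn k z ∂μh := by positivity
    calc 2 * √3 * ∫ z, Uf k J c KM KB1 KB2 z ∂μh ≤ 2 * √3 * (((2 : ℝ) ^ k) ^ ε * (1 - q) ^ J *
          ∫ z, Xn k z ∂μh) := mul_le_mul_of_nonneg_left hbad (by positivity)
      _ ≤ _ := mul_le_mul_of_nonneg_right h9 h10
  have hX : (∫ z, Real.exp (Real.log 2 * (NN (0, 0) 0 (2 ^ k) z : ℝ)) ∂μh) =
      ∫ z, Xn k z ∂μh := rfl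
  rw [hX]
  set IX := ∫ z, Xn k z ∂μh with hIX
  set IU := ∫ z, Uf k J c KM KB1 KB2 z ∂μh with hIU
  set IL := ∫ z, Lf k k' c KT1 KT2 z ∂μh with hIL
  have e11 : Real.exp (-(√3 * (Real.pi / 6)) * V) = Real.exp (-(α * V)) := by
    congr 1; ring
  rw [e11]
  have h12 : (q ^ 6 / G ^ 2 - 2 * √3 * G ^ 2 * ((2 : ℝ) ^ k) ^ ε * (1 - q) ^ J) * IX ≤
      IL - 2 * √3 * IU := by
    have e13 : (q ^ 6 / G ^ 2 - 2 * √3 * G ^ 2 * ((2 : ℝ) ^ k) ^ ε * (1 - q) ^ J) * IX =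
        q ^ 6 / G ^ 2 * IX - 2 * √3 * G ^ 2 * (((2 : ℝ) ^ k) ^ ε * (1 - q) ^ J * IX) := by ring
    rw [e13]
    linarith
  calc (q ^ 6 / G ^ 2 - 2 * √3 * G ^ 2 * ((2 : ℝ) ^ k) ^ ε * (1 - q) ^ J) * IX *
        Real.exp (-(α * V)) ≤ (IL - 2 * √3 * IU) * Real.exp (-(α * V)) :=
        mul_le_mul_of_nonneg_right h12 hEp.le
    _ = Real.exp (-(α * V)) * IL - 2 * √3 * Real.exp (-(α * V)) * IU := by ring
    _ ≤ _ := hint.trans hL

end Crest.Agent.R158.B612
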