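import Crest.Agent.R158.Wf5_850
import Crest.Agent.R158.Bk11_430

/-!
# Row 158, BLOCK W (helper850), part 6: the blobs of Bk11

* `blobs_main (hLaw) : Blobs Bk430.us Bk430.ws`
-/

set_option autoImplicit false

noncomputable section

namespace Crest.Agent.R158.Wf850

open Real Finset MeasureTheory Filter Topology
open Crest.Agent.R158.Rs689 (nu hf)
open Crest.Agent.R158.Vx107 (mass W Ntr Fw tot)
open Crest.Agent.R158.Bk430 (us ws us_nonneg ws_nonneg us_le ws_le us_support ws_support tot_us
  tot_ws m2 m3 C2 C3 star2 star3)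

theorem blobs_main (hLaw : Bs410.Law3) : Blobs us ws where
  us_nn := us_nonneg
  us_tot := fun r hr => tot_us hr
  us_sub := fun r f h => us_support h
  us_le := fun r f => by rw [one_div]; exact us_le r f
  ws_nn := fun r hr f => ws_nonneg hr f
  ws_tot := fun r hr => tot_ws hr
  ws_sub := fun r hr f h => by
    obtain ⟨h1, h2⟩ := ws_support hr h
    refine ⟨?_, ?_⟩
    · have e : ((2 * r : ℕ) : ℤ) = 2 * (r : ℤ) := by push_cast; ring
      rw [← e]; exact h1
    · rw [mem_BF]
      intro h3
      omega
  ws_le := fun r hr f => by rw [one_div]; exact ws_le hr f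
  star2 := fun a => ⟨C2 a, exp_pos _, fun K hK => star2 hLaw a hK⟩
  star3 := fun b => ⟨C3 (-2 * b) b b, exp_pos _, fun K hK L hL => by
    filter_upwards [star3 hLaw (c0 := -2 * b) (c1 := b) (c2 := b) (by ring) hK hL] with r hr
    refine hr.2.trans (le_of_eq ?_)
    congr 2
    ring⟩

end Crest.Agent.R158.Wf850
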