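import Crest.Agent.R158.Wf8_850
import Crest.Agent.R158.Wf6_850

/-!
# Row 158, BLOCK W (helper850), part 9: F3 and the instance of `We297.Hyp`

* `hF3` : the field F3
* `hyp_main (hLaw) : We297.Hyp (curry atTop atTop) (fun i => log i.1) DD MM`
-/

set_option autoImplicit false

noncomputable section

namespace Crest.Agent.R158.Wf850

open Real Finset MeasureTheory Filter Topology
open Crest.Agent.R158.Rs689 (nu hf PB Dep)
open Crest.Agent.R158.It200 (Cfz)
open Crest.Agent.R158.We297 (ff kap)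
open Crest.Agent.R158.Cn109 (DepF VV)
open Crest.Agent.R158.Vx107 (mass W Ntr Fw tot)

variable {us ws : ℕ → Face →₀ ℝ}

theorem mm_one_le {K r : ℕ} {y : ℝ} (hy : 1 ≤ y) : 1 ≤ MM (K, r) y := by
  unfold MM
  have h1 : ∫ z, (1 : ℝ) ∂(nu hf) ≤ ∫ z, y ^ N0 K r z ∂(nu hf) :=
    integral_mono (integrable_const 1) (((n0_dep K r).comp fun n => y ^ n).integrable _)
      fun z => one_le_pow₀ hy
  simpa using h1

/-- a priori bound of the generating function -/
theorem mm_apriori {x : ℝ} (hx : 1 ≤ x) : ∃ C : ℝ, 1 ≤ C ∧ ∀ K r : ℕ, 2 ≤ K → 2 ≤ r →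
    MM (K, r) (x ^ (2 : ℝ)) ≤ C * (K : ℝ) ^ C := by
  have hx0 : 0 < x := by linarith
  obtain ⟨C, hC, h⟩ := Lc522.apriori_pow (2 * log x) (by have := Real.log_nonneg hx; linarith)
  refine ⟨C, hC, fun K r hK hr => ?_⟩
  have hKr : 2 * r ≤ K * r := Nat.mul_le_mul_right r hK
  have h1 := h (0, 0) r (K * r / 2) (by omega) (by omega)
  have hr0 : (0 : ℝ) < r := by exact_mod_cast (by omega : 0 < r)
  have e : MM (K, r) (x ^ (2 : ℝ)) =
      ∫ z, exp (2 * log x * NN (0, 0) (r : ℤ) ((K * r / 2 : ℕ) : ℤ) z) ∂(nu hf) := by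
    unfold MM
    refine integral_congr_ae (Filter.Eventually.of_forall fun z => ?_)
    show (x ^ (2 : ℝ)) ^ N0 K r z = exp (2 * log x * N0 K r z)
    rw [← Real.rpow_natCast, ← Real.rpow_mul hx0.le, Real.rpow_def_of_pos hx0]
    congr 1
    ring
  rw [e]
  refine h1.trans (mul_le_mul_of_nonneg_left ?_ (by linarith))
  refine Real.rpow_le_rpow (by positivity) ?_ (by linarith)
  rw [div_le_iff₀ hr0]
  have h2 : ((K * r / 2 : ℕ) : ℝ) ≤ ((K * r : ℕ) : ℝ) := by
    exact_mod_cast Nat.div_le_self _ _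
  push_cast at h2
  exact h2

/-- interpolation of the generating function -/
theorem mm_interp {x : ℝ} (hx : 1 ≤ x) {K r : ℕ} {p B : ℝ} (hp : 1 < p) (hp2 : p ≤ 2)
    (hB : 1 ≤ B) (h2 : MM (K, r) (x ^ (2 : ℝ)) ≤ B) :
    (MM (K, r) (x ^ p)) ^ (1 / p) ≤ MM (K, r) (x ^ (1 / p)) * B ^ (2 * (p - 1)) := by
  have hx0 : 0 < x := by linarith
  have hp0 : 0 < p := by linarith
  set θ := (p ^ 2 - 1) / (2 * p - 1) with hθ
  have hden : 0 < 2 * p - 1 := by linarith
  have h0 : 0 ≤ θ := div_nonneg (by nlinarith) hden.le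
  have hθ2 : θ ≤ 2 * (p - 1) := by
    rw [hθ, div_le_iff₀ hden]; nlinarith
  have h1 : θ ≤ 1 := by
    rw [hθ, div_le_one hden]; nlinarith
  have e : (1 - θ) * (1 / p) + θ * 2 = p := by
    have hd' : 2 * p - 1 ≠ 0 := hden.ne'
    have h3 : θ * (2 * p - 1) = p ^ 2 - 1 := by rw [hθ, div_mul_cancel₀ _ hd']
    have h4 : ((1 - θ) * (1 / p) + θ * 2) * p = p * p := by
      have : (1 - θ) * (1 / p) * p = 1 - θ := by field_simp
      nlinarith
    exact mul_right_cancel₀ hp0.ne' h4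
  have hpw : ∀ (s : ℝ) z, (x ^ N0 K r z) ^ s = (x ^ s) ^ N0 K r z := fun s z =>
    rpow_pow_comm hx0.le s _
  have hint : ∀ s : ℝ, Integrable (fun z => (x ^ N0 K r z) ^ s) (nu hf) := fun s =>
    ((n0_dep K r).comp fun n => (x ^ n) ^ s).integrable _
  have hMM : ∀ s : ℝ, ∫ z, (x ^ N0 K r z) ^ s ∂(nu hf) = MM (K, r) (x ^ s) := by
    intro s
    unfold MM
    exact integral_congr_ae (Filter.Eventually.of_forall fun z => hpw s z)
  have hge : ∀ s : ℝ, 0 ≤ s → 1 ≤ MM (K, r) (x ^ s) := fun s hs =>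
    mm_one_le (Real.one_le_rpow hx hs)
  have g1 := hge (1 / p) (by positivity)
  have g2 := hge 2 (by norm_num)
  have gp := hge p hp0.le
  have hi := interp (μ := nu hf) (X := fun z => x ^ N0 K r z) (s := 1 / p) (t := 2) (θ := θ)
    (fun z => pow_pos hx0 _) h0 h1 (hint _) (hint _) (by rw [e]; exact hint _)
    (by rw [hMM]; linarith) (by rw [hMM]; linarith)
  rw [e, hMM, hMM, hMM] at hi
  calc (MM (K, r) (x ^ p)) ^ (1 / p) ≤ (MM (K, r) (x ^ p)) ^ (1 : ℝ) :=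
        Real.rpow_le_rpow_of_exponent_le gp (by rw [div_le_one hp0]; linarith)
    _ = MM (K, r) (x ^ p) := Real.rpow_one _
    _ ≤ (MM (K, r) (x ^ (1 / p))) ^ (1 - θ) * (MM (K, r) (x ^ (2 : ℝ))) ^ θ := hi
    _ ≤ MM (K, r) (x ^ (1 / p)) * B ^ (2 * (p - 1)) := by
        refine mul_le_mul ?_ ?_ (Real.rpow_nonneg (by linarith) _) (by linarith)
        · calc (MM (K, r) (x ^ (1 / p))) ^ (1 - θ) ≤ (MM (K, r) (x ^ (1 / p))) ^ (1 : ℝ) :=
              Real.rpow_le_rpow_of_exponent_le g1 (by linarith)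
            _ = _ := Real.rpow_one _
        · calc (MM (K, r) (x ^ (2 : ℝ))) ^ θ ≤ B ^ θ :=
              Real.rpow_le_rpow (by linarith) h2 h0
            _ ≤ B ^ (2 * (p - 1)) := Real.rpow_le_rpow_of_exponent_le hB hθ2

theorem nlog_le {L : ℕ} (hL : 1 ≤ L) : (Nat.log 2 L : ℝ) ≤ 2 * log L := by
  have h1 := Nat.pow_log_le_self 2 (x := L) (by omega)
  have h2 : (2 : ℝ) ^ Nat.log 2 L ≤ L := by exact_mod_cast h1
  have h3 := Real.log_le_log (by positivity) h2
  rw [Real.log_pow] at h3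
  have h4 := Real.log_two_gt_d9
  have h5 : (0 : ℝ) ≤ Nat.log 2 L := Nat.cast_nonneg _
  nlinarith

/-- the ratio of the two rings -/
def Lf (τ : ℝ) (K : ℕ) : ℕ := ⌈(K : ℝ) ^ τ⌉₊ + 6

theorem lf_bds {τ : ℝ} (hτ : 0 < τ) {K : ℕ} (hK : 1 ≤ K) :
    6 ≤ Lf τ K ∧ (K : ℝ) ^ τ ≤ Lf τ K ∧ (Lf τ K : ℝ) ≤ 8 * (K : ℝ) ^ τ := by
  have hK' : (1 : ℝ) ≤ K := by exact_mod_cast hK
  have h1 : (1 : ℝ) ≤ (K : ℝ) ^ τ := Real.one_le_rpow hK' hτ.le
  have h2 := Nat.le_ceil ((K : ℝ) ^ τ)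
  have h3 := Nat.ceil_lt_add_one (a := (K : ℝ) ^ τ) (by linarith)
  unfold Lf
  refine ⟨by omega, ?_, ?_⟩
  · push_cast; linarith
  · push_cast; linarith

set_option maxHeartbeats 1000000 in
/-- **F3** -/
theorem hF3 (B : Blobs us ws) (a : ℝ) (ha1 : -(π / 3) < a) (ha2 : a < 0) {e : ℝ} (he : 0 < e) :
    ∃ p0 : ℝ, 1 < p0 ∧ ∀ p : ℝ, 1 < p → p < p0 →
      ∀ᶠ i in Filter.curry (atTop : Filter ℕ) (atTop : Filter ℕ),
        exp (√3 * a * DD i) * (MM i ((ff a) ^ (1 / p))) ^ p ≤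
          exp ((-(kap * a ^ 2 / 2) + e) * log i.1) := by
  obtain ⟨b, rfl⟩ : ∃ b, a = -2 * b := ⟨-a / 2, by ring⟩
  have hb : 0 < b := by linarith
  have hb' : b < π / 6 := by linarith
  have hx := (ff_pos_of hb hb').1
  set x := ff (-2 * b) with hxdef
  obtain ⟨Cl, hCl, hlin⟩ := lin3
  obtain ⟨Cg, hCg, hg⟩ := mm_apriori hx.le
  obtain ⟨Ca, α, hCa, hα, hpa⟩ := pa_le
  obtain ⟨Cs, hCs, hs⟩ := B.star3 b
  set θ := 2 * (b * Cl) with hθ
  have hθ0 : 0 ≤ θ := by positivity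
  set τ := e / (4 * (θ + 1)) with hτ
  have hτ0 : 0 < τ := by positivity
  have hθτ : θ * τ ≤ e / 4 := by
    rw [hτ, mul_div_assoc', div_le_div_iff₀ (by positivity) (by norm_num)]
    nlinarith
  set c1 := b * Cl * (2 * log 8 + 1) with hc1
  refine ⟨1 + min 1 (α * τ / (8 * Cg)), by
    have : 0 < min 1 (α * τ / (8 * Cg)) := lt_min one_pos (by positivity)
    linarith, fun p hp hpp => ?_⟩
  have hp2 : p ≤ 2 := by have := min_le_left 1 (α * τ / (8 * Cg)); linarith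
  have hp3 : 2 * Cg * (p - 1) ≤ α * τ / 4 := by
    have h1 : p - 1 ≤ α * τ / (8 * Cg) := by
      have := min_le_right 1 (α * τ / (8 * Cg)); linarith
    calc 2 * Cg * (p - 1) ≤ 2 * Cg * (α * τ / (8 * Cg)) :=
          mul_le_mul_of_nonneg_left h1 (by linarith)
      _ = α * τ / 4 := by field_simp; ring
  have hp0 : 0 < p := by linarith
  obtain ⟨G, hG, hcore⟩ := core3 B hb hb' hp hp2
  set D1 := G ^ 2 * (Cg ^ (2 * (p - 1)) * Ca ^ (1 / 2 : ℝ)) with hD1
  -- eventual inequalities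
  have t0 : Tendsto (fun K : ℕ => (K : ℝ)) atTop atTop := tendsto_natCast_atTop_atTop
  have t1 : Tendsto (fun K : ℕ => Ca * (K : ℝ) ^ (-(τ * α))) atTop (𝓝 (Ca * 0)) :=
    ((tendsto_rpow_neg_atTop (by positivity)).comp t0).const_mul Ca
  have t2 : Tendsto (fun K : ℕ => D1 * (K : ℝ) ^ (-(α * τ / 4))) atTop (𝓝 (D1 * 0)) :=
    ((tendsto_rpow_neg_atTop (by positivity)).comp t0).const_mul D1
  have t3 : Tendsto (fun K : ℕ => (K : ℝ) ^ (3 * e / 4)) atTop atTop :=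
    (tendsto_rpow_atTop (by positivity)).comp t0
  rw [mul_zero] at t1 t2
  have ev1 := t1.eventually (gt_mem_nhds (show (0 : ℝ) < 1 / 2 by norm_num))
  have ev2 := t2.eventually (gt_mem_nhds (show (0 : ℝ) < (1 / 2 : ℝ) ^ (p + 1) by positivity))
  have ev3 := t3.eventually (eventually_ge_atTop (8 * G * Cs * exp c1))
  refine ev_curry ?_
  filter_upwards [ev1, ev2, ev3, eventually_ge_atTop 2] with K j1 j2 j3 hK
  obtain ⟨hL6, hLge, hLle⟩ := lf_bds hτ0 (K := K) (by omega)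
  set L := Lf τ K with hLdef
  filter_upwards [hs (K + 1) (by omega) L (by omega), eventually_ge_atTop 2] with r hr1 hr2
  rw [← mm3] at hr1
  have hc := hcore K L r hK hL6 hr2
  set I := ∫ z, W (mm 2 (c3 b) (u3 us ws K L r)) z ∂(nu hf) with hI
  set l := lin 2 (c3 b) (k3 K L r) with hl
  set g := MM (K, r) (x ^ (1 / p)) with hgdef
  have hK1 : (1 : ℝ) ≤ K := by exact_mod_cast (by omega : 1 ≤ K)
  have hK0 : (0 : ℝ) < K := by linarith
  have hg1 : 1 ≤ g := mm_one_le (Real.one_le_rpow hx.le (by positivity))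
  have hgp : g ≤ g ^ p := by
    calc g = g ^ (1 : ℝ) := (Real.rpow_one g).symm
      _ ≤ g ^ p := Real.rpow_le_rpow_of_exponent_le hg1 hp.le
  -- the probability of the arm
  have hP0 := pa_nonneg K L r
  have hP1 := pa_le_one K L r
  have hPA : PA K L r ≤ Ca * (K : ℝ) ^ (-(τ * α)) := by
    refine (hpa K L r hK hL6 hr2).trans (mul_le_mul_of_nonneg_left ?_ hCa.le)
    rw [Real.rpow_neg hK0.le, Real.rpow_mul hK0.le, ← Real.inv_rpow (by positivity), one_div]
    refine Real.rpow_le_rpow (by positivity) ?_ hα.le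
    exact inv_anti₀ (by positivity) hLge
  have hPA2 : (PA K L r) ^ (1 / p) ≤ Ca ^ (1 / 2 : ℝ) * (K : ℝ) ^ (-(τ * α / 2)) := by
    calc (PA K L r) ^ (1 / p) ≤ (PA K L r) ^ (1 / 2 : ℝ) := by
          rcases hP0.lt_or_eq with h0 | h0
          · exact Real.rpow_le_rpow_of_exponent_ge h0 hP1
              (one_div_le_one_div_of_le hp0 hp2)
          · rw [← h0, Real.zero_rpow (by positivity), Real.zero_rpow (by norm_num)]
      _ ≤ (Ca * (K : ℝ) ^ (-(τ * α))) ^ (1 / 2 : ℝ) := Real.rpow_le_rpow hP0 hPA (by norm_num)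
      _ = Ca ^ (1 / 2 : ℝ) * (K : ℝ) ^ (-(τ * α / 2)) := by
          rw [Real.mul_rpow hCa.le (by positivity), ← Real.rpow_mul hK0.le]
          congr 2
          ring
  -- the moment
  have hB1 : 1 ≤ Cg * (K : ℝ) ^ Cg := by
    have := Real.one_le_rpow hK1 (by linarith : 0 ≤ Cg)
    nlinarith
  have hm := mm_interp (K := K) (r := r) hx.le hp hp2 hB1 (hg K r hK hr2)
  have hm2 : (Cg * (K : ℝ) ^ Cg) ^ (2 * (p - 1)) ≤ Cg ^ (2 * (p - 1)) * (K : ℝ) ^ (α * τ / 4) := by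
    rw [Real.mul_rpow (by linarith) (by positivity), ← Real.rpow_mul hK0.le]
    refine mul_le_mul_of_nonneg_left ?_ (by positivity)
    refine Real.rpow_le_rpow_of_exponent_le hK1 ?_
    calc Cg * (2 * (p - 1)) = 2 * Cg * (p - 1) := by ring
      _ ≤ _ := hp3
  have hprod : G ^ 2 * ((MM (K, r) (x ^ p)) ^ (1 / p) * (PA K L r) ^ (1 / p)) ≤
      (1 / 2) ^ (p + 1) * g ^ p := by
    have h1 : (MM (K, r) (x ^ p)) ^ (1 / p) * (PA K L r) ^ (1 / p) ≤
        (g * (Cg ^ (2 * (p - 1)) * (K : ℝ) ^ (α * τ / 4))) *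
          (Ca ^ (1 / 2 : ℝ) * (K : ℝ) ^ (-(τ * α / 2))) := by
      refine mul_le_mul (hm.trans (mul_le_mul_of_nonneg_left hm2 (by linarith))) hPA2
        (by positivity) (by positivity)
    have e1 : (K : ℝ) ^ (α * τ / 4) * (K : ℝ) ^ (-(τ * α / 2)) = (K : ℝ) ^ (-(α * τ / 4)) := by
      rw [← Real.rpow_add hK0]; congr 1; ring
    calc G ^ 2 * ((MM (K, r) (x ^ p)) ^ (1 / p) * (PA K L r) ^ (1 / p))
        ≤ G ^ 2 * ((g * (Cg ^ (2 * (p - 1)) * (K : ℝ) ^ (α * τ / 4))) *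
          (Ca ^ (1 / 2 : ℝ) * (K : ℝ) ^ (-(τ * α / 2)))) :=
          mul_le_mul_of_nonneg_left h1 (by positivity)
      _ = (D1 * ((K : ℝ) ^ (α * τ / 4) * (K : ℝ) ^ (-(τ * α / 2)))) * g := by rw [hD1]; ring
      _ = (D1 * (K : ℝ) ^ (-(α * τ / 4))) * g := by rw [e1]
      _ ≤ (1 / 2) ^ (p + 1) * g := mul_le_mul_of_nonneg_right j2.le (by linarith)
      _ ≤ (1 / 2) ^ (p + 1) * g ^ p := mul_le_mul_of_nonneg_left hgp (by positivity)
  have hhalf : (1 / 2 : ℝ) ^ p * g ^ p ≤ (g * (1 - PA K L r)) ^ p := by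
    rw [← Real.mul_rpow (by norm_num) (by linarith)]
    refine Real.rpow_le_rpow (by positivity) ?_ hp0.le
    have : PA K L r ≤ 1 / 2 := hPA.trans j1.le
    nlinarith
  have hmain : g ^ p ≤ 8 * G * (exp l * I) := by
    have e1 : (1 / 2 : ℝ) ^ (p + 1) = (1 / 2) ^ p * (1 / 2) := by
      rw [Real.rpow_add (by norm_num), Real.rpow_one]
    have h1 : (1 / 2 : ℝ) ^ p * g ^ p ≤ G * (exp l * I) + (1 / 2) ^ (p + 1) * g ^ p := by
      refine hhalf.trans (hc.trans ?_)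
      have : G * (exp l * I + G * ((MM (K, r) (x ^ p)) ^ (1 / p) * (PA K L r) ^ (1 / p))) =
          G * (exp l * I) + G ^ 2 * ((MM (K, r) (x ^ p)) ^ (1 / p) * (PA K L r) ^ (1 / p)) := by
        ring
      rw [this]
      linarith
    rw [e1] at h1
    have h2 : (1 / 2 : ℝ) ^ p * g ^ p ≤ 2 * (G * (exp l * I)) := by linarith
    have h3 : (1 / 4 : ℝ) ≤ (1 / 2 : ℝ) ^ p := by
      calc (1 / 4 : ℝ) = (1 / 2 : ℝ) ^ (2 : ℝ) := by norm_num
        _ ≤ (1 / 2 : ℝ) ^ p :=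
          Real.rpow_le_rpow_of_exponent_ge (by norm_num) (by norm_num) hp2
    have h4 : 0 ≤ g ^ p := Real.rpow_nonneg (by linarith) _
    have h5 := mul_le_mul_of_nonneg_right h3 h4
    linarith
  -- exponents
  have hlogK : 0 ≤ log (K : ℝ) := Real.log_nonneg hK1
  have hlogL : log (L : ℝ) ≤ τ * log K + log 8 := by
    have hL0 : (0 : ℝ) < L := by exact_mod_cast (by omega : 0 < L)
    have h1 := Real.log_le_log hL0 hLle
    rw [Real.log_mul (by norm_num) (by positivity), Real.log_rpow hK0] at h1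
    linarith
  have hlin1 : exp (√3 * (-2 * b) * DD (K, r)) ≤ exp (-l) * exp ((e / 4) * log K + c1) := by
    rw [← Real.exp_add]
    apply exp_le_exp.2
    have h1 := hlin b K L r hb.le hK hL6 hr2
    have h2 := nlog_le (L := L) (by omega)
    have h3 : b * Cl * (Nat.log 2 L + 1) ≤ b * Cl * (2 * (τ * log K + log 8) + 1) :=
      mul_le_mul_of_nonneg_left (by linarith) (by positivity)
    have h4 : b * Cl * (2 * (τ * log K + log 8) + 1) = θ * τ * log K + c1 := by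
      rw [hθ, hc1]; ring
    have h5 : θ * τ * log K ≤ e / 4 * log K := mul_le_mul_of_nonneg_right hθτ hlogK
    linarith
  have hIle : I ≤ Cs * exp (-(kap * (-2 * b) ^ 2 / 2) * log K) := by
    refine hr1.trans (mul_le_mul_of_nonneg_left ?_ hCs.le)
    apply exp_le_exp.2
    rw [kap_eq]
    have hpi := Real.pi_pos
    have h1 : log (K : ℝ) ≤ log ((K + 1 : ℕ) : ℝ) :=
      Real.log_le_log hK0 (by push_cast; linarith)
    have h2 : 0 ≤ log (L : ℝ) := Real.log_nonneg (by exact_mod_cast (by omega : 1 ≤ L))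
    have h3 : 0 ≤ 3 / (4 * π ^ 2) := by positivity
    have h4 : b ^ 2 * (4 * log K) ≤ b ^ 2 * (4 * log ((K + 1 : ℕ) : ℝ) + log L) :=
      mul_le_mul_of_nonneg_left (by linarith) (sq_nonneg b)
    have h5 := mul_le_mul_of_nonneg_left h4 h3
    have e1 : 3 * (-2 * b) ^ 2 / (4 * π ^ 2) * log (K : ℝ) =
        3 / (4 * π ^ 2) * (b ^ 2 * (4 * log K)) := by ring
    rw [neg_mul, neg_mul, e1]
    linarith
  have hconst : 8 * G * Cs * exp c1 ≤ exp (3 * e / 4 * log K) := by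
    refine j3.trans (le_of_eq ?_)
    rw [Real.rpow_def_of_pos hK0]
    congr 1
    ring
  show exp (√3 * (-2 * b) * DD (K, r)) * g ^ p ≤
    exp ((-(kap * (-2 * b) ^ 2 / 2) + e) * log (K : ℝ))
  calc exp (√3 * (-2 * b) * DD (K, r)) * g ^ p
      ≤ (exp (-l) * exp ((e / 4) * log K + c1)) * (8 * G * (exp l * I)) :=
        mul_le_mul hlin1 hmain (by positivity) (by positivity)
    _ = (exp (-l) * exp l) * (8 * G * exp ((e / 4) * log K + c1) * I) := by ring
    _ = 8 * G * exp ((e / 4) * log K + c1) * I := by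
        rw [← Real.exp_add]; simp
    _ ≤ 8 * G * exp ((e / 4) * log K + c1) * (Cs * exp (-(kap * (-2 * b) ^ 2 / 2) * log K)) :=
        mul_le_mul_of_nonneg_left hIle (by positivity)
    _ = (8 * G * Cs * exp c1) * (exp ((e / 4) * log K) *
          exp (-(kap * (-2 * b) ^ 2 / 2) * log K)) := by rw [Real.exp_add]; ring
    _ ≤ exp (3 * e / 4 * log K) * (exp ((e / 4) * log K) *
          exp (-(kap * (-2 * b) ^ 2 / 2) * log K)) :=
        mul_le_mul_of_nonneg_right hconst (by positivity)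
    _ = exp ((-(kap * (-2 * b) ^ 2 / 2) + e) * log (K : ℝ)) := by
        rw [← Real.exp_add, ← Real.exp_add]
        congr 1
        ring

/-- **the instance of `We297.Hyp`** -/
theorem hyp_main (hLaw : Bs410.Law3) :
    We297.Hyp (Filter.curry (atTop : Filter ℕ) (atTop : Filter ℕ))
      (fun i : ℕ × ℕ => Real.log i.1) DD MM where
  ell_top := by
    have h1 : Tendsto (fun K : ℕ => Real.log (K : ℝ)) atTop atTop :=
      Real.tendsto_log_atTop.comp tendsto_natCast_atTop_atTop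
    rw [Filter.tendsto_atTop]
    intro c
    refine ev_curry ?_
    filter_upwards [h1.eventually (eventually_ge_atTop c)] with K hK
    exact Filter.Eventually.of_forall fun r => hK
  nonneg := fun i x hx => integral_nonneg fun z => pow_nonneg hx _
  mono := fun i x y hx hxy => by
    unfold MM
    exact integral_mono (((n0_dep i.1 i.2).comp fun n => x ^ n).integrable _)
      (((n0_dep i.1 i.2).comp fun n => y ^ n).integrable _) fun z => pow_le_pow_left₀ hx hxy _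
  F1 := fun a ha p hp => hF1 (blobs_main hLaw) a ha hp
  F2 := fun a ha p hp => hF2 (blobs_main hLaw) a ha hp
  F3 := fun a ha1 ha2 e he => hF3 (blobs_main hLaw) a ha1 ha2 he

end Crest.Agent.R158.Wf850
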