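import Crest.Agent.R158.Bf1_109
import Crest.Agent.R158.Bg7_612
import Crest.Agent.R158.Wf9_850

/-!
# Row 158, identity B (helper109): `SB p2` from the law of the loops
-/

set_option autoImplicit false

noncomputable section

namespace Crest.Agent.R158.Bf109

theorem mainB : MainB := B612.main_est

/-- **identity B, closed** -/
theorem sb_law (hLaw : Bs410.Law3) : Ax107.SB Ax107.p2 :=
  sb_of_hyp mainB (Wf850.hyp_main hLaw)

end Crest.Agent.R158.Bf109
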