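import Crest.Agent.R158.Wf1_850

/-!
# Row 158, identity B (helper612), part 1: loops and concentric annuli

* `const_rect`, `const_ann` : a set of faces not cut inside a rectangle / an annulus is constant on it
* `cl_side` : a cluster which avoids an annulus stays on one side
* `fill` : a loop containing the annulus contains the box; `inner` : a loop missing the annulus and
  meeting the box is inside the inner box
* `arms_of_sep`, `arms_of_inf`
-/

set_option autoImplicit false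

noncomputable section

namespace Crest.Agent.R158.B612

open Crest.Agent.R161.Geo729 Crest.Agent.R161.Dual374 Crest.Agent.R161.Tas682
open Crest.Agent.R158.It200 Crest.Agent.R158.Wf850
open Crest.Agent.R158.Fr158 (bx mem_bx mem_bx_sd eIn mem_eIn)

/-- faces of a rectangle -/
def RF (a b c d : ℤ) : Finset Face := (Finset.Icc a b ×ˢ Finset.Icc c d) ×ˢ Finset.univ

theorem mem_RF {a b c d : ℤ} {f : Face} :
    f ∈ RF a b c d ↔ a ≤ f.1.1 ∧ f.1.1 ≤ b ∧ c ≤ f.1.2 ∧ f.1.2 ≤ d := by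
  unfold RF
  simp only [Finset.mem_product, Finset.mem_Icc, Finset.mem_univ, and_true]
  tauto

/-- a set that is not cut inside a rectangle is constant on it -/
theorem const_rect {A : Finset Face} {x0 x1 y0 y1 : ℤ}
    (h : ∀ d : Corner, cv d ∈ RF x0 x1 y0 y1 → cf d ∈ RF x0 x1 y0 y1 → ¬ sepC A d) {f g : Face}
    (hf : f ∈ RF x0 x1 y0 y1) (hg : g ∈ RF x0 x1 y0 y1) : f ∈ A ↔ g ∈ A := by
  have hsep : ∀ d : Corner, cv d ∈ RF x0 x1 y0 y1 → cf d ∈ RF x0 x1 y0 y1 →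
      (cv d ∈ A ↔ cf d ∈ A) := by
    intro d h1 h2
    have := h d h1 h2
    unfold sepC at this
    exact not_not.1 this
  have memB : ∀ (v : P2) (b : Bool), (v, b) ∈ RF x0 x1 y0 y1 ↔
      (x0 ≤ v.1 ∧ v.1 ≤ x1 ∧ y0 ≤ v.2 ∧ v.2 ≤ y1) := fun v b => mem_RF
  have h0 : ∀ v : P2, (v, false) ∈ RF x0 x1 y0 y1 → ((v, false) ∈ A ↔ (v, true) ∈ A) := by
    intro v hv
    have h1 := hsep (v, 0) hv (by
      show (fc (v, 0), true) ∈ RF x0 x1 y0 y1
      rw [fc_zero]; rw [memB] at hv ⊢; exact hv)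
    have e : cf (v, 0) = (v, true) := by unfold cf; rw [fc_zero]
    rw [e] at h1
    exact h1
  have hr : ∀ a b : ℤ, ((a, b), false) ∈ RF x0 x1 y0 y1 → ((a + 1, b), false) ∈ RF x0 x1 y0 y1 →
      (((a, b), false) ∈ A ↔ ((a + 1, b), false) ∈ A) := by
    intro a b h1 h2
    have e : cf ((a + 1, b), 3) = ((a, b), true) := by simp [cf, fc]
    have h3 := hsep ((a + 1, b), 3) h2 (by rw [e, memB]; rw [memB] at h1; exact h1)
    rw [e] at h3
    rw [h0 _ h1]
    exact h3.symm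
  have hu : ∀ a b : ℤ, ((a, b), false) ∈ RF x0 x1 y0 y1 → ((a, b + 1), false) ∈ RF x0 x1 y0 y1 →
      (((a, b), false) ∈ A ↔ ((a, b + 1), false) ∈ A) := by
    intro a b h1 h2
    have e : cf ((a, b + 1), 1) = ((a, b), true) := by simp [cf, fc]
    have h3 := hsep ((a, b + 1), 1) h2 (by rw [e, memB]; rw [memB] at h1; exact h1)
    rw [e] at h3
    rw [h0 _ h1]
    exact h3.symm
  have hrow : ∀ k : ℕ, ∀ b : ℤ, y0 ≤ b → b ≤ y1 → x0 + k ≤ x1 →
      (((x0, b), false) ∈ A ↔ ((x0 + k, b), false) ∈ A) := by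
    intro k
    induction k with
    | zero => intro b _ _ _; simp
    | succ k ih =>
        intro b h1 h2 h3
        push_cast at h3 ⊢
        rw [ih b h1 h2 (by linarith), hr _ _ (by rw [memB]; dsimp only; omega)
          (by rw [memB]; dsimp only; omega)]
        rw [show x0 + (k : ℤ) + 1 = x0 + (k + 1) by ring]
  have hcol : ∀ k : ℕ, x0 ≤ x1 → y0 + k ≤ y1 →
      (((x0, y0), false) ∈ A ↔ ((x0, y0 + k), false) ∈ A) := by
    intro k
    induction k with
    | zero => intro _ _; simp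
    | succ k ih =>
        intro h2 h3
        push_cast at h3 ⊢
        rw [ih h2 (by linarith), hu _ _ (by rw [memB]; dsimp only; omega)
          (by rw [memB]; dsimp only; omega)]
        rw [show y0 + (k : ℤ) + 1 = y0 + (k + 1) by ring]
  have key : ∀ f : Face, f ∈ RF x0 x1 y0 y1 → (((x0, y0), false) ∈ A ↔ f ∈ A) := by
    rintro ⟨⟨a, b⟩, s⟩ hfB
    rw [memB] at hfB
    dsimp only at hfB
    obtain ⟨h1, h2, h3, h4⟩ := hfB
    have e1 : x0 + ((a - x0).toNat : ℤ) = a := by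
      rw [Int.toNat_of_nonneg (by linarith)]; ring
    have e2 : y0 + ((b - y0).toNat : ℤ) = b := by
      rw [Int.toNat_of_nonneg (by linarith)]; ring
    have k1 := hcol (b - y0).toNat (by linarith) (by rw [e2]; exact h4)
    have k2 := hrow (a - x0).toNat b h3 h4 (by rw [e1]; exact h2)
    rw [e2] at k1
    rw [e1] at k2
    rw [k1, k2]
    cases s
    · exact Iff.rfl
    · exact h0 _ (by rw [memB]; exact ⟨h1, h2, h3, h4⟩)
  rw [← key f hf, ← key g hg]

/-- distance of a face from the origin -/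
abbrev s0 (f : Face) : ℤ := sd (0, 0) f.1

/-- the annulus -/
def An (r R : ℤ) (f : Face) : Prop := r < s0 f ∧ s0 f ≤ R

theorem sd0_eq (v : P2) : sd (0, 0) v = max |v.1| |v.2| := by unfold sd; simp

theorem sd0_le {v : P2} {n : ℤ} : sd (0, 0) v ≤ n ↔ -n ≤ v.1 ∧ v.1 ≤ n ∧ -n ≤ v.2 ∧ v.2 ≤ n := by
  rw [sd0_eq, max_le_iff, abs_le, abs_le]; tauto

theorem lt_sd0 {v : P2} {n : ℤ} : n < sd (0, 0) v ↔ v.1 < -n ∨ n < v.1 ∨ v.2 < -n ∨ n < v.2 := by
  rw [← not_le, sd0_le]; omega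

theorem an_iff {r R : ℤ} {f : Face} : An r R f ↔
    (f.1.1 < -r ∨ r < f.1.1 ∨ f.1.2 < -r ∨ r < f.1.2) ∧
      (-R ≤ f.1.1 ∧ f.1.1 ≤ R ∧ -R ≤ f.1.2 ∧ f.1.2 ≤ R) := by
  unfold An s0
  rw [lt_sd0, sd0_le]

/-- **constancy on an annulus** -/
theorem const_ann {A : Finset Face} {r R : ℤ} (h0 : 0 ≤ r) (hrR : r < R)
    (h : ∀ d : Corner, An r R (cv d) → An r R (cf d) → ¬ sepC A d) {f g : Face}
    (hf : An r R f) (hg : An r R g) : f ∈ A ↔ g ∈ A := by
  -- the four rectangles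
  have hU : ∀ f ∈ RF (-R) R (r + 1) R, An r R f := by
    intro f hf; rw [mem_RF] at hf; rw [an_iff]; omega
  have hD : ∀ f ∈ RF (-R) R (-R) (-(r + 1)), An r R f := by
    intro f hf; rw [mem_RF] at hf; rw [an_iff]; omega
  have hR' : ∀ f ∈ RF (r + 1) R (-R) R, An r R f := by
    intro f hf; rw [mem_RF] at hf; rw [an_iff]; omega
  have hL : ∀ f ∈ RF (-R) (-(r + 1)) (-R) R, An r R f := by
    intro f hf; rw [mem_RF] at hf; rw [an_iff]; omega
  have cU : ∀ {f g : Face}, f ∈ RF (-R) R (r + 1) R → g ∈ RF (-R) R (r + 1) R →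
      (f ∈ A ↔ g ∈ A) := fun h1 h2 => const_rect (fun d a b => h d (hU _ a) (hU _ b)) h1 h2
  have cD : ∀ {f g : Face}, f ∈ RF (-R) R (-R) (-(r + 1)) → g ∈ RF (-R) R (-R) (-(r + 1)) →
      (f ∈ A ↔ g ∈ A) := fun h1 h2 => const_rect (fun d a b => h d (hD _ a) (hD _ b)) h1 h2
  have cR : ∀ {f g : Face}, f ∈ RF (r + 1) R (-R) R → g ∈ RF (r + 1) R (-R) R →
      (f ∈ A ↔ g ∈ A) := fun h1 h2 => const_rect (fun d a b => h d (hR' _ a) (hR' _ b)) h1 h2
  have cL : ∀ {f g : Face}, f ∈ RF (-R) (-(r + 1)) (-R) R → g ∈ RF (-R) (-(r + 1)) (-R) R →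
      (f ∈ A ↔ g ∈ A) := fun h1 h2 => const_rect (fun d a b => h d (hL _ a) (hL _ b)) h1 h2
  -- everything is compared with the north east corner
  set NE : Face := ((R, R), false) with hNE
  set NW : Face := ((-R, R), false) with hNW
  set SE : Face := ((R, -R), false) with hSE
  have eNW : NW ∈ A ↔ NE ∈ A := cU (by rw [mem_RF]; simp [hNW]; omega) (by rw [mem_RF]; simp [hNE]; omega)
  have eSE : SE ∈ A ↔ NE ∈ A := cR (by rw [mem_RF]; simp [hSE]; omega) (by rw [mem_RF]; simp [hNE]; omega)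
  have key : ∀ f : Face, An r R f → (f ∈ A ↔ NE ∈ A) := by
    intro f hf
    rw [an_iff] at hf
    obtain ⟨h1 | h1 | h1 | h1, h2⟩ := hf
    · rw [← eNW]
      exact cL (by rw [mem_RF]; omega) (by rw [mem_RF]; simp [hNW]; omega)
    · exact cR (by rw [mem_RF]; omega) (by rw [mem_RF]; simp [hNE]; omega)
    · rw [← eSE]
      exact cD (by rw [mem_RF]; omega) (by rw [mem_RF]; simp [hSE]; omega)
    · exact cU (by rw [mem_RF]; omega) (by rw [mem_RF]; simp [hNE]; omega)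
  rw [key f hf, key g hg]

/-- a set which is not constant on the annulus is cut inside it -/
theorem cut_ann {A : Finset Face} {r R : ℤ} (h0 : 0 ≤ r) (hrR : r < R) {f g : Face}
    (hf : An r R f) (hg : An r R g) (hfA : f ∈ A) (hgA : g ∉ A) :
    ∃ d : Corner, An r R (cv d) ∧ An r R (cf d) ∧ sepC A d := by
  by_contra hcon
  push Not at hcon
  exact hgA ((const_ann h0 hrR hcon hf hg).1 hfA)

/-! ### clusters and annuli -/

/-- one step of a cluster changes the distance by at most one -/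
theorem pstep_near {Z : Edge → Prop} {u v : P2} (h : PStep Z u v) :
    |u.1 - v.1| ≤ 1 ∧ |u.2 - v.2| ≤ 1 := by
  obtain ⟨⟨⟨a, b⟩, s⟩, -, h | h⟩ := h <;> obtain ⟨h1, h2⟩ := h <;> subst h1 <;> subst h2 <;>
    cases s <;> simp [src, tgt]

theorem dstep_near {Z : Edge → Prop} {u v : P2} (h : DStep Z u v) :
    |u.1 - v.1| ≤ 1 ∧ |u.2 - v.2| ≤ 1 := by
  obtain ⟨⟨⟨a, b⟩, s⟩, -, h | h⟩ := h <;> obtain ⟨h1, h2⟩ := h <;> subst h1 <;> subst h2 <;>
    cases s <;> simp [fA, fB]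

/-- a path (of either type) starting at distance `≤ r` and avoiding `r + 1` stays at distance `≤ r` -/
theorem path_side {α : P2 → P2 → Prop} (hnear : ∀ u v, α u v → |u.1 - v.1| ≤ 1 ∧ |u.2 - v.2| ≤ 1)
    {r : ℤ} {u : P2} (hu : sd (0, 0) u ≤ r)
    (hav : ∀ v, Relation.ReflTransGen α u v → sd (0, 0) v ≠ r + 1) {v : P2}
    (h : Relation.ReflTransGen α u v) : sd (0, 0) v ≤ r := by
  induction h with
  | refl => exact hu
  | @tail b c h1 h2 ih =>
    obtain ⟨k1, k2⟩ := hnear _ _ h2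
    have h3 : sd (0, 0) c ≤ sd (0, 0) b + 1 :=
      sd_near (by rwa [abs_sub_comm]) (by rwa [abs_sub_comm])
    have h4 := hav c (h1.tail h2)
    omega

/-- a cluster starting at distance `≤ r` and avoiding distance `r + 1` stays at distance `≤ r` -/
theorem cl_side {z : Cfz} {r : ℤ} {f : Face} (hf : s0 f ≤ r)
    (hav : ∀ g, Cl z f g → s0 g ≠ r + 1) {g : Face} (h : Cl z f g) : s0 g ≤ r := by
  obtain ⟨u, b⟩ := f
  obtain ⟨v, b'⟩ := g
  obtain ⟨h1, h2⟩ := h
  dsimp only at h1 h2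
  subst h1
  rcases h2 with ⟨hb, h2⟩ | ⟨hb, h2⟩
  · subst hb
    refine path_side (fun _ _ => pstep_near) hf (fun w hw => hav (w, false) ⟨rfl, Or.inl ⟨rfl, hw⟩⟩) h2
  · subst hb
    refine path_side (fun _ _ => dstep_near) hf (fun w hw => hav (w, true) ⟨rfl, Or.inr ⟨rfl, hw⟩⟩) h2

/-! ### strands -/

/-- the strand of a loop -/
theorem strand {z : Cfz} {A : Finset Face} (hA : A ∈ Lps z) : ∃ c : Corner, (Lp z c).Finite ∧
    (∀ f, f ∈ A ↔ ht z c f ≠ 0) ∧ (∀ d, sepC A d ↔ d ∈ Lp z c) := by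
  obtain ⟨c, hc, h⟩ := hA
  exact ⟨c, hc, h, fun d => sep_iff hc h d⟩

theorem cl_strand {z : Cfz} {A : Finset Face} (hA : A ∈ Lps z) {d d' : Corner} (h : sepC A d)
    (h' : sepC A d') : Cl z (cv d) (cv d') ∧ Cl z (cf d) (cf d') := by
  obtain ⟨c, hc, -, hs⟩ := strand hA
  rw [hs] at h h'
  have e : d' ∈ Lp z d := by rw [Lp_eq h]; exact h'
  exact ⟨⟨rfl, Or.inl ⟨rfl, Lp_v d' e⟩⟩, ⟨rfl, Or.inr ⟨rfl, Lp_f d' e⟩⟩⟩

/-- a loop whose corners are in the box is in the box -/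
theorem sub_of_corners {z : Cfz} {A : Finset Face} (hA : A ∈ Lps z) {m : ℤ}
    (h : ∀ d, sepC A d → sd (0, 0) d.1 ≤ m) : A ⊆ BF (0, 0) m := by
  obtain ⟨c, hc, h1, hs⟩ := strand hA
  intro f hf
  rw [mem_BF]
  by_contra hlt
  exact (h1 f).1 hf (ht_out hc (fun d hd => h d ((hs d).2 hd)) (not_le.1 hlt))

/-- the face of a corner outside of `A`, and the inside one -/
theorem sep_cases {A : Finset Face} {d : Corner} (h : sepC A d) :
    (cv d ∈ A ∧ cf d ∉ A) ∨ (cv d ∉ A ∧ cf d ∈ A) := by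
  unfold sepC at h
  tauto

/-- **filling**: a loop containing an annulus contains the box -/
theorem fill {z : Cfz} {A : Finset Face} (hA : A ∈ Lps z) {r R : ℤ} (h0 : 0 ≤ r) (hrR : r + 2 ≤ R)
    (h : ∀ f, An r R f → f ∈ A) : BF (0, 0) R ⊆ A := by
  by_contra hcon
  rw [Finset.not_subset] at hcon
  obtain ⟨g, hg, hgA⟩ := hcon
  rw [mem_BF] at hg
  have hg' : s0 g ≤ r := by
    by_contra hlt
    exact hgA (h g ⟨not_le.1 hlt, hg⟩)
  -- a face of the annulus
  have h1 : An r R ((r + 1, 0), false) := by rw [an_iff]; dsimp only; omega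
  have h2 : Splits A (BF (0, 0) (R - 1)) := by
    refine ⟨⟨_, ?_, h _ h1⟩, g, ?_, hgA⟩
    · rw [mem_BF, sd0_le]; dsimp only; omega
    · rw [mem_BF]; have : sd (0, 0) g.1 ≤ r := hg'; omega
  obtain ⟨d, hd1, hd2, hd3⟩ := exists_sep h2
  -- the outer cluster stays inside
  have key : ∀ y : Face, y ∉ A → s0 y ≤ R - 1 → ∀ y', Cl z y y' → s0 y' ≤ r := by
    intro y hy hyR y' hyy
    refine cl_side ?_ (fun g hg hgr => ?_) hyy
    · by_contra hlt
      exact hy (h y ⟨not_le.1 hlt, by omega⟩)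
    · exact hy ((lps_cl hA hg).2 (h g ⟨by omega, by omega⟩))
  rw [mem_BF] at hd1 hd2
  have hcor : ∀ d', sepC A d' → sd (0, 0) d'.1 ≤ r + 1 := by
    intro d' hd'
    obtain ⟨c1, c2⟩ := cl_strand hA hd3 hd'
    rcases sep_cases hd3 with ⟨-, b⟩ | ⟨a, -⟩
    · have h3 : s0 (cf d') ≤ r := key _ b hd2 _ c2
      have h4 := (sd_corner (0, 0) d').1
      have h5 : s0 (cf d') = sd (0, 0) (fc d') := rfl
      omega
    · have h3 : s0 (cv d') ≤ r := key _ a hd1 _ c1
      have h5 : s0 (cv d') = sd (0, 0) d'.1 := rfl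
      omega
  have h3 := sub_of_corners hA hcor
  have h4 : An r R ((R, 0), false) := by rw [an_iff]; dsimp only; omega
  have h5 := h3 (h _ h4)
  rw [mem_BF, sd0_le] at h5
  dsimp only at h5
  omega

/-- a loop missing an annulus and meeting the box is inside the inner box -/
theorem inner {z : Cfz} {A : Finset Face} (hA : A ∈ Lps z) {r R : ℤ} (h0 : 0 ≤ r) (hrR : r + 2 ≤ R)
    (h : ∀ f, An r R f → f ∉ A) {g : Face} (hgR : s0 g ≤ R) (hgA : g ∈ A) :
    A ⊆ BF (0, 0) r := by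
  have hg' : s0 g ≤ r := by
    by_contra hlt
    exact h g ⟨not_le.1 hlt, hgR⟩ hgA
  have h1 : An r R ((r + 1, 0), false) := by rw [an_iff]; dsimp only; omega
  have h2 : Splits A (BF (0, 0) (R - 1)) := by
    refine ⟨⟨g, ?_, hgA⟩, _, ?_, h _ h1⟩
    · rw [mem_BF]; have : sd (0, 0) g.1 ≤ r := hg'; omega
    · rw [mem_BF, sd0_le]; dsimp only; omega
  obtain ⟨d, hd1, hd2, hd3⟩ := exists_sep h2
  have key : ∀ y : Face, y ∈ A → s0 y ≤ R - 1 → ∀ y', Cl z y y' → s0 y' ≤ r := by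
    intro y hy hyR y' hyy
    refine cl_side ?_ (fun g hg hgr => ?_) hyy
    · by_contra hlt
      exact h y ⟨not_le.1 hlt, by omega⟩ hy
    · exact h g ⟨by omega, by omega⟩ ((lps_cl hA hg).1 hy)
  rw [mem_BF] at hd1 hd2
  have hcor : ∀ d', sepC A d' → sd (0, 0) d'.1 ≤ r + 1 := by
    intro d' hd'
    obtain ⟨c1, c2⟩ := cl_strand hA hd3 hd'
    rcases sep_cases hd3 with ⟨a, -⟩ | ⟨-, b⟩
    · have h3 : s0 (cv d') ≤ r := key _ a hd1 _ c1
      have h5 : s0 (cv d') = sd (0, 0) d'.1 := rfl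
      omega
    · have h3 : s0 (cf d') ≤ r := key _ b hd2 _ c2
      have h4 := (sd_corner (0, 0) d').1
      have h5 : s0 (cf d') = sd (0, 0) (fc d') := rfl
      omega
  have h3 := sub_of_corners hA hcor
  intro f hf
  have h4 := h3 hf
  rw [mem_BF] at h4 ⊢
  by_contra hlt
  exact h f ⟨not_le.1 hlt, by show sd (0, 0) f.1 ≤ R; omega⟩ hf

/-! ### arms -/

/-- the loop through the corner `c0` leaves the box `BF 0 m`: two arms -/
theorem arms_of_sep {z : Cfz} {A : Finset Face} (hA : A ∈ Lps z) {c0 : Corner} (hc : sepC A c0)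
    {m : ℤ} (hm : ¬ A ⊆ BF (0, 0) m) :
    (∃ v ∈ OCl z c0.1, m + 1 ≤ sd (0, 0) v) ∧ ∃ g ∈ DCl z (fc c0), m ≤ sd (0, 0) g := by
  have h1 : ∃ d', sepC A d' ∧ m + 1 ≤ sd (0, 0) d'.1 := by
    by_contra hcon
    push Not at hcon
    exact hm (sub_of_corners hA fun d hd => by have := hcon d hd; omega)
  obtain ⟨d', hd', hd''⟩ := h1
  obtain ⟨c, hcf, -, hs⟩ := strand hA
  rw [hs] at hc hd'
  have e : d' ∈ Lp z c0 := by rw [Lp_eq hc]; exact hd'
  refine ⟨⟨d'.1, Lp_v d' e, hd''⟩, ⟨fc d', Lp_f d' e, ?_⟩⟩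
  have := (sd_corner (0, 0) d').1
  omega

/-- no finite loop through the corner `c0`: two infinite arms -/
theorem arms_of_inf {z : Cfz} {c0 : Corner} (h : ∀ A ∈ Lps z, ¬ sepC A c0) (m : ℤ) :
    (∃ v ∈ OCl z c0.1, m ≤ sd (0, 0) v) ∧ ∃ g ∈ DCl z (fc c0), m ≤ sd (0, 0) g := by
  have hinf : ¬ (Lp z c0).Finite := by
    intro hfin
    obtain ⟨A, hA, hAf⟩ := exists_int hfin
    exact h A hA ((sep_iff hfin hAf c0).2 (mem_Lp_self z c0))
  constructor
  · by_contra hcon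
    push Not at hcon
    apply hinf
    refine Lp_finite_of_v ((bx (0, 0) m).finite_toSet.subset fun v hv => ?_)
    rw [Finset.mem_coe, mem_bx_sd]
    exact (hcon v hv).le
  · by_contra hcon
    push Not at hcon
    apply hinf
    refine Lp_finite_of_f ((bx (0, 0) m).finite_toSet.subset fun v hv => ?_)
    rw [Finset.mem_coe, mem_bx_sd]
    exact (hcon v hv).le

end Crest.Agent.R158.B612
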