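import Crest.Agent.R158.Rs1_689

/-!
# Row 158, Block W (helper109), part 1: functions of finitely many Bernoulli variables

* `DepF S f` : `f` depends only on the coordinates in the finite set `S`
* `DepF.integrable`, `integral_mul_indep`, `integral_prod_indep` (independence over disjoint sets)
* `holder_exp` : `E exp (∑ θ i * X i) ≤ ∏ (E exp (X i)) ^ θ i` for weights with sum `1`
* `exp_one` : centred variable with exponential moments
* `color_exp` : sums of finite range centred variables (colour classes independent)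
* `scale_exp` : several scales
-/

set_option autoImplicit false

noncomputable section

namespace Crest.Agent.R158.Cn109

open MeasureTheory ProbabilityTheory unitInterval
open Crest.Agent.R158.Rs689
open scoped ENNReal

variable {ι : Type*}

/-- the function depends only on the coordinates in `S` -/
def DepF {β : Type*} (S : Finset ι) (f : (ι → Bool) → β) : Prop :=
  ∀ z z' : ι → Bool, (∀ e ∈ S, z e = z' e) → f z = f z'

namespace DepF

variable {β γ : Type*} {S T : Finset ι}

theorem mono {f : (ι → Bool) → β} (hf : DepF S f) (h : S ⊆ T) : DepF T f :=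
  fun z z' hz => hf z z' fun e he => hz e (h he)

theorem const (S : Finset ι) (c : β) : DepF S (fun _ : ι → Bool => c) := fun _ _ _ => rfl

theorem comp {f : (ι → Bool) → β} (hf : DepF S f) (g : β → γ) : DepF S (fun z => g (f z)) :=
  fun z z' h => congrArg g (hf z z' h)

theorem comp₂ {δ : Type*} {f : (ι → Bool) → β} {g : (ι → Bool) → γ} (hf : DepF S f)
    (hg : DepF S g) (F : β → γ → δ) : DepF S (fun z => F (f z) (g z)) :=
  fun z z' h => by
    show F (f z) (g z) = F (f z') (g z')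
    rw [hf z z' h, hg z z' h]

theorem add {f g : (ι → Bool) → ℝ} (hf : DepF S f) (hg : DepF S g) :
    DepF S (fun z => f z + g z) := hf.comp₂ hg (· + ·)

theorem sub {f g : (ι → Bool) → ℝ} (hf : DepF S f) (hg : DepF S g) :
    DepF S (fun z => f z - g z) := hf.comp₂ hg (· - ·)

theorem mul {f g : (ι → Bool) → ℝ} (hf : DepF S f) (hg : DepF S g) :
    DepF S (fun z => f z * g z) := hf.comp₂ hg (· * ·)

theorem smul {f : (ι → Bool) → ℝ} (c : ℝ) (hf : DepF S f) : DepF S (fun z => c * f z) :=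
  hf.comp (c * ·)

theorem sum {κ : Type*} {s : Finset κ} {f : κ → (ι → Bool) → ℝ} (hf : ∀ i ∈ s, DepF S (f i)) :
    DepF S (fun z => ∑ i ∈ s, f i z) :=
  fun z z' h => Finset.sum_congr rfl fun i hi => hf i hi z z' h

theorem prod {κ : Type*} {s : Finset κ} {f : κ → (ι → Bool) → ℝ} (hf : ∀ i ∈ s, DepF S (f i)) :
    DepF S (fun z => ∏ i ∈ s, f i z) :=
  fun z z' h => Finset.prod_congr rfl fun i hi => hf i hi z z' h

open Classical in
theorem fac {f : (ι → Bool) → β} (hf : DepF S f) :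
    f = (fun y : S → Bool => f fun e => if h : e ∈ S then y ⟨e, h⟩ else false) ∘ S.restrict := by
  funext z
  refine hf _ _ fun e he => ?_
  simp [he]

theorem measurable [MeasurableSpace β] {f : (ι → Bool) → β} (hf : DepF S f) : Measurable f := by
  classical
  rw [hf.fac]
  exact (Measurable.of_discrete).comp (Finset.measurable_restrict S)

theorem integrable {f : (ι → Bool) → ℝ} (hf : DepF S f) (w : ι → I) : Integrable f (PB w) := by
  classical
  rw [hf.fac]
  refine (integrable_map_measure (f := S.restrict) ?_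
    (Finset.measurable_restrict S).aemeasurable).1 ?_
  · exact (Measurable.of_discrete).aestronglyMeasurable
  · have : IsProbabilityMeasure ((PB w).map S.restrict) :=
      Measure.isProbabilityMeasure_map (Finset.measurable_restrict S).aemeasurable
    exact Integrable.of_finite

end DepF

theorem dep_iff {S : Finset ι} {A : Set (ι → Bool)} : Dep S A ↔ DepF S (fun z => z ∈ A) :=
  ⟨fun h z z' hz => propext (h z z' hz), fun h z z' hz => iff_of_eq (h z z' hz)⟩

/-- independence of two functions -/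
theorem integral_mul_indep (w : ι → I) {S T : Finset ι} (hST : Disjoint S T)
    {f g : (ι → Bool) → ℝ} (hf : DepF S f) (hg : DepF T g) :
    ∫ z, f z * g z ∂(PB w) = (∫ z, f z ∂(PB w)) * ∫ z, g z ∂(PB w) := by
  classical
  have h1 : iIndepFun (fun (e : ι) (z : ι → Bool) => z e) (PB w) := by
    have := iIndepFun_infinitePi (P := fun e => bern (w e)) (X := fun _ b => b)
      (fun _ => measurable_id)
    exact this
  have h2 := h1.indepFun_finset S T hST (fun e => measurable_pi_apply e)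
  have h3 : IndepFun f g (PB w) := by
    rw [hf.fac, hg.fac]
    exact h2.comp (Measurable.of_discrete
      (f := fun y : S → Bool => f fun e => if h : e ∈ S then y ⟨e, h⟩ else false))
      (Measurable.of_discrete
      (f := fun y : T → Bool => g fun e => if h : e ∈ T then y ⟨e, h⟩ else false))
  exact h3.integral_fun_mul_eq_mul_integral hf.measurable.aestronglyMeasurable
    hg.measurable.aestronglyMeasurable

/-- independence of a finite family -/
theorem integral_prod_indep (w : ι → I) {κ : Type*} (s : Finset κ) (S : κ → Finset ι)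
    (hS : ∀ i ∈ s, ∀ j ∈ s, i ≠ j → Disjoint (S i) (S j)) (f : κ → (ι → Bool) → ℝ)
    (hf : ∀ i ∈ s, DepF (S i) (f i)) :
    ∫ z, ∏ i ∈ s, f i z ∂(PB w) = ∏ i ∈ s, ∫ z, f i z ∂(PB w) := by
  classical
  induction s using Finset.induction_on with
  | empty => simp
  | insert a s ha ih =>
    rw [Finset.prod_insert ha, ← ih (fun i hi j hj => hS i (Finset.mem_insert_of_mem hi) j
      (Finset.mem_insert_of_mem hj)) fun i hi => hf i (Finset.mem_insert_of_mem hi)]
    have hd : Disjoint (S a) (s.biUnion S) := by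
      rw [Finset.disjoint_biUnion_right]
      intro j hj
      exact hS a (Finset.mem_insert_self _ _) j (Finset.mem_insert_of_mem hj)
        (fun h => ha (h ▸ hj))
    rw [← integral_mul_indep w hd (hf a (Finset.mem_insert_self _ _))
      (DepF.prod (S := s.biUnion S) fun i hi =>
        (hf i (Finset.mem_insert_of_mem hi)).mono (Finset.subset_biUnion_of_mem S hi))]
    refine integral_congr_ae (Filter.Eventually.of_forall fun z => ?_)
    exact Finset.prod_insert ha

/-! ### Hölder -/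

/-- Hölder's inequality for exponentials -/
theorem holder_exp (w : ι → I) {κ : Type*} (s : Finset κ) {S : Finset ι} (θ : κ → ℝ)
    (h0 : ∀ i ∈ s, 0 ≤ θ i) (h1 : ∑ i ∈ s, θ i = 1) (X : κ → (ι → Bool) → ℝ)
    (hX : ∀ i ∈ s, DepF S (X i)) :
    ∫ z, Real.exp (∑ i ∈ s, θ i * X i z) ∂(PB w) ≤
      ∏ i ∈ s, (∫ z, Real.exp (X i z) ∂(PB w)) ^ θ i := by
  have hi : ∀ i ∈ s, Integrable (fun z => Real.exp (X i z)) (PB w) := fun i hi =>
    ((hX i hi).comp Real.exp).integrable w
  have hL : Integrable (fun z => Real.exp (∑ i ∈ s, θ i * X i z)) (PB w) :=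
    ((DepF.sum fun i hi => (hX i hi).smul (θ i)).comp Real.exp).integrable w
  have key := ENNReal.lintegral_prod_norm_pow_le (μ := PB w) s
    (f := fun i z => ENNReal.ofReal (Real.exp (X i z)))
    (fun i hi' => (hi i hi').aestronglyMeasurable.aemeasurable.ennreal_ofReal) h1 h0
  have e1 : ∀ z, ∏ i ∈ s, ENNReal.ofReal (Real.exp (X i z)) ^ θ i =
      ENNReal.ofReal (Real.exp (∑ i ∈ s, θ i * X i z)) := by
    intro z
    rw [Real.exp_sum, ENNReal.ofReal_prod_of_nonneg fun i _ => (Real.exp_pos _).le]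
    refine Finset.prod_congr rfl fun i hi' => ?_
    rw [ENNReal.ofReal_rpow_of_pos (Real.exp_pos _), ← Real.exp_mul, mul_comm]
  simp only [e1] at key
  have e2 : ∀ i ∈ s, (∫⁻ z, ENNReal.ofReal (Real.exp (X i z)) ∂(PB w)) ^ θ i =
      ENNReal.ofReal ((∫ z, Real.exp (X i z) ∂(PB w)) ^ θ i) := by
    intro i hi'
    rw [← ofReal_integral_eq_lintegral_ofReal (hi i hi')
      (Filter.Eventually.of_forall fun z => (Real.exp_pos _).le)]
    rw [ENNReal.ofReal_rpow_of_nonneg (integral_nonneg fun z => (Real.exp_pos _).le) (h0 i hi')]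
  rw [Finset.prod_congr rfl e2, ← ENNReal.ofReal_prod_of_nonneg (fun i _ =>
    Real.rpow_nonneg (integral_nonneg fun z => (Real.exp_pos _).le) _),
    ← ofReal_integral_eq_lintegral_ofReal hL
      (Filter.Eventually.of_forall fun z => (Real.exp_pos _).le)] at key
  exact (ENNReal.ofReal_le_ofReal_iff (Finset.prod_nonneg fun i _ =>
    Real.rpow_nonneg (integral_nonneg fun z => (Real.exp_pos _).le) _)).1 key

/-- Hölder's inequality for exponentials, total weight at most one -/
theorem holder_exp' (w : ι → I) {κ : Type*} (s : Finset κ) {S : Finset ι} (θ : κ → ℝ)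
    (h0 : ∀ i ∈ s, 0 ≤ θ i) (h1 : ∑ i ∈ s, θ i ≤ 1) (X : κ → (ι → Bool) → ℝ)
    (hX : ∀ i ∈ s, DepF S (X i)) :
    ∫ z, Real.exp (∑ i ∈ s, θ i * X i z) ∂(PB w) ≤
      ∏ i ∈ s, (∫ z, Real.exp (X i z) ∂(PB w)) ^ θ i := by
  have h := holder_exp w (Finset.insertNone s) (S := S)
    (fun o : Option κ => o.elim (1 - ∑ i ∈ s, θ i) θ)
    (fun o ho => by
      cases o with
      | none => simp only [Option.elim]; linarith
      | some i => exact h0 i (by simpa using ho))
    (by rw [Finset.sum_insertNone]; simp)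
    (fun o : Option κ => o.elim (fun _ => 0) X)
    (fun o ho => by
      cases o with
      | none => exact DepF.const S 0
      | some i => exact hX i (by simpa using ho))
  simp only [Finset.sum_insertNone, Finset.prod_insertNone, Option.elim] at h
  simpa using h

theorem exp_le_quad (x : ℝ) : Real.exp x ≤ 1 + x + x ^ 2 * Real.exp |x| := by
  have h1 : Real.exp x * (1 - x) ≤ 1 := by
    have h2 : 1 - x ≤ Real.exp (-x) := by
      have := Real.add_one_le_exp (-x); linarith
    calc Real.exp x * (1 - x) ≤ Real.exp x * Real.exp (-x) :=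
          mul_le_mul_of_nonneg_left h2 (Real.exp_pos x).le
      _ = 1 := by rw [← Real.exp_add]; simp
  have h2 : x * (Real.exp x - 1) ≤ x ^ 2 * Real.exp |x| := by
    rcases le_total 0 x with hx | hx
    · rw [abs_of_nonneg hx]
      nlinarith [mul_le_mul_of_nonneg_left h1 hx]
    · have h3 := Real.add_one_le_exp x
      have h4 : 1 ≤ Real.exp |x| := Real.one_le_exp (abs_nonneg x)
      nlinarith [mul_nonneg (neg_nonneg.2 hx) (by linarith : 0 ≤ Real.exp x - 1 - x),
        mul_nonneg (sq_nonneg x) (by linarith : 0 ≤ Real.exp |x| - 1)]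
  nlinarith

theorem sq_le_exp (x : ℝ) : x ^ 2 ≤ 2 * Real.exp |x| := by
  have h := Real.quadratic_le_exp_of_nonneg (abs_nonneg x)
  have h1 := abs_nonneg x
  rw [← sq_abs x]
  linarith

/-- a centred variable with an exponential moment -/
theorem exp_one (w : ι → I) {S : Finset ι} {X : (ι → Bool) → ℝ} (hX : DepF S X)
    (h0 : ∫ z, X z ∂(PB w) = 0) {B : ℝ} (hB : ∫ z, Real.exp (2 * |X z|) ∂(PB w) ≤ B)
    {u : ℝ} (hu : |u| ≤ 1) :
    ∫ z, Real.exp (u * X z) ∂(PB w) ≤ Real.exp (2 * B * u ^ 2) := by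
  have hi : Integrable (fun z => Real.exp (u * X z)) (PB w) :=
    (hX.comp fun x => Real.exp (u * x)).integrable w
  have hi1 : Integrable X (PB w) := hX.integrable w
  have hi2 : Integrable (fun z => Real.exp (2 * |X z|)) (PB w) :=
    (hX.comp fun x => Real.exp (2 * |x|)).integrable w
  have hp : ∀ z, Real.exp (u * X z) ≤ 1 + u * X z + 2 * u ^ 2 * Real.exp (2 * |X z|) := by
    intro z
    have h1 := exp_le_quad (u * X z)
    have h2 : |u * X z| ≤ |X z| := by
      rw [abs_mul]
      exact mul_le_of_le_one_left (abs_nonneg _) hu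
    have h3 : Real.exp |u * X z| ≤ Real.exp |X z| := Real.exp_le_exp.2 h2
    have h4 := sq_le_exp (X z)
    have h5 : Real.exp (2 * |X z|) = Real.exp |X z| * Real.exp |X z| := by
      rw [← Real.exp_add]; ring_nf
    have h6 : (u * X z) ^ 2 * Real.exp |u * X z| ≤ 2 * u ^ 2 * Real.exp (2 * |X z|) := by
      rw [h5, mul_pow]
      calc u ^ 2 * X z ^ 2 * Real.exp |u * X z| ≤ u ^ 2 * (2 * Real.exp |X z|) * Real.exp |X z| :=
            mul_le_mul (mul_le_mul_of_nonneg_left h4 (sq_nonneg u)) h3 (Real.exp_pos _).le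
              (by positivity)
        _ = 2 * u ^ 2 * (Real.exp |X z| * Real.exp |X z|) := by ring
    linarith
  calc ∫ z, Real.exp (u * X z) ∂(PB w)
      ≤ ∫ z, (1 + u * X z + 2 * u ^ 2 * Real.exp (2 * |X z|)) ∂(PB w) :=
        integral_mono hi (((integrable_const 1).add (hi1.const_mul u)).add
          (hi2.const_mul (2 * u ^ 2))) hp
    _ = 1 + 2 * u ^ 2 * ∫ z, Real.exp (2 * |X z|) ∂(PB w) := by
        have hs : Integrable (fun z => 1 + u * X z) (PB w) :=
          (integrable_const 1).add (hi1.const_mul u)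
        rw [integral_add hs (hi2.const_mul (2 * u ^ 2)),
          integral_add (integrable_const 1) (hi1.const_mul u),
          integral_const_mul, integral_const_mul, h0]
        simp
    _ ≤ 1 + 2 * B * u ^ 2 := by nlinarith [sq_nonneg u]
    _ ≤ Real.exp (2 * B * u ^ 2) := by
        have := Real.add_one_le_exp (2 * B * u ^ 2); linarith

/-- centred variables of finite range: same colour ⟹ disjoint supports -/
theorem color_exp (w : ι → I) {κ : Type*} (V : Finset κ) (S : κ → Finset ι) {N : ℕ} (hN : 0 < N)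
    (col : κ → Fin N) (hS : ∀ i ∈ V, ∀ j ∈ V, i ≠ j → col i = col j → Disjoint (S i) (S j))
    (X : κ → (ι → Bool) → ℝ) (hX : ∀ i ∈ V, DepF (S i) (X i))
    (h0 : ∀ i ∈ V, ∫ z, X i z ∂(PB w) = 0) {B : ℝ}
    (hB : ∀ i ∈ V, ∫ z, Real.exp (2 * |X i z|) ∂(PB w) ≤ B)
    (u : κ → ℝ) (hu : ∀ i ∈ V, N * |u i| ≤ 1) :
    ∫ z, Real.exp (∑ i ∈ V, u i * X i z) ∂(PB w) ≤ Real.exp (2 * N * B * ∑ i ∈ V, u i ^ 2) := by
  classical
  have hN' : (0 : ℝ) < N := by exact_mod_cast hN
  set T : Finset ι := V.biUnion S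
  have hT : ∀ i ∈ V, DepF T (X i) := fun i hi => (hX i hi).mono (Finset.subset_biUnion_of_mem S hi)
  have e1 : ∀ z, ∑ i ∈ V, u i * X i z = ∑ c : Fin N, (1 / (N : ℝ)) *
      ∑ i ∈ V with col i = c, (N * u i) * X i z := by
    intro z
    rw [← Finset.sum_fiberwise V col fun i => u i * X i z]
    refine Finset.sum_congr rfl fun c _ => ?_
    rw [Finset.mul_sum]
    refine Finset.sum_congr rfl fun i _ => ?_
    field_simp
  simp only [e1]
  have h1 := holder_exp w (Finset.univ : Finset (Fin N)) (S := T) (fun _ => 1 / (N : ℝ))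
    (fun _ _ => by positivity) (by simp [hN'.ne'])
    (fun c z => ∑ i ∈ V with col i = c, (N * u i) * X i z)
    (fun c _ => DepF.sum fun i hi => (hT i (Finset.mem_filter.1 hi).1).smul _)
  refine h1.trans ?_
  have h2 : ∀ c : Fin N, ∫ z, Real.exp (∑ i ∈ V with col i = c, (N * u i) * X i z) ∂(PB w) ≤
      Real.exp (2 * N ^ 2 * B * ∑ i ∈ V with col i = c, u i ^ 2) := by
    intro c
    have h3 : ∀ z, Real.exp (∑ i ∈ V with col i = c, (N * u i) * X i z) =
        ∏ i ∈ V with col i = c, Real.exp ((N * u i) * X i z) := fun z => Real.exp_sum _ _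
    simp only [h3]
    rw [integral_prod_indep w (V.filter fun i => col i = c) S (fun i hi j hj hij => by
      rw [Finset.mem_filter] at hi hj
      exact hS i hi.1 j hj.1 hij (hi.2.trans hj.2.symm))
      (fun i z => Real.exp ((N * u i) * X i z))
      (fun i hi => (hX i (Finset.mem_filter.1 hi).1).comp fun x => Real.exp ((N * u i) * x))]
    rw [Finset.mul_sum, Real.exp_sum]
    refine Finset.prod_le_prod (fun i _ => integral_nonneg fun z => (Real.exp_pos _).le) ?_
    intro i hi
    have hi' := (Finset.mem_filter.1 hi).1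
    have h4 := exp_one w (hX i hi') (h0 i hi') (hB i hi') (u := N * u i)
      (by rw [abs_mul, Nat.abs_cast]; exact hu i hi')
    refine h4.trans (le_of_eq ?_)
    congr 1
    ring
  calc ∏ c : Fin N, (∫ z, Real.exp (∑ i ∈ V with col i = c, (N * u i) * X i z) ∂(PB w)) ^
        (1 / (N : ℝ))
      ≤ ∏ c : Fin N, Real.exp (2 * N * B * ∑ i ∈ V with col i = c, u i ^ 2) := by
        refine Finset.prod_le_prod (fun c _ => Real.rpow_nonneg
          (integral_nonneg fun z => (Real.exp_pos _).le) _) fun c _ => ?_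
        refine (Real.rpow_le_rpow (integral_nonneg fun z => (Real.exp_pos _).le) (h2 c)
          (by positivity)).trans (le_of_eq ?_)
        rw [← Real.exp_mul]
        congr 1
        field_simp
    _ = Real.exp (2 * N * B * ∑ i ∈ V, u i ^ 2) := by
        rw [← Real.exp_sum, ← Finset.mul_sum, Finset.sum_fiberwise]

/-! ### the multi-scale concentration lemma -/

/-- the final bound -/
def GG (M : ℝ → ℝ) (c C t : ℝ) : ℝ :=
  Real.exp (8 * (c * C) * (Real.exp (2 * M 1) * M 2) * t ^ 2) +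
    Real.exp (4 * (c * C) * t ^ 2 * M 1) * M (4 * (c * C) * t ^ 2)

section scale

variable {κ : Type*} {w : ι → I} {V : Finset κ} {ρ : κ → ℝ} {M : ℝ → ℝ}

/-- Jensen for a convex combination -/
theorem jensen_exp (h0 : ∀ v ∈ V, 0 ≤ ρ v) (h1 : ∑ v ∈ V, ρ v = 1) {S : Finset ι}
    {Z : κ → (ι → Bool) → ℝ} (hZ : ∀ v ∈ V, DepF S (Z v)) {G : ℝ}
    (hG : ∀ v ∈ V, ∫ z, Real.exp (Z v z) ∂(PB w) ≤ G) :
    ∫ z, Real.exp (∑ v ∈ V, ρ v * Z v z) ∂(PB w) ≤ G := by
  have hi : ∀ v ∈ V, Integrable (fun z => ρ v * Real.exp (Z v z)) (PB w) := fun v hv =>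
    (((hZ v hv).comp Real.exp).integrable w).const_mul _
  calc ∫ z, Real.exp (∑ v ∈ V, ρ v * Z v z) ∂(PB w)
      ≤ ∫ z, ∑ v ∈ V, ρ v * Real.exp (Z v z) ∂(PB w) := by
        refine integral_mono (((DepF.sum fun v hv => (hZ v hv).smul (ρ v)).comp
          Real.exp).integrable w) (integrable_finsetSum _ hi) fun z => ?_
        have := convexOn_exp.map_sum_le (t := V) (w := ρ) (p := fun v => Z v z) h0 h1
          (fun _ _ => Set.mem_univ _)
        simpa [smul_eq_mul] using this
    _ = ∑ v ∈ V, ρ v * ∫ z, Real.exp (Z v z) ∂(PB w) := by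
        rw [integral_finsetSum _ hi]
        exact Finset.sum_congr rfl fun v _ => integral_const_mul _ _
    _ ≤ ∑ v ∈ V, ρ v * G := Finset.sum_le_sum fun v hv =>
        mul_le_mul_of_nonneg_left (hG v hv) (h0 v hv)
    _ = G := by rw [← Finset.sum_mul, h1, one_mul]

/-- one scale: `D = 2 ^ (K - k)`, `N` colours, `N * ρ v ≤ c * C / D ^ 2` -/
theorem one_scale (h0 : ∀ v ∈ V, 0 ≤ ρ v) (h1 : ∑ v ∈ V, ρ v = 1)
    {S : κ → Finset ι} {N : ℕ} (hN : 0 < N) (col : κ → Fin N)
    (hS : ∀ i ∈ V, ∀ j ∈ V, i ≠ j → col i = col j → Disjoint (S i) (S j))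
    {Z : κ → (ι → Bool) → ℝ} (hZ : ∀ v ∈ V, DepF (S v) (Z v))
    (hM : ∀ s : ℝ, 0 ≤ s → ∀ v ∈ V, ∫ z, Real.exp (s * |Z v z|) ∂(PB w) ≤ M s)
    {a D : ℝ} (ha : 0 ≤ a) (hD : 0 < D) (hρ : ∀ v ∈ V, N * ρ v ≤ a / D ^ 2) (t : ℝ) :
    ∫ z, Real.exp (∑ v ∈ V, ρ v * (2 * t * D * (Z v z - ∫ z', Z v z' ∂(PB w)))) ∂(PB w) ≤
      Real.exp (8 * a * (Real.exp (2 * M 1) * M 2) * t ^ 2) +
        Real.exp (4 * a * t ^ 2 * M 1) * M (4 * a * t ^ 2) := by
  classical
  set T : Finset ι := V.biUnion S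
  have hZT : ∀ v ∈ V, DepF T (Z v) := fun v hv => (hZ v hv).mono (Finset.subset_biUnion_of_mem S hv)
  set m : κ → ℝ := fun v => ∫ z', Z v z' ∂(PB w)
  have hm : ∀ v ∈ V, |m v| ≤ M 1 := by
    intro v hv
    calc |m v| ≤ ∫ z, |Z v z| ∂(PB w) := abs_integral_le_integral_abs
      _ ≤ ∫ z, Real.exp (1 * |Z v z|) ∂(PB w) := by
          refine integral_mono (((hZ v hv).comp abs).integrable w)
            (((hZ v hv).comp fun x => Real.exp (1 * |x|)).integrable w) fun z => ?_
          have := Real.add_one_le_exp (1 * |Z v z|)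
          show |Z v z| ≤ Real.exp (1 * |Z v z|)
          linarith
      _ ≤ M 1 := hM 1 (by norm_num) v hv
  have hc : ∀ s : ℝ, 0 ≤ s → ∀ v ∈ V, ∫ z, Real.exp (s * |Z v z - m v|) ∂(PB w) ≤
      Real.exp (s * M 1) * M s := by
    intro s hs v hv
    calc ∫ z, Real.exp (s * |Z v z - m v|) ∂(PB w)
        ≤ ∫ z, Real.exp (s * M 1) * Real.exp (s * |Z v z|) ∂(PB w) := by
          refine integral_mono (((hZ v hv).comp fun x => Real.exp (s * |x - m v|)).integrable w)
            ((((hZ v hv).comp fun x => Real.exp (s * |x|)).integrable w).const_mul _) fun z => ?_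
          show Real.exp (s * |Z v z - m v|) ≤ Real.exp (s * M 1) * Real.exp (s * |Z v z|)
          rw [← Real.exp_add, Real.exp_le_exp]
          have h2 : |Z v z - m v| ≤ |Z v z| + |m v| := abs_sub _ _
          nlinarith [hm v hv]
      _ ≤ Real.exp (s * M 1) * M s := by
          rw [integral_const_mul]
          exact mul_le_mul_of_nonneg_left (hM s hs v hv) (Real.exp_pos _).le
  have hMs : ∀ s : ℝ, 0 ≤ s → (∃ v, v ∈ V) → 0 ≤ M s := by
    rintro s hs ⟨v, hv⟩
    exact (integral_nonneg fun z => (Real.exp_pos _).le).trans (hM s hs v hv)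
  have hne : ∃ v, v ∈ V := by
    by_contra h
    push Not at h
    rw [Finset.eq_empty_of_forall_notMem h] at h1
    simp at h1
  have hD2 : 0 < D ^ 2 := by positivity
  rcases le_or_gt (2 * a * |t|) D with hcase | hcase
  · -- many blocks: colour classes
    refine le_add_of_le_of_nonneg ?_ (mul_nonneg (Real.exp_pos _).le
      (hMs _ (by positivity) hne))
    have h3 := color_exp w V S hN col hS (fun v z => Z v z - m v)
      (fun v hv => (hZ v hv).comp fun x => x - m v)
      (fun v hv => by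
        rw [integral_sub ((hZ v hv).integrable w) (integrable_const _)]
        simp [m])
      (B := Real.exp (2 * M 1) * M 2) (fun v hv => hc 2 (by norm_num) v hv)
      (fun v => ρ v * (2 * t * D))
      (fun v hv => by
        have hr := hρ v hv
        have hr0 := h0 v hv
        rw [abs_mul, abs_of_nonneg hr0, abs_mul, abs_mul, abs_of_pos hD, abs_two]
        calc (N : ℝ) * (ρ v * (2 * |t| * D)) = (N * ρ v) * (2 * |t| * D) := by ring
          _ ≤ a / D ^ 2 * (2 * |t| * D) := mul_le_mul_of_nonneg_right hr (by positivity)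
          _ = (2 * a * |t|) / D := by field_simp
          _ ≤ 1 := by rw [div_le_one hD]; exact hcase)
    have e1 : ∀ z, ∑ v ∈ V, ρ v * (2 * t * D * (Z v z - m v)) =
        ∑ v ∈ V, ρ v * (2 * t * D) * (Z v z - m v) := fun z =>
      Finset.sum_congr rfl fun v _ => by ring
    show ∫ z, Real.exp (∑ v ∈ V, ρ v * (2 * t * D * (Z v z - m v))) ∂(PB w) ≤ _
    simp only [e1]
    refine h3.trans (Real.exp_le_exp.2 ?_)
    have hB0 : 0 ≤ Real.exp (2 * M 1) * M 2 := mul_nonneg (Real.exp_pos _).le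
      (hMs _ (by norm_num) hne)
    have h4 : (N : ℝ) * ∑ v ∈ V, (ρ v * (2 * t * D)) ^ 2 ≤ 4 * a * t ^ 2 := by
      rw [Finset.mul_sum]
      calc ∑ v ∈ V, (N : ℝ) * (ρ v * (2 * t * D)) ^ 2
          = ∑ v ∈ V, (N * ρ v) * (4 * t ^ 2 * D ^ 2) * ρ v :=
            Finset.sum_congr rfl fun v _ => by ring
        _ ≤ ∑ v ∈ V, (a / D ^ 2) * (4 * t ^ 2 * D ^ 2) * ρ v :=
            Finset.sum_le_sum fun v hv => mul_le_mul_of_nonneg_right
              (mul_le_mul_of_nonneg_right (hρ v hv) (by positivity)) (h0 v hv)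
        _ = 4 * a * t ^ 2 := by
            rw [← Finset.mul_sum, h1]
            field_simp
    calc 2 * (N : ℝ) * (Real.exp (2 * M 1) * M 2) * ∑ v ∈ V, (ρ v * (2 * t * D)) ^ 2
        = 2 * (Real.exp (2 * M 1) * M 2) * (N * ∑ v ∈ V, (ρ v * (2 * t * D)) ^ 2) := by ring
      _ ≤ 2 * (Real.exp (2 * M 1) * M 2) * (4 * a * t ^ 2) :=
          mul_le_mul_of_nonneg_left h4 (by positivity)
      _ = 8 * a * (Real.exp (2 * M 1) * M 2) * t ^ 2 := by ring
  · -- few blocks: Jensen
    refine le_add_of_nonneg_of_le (Real.exp_pos _).le ?_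
    have h5 : |2 * t * D| ≤ 4 * a * t ^ 2 := by
      rw [abs_mul, abs_mul, abs_of_pos hD, abs_two, ← sq_abs t]
      nlinarith [abs_nonneg t, mul_le_mul_of_nonneg_left hcase.le (abs_nonneg t)]
    have h6 : 0 ≤ 4 * a * t ^ 2 := by positivity
    refine jensen_exp h0 h1 (S := T) (fun v hv => (hZT v hv).comp fun x => 2 * t * D * (x - m v)) ?_
    intro v hv
    refine le_trans ?_ (hc _ h6 v hv)
    refine integral_mono (((hZ v hv).comp fun x => Real.exp (2 * t * D * (x - m v))).integrable w)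
      (((hZ v hv).comp fun x => Real.exp (4 * a * t ^ 2 * |x - m v|)).integrable w) fun z => ?_
    show Real.exp (2 * t * D * (Z v z - m v)) ≤ Real.exp (4 * a * t ^ 2 * |Z v z - m v|)
    rw [Real.exp_le_exp]
    calc 2 * t * D * (Z v z - m v) ≤ |2 * t * D * (Z v z - m v)| := le_abs_self _
      _ = |2 * t * D| * |Z v z - m v| := abs_mul _ _
      _ ≤ 4 * a * t ^ 2 * |Z v z - m v| := mul_le_mul_of_nonneg_right h5 (abs_nonneg _)

/-- **multi-scale concentration**: `Z k v` of range `2 ^ k` (`N k ≤ c 4 ^ k` colours), all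
exponential moments bounded by `M`, weights `ρ v ≤ C / 4 ^ K` of total mass one -/
theorem conc (h0 : ∀ v ∈ V, 0 ≤ ρ v) (h1 : ∑ v ∈ V, ρ v = 1) {K : ℕ} {c C : ℝ} (hc : 0 ≤ c)
    (hC : 0 ≤ C) (hρ : ∀ v ∈ V, ρ v ≤ C / 4 ^ K)
    {S : ℕ → κ → Finset ι} {N : ℕ → ℕ} (hN : ∀ k ≤ K, 0 < N k)
    (hNc : ∀ k ≤ K, (N k : ℝ) ≤ c * 4 ^ k) (col : ∀ k, κ → Fin (N k))
    (hS : ∀ k ≤ K, ∀ i ∈ V, ∀ j ∈ V, i ≠ j → col k i = col k j → Disjoint (S k i) (S k j))
    {Z : ℕ → κ → (ι → Bool) → ℝ} (hZ : ∀ k ≤ K, ∀ v ∈ V, DepF (S k v) (Z k v))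
    (hM : ∀ s : ℝ, 0 ≤ s → ∀ k ≤ K, ∀ v ∈ V, ∫ z, Real.exp (s * |Z k v z|) ∂(PB w) ≤ M s)
    (t : ℝ) :
    ∫ z, Real.exp (t * ∑ v ∈ V, ρ v * ∑ k ∈ Finset.range (K + 1),
      (Z k v z - ∫ z', Z k v z' ∂(PB w))) ∂(PB w) ≤ GG M c C t + 1 := by
  classical
  set T : Finset ι := (Finset.range (K + 1)).biUnion fun k => V.biUnion (S k)
  have hZT : ∀ k ∈ Finset.range (K + 1), ∀ v ∈ V, DepF T (Z k v) := fun k hk v hv =>
    (hZ k (Nat.lt_succ_iff.1 (Finset.mem_range.1 hk)) v hv).mono
      ((Finset.subset_biUnion_of_mem (S k) hv).trans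
        (Finset.subset_biUnion_of_mem (fun k => V.biUnion (S k)) hk))
  set m : ℕ → κ → ℝ := fun k v => ∫ z', Z k v z' ∂(PB w)
  set θ : ℕ → ℝ := fun k => 1 / (2 * 2 ^ (K - k))
  have hθ0 : ∀ k, 0 < θ k := fun k => by positivity
  have hθ : ∑ k ∈ Finset.range (K + 1), θ k ≤ 1 := by
    have : ∑ k ∈ Finset.range (K + 1), θ k = 1 - 1 / 2 ^ (K + 1) := by
      rw [← Finset.sum_range_reflect]
      have : ∀ j ∈ Finset.range (K + 1), θ (K + 1 - 1 - j) = 1 / (2 * 2 ^ j) := by
        intro j hj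
        have hj' := Finset.mem_range.1 hj
        simp only [θ]
        congr 3
        omega
      rw [Finset.sum_congr rfl this]
      clear this
      induction K + 1 with
      | zero => simp
      | succ n ih => rw [Finset.sum_range_succ, ih]; field_simp; ring
    rw [this]
    have : (0 : ℝ) < 1 / 2 ^ (K + 1) := by positivity
    linarith
  have e1 : ∀ z, t * ∑ v ∈ V, ρ v * ∑ k ∈ Finset.range (K + 1), (Z k v z - m k v) =
      ∑ k ∈ Finset.range (K + 1), θ k *
        ∑ v ∈ V, ρ v * (2 * t * 2 ^ (K - k) * (Z k v z - m k v)) := by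
    intro z
    simp only [Finset.mul_sum]
    rw [Finset.sum_comm]
    refine Finset.sum_congr rfl fun k _ => Finset.sum_congr rfl fun v _ => ?_
    simp only [θ]
    field_simp
  show ∫ z, Real.exp (t * ∑ v ∈ V, ρ v * ∑ k ∈ Finset.range (K + 1), (Z k v z - m k v)) ∂(PB w) ≤ _
  simp only [e1]
  have h2 := holder_exp' w (Finset.range (K + 1)) (S := T) θ (fun k _ => (hθ0 k).le) hθ
    (fun k z => ∑ v ∈ V, ρ v * (2 * t * 2 ^ (K - k) * (Z k v z - m k v)))
    (fun k hk => DepF.sum fun v hv =>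
      (hZT k hk v hv).comp fun x => ρ v * (2 * t * 2 ^ (K - k) * (x - m k v)))
  refine h2.trans ?_
  have hne : ∃ v, v ∈ V := by
    by_contra h
    push Not at h
    rw [Finset.eq_empty_of_forall_notMem h] at h1
    simp at h1
  have hG0 : 0 ≤ GG M c C t := by
    obtain ⟨v, hv⟩ := hne
    have : 0 ≤ M (4 * (c * C) * t ^ 2) := (integral_nonneg fun z => (Real.exp_pos _).le).trans
      (hM _ (by positivity) 0 (Nat.zero_le _) v hv)
    unfold GG
    positivity
  have h3 : ∀ k ∈ Finset.range (K + 1),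
      (∫ z, Real.exp (∑ v ∈ V, ρ v * (2 * t * 2 ^ (K - k) * (Z k v z - m k v))) ∂(PB w)) ^ θ k ≤
        (GG M c C t + 1) ^ θ k := by
    intro k hk
    have hkK : k ≤ K := Nat.lt_succ_iff.1 (Finset.mem_range.1 hk)
    refine Real.rpow_le_rpow (integral_nonneg fun z => (Real.exp_pos _).le) ?_ (hθ0 k).le
    refine le_trans ?_ (le_add_of_nonneg_right zero_le_one)
    refine one_scale h0 h1 (hN k hkK) (col k) (hS k hkK) (hZ k hkK)
      (fun s hs v hv => hM s hs k hkK v hv) (mul_nonneg hc hC) (by positivity) ?_ t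
    intro v hv
    calc (N k : ℝ) * ρ v ≤ (c * 4 ^ k) * (C / 4 ^ K) :=
          mul_le_mul (hNc k hkK) (hρ v hv) (h0 v hv) (by positivity)
      _ = c * C / (2 ^ (K - k)) ^ 2 := by
          have : (4 : ℝ) ^ K = 4 ^ k * (2 ^ (K - k)) ^ 2 := by
            rw [← pow_mul, mul_comm (K - k) 2, pow_mul, show (2 : ℝ) ^ 2 = 4 by norm_num,
              ← pow_add, Nat.add_sub_cancel' hkK]
          rw [this]
          field_simp
  refine (Finset.prod_le_prod (fun k _ => Real.rpow_nonneg
    (integral_nonneg fun z => (Real.exp_pos _).le) _) h3).trans ?_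
  have h4 : (1 : ℝ) ≤ GG M c C t + 1 := by linarith
  rw [← Real.rpow_sum_of_pos (by linarith)]
  calc (GG M c C t + 1) ^ ∑ k ∈ Finset.range (K + 1), θ k
      ≤ (GG M c C t + 1) ^ (1 : ℝ) := Real.rpow_le_rpow_of_exponent_le h4 hθ
    _ = GG M c C t + 1 := Real.rpow_one _

end scale

end Crest.Agent.R158.Cn109
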