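import Crest.Agent.R158.Wf1_850
import Crest.Agent.R158.We1_297

/-!
# Row 158, BLOCK W (helper850), part 2: weights and deterministic product bounds

* `ff_abs_le : |ff x| ≤ exp (-√3 x + 12 x²)`, `ff_lower`
* `prod_le`, `prod_ge` : product of weights over a finite family of loops
-/

set_option autoImplicit false

noncomputable section

namespace Crest.Agent.R158.Wf850

open Real
open Crest.Agent.R158.We297 (ff kap)

theorem ff_eq (x : ℝ) : ff x = cos x - √3 * sin x := by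
  unfold ff We297.lam
  rw [cos_add, cos_pi_div_three, sin_pi_div_three]
  ring

theorem ff_zero : ff 0 = 1 := by rw [ff_eq]; simp

theorem abs_ff_le_two (x : ℝ) : |ff x| ≤ 2 := by
  unfold ff
  rw [abs_mul, abs_two]
  have := abs_cos_le_one (We297.lam + x)
  linarith

theorem sqrt3_bd : (1.73 : ℝ) ≤ √3 ∧ √3 ≤ 1.74 := by
  constructor
  · rw [show (1.73 : ℝ) = √(1.73 ^ 2) by rw [sqrt_sq (by norm_num)]]
    exact sqrt_le_sqrt (by norm_num)
  · rw [show (1.74 : ℝ) = √(1.74 ^ 2) by rw [sqrt_sq (by norm_num)]]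
    exact sqrt_le_sqrt (by norm_num)

theorem sin_ge_of_nonneg {x : ℝ} (h0 : 0 ≤ x) (h1 : x ≤ 1) : x - x ^ 3 / 4 ≤ sin x := by
  rcases h0.eq_or_lt with rfl | h0
  · simp
  · have := sin_gt_sub_cube h0
    nlinarith [pow_pos h0 3]

theorem ff_abs_le (x : ℝ) : |ff x| ≤ exp (-(√3 * x) + 12 * x ^ 2) := by
  obtain ⟨s1, s2⟩ := sqrt3_bd
  by_cases hx : |x| ≤ 1 / 3
  · have hx' := abs_le.1 hx
    have hsq : x ^ 2 ≤ 1 / 9 := by nlinarith
    have hcos1 : cos x ≤ 1 := cos_le_one x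
    have hcos2 : 1 - x ^ 2 / 2 ≤ cos x := one_sub_sq_div_two_le_cos
    have hup : ff x ≤ 1 + (-(√3 * x) + 12 * x ^ 2) := by
      rw [ff_eq]
      rcases le_total 0 x with h0 | h0
      · have h2 := sin_ge_of_nonneg h0 (by linarith)
        have h3 : √3 * (x - x ^ 3 / 4) ≤ √3 * sin x := mul_le_mul_of_nonneg_left h2 (by linarith)
        have h4 : √3 * (x ^ 3 / 4) ≤ x ^ 2 := by
          have h5 : x ^ 3 ≤ x ^ 2 * (1 / 3) := by nlinarith [sq_nonneg x]
          nlinarith [sq_nonneg x, pow_nonneg h0 3]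
        nlinarith [sq_nonneg x]
      · have h2 : x ≤ sin x := by
          have := sin_le (x := -x) (by linarith)
          rw [sin_neg] at this
          linarith
        have h3 : √3 * x ≤ √3 * sin x := mul_le_mul_of_nonneg_left h2 (by linarith)
        nlinarith [sq_nonneg x]
    have hpos : 0 ≤ ff x := by
      rw [ff_eq]
      have h3 : sin x ≤ 1 / 3 := by
        rcases le_total 0 x with h0 | h0
        · have := sin_le h0
          linarith
        · have := sin_nonpos_of_nonpos_of_neg_pi_le h0 (by linarith [pi_gt_three])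
          linarith
      nlinarith [sq_nonneg x]
    rw [abs_of_nonneg hpos]
    have := add_one_le_exp (-(√3 * x) + 12 * x ^ 2)
    linarith
  · push Not at hx
    refine (abs_ff_le_two x).trans ?_
    have h1 : (1 : ℝ) ≤ exp (1 - 7 / 10) := one_le_exp (by norm_num)
    have h2 : (7 / 10 : ℝ) ≤ -(√3 * x) + 12 * x ^ 2 := by
      have h3 : x ^ 2 = |x| ^ 2 := (sq_abs x).symm
      have h4 : √3 * x ≤ 1.74 * |x| := by
        calc √3 * x ≤ √3 * |x| := mul_le_mul_of_nonneg_left (le_abs_self x) (by linarith)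
          _ ≤ 1.74 * |x| := mul_le_mul_of_nonneg_right s2 (abs_nonneg x)
      rw [h3]
      nlinarith
    have h5 : (2 : ℝ) ≤ exp (7 / 10) := by
      have := log_two_lt_d9
      rw [← log_le_iff_le_exp (by norm_num)]
      linarith
    exact h5.trans (exp_le_exp.2 h2)

/-- lower bound of the weight away from its zeros -/
theorem ff_lower {lo hi : ℝ} (h1 : -(5 * π / 6) < lo) (h2 : hi < π / 6) :
    ∃ C : ℝ, 0 ≤ C ∧ ∀ x, lo ≤ x → x ≤ hi → exp (-(√3 * x) - C * x ^ 2) ≤ ff x := by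
  obtain ⟨s1, s2⟩ := sqrt3_bd
  have hpi := pi_pos
  have hpi2 := pi_le_four
  -- positivity on the interval
  obtain ⟨c, hc0, hc⟩ : ∃ c : ℝ, 0 < c ∧ ∀ x, lo ≤ x → x ≤ hi → c ≤ ff x := by
    by_cases hlh : lo ≤ hi
    · obtain ⟨x0, hx0, hmin⟩ := isCompact_Icc.exists_isMinOn (Set.nonempty_Icc.2 hlh)
        (f := ff) (by unfold ff; fun_prop)
      refine ⟨ff x0, ?_, fun x hx hx' => hmin ⟨hx, hx'⟩⟩
      unfold ff We297.lam
      have : 0 < cos (π / 3 + x0) := by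
        apply cos_pos_of_mem_Ioo
        constructor
        · linarith [hx0.1]
        · linarith [hx0.2]
      linarith
    · exact ⟨1, one_pos, fun x h h' => absurd (h.trans h') hlh⟩
  refine ⟨max 12 (144 * (12 + |log c|)), le_max_of_le_left (by norm_num), fun x hx hx' => ?_⟩
  set C := max 12 (144 * (12 + |log c|)) with hC
  have hC1 : 12 ≤ C := le_max_left _ _
  have hC2 : 144 * (12 + |log c|) ≤ C := le_max_right _ _
  by_cases hsm : |x| ≤ 1 / 12
  · have hx2 := abs_le.1 hsm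
    have hsq : x ^ 2 ≤ 1 / 144 := by nlinarith
    have hy : |-(√3 * x) - 12 * x ^ 2| ≤ 1 := by
      rw [abs_le]; constructor <;> nlinarith [sq_nonneg x]
    have e1 : exp (-(√3 * x) - C * x ^ 2) ≤ exp (-(√3 * x) - 12 * x ^ 2) := by
      apply exp_le_exp.2
      nlinarith [sq_nonneg x]
    have e2 := (abs_le.1 (abs_exp_sub_one_sub_id_le hy)).2
    have e3 : (-(√3 * x) - 12 * x ^ 2) ^ 2 ≤ 8 * x ^ 2 := by
      have h3 : (√3 * x) ^ 2 ≤ 3.1 * x ^ 2 := by
        rw [mul_pow, sq_sqrt (by norm_num)]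
        nlinarith [sq_nonneg x]
      have h4 : (12 * x ^ 2) ^ 2 ≤ x ^ 2 := by
        nlinarith [sq_nonneg x]
      nlinarith [sq_nonneg ((√3 * x) - 12 * x ^ 2)]
    have e4 : 1 - √3 * x - x ^ 2 ≤ ff x := by
      rw [ff_eq]
      have hcos2 : 1 - x ^ 2 / 2 ≤ cos x := one_sub_sq_div_two_le_cos
      rcases le_total 0 x with h0 | h0
      · have h3 : √3 * sin x ≤ √3 * x := mul_le_mul_of_nonneg_left (sin_le h0) (by linarith)
        nlinarith [sq_nonneg x]
      · have h3 := sin_ge_of_nonneg (x := -x) (by linarith) (by linarith)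
        rw [sin_neg] at h3
        have h4 : sin x ≤ x - x ^ 3 / 4 := by nlinarith
        have h5 : √3 * sin x ≤ √3 * (x - x ^ 3 / 4) := mul_le_mul_of_nonneg_left h4 (by linarith)
        have h6 : -(√3 * (x ^ 3 / 4)) ≤ x ^ 2 / 2 := by
          have h7 : -(x ^ 3) ≤ x ^ 2 * (1 / 12) := by nlinarith [sq_nonneg x]
          have h8 : 0 ≤ -(x ^ 3) := by nlinarith [sq_nonneg x]
          nlinarith
        nlinarith
    nlinarith [sq_nonneg x]
  · push Not at hsm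
    refine le_trans ?_ (hc x hx hx')
    rw [← exp_log hc0]
    apply exp_le_exp.2
    have hx3 : |x| ≤ 4 := by
      rw [abs_le]; constructor <;> linarith
    have h3 : x ^ 2 = |x| ^ 2 := (sq_abs x).symm
    have h4 : -(√3 * x) ≤ 1.74 * |x| := by
      calc -(√3 * x) = √3 * (-x) := by ring
        _ ≤ √3 * |x| := mul_le_mul_of_nonneg_left (neg_le_abs x) (by linarith)
        _ ≤ 1.74 * |x| := mul_le_mul_of_nonneg_right s2 (abs_nonneg x)
    have h5 : (12 + |log c|) ≤ C * x ^ 2 := by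
      rw [h3]
      have h6 : (1 : ℝ) / 144 ≤ |x| ^ 2 := by nlinarith
      have h7 : 0 ≤ 12 + |log c| := by positivity
      nlinarith
    have h8 := neg_abs_le (log c)
    linarith

/-! ### products of weights -/

section prod

variable {α : Type*} {ι : Type*}

open Finset

theorem mass_bounds [DecidableEq α] {I : Finset ι} {R T : Finset α} {c : ι → ℝ} {u : ι → α → ℝ}
    {Sm : ι → Finset α} (h0 : ∀ i ∈ I, ∀ A, 0 ≤ u i A) (h1 : ∀ i ∈ I, ∀ A, u i A ≤ 1)
    (hS : ∀ i ∈ I, Sm i ⊆ R) (hT : ∀ i ∈ I, ∀ A ∈ R, A ∉ Sm i → u i A ≠ 0 → A ∈ T) :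
    |∑ A ∈ R, ∑ i ∈ I, c i * u i A - ∑ i ∈ I, c i * ∑ A ∈ Sm i, u i A| ≤
        (∑ i ∈ I, |c i|) * T.card ∧
      ∑ A ∈ R, (∑ i ∈ I, c i * u i A) ^ 2 ≤
        (∑ i ∈ I, |c i|) ^ 2 * (T.card + ∑ i ∈ I, ∑ A ∈ Sm i, u i A ^ 2) := by
  have hrest : ∀ i ∈ I, ∀ k : ℕ, 1 ≤ k → 0 ≤ ∑ A ∈ R \ Sm i, u i A ^ k ∧
      ∑ A ∈ R \ Sm i, u i A ^ k ≤ T.card := by
    intro i hi k hk
    refine ⟨sum_nonneg fun A _ => pow_nonneg (h0 i hi A) k, ?_⟩
    calc ∑ A ∈ R \ Sm i, u i A ^ k ≤ ∑ A ∈ T, (1 : ℝ) := by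
          calc ∑ A ∈ R \ Sm i, u i A ^ k
              = ∑ A ∈ (R \ Sm i).filter (fun A => u i A ≠ 0), u i A ^ k := by
                symm
                apply sum_filter_of_ne
                intro A _ hne h
                apply hne
                rw [h, zero_pow (by omega)]
            _ ≤ ∑ A ∈ (R \ Sm i).filter (fun A => u i A ≠ 0), (1 : ℝ) :=
                sum_le_sum fun A _ => pow_le_one₀ (h0 i hi A) (h1 i hi A)
            _ ≤ ∑ A ∈ T, (1 : ℝ) := by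
                apply sum_le_sum_of_subset_of_nonneg
                · intro A hA
                  rw [mem_filter, mem_sdiff] at hA
                  exact hT i hi A hA.1.1 hA.1.2 hA.2
                · intro _ _ _; exact zero_le_one
      _ = T.card := by simp
  have hsplit : ∀ i ∈ I, ∀ k : ℕ, ∑ A ∈ R, u i A ^ k
      = ∑ A ∈ Sm i, u i A ^ k + ∑ A ∈ R \ Sm i, u i A ^ k := by
    intro i hi k
    rw [add_comm, sum_sdiff (hS i hi)]
  constructor
  · have e1 : ∑ A ∈ R, ∑ i ∈ I, c i * u i A - ∑ i ∈ I, c i * ∑ A ∈ Sm i, u i A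
        = ∑ i ∈ I, c i * ∑ A ∈ R \ Sm i, u i A := by
      rw [sum_comm, ← sum_sub_distrib]
      refine sum_congr rfl fun i hi => ?_
      rw [← mul_sum]
      have := hsplit i hi 1
      simp only [pow_one] at this
      rw [this]
      ring
    rw [e1]
    refine (abs_sum_le_sum_abs _ _).trans ?_
    rw [sum_mul]
    refine sum_le_sum fun i hi => ?_
    have h2 := hrest i hi 1 le_rfl
    simp only [pow_one] at h2
    rw [abs_mul, abs_of_nonneg h2.1]
    exact mul_le_mul_of_nonneg_left h2.2 (abs_nonneg _)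
  · have e1 : ∀ A, (∑ i ∈ I, c i * u i A) ^ 2 ≤
        (∑ i ∈ I, |c i|) * ∑ i ∈ I, |c i| * u i A ^ 2 := by
      intro A
      have h3 := sum_mul_sq_le_sq_mul_sq I (fun i => √|c i|)
        (fun i => (SignType.sign (c i) : ℝ) * (√|c i| * u i A))
      have e2 : ∑ i ∈ I, √|c i| * ((SignType.sign (c i) : ℝ) * (√|c i| * u i A))
          = ∑ i ∈ I, c i * u i A := by
        refine sum_congr rfl fun i _ => ?_
        have h4 : √|c i| * √|c i| = |c i| := mul_self_sqrt (abs_nonneg _)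
        have h5 : (SignType.sign (c i) : ℝ) * |c i| = c i := sign_mul_abs (c i)
        calc √|c i| * ((SignType.sign (c i) : ℝ) * (√|c i| * u i A))
            = (SignType.sign (c i) : ℝ) * (√|c i| * √|c i|) * u i A := by ring
          _ = c i * u i A := by rw [h4, h5]
      have e3 : ∑ i ∈ I, √|c i| ^ 2 = ∑ i ∈ I, |c i| :=
        sum_congr rfl fun i _ => sq_sqrt (abs_nonneg _)
      have e4 : ∑ i ∈ I, ((SignType.sign (c i) : ℝ) * (√|c i| * u i A)) ^ 2 ≤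
          ∑ i ∈ I, |c i| * u i A ^ 2 := by
        refine sum_le_sum fun i _ => ?_
        rw [mul_pow, mul_pow, sq_sqrt (abs_nonneg _)]
        have h6 : (SignType.sign (c i) : ℝ) ^ 2 ≤ 1 := by
          rcases lt_trichotomy (c i) 0 with h | h | h
          · rw [sign_neg h]; simp
          · rw [h]; simp
          · rw [sign_pos h]; simp
        have h7 : 0 ≤ |c i| * u i A ^ 2 := by positivity
        nlinarith
      rw [e2, e3] at h3
      exact h3.trans (mul_le_mul_of_nonneg_left e4 (sum_nonneg fun i _ => abs_nonneg _))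
    calc ∑ A ∈ R, (∑ i ∈ I, c i * u i A) ^ 2
        ≤ ∑ A ∈ R, (∑ i ∈ I, |c i|) * ∑ i ∈ I, |c i| * u i A ^ 2 :=
          sum_le_sum fun A _ => e1 A
      _ = (∑ i ∈ I, |c i|) * ∑ i ∈ I, |c i| * ∑ A ∈ R, u i A ^ 2 := by
          rw [← mul_sum, sum_comm]
          congr 1
          refine sum_congr rfl fun i _ => ?_
          rw [mul_sum]
      _ ≤ (∑ i ∈ I, |c i|) * ∑ i ∈ I, |c i| * (T.card + ∑ i ∈ I, ∑ A ∈ Sm i, u i A ^ 2) := by
          refine mul_le_mul_of_nonneg_left ?_ (sum_nonneg fun i _ => abs_nonneg _)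
          refine sum_le_sum fun i hi => mul_le_mul_of_nonneg_left ?_ (abs_nonneg _)
          rw [hsplit i hi 2]
          have h2 := (hrest i hi 2 (by norm_num)).2
          have h3 : ∑ A ∈ Sm i, u i A ^ 2 ≤ ∑ i ∈ I, ∑ A ∈ Sm i, u i A ^ 2 :=
            single_le_sum (f := fun i => ∑ A ∈ Sm i, u i A ^ 2)
              (fun j _ => sum_nonneg fun A _ => sq_nonneg _) hi
          linarith
      _ = _ := by rw [← sum_mul]; ring

/-- **upper bound of a product of weights** -/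
theorem prod_le [DecidableEq α] {I : Finset ι} {R T : Finset α} {c : ι → ℝ} {u : ι → α → ℝ}
    {Sm : ι → Finset α} (h0 : ∀ i ∈ I, ∀ A, 0 ≤ u i A) (h1 : ∀ i ∈ I, ∀ A, u i A ≤ 1)
    (hS : ∀ i ∈ I, Sm i ⊆ R) (hT : ∀ i ∈ I, ∀ A ∈ R, A ∉ Sm i → u i A ≠ 0 → A ∈ T) :
    |∏ A ∈ R, ff (∑ i ∈ I, c i * u i A)| ≤
      exp (-(√3 * ∑ i ∈ I, c i * ∑ A ∈ Sm i, u i A) +
        (2 * (∑ i ∈ I, |c i|) + 12 * (∑ i ∈ I, |c i|) ^ 2) *
          (T.card + ∑ i ∈ I, ∑ A ∈ Sm i, u i A ^ 2)) := by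
  obtain ⟨k1, k2⟩ := mass_bounds (c := c) h0 h1 hS hT
  obtain ⟨s1, s2⟩ := sqrt3_bd
  set Ct := ∑ i ∈ I, |c i| with hCt
  have hCt0 : 0 ≤ Ct := sum_nonneg fun i _ => abs_nonneg _
  have hQ0 : 0 ≤ ∑ i ∈ I, ∑ A ∈ Sm i, u i A ^ 2 :=
    sum_nonneg fun i _ => sum_nonneg fun A _ => sq_nonneg _
  rw [abs_prod]
  calc ∏ A ∈ R, |ff (∑ i ∈ I, c i * u i A)|
      ≤ ∏ A ∈ R, exp (-(√3 * ∑ i ∈ I, c i * u i A) + 12 * (∑ i ∈ I, c i * u i A) ^ 2) :=
        prod_le_prod (fun _ _ => abs_nonneg _) fun A _ => ff_abs_le _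
    _ = exp (-(√3 * ∑ A ∈ R, ∑ i ∈ I, c i * u i A) +
          12 * ∑ A ∈ R, (∑ i ∈ I, c i * u i A) ^ 2) := by
        rw [← exp_sum, sum_add_distrib, sum_neg_distrib, ← mul_sum, ← mul_sum]
    _ ≤ _ := by
        apply exp_le_exp.2
        have k3 := (abs_le.1 k1).1
        have hT0 : (0 : ℝ) ≤ T.card := Nat.cast_nonneg _
        have k4 : √3 * (∑ i ∈ I, c i * ∑ A ∈ Sm i, u i A - Ct * T.card) ≤
            √3 * ∑ A ∈ R, ∑ i ∈ I, c i * u i A :=
          mul_le_mul_of_nonneg_left (by linarith) (by linarith)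
        have k5 : √3 * (Ct * T.card) ≤ 2 * (Ct * T.card) :=
          mul_le_mul_of_nonneg_right (by linarith) (by positivity)
        nlinarith [mul_nonneg hCt0 hQ0]

/-- **lower bound of a product of weights** -/
theorem prod_ge [DecidableEq α] {I : Finset ι} {R T : Finset α} {c : ι → ℝ} {u : ι → α → ℝ}
    {Sm : ι → Finset α} (h0 : ∀ i ∈ I, ∀ A, 0 ≤ u i A) (h1 : ∀ i ∈ I, ∀ A, u i A ≤ 1)
    (hS : ∀ i ∈ I, Sm i ⊆ R) (hT : ∀ i ∈ I, ∀ A ∈ R, A ∉ Sm i → u i A ≠ 0 → A ∈ T)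
    {C : ℝ} (hC : 0 ≤ C) (hlow : ∀ A ∈ R, exp (-(√3 * ∑ i ∈ I, c i * u i A) -
      C * (∑ i ∈ I, c i * u i A) ^ 2) ≤ ff (∑ i ∈ I, c i * u i A)) :
    exp (-(√3 * ∑ i ∈ I, c i * ∑ A ∈ Sm i, u i A) -
        (2 * (∑ i ∈ I, |c i|) + C * (∑ i ∈ I, |c i|) ^ 2) *
          (T.card + ∑ i ∈ I, ∑ A ∈ Sm i, u i A ^ 2)) ≤
      ∏ A ∈ R, ff (∑ i ∈ I, c i * u i A) := by
  obtain ⟨k1, k2⟩ := mass_bounds (c := c) h0 h1 hS hT
  obtain ⟨s1, s2⟩ := sqrt3_bd
  set Ct := ∑ i ∈ I, |c i| with hCt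
  have hCt0 : 0 ≤ Ct := sum_nonneg fun i _ => abs_nonneg _
  have hQ0 : 0 ≤ ∑ i ∈ I, ∑ A ∈ Sm i, u i A ^ 2 :=
    sum_nonneg fun i _ => sum_nonneg fun A _ => sq_nonneg _
  calc _ ≤ exp (-(√3 * ∑ A ∈ R, ∑ i ∈ I, c i * u i A) -
          C * ∑ A ∈ R, (∑ i ∈ I, c i * u i A) ^ 2) := by
        apply exp_le_exp.2
        have k3 := (abs_le.1 k1).2
        have hT0 : (0 : ℝ) ≤ T.card := Nat.cast_nonneg _
        have k4 : √3 * ∑ A ∈ R, ∑ i ∈ I, c i * u i A ≤
            √3 * (∑ i ∈ I, c i * ∑ A ∈ Sm i, u i A + Ct * T.card) :=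
          mul_le_mul_of_nonneg_left (by linarith) (by linarith)
        have k5 : √3 * (Ct * T.card) ≤ 2 * (Ct * T.card) :=
          mul_le_mul_of_nonneg_right (by linarith) (by positivity)
        have k6 : C * ∑ A ∈ R, (∑ i ∈ I, c i * u i A) ^ 2 ≤
            C * (Ct ^ 2 * (T.card + ∑ i ∈ I, ∑ A ∈ Sm i, u i A ^ 2)) :=
          mul_le_mul_of_nonneg_left k2 hC
        nlinarith [mul_nonneg hCt0 hQ0]
    _ = ∏ A ∈ R, exp (-(√3 * ∑ i ∈ I, c i * u i A) - C * (∑ i ∈ I, c i * u i A) ^ 2) := by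
        rw [← exp_sum, sum_sub_distrib, sum_neg_distrib, ← mul_sum, ← mul_sum]
    _ ≤ _ := prod_le_prod (fun _ _ => (exp_pos _).le) hlow

end prod

end Crest.Agent.R158.Wf850
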