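import Crest.Agent.R158.Bg1_612
import Crest.Agent.R158.Vx2_107
import Crest.Agent.R158.Wf2_850
import Crest.Agent.R158.Cn4_109

/-!
# Row 158, identity B (helper612), part 2: ring charges and the two-point sum

* `VR S` : ring of faces `64 S < |f| ≤ 1024 S`; `qm S A` : fraction of the ring inside `A`
* `chg g a b S1 S2` : charge `a` at `g`, `b` on each of two rings
* `W_chg`, `sum2` : the sum over the two faces of the corner `c0`
-/

set_option autoImplicit false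

noncomputable section

namespace Crest.Agent.R158.B612

open Real
open Crest.Agent.R161.Geo729 Crest.Agent.R161.Dual374
open Crest.Agent.R161.Tas682 (sd)
open Crest.Agent.R158.It200 Crest.Agent.R158.Wf850
open Crest.Agent.R158.Fr158 (bx mem_bx mem_bx_sd eIn mem_eIn)
open Crest.Agent.R158.Vx107 (Fw mass tot Ntr)
open Crest.Agent.R158.Cn109 (lsW smalls mem_smalls SS QQ)

/-- the corner at the origin -/
def c0 : Corner := ((0, 0), 0)
/-- its vertex -/
def v0 : Face := ((0, 0), false)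
/-- its face -/
def f0 : Face := ((0, 0), true)

theorem cv_c0 : cv c0 = v0 := rfl
theorem cf_c0 : cf c0 = f0 := by unfold cf c0; rw [fc_zero]; rfl
theorem s0_v0 : s0 v0 = 0 := by simp [s0, v0, sd]
theorem s0_f0 : s0 f0 = 0 := by simp [s0, f0, sd]
theorem s0_nonneg (f : Face) : 0 ≤ s0 f := sd_nonneg' _ _
theorem v0_ne_f0 : v0 ≠ f0 := by simp [v0, f0]

/-- the ring of faces at scale `S` -/
def VR (S : ℕ) : Finset Face := BF (0, 0) (1024 * S) \ BF (0, 0) (64 * S)

theorem mem_VR {S : ℕ} {f : Face} : f ∈ VR S ↔ An (64 * S) (1024 * S) f := by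
  unfold VR An
  rw [Finset.mem_sdiff, mem_BF, mem_BF, not_le]
  tauto

theorem card_VR (S : ℕ) : ((VR S).card : ℝ) = 2 * (2048 * S + 1) ^ 2 - 2 * (128 * S + 1) ^ 2 := by
  have h1 : BF (0, 0) (64 * S) ⊆ BF (0, 0) (1024 * S) := BF_mono (by omega)
  have h2 := Finset.card_sdiff_add_card_eq_card h1
  have h3 := card_BF (0, 0) (64 * S)
  have h4 := card_BF (0, 0) (1024 * S)
  push_cast at h3 h4
  rw [h3, h4] at h2
  have h5 : ((VR S).card : ℝ) + 2 * (2 * (64 * S) + 1) ^ 2 = 2 * (2 * (1024 * S) + 1) ^ 2 := by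
    unfold VR
    exact_mod_cast h2
  linarith

theorem card_VR_pos {S : ℕ} (hS : 1 ≤ S) : 8000000 * (S : ℝ) ^ 2 ≤ ((VR S).card : ℝ) := by
  rw [card_VR]
  have : (1 : ℝ) ≤ S := by exact_mod_cast hS
  nlinarith

/-- density of the ring -/
def uc (S : ℕ) : ℝ := ((VR S).card : ℝ)⁻¹

theorem uc_nonneg (S : ℕ) : 0 ≤ uc S := by unfold uc; positivity

theorem card_uc {S : ℕ} (hS : 1 ≤ S) : ((VR S).card : ℝ) * uc S = 1 := by
  unfold uc
  refine mul_inv_cancel₀ ?_
  have h := card_VR_pos hS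
  have : (1 : ℝ) ≤ S := by exact_mod_cast hS
  nlinarith

/-- fraction of the ring inside `A` -/
def qm (S : ℕ) (A : Finset Face) : ℝ := Cn109.mass (fun _ => uc S) (VR S) A

theorem qm_nonneg (S : ℕ) (A : Finset Face) : 0 ≤ qm S A :=
  Cn109.mass_nonneg (fun _ _ => uc_nonneg S) A

open Classical in
theorem qm_eq (S : ℕ) (A : Finset Face) : qm S A = ((VR S).filter (· ∈ A)).card * uc S := by
  unfold qm Cn109.mass
  rw [Finset.sum_const, nsmul_eq_mul]

theorem qm_le_one {S : ℕ} (hS : 1 ≤ S) (A : Finset Face) : qm S A ≤ 1 := by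
  classical
  rw [qm_eq, ← card_uc hS]
  refine mul_le_mul_of_nonneg_right ?_ (uc_nonneg S)
  exact_mod_cast Finset.card_filter_le _ _

theorem qm_zero {S : ℕ} {A : Finset Face} (h : ∀ f ∈ VR S, f ∉ A) : qm S A = 0 := by
  classical
  rw [qm_eq, Finset.filter_false_of_mem h]
  simp

theorem qm_one {S : ℕ} (hS : 1 ≤ S) {A : Finset Face} (h : ∀ f ∈ VR S, f ∈ A) : qm S A = 1 := by
  classical
  rw [qm_eq, Finset.filter_true_of_mem h, card_uc hS]

theorem exists_of_qm {S : ℕ} {A : Finset Face} (h : qm S A ≠ 0) : ∃ f ∈ VR S, f ∈ A := by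
  by_contra hcon
  push Not at hcon
  exact h (qm_zero hcon)

theorem qm_le_of_card {S : ℕ} {A : Finset Face} {n : ℕ} (hS : 1 ≤ S) {B : Finset Face}
    (h : ∀ f ∈ VR S, f ∈ A → f ∈ B) (hB : B.card ≤ n)
    (hn : (n : ℝ) ≤ 99 / 100 * ((VR S).card : ℝ)) : qm S A ≤ 99 / 100 := by
  classical
  have h1 : ((VR S).filter (· ∈ A)).card ≤ n := by
    refine (Finset.card_le_card fun f hf => ?_).trans hB
    rw [Finset.mem_filter] at hf
    exact h f hf.1 hf.2
  have h2 : (((VR S).filter (· ∈ A)).card : ℝ) ≤ n := by exact_mod_cast h1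
  rw [qm_eq]
  have h3 := uc_nonneg S
  have h4 := card_uc hS
  nlinarith

/-- a set missing the middle box carries less than the whole ring -/
theorem qm_le_of_miss {S : ℕ} (hS : 1 ≤ S) {A : Finset Face}
    (h : ∀ f ∈ A, ¬ s0 f < 128 * S) : qm S A ≤ 99 / 100 := by
  have hs : (1 : ℝ) ≤ S := by exact_mod_cast hS
  obtain ⟨m, hm⟩ : ∃ m : ℕ, m + 1 = 128 * S := ⟨128 * S - 1, by omega⟩
  have hmr : (m : ℝ) = 128 * S - 1 := by
    have : ((m + 1 : ℕ) : ℝ) = ((128 * S : ℕ) : ℝ) := by rw [hm]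
    push_cast at this
    linarith
  refine qm_le_of_card (n := (BF (0, 0) (1024 * S) \ BF (0, 0) m).card) hS
    (fun f hf hfA => ?_) le_rfl ?_
  · rw [mem_VR] at hf
    rw [Finset.mem_sdiff, mem_BF, mem_BF]
    have h1 := h f hfA
    have e : s0 f = sd (0, 0) f.1 := rfl
    exact ⟨hf.2, by omega⟩
  · have h1 : BF (0, 0) m ⊆ BF (0, 0) (1024 * S) := BF_mono (by omega)
    have h2 := Finset.card_sdiff_add_card_eq_card h1
    have h3 := card_BF (0, 0) m
    have h4 := card_BF (0, 0) (1024 * S)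
    push_cast at h3 h4
    rw [h3, h4] at h2
    have h5 : ((BF (0, 0) (1024 * S) \ BF (0, 0) m).card : ℝ) +
        2 * (2 * m + 1) ^ 2 = 2 * (2 * (1024 * S) + 1) ^ 2 := by
      exact_mod_cast h2
    rw [hmr] at h5
    rw [card_VR]
    nlinarith

/-- a set inside the middle box carries less than the whole ring -/
theorem qm_le_of_sub {S : ℕ} (hS : 1 ≤ S) {A : Finset Face}
    (h : A ⊆ BF (0, 0) (256 * S + 1)) : qm S A ≤ 99 / 100 := by
  have hs : (1 : ℝ) ≤ S := by exact_mod_cast hS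
  refine qm_le_of_card (n := (BF (0, 0) ((256 * S + 1 : ℕ) : ℤ)).card) hS
    (fun f hf hfA => by push_cast; exact h hfA) le_rfl ?_
  rw [card_BF, card_VR]
  push_cast
  nlinarith

/-! ### charges -/

open Classical in
/-- the uniform charge on the ring -/
def uV (S : ℕ) : Face →₀ ℝ :=
  Finsupp.onFinset (VR S) (fun f => if f ∈ VR S then uc S else 0) fun f hf => by
    by_contra h
    exact hf (if_neg h)

theorem mass_uV (S : ℕ) (A : Finset Face) : mass (uV S) A = qm S A := by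
  classical
  unfold mass qm Cn109.mass uV
  simp only [Finsupp.onFinset_apply]
  rw [← Finset.sum_filter]
  refine Finset.sum_congr ?_ fun _ _ => rfl
  ext f
  simp only [Finset.mem_filter]
  tauto

theorem tot_uV {S : ℕ} (hS : 1 ≤ S) : tot (uV S) = 1 := by
  classical
  unfold tot
  rw [Finsupp.sum_of_support_subset (uV S) (s := VR S) Finsupp.support_onFinset_subset _
    (fun _ _ => rfl)]
  have h1 : ∀ f ∈ VR S, uV S f = uc S := fun f hf => by
    unfold uV; rw [Finsupp.onFinset_apply, if_pos hf]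
  rw [Finset.sum_congr rfl h1, Finset.sum_const, nsmul_eq_mul, card_uc hS]

/-- charge `a` at `g`, `b` on each of the rings of scale `S1`, `S2` -/
def chg (g : Face) (a b : ℝ) (S1 S2 : ℕ) : Face →₀ ℝ :=
  Finsupp.single g a + (b • uV S1 + b • uV S2)

theorem chg_neg (g : Face) (a b : ℝ) (S1 S2 : ℕ) : -chg g a b S1 S2 = chg g (-a) (-b) S1 S2 := by
  unfold chg
  rw [neg_add, neg_add, Finsupp.single_neg, neg_smul, neg_smul]

open Classical in
theorem mass_single (g : Face) (a : ℝ) (A : Finset Face) :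
    mass (Finsupp.single g a) A = if g ∈ A then a else 0 := by
  unfold mass
  simp only [Finsupp.single_apply]
  rw [Finset.sum_ite_eq]

open Classical in
theorem mass_chg (g : Face) (a b : ℝ) (S1 S2 : ℕ) (A : Finset Face) :
    mass (chg g a b S1 S2) A = (if g ∈ A then a else 0) + b * (qm S1 A + qm S2 A) := by
  unfold chg
  rw [Vx107.mass_add, Vx107.mass_add, Vx107.mass_smul, Vx107.mass_smul, mass_single, mass_uV,
    mass_uV]
  ring

theorem ntr_chg {g : Face} {a b : ℝ} {S1 S2 : ℕ} (h1 : 1 ≤ S1) (h2 : 1 ≤ S2) (h : a + 2 * b = 0) :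
    Ntr (chg g a b S1 S2) := by
  unfold Ntr chg
  rw [Vx107.tot_add, Vx107.tot_add, Vx107.tot_smul, Vx107.tot_smul, tot_uV h1, tot_uV h2]
  unfold tot
  rw [Finsupp.sum_single_index rfl]
  linarith

theorem supp_chg {g : Face} {a b : ℝ} {S1 S2 : ℕ} (h12 : S1 ≤ S2)
    (hg : s0 g ≤ 1024 * S2) : (chg g a b S1 S2).support ⊆ BF (0, 0) (1024 * S2) := by
  classical
  intro f hf
  rw [Finsupp.mem_support_iff] at hf
  rw [mem_BF]
  by_contra hlt
  apply hf
  have h1 : g ≠ f := fun h => hlt (h ▸ hg)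
  have h2 : ∀ S : ℕ, S ≤ S2 → f ∉ VR S := by
    intro S hS h
    rw [mem_VR] at h
    have h3 := h.2
    have : sd (0, 0) f.1 ≤ 1024 * S2 := h3.trans (by exact_mod_cast Nat.mul_le_mul_left 1024 hS)
    exact hlt this
  unfold chg uV
  simp [Finsupp.single_apply, h1, h2 S1 h12, h2 S2 le_rfl]

/-- the loops that can see a charge in `BF 0 B` -/
def Zs (z : Cfz) (B : ℤ) : Finset (Finset Face) := (fin_split z (0, 0) B).toFinset

theorem mem_Zs {z : Cfz} {B : ℤ} {A : Finset Face} :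
    A ∈ Zs z B ↔ A ∈ Lps z ∧ Splits A (BF (0, 0) B) := by
  unfold Zs
  rw [Set.Finite.mem_toFinset]
  rfl

theorem W_eq {m : Face →₀ ℝ} (hm : Ntr m) {B : ℤ} (hB : m.support ⊆ BF (0, 0) B) (z : Cfz) :
    Vx107.W m z = ∏ A ∈ Zs z B, Fw (mass m A) := by
  unfold Vx107.W
  refine finprod_mem_eq_prod_of_inter_mulSupport_eq _ ?_
  ext A
  simp only [Set.mem_inter_iff, Finset.mem_coe, mem_Zs]
  constructor
  · rintro ⟨h1, h2⟩
    refine ⟨⟨h1, ?_⟩, h2⟩
    refine Vx107.splits_of_mass hm hB fun h => h2 ?_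
    show Fw (mass m A) = 1
    rw [h, Vx107.Fw_zero]
  · rintro ⟨⟨h1, -⟩, h2⟩
    exact ⟨h1, h2⟩

open Classical in
/-- the two-point sum -/
def WS (a b : ℝ) (S1 S2 : ℕ) (z : Cfz) : ℝ :=
  Vx107.W (chg v0 a b S1 S2) z + Vx107.W (chg f0 a b S1 S2) z

/-- ring mass in units of `b` -/
def tq (S1 S2 : ℕ) (A : Finset Face) : ℝ := qm S1 A + qm S2 A

open Classical in
/-- loops around the corner `c0` -/
def Zi (z : Cfz) (B : ℤ) : Finset (Finset Face) :=
  (Zs z B).filter fun A => ¬ sepC A c0 ∧ v0 ∈ A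

open Classical in
/-- loops not around the corner `c0` -/
def Zo (z : Cfz) (B : ℤ) : Finset (Finset Face) :=
  (Zs z B).filter fun A => ¬ sepC A c0 ∧ v0 ∉ A

theorem sepc0 {A : Finset Face} : sepC A c0 ↔ ¬ (v0 ∈ A ↔ f0 ∈ A) := by
  unfold sepC; rw [cv_c0, cf_c0]

theorem zs_of_sep {z : Cfz} {B : ℤ} (hB : 0 ≤ B) {A : Finset Face} (hA : A ∈ Lps z)
    (h : sepC A c0) : A ∈ Zs z B := by
  rw [sepc0] at h
  have hv : v0 ∈ BF (0, 0) B := by rw [mem_BF]; show s0 v0 ≤ B; rw [s0_v0]; exact hB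
  have hf : f0 ∈ BF (0, 0) B := by rw [mem_BF]; show s0 f0 ≤ B; rw [s0_f0]; exact hB
  rw [mem_Zs]
  refine ⟨hA, ?_⟩
  by_cases h1 : v0 ∈ A
  · exact ⟨⟨v0, hv, h1⟩, f0, hf, fun h2 => h ⟨fun _ => h2, fun _ => h1⟩⟩
  · have h2 : f0 ∈ A := by
      by_contra h2
      exact h ⟨fun h3 => absurd h3 h1, fun h3 => absurd h3 h2⟩
    exact ⟨⟨f0, hf, h2⟩, v0, hv, h1⟩

/-- factor of the loop through `c0` -/
def Xf (a t : ℝ) : ℝ := Fw (a + t) + Fw t

open Classical in
/-- **the two-point sum**: factorisation -/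
theorem WS_eq {a b : ℝ} {S1 S2 : ℕ} (h1 : 1 ≤ S1) (h12 : S1 ≤ S2) (h : a + 2 * b = 0) (z : Cfz) :
    ∃ X : ℝ, ((X = 2 ∧ ∀ A ∈ Lps z, ¬ sepC A c0) ∨
        ∃ L ∈ Lps z, sepC L c0 ∧ X = Xf a (b * tq S1 S2 L)) ∧
      WS a b S1 S2 z = X * (∏ A ∈ Zi z (1024 * S2), Fw (a + b * tq S1 S2 A)) *
        ∏ A ∈ Zo z (1024 * S2), Fw (b * tq S1 S2 A) := by
  set B : ℤ := 1024 * S2 with hB
  have hB0 : 0 ≤ B := by rw [hB]; positivity
  have hsup : ∀ g : Face, s0 g = 0 → (chg g a b S1 S2).support ⊆ BF (0, 0) B := fun g hg =>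
    supp_chg h12 (by rw [hg]; exact hB0)
  have e1 := W_eq (ntr_chg (g := v0) h1 (h1.trans h12) h) (hsup v0 s0_v0) z
  have e2 := W_eq (ntr_chg (g := f0) h1 (h1.trans h12) h) (hsup f0 s0_f0) z
  simp only [mass_chg] at e1 e2
  -- split the product
  have hsplit : ∀ g : Finset Face → ℝ, ∏ A ∈ Zs z B, g A =
      (∏ A ∈ (Zs z B).filter (fun A => sepC A c0), g A) *
        ((∏ A ∈ Zi z B, g A) * ∏ A ∈ Zo z B, g A) := by
    intro g
    rw [← Finset.prod_filter_mul_prod_filter_not (Zs z B) (fun A => sepC A c0)]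
    congr 1
    rw [← Finset.prod_filter_mul_prod_filter_not ((Zs z B).filter fun A => ¬ sepC A c0)
      (fun A => v0 ∈ A), Finset.filter_filter, Finset.filter_filter]
    rfl
  have hi : ∀ A ∈ Zi z B, v0 ∈ A ∧ f0 ∈ A := by
    intro A hA
    unfold Zi at hA
    rw [Finset.mem_filter, sepc0, not_not] at hA
    exact ⟨hA.2.2, hA.2.1.1 hA.2.2⟩
  have ho : ∀ A ∈ Zo z B, v0 ∉ A ∧ f0 ∉ A := by
    intro A hA
    unfold Zo at hA
    rw [Finset.mem_filter, sepc0, not_not] at hA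
    exact ⟨hA.2.2, fun h => hA.2.2 (hA.2.1.2 h)⟩
  have iv : ∏ A ∈ Zi z B, Fw ((if v0 ∈ A then a else 0) + b * (qm S1 A + qm S2 A)) =
      ∏ A ∈ Zi z B, Fw (a + b * tq S1 S2 A) :=
    Finset.prod_congr rfl fun A hA => by rw [if_pos (hi A hA).1]; rfl
  have jf : ∏ A ∈ Zi z B, Fw ((if f0 ∈ A then a else 0) + b * (qm S1 A + qm S2 A)) =
      ∏ A ∈ Zi z B, Fw (a + b * tq S1 S2 A) :=
    Finset.prod_congr rfl fun A hA => by rw [if_pos (hi A hA).2]; rfl
  have ov : ∏ A ∈ Zo z B, Fw ((if v0 ∈ A then a else 0) + b * (qm S1 A + qm S2 A)) =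
      ∏ A ∈ Zo z B, Fw (b * tq S1 S2 A) :=
    Finset.prod_congr rfl fun A hA => by rw [if_neg (ho A hA).1, zero_add]; rfl
  have pf : ∏ A ∈ Zo z B, Fw ((if f0 ∈ A then a else 0) + b * (qm S1 A + qm S2 A)) =
      ∏ A ∈ Zo z B, Fw (b * tq S1 S2 A) :=
    Finset.prod_congr rfl fun A hA => by rw [if_neg (ho A hA).2, zero_add]; rfl
  rw [hsplit, iv, ov] at e1
  rw [hsplit, jf, pf] at e2
  unfold WS
  rw [e1, e2]
  by_cases hL : ∃ L ∈ Lps z, sepC L c0
  · obtain ⟨L, hL, hLs⟩ := hL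
    have hf : (Zs z B).filter (fun A => sepC A c0) = {L} := by
      ext A
      rw [Finset.mem_filter, Finset.mem_singleton]
      constructor
      · rintro ⟨h3, h4⟩
        exact sep_uniq (mem_Zs.1 h3).1 hL h4 hLs
      · rintro rfl
        exact ⟨zs_of_sep hB0 hL hLs, hLs⟩
    rw [hf, Finset.prod_singleton, Finset.prod_singleton]
    refine ⟨Xf a (b * tq S1 S2 L), Or.inr ⟨L, hL, hLs, rfl⟩, ?_⟩
    rw [sepc0] at hLs
    unfold Xf
    by_cases h3 : v0 ∈ L
    · have h4 : f0 ∉ L := fun h4 => hLs ⟨fun _ => h4, fun _ => h3⟩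
      rw [if_pos h3, if_neg h4, zero_add]
      unfold tq
      ring
    · have h4 : f0 ∈ L := by
        by_contra h4
        exact hLs ⟨fun h5 => absurd h5 h3, fun h5 => absurd h5 h4⟩
      rw [if_neg h3, if_pos h4, zero_add]
      unfold tq
      ring
  · push Not at hL
    have hf : (Zs z B).filter (fun A => sepC A c0) = ∅ := by
      rw [Finset.filter_eq_empty_iff]
      intro A hA
      exact hL A (mem_Zs.1 hA).1
    rw [hf, Finset.prod_empty, Finset.prod_empty]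
    exact ⟨2, Or.inl ⟨rfl, hL⟩, by ring⟩

end Crest.Agent.R158.B612
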