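import Crest.Agent.R158.Bg2_612

/-!
# Row 158, identity B (helper612), part 3: pointwise bounds of the two-point sums

* `left_bound`  : charges `(π/3, -π/6, -π/6)`: two arms, exponential factor
* `right_nonneg`, `right_bad`, `right_good` : charges `(-π/3, π/6, π/6)`
-/

set_option autoImplicit false

noncomputable section

namespace Crest.Agent.R158.B612

open Real
open Crest.Agent.R161.Geo729 Crest.Agent.R161.Dual374
open Crest.Agent.R161.Tas682 (sd)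
open Crest.Agent.R161.Ifc372 (CircZ)
open Crest.Agent.R158.It200 Crest.Agent.R158.Wf850
open Crest.Agent.R158.Fr158 (bx mem_bx mem_bx_sd eIn mem_eIn)
open Crest.Agent.R158.Vx107 (Fw mass tot Ntr)
open Crest.Agent.R158.Cn109 (lsW smalls mem_smalls SS QQ)
open Crest.Agent.R158.Rs689 (dual circ_block circ_block' Rch dstep_dual)

/-! ### loops cut inside a ring -/

/-- loops cut inside the ring, not small -/
def RCs (S : ℕ) (z : Cfz) : Set (Finset Face) :=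
  {A | A ∈ Lps z ∧ (∃ d, An (64 * S) (1024 * S) (cv d) ∧ An (64 * S) (1024 * S) (cf d) ∧ sepC A d) ∧
    16 * S ≤ Wf850.dia A + 1}

theorem splits_of_cut {A : Finset Face} {d : Corner} {x : P2} {n : ℤ} (h1 : sd x d.1 ≤ n)
    (h2 : sd x (fc d) ≤ n) (h : sepC A d) : Splits A (BF x n) := by
  have k1 : cv d ∈ BF x n := by rw [mem_BF]; exact h1
  have k2 : cf d ∈ BF x n := by rw [mem_BF]; exact h2
  rcases sep_cases h with ⟨a, b⟩ | ⟨a, b⟩
  · exact ⟨⟨_, k1, a⟩, _, k2, b⟩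
  · exact ⟨⟨_, k2, b⟩, _, k1, a⟩

theorem RCs_fin (S : ℕ) (z : Cfz) : (RCs S z).Finite := by
  refine (fin_split z (0, 0) (1024 * S)).subset ?_
  rintro A ⟨hA, ⟨d, h1, h2, h3⟩, -⟩
  exact ⟨hA, splits_of_cut h1.2 h2.2 h3⟩

/-- a loop not around `v0`, meeting the ring and not small, is cut inside the ring -/
theorem mem_RCs {S : ℕ} (hS : 1 ≤ S) {z : Cfz} {A : Finset Face} (hA : A ∈ Lps z) (hv : v0 ∉ A)
    {f : Face} (hf : f ∈ VR S) (hfA : f ∈ A) (hd : 16 * S ≤ Wf850.dia A + 1) : A ∈ RCs S z := by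
  refine ⟨hA, ?_, hd⟩
  by_cases h : ∀ g, An (64 * S) (1024 * S) g → g ∈ A
  · exfalso
    have h1 := fill hA (by positivity) (by omega) h
    exact hv (h1 (by rw [mem_BF]; show s0 v0 ≤ _; rw [s0_v0]; positivity))
  · push Not at h
    obtain ⟨g, hg, hgA⟩ := h
    exact cut_ann (by positivity) (by omega) (mem_VR.1 hf) hg hfA hgA

/-- a small loop meeting the ring does not meet the inner box, nor leaves the outer one -/
theorem small_far {S : ℕ} {A : Finset Face} {f : Face} (hf : f ∈ VR S) (hfA : f ∈ A)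
    (hd : Wf850.dia A + 1 < 16 * S) {g : Face} (hg : g ∈ A) :
    48 * S < s0 g ∧ s0 g < 1040 * S := by
  rw [mem_VR] at hf
  obtain ⟨h1, h2⟩ := hf
  have h3 := Wf850.sd_le_dia hfA hg
  have h4 := Wf850.sd_le_dia hg hfA
  have h5 := sd_tri (0, 0) f.1 g.1
  have h6 := sd_tri (0, 0) g.1 f.1
  have e1 : s0 f = sd (0, 0) f.1 := rfl
  have e2 : s0 g = sd (0, 0) g.1 := rfl
  omega

section

variable {S : ℕ} {κ : ℕ}

/-- the small loops of the ring -/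
abbrev Sm (S κ : ℕ) (z : Cfz) : Finset (Finset Face) := smalls lsW (VR S) κ z

theorem mem_Sm (hκ : 2 ^ κ = 16 * S) {z : Cfz} {A : Finset Face} :
    A ∈ Sm S κ z ↔ A ∈ Lps z ∧ (∃ f ∈ VR S, f ∈ A) ∧ Wf850.dia A + 1 < 16 * S := by
  unfold Sm
  rw [mem_smalls, hκ]
  rfl

theorem Sm_sub (hκ : 2 ^ κ = 16 * S) {z : Cfz} {T : ℕ} (hST : S ≤ T) :
    Sm S κ z ⊆ Zo z (1024 * T) := by
  classical
  intro A hA
  rw [mem_Sm hκ] at hA
  obtain ⟨h1, ⟨f, hf, hfA⟩, h3⟩ := hA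
  have hv : v0 ∉ A := fun h => by
    have := (small_far hf hfA h3 h).1
    rw [s0_v0] at this; omega
  have hf0 : f0 ∉ A := fun h => by
    have := (small_far hf hfA h3 h).1
    rw [s0_f0] at this; omega
  unfold Zo
  rw [Finset.mem_filter, mem_Zs, sepc0, not_not]
  refine ⟨⟨h1, ⟨f, ?_, hfA⟩, v0, ?_, hv⟩, ⟨fun h => absurd h hv, fun h => absurd h hf0⟩, hv⟩
  · rw [mem_BF]
    have h4 := (mem_VR.1 hf).2
    have h5 : (1024 * S : ℤ) ≤ 1024 * T := by exact_mod_cast Nat.mul_le_mul_left 1024 hST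
    exact h4.trans h5
  · rw [mem_BF]; show s0 v0 ≤ _; rw [s0_v0]; positivity

end

theorem mem_Zo {z : Cfz} {B : ℤ} {A : Finset Face} (h : A ∈ Zo z B) :
    A ∈ Lps z ∧ v0 ∉ A ∧ f0 ∉ A ∧ Splits A (BF (0, 0) B) := by
  classical
  unfold Zo at h
  rw [Finset.mem_filter, sepc0, not_not, mem_Zs] at h
  exact ⟨h.1.1, h.2.2, fun h' => h.2.2 (h.2.1.2 h'), h.1.2⟩

theorem mem_Zi {z : Cfz} {B : ℤ} {A : Finset Face} :
    A ∈ Zi z B ↔ A ∈ Lps z ∧ v0 ∈ A ∧ f0 ∈ A ∧ Splits A (BF (0, 0) B) := by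
  classical
  unfold Zi
  rw [Finset.mem_filter, sepc0, not_not, mem_Zs]
  constructor
  · rintro ⟨⟨h1, h2⟩, h3, h4⟩
    exact ⟨h1, h4, h3.1 h4, h2⟩
  · rintro ⟨h1, h2, h3, h4⟩
    exact ⟨⟨h1, h4⟩, ⟨fun _ => h3, fun _ => h2⟩, h2⟩

/-! ### the product over the loops not around the corner -/

theorem Fw_ff : Fw = We297.ff := rfl

/-- the two scales -/
def sc2 (S1 S2 : ℕ) (i : Bool) : ℕ := if i then S2 else S1

/-- **linear statistic** -/
def Lin (S1 S2 κ1 κ2 : ℕ) (z : Cfz) : ℝ :=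
  SS lsW (fun _ => uc S1) (VR S1) κ1 z + SS lsW (fun _ => uc S2) (VR S2) κ2 z

/-- **error count** -/
def Ect (S1 S2 κ1 κ2 : ℕ) (z : Cfz) : ℝ :=
  ((RCs S1 z).ncard : ℝ) + ((RCs S2 z).ncard : ℝ) + QQ lsW (fun _ => uc S1) (VR S1) κ1 z +
    QQ lsW (fun _ => uc S2) (VR S2) κ2 z

theorem Ect_nonneg (S1 S2 κ1 κ2 : ℕ) (z : Cfz) : 0 ≤ Ect S1 S2 κ1 κ2 z := by
  unfold Ect
  have h1 := Cn109.QQ_nonneg lsW (fun _ => uc S1) (VR S1) κ1 z
  have h2 := Cn109.QQ_nonneg lsW (fun _ => uc S2) (VR S2) κ2 z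
  positivity

section outer

variable {S1 S2 κ1 κ2 : ℕ} (hS1 : 1 ≤ S1) (h12 : S1 ≤ S2) (hκ1 : 2 ^ κ1 = 16 * S1)
  (hκ2 : 2 ^ κ2 = 16 * S2)

include hS1 h12 hκ1 hκ2

theorem outer_setup (z : Cfz) :
    (∀ i ∈ (Finset.univ : Finset Bool), Sm (sc2 S1 S2 i) (if i then κ2 else κ1) z ⊆
      Zo z (1024 * S2)) ∧
    ∃ T : Finset (Finset Face), (∀ i ∈ (Finset.univ : Finset Bool), ∀ A ∈ Zo z (1024 * S2),
      A ∉ Sm (sc2 S1 S2 i) (if i then κ2 else κ1) z → qm (sc2 S1 S2 i) A ≠ 0 → A ∈ T) ∧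
      (T.card : ℝ) ≤ ((RCs S1 z).ncard : ℝ) + ((RCs S2 z).ncard : ℝ) := by
  classical
  refine ⟨fun i _ => ?_, (RCs_fin S1 z).toFinset ∪ (RCs_fin S2 z).toFinset, fun i _ A hA hAS hq =>
    ?_, ?_⟩
  · cases i
    · exact Sm_sub hκ1 h12
    · exact Sm_sub hκ2 le_rfl
  · obtain ⟨f, hf, hfA⟩ := exists_of_qm hq
    obtain ⟨hA1, hA2, -, -⟩ := mem_Zo hA
    rw [Finset.mem_union, Set.Finite.mem_toFinset, Set.Finite.mem_toFinset]
    cases i
    · left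
      refine mem_RCs hS1 hA1 hA2 hf hfA ?_
      by_contra hlt
      exact hAS ((mem_Sm hκ1).2 ⟨hA1, ⟨f, hf, hfA⟩, not_le.1 hlt⟩)
    · right
      refine mem_RCs (hS1.trans h12) hA1 hA2 hf hfA ?_
      by_contra hlt
      exact hAS ((mem_Sm hκ2).2 ⟨hA1, ⟨f, hf, hfA⟩, not_le.1 hlt⟩)
  · have h1 := Finset.card_union_le (RCs_fin S1 z).toFinset (RCs_fin S2 z).toFinset
    rw [← Set.ncard_eq_toFinset_card _ (RCs_fin S1 z), ← Set.ncard_eq_toFinset_card _ (RCs_fin S2 z)]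
      at h1
    exact_mod_cast h1

omit hS1 h12 hκ1 hκ2 in
theorem arith1 {x : ℝ} (h0 : 0 ≤ x) (h1 : x ≤ 0.525) : 2 * (2 * x) + 12 * (2 * x) ^ 2 ≤ 64 := by
  nlinarith

omit hS1 h12 hκ1 hκ2 in
theorem arith2 {c T Q E : ℝ} (hc : c ≤ 64) (hc0 : 0 ≤ c) (hT : 0 ≤ T + Q) (hE : T + Q ≤ E) :
    c * (T + Q) ≤ 64 * E := by
  nlinarith

omit hS1 h12 hκ1 hκ2 in
theorem arith3 {C x T Q E : ℝ} (hC : 0 ≤ C) (hx0 : 0 ≤ x) (hx : x ≤ 1.05) (hT : 0 ≤ T + Q)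
    (hE : T + Q ≤ E) : (2 * x + C * x ^ 2) * (T + Q) ≤ (4 + 2 * C) * E := by
  have h1 : x ^ 2 ≤ 2 := by nlinarith
  have h2 : 2 * x + C * x ^ 2 ≤ 4 + 2 * C := by nlinarith
  exact mul_le_mul h2 hE hT (by positivity)

set_option maxHeartbeats 1000000 in
/-- upper bound of the outer product -/
theorem outer_le {b : ℝ} (hb : |b| ≤ π / 6) (z : Cfz) :
    |∏ A ∈ Zo z (1024 * S2), Fw (b * tq S1 S2 A)| ≤
      exp (-(√3 * (b * Lin S1 S2 κ1 κ2 z)) + 64 * Ect S1 S2 κ1 κ2 z) := by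
  classical
  obtain ⟨hS, T, hT, hTc⟩ := outer_setup hS1 h12 hκ1 hκ2 z
  have hp := prod_le (I := (Finset.univ : Finset Bool)) (R := Zo z (1024 * S2)) (T := T)
    (c := fun _ => b) (u := fun i A => qm (sc2 S1 S2 i) A)
    (Sm := fun i => Sm (sc2 S1 S2 i) (if i then κ2 else κ1) z)
    (fun i _ A => qm_nonneg _ A) (fun i _ A => by
      cases i
      · exact qm_le_one hS1 A
      · exact qm_le_one (hS1.trans h12) A) hS hT
  have e1 : ∀ A, ∑ i : Bool, b * qm (sc2 S1 S2 i) A = b * tq S1 S2 A := by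
    intro A
    rw [Fintype.sum_bool]
    simp only [sc2, tq, if_true, Bool.false_eq_true, if_false]
    ring
  have e2 : ∑ i : Bool, b * ∑ A ∈ Sm (sc2 S1 S2 i) (if i then κ2 else κ1) z,
      qm (sc2 S1 S2 i) A = b * Lin S1 S2 κ1 κ2 z := by
    rw [Fintype.sum_bool]
    simp only [sc2, if_true, Bool.false_eq_true, if_false]
    unfold Lin
    rw [Cn109.SS_eq, Cn109.SS_eq]
    show b * ∑ A ∈ Sm S2 κ2 z, qm S2 A + b * ∑ A ∈ Sm S1 κ1 z, qm S1 A =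
      b * (∑ A ∈ Sm S1 κ1 z, qm S1 A + ∑ A ∈ Sm S2 κ2 z, qm S2 A)
    ring
  have e3 : ∑ i : Bool, ∑ A ∈ Sm (sc2 S1 S2 i) (if i then κ2 else κ1) z,
      qm (sc2 S1 S2 i) A ^ 2 = QQ lsW (fun _ => uc S1) (VR S1) κ1 z +
        QQ lsW (fun _ => uc S2) (VR S2) κ2 z := by
    rw [Fintype.sum_bool]
    simp only [sc2, if_true, Bool.false_eq_true, if_false]
    unfold QQ
    rw [add_comm]
    rfl
  have e4 : ∑ _i : Bool, |b| = 2 * |b| := by rw [Fintype.sum_bool]; ring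
  simp only [e1, e2, e3, e4] at hp
  rw [← Fw_ff] at hp
  refine hp.trans (exp_le_exp.2 ?_)
  have hb0 := abs_nonneg b
  have hpi : π ≤ 3.15 := pi_lt_d2.le
  have hb1 : |b| ≤ 0.525 := by linarith
  have hq1 := Cn109.QQ_nonneg lsW (fun _ => uc S1) (VR S1) κ1 z
  have hq2 := Cn109.QQ_nonneg lsW (fun _ => uc S2) (VR S2) κ2 z
  have h3 := arith2 (c := 2 * (2 * |b|) + 12 * (2 * |b|) ^ 2) (T := (T.card : ℝ))
    (Q := QQ lsW (fun _ => uc S1) (VR S1) κ1 z + QQ lsW (fun _ => uc S2) (VR S2) κ2 z)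
    (E := Ect S1 S2 κ1 κ2 z) (arith1 hb0 hb1) (by positivity) (by positivity)
    (by unfold Ect; linarith)
  linarith

end outer

/-- constant of the lower bound -/
theorem exists_low : ∃ C : ℝ, 0 ≤ C ∧ ∀ x : ℝ, 0 ≤ x → x ≤ 99 / 100 →
    exp (-(√3 * (π / 6 * x)) - C * (π / 6 * x) ^ 2) ≤ Fw (π / 6 * x) := by
  have hpi := pi_pos
  obtain ⟨C, hC, h⟩ := ff_lower (lo := -(π / 6)) (hi := π / 6 * (99 / 100)) (by linarith)
    (by linarith)
  refine ⟨C, hC, fun x h0 h1 => ?_⟩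
  rw [Fw_ff]
  refine h _ ?_ ?_
  · have : 0 ≤ π / 6 * x := by positivity
    linarith
  · exact mul_le_mul_of_nonneg_left h1 (by positivity)

section outer2

variable {S1 S2 κ1 κ2 : ℕ} (hS1 : 1 ≤ S1) (h12 : S1 ≤ S2) (hκ1 : 2 ^ κ1 = 16 * S1)
  (hκ2 : 2 ^ κ2 = 16 * S2)

include hS1 h12 hκ1 hκ2

set_option maxHeartbeats 1000000 in
/-- lower bound of the outer product -/
theorem outer_ge {C : ℝ} (hC : 0 ≤ C) (hlow : ∀ x : ℝ, 0 ≤ x → x ≤ 99 / 100 →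
      exp (-(√3 * (π / 6 * x)) - C * (π / 6 * x) ^ 2) ≤ Fw (π / 6 * x)) {z : Cfz}
    (hz : ∀ A ∈ Zo z (1024 * S2), tq S1 S2 A ≤ 99 / 100) :
    exp (-(√3 * (π / 6 * Lin S1 S2 κ1 κ2 z)) - (4 + 2 * C) * Ect S1 S2 κ1 κ2 z) ≤
      ∏ A ∈ Zo z (1024 * S2), Fw (π / 6 * tq S1 S2 A) := by
  classical
  obtain ⟨hS, T, hT, hTc⟩ := outer_setup hS1 h12 hκ1 hκ2 z
  have hpi0 := pi_pos
  have e1 : ∀ A, ∑ i : Bool, π / 6 * qm (sc2 S1 S2 i) A = π / 6 * tq S1 S2 A := by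
    intro A
    rw [Fintype.sum_bool]
    simp only [sc2, tq, if_true, Bool.false_eq_true, if_false]
    ring
  have hp := prod_ge (I := (Finset.univ : Finset Bool)) (R := Zo z (1024 * S2)) (T := T)
    (c := fun _ => π / 6) (u := fun i A => qm (sc2 S1 S2 i) A)
    (Sm := fun i => Sm (sc2 S1 S2 i) (if i then κ2 else κ1) z)
    (fun i _ A => qm_nonneg _ A) (fun i _ A => by
      cases i
      · exact qm_le_one hS1 A
      · exact qm_le_one (hS1.trans h12) A) hS hT hC (fun A hA => by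
        rw [e1, ← Fw_ff]
        exact hlow _ (add_nonneg (qm_nonneg _ _) (qm_nonneg _ _)) (hz A hA))
  have e2 : ∑ i : Bool, π / 6 * ∑ A ∈ Sm (sc2 S1 S2 i) (if i then κ2 else κ1) z,
      qm (sc2 S1 S2 i) A = π / 6 * Lin S1 S2 κ1 κ2 z := by
    rw [Fintype.sum_bool]
    simp only [sc2, if_true, Bool.false_eq_true, if_false]
    unfold Lin
    rw [Cn109.SS_eq, Cn109.SS_eq]
    show π / 6 * ∑ A ∈ Sm S2 κ2 z, qm S2 A + π / 6 * ∑ A ∈ Sm S1 κ1 z, qm S1 A =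
      π / 6 * (∑ A ∈ Sm S1 κ1 z, qm S1 A + ∑ A ∈ Sm S2 κ2 z, qm S2 A)
    ring
  have e3 : ∑ i : Bool, ∑ A ∈ Sm (sc2 S1 S2 i) (if i then κ2 else κ1) z,
      qm (sc2 S1 S2 i) A ^ 2 = QQ lsW (fun _ => uc S1) (VR S1) κ1 z +
        QQ lsW (fun _ => uc S2) (VR S2) κ2 z := by
    rw [Fintype.sum_bool]
    simp only [sc2, if_true, Bool.false_eq_true, if_false]
    unfold QQ
    rw [add_comm]
    rfl
  have e4 : ∑ _i : Bool, |π / 6| = π / 3 := by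
    rw [Fintype.sum_bool, abs_of_pos (by positivity)]; ring
  simp only [e1, e2, e3, e4] at hp
  rw [← Fw_ff] at hp
  refine le_trans (exp_le_exp.2 ?_) hp
  have hpi : π ≤ 3.15 := pi_lt_d2.le
  have hq1 := Cn109.QQ_nonneg lsW (fun _ => uc S1) (VR S1) κ1 z
  have hq2 := Cn109.QQ_nonneg lsW (fun _ => uc S2) (VR S2) κ2 z
  have h3 := arith3 (C := C) (x := π / 3) (T := (T.card : ℝ))
    (Q := QQ lsW (fun _ => uc S1) (VR S1) κ1 z + QQ lsW (fun _ => uc S2) (VR S2) κ2 z)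
    (E := Ect S1 S2 κ1 κ2 z) hC (by positivity) (by linarith) (by positivity)
    (by unfold Ect; linarith)
  linarith

end outer2

end Crest.Agent.R158.B612
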