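import Crest.Agent.R158.Bg3_612

/-!
# Row 158, identity B (helper612), part 4: pointwise bounds of the two-point sums

* `left_bound`  : charges `(π/3, -π/6, -π/6)`: two arms, exponential factor
* `right_nonneg`, `right_bad`, `right_good` : charges `(-π/3, π/6, π/6)`
-/

set_option autoImplicit false

noncomputable section

namespace Crest.Agent.R158.B612

open Real
open Crest.Agent.R161.Geo729 Crest.Agent.R161.Dual374
open Crest.Agent.R161.Tas682 (sd)
open Crest.Agent.R161.Ifc372 (CircZ)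
open Crest.Agent.R158.It200 Crest.Agent.R158.Wf850
open Crest.Agent.R158.Fr158 (bx mem_bx mem_bx_sd eIn mem_eIn)
open Crest.Agent.R158.Vx107 (Fw mass tot Ntr)
open Crest.Agent.R158.Cn109 (lsW smalls mem_smalls SS QQ)
open Crest.Agent.R158.Rs689 (dual circ_block circ_block' Rch dstep_dual)

/-! ### trigonometry -/

theorem sqrt3_sq : (√3 : ℝ) * √3 = 3 := mul_self_sqrt (by norm_num)
theorem sqrt3_ge : (1 : ℝ) ≤ √3 := by
  rw [show (1 : ℝ) = √1 by simp]; exact sqrt_le_sqrt (by norm_num)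

theorem Xf_pos (x : ℝ) : Xf (π / 3) x = -(2 * √3 * sin x) := by
  have h3 := sqrt3_sq
  unfold Xf
  rw [Vx107.Fw_eq, Vx107.Fw_eq, cos_add, sin_add, cos_pi_div_three, sin_pi_div_three]
  linear_combination (-(1 / 2) * cos x) * h3

theorem Xf_neg (x : ℝ) : Xf (-(π / 3)) x = 2 * √3 * cos (π / 6 + x) := by
  have h3 := sqrt3_sq
  unfold Xf
  rw [Vx107.Fw_eq, Vx107.Fw_eq, cos_add, sin_add, cos_neg, sin_neg, cos_pi_div_three,
    sin_pi_div_three, cos_add, cos_pi_div_six, sin_pi_div_six]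
  linear_combination (-(1 / 2) * cos x) * h3

theorem cos_half {y : ℝ} (h1 : π / 3 ≤ y) (h2 : y ≤ 2 * π / 3) : |cos y| ≤ 1 / 2 := by
  have hpi := pi_pos
  have e1 : cos y ≤ cos (π / 3) := cos_le_cos_of_nonneg_of_le_pi (by positivity) (by linarith) h1
  have e2 : cos (2 * π / 3) ≤ cos y := cos_le_cos_of_nonneg_of_le_pi (by linarith) (by linarith) h2
  rw [cos_pi_div_three] at e1
  have e3 : cos (2 * π / 3) = -(1 / 2) := by
    rw [show 2 * π / 3 = π - π / 3 by ring, cos_pi_sub, cos_pi_div_three]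
  rw [e3] at e2
  rw [abs_le]; constructor <;> linarith

theorem Fw_in_left {t : ℝ} (h0 : 0 ≤ t) (h2 : t ≤ 2) : |Fw (π / 3 + -(π / 6) * t)| ≤ 1 := by
  have hpi := pi_pos
  unfold Vx107.Fw
  rw [abs_mul, abs_two]
  have := cos_half (y := π / 3 + (π / 3 + -(π / 6) * t)) (by nlinarith) (by nlinarith)
  linarith

theorem Fw_in_right (t : ℝ) : Fw (-(π / 3) + π / 6 * t) = 2 * cos (π / 6 * t) := by
  unfold Vx107.Fw
  congr 2
  ring

theorem Fw_in_right_ge {t : ℝ} (h0 : 0 ≤ t) (h2 : t ≤ 2) : 1 ≤ Fw (-(π / 3) + π / 6 * t) := by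
  have hpi := pi_pos
  rw [Fw_in_right]
  have e1 : cos (π / 3) ≤ cos (π / 6 * t) :=
    cos_le_cos_of_nonneg_of_le_pi (by positivity) (by linarith) (by nlinarith)
  rw [cos_pi_div_three] at e1
  linarith

theorem Fw_out_nonneg {t : ℝ} (h0 : 0 ≤ t) (h1 : t ≤ 1) : 0 ≤ Fw (π / 6 * t) := by
  have hpi := pi_pos
  unfold Vx107.Fw
  have : 0 ≤ cos (π / 3 + π / 6 * t) := cos_nonneg_of_mem_Icc ⟨by nlinarith, by nlinarith⟩
  linarith

/-! ### the events -/

/-- two arms from the corner at the origin to distance `m` -/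
def Arms2 (m : ℤ) : Set Cfz :=
  {z | (∃ v ∈ OCl z (0, 0), m ≤ sd (0, 0) v) ∧ ∃ g ∈ DCl z (0, 0), m ≤ sd (0, 0) g}

/-- a loop not around `v0` meets both rings -/
def BadS (S1 S2 : ℕ) : Set Cfz :=
  {z | ∃ A ∈ Lps z, v0 ∉ A ∧ (∃ f ∈ VR S1, f ∈ A) ∧ ∃ f ∈ VR S2, f ∈ A}

/-- loops around the corner not inside `BF 0 S` and not around `BF 0 (1024 S)` -/
def Mids (S : ℕ) (z : Cfz) : Set (Finset Face) :=
  {A | A ∈ Lps z ∧ v0 ∈ A ∧ ¬ A ⊆ BF (0, 0) S ∧ ¬ BF (0, 0) (1024 * S) ⊆ A}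

theorem Mids_fin (S : ℕ) (z : Cfz) : (Mids S z).Finite := by
  refine (fin_split z (0, 0) (1024 * S)).subset ?_
  rintro A ⟨hA, hv, -, h⟩
  rw [Finset.not_subset] at h
  obtain ⟨g, hg, hgA⟩ := h
  exact ⟨hA, ⟨v0, by rw [mem_BF]; show s0 v0 ≤ _; rw [s0_v0]; positivity, hv⟩, g, hg, hgA⟩

theorem tq_nonneg (S1 S2 : ℕ) (A : Finset Face) : 0 ≤ tq S1 S2 A :=
  add_nonneg (qm_nonneg _ _) (qm_nonneg _ _)

theorem BF_zero : BF (0, 0) 0 = {v0, f0} := by
  ext f
  rw [mem_BF, sd0_le, Finset.mem_insert, Finset.mem_singleton]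
  obtain ⟨⟨a, b⟩, s⟩ := f
  cases s <;> simp [v0, f0] <;> omega

section

variable {S1 S2 κ1 κ2 : ℕ} (hS1 : 1 ≤ S1) (h12 : 64 * S1 ≤ S2) (hκ1 : 2 ^ κ1 = 16 * S1)
  (hκ2 : 2 ^ κ2 = 16 * S2)

include hS1 h12

theorem tq_le_two (A : Finset Face) : tq S1 S2 A ≤ 2 := by
  have h1 := qm_le_one hS1 A
  have h2 := qm_le_one (S := S2) (by omega) A
  unfold tq; linarith

include hκ1 hκ2

/-- **left side** -/
theorem left_bound (z : Cfz) : |WS (π / 3) (-(π / 6)) S1 S2 z| ≤
    (Arms2 (64 * S1)).indicator (fun _ => 2 * √3) z *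
      exp (√3 * (π / 6) * Lin S1 S2 κ1 κ2 z + 64 * Ect S1 S2 κ1 κ2 z) := by
  classical
  have hpi := pi_pos
  have h3 := sqrt3_ge
  obtain ⟨X, hX, hW⟩ := WS_eq (a := π / 3) (b := -(π / 6)) hS1 (by omega : S1 ≤ S2) (by ring) z
  have hin : |∏ A ∈ Zi z (1024 * S2), Fw (π / 3 + -(π / 6) * tq S1 S2 A)| ≤ 1 := by
    rw [Finset.abs_prod]
    exact Finset.prod_le_one (fun _ _ => abs_nonneg _) fun A _ =>
      Fw_in_left (tq_nonneg _ _ _) (tq_le_two hS1 h12 A)
  have hout := outer_le (b := -(π / 6)) hS1 (by omega : S1 ≤ S2) hκ1 hκ2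
    (by rw [abs_neg, abs_of_pos (by positivity)]) z
  have e1 : -(√3 * (-(π / 6) * Lin S1 S2 κ1 κ2 z)) + 64 * Ect S1 S2 κ1 κ2 z =
      √3 * (π / 6) * Lin S1 S2 κ1 κ2 z + 64 * Ect S1 S2 κ1 κ2 z := by ring
  rw [e1] at hout
  have hXle : |X| ≤ (Arms2 (64 * S1)).indicator (fun _ => 2 * √3) z := by
    rcases hX with ⟨hX, hn⟩ | ⟨L, hL, hLs, hX⟩
    · have hz : z ∈ Arms2 (64 * S1) := by
        obtain ⟨⟨v, hv, hv'⟩, g, hg, hg'⟩ := arms_of_inf hn (64 * S1)
        exact ⟨⟨v, hv, hv'⟩, g, by simpa [c0, fc] using hg, hg'⟩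
      rw [Set.indicator_of_mem hz, hX, abs_two]
      linarith
    · by_cases ht : tq S1 S2 L = 0
      · rw [hX, ht, mul_zero, Xf_pos, sin_zero, mul_zero, neg_zero, abs_zero]
        exact Set.indicator_nonneg (fun _ _ => by positivity) z
      · have hz : z ∈ Arms2 (64 * S1) := by
          have hsub : ¬ L ⊆ BF (0, 0) (64 * S1) := by
            intro hsub
            apply ht
            unfold tq
            have k1 : qm S1 L = 0 := qm_zero fun f hf hfL => by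
              have h1 := (mem_VR.1 hf).1
              have h2 := hsub hfL
              rw [mem_BF] at h2
              have e : s0 f = sd (0, 0) f.1 := rfl
              omega
            have k2 : qm S2 L = 0 := qm_zero fun f hf hfL => by
              have h1 := (mem_VR.1 hf).1
              have h2 := hsub hfL
              rw [mem_BF] at h2
              have e : s0 f = sd (0, 0) f.1 := rfl
              omega
            rw [k1, k2, add_zero]
          obtain ⟨⟨v, hv, hv'⟩, g, hg, hg'⟩ := arms_of_sep hL hLs hsub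
          exact ⟨⟨v, hv, by omega⟩, g, by simpa [c0, fc] using hg, hg'⟩
        rw [Set.indicator_of_mem hz, hX, Xf_pos, abs_neg, abs_mul, abs_of_pos (by positivity)]
        have := abs_sin_le_one (-(π / 6) * tq S1 S2 L)
        nlinarith
  rw [hW, abs_mul, abs_mul]
  have hI0 : 0 ≤ (Arms2 (64 * S1)).indicator (fun _ => 2 * √3) z :=
    Set.indicator_nonneg (fun _ _ => by positivity) z
  calc |X| * |∏ A ∈ Zi z (1024 * S2), Fw (π / 3 + -(π / 6) * tq S1 S2 A)| *
        |∏ A ∈ Zo z (1024 * S2), Fw (-(π / 6) * tq S1 S2 A)|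
      ≤ (Arms2 (64 * S1)).indicator (fun _ => 2 * √3) z * 1 *
        exp (√3 * (π / 6) * Lin S1 S2 κ1 κ2 z + 64 * Ect S1 S2 κ1 κ2 z) := by
        refine mul_le_mul (mul_le_mul hXle hin (abs_nonneg _) hI0) hout (abs_nonneg _)
          (by positivity)
    _ = _ := by rw [mul_one]

omit hκ1 hκ2 in
/-- the factor of the loop through the corner is nonnegative -/
theorem right_X {z : Cfz} {X : ℝ} (hX : (X = 2 ∧ ∀ A ∈ Lps z, ¬ sepC A c0) ∨
    ∃ L ∈ Lps z, sepC L c0 ∧ X = Xf (-(π / 3)) (π / 6 * tq S1 S2 L)) : 0 ≤ X ∧ X ≤ 2 * √3 := by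
  have hpi := pi_pos
  have h3 := sqrt3_ge
  rcases hX with ⟨hX, -⟩ | ⟨L, -, -, hX⟩
  · rw [hX]; constructor <;> linarith
  · rw [hX, Xf_neg]
    have h0 := tq_nonneg S1 S2 L
    have h2 := tq_le_two hS1 h12 L
    have e1 : 0 ≤ cos (π / 6 + π / 6 * tq S1 S2 L) :=
      cos_nonneg_of_mem_Icc ⟨by nlinarith, by nlinarith⟩
    have e2 := cos_le_one (π / 6 + π / 6 * tq S1 S2 L)
    constructor
    · positivity
    · nlinarith

omit hκ1 hκ2 in
/-- **right side off the bad event** -/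
theorem right_nonneg {z : Cfz} (hz : z ∉ BadS S1 S2) : 0 ≤ WS (-(π / 3)) (π / 6) S1 S2 z := by
  classical
  obtain ⟨X, hX, hW⟩ := WS_eq (a := -(π / 3)) (b := π / 6) hS1 (by omega : S1 ≤ S2) (by ring) z
  rw [hW]
  refine mul_nonneg (mul_nonneg (right_X hS1 h12 hX).1 ?_) ?_
  · refine Finset.prod_nonneg fun A _ => ?_
    have := Fw_in_right_ge (tq_nonneg S1 S2 A) (tq_le_two hS1 h12 A)
    linarith
  · refine Finset.prod_nonneg fun A hA => ?_
    refine Fw_out_nonneg (tq_nonneg S1 S2 A) ?_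
    obtain ⟨hA1, hA2, -, -⟩ := mem_Zo hA
    unfold tq
    by_cases h1 : qm S1 A = 0
    · rw [h1, zero_add]; exact qm_le_one (by omega) A
    · by_cases h2 : qm S2 A = 0
      · rw [h2, add_zero]; exact qm_le_one hS1 A
      · exact absurd ⟨A, hA1, hA2, exists_of_qm h1, exists_of_qm h2⟩ hz

/-- **right side on the bad event** -/
theorem right_bad {z : Cfz} (hz : z ∈ BadS S1 S2) : |WS (-(π / 3)) (π / 6) S1 S2 z| ≤
    2 * √3 * 2 ^ (NN (0, 0) 0 S1 z + (Mids S1 z).ncard + (RCs S2 z).ncard) *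
      exp (-(√3 * (π / 6) * Lin S1 S2 κ1 κ2 z) + 64 * Ect S1 S2 κ1 κ2 z) := by
  classical
  have hpi := pi_pos
  obtain ⟨X, hX, hW⟩ := WS_eq (a := -(π / 3)) (b := π / 6) hS1 (by omega : S1 ≤ S2) (by ring) z
  obtain ⟨hX0, hX1⟩ := right_X hS1 h12 hX
  have hout := outer_le (b := π / 6) hS1 (by omega : S1 ≤ S2) hκ1 hκ2
    (by rw [abs_of_pos (by positivity)]) z
  have e1 : -(√3 * (π / 6 * Lin S1 S2 κ1 κ2 z)) + 64 * Ect S1 S2 κ1 κ2 z =
      -(√3 * (π / 6) * Lin S1 S2 κ1 κ2 z) + 64 * Ect S1 S2 κ1 κ2 z := by ring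
  rw [e1] at hout
  obtain ⟨B, hB, hBv, ⟨f, hf, hfB⟩, g, hg, hgB⟩ := hz
  -- the inner product
  set D := (Zi z (1024 * S2)).filter fun A => tq S1 S2 A ≠ 2 with hD
  have hcard : D.card ≤ NN (0, 0) 0 S1 z + (Mids S1 z).ncard + (RCs S2 z).ncard := by
    set E1 := (BF (0, 0) S1).powerset.filter fun A => BF (0, 0) 0 ⊆ A ∧ A ∈ Lps z with hE1
    have hsub : D ⊆ E1 ∪ (Mids_fin S1 z).toFinset ∪ (RCs_fin S2 z).toFinset := by
      intro A hA
      rw [hD, Finset.mem_filter, mem_Zi] at hA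
      obtain ⟨⟨hA1, hA2, hA3, hA4⟩, ht⟩ := hA
      rw [Finset.mem_union, Finset.mem_union, Set.Finite.mem_toFinset, Set.Finite.mem_toFinset, hE1,
        Finset.mem_filter, Finset.mem_powerset]
      by_cases h1 : A ⊆ BF (0, 0) S1
      · left; left
        refine ⟨h1, ?_, hA1⟩
        rw [BF_zero, Finset.insert_subset_iff, Finset.singleton_subset_iff]
        exact ⟨hA2, hA3⟩
      · by_cases h2 : BF (0, 0) (1024 * S1) ⊆ A
        · right
          have hq1 : qm S1 A = 1 := qm_one hS1 fun f hf => h2 (by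
            rw [mem_BF]; exact (mem_VR.1 hf).2)
          -- `A` is not inside the ring 2
          have hAB : g ∈ A := by
            rcases lam hA1 hB with h3 | h3 | h3
            · exact absurd (h3 hA2) hBv
            · exact h3 hgB
            · exfalso
              rw [Finset.disjoint_left] at h3
              refine h3 (h2 ?_) hfB
              rw [mem_BF]; exact (mem_VR.1 hf).2
          refine ⟨hA1, ?_, ?_⟩
          · by_cases h4 : ∀ k, An (64 * S2) (1024 * S2) k → k ∈ A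
            · exfalso
              apply ht
              have hq2 : qm S2 A = 1 := qm_one (by omega) fun k hk => h4 k (mem_VR.1 hk)
              unfold tq; rw [hq1, hq2]; norm_num
            · push Not at h4
              obtain ⟨k, hk, hkA⟩ := h4
              exact cut_ann (by positivity) (by omega) (mem_VR.1 hg) hk hAB hkA
          · have h5 := Wf850.sd_le_dia hA2 hAB
            have h6 := (mem_VR.1 hg).1
            have e : s0 g = sd v0.1 g.1 := rfl
            omega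
        · left; right
          exact ⟨hA1, hA2, h1, h2⟩
    calc D.card ≤ (E1 ∪ (Mids_fin S1 z).toFinset ∪ (RCs_fin S2 z).toFinset).card :=
          Finset.card_le_card hsub
      _ ≤ E1.card + (Mids_fin S1 z).toFinset.card + (RCs_fin S2 z).toFinset.card := by
          have k1 := Finset.card_union_le (E1 ∪ (Mids_fin S1 z).toFinset) (RCs_fin S2 z).toFinset
          have k2 := Finset.card_union_le E1 (Mids_fin S1 z).toFinset
          omega
      _ = NN (0, 0) 0 S1 z + (Mids S1 z).ncard + (RCs S2 z).ncard := by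
          rw [← Set.ncard_eq_toFinset_card _ (Mids_fin S1 z),
            ← Set.ncard_eq_toFinset_card _ (RCs_fin S2 z)]
          unfold NN
          rw [hE1]
  have hin0 : 0 ≤ ∏ A ∈ Zi z (1024 * S2), Fw (-(π / 3) + π / 6 * tq S1 S2 A) :=
    Finset.prod_nonneg fun A _ => by
      have := Fw_in_right_ge (tq_nonneg S1 S2 A) (tq_le_two hS1 h12 A)
      linarith
  have hin : ∏ A ∈ Zi z (1024 * S2), Fw (-(π / 3) + π / 6 * tq S1 S2 A) ≤
      2 ^ (NN (0, 0) 0 S1 z + (Mids S1 z).ncard + (RCs S2 z).ncard) := by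
    rw [← Finset.prod_filter_mul_prod_filter_not (Zi z (1024 * S2)) (fun A => tq S1 S2 A ≠ 2)]
    have k1 : ∏ A ∈ (Zi z (1024 * S2)).filter (fun A => ¬ tq S1 S2 A ≠ 2),
        Fw (-(π / 3) + π / 6 * tq S1 S2 A) = 1 := by
      refine Finset.prod_eq_one fun A hA => ?_
      rw [Finset.mem_filter, not_not] at hA
      rw [hA.2, Fw_in_right, show π / 6 * 2 = π / 3 by ring, cos_pi_div_three]
      norm_num
    rw [k1, mul_one]
    calc ∏ A ∈ D, Fw (-(π / 3) + π / 6 * tq S1 S2 A)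
        ≤ ∏ _A ∈ D, (2 : ℝ) := by
          refine Finset.prod_le_prod (fun A _ => ?_) fun A _ => ?_
          · have := Fw_in_right_ge (tq_nonneg S1 S2 A) (tq_le_two hS1 h12 A)
            linarith
          · exact (le_abs_self _).trans (Vx107.abs_Fw_le _)
      _ = 2 ^ D.card := by rw [Finset.prod_const]
      _ ≤ _ := pow_le_pow_right₀ (by norm_num) hcard
  rw [hW, abs_mul, abs_mul, abs_of_nonneg hX0, abs_of_nonneg hin0]
  exact mul_le_mul (mul_le_mul hX1 hin hin0 (by positivity)) hout (abs_nonneg _) (by positivity)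

end

/-! ### the good event -/

/-- a loop not around `v0` and meeting the box `BF 0 n` stays inside `BF 0 (m+1)` if there is an
open circuit in the annulus -/
theorem circ_sub {z : Cfz} {n m : ℕ} (h : z ∈ CircZ (0, 0) n m) {A : Finset Face} (hA : A ∈ Lps z)
    (hv : v0 ∉ A) {f : Face} (hf : s0 f < n) (hfA : f ∈ A) : A ⊆ BF (0, 0) (m + 1) := by
  by_contra hcon
  have hn0 := s0_nonneg f
  have h1 : Splits A (BF (0, 0) (n - 1)) :=
    ⟨⟨f, by rw [mem_BF]; have e : s0 f = sd (0, 0) f.1 := rfl; omega, hfA⟩, v0, by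
      rw [mem_BF]; show s0 v0 ≤ _; rw [s0_v0]; omega, hv⟩
  obtain ⟨-, k, g, hk, hg, hkg⟩ := cross2 hA h1 hcon
  have h2 : Rch (dual z) k g := by
    unfold DCl at hkg
    have h3 : Relation.ReflTransGen (DStep fun e => z e = false) k g := hkg
    clear hkg hg
    induction h3 with
    | refl => exact .refl
    | tail _ hs ih =>
      refine ih.tail (dstep_dual.1 ?_)
      obtain ⟨e, he, hh⟩ := hs
      exact ⟨e, by simp [he], hh⟩
  have h4 := circ_block' h (f := k) (by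
    rw [Crest.Agent.R161.Ann374.mem_ball]
    rw [sd0_le] at hk
    simp only; omega) h2
  rw [Crest.Agent.R161.Ann374.mem_ball] at h4
  have h5 : sd (0, 0) g ≤ m := by rw [sd0_le]; simp only at h4; omega
  omega

section

variable {S1 S2 κ1 κ2 : ℕ} (hS1 : 1 ≤ S1) (h12 : 65 * S1 ≤ S2) (hκ1 : 2 ^ κ1 = 16 * S1)
  (hκ2 : 2 ^ κ2 = 16 * S2)

/-- the good event -/
structure GoodS (S1 S2 : ℕ) (z : Cfz) : Prop where
  g1 : dual z ∈ CircZ (0, 0) (4 * S1) (8 * S1)
  g2 : z ∈ CircZ (0, 0) (128 * S1) (256 * S1)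
  g3 : z ∈ CircZ (0, 0) (2048 * S1) (4096 * S1)
  g4 : z ∈ CircZ (0, 0) (128 * S2) (256 * S2)

include hS1 h12

theorem good_tq {z : Cfz} (hz : GoodS S1 S2 z) {A : Finset Face} (hA : A ∈ Lps z) (hv : v0 ∉ A) :
    tq S1 S2 A ≤ 99 / 100 ∧ (qm S1 A = 0 ∨ qm S2 A = 0) := by
  have hq : ∀ S : ℕ, 1 ≤ S → z ∈ CircZ (0, 0) (128 * S) (256 * S) → qm S A ≤ 99 / 100 := by
    intro S hS hc
    by_cases h : ∀ f ∈ A, ¬ s0 f < 128 * S
    · exact qm_le_of_miss hS h
    · push Not at h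
      obtain ⟨f, hfA, hf⟩ := h
      have h1 := circ_sub hc hA hv (f := f) (by push_cast; exact hf) hfA
      refine qm_le_of_sub hS ?_
      push_cast at h1
      exact h1
  have h0 : qm S1 A = 0 ∨ qm S2 A = 0 := by
    by_contra hcon
    push Not at hcon
    obtain ⟨f, hf, hfA⟩ := exists_of_qm hcon.1
    obtain ⟨g, hg, hgA⟩ := exists_of_qm hcon.2
    have h1 := circ_sub hz.g3 hA hv (f := f) (by
      have := (mem_VR.1 hf).2
      push_cast
      omega) hfA
    have h2 := h1 hgA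
    rw [mem_BF] at h2
    have h3 := (mem_VR.1 hg).1
    have e : s0 g = sd (0, 0) g.1 := rfl
    push_cast at h2
    omega
  refine ⟨?_, h0⟩
  unfold tq
  rcases h0 with h0 | h0
  · rw [h0, zero_add]; exact hq S2 (by omega) hz.g4
  · rw [h0, add_zero]; exact hq S1 hS1 hz.g2

theorem good_not_bad {z : Cfz} (hz : GoodS S1 S2 z) : z ∉ BadS S1 S2 := by
  rintro ⟨A, hA, hv, ⟨f, hf, hfA⟩, g, hg, hgA⟩
  have h1 := circ_sub hz.g3 hA hv (f := f) (by
    have := (mem_VR.1 hf).2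
    push_cast
    omega) hfA
  have h2 := h1 hgA
  rw [mem_BF] at h2
  have h3 := (mem_VR.1 hg).1
  have e : s0 g = sd (0, 0) g.1 := rfl
  push_cast at h2
  omega

/-- the loop through the corner does not meet the rings -/
theorem good_X {z : Cfz} (hz : GoodS S1 S2 z) {X : ℝ}
    (hX : (X = 2 ∧ ∀ A ∈ Lps z, ¬ sepC A c0) ∨
    ∃ L ∈ Lps z, sepC L c0 ∧ X = Xf (-(π / 3)) (π / 6 * tq S1 S2 L)) : 2 ≤ X := by
  have hpi := pi_pos
  have h3 := sqrt3_ge
  rcases hX with ⟨hX, -⟩ | ⟨L, hL, hLs, hX⟩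
  · rw [hX]
  · have hsub : L ⊆ BF (0, 0) (64 * S1) := by
      by_contra hcon
      obtain ⟨⟨v, hv, hv'⟩, -⟩ := arms_of_sep hL hLs hcon
      have h4 : Rch z (0, 0) v := hv
      have h5 := circ_block hz.g1 (u := (0, 0)) (by
        rw [Crest.Agent.R161.Ann374.mem_ball]; simp only; omega) h4
      rw [Crest.Agent.R161.Ann374.mem_ball] at h5
      have h6 : sd (0, 0) v ≤ 8 * S1 + 1 := by rw [sd0_le]; simp only at h5; omega
      omega
    have k1 : qm S1 L = 0 := qm_zero fun f hf hfL => by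
      have h1 := (mem_VR.1 hf).1
      have h2 := hsub hfL
      rw [mem_BF] at h2
      have e : s0 f = sd (0, 0) f.1 := rfl
      omega
    have k2 : qm S2 L = 0 := qm_zero fun f hf hfL => by
      have h1 := (mem_VR.1 hf).1
      have h2 := hsub hfL
      rw [mem_BF] at h2
      have e : s0 f = sd (0, 0) f.1 := rfl
      omega
    have ht : tq S1 S2 L = 0 := by unfold tq; rw [k1, k2, add_zero]
    rw [hX, ht, mul_zero, Xf_neg, add_zero, cos_pi_div_six]
    have h4 := sqrt3_sq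
    nlinarith

include hκ1 hκ2

/-- **right side on the good event** -/
theorem right_good {C : ℝ} (hC : 0 ≤ C) (hlow : ∀ x : ℝ, 0 ≤ x → x ≤ 99 / 100 →
      exp (-(√3 * (π / 6 * x)) - C * (π / 6 * x) ^ 2) ≤ Fw (π / 6 * x)) {z : Cfz}
    (hz : GoodS S1 S2 z) :
    2 ^ NN (0, 0) 0 S1 z *
      exp (-(√3 * (π / 6) * Lin S1 S2 κ1 κ2 z) - (4 + 2 * C) * Ect S1 S2 κ1 κ2 z) ≤
      WS (-(π / 3)) (π / 6) S1 S2 z := by
  classical
  have hpi := pi_pos
  obtain ⟨X, hX, hW⟩ := WS_eq (a := -(π / 3)) (b := π / 6) hS1 (by omega : S1 ≤ S2) (by ring) z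
  have hX2 := good_X hS1 h12 hz hX
  have hout := outer_ge hS1 (by omega : S1 ≤ S2) hκ1 hκ2 hC hlow (z := z) fun A hA => by
    obtain ⟨hA1, hA2, -, -⟩ := mem_Zo hA
    exact (good_tq hS1 h12 hz hA1 hA2).1
  have e1 : -(√3 * (π / 6 * Lin S1 S2 κ1 κ2 z)) - (4 + 2 * C) * Ect S1 S2 κ1 κ2 z =
      -(√3 * (π / 6) * Lin S1 S2 κ1 κ2 z) - (4 + 2 * C) * Ect S1 S2 κ1 κ2 z := by ring
  rw [e1] at hout
  have hge : ∀ A, 1 ≤ Fw (-(π / 3) + π / 6 * tq S1 S2 A) := fun A =>
    Fw_in_right_ge (tq_nonneg S1 S2 A) (tq_le_two hS1 (by omega) A)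
  -- the inner product
  have hin : (2 : ℝ) ^ NN (0, 0) 0 S1 z ≤
      ∏ A ∈ Zi z (1024 * S2), Fw (-(π / 3) + π / 6 * tq S1 S2 A) := by
    set E1 := (BF (0, 0) S1).powerset.filter fun A => BF (0, 0) 0 ⊆ A ∧ A ∈ Lps z with hE1
    have hsub : E1 ⊆ Zi z (1024 * S2) := by
      intro A hA
      rw [hE1, Finset.mem_filter, Finset.mem_powerset] at hA
      obtain ⟨h1, h2, h3⟩ := hA
      rw [BF_zero, Finset.insert_subset_iff, Finset.singleton_subset_iff] at h2
      rw [mem_Zi]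
      refine ⟨h3, h2.1, h2.2, ⟨v0, ?_, h2.1⟩, (((S2 : ℤ), 0), false), ?_, fun h => ?_⟩
      · rw [mem_BF]; show s0 v0 ≤ _; rw [s0_v0]; positivity
      · rw [mem_BF, sd0_le]; dsimp only; omega
      · have h4 := h1 h
        rw [mem_BF, sd0_le] at h4
        dsimp only at h4
        omega
    rw [← Finset.prod_sdiff hsub]
    have k1 : (1 : ℝ) ≤ ∏ A ∈ Zi z (1024 * S2) \ E1, Fw (-(π / 3) + π / 6 * tq S1 S2 A) := by
      have h5 : ∏ _A ∈ Zi z (1024 * S2) \ E1, (1 : ℝ) ≤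
          ∏ A ∈ Zi z (1024 * S2) \ E1, Fw (-(π / 3) + π / 6 * tq S1 S2 A) :=
        Finset.prod_le_prod (fun _ _ => zero_le_one) fun A _ => hge A
      rwa [Finset.prod_const_one] at h5
    have k2 : ∏ A ∈ E1, Fw (-(π / 3) + π / 6 * tq S1 S2 A) = 2 ^ NN (0, 0) 0 S1 z := by
      have h5 : ∀ A ∈ E1, Fw (-(π / 3) + π / 6 * tq S1 S2 A) = 2 := by
        intro A hA
        rw [hE1, Finset.mem_filter, Finset.mem_powerset] at hA
        have hz0 : ∀ S : ℕ, S1 ≤ 64 * S → qm S A = 0 := fun S hS => qm_zero fun f hf hfA => by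
          have h6 := (mem_VR.1 hf).1
          have h7 := hA.1 hfA
          rw [mem_BF] at h7
          have e : s0 f = sd (0, 0) f.1 := rfl
          omega
        have ht : tq S1 S2 A = 0 := by
          unfold tq; rw [hz0 S1 (by omega), hz0 S2 (by omega), add_zero]
        rw [Fw_in_right, ht, mul_zero, cos_zero, mul_one]
      rw [Finset.prod_congr rfl h5, Finset.prod_const]
      unfold NN
      rw [hE1]
    rw [k2]
    have h6 : (0 : ℝ) ≤ 2 ^ NN (0, 0) 0 S1 z := by positivity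
    nlinarith
  rw [hW]
  have h7 : (0 : ℝ) ≤ 2 ^ NN (0, 0) 0 S1 z := by positivity
  calc 2 ^ NN (0, 0) 0 S1 z *
      exp (-(√3 * (π / 6) * Lin S1 S2 κ1 κ2 z) - (4 + 2 * C) * Ect S1 S2 κ1 κ2 z)
      ≤ (X * ∏ A ∈ Zi z (1024 * S2), Fw (-(π / 3) + π / 6 * tq S1 S2 A)) *
        ∏ A ∈ Zo z (1024 * S2), Fw (π / 6 * tq S1 S2 A) := by
        refine mul_le_mul ?_ hout (exp_pos _).le ?_
        · nlinarith
        · have : 0 ≤ ∏ A ∈ Zi z (1024 * S2), Fw (-(π / 3) + π / 6 * tq S1 S2 A) := h7.trans hin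
          exact mul_nonneg (by linarith) this
    _ = _ := rfl

end

end Crest.Agent.R158.B612
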