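import Crest.Agent.R158.Cn4_109

/-!
# Row 158, Block W (helper109): Hölder layer

* `hoelder_exp`  : `E (Y e^L) ≤ (E Y^p)^(1/p) (E e^(qL))^(1/q)`
* `rev_hoelder`  : `(E Y^(1/p))^p ≤ E (Y e^(-L)) * (E e^(L/(p-1)))^(p-1)`
* `lin_moments`  : all exponential moments of `∑ i, (|a i| |SS_i - VV| + c i QQ_i)` for finitely many
  local densities, uniformly
-/

set_option autoImplicit false

noncomputable section

namespace Crest.Agent.R158.Hd109

open MeasureTheory unitInterval
open Crest.Agent.R158.Rs689 (PB Dep nu hf)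
open Crest.Agent.R158.Cn109

section hoelder

variable {Ω : Type*} {m : MeasurableSpace Ω} {μ : Measure Ω}

/-- Hölder's inequality, exponential weight -/
theorem hoelder_exp {p : ℝ} (hp : 1 < p) {Y L : Ω → ℝ} (hY0 : ∀ ω, 0 ≤ Y ω)
    (hYm : AEStronglyMeasurable Y μ) (hLm : AEStronglyMeasurable L μ)
    (hYi : Integrable (fun ω => Y ω ^ p) μ)
    (hLi : Integrable (fun ω => Real.exp (p / (p - 1) * L ω)) μ) :
    ∫ ω, Y ω * Real.exp (L ω) ∂μ ≤
      (∫ ω, Y ω ^ p ∂μ) ^ (1 / p) * (∫ ω, Real.exp (p / (p - 1) * L ω) ∂μ) ^ ((p - 1) / p) := by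
  have hp0 : 0 < p := by linarith
  have hp1 : 0 < p - 1 := by linarith
  set q := p / (p - 1) with hq
  have hpq : p.HolderConjugate q := by
    rw [Real.holderConjugate_iff]
    refine ⟨hp, ?_⟩
    rw [hq]; field_simp; ring
  have hq0 : 0 < q := by rw [hq]; positivity
  have hexp : ∀ ω, Real.exp (L ω) ^ q = Real.exp (q * L ω) := fun ω => by
    rw [← Real.exp_mul, mul_comm]
  have hY : MemLp Y (ENNReal.ofReal p) μ := by
    rw [← integrable_norm_rpow_iff hYm (by simpa using hp0) ENNReal.ofReal_ne_top,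
      ENNReal.toReal_ofReal hp0.le]
    simpa [abs_of_nonneg (hY0 _)] using hYi
  have hE : MemLp (fun ω => Real.exp (L ω)) (ENNReal.ofReal q) μ := by
    rw [← integrable_norm_rpow_iff (Real.continuous_exp.comp_aestronglyMeasurable hLm)
      (by simpa using hq0) ENNReal.ofReal_ne_top, ENNReal.toReal_ofReal hq0.le]
    simpa [hexp, Real.norm_eq_abs, abs_of_pos (Real.exp_pos _)] using hLi
  have h := integral_mul_le_Lp_mul_Lq_of_nonneg hpq
    (Filter.Eventually.of_forall fun ω => hY0 ω)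
    (Filter.Eventually.of_forall fun ω => (Real.exp_pos (L ω)).le) hY hE
  simp only [hexp] at h
  refine h.trans (le_of_eq ?_)
  congr 2
  rw [hq]; field_simp

/-- reverse Hölder inequality, exponential weight -/
theorem rev_hoelder {p : ℝ} (hp : 1 < p) {Y L : Ω → ℝ} (hY0 : ∀ ω, 0 ≤ Y ω)
    (hYm : AEStronglyMeasurable Y μ) (hLm : AEStronglyMeasurable L μ)
    (hYL : Integrable (fun ω => Y ω * Real.exp (-L ω)) μ)
    (hLi : Integrable (fun ω => Real.exp (L ω / (p - 1))) μ) :
    (∫ ω, Y ω ^ (1 / p) ∂μ) ^ p ≤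
      (∫ ω, Y ω * Real.exp (-L ω) ∂μ) * (∫ ω, Real.exp (L ω / (p - 1)) ∂μ) ^ (p - 1) := by
  have hp0 : 0 < p := by linarith
  have hp1 : 0 < p - 1 := by linarith
  have e1 : ∀ ω, (Y ω ^ (1 / p) * Real.exp (-L ω / p)) ^ p = Y ω * Real.exp (-L ω) := by
    intro ω
    rw [Real.mul_rpow (Real.rpow_nonneg (hY0 ω) _) (Real.exp_pos _).le, ← Real.rpow_mul (hY0 ω),
      ← Real.exp_mul]
    congr 2
    · rw [one_div, inv_mul_cancel₀ hp0.ne', Real.rpow_one]
    · field_simp
  have e2 : ∀ ω, Real.exp (p / (p - 1) * (L ω / p)) = Real.exp (L ω / (p - 1)) := by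
    intro ω; congr 1; field_simp
  have h := hoelder_exp (μ := μ) hp (Y := fun ω => Y ω ^ (1 / p) * Real.exp (-L ω / p))
    (L := fun ω => L ω / p)
    (fun ω => mul_nonneg (Real.rpow_nonneg (hY0 ω) _) (Real.exp_pos _).le)
    (((hYm.aemeasurable.pow_const (1 / p)).aestronglyMeasurable).mul
      (Real.continuous_exp.comp_aestronglyMeasurable (hLm.neg.mul_const p⁻¹)))
    (hLm.mul_const p⁻¹) (by simpa only [e1] using hYL) (by simpa only [e2] using hLi)
  simp only [e1, e2] at h
  have e3 : ∀ ω, Y ω ^ (1 / p) * Real.exp (-L ω / p) * Real.exp (L ω / p) = Y ω ^ (1 / p) := by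
    intro ω
    rw [mul_assoc, ← Real.exp_add]
    have : -L ω / p + L ω / p = 0 := by ring
    rw [this, Real.exp_zero, mul_one]
  simp only [e3] at h
  have hA : 0 ≤ ∫ ω, Y ω * Real.exp (-L ω) ∂μ :=
    integral_nonneg fun ω => mul_nonneg (hY0 ω) (Real.exp_pos _).le
  have hB : 0 ≤ ∫ ω, Real.exp (L ω / (p - 1)) ∂μ := integral_nonneg fun ω => (Real.exp_pos _).le
  have hC : 0 ≤ ∫ ω, Y ω ^ (1 / p) ∂μ := integral_nonneg fun ω => Real.rpow_nonneg (hY0 ω) _
  refine (Real.rpow_le_rpow hC h hp0.le).trans (le_of_eq ?_)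
  rw [Real.mul_rpow (Real.rpow_nonneg hA _) (Real.rpow_nonneg hB _), ← Real.rpow_mul hA,
    ← Real.rpow_mul hB]
  congr 2
  · rw [one_div, inv_mul_cancel₀ hp0.ne', Real.rpow_one]
  · field_simp

/-- product of exponentials of finitely many variables -/
theorem exp_sum_le {ι : Type*} {s : Finset ι} (hs : s.Nonempty) {X : ι → Ω → ℝ} {G : ℝ}
    (hi : ∀ i ∈ s, Integrable (fun ω => Real.exp (s.card * X i ω)) μ)
    (hG : ∀ i ∈ s, ∫ ω, Real.exp (s.card * X i ω) ∂μ ≤ G) :
    ∫ ω, Real.exp (∑ i ∈ s, X i ω) ∂μ ≤ G := by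
  have hc : (0 : ℝ) < s.card := by exact_mod_cast hs.card_pos
  have hp : ∀ ω, Real.exp (∑ i ∈ s, X i ω) ≤
      ∑ i ∈ s, (1 / (s.card : ℝ)) * Real.exp (s.card * X i ω) := by
    intro ω
    have h := convexOn_exp.map_sum_le (t := s) (w := fun _ => 1 / (s.card : ℝ))
      (p := fun i => s.card * X i ω) (fun _ _ => by positivity)
      (by simp [hc.ne']) (fun _ _ => Set.mem_univ _)
    simp only [smul_eq_mul] at h
    refine le_trans (le_of_eq ?_) h
    congr 1
    refine Finset.sum_congr rfl fun i _ => ?_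
    field_simp
  by_cases hI : Integrable (fun ω => Real.exp (∑ i ∈ s, X i ω)) μ
  · calc ∫ ω, Real.exp (∑ i ∈ s, X i ω) ∂μ
        ≤ ∫ ω, ∑ i ∈ s, (1 / (s.card : ℝ)) * Real.exp (s.card * X i ω) ∂μ :=
          integral_mono hI (integrable_finsetSum _ fun i hi' => (hi i hi').const_mul _) hp
      _ = ∑ i ∈ s, (1 / (s.card : ℝ)) * ∫ ω, Real.exp (s.card * X i ω) ∂μ := by
          rw [integral_finsetSum _ fun i hi' => (hi i hi').const_mul _]
          exact Finset.sum_congr rfl fun i _ => integral_const_mul _ _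
      _ ≤ ∑ i ∈ s, (1 / (s.card : ℝ)) * G :=
          Finset.sum_le_sum fun i hi' => mul_le_mul_of_nonneg_left (hG i hi') (by positivity)
      _ = G := by rw [Finset.sum_const, nsmul_eq_mul]; field_simp
  · rw [integral_undef hI]
    obtain ⟨i, hi'⟩ := hs
    exact (integral_nonneg fun ω => (Real.exp_pos _).le).trans (hG i hi')

end hoelder

/-- a normalised local density at the level `κ` with constant `C` -/
structure Dens (C : ℝ) (κ : ℕ) (V : Finset Face) (u : Face → ℝ) : Prop where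
  nn : ∀ v ∈ V, 0 ≤ u v
  sum : ∑ v ∈ V, u v = 1
  le : ∀ v ∈ V, u v ≤ C / 4 ^ κ

/-- the error of finitely many local densities -/
def Err {ι : Type*} [Fintype ι] (a c : ι → ℝ) (κ : ι → ℕ) (V : ι → Finset Face)
    (u : ι → Face → ℝ) (z : Rs689.Cfz) : ℝ :=
  ∑ i, (|a i| * |SS lsW (u i) (V i) (κ i) z - VV (κ i)| + c i * QQ lsW (u i) (V i) (κ i) z)

open Classical in
theorem Err_dep {ι : Type*} [Fintype ι] (a c : ι → ℝ) (κ : ι → ℕ) (V : ι → Finset Face)
    (u : ι → Face → ℝ) : DepF (Finset.univ.biUnion fun i => (V i).biUnion fun v =>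
      (Finset.range (κ i)).biUnion fun k => Sup lsW k v) (Err a c κ V u) := by
  refine DepF.sum fun i hi => DepF.add ?_ ?_
  · exact ((SS_dep lsW (u i) (V i) (κ i)).comp fun x => |a i| * |x - VV (κ i)|).mono
      (Finset.subset_biUnion_of_mem (fun i => (V i).biUnion fun v =>
        (Finset.range (κ i)).biUnion fun k => Sup lsW k v) hi)
  · exact ((QQ_dep lsW (u i) (V i) (κ i)).comp fun x => c i * x).mono
      (Finset.subset_biUnion_of_mem (fun i => (V i).biUnion fun v =>
        (Finset.range (κ i)).biUnion fun k => Sup lsW k v) hi)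

/-- **all exponential moments of the local errors**, uniformly in the scales and densities -/
theorem lin_moments {ι : Type*} [Fintype ι] {C : ℝ} (hC : 0 ≤ C) (a c : ι → ℝ) (q : ℝ)
    (hq : 0 ≤ q) (hc : ∀ i, 0 ≤ c i) :
    ∃ G : ℝ, 1 ≤ G ∧ ∀ (κ : ι → ℕ) (V : ι → Finset Face) (u : ι → Face → ℝ),
      (∀ i, Dens C (κ i) (V i) (u i)) →
        ∫ z, Real.exp (q * Err a c κ V u z) ∂(nu hf) ≤ G := by
  classical
  set N : ℝ := ((Finset.univ : Finset (ι × Bool)).card : ℝ) with hN
  have hN0 : 0 ≤ N := by positivity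
  choose G1 hG1 hG1' using fun i => stat_moments hC (N * (q * |a i|))
  choose G2 hG2 hG2' using fun i => stat_moments hC (N * (q * c i))
  set G := 1 + ∑ i, (G1 i + G2 i) with hG
  have hle1 : ∀ i, G1 i ≤ G := fun i => by
    have h1 : G1 i + G2 i ≤ ∑ i, (G1 i + G2 i) :=
      Finset.single_le_sum (f := fun i => G1 i + G2 i)
        (fun j _ => by have := hG1 j; have := hG2 j; linarith) (Finset.mem_univ i)
    have := hG2 i
    linarith
  have hle2 : ∀ i, G2 i ≤ G := fun i => by
    have h1 : G1 i + G2 i ≤ ∑ i, (G1 i + G2 i) :=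
      Finset.single_le_sum (f := fun i => G1 i + G2 i)
        (fun j _ => by have := hG1 j; have := hG2 j; linarith) (Finset.mem_univ i)
    have := hG1 i
    linarith
  have hG0 : 1 ≤ G := by
    have : 0 ≤ ∑ i, (G1 i + G2 i) := Finset.sum_nonneg fun j _ => by
      have := hG1 j; have := hG2 j; linarith
    linarith
  refine ⟨G, hG0, fun κ V u hD => ?_⟩
  have e1 : ∀ z, q * Err a c κ V u z = ∑ p : ι × Bool,
      (if p.2 then q * |a p.1| * |SS lsW (u p.1) (V p.1) (κ p.1) z - VV (κ p.1)|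
        else q * c p.1 * QQ lsW (u p.1) (V p.1) (κ p.1) z) := by
    intro z
    rw [Fintype.sum_prod_type]
    unfold Err
    rw [Finset.mul_sum]
    refine Finset.sum_congr rfl fun i _ => ?_
    simp only [Fintype.sum_bool, if_true, Bool.false_eq_true, if_false]
    ring
  simp only [e1]
  by_cases hne : (Finset.univ : Finset (ι × Bool)).Nonempty
  · refine exp_sum_le hne (fun p _ => ?_) (fun p _ => ?_)
    · obtain ⟨i, b⟩ := p
      cases b
      · exact ((QQ_dep lsW (u i) (V i) (κ i)).comp fun x =>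
          Real.exp (N * (q * c i * x))).integrable _
      · exact ((SS_dep lsW (u i) (V i) (κ i)).comp fun x =>
          Real.exp (N * (q * |a i| * |x - VV (κ i)|))).integrable _
    · obtain ⟨i, b⟩ := p
      cases b
      · have h := ((hG2' i (κ i) (V i) (u i) (hD i).nn (hD i).sum (hD i).le).2).trans (hle2 i)
        refine le_trans (le_of_eq ?_) h
        refine integral_congr_ae (Filter.Eventually.of_forall fun z => ?_)
        have hcc := hc i
        simp only [Bool.false_eq_true, if_false]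
        rw [abs_of_nonneg (by positivity : 0 ≤ N * (q * c i))]
        congr 1
        ring
      · have h := ((hG1' i (κ i) (V i) (u i) (hD i).nn (hD i).sum (hD i).le).1).trans (hle1 i)
        refine le_trans (le_of_eq ?_) h
        refine integral_congr_ae (Filter.Eventually.of_forall fun z => ?_)
        simp only [if_true]
        rw [abs_of_nonneg (by positivity : 0 ≤ N * (q * |a i|))]
        congr 1
        ring
  · rw [Finset.not_nonempty_iff_eq_empty] at hne
    simp only [hne, Finset.sum_empty, Real.exp_zero]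
    simpa using hG0

end Crest.Agent.R158.Hd109
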