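import Crest.Agent.R158.Bg4_612
import Crest.Agent.R158.Hd1_109

/-!
# Row 158, identity B (helper612), part 5: supports and local moments

* `Rg a b` : edges whose base point is at distance between `a` and `b` from the origin
* `dep_arms2`, `dep_NN`, `dep_circ`, `dep_circ'`, `dep_SS`
* `ring_pack`, `mids_pack` : local majorants with exponential moments
-/

set_option autoImplicit false

noncomputable section

namespace Crest.Agent.R158.B612

open MeasureTheory hiding Lp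
open Crest.Agent.R161.Geo729 Crest.Agent.R161.Dual374
open Crest.Agent.R161.Tas682 (sd)
open Crest.Agent.R161.Ifc372 (CircZ)
open Crest.Agent.R161.Ann374 (mem_ball)
open Crest.Agent.R158.It200 hiding hf
open Crest.Agent.R158.Wf850
open Crest.Agent.R158.Fr158 (bx mem_bx mem_bx_sd eIn mem_eIn)
open Crest.Agent.R158.Cn109 (lsW smalls mem_smalls SS QQ DepF VV Sup)
open Crest.Agent.R158.Rs689 (dual Dep nu hf dE annE mem_annE circ_dep fA_dE fB_dE PB)
open Crest.Agent.R158.Em522 (starE)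

/-- edges with base point at distance in `[a, b]` -/
def Rg (a b : ℤ) : Finset Edge :=
  ((bx (0, 0) b) ×ˢ (Finset.univ : Finset Bool)).filter fun e => a ≤ sd (0, 0) e.1

theorem mem_Rg {a b : ℤ} {e : Edge} : e ∈ Rg a b ↔ a ≤ sd (0, 0) e.1 ∧ sd (0, 0) e.1 ≤ b := by
  unfold Rg
  rw [Finset.mem_filter, Finset.mem_product, mem_bx_sd]
  simp only [Finset.mem_univ, and_true]
  tauto

theorem Rg_disj {a b a' b' : ℤ} (h : b < a') : Disjoint (Rg a b) (Rg a' b') := by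
  rw [Finset.disjoint_left]
  intro e he he'
  rw [mem_Rg] at he he'
  omega

theorem Rg_mono {a b a' b' : ℤ} (h1 : a' ≤ a) (h2 : b ≤ b') : Rg a b ⊆ Rg a' b' := by
  intro e he
  rw [mem_Rg] at he ⊢
  omega

/-! ### supports -/

theorem pstep_mem {z : Cfz} {u v : P2} {m : ℤ} (h : PStep (fun e => z e = true) u v)
    (hu : sd (0, 0) u ≤ m) (hv : sd (0, 0) v ≤ m) {z' : Cfz} (hz : ∀ e ∈ Rg 0 m, z e = z' e) :
    PStep (fun e => z' e = true) u v := by
  obtain ⟨e, he, hh⟩ := h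
  refine ⟨e, ?_, hh⟩
  show z' e = true
  rw [← hz e]
  · exact he
  · rw [mem_Rg]
    refine ⟨sd_nonneg' _ _, ?_⟩
    rcases hh with ⟨h1, h2⟩ | ⟨h1, h2⟩
    · have h3 : e.1 = u := h1.symm
      rw [h3]; exact hu
    · have h3 : e.1 = v := h2.symm
      rw [h3]; exact hv

theorem dstep_mem {z : Cfz} {u v : P2} {m : ℤ} (h : DStep (fun e => z e = false) u v)
    (hu : sd (0, 0) u ≤ m) (hv : sd (0, 0) v ≤ m) {z' : Cfz} (hz : ∀ e ∈ Rg 0 m, z e = z' e) :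
    DStep (fun e => z' e = false) u v := by
  obtain ⟨e, he, hh⟩ := h
  have hm : e ∈ Rg 0 m := by
    rw [mem_Rg]
    refine ⟨sd_nonneg' _ _, ?_⟩
    rcases hh with ⟨h1, h2⟩ | ⟨h1, h2⟩
    · have h3 : e.1 = u := h1.symm
      rw [h3]; exact hu
    · have h3 : e.1 = v := h2.symm
      rw [h3]; exact hv
  refine ⟨e, ?_, hh⟩
  show z' e = false
  rw [← hz e hm]
  exact he

/-- generic exit argument -/
theorem exit {α β : P2 → P2 → Prop} {m : ℤ} {u : P2} (hu : sd (0, 0) u ≤ m)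
    (hnear : ∀ u v, α u v → |u.1 - v.1| ≤ 1 ∧ |u.2 - v.2| ≤ 1)
    (hstep : ∀ v w, α v w → sd (0, 0) v ≤ m → sd (0, 0) w ≤ m → β v w) {v : P2}
    (h : Relation.ReflTransGen α u v) :
    (Relation.ReflTransGen β u v ∧ sd (0, 0) v ≤ m) ∨
      ∃ w, Relation.ReflTransGen β u w ∧ sd (0, 0) w = m := by
  induction h with
  | refl => exact Or.inl ⟨.refl, hu⟩
  | @tail b c _ h2 ih =>
    rcases ih with ⟨h3, h4⟩ | h3
    · by_cases h5 : sd (0, 0) b = m
      · exact Or.inr ⟨b, h3, h5⟩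
      · obtain ⟨k1, k2⟩ := hnear _ _ h2
        have h6 : sd (0, 0) c ≤ sd (0, 0) b + 1 :=
          sd_near (by rwa [abs_sub_comm]) (by rwa [abs_sub_comm])
        exact Or.inl ⟨h3.tail (hstep _ _ h2 h4 (by omega)), by omega⟩
    · exact Or.inr h3

theorem dep_arms2 {m : ℤ} (hm : 0 ≤ m) : Dep (Rg 0 m) (Arms2 m) := by
  have h00 : sd (0, 0) (0, 0) = 0 := by simp [sd]
  have key : ∀ z z' : Cfz, (∀ e ∈ Rg 0 m, z e = z' e) → z ∈ Arms2 m → z' ∈ Arms2 m := by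
    rintro z z' hz ⟨⟨v, hv, hvm⟩, g, hg, hgm⟩
    constructor
    · rcases exit (β := PStep (fun e => z' e = true)) (m := m) (u := (0, 0))
        (by rw [h00]; exact hm) (fun _ _ => pstep_near)
        (fun a b h1 h2 h3 => pstep_mem h1 h2 h3 hz) hv with ⟨h1, h2⟩ | ⟨w, h1, h2⟩
      · exact ⟨v, h1, hvm⟩
      · exact ⟨w, h1, h2.ge⟩
    · rcases exit (β := DStep (fun e => z' e = false)) (m := m) (u := (0, 0))
        (by rw [h00]; exact hm) (fun _ _ => dstep_near)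
        (fun a b h1 h2 h3 => dstep_mem h1 h2 h3 hz) hg with ⟨h1, h2⟩ | ⟨w, h1, h2⟩
      · exact ⟨g, h1, hgm⟩
      · exact ⟨w, h1, h2.ge⟩
  intro z z' h
  exact ⟨key z z' h, key z' z fun e he => (h e he).symm⟩

theorem arms2_anti {m n : ℤ} (h : m ≤ n) : Arms2 n ⊆ Arms2 m := by
  rintro z ⟨⟨v, hv, h1⟩, g, hg, h2⟩
  exact ⟨⟨v, hv, h.trans h1⟩, g, hg, h.trans h2⟩

theorem dep_NN (S : ℕ) : DepF (Rg 0 (S + 2)) (NN (0, 0) 0 S) := by
  refine (NN_dep (0, 0) 0 S).mono ?_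
  intro e he
  unfold annF at he
  rw [Finset.mem_sdiff, mem_eIn, mem_bx_sd] at he
  rw [mem_Rg]
  exact ⟨sd_nonneg' _ _, he.1.1⟩

theorem annE_sub (n m : ℕ) : annE (0, 0) n m ⊆ Rg (n - 1) (m + 1) := by
  intro e he
  rw [mem_annE, mem_ball, mem_ball, mem_ball, mem_ball] at he
  rw [mem_Rg, sd0_le]
  have h1 : ((n : ℤ) - 1 ≤ sd (0, 0) e.1) ↔ ¬ sd (0, 0) e.1 ≤ n - 2 := by omega
  rw [h1, sd0_le]
  obtain ⟨⟨a, b⟩, s⟩ := e
  obtain ⟨h2, h3⟩ := he
  cases s <;> simp only [fA, fB, if_true, Bool.false_eq_true, if_false] at h2 h3 ⊢ <;>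
    constructor <;> omega

theorem annE_sub' (n m : ℕ) : (annE (0, 0) n m).map dE.symm.toEmbedding ⊆ Rg (n - 2) (m + 2) := by
  intro e he
  rw [Finset.mem_map] at he
  obtain ⟨e', he', rfl⟩ := he
  have h0 : e' = dE (dE.symm e') := (dE.apply_symm_apply e').symm
  rw [h0, mem_annE, fA_dE, fB_dE, mem_ball, mem_ball, mem_ball, mem_ball] at he'
  show dE.symm e' ∈ _
  generalize dE.symm e' = e at he'
  rw [mem_Rg, sd0_le]
  have h1 : ((n : ℤ) - 2 ≤ sd (0, 0) e.1) ↔ ¬ sd (0, 0) e.1 ≤ n - 3 := by omega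
  rw [h1, sd0_le]
  obtain ⟨⟨a, b⟩, s⟩ := e
  obtain ⟨h2, h3⟩ := he'
  cases s <;> simp only [src, tgt, if_true, Bool.false_eq_true, if_false] at h2 h3 ⊢ <;>
    constructor <;> omega

theorem dep_circ (n m : ℕ) : Dep (Rg (n - 1) (m + 1)) (CircZ (0, 0) n m) :=
  (circ_dep (0, 0) n m).mono (annE_sub n m)

theorem dep_circ' (n m : ℕ) : Dep (Rg (n - 2) (m + 2)) (dual ⁻¹' CircZ (0, 0) n m) :=
  (circ_dep (0, 0) n m).dual.mono (annE_sub' n m)

theorem sup_sub {S κ : ℕ} (hκ : 2 ^ κ = 16 * S) :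
    ((VR S).biUnion fun v => (Finset.range κ).biUnion fun k => Sup lsW k v) ⊆
      Rg (48 * S) (1040 * S) := by
  classical
  intro e he
  rw [Finset.mem_biUnion] at he
  obtain ⟨v, hv, he⟩ := he
  rw [Finset.mem_biUnion] at he
  obtain ⟨k, hk, he⟩ := he
  have h1 := Cn109.sup_near lsW he
  have h2 : (2 : ℤ) ^ (k + 1) ≤ 16 * S := by
    have h3 : 2 ^ (k + 1) ≤ 2 ^ κ := Nat.pow_le_pow_right (by norm_num) (Finset.mem_range.1 hk)
    rw [hκ] at h3
    exact_mod_cast h3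
  rw [mem_VR] at hv
  obtain ⟨h4, h5⟩ := hv
  have h6 : sd e.1 v.1 ≤ 16 * S := by
    unfold sd
    rw [abs_sub_comm, abs_sub_comm v.1.2]
    exact max_le (h1.1.trans h2) (h1.2.trans h2)
  have h7 := sd_tri (0, 0) e.1 v.1
  have h8 := sd_tri (0, 0) v.1 e.1
  have h9 := sd_symm' v.1 e.1
  have e1 : s0 v = sd (0, 0) v.1 := rfl
  rw [mem_Rg]
  constructor <;> omega

theorem dep_SS {S κ : ℕ} (hκ : 2 ^ κ = 16 * S) :
    DepF (Rg (48 * S) (1040 * S)) (SS lsW (fun _ => uc S) (VR S) κ) :=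
  (Cn109.SS_dep lsW _ _ _).mono (sup_sub hκ)

theorem dep_QQ {S κ : ℕ} (hκ : 2 ^ κ = 16 * S) :
    DepF (Rg (48 * S) (1040 * S)) (QQ lsW (fun _ => uc S) (VR S) κ) :=
  (Cn109.QQ_dep lsW _ _ _).mono (sup_sub hκ)

theorem star_sub {x : P2} {r : ℕ} {a b : ℤ} (h1 : a ≤ sd (0, 0) x - r - 1)
    (h2 : sd (0, 0) x + r + 1 ≤ b) : starE x r ⊆ Rg a b := by
  intro e he
  unfold starE at he
  rw [Finset.mem_product, Finset.mem_product, Finset.mem_Icc, Finset.mem_Icc] at he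
  obtain ⟨⟨⟨h3, h4⟩, h5, h6⟩, -⟩ := he
  have h7 : sd x e.1 ≤ r + 1 := by
    unfold sd
    refine max_le ?_ ?_ <;> rw [abs_le] <;> constructor <;> linarith
  have h8 := sd_tri (0, 0) x e.1
  have h9 := sd_tri (0, 0) e.1 x
  have h10 := sd_symm' x e.1
  rw [mem_Rg]
  constructor <;> omega

/-! ### the grid -/

/-- indices of the grid -/
def Gi : Finset (ℤ × ℤ) :=
  (Finset.Icc (-130) 130 ×ˢ Finset.Icc (-130) 130).filter fun i => 7 ≤ max |i.1| |i.2|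

theorem mem_Gi {i : ℤ × ℤ} : i ∈ Gi ↔
    ((-130 ≤ i.1 ∧ i.1 ≤ 130) ∧ (-130 ≤ i.2 ∧ i.2 ≤ 130)) ∧ 7 ≤ max |i.1| |i.2| := by
  unfold Gi
  rw [Finset.mem_filter, Finset.mem_product, Finset.mem_Icc, Finset.mem_Icc]

attribute [irreducible] Gi

theorem Gi_ne : Gi.Nonempty := by
  refine ⟨((7 : ℤ), (0 : ℤ)), ?_⟩
  rw [mem_Gi]
  refine ⟨⟨⟨by norm_num, by norm_num⟩, by norm_num, by norm_num⟩, ?_⟩
  exact le_max_of_le_left (by norm_num)

/-- grid points -/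
def gp (S : ℕ) (i : ℤ × ℤ) : P2 := (8 * S * i.1, 8 * S * i.2)

theorem sd_gp (S : ℕ) (i : ℤ × ℤ) : sd (0, 0) (gp S i) = 8 * S * max |i.1| |i.2| := by
  rw [sd0_eq]
  unfold gp
  have h : (0 : ℤ) ≤ 8 * S := by positivity
  simp only
  rw [abs_mul (8 * (S : ℤ)) i.1, abs_mul (8 * (S : ℤ)) i.2, abs_of_nonneg h,
    mul_max_of_nonneg _ _ h]

theorem round_near {S : ℕ} (hS : 1 ≤ S) (a : ℤ) :
    ∃ i : ℤ, 8 * S * i - a ≤ 4 * S ∧ a - 8 * S * i ≤ 4 * S := by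
  refine ⟨(a + 4 * S) / (8 * S), ?_, ?_⟩
  · have h := Int.mul_ediv_self_le (x := a + 4 * S) (k := 8 * S) (by positivity)
    linarith
  · have h := Int.lt_mul_ediv_self_add (x := a + 4 * S) (k := 8 * S) (by positivity)
    linarith

theorem exists_gp {S : ℕ} (hS : 1 ≤ S) {v : P2} (h1 : 64 * S < sd (0, 0) v)
    (h2 : sd (0, 0) v ≤ 1024 * S) : ∃ i ∈ Gi, sd (gp S i) v ≤ 4 * S := by
  have hs : (1 : ℤ) ≤ S := by exact_mod_cast hS
  obtain ⟨i, hi1, hi2⟩ := round_near hS v.1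
  obtain ⟨j, hj1, hj2⟩ := round_near hS v.2
  rw [sd0_le] at h2
  rw [lt_sd0] at h1
  have bi : -130 ≤ i ∧ i ≤ 130 := by constructor <;> nlinarith
  have bj : -130 ≤ j ∧ j ≤ 130 := by constructor <;> nlinarith
  refine ⟨(i, j), ?_, ?_⟩
  · rw [mem_Gi]
    refine ⟨⟨bi, bj⟩, ?_⟩
    simp only
    rw [le_max_iff, le_abs, le_abs]
    rcases h1 with h1 | h1 | h1 | h1
    · left; right; nlinarith
    · left; left; nlinarith
    · right; right; nlinarith
    · right; left; nlinarith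
  · unfold sd gp
    refine max_le ?_ ?_ <;> rw [abs_le] <;> simp only <;> constructor <;> linarith

/-- **local majorant at the ring** -/
theorem ring_count (t : ℝ) (ht : 0 ≤ t) : ∃ G : ℝ, 1 ≤ G ∧ ∀ S : ℕ, 1 ≤ S → ∃ KT : Cfz → ℕ,
    DepF (Rg (38 * S) (1060 * S)) KT ∧ (∀ z, (RCs S z).ncard ≤ KT z) ∧
      ∫ z, Real.exp (t * KT z) ∂(nu hf) ≤ G := by
  classical
  obtain ⟨C, hC, h⟩ := Lc522.l7 (Real.exp (Gi.card * t)) (Real.one_le_exp (by positivity))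
  refine ⟨C, hC, fun S hS => ?_⟩
  have h' : ∀ i : ℤ × ℤ, ∃ K : Cfz → ℕ, DepF (starE (gp S i) (2 * (8 * S))) K ∧
      ∫ z, (Real.exp (Gi.card * t)) ^ K z ∂(nu hf) ≤ C ∧
      ∀ z : Cfz, {A | A ∈ Lps z ∧ Splits A (BF (gp S i) (8 * S : ℕ)) ∧
        8 * S ≤ 2 * (Cn109.dia A + 1)}.ncard ≤ K z := by
    intro i
    obtain ⟨K, h1, h2, h3⟩ := h (gp S i) (8 * S) (by omega)
    exact ⟨K, h1, h2, h3⟩
  choose K hK1 hK2 hK3 using h'
  refine ⟨fun z => ∑ i ∈ Gi, K i z, ?_, ?_, ?_⟩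
  · intro z z' hz
    refine Finset.sum_congr rfl fun i hi => hK1 i z z' fun e he => hz e ?_
    rw [mem_Gi] at hi
    obtain ⟨⟨⟨b1, b2⟩, b3, b4⟩, b5⟩ := hi
    have b6 : max |i.1| |i.2| ≤ 130 := max_le (abs_le.2 ⟨b1, b2⟩) (abs_le.2 ⟨b3, b4⟩)
    have hs : (1 : ℤ) ≤ S := by exact_mod_cast hS
    refine star_sub (a := 38 * S) (b := 1060 * S) ?_ ?_ he
    · rw [sd_gp]; push_cast; nlinarith
    · rw [sd_gp]; push_cast; nlinarith
  · intro z
    have hsub : RCs S z ⊆ ⋃ i ∈ Gi, {A | A ∈ Lps z ∧ Splits A (BF (gp S i) (8 * S : ℕ)) ∧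
        8 * S ≤ 2 * (Cn109.dia A + 1)} := by
      rintro A ⟨hA, ⟨d, hd1, hd2, hd3⟩, hd⟩
      obtain ⟨i, hi, hi'⟩ := exists_gp hS hd1.1 hd1.2
      rw [Set.mem_iUnion₂]
      have hs : (1 : ℤ) ≤ S := by exact_mod_cast hS
      have hi'' : sd (gp S i) d.1 ≤ 4 * S := hi'
      refine ⟨i, hi, hA, splits_of_cut (d := d) ?_ ?_ hd3, ?_⟩
      · push_cast; linarith
      · have := (sd_corner (gp S i) d).2
        push_cast; linarith
      · have : Wf850.dia A = Cn109.dia A := rfl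
        omega
    have hfin : ∀ i : ℤ × ℤ, {A | A ∈ Lps z ∧ Splits A (BF (gp S i) (8 * S : ℕ)) ∧
        8 * S ≤ 2 * (Cn109.dia A + 1)}.Finite := fun i =>
      (fin_split z (gp S i) (8 * S : ℕ)).subset fun A hA => ⟨hA.1, hA.2.1⟩
    calc (RCs S z).ncard ≤ (⋃ i ∈ Gi, {A | A ∈ Lps z ∧ Splits A (BF (gp S i) (8 * S : ℕ)) ∧
        8 * S ≤ 2 * (Cn109.dia A + 1)}).ncard :=
          Set.ncard_le_ncard hsub (Set.Finite.biUnion (Finset.finite_toSet _) fun i _ => hfin i)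
      _ ≤ ∑ i ∈ Gi, {A | A ∈ Lps z ∧ Splits A (BF (gp S i) (8 * S : ℕ)) ∧
        8 * S ≤ 2 * (Cn109.dia A + 1)}.ncard := Finset.set_ncard_biUnion_le _ _
      _ ≤ ∑ i ∈ Gi, K i z := Finset.sum_le_sum fun i _ => hK3 i z
  · have hne : Gi.Nonempty := Gi_ne
    have e1 : ∀ z, t * ((∑ i ∈ Gi, K i z : ℕ) : ℝ) = ∑ i ∈ Gi, t * (K i z : ℝ) := by
      intro z; push_cast; rw [Finset.mul_sum]
    simp only [e1]
    have e2 : ∀ i z, Real.exp (Gi.card * (t * (K i z : ℝ))) = (Real.exp (Gi.card * t)) ^ K i z := by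
      intro i z
      rw [← Real.exp_nat_mul]
      congr 1; ring
    refine Hd109.exp_sum_le (μ := nu hf) hne (fun i _ => ?_) fun i _ => ?_
    · exact ((hK1 i).comp fun n : ℕ => Real.exp (Gi.card * (t * (n : ℝ)))).integrable _
    · simp only [e2]
      exact hK2 i

/-- **local majorant of the middle loops around the corner** -/
theorem mids_count (t : ℝ) (ht : 0 ≤ t) : ∃ G : ℝ, 1 ≤ G ∧ ∀ S : ℕ, 1 ≤ S → ∃ KM : Cfz → ℕ,
    DepF (Rg 0 (2049 * S)) KM ∧ (∀ z, (Mids S z).ncard ≤ KM z) ∧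
      ∫ z, Real.exp (t * KM z) ∂(nu hf) ≤ G := by
  classical
  obtain ⟨C, hC, h⟩ := Lc522.l7 (Real.exp ((Finset.range 11).card * t))
    (Real.one_le_exp (by positivity))
  refine ⟨C, hC, fun S hS => ?_⟩
  have hpos : ∀ j : ℕ, 1 ≤ 2 ^ j * S := fun j => Nat.one_le_iff_ne_zero.2 (by positivity)
  have h' : ∀ j : ℕ, ∃ K : Cfz → ℕ, DepF (starE (0, 0) (2 * (2 ^ j * S))) K ∧
      ∫ z, (Real.exp ((Finset.range 11).card * t)) ^ K z ∂(nu hf) ≤ C ∧
      ∀ z : Cfz, {A | A ∈ Lps z ∧ Splits A (BF (0, 0) (2 ^ j * S : ℕ)) ∧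
        2 ^ j * S ≤ 2 * (Cn109.dia A + 1)}.ncard ≤ K z := by
    intro j
    obtain ⟨K, h1, h2, h3⟩ := h (0, 0) (2 ^ j * S) (hpos j)
    exact ⟨K, h1, h2, h3⟩
  choose K hK1 hK2 hK3 using h'
  refine ⟨fun z => ∑ i ∈ Finset.range 11, K i z, ?_, ?_, ?_⟩
  · intro z z' hz
    refine Finset.sum_congr rfl fun i hi => hK1 i z z' fun e he => hz e ?_
    rw [mem_Rg]
    refine ⟨sd_nonneg' _ _, ?_⟩
    have h1 := star_sub (x := (0, 0)) (r := 2 * (2 ^ i * S)) (a := -(2 * (2 ^ i * S) : ℕ) - 1)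
      (b := (2 * (2 ^ i * S) : ℕ) + 1) (by simp [sd]) (by simp [sd]) he
    rw [mem_Rg] at h1
    refine h1.2.trans ?_
    have h2 : 2 ^ i ≤ 2 ^ 10 := Nat.pow_le_pow_right (by norm_num)
      (by have := Finset.mem_range.1 hi; omega)
    have h3 : 2 ^ i * S ≤ 2 ^ 10 * S := Nat.mul_le_mul_right S h2
    have h4 : 2 * (2 ^ i * S) + 1 ≤ 2049 * S := by omega
    exact_mod_cast h4
  · intro z
    have hsub : Mids S z ⊆ ⋃ j ∈ Finset.range 11, {A | A ∈ Lps z ∧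
        Splits A (BF (0, 0) (2 ^ j * S : ℕ)) ∧ 2 ^ j * S ≤ 2 * (Cn109.dia A + 1)} := by
      rintro A ⟨hA, hv, h1, h2⟩
      have e10 : ((2 ^ 10 * S : ℕ) : ℤ) = 1024 * S := by push_cast; ring
      have hex : ∃ j : ℕ, ¬ BF (0, 0) ((2 ^ j * S : ℕ) : ℤ) ⊆ A := ⟨10, by
        rw [e10]
        exact h2⟩
      have hj1 := Nat.find_spec hex
      have hj2 : Nat.find hex ≤ 10 := Nat.find_min' hex (by
        rw [e10]
        exact h2)
      rw [Set.mem_iUnion₂]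
      refine ⟨Nat.find hex, Finset.mem_range.2 (by omega), hA, ?_, ?_⟩
      · rw [Finset.not_subset] at hj1
        obtain ⟨g, hg, hgA⟩ := hj1
        exact ⟨⟨v0, by rw [mem_BF]; show s0 v0 ≤ _; rw [s0_v0]; positivity, hv⟩, g, hg, hgA⟩
      · rcases Nat.eq_zero_or_pos (Nat.find hex) with h0 | h0
        · rw [h0, pow_zero, one_mul]
          rw [Finset.not_subset] at h1
          obtain ⟨g, hgA, hg⟩ := h1
          rw [mem_BF] at hg
          have h3 := Wf850.sd_le_dia hv hgA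
          have e : sd v0.1 g.1 = sd (0, 0) g.1 := rfl
          have : Wf850.dia A = Cn109.dia A := rfl
          omega
        · have h3 := Nat.find_min hex (m := Nat.find hex - 1) (by omega)
          rw [not_not] at h3
          set n := 2 ^ (Nat.find hex - 1) * S with hn
          have h4 : 2 ^ Nat.find hex * S = 2 * n := by
            rw [hn, ← mul_assoc, ← pow_succ', Nat.sub_add_cancel h0]
          rw [h4]
          have k1 : (((n : ℤ), (0 : ℤ)), false) ∈ A := h3 (by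
            rw [mem_BF, sd0_le]; dsimp only; omega)
          have k2 : ((-(n : ℤ), (0 : ℤ)), false) ∈ A := h3 (by
            rw [mem_BF, sd0_le]; dsimp only; omega)
          have h5 := Wf850.sd_le_dia k2 k1
          have h6 : (2 * n : ℤ) ≤ sd ((-(n : ℤ), (0 : ℤ)) : P2) ((n : ℤ), (0 : ℤ)) := by
            unfold sd
            refine le_max_of_le_left ?_
            simp only
            rw [sub_neg_eq_add]
            refine le_trans ?_ (le_abs_self _)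
            linarith
          have : Wf850.dia A = Cn109.dia A := rfl
          dsimp only at h5
          omega
    have hfin : ∀ j : ℕ, {A | A ∈ Lps z ∧ Splits A (BF (0, 0) (2 ^ j * S : ℕ)) ∧
        2 ^ j * S ≤ 2 * (Cn109.dia A + 1)}.Finite := fun j =>
      (fin_split z (0, 0) (2 ^ j * S : ℕ)).subset fun A hA => ⟨hA.1, hA.2.1⟩
    calc (Mids S z).ncard ≤ (⋃ j ∈ Finset.range 11, {A | A ∈ Lps z ∧
        Splits A (BF (0, 0) (2 ^ j * S : ℕ)) ∧ 2 ^ j * S ≤ 2 * (Cn109.dia A + 1)}).ncard :=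
          Set.ncard_le_ncard hsub (Set.Finite.biUnion (Finset.finite_toSet _) fun i _ => hfin i)
      _ ≤ ∑ j ∈ Finset.range 11, {A | A ∈ Lps z ∧ Splits A (BF (0, 0) (2 ^ j * S : ℕ)) ∧
        2 ^ j * S ≤ 2 * (Cn109.dia A + 1)}.ncard := Finset.set_ncard_biUnion_le _ _
      _ ≤ ∑ j ∈ Finset.range 11, K j z := Finset.sum_le_sum fun i _ => hK3 i z
  · have hne : (Finset.range 11).Nonempty := ⟨0, by simp⟩
    have e1 : ∀ z, t * ((∑ i ∈ Finset.range 11, K i z : ℕ) : ℝ) =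
        ∑ i ∈ Finset.range 11, t * (K i z : ℝ) := by
      intro z; push_cast; rw [Finset.mul_sum]
    simp only [e1]
    have e2 : ∀ i z, Real.exp ((Finset.range 11).card * (t * (K i z : ℝ))) =
        (Real.exp ((Finset.range 11).card * t)) ^ K i z := by
      intro i z
      rw [← Real.exp_nat_mul]
      congr 1; ring
    refine Hd109.exp_sum_le (μ := nu hf) hne (fun i _ => ?_) fun i _ => ?_
    · exact ((hK1 i).comp fun n : ℕ =>
        Real.exp ((Finset.range 11).card * (t * (n : ℝ)))).integrable _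
    · simp only [e2]
      exact hK2 i

end Crest.Agent.R158.B612
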