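import Crest.Agent.R158.Lc4_522
import Crest.Agent.R158.Cn4_109

/-!
# Row 158 (helper522): block chains for `E exp(t NN)`

* `chain_upper`, `chain_lower`, `apriori0`
* `up1`, `lo1` : from one-block bounds to `E exp(s NN x 0 n) = n^(e ± d)`
* `e2` : (I2) of doc 1912
* `tot_le_nn`, `nn_le_tot` : comparison with `Cn109.tot`
-/

set_option autoImplicit false

noncomputable section

namespace Crest.Agent.R158.Lc522

open Finset unitInterval MeasureTheory Filter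
open Crest.Agent.R161.Geo729 Crest.Agent.R161.Tas682
open Crest.Agent.R158.Rs689 (PB nu hf)
open Crest.Agent.R158.It200 (Cfz Corner)
open Crest.Agent.R158.Em522 (starE)
open Crest.Agent.R158.Fr158 (bx mem_bx mem_bx_sd eIn mem_eIn)
open Crest.Agent.R158.Wf850 (Face BF mem_BF BF_mono Lps Splits bdE bdE_off NN NN_dep NN_super annF
  annF_disj exists_sep sep_uniq sepC cv)
open Crest.Agent.R158.Cn109 (DepF dia holder_exp integral_prod_indep)

/-! ### monotonicity -/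

theorem nn_mono {x : P2} {r R r' R' : ℤ} (hr : r' ≤ r) (hR : R ≤ R') (z : Cfz) :
    NN x r R z ≤ NN x r' R' z := by
  rw [nnF_card, nnF_card]
  refine card_le_card fun A hA => ?_
  obtain ⟨h1, h2, h3⟩ := mem_nnF.1 hA
  exact mem_nnF.2 ⟨h1.trans (BF_mono hR), (BF_mono hr).trans h2, h3⟩

theorem exp_mono_s {x : P2} {r R : ℤ} {s s' : ℝ} (h : s ≤ s') :
    ∫ z, Real.exp (s * NN x r R z) ∂(nu hf) ≤ ∫ z, Real.exp (s' * NN x r R z) ∂(nu hf) :=
  integral_mono (nn_int s x r R) (nn_int s' x r R) fun _ =>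
    Real.exp_le_exp.2 (mul_le_mul_of_nonneg_right h (Nat.cast_nonneg _))

theorem exp_mono_nn {x : P2} {r R r' R' : ℤ} {s : ℝ} (hs : 0 ≤ s) (hr : r' ≤ r) (hR : R ≤ R') :
    ∫ z, Real.exp (s * NN x r R z) ∂(nu hf) ≤ ∫ z, Real.exp (s * NN x r' R' z) ∂(nu hf) :=
  integral_mono (nn_int s x r R) (nn_int s x r' R') fun z =>
    Real.exp_le_exp.2 (mul_le_mul_of_nonneg_left (by exact_mod_cast nn_mono hr hR z) hs)

theorem one_le_exp_nn {x : P2} {r R : ℤ} {s : ℝ} (hs : 0 ≤ s) :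
    1 ≤ ∫ z, Real.exp (s * NN x r R z) ∂(nu hf) := by
  have h : ∫ _z : Cfz, (1 : ℝ) ∂(nu hf) ≤ ∫ z, Real.exp (s * NN x r R z) ∂(nu hf) :=
    integral_mono (integrable_const _) (nn_int s x r R) fun _ =>
      Real.one_le_exp (by positivity)
  simpa [nu] using h

/-! ### the centre -/

/-- number of loops splitting a ball -/
theorem card_split_le {z : Cfz} {x : P2} {n : ℕ} (s : Finset (Finset Face))
    (hs : ∀ A ∈ s, A ∈ Lps z ∧ Splits A (BF x n)) : s.card ≤ (2 * n + 1) ^ 2 * 4 := by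
  classical
  have h1 : ∀ A ∈ s, ∃ d : Corner, cv d ∈ BF x n ∧ sepC A d := fun A hA => by
    obtain ⟨d, hd, _, hd'⟩ := exists_sep (hs A hA).2
    exact ⟨d, hd, hd'⟩
  choose! φ hφ hφ' using h1
  have h2 : Set.InjOn φ s := by
    intro A hA B hB h
    exact sep_uniq (hs A hA).1 (hs B hB).1 (hφ' A hA) (by rw [h]; exact hφ' B hB)
  have h3 : s.image φ ⊆ bx x n ×ˢ (Finset.univ : Finset (Fin 4)) := by
    intro d hd
    obtain ⟨A, hA, rfl⟩ := mem_image.1 hd
    rw [mem_product]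
    refine ⟨?_, Finset.mem_univ _⟩
    have := hφ A hA
    rw [mem_BF] at this
    rw [mem_bx_sd]
    exact this
  have h4 := card_le_card h3
  rw [card_image_of_injOn h2, card_product, Wf850.card_bx, card_univ, Fintype.card_fin] at h4
  exact h4

open Classical in
theorem nn_centre (x : P2) (r : ℕ) (R : ℤ) (z : Cfz) :
    NN x 0 R z ≤ (2 * r + 1) ^ 2 * 4 + NN x r R z := by
  rw [nnF_card, nnF_card]
  have h1 : nnF x 0 R z ⊆ (nnF x 0 R z).filter (fun A => ¬ BF x r ⊆ A) ∪ nnF x r R z := by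
    intro A hA
    rw [mem_union, mem_filter]
    by_cases h : BF x r ⊆ A
    · obtain ⟨h1, _, h3⟩ := mem_nnF.1 hA
      exact Or.inr (mem_nnF.2 ⟨h1, h, h3⟩)
    · exact Or.inl ⟨hA, h⟩
  refine (card_le_card h1).trans ((card_union_le _ _).trans (add_le_add ?_ le_rfl))
  refine card_split_le (z := z) (x := x) _ fun A hA => ?_
  obtain ⟨h2, h3⟩ := mem_filter.1 hA
  obtain ⟨h4, h5, h6⟩ := mem_nnF.1 h2
  exact ⟨h6, splits_of (r := 0) h5 h3⟩

theorem exp_centre {s : ℝ} (hs : 0 ≤ s) (x : P2) (r : ℕ) (R : ℤ) :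
    ∫ z, Real.exp (s * NN x 0 R z) ∂(nu hf) ≤ Real.exp (s * ((2 * r + 1) ^ 2 * 4 : ℕ)) *
      ∫ z, Real.exp (s * NN x r R z) ∂(nu hf) := by
  rw [← integral_const_mul]
  refine integral_mono (nn_int s x 0 R) ((nn_int s x r R).const_mul _) fun z => ?_
  simp only
  rw [← Real.exp_add, ← mul_add]
  refine Real.exp_le_exp.2 (mul_le_mul_of_nonneg_left ?_ hs)
  exact_mod_cast nn_centre x r R z

/-- **a priori bound from the centre** -/
theorem apriori0 (t : ℝ) (ht : 0 ≤ t) : ∃ C : ℝ, 1 ≤ C ∧ ∀ (x : P2) (R : ℕ), 1 ≤ R →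
    ∫ z, Real.exp (t * NN x 0 R z) ∂(nu hf) ≤ C * (R : ℝ) ^ C := by
  obtain ⟨C, hC, h⟩ := apriori_pow t ht
  set B := Real.exp (t * ((2 * 1 + 1) ^ 2 * 4 : ℕ)) with hB
  have hB1 : 1 ≤ B := Real.one_le_exp (by positivity)
  refine ⟨B * C, by nlinarith, fun x R hR => ?_⟩
  have h1 := exp_centre ht x 1 (R : ℤ)
  have h2 := h x 1 R le_rfl hR
  have hR1 : (1 : ℝ) ≤ R := by exact_mod_cast hR
  refine h1.trans ?_
  rw [mul_assoc]
  refine mul_le_mul_of_nonneg_left (h2.trans ?_) (Real.exp_pos _).le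
  rw [Nat.cast_one, div_one]
  refine mul_le_mul_of_nonneg_left ?_ (by linarith)
  exact Real.rpow_le_rpow_of_exponent_le hR1 (by nlinarith)

/-! ### chains -/

/-- sum over the blocks -/
theorem sum_nn_le {x : P2} {ρ : ℕ → ℕ} (hρ : ∀ i, 2 * ρ i ≤ ρ (i + 1)) (h0 : 1 ≤ ρ 0) (k : ℕ)
    (z : Cfz) : ∑ i ∈ range k, NN x (ρ i) ((ρ (i + 1) / 2 : ℕ) : ℤ) z ≤ NN x (ρ 0) (ρ k) z := by
  have hpos : ∀ i, 1 ≤ ρ i := by
    intro i
    induction i with
    | zero => exact h0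
    | succ i ih => have := hρ i; omega
  have hmono : ∀ i j, i ≤ j → ρ i ≤ ρ j := by
    intro i j hij
    induction j, hij using Nat.le_induction with
    | base => exact le_rfl
    | succ j _ ih => have := hρ j; have := hpos j; omega
  have key : ∀ k, ∑ i ∈ range (k + 1), NN x (ρ i) ((ρ (i + 1) / 2 : ℕ) : ℤ) z ≤
      NN x (ρ 0) ((ρ (k + 1) / 2 : ℕ) : ℤ) z := by
    intro k
    induction k with
    | zero => simp
    | succ k ih =>
        rw [Finset.sum_range_succ]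
        refine (add_le_add ih le_rfl).trans ?_
        have h1 := hρ (k + 1)
        have h2 := hpos (k + 1)
        have h3 : ((ρ (k + 1) / 2 : ℕ) : ℤ) < ρ (k + 1) := by
          have : ρ (k + 1) / 2 < ρ (k + 1) := by omega
          exact_mod_cast this
        refine NN_super le_rfl ?_ ?_ le_rfl h3 (by positivity) z
        · have : ρ (k + 1) / 2 ≤ ρ (k + 1 + 1) / 2 := by omega
          exact_mod_cast this
        · exact_mod_cast hmono 0 (k + 1) (Nat.zero_le _)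
  cases k with
  | zero => simp
  | succ k =>
      refine (key k).trans (nn_mono le_rfl ?_ z)
      have : ρ (k + 1) / 2 ≤ ρ (k + 1) := Nat.div_le_self _ _
      exact_mod_cast this

/-- independence of the blocks -/
theorem prod_nn {x : P2} {ρ : ℕ → ℕ} (hρ : ∀ i, 2 * ρ i ≤ ρ (i + 1)) (h6 : ∀ i, 6 ≤ ρ (i + 1))
    (s : ℝ) (k : ℕ) :
    ∫ z, Real.exp (s * ∑ i ∈ range k, (NN x (ρ i) ((ρ (i + 1) / 2 : ℕ) : ℤ) z : ℝ)) ∂(nu hf) =
      ∏ i ∈ range k, ∫ z, Real.exp (s * NN x (ρ i) ((ρ (i + 1) / 2 : ℕ) : ℤ) z) ∂(nu hf) := by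
  have e3 : (fun z : Cfz => Real.exp (s *
      ∑ i ∈ range k, (NN x (ρ i) ((ρ (i + 1) / 2 : ℕ) : ℤ) z : ℝ))) =
      fun z => ∏ i ∈ range k, Real.exp (s * NN x (ρ i) ((ρ (i + 1) / 2 : ℕ) : ℤ) z) := by
    funext z
    rw [← Real.exp_sum, Finset.mul_sum]
  rw [e3]
  refine integral_prod_indep (fun _ : Edge => hf) (range k)
    (fun i => annF x (ρ i) ((ρ (i + 1) / 2 : ℕ) : ℤ)) ?_ _ ?_
  · have key : ∀ i j, i < j → Disjoint (annF x (ρ i) ((ρ (i + 1) / 2 : ℕ) : ℤ))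
        (annF x (ρ j) ((ρ (j + 1) / 2 : ℕ) : ℤ)) := by
      intro i j hij
      refine annF_disj ?_
      have h1 : ρ (i + 1) ≤ ρ j := by
        induction j, hij using Nat.le_induction with
        | base => exact le_rfl
        | succ j _ ih => have := hρ j; omega
      have h2 := h6 i
      have h3 : ρ (i + 1) / 2 + 3 ≤ ρ j := by omega
      exact_mod_cast h3
    intro i _ j _ hij
    rcases lt_or_gt_of_ne hij with h3 | h3
    · exact key i j h3
    · exact (key j i h3).symm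
  · intro i _
    exact (NN_dep x _ _).comp fun n : ℕ => Real.exp (s * n)

/-- **lower chain** -/
theorem chain_lower {x : P2} {ρ : ℕ → ℕ} (hρ : ∀ i, 2 * ρ i ≤ ρ (i + 1)) (h0 : 1 ≤ ρ 0)
    (h6 : ∀ i, 6 ≤ ρ (i + 1)) {s : ℝ} (hs : 0 ≤ s) (k : ℕ) :
    ∏ i ∈ range k, ∫ z, Real.exp (s * NN x (ρ i) ((ρ (i + 1) / 2 : ℕ) : ℤ) z) ∂(nu hf) ≤
      ∫ z, Real.exp (s * NN x (ρ 0) (ρ k) z) ∂(nu hf) := by
  rw [← prod_nn hρ h6]
  refine integral_mono_of_nonneg (Filter.Eventually.of_forall fun z => (Real.exp_pos _).le)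
    (nn_int _ _ _ _) (Filter.Eventually.of_forall fun z => Real.exp_le_exp.2 ?_)
  refine mul_le_mul_of_nonneg_left ?_ hs
  exact_mod_cast sum_nn_le hρ h0 k z

/-- **upper chain** -/
theorem chain_upper {t p : ℝ} (ht : 0 ≤ t) (hp : 1 < p) : ∃ C : ℝ, 1 ≤ C ∧
    ∀ (x : P2) (ρ : ℕ → ℕ), 1 ≤ ρ 0 → (∀ i, 2 * ρ i ≤ ρ (i + 1)) → (∀ i, 6 ≤ ρ (i + 1)) →
      ∀ k, ∫ z, Real.exp (t * NN x (ρ 0) (ρ k) z) ∂(nu hf) ≤ C ^ (k + 1) *
        (∏ i ∈ range k, ∫ z, Real.exp (p * t * NN x (ρ i) ((ρ (i + 1) / 2 : ℕ) : ℤ) z) ∂(nu hf)) ^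
          (1 / p) := by
  have hp0 : 0 < p := by linarith
  set q : ℝ := p / (p - 1) with hq
  have hq0 : 0 < q := div_pos hp0 (by linarith)
  have hpq : 1 / p + 1 / q = 1 := by
    rw [hq]; field_simp; ring
  obtain ⟨C, hC, h⟩ := shells (q * t) (by positivity)
  have het : 1 ≤ Real.exp t := Real.one_le_exp ht
  refine ⟨max C (Real.exp t), le_max_of_le_left hC, fun x ρ h0 hρ h6 k => ?_⟩
  obtain ⟨K, hK1, hK2, _, hK3⟩ := h x ρ h0 hρ
  set X1 : Cfz → ℝ := fun z => p * t * ∑ i ∈ range k, (NN x (ρ i) ((ρ (i + 1) / 2 : ℕ) : ℤ) z : ℝ)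
    with hX1
  set X2 : Cfz → ℝ := fun z => q * t * ∑ i ∈ range k, (K i z : ℝ) with hX2
  set S : Finset Edge := ((range k).biUnion fun i => annF x (ρ i) ((ρ (i + 1) / 2 : ℕ) : ℤ)) ∪
    ((range k).biUnion fun i => shE x (ρ i) (ρ (i + 1))) with hS
  have d1 : DepF S X1 := by
    refine DepF.smul (p * t) (DepF.sum fun i hi => ?_)
    exact ((NN_dep x _ _).comp fun n : ℕ => (n : ℝ)).mono
      ((Finset.subset_biUnion_of_mem (fun i => annF x (ρ i) ((ρ (i + 1) / 2 : ℕ) : ℤ)) hi).trans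
        Finset.subset_union_left)
  have d2 : DepF S X2 := by
    refine DepF.smul (q * t) (DepF.sum fun i hi => ?_)
    exact ((hK1 i).comp fun n : ℕ => (n : ℝ)).mono
      ((Finset.subset_biUnion_of_mem (fun i => shE x (ρ i) (ρ (i + 1))) hi).trans
        Finset.subset_union_right)
  have hh := holder_exp (fun _ : Edge => hf) (univ : Finset Bool) (S := S)
    (fun b => cond b (1 / p) (1 / q)) (fun b _ => by cases b <;> simp <;> positivity)
    (by simp; rw [← hpq]; simp) (fun b => cond b X1 X2) (fun b _ => by cases b <;> assumption)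
  simp only [Fintype.sum_bool, Fintype.prod_bool, cond_true, cond_false] at hh
  have e1 : ∀ z, 1 / p * X1 z + 1 / q * X2 z = t * (∑ i ∈ range k,
      (NN x (ρ i) ((ρ (i + 1) / 2 : ℕ) : ℤ) z : ℝ)) + t * ∑ i ∈ range k, (K i z : ℝ) := by
    intro z
    rw [hX1, hX2]
    field_simp
  simp only [e1] at hh
  have b1 : ∫ z, Real.exp (t * NN x (ρ 0) (ρ k) z) ∂(nu hf) ≤ Real.exp t *
      ∫ z, Real.exp (t * (∑ i ∈ range k, (NN x (ρ i) ((ρ (i + 1) / 2 : ℕ) : ℤ) z : ℝ)) +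
        t * ∑ i ∈ range k, (K i z : ℝ)) ∂(PB fun _ : Edge => hf) := by
    rw [← integral_const_mul]
    have d3 : DepF S (fun z => Real.exp t * Real.exp (t * (∑ i ∈ range k,
        (NN x (ρ i) ((ρ (i + 1) / 2 : ℕ) : ℤ) z : ℝ)) + t * ∑ i ∈ range k, (K i z : ℝ))) := by
      have := (DepF.smul (1 / p) d1).add (DepF.smul (1 / q) d2)
      simp only [e1] at this
      exact this.comp fun y => Real.exp t * Real.exp y
    refine integral_mono_of_nonneg (Filter.Eventually.of_forall fun z => (Real.exp_pos _).le)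
      (d3.integrable _) (Filter.Eventually.of_forall fun z => ?_)
    simp only
    rw [← Real.exp_add]
    refine Real.exp_le_exp.2 ?_
    have h1 := nn_chain (x := x) (ρ := ρ) hK2 k z
    have h2 : (NN x (ρ 0) (ρ k) z : ℝ) ≤ 1 + ∑ i ∈ range k,
        (NN x (ρ i) ((ρ (i + 1) / 2 : ℕ) : ℤ) z : ℝ) + ∑ i ∈ range k, (K i z : ℝ) := by
      exact_mod_cast h1
    nlinarith
  refine b1.trans ?_
  have b2 : (∫ z, Real.exp (X2 z) ∂(PB fun _ : Edge => hf)) ^ (1 / q) ≤ C ^ k := by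
    have h1 : ∫ z, Real.exp (X2 z) ∂(PB fun _ : Edge => hf) ≤ C ^ k := hK3 k
    have h2 : (1 : ℝ) ≤ C ^ k := one_le_pow₀ hC
    have hq1 : 1 / q ≤ 1 := by
      have : 0 < 1 / p := by positivity
      linarith
    calc (∫ z, Real.exp (X2 z) ∂(PB fun _ : Edge => hf)) ^ (1 / q)
        ≤ (C ^ k) ^ (1 / q) := Real.rpow_le_rpow (integral_nonneg fun z => (Real.exp_pos _).le) h1
          (by positivity)
      _ ≤ (C ^ k) ^ (1 : ℝ) := Real.rpow_le_rpow_of_exponent_le h2 hq1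
      _ = C ^ k := Real.rpow_one _
  have b3 : ∫ z, Real.exp (X1 z) ∂(PB fun _ : Edge => hf) = ∏ i ∈ range k,
      ∫ z, Real.exp (p * t * NN x (ρ i) ((ρ (i + 1) / 2 : ℕ) : ℤ) z) ∂(nu hf) :=
    prod_nn hρ h6 (p * t) k
  rw [b3] at hh
  set W := (∏ i ∈ range k,
    ∫ z, Real.exp (p * t * NN x (ρ i) ((ρ (i + 1) / 2 : ℕ) : ℤ) z) ∂(nu hf)) ^ (1 / p) with hW
  have hW0 : 0 ≤ W := Real.rpow_nonneg (Finset.prod_nonneg fun i _ =>
    integral_nonneg fun z => (Real.exp_pos _).le) _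
  have hM : C ^ k ≤ (max C (Real.exp t)) ^ k :=
    pow_le_pow_left₀ (by linarith) (le_max_left _ _) _
  calc Real.exp t * _ ≤ Real.exp t * (W * C ^ k) :=
        mul_le_mul_of_nonneg_left (hh.trans (mul_le_mul_of_nonneg_left b2 hW0)) (by positivity)
    _ ≤ max C (Real.exp t) * (W * (max C (Real.exp t)) ^ k) :=
        mul_le_mul (le_max_right _ _) (mul_le_mul_of_nonneg_left hM hW0) (by positivity)
          (by positivity)
    _ = (max C (Real.exp t)) ^ (k + 1) * W := by rw [pow_succ]; ring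

/-! ### from blocks to powers -/

/-- the radii `K^i r` -/
def rad (K r : ℕ) (i : ℕ) : ℕ := K ^ i * r

theorem rad_succ (K r i : ℕ) : rad K r (i + 1) = K * rad K r i := by
  unfold rad; rw [pow_succ]; ring

theorem eventually_mul_rpow {B γ d : ℝ} (hd : 0 < d) :
    ∀ᶠ n : ℕ in atTop, B * (n : ℝ) ^ γ ≤ (n : ℝ) ^ (γ + d) := by
  have h1 : Tendsto (fun n : ℕ => (n : ℝ) ^ d) atTop atTop :=
    (tendsto_rpow_atTop hd).comp tendsto_natCast_atTop_atTop
  filter_upwards [h1.eventually_ge_atTop B, eventually_gt_atTop 0] with n hn hn0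
  have h0 : (0 : ℝ) < n := by exact_mod_cast hn0
  rw [Real.rpow_add h0, mul_comm]
  exact mul_le_mul_of_nonneg_left hn (Real.rpow_nonneg h0.le _)

/-- large powers dominate constants -/
theorem exists_K (B : ℝ) {d : ℝ} (hd : 0 < d) : ∃ K : ℕ, 2 ≤ K ∧ B ≤ (K : ℝ) ^ d := by
  have h1 : Tendsto (fun n : ℕ => (n : ℝ) ^ d) atTop atTop :=
    (tendsto_rpow_atTop hd).comp tendsto_natCast_atTop_atTop
  obtain ⟨K, h2, h3⟩ := ((h1.eventually_ge_atTop B).and (eventually_ge_atTop 2)).exists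
  exact ⟨K, h3, h2⟩

/-- `K^k r ≤ n < K^(k+1) r` -/
theorem exists_k {K r n : ℕ} (hK : 2 ≤ K) (hr : 1 ≤ r) (hn : r ≤ n) :
    ∃ k, rad K r k ≤ n ∧ n < rad K r (k + 1) := by
  refine ⟨Nat.log K (n / r), ?_, ?_⟩
  · unfold rad
    have h3 : n / r ≠ 0 := by
      have : 0 < n / r := Nat.div_pos hn hr
      omega
    have h4 : K ^ Nat.log K (n / r) ≤ n / r := Nat.pow_log_le_self K h3
    exact (Nat.mul_le_mul_right r h4).trans (Nat.div_mul_le_self n r)
  · unfold rad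
    have h2 : n / r < K ^ (Nat.log K (n / r) + 1) := Nat.lt_pow_succ_log_self (by omega) _
    exact (Nat.div_lt_iff_lt_mul hr).1 h2

/-- **upper bound from blocks** -/
theorem up1 {s p e : ℝ} (hs : 0 ≤ s) (hp : 1 < p) (he : 0 ≤ e) (x : P2)
    (h : ∃ C : ℝ, 1 ≤ C ∧ ∀ K : ℕ, 1 ≤ K → ∃ r0 : ℕ, ∀ r ≥ r0,
      ∫ z, Real.exp (p * s * NN x (r : ℕ) ((K * r / 2 : ℕ) : ℤ) z) ∂(nu hf) ≤ C * (K : ℝ) ^ e)
    {d : ℝ} (hd : 0 < d) :
    ∀ᶠ n : ℕ in atTop, ∫ z, Real.exp (s * NN x 0 n z) ∂(nu hf) ≤ (n : ℝ) ^ (e + d) := by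
  obtain ⟨C, hC, h⟩ := h
  obtain ⟨C2, hC2, h2⟩ := chain_upper hs hp
  obtain ⟨K, hK2, hK⟩ := exists_K (C2 * C) (half_pos hd)
  obtain ⟨r0, hr0⟩ := h K (by omega)
  set r : ℕ := max r0 6 with hr
  have hr6 : 6 ≤ r := le_max_right _ _
  have hK1 : (1 : ℝ) ≤ K := by exact_mod_cast (by omega : 1 ≤ K)
  have hK0 : (0 : ℝ) < K := by linarith
  set B1 := Real.exp (s * ((2 * r + 1) ^ 2 * 4 : ℕ)) with hB1
  set γ := e + d / 2 with hγ
  have hγ0 : 0 ≤ γ := by positivity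
  have hrad : ∀ i, r ≤ rad K r i := by
    intro i
    unfold rad
    exact Nat.le_mul_of_pos_left _ (by positivity)
  -- the main estimate
  have main : ∀ n : ℕ, r ≤ n → ∫ z, Real.exp (s * NN x 0 n z) ∂(nu hf) ≤
      (B1 * C2 * (K : ℝ) ^ γ) * (n : ℝ) ^ γ := by
    intro n hn
    obtain ⟨k, hk1, hk2⟩ := exists_k hK2 (by omega) hn
    have a1 := exp_centre hs x r (n : ℤ)
    have a2 : ∫ z, Real.exp (s * NN x r n z) ∂(nu hf) ≤
        ∫ z, Real.exp (s * NN x r (rad K r (k + 1)) z) ∂(nu hf) :=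
      exp_mono_nn hs le_rfl (by exact_mod_cast hk2.le)
    have a3 := h2 x (rad K r) (by unfold rad; simp; omega)
      (fun i => by rw [rad_succ]; exact Nat.mul_le_mul_right _ hK2)
      (fun i => hr6.trans (hrad _)) (k + 1)
    have e0 : rad K r 0 = r := by unfold rad; simp
    rw [e0] at a3
    have a4 : (∏ i ∈ range (k + 1), ∫ z, Real.exp (p * s * NN x (rad K r i)
        ((rad K r (i + 1) / 2 : ℕ) : ℤ) z) ∂(nu hf)) ^ (1 / p) ≤ (C * (K : ℝ) ^ e) ^ (k + 1) := by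
      have b1 : ∏ i ∈ range (k + 1), ∫ z, Real.exp (p * s * NN x (rad K r i)
          ((rad K r (i + 1) / 2 : ℕ) : ℤ) z) ∂(nu hf) ≤ (C * (K : ℝ) ^ e) ^ (k + 1) := by
        calc _ ≤ ∏ _i ∈ range (k + 1), (C * (K : ℝ) ^ e) := by
              refine Finset.prod_le_prod (fun i _ => integral_nonneg fun z => (Real.exp_pos _).le)
                fun i _ => ?_
              rw [rad_succ]
              exact hr0 _ ((le_max_left _ _).trans (hrad i))
          _ = _ := by rw [prod_const, card_range]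
      have b2 : (1 : ℝ) ≤ (C * (K : ℝ) ^ e) ^ (k + 1) :=
        one_le_pow₀ (one_le_mul_of_one_le_of_one_le hC (Real.one_le_rpow hK1 he))
      have b3 : 1 / p ≤ 1 := by rw [div_le_one (by linarith)]; exact hp.le
      calc _ ≤ ((C * (K : ℝ) ^ e) ^ (k + 1)) ^ (1 / p) := Real.rpow_le_rpow
            (Finset.prod_nonneg fun i _ => integral_nonneg fun z => (Real.exp_pos _).le) b1
            (by positivity)
        _ ≤ ((C * (K : ℝ) ^ e) ^ (k + 1)) ^ (1 : ℝ) := Real.rpow_le_rpow_of_exponent_le b2 b3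
        _ = _ := Real.rpow_one _
    have a5 : (C2 * C * (K : ℝ) ^ e) ^ (k + 1) ≤ (K : ℝ) ^ γ * (n : ℝ) ^ γ := by
      have b1 : C2 * C * (K : ℝ) ^ e ≤ (K : ℝ) ^ γ := by
        rw [hγ, Real.rpow_add hK0, mul_comm]
        exact mul_le_mul_of_nonneg_left hK (Real.rpow_nonneg hK0.le _)
      have b2 : (K : ℝ) ^ k ≤ n := by
        have : K ^ k ≤ n := by
          refine le_trans ?_ hk1
          unfold rad
          exact Nat.le_mul_of_pos_right _ (by omega)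
        exact_mod_cast this
      calc (C2 * C * (K : ℝ) ^ e) ^ (k + 1) ≤ ((K : ℝ) ^ γ) ^ (k + 1) :=
            pow_le_pow_left₀ (by positivity) b1 _
        _ = (K : ℝ) ^ γ * ((K : ℝ) ^ k) ^ γ := by
            rw [pow_succ, mul_comm]
            congr 1
            rw [← Real.rpow_natCast, ← Real.rpow_natCast (K : ℝ) k, ← Real.rpow_mul hK0.le,
              ← Real.rpow_mul hK0.le, mul_comm]
        _ ≤ (K : ℝ) ^ γ * (n : ℝ) ^ γ := mul_le_mul_of_nonneg_left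
            (Real.rpow_le_rpow (by positivity) b2 hγ0) (Real.rpow_nonneg hK0.le _)
    have a6 : C2 ^ (k + 1 + 1) * (C * (K : ℝ) ^ e) ^ (k + 1) =
        C2 * (C2 * C * (K : ℝ) ^ e) ^ (k + 1) := by
      rw [pow_succ, mul_assoc C2 C, mul_pow C2]; ring
    calc ∫ z, Real.exp (s * NN x 0 n z) ∂(nu hf) ≤ B1 * ∫ z, Real.exp (s * NN x r n z) ∂(nu hf) :=
          a1
      _ ≤ B1 * (C2 ^ (k + 1 + 1) * (C * (K : ℝ) ^ e) ^ (k + 1)) := by
          refine mul_le_mul_of_nonneg_left ((a2.trans a3).trans ?_) (Real.exp_pos _).le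
          exact mul_le_mul_of_nonneg_left a4 (by positivity)
      _ = B1 * C2 * (C2 * C * (K : ℝ) ^ e) ^ (k + 1) := by rw [a6]; ring
      _ ≤ B1 * C2 * ((K : ℝ) ^ γ * (n : ℝ) ^ γ) :=
          mul_le_mul_of_nonneg_left a5 (by positivity)
      _ = _ := by ring
  filter_upwards [eventually_mul_rpow (B := B1 * C2 * (K : ℝ) ^ γ) (γ := γ) (half_pos hd),
    eventually_ge_atTop r] with n hn1 hn2
  refine (main n hn2).trans (hn1.trans (le_of_eq ?_))
  rw [hγ]; ring_nf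

/-- **lower bound from blocks** -/
theorem lo1 {s e : ℝ} (hs : 0 ≤ s) (x : P2)
    (h : ∃ C : ℝ, 1 ≤ C ∧ ∀ K : ℕ, 1 ≤ K → ∃ r0 : ℕ, ∀ r ≥ r0,
      (K : ℝ) ^ e / C ≤ ∫ z, Real.exp (s * NN x (r : ℕ) ((K * r / 2 : ℕ) : ℤ) z) ∂(nu hf))
    {d : ℝ} (hd : 0 < d) :
    ∀ᶠ n : ℕ in atTop, (n : ℝ) ^ (e - d) ≤ ∫ z, Real.exp (s * NN x 0 n z) ∂(nu hf) := by
  set γ := e - d / 2 with hγ
  by_cases hγ0 : γ < 0
  · filter_upwards [eventually_ge_atTop 1] with n hn
    have h1 : (1 : ℝ) ≤ n := by exact_mod_cast hn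
    refine le_trans ?_ (one_le_exp_nn hs)
    exact Real.rpow_le_one_of_one_le_of_nonpos h1 (by linarith)
  push Not at hγ0
  obtain ⟨C, hC, h⟩ := h
  obtain ⟨K, hK2, hK⟩ := exists_K C (half_pos hd)
  obtain ⟨r0, hr0⟩ := h K (by omega)
  set r : ℕ := max r0 6 with hr
  have hr6 : 6 ≤ r := le_max_right _ _
  have hK1 : (1 : ℝ) ≤ K := by exact_mod_cast (by omega : 1 ≤ K)
  have hK0 : (0 : ℝ) < K := by linarith
  have hr0' : (0 : ℝ) < r := by exact_mod_cast (by omega : 0 < r)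
  have hrad : ∀ i, r ≤ rad K r i := by
    intro i
    unfold rad
    exact Nat.le_mul_of_pos_left _ (by positivity)
  have main : ∀ n : ℕ, r ≤ n → ((n : ℝ) / (K * r)) ^ γ ≤
      ∫ z, Real.exp (s * NN x 0 n z) ∂(nu hf) := by
    intro n hn
    obtain ⟨k, hk1, hk2⟩ := exists_k hK2 (by omega) hn
    have a1 := chain_lower (x := x) (ρ := rad K r)
      (fun i => by rw [rad_succ]; exact Nat.mul_le_mul_right _ hK2)
      (by unfold rad; simp; omega) (fun i => hr6.trans (hrad _)) hs k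
    have a2 : ∫ z, Real.exp (s * NN x (rad K r 0) (rad K r k) z) ∂(nu hf) ≤
        ∫ z, Real.exp (s * NN x 0 n z) ∂(nu hf) :=
      exp_mono_nn hs (by positivity) (by exact_mod_cast hk1)
    refine le_trans ?_ (a1.trans a2)
    have a3 : ∀ i, (K : ℝ) ^ γ ≤ ∫ z, Real.exp (s * NN x (rad K r i)
        ((rad K r (i + 1) / 2 : ℕ) : ℤ) z) ∂(nu hf) := by
      intro i
      rw [rad_succ]
      refine le_trans ?_ (hr0 _ ((le_max_left _ _).trans (hrad i)))
      rw [le_div_iff₀ (by linarith)]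
      calc (K : ℝ) ^ γ * C ≤ (K : ℝ) ^ γ * (K : ℝ) ^ (d / 2) :=
            mul_le_mul_of_nonneg_left hK (Real.rpow_nonneg hK0.le _)
        _ = (K : ℝ) ^ e := by rw [← Real.rpow_add hK0, hγ]; ring_nf
    calc ((n : ℝ) / (K * r)) ^ γ ≤ ((K : ℝ) ^ k) ^ γ := by
          refine Real.rpow_le_rpow (by positivity) ?_ hγ0
          rw [div_le_iff₀ (by positivity)]
          have : n ≤ K ^ (k + 1) * r := hk2.le
          have h3 : (n : ℝ) ≤ (K : ℝ) ^ (k + 1) * r := by exact_mod_cast this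
          rw [pow_succ] at h3
          linarith
      _ = ((K : ℝ) ^ γ) ^ k := by
          rw [← Real.rpow_natCast, ← Real.rpow_natCast ((K : ℝ) ^ γ) k, ← Real.rpow_mul hK0.le,
            ← Real.rpow_mul hK0.le, mul_comm]
      _ = ∏ _i ∈ range k, (K : ℝ) ^ γ := by rw [prod_const, card_range]
      _ ≤ _ := Finset.prod_le_prod (fun i _ => Real.rpow_nonneg hK0.le _) fun i _ => a3 i
  filter_upwards [eventually_mul_rpow (B := ((K : ℝ) * r) ^ γ) (γ := e - d) (half_pos hd),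
    eventually_ge_atTop r] with n hn1 hn2
  refine le_trans ?_ (main n hn2)
  have hn0 : (0 : ℝ) ≤ n := by positivity
  rw [Real.div_rpow hn0 (by positivity), le_div_iff₀ (by positivity), mul_comm]
  refine hn1.trans (le_of_eq ?_)
  rw [hγ]; ring_nf

/-- one-block bounds near the parameter `s0` with exponent `e` -/
def Blk (s0 e : ℝ) : Prop := ∀ d > 0, ∃ η > 0, ∃ C : ℝ, 1 ≤ C ∧ ∀ K : ℕ, 1 ≤ K → ∃ r0 : ℕ,
  ∀ r ≥ r0, ∀ s : ℝ, |s - s0| ≤ η →
    (K : ℝ) ^ (e - d) / C ≤ ∫ z, Real.exp (s * NN (0, 0) (r : ℕ) ((K * r / 2 : ℕ) : ℤ) z) ∂(nu hf) ∧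
    ∫ z, Real.exp (s * NN (0, 0) (r : ℕ) ((K * r / 2 : ℕ) : ℤ) z) ∂(nu hf) ≤ C * (K : ℝ) ^ (e + d)

/-- **(I2)** `E exp(s NN 0 0 n) = n^(e ± d)` for `s` near `s0` -/
theorem e2 {s0 e : ℝ} (hs0 : 0 < s0) (he : 0 ≤ e) (h : Blk s0 e) : ∀ d > 0, ∃ η > 0,
    ∀ᶠ n : ℕ in atTop, ∀ s : ℝ, |s - s0| ≤ η →
      (n : ℝ) ^ (e - d) ≤ ∫ z, Real.exp (s * NN (0, 0) 0 n z) ∂(nu hf) ∧
      ∫ z, Real.exp (s * NN (0, 0) 0 n z) ∂(nu hf) ≤ (n : ℝ) ^ (e + d) := by
  intro d hd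
  obtain ⟨η, hη, C, hC, hB⟩ := h (d / 2) (half_pos hd)
  set η' := min (η / 2) (s0 / 2) with hη'
  have hη'0 : 0 < η' := lt_min (by positivity) (by positivity)
  have hη'1 : η' ≤ η / 2 := min_le_left _ _
  have hη'2 : η' ≤ s0 / 2 := min_le_right _ _
  refine ⟨η', hη'0, ?_⟩
  set p := (s0 + 2 * η') / (s0 + η') with hp
  have hpos : 0 < s0 + η' := by linarith
  have hp1 : 1 < p := by rw [hp, lt_div_iff₀ hpos]; linarith
  have hps : p * (s0 + η') = s0 + 2 * η' := by rw [hp, div_mul_cancel₀ _ hpos.ne']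
  have hu := up1 (s := s0 + η') (p := p) (e := e + d / 2) hpos.le hp1 (by positivity) (0, 0)
    ⟨C, hC, fun K hK => by
      obtain ⟨r0, hr0⟩ := hB K hK
      refine ⟨r0, fun r hr => ?_⟩
      rw [hps]
      refine (hr0 r hr _ ?_).2
      rw [add_sub_cancel_left, abs_of_pos (by linarith)]
      linarith⟩ (half_pos hd)
  have hl := lo1 (s := s0 - η') (e := e - d / 2) (by linarith) (0, 0)
    ⟨C, hC, fun K hK => by
      obtain ⟨r0, hr0⟩ := hB K hK
      refine ⟨r0, fun r hr => ?_⟩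
      refine (hr0 r hr _ ?_).1
      rw [sub_sub_cancel_left, abs_neg, abs_of_pos (by linarith)]
      linarith⟩ (half_pos hd)
  filter_upwards [hu, hl] with n h1 h2
  intro s hs
  rw [abs_le] at hs
  have e1 : e + d / 2 + d / 2 = e + d := by ring
  have e2 : e - d / 2 - d / 2 = e - d := by ring
  rw [e1] at h1
  rw [e2] at h2
  exact ⟨h2.trans (exp_mono_s (by linarith [hs.1])), (exp_mono_s (by linarith [hs.2])).trans h1⟩

/-! ### comparison with `tot` -/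

theorem mem_BF0 {x : P2} {f : Face} : f ∈ BF x 0 ↔ f.1 = x := by
  rw [mem_BF]
  constructor
  · intro h
    rw [sd_le] at h
    exact Prod.ext (by linarith [h.1, h.2.1]) (by linarith [h.2.2.1, h.2.2.2])
  · rintro rfl
    exact (Wf850.sd_self _).le

open Classical in
theorem tot_le_nn (κ : ℕ) (x : P2) (b : Bool) (z : Cfz) :
    Cn109.tot κ (x, b) z ≤ NN x 0 ((2 ^ κ : ℕ) : ℤ) z + 1 := by
  rw [Cn109.tot_eq]
  have hfin := Cn109.tot_fin κ (x, b) z
  rw [Set.ncard_eq_toFinset_card _ hfin]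
  have h1 : hfin.toFinset ⊆ nnF x 0 ((2 ^ κ : ℕ) : ℤ) z ∪
      hfin.toFinset.filter (fun A => ¬ BF x 0 ⊆ A) := by
    intro A hA
    rw [mem_union, mem_filter]
    by_cases h : BF x 0 ⊆ A
    · left
      have hA' := hfin.mem_toFinset.1 hA
      refine mem_nnF.2 ⟨?_, h, hA'.1⟩
      intro f hf
      rw [mem_BF]
      have h2 := Cn109.sd_le_dia (h (mem_BF0.2 (rfl : ((x, false) : Face).1 = x))) hf
      have h3 := hA'.2.2
      have h4 : dia A ≤ 2 ^ κ := by omega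
      exact h2.trans (by exact_mod_cast h4)
    · exact Or.inr ⟨hA, h⟩
  have h2 : (hfin.toFinset.filter (fun A => ¬ BF x 0 ⊆ A)).card ≤ 1 := by
    rw [Finset.card_le_one]
    have hsep : ∀ A ∈ hfin.toFinset.filter (fun A => ¬ BF x 0 ⊆ A),
        A ∈ Lps z ∧ sepC A (x, 0) := by
      intro A hA
      obtain ⟨hA1, hA2⟩ := mem_filter.1 hA
      have hA' := hfin.mem_toFinset.1 hA1
      refine ⟨hA'.1, ?_⟩
      unfold sepC
      have e1 : cv ((x, 0) : Corner) = (x, false) := rfl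
      have e2 : Wf850.cf ((x, 0) : Corner) = (x, true) := by
        unfold Wf850.cf; rw [It200.fc_zero]
      rw [e1, e2]
      intro hiff
      apply hA2
      intro f hf
      rw [mem_BF0] at hf
      obtain ⟨v, c⟩ := f
      simp only at hf
      subst hf
      have h5 := hA'.2.1
      cases b <;> cases c
      · exact h5
      · exact hiff.1 h5
      · exact hiff.2 h5
      · exact h5
    intro A hA B hB
    exact sep_uniq (hsep A hA).1 (hsep B hB).1 (hsep A hA).2 (hsep B hB).2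
  have h3 := (card_le_card h1).trans ((card_union_le _ _).trans (add_le_add le_rfl h2))
  rw [nnF_card]
  exact_mod_cast h3

theorem nn_le_tot {κ n : ℕ} (h : 2 * n + 1 < 2 ^ κ) (x : P2) (b : Bool) (z : Cfz) :
    (NN x 0 n z : ℝ) ≤ Cn109.tot κ (x, b) z := by
  rw [Cn109.tot_eq, nnF_card, ← Set.ncard_coe_finset]
  have hfin := Cn109.tot_fin κ (x, b) z
  refine Nat.cast_le.2 (Set.ncard_le_ncard (fun A hA => ?_) hfin)
  obtain ⟨h1, h2, h3⟩ := mem_nnF.1 (Finset.mem_coe.1 hA)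
  refine ⟨h3, h2 (mem_BF0.2 rfl), ?_⟩
  have h4 : dia A ≤ 2 * n := by
    refine Wf850.dia_le (n := 2 * n) fun f hf g hg => ?_
    have h5 := mem_BF.1 (h1 hf)
    have h6 := mem_BF.1 (h1 hg)
    have h7 := Wf850.sd_tri f.1 x g.1
    rw [Wf850.sd_symm' f.1 x] at h7
    push_cast
    linarith
  omega

/-- `E exp(s tot)` from above -/
theorem exp_tot_le {s : ℝ} (hs : 0 ≤ s) (κ : ℕ) (x : P2) (b : Bool) :
    ∫ z, Real.exp (s * Cn109.tot κ (x, b) z) ∂(nu hf) ≤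
      Real.exp s * ∫ z, Real.exp (s * NN x 0 ((2 ^ κ : ℕ) : ℤ) z) ∂(nu hf) := by
  rw [← integral_const_mul]
  refine integral_mono_of_nonneg (Filter.Eventually.of_forall fun z => (Real.exp_pos _).le)
    ((nn_int s x 0 _).const_mul _) (Filter.Eventually.of_forall fun z => ?_)
  simp only
  rw [← Real.exp_add]
  refine Real.exp_le_exp.2 ?_
  have := mul_le_mul_of_nonneg_left (tot_le_nn κ x b z) hs
  linarith

theorem exp_tot_ge {s : ℝ} (hs : 0 ≤ s) {κ n : ℕ} (h : 2 * n + 1 < 2 ^ κ) (x : P2) (b : Bool) :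
    ∫ z, Real.exp (s * NN x 0 n z) ∂(nu hf) ≤
      ∫ z, Real.exp (s * Cn109.tot κ (x, b) z) ∂(nu hf) := by
  refine integral_mono_of_nonneg (Filter.Eventually.of_forall fun z => (Real.exp_pos _).le)
    (((Cn109.tot_dep κ (x, b)).comp fun y => Real.exp (s * y)).integrable _)
    (Filter.Eventually.of_forall fun z => Real.exp_le_exp.2
      (mul_le_mul_of_nonneg_left (nn_le_tot h x b z) hs))

end Crest.Agent.R158.Lc522
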