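import Crest.Agent.R158.Cn1_109

/-!
# Row 158 (helper612): truncation

* `trunc` : `∫ X Y ≤ M ∫ X + M⁻ᑫ / 2 * (∫ X² + ∫ Y^(2q+2))` for `X, Y ≥ 0`, `M > 0`
* `tr_eps` : if `∫ X² ≤ n^C`, `n^(-C) ≤ ∫ X` and `∫ Y^(2q+2) ≤ G` then `∫ X Y ≤ n^ε ∫ X` for large `n`
* `low_cs` : `(∫ F)² ≤ (∫ F Z) (∫ F / Z)`
-/

set_option autoImplicit false

noncomputable section

namespace Crest.Agent.R158.Tr612

open MeasureTheory

section

variable {Ω : Type*} {m : MeasurableSpace Ω} {μ : Measure Ω}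

theorem trunc_pt {x y M : ℝ} (hx : 0 ≤ x) (hy : 0 ≤ y) (hM : 0 < M) (q : ℕ) :
    x * y ≤ M * x + (M ^ q)⁻¹ / 2 * (x ^ 2 + y ^ (2 * q + 2)) := by
  have hMq : 0 < (M ^ q)⁻¹ := by positivity
  have h2 : 0 ≤ y ^ (2 * q + 2) := pow_nonneg hy _
  rcases le_total y M with h | h
  · have h1 : x * y ≤ M * x := by nlinarith
    have h3 : 0 ≤ (M ^ q)⁻¹ / 2 * (x ^ 2 + y ^ (2 * q + 2)) := by positivity
    linarith
  · have h1 : y ≤ y ^ (q + 1) * (M ^ q)⁻¹ := by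
      rw [pow_succ, mul_comm (y ^ q), mul_assoc]
      refine le_mul_of_one_le_right hy ?_
      rw [← div_eq_mul_inv, one_le_div (by positivity)]
      exact pow_le_pow_left₀ hM.le h q
    have h3 : x * y ≤ x * (y ^ (q + 1) * (M ^ q)⁻¹) := mul_le_mul_of_nonneg_left h1 hx
    have h4 : x * y ^ (q + 1) ≤ (x ^ 2 + y ^ (2 * q + 2)) / 2 := by
      have h5 : y ^ (2 * q + 2) = (y ^ (q + 1)) ^ 2 := by rw [← pow_mul]; congr 1; ring
      rw [h5]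
      nlinarith [sq_nonneg (x - y ^ (q + 1))]
    have h6 : 0 ≤ M * x := by positivity
    calc x * y ≤ (M ^ q)⁻¹ * (x * y ^ (q + 1)) := by linarith
      _ ≤ (M ^ q)⁻¹ * ((x ^ 2 + y ^ (2 * q + 2)) / 2) := mul_le_mul_of_nonneg_left h4 hMq.le
      _ ≤ M * x + (M ^ q)⁻¹ / 2 * (x ^ 2 + y ^ (2 * q + 2)) := by
          have : (M ^ q)⁻¹ * ((x ^ 2 + y ^ (2 * q + 2)) / 2) =
            (M ^ q)⁻¹ / 2 * (x ^ 2 + y ^ (2 * q + 2)) := by ring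
          linarith

/-- **truncation** -/
theorem trunc {X Y : Ω → ℝ} (hX : ∀ ω, 0 ≤ X ω) (hY : ∀ ω, 0 ≤ Y ω) {M : ℝ} (hM : 0 < M) (q : ℕ)
    (hXY : Integrable (fun ω => X ω * Y ω) μ) (hXi : Integrable X μ)
    (hX2 : Integrable (fun ω => X ω ^ 2) μ) (hYq : Integrable (fun ω => Y ω ^ (2 * q + 2)) μ) :
    ∫ ω, X ω * Y ω ∂μ ≤
      M * ∫ ω, X ω ∂μ + (M ^ q)⁻¹ / 2 * (∫ ω, X ω ^ 2 ∂μ + ∫ ω, Y ω ^ (2 * q + 2) ∂μ) := by
  rw [← integral_add hX2 hYq, ← integral_const_mul, ← integral_const_mul, ← integral_add]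
  · refine integral_mono hXY ?_ fun ω => trunc_pt (hX ω) (hY ω) hM q
    exact (hXi.const_mul _).add ((hX2.add hYq).const_mul _)
  · exact hXi.const_mul _
  · exact (hX2.add hYq).const_mul _

/-- **truncation, at polynomial precision**: `q` depends on `C` and `ε` only -/
theorem tr_eps (C : ℝ) {ε : ℝ} (hε : 0 < ε) : ∃ q : ℕ, ∀ G : ℝ, ∃ N : ℝ, 1 ≤ N ∧ ∀ n : ℝ, N ≤ n →
    ∀ {Ω : Type} {m : MeasurableSpace Ω} (μ : Measure Ω) (X Y : Ω → ℝ), (∀ ω, 0 ≤ X ω) →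
      (∀ ω, 0 ≤ Y ω) → Integrable (fun ω => X ω * Y ω) μ → Integrable X μ →
      Integrable (fun ω => X ω ^ 2) μ → Integrable (fun ω => Y ω ^ (2 * q + 2)) μ →
      ∫ ω, X ω ^ 2 ∂μ ≤ n ^ C → n ^ (-C) ≤ ∫ ω, X ω ∂μ → ∫ ω, Y ω ^ (2 * q + 2) ∂μ ≤ G →
      ∫ ω, X ω * Y ω ∂μ ≤ n ^ ε * ∫ ω, X ω ∂μ := by
  obtain ⟨q, hq⟩ := exists_nat_ge ((2 * |C| + 1) / (ε / 2))
  refine ⟨q, fun G => ?_⟩
  have hq' : 2 * |C| + 1 ≤ ε / 2 * q := by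
    rw [div_le_iff₀ (by positivity)] at hq
    linarith
  -- the threshold
  obtain ⟨N, hN1, hN⟩ : ∃ N : ℝ, 1 ≤ N ∧ ∀ n : ℝ, N ≤ n → n ^ (ε / 2) + (1 + |G|) ≤ n ^ ε := by
    have h1 : Filter.Tendsto (fun n : ℝ => n ^ (ε / 2)) Filter.atTop Filter.atTop :=
      tendsto_rpow_atTop (by positivity)
    obtain ⟨N, hN⟩ := Filter.eventually_atTop.1 (h1.eventually_ge_atTop (2 + |G|))
    refine ⟨max 1 N, le_max_left _ _, fun n hn => ?_⟩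
    have h2 := hN n ((le_max_right _ _).trans hn)
    have hn0 : 0 < n := lt_of_lt_of_le one_pos ((le_max_left _ _).trans hn)
    have h3 : n ^ ε = n ^ (ε / 2) * n ^ (ε / 2) := by
      rw [← Real.rpow_add hn0]; congr 1; ring
    rw [h3]
    nlinarith [abs_nonneg G]
  refine ⟨N, hN1, fun n hn Ω m μ X Y hX hY hXY hXi hX2 hYq b1 b2 b3 => ?_⟩
  have hn1 : 1 ≤ n := hN1.trans hn
  have hn0 : 0 < n := lt_of_lt_of_le one_pos hn1
  have h1 := trunc (μ := μ) hX hY (M := n ^ (ε / 2)) (Real.rpow_pos_of_pos hn0 _) q hXY hXi hX2 hYq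
  have hEX : 0 < ∫ ω, X ω ∂μ := lt_of_lt_of_le (Real.rpow_pos_of_pos hn0 _) b2
  have h2 : ((n ^ (ε / 2)) ^ q)⁻¹ ≤ n ^ (-(2 * |C| + 1)) := by
    rw [← Real.rpow_natCast, ← Real.rpow_mul hn0.le, ← Real.rpow_neg hn0.le]
    exact Real.rpow_le_rpow_of_exponent_le hn1 (by linarith)
  have h3 : ∫ ω, X ω ^ 2 ∂μ + ∫ ω, Y ω ^ (2 * q + 2) ∂μ ≤ n ^ |C| * (1 + |G|) := by
    have h4 : n ^ C ≤ n ^ |C| := Real.rpow_le_rpow_of_exponent_le hn1 (le_abs_self C)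
    have h5 : (1 : ℝ) ≤ n ^ |C| := Real.one_le_rpow hn1 (abs_nonneg C)
    have h6 : G ≤ |G| := le_abs_self G
    nlinarith [abs_nonneg G]
  have h7 : 0 ≤ ∫ ω, X ω ^ 2 ∂μ + ∫ ω, Y ω ^ (2 * q + 2) ∂μ := by
    refine add_nonneg (integral_nonneg fun ω => sq_nonneg _)
      (integral_nonneg fun ω => pow_nonneg (hY ω) _)
  have h8 : ((n ^ (ε / 2)) ^ q)⁻¹ / 2 * (∫ ω, X ω ^ 2 ∂μ + ∫ ω, Y ω ^ (2 * q + 2) ∂μ) ≤
      (1 + |G|) * ∫ ω, X ω ∂μ := by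
    have h9 : n ^ (-(2 * |C| + 1)) * (n ^ |C| * (1 + |G|)) ≤ (1 + |G|) * ∫ ω, X ω ∂μ := by
      have h10 : n ^ (-(2 * |C| + 1)) * n ^ |C| ≤ ∫ ω, X ω ∂μ := by
        rw [← Real.rpow_add hn0]
        refine le_trans ?_ b2
        refine Real.rpow_le_rpow_of_exponent_le hn1 ?_
        have := le_abs_self C
        linarith
      have h11 : 0 ≤ 1 + |G| := by positivity
      nlinarith
    have h12 : 0 ≤ ((n ^ (ε / 2)) ^ q)⁻¹ := by positivity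
    calc ((n ^ (ε / 2)) ^ q)⁻¹ / 2 * (∫ ω, X ω ^ 2 ∂μ + ∫ ω, Y ω ^ (2 * q + 2) ∂μ)
        ≤ ((n ^ (ε / 2)) ^ q)⁻¹ * (∫ ω, X ω ^ 2 ∂μ + ∫ ω, Y ω ^ (2 * q + 2) ∂μ) := by
          have := mul_nonneg h12 h7
          nlinarith
      _ ≤ n ^ (-(2 * |C| + 1)) * (n ^ |C| * (1 + |G|)) := by
          refine mul_le_mul h2 h3 h7 (Real.rpow_nonneg hn0.le _)
      _ ≤ _ := h9
  have h13 := hN n hn
  nlinarith

/-- reverse Cauchy-Schwarz -/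
theorem low_cs {F Z : Ω → ℝ} (hF : ∀ ω, 0 ≤ F ω) (hZ : ∀ ω, 0 < Z ω)
    (h1 : Integrable (fun ω => F ω * Z ω) μ) (h2 : Integrable (fun ω => F ω * (Z ω)⁻¹) μ)
    (hFi : Integrable F μ) :
    (∫ ω, F ω ∂μ) ^ 2 ≤ (∫ ω, F ω * Z ω ∂μ) * ∫ ω, F ω * (Z ω)⁻¹ ∂μ := by
  set a := ∫ ω, F ω * Z ω ∂μ with ha
  set b := ∫ ω, F ω * (Z ω)⁻¹ ∂μ with hb
  set c := ∫ ω, F ω ∂μ with hc
  have ha0 : 0 ≤ a := integral_nonneg fun ω => mul_nonneg (hF ω) (hZ ω).le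
  have hb0 : 0 ≤ b := integral_nonneg fun ω => mul_nonneg (hF ω) (inv_nonneg.2 (hZ ω).le)
  have hc0 : 0 ≤ c := integral_nonneg fun ω => hF ω
  -- for every `t`: 2 t c ≤ t² a + b
  have key : ∀ t : ℝ, 2 * t * c ≤ t ^ 2 * a + b := by
    intro t
    rw [ha, hb, hc, ← integral_const_mul, ← integral_const_mul, ← integral_add]
    · refine integral_mono (hFi.const_mul _) ((h1.const_mul _).add h2) fun ω => ?_
      have hz := hZ ω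
      have h3 : 0 ≤ (t * Z ω - 1) ^ 2 * (Z ω)⁻¹ := by positivity
      have h4 : (t * Z ω - 1) ^ 2 * (Z ω)⁻¹ = t ^ 2 * Z ω + (Z ω)⁻¹ - 2 * t := by
        field_simp
        ring
      rw [h4] at h3
      have h5 := mul_nonneg (hF ω) h3
      show 2 * t * F ω ≤ t ^ 2 * (F ω * Z ω) + F ω * (Z ω)⁻¹
      nlinarith
    · exact h1.const_mul _
    · exact h2
  rcases ha0.eq_or_lt with h0 | h0
  · -- then c = 0
    have h5 : c = 0 := by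
      by_contra hne
      have hcp : 0 < c := lt_of_le_of_ne hc0 (Ne.symm hne)
      have := key ((b + 1) / (2 * c))
      rw [← h0] at this
      have h6 : 2 * ((b + 1) / (2 * c)) * c = b + 1 := by field_simp
      rw [h6] at this
      linarith
    rw [h5]
    have := mul_nonneg ha0 hb0
    simpa using this
  · have := key (c / a)
    have h6 : 2 * (c / a) * c = 2 * c ^ 2 / a := by ring
    have h7 : (c / a) ^ 2 * a = c ^ 2 / a := by field_simp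
    rw [h6, h7] at this
    have h8 : c ^ 2 / a ≤ b := by
      have : 2 * c ^ 2 / a = c ^ 2 / a + c ^ 2 / a := by ring
      linarith
    rw [div_le_iff₀ h0] at h8
    linarith

end

end Crest.Agent.R158.Tr612
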