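import Crest.Agent.R158.Bg5_612
import Crest.Agent.R158.Tr1_612
import Crest.Agent.R158.Lc5_522
import Crest.Agent.R158.Vx5_107
import Crest.Agent.R158.Ax2_107

/-!
# Row 158, identity B (helper612), part 6: the main estimate

* `main_est` : `(c₁ - C₂ S^ε (1-q)^J) E[2^N] e^{-αV} ≤ C₂ p2(S) e^{αV}`
-/

set_option autoImplicit false

noncomputable section

namespace Crest.Agent.R158.B612

open MeasureTheory hiding Lp
open Crest.Agent.R161.Geo729 Crest.Agent.R161.Dual374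
open Crest.Agent.R161.Tas682 (sd)
open Crest.Agent.R161.Ifc372 (CircZ)
open Crest.Agent.R161.Ann374 (mem_ball)
open Crest.Agent.R158.It200 hiding hf
open Crest.Agent.R158.Wf850
open Crest.Agent.R158.Fr158 (bx mem_bx mem_bx_sd eIn mem_eIn)
open Crest.Agent.R158.Cn109 (lsW smalls mem_smalls SS QQ DepF VV Sup integral_mul_indep)
open Crest.Agent.R158.Rs689 (dual Dep nu hf dE annE mem_annE circ_dep PB NoC noC_prob sc ArmX
  armX_sub_noC rsw_circ sigma_hf Rch)

local notation "μh" => Crest.Agent.R158.Rs689.nu Crest.Agent.R158.Rs689.hf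

/-- local error at a ring -/
def er (k : ℕ) (KT : Cfz → ℕ) (z : Cfz) : ℝ :=
  |SS lsW (fun _ => uc (2 ^ k)) (VR (2 ^ k)) (k + 4) z - VV (k + 4)| +
    QQ lsW (fun _ => uc (2 ^ k)) (VR (2 ^ k)) (k + 4) z + KT z

theorem hk4 (k : ℕ) : 2 ^ (k + 4) = 16 * 2 ^ k := by ring

theorem exp3 (a b c : ℝ) :
    Real.exp (a + b + c) ≤ Real.exp (3 * a) + Real.exp (3 * b) + Real.exp (3 * c) := by
  have h1 := Real.exp_pos (3 * a)
  have h2 := Real.exp_pos (3 * b)
  have h3 := Real.exp_pos (3 * c)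
  by_cases hab : b ≤ a
  · by_cases hac : c ≤ a
    · have : Real.exp (a + b + c) ≤ Real.exp (3 * a) := Real.exp_le_exp.2 (by linarith)
      linarith
    · have : Real.exp (a + b + c) ≤ Real.exp (3 * c) := Real.exp_le_exp.2 (by linarith)
      linarith
  · by_cases hbc : c ≤ b
    · have : Real.exp (a + b + c) ≤ Real.exp (3 * b) := Real.exp_le_exp.2 (by linarith)
      linarith
    · have : Real.exp (a + b + c) ≤ Real.exp (3 * c) := Real.exp_le_exp.2 (by linarith)
      linarith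

theorem uc_le (k : ℕ) : uc (2 ^ k) ≤ 1 / 4 ^ (k + 4) := by
  have hS : 1 ≤ 2 ^ k := Nat.one_le_two_pow
  have h1 := card_VR_pos hS
  have h2 : (4 : ℝ) ^ (k + 4) = 256 * ((2 ^ k : ℕ) : ℝ) ^ 2 := by
    push_cast
    rw [pow_add, ← pow_mul, mul_comm k 2, pow_mul]
    norm_num
    ring
  have h3 : (1 : ℝ) ≤ ((2 ^ k : ℕ) : ℝ) := by exact_mod_cast hS
  unfold uc
  rw [h2, ← one_div]
  refine one_div_le_one_div_of_le (by positivity) ?_
  nlinarith

/-- **the package at a ring** -/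
theorem ring_pack (t : ℝ) (ht : 0 ≤ t) : ∃ G : ℝ, 1 ≤ G ∧ ∀ k : ℕ, ∃ KT : Cfz → ℕ,
    (∀ z, (RCs (2 ^ k) z).ncard ≤ KT z) ∧ DepF (Rg (38 * 2 ^ k) (1060 * 2 ^ k)) (er k KT) ∧
      ∫ z, Real.exp (t * er k KT z) ∂μh ≤ G := by
  obtain ⟨G1, hG1, h1⟩ := Cn109.stat_moments (C := 1) zero_le_one (3 * t)
  obtain ⟨G2, hG2, h2⟩ := ring_count (3 * t) (by positivity)
  refine ⟨G1 + G1 + G2, by linarith, fun k => ?_⟩
  have hS : 1 ≤ 2 ^ k := Nat.one_le_two_pow
  obtain ⟨KT, hK1, hK2, hK3⟩ := h2 (2 ^ k) hS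
  obtain ⟨hs, hq⟩ := h1 (k + 4) (VR (2 ^ k)) (fun _ => uc (2 ^ k)) (fun _ _ => uc_nonneg _)
    (by rw [Finset.sum_const, nsmul_eq_mul]; exact card_uc hS) (fun _ _ => uc_le k)
  push_cast at hK1
  have d1 : DepF (Rg (38 * 2 ^ k) (1060 * 2 ^ k))
      (SS lsW (fun _ => uc (2 ^ k)) (VR (2 ^ k)) (k + 4)) :=
    (dep_SS (hk4 k)).mono (Rg_mono (by push_cast; linarith [show (0 : ℤ) ≤ 2 ^ k by positivity])
      (by push_cast; linarith [show (0 : ℤ) ≤ 2 ^ k by positivity]))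
  have d2 : DepF (Rg (38 * 2 ^ k) (1060 * 2 ^ k))
      (QQ lsW (fun _ => uc (2 ^ k)) (VR (2 ^ k)) (k + 4)) :=
    (dep_QQ (hk4 k)).mono (Rg_mono (by push_cast; linarith [show (0 : ℤ) ≤ 2 ^ k by positivity])
      (by push_cast; linarith [show (0 : ℤ) ≤ 2 ^ k by positivity]))
  refine ⟨KT, hK2, ?_, ?_⟩
  · exact ((d1.comp fun x => |x - VV (k + 4)|).add d2).add (hK1.comp fun n : ℕ => (n : ℝ))
  · rw [abs_of_nonneg (by positivity)] at hs hq
    have i1 := (d1.comp fun x => Real.exp (3 * t * |x - VV (k + 4)|)).integrable fun _ => hf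
    have i2 := (d2.comp fun x => Real.exp (3 * t * x)).integrable fun _ => hf
    have i3 := (hK1.comp fun n : ℕ => Real.exp (3 * t * (n : ℝ))).integrable fun _ => hf
    have i0 : Integrable (fun z => Real.exp (t * er k KT z)) μh :=
      ((((d1.comp fun x => |x - VV (k + 4)|).add d2).add (hK1.comp fun n : ℕ => (n : ℝ))).comp
        fun x => Real.exp (t * x)).integrable fun _ => hf
    calc ∫ z, Real.exp (t * er k KT z) ∂μh
        ≤ ∫ z, (Real.exp (3 * t * |SS lsW (fun _ => uc (2 ^ k)) (VR (2 ^ k)) (k + 4) z -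
            VV (k + 4)|) + Real.exp (3 * t * QQ lsW (fun _ => uc (2 ^ k)) (VR (2 ^ k)) (k + 4) z) +
            Real.exp (3 * t * (KT z : ℝ))) ∂μh := by
          refine integral_mono i0 ((i1.add i2).add i3) fun z => ?_
          unfold er
          have h3 := exp3 (t * |SS lsW (fun _ => uc (2 ^ k)) (VR (2 ^ k)) (k + 4) z - VV (k + 4)|)
            (t * QQ lsW (fun _ => uc (2 ^ k)) (VR (2 ^ k)) (k + 4) z) (t * (KT z : ℝ))
          simp only [← mul_assoc] at h3
          refine le_trans (le_of_eq ?_) h3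
          congr 1
          ring
      _ ≤ G1 + G1 + G2 := by
          have e1 := integral_add (i1.add i2) i3
          have e2 := integral_add i1 i2
          simp only [Pi.add_apply] at e1 e2
          refine le_trans (le_of_eq e1) ?_
          refine le_trans (add_le_add_left (le_of_eq e2) _) ?_
          exact add_le_add (add_le_add hs hq) hK3

/-- indicator -/
def ind (A : Set Cfz) (z : Cfz) : ℝ := A.indicator 1 z

theorem ind_nonneg (A : Set Cfz) (z : Cfz) : 0 ≤ ind A z :=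
  Set.indicator_nonneg (fun _ _ => zero_le_one) z

theorem ind_mem {A : Set Cfz} {z : Cfz} (h : z ∈ A) : ind A z = 1 := by
  unfold ind; rw [Set.indicator_of_mem h]; rfl

theorem ind_not {A : Set Cfz} {z : Cfz} (h : z ∉ A) : ind A z = 0 := by
  unfold ind; rw [Set.indicator_of_notMem h]

theorem dep_ind {S : Finset Edge} {A : Set Cfz} (h : Dep S A) : DepF S (ind A) := by
  intro z z' hz
  have h1 := h z z' hz
  by_cases hA : z ∈ A
  · rw [ind_mem hA, ind_mem (h1.1 hA)]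
  · rw [ind_not hA, ind_not fun h' => hA (h1.2 h')]

theorem int_ind {S : Finset Edge} {A : Set Cfz} (h : Dep S A) :
    ∫ z, ind A z ∂μh = (μh).real A := by
  unfold ind
  exact integral_indicator_one h.measurableSet

/-- lower bound for a tilted expectation on an event -/
theorem low_tilt {S : Finset Edge} {A : Set Cfz} (hA : Dep S A) {f : Cfz → ℝ} (hf' : DepF S f)
    {G : ℝ} (hG : ∫ z, Real.exp (f z) ∂μh ≤ G) :
    (μh).real A ^ 2 ≤ (∫ z, ind A z * Real.exp (-f z) ∂μh) * G := by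
  have h1 := Tr612.low_cs (μ := μh) (F := ind A) (Z := fun z => Real.exp (-f z)) (ind_nonneg A)
    (fun z => Real.exp_pos _)
    (((dep_ind hA).mul (hf'.comp fun x => Real.exp (-x))).integrable _)
    (((dep_ind hA).mul (hf'.comp fun x => (Real.exp (-x))⁻¹)).integrable _)
    ((dep_ind hA).integrable _)
  rw [int_ind hA] at h1
  refine h1.trans (mul_le_mul_of_nonneg_left ?_ (integral_nonneg fun z =>
    mul_nonneg (ind_nonneg A z) (Real.exp_pos _).le))
  refine le_trans ?_ hG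
  refine integral_mono (((dep_ind hA).mul (hf'.comp fun x => (Real.exp (-x))⁻¹)).integrable _)
    ((hf'.comp Real.exp).integrable _) fun z => ?_
  show ind A z * (Real.exp (-f z))⁻¹ ≤ Real.exp (f z)
  rw [Real.exp_neg, inv_inv]
  have h2 : ind A z ≤ 1 := by
    by_cases h : z ∈ A
    · rw [ind_mem h]
    · rw [ind_not h]; exact zero_le_one
  have := Real.exp_pos (f z)
  nlinarith

/-- the bad event crosses -/
theorem bad_sub {k J : ℕ} : BadS (2 ^ k) (2 ^ (k + 6 + 2 * J)) ⊆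
    NoC (0, 0) J (sc (1024 * 2 ^ k)) := by
  rintro z ⟨A, hA, hv, ⟨f, hf, hfA⟩, g, hg, hgA⟩
  have h64 : 64 * 2 ^ (k + 6 + 2 * J) = 4 * (1024 * 2 ^ k) * 4 ^ J := by
    rw [show (4 : ℕ) ^ J = 2 ^ (2 * J) by rw [pow_mul]; norm_num, pow_add, pow_add]
    norm_num
    ring
  refine armX_sub_noC (R := 64 * 2 ^ (k + 6 + 2 * J)) ?_ h64.ge ?_
  · have : 1 ≤ 2 ^ k := Nat.one_le_two_pow
    omega
  · have h1 : Splits A (BF (0, 0) (1024 * 2 ^ k : ℕ)) := by
      refine ⟨⟨f, ?_, hfA⟩, v0, ?_, hv⟩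
      · rw [mem_BF]; have := (mem_VR.1 hf).2; push_cast at this ⊢; exact this
      · rw [mem_BF]; show s0 v0 ≤ _; rw [s0_v0]; positivity
    have h2 : ¬ A ⊆ BF (0, 0) (64 * 2 ^ (k + 6 + 2 * J) : ℕ) := by
      intro h
      have h3 := h hgA
      rw [mem_BF] at h3
      have h4 := (mem_VR.1 hg).1
      have e : s0 g = sd (0, 0) g.1 := rfl
      push_cast at h3 h4
      omega
    obtain ⟨⟨u, v, hu, hv', huv⟩, -⟩ := cross2 hA h1 h2
    refine ⟨u, v, ?_, ?_, ?_, huv⟩
    · rw [sd0_le] at hu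
      rw [abs_le]; simp only [sub_zero]; omega
    · rw [sd0_le] at hu
      rw [abs_le]; simp only [sub_zero]; omega
    · have h5 : ((64 * 2 ^ (k + 6 + 2 * J) : ℕ) : ℤ) < sd (0, 0) v := by omega
      rw [sd0_eq, lt_max_iff] at h5
      simp only [sub_zero]
      rcases h5 with h5 | h5
      · exact Or.inl h5.le
      · exact Or.inr h5.le

theorem sc_le {s i j : ℕ} (h : i ≤ j) : sc s i ≤ sc s j := by
  unfold sc
  exact Nat.mul_le_mul_left _ (Nat.pow_le_pow_right (by norm_num) h)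

/-- support of the crossing event -/
theorem dep_noC {k J : ℕ} : Dep (Rg (4096 * 2 ^ k - 2) (32 * 2 ^ (k + 6 + 2 * J) + 2))
    (NoC (0, 0) J (sc (1024 * 2 ^ k))) := by
  unfold NoC
  refine Dep.iInter fun i => Dep.iInter fun hi => (Dep.mono ?_ (dep_circ' _ _)).compl
  rw [Finset.mem_range] at hi
  refine Rg_mono ?_ ?_
  · have h1 := sc_le (s := 1024 * 2 ^ k) (Nat.zero_le i)
    have h2 : sc (1024 * 2 ^ k) 0 = 4096 * 2 ^ k := by unfold sc; ring
    rw [h2] at h1
    have h3 : ((4096 * 2 ^ k : ℕ) : ℤ) ≤ (sc (1024 * 2 ^ k) i : ℤ) := by exact_mod_cast h1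
    push_cast at h3
    linarith
  · have h1 := sc_le (s := 1024 * 2 ^ k) (show i ≤ J - 1 by omega)
    have h2 : 2 * sc (1024 * 2 ^ k) (J - 1) = 32 * 2 ^ (k + 6 + 2 * J) := by
      obtain ⟨j, rfl⟩ : ∃ j, J = j + 1 := ⟨J - 1, by omega⟩
      unfold sc
      rw [Nat.add_sub_cancel, show (4 : ℕ) ^ j = 2 ^ (2 * j) by rw [pow_mul]; norm_num,
        show k + 6 + 2 * (j + 1) = k + 8 + 2 * j by ring, pow_add, pow_add]
      norm_num
      ring
    have h3 : ((2 * sc (1024 * 2 ^ k) i : ℕ) : ℤ) ≤ ((32 * 2 ^ (k + 6 + 2 * J) : ℕ) : ℤ) := by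
      exact_mod_cast (Nat.mul_le_mul_left 2 h1).trans h2.le
    push_cast at h3 ⊢
    linarith

theorem noC_le {q : ℝ} (hq : ∀ (x : P2) (n : ℕ), 1 ≤ n →
    q ≤ (μh).real (CircZ x n (2 * n))) (k J : ℕ) :
    (μh).real (NoC (0, 0) J (sc (1024 * 2 ^ k))) ≤ (1 - q) ^ J := by
  have hs : 1 ≤ 1024 * 2 ^ k := by
    have : 1 ≤ 2 ^ k := Nat.one_le_two_pow
    omega
  rw [noC_prob hf (0, 0) J (sc (1024 * 2 ^ k)) fun i j hij => Rs689.sc_step hs hij]
  calc ∏ i ∈ Finset.range J, (1 - (nu (unitInterval.symm hf)).real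
        (CircZ (0, 0) (sc (1024 * 2 ^ k) i) (2 * sc (1024 * 2 ^ k) i)))
      ≤ ∏ _i ∈ Finset.range J, (1 - q) := by
        refine Finset.prod_le_prod (fun i _ => ?_) fun i hi => ?_
        · have : (nu (unitInterval.symm hf)).real
            (CircZ (0, 0) (sc (1024 * 2 ^ k) i) (2 * sc (1024 * 2 ^ k) i)) ≤ 1 :=
              measureReal_le_one
          linarith
        · have h1 : 1 ≤ sc (1024 * 2 ^ k) i := by
            unfold sc
            exact Nat.one_le_iff_ne_zero.2 (by positivity)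
          have h3 := hq (0, 0) (sc (1024 * 2 ^ k) i) h1
          rw [sigma_hf]
          linarith
    _ = (1 - q) ^ J := by rw [Finset.prod_const, Finset.card_range]

end Crest.Agent.R158.B612
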