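import Crest.Agent.R158.Bg7_612
import Crest.Agent.R158.Bf1_109
import Crest.Agent.R158.Wf9_850

/-!
# Row 158, identity B (helper612), part 8: closure

* `main_b : Bf109.MainB`
* `sb_law : Bs410.Law3 → Ax107.SB Ax107.p2`
-/

set_option autoImplicit false

namespace Crest.Agent.R158.B612

theorem main_b : Bf109.MainB := main_est

/-- **two arms, lower bound `n^(-1/4-ε)`** -/
theorem sb_law (hLaw : Bs410.Law3) : Ax107.SB Ax107.p2 :=
  Bf109.sb_of_hyp main_b (Wf850.hyp_main hLaw)

end Crest.Agent.R158.B612
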