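import Mathlib

/-!
# R158, BL (helper679), file Bh1: the height-ordered chain of layer tiles

`RL` : the layer tiles to be added (all walls at once).  Rows: thin rows `{y}` and thick rows
`[k L2 - δ, k L2 + δ)`.
* `St RL y y' X` : the tiles present before the group (row `[y, y')`, column `X`)
* **`chain`** : thin groups cost `ε1`, thick groups cost `ε2`
-/

set_option autoImplicit false

namespace Crest.Agent.R158.Bh679

/-- state before the group (row `[y, y')`, column `X`) -/
def St (RL : Finset (ℤ × ℤ)) (y y' X : ℤ) : Finset (ℤ × ℤ) :=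
  RL.filter fun t => t.2 < y ∨ (t.2 < y' ∧ t.1 < X)

/-- the group -/
def Gr (RL : Finset (ℤ × ℤ)) (y y' X : ℤ) : Finset (ℤ × ℤ) :=
  RL.filter fun t => t.1 = X ∧ y ≤ t.2 ∧ t.2 < y'

/-- everything below a height -/
def Be (RL : Finset (ℤ × ℤ)) (y : ℤ) : Finset (ℤ × ℤ) := RL.filter fun t => t.2 < y

variable {RL : Finset (ℤ × ℤ)} {y y' X : ℤ}

theorem mem_St {t : ℤ × ℤ} : t ∈ St RL y y' X ↔ t ∈ RL ∧ (t.2 < y ∨ (t.2 < y' ∧ t.1 < X)) := by
  simp [St]

theorem mem_Gr {t : ℤ × ℤ} : t ∈ Gr RL y y' X ↔ t ∈ RL ∧ t.1 = X ∧ y ≤ t.2 ∧ t.2 < y' := by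
  simp [Gr]

theorem mem_Be {t : ℤ × ℤ} : t ∈ Be RL y ↔ t ∈ RL ∧ t.2 < y := by simp [Be]

theorem St_succ (_h : y ≤ y') : St RL y y' (X + 1) = St RL y y' X ∪ Gr RL y y' X := by
  ext t
  simp only [mem_St, Finset.mem_union, mem_Gr]
  constructor
  · rintro ⟨h1, h2⟩
    by_cases h3 : t.2 < y ∨ (t.2 < y' ∧ t.1 < X)
    · exact Or.inl ⟨h1, h3⟩
    · exact Or.inr ⟨h1, by omega, by omega, by omega⟩
  · rintro (⟨h1, h2⟩ | ⟨h1, h2⟩)
    · exact ⟨h1, by omega⟩
    · exact ⟨h1, by omega⟩

theorem St_low (h : ∀ t ∈ RL, X ≤ t.1) : St RL y y' X = Be RL y := by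
  ext t
  simp only [mem_St, mem_Be]
  constructor
  · rintro ⟨h1, h2⟩
    have := h t h1
    exact ⟨h1, by omega⟩
  · rintro ⟨h1, h2⟩
    exact ⟨h1, Or.inl h2⟩

theorem St_high (hy : y ≤ y') (h : ∀ t ∈ RL, t.1 < X) : St RL y y' X = Be RL y' := by
  ext t
  simp only [mem_St, mem_Be]
  constructor
  · rintro ⟨h1, h2⟩
    exact ⟨h1, by omega⟩
  · rintro ⟨h1, h2⟩
    exact ⟨h1, Or.inr ⟨h2, h t h1⟩⟩

/-- columns of the row -/
def Co (RL : Finset (ℤ × ℤ)) (y y' : ℤ) : Finset ℤ :=
  (RL.filter fun t => y ≤ t.2 ∧ t.2 < y').image Prod.fst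

theorem mem_Co {X : ℤ} : X ∈ Co RL y y' ↔ ∃ t ∈ RL, t.1 = X ∧ y ≤ t.2 ∧ t.2 < y' := by
  simp only [Co, Finset.mem_image, Finset.mem_filter]
  constructor
  · rintro ⟨t, ⟨h1, h2⟩, h3⟩; exact ⟨t, h1, h3, h2⟩
  · rintro ⟨t, h1, h3, h2⟩; exact ⟨t, ⟨h1, h2⟩, h3⟩

theorem Gr_empty (h : X ∉ Co RL y y') : Gr RL y y' X = ∅ := by
  rw [Finset.eq_empty_iff_forall_notMem]
  intro t ht
  obtain ⟨h1, h2, h3⟩ := mem_Gr.1 ht
  exact h (mem_Co.2 ⟨t, h1, h2, h3⟩)

theorem Co_card_le : (Co RL y y').card ≤ (RL.image Prod.fst).card := by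
  refine Finset.card_le_card fun X hX => ?_
  obtain ⟨t, h1, h2, -⟩ := mem_Co.1 hX
  exact Finset.mem_image.2 ⟨t, h1, h2⟩

variable {E : Type*} [SeminormedAddCommGroup E]

/-- one row -/
theorem row (H : Finset (ℤ × ℤ) → E) (hy : y ≤ y') {c : ℝ}
    (h : ∀ X ∈ Co RL y y', ‖H (St RL y y' (X + 1)) - H (St RL y y' X)‖ ≤ c) :
    ‖H (Be RL y') - H (Be RL y)‖ ≤ (Co RL y y').card * c := by
  obtain ⟨x0, hx0⟩ : ∃ x0 : ℤ, ∀ t ∈ RL, x0 ≤ t.1 := by
    obtain ⟨m, hm⟩ := (RL.image Prod.fst).bddBelow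
    exact ⟨m, fun t ht => hm (by simpa using ⟨t.2, ht⟩)⟩
  obtain ⟨x1, hx1⟩ : ∃ x1 : ℤ, ∀ t ∈ RL, t.1 < x1 := by
    obtain ⟨m, hm⟩ := (RL.image Prod.fst).bddAbove
    exact ⟨m + 1, fun t ht => Int.lt_add_one_iff.2 (hm (by simpa using ⟨t.2, ht⟩))⟩
  have key : ∀ m : ℕ, ‖H (St RL y y' (x0 + m)) - H (St RL y y' x0)‖ ≤
      ((Co RL y y').filter fun X => X < x0 + m).card * c := by
    intro m
    induction m with
    | zero =>
      have : (Co RL y y').filter (fun X => X < x0 + (0 : ℕ)) = ∅ := by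
        rw [Finset.eq_empty_iff_forall_notMem]
        intro X hX
        rw [Finset.mem_filter] at hX
        obtain ⟨t, h1, h2, -⟩ := mem_Co.1 hX.1
        have := hx0 t h1
        have := hX.2
        push_cast at this
        omega
      rw [this]
      simp
    | succ m ih =>
      have e : x0 + ((m + 1 : ℕ) : ℤ) = x0 + m + 1 := by push_cast; ring
      rw [e]
      by_cases hX : x0 + (m : ℤ) ∈ Co RL y y'
      · have h1 : (Co RL y y').filter (fun X => X < x0 + m + 1) =
            insert (x0 + (m : ℤ)) ((Co RL y y').filter fun X => X < x0 + m) := by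
          ext X
          simp only [Finset.mem_filter, Finset.mem_insert]
          constructor
          · rintro ⟨h2, h3⟩
            by_cases h4 : X = x0 + m
            · exact Or.inl h4
            · exact Or.inr ⟨h2, by omega⟩
          · rintro (rfl | ⟨h2, h3⟩)
            · exact ⟨hX, by omega⟩
            · exact ⟨h2, by omega⟩
        have h2 : x0 + (m : ℤ) ∉ (Co RL y y').filter fun X => X < x0 + m := by
          simp
        rw [h1, Finset.card_insert_of_notMem h2]
        have h3 := h _ hX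
        have h4 : H (St RL y y' (x0 + m + 1)) - H (St RL y y' x0) =
            (H (St RL y y' (x0 + m + 1)) - H (St RL y y' (x0 + m))) +
              (H (St RL y y' (x0 + m)) - H (St RL y y' x0)) := by abel
        rw [h4]
        refine (norm_add_le _ _).trans ?_
        push_cast
        linarith
      · have h1 : (Co RL y y').filter (fun X => X < x0 + m + 1) =
            (Co RL y y').filter fun X => X < x0 + m := by
          ext X
          simp only [Finset.mem_filter]
          constructor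
          · rintro ⟨h2, h3⟩
            refine ⟨h2, ?_⟩
            have : X ≠ x0 + m := fun e => hX (e ▸ h2)
            omega
          · rintro ⟨h2, h3⟩; exact ⟨h2, by omega⟩
        rw [h1, St_succ hy, Gr_empty hX, Finset.union_empty]
        exact ih
  have h1 := key (x1 - x0).toNat
  by_cases hne : RL = ∅
  · subst hne
    have e1 : Be (∅ : Finset (ℤ × ℤ)) y' = Be ∅ y := by simp [Be]
    rw [e1, sub_self, norm_zero]
    simp [Co]
  · obtain ⟨t, ht⟩ := Finset.nonempty_iff_ne_empty.2 hne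
    have h2 : x0 ≤ x1 := by have := hx0 t ht; have := hx1 t ht; omega
    have e : x0 + ((x1 - x0).toNat : ℤ) = x1 := by omega
    rw [e, St_high hy hx1, St_low hx0] at h1
    have h3 : (Co RL y y').filter (fun X => X < x1) = Co RL y y' := by
      rw [Finset.filter_eq_self]
      intro X hX
      obtain ⟨t, h4, h5, -⟩ := mem_Co.1 hX
      have := hx1 t h4
      omega
    rwa [h3] at h1

/-- the tiles of a row, thin -/
theorem Co_thin_card : (Co RL y (y + 1)).card = (RL.filter fun t => t.2 = y).card := by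
  have : RL.filter (fun t => y ≤ t.2 ∧ t.2 < y + 1) = RL.filter fun t => t.2 = y := by
    ext t; simp only [Finset.mem_filter]; constructor
    · rintro ⟨h1, h2⟩; exact ⟨h1, by omega⟩
    · rintro ⟨h1, h2⟩; exact ⟨h1, by omega⟩
  rw [Co, this]
  refine Finset.card_image_of_injOn ?_
  rintro a ha b hb hab
  simp only [Finset.coe_filter, Set.mem_ofPred_eq] at ha hb
  exact Prod.ext hab (by rw [ha.2, hb.2])

/-- several thin rows -/
theorem thins (H : Finset (ℤ × ℤ) → E) {c : ℝ} (y : ℤ) (m : ℕ)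
    (h : ∀ z, y ≤ z → z < y + m → ∀ X ∈ Co RL z (z + 1),
      ‖H (St RL z (z + 1) (X + 1)) - H (St RL z (z + 1) X)‖ ≤ c) :
    ‖H (Be RL (y + m)) - H (Be RL y)‖ ≤
      (RL.filter fun t => y ≤ t.2 ∧ t.2 < y + m).card * c := by
  induction m with
  | zero =>
    have : RL.filter (fun t => y ≤ t.2 ∧ t.2 < y + (0 : ℕ)) = ∅ := by
      rw [Finset.eq_empty_iff_forall_notMem]
      intro t ht
      rw [Finset.mem_filter] at ht
      push_cast at ht
      omega
    rw [this]
    simp
  | succ m ih =>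
    have ih' := ih fun z h1 h2 => h z h1 (by push_cast; omega)
    have hr := row (RL := RL) (y := y + m) (y' := y + m + 1) H (by omega) (c := c)
      (h (y + m) (by omega) (by push_cast; omega))
    rw [Co_thin_card] at hr
    have e : y + ((m + 1 : ℕ) : ℤ) = y + m + 1 := by push_cast; ring
    rw [e]
    have h1 : RL.filter (fun t => y ≤ t.2 ∧ t.2 < y + m + 1) =
        (RL.filter fun t => y ≤ t.2 ∧ t.2 < y + m) ∪ RL.filter fun t => t.2 = y + m := by
      ext t
      simp only [Finset.mem_filter, Finset.mem_union]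
      constructor
      · rintro ⟨h1, h2⟩
        by_cases h3 : t.2 = y + m
        · exact Or.inr ⟨h1, h3⟩
        · exact Or.inl ⟨h1, by omega⟩
      · rintro (⟨h1, h2⟩ | ⟨h1, h2⟩)
        · exact ⟨h1, by omega⟩
        · exact ⟨h1, by omega⟩
    have h2 : Disjoint (RL.filter fun t => y ≤ t.2 ∧ t.2 < y + m)
        (RL.filter fun t => t.2 = y + m) := by
      rw [Finset.disjoint_left]
      intro t ht ht'
      rw [Finset.mem_filter] at ht ht'
      omega
    rw [h1, Finset.card_union_of_disjoint h2]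
    have h4 : H (Be RL (y + m + 1)) - H (Be RL y) =
        (H (Be RL (y + m + 1)) - H (Be RL (y + m))) + (H (Be RL (y + m)) - H (Be RL y)) := by abel
    rw [h4]
    refine (norm_add_le _ _).trans ?_
    push_cast
    linarith

/-- **the height-ordered chain** -/
theorem chain (H : Finset (ℤ × ℤ) → E) {L2 δ k0 : ℤ} {K : ℕ} (hδ : 0 ≤ δ) (hL : 2 * δ ≤ L2)
    (lo : ∀ t ∈ RL, k0 * L2 - δ ≤ t.2) (hi : ∀ t ∈ RL, t.2 < (k0 + K) * L2 - δ) {ε1 ε2 : ℝ}
    (hε1 : 0 ≤ ε1) (hε2 : 0 ≤ ε2)
    (thin : ∀ k y X : ℤ, k * L2 + δ ≤ y → y < (k + 1) * L2 - δ → (X, y) ∈ RL →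
      ‖H (insert (X, y) (St RL y (y + 1) X)) - H (St RL y (y + 1) X)‖ ≤ ε1)
    (thick : ∀ k X : ℤ, (∃ t ∈ RL, t.1 = X ∧ k * L2 - δ ≤ t.2 ∧ t.2 < k * L2 + δ) →
      ‖H (St RL (k * L2 - δ) (k * L2 + δ) X ∪ Gr RL (k * L2 - δ) (k * L2 + δ) X) -
        H (St RL (k * L2 - δ) (k * L2 + δ) X)‖ ≤ ε2) :
    ‖H RL - H ∅‖ ≤ RL.card * ε1 + K * (RL.image Prod.fst).card * ε2 := by
  -- blocks
  have key : ∀ m : ℕ, ‖H (Be RL ((k0 + m) * L2 - δ)) - H (Be RL (k0 * L2 - δ))‖ ≤
      (RL.filter fun t => t.2 < (k0 + m) * L2 - δ).card * ε1 +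
        m * (RL.image Prod.fst).card * ε2 := by
    intro m
    induction m with
    | zero =>
      simp only [Nat.cast_zero, add_zero, sub_self, norm_zero, zero_mul]
      positivity
    | succ m ih =>
      have h1 := row (RL := RL) (y := (k0 + m) * L2 - δ) (y' := (k0 + m) * L2 + δ) H (by omega)
        (c := ε2) fun X hX => by
          rw [St_succ (by omega)]
          exact thick (k0 + m) X (mem_Co.1 hX)
      have h2 := thins (RL := RL) H (c := ε1) ((k0 + m) * L2 + δ) (L2 - 2 * δ).toNat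
        fun z hz1 hz2 X hX => by
          have e : (((L2 - 2 * δ).toNat : ℕ) : ℤ) = L2 - 2 * δ := by omega
          rw [e] at hz2
          obtain ⟨t, ht, h3, h4, h5⟩ := mem_Co.1 hX
          have ht' : (X, z) ∈ RL := by
            have : t = (X, z) := Prod.ext h3 (by show t.2 = z; omega)
            rwa [← this]
          have h6 := thin (k0 + m) z X hz1 (by
            have : (k0 + m + 1) * L2 = (k0 + m) * L2 + L2 := by ring
            rw [this]; omega) ht'
          have h7 : St RL z (z + 1) (X + 1) = insert (X, z) (St RL z (z + 1) X) := by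
            rw [St_succ (by omega)]
            ext t
            simp only [Finset.mem_union, Finset.mem_insert, mem_Gr]
            constructor
            · rintro (h8 | ⟨h8, h9, h10, h11⟩)
              · exact Or.inr h8
              · exact Or.inl (Prod.ext h9 (by show t.2 = z; omega))
            · rintro (rfl | h8)
              · exact Or.inr ⟨ht', rfl, le_refl _, by simp⟩
              · exact Or.inl h8
          rw [h7]; exact h6
      have e : (k0 + m) * L2 + δ + (((L2 - 2 * δ).toNat : ℕ) : ℤ) =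
          (k0 + ((m + 1 : ℕ) : ℤ)) * L2 - δ := by
        have : (((L2 - 2 * δ).toNat : ℕ) : ℤ) = L2 - 2 * δ := by omega
        rw [this]; push_cast; ring
      rw [e] at h2
      have hcard : (RL.filter fun t => t.2 < (k0 + m) * L2 - δ).card +
          (RL.filter fun t => (k0 + m) * L2 + δ ≤ t.2 ∧ t.2 < (k0 + ((m + 1 : ℕ) : ℤ)) * L2 - δ).card
          ≤ (RL.filter fun t => t.2 < (k0 + ((m + 1 : ℕ) : ℤ)) * L2 - δ).card := by
        rw [← Finset.card_union_of_disjoint]
        · refine Finset.card_le_card fun t ht => ?_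
          rw [Finset.mem_union, Finset.mem_filter, Finset.mem_filter] at ht
          rw [Finset.mem_filter]
          rcases ht with ⟨h3, h4⟩ | ⟨h3, h4⟩
          · refine ⟨h3, ?_⟩
            have : (k0 + ((m + 1 : ℕ) : ℤ)) * L2 = (k0 + m) * L2 + L2 := by push_cast; ring
            rw [this]; omega
          · exact ⟨h3, h4.2⟩
        · rw [Finset.disjoint_left]
          intro t ht ht'
          rw [Finset.mem_filter] at ht ht'
          omega
      have h4 : H (Be RL ((k0 + ((m + 1 : ℕ) : ℤ)) * L2 - δ)) - H (Be RL (k0 * L2 - δ)) =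
          (H (Be RL ((k0 + ((m + 1 : ℕ) : ℤ)) * L2 - δ)) - H (Be RL ((k0 + m) * L2 + δ))) +
          ((H (Be RL ((k0 + m) * L2 + δ)) - H (Be RL ((k0 + m) * L2 - δ))) +
          (H (Be RL ((k0 + m) * L2 - δ)) - H (Be RL (k0 * L2 - δ)))) := by abel
      rw [h4]
      refine (norm_add_le _ _).trans ((add_le_add_right (norm_add_le _ _) _).trans ?_)
      have h5 : ((Co RL ((k0 + m) * L2 - δ) ((k0 + m) * L2 + δ)).card : ℝ) * ε2 ≤
          (RL.image Prod.fst).card * ε2 :=
        mul_le_mul_of_nonneg_right (by exact_mod_cast Co_card_le) hε2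
      have h6 : ((RL.filter fun t => t.2 < (k0 + m) * L2 - δ).card : ℝ) * ε1 +
          ((RL.filter fun t => (k0 + m) * L2 + δ ≤ t.2 ∧
            t.2 < (k0 + ((m + 1 : ℕ) : ℤ)) * L2 - δ).card : ℝ) * ε1 ≤
          ((RL.filter fun t => t.2 < (k0 + ((m + 1 : ℕ) : ℤ)) * L2 - δ).card : ℝ) * ε1 := by
        rw [← add_mul]
        exact mul_le_mul_of_nonneg_right (by exact_mod_cast hcard) hε1
      push_cast at h2 h5 h6 ⊢
      nlinarith
  have h1 := key K
  have e1 : Be RL ((k0 + K) * L2 - δ) = RL := by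
    rw [Be, Finset.filter_eq_self]
    exact hi
  have e2 : Be RL (k0 * L2 - δ) = ∅ := by
    rw [Finset.eq_empty_iff_forall_notMem]
    intro t ht
    obtain ⟨h2, h3⟩ := mem_Be.1 ht
    have := lo t h2
    omega
  have e3 : RL.filter (fun t => t.2 < (k0 + K) * L2 - δ) = RL := by
    rw [Finset.filter_eq_self]
    exact hi
  rw [e1, e2, e3] at h1
  exact h1

end Crest.Agent.R158.Bh679
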