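import Crest.Agent.R158.Bh1_679

/-!
# R158, BL (helper679), file Bh2: the same chain from top to bottom

* `StD LL y y' X` : the tiles present before the group (row `(y, y']`, column `X`): everything above
  `y'`, and the columns `> X` of the row
* **`chain_dn`**
-/

set_option autoImplicit false

namespace Crest.Agent.R158.Bh679

/-- state before the group (row `(y, y']`, column `X`), from top to bottom -/
def StD (LL : Finset (ℤ × ℤ)) (y y' X : ℤ) : Finset (ℤ × ℤ) :=
  LL.filter fun t => y' < t.2 ∨ (y < t.2 ∧ X < t.1)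

/-- the group -/
def GrD (LL : Finset (ℤ × ℤ)) (y y' X : ℤ) : Finset (ℤ × ℤ) :=
  LL.filter fun t => t.1 = X ∧ y < t.2 ∧ t.2 ≤ y'

/-- half turn -/
def ng : ℤ × ℤ → ℤ × ℤ := fun t => (-t.1, -t.2)

theorem ng_ng (t : ℤ × ℤ) : ng (ng t) = t := by simp [ng]

/-- half turn of a set -/
def nS (S : Finset (ℤ × ℤ)) : Finset (ℤ × ℤ) := S.image ng

theorem mem_nS {S : Finset (ℤ × ℤ)} {t : ℤ × ℤ} : t ∈ nS S ↔ ng t ∈ S := by
  simp only [nS, Finset.mem_image]
  constructor
  · rintro ⟨u, hu, rfl⟩; rwa [ng_ng]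
  · intro h; exact ⟨ng t, h, ng_ng t⟩

theorem nS_nS (S : Finset (ℤ × ℤ)) : nS (nS S) = S := by
  ext t; rw [mem_nS, mem_nS, ng_ng]

variable {LL : Finset (ℤ × ℤ)}

theorem nS_St {y y' X : ℤ} : nS (St (nS LL) y y' X) = StD LL (-y') (-y) (-X) := by
  ext t
  simp only [mem_nS, mem_St, StD, Finset.mem_filter, ng_ng]
  simp only [ng]
  constructor
  · rintro ⟨h1, h2⟩; exact ⟨h1, by omega⟩
  · rintro ⟨h1, h2⟩; exact ⟨h1, by omega⟩

theorem nS_Gr {y y' X : ℤ} : nS (Gr (nS LL) y y' X) = GrD LL (-y') (-y) (-X) := by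
  ext t
  simp only [mem_nS, mem_Gr, GrD, Finset.mem_filter, ng_ng]
  simp only [ng]
  constructor
  · rintro ⟨h1, h2, h3⟩; exact ⟨h1, by omega⟩
  · rintro ⟨h1, h2, h3⟩; exact ⟨h1, by omega⟩

variable {E : Type*} [SeminormedAddCommGroup E]

/-- **the height-ordered chain from top to bottom**; thick rows `(k L2 - δ, k L2 + δ]` -/
theorem chain_dn (H : Finset (ℤ × ℤ) → E) {L2 δ k0 : ℤ} {K : ℕ} (hδ : 0 ≤ δ) (hL : 2 * δ ≤ L2)
    (lo : ∀ t ∈ LL, t.2 ≤ k0 * L2 + δ) (hi : ∀ t ∈ LL, (k0 - K) * L2 + δ < t.2) {ε1 ε2 : ℝ}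
    (hε1 : 0 ≤ ε1) (hε2 : 0 ≤ ε2)
    (thin : ∀ k y X : ℤ, k * L2 + δ < y → y ≤ (k + 1) * L2 - δ → (X, y) ∈ LL →
      ‖H (insert (X, y) (StD LL (y - 1) y X)) - H (StD LL (y - 1) y X)‖ ≤ ε1)
    (thick : ∀ k X : ℤ, (∃ t ∈ LL, t.1 = X ∧ k * L2 - δ < t.2 ∧ t.2 ≤ k * L2 + δ) →
      ‖H (StD LL (k * L2 - δ) (k * L2 + δ) X ∪ GrD LL (k * L2 - δ) (k * L2 + δ) X) -
        H (StD LL (k * L2 - δ) (k * L2 + δ) X)‖ ≤ ε2) :
    ‖H LL - H ∅‖ ≤ LL.card * ε1 + K * (LL.image Prod.fst).card * ε2 := by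
  have h := chain (RL := nS LL) (fun S => H (nS S)) (L2 := L2) (δ := δ) (k0 := -k0) (K := K) hδ hL
    (fun t ht => by
      have := lo _ (mem_nS.1 ht)
      simp only [ng] at this
      have e : -k0 * L2 = -(k0 * L2) := by ring
      rw [e]; omega)
    (fun t ht => by
      have := hi _ (mem_nS.1 ht)
      simp only [ng] at this
      have e : (-k0 + K) * L2 = -((k0 - K) * L2) := by ring
      rw [e]; omega) hε1 hε2
    (fun k y X h1 h2 h3 => by
      have h4 := mem_nS.1 h3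
      simp only [ng] at h4
      have e1 : nS (insert (X, y) (St (nS LL) y (y + 1) X)) =
          insert (-X, -y) (StD LL (-y - 1) (-y) (-X)) := by
        have : nS (insert (X, y) (St (nS LL) y (y + 1) X)) =
            insert (ng (X, y)) (nS (St (nS LL) y (y + 1) X)) := by
          simp only [nS, Finset.image_insert]
        rw [this, nS_St, show -(y + 1) = -y - 1 by ring]
        rfl
      show ‖H (nS (insert (X, y) (St (nS LL) y (y + 1) X))) - H (nS (St (nS LL) y (y + 1) X))‖ ≤ ε1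
      rw [e1, nS_St, show -(y + 1) = -y - 1 by ring]
      refine thin (-k - 1) (-y) (-X) ?_ ?_ h4
      · have e : (-k - 1) * L2 = -((k + 1) * L2) := by ring
        rw [e]; omega
      · have e : (-k - 1 + 1) * L2 = -(k * L2) := by ring
        rw [e]; omega)
    (fun k X h1 => by
      show ‖H (nS (St (nS LL) (k * L2 - δ) (k * L2 + δ) X ∪ Gr (nS LL) (k * L2 - δ) (k * L2 + δ) X)) -
        H (nS (St (nS LL) (k * L2 - δ) (k * L2 + δ) X))‖ ≤ ε2
      have e1 : nS (St (nS LL) (k * L2 - δ) (k * L2 + δ) X ∪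
          Gr (nS LL) (k * L2 - δ) (k * L2 + δ) X) =
          nS (St (nS LL) (k * L2 - δ) (k * L2 + δ) X) ∪
          nS (Gr (nS LL) (k * L2 - δ) (k * L2 + δ) X) := by
        simp only [nS, Finset.image_union]
      have e2 : -(k * L2 + δ) = -k * L2 - δ := by ring
      have e3 : -(k * L2 - δ) = -k * L2 + δ := by ring
      rw [e1, nS_St, nS_Gr, e2, e3]
      refine thick (-k) (-X) ?_
      obtain ⟨t, ht, h2, h3, h4⟩ := h1
      refine ⟨ng t, mem_nS.1 ht, by simp [ng, h2], ?_, ?_⟩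
      · simp only [ng]
        rw [← e2]; omega
      · simp only [ng]
        rw [← e3]; omega)
  have e1 : nS (nS LL) = LL := nS_nS LL
  have e2 : nS ∅ = ∅ := by simp [nS]
  have e3 : (nS LL).card = LL.card := by
    refine Finset.card_image_of_injective _ fun a b hab => ?_
    have := congrArg ng hab
    rwa [ng_ng, ng_ng] at this
  have e4 : ((nS LL).image Prod.fst).card = (LL.image Prod.fst).card := by
    have : (nS LL).image Prod.fst = (LL.image Prod.fst).image Neg.neg := by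
      rw [nS, Finset.image_image, Finset.image_image]
      rfl
    rw [this, Finset.card_image_of_injective _ neg_injective]
  simp only [e1, e2, e3, e4] at h
  exact h

end Crest.Agent.R158.Bh679
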