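import Crest.Agent.R158.Wd1_377

/-!
# R158, block WD (helper377), file Wd2: independence of the word, regions with marks

* `HW_uniq` : two words of the same region have the same observable
* `MK A b m1 m2 m3` : the region `(A, b)` has a word with `m1, m2, m3` in clockwise order
* **`HG_eq`** : the observable of the region is the value of any word
* `cyc_ring` : the clockwise order read in any rotated list
-/

set_option autoImplicit false
set_option linter.unusedSectionVars false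

namespace Crest.Agent.R158.Wd377

open Crest.Agent.R158.Sw300 (Port Wd L M S u be tls pos Ok Fc cyc Adj)
open Crest.Agent.R158.Ob664 (GW HW HV HG HG_spec Gl)
open Crest.Agent.R158.Env664 (IsWord PortOf)
open Crest.Agent.R158.Xr249 (Nx addP bas)
open Crest.Agent.R158.Sl434 hiding cyc

/-- two systems on the same maps and list -/
theorem sys_uniq {X : Type*} {al be : X → X} {z : X} {L : List X} {M M' : X → X} {u u' : X}
    (h : Sys al be z L M u) (h' : Sys al be z L M' u') : u = u' ∧ ∀ a ∈ L, M a = M' a := by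
  have hu : u = u' := ((h.leg u' h'.uL).1 ((h'.leg u' h'.uL).2 rfl)).symm
  refine ⟨hu, fun a ha => ?_⟩
  rcases h'.uni a ha _ (h.mem a ha) (h.str a ha) with h1 | h1
  · have h2 : a = u := (h.fix a ha).1 h1
    rw [h1]
    exact ((h'.fix a ha).2 (h2.trans hu)).symm
  · exact h1

theorem sepc_congr {α : Type*} [DecidableEq α] {L : List α} {M M' : α → α}
    (h : ∀ a ∈ L, M a = M' a) (u x y z : α) : Sepc L M u x y z ↔ Sepc L M' u x y z := by
  unfold Sepc
  constructor
  · rintro ⟨a, ha, h1, h2, h3, h4, h5⟩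
    exact ⟨a, ha, by rwa [← h a ha], by rwa [← h a ha], by rwa [← h a ha], by rwa [← h a ha],
      by rwa [← h a ha]⟩
  · rintro ⟨a, ha, h1, h2, h3, h4, h5⟩
    exact ⟨a, ha, by rwa [h a ha], by rwa [h a ha], by rwa [h a ha], by rwa [h a ha],
      by rwa [h a ha]⟩

theorem vv_congr {α : Type*} [DecidableEq α] {L : List α} {M M' : α → α}
    (h : ∀ a ∈ L, M a = M' a) (u x y z : α) : VV L M u x y z = VV L M' u x y z := by
  unfold VV
  rw [propext (sepc_congr h u y z x), propext (sepc_congr h u x y z),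
    propext (sepc_congr h u z x y)]

variable {T : Type*} [DecidableEq T]

/-- **the clockwise order can be read in any rotation of the list of free ends** -/
theorem cyc_ring {w : Wd T} (h : Ok w) {R : List (Port T)} (hr : L w ~r R) {a b c : Port T}
    (ha : a ∈ L w) (hb : b ∈ L w) (hc : c ∈ L w) :
    cyc (pos w a) (pos w b) (pos w c) ↔ cycI R a b c := by
  rw [cycI_rot hr (Sw300.nodup h) ha hb hc, cycI_pos (Sw300.sorted w h) ha hb hc]

theorem cyc_ne {α : Type*} {f : α → ℤ} {a b c : α} (h : cyc (f a) (f b) (f c)) :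
    a ≠ b ∧ b ≠ c ∧ c ≠ a := by
  refine ⟨?_, ?_, ?_⟩ <;> rintro rfl <;> unfold cyc at h <;> omega

/-- a mark of a leg word is not the leg -/
theorem mark_some {w : Wd T} (h : Ok w) (hb : bas w = none) {m m' : Port T} (hm : m ∈ L w)
    (hm' : m' ∈ L w) (hne : m ≠ m') : m ≠ none := by
  rintro rfl
  have e := none_mem_L h hb hm
  subst e
  simp only [L, List.mem_singleton] at hm'
  exact hne hm'.symm

theorem mem_of_mem {A : Finset T} {b : Port T → Port T} {w w' : Wd T} (h : GW A b w)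
    (h' : GW A b w') {m m' : Port T} (hm : m ∈ L w) (hm' : m' ∈ L w) (hne : m ≠ m') :
    m ∈ L w' := by
  have h1 := mark_some h.word.1 h.leg hm hm' hne
  rcases m with - | ⟨t, d⟩
  · exact absurd rfl h1
  · exact (mem_L h').2 ((mem_L h).1 hm)

/-- **two words of the same region have the same observable** -/
theorem HW_uniq {A : Finset T} {b : Port T → Port T} {w w' : Wd T} (h : GW A b w)
    (h' : GW A b w') {m1 m2 m3 : Port T} (h1 : m1 ∈ L w) (h2 : m2 ∈ L w) (h3 : m3 ∈ L w)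
    (hc : cyc (pos w m1) (pos w m2) (pos w m3)) :
    m1 ∈ L w' ∧ m2 ∈ L w' ∧ m3 ∈ L w' ∧ cyc (pos w' m1) (pos w' m2) (pos w' m3) ∧
      ∀ s, HV w m1 m2 m3 s = HV w' m1 m2 m3 s := by
  obtain ⟨n12, n23, n31⟩ := cyc_ne hc
  have k1 := mem_of_mem h h' h1 h2 n12
  have k2 := mem_of_mem h h' h2 h3 n23
  have k3 := mem_of_mem h h' h3 h1 n31
  have hn := Sw300.nodup h.word.1
  have hn' := Sw300.nodup h'.word.1
  have hr : L w ~r L w' := ring_uniq (nx_det b) (gw_ring h) (gw_ring h') hn hn' h1 k1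
  have hc' : cyc (pos w' m1) (pos w' m2) (pos w' m3) := by
    rw [cyc_ring h'.word.1 hr.symm k1 k2 k3, ← cyc_ring h.word.1 (List.IsRotated.refl _) h1 h2 h3]
    exact hc
  refine ⟨k1, k2, k3, hc', fun s => ?_⟩
  rw [hv_eq h.word.1 s h1 h2 h3 hc, hv_eq h'.word.1 s k1 k2 k3 hc']
  have S1 := (sys_of_word h.word.1 s).rot hr
  have S2 := sys_of_word h'.word.1 s
  rw [be_eq h] at S1
  rw [be_eq h'] at S2
  obtain ⟨e1, e2⟩ := sys_uniq S1 S2
  rw [← vv_rot hr hn ((sys_of_word h.word.1 s).uL) h1 h2 h3 n12 n31, vv_congr e2, e1]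

/-- **regions with three marks in clockwise order** -/
def MK (A : Finset T) (b : Port T → Port T) (m1 m2 m3 : Port T) : Prop :=
  ∃ w, GW A b w ∧ m1 ∈ L w ∧ m2 ∈ L w ∧ m3 ∈ L w ∧ cyc (pos w m1) (pos w m2) (pos w m3)

/-- **the observable of a region is the value of any word** -/
theorem HG_eq {A : Finset T} {b : Port T → Port T} {w : Wd T} (h : GW A b w)
    {m1 m2 m3 : Port T} (h1 : m1 ∈ L w) (h2 : m2 ∈ L w) (h3 : m3 ∈ L w)
    (hc : cyc (pos w m1) (pos w m2) (pos w m3)) : HG A b m1 m2 m3 = HW w m1 m2 m3 := by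
  obtain ⟨w', h', e⟩ := HG_spec ⟨w, h⟩ m1 m2 m3
  rw [e]
  unfold HW
  congr 1
  funext s
  exact ((HW_uniq h h' h1 h2 h3 hc).2.2.2.2 s).symm

theorem MK.spec {A : Finset T} {b : Port T → Port T} {m1 m2 m3 : Port T} (h : MK A b m1 m2 m3) :
    ∃ w, GW A b w ∧ m1 ∈ L w ∧ m2 ∈ L w ∧ m3 ∈ L w ∧ cyc (pos w m1) (pos w m2) (pos w m3) ∧
      HG A b m1 m2 m3 = HW w m1 m2 m3 := by
  obtain ⟨w, h0, h1, h2, h3, hc⟩ := h
  exact ⟨w, h0, h1, h2, h3, hc, HG_eq h0 h1 h2 h3 hc⟩

/-- every word of a marked region has the marks in clockwise order -/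
theorem MK.word {A : Finset T} {b : Port T → Port T} {m1 m2 m3 : Port T} (h : MK A b m1 m2 m3)
    {w : Wd T} (hw : GW A b w) :
    m1 ∈ L w ∧ m2 ∈ L w ∧ m3 ∈ L w ∧ cyc (pos w m1) (pos w m2) (pos w m3) := by
  obtain ⟨w', h0, h1, h2, h3, hc⟩ := h
  obtain ⟨k1, k2, k3, k4, -⟩ := HW_uniq h0 hw h1 h2 h3 hc
  exact ⟨k1, k2, k3, k4⟩

end Crest.Agent.R158.Wd377
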