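import Crest.Agent.R158.Hb0_656
import Crest.Agent.R158.Wd2_377

/-!
# R158, BL (B7) (helper679), file Bh4: the literal statements `RLchain`, `LLchain`

* `NP F` : no pinch; `Away H L p y0 xr` : the slit is at distance `≥ L / 2` from `D H L`
* `mq`, `MKs`, `HGs` : marks, marked region and observable of the state `S`
  (region `shD F H L δ ∪ S`, slit `p, y0, xr`)
* `Words` : every state has a word (B2)
* **`RLchain`**, **`LLchain`** : the two chain statements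
-/

set_option autoImplicit false

noncomputable section

namespace Crest.Agent.R158.Bh679

open Crest.Agent.R158.Sp896 (V)
open Crest.Agent.R158.Sw300 (Port)
open Crest.Agent.R158.Env664 (D mark nbc beD)
open Crest.Agent.R158.Ob664 (GW HG)
open Crest.Agent.R158.Hb656 (Hang shD RL LL mkS)
open Crest.Agent.R158.Wd377 (MK)

/-- no pinch -/
def NP (F : Finset V) : Prop := ∀ a b : ℤ,
  ¬ ((a, b) ∈ F ∧ (a + 1, b + 1) ∈ F ∧ (a + 1, b) ∉ F ∧ (a, b + 1) ∉ F) ∧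
  ¬ ((a + 1, b) ∈ F ∧ (a, b + 1) ∈ F ∧ (a, b) ∉ F ∧ (a + 1, b + 1) ∉ F)

/-- the slit is at distance `≥ L / 2` from the moved part -/
def Away (H : Finset V) (L p y0 xr : ℤ) : Prop :=
  ∀ x, p ≤ x → x ≤ xr + 1 → ∀ t ∈ D H L, L ≤ 2 * |x - t.1| ∨ L ≤ 2 * |y0 - t.2|

/-- the mark of the boundary edge `c` in the state `S` -/
def mq (H : Finset V) (L δ : ℤ) (S : Finset V) (c : V × ZMod 4) : Port V :=
  (mark L c.1 c.2).2.map (mkS H L δ S)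

/-- the marked region of the state `S` -/
def MKs (F H : Finset V) (L δ p y0 xr : ℤ) (c : Fin 3 → V × ZMod 4) (S : Finset V) : Prop :=
  MK (shD F H L δ ∪ S) (beD (shD F H L δ ∪ S) p y0 xr)
    (mq H L δ S (c 0)) (mq H L δ S (c 1)) (mq H L δ S (c 2))

/-- the observable of the state `S` -/
def HGs (F H : Finset V) (L δ p y0 xr : ℤ) (c : Fin 3 → V × ZMod 4) (S : Finset V) : ℂ :=
  HG (shD F H L δ ∪ S) (beD (shD F H L δ ∪ S) p y0 xr)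
    (mq H L δ S (c 0)) (mq H L δ S (c 1)) (mq H L δ S (c 2))

/-- every state has a word -/
def Words (F H : Finset V) (L δ p y0 xr : ℤ) (lay : Finset V) : Prop :=
  ∀ S, S ⊆ lay → ∃ w, GW (shD F H L δ ∪ S) (beD (shD F H L δ ∪ S) p y0 xr) w

/-- **(B7), right walls** : from `shD F H L δ` to `shD F H L δ ∪ RL`, `δ ∈ {-1, 0}` -/
def RLchain : Prop := ∃ C a c : ℝ, 0 ≤ C ∧ 0 < a ∧ 0 < c ∧ ∀ F : Finset V, NP F → ∃ N : ℕ,
  ∀ (H : Finset V) (k i0 i1 : ℤ) (up : Bool), Hang F H k i0 i1 up →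
  ∀ (L δ p y0 xr : ℤ) (g : ℕ), Even L → (δ = -1 ∨ δ = 0) → 8 ≤ g → 64 * (g : ℤ) ≤ L →
  p ≤ xr → Away H L p y0 xr → Words F H L δ p y0 xr (RL F H L δ) →
  ∀ m : Fin 3 → V × ZMod 4, Function.Injective m →
  (∀ i, (m i).1 ∈ F ∧ nbc (m i).1 (m i).2 ∉ F) →
  (MKs F H L δ p y0 xr m ∅ ↔ MKs F H L δ p y0 xr m (RL F H L δ)) ∧
  (MKs F H L δ p y0 xr m ∅ →
    ‖HGs F H L δ p y0 xr m (RL F H L δ) - HGs F H L δ p y0 xr m ∅‖ ≤
      N * (L * (C * (1 / (g : ℝ)) ^ (1 + c)) + C * ((g : ℝ) / L) ^ a))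

/-- **(B7), left walls** : from `shD F H L δ` to `shD F H L δ ∪ LL`, `δ ∈ {0, 1}` -/
def LLchain : Prop := ∃ C a c : ℝ, 0 ≤ C ∧ 0 < a ∧ 0 < c ∧ ∀ F : Finset V, NP F → ∃ N : ℕ,
  ∀ (H : Finset V) (k i0 i1 : ℤ) (up : Bool), Hang F H k i0 i1 up →
  ∀ (L δ p y0 xr : ℤ) (g : ℕ), Even L → (δ = 0 ∨ δ = 1) → 8 ≤ g → 64 * (g : ℤ) ≤ L →
  p ≤ xr → Away H L p y0 xr → Words F H L δ p y0 xr (LL F H L δ) →
  ∀ m : Fin 3 → V × ZMod 4, Function.Injective m →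
  (∀ i, (m i).1 ∈ F ∧ nbc (m i).1 (m i).2 ∉ F) →
  (MKs F H L δ p y0 xr m ∅ ↔ MKs F H L δ p y0 xr m (LL F H L δ)) ∧
  (MKs F H L δ p y0 xr m ∅ →
    ‖HGs F H L δ p y0 xr m (LL F H L δ) - HGs F H L δ p y0 xr m ∅‖ ≤
      N * (L * (C * (1 / (g : ℝ)) ^ (1 + c)) + C * ((g : ℝ) / L) ^ a))

end Crest.Agent.R158.Bh679
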