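import Crest.Agent.R158.Bh3_679
import Crest.Agent.R158.Bh4_679

/-!
# R158, BL (B7) (helper679), file Bh5: geometry of the right layer

* `row_mem` : the region `shD` in one macroscopic row near a wall column
* `rl_mem`, `rl_col` : the layer
* `Shape` : the six shapes at a vertex
* **`flat_geo`**, **`thick_geo`** : windows of thin and thick groups
-/

set_option autoImplicit false
set_option linter.unusedSimpArgs false

namespace Crest.Agent.R158.Bh679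

open Crest.Agent.R158.Sp896 (V)
open Crest.Agent.R158.Env664 (D mem_D div_iff)
open Crest.Agent.R158.Hb656 (Hang shD RL mem_shD mem_RL)

variable {F H : Finset V} {k i0 i1 : ℤ} {up : Bool} {L δ : ℤ}

theorem mem_D' (hL : 0 < L) {c r x y : ℤ} (h1 : c * L ≤ x) (h2 : x < c * L + L) (h3 : r * L ≤ y)
    (h4 : y < r * L + L) : (x, y) ∈ D F L ↔ (c, r) ∈ F := by
  rw [mem_D hL]
  simp only
  rw [(div_iff hL x c).2 ⟨h1, h2⟩, (div_iff hL y r).2 ⟨h3, h4⟩]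

/-- the region `shD` in one macroscopic row near the column `(c + 1) L` -/
theorem row_mem (hL : 8 ≤ L) (hH : Hang F H k i0 i1 up) (hδ : -1 ≤ δ) (hδ' : δ ≤ 1)
    {c r x1 y1 : ℤ} (hr : r * L ≤ y1) (hr' : y1 < r * L + L)
    (hx : (c + 1) * L + δ - L / 4 ≤ x1) (hx' : x1 ≤ (c + 1) * L + δ + L / 4) :
    (x1, y1) ∈ shD F H L δ ↔
      ((c, r) ∈ F ∧ (c + 1, r) ∈ F) ∨ ((c, r) ∈ H ∧ (c + 1, r) ∉ F ∧ x1 < (c + 1) * L + δ) ∨
      ((c, r) ∈ F ∧ (c, r) ∉ H ∧ (c + 1, r) ∉ F ∧ x1 < (c + 1) * L) ∨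
      ((c, r) ∉ F ∧ (c + 1, r) ∈ H ∧ (c + 1) * L + δ ≤ x1) ∨
      ((c, r) ∉ F ∧ (c + 1, r) ∈ F ∧ (c + 1, r) ∉ H ∧ (c + 1) * L ≤ x1) := by
  have hL0 : 0 < L := by omega
  have e1 : (c + 1) * L = c * L + L := by ring
  have hs0 : (c, r) ∈ H → (c, r) ∈ F := fun h => hH.sub h
  have hs1 : (c + 1, r) ∈ H → (c + 1, r) ∈ F := fun h => hH.sub h
  have hh := hH.hor c r
  rw [mem_shD]
  simp only
  by_cases q1 : x1 < (c + 1) * L
  · have a1 : (x1, y1) ∈ D F L ↔ (c, r) ∈ F := mem_D' hL0 (by omega) (by omega) hr hr'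
    have a2 : (x1, y1) ∈ D H L ↔ (c, r) ∈ H := mem_D' hL0 (by omega) (by omega) hr hr'
    have q1' : ¬ (c + 1) * L ≤ x1 := by omega
    by_cases q2 : x1 < (c + 1) * L + δ
    · have a3 : (x1 - δ, y1) ∈ D H L ↔ (c, r) ∈ H := mem_D' hL0 (by omega) (by omega) hr hr'
      have q2' : ¬ (c + 1) * L + δ ≤ x1 := by omega
      rw [a1, a2, a3]
      simp only [q1, q1', q2, q2', and_true, and_false, or_false]
      tauto
    · have a3 : (x1 - δ, y1) ∈ D H L ↔ (c + 1, r) ∈ H := mem_D' hL0 (by omega) (by omega) hr hr'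
      have q2' : (c + 1) * L + δ ≤ x1 := by omega
      rw [a1, a2, a3]
      simp only [q1, q1', q2, q2', and_true, and_false, or_false, false_or]
      tauto
  · have a1 : (x1, y1) ∈ D F L ↔ (c + 1, r) ∈ F := mem_D' hL0 (by omega) (by omega) hr hr'
    have a2 : (x1, y1) ∈ D H L ↔ (c + 1, r) ∈ H := mem_D' hL0 (by omega) (by omega) hr hr'
    have q1' : (c + 1) * L ≤ x1 := by omega
    by_cases q2 : x1 < (c + 1) * L + δ
    · have a3 : (x1 - δ, y1) ∈ D H L ↔ (c, r) ∈ H := mem_D' hL0 (by omega) (by omega) hr hr'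
      have q2' : ¬ (c + 1) * L + δ ≤ x1 := by omega
      rw [a1, a2, a3]
      simp only [q1, q1', q2, q2', and_true, and_false, or_false, false_or]
      tauto
    · have a3 : (x1 - δ, y1) ∈ D H L ↔ (c + 1, r) ∈ H := mem_D' hL0 (by omega) (by omega) hr hr'
      have q2' : (c + 1) * L + δ ≤ x1 := by omega
      rw [a1, a2, a3]
      simp only [q1, q1', q2, q2', and_true, and_false, or_false, false_or]
      tauto

/-- the columns of the layer -/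
theorem rl_col (hL : 8 ≤ L) (hH : Hang F H k i0 i1 up) {X y : ℤ} (h : (X, y) ∈ RL F H L δ) :
    ∃ c, X = (c + 1) * L + δ ∧ (c, y / L) ∈ H ∧ (c + 1, y / L) ∉ F := by
  have hL0 : 0 < L := by omega
  rw [mem_RL] at h
  obtain ⟨h1, h2⟩ := h
  rw [mem_D hL0] at h1 h2
  simp only at h1 h2
  set c := (X - 1 - δ) / L with hc
  obtain ⟨b1, b2⟩ := (div_iff hL0 (X - 1 - δ) c).1 hc.symm
  have b3 : ¬ (X - δ < c * L + L) := by
    intro hcon
    have : (X - δ) / L = c := (div_iff hL0 _ _).2 ⟨by omega, hcon⟩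
    rw [this] at h2
    exact h2 (hH.sub h1)
  have e1 : (c + 1) * L = c * L + L := by ring
  have b4 : X - δ = (c + 1) * L := by omega
  refine ⟨c, by omega, h1, ?_⟩
  have : (X - δ) / L = c + 1 := (div_iff hL0 _ _).2 ⟨by omega, by omega⟩
  rwa [this] at h2

theorem rl_mem (hL : 8 ≤ L) (hH : Hang F H k i0 i1 up) {c r x1 y1 : ℤ} (hr : r * L ≤ y1)
    (hr' : y1 < r * L + L) (hx : (c + 1) * L + δ - L / 4 ≤ x1)
    (hx' : x1 ≤ (c + 1) * L + δ + L / 4) :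
    (x1, y1) ∈ RL F H L δ ↔ x1 = (c + 1) * L + δ ∧ (c, r) ∈ H ∧ (c + 1, r) ∉ F := by
  have hL0 : 0 < L := by omega
  have er : y1 / L = r := (div_iff hL0 _ _).2 ⟨hr, hr'⟩
  constructor
  · intro h
    obtain ⟨c', h1, h2, h3⟩ := rl_col hL hH h
    rw [er] at h2 h3
    have e1 : (c' + 1) * L = (c + 1) * L + (c' - c) * L := by ring
    have hcc : c' = c := by
      rcases lt_trichotomy c' c with h4 | h4 | h4
      · exfalso
        have : (c' - c) * L ≤ -L := by nlinarith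
        omega
      · exact h4
      · exfalso
        have : L ≤ (c' - c) * L := by nlinarith
        omega
    subst hcc
    exact ⟨h1, h2, h3⟩
  · rintro ⟨rfl, h2, h3⟩
    have e1 : (c + 1) * L = c * L + L := by ring
    rw [mem_RL]
    simp only
    refine ⟨(mem_D' hL0 (c := c) (r := r) (by omega) (by omega) hr hr').2 h2, ?_⟩
    rw [mem_D' hL0 (c := c + 1) (r := r) (by omega) (by omega) hr hr']
    exact h3

/-- the region of a state near a wall column -/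
theorem state_mem (hL : 8 ≤ L) (hH : Hang F H k i0 i1 up) (hδ : -1 ≤ δ) (hδ' : δ ≤ 1)
    {S : Finset V} (hS : S ⊆ RL F H L δ) {c r x1 y1 : ℤ} (hr : r * L ≤ y1) (hr' : y1 < r * L + L)
    (hx : (c + 1) * L + δ - L / 4 ≤ x1) (hx' : x1 ≤ (c + 1) * L + δ + L / 4) :
    (x1, y1) ∈ shD F H L δ ∪ S ↔
      ((c, r) ∈ F ∧ (c + 1, r) ∈ F) ∨
      ((c, r) ∈ H ∧ (c + 1, r) ∉ F ∧
        (x1 < (c + 1) * L + δ ∨ (x1 = (c + 1) * L + δ ∧ (x1, y1) ∈ S))) ∨
      ((c, r) ∈ F ∧ (c, r) ∉ H ∧ (c + 1, r) ∉ F ∧ x1 < (c + 1) * L) ∨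
      ((c, r) ∉ F ∧ (c + 1, r) ∈ H ∧ (c + 1) * L + δ ≤ x1) ∨
      ((c, r) ∉ F ∧ (c + 1, r) ∈ F ∧ (c + 1, r) ∉ H ∧ (c + 1) * L ≤ x1) := by
  rw [Finset.mem_union, row_mem hL hH hδ hδ' hr hr' hx hx']
  have h1 : (x1, y1) ∈ S → x1 = (c + 1) * L + δ ∧ (c, r) ∈ H ∧ (c + 1, r) ∉ F := fun h =>
    (rl_mem hL hH hr hr' hx hx').1 (hS h)
  tauto

/-- the six shapes at a vertex: the corner is the face right above the tile `(X, Y)` -/
def Shape (X Y : ℤ) (P : V → Prop) : Prop :=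
  (∀ t, P t ↔ t.1 ≤ X ∧ Y < t.2) ∨ (∀ t, P t ↔ t.1 ≤ X ∧ t.2 ≤ Y) ∨
  (∀ t, P t ↔ t.1 ≤ X ∨ t.2 ≤ Y) ∨ (∀ t, P t ↔ t.1 ≤ X ∨ Y < t.2) ∨
  (∀ t, P t ↔ t.1 ≤ X) ∨ (∀ t, P t ↔ t.1 ≤ X ∨ (t.1 = X + 1 ∧ t.2 ≤ Y))

/-- **thin groups** -/
theorem flat_geo (hL : 8 ≤ L) (hH : Hang F H k i0 i1 up) (hδ : -1 ≤ δ) (hδ' : δ ≤ 1)
    {X y r : ℤ} (hX : (X, y) ∈ RL F H L δ) (hr : r * L ≤ y) (hr' : y < r * L + L)
    {x1 y1 : ℤ} (h1 : X - L / 4 ≤ x1) (h2 : x1 ≤ X + L / 4) (h3 : r * L ≤ y1)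
    (h4 : y1 < r * L + L) :
    ((x1, y1) ∈ shD F H L δ ∪ St (RL F H L δ) y (y + 1) X ↔ x1 < X ∨ (x1 = X ∧ y1 < y)) ∧
    ((x1, y1) ∈ shD F H L δ ∪ insert (X, y) (St (RL F H L δ) y (y + 1) X) ↔
      x1 < X ∨ (x1 = X ∧ y1 ≤ y)) := by
  have hL0 : 0 < L := by omega
  obtain ⟨c, hc, hc1, hc2⟩ := rl_col hL hH hX
  have er : y / L = r := (div_iff hL0 _ _).2 ⟨hr, hr'⟩
  rw [er] at hc1 hc2
  have hcF := hH.sub hc1
  have a1 : St (RL F H L δ) y (y + 1) X ⊆ RL F H L δ := Finset.filter_subset _ _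
  have a2 : insert (X, y) (St (RL F H L δ) y (y + 1) X) ⊆ RL F H L δ :=
    Finset.insert_subset hX a1
  have m1 := state_mem hL hH hδ hδ' a1 (c := c) (x1 := x1) h3 h4 (by omega) (by omega)
  have m2 := state_mem hL hH hδ hδ' a2 (c := c) (x1 := x1) h3 h4 (by omega) (by omega)
  have m3 : (X, y1) ∈ RL F H L δ :=
    (rl_mem hL hH (c := c) h3 h4 (by omega) (by omega)).2 ⟨hc, hc1, hc2⟩
  have m4 : x1 = (c + 1) * L + δ → ((x1, y1) ∈ St (RL F H L δ) y (y + 1) X ↔ y1 < y) := by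
    intro e
    rw [← hc] at e
    subst e
    rw [mem_St]
    simp only [m3, true_and]
    omega
  have m5 : x1 = (c + 1) * L + δ →
      ((x1, y1) ∈ insert (X, y) (St (RL F H L δ) y (y + 1) X) ↔ y1 ≤ y) := by
    intro e
    rw [Finset.mem_insert, m4 e]
    rw [← hc] at e
    subst e
    simp only [Prod.mk.injEq, true_and]
    omega
  rw [m1, m2]
  simp only [hcF, hc1, hc2, not_false_eq_true, not_true_eq_false, and_true, true_and, false_and,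
    and_false, or_false, false_or]
  rw [← hc] at m4 m5 ⊢
  constructor
  · constructor
    · rintro (h | ⟨h, h'⟩)
      · exact Or.inl h
      · exact Or.inr ⟨h, (m4 h).1 h'⟩
    · rintro (h | ⟨h, h'⟩)
      · exact Or.inl h
      · exact Or.inr ⟨h, (m4 h).2 h'⟩
  · constructor
    · rintro (h | ⟨h, h'⟩)
      · exact Or.inl h
      · exact Or.inr ⟨h, (m5 h).1 h'⟩
    · rintro (h | ⟨h, h'⟩)
      · exact Or.inl h
      · exact Or.inr ⟨h, (m5 h).2 h'⟩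

end Crest.Agent.R158.Bh679
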