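import Crest.Agent.R158.Cw4_161
import Crest.Agent.R158.Wd2_377

/-!
# R158, block BL (helper854), file Hc2: ball steps with marks

* `cyc_pair` : the images of three marks in clockwise order are in clockwise order
* **`ball_mk`** : helper161's ball theorem for regions with marks (`MK` in, `MK` out)
-/

set_option autoImplicit false
set_option linter.unusedSectionVars false

noncomputable section

namespace Crest.Agent.R158.Hc854

open Crest.Agent.R158.Sw300 (Port Wd thru tls)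
open Crest.Agent.R158.Gc748 (RW pt lc rc bs fa)
open Crest.Agent.R158.Cb771 (dir)
open Crest.Agent.R158.Xr249 (Nx Reg)
open Crest.Agent.R158.Ob664 (GW HW HG Gl)
open Crest.Agent.R158.Sl434
open Crest.Agent.R158.Cw161 (Bx Sh base pat rk Fr An MkB FarM farM_iff hth_k pair_of_win mm_of_mkB
  annD_exists be_eq_of_gw ball_win)
open Crest.Agent.R158.Wd377 (MK HG_eq mem_L)

variable {T : Type*} [DecidableEq T]

section pair

variable {K : Reg} {w0 : Wd (ℤ × ℤ)} {N1 Jl N2 Jo : List (Port (ℤ × ℤ))} {Ob : ℤ × ℤ → Prop}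
  {a b : Port (ℤ × ℤ)} {w w' : Wd T} {Ft At : Set T} {ψ : T → ℤ × ℤ} {φ : ℤ × ℤ → T} {δ : ZMod 4}

/-- **the images of three marks in clockwise order are in clockwise order** -/
theorem cyc_pair (h : Pair K w0 N1 Jl N2 Jo Ob a b w w' Ft At ψ φ δ) {fl : Bool}
    (hth : ∀ (b : Bool) (d : ZMod 4), thru (xor fl b) (d + δ) = thru b d + δ)
    {m1 m2 m3 y1 y2 y3 : Port T}
    (h1 : Mm Ft At w w' m1 y1) (h2 : Mm Ft At w w' m2 y2) (h3 : Mm Ft At w w' m3 y3)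
    (f12 : m1 ∈ Fp Ft ∨ m2 ∈ Fp Ft) (f23 : m2 ∈ Fp Ft ∨ m3 ∈ Fp Ft)
    (f31 : m3 ∈ Fp Ft ∨ m1 ∈ Fp Ft)
    (hcyc : Sw300.cyc (Sw300.pos w m1) (Sw300.pos w m2) (Sw300.pos w m3)) :
    y1 ∈ Sw300.L w' ∧ y2 ∈ Sw300.L w' ∧ y3 ∈ Sw300.L w' ∧
      Sw300.cyc (Sw300.pos w' y1) (Sw300.pos w' y2) (Sw300.pos w' y3) := by
  obtain ⟨A, Di, Gi, k1, k2, k3⟩ := h.two hth (fun _ => true)
  set N1T := N1.map (pm φ (-δ))
  set N2T := N2.map (pm φ (-δ))
  have hsub : ∀ p ∈ N1 ++ N2, p ∈ N1 ++ Jl ++ N2 ++ Jo := by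
    intro p hp
    simp only [List.mem_append] at hp ⊢
    tauto
  have hNA : ∀ {m : Port T}, m ∈ N1T ∨ m ∈ N2T → m ∈ Ap At := by
    rintro m (hm | hm)
    · obtain ⟨p, hp, rfl⟩ := List.mem_map.1 hm
      exact (h.lc.pf (h.ch.port (hsub p (by simp [hp])))).1
    · obtain ⟨p, hp, rfl⟩ := List.mem_map.1 hm
      exact (h.lc.pf (h.ch.port (hsub p (by simp [hp])))).1
  have hA : ∀ {m : Port T}, m ∈ Sw300.L w → m ∈ Fp Ft → m ∈ A := by
    intro m hm hf
    have h4 := k1.mem_iff.1 hm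
    simp only [List.mem_append] at h4
    rcases h4 with ((h4 | h4) | h4) | h4
    · exact h4
    · exact absurd (hNA (Or.inl h4)) (Fp_Ap h.lc.dj hf)
    · exact absurd (Or.inl hf) (k3.Do m h4)
    · exact absurd (hNA (Or.inr h4)) (Fp_Ap h.lc.dj hf)
  have hnw := Sw300.nodup h.ok
  have hnw' := Sw300.nodup h.ok'
  -- the images
  have hmk : ∀ {m y : Port T}, Mm Ft At w w' m y → Mk' A N1T Di Gi N2T m y := by
    rintro m y ⟨hm, ⟨h4, rfl⟩ | ⟨h4, h5, h6⟩⟩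
    · left
      refine ⟨?_, rfl⟩
      have h5 := k1.mem_iff.1 hm
      simp only [List.mem_append] at h5 ⊢
      rcases h5 with ((h5 | h5) | h5) | h5
      · exact Or.inl (Or.inl h5)
      · exact Or.inl (Or.inr h5)
      · exact absurd h4 (k3.Do _ h5)
      · exact Or.inr h5
    · right
      constructor
      · have h7 := k1.mem_iff.1 hm
        simp only [List.mem_append] at h7
        rcases h7 with ((h7 | h7) | h7) | h7
        · exact absurd (Or.inl (k3.AF _ h7)) h4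
        · exact absurd (Or.inr (hNA (Or.inl h7))) h4
        · exact h7
        · exact absurd (Or.inr (hNA (Or.inr h7))) h4
      · have h7 := k2.mem_iff.1 h5
        simp only [List.mem_append] at h7
        rcases h7 with ((h7 | h7) | h7) | h7
        · exact absurd (Or.inl (k3.AF _ h7)) h6
        · exact absurd (Or.inr (hNA (Or.inl h7))) h6
        · exact h7
        · exact absurd (Or.inr (hNA (Or.inr h7))) h6
  have q1 := hmk h1
  have q2 := hmk h2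
  have q3 := hmk h3
  have hLy : ∀ {m y : Port T}, Mk' A N1T Di Gi N2T m y → y ∈ Sw300.L w' := by
    rintro m y (⟨h4, rfl⟩ | ⟨h4, h5⟩)
    · refine k2.mem_iff.2 ?_
      simp only [List.mem_append] at h4 ⊢
      tauto
    · exact k2.mem_iff.2 (by simp [h5])
  have hmr : ∀ {m y : Port T}, Mk' A N1T Di Gi N2T m y →
      Mr A (N1T ++ Di ++ N2T) (N1T ++ Gi ++ N2T) m y := by
    rintro m y (⟨h4, rfl⟩ | ⟨h4, h5⟩)
    · simp only [List.mem_append] at h4
      rcases h4 with (h4 | h4) | h4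
      · exact Or.inl ⟨h4, rfl⟩
      · exact Or.inr ⟨by simp [h4], by simp [h4]⟩
      · exact Or.inr ⟨by simp [h4], by simp [h4]⟩
    · exact Or.inr ⟨by simp [h4], by simp [h5]⟩
  have fA : ∀ {m y : Port T}, Mm Ft At w w' m y → m ∈ Fp Ft → m ∈ A := fun hm hf => hA hm.1 hf
  have A12 : m1 ∈ A ∨ m2 ∈ A := f12.imp (fA h1) (fA h2)
  have A23 : m2 ∈ A ∨ m3 ∈ A := f23.imp (fA h2) (fA h3)
  have A31 : m3 ∈ A ∨ m1 ∈ A := f31.imp (fA h3) (fA h1)
  have e1 : A ++ N1T ++ Di ++ N2T = A ++ (N1T ++ Di ++ N2T) := by simp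
  have e2 : A ++ N1T ++ Gi ++ N2T = A ++ (N1T ++ Gi ++ N2T) := by simp
  refine ⟨hLy q1, hLy q2, hLy q3, ?_⟩
  rw [← cycI_pos (Sw300.sorted w' h.ok') (hLy q1) (hLy q2) (hLy q3),
    ← cycI_rot k2 hnw' (hLy q1) (hLy q2) (hLy q3), e2]
  have hcyc2 := hcyc
  rw [← cycI_pos (Sw300.sorted w h.ok) h1.1 h2.1 h3.1, ← cycI_rot k1 hnw h1.1 h2.1 h3.1, e1]
    at hcyc2
  refine (cycI_mr ?_ ?_ (hmr q1) (hmr q2) (hmr q3) A12 A23 A31).1 hcyc2
  · rw [← e1]; exact (k1.nodup_iff).1 hnw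
  · rw [← e2]; exact (k2.nodup_iff).1 hnw'

end pair

/-! ### ball steps for regions with marks -/

/-- a mark `m` of the first region and its image `y` in the second region -/
def MkP (X Y : ℤ) (r : ℕ) (A' : Finset (ℤ × ℤ)) (b' : Port (ℤ × ℤ) → Port (ℤ × ℤ))
    (m y : Port (ℤ × ℤ)) : Prop :=
  (y = m ∧ ∀ t d, m = some (t, d) → ¬ Bx X Y r t) ∨
    ∃ t d t' d', m = some (t, d) ∧ Bx X Y r t ∧ y = some (t', d') ∧ Bx X Y r t' ∧ t' ∈ A' ∧
      b' y = y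

/-- **the ball theorem for regions with marks** -/
theorem ball_mk : ∃ C a : ℝ, 0 < C ∧ 0 < a ∧ ∀ (sh : Sh) (k : ZMod 4) (X Y : ℤ) (r n : ℕ),
    1 ≤ r → r + 1 ≤ n → ∀ {A A' : Finset (ℤ × ℤ)} {b b' : Port (ℤ × ℤ) → Port (ℤ × ℤ)},
    Cw161.Win sh k X Y r n A b → Cw161.Win sh k X Y r n A' b' →
    (∀ t, Bx X Y n t → ¬ Bx X Y r t → t ∈ A → pat X Y sh k t) →
    (∀ x, FarM X Y n x → b' x = b x) → (∀ t, ¬ Bx X Y r t → t ∈ A → t ∈ A') →
    (∃ w', GW A' b' w') → ∀ {m1 m2 m3 y1 y2 y3 : Port (ℤ × ℤ)}, MK A b m1 m2 m3 →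
    MkP X Y r A' b' m1 y1 → MkP X Y r A' b' m2 y2 → MkP X Y r A' b' m3 y3 →
    (FarM X Y n m1 ∨ FarM X Y n m2) → (FarM X Y n m2 ∨ FarM X Y n m3) →
    (FarM X Y n m3 ∨ FarM X Y n m1) →
    MK A' b' y1 y2 y3 ∧ ‖HG A b m1 m2 m3 - HG A' b' y1 y2 y3‖ ≤ C * ((r : ℝ) / n) ^ a := by
  obtain ⟨C, a, hC, ha, hX⟩ := ball_win
  refine ⟨C, a, hC, ha, ?_⟩
  intro sh k X Y r n hr hn A A' b b' h h' hnp hF hAA hw0 m1 m2 m3 y1 y2 y3 hm p1 p2 p3 f12 f23 f31
  obtain ⟨w', hw'⟩ := hw0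
  obtain ⟨w, hw, k1, k2, k3, kc, ke⟩ := hm.spec
  obtain ⟨n12, n23, n31⟩ := Wd377.cyc_ne kc
  have hMk : ∀ {m y mo : Port (ℤ × ℤ)}, m ∈ Sw300.L w → mo ∈ Sw300.L w → m ≠ mo →
      MkP X Y r A' b' m y → MkB X Y r n w w' m y := by
    intro m y mo hm hmo hne hp
    rcases hp with ⟨rfl, h1⟩ | ⟨t, d, t', d', rfl, h1, rfl, h2, h3, h4⟩
    · refine ⟨hm, ?_, Or.inl ⟨rfl, h1⟩⟩
      have h2 := Wd377.mark_some hw.word.1 hw.leg hm hmo hne
      rcases y with - | ⟨t, d⟩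
      · exact absurd rfl h2
      · obtain ⟨h3, h4⟩ := (mem_L hw).1 hm
        refine (mem_L hw').2 ⟨hAA t (h1 t d rfl) h3, ?_⟩
        by_cases hn' : Bx X Y n t
        · have h5 := hnp t hn' (h1 t d rfl) h3
          by_cases h6 : pat X Y sh k (t + dir d)
          · have h7 := h.glue t d hn' (h1 t d rfl) h5 h6
            rw [h4] at h7
            have h8 : t = t + dir d := by
              simp only [Option.some.injEq, Prod.mk.injEq] at h7
              exact h7.1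
            exfalso
            have : ∀ d : ZMod 4, dir d ≠ 0 := by decide
            exact this d (by simpa using h8.symm)
          · exact h'.free t d hn' (h1 t d rfl) h5 h6
        · rw [hF _ (fun t' d' e => by
            simp only [Option.some.injEq, Prod.mk.injEq] at e
            rw [← e.1]; exact hn'), h4]
    · exact ⟨hm, (mem_L hw').2 ⟨h3, h4⟩, Or.inr ⟨t, d, t', d', rfl, h1, rfl, h2⟩⟩
  have q1 := hMk k1 k2 n12 p1
  have q2 := hMk k2 k3 n23 p2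
  have q3 := hMk k3 k1 n31 p3
  have key := hX sh k X Y r n hr hn hw hw' h h' hnp hF q1 q2 q3 f12 f23 f31 kc
  obtain ⟨K, w0, N1, Jl, N2, Jo, Ob, a0, b0, hD⟩ := annD_exists sh X Y hr hn
  have hP := pair_of_win hD (by omega) hw hw' h h' hF
  obtain ⟨l1, l2, l3, lc⟩ := cyc_pair hP (hth_k k) (mm_of_mkB hw (by omega) hnp q1)
    (mm_of_mkB hw (by omega) hnp q2) (mm_of_mkB hw (by omega) hnp q3) (f12.imp farM_iff.1 farM_iff.1)
    (f23.imp farM_iff.1 farM_iff.1) (f31.imp farM_iff.1 farM_iff.1) kc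
  refine ⟨⟨w', hw', l1, l2, l3, lc⟩, ?_⟩
  rw [ke, HG_eq hw' l1 l2 l3 lc]
  exact key

end Crest.Agent.R158.Hc854
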