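import Crest.Agent.R158.Wd9_377

/-!
# R158, block WD (helper377), file Wd10: two-way form of the flat step

* **`tile_iff`** (any chart): `MK A b m ↔ MK A' b' m`, and the bound
* **`right_iff`, `left_iff`** : plain coordinates, any glueings
* **`right_D`, `left_D`** : `beD A p y0 xr` with `xr` a parameter (helper679's chain)
-/

set_option autoImplicit false
set_option linter.unusedSectionVars false

namespace Crest.Agent.R158.Wd377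

open MeasureTheory
open Crest.Agent.R158.Sw300 (Port Wd L M S u be tls pos Ok Fc cyc Adj thru sd)
open Crest.Agent.R158.Ob664 (GW HW HV HG HG_spec Gl HA rgt)
open Crest.Agent.R158.Env664
open Crest.Agent.R158.Gc748 (N1 N2)
open Crest.Agent.R158.Sl434 (cycI)
open Crest.Agent.R158.Pj679 (nbt nbt_0 nbt_1 nbt_2 nbt_3)

variable {ρ : Equiv.Perm (ℤ × ℤ)} {k : ZMod 4} {X Y : ℤ} {n : ℕ} {A A' : Finset (ℤ × ℤ)}
variable {b b' : Port (ℤ × ℤ) → Port (ℤ × ℤ)} {p y0 xr : ℤ}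

/-- the order of the marks before, from the order after -/
theorem Std.back (S : Std ρ k X Y n A b) (hn : 2 ≤ n)
    (P : Pln ρ k (Inn X Y n 1) (insert (ρ (X + 1, Y)) A) b')
    (hF : ∀ x ∈ Far ρ X Y n 1, b' x = b x) {w : Wd (ℤ × ℤ)} (hw : GW A b w)
    {m1 m2 m3 : Port (ℤ × ℤ)} (f1 : m1 ∈ Far ρ X Y n 1)
    (f2 : m2 ∈ Far ρ X Y n 1) (f3 : m3 ∈ Far ρ X Y n 1)
    (h : MK (insert (ρ (X + 1, Y)) A) b' m1 m2 m3) : MK A b m1 m2 m3 := by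
  obtain ⟨w', A0, hw', hA0, hr, hr'⟩ := S.tile hn P hF hw
  obtain ⟨h1, h2, h3, hc⟩ := h.word hw'
  have nG : ∀ x ∈ GiL X Y, ∃ t d, x = some (t, d) ∧ Inn X Y n 1 t := by
    intro x hx
    simp only [GiL, List.mem_cons, List.not_mem_nil, or_false] at hx
    rcases hx with rfl | rfl | rfl <;> exact ⟨_, _, rfl, by unfold Inn; simp only; omega⟩
  have far : ∀ {x}, x ∈ L w' → x ∈ Far ρ X Y n 1 → x ∈ A0 := by
    intro x hx hf
    have h4 := hr'.mem_iff.1 hx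
    simp only [List.mem_append] at h4
    rcases h4 with ((h4 | h4) | h4) | h4
    · exact h4
    · exact absurd hf (map_near (fun x hx => wall_inn hn (by simp [hx])) h4)
    · exact absurd hf (map_near nG h4)
    · exact absurd hf (map_near (fun x hx => wall_inn hn (by simp [hx])) h4)
  have a1 := far h1 f1
  have a2 := far h2 f2
  have a3 := far h3 f3
  have memL : ∀ {x}, x ∈ A0 → x ∈ L w := fun hx => hr.mem_iff.2 (by simp [hx])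
  refine ⟨w, hw, memL a1, memL a2, memL a3, ?_⟩
  rw [cyc_ring hw.word.1 hr (memL a1) (memL a2) (memL a3)]
  rw [cyc_ring hw'.word.1 hr' h1 h2 h3] at hc
  simp only [List.append_assoc] at hc ⊢
  exact (cycI_left a1 a2 a3).1 hc

/-- **one tile, any chart, two-way form** -/
theorem tile_iff : ∃ C c : ℝ, 1 ≤ C ∧ 0 < c ∧ c ≤ 1 ∧ ∀ (ρ : Equiv.Perm (ℤ × ℤ)) (k : ZMod 4)
    (X Y : ℤ) (n : ℕ) (A : Finset (ℤ × ℤ)) (b b' : Port (ℤ × ℤ) → Port (ℤ × ℤ))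
    (m1 m2 m3 : Port (ℤ × ℤ)), (k = 0 ∨ k = 2) → 2 ≤ n → Std ρ k X Y n A b →
    Pln ρ k (Inn X Y n 1) (insert (ρ (X + 1, Y)) A) b' → (∀ x ∈ Far ρ X Y n 1, b' x = b x) →
    m1 ∈ Far ρ X Y n 1 → m2 ∈ Far ρ X Y n 1 → m3 ∈ Far ρ X Y n 1 → (∃ w, GW A b w) →
    (MK A b m1 m2 m3 ↔ MK (insert (ρ (X + 1, Y)) A) b' m1 m2 m3) ∧
    (MK A b m1 m2 m3 →
      ‖HG A b m1 m2 m3 - HG (insert (ρ (X + 1, Y)) A) b' m1 m2 m3‖ ≤
        C * ((1 : ℝ) / n) ^ (1 + c)) := by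
  obtain ⟨C, c, hC, hc, hc1, h⟩ := tile_MK
  refine ⟨C, c, hC, hc, hc1, ?_⟩
  intro ρ k X Y n A b b' m1 m2 m3 hk hn S P hF f1 f2 f3 hw
  obtain ⟨w, hw⟩ := hw
  have key := h ρ k X Y n A b b' m1 m2 m3 hk hn S P hF f1 f2 f3
  exact ⟨⟨fun h1 => (key h1).1, fun h1 => S.back hn P hF hw f1 f2 f3 h1⟩, fun h1 => (key h1).2⟩

/-- **one tile at a right wall, two-way form** -/
theorem right_iff : ∃ C c : ℝ, 1 ≤ C ∧ 0 < c ∧ c ≤ 1 ∧ ∀ (X Y : ℤ) (n : ℕ)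
    (A : Finset (ℤ × ℤ)) (b b' : Port (ℤ × ℤ) → Port (ℤ × ℤ)) (m1 m2 m3 : Port (ℤ × ℤ)), 2 ≤ n →
    (∀ x y, X - n ≤ x → x ≤ X + 2 → Y - n - 1 ≤ y → y ≤ Y + n →
      ((x, y) ∈ A ↔ (y < Y → x ≤ X + 1) ∧ (Y ≤ y → x ≤ X))) →
    (∀ t, BxR X Y n t → ∀ d, b (some (t, d)) = beP A (some (t, d))) →
    (∀ t, BxR X Y n t → ∀ d, b' (some (t, d)) = beP (insert (X + 1, Y) A) (some (t, d))) →
    (∀ x, Off (BxR X Y n) x → b' x = b x) →
    Off (BxR X Y n) m1 → Off (BxR X Y n) m2 → Off (BxR X Y n) m3 → (∃ w, GW A b w) →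
    (MK A b m1 m2 m3 ↔ MK (insert (X + 1, Y) A) b' m1 m2 m3) ∧
    (MK A b m1 m2 m3 →
      ‖HG A b m1 m2 m3 - HG (insert (X + 1, Y) A) b' m1 m2 m3‖ ≤ C * ((1 : ℝ) / n) ^ (1 + c)) := by
  obtain ⟨C, c, hC, hc, hc1, h⟩ := tile_iff
  refine ⟨C, c, hC, hc, hc1, ?_⟩
  intro X Y n A b b' m1 m2 m3 hn hs hb hb' hF f1 f2 f3 hw
  have h2 := h (Equiv.refl _) 0 X Y n A b b' m1 m2 m3 (Or.inl rfl) hn ⟨fun t ht => ?_, pln_id hb⟩
    (pln_id hb') (fun x hx => hF x (off_right.1 hx)) (off_right.2 f1) (off_right.2 f2)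
    (off_right.2 f3) hw
  · exact h2
  · unfold Big at ht
    simp only [Equiv.refl_apply]
    have := hs t.1 t.2 (by omega) (by omega) (by omega) (by omega)
    rw [this]
    unfold Shp
    simp only [Nat.cast_one]

/-- **one tile at a left wall, two-way form** -/
theorem left_iff : ∃ C c : ℝ, 1 ≤ C ∧ 0 < c ∧ c ≤ 1 ∧ ∀ (X Y : ℤ) (n : ℕ)
    (A : Finset (ℤ × ℤ)) (b b' : Port (ℤ × ℤ) → Port (ℤ × ℤ)) (m1 m2 m3 : Port (ℤ × ℤ)), 2 ≤ n →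
    (∀ x y, X - 2 ≤ x → x ≤ X + n → Y - n ≤ y → y ≤ Y + n + 1 →
      ((x, y) ∈ A ↔ (Y < y → X - 1 ≤ x) ∧ (y ≤ Y → X ≤ x))) →
    (∀ t, BxL X Y n t → ∀ d, b (some (t, d)) = beP A (some (t, d))) →
    (∀ t, BxL X Y n t → ∀ d, b' (some (t, d)) = beP (insert (X - 1, Y) A) (some (t, d))) →
    (∀ x, Off (BxL X Y n) x → b' x = b x) →
    Off (BxL X Y n) m1 → Off (BxL X Y n) m2 → Off (BxL X Y n) m3 → (∃ w, GW A b w) →
    (MK A b m1 m2 m3 ↔ MK (insert (X - 1, Y) A) b' m1 m2 m3) ∧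
    (MK A b m1 m2 m3 →
      ‖HG A b m1 m2 m3 - HG (insert (X - 1, Y) A) b' m1 m2 m3‖ ≤ C * ((1 : ℝ) / n) ^ (1 + c)) := by
  obtain ⟨C, c, hC, hc, hc1, h⟩ := tile_iff
  refine ⟨C, c, hC, hc, hc1, ?_⟩
  intro X Y n A b b' m1 m2 m3 hn hs hb hb' hF f1 f2 f3 hw
  have enew : ng (-X + 1, -Y) = (X - 1, Y) := by
    simp only [ng, Equiv.coe_fn_mk, Prod.mk.injEq]; omega
  have hQ : ∀ t, Inn (-X) (-Y) n 1 t → BxL X Y n (ng t) := by
    intro t ht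
    unfold Inn at ht
    unfold BxL
    simp only [ng, Equiv.coe_fn_mk]
    omega
  have h2 := h ng 2 (-X) (-Y) n A b b' m1 m2 m3 (Or.inr rfl) hn
    ⟨fun t ht => ?_, pln_ng fun t ht d => hb (ng t) (hQ t ht) d⟩
    (pln_ng fun t ht d => by rw [enew]; exact hb' (ng t) (hQ t ht) d)
    (fun x hx => hF x (off_left.1 hx)) (off_left.2 f1) (off_left.2 f2) (off_left.2 f3) hw
  · rw [enew] at h2
    exact h2
  · unfold Big at ht
    have := hs (-t.1) (-t.2) (by omega) (by omega) (by omega) (by omega)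
    show (-t.1, -t.2) ∈ A ↔ _
    rw [this]
    unfold Shp
    omega

/-- **right wall, glueing `beD A p y0 xr`** -/
theorem right_D : ∃ C c : ℝ, 1 ≤ C ∧ 0 < c ∧ c ≤ 1 ∧ ∀ (X Y : ℤ) (n : ℕ)
    (A : Finset (ℤ × ℤ)) (p y0 xr : ℤ) (m1 m2 m3 : Port (ℤ × ℤ)), 2 ≤ n → p ≤ xr + 1 →
    (∀ x y, X - n ≤ x → x ≤ X + 2 → Y - n - 1 ≤ y → y ≤ Y + n →
      ((x, y) ∈ A ↔ (y < Y → x ≤ X + 1) ∧ (Y ≤ y → x ≤ X))) →
    (∀ t, BxR X Y n t → ¬ ((t.2 = y0 ∨ t.2 = y0 - 1) ∧ p ≤ t.1 ∧ t.1 ≤ xr + 1)) →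
    Off (BxR X Y n) m1 → Off (BxR X Y n) m2 → Off (BxR X Y n) m3 →
    (∃ w, GW A (beD A p y0 xr) w) →
    (MK A (beD A p y0 xr) m1 m2 m3 ↔
      MK (insert (X + 1, Y) A) (beD (insert (X + 1, Y) A) p y0 xr) m1 m2 m3) ∧
    (MK A (beD A p y0 xr) m1 m2 m3 →
      ‖HG A (beD A p y0 xr) m1 m2 m3 -
        HG (insert (X + 1, Y) A) (beD (insert (X + 1, Y) A) p y0 xr) m1 m2 m3‖ ≤
        C * ((1 : ℝ) / n) ^ (1 + c)) := by
  obtain ⟨C, c, hC, hc, hc1, h⟩ := right_iff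
  refine ⟨C, c, hC, hc, hc1, ?_⟩
  intro X Y n A p y0 xr m1 m2 m3 hn hp hs hsl f1 f2 f3 hw
  have ht : BxR X Y n (X + 1, Y) := by unfold BxR; simp only; omega
  have hnt := hsl _ ht
  refine h X Y n A _ _ m1 m2 m3 hn hs (fun t ht d => beD_plain (hsl t ht) hp d)
    (fun t ht d => beD_plain (hsl t ht) hp d) (fun x hx => ?_) f1 f2 f3 hw
  refine beD_far hnt hp (fun d e' => hx _ _ e' ht) fun u d e' hu hA => ?_
  have h1 := hx u d e'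
  obtain ⟨x1, y1⟩ := u
  unfold BxR at h1
  simp only at h1
  rcases Xr249.Reg.d4 d with rfl | rfl | rfl | rfl
  · rw [nbt_0] at hu
    simp only [Prod.mk.injEq] at hu
    have h2 := (hs x1 y1 (by omega) (by omega) (by omega) (by omega)).1 hA
    omega
  · rw [nbt_1] at hu; simp only [Prod.mk.injEq] at hu; omega
  · rw [nbt_2] at hu; simp only [Prod.mk.injEq] at hu; omega
  · rw [nbt_3] at hu; simp only [Prod.mk.injEq] at hu; omega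

/-- **left wall, glueing `beD A p y0 xr`** -/
theorem left_D : ∃ C c : ℝ, 1 ≤ C ∧ 0 < c ∧ c ≤ 1 ∧ ∀ (X Y : ℤ) (n : ℕ)
    (A : Finset (ℤ × ℤ)) (p y0 xr : ℤ) (m1 m2 m3 : Port (ℤ × ℤ)), 2 ≤ n → p ≤ xr + 1 →
    (∀ x y, X - 2 ≤ x → x ≤ X + n → Y - n ≤ y → y ≤ Y + n + 1 →
      ((x, y) ∈ A ↔ (Y < y → X - 1 ≤ x) ∧ (y ≤ Y → X ≤ x))) →
    (∀ t, BxL X Y n t → ¬ ((t.2 = y0 ∨ t.2 = y0 - 1) ∧ p ≤ t.1 ∧ t.1 ≤ xr + 1)) →
    Off (BxL X Y n) m1 → Off (BxL X Y n) m2 → Off (BxL X Y n) m3 →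
    (∃ w, GW A (beD A p y0 xr) w) →
    (MK A (beD A p y0 xr) m1 m2 m3 ↔
      MK (insert (X - 1, Y) A) (beD (insert (X - 1, Y) A) p y0 xr) m1 m2 m3) ∧
    (MK A (beD A p y0 xr) m1 m2 m3 →
      ‖HG A (beD A p y0 xr) m1 m2 m3 -
        HG (insert (X - 1, Y) A) (beD (insert (X - 1, Y) A) p y0 xr) m1 m2 m3‖ ≤
        C * ((1 : ℝ) / n) ^ (1 + c)) := by
  obtain ⟨C, c, hC, hc, hc1, h⟩ := left_iff
  refine ⟨C, c, hC, hc, hc1, ?_⟩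
  intro X Y n A p y0 xr m1 m2 m3 hn hp hs hsl f1 f2 f3 hw
  have ht : BxL X Y n (X - 1, Y) := by unfold BxL; simp only; omega
  have hnt := hsl _ ht
  refine h X Y n A _ _ m1 m2 m3 hn hs (fun t ht d => beD_plain (hsl t ht) hp d)
    (fun t ht d => beD_plain (hsl t ht) hp d) (fun x hx => ?_) f1 f2 f3 hw
  refine beD_far hnt hp (fun d e' => hx _ _ e' ht) fun u d e' hu hA => ?_
  have h1 := hx u d e'
  obtain ⟨x1, y1⟩ := u
  unfold BxL at h1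
  simp only at h1
  rcases Xr249.Reg.d4 d with rfl | rfl | rfl | rfl
  · rw [nbt_0] at hu; simp only [Prod.mk.injEq] at hu; omega
  · rw [nbt_1] at hu; simp only [Prod.mk.injEq] at hu; omega
  · rw [nbt_2] at hu
    simp only [Prod.mk.injEq] at hu
    have h2 := (hs x1 y1 (by omega) (by omega) (by omega) (by omega)).1 hA
    omega
  · rw [nbt_3] at hu; simp only [Prod.mk.injEq] at hu; omega

end Crest.Agent.R158.Wd377
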