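import Crest.Agent.R158.Bh3_679
import Crest.Agent.R158.Bh4_679
import Crest.Agent.R158.Hc2_854
import Crest.Agent.R158.Wd10_377

/-!
# R158, BL (B7) (helper679), file Bh6: assembly of a layer chain

* `thick_both` : the ball step in both directions
* `rl_card`, `rl_cols`, `rl_rows` : counts
* `ThinR`, `ThickR` : the geometric inputs (helper802)
* **`rl_chain : ThinR → ThickR → RLchain`**
-/

set_option autoImplicit false

noncomputable section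

namespace Crest.Agent.R158.Bh679

open Crest.Agent.R158.Sp896 (V)
open Crest.Agent.R158.Sw300 (Port)
open Crest.Agent.R158.Env664 (D mark nbc beD mem_D div_iff)
open Crest.Agent.R158.Ob664 (GW HG)
open Crest.Agent.R158.Hb656 (Hang shD RL LL mkS mem_RL)
open Crest.Agent.R158.Wd377 (MK BxR Off right_D)
open Crest.Agent.R158.Cw161 (Sh pat Bx FarM Win)
open Crest.Agent.R158.Hc854 (MkP ball_mk)

/-- a mark outside the window, or moved inside the inner box -/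
def MkR (X Y : ℤ) (r n : ℕ) (A A' : Finset V) (b b' : Port V → Port V) (m y : Port V) : Prop :=
  MkP X Y r A' b' m y ∧ MkP X Y r A b y m

theorem mkP_far {X Y : ℤ} {r n : ℕ} (hn : r + 1 ≤ n) {A' : Finset V} {b' : Port V → Port V}
    {m : Port V} (h : FarM X Y n m) : MkP X Y r A' b' m m :=
  Or.inl ⟨rfl, fun t d e hb => h t d e (by unfold Bx at *; omega)⟩

/-- **the ball step in both directions** -/
theorem thick_both : ∃ C a : ℝ, 0 < C ∧ 0 < a ∧ ∀ (sh : Sh) (k : ZMod 4) (X Y : ℤ) (r n : ℕ),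
    1 ≤ r → r + 1 ≤ n → ∀ {A A' : Finset V} {b b' : Port V → Port V},
    Win sh k X Y r n A b → Win sh k X Y r n A' b' →
    (∀ t, Bx X Y n t → ¬ Bx X Y r t → t ∈ A → pat X Y sh k t) →
    (∀ t, Bx X Y n t → ¬ Bx X Y r t → t ∈ A' → pat X Y sh k t) →
    (∀ x, FarM X Y n x → b' x = b x) → (∀ t, ¬ Bx X Y r t → (t ∈ A ↔ t ∈ A')) →
    (∃ w, GW A b w) → (∃ w', GW A' b' w') → ∀ {m y : Fin 3 → Port V} (j : Fin 3),
    (∀ i, i ≠ j → FarM X Y n (m i) ∧ y i = m i) →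
    ((FarM X Y n (m j) ∧ y j = m j) ∨ MkR X Y r n A A' b b' (m j) (y j)) →
    (MK A b (m 0) (m 1) (m 2) ↔ MK A' b' (y 0) (y 1) (y 2)) ∧
    (MK A b (m 0) (m 1) (m 2) →
      ‖HG A b (m 0) (m 1) (m 2) - HG A' b' (y 0) (y 1) (y 2)‖ ≤ C * ((r : ℝ) / n) ^ a) := by
  obtain ⟨C, a, hC, ha, h⟩ := ball_mk
  refine ⟨C, a, hC, ha, ?_⟩
  intro sh k X Y r n hr hn A A' b b' W W' hp hp' hb hA hw hw' m y j hfar hj
  have hb' : ∀ x, FarM X Y n x → b x = b' x := fun x hx => (hb x hx).symm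
  have F1 : ∀ i, i ≠ j → FarM X Y n (m i) := fun i hi => (hfar i hi).1
  have F2 : ∀ i, i ≠ j → FarM X Y n (y i) := fun i hi => by
    rw [(hfar i hi).2]; exact (hfar i hi).1
  have P1 : ∀ i, MkP X Y r A' b' (m i) (y i) := by
    intro i
    by_cases hi : i = j
    · subst hi
      rcases hj with ⟨h1, h2⟩ | h1
      · rw [h2]; exact mkP_far hn h1
      · exact h1.1
    · rw [(hfar i hi).2]; exact mkP_far hn (hfar i hi).1
  have P2 : ∀ i, MkP X Y r A b (y i) (m i) := by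
    intro i
    by_cases hi : i = j
    · subst hi
      rcases hj with ⟨h1, h2⟩ | h1
      · rw [h2]; exact mkP_far hn h1
      · exact h1.2
    · rw [(hfar i hi).2]; exact mkP_far hn (hfar i hi).1
  have G1 : ∀ i i', i ≠ i' → FarM X Y n (m i) ∨ FarM X Y n (m i') := by
    intro i i' hii
    by_cases hi : i = j
    · exact Or.inr (F1 i' fun e => hii (hi.trans e.symm))
    · exact Or.inl (F1 i hi)
  have G2 : ∀ i i', i ≠ i' → FarM X Y n (y i) ∨ FarM X Y n (y i') := by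
    intro i i' hii
    by_cases hi : i = j
    · exact Or.inr (F2 i' fun e => hii (hi.trans e.symm))
    · exact Or.inl (F2 i hi)
  have K1 := fun hm : MK A b (m 0) (m 1) (m 2) =>
    h sh k X Y r n hr hn W W' hp hb (fun t ht hA1 => (hA t ht).1 hA1) hw' hm (P1 0) (P1 1) (P1 2)
      (G1 0 1 (by decide)) (G1 1 2 (by decide)) (G1 2 0 (by decide))
  have K2 := fun hm : MK A' b' (y 0) (y 1) (y 2) =>
    h sh k X Y r n hr hn W' W hp' hb' (fun t ht hA1 => (hA t ht).2 hA1) hw hm (P2 0) (P2 1) (P2 2)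
      (G2 0 1 (by decide)) (G2 1 2 (by decide)) (G2 2 0 (by decide))
  exact ⟨⟨fun hm => (K1 hm).1, fun hm => (K2 hm).1⟩, fun hm => (K1 hm).2⟩

/-! ### counts -/

variable {F H : Finset V} {k i0 i1 : ℤ} {up : Bool} {L δ : ℤ}

theorem rl_data (hL : 0 < L) (hs : H ⊆ F) {t : V} (h : t ∈ RL F H L δ) :
    ∃ c ∈ F, t.1 = (c.1 + 1) * L + δ ∧ c.2 * L ≤ t.2 ∧ t.2 < c.2 * L + L := by
  rw [mem_RL] at h
  obtain ⟨h1, h2⟩ := h
  rw [mem_D hL] at h1 h2
  simp only at h1 h2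
  obtain ⟨b1, b2⟩ := (div_iff hL (t.1 - 1 - δ) _).1 rfl
  obtain ⟨b3, b4⟩ := (div_iff hL t.2 _).1 rfl
  refine ⟨((t.1 - 1 - δ) / L, t.2 / L), hs h1, ?_, b3, b4⟩
  simp only
  by_contra hcon
  apply h2
  have e1 : ((t.1 - 1 - δ) / L + 1) * L = (t.1 - 1 - δ) / L * L + L := by ring
  have : (t.1 - δ) / L = (t.1 - 1 - δ) / L := (div_iff hL _ _).2 ⟨by omega, by omega⟩
  rw [this]
  exact hs h1

theorem rl_cols (hL : 0 < L) (hs : H ⊆ F) : ((RL F H L δ).image Prod.fst).card ≤ F.card := by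
  have : (RL F H L δ).image Prod.fst ⊆ F.image fun c => (c.1 + 1) * L + δ := by
    intro X hX
    obtain ⟨t, ht, rfl⟩ := Finset.mem_image.1 hX
    obtain ⟨c, hc, e, -⟩ := rl_data hL hs ht
    exact Finset.mem_image.2 ⟨c, hc, e.symm⟩
  exact (Finset.card_le_card this).trans Finset.card_image_le

theorem rl_card (hL : 0 < L) (hs : H ⊆ F) : ((RL F H L δ).card : ℝ) ≤ F.card * L := by
  have : RL F H L δ ⊆ (F ×ˢ Finset.range L.toNat).image fun q =>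
      ((q.1.1 + 1) * L + δ, q.1.2 * L + (q.2 : ℤ)) := by
    intro t ht
    obtain ⟨c, hc, e, h1, h2⟩ := rl_data hL hs ht
    refine Finset.mem_image.2 ⟨(c, (t.2 - c.2 * L).toNat), ?_, ?_⟩
    · rw [Finset.mem_product, Finset.mem_range]
      exact ⟨hc, by simp only; omega⟩
    · refine Prod.ext e.symm ?_
      simp only
      omega
  have h1 := (Finset.card_le_card this).trans Finset.card_image_le
  rw [Finset.card_product, Finset.card_range] at h1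
  have h2 : ((RL F H L δ).card : ℝ) ≤ ((F.card * L.toNat : ℕ) : ℝ) := by exact_mod_cast h1
  refine h2.trans_eq ?_
  push_cast
  congr 1
  have : ((L.toNat : ℤ) : ℝ) = L := by rw [Int.toNat_of_nonneg hL.le]
  exact_mod_cast this

/-- rows of a finite set -/
theorem exists_rows (F : Finset V) : ∃ (k0 : ℤ) (K : ℕ), ∀ c ∈ F, k0 ≤ c.2 ∧ c.2 < k0 + K := by
  obtain ⟨a, ha⟩ := (F.image Prod.snd).bddBelow
  obtain ⟨b, hb⟩ := (F.image Prod.snd).bddAbove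
  refine ⟨a, (b + 1 - a).toNat, fun c hc => ?_⟩
  have h1 := ha (show c.2 ∈ F.image Prod.snd from Finset.mem_image.2 ⟨c, hc, rfl⟩)
  have h2 := hb (show c.2 ∈ F.image Prod.snd from Finset.mem_image.2 ⟨c, hc, rfl⟩)
  exact ⟨h1, by omega⟩

/-! ### the inputs -/

/-- **thin groups** -/
def ThinR : Prop := ∀ {F H : Finset V} {k i0 i1 : ℤ} {up : Bool}, Hang F H k i0 i1 up → NP F →
  ∀ {L L2 δ p y0 xr : ℤ} {g n : ℕ}, L = 2 * L2 → (δ = -1 ∨ δ = 0) → 8 ≤ g → 64 * (g : ℤ) ≤ L →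
  n + 2 ≤ g → p ≤ xr → Away H L p y0 xr →
  ∀ {m : Fin 3 → V × ZMod 4}, Function.Injective m →
  (∀ i, (m i).1 ∈ F ∧ nbc (m i).1 (m i).2 ∉ F) →
  ∀ {κ X y : ℤ}, (X, y) ∈ RL F H L δ → κ * L2 + g ≤ y → y < (κ + 1) * L2 - g →
  (∀ x y', X - 1 - n ≤ x → x ≤ X - 1 + 2 → y - n - 1 ≤ y' → y' ≤ y + n →
    ((x, y') ∈ shD F H L δ ∪ St (RL F H L δ) y (y + 1) X ↔
      (y' < y → x ≤ X - 1 + 1) ∧ (y ≤ y' → x ≤ X - 1))) ∧
  (∀ t, BxR (X - 1) y n t → ¬ ((t.2 = y0 ∨ t.2 = y0 - 1) ∧ p ≤ t.1 ∧ t.1 ≤ xr + 1)) ∧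
  (∀ i, Off (BxR (X - 1) y n) (mq H L δ (St (RL F H L δ) y (y + 1) X) (m i))) ∧
  (∀ i, mq H L δ (insert (X, y) (St (RL F H L δ) y (y + 1) X)) (m i) =
    mq H L δ (St (RL F H L δ) y (y + 1) X) (m i))

/-- **thick groups** -/
def ThickR : Prop := ∀ {F H : Finset V} {k i0 i1 : ℤ} {up : Bool}, Hang F H k i0 i1 up → NP F →
  ∀ {L L2 δ p y0 xr : ℤ} {g r n : ℕ}, L = 2 * L2 → (δ = -1 ∨ δ = 0) → 8 ≤ g →
  64 * (g : ℤ) ≤ L → r = g + 3 → r + 1 ≤ n → (n : ℤ) + 8 ≤ L / 4 → p ≤ xr → Away H L p y0 xr →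
  ∀ {m : Fin 3 → V × ZMod 4}, Function.Injective m →
  (∀ i, (m i).1 ∈ F ∧ nbc (m i).1 (m i).2 ∉ F) →
  ∀ {κ X : ℤ}, (∃ t ∈ RL F H L δ, t.1 = X ∧ κ * L2 - g ≤ t.2 ∧ t.2 < κ * L2 + g) →
  ∀ {S S' A A' : Finset V} {b b' : Port V → Port V},
  S = St (RL F H L δ) (κ * L2 - g) (κ * L2 + g) X →
  S' = S ∪ Gr (RL F H L δ) (κ * L2 - g) (κ * L2 + g) X →
  A = shD F H L δ ∪ S → A' = shD F H L δ ∪ S' → b = beD A p y0 xr → b' = beD A' p y0 xr →
  ∃ (sh : Sh) (q : ZMod 4) (X0 Y0 : ℤ), Win sh q X0 Y0 r n A b ∧ Win sh q X0 Y0 r n A' b' ∧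
    (∀ t, Bx X0 Y0 n t → ¬ Bx X0 Y0 r t → t ∈ A → pat X0 Y0 sh q t) ∧
    (∀ t, Bx X0 Y0 n t → ¬ Bx X0 Y0 r t → t ∈ A' → pat X0 Y0 sh q t) ∧
    (∀ x, FarM X0 Y0 n x → b' x = b x) ∧ (∀ t, ¬ Bx X0 Y0 r t → (t ∈ A ↔ t ∈ A')) ∧
    ∃ e : V × ZMod 4, ∀ i, (FarM X0 Y0 n (mq H L δ S (m i)) ∧
      mq H L δ S' (m i) = mq H L δ S (m i)) ∨
      (m i = e ∧ MkR X0 Y0 r n A A' b b' (mq H L δ S (m i)) (mq H L δ S' (m i)))

/-- the constants of the chain -/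
theorem const1 {C1 c : ℝ} (hC1 : 0 ≤ C1) (hc : 0 < c) {g : ℕ} (hg : 8 ≤ g) :
    C1 * (1 / ((g - 2 : ℕ) : ℝ)) ^ (1 + c) ≤ C1 * 4 ^ (1 + c) * (1 / (g : ℝ)) ^ (1 + c) := by
  have hgR : (8 : ℝ) ≤ g := by exact_mod_cast hg
  have e1 : ((g - 2 : ℕ) : ℝ) = g - 2 := by
    rw [Nat.cast_sub (by omega)]; norm_num
  rw [mul_assoc]
  refine mul_le_mul_of_nonneg_left ?_ hC1
  rw [← Real.mul_rpow (by norm_num) (by positivity)]
  have : 0 ≤ 1 / ((g - 2 : ℕ) : ℝ) := by positivity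
  refine Real.rpow_le_rpow this ?_ (by linarith)
  rw [e1, mul_one_div, div_le_div_iff₀ (by linarith) (by linarith)]
  linarith

theorem const2 {C2 a : ℝ} (hC2 : 0 ≤ C2) (ha : 0 < a) {g : ℕ} {L : ℤ} (hg : 8 ≤ g)
    (hgL : 64 * (g : ℤ) ≤ L) :
    C2 * (((g + 3 : ℕ) : ℝ) / ((L / 4 - 8).toNat : ℝ)) ^ a ≤
      C2 * 64 ^ a * ((g : ℝ) / L) ^ a := by
  have hg0 : (8 : ℤ) ≤ g := by exact_mod_cast hg
  have hgR : (8 : ℝ) ≤ g := by exact_mod_cast hg
  have hL0 : 0 < L := by omega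
  have hLR : (0 : ℝ) < L := by exact_mod_cast hL0
  have e2 : (L : ℝ) / 16 ≤ ((L / 4 - 8).toNat : ℝ) := by
    have h3 : ((L / 4 - 8).toNat : ℝ) = ((L / 4 - 8 : ℤ) : ℝ) := by
      have : (((L / 4 - 8).toNat : ℤ) : ℝ) = ((L / 4 - 8 : ℤ) : ℝ) := by
        rw [Int.toNat_of_nonneg (by omega)]
      exact_mod_cast this
    rw [h3, div_le_iff₀ (by norm_num)]
    have : L ≤ (L / 4 - 8) * 16 := by omega
    exact_mod_cast this
  rw [mul_assoc]
  refine mul_le_mul_of_nonneg_left ?_ hC2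
  rw [← Real.mul_rpow (by norm_num) (by positivity)]
  refine Real.rpow_le_rpow (by positivity) ?_ ha.le
  have h5 : (0 : ℝ) < ((L / 4 - 8).toNat : ℝ) := by
    have : 0 < (L : ℝ) / 16 := by positivity
    linarith
  rw [mul_div_assoc', div_le_div_iff₀ h5 hLR]
  push_cast
  nlinarith [e2, hgR, hLR]

/-- the bound of the chain -/
theorem bound {n1 n2 : ℝ} {f K : ℕ} {L : ℤ} (hL : 0 < L) {e1 e2 d1 d2 M : ℝ} {s1 s2 : ℝ}
    (h1 : n1 ≤ f * L) (h2 : n2 ≤ f) (q1 : e1 ≤ d1 * s1) (q2 : e2 ≤ d2 * s2) (he1 : 0 ≤ e1)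
    (he2 : 0 ≤ e2) (hn2 : 0 ≤ n2) (hd1 : d1 ≤ M) (hd2 : d2 ≤ M) (hM : 0 ≤ M)
    (hs1 : 0 ≤ s1) (hs2 : 0 ≤ s2) :
    n1 * e1 + ((2 * K + 1 : ℕ) : ℝ) * n2 * e2 ≤
      ((f * (2 * K + 2) : ℕ) : ℝ) * (L * (M * s1) + M * s2) := by
  have hLR : (0 : ℝ) < L := by exact_mod_cast hL
  have hf : (0 : ℝ) ≤ f := by positivity
  have hK : (0 : ℝ) ≤ K := by positivity
  have t1 : e1 ≤ M * s1 := q1.trans (mul_le_mul_of_nonneg_right hd1 hs1)
  have t2 : e2 ≤ M * s2 := q2.trans (mul_le_mul_of_nonneg_right hd2 hs2)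
  have r1 : n1 * e1 ≤ f * L * (M * s1) := by
    refine (mul_le_mul_of_nonneg_right h1 he1).trans ?_
    exact mul_le_mul_of_nonneg_left t1 (by positivity)
  have r2 : ((2 * K + 1 : ℕ) : ℝ) * n2 * e2 ≤ ((2 * K + 1 : ℕ) : ℝ) * f * (M * s2) := by
    refine (mul_le_mul_of_nonneg_right (mul_le_mul_of_nonneg_left h2 (by positivity)) he2).trans ?_
    exact mul_le_mul_of_nonneg_left t2 (by positivity)
  refine (add_le_add r1 r2).trans ?_
  have u1 : 0 ≤ M * s1 := by positivity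
  have u2 : 0 ≤ M * s2 := by positivity
  push_cast
  have v1 : (f : ℝ) * L * (M * s1) ≤ f * (2 * K + 2) * (L * (M * s1)) := by
    have : (f : ℝ) * L * (M * s1) = f * 1 * (L * (M * s1)) := by ring
    rw [this]
    refine mul_le_mul_of_nonneg_right (mul_le_mul_of_nonneg_left (by linarith) hf) (by positivity)
  have v2 : (2 * (K : ℝ) + 1) * f * (M * s2) ≤ f * (2 * K + 2) * (M * s2) := by
    refine mul_le_mul_of_nonneg_right ?_ u2
    nlinarith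
  linarith

/-- **(B7), right walls, from the geometric inputs** -/
theorem rl_chain (hthin : ThinR) (hthick : ThickR) : RLchain := by
  obtain ⟨C1, c, hC1, hc, hc1, h1⟩ := right_D
  obtain ⟨C2, a, hC2, ha, h2⟩ := thick_both
  refine ⟨max (C1 * 4 ^ (1 + c)) (C2 * 64 ^ a), a, c,
    le_max_of_le_right (by positivity), ha, hc, ?_⟩
  intro F hF
  obtain ⟨k0, K, hK⟩ := exists_rows F
  refine ⟨F.card * (2 * K + 2), ?_⟩
  intro H k i0 i1 up hH L δ p y0 xr g hev hδ hg hgL hp haw hW m hinj hm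
  obtain ⟨L2, hL2⟩ := hev
  have hL2' : L = 2 * L2 := by omega
  have hg0 : (8 : ℤ) ≤ g := by exact_mod_cast hg
  have hL0 : 0 < L := by omega
  have hs := hH.sub
  have hrow : ∀ t ∈ RL F H L δ, k0 * L ≤ t.2 ∧ t.2 < (k0 + K) * L := by
    intro t ht
    obtain ⟨cc, hcc, -, b1, b2⟩ := rl_data hL0 hs ht
    obtain ⟨d1, d2⟩ := hK cc hcc
    constructor
    · nlinarith
    · nlinarith
  -- thin groups
  have thin : ∀ κ y X : ℤ, κ * L2 + g ≤ y → y < (κ + 1) * L2 - g → (X, y) ∈ RL F H L δ →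
      (MKs F H L δ p y0 xr m (St (RL F H L δ) y (y + 1) X) ↔
        MKs F H L δ p y0 xr m (insert (X, y) (St (RL F H L δ) y (y + 1) X))) ∧
      (MKs F H L δ p y0 xr m (St (RL F H L δ) y (y + 1) X) →
        ‖HGs F H L δ p y0 xr m (insert (X, y) (St (RL F H L δ) y (y + 1) X)) -
          HGs F H L δ p y0 xr m (St (RL F H L δ) y (y + 1) X)‖ ≤
          C1 * (1 / ((g - 2 : ℕ) : ℝ)) ^ (1 + c)) := by
    intro κ y X k1 k2 k3
    obtain ⟨t1, t2, t3, t4⟩ := hthin hH hF (n := g - 2) hL2' hδ hg hgL (by omega) hp haw hinj hm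
      k3 k1 k2
    have hw := hW (St (RL F H L δ) y (y + 1) X) (Finset.filter_subset _ _)
    have := h1 (X - 1) y (g - 2) _ p y0 xr _ _ _ (by omega) (by omega) t1 t2 (t3 0) (t3 1) (t3 2) hw
    have e1 : X - 1 + 1 = X := by ring
    rw [e1] at this
    have e2 : insert (X, y) (shD F H L δ ∪ St (RL F H L δ) y (y + 1) X) =
        shD F H L δ ∪ insert (X, y) (St (RL F H L δ) y (y + 1) X) :=
      (Finset.union_insert _ _ _).symm
    rw [e2] at this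
    unfold MKs HGs
    rw [t4, t4, t4]
    refine ⟨this.1, fun h0 => ?_⟩
    rw [norm_sub_rev]
    exact this.2 h0
  -- thick groups
  have thick : ∀ κ X : ℤ, (∃ t ∈ RL F H L δ, t.1 = X ∧ κ * L2 - g ≤ t.2 ∧ t.2 < κ * L2 + g) →
      (MKs F H L δ p y0 xr m (St (RL F H L δ) (κ * L2 - g) (κ * L2 + g) X) ↔
        MKs F H L δ p y0 xr m (St (RL F H L δ) (κ * L2 - g) (κ * L2 + g) X ∪
          Gr (RL F H L δ) (κ * L2 - g) (κ * L2 + g) X)) ∧
      (MKs F H L δ p y0 xr m (St (RL F H L δ) (κ * L2 - g) (κ * L2 + g) X) →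
        ‖HGs F H L δ p y0 xr m (St (RL F H L δ) (κ * L2 - g) (κ * L2 + g) X ∪
          Gr (RL F H L δ) (κ * L2 - g) (κ * L2 + g) X) -
          HGs F H L δ p y0 xr m (St (RL F H L δ) (κ * L2 - g) (κ * L2 + g) X)‖ ≤
          C2 * (((g + 3 : ℕ) : ℝ) / ((L / 4 - 8).toNat : ℝ)) ^ a) := by
    intro κ X hX
    have hn : (((L / 4 - 8).toNat : ℕ) : ℤ) = L / 4 - 8 := Int.toNat_of_nonneg (by omega)
    obtain ⟨sh, q, X0, Y0, w1, w2, n1, n2, f1, f2, e, f3⟩ := hthick hH hF (r := g + 3)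
      (n := (L / 4 - 8).toNat) hL2' hδ hg hgL rfl (by omega) (by omega) hp haw hinj hm hX rfl rfl
      rfl rfl rfl rfl
    have s1 : St (RL F H L δ) (κ * L2 - g) (κ * L2 + g) X ⊆ RL F H L δ := Finset.filter_subset _ _
    have s2 : St (RL F H L δ) (κ * L2 - g) (κ * L2 + g) X ∪
        Gr (RL F H L δ) (κ * L2 - g) (κ * L2 + g) X ⊆ RL F H L δ :=
      Finset.union_subset s1 (Finset.filter_subset _ _)
    -- the exceptional index
    obtain ⟨j, hj⟩ : ∃ j : Fin 3, ∀ i, i ≠ j → m i ≠ e := by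
      by_cases h : ∃ j, m j = e
      · obtain ⟨j, hj⟩ := h
        exact ⟨j, fun i hi h3 => hi (hinj (h3.trans hj.symm))⟩
      · exact ⟨0, fun i _ h3 => h ⟨i, h3⟩⟩
    have := h2 sh q X0 Y0 (g + 3) (L / 4 - 8).toNat (by omega) (by omega) w1 w2 n1 n2 f1 f2
      (hW _ s1) (hW _ s2) (m := fun i => mq H L δ (St (RL F H L δ) (κ * L2 - g) (κ * L2 + g) X) (m i))
      (y := fun i => mq H L δ (St (RL F H L δ) (κ * L2 - g) (κ * L2 + g) X ∪
        Gr (RL F H L δ) (κ * L2 - g) (κ * L2 + g) X) (m i)) j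
      (fun i hi => by
        rcases f3 i with h | h
        · exact h
        · exact absurd h.1 (hj i hi))
      (by
        rcases f3 j with h | h
        · exact Or.inl h
        · exact Or.inr h.2)
    refine ⟨this.1, fun h0 => ?_⟩
    rw [norm_sub_rev]
    exact this.2 h0
  have e1 : 0 ≤ C1 * (1 / ((g - 2 : ℕ) : ℝ)) ^ (1 + c) := by positivity
  have e2 : 0 ≤ C2 * (((g + 3 : ℕ) : ℝ) / ((L / 4 - 8).toNat : ℝ)) ^ a := by positivity
  have key := chainP (RL := RL F H L δ) (MKs F H L δ p y0 xr m) (HGs F H L δ p y0 xr m)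
    (L2 := L2) (δ := g) (k0 := 2 * k0) (K := 2 * K + 1) (by positivity) (by omega)
    (fun t ht => by
      have := (hrow t ht).1
      have e : 2 * k0 * L2 = k0 * L := by rw [hL2']; ring
      rw [e]; omega)
    (fun t ht => by
      have := (hrow t ht).2
      have e : (2 * k0 + ((2 * K + 1 : ℕ) : ℤ)) * L2 = (k0 + K) * L + L2 := by
        rw [hL2']; push_cast; ring
      rw [e]; omega) e1 e2 thin thick
  refine ⟨key.1, fun h0 => (key.2 h0).trans ?_⟩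
  exact bound hL0 (rl_card hL0 hs) (by exact_mod_cast rl_cols (δ := δ) hL0 hs)
    (const1 (by linarith) hc hg) (const2 hC2.le ha hg hgL) e1 e2 (by positivity)
    (le_max_left _ _) (le_max_right _ _) (le_max_of_le_right (by positivity)) (by positivity)
    (by positivity)

end Crest.Agent.R158.Bh679
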