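import Crest.Agent.R158.Vw2_802
import Crest.Agent.R158.Hc2_854
import Crest.Agent.R158.Bh4_679

/-!
# R158, block BL, leaf (B3) (helper802), file Vw3: from the windows to the ball theorem

* `ok_iff`, `okL_iff` : patterns = 161's `pat`
* `win_of`, `winL_of` : windows in the sense of `Cw4_161`
* `beD_plain`, `beD_congr`, `nbD_near`
* `mk_cases`, `mkS_near`, `mkS_congr` : marks
* `catR`, `catL` : pattern of a thick group
-/

set_option autoImplicit false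

namespace Crest.Agent.R158.Vw802

open Crest.Agent.R158.Sp896 (V)
open Crest.Agent.R158.Sw300 (Port)
open Crest.Agent.R158.Env664
open Crest.Agent.R158.Hb656
open Crest.Agent.R158.Bh679 (St Gr mem_St mem_Gr mq Away)
open Crest.Agent.R158.Hc854 (Sd mem_Sd MkP)
open Crest.Agent.R158.Cw161 hiding portOf_some

variable {F H : Finset V} {L δ : ℤ}

/-! ### patterns -/

/-- shape -/
def Pat.sh : Pat → Sh
  | .h1 => .h1 | .h0 => .h0 | .qa => .q | .qb => .q | .ta => .t | .tb => .t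

/-- turn, right wall -/
def Pat.kR : Pat → ZMod 4
  | .h1 => 0 | .h0 => 0 | .qa => 1 | .qb => 2 | .ta => 0 | .tb => 3

/-- turn, left wall -/
def Pat.kL : Pat → ZMod 4
  | .h1 => 2 | .h0 => 2 | .qa => 0 | .qb => 3 | .ta => 1 | .tb => 2

theorem ok_iff (q : Pat) (a Y x y : ℤ) : q.ok a Y x y ↔ pat a (Y - 1) q.sh q.kR (x, y) := by
  cases q <;> simp only [Pat.ok, Pat.sh, Pat.kR, pat_s0, pat_h0, pat_q1, pat_q2, pat_t0, pat_t3] <;>
    omega

theorem okL_iff (q : Pat) (a Y x y : ℤ) : q.okL a Y x y ↔ pat (a - 1) (Y - 1) q.sh q.kL (x, y) := by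
  cases q <;> simp only [Pat.okL, Pat.sh, Pat.kL, pat_s2, pat_h2, pat_q0, pat_q3, pat_t1, pat_t2] <;>
    omega

/-- windows, right walls -/
theorem win_of {A : Finset V} {b : Port V → Port V} {q : Pat} {a X Y M : ℤ} {g r n : ℕ}
    (ha : a = X - 1 ∨ a = X) (hr : g + 2 ≤ r) (hrn : r + 1 ≤ n) (hn : (n : ℤ) + 2 ≤ M)
    (hA : ∀ x1 y1 : ℤ, X - M ≤ x1 → x1 ≤ X + M → Y - M ≤ y1 → y1 ≤ Y + M →
      (y1 < Y - g ∨ Y + g ≤ y1 ∨ x1 ≠ X) → ((x1, y1) ∈ A ↔ q.ok a Y x1 y1))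
    (hb : ∀ t d, Bx a (Y - 1) n t → b (some (t, d)) = beP A (some (t, d))) :
    Win q.sh q.kR a (Y - 1) r n A b ∧ ∀ t, Bx a (Y - 1) n t → ¬ Bx a (Y - 1) r t → t ∈ A →
      pat a (Y - 1) q.sh q.kR t := by
  have hA' : ∀ t, Bx a (Y - 1) (n + 1) t → ¬ Bx a (Y - 1) (r - 1) t →
      (t ∈ A ↔ pat a (Y - 1) q.sh q.kR t) := by
    rintro ⟨x, y⟩ h1 h2
    rw [← ok_iff]
    unfold Bx at h1 h2
    simp only at h1 h2
    push_cast [Nat.cast_sub (by omega : 1 ≤ r)] at h1 h2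
    exact hA x y (by omega) (by omega) (by omega) (by omega) (by omega)
  exact ⟨win_plain (by omega) hrn hA' hb, np_plain hA'⟩

/-- windows, left walls -/
theorem winL_of {A : Finset V} {b : Port V → Port V} {q : Pat} {a X Y M : ℤ} {g r n : ℕ}
    (ha : a = X ∨ a = X + 1) (hr : g + 2 ≤ r) (hrn : r + 1 ≤ n) (hn : (n : ℤ) + 2 ≤ M)
    (hA : ∀ x1 y1 : ℤ, X - M ≤ x1 → x1 ≤ X + M → Y - M ≤ y1 → y1 ≤ Y + M →
      (y1 < Y - g ∨ Y + g ≤ y1 ∨ x1 ≠ X) → ((x1, y1) ∈ A ↔ q.okL a Y x1 y1))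
    (hb : ∀ t d, Bx (a - 1) (Y - 1) n t → b (some (t, d)) = beP A (some (t, d))) :
    Win q.sh q.kL (a - 1) (Y - 1) r n A b ∧ ∀ t, Bx (a - 1) (Y - 1) n t →
      ¬ Bx (a - 1) (Y - 1) r t → t ∈ A → pat (a - 1) (Y - 1) q.sh q.kL t := by
  have hA' : ∀ t, Bx (a - 1) (Y - 1) (n + 1) t → ¬ Bx (a - 1) (Y - 1) (r - 1) t →
      (t ∈ A ↔ pat (a - 1) (Y - 1) q.sh q.kL t) := by
    rintro ⟨x, y⟩ h1 h2
    rw [← okL_iff]
    unfold Bx at h1 h2
    simp only at h1 h2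
    push_cast [Nat.cast_sub (by omega : 1 ≤ r)] at h1 h2
    exact hA x y (by omega) (by omega) (by omega) (by omega) (by omega)
  exact ⟨win_plain (by omega) hrn hA' hb, np_plain hA'⟩

/-! ### the glueing -/

section beD

variable {A A2 : Finset V} {p y0 xr : ℤ}

theorem beD_plain {t : V} (h : ¬ ((t.2 = y0 - 1 ∨ t.2 = y0) ∧ p ≤ t.1 ∧ t.1 ≤ xr)) (hp : p ≤ xr)
    (d : ZMod 4) : beD A p y0 xr (some (t, d)) = beP A (some (t, d)) := by
  obtain ⟨x, y⟩ := t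
  simp only at h
  have e : nbD p y0 xr (some ((x, y), d)) = nbP (some ((x, y), d)) := by
    rcases z4 d with rfl | rfl | rfl | rfl
    · rw [nbD_W, nbP_W]
    · rw [nbD_N (by omega), nbP_N]
    · rw [nbD_E, nbP_E]
    · rw [nbD_S ⟨by omega, by omega⟩, nbP_S]
  unfold beD beP res
  rw [e]

theorem beD_congr {x : Port V} (h1 : PortOf A x ↔ PortOf A2 x)
    (h2 : PortOf A (nbD p y0 xr x) ↔ PortOf A2 (nbD p y0 xr x)) :
    beD A2 p y0 xr x = beD A p y0 xr x := by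
  unfold beD res
  simp only [h1, h2]

theorem nbD_near (t : V) (d : ZMod 4) : nbD p y0 xr (some (t, d)) = none ∨
    ∃ t' d', nbD p y0 xr (some (t, d)) = some (t', d') ∧ t.1 - 1 ≤ t'.1 ∧ t'.1 ≤ t.1 + 1 ∧
      t.2 - 1 ≤ t'.2 ∧ t'.2 ≤ t.2 + 1 := by
  obtain ⟨x, y⟩ := t
  rcases z4 d with rfl | rfl | rfl | rfl
  · rw [nbD_W]; right; exact ⟨_, _, rfl, by simp only; omega⟩
  · right
    by_cases h : y = y0 - 1 ∧ p ≤ x ∧ x ≤ xr
    · rw [nbD_N1 h]; exact ⟨_, _, rfl, by simp only; omega⟩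
    · rw [nbD_N h]; exact ⟨_, _, rfl, by simp only; omega⟩
  · rw [nbD_E]; right; exact ⟨_, _, rfl, by simp only; omega⟩
  · by_cases h : y = y0 ∧ x = p
    · left; exact nbD_Sleg h
    · right
      by_cases h' : y = y0 ∧ p < x ∧ x ≤ xr
      · rw [nbD_S1 h']; exact ⟨_, _, rfl, by simp only; omega⟩
      · rw [nbD_S ⟨by omega, h⟩]; exact ⟨_, _, rfl, by simp only; omega⟩

/-- changing tiles inside a small box does not change the glueing of the far ports -/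
theorem beD_far {X Y : ℤ} {r n : ℕ} (hrn : r + 1 ≤ n) (h : ∀ t, ¬ Bx X Y r t → (t ∈ A ↔ t ∈ A2))
    (hleg : ¬ Bx X Y r (p, y0)) {x : Port V} (hx : FarM X Y n x) :
    beD A2 p y0 xr x = beD A p y0 xr x := by
  rcases x with _ | ⟨t, d⟩
  · refine beD_congr (by simp only [portOf_none]) ?_
    rw [nbD_leg, portOf_some, portOf_some]
    exact h _ hleg
  · have h1 : ¬ Bx X Y n t := hx t d rfl
    have h2 : ¬ Bx X Y r t := fun h2 => h1 (by unfold Bx at *; omega)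
    refine beD_congr (by rw [portOf_some, portOf_some]; exact h _ h2) ?_
    rcases nbD_near (p := p) (y0 := y0) (xr := xr) t d with e | ⟨t', d', e, e1, e2, e3, e4⟩
    · rw [e]; simp only [portOf_none]
    · rw [e, portOf_some, portOf_some]
      exact h _ fun h3 => h1 (by unfold Bx at *; omega)

end beD

/-! ### marks -/

/-- position of a mark -/
theorem mk_cases (L : ℤ) (c : V) (d : ZMod 4) : ∃ t : V, (mark L c d).2 = some (t, d) ∧
    ((d = 0 ∧ t = (c.1 * L, c.2 * L + L / 2)) ∨ (d = 1 ∧ t = (c.1 * L + L / 2, c.2 * L + L - 1)) ∨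
    (d = 2 ∧ t = (c.1 * L + L - 1, c.2 * L + L / 2 - 1)) ∨
    (d = 3 ∧ t = (c.1 * L + L / 2 - 1, c.2 * L))) := by
  rcases z4 d with rfl | rfl | rfl | rfl
  · exact ⟨_, by unfold mark; rw [if_pos rfl], Or.inl ⟨rfl, rfl⟩⟩
  · exact ⟨_, by unfold mark; rw [if_neg n10, if_pos rfl], Or.inr (Or.inl ⟨rfl, rfl⟩)⟩
  · exact ⟨_, by unfold mark; rw [if_neg n20, if_neg n21, if_pos rfl],
      Or.inr (Or.inr (Or.inl ⟨rfl, rfl⟩))⟩
  · exact ⟨_, by unfold mark; rw [if_neg n30, if_neg n31, if_neg n32],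
      Or.inr (Or.inr (Or.inr ⟨rfl, rfl⟩))⟩

theorem mkS_near (hδ : -1 ≤ δ ∧ δ ≤ 1) (S : Finset V) (m : V × ZMod 4) :
    (mkS H L δ S m).2 = m.2 ∧ (mkS H L δ S m).1.2 = m.1.2 ∧ m.1.1 - 2 ≤ (mkS H L δ S m).1.1 ∧
      (mkS H L δ S m).1.1 ≤ m.1.1 + 2 := by
  unfold mkS
  split_ifs <;> simp only <;> refine ⟨trivial, trivial, ?_, ?_⟩ <;> omega

theorem mkS_congr {S S' : Finset V} {m : V × ZMod 4}
    (h1 : (m.1.1 + δ + 1, m.1.2) ∈ S ↔ (m.1.1 + δ + 1, m.1.2) ∈ S')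
    (h2 : (m.1.1 + δ - 1, m.1.2) ∈ S ↔ (m.1.1 + δ - 1, m.1.2) ∈ S') :
    mkS H L δ S m = mkS H L δ S' m := by
  unfold mkS
  simp only [h1, h2]

/-- multiples of `L` -/
theorem tri (hL : 0 < L) (a b : ℤ) : a * L + L ≤ b * L ∨ a = b ∨ b * L + L ≤ a * L := by
  rcases lt_trichotomy a b with h | h | h
  · left
    have : (a + 1) * L ≤ b * L := mul_le_mul_of_nonneg_right (by omega) hL.le
    have e : (a + 1) * L = a * L + L := by ring
    omega
  · right; left; exact h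
  · right; right
    have : (b + 1) * L ≤ a * L := mul_le_mul_of_nonneg_right (by omega) hL.le
    have e : (b + 1) * L = b * L + L := by ring
    omega

/-! ### category of a thick group -/

/-- **right walls** : pattern of a thick group -/
theorem catR {L2 : ℤ} (hL2 : L = 2 * L2) (hL : 8 ≤ L) (hδ : δ = -1 ∨ δ = 0) {k i0 i1 : ℤ} {up : Bool}
    (hH : Hang F H k i0 i1 up) (hp : NoPinch F) {g : ℤ} (hg : 0 ≤ g) (hg' : 4 * g ≤ L2) {κ X : ℤ}
    (ht : ∃ t ∈ RL F H L δ, t.1 = X ∧ κ * L2 - g ≤ t.2 ∧ t.2 < κ * L2 + g) :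
    ∃ c r : ℤ, X = c * L + L + δ ∧ (c, r) ∈ H ∧ (c + 1, r) ∉ F ∧
      ((∃ j, κ * L2 = j * L) ∨ κ * L2 = r * L + L2) ∧
      ∃ (q : Pat) (a : ℤ), (a = X - 1 ∨ a = X) ∧ ∀ x1 y1 : ℤ,
      X - L / 4 ≤ x1 → x1 ≤ X + L / 4 → κ * L2 - L / 4 ≤ y1 →
      y1 ≤ κ * L2 + L / 4 → (y1 < κ * L2 - g ∨ κ * L2 + g ≤ y1 ∨ x1 ≠ X) →
      ((x1, y1) ∈ shD F H L δ ∪ St (RL F H L δ) (κ * L2 - g) (κ * L2 + g) X ↔
        q.ok a (κ * L2) x1 y1) ∧
      ((x1, y1) ∈ shD F H L δ ∪ (St (RL F H L δ) (κ * L2 - g) (κ * L2 + g) X ∪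
        Gr (RL F H L δ) (κ * L2 - g) (κ * L2 + g) X) ↔ q.ok a (κ * L2) x1 y1) := by
  obtain ⟨⟨x, y⟩, h1, h2, h3, h4⟩ := ht
  simp only at h2 h3 h4
  subst h2
  have hL0 : 0 < L := by omega
  have hs := hH.sub
  obtain ⟨c, r, e1, e2, e3, e4, e5⟩ := rl_col hL0 hs h1
  refine ⟨c, r, e1, e4, e5, ?_⟩
  rcases Int.even_or_odd' κ with ⟨j, rfl | rfl⟩
  · -- a macroscopic vertex
    have e6 : 2 * j * L2 = j * L := by rw [hL2]; ring
    rw [e6] at h3 h4 ⊢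
    refine ⟨Or.inl ⟨j, rfl⟩, ?_⟩
    have e7 : r = j ∨ r = j - 1 := by
      rcases tri hL0 r j with h | h | h
      · right
        rcases tri hL0 r (j - 1) with h' | h' | h'
        · have e : (j - 1) * L = j * L - L := by ring
          rw [e] at h'; omega
        · exact h'
        · have e : (j - 1) * L = j * L - L := by ring
          rw [e] at h'; omega
      · left; exact h
      · omega
    have := vertR hL hδ hH hp hg (c := c) (j := j) (by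
      rcases e7 with rfl | rfl
      · exact Or.inl ⟨e4, e5⟩
      · exact Or.inr ⟨e4, e5⟩)
    rw [← e1] at this
    exact this
  · -- the middle of a wall
    have e6 : (2 * j + 1) * L2 = j * L + L2 := by rw [hL2]; ring
    rw [e6] at h3 h4 ⊢
    have e7 : r = j := by
      rcases tri hL0 r j with h | h | h
      · omega
      · exact h
      · omega
    subst e7
    refine ⟨Or.inr rfl, .h1, x - 1, Or.inl rfl, ?_⟩
    intro x1 y1 hx1 hx2 hy1 hy2 hout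
    have := midR hL (by omega : -1 ≤ δ ∧ δ ≤ 1) hs hg (r := r) (c := c) (Y := r * L + L2) e4 e5
      (by omega) (by omega) x1 y1 (by omega) (by omega) hy1 hy2 (by omega)
    rw [← e1] at this
    exact this

/-- **left walls** : pattern of a thick group -/
theorem catL {L2 : ℤ} (hL2 : L = 2 * L2) (hL : 8 ≤ L) (hδ : δ = 0 ∨ δ = 1) {k i0 i1 : ℤ} {up : Bool}
    (hH : Hang F H k i0 i1 up) (hp : NoPinch F) {g : ℤ} (hg : 0 ≤ g) (hg' : 4 * g ≤ L2) {κ X : ℤ}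
    (ht : ∃ t ∈ LL F H L δ, t.1 = X ∧ κ * L2 - g ≤ t.2 ∧ t.2 < κ * L2 + g) :
    ∃ c r : ℤ, X = c * L + L + δ - 1 ∧ (c + 1, r) ∈ H ∧ (c, r) ∉ F ∧
      ((∃ j, κ * L2 = j * L) ∨ κ * L2 = r * L + L2) ∧
      ∃ (q : Pat) (a : ℤ), (a = X ∨ a = X + 1) ∧ ∀ x1 y1 : ℤ,
      X - L / 4 ≤ x1 → x1 ≤ X + L / 4 → κ * L2 - L / 4 ≤ y1 →
      y1 ≤ κ * L2 + L / 4 → (y1 < κ * L2 - g ∨ κ * L2 + g ≤ y1 ∨ x1 ≠ X) →
      ((x1, y1) ∈ shD F H L δ ∪ Sd (LL F H L δ) (κ * L2 - g) (κ * L2 + g) X ↔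
        q.okL a (κ * L2) x1 y1) ∧
      ((x1, y1) ∈ shD F H L δ ∪ (Sd (LL F H L δ) (κ * L2 - g) (κ * L2 + g) X ∪
        Gr (LL F H L δ) (κ * L2 - g) (κ * L2 + g) X) ↔ q.okL a (κ * L2) x1 y1) := by
  obtain ⟨⟨x, y⟩, h1, h2, h3, h4⟩ := ht
  simp only at h2 h3 h4
  subst h2
  have hL0 : 0 < L := by omega
  have hs := hH.sub
  obtain ⟨c, r, e1, e2, e3, e4, e5⟩ := ll_col hL0 hs h1
  refine ⟨c, r, e1, e4, e5, ?_⟩
  rcases Int.even_or_odd' κ with ⟨j, rfl | rfl⟩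
  · -- a macroscopic vertex
    have e6 : 2 * j * L2 = j * L := by rw [hL2]; ring
    rw [e6] at h3 h4 ⊢
    refine ⟨Or.inl ⟨j, rfl⟩, ?_⟩
    have e7 : r = j ∨ r = j - 1 := by
      rcases tri hL0 r j with h | h | h
      · right
        rcases tri hL0 r (j - 1) with h' | h' | h'
        · have e : (j - 1) * L = j * L - L := by ring
          rw [e] at h'; omega
        · exact h'
        · have e : (j - 1) * L = j * L - L := by ring
          rw [e] at h'; omega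
      · left; exact h
      · omega
    obtain ⟨q, a, ha, this⟩ := vertL hL hδ hH hp hg (c := c) (j := j) (by
      rcases e7 with rfl | rfl
      · exact Or.inl ⟨e4, e5⟩
      · exact Or.inr ⟨e4, e5⟩)
    rw [← e1] at this
    exact ⟨q, a, by omega, this⟩
  · -- the middle of a wall
    have e6 : (2 * j + 1) * L2 = j * L + L2 := by rw [hL2]; ring
    rw [e6] at h3 h4 ⊢
    have e7 : r = j := by
      rcases tri hL0 r j with h | h | h
      · omega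
      · exact h
      · omega
    subst e7
    refine ⟨Or.inr rfl, .h1, x + 1, Or.inr rfl, ?_⟩
    intro x1 y1 hx1 hx2 hy1 hy2 hout
    have := midL hL (by omega : -1 ≤ δ ∧ δ ≤ 1) hs hg (r := r) (c := c) (Y := r * L + L2) e4 e5
      (by omega) (by omega) x1 y1 (by omega) (by omega) hy1 hy2 (by omega)
    rw [← e1, show c * L + L + δ = x + 1 by omega] at this
    exact this

end Crest.Agent.R158.Vw802
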