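import Crest.Agent.R158.Bh5_679
import Crest.Agent.R158.Bh6_679
import Crest.Agent.R158.Vw3_802

/-!
# R158, BL (B7) (helper679), file Bh7: thin groups

* **`thinR : ThinR`**
-/

set_option autoImplicit false

noncomputable section

namespace Crest.Agent.R158.Bh679

open Crest.Agent.R158.Sp896 (V)
open Crest.Agent.R158.Sw300 (Port)
open Crest.Agent.R158.Env664 (D mark nbc beD mem_D div_iff)
open Crest.Agent.R158.Hb656 (Hang shD RL LL mkS mem_RL)
open Crest.Agent.R158.Wd377 (BxR Off)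
open Crest.Agent.R158.Vw802 (mk_cases mkS_near mkS_congr tri)

/-- the tiles of the marks are far from the thin groups -/
theorem mark_away {L L2 : ℤ} (hL2 : L = 2 * L2) (hL : 8 ≤ L) {δ : ℤ} (hδ : -1 ≤ δ) (hδ' : δ ≤ 1)
    {g κ y c' X : ℤ} (h1 : κ * L2 + g ≤ y) (h2 : y < (κ + 1) * L2 - g)
    (hX : X = (c' + 1) * L + δ) (hg : 0 ≤ g) {c t : V} {d : ZMod 4}
    (ht : (d = 0 ∧ t = (c.1 * L, c.2 * L + L / 2)) ∨
      (d = 1 ∧ t = (c.1 * L + L / 2, c.2 * L + L - 1)) ∨
      (d = 2 ∧ t = (c.1 * L + L - 1, c.2 * L + L / 2 - 1)) ∨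
      (d = 3 ∧ t = (c.1 * L + L / 2 - 1, c.2 * L))) :
    t.2 + g ≤ y ∨ y + g ≤ t.2 ∨ t.1 + L2 - 2 ≤ X ∨ X + L2 - 2 ≤ t.1 := by
  have e0 : (κ + 1) * L2 = κ * L2 + L2 := by ring
  have e1 : (2 * c.2 + 1) * L2 = c.2 * L + L2 := by rw [hL2]; ring
  have e2 := tri (L := L2) (by omega) (2 * c.2 + 1) κ
  have e3 := tri (L := L) (by omega) c.1 (c' + 1)
  have e4 : 2 * c.2 + 1 = κ → (2 * c.2 + 1) * L2 = κ * L2 := fun e => by rw [e]
  have e5 : c.1 = c' + 1 → c.1 * L = (c' + 1) * L := fun e => by rw [e]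
  rcases ht with ⟨-, rfl⟩ | ⟨-, rfl⟩ | ⟨-, rfl⟩ | ⟨-, rfl⟩ <;> simp only
  · rcases e2 with h | h | h
    · omega
    · have := e4 h; omega
    · omega
  · rcases e3 with h | h | h
    · omega
    · have := e5 h; omega
    · omega
  · rcases e2 with h | h | h
    · omega
    · have := e4 h; omega
    · omega
  · rcases e3 with h | h | h
    · omega
    · have := e5 h; omega
    · omega

/-- **thin groups** -/
theorem thinR : ThinR := by
  intro F H k i0 i1 up hH hF L L2 δ p y0 xr g n hL2 hδ hg hgL hn hp haw m hinj hm κ X y hX h1 h2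
  have hg0 : (8 : ℤ) ≤ g := by exact_mod_cast hg
  have hL : 8 ≤ L := by omega
  have hL0 : 0 < L := by omega
  have hL20 : 0 < L2 := by omega
  obtain ⟨c', hc, hc1, hc2⟩ := rl_col hL hH hX
  obtain ⟨r, hr⟩ : ∃ r, r = y / L := ⟨_, rfl⟩
  rw [← hr] at hc1 hc2
  obtain ⟨b1, b2⟩ := (div_iff hL0 y r).1 hr.symm
  -- the half row
  have e0 : (κ + 1) * L2 = κ * L2 + L2 := by ring
  have e1 : 2 * r * L2 = r * L := by rw [hL2]; ring
  have e2 : (2 * r + 1) * L2 = r * L + L2 := by rw [hL2]; ring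
  have b3 : r * L + g ≤ y ∧ y < r * L + L - g := by
    have f1 := tri hL20 κ (2 * r)
    have f2 := tri hL20 κ (2 * r + 1)
    have f3 : κ = 2 * r → κ * L2 = r * L := fun e => by rw [e, e1]
    have f4 : κ = 2 * r + 1 → κ * L2 = r * L + L2 := fun e => by rw [e, e2]
    rcases f1 with f | f | f
    · omega
    · have := f3 f; omega
    · rcases f2 with f' | f' | f'
      · omega
      · have := f4 f'; omega
      · omega
  have hn0 : (n : ℤ) + 2 ≤ g := by exact_mod_cast hn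
  -- marks
  have key : ∀ i, ∃ t : V, (mark L (m i).1 (m i).2).2 = some (t, (m i).2) ∧
      (t.2 + g ≤ y ∨ y + g ≤ t.2 ∨ t.1 + L2 - 2 ≤ X ∨ X + L2 - 2 ≤ t.1) := by
    intro i
    obtain ⟨t, e, ht⟩ := mk_cases L (m i).1 (m i).2
    exact ⟨t, e, mark_away hL2 hL (by omega) (by omega) h1 h2 hc (by omega) ht⟩
  refine ⟨?_, ?_, ?_, ?_⟩
  · intro x y' q1 q2 q3 q4
    rw [(flat_geo hL hH (by omega) (by omega) hX b1 b2 (x1 := x) (y1 := y') (by omega) (by omega)
      (by omega) (by omega)).1]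
    omega
  · rintro ⟨x, y'⟩ ht ⟨q1, q2, q3⟩
    unfold BxR at ht
    simp only at ht q1 q2 q3
    rw [mem_RL] at hX
    rcases haw x q2 q3 _ hX.1 with h | h
    · simp only at h
      rcases abs_cases (x - (X - 1 - δ)) with ⟨h3, h4⟩ | ⟨h3, h4⟩ <;> rw [h3] at h <;> omega
    · simp only at h
      rcases abs_cases (y0 - y) with ⟨h3, h4⟩ | ⟨h3, h4⟩ <;> rw [h3] at h <;> omega
  · intro i t d e hb
    obtain ⟨t0, e', hpos⟩ := key i
    unfold mq at e
    rw [e', Option.map_some, Option.some.injEq] at e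
    have hnear := mkS_near (H := H) (L := L) (δ := δ) (by omega) (St (RL F H L δ) y (y + 1) X)
      (t0, (m i).2)
    rw [e] at hnear
    simp only at hnear
    unfold BxR at hb
    omega
  · intro i
    obtain ⟨t0, e', hpos⟩ := key i
    unfold mq
    rw [e', Option.map_some, Option.map_some]
    congr 1
    refine mkS_congr ?_ ?_
    · rw [Finset.mem_insert]
      refine or_iff_right fun e => ?_
      simp only [Prod.mk.injEq] at e
      omega
    · rw [Finset.mem_insert]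
      refine or_iff_right fun e => ?_
      simp only [Prod.mk.injEq] at e
      omega

end Crest.Agent.R158.Bh679
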