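import Crest.Agent.R158.Bh7_679

/-!
# R158, BL (B7) (helper679), file Bh8: thick groups, and the chain

* **`thickR : ThickR`**
* **`rlchain : RLchain`**
-/

set_option autoImplicit false

noncomputable section

namespace Crest.Agent.R158.Bh679

open Crest.Agent.R158.Sp896 (V)
open Crest.Agent.R158.Sw300 (Port)
open Crest.Agent.R158.Env664 (D mark nbc beD beP mem_D div_iff)
open Crest.Agent.R158.Hb656 (Hang shD RL LL mkS mem_RL)
open Crest.Agent.R158.Cw161 (Sh pat Bx FarM Win beP_free dir2)
open Crest.Agent.R158.Cb771 (dir)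
open Crest.Agent.R158.Hc854 (MkP)
open Crest.Agent.R158.Vw802 (mk_cases mkS_near mkS_congr tri NoPinch catR win_of beD_plain beD_far)

theorem np_of {F : Finset V} (h : NP F) : NoPinch F := by
  constructor
  · intro a b h1 h2
    by_contra hcon
    push Not at hcon
    exact (h a b).1 ⟨h1, h2, hcon.1, hcon.2⟩
  · intro a b h1 h2
    by_contra hcon
    push Not at hcon
    exact (h a b).2 ⟨h2, h1, hcon.1, hcon.2⟩

/-- the tiles of the marks are far from a thick group, except one -/
theorem mark_thick {F : Finset V} {L L2 : ℤ} (hL2 : L = 2 * L2) (hL : 64 ≤ L) {δ : ℤ}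
    (hδ : -1 ≤ δ) (hδ' : δ ≤ 1) {κ c0 rr X : ℤ} (hX : X = c0 * L + L + δ)
    (hκ : (∃ j, κ * L2 = j * L) ∨ κ * L2 = rr * L + L2) (hc0 : (c0 + 1, rr) ∉ F)
    {c t : V} {d : ZMod 4} (hc : c ∈ F)
    (ht : (d = 0 ∧ t = (c.1 * L, c.2 * L + L / 2)) ∨
      (d = 1 ∧ t = (c.1 * L + L / 2, c.2 * L + L - 1)) ∨
      (d = 2 ∧ t = (c.1 * L + L - 1, c.2 * L + L / 2 - 1)) ∨
      (d = 3 ∧ t = (c.1 * L + L / 2 - 1, c.2 * L))) :
    (t.2 + L2 - 2 ≤ κ * L2 ∨ κ * L2 + L2 - 2 ≤ t.2 ∨ t.1 + L2 - 4 ≤ X ∨ X + L2 - 4 ≤ t.1) ∨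
      (c = (c0, rr) ∧ d = 2 ∧ κ * L2 = rr * L + L2 ∧ t = (X - 1 - δ, κ * L2 - 1)) := by
  have e3 := tri (L := L) (by omega) c.1 (c0 + 1)
  have e4 := tri (L := L) (by omega) c.1 c0
  have e5 : (c0 + 1) * L = c0 * L + L := by ring
  have e6 : c.1 = c0 + 1 → c.1 * L = c0 * L + L := fun e => by rw [e, e5]
  have e7 : c.1 = c0 → c.1 * L = c0 * L := fun e => by rw [e]
  rcases hκ with ⟨j, hj⟩ | hκ
  · left
    rw [hj]
    have e8 := tri (L := L) (by omega) c.2 j
    have e9 : c.2 = j → c.2 * L = j * L := fun e => by rw [e]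
    rcases ht with ⟨-, rfl⟩ | ⟨-, rfl⟩ | ⟨-, rfl⟩ | ⟨-, rfl⟩ <;> simp only
    · rcases e8 with h | h | h
      · omega
      · have := e9 h; omega
      · omega
    · rcases e3 with h | h | h
      · omega
      · have := e6 h; omega
      · omega
    · rcases e8 with h | h | h
      · omega
      · have := e9 h; omega
      · omega
    · rcases e3 with h | h | h
      · omega
      · have := e6 h; omega
      · omega
  · rw [hκ]
    have e8 := tri (L := L) (by omega) c.2 rr
    have e9 : c.2 = rr → c.2 * L = rr * L := fun e => by rw [e]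
    rcases ht with ⟨-, rfl⟩ | ⟨-, rfl⟩ | ⟨rfl, rfl⟩ | ⟨-, rfl⟩ <;> simp only
    · left
      rcases e8 with h | h | h
      · omega
      · rcases e3 with h' | h' | h'
        · omega
        · exfalso
          apply hc0
          rw [← h, ← h']; exact hc
        · omega
      · omega
    · left
      rcases e3 with h | h | h
      · omega
      · have := e6 h; omega
      · omega
    · rcases e8 with h | h | h
      · left; omega
      · rcases e4 with h' | h' | h'
        · left; omega
        · right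
          have := e9 h
          have := e7 h'
          refine ⟨Prod.ext h' h, trivial, trivial, Prod.ext ?_ ?_⟩ <;> simp only <;> omega
        · left; omega
      · left; omega
    · left
      rcases e3 with h | h | h
      · omega
      · have := e6 h; omega
      · omega

/-- **thick groups** -/
theorem thickR : ThickR := by
  intro F H k i0 i1 up hH hF L L2 δ p y0 xr g r n hL2 hδ hg hgL hr hrn hn hp haw m hinj hm κ X
    hX S S' A A' b b' hS hS' hA hA' hb hb'
  have hg0 : (8 : ℤ) ≤ g := by exact_mod_cast hg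
  have hr0 : (r : ℤ) = g + 3 := by exact_mod_cast hr
  have hrn0 : (r : ℤ) + 1 ≤ n := by exact_mod_cast hrn
  have hL : 64 ≤ L := by omega
  have hL0 : 0 < L := by omega
  obtain ⟨c0, rr, e1, e2, e3, hκ, q, a, ha, hpat⟩ := catR hL2 (by omega) hδ hH (np_of hF)
    (g := g) (by omega) (by omega) hX
  have hδ1 : -1 ≤ δ := by rcases hδ with h | h <;> rw [h] <;> norm_num
  have hδ2 : δ ≤ 1 := by rcases hδ with h | h <;> rw [h] <;> norm_num
  obtain ⟨t0, ht0, ht1, ht2, ht3⟩ := hX
  have ht0' := (mem_RL.1 ht0).1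
  have hmt := fun (c t : V) (d : ZMod 4) (hc : c ∈ F) ht =>
    mark_thick hL2 hL (δ := δ) hδ1 hδ2 e1 hκ e3 (c := c) (t := t) (d := d) hc ht
  clear hκ
  set Y := κ * L2 with hY
  -- the slit is outside the window
  have hslit : ∀ t : V, Bx a (Y - 1) n t → ¬ ((t.2 = y0 - 1 ∨ t.2 = y0) ∧ p ≤ t.1 ∧ t.1 ≤ xr) := by
    rintro ⟨x, y⟩ ht ⟨q1, q2, q3⟩
    unfold Bx at ht
    simp only at ht q1 q2 q3
    rcases haw x q2 (by omega) _ ht0' with h | h
    · simp only at h
      rcases abs_cases (x - (t0.1 - 1 - δ)) with ⟨h3, h4⟩ | ⟨h3, h4⟩ <;> rw [h3] at h <;> omega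
    · simp only at h
      rcases abs_cases (y0 - t0.2) with ⟨h3, h4⟩ | ⟨h3, h4⟩ <;> rw [h3] at h <;> omega
  have hleg : ¬ Bx a (Y - 1) r (p, y0) := fun h =>
    hslit (p, y0) (by unfold Bx at *; simp only at *; omega) ⟨Or.inr rfl, le_refl _, hp⟩
  have hpl : ∀ t d, Bx a (Y - 1) n t → b (some (t, d)) = beP A (some (t, d)) := fun t d ht => by
    rw [hb]; exact beD_plain (hslit t ht) hp d
  have hpl' : ∀ t d, Bx a (Y - 1) n t → b' (some (t, d)) = beP A' (some (t, d)) := fun t d ht => by
    rw [hb']; exact beD_plain (hslit t ht) hp d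
  have W := win_of (A := A) (b := b) (q := q) (M := L / 4) (X := X) (Y := Y) (g := g) (r := r)
    (n := n) ha (by omega) hrn (by omega)
    (fun x1 y1 b1 b2 b3 b4 b5 => by rw [hA, hS]; exact (hpat x1 y1 b1 b2 b3 b4 b5).1) hpl
  have W' := win_of (A := A') (b := b') (q := q) (M := L / 4) (X := X) (Y := Y) (g := g) (r := r)
    (n := n) ha (by omega) hrn (by omega)
    (fun x1 y1 b1 b2 b3 b4 b5 => by rw [hA', hS', hS]; exact (hpat x1 y1 b1 b2 b3 b4 b5).2) hpl'
  have hGr : ∀ t, t ∈ Gr (RL F H L δ) (Y - g) (Y + g) X → t.1 = X ∧ Y - g ≤ t.2 ∧ t.2 < Y + g :=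
    fun t ht => (mem_Gr.1 ht).2
  have hAA : ∀ t, ¬ Bx a (Y - 1) r t → (t ∈ A ↔ t ∈ A') := by
    intro t ht
    rw [hA, hA', hS', Finset.mem_union, Finset.mem_union, Finset.mem_union]
    have : t ∉ Gr (RL F H L δ) (Y - g) (Y + g) X := fun h => by
      have := hGr t h
      exact ht (by unfold Bx; omega)
    tauto
  refine ⟨q.sh, q.kR, a, Y - 1, W.1, W'.1, W.2, W'.2, ?_, hAA, ((c0, rr), 2), ?_⟩
  · intro x hx
    rw [hb, hb']
    exact beD_far hrn hAA hleg hx
  · intro i
    obtain ⟨t, et, hpos⟩ := mk_cases L (m i).1 (m i).2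
    have hmq : ∀ T, mq H L δ T (m i) = some (mkS H L δ T (t, (m i).2)) := fun T => by
      unfold mq; rw [et]; rfl
    rcases hmt _ t _ (hm i).1 hpos with hfar | ⟨f1, f2, f3, f4⟩
    · left
      constructor
      · intro t' d' e'
        rw [hmq, Option.some.injEq] at e'
        have hnear := mkS_near (H := H) (L := L) (δ := δ) (by omega) S (t, (m i).2)
        rw [e'] at hnear
        simp only at hnear
        unfold Bx
        omega
      · rw [hmq, hmq]
        congr 1
        refine (mkS_congr ?_ ?_).symm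
        · rw [hS', Finset.mem_union]
          refine (or_iff_left fun h => ?_).symm
          have := hGr _ h
          simp only at this
          omega
        · rw [hS', Finset.mem_union]
          refine (or_iff_left fun h => ?_).symm
          have := hGr _ h
          simp only at this
          omega
    · right
      refine ⟨Prod.ext f1 f2, ?_⟩
      have b1 : rr * L ≤ Y - 1 := by omega
      have b2 : Y - 1 < rr * L + L := by omega
      have e5 : (c0 + 1) * L = c0 * L + L := by ring
      have hcF := hH.sub e2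
      -- the two tiles
      have hsub : S ⊆ RL F H L δ := by rw [hS]; exact Finset.filter_subset _ _
      have hsub' : S' ⊆ RL F H L δ := by
        rw [hS', hS]
        exact Finset.union_subset (Finset.filter_subset _ _) (Finset.filter_subset _ _)
      have hXR : (X, Y - 1) ∈ RL F H L δ :=
        (rl_mem (by omega) hH (c := c0) (r := rr) b1 b2 (by omega) (by omega)).2
          ⟨by omega, e2, e3⟩
      have hXS : (X, Y - 1) ∉ S := by
        rw [hS, mem_St]
        rintro ⟨-, h⟩
        simp only at h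
        omega
      have hXS' : (X, Y - 1) ∈ S' := by
        rw [hS', Finset.mem_union, mem_Gr]
        right
        exact ⟨hXR, rfl, by simp only; omega, by simp only; omega⟩
      have m1 : ∀ {T : Finset V} (x1 : ℤ), T ⊆ RL F H L δ → X - 1 ≤ x1 → x1 ≤ X + 1 →
          ((x1, Y - 1) ∈ shD F H L δ ∪ T ↔ x1 < X ∨ (x1 = X ∧ (x1, Y - 1) ∈ T)) := by
        intro T x1 hT g1 g2
        rw [state_mem (by omega) hH (by omega) (by omega) hT (c := c0) (r := rr) b1 b2 (by omega)
          (by omega)]
        simp only [hcF, e2, e3, not_false_eq_true, not_true_eq_false, and_true, true_and,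
          false_and, and_false, or_false, false_or]
        rw [show (c0 + 1) * L + δ = X by omega]
      have htH : t ∈ D H L := by
        rw [mem_D hL0, f4]
        simp only
        rw [(div_iff hL0 (X - 1 - δ) c0).2 ⟨by omega, by omega⟩,
          (div_iff hL0 (Y - 1) rr).2 ⟨b1, b2⟩]
        exact e2
      have n02 : ¬ ((2 : ZMod 4) = 0) := by decide
      have q1 : mq H L δ S (m i) = some ((X - 1, Y - 1), 2) := by
        rw [hmq]
        unfold mkS
        simp only
        rw [if_pos htH, f2, if_neg, if_neg]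
        · rw [f4]; simp only; congr 3; ring
        · exact fun h => n02 h.1
        · rintro ⟨-, h⟩
          rw [f4] at h
          simp only at h
          rw [show X - 1 - δ + δ + 1 = X by ring] at h
          exact hXS h
      have q2 : mq H L δ S' (m i) = some ((X, Y - 1), 2) := by
        rw [hmq]
        unfold mkS
        simp only
        have e7 : (t.1 + δ + 1, t.2) = ((X, Y - 1) : V) := by
          rw [f4]; simp only; congr 1; ring
        rw [if_pos htH, f2, if_pos ⟨rfl, by rw [e7]; exact hXS'⟩, e7]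
      have B1 : Bx a (Y - 1) r (X - 1, Y - 1) := by unfold Bx; simp only; omega
      have B2 : Bx a (Y - 1) r (X, Y - 1) := by unfold Bx; simp only; omega
      have B1' : Bx a (Y - 1) n (X - 1, Y - 1) := by unfold Bx; simp only; omega
      have B2' : Bx a (Y - 1) n (X, Y - 1) := by unfold Bx; simp only; omega
      have d1 : ((X - 1, Y - 1) : V) + dir 2 = (X, Y - 1) := by
        rw [dir2]; refine Prod.ext ?_ ?_ <;> simp
      have d2 : ((X, Y - 1) : V) + dir 2 = (X + 1, Y - 1) := by
        rw [dir2]; refine Prod.ext ?_ ?_ <;> simp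
      rw [q1, q2]
      refine ⟨Or.inr ⟨_, _, _, _, rfl, B1, rfl, B2, ?_, ?_⟩, Or.inr ⟨_, _, _, _, rfl, B2, rfl, B1,
        ?_, ?_⟩⟩
      · rw [hA']
        exact (m1 X hsub' (by omega) (by omega)).2 (Or.inr ⟨rfl, hXS'⟩)
      · rw [hpl' _ _ B2']
        refine beP_free (Or.inr ?_)
        rw [d2, hA', m1 (X + 1) hsub' (by omega) (by omega)]
        omega
      · rw [hA]
        exact (m1 (X - 1) hsub (by omega) (by omega)).2 (Or.inl (by omega))
      · rw [hpl _ _ B1']
        refine beP_free (Or.inr ?_)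
        rw [d1, hA, m1 X hsub (by omega) (by omega)]
        rintro (h | ⟨-, h⟩)
        · omega
        · exact hXS h

/-- **(B7), right walls** -/
theorem rlchain : RLchain := rl_chain thinR thickR

end Crest.Agent.R158.Bh679
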