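import Crest.Agent.R158.Bk1_430

/-!
# R158, Block B2 (helper841), file 1: six-vertex sums with insertions at one vertex

Over `Bk1_430` (`f : ME A B → Bool` = flips, `W6 lam f s`, `wt6 lam f`).

* `kc x s`      : the edge variable of the vertex `x` (`+1` = even faces joined = primal edge open)
* `Ax x f`      : even insertion (`0` at `c` vertices, `±1` at `a/b` vertices)
* `Cx x f`      : odd insertion `(1/4) ∑_{e at x} sgb (f e)`
* `lw_kb`       : local identity  `∑_b kb p b * lw = (Ax + i tan(lam/2) Cx) * w6`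
* `T6 lam F`    : `∑_f wt6 lam f * F f`;  `T2 lam F = ∑_s ∑_f W6 lam f s * F s f`
* `T6_eq`, `T2_kc` : BKW without / with the edge variable, for an ARBITRARY functional `F`
* `T6_rv`, `T6_Ax`, `T6_Cx` : reversal of all arrows (`h → -h`)
* `T2_kc_add`, `T2_kc_sub` : the two exact identities (1784 (*), 1725 (ID)) for arbitrary `F`
* `T2_kc_sub'`  : right side in terms of the four single-edge insertions `D_e`
-/

set_option autoImplicit false
set_option linter.unusedSectionVars false

noncomputable section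

namespace Crest.Agent.R158.Bi841

open Crest.Agent.R158.Bk430 Finset Complex

/-- even insertion, local form -/
def ax4 (p fW fE fS : Bool) : ℂ := if fW = fE then 0 else (kb p (fW == fS) : ℂ)

/-- odd insertion, local form -/
def cx4 (fW fE fN fS : Bool) : ℂ := ((sgb fW + sgb fE + sgb fN + sgb fS : ℤ) : ℂ) / 4

theorem exp_sub_neg (z : ℂ) : exp (I * z) - exp (-(I * z)) = 2 * (I * sin z) := by
  rw [Complex.sin]
  have h1 : I * z = z * I := by ring
  have h2 : -(z * I) = -z * I := by ring
  rw [h1, h2]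
  have h3 : I * ((exp (-z * I) - exp (z * I)) * I / 2)
      = (I * I) * (exp (-z * I) - exp (z * I)) / 2 := by ring
  rw [h3, I_mul_I]; ring

/-- **local insertion identity** -/
theorem lw_kb (lam : ℝ) (hl : Real.cos (lam / 2) ≠ 0) (p fW fE fN fS : Bool) :
    ∑ b : Bool, (kb p b : ℂ) * lw lam p b fW fE fN fS =
      (ax4 p fW fE fS + I * Real.tan (lam / 2) * cx4 fW fE fN fS) * (w6 lam fW fE fN fS : ℂ) := by
  have h0 : (Real.cos (lam / 2) : ℂ) ≠ 0 := by exact_mod_cast hl
  have h1 : exp (I * (lam / 4 * 2)) - exp (-(I * (lam / 4 * 2)))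
      = I * Real.tan (lam / 2) * (2 * Real.cos (lam / 2) : ℝ) := by
    have e1 : I * ((lam : ℂ) / 4 * 2) = I * ((lam / 2 : ℝ) : ℂ) := by push_cast; ring
    rw [e1, exp_sub_neg, Real.tan_eq_sin_div_cos]
    push_cast at h0 ⊢
    field_simp
  have h2 : exp (-(I * (lam / 4 * 2))) - exp (I * (lam / 4 * 2))
      = -(I * Real.tan (lam / 2) * (2 * Real.cos (lam / 2) : ℝ)) := by
    rw [← h1]; ring
  rw [Fintype.sum_bool]
  have h3 : -exp (I * (lam / 4 * 2)) + exp (-(I * (lam / 4 * 2)))
      = -(I * Real.tan (lam / 2) * (2 * Real.cos (lam / 2) : ℝ)) := by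
    rw [← h1]; ring
  have h4 : -exp (-(I * (lam / 4 * 2))) + exp (I * (lam / 4 * 2))
      = (I * Real.tan (lam / 2) * (2 * Real.cos (lam / 2) : ℝ)) := by
    rw [← h1]; ring
  have h5 : exp (I * (lam / 4 * 2)) + -exp (-(I * (lam / 4 * 2)))
      = (I * Real.tan (lam / 2) * (2 * Real.cos (lam / 2) : ℝ)) := by
    rw [← h1]; ring
  have h6 : exp (-(I * (lam / 4 * 2))) + -exp (I * (lam / 4 * 2))
      = -(I * Real.tan (lam / 2) * (2 * Real.cos (lam / 2) : ℝ)) := by
    rw [← h1]; ring
  push_cast at h3 h4 h5 h6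
  cases p <;> cases fW <;> cases fE <;> cases fN <;> cases fS <;>
    simp [lw, Bk430.cmp, kb, sgb, w6, ice, ax4, cx4] <;>
    first | exact h3 | exact h4 | exact h5 | exact h6

section Sum

variable {A B : Type*} [AddGroupWithOne A] [AddGroupWithOne B] [HasPar A] [HasPar B]
  [Fintype A] [Fintype B] [DecidableEq A] [DecidableEq B]

/-- the edge variable at `x` (`+1` iff the even faces are joined at `x`, i.e. iff the primal edge
`x` is open) -/
def kc (x : A × B) (s : A × B → Bool) : ℂ := (kap s x : ℂ)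

/-- even insertion at the vertex `x` -/
def Ax (x : A × B) (f : ME A B → Bool) : ℂ := ax4 (vp x) (f (eW x)) (f (eE x)) (f (eS x))

/-- odd insertion at the vertex `x` (`= (1/4) ∑` of the four `D_e`) -/
def Cx (x : A × B) (f : ME A B → Bool) : ℂ :=
  cx4 (f (eW x)) (f (eE x)) (f (eN x)) (f (eS x))

/-- **vertex layer with the edge variable of `x`** -/
theorem sum_kc (lam : ℝ) (hl : Real.cos (lam / 2) ≠ 0) (x : A × B) (f : ME A B → Bool) :
    ∑ s : A × B → Bool, kc x s * W6 lam f s
      = (Ax x f + I * Real.tan (lam / 2) * Cx x f) * (wt6 lam f : ℂ) := by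
  have h := sum_W6_insert lam f x fun b => (kb (vp x) b : ℂ)
  have h2 : ∀ s : A × B → Bool, kc x s = (kb (vp x) (s x) : ℂ) := fun s => rfl
  simp only [h2]
  rw [h, lw_kb lam hl]
  unfold Ax Cx wt6
  rw [mul_assoc]
  congr 1
  rw [Complex.ofReal_prod]
  exact Finset.mul_prod_erase univ
    (fun v => ((w6 lam (f (eW v)) (f (eE v)) (f (eN v)) (f (eS v)) : ℝ) : ℂ)) (mem_univ x)

/-- all arrows reversed -/
def rv (f : ME A B → Bool) : ME A B → Bool := fun e => !f e

@[simp] theorem rv_rv (f : ME A B → Bool) : rv (rv f) = f := by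
  funext e; simp [rv]

theorem rv_apply (f : ME A B → Bool) (e : ME A B) : rv f e = !f e := rfl

/-- reversal as a bijection -/
def rvE : (ME A B → Bool) ≃ (ME A B → Bool) where
  toFun := rv
  invFun := rv
  left_inv := rv_rv
  right_inv := rv_rv

/-- sum over all pairs (splitting, flips), `W6` contains the compatibility -/
def T2 (lam : ℝ) (F : (A × B → Bool) → (ME A B → Bool) → ℂ) : ℂ :=
  ∑ s : A × B → Bool, ∑ f : ME A B → Bool, W6 lam f s * F s f

/-- six-vertex sum -/
def T6 (lam : ℝ) (F : (ME A B → Bool) → ℂ) : ℂ := ∑ f : ME A B → Bool, (wt6 lam f : ℂ) * F f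

/-- **BKW without insertion** -/
theorem T6_eq (lam : ℝ) (F : (ME A B → Bool) → ℂ) : T6 lam F = T2 lam fun _ f => F f := by
  unfold T6 T2
  rw [Finset.sum_comm]
  refine Finset.sum_congr rfl fun f _ => ?_
  rw [← sum_W6, Finset.sum_mul]

/-- **BKW with the edge variable of `x`** -/
theorem T2_kc (lam : ℝ) (hl : Real.cos (lam / 2) ≠ 0) (x : A × B) (F : (ME A B → Bool) → ℂ) :
    T2 lam (fun s f => kc x s * F f)
      = T6 lam fun f => (Ax x f + I * Real.tan (lam / 2) * Cx x f) * F f := by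
  unfold T6 T2
  rw [Finset.sum_comm]
  refine Finset.sum_congr rfl fun f _ => ?_
  have h := sum_kc lam hl x f
  have h2 : (wt6 lam f : ℂ) * ((Ax x f + I * Real.tan (lam / 2) * Cx x f) * F f)
      = ((Ax x f + I * Real.tan (lam / 2) * Cx x f) * (wt6 lam f : ℂ)) * F f := by ring
  rw [h2, ← h, Finset.sum_mul]
  exact Finset.sum_congr rfl fun s _ => by ring

theorem sgb_not (b : Bool) : sgb (!b) = -sgb b := by cases b <;> rfl

theorem Ax_rv (x : A × B) (f : ME A B → Bool) : Ax x (rv f) = Ax x f := by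
  unfold Ax rv ax4
  cases f (eW x) <;> cases f (eE x) <;> cases f (eS x) <;> simp

theorem Cx_rv (x : A × B) (f : ME A B → Bool) : Cx x (rv f) = -Cx x f := by
  unfold Cx rv cx4
  simp only [sgb_not]; push_cast; ring

theorem w6_not (lam : ℝ) (fW fE fN fS : Bool) :
    w6 lam (!fW) (!fE) (!fN) (!fS) = w6 lam fW fE fN fS := by
  cases fW <;> cases fE <;> cases fN <;> cases fS <;> simp [w6, ice]

theorem wt6_rv (lam : ℝ) (f : ME A B → Bool) : wt6 lam (rv f) = wt6 lam f := by
  unfold wt6 rv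
  exact Finset.prod_congr rfl fun v _ => w6_not _ _ _ _ _

/-- symmetry under reversal of all arrows (`h → -h`) -/
theorem T6_rv (lam : ℝ) (F : (ME A B → Bool) → ℂ) : T6 lam (fun f => F (rv f)) = T6 lam F := by
  unfold T6
  exact Fintype.sum_equiv (rvE (A := A) (B := B)) (fun f => (wt6 lam f : ℂ) * F (rv f))
    (fun f => (wt6 lam f : ℂ) * F f) (fun f => by
      show (wt6 lam f : ℂ) * F (rv f) = (wt6 lam (rv f) : ℂ) * F (rv f)
      rw [wt6_rv])

theorem T6_neg (lam : ℝ) (F : (ME A B → Bool) → ℂ) : T6 lam (fun f => -F f) = -T6 lam F := by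
  unfold T6
  rw [← Finset.sum_neg_distrib]
  exact Finset.sum_congr rfl fun f _ => by ring

theorem T6_add (lam : ℝ) (F G : (ME A B → Bool) → ℂ) :
    T6 lam (fun f => F f + G f) = T6 lam F + T6 lam G := by
  unfold T6; rw [← Finset.sum_add_distrib]
  exact Finset.sum_congr rfl fun f _ => by ring

theorem T6_smul (lam : ℝ) (c : ℂ) (F : (ME A B → Bool) → ℂ) :
    T6 lam (fun f => c * F f) = c * T6 lam F := by
  unfold T6; rw [Finset.mul_sum]
  exact Finset.sum_congr rfl fun f _ => by ring

theorem T6_Ax (lam : ℝ) (x : A × B) (F : (ME A B → Bool) → ℂ) :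
    T6 lam (fun f => Ax x f * F (rv f)) = T6 lam fun f => Ax x f * F f := by
  have h := T6_rv lam fun f => Ax x f * F f
  simpa only [Ax_rv] using h

theorem T6_Cx (lam : ℝ) (x : A × B) (F : (ME A B → Bool) → ℂ) :
    T6 lam (fun f => Cx x f * F (rv f)) = -T6 lam fun f => Cx x f * F f := by
  have h := T6_rv lam fun f => Cx x f * F f
  simp only [Cx_rv] at h
  rw [← h, ← T6_neg]
  congr 1; funext f; ring

theorem T6_split (lam : ℝ) (x : A × B) (G : (ME A B → Bool) → ℂ) :
    T6 lam (fun f => (Ax x f + I * Real.tan (lam / 2) * Cx x f) * G f)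
      = T6 lam (fun f => Ax x f * G f)
        + I * Real.tan (lam / 2) * T6 lam fun f => Cx x f * G f := by
  rw [← T6_smul, ← T6_add]
  congr 1; funext f; ring

/-- **(A), doc 1784 (\*)**: sum of the two percolation readings = twice the even insertion -/
theorem T2_kc_add (lam : ℝ) (hl : Real.cos (lam / 2) ≠ 0) (x : A × B)
    (F : (ME A B → Bool) → ℂ) :
    T2 lam (fun s f => kc x s * F f) + T2 lam (fun s f => kc x s * F (rv f))
      = 2 * T6 lam fun f => Ax x f * F f := by
  rw [T2_kc lam hl, T2_kc lam hl x fun f => F (rv f), T6_split, T6_split, T6_Ax, T6_Cx]; ring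

/-- **(ID), doc 1725, general form**: difference of the two percolation readings -/
theorem T2_kc_sub (lam : ℝ) (hl : Real.cos (lam / 2) ≠ 0) (x : A × B)
    (F : (ME A B → Bool) → ℂ) :
    T2 lam (fun s f => kc x s * F f) - T2 lam (fun s f => kc x s * F (rv f))
      = 2 * (I * Real.tan (lam / 2)) * T6 lam fun f => Cx x f * F f := by
  rw [T2_kc lam hl, T2_kc lam hl x fun f => F (rv f), T6_split, T6_split, T6_Ax, T6_Cx]; ring

/-- six-vertex sum with the insertion `D_e` -/
def TD (lam : ℝ) (e : ME A B) (F : (ME A B → Bool) → ℂ) : ℂ :=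
  T6 lam fun f => (sgb (f e) : ℂ) * F f

theorem T6_Cx_eq (lam : ℝ) (x : A × B) (F : (ME A B → Bool) → ℂ) :
    T6 lam (fun f => Cx x f * F f)
      = (TD lam (eW x) F + TD lam (eE x) F + TD lam (eN x) F + TD lam (eS x) F) / 4 := by
  unfold TD
  rw [← T6_add, ← T6_add, ← T6_add, div_eq_inv_mul, ← T6_smul]
  congr 1; funext f
  unfold Cx cx4; push_cast; ring

/-- **(ID)** with the four single-edge insertions -/
theorem T2_kc_sub' (lam : ℝ) (hl : Real.cos (lam / 2) ≠ 0) (x : A × B)
    (F : (ME A B → Bool) → ℂ) :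
    T2 lam (fun s f => kc x s * F f) - T2 lam (fun s f => kc x s * F (rv f))
      = I * Real.tan (lam / 2) / 2 *
        (TD lam (eW x) F + TD lam (eE x) F + TD lam (eN x) F + TD lam (eS x) F) := by
  rw [T2_kc_sub lam hl, T6_Cx_eq]; ring

/-- the single-edge insertion read on splittings and flips -/
theorem TD_eq (lam : ℝ) (e : ME A B) (F : (ME A B → Bool) → ℂ) :
    TD lam e F = T2 lam fun _ f => (sgb (f e) : ℂ) * F f := T6_eq lam _

theorem TD_rv (lam : ℝ) (e : ME A B) (F : (ME A B → Bool) → ℂ) :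
    TD lam e (fun f => F (rv f)) = -TD lam e F := by
  unfold TD
  have h := T6_rv lam fun f => (sgb (f e) : ℂ) * F f
  rw [← h, ← T6_neg]
  congr 1; funext f
  rw [rv_apply, sgb_not]; push_cast; ring

end Sum

end Crest.Agent.R158.Bi841
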