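import Crest.Agent.R158.Bk2_430
import Crest.Agent.R158.Bi1_841

/-!
# R158, Block B2 (helper841), file 2: (ID) on the torus in terms of `Gw`

* `GwS lam c e0 s` : sum over the balanced orientations of the loops of `s` of
  `sgb (f e0) * sin (∑ e, (lam/4 turn s e + c e so e) * sgb (f e))`
* `id_torus` : `∑_s kap s x * (Gw c s - Gw (-c) s) = -(tan(lam/2)/2) ∑_{e at x} ∑_s GwS c e s`
* `GwS_factor` : value of `GwS` when the loop of `e0` is contractible
* `abs_GwS_le`
-/

set_option autoImplicit false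
set_option linter.unusedSectionVars false

noncomputable section

namespace Crest.Agent.R158.Bi841

open Crest.Agent.R158.Bk430 Finset Complex

section Torus

variable {A B : Type*} [AddGroupWithOne A] [AddGroupWithOne B] [HasPar A] [HasPar B]
  [Fintype A] [Fintype B] [DecidableEq A] [DecidableEq B]

/-- the exponent of a pair (splitting, flips) -/
def XX (lam : ℝ) (c : ME A B → ℝ) (s : A × B → Bool) (f : ME A B → Bool) : ℝ :=
  ∑ e, (lam / 4 * turn s e + c e * so e) * sgb (f e)

/-- the linear functional of the arrows -/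
def tht (c : ME A B → ℝ) (f : ME A B → Bool) : ℝ := ∑ e, c e * so e * sgb (f e)

theorem XX_rv (lam : ℝ) (c : ME A B → ℝ) (s : A × B → Bool) (f : ME A B → Bool) :
    XX lam c s (rv f) = -XX lam c s f := by
  unfold XX
  rw [← Finset.sum_neg_distrib]
  refine Finset.sum_congr rfl fun e _ => ?_
  rw [rv_apply, sgb_not]; push_cast; ring

theorem tht_rv (c : ME A B → ℝ) (f : ME A B → Bool) : tht c (rv f) = -tht c f := by
  unfold tht
  rw [← Finset.sum_neg_distrib]
  refine Finset.sum_congr rfl fun e _ => ?_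
  rw [rv_apply, sgb_not]; push_cast; ring

theorem tht_neg (c : ME A B → ℝ) (f : ME A B → Bool) : tht (fun e => -c e) f = -tht c f := by
  unfold tht
  rw [← Finset.sum_neg_distrib]
  exact Finset.sum_congr rfl fun e _ => by ring

theorem Bal_rv (f : ME A B → Bool) : Bal (rv f) ↔ Bal f := by
  unfold Bal
  refine forall_congr' fun i => ?_
  have h : ∑ j : B, so (((i, j), false) : ME A B) * sgb (rv f ((i, j), false))
      = -∑ j : B, so (((i, j), false) : ME A B) * sgb (f ((i, j), false)) := by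
    rw [← Finset.sum_neg_distrib]
    refine Finset.sum_congr rfl fun j _ => ?_
    rw [rv_apply, sgb_not]; ring
  rw [h, neg_eq_zero]

theorem inv_rv (s : A × B → Bool) (f : ME A B → Bool) :
    (∀ e, rv f (nx s e) = rv f e) ↔ ∀ e, f (nx s e) = f e := by
  simp [rv]

theorem W6_exp (lam : ℝ) (c : ME A B → ℝ) (s : A × B → Bool) (f : ME A B → Bool)
    (h : ∀ e, f (nx s e) = f e) :
    W6 lam f s * exp (I * (tht c f : ℝ)) = exp (I * (XX lam c s f : ℝ)) := by
  classical
  rw [W6_eq, if_pos h, ← Complex.exp_add, ← mul_add]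
  congr 2
  unfold tht XX
  push_cast
  rw [Finset.mul_sum, ← Finset.sum_add_distrib]
  exact Finset.sum_congr rfl fun e _ => by ring

theorem W6_zero (lam : ℝ) (s : A × B → Bool) (f : ME A B → Bool)
    (h : ¬ ∀ e, f (nx s e) = f e) : W6 lam f s = 0 := by
  classical
  rw [W6_eq, if_neg h]

open Classical in
/-- the functional `exp (i θ)` restricted to the balanced configurations -/
def Fb (c : ME A B → ℝ) (f : ME A B → Bool) : ℂ := if Bal f then exp (I * (tht c f : ℝ)) else 0

theorem Fb_rv (c : ME A B → ℝ) (f : ME A B → Bool) :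
    Fb c (rv f) = Fb (fun e => -c e) f := by
  classical
  unfold Fb
  rw [tht_rv, tht_neg]
  by_cases h : Bal f
  · rw [if_pos h, if_pos ((Bal_rv f).2 h)]
  · rw [if_neg h, if_neg (fun h' => h ((Bal_rv f).1 h'))]

open Classical in
/-- the admissible pairs -/
def adm (s : A × B → Bool) (f : ME A B → Bool) : Prop := (∀ e, f (nx s e) = f e) ∧ Bal f

theorem adm_rv (s : A × B → Bool) (f : ME A B → Bool) : adm s (rv f) ↔ adm s f := by
  unfold adm; rw [inv_rv, Bal_rv]

open Classical in
theorem W6_Fb (lam : ℝ) (c : ME A B → ℝ) (s : A × B → Bool) (f : ME A B → Bool) :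
    W6 lam f s * Fb c f = if adm s f then exp (I * (XX lam c s f : ℝ)) else 0 := by
  unfold Fb
  by_cases h : ∀ e, f (nx s e) = f e
  · by_cases hb : Bal f
    · rw [if_pos hb, if_pos (show adm s f from ⟨h, hb⟩), W6_exp lam c s f h]
    · rw [if_neg hb, if_neg (fun h' : adm s f => hb h'.2), mul_zero]
  · rw [W6_zero lam s f h, zero_mul, if_neg (fun h' : adm s f => h h'.1)]

open Classical in
theorem Gw_adm (lam : ℝ) (c : ME A B → ℝ) (s : A × B → Bool) :
    Gw lam c s = ∑ f : ME A B → Bool, if adm s f then Real.cos (XX lam c s f) else 0 := by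
  unfold Gw XX adm
  refine Finset.sum_congr rfl fun f _ => ?_
  split_ifs with h1 h2 h3 h4 h5
  · rfl
  · exact absurd ⟨h1, h2⟩ h3
  · exact absurd h4.2 h2
  · rfl
  · exact absurd h5.1 h1
  · rfl

open Classical in
/-- single-edge insertion on a splitting -/
def GwS (lam : ℝ) (c : ME A B → ℝ) (e0 : ME A B) (s : A × B → Bool) : ℝ :=
  ∑ f : ME A B → Bool, if adm s f then sgb (f e0) * Real.sin (XX lam c s f) else 0

theorem sum_rv {R : Type*} [AddCommMonoid R] (F : (ME A B → Bool) → R) :
    ∑ f, F (rv f) = ∑ f, F f :=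
  Fintype.sum_equiv (rvE (A := A) (B := B)) (fun f => F (rv f)) F (fun _ => rfl)

theorem sum_odd (F : (ME A B → Bool) → ℂ) (h : ∀ f, F (rv f) = -F f) : ∑ f, F f = 0 := by
  have h1 := sum_rv F
  simp only [h, Finset.sum_neg_distrib] at h1
  have h2 : (2 : ℂ) * ∑ f, F f = 0 := by
    linear_combination -h1
  simpa using h2

theorem sum_W6_Fb (lam : ℝ) (c : ME A B → ℝ) (s : A × B → Bool) :
    ∑ f : ME A B → Bool, W6 lam f s * Fb c f = (Gw lam c s : ℂ) := by
  classical
  rw [Gw_adm]
  push_cast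
  have h1 : ∀ f : ME A B → Bool, W6 lam f s * Fb c f
      = ((if adm s f then Real.cos (XX lam c s f) else 0 : ℝ) : ℂ)
        + ((if adm s f then Real.sin (XX lam c s f) else 0 : ℝ) : ℂ) * I := by
    intro f
    rw [W6_Fb]
    split_ifs
    · rw [mul_comm I, Complex.exp_mul_I, Complex.ofReal_cos, Complex.ofReal_sin]
    · simp
  simp only [h1, Finset.sum_add_distrib]
  have h2 : ∑ f : ME A B → Bool,
      ((if adm s f then Real.sin (XX lam c s f) else 0 : ℝ) : ℂ) * I = 0 := by
    refine sum_odd _ fun f => ?_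
    by_cases h : adm s f
    · rw [if_pos h, if_pos ((adm_rv s f).2 h), XX_rv, Real.sin_neg]; push_cast; ring
    · rw [if_neg h, if_neg (fun h' => h ((adm_rv s f).1 h'))]; simp
  rw [h2, add_zero]

theorem sum_W6_sgb_Fb (lam : ℝ) (c : ME A B → ℝ) (e0 : ME A B) (s : A × B → Bool) :
    ∑ f : ME A B → Bool, W6 lam f s * ((sgb (f e0) : ℂ) * Fb c f)
      = I * (GwS lam c e0 s : ℂ) := by
  classical
  unfold GwS
  have h1 : ∀ f : ME A B → Bool, W6 lam f s * ((sgb (f e0) : ℂ) * Fb c f)
      = ((if adm s f then sgb (f e0) * Real.cos (XX lam c s f) else 0 : ℝ) : ℂ)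
        + I * ((if adm s f then sgb (f e0) * Real.sin (XX lam c s f) else 0 : ℝ) : ℂ) := by
    intro f
    rw [show W6 lam f s * ((sgb (f e0) : ℂ) * Fb c f)
      = (sgb (f e0) : ℂ) * (W6 lam f s * Fb c f) by ring, W6_Fb]
    split_ifs
    · rw [mul_comm I (XX lam c s f : ℂ), Complex.exp_mul_I]
      push_cast
      ring
    · simp
  simp only [h1, Finset.sum_add_distrib]
  have h2 : ∑ f : ME A B → Bool,
      ((if adm s f then sgb (f e0) * Real.cos (XX lam c s f) else 0 : ℝ) : ℂ) = 0 := by
    refine sum_odd _ fun f => ?_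
    by_cases h : adm s f
    · rw [if_pos h, if_pos ((adm_rv s f).2 h), XX_rv, Real.cos_neg, rv_apply, sgb_not]
      push_cast; ring
    · rw [if_neg h, if_neg (fun h' => h ((adm_rv s f).1 h'))]; simp
  rw [h2, zero_add, ← Finset.mul_sum, ← Complex.ofReal_sum]

/-- **(ID) on the torus** (doc 1725, 1849 (P)+(D)) -/
theorem id_torus (lam : ℝ) (hl : Real.cos (lam / 2) ≠ 0) (x : A × B) (c : ME A B → ℝ) :
    ∑ s : A × B → Bool, (kap s x : ℝ) * (Gw lam c s - Gw lam (fun e => -c e) s)
      = -(Real.tan (lam / 2) / 2) *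
        (∑ s : A × B → Bool, GwS lam c (eW x) s + ∑ s : A × B → Bool, GwS lam c (eE x) s
          + ∑ s : A × B → Bool, GwS lam c (eN x) s + ∑ s : A × B → Bool, GwS lam c (eS x) s) := by
  have h1 := T2_kc_sub' lam hl x (Fb c)
  have h2 : ∀ d : ME A B → ℝ, T2 lam (fun s f => kc x s * Fb d f)
      = ((∑ s : A × B → Bool, (kap s x : ℝ) * Gw lam d s : ℝ) : ℂ) := by
    intro d
    unfold T2
    push_cast
    refine Finset.sum_congr rfl fun s _ => ?_
    rw [← sum_W6_Fb, Finset.mul_sum]
    refine Finset.sum_congr rfl fun f _ => ?_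
    unfold kc; ring
  have h3 : ∀ e : ME A B, TD lam e (Fb c)
      = I * ((∑ s : A × B → Bool, GwS lam c e s : ℝ) : ℂ) := by
    intro e
    rw [TD_eq]
    unfold T2
    push_cast
    rw [Finset.mul_sum]
    exact Finset.sum_congr rfl fun s _ => sum_W6_sgb_Fb lam c e s
  simp only [Fb_rv] at h1
  rw [h2, h2, h3, h3, h3, h3] at h1
  have h4 : I * (Real.tan (lam / 2) : ℂ) / 2 *
      (I * ((∑ s : A × B → Bool, GwS lam c (eW x) s : ℝ) : ℂ)
        + I * ((∑ s : A × B → Bool, GwS lam c (eE x) s : ℝ) : ℂ)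
        + I * ((∑ s : A × B → Bool, GwS lam c (eN x) s : ℝ) : ℂ)
        + I * ((∑ s : A × B → Bool, GwS lam c (eS x) s : ℝ) : ℂ))
      = (I * I) * ((Real.tan (lam / 2) : ℂ) / 2 *
      (((∑ s : A × B → Bool, GwS lam c (eW x) s : ℝ) : ℂ)
        + ((∑ s : A × B → Bool, GwS lam c (eE x) s : ℝ) : ℂ)
        + ((∑ s : A × B → Bool, GwS lam c (eN x) s : ℝ) : ℂ)
        + ((∑ s : A × B → Bool, GwS lam c (eS x) s : ℝ) : ℂ))) := by ring
  rw [h4, I_mul_I, neg_one_mul] at h1
  have h5 := congrArg Complex.re h1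
  norm_cast at h5
  simp only [mul_sub, Finset.sum_sub_distrib]
  rw [h5]; ring

/-! ### value of the insertion on the loops -/

open Classical in
theorem GwS_orb (lam : ℝ) (c : ME A B → ℝ) (e0 : ME A B) (s : A × B → Bool) :
    GwS lam c e0 s = ∑ g : Lp s → Bool, if ∀ i, ∑ l, Fl s i l * sgb (g l) = 0 then
      sgb (g (orb (nxE s) e0)) *
        Real.sin (∑ l, (lam / 4 * Tl s l + th c s l) * sgb (g l)) else 0 := by
  unfold GwS
  have h := sum_inv (nxE s) (fun f : ME A B → Bool => if Bal f then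
    (sgb (f e0) : ℝ) * Real.sin (XX lam c s f) else 0)
  refine Eq.trans (Finset.sum_congr rfl fun f _ => ?_) (h.trans ?_)
  · unfold adm
    by_cases h1 : ∀ e, f (nx s e) = f e
    · rw [if_pos (show ∀ e, f ((nxE s) e) = f e from h1)]
      by_cases h2 : Bal f
      · rw [if_pos ⟨h1, h2⟩, if_pos h2]
      · rw [if_neg (fun h3 => h2 h3.2), if_neg h2]
    · rw [if_neg (show ¬ ∀ e, f ((nxE s) e) = f e from h1), if_neg (fun h3 => h1 h3.1)]
  refine Finset.sum_congr rfl fun g _ => ?_
  have h1 : Bal (fun e => g (orb (nxE s) e)) ↔ ∀ i, ∑ l, Fl s i l * sgb (g l) = 0 := by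
    unfold Bal
    refine forall_congr' fun i => ?_
    have : ∑ j : B, so (((i, j), false) : ME A B) * sgb (g (orb (nxE s) ((i, j), false))) =
        ∑ l, Fl s i l * sgb (g l) := by
      rw [← Finset.sum_fiberwise (s := univ) (g := fun j => orb (nxE s) (((i, j), false) : ME A B))]
      refine Finset.sum_congr rfl fun l _ => ?_
      rw [Fl, Finset.sum_mul]
      refine Finset.sum_congr rfl fun j hj => ?_
      rw [mem_filter] at hj
      rw [hj.2]
    rw [this]
  have h2 : XX lam c s (fun e => g (orb (nxE s) e)) =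
      ∑ l, (lam / 4 * Tl s l + th c s l) * sgb (g l) := by
    unfold XX
    have := sum_orb (nxE s) (fun e => lam / 4 * (turn s e : ℝ) + c e * (so e : ℝ))
      (fun l => ((sgb (g l) : ℤ) : ℝ))
    rw [this]
    refine Finset.sum_congr rfl fun l _ => ?_
    congr 1
    rw [Finset.sum_add_distrib, Tl, th, ← Finset.mul_sum]
    push_cast
    rfl
  by_cases hb : Bal (fun e => g (orb (nxE s) e))
  · rw [if_pos hb, if_pos (h1.1 hb), h2]
  · rw [if_neg hb, if_neg (fun h' => hb (h1.2 h'))]

theorem sgb_mul_sin (b : Bool) (a r : ℝ) :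
    (sgb b : ℝ) * Real.sin (a * sgb b + r) + (sgb (!b) : ℝ) * Real.sin (a * sgb (!b) + r)
      = 2 * Real.sin a * Real.cos r := by
  cases b
  · simp only [sgb, Bool.not_false, if_true, Bool.false_eq_true, if_false]
    push_cast
    rw [show a * 1 + r = a + r by ring, show a * -1 + r = -a + r by ring, Real.sin_add,
      Real.sin_add, Real.sin_neg, Real.cos_neg]
    ring
  · simp only [sgb, Bool.not_true, if_true, Bool.false_eq_true, if_false]
    push_cast
    rw [show a * 1 + r = a + r by ring, show a * -1 + r = -a + r by ring, Real.sin_add,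
      Real.sin_add, Real.sin_neg, Real.cos_neg]
    ring

section Abs

variable {Λ : Type*} [Fintype Λ] [DecidableEq Λ]

open Classical in
/-- the sum over the sign of one free coordinate -/
theorem one_free (l0 : Λ) (a : Λ → ℝ) (Q : (Λ → Bool) → Prop)
    (hQ : ∀ g b, Q (Function.update g l0 b) ↔ Q g) :
    ∑ g : Λ → Bool, (if Q g then (sgb (g l0) : ℝ) * Real.sin (∑ l, a l * sgb (g l)) else 0)
      = Real.sin (a l0) * ∑ g : Λ → Bool,
          (if Q g then Real.cos (∑ l ∈ univ.erase l0, a l * sgb (g l)) else 0) := by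
  have hflip : ∀ F : (Λ → Bool) → ℝ,
      ∑ g : Λ → Bool, F (Function.update g l0 (!g l0)) = ∑ g : Λ → Bool, F g := by
    intro F
    refine Fintype.sum_equiv (⟨fun g => Function.update g l0 (!g l0),
      fun g => Function.update g l0 (!g l0), fun g => ?_, fun g => ?_⟩ :
        (Λ → Bool) ≃ (Λ → Bool)) _ _ (fun g => rfl)
    · funext l
      by_cases h : l = l0
      · subst h; simp
      · simp [Function.update_of_ne h]
    · funext l
      by_cases h : l = l0
      · subst h; simp
      · simp [Function.update_of_ne h]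
  have h1 : ∀ g : Λ → Bool, ∑ l, a l * (sgb (g l) : ℝ)
      = a l0 * sgb (g l0) + ∑ l ∈ univ.erase l0, a l * sgb (g l) :=
    fun g => (Finset.add_sum_erase univ (fun l => a l * ((sgb (g l) : ℤ) : ℝ)) (mem_univ l0)).symm
  have h2 := hflip fun g => if Q g then (sgb (g l0) : ℝ) * Real.sin (∑ l, a l * sgb (g l)) else 0
  have h3 : ∀ g : Λ → Bool, ∑ l ∈ univ.erase l0, a l * (sgb (Function.update g l0 (!g l0) l) : ℝ)
      = ∑ l ∈ univ.erase l0, a l * (sgb (g l) : ℝ) := by
    intro g
    refine Finset.sum_congr rfl fun l hl => ?_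
    rw [Function.update_of_ne (Finset.ne_of_mem_erase hl)]
  have h4 : (2 : ℝ) * ∑ g : Λ → Bool,
      (if Q g then (sgb (g l0) : ℝ) * Real.sin (∑ l, a l * sgb (g l)) else 0)
      = 2 * (Real.sin (a l0) * ∑ g : Λ → Bool,
          (if Q g then Real.cos (∑ l ∈ univ.erase l0, a l * sgb (g l)) else 0)) := by
    rw [two_mul]
    nth_rewrite 2 [← h2]
    rw [← Finset.sum_add_distrib, Finset.mul_sum, Finset.mul_sum]
    refine Finset.sum_congr rfl fun g _ => ?_
    by_cases hq : Q g
    · rw [if_pos hq, if_pos ((hQ g _).2 hq), if_pos hq, h1 g, h1 (Function.update g l0 (!g l0)),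
        h3, Function.update_self, sgb_mul_sin]
      ring
    · rw [if_neg hq, if_neg (fun h => hq ((hQ g _).1 h)), if_neg hq]; ring
  linarith

open Classical in
/-- a cosine sum does not see one free coordinate -/
theorem cos_free (l0 : Λ) (a : Λ → ℝ) (Q : (Λ → Bool) → Prop)
    (hQ : ∀ g b, Q (Function.update g l0 b) ↔ Q g) :
    ∑ g : Λ → Bool, (if Q g then Real.cos (∑ l, a l * sgb (g l)) else 0)
      = Real.cos (a l0) * ∑ g : Λ → Bool,
          (if Q g then Real.cos (∑ l ∈ univ.erase l0, a l * sgb (g l)) else 0) := by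
  have hflip : ∀ F : (Λ → Bool) → ℝ,
      ∑ g : Λ → Bool, F (Function.update g l0 (!g l0)) = ∑ g : Λ → Bool, F g := by
    intro F
    refine Fintype.sum_equiv (⟨fun g => Function.update g l0 (!g l0),
      fun g => Function.update g l0 (!g l0), fun g => ?_, fun g => ?_⟩ :
        (Λ → Bool) ≃ (Λ → Bool)) _ _ (fun g => rfl)
    · funext l
      by_cases h : l = l0
      · subst h; simp
      · simp [Function.update_of_ne h]
    · funext l
      by_cases h : l = l0
      · subst h; simp
      · simp [Function.update_of_ne h]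
  have h1 : ∀ g : Λ → Bool, ∑ l, a l * (sgb (g l) : ℝ)
      = a l0 * sgb (g l0) + ∑ l ∈ univ.erase l0, a l * sgb (g l) :=
    fun g => (Finset.add_sum_erase univ (fun l => a l * ((sgb (g l) : ℤ) : ℝ)) (mem_univ l0)).symm
  have h2 := hflip fun g => if Q g then Real.cos (∑ l, a l * sgb (g l)) else 0
  have h3 : ∀ g : Λ → Bool, ∑ l ∈ univ.erase l0, a l * (sgb (Function.update g l0 (!g l0) l) : ℝ)
      = ∑ l ∈ univ.erase l0, a l * (sgb (g l) : ℝ) := by
    intro g
    refine Finset.sum_congr rfl fun l hl => ?_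
    rw [Function.update_of_ne (Finset.ne_of_mem_erase hl)]
  have h4 : (2 : ℝ) * ∑ g : Λ → Bool, (if Q g then Real.cos (∑ l, a l * sgb (g l)) else 0)
      = 2 * (Real.cos (a l0) * ∑ g : Λ → Bool,
          (if Q g then Real.cos (∑ l ∈ univ.erase l0, a l * sgb (g l)) else 0)) := by
    rw [two_mul]
    nth_rewrite 2 [← h2]
    rw [← Finset.sum_add_distrib, Finset.mul_sum, Finset.mul_sum]
    refine Finset.sum_congr rfl fun g _ => ?_
    by_cases hq : Q g
    · rw [if_pos hq, if_pos ((hQ g _).2 hq), if_pos hq, h1 g, h1 (Function.update g l0 (!g l0)),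
        h3, Function.update_self, sgb_not, Real.cos_add, Real.cos_add]
      have h5 : a l0 * ((-sgb (g l0) : ℤ) : ℝ) = -(a l0 * (sgb (g l0) : ℝ)) := by push_cast; ring
      rw [h5, Real.cos_neg, Real.sin_neg]
      have h6 : Real.cos (a l0 * (sgb (g l0) : ℝ)) = Real.cos (a l0) := by
        cases g l0
        · simp [sgb]
        · simp only [sgb, if_true]; push_cast
          rw [show a l0 * -1 = -a l0 by ring, Real.cos_neg]
      rw [h6]; ring
    · rw [if_neg hq, if_neg (fun h => hq ((hQ g _).1 h)), if_neg hq]; ring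
  linarith

end Abs

end Torus

end Crest.Agent.R158.Bi841
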