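import Crest.Agent.R158.Sp0_896

/-!
# R158, helper802, file Bl1: subdivision of a boundary walk

`sc F L` : the tiles of the macro cells `F` at scale `L`; `sv L v` : the walk `v`, every edge
subdivided into `L` edges.  `Cyc.scale : Cyc F N v → Cyc (sc F L) (N * L) (sv L v)`.
-/

set_option autoImplicit false

namespace Crest.Agent.R158.Bl802

open Crest.Agent.R158.Sp896

/-- the tiles of the macro cells `F` at scale `L` -/
def sc (F : Set V) (L : ℕ) : Set V := {t | (t.1 / (L : ℤ), t.2 / (L : ℤ)) ∈ F}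

theorem mem_sc {F : Set V} {L : ℕ} {t : V} : t ∈ sc F L ↔ (t.1 / (L : ℤ), t.2 / (L : ℤ)) ∈ F := Iff.rfl

/-- subdivided walk -/
def sv (L : ℕ) (v : ℕ → V) (i : ℕ) : V :=
  ((L : ℤ) * (v (i / L)).1 + ((i % L : ℕ) : ℤ) * ((v (i / L + 1)).1 - (v (i / L)).1),
   (L : ℤ) * (v (i / L)).2 + ((i % L : ℕ) : ℤ) * ((v (i / L + 1)).2 - (v (i / L)).2))

theorem sv_mk {L : ℕ} {v : ℕ → V} {k r : ℕ} (hr : r < L) : sv L v (k * L + r) =
    ((L : ℤ) * (v k).1 + (r : ℤ) * ((v (k + 1)).1 - (v k).1),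
     (L : ℤ) * (v k).2 + (r : ℤ) * ((v (k + 1)).2 - (v k).2)) := by
  have hL : 0 < L := lt_of_le_of_lt (Nat.zero_le _) hr
  have h1 : (k * L + r) / L = k := by
    rw [mul_comm, Nat.mul_add_div hL, Nat.div_eq_of_lt hr, add_zero]
  have h2 : (k * L + r) % L = r := by
    rw [mul_comm, Nat.mul_add_mod, Nat.mod_eq_of_lt hr]
  simp only [sv, h1, h2]

theorem sv_mk_succ {L : ℕ} {v : ℕ → V} {k r : ℕ} (hr : r < L) : sv L v (k * L + r + 1) =
    ((L : ℤ) * (v k).1 + ((r : ℤ) + 1) * ((v (k + 1)).1 - (v k).1),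
     (L : ℤ) * (v k).2 + ((r : ℤ) + 1) * ((v (k + 1)).2 - (v k).2)) := by
  have hL : 0 < L := lt_of_le_of_lt (Nat.zero_le _) hr
  rcases Nat.lt_or_ge (r + 1) L with h | h
  · rw [add_assoc, sv_mk h]
    push_cast
    rfl
  · have h1 : r + 1 = L := by omega
    have h2 : k * L + r + 1 = (k + 1) * L + 0 := by
      rw [add_mul, one_mul, add_zero, ← h1, ← add_assoc]
    rw [h2, sv_mk hL]
    have h3 : (L : ℤ) = (r : ℤ) + 1 := by exact_mod_cast h1.symm
    rw [h3]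
    ext <;> push_cast <;> ring

/-- normal form of an index -/
theorem idx {L : ℕ} (hL : 0 < L) (i : ℕ) : ∃ k r, r < L ∧ i = k * L + r :=
  ⟨i / L, i % L, Nat.mod_lt _ hL, by rw [mul_comm]; exact (Nat.div_add_mod i L).symm⟩

theorem ediv_eq {L : ℤ} (hL : 0 < L) {a q r : ℤ} (h : a = L * q + r) (h0 : 0 ≤ r) (h1 : r < L) :
    a / L = q := by
  rw [h, add_comm, Int.add_mul_ediv_left _ _ hL.ne', Int.ediv_eq_zero_of_lt h0 h1, zero_add]

/-- cells left and right of the subdivided steps -/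
theorem cells_scale {L : ℕ} (hL : 0 < L) {A B : V} (h : Adj A B) {r : ℕ} (hr : r < L) (a b : V)
    (ha : a = ((L : ℤ) * A.1 + (r : ℤ) * (B.1 - A.1), (L : ℤ) * A.2 + (r : ℤ) * (B.2 - A.2)))
    (hb : b = ((L : ℤ) * A.1 + ((r : ℤ) + 1) * (B.1 - A.1), (L : ℤ) * A.2 + ((r : ℤ) + 1) * (B.2 - A.2))) :
    Adj a b ∧ ((lc a b).1 / (L : ℤ), (lc a b).2 / (L : ℤ)) = lc A B ∧
      ((rc a b).1 / (L : ℤ), (rc a b).2 / (L : ℤ)) = rc A B := by
  obtain ⟨A1, A2⟩ := A
  obtain ⟨B1, B2⟩ := B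
  obtain ⟨a1, a2⟩ := a
  obtain ⟨b1, b2⟩ := b
  simp only [Prod.mk.injEq] at ha hb
  have hLz : (0 : ℤ) < L := by exact_mod_cast hL
  have hrz : (r : ℤ) < L := by exact_mod_cast hr
  have hr0 : (0 : ℤ) ≤ r := Int.natCast_nonneg r
  unfold Adj at h
  simp only at h
  rcases h with ⟨h1, h2⟩ | ⟨h1, h2⟩ | ⟨h1, h2⟩ | ⟨h1, h2⟩
  · obtain ⟨rfl, rfl⟩ := ha
    obtain ⟨rfl, rfl⟩ := hb
    subst h1 h2
    refine ⟨?_, ?_, ?_⟩
    · left; constructor <;> simp only <;> ring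
    · simp only [lc]
      ext
      · simp only
        rw [show ((L : ℤ) * A1 + (r : ℤ) * (A1 + 1 - A1) + ((L : ℤ) * A1 + ((r : ℤ) + 1) * (A1 + 1 - A1)) -
          ((L : ℤ) * B2 + ((r : ℤ) + 1) * (B2 - B2) - ((L : ℤ) * B2 + (r : ℤ) * (B2 - B2))) - 1) = 2 * (L * A1 + r) by ring,
          Int.mul_ediv_cancel_left _ (by norm_num : (2 : ℤ) ≠ 0), ediv_eq hLz rfl hr0 hrz]
        omega
      · simp only
        rw [show ((L : ℤ) * B2 + (r : ℤ) * (B2 - B2) + ((L : ℤ) * B2 + ((r : ℤ) + 1) * (B2 - B2)) +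
          ((L : ℤ) * A1 + ((r : ℤ) + 1) * (A1 + 1 - A1) - ((L : ℤ) * A1 + (r : ℤ) * (A1 + 1 - A1))) - 1) = 2 * (L * B2 + 0) by ring,
          Int.mul_ediv_cancel_left _ (by norm_num : (2 : ℤ) ≠ 0), ediv_eq hLz rfl le_rfl hLz]
        omega
    · simp only [rc]
      ext
      · simp only
        rw [show ((L : ℤ) * A1 + (r : ℤ) * (A1 + 1 - A1) + ((L : ℤ) * A1 + ((r : ℤ) + 1) * (A1 + 1 - A1)) +
          ((L : ℤ) * B2 + ((r : ℤ) + 1) * (B2 - B2) - ((L : ℤ) * B2 + (r : ℤ) * (B2 - B2))) - 1) = 2 * (L * A1 + r) by ring,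
          Int.mul_ediv_cancel_left _ (by norm_num : (2 : ℤ) ≠ 0), ediv_eq hLz rfl hr0 hrz]
        omega
      · simp only
        rw [show ((L : ℤ) * B2 + (r : ℤ) * (B2 - B2) + ((L : ℤ) * B2 + ((r : ℤ) + 1) * (B2 - B2)) -
          ((L : ℤ) * A1 + ((r : ℤ) + 1) * (A1 + 1 - A1) - ((L : ℤ) * A1 + (r : ℤ) * (A1 + 1 - A1))) - 1) = 2 * (L * (B2 - 1) + (L - 1)) by ring,
          Int.mul_ediv_cancel_left _ (by norm_num : (2 : ℤ) ≠ 0), ediv_eq hLz rfl (by omega) (by omega)]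
        omega
  · obtain ⟨rfl, rfl⟩ := ha
    obtain ⟨rfl, rfl⟩ := hb
    subst h1 h2
    refine ⟨?_, ?_, ?_⟩
    · right; left; constructor <;> simp only <;> ring
    · simp only [lc]
      ext
      · simp only
        rw [show ((L : ℤ) * A1 + (r : ℤ) * (A1 - 1 - A1) + ((L : ℤ) * A1 + ((r : ℤ) + 1) * (A1 - 1 - A1)) -
          ((L : ℤ) * B2 + ((r : ℤ) + 1) * (B2 - B2) - ((L : ℤ) * B2 + (r : ℤ) * (B2 - B2))) - 1) = 2 * (L * (A1 - 1) + (L - 1 - r)) by ring,
          Int.mul_ediv_cancel_left _ (by norm_num : (2 : ℤ) ≠ 0), ediv_eq hLz rfl (by omega) (by omega)]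
        omega
      · simp only
        rw [show ((L : ℤ) * B2 + (r : ℤ) * (B2 - B2) + ((L : ℤ) * B2 + ((r : ℤ) + 1) * (B2 - B2)) +
          ((L : ℤ) * A1 + ((r : ℤ) + 1) * (A1 - 1 - A1) - ((L : ℤ) * A1 + (r : ℤ) * (A1 - 1 - A1))) - 1) = 2 * (L * (B2 - 1) + (L - 1)) by ring,
          Int.mul_ediv_cancel_left _ (by norm_num : (2 : ℤ) ≠ 0), ediv_eq hLz rfl (by omega) (by omega)]
        omega
    · simp only [rc]
      ext
      · simp only
        rw [show ((L : ℤ) * A1 + (r : ℤ) * (A1 - 1 - A1) + ((L : ℤ) * A1 + ((r : ℤ) + 1) * (A1 - 1 - A1)) +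
          ((L : ℤ) * B2 + ((r : ℤ) + 1) * (B2 - B2) - ((L : ℤ) * B2 + (r : ℤ) * (B2 - B2))) - 1) = 2 * (L * (A1 - 1) + (L - 1 - r)) by ring,
          Int.mul_ediv_cancel_left _ (by norm_num : (2 : ℤ) ≠ 0), ediv_eq hLz rfl (by omega) (by omega)]
        omega
      · simp only
        rw [show ((L : ℤ) * B2 + (r : ℤ) * (B2 - B2) + ((L : ℤ) * B2 + ((r : ℤ) + 1) * (B2 - B2)) -
          ((L : ℤ) * A1 + ((r : ℤ) + 1) * (A1 - 1 - A1) - ((L : ℤ) * A1 + (r : ℤ) * (A1 - 1 - A1))) - 1) = 2 * (L * B2 + 0) by ring,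
          Int.mul_ediv_cancel_left _ (by norm_num : (2 : ℤ) ≠ 0), ediv_eq hLz rfl le_rfl hLz]
        omega
  · obtain ⟨rfl, rfl⟩ := ha
    obtain ⟨rfl, rfl⟩ := hb
    subst h1 h2
    refine ⟨?_, ?_, ?_⟩
    · right; right; left; constructor <;> simp only <;> ring
    · simp only [lc]
      ext
      · simp only
        rw [show ((L : ℤ) * B1 + (r : ℤ) * (B1 - B1) + ((L : ℤ) * B1 + ((r : ℤ) + 1) * (B1 - B1)) -
          ((L : ℤ) * A2 + ((r : ℤ) + 1) * (A2 + 1 - A2) - ((L : ℤ) * A2 + (r : ℤ) * (A2 + 1 - A2))) - 1) = 2 * (L * (B1 - 1) + (L - 1)) by ring,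
          Int.mul_ediv_cancel_left _ (by norm_num : (2 : ℤ) ≠ 0), ediv_eq hLz rfl (by omega) (by omega)]
        omega
      · simp only
        rw [show ((L : ℤ) * A2 + (r : ℤ) * (A2 + 1 - A2) + ((L : ℤ) * A2 + ((r : ℤ) + 1) * (A2 + 1 - A2)) +
          ((L : ℤ) * B1 + ((r : ℤ) + 1) * (B1 - B1) - ((L : ℤ) * B1 + (r : ℤ) * (B1 - B1))) - 1) = 2 * (L * A2 + r) by ring,
          Int.mul_ediv_cancel_left _ (by norm_num : (2 : ℤ) ≠ 0), ediv_eq hLz rfl hr0 hrz]
        omega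
    · simp only [rc]
      ext
      · simp only
        rw [show ((L : ℤ) * B1 + (r : ℤ) * (B1 - B1) + ((L : ℤ) * B1 + ((r : ℤ) + 1) * (B1 - B1)) +
          ((L : ℤ) * A2 + ((r : ℤ) + 1) * (A2 + 1 - A2) - ((L : ℤ) * A2 + (r : ℤ) * (A2 + 1 - A2))) - 1) = 2 * (L * B1 + 0) by ring,
          Int.mul_ediv_cancel_left _ (by norm_num : (2 : ℤ) ≠ 0), ediv_eq hLz rfl le_rfl hLz]
        omega
      · simp only
        rw [show ((L : ℤ) * A2 + (r : ℤ) * (A2 + 1 - A2) + ((L : ℤ) * A2 + ((r : ℤ) + 1) * (A2 + 1 - A2)) -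
          ((L : ℤ) * B1 + ((r : ℤ) + 1) * (B1 - B1) - ((L : ℤ) * B1 + (r : ℤ) * (B1 - B1))) - 1) = 2 * (L * A2 + r) by ring,
          Int.mul_ediv_cancel_left _ (by norm_num : (2 : ℤ) ≠ 0), ediv_eq hLz rfl hr0 hrz]
        omega
  · obtain ⟨rfl, rfl⟩ := ha
    obtain ⟨rfl, rfl⟩ := hb
    subst h1 h2
    refine ⟨?_, ?_, ?_⟩
    · right; right; right; constructor <;> simp only <;> ring
    · simp only [lc]
      ext
      · simp only
        rw [show ((L : ℤ) * B1 + (r : ℤ) * (B1 - B1) + ((L : ℤ) * B1 + ((r : ℤ) + 1) * (B1 - B1)) -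
          ((L : ℤ) * A2 + ((r : ℤ) + 1) * (A2 - 1 - A2) - ((L : ℤ) * A2 + (r : ℤ) * (A2 - 1 - A2))) - 1) = 2 * (L * B1 + 0) by ring,
          Int.mul_ediv_cancel_left _ (by norm_num : (2 : ℤ) ≠ 0), ediv_eq hLz rfl le_rfl hLz]
        omega
      · simp only
        rw [show ((L : ℤ) * A2 + (r : ℤ) * (A2 - 1 - A2) + ((L : ℤ) * A2 + ((r : ℤ) + 1) * (A2 - 1 - A2)) +
          ((L : ℤ) * B1 + ((r : ℤ) + 1) * (B1 - B1) - ((L : ℤ) * B1 + (r : ℤ) * (B1 - B1))) - 1) = 2 * (L * (A2 - 1) + (L - 1 - r)) by ring,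
          Int.mul_ediv_cancel_left _ (by norm_num : (2 : ℤ) ≠ 0), ediv_eq hLz rfl (by omega) (by omega)]
        omega
    · simp only [rc]
      ext
      · simp only
        rw [show ((L : ℤ) * B1 + (r : ℤ) * (B1 - B1) + ((L : ℤ) * B1 + ((r : ℤ) + 1) * (B1 - B1)) +
          ((L : ℤ) * A2 + ((r : ℤ) + 1) * (A2 - 1 - A2) - ((L : ℤ) * A2 + (r : ℤ) * (A2 - 1 - A2))) - 1) = 2 * (L * (B1 - 1) + (L - 1)) by ring,
          Int.mul_ediv_cancel_left _ (by norm_num : (2 : ℤ) ≠ 0), ediv_eq hLz rfl (by omega) (by omega)]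
        omega
      · simp only
        rw [show ((L : ℤ) * A2 + (r : ℤ) * (A2 - 1 - A2) + ((L : ℤ) * A2 + ((r : ℤ) + 1) * (A2 - 1 - A2)) -
          ((L : ℤ) * B1 + ((r : ℤ) + 1) * (B1 - B1) - ((L : ℤ) * B1 + (r : ℤ) * (B1 - B1))) - 1) = 2 * (L * (A2 - 1) + (L - 1 - r)) by ring,
          Int.mul_ediv_cancel_left _ (by norm_num : (2 : ℤ) ≠ 0), ediv_eq hLz rfl (by omega) (by omega)]
        omega


/-- decomposition of a step of the subdivided walk -/
theorem sv_cells {F : Set V} {N L : ℕ} {v : ℕ → V} (h : Cyc F N v) (hL : 0 < L) {k r : ℕ} (hr : r < L) :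
    Adj (sv L v (k * L + r)) (sv L v (k * L + r + 1)) ∧
      ((lc (sv L v (k * L + r)) (sv L v (k * L + r + 1))).1 / (L : ℤ),
        (lc (sv L v (k * L + r)) (sv L v (k * L + r + 1))).2 / (L : ℤ)) = lc (v k) (v (k + 1)) ∧
      ((rc (sv L v (k * L + r)) (sv L v (k * L + r + 1))).1 / (L : ℤ),
        (rc (sv L v (k * L + r)) (sv L v (k * L + r + 1))).2 / (L : ℤ)) = rc (v k) (v (k + 1)) :=
  cells_scale hL (h.step k) hr _ _ (sv_mk hr) (sv_mk_succ hr)

theorem adj_rev {a b : V} (h : Adj a b) : lc b a = rc a b ∧ rc b a = lc a b := by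
  unfold Adj at h
  unfold lc rc
  constructor <;> ext <;> simp only <;> omega

/-- two points on two subdivided steps -/
theorem pts {F : Set V} {N L : ℕ} {v : ℕ → V} (h : Cyc F N v) {i j r s : ℕ} (hi : i < N)
    (hj : j < N) (hr : r < L) (hs : s < L)
    (h1 : ((L : ℤ) * (v i).1 + (r : ℤ) * ((v (i + 1)).1 - (v i).1),
     (L : ℤ) * (v i).2 + (r : ℤ) * ((v (i + 1)).2 - (v i).2)) =
     ((L : ℤ) * (v j).1 + (s : ℤ) * ((v (j + 1)).1 - (v j).1),
     (L : ℤ) * (v j).2 + (s : ℤ) * ((v (j + 1)).2 - (v j).2))) : i = j ∧ r = s := by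
  have hrz : (r : ℤ) < L := by exact_mod_cast hr
  have hsz : (s : ℤ) < L := by exact_mod_cast hs
  have hr0 : (0 : ℤ) ≤ r := Int.natCast_nonneg r
  have hs0 : (0 : ℤ) ≤ s := Int.natCast_nonneg s
  have hLz : (0 : ℤ) < L := by omega
  simp only [Prod.mk.injEq] at h1
  obtain ⟨e1, e2⟩ := h1
  -- residues of both coordinates mod L
  have key : ∀ A B C D x y : ℤ, (B = A + 1 ∨ B = A - 1 ∨ B = A) → (D = C + 1 ∨ D = C - 1 ∨ D = C) →
      0 ≤ x → x < L → 0 ≤ y → y < L → (L : ℤ) * A + x * (B - A) = L * C + y * (D - C) →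
      (B = A ∧ D = C ∧ A = C) ∨ (B = A ∧ y = 0 ∧ A = C) ∨ (D = C ∧ x = 0 ∧ A = C) ∨
      (x = 0 ∧ y = 0 ∧ A = C) ∨ (B - A = D - C ∧ x = y ∧ A = C) ∨
      (B - A = -(D - C) ∧ x + y = L ∧ A = D ∧ B = C) := by
    intro A B C D x y hB hD hx hx' hy hy' he
    have e : (L : ℤ) * (A - C) = y * (D - C) - x * (B - A) := by linarith
    obtain ⟨β, hβ⟩ : ∃ β, B - A = β := ⟨_, rfl⟩
    obtain ⟨γ, hγ⟩ : ∃ γ, D - C = γ := ⟨_, rfl⟩
    obtain ⟨κ, hκ⟩ : ∃ κ, A - C = κ := ⟨_, rfl⟩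
    rw [hβ, hγ, hκ] at e
    have b1 : β = 1 ∨ β = -1 ∨ β = 0 := by omega
    have c1 : γ = 1 ∨ γ = -1 ∨ γ = 0 := by omega
    have e2 : (L : ℤ) * κ < L * 2 ∧ (L : ℤ) * (-2) < L * κ := by
      rw [e]
      rcases b1 with h | h | h <;> rcases c1 with h' | h' | h' <;> rw [h, h'] <;> constructor <;>
        linarith
    have k1 : κ < 2 := lt_of_mul_lt_mul_left e2.1 hLz.le
    have k2 : -2 < κ := lt_of_mul_lt_mul_left e2.2 hLz.le
    have k3 : κ = 1 ∨ κ = -1 ∨ κ = 0 := by omega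
    rcases b1 with rfl | rfl | rfl <;> rcases c1 with rfl | rfl | rfl <;>
      rcases k3 with rfl | rfl | rfl <;> omega
  have fin : v i = v j → i = j := h.inj i hi j hj
  have hA := h.step i
  have hB := h.step j
  have c1 : (v (i + 1)).1 = (v i).1 + 1 ∨ (v (i + 1)).1 = (v i).1 - 1 ∨ (v (i + 1)).1 = (v i).1 := by
    unfold Adj at hA; omega
  have c2 : (v (i + 1)).2 = (v i).2 + 1 ∨ (v (i + 1)).2 = (v i).2 - 1 ∨ (v (i + 1)).2 = (v i).2 := by
    unfold Adj at hA; omega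
  have d1 : (v (j + 1)).1 = (v j).1 + 1 ∨ (v (j + 1)).1 = (v j).1 - 1 ∨ (v (j + 1)).1 = (v j).1 := by
    unfold Adj at hB; omega
  have d2 : (v (j + 1)).2 = (v j).2 + 1 ∨ (v (j + 1)).2 = (v j).2 - 1 ∨ (v (j + 1)).2 = (v j).2 := by
    unfold Adj at hB; omega
  have k1 := key _ _ _ _ _ _ c1 d1 hr0 hrz hs0 hsz e1
  have k2 := key _ _ _ _ _ _ c2 d2 hr0 hrz hs0 hsz e2
  -- reversed step is impossible
  have norev : ¬ (v i = v (j + 1) ∧ v (i + 1) = v j) := by
    rintro ⟨h3, h4⟩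
    have h5 := h.left i
    have h6 := h.right j
    rw [h3, h4, (adj_rev hB).1] at h5
    exact h6 h5
  have e3 : v i = v j ∧ (r : ℤ) = s := by
    rw [Prod.ext_iff] at norev
    rw [Prod.ext_iff] at norev
    rw [Prod.ext_iff]
    unfold Adj at hA hB
    omega
  exact ⟨fin e3.1, by exact_mod_cast e3.2⟩

/-- **subdivision of a boundary walk** -/
theorem scale {F : Set V} {N L : ℕ} {v : ℕ → V} (h : Cyc F N v) (hL : 0 < L) :
    Cyc (sc F L) (N * L) (sv L v) where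
  four_le := le_trans h.four_le (Nat.le_mul_of_pos_right N hL)
  per := by
    intro i
    obtain ⟨k, r, hr, rfl⟩ := idx hL i
    have h1 : k * L + r + N * L = (k + N) * L + r := by ring
    rw [h1, sv_mk hr, sv_mk hr, h.per k, show k + N + 1 = k + 1 + N by ring, h.per (k + 1)]
  inj := by
    intro i hi j hj hij
    obtain ⟨k, r, hr, rfl⟩ := idx hL i
    obtain ⟨l, s, hs, rfl⟩ := idx hL j
    have hk : k < N := by
      by_contra hc
      push Not at hc
      have := Nat.mul_le_mul_right L hc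
      omega
    have hl : l < N := by
      by_contra hc
      push Not at hc
      have := Nat.mul_le_mul_right L hc
      omega
    rw [sv_mk hr, sv_mk hs] at hij
    obtain ⟨h1, h2⟩ := pts h hk hl hr hs hij
    rw [h1, h2]
  step := by
    intro i
    obtain ⟨k, r, hr, rfl⟩ := idx hL i
    exact (sv_cells h hL hr).1
  left := by
    intro i
    obtain ⟨k, r, hr, rfl⟩ := idx hL i
    rw [mem_sc, (sv_cells h hL hr).2.1]
    exact h.left k
  right := by
    intro i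
    obtain ⟨k, r, hr, rfl⟩ := idx hL i
    rw [mem_sc, (sv_cells h hL hr).2.2]
    exact h.right k
  all := by
    intro a b hab hl hr
    rw [mem_sc] at hl hr
    have hLz : (0 : ℤ) < L := by exact_mod_cast hL
    obtain ⟨a1, a2⟩ := a
    obtain ⟨b1, b2⟩ := b
    have hab' := hab
    unfold Adj at hab
    simp only at hab
    -- the macro step
    suffices H : ∃ A B : V, ∃ r : ℕ, Adj A B ∧ r < L ∧
        (a1, a2) = ((L : ℤ) * A.1 + (r : ℤ) * (B.1 - A.1), (L : ℤ) * A.2 + (r : ℤ) * (B.2 - A.2)) ∧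
        (b1, b2) = ((L : ℤ) * A.1 + ((r : ℤ) + 1) * (B.1 - A.1),
          (L : ℤ) * A.2 + ((r : ℤ) + 1) * (B.2 - A.2)) by
      obtain ⟨A, B, r, hAB, hr', ha, hb⟩ := H
      have h1 := cells_scale hL hAB hr' _ _ ha hb
      rw [h1.2.1] at hl
      rw [h1.2.2] at hr
      obtain ⟨i, hi, h2, h3⟩ := h.all A B hAB hl hr
      refine ⟨i * L + r, ?_, ?_, ?_⟩
      · calc i * L + r < i * L + L := by omega
          _ = (i + 1) * L := by ring
          _ ≤ N * L := Nat.mul_le_mul_right L hi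
      · rw [sv_mk hr', h2, h3]; exact ha.symm
      · rw [sv_mk_succ hr', h2, h3]; exact hb.symm
    rcases hab with ⟨rfl, rfl⟩ | ⟨rfl, rfl⟩ | ⟨rfl, rfl⟩ | ⟨rfl, rfl⟩
    · -- east
      have e1 : lc (a1, b2) (a1 + 1, b2) = (a1, b2) := by simp only [lc]; ext <;> simp only <;> omega
      have e2 : rc (a1, b2) (a1 + 1, b2) = (a1, b2 - 1) := by simp only [rc]; ext <;> simp only <;> omega
      rw [e1] at hl
      rw [e2] at hr
      have h3 : b2 / (L : ℤ) ≠ (b2 - 1) / (L : ℤ) := by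
        intro h4
        apply hr
        simp only at hl ⊢
        rwa [← h4]
      have h4 : b2 = L * (b2 / L) := by
        have := Int.mul_ediv_add_emod b2 L
        by_contra h5
        apply h3
        symm
        have h6 : 0 ≤ b2 % (L : ℤ) := Int.emod_nonneg _ hLz.ne'
        have h7 : b2 % (L : ℤ) < L := Int.emod_lt_of_pos _ hLz
        refine ediv_eq hLz (r := b2 % L - 1) (by linarith) ?_ (by omega)
        by_contra h8
        exact h5 (by linarith [show b2 % (L : ℤ) = 0 by omega])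
      have h6 : 0 ≤ a1 % (L : ℤ) := Int.emod_nonneg _ hLz.ne'
      have h7 : a1 % (L : ℤ) < L := Int.emod_lt_of_pos _ hLz
      have h8 := Int.mul_ediv_add_emod a1 L
      have h9 : ((a1 % (L : ℤ)).toNat : ℤ) = a1 % L := Int.toNat_of_nonneg h6
      refine ⟨(a1 / L, b2 / L), (a1 / L + 1, b2 / L), (a1 % (L : ℤ)).toNat, by unfold Adj; simp,
        by omega, ?_, ?_⟩
      · rw [h9]; ext <;> simp only <;> linarith
      · rw [h9]; ext <;> simp only <;> linarith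
    · -- west
      have e1 : lc (a1, b2) (a1 - 1, b2) = (a1 - 1, b2 - 1) := by
        simp only [lc]; ext <;> simp only <;> omega
      have e2 : rc (a1, b2) (a1 - 1, b2) = (a1 - 1, b2) := by
        simp only [rc]; ext <;> simp only <;> omega
      rw [e1] at hl
      rw [e2] at hr
      have h3 : b2 / (L : ℤ) ≠ (b2 - 1) / (L : ℤ) := by
        intro h4
        apply hr
        simp only at hl ⊢
        rwa [h4]
      have h4 : b2 = L * (b2 / L) := by
        have := Int.mul_ediv_add_emod b2 L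
        by_contra h5
        apply h3
        symm
        have h6 : 0 ≤ b2 % (L : ℤ) := Int.emod_nonneg _ hLz.ne'
        have h7 : b2 % (L : ℤ) < L := Int.emod_lt_of_pos _ hLz
        refine ediv_eq hLz (r := b2 % L - 1) (by linarith) ?_ (by omega)
        by_contra h8
        exact h5 (by linarith [show b2 % (L : ℤ) = 0 by omega])
      have h6 : 0 ≤ (a1 - 1) % (L : ℤ) := Int.emod_nonneg _ hLz.ne'
      have h7 : (a1 - 1) % (L : ℤ) < L := Int.emod_lt_of_pos _ hLz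
      have h8 := Int.mul_ediv_add_emod (a1 - 1) L
      have h9 : ((L - 1 - (a1 - 1) % (L : ℤ)).toNat : ℤ) = L - 1 - (a1 - 1) % (L : ℤ) :=
        Int.toNat_of_nonneg (by omega)
      refine ⟨((a1 - 1) / L + 1, b2 / L), ((a1 - 1) / L, b2 / L), (L - 1 - (a1 - 1) % (L : ℤ)).toNat,
        by unfold Adj; simp, by omega, ?_, ?_⟩
      · rw [h9]; ext <;> simp only <;> linarith
      · rw [h9]; ext <;> simp only <;> linarith
    · -- north
      have e1 : lc (b1, a2) (b1, a2 + 1) = (b1 - 1, a2) := by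
        simp only [lc]; ext <;> simp only <;> omega
      have e2 : rc (b1, a2) (b1, a2 + 1) = (b1, a2) := by
        simp only [rc]; ext <;> simp only <;> omega
      rw [e1] at hl
      rw [e2] at hr
      have h3 : b1 / (L : ℤ) ≠ (b1 - 1) / (L : ℤ) := by
        intro h4
        apply hr
        simp only at hl ⊢
        rwa [h4]
      have h4 : b1 = L * (b1 / L) := by
        have := Int.mul_ediv_add_emod b1 L
        by_contra h5
        apply h3
        symm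
        have h6 : 0 ≤ b1 % (L : ℤ) := Int.emod_nonneg _ hLz.ne'
        have h7 : b1 % (L : ℤ) < L := Int.emod_lt_of_pos _ hLz
        refine ediv_eq hLz (r := b1 % L - 1) (by linarith) ?_ (by omega)
        by_contra h8
        exact h5 (by linarith [show b1 % (L : ℤ) = 0 by omega])
      have h6 : 0 ≤ a2 % (L : ℤ) := Int.emod_nonneg _ hLz.ne'
      have h7 : a2 % (L : ℤ) < L := Int.emod_lt_of_pos _ hLz
      have h8 := Int.mul_ediv_add_emod a2 L
      have h9 : ((a2 % (L : ℤ)).toNat : ℤ) = a2 % L := Int.toNat_of_nonneg h6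
      refine ⟨(b1 / L, a2 / L), (b1 / L, a2 / L + 1), (a2 % (L : ℤ)).toNat, by unfold Adj; simp,
        by omega, ?_, ?_⟩
      · rw [h9]; ext <;> simp only <;> linarith
      · rw [h9]; ext <;> simp only <;> linarith
    · -- south
      have e1 : lc (b1, a2) (b1, a2 - 1) = (b1, a2 - 1) := by
        simp only [lc]; ext <;> simp only <;> omega
      have e2 : rc (b1, a2) (b1, a2 - 1) = (b1 - 1, a2 - 1) := by
        simp only [rc]; ext <;> simp only <;> omega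
      rw [e1] at hl
      rw [e2] at hr
      have h3 : b1 / (L : ℤ) ≠ (b1 - 1) / (L : ℤ) := by
        intro h4
        apply hr
        simp only at hl ⊢
        rwa [← h4]
      have h4 : b1 = L * (b1 / L) := by
        have := Int.mul_ediv_add_emod b1 L
        by_contra h5
        apply h3
        symm
        have h6 : 0 ≤ b1 % (L : ℤ) := Int.emod_nonneg _ hLz.ne'
        have h7 : b1 % (L : ℤ) < L := Int.emod_lt_of_pos _ hLz
        refine ediv_eq hLz (r := b1 % L - 1) (by linarith) ?_ (by omega)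
        by_contra h8
        exact h5 (by linarith [show b1 % (L : ℤ) = 0 by omega])
      have h6 : 0 ≤ (a2 - 1) % (L : ℤ) := Int.emod_nonneg _ hLz.ne'
      have h7 : (a2 - 1) % (L : ℤ) < L := Int.emod_lt_of_pos _ hLz
      have h8 := Int.mul_ediv_add_emod (a2 - 1) L
      have h9 : ((L - 1 - (a2 - 1) % (L : ℤ)).toNat : ℤ) = L - 1 - (a2 - 1) % (L : ℤ) :=
        Int.toNat_of_nonneg (by omega)
      refine ⟨(b1 / L, (a2 - 1) / L + 1), (b1 / L, (a2 - 1) / L), (L - 1 - (a2 - 1) % (L : ℤ)).toNat,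
        by unfold Adj; simp, by omega, ?_, ?_⟩
      · rw [h9]; ext <;> simp only <;> linarith
      · rw [h9]; ext <;> simp only <;> linarith

end Crest.Agent.R158.Bl802
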