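import Mathlib

/-!
# R158, block XR (helper249), file Xr2: words of boundary moves on cyclic lists of ports

Ports of tiles `T`: `Port T = Option (T × ZMod 4)`, sides `W = 0, N = 1, E = 2, S = 3` (clockwise),
`none` = the leg.  `Wd b c A G`: the region with tiles `A` (`none ∈ A`: the leg is present) and glued
pairs `G` is built by a word of moves, `c` = its boundary ports in clockwise cyclic order.

* `Wd b` : the words from the base `b` (`some t` = a tile, `none` = the leg), moves `att`, `con`
* `Nx G p q` : `q` is the next boundary port after `p` (walk around the gap face)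
* `Wd.inv` : the invariants of a word (`Nodup`, the boundary, the cyclic order is `Nx`)
* `St`, `St.add_one`, `St.add_two` : adding one tile glued along one / two consecutive sides
-/

set_option autoImplicit false
set_option linter.unusedVariables false

namespace Crest.Agent.R158.Xr249

/-- ports; `none` = the leg -/
abbrev Port (T : Type*) := Option (T × ZMod 4)

section

variable {T : Type*}

/-- next side of the same tile, clockwise -/
def rot (p : Port T) : Port T := p.map fun q => (q.1, q.2 + 1)

/-- the tile of a port -/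
def tl (p : Port T) : Option T := p.map Prod.fst

@[simp] lemma rot_some (t : T) (d : ZMod 4) : rot (some (t, d)) = some (t, d + 1) := rfl
@[simp] lemma rot_none : rot (none : Port T) = none := rfl
@[simp] lemma tl_some (q : T × ZMod 4) : tl (some q) = some q.1 := rfl
@[simp] lemma tl_none : tl (none : Port T) = none := rfl

/-- adding one glued pair -/
def addP (G : Port T → Port T → Prop) (p q : Port T) : Port T → Port T → Prop :=
  fun a b => G a b ∨ (a = p ∧ b = q) ∨ (a = q ∧ b = p)

/-- the boundary list of the base: a tile or the leg -/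
def baseL : Option T → List (Port T)
  | some t => [some (t, 0), some (t, 1), some (t, 2), some (t, 3)]
  | none => [none]

/-- words of boundary moves from the base `b` -/
inductive Wd (b : Option T) : Cycle (Port T) → Set (Option T) → (Port T → Port T → Prop) → Prop
  | base : Wd b ((baseL b : List (Port T)) : Cycle (Port T)) {b} (fun _ _ => False)
  | att {p : Port T} {l : List (Port T)} {A : Set (Option T)} {G : Port T → Port T → Prop} (t : T)
      (d : ZMod 4) : Wd b ((p :: l : List (Port T)) : Cycle (Port T)) A G → some t ∉ A →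
      Wd b ((some (t, d + 1) :: some (t, d + 2) :: some (t, d + 3) :: l : List (Port T)) : Cycle (Port T))
        (insert (some t) A) (addP G p (some (t, d)))
  | con {p q : Port T} {l : List (Port T)} {A : Set (Option T)} {G : Port T → Port T → Prop} :
      Wd b ((p :: q :: l : List (Port T)) : Cycle (Port T)) A G →
      Wd b ((l : List (Port T)) : Cycle (Port T)) A (addP G p q)

/-- `q` is the next boundary port after `p`, clockwise around the gap face -/
inductive Nx (G : Port T → Port T → Prop) : Port T → Port T → Prop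
  | stop {p : Port T} : (∀ q, ¬ G (rot p) q) → Nx G p (rot p)
  | go {p q r : Port T} : G (rot p) q → Nx G q r → Nx G p r

lemma Nx.isEnd {G : Port T → Port T → Prop} {p r : Port T} (h : Nx G p r) : ∀ q, ¬ G r q := by
  induction h with
  | stop h => exact h
  | go _ _ ih => exact ih

lemma Nx.det {G : Port T → Port T → Prop} (hG : ∀ a b c, G a b → G a c → b = c) {p r r' : Port T}
    (h : Nx G p r) (h' : Nx G p r') : r = r' := by
  induction h generalizing r' with
  | stop h =>
    cases h' with
    | stop _ => rfl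
    | go h1 _ => exact absurd h1 (h _)
  | go h1 h2 ih =>
    cases h' with
    | stop h3 => exact absurd h1 (h3 _)
    | go h3 h4 =>
      rw [hG _ _ _ h1 h3] at ih
      exact ih h4

lemma Nx.add {G : Port T → Port T → Prop} {p0 q0 u w : Port T} (h : Nx G u w) (h1 : w ≠ p0)
    (h2 : w ≠ q0) : Nx (addP G p0 q0) u w := by
  induction h with
  | stop h =>
    refine .stop fun q hq => ?_
    rcases hq with hq | ⟨hq, _⟩ | ⟨hq, _⟩
    · exact h _ hq
    · exact h1 hq
    · exact h2 hq
  | go h3 _ ih => exact .go (Or.inl h3) (ih h1 h2)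

lemma Nx.add_left {G : Port T → Port T → Prop} {p0 q0 u w : Port T} (h : Nx G u p0)
    (h1 : Nx (addP G p0 q0) q0 w) : Nx (addP G p0 q0) u w := by
  generalize hx : p0 = x at h
  induction h with
  | stop h =>
    subst hx
    exact .go (Or.inr (Or.inl ⟨rfl, rfl⟩)) h1
  | go h3 _ ih => exact .go (Or.inl h3) (ih hx)

lemma Nx.add_right {G : Port T → Port T → Prop} {p0 q0 u w : Port T} (h : Nx G u q0)
    (h1 : Nx (addP G p0 q0) p0 w) : Nx (addP G p0 q0) u w := by
  generalize hx : q0 = x at h
  induction h with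
  | stop h =>
    subst hx
    exact .go (Or.inr (Or.inr ⟨rfl, rfl⟩)) h1
  | go h3 _ ih => exact .go (Or.inl h3) (ih hx)

/-- change of the relation and of the last element of a chain -/
lemma chain_last {α : Type*} {R R' : α → α → Prop} {p a : α} : ∀ {l : List α},
    List.IsChain R (l ++ [p]) → (∀ u ∈ l, ∀ w ∈ l, R u w → R' u w) → (∀ u ∈ l, R u p → R' u a) →
    List.IsChain R' (l ++ [a]) := by
  intro l
  induction l with
  | nil => intro _ _ _; simp
  | cons x l ih =>
    intro h h1 h2
    cases l with
    | nil =>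
      simp only [List.cons_append, List.nil_append, List.isChain_cons_cons, List.isChain_singleton,
        and_true] at h ⊢
      exact h2 x (by simp) h
    | cons y m =>
      rw [List.cons_append, List.cons_append, List.isChain_cons_cons] at h ⊢
      refine ⟨h1 x (by simp) y (by simp) h.1, ?_⟩
      have := ih h.2 (fun u hu w hw => h1 u (by simp [hu]) w (by simp [hw]))
        (fun u hu => h2 u (by simp [hu]))
      simpa using this

/-- the invariants of a word -/
structure Inv (c : Cycle (Port T)) (A : Set (Option T)) (G : Port T → Port T → Prop) : Prop where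
  nd : c.Nodup
  mem : ∀ p, p ∈ c ↔ tl p ∈ A ∧ ∀ q, ¬ G p q
  sym : ∀ a b, G a b → G b a
  fn : ∀ a b b', G a b → G a b' → b = b'
  inA : ∀ a b, G a b → tl a ∈ A
  chain : c.Chain (Nx G)

lemma z4 (d : ZMod 4) : d + 1 ≠ d ∧ d + 2 ≠ d ∧ d + 3 ≠ d ∧ d + 1 ≠ d + 2 ∧ d + 1 ≠ d + 3 ∧
    d + 2 ≠ d + 3 ∧ d + 3 + 1 = d ∧ d + 1 + 1 = d + 2 ∧ d + 2 + 1 = d + 3 := by
  revert d; decide

lemma z4_cases (d e : ZMod 4) : e = d ∨ e = d + 1 ∨ e = d + 2 ∨ e = d + 3 := by
  revert d e; decide

theorem Wd.inv {b : Option T} {c : Cycle (Port T)} {A : Set (Option T)}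
    {G : Port T → Port T → Prop} (h : Wd b c A G) : Inv c A G := by
  induction h with
  | base =>
   rcases b with - | t
   · refine ⟨by rw [Cycle.nodup_coe_iff]; simp [baseL], ?_, fun _ _ h => h.elim,
        fun _ _ _ h => h.elim, fun _ _ h => h.elim, ?_⟩
     · intro p
       rw [Cycle.mem_coe_iff]
       rcases p with - | q
       · simp [baseL]
       · simp [baseL]
     · exact (Cycle.chain_singleton _ _).2 (.stop fun _ h => h)
   ·
    refine ⟨?_, ?_, fun _ _ h => h.elim, fun _ _ _ h => h.elim, fun _ _ h => h.elim, ?_⟩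
    · rw [Cycle.nodup_coe_iff]
      simp only [baseL, List.nodup_cons, List.mem_cons, Option.some.injEq, Prod.mk.injEq, true_and,
        List.not_mem_nil, or_false, not_false_eq_true, List.nodup_nil, and_true]
      decide
    · intro p
      rw [Cycle.mem_coe_iff]
      constructor
      · intro hp
        simp only [baseL, List.mem_cons, List.not_mem_nil, or_false] at hp
        rcases hp with rfl | rfl | rfl | rfl <;> exact ⟨rfl, fun _ h => h⟩
      · rintro ⟨hp, -⟩
        rcases p with - | ⟨t', e⟩
        · simp at hp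
        · simp only [tl_some, Set.mem_singleton_iff, Option.some.injEq] at hp
          subst hp
          have : e = 0 ∨ e = 1 ∨ e = 2 ∨ e = 3 := by revert e; decide
          rcases this with rfl | rfl | rfl | rfl <;> simp [baseL]
    · simp only [baseL]
      rw [Cycle.chain_coe_cons]
      have e : ∀ (d : ZMod 4), Nx (fun _ _ : Port T => False) (some (t, d)) (some (t, d + 1)) :=
        fun d => .stop fun _ h => h
      simp only [List.cons_append, List.nil_append, List.isChain_cons_cons, List.isChain_singleton,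
        and_true]
      exact ⟨e 0, e 1, e 2, e 3⟩
  | @att p l A G t d h1 h2 ih =>
    obtain ⟨hnd, hmem, hsym, hfn, hA, hch⟩ := ih
    rw [Cycle.nodup_coe_iff] at hnd
    rw [Cycle.chain_coe_cons] at hch
    simp only [Cycle.mem_coe_iff] at hmem
    have hp := (hmem p).1 (by simp)
    have hnew : ∀ e, some (t, e) ∉ (p :: l) := fun e he => h2 ((hmem _).1 he).1
    have hnp : ∀ e, (some (t, e) : Port T) ≠ p := fun e he => hnew e (by simp [he])
    have hnl : ∀ e, some (t, e) ∉ l := fun e he => hnew e (by simp [he])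
    have hnG : ∀ e b, ¬ G (some (t, e)) b := fun e b hb => h2 (hA _ _ hb)
    have hnG' : ∀ e b, ¬ G b (some (t, e)) := fun e b hb => hnG e b (hsym _ _ hb)
    obtain ⟨z1, z2, z3, z4', z5, z6, z7, z8, z9⟩ := z4 d
    have hpl : p ∉ l := (List.nodup_cons.1 hnd).1
    have hend : ∀ e, e ≠ d → ∀ b, ¬ addP G p (some (t, d)) (some (t, e)) b := by
      rintro e he b (hb | ⟨hb, -⟩ | ⟨hb, -⟩)
      · exact hnG _ _ hb
      · exact hnp _ hb
      · exact he (by simpa using hb)
    refine ⟨?_, ?_, ?_, ?_, ?_, ?_⟩
    · rw [Cycle.nodup_coe_iff]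
      refine List.nodup_cons.2 ⟨?_, List.nodup_cons.2 ⟨?_, List.nodup_cons.2 ⟨hnl _, ?_⟩⟩⟩
      · simp only [List.mem_cons, Option.some.injEq, Prod.mk.injEq, true_and, not_or]
        exact ⟨z4', z5, hnl _⟩
      · simp only [List.mem_cons, Option.some.injEq, Prod.mk.injEq, true_and, not_or]
        exact ⟨z6, hnl _⟩
      · exact (List.nodup_cons.1 hnd).2
    · intro q
      rw [Cycle.mem_coe_iff]
      constructor
      · intro hq
        simp only [List.mem_cons] at hq
        rcases hq with rfl | rfl | rfl | hq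
        · exact ⟨Or.inl rfl, hend _ z1⟩
        · exact ⟨Or.inl rfl, hend _ z2⟩
        · exact ⟨Or.inl rfl, hend _ z3⟩
        · have h3 := (hmem q).1 (by simp [hq])
          refine ⟨Or.inr h3.1, ?_⟩
          rintro b (hb | ⟨hb, -⟩ | ⟨hb, -⟩)
          · exact h3.2 _ hb
          · exact hpl (hb ▸ hq)
          · exact hnl _ (hb ▸ hq)
      · rintro ⟨hq1, hq2⟩
        rcases hq1 with hq1 | hq1
        · rcases q with - | ⟨t', e⟩
          · simp at hq1
          · simp only [tl_some, Option.some.injEq] at hq1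
            subst hq1
            rcases z4_cases d e with rfl | rfl | rfl | rfl
            · exact absurd (Or.inr (Or.inr ⟨rfl, rfl⟩)) (hq2 p)
            · simp
            · simp
            · simp
        · have h3 : q ∈ p :: l := (hmem q).2 ⟨hq1, fun b hb => hq2 b (Or.inl hb)⟩
          rcases List.mem_cons.1 h3 with rfl | h3
          · exact absurd (Or.inr (Or.inl ⟨rfl, rfl⟩)) (hq2 (some (t, d)))
          · simp [h3]
    · rintro a b (hab | ⟨rfl, rfl⟩ | ⟨rfl, rfl⟩)
      · exact Or.inl (hsym _ _ hab)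
      · exact Or.inr (Or.inr ⟨rfl, rfl⟩)
      · exact Or.inr (Or.inl ⟨rfl, rfl⟩)
    · rintro a b b' hab hab'
      rcases hab with hab | ⟨ha, hb⟩ | ⟨ha, hb⟩
      · rcases hab' with hab' | ⟨ha', hb'⟩ | ⟨ha', hb'⟩
        · exact hfn _ _ _ hab hab'
        · exact absurd (ha' ▸ hab) (hp.2 _)
        · exact absurd (ha' ▸ hab) (hnG _ _)
      · rcases hab' with hab' | ⟨ha', hb'⟩ | ⟨ha', hb'⟩
        · exact absurd (ha ▸ hab') (hp.2 _)
        · rw [hb, hb']
        · exact absurd (ha'.symm.trans ha) (hnp _)
      · rcases hab' with hab' | ⟨ha', hb'⟩ | ⟨ha', hb'⟩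
        · exact absurd (ha ▸ hab') (hnG _ _)
        · exact absurd (ha.symm.trans ha') (hnp _)
        · rw [hb, hb']
    · rintro a b (hab | ⟨ha, -⟩ | ⟨ha, -⟩)
      · exact Or.inr (hA _ _ hab)
      · rw [ha]; exact Or.inr hp.1
      · rw [ha]; exact Or.inl rfl
    · rw [Cycle.chain_coe_cons]
      have n1 : Nx (addP G p (some (t, d))) (some (t, d)) (some (t, d + 1)) := .stop (hend _ z1)
      have n2 : Nx (addP G p (some (t, d))) (some (t, d + 1)) (some (t, d + 2)) := by
        have := Nx.stop (G := addP G p (some (t, d))) (p := some (t, d + 1))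
          (by rw [rot_some, z8]; exact hend _ z2)
        rwa [rot_some, z8] at this
      have n3 : Nx (addP G p (some (t, d))) (some (t, d + 2)) (some (t, d + 3)) := by
        have := Nx.stop (G := addP G p (some (t, d))) (p := some (t, d + 2))
          (by rw [rot_some, z9]; exact hend _ z3)
        rwa [rot_some, z9] at this
      have hlne : ∀ w ∈ l, w ≠ p ∧ w ≠ some (t, d) := fun w hw =>
        ⟨fun h => hpl (h ▸ hw), fun h => hnl _ (h ▸ hw)⟩
      have hrec : List.IsChain (Nx (addP G p (some (t, d)))) (l ++ [some (t, d + 1)]) := by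
        refine chain_last (R := Nx G) (p := p) ?_ (fun u hu w hw h => h.add (hlne w hw).1 (hlne w hw).2)
          (fun u hu h => h.add_left n1)
        exact (List.isChain_cons.1 hch).2
      have h4 : ∀ w ∈ (l ++ [some (t, d + 1)]).head?, Nx (addP G p (some (t, d))) (some (t, d + 3)) w := by
        intro w hw
        refine .go (q := p) (Or.inr (Or.inr ⟨by rw [rot_some, z7], rfl⟩)) ?_
        cases l with
        | nil =>
          simp only [List.nil_append, List.head?_cons, Option.mem_def, Option.some.injEq] at hw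
          subst hw
          simp only [List.nil_append, List.isChain_cons_cons, List.isChain_singleton, and_true] at hch
          exact hch.add_left n1
        | cons b m =>
          simp only [List.cons_append, List.head?_cons, Option.mem_def, Option.some.injEq] at hw
          subst hw
          simp only [List.cons_append, List.isChain_cons_cons] at hch
          exact hch.1.add (hlne b (by simp)).1 (hlne b (by simp)).2
      simp only [List.cons_append]
      rw [List.isChain_cons_cons, List.isChain_cons_cons, List.isChain_cons]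
      exact ⟨n2, n3, h4, hrec⟩
  | @con p q l A G h1 ih =>
    obtain ⟨hnd, hmem, hsym, hfn, hA, hch⟩ := ih
    rw [Cycle.nodup_coe_iff] at hnd
    rw [Cycle.chain_coe_cons] at hch
    simp only [Cycle.mem_coe_iff] at hmem
    have hp := (hmem p).1 (by simp)
    have hq := (hmem q).1 (by simp)
    have hnd2 := List.nodup_cons.1 hnd
    have hnd3 := List.nodup_cons.1 hnd2.2
    have hpq : p ≠ q := fun h => hnd2.1 (by simp [h])
    have hlne : ∀ w ∈ l, w ≠ p ∧ w ≠ q := fun w hw =>
      ⟨fun h => hnd2.1 (by simp [← h, hw]), fun h => hnd3.1 (h ▸ hw)⟩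
    refine ⟨?_, ?_, ?_, ?_, ?_, ?_⟩
    · rw [Cycle.nodup_coe_iff]; exact hnd3.2
    · intro w
      rw [Cycle.mem_coe_iff]
      constructor
      · intro hw
        have h3 := (hmem w).1 (by simp [hw])
        refine ⟨h3.1, ?_⟩
        rintro b (hb | ⟨hb, -⟩ | ⟨hb, -⟩)
        · exact h3.2 _ hb
        · exact (hlne w hw).1 hb
        · exact (hlne w hw).2 hb
      · rintro ⟨hw1, hw2⟩
        have h3 := (hmem w).2 ⟨hw1, fun b hb => hw2 b (Or.inl hb)⟩
        simp only [List.mem_cons] at h3
        rcases h3 with rfl | rfl | h3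
        · exact absurd (Or.inr (Or.inl ⟨rfl, rfl⟩)) (hw2 q)
        · exact absurd (Or.inr (Or.inr ⟨rfl, rfl⟩)) (hw2 p)
        · exact h3
    · rintro a b (hab | ⟨rfl, rfl⟩ | ⟨rfl, rfl⟩)
      · exact Or.inl (hsym _ _ hab)
      · exact Or.inr (Or.inr ⟨rfl, rfl⟩)
      · exact Or.inr (Or.inl ⟨rfl, rfl⟩)
    · rintro a b b' hab hab'
      rcases hab with hab | ⟨ha, hb⟩ | ⟨ha, hb⟩
      · rcases hab' with hab' | ⟨ha', hb'⟩ | ⟨ha', hb'⟩
        · exact hfn _ _ _ hab hab'
        · exact absurd (ha' ▸ hab) (hp.2 _)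
        · exact absurd (ha' ▸ hab) (hq.2 _)
      · rcases hab' with hab' | ⟨ha', hb'⟩ | ⟨ha', hb'⟩
        · exact absurd (ha ▸ hab') (hp.2 _)
        · rw [hb, hb']
        · exact absurd (ha.symm.trans ha') hpq
      · rcases hab' with hab' | ⟨ha', hb'⟩ | ⟨ha', hb'⟩
        · exact absurd (ha ▸ hab') (hq.2 _)
        · exact absurd (ha'.symm.trans ha) hpq
        · rw [hb, hb']
    · rintro a b (hab | ⟨ha, -⟩ | ⟨ha, -⟩)
      · exact hA _ _ hab
      · rw [ha]; exact hp.1
      · rw [ha]; exact hq.1
    · cases l with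
      | nil => exact Cycle.Chain.nil _
      | cons b m =>
        rw [Cycle.chain_coe_cons]
        simp only [List.cons_append, List.isChain_cons_cons] at hch
        have n1 : Nx (addP G p q) q b := hch.2.1.add (hlne b (by simp)).1 (hlne b (by simp)).2
        have := chain_last (R := Nx G) (R' := Nx (addP G p q)) (p := p) (a := b) (l := b :: m) hch.2.2
          (fun u hu w hw h => h.add (hlne w hw).1 (hlne w hw).2) (fun u hu h => h.add_left n1)
        simpa using this

/-! ### states of a glueing relation -/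

/-- the part of the glueing relation inside `A` -/
def GA (Gl : Port T → Port T → Prop) (A : Set (Option T)) : Port T → Port T → Prop :=
  fun a b => Gl a b ∧ tl a ∈ A ∧ tl b ∈ A

/-- the region `A` with the glueing `Gl` is built by a word -/
def St (b : Option T) (Gl : Port T → Port T → Prop) (A : Set (Option T)) : Prop :=
  ∃ c, Wd b c A (GA Gl A)

/-- a symmetric functional glueing relation without self-glueing of a tile -/
structure Glue (Gl : Port T → Port T → Prop) : Prop where
  sym : ∀ a b, Gl a b → Gl b a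
  fn : ∀ a b b', Gl a b → Gl a b' → b = b'
  irr : ∀ a b, Gl a b → tl a ≠ tl b

variable {b : Option T} {Gl : Port T → Port T → Prop}

lemma exists_cons_of_mem {c : Cycle (Port T)} {p : Port T} (h : p ∈ c) :
    ∃ l : List (Port T), c = ((p :: l : List (Port T)) : Cycle (Port T)) := by
  induction c using Quotient.inductionOn' with
  | h l =>
    have h1 : p ∈ l := h
    obtain ⟨s, t, rfl⟩ := List.append_of_mem h1
    refine ⟨t ++ s, ?_⟩
    change ((s ++ p :: t : List (Port T)) : Cycle (Port T)) = _
    rw [Cycle.coe_eq_coe]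
    have := List.isRotated_append (l := s) (l' := p :: t)
    simpa using this

lemma St.mk' {A : Set (Option T)} {G : Port T → Port T → Prop} {c : Cycle (Port T)} (h : Wd b c A G)
    (hG : ∀ x y, G x y ↔ GA Gl A x y) : St b Gl A := by
  have : G = GA Gl A := by
    funext x y
    exact propext (hG x y)
  exact ⟨c, this ▸ h⟩

lemma St.base (hG : Glue Gl) : St b Gl {b} := by
  refine St.mk' Wd.base fun x y => ⟨False.elim, ?_⟩
  rintro ⟨h1, h2, h3⟩
  exact hG.irr _ _ h1 ((Set.mem_singleton_iff.1 h2).trans (Set.mem_singleton_iff.1 h3).symm)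

/-- adding a tile glued along one side -/
theorem St.add_one (hG : Glue Gl) {A : Set (Option T)} (h : St b Gl A) {t : T} (ht : some t ∉ A)
    (d : ZMod 4) {p : Port T} (hp : Gl (some (t, d)) p) (hpA : tl p ∈ A)
    (ho : ∀ e, e ≠ d → ∀ q, Gl (some (t, e)) q → tl q ∉ A) : St b Gl (insert (some t) A) := by
  obtain ⟨c, hc⟩ := h
  have hi := hc.inv
  have hpc : p ∈ c := by
    refine (hi.mem p).2 ⟨hpA, fun q hq => ?_⟩
    have := hG.fn _ _ _ (hG.sym _ _ hp) hq.1
    subst this
    exact ht hq.2.2
  obtain ⟨l, rfl⟩ := exists_cons_of_mem hpc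
  refine St.mk' (Wd.att t d hc ht) fun a b => ?_
  constructor
  · rintro (h1 | ⟨rfl, rfl⟩ | ⟨rfl, rfl⟩)
    · exact ⟨h1.1, Or.inr h1.2.1, Or.inr h1.2.2⟩
    · exact ⟨hG.sym _ _ hp, Or.inr hpA, Or.inl rfl⟩
    · exact ⟨hp, Or.inl rfl, Or.inr hpA⟩
  · rintro ⟨h1, h2, h3⟩
    have key : ∀ a b, Gl a b → tl a = some t → tl b ∈ A → a = some (t, d) ∧ b = p := by
      intro a b g1 g2 g3
      rcases a with - | ⟨t', e⟩
      · simp at g2
      · simp only [tl_some, Option.some.injEq] at g2
        rw [g2] at g1 ⊢
        by_cases he : e = d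
        · rw [he] at g1 ⊢
          exact ⟨rfl, hG.fn _ _ _ g1 hp⟩
        · exact absurd g3 (ho e he _ g1)
    rcases h2 with h2 | h2
    · rcases h3 with h3 | h3
      · exact absurd (h2.trans h3.symm) (hG.irr _ _ h1)
      · exact Or.inr (Or.inr (key a b h1 h2 h3))
    · rcases h3 with h3 | h3
      · obtain ⟨e1, e2⟩ := key b a (hG.sym _ _ h1) h3 h2
        exact Or.inr (Or.inl ⟨e2, e1⟩)
      · exact Or.inl ⟨h1, h2, h3⟩

/-- adding a tile glued along two consecutive sides -/
theorem St.add_two (hG : Glue Gl) {A : Set (Option T)} (h : St b Gl A) {t : T} (ht : some t ∉ A)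
    (d : ZMod 4) {p0 p1 : Port T} (hp0 : Gl (some (t, d)) p0) (hp1 : Gl (some (t, d + 1)) p1)
    (hp0A : tl p0 ∈ A) (hp1A : tl p1 ∈ A) (hN : Nx (GA Gl A) p1 p0)
    (ho : ∀ e, e ≠ d → e ≠ d + 1 → ∀ q, Gl (some (t, e)) q → tl q ∉ A) :
    St b Gl (insert (some t) A) := by
  obtain ⟨c, hc⟩ := h
  have hi := hc.inv
  obtain ⟨z1, z2, z3, z4', z5, z6, z7, z8, z9⟩ := z4 d
  have hne : p1 ≠ p0 := by
    rintro rfl
    have := hG.fn _ _ _ (hG.sym _ _ hp0) (hG.sym _ _ hp1)
    simp only [Option.some.injEq, Prod.mk.injEq, true_and] at this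
    exact z1 this.symm
  have hpc : p1 ∈ c := by
    refine (hi.mem p1).2 ⟨hp1A, fun q hq => ?_⟩
    have := hG.fn _ _ _ (hG.sym _ _ hp1) hq.1
    subst this
    exact ht hq.2.2
  obtain ⟨l, rfl⟩ := exists_cons_of_mem hpc
  have hch := hi.chain
  rw [Cycle.chain_coe_cons] at hch
  obtain ⟨l', rfl⟩ : ∃ l', l = p0 :: l' := by
    cases l with
    | nil =>
      simp only [List.nil_append, List.isChain_cons_cons, List.isChain_singleton, and_true] at hch
      exact absurd (Nx.det hi.fn hch hN) hne
    | cons b m =>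
      simp only [List.cons_append, List.isChain_cons_cons] at hch
      exact ⟨m, by rw [Nx.det hi.fn hch.1 hN]⟩
  have e1 : ((p1 :: p0 :: l' : List (Port T)) : Cycle (Port T)) =
      ((p0 :: (l' ++ [p1]) : List (Port T)) : Cycle (Port T)) := by
    rw [Cycle.coe_eq_coe]
    have := List.isRotated_append (l := [p1]) (l' := p0 :: l')
    simpa using this
  rw [e1] at hc
  have hc2 := Wd.att t d hc ht
  have e2 : ((some (t, d + 1) :: some (t, d + 2) :: some (t, d + 3) :: (l' ++ [p1]) :
      List (Port T)) : Cycle (Port T)) =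
      ((p1 :: some (t, d + 1) :: some (t, d + 2) :: some (t, d + 3) :: l' : List (Port T)) :
        Cycle (Port T)) := by
    rw [Cycle.coe_eq_coe]
    have := List.isRotated_append (l := some (t, d + 1) :: some (t, d + 2) :: some (t, d + 3) :: l')
      (l' := [p1])
    simpa using this
  rw [e2] at hc2
  refine St.mk' (Wd.con hc2) fun a b => ?_
  constructor
  · rintro ((h1 | ⟨rfl, rfl⟩ | ⟨rfl, rfl⟩) | ⟨rfl, rfl⟩ | ⟨rfl, rfl⟩)
    · exact ⟨h1.1, Or.inr h1.2.1, Or.inr h1.2.2⟩
    · exact ⟨hG.sym _ _ hp0, Or.inr hp0A, Or.inl rfl⟩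
    · exact ⟨hp0, Or.inl rfl, Or.inr hp0A⟩
    · exact ⟨hG.sym _ _ hp1, Or.inr hp1A, Or.inl rfl⟩
    · exact ⟨hp1, Or.inl rfl, Or.inr hp1A⟩
  · rintro ⟨h1, h2, h3⟩
    have key : ∀ a b, Gl a b → tl a = some t → tl b ∈ A →
        (a = some (t, d) ∧ b = p0) ∨ (a = some (t, d + 1) ∧ b = p1) := by
      intro a b g1 g2 g3
      rcases a with - | ⟨t', e⟩
      · simp at g2
      · simp only [tl_some, Option.some.injEq] at g2
        rw [g2] at g1 ⊢
        by_cases he : e = d
        · rw [he] at g1 ⊢
          exact Or.inl ⟨rfl, hG.fn _ _ _ g1 hp0⟩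
        · by_cases he' : e = d + 1
          · rw [he'] at g1 ⊢
            exact Or.inr ⟨rfl, hG.fn _ _ _ g1 hp1⟩
          · exact absurd g3 (ho e he he' _ g1)
    rcases h2 with h2 | h2
    · rcases h3 with h3 | h3
      · exact absurd (h2.trans h3.symm) (hG.irr _ _ h1)
      · rcases key a b h1 h2 h3 with h4 | h4
        · exact Or.inl (Or.inr (Or.inr h4))
        · exact Or.inr (Or.inr h4)
    · rcases h3 with h3 | h3
      · rcases key b a (hG.sym _ _ h1) h3 h2 with ⟨e1, e2⟩ | ⟨e1, e2⟩
        · exact Or.inl (Or.inr (Or.inl ⟨e2, e1⟩))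
        · exact Or.inr (Or.inl ⟨e2, e1⟩)
      · exact Or.inl (Or.inl ⟨h1, h2, h3⟩)

end

end Crest.Agent.R158.Xr249
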