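import Crest.Agent.R158.Bl1_802
import Crest.Agent.R158.Xr2_249
import Crest.Agent.R158.Env_664

/-!
# R158, helper802, file Bl2: the boundary walk as the clockwise list of free ports

* `pt a b` : port of the unit step `a → b` (tile on its left, side crossed by looking outwards)
* `Loc A G b` : around the vertex `b` the glueing `G` is the plain glueing of `A`
* `nx_turn` : consecutive steps of the boundary walk are consecutive free ports (clockwise = backwards)
* `bl w n` : the clockwise list; `bl_nodup`, `mem_bl`, `bl_chain` (closed `Nx` chain)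
-/

set_option autoImplicit false

namespace Crest.Agent.R158.Bl802

open Crest.Agent.R158.Sp896
open Crest.Agent.R158.Xr249 (Nx rot)
open Crest.Agent.R158.Sw300 (Port)
open Crest.Agent.R158.Env664 (PortOf portOf_some nbP nbP_W nbP_N nbP_E nbP_S z4 n10 n20 n30 n21 n31 n32)

/-- the side of the left cell that is crossed when looking over the step `a → b` -/
def dr (a b : V) : ZMod 4 :=
  if b.1 = a.1 + 1 then 3 else if b.1 = a.1 - 1 then 1 else if b.2 = a.2 + 1 then 2 else 0

/-- the port of a step: tile on the left, side -/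
def pt (a b : V) : Port V := some (lc a b, dr a b)

theorem pt_E (x y : ℤ) : pt (x, y) (x + 1, y) = some ((x, y), 3) := by
  have e : lc (x, y) (x + 1, y) = (x, y) := by simp only [lc]; ext <;> simp only <;> omega
  simp only [pt, dr, e, if_true]

theorem pt_W (x y : ℤ) : pt (x, y) (x - 1, y) = some ((x - 1, y - 1), 1) := by
  have e : lc (x, y) (x - 1, y) = (x - 1, y - 1) := by simp only [lc]; ext <;> simp only <;> omega
  have h : ¬ (x - 1 = x + 1) := by omega
  simp only [pt, dr, e, if_true, if_neg h]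

theorem pt_N (x y : ℤ) : pt (x, y) (x, y + 1) = some ((x - 1, y), 2) := by
  have e : lc (x, y) (x, y + 1) = (x - 1, y) := by simp only [lc]; ext <;> simp only <;> omega
  have h : ¬ (x = x + 1) := by omega
  have h' : ¬ (x = x - 1) := by omega
  simp only [pt, dr, e, if_true, if_neg h, if_neg h']

theorem pt_S (x y : ℤ) : pt (x, y) (x, y - 1) = some ((x, y - 1), 0) := by
  have e : lc (x, y) (x, y - 1) = (x, y - 1) := by simp only [lc]; ext <;> simp only <;> omega
  have h : ¬ (x = x + 1) := by omega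
  have h' : ¬ (x = x - 1) := by omega
  have h'' : ¬ (y - 1 = y + 1) := by omega
  simp only [pt, dr, e, if_neg h, if_neg h', if_neg h'']

/-- the side `d` of the tile `t` has the end point `b` -/
def Tch (t : V) (d : ZMod 4) (b : V) : Prop :=
  (d = 0 ∧ b.1 = t.1 ∧ (b.2 = t.2 ∨ b.2 = t.2 + 1)) ∨
  (d = 1 ∧ b.2 = t.2 + 1 ∧ (b.1 = t.1 ∨ b.1 = t.1 + 1)) ∨
  (d = 2 ∧ b.1 = t.1 + 1 ∧ (b.2 = t.2 ∨ b.2 = t.2 + 1)) ∨
  (d = 3 ∧ b.2 = t.2 ∧ (b.1 = t.1 ∨ b.1 = t.1 + 1))

/-- around the vertex `b` the glueing `G` is the plain glueing of `A` -/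
def Loc (A : Set V) (G : Port V → Port V → Prop) (b : V) : Prop :=
  ∀ t ∈ A, ∀ d, Tch t d b → ∀ q, G (some (t, d)) q ↔
    (nbP (some (t, d)) = q ∧ ∀ y ∈ q, y.1 ∈ A)

section
variable {A : Set V} {G : Port V → Port V → Prop} {b : V}

theorem Loc.glue (h : Loc A G b) {t t' : V} {d d' : ZMod 4} (ht : t ∈ A) (hd : Tch t d b)
    (hn : nbP (some (t, d)) = some (t', d')) (ht' : t' ∈ A) : G (some (t, d)) (some (t', d')) :=
  (h t ht d hd _).2 ⟨hn, by intro y hy; simp only [Option.mem_def, Option.some.injEq] at hy; rwa [← hy]⟩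

theorem Loc.free (h : Loc A G b) {t t' : V} {d d' : ZMod 4} (ht : t ∈ A) (hd : Tch t d b)
    (hn : nbP (some (t, d)) = some (t', d')) (ht' : t' ∉ A) (q : Port V) : ¬ G (some (t, d)) q := by
  intro hq
  obtain ⟨h1, h2⟩ := (h t ht d hd q).1 hq
  rw [hn] at h1
  subst h1
  exact ht' (h2 (t', d') rfl)

end

theorem rt (t : V) (d : ZMod 4) : rot (some (t, d) : Port V) = some (t, d + 1) := rfl

theorem e01 : (0 : ZMod 4) + 1 = 1 := by decide
theorem e11 : (1 : ZMod 4) + 1 = 2 := by decide
theorem e21 : (2 : ZMod 4) + 1 = 3 := by decide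
theorem e31 : (3 : ZMod 4) + 1 = 0 := by decide

/-- **turning at a vertex of the boundary walk** -/
theorem nx_turn {A : Set V} {G : Port V → Port V → Prop} {a b c : V} (hG : Loc A G b)
    (hab : Adj a b) (hbc : Adj b c) (l1 : lc a b ∈ A) (r1 : rc a b ∉ A) (l2 : lc b c ∈ A)
    (r2 : rc b c ∉ A) (huniq : ∀ c', Adj b c' → lc b c' ∈ A → rc b c' ∉ A → c' = c) :
    Nx G (pt b c) (pt a b) := by
  obtain ⟨x, y⟩ := b
  obtain ⟨a1, a2⟩ := a
  obtain ⟨c1, c2⟩ := c
  -- cells around the vertex
  have cE : ∀ u v : ℤ, lc (u, v) (u + 1, v) = (u, v) ∧ rc (u, v) (u + 1, v) = (u, v - 1) := by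
    intro u v; constructor <;> simp only [lc, rc] <;> ext <;> simp only <;> omega
  have cW : ∀ u v : ℤ, lc (u, v) (u - 1, v) = (u - 1, v - 1) ∧ rc (u, v) (u - 1, v) = (u - 1, v) := by
    intro u v; constructor <;> simp only [lc, rc] <;> ext <;> simp only <;> omega
  have cN : ∀ u v : ℤ, lc (u, v) (u, v + 1) = (u - 1, v) ∧ rc (u, v) (u, v + 1) = (u, v) := by
    intro u v; constructor <;> simp only [lc, rc] <;> ext <;> simp only <;> omega
  have cS : ∀ u v : ℤ, lc (u, v) (u, v - 1) = (u, v - 1) ∧ rc (u, v) (u, v - 1) = (u - 1, v - 1) := by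
    intro u v; constructor <;> simp only [lc, rc] <;> ext <;> simp only <;> omega
  unfold Adj at hab hbc
  simp only at hab hbc
  rcases hab with ⟨h1, h2⟩ | ⟨h1, h2⟩ | ⟨h1, h2⟩ | ⟨h1, h2⟩
  · -- in East : a = (x-1, y)
    obtain rfl : a1 = x - 1 := by omega
    obtain rfl : a2 = y := h2.symm
    have e := cE (x - 1) a2
    rw [sub_add_cancel] at e
    rw [e.1] at l1; rw [e.2] at r1
    have hp := pt_E (x - 1) a2
    rw [sub_add_cancel] at hp
    rw [hp]
    -- NW ∈ A : l1, SW ∉ A : r1
    rcases hbc with ⟨h3, h4⟩ | ⟨h3, h4⟩ | ⟨h3, h4⟩ | ⟨h3, h4⟩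
    · subst h3 h4
      rw [(cE x c2).1] at l2; rw [(cE x c2).2] at r2
      rw [pt_E x c2]
      refine Nx.go (q := some ((x - 1, c2), 2)) ?_ ?_
      · rw [rt, e31]
        exact hG.glue l2 (by left; simp) (nbP_W x c2) l1
      · have := Nx.stop (G := G) (p := some ((x - 1, c2), 2)) (by
          rw [rt, e21]
          exact hG.free l1 (by right; right; right; simp) (nbP_S (x - 1) c2) r1)
        rwa [rt, e21] at this
    · subst h3 h4
      rw [(cW x c2).1] at l2
      exact absurd l2 r1
    · subst h3 h4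
      rw [(cN c1 a2).1] at l2; rw [(cN c1 a2).2] at r2
      rw [pt_N c1 a2]
      have := Nx.stop (G := G) (p := some ((c1 - 1, a2), 2)) (by
          rw [rt, e21]
          exact hG.free l1 (by right; right; right; simp) (nbP_S (c1 - 1) a2) r1)
      rwa [rt, e21] at this
    · subst h3 h4
      rw [(cS c1 a2).1] at l2; rw [(cS c1 a2).2] at r2
      rw [pt_S c1 a2]
      have hNE : (c1, a2) ∈ A := by
        by_contra hc
        have := huniq (c1, a2 + 1) (by unfold Adj; simp) (by rw [(cN c1 a2).1]; exact l1)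
          (by rw [(cN c1 a2).2]; exact hc)
        simp only [Prod.mk.injEq] at this
        omega
      have g1 := nbP_N c1 (a2 - 1)
      rw [sub_add_cancel] at g1
      refine Nx.go (q := some ((c1, a2), 3)) ?_ (Nx.go (q := some ((c1 - 1, a2), 2)) ?_ ?_)
      · rw [rt, e01]
        exact hG.glue l2 (by right; left; simp) g1 hNE
      · rw [rt, e31]
        exact hG.glue hNE (by left; simp) (nbP_W c1 a2) l1
      · have := Nx.stop (G := G) (p := some ((c1 - 1, a2), 2)) (by
          rw [rt, e21]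
          exact hG.free l1 (by right; right; right; simp) (nbP_S (c1 - 1) a2) r1)
        rwa [rt, e21] at this
  · -- in West : a = (x+1, y)
    obtain rfl : a1 = x + 1 := by omega
    obtain rfl : a2 = y := h2.symm
    have e := cW (x + 1) a2
    rw [add_sub_cancel_right] at e
    rw [e.1] at l1; rw [e.2] at r1
    have hp := pt_W (x + 1) a2
    rw [add_sub_cancel_right] at hp
    rw [hp]
    -- SE ∈ A : l1, NE ∉ A : r1
    have g1 := nbP_N x (a2 - 1)
    rw [sub_add_cancel] at g1
    have st : Nx G (some ((x, a2 - 1), 0)) (some ((x, a2 - 1), 1)) := by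
      have := Nx.stop (G := G) (p := some ((x, a2 - 1), 0)) (by
          rw [rt, e01]
          exact hG.free l1 (by right; left; simp) g1 r1)
      rwa [rt, e01] at this
    rcases hbc with ⟨h3, h4⟩ | ⟨h3, h4⟩ | ⟨h3, h4⟩ | ⟨h3, h4⟩
    · subst h3 h4
      rw [(cE x c2).1] at l2
      exact absurd l2 r1
    · subst h3 h4
      rw [(cW x c2).1] at l2; rw [(cW x c2).2] at r2
      rw [pt_W x c2]
      have g2 := nbP_E (x - 1) (c2 - 1)
      rw [sub_add_cancel] at g2
      refine Nx.go (q := some ((x, c2 - 1), 0)) ?_ st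
      rw [rt, e11]
      exact hG.glue l2 (by right; right; left; simp) g2 l1
    · subst h3 h4
      rw [(cN c1 a2).1] at l2; rw [(cN c1 a2).2] at r2
      rw [pt_N c1 a2]
      have hSW : (c1 - 1, a2 - 1) ∈ A := by
        by_contra hc
        have := huniq (c1, a2 - 1) (by unfold Adj; simp) (by rw [(cS c1 a2).1]; exact l1)
          (by rw [(cS c1 a2).2]; exact hc)
        simp only [Prod.mk.injEq] at this
        omega
      have g2 := nbP_E (c1 - 1) (a2 - 1)
      rw [sub_add_cancel] at g2
      refine Nx.go (q := some ((c1 - 1, a2 - 1), 1)) ?_ (Nx.go (q := some ((c1, a2 - 1), 0)) ?_ st)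
      · rw [rt, e21]
        exact hG.glue l2 (by right; right; right; simp) (nbP_S (c1 - 1) a2) hSW
      · rw [rt, e11]
        exact hG.glue hSW (by right; right; left; simp) g2 l1
    · subst h3 h4
      rw [(cS c1 a2).1] at l2; rw [(cS c1 a2).2] at r2
      rw [pt_S c1 a2]
      exact st
  · -- in North : a = (x, y-1)
    obtain rfl : a1 = x := h1.symm
    obtain rfl : a2 = y - 1 := by omega
    have e := cN a1 (y - 1)
    rw [sub_add_cancel] at e
    rw [e.1] at l1; rw [e.2] at r1
    have hp := pt_N a1 (y - 1)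
    rw [sub_add_cancel] at hp
    rw [hp]
    -- SW ∈ A : l1, SE ∉ A : r1
    have g1 := nbP_E (a1 - 1) (y - 1)
    rw [sub_add_cancel] at g1
    have st : Nx G (some ((a1 - 1, y - 1), 1)) (some ((a1 - 1, y - 1), 2)) := by
      have := Nx.stop (G := G) (p := some ((a1 - 1, y - 1), 1)) (by
          rw [rt, e11]
          exact hG.free l1 (by right; right; left; simp) g1 r1)
      rwa [rt, e11] at this
    rcases hbc with ⟨h3, h4⟩ | ⟨h3, h4⟩ | ⟨h3, h4⟩ | ⟨h3, h4⟩
    · subst h3 h4
      rw [(cE a1 c2).1] at l2; rw [(cE a1 c2).2] at r2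
      rw [pt_E a1 c2]
      have hNW : (a1 - 1, c2) ∈ A := by
        by_contra hc
        have := huniq (a1 - 1, c2) (by unfold Adj; simp) (by rw [(cW a1 c2).1]; exact l1)
          (by rw [(cW a1 c2).2]; exact hc)
        simp only [Prod.mk.injEq] at this
        omega
      refine Nx.go (q := some ((a1 - 1, c2), 2)) ?_ (Nx.go (q := some ((a1 - 1, c2 - 1), 1)) ?_ st)
      · rw [rt, e31]
        exact hG.glue l2 (by left; simp) (nbP_W a1 c2) hNW
      · rw [rt, e21]
        exact hG.glue hNW (by right; right; right; simp) (nbP_S (a1 - 1) c2) l1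
    · subst h3 h4
      rw [(cW a1 c2).1] at l2; rw [(cW a1 c2).2] at r2
      rw [pt_W a1 c2]
      exact st
    · subst h3 h4
      rw [(cN c1 y).1] at l2; rw [(cN c1 y).2] at r2
      rw [pt_N c1 y]
      refine Nx.go (q := some ((c1 - 1, y - 1), 1)) ?_ st
      rw [rt, e21]
      exact hG.glue l2 (by right; right; right; simp) (nbP_S (c1 - 1) y) l1
    · subst h3 h4
      rw [(cS c1 y).1] at l2
      exact absurd l2 r1
  · -- in South : a = (x, y+1)
    obtain rfl : a1 = x := h1.symm
    obtain rfl : a2 = y + 1 := by omega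
    have e := cS a1 (y + 1)
    rw [add_sub_cancel_right] at e
    rw [e.1] at l1; rw [e.2] at r1
    have hp := pt_S a1 (y + 1)
    rw [add_sub_cancel_right] at hp
    rw [hp]
    -- NE ∈ A : l1, NW ∉ A : r1
    have st : Nx G (some ((a1, y), 3)) (some ((a1, y), 0)) := by
      have := Nx.stop (G := G) (p := some ((a1, y), 3)) (by
          rw [rt, e31]
          exact hG.free l1 (by left; simp) (nbP_W a1 y) r1)
      rwa [rt, e31] at this
    have g1 := nbP_N a1 (y - 1)
    rw [sub_add_cancel] at g1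
    rcases hbc with ⟨h3, h4⟩ | ⟨h3, h4⟩ | ⟨h3, h4⟩ | ⟨h3, h4⟩
    · subst h3 h4
      rw [pt_E a1 c2]
      exact st
    · subst h3 h4
      rw [(cW a1 c2).1] at l2; rw [(cW a1 c2).2] at r2
      rw [pt_W a1 c2]
      have hSE : (a1, c2 - 1) ∈ A := by
        by_contra hc
        have := huniq (a1 + 1, c2) (by unfold Adj; simp) (by rw [(cE a1 c2).1]; exact l1)
          (by rw [(cE a1 c2).2]; exact hc)
        simp only [Prod.mk.injEq] at this
        omega
      have g2 := nbP_E (a1 - 1) (c2 - 1)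
      rw [sub_add_cancel] at g2
      refine Nx.go (q := some ((a1, c2 - 1), 0)) ?_ (Nx.go (q := some ((a1, c2), 3)) ?_ st)
      · rw [rt, e11]
        exact hG.glue l2 (by right; right; left; simp) g2 hSE
      · rw [rt, e01]
        exact hG.glue hSE (by right; left; simp) g1 l1
    · subst h3 h4
      rw [(cN c1 y).1] at l2
      exact absurd l2 r1
    · subst h3 h4
      rw [(cS c1 y).1] at l2; rw [(cS c1 y).2] at r2
      rw [pt_S c1 y]
      refine Nx.go (q := some ((c1, y), 3)) ?_ st
      rw [rt, e01]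
      exact hG.glue l2 (by right; left; simp) g1 l1

end Crest.Agent.R158.Bl802
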