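import Crest.Agent.R158.Ob0_664
import Crest.Agent.R158.Al4_194
import Crest.Agent.R158.Xr9_249

/-!
# R158 (helper664): adapters of the official observable

* `HV_eq_VL` : on an `Ok` word with three distinct marks the official `HV` is 194's `VL`
* `GW.of_wrd` : 249's `Wrd` (with a leg) gives `GW`
* `HD_word` : for a polyomino and `z` inside a run, `HD F L c p y0` is the value `HW w` of a good word
-/

set_option autoImplicit false

noncomputable section

namespace Crest.Agent.R158.Ob664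

open MeasureTheory ProbabilityTheory
open Crest.Agent.R158.Sw300 Crest.Agent.R158.Env664
open Crest.Agent.R158.Rs689 (PB hf)
open Crest.Agent.R158.Vt300 (v2)
open Crest.Agent.R158.Al194

variable {T : Type*} [DecidableEq T] {w : Wd T} {s : T → Bool}

theorem pos_iff (h : Ok w) {x y : Port T} (hx : x ∈ L w) (hy : y ∈ L w) :
    pos w x < pos w y ↔ (L w).idxOf x < (L w).idxOf y := by
  have := pos_en_iff h (idx_lt hx) (idx_lt hy)
  rwa [en_idx hx, en_idx hy] at this

theorem idL_eq (h : Ok w) {m x : Port T} (hm : m ∈ L w) (hx : x ∈ L w) :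
    idL (L w) m x = sh (L w).length ((L w).idxOf m) ((L w).idxOf x) :=
  idxOf_rotl (nodup h) hm hx

/-- cyclic positions are the indices read from any end -/
theorem cyc_idL (h : Ok w) {m x y z : Port T} (hm : m ∈ L w) (hx : x ∈ L w) (hy : y ∈ L w)
    (hz : z ∈ L w) : cyc (pos w x) (pos w y) (pos w z) ↔
      cyc (idL (L w) m x : ℤ) (idL (L w) m y : ℤ) (idL (L w) m z : ℤ) := by
  have hr := idx_lt hm
  have ix := idx_lt hx
  have iy := idx_lt hy
  have iz := idx_lt hz
  rw [idL_eq h hm hx, idL_eq h hm hy, idL_eq h hm hz]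
  unfold cyc
  rw [pos_iff h hx hy, pos_iff h hy hz, pos_iff h hz hx]
  unfold sh
  split_ifs <;> omega

theorem und_iff (h : Ok w) {m a x : Port T} (hm : m ∈ L w) (ha : a ∈ L w) (hx : x ∈ L w)
    (hMa : M s w a ≠ a) :
    Und (pos w) (M s w) a x ↔ ing (piL (L w) (M s w) m) (idL (L w) m x) (idL (L w) m a) := by
  have hM : M s w a ∈ L w := (Ok.inv s w h).mem _ ha
  have e1 : piL (L w) (M s w) m (idL (L w) m a) = idL (L w) m (M s w a) := by
    have h1 := enL_piL (s := s) h (m1 := m) (i := idL (L w) m a) (idL_lt ha)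
    rw [enL_idL ha] at h1
    rw [← h1, idL_enL h]
    exact (nckL s h hm).mem _ (idL_lt ha)
  have inj : ∀ {y z : Port T}, y ∈ L w → z ∈ L w → (idL (L w) m y = idL (L w) m z ↔ y = z) := by
    intro y z hy hz
    refine ⟨fun e => ?_, fun e => by rw [e]⟩
    rw [← enL_idL (m1 := m) hy, e, enL_idL hz]
  have hne : idL (L w) m (M s w a) ≠ idL (L w) m a := fun e => hMa ((inj hM ha).1 e)
  unfold Und ing
  rw [e1, cyc_idL h hm ha hx hM, ← inj hx hM]
  unfold cyc
  split_ifs <;> omega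

theorem sepO_iff (h : Ok w) {m x y z : Port T} (hm : m ∈ L w) (hx : x ∈ L w) (hy : y ∈ L w)
    (hz : z ∈ L w) (hxy : x ≠ y) :
    SepO (fun x => x ∈ L w) (pos w) (M s w) (S s w) x y z ↔
      Sep (piL (L w) (M s w) m) (L w).length ((rotl (L w) m).idxOf (u s w))
        (idL (L w) m x) (idL (L w) m y) (idL (L w) m z) := by
  have I := Ok.inv s w h
  constructor
  · rintro ⟨a, ha, hS, h1, h2, h3⟩
    have hau : a ≠ u s w := by
      rintro rfl
      have hu : M s w (u s w) = u s w := I.uf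
      unfold Und at h1 h2
      rw [hu] at h1 h2
      have nc : ∀ x, ¬ cyc (pos w (u s w)) (pos w x) (pos w (u s w)) := by
        intro x; unfold cyc; omega
      exact hxy ((h1.resolve_right (nc _)).trans (h2.resolve_right (nc _)).symm)
    have hMa : M s w a ≠ a := I.Mne ha hau
    have hk : idL (L w) m a ≠ (rotl (L w) m).idxOf (u s w) := by
      intro e
      apply hau
      rw [← enL_idL (m1 := m) ha, e, enL_ku h]
    refine ⟨idL (L w) m a, idL_lt ha, ?_, (und_iff h hm ha hx hMa).1 h1,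
      (und_iff h hm ha hy hMa).1 h2, fun h4 => h3 ((und_iff h hm ha hz hMa).2 h4)⟩
    rw [stL_iff h hm (idL_lt ha) hk, enL_idL ha]
    exact hS
  · rintro ⟨i, hi, hst, h1, h2, h3⟩
    have hk : i ≠ (rotl (L w) m).idxOf (u s w) := by
      rintro rfl
      exact not_st_fix (nckL s h hm) hst
    have ha : enL (L w) m i ∈ L w := enL_mem hi
    have hau : enL (L w) m i ≠ u s w := by
      intro e
      apply hk
      rw [← idL_enL h (m1 := m) hi, e]
      rfl
    have hMa := I.Mne ha hau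
    have ei : i = idL (L w) m (enL (L w) m i) := (idL_enL h hi).symm
    refine ⟨enL (L w) m i, ha, (stL_iff h hm hi hk).1 hst, ?_, ?_, ?_⟩
    · rw [und_iff h hm ha hx hMa, ← ei]; exact h1
    · rw [und_iff h hm ha hy hMa, ← ei]; exact h2
    · rw [und_iff h hm ha hz hMa, ← ei]; exact h3

/-- **the official observable is 194's `VL`** -/
theorem HV_eq_VL (h : Ok w) {m1 m2 m3 : Port T} (h1 : m1 ∈ L w) (h2 : m2 ∈ L w) (h3 : m3 ∈ L w)
    (h12 : m1 ≠ m2) (h13 : m1 ≠ m3) (h23 : m2 ≠ m3) :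
    HV w m1 m2 m3 s = VL (L w) (M s w) (u s w) m1 m2 m3 := by
  classical
  have I := Ok.inv s w h
  have hu : u s w ∈ L w := I.um
  have z1 : idL (L w) m1 m1 = 0 := idxOf_rotl_self (nodup h) h1
  have inj : ∀ {y z : Port T}, y ∈ L w → z ∈ L w → (idL (L w) m1 y = idL (L w) m1 z ↔ y = z) := by
    intro y z hy hz
    refine ⟨fun e => ?_, fun e => by rw [e]⟩
    rw [← enL_idL (m1 := m1) hy, e, enL_idL hz]
  have p2 : 0 < idL (L w) m1 m2 := by
    rcases Nat.eq_zero_or_pos (idL (L w) m1 m2) with e | e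
    · exact absurd ((inj h1 h2).1 (z1.trans e.symm)) h12
    · exact e
  have p3 : 0 < idL (L w) m1 m3 := by
    rcases Nat.eq_zero_or_pos (idL (L w) m1 m3) with e | e
    · exact absurd ((inj h1 h3).1 (z1.trans e.symm)) h13
    · exact e
  have c1 : Sect (pos w) m3 m1 (u s w) ↔ (idL (L w) m1 (u s w) < 0 ∨
      idL (L w) m1 m3 ≤ idL (L w) m1 (u s w)) := by
    unfold Sect
    rw [cyc_idL h h1 h3 hu h1, z1, ← inj hu h3]
    unfold cyc
    omega
  have c2 : Sect (pos w) m1 m2 (u s w) ↔ idL (L w) m1 (u s w) < idL (L w) m1 m2 := by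
    unfold Sect
    rw [cyc_idL h h1 h1 hu h2, z1, ← inj hu h1, z1]
    unfold cyc
    omega
  unfold HV VO VL Vc
  simp only [c1, c2, sepO_iff h h1 h2 h3 h1 h23, sepO_iff h h1 h1 h2 h3 h12,
    sepO_iff h h1 h3 h1 h2 (Ne.symm h13), z1]
  rfl

/-! ### words of 249 -/

theorem GW.of_wrd {l : List (Port T)} {A : Finset T} {b : Port T → Port T}
    (h : Xr249.Wrd w l A b) (hb : Xr249.bas w = none) (hl : l ≠ []) : GW A b w := by
  have hL : L w = l := by
    have := h.L
    rw [hb] at this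
    simpa [Xr249.mk] using this
  obtain ⟨x, l', rfl⟩ := List.exists_cons_of_ne_nil hl
  refine ⟨h.isWord, hb, h.tnd, x, l', hL, ?_⟩
  have hc := h.chain
  rw [Cycle.chain_coe_cons] at hc
  exact hc

/-- **`HD` is the value of a good word** -/
theorem HD_word (Mc : Mac) {Ln : ℤ} (hL : 0 < Ln) (c : Fin 3 → (ℤ × ℤ) × ZMod 4) {p y0 xl xr : ℤ}
    (r0 : Run (D Mc.F Ln) xl xr y0) (r1 : Run (D Mc.F Ln) xl xr (y0 - 1)) (h1 : xl < p)
    (h2 : p ≤ xr) :
    ∃ w : Wd (ℤ × ℤ), GW (D Mc.F Ln) (beD (D Mc.F Ln) p y0 xr) w ∧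
      HD Mc.F Ln c p y0 = HW w (mark Ln (c 0).1 (c 0).2).2 (mark Ln (c 1).1 (c 1).2).2
        (mark Ln (c 2).1 (c 2).2).2 := by
  have e : rgt (D Mc.F Ln) p y0 = xr := rgt_run r0 (le_of_lt h1) h2
  obtain ⟨w, l, hw, hb, -, hl⟩ := Xr249.wordD_mac Mc hL (p := p) (y0 := y0) (xr := xr) h2
    (fun x hx1 hx2 => ⟨r1.mem x (by omega) hx2, r0.mem x (by omega) hx2⟩) r0.right
    (Or.inr ⟨r1.mem _ (by omega) (by omega), r0.mem _ (by omega) (by omega)⟩)
  have hne : l ≠ [] := List.ne_nil_of_mem hl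
  have hg : ∃ w, GW (D Mc.F Ln) (beD (D Mc.F Ln) p y0 xr) w := ⟨w, GW.of_wrd hw hb hne⟩
  obtain ⟨w', hw', he⟩ := HG_spec hg (mark Ln (c 0).1 (c 0).2).2 (mark Ln (c 1).1 (c 1).2).2
        (mark Ln (c 2).1 (c 2).2).2
  refine ⟨w', hw', ?_⟩
  unfold HD HA
  rw [e, he]

end Crest.Agent.R158.Ob664
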