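import Crest.Agent.R158.Bl2_802
import Crest.Agent.R158.Gc4_748
import Crest.Agent.R158.Ob1_664

/-!
# R158, helper802, file Bl3: the clockwise list of the free ends of `D^(z)`

* `blk w n` : the ports of the `n` steps of the boundary walk `w`, read backwards
* `blk_chain` : closed `Nx` chain (plain region)
* `LD` : for a good word `W` of `D^(z)` the list `L W` is a rotation of `nN :: blk w n`, where
  `nN = N` side of `(xr, y0 - 1)` (the extra end) and `w` starts at the vertex `(xr + 1, y0)`
* `LDm` : read from any step of the walk: `blk w n` with `nN` inserted after `E` side of `(xr, y0)`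
-/

set_option autoImplicit false

namespace Crest.Agent.R158.Bl802

open Crest.Agent.R158.Sp896
open Crest.Agent.R158.Xr249 (Nx rot)
open Crest.Agent.R158.Sw300 (Port Wd L M)
open Crest.Agent.R158.Env664
open Crest.Agent.R158.Ob664

/-! ### walks -/

theorem cyc_shift {A : Set V} {n : ℕ} {w : ℕ → V} (h : Cyc A n w) (k : ℕ) :
    Cyc A n (fun i => w (i + k)) := by
  have hn : 0 < n := lt_of_lt_of_le (by norm_num) h.four_le
  have hp : ∀ i q, w (i + q * n) = w i := by
    intro i q
    induction q with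
    | zero => simp
    | succ q ih => rw [Nat.succ_mul, ← add_assoc, h.per, ih]
  have hm : ∀ i, w i = w (i % n) := by
    intro i
    conv_lhs => rw [← Nat.mod_add_div i n, mul_comm]
    rw [hp]
  refine ⟨h.four_le, ?_, ?_, ?_, ?_, ?_, ?_⟩
  · intro i
    show w (i + n + k) = w (i + k)
    rw [show i + n + k = i + k + n by ring, h.per]
  · intro i hi j hj hij
    have hij' : w ((i + k) % n) = w ((j + k) % n) := by
      rw [← hm, ← hm]; exact hij
    have h1 := h.inj _ (Nat.mod_lt _ hn) _ (Nat.mod_lt _ hn) hij'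
    have h2 : i ≡ j [MOD n] := Nat.ModEq.add_right_cancel' k h1
    exact Nat.ModEq.eq_of_lt_of_lt h2 hi hj
  · intro i
    show Adj (w (i + k)) (w (i + 1 + k))
    rw [show i + 1 + k = i + k + 1 by ring]
    exact h.step _
  · intro i
    show lc (w (i + k)) (w (i + 1 + k)) ∈ A
    rw [show i + 1 + k = i + k + 1 by ring]
    exact h.left _
  · intro i
    show rc (w (i + k)) (w (i + 1 + k)) ∉ A
    rw [show i + 1 + k = i + k + 1 by ring]
    exact h.right _
  · intro a b hab hl hr
    obtain ⟨i, hi, h1, h2⟩ := h.all a b hab hl hr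
    -- j with j + k ≡ i
    obtain ⟨j, hj, hjk⟩ : ∃ j < n, (j + k) % n = i := by
      refine ⟨(i + (n - k % n)) % n, Nat.mod_lt _ hn, ?_⟩
      have h3 : k % n < n := Nat.mod_lt _ hn
      rw [Nat.mod_add_mod]
      have h4 : i + (n - k % n) + k = i + n + (k - k % n) := by
        have := Nat.mod_le k n
        omega
      rw [h4]
      have h5 : k - k % n = n * (k / n) := by
        have := Nat.mod_add_div k n
        omega
      rw [h5, Nat.add_mul_mod_self_left, Nat.add_mod_right, Nat.mod_eq_of_lt hi]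
    refine ⟨j, hj, ?_, ?_⟩
    · show w (j + k) = a
      rw [hm, hjk, h1]
    · show w (j + 1 + k) = b
      rw [show j + 1 + k = (j + k) + 1 by ring, hm (j + k + 1), Nat.add_mod, hjk]
      have : w ((i + 1 % n) % n) = w (i + 1) := by
        rw [hm (i + 1)]
        congr 1
        rw [Nat.add_mod, Nat.mod_mod, ← Nat.add_mod]
      rw [this, h2]

/-- the step out of a vertex of the walk is unique -/
theorem cyc_uniq {A : Set V} {n : ℕ} {w : ℕ → V} (h : Cyc A n w) (i : ℕ) {c : V}
    (h1 : Adj (w i) c) (h2 : lc (w i) c ∈ A) (h3 : rc (w i) c ∉ A) : c = w (i + 1) := by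
  have hs := cyc_shift h i
  obtain ⟨j, hj, h4, h5⟩ := hs.all _ _ h1 h2 h3
  have hn : 0 < n := lt_of_lt_of_le (by norm_num) h.four_le
  have h6 : j = 0 := by
    apply hs.inj j hj 0 hn
    show w (j + i) = w (0 + i)
    rw [zero_add]; exact h4
  subst h6
  rw [← h5]
  show w (0 + 1 + i) = w (i + 1)
  congr 1; ring

theorem nx_walk {A : Set V} {n : ℕ} {w : ℕ → V} (h : Cyc A n w) {G : Port V → Port V → Prop} (j : ℕ)
    (hG : Loc A G (w (j + 1))) : Nx G (pt (w (j + 1)) (w (j + 2))) (pt (w j) (w (j + 1))) :=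
  nx_turn hG (h.step j) (h.step (j + 1)) (h.left j) (h.right j) (h.left (j + 1)) (h.right (j + 1))
    fun _ h1 h2 h3 => cyc_uniq h (j + 1) h1 h2 h3

/-- the ports of the walk, clockwise -/
def blk (w : ℕ → V) (n : ℕ) : List (Port V) :=
  (List.range n).map fun i => pt (w (n - 1 - i)) (w (n - i))

@[simp] theorem blk_length (w : ℕ → V) (n : ℕ) : (blk w n).length = n := by simp [blk]

theorem blk_get (w : ℕ → V) (n i : ℕ) (h : i < (blk w n).length) :
    (blk w n)[i] = pt (w (n - 1 - i)) (w (n - i)) := by simp [blk]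

theorem blk_zero (w : ℕ → V) : blk w 0 = [] := rfl

/-- the last port of a longer walk comes first -/
theorem blk_succ (w : ℕ → V) (n : ℕ) : blk w (n + 1) = pt (w n) (w (n + 1)) :: blk w n := by
  unfold blk
  rw [List.range_succ_eq_map, List.map_cons, List.map_map]
  congr 1
  apply List.map_congr_left
  intro i _
  simp only [Function.comp]
  congr 2 <;> omega

theorem mem_blk {w : ℕ → V} {n : ℕ} {x : Port V} :
    x ∈ blk w n ↔ ∃ i < n, x = pt (w i) (w (i + 1)) := by
  unfold blk
  rw [List.mem_map]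
  constructor
  · rintro ⟨i, hi, rfl⟩
    rw [List.mem_range] at hi
    refine ⟨n - 1 - i, by omega, ?_⟩
    congr 2; omega
  · rintro ⟨i, hi, rfl⟩
    refine ⟨n - 1 - i, List.mem_range.2 (by omega), ?_⟩
    congr 2 <;> omega

theorem blk_app (w : ℕ → V) (n m : ℕ) : blk w (n + m) = blk (fun i => w (i + n)) m ++ blk w n := by
  induction m with
  | zero => simp [blk_zero]
  | succ m ih =>
    rw [← add_assoc, blk_succ, ih, blk_succ, List.cons_append]
    congr 2 <;> · congr 1; ring

/-- chain from a port before the list to a port after the list -/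
theorem blk_chain {G : Port V → Port V → Prop} {w : ℕ → V} {x y : Port V} :
    ∀ n : ℕ, (∀ j, j + 1 < n → Nx G (pt (w (j + 1)) (w (j + 2))) (pt (w j) (w (j + 1)))) → 0 < n →
      Nx G x (pt (w (n - 1)) (w n)) → Nx G (pt (w 0) (w 1)) y →
      List.IsChain (Nx G) (x :: (blk w n ++ [y])) := by
  intro n
  induction n generalizing x with
  | zero => intro _ h _ _; omega
  | succ n ih =>
    intro h1 _ h2 h3
    rw [blk_succ, List.cons_append, List.isChain_cons_cons]
    rw [Nat.add_sub_cancel] at h2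
    refine ⟨h2, ?_⟩
    rcases Nat.eq_zero_or_pos n with rfl | hn
    · rw [blk_zero]
      simp only [List.nil_append, List.isChain_cons_cons, List.isChain_singleton, and_true]
      exact h3
    · refine ih (fun j hj => h1 j (by omega)) hn ?_ h3
      have := h1 (n - 1) (by omega)
      rw [show n - 1 + 1 = n by omega, show n - 1 + 2 = n + 1 by omega] at this
      exact this

/-! ### the region with leg -/

section

variable {A : Finset V} {p y0 xl xr : ℤ}

/-- away from the cut line the glueing is plain -/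
theorem loc_beD {b : V} (hpx : p ≤ xr) (hb : ¬ (b.2 = y0 ∧ p ≤ b.1 ∧ b.1 ≤ xr + 1)) :
    Loc (A : Set V) (Gl (beD A p y0 xr)) b := by
  rintro ⟨x, y⟩ ht d hd q
  have hnb : nbD p y0 xr (some ((x, y), d)) = nbP (some ((x, y), d)) := by
    rcases z4 d with rfl | rfl | rfl | rfl
    · rw [nbD_W, nbP_W]
    · rw [nbP_N, nbD_N]
      rintro ⟨h1, h2, h3⟩
      unfold Tch at hd
      apply hb
      rcases hd with ⟨h, -⟩ | ⟨-, h4, h5⟩ | ⟨h, -⟩ | ⟨h, -⟩
      · exact absurd h n10
      · simp only at h4 h5; omega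
      · exact absurd h.symm n21
      · exact absurd h.symm n31
    · rw [nbD_E, nbP_E]
    · rw [nbP_S, nbD_S]
      have key : ¬ (y = y0 ∧ p ≤ x ∧ x ≤ xr) := by
        rintro ⟨h1, h2, h3⟩
        unfold Tch at hd
        apply hb
        rcases hd with ⟨h, -⟩ | ⟨h, -⟩ | ⟨h, -⟩ | ⟨-, h4, h5⟩
        · exact absurd h n30
        · exact absurd h n31
        · exact absurd h n32
        · simp only at h4 h5; omega
      exact ⟨key, by rintro ⟨h1, h2⟩; exact key ⟨h1, by omega, by omega⟩⟩
  have hP : PortOf A (some ((x, y), d) : Port V) := portOf_some.2 ht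
  unfold Gl beD res
  rw [hnb]
  constructor
  · rintro ⟨h1, h2⟩
    split_ifs at h1 with h3
    · subst h1
      exact ⟨rfl, fun t ht' => by have := h3.2 t ht'; exact_mod_cast this⟩
    · exact absurd h1 h2
  · rintro ⟨h1, h2⟩
    have h3 : PortOf A (some ((x, y), d) : Port V) ∧ PortOf A (nbP (some ((x, y), d))) := by
      refine ⟨hP, ?_⟩
      rw [h1]
      intro t ht'
      exact_mod_cast h2 t ht'
    rw [if_pos h3]
    refine ⟨h1, ?_⟩
    rw [← h1]
    rcases z4 d with rfl | rfl | rfl | rfl
    · rw [nbP_W]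
      simp only [ne_eq, Option.some.injEq, Prod.mk.injEq, not_and]
      omega
    · rw [nbP_N]
      simp only [ne_eq, Option.some.injEq, Prod.mk.injEq, not_and]
      omega
    · rw [nbP_E]
      simp only [ne_eq, Option.some.injEq, Prod.mk.injEq, not_and]
      omega
    · rw [nbP_S]
      simp only [ne_eq, Option.some.injEq, Prod.mk.injEq, not_and]
      omega

/-- a vertex of the boundary walk is not inside the region -/
theorem walk_vertex {n : ℕ} {w : ℕ → V} (h : Cyc (A : Set V) n w) (j : ℕ) :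
    ¬ (((w j).1 - 1, (w j).2 - 1) ∈ A ∧ ((w j).1, (w j).2 - 1) ∈ A ∧ ((w j).1 - 1, (w j).2) ∈ A ∧
      ((w j).1, (w j).2) ∈ A) := by
  rintro ⟨h1, h2, h3, h4⟩
  have hs := h.step j
  have hr := h.right j
  generalize w j = a at *
  generalize w (j + 1) = b at *
  obtain ⟨a1, a2⟩ := a
  obtain ⟨b1, b2⟩ := b
  unfold Adj at hs
  apply hr
  simp only at h1 h2 h3 h4 hs
  unfold rc
  simp only
  rcases hs with ⟨e1, e2⟩ | ⟨e1, e2⟩ | ⟨e1, e2⟩ | ⟨e1, e2⟩
  · rw [show (a1 + b1 + (b2 - a2) - 1) / 2 = a1 by omega,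
      show (a2 + b2 - (b1 - a1) - 1) / 2 = a2 - 1 by omega]
    exact h2
  · rw [show (a1 + b1 + (b2 - a2) - 1) / 2 = a1 - 1 by omega,
      show (a2 + b2 - (b1 - a1) - 1) / 2 = a2 by omega]
    exact h3
  · rw [show (a1 + b1 + (b2 - a2) - 1) / 2 = a1 by omega,
      show (a2 + b2 - (b1 - a1) - 1) / 2 = a2 by omega]
    exact h4
  · rw [show (a1 + b1 + (b2 - a2) - 1) / 2 = a1 - 1 by omega,
      show (a2 + b2 - (b1 - a1) - 1) / 2 = a2 - 1 by omega]
    exact h1

/-- the boundary walk started at the right end of the cut line -/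
structure AtR (A : Finset V) (n : ℕ) (w : ℕ → V) (y0 xr : ℤ) : Prop where
  cyc : Cyc (A : Set V) n w
  w0 : w 0 = (xr + 1, y0)
  w1 : w 1 = (xr + 1, y0 + 1)
  wn : w (n - 1) = (xr + 1, y0 - 1)

theorem lcN (x y : ℤ) : lc (x, y) (x, y + 1) = (x - 1, y) := by
  simp only [lc]; ext <;> simp only <;> omega

theorem rcN (x y : ℤ) : rc (x, y) (x, y + 1) = (x, y) := by
  simp only [rc]; ext <;> simp only <;> omega

theorem exists_atR {n : ℕ} {w : ℕ → V} (h : Cyc (A : Set V) n w) (r0 : Run A xl xr y0)
    (r1 : Run A xl xr (y0 - 1)) : ∃ k < n, AtR A n (fun i => w (i + k)) y0 xr := by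
  have hn : 0 < n := lt_of_lt_of_le (by norm_num) h.four_le
  obtain ⟨k, hk, h1, h2⟩ := h.all (xr + 1, y0) (xr + 1, y0 + 1) (by unfold Adj; simp)
    (by rw [lcN, add_sub_cancel_right]; exact r0.mem _ r0.le le_rfl)
    (by rw [rcN]; exact r0.right)
  have hc := cyc_shift h k
  refine ⟨k, hk, hc, ?_, ?_, ?_⟩
  · show w (0 + k) = _
    rw [zero_add, h1]
  · show w (1 + k) = _
    rw [add_comm, h2]
  · obtain ⟨j, hj, h3, h4⟩ := hc.all (xr + 1, y0 - 1) (xr + 1, y0) (by unfold Adj; simp)
      (by
        have := lcN (xr + 1) (y0 - 1)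
        rw [sub_add_cancel] at this
        rw [this, add_sub_cancel_right]
        exact r1.mem _ r1.le le_rfl)
      (by
        have := rcN (xr + 1) (y0 - 1)
        rw [sub_add_cancel] at this
        rw [this]
        exact r1.right)
    rcases Nat.lt_or_ge (j + 1) n with h5 | h5
    · exfalso
      have := hc.inj (j + 1) h5 0 hn (by
        show w (j + 1 + k) = w (0 + k)
        rw [zero_add, h1]
        exact h4)
      omega
    · have : j = n - 1 := by omega
      subst this
      exact h3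

/-- the extra free end -/
def nN (xr y0 : ℤ) : Port V := some ((xr, y0 - 1), 1)

/-- the closed chain of the region with leg -/
theorem chainD {n : ℕ} {w : ℕ → V} (h : AtR A n w y0 xr) (r0 : Run A xl xr y0)
    (r1 : Run A xl xr (y0 - 1)) (h1 : xl < p) (h2 : p ≤ xr) :
    List.IsChain (Nx (Gl (beD A p y0 xr))) (nN xr y0 :: (blk w n ++ [nN xr y0])) := by
  have hn : 0 < n := lt_of_lt_of_le (by norm_num) h.cyc.four_le
  have hwn : w n = (xr + 1, y0) := by
    have := h.cyc.per 0
    rw [zero_add] at this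
    rw [this, h.w0]
  have m0 : ∀ x, xl ≤ x → x ≤ xr → (x, y0) ∈ A := r0.mem
  have m1 : ∀ x, xl ≤ x → x ≤ xr → (x, y0 - 1) ∈ A := r1.mem
  -- glued pairs near the right wall
  have gl : ∀ {x y : Port V}, nbD p y0 xr x = y → PortOf A x → PortOf A y → x ≠ y →
      Gl (beD A p y0 xr) x y := by
    intro x y e hx hy hne
    refine ⟨?_, hne⟩
    unfold beD
    rw [res_of hx (by rw [e]; exact hy), e]
  have fr : ∀ {x y : Port V}, nbD p y0 xr x = y → ¬ PortOf A y → ∀ q, ¬ Gl (beD A p y0 xr) x q := by
    rintro x y e hy q ⟨h3, h4⟩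
    unfold beD res at h3
    rw [if_neg (by rw [e]; exact fun h5 => hy h5.2)] at h3
    exact h4 h3
  refine blk_chain n ?_ hn ?_ ?_
  · intro j hj
    refine nx_walk h.cyc j (loc_beD h2 ?_)
    rintro ⟨e1, e2, e3⟩
    by_cases e4 : (w (j + 1)).1 = xr + 1
    · have e5 : w (j + 1) = w 0 := by
        rw [h.w0]; ext
        · exact e4
        · exact e1
      have := h.cyc.inj (j + 1) hj 0 hn e5
      omega
    · refine walk_vertex h.cyc (j + 1) ?_
      rw [e1]
      exact ⟨m1 _ (by omega) (by omega), m1 _ (by omega) (by omega), m0 _ (by omega) (by omega),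
        m0 _ (by omega) (by omega)⟩
  · rw [h.wn, hwn]
    have e := pt_N (xr + 1) (y0 - 1)
    rw [sub_add_cancel, add_sub_cancel_right] at e
    rw [e]
    have := Nx.stop (G := Gl (beD A p y0 xr)) (p := nN xr y0) (by
      unfold nN
      rw [rt, e11]
      refine fr (y := some ((xr + 1, y0 - 1), 0)) nbD_E ?_
      rw [portOf_some]; exact r1.right)
    unfold nN at this ⊢
    rwa [rt, e11] at this
  · rw [h.w0, h.w1, pt_N, add_sub_cancel_right]
    -- from the port E of (xr, y0) to nN
    have st : Nx (Gl (beD A p y0 xr)) (some ((xr, y0 - 1), 0)) (nN xr y0) := by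
      have := Nx.stop (G := Gl (beD A p y0 xr)) (p := some ((xr, y0 - 1), 0)) (by
        rw [rt, e01]
        refine fr (y := some ((xr + 1, y0), 3)) (nbD_N1 ⟨rfl, h2, le_rfl⟩) ?_
        rw [portOf_some]; exact r0.right)
      rw [rt, e01] at this
      exact this
    have st2 : Nx (Gl (beD A p y0 xr)) (some ((xr - 1, y0 - 1), 1)) (nN xr y0) := by
      refine Nx.go (q := some ((xr, y0 - 1), 0)) ?_ st
      rw [rt, e11]
      refine gl ?_ (portOf_some.2 (m1 _ (by omega) (by omega)))
        (portOf_some.2 (m1 _ (by omega) (by omega))) ?_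
      · rw [nbD_E, sub_add_cancel]
      · simp only [ne_eq, Option.some.injEq, Prod.mk.injEq, not_and]; omega
    rcases lt_or_eq_of_le h2 with h3 | h3
    · refine Nx.go (q := some ((xr - 1, y0 - 1), 1)) ?_ st2
      rw [rt, e21]
      refine gl (nbD_S1 ⟨rfl, h3, le_rfl⟩) (portOf_some.2 (m0 _ (by omega) le_rfl))
        (portOf_some.2 (m1 _ (by omega) (by omega))) ?_
      simp only [ne_eq, Option.some.injEq, Prod.mk.injEq, not_and]; omega
    · subst h3
      refine Nx.go (q := none) ?_ (Nx.go (q := some ((p, y0), 3)) ?_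
        (Nx.go (q := some ((p - 1, y0), 2)) ?_ (Nx.go (q := some ((p - 1, y0 - 1), 1)) ?_ st2)))
      · rw [rt, e21]
        exact gl (nbD_Sleg ⟨rfl, rfl⟩) (portOf_some.2 (m0 _ (by omega) le_rfl)) (portOf_none A)
          (by simp)
      · exact gl nbD_leg (portOf_none A) (portOf_some.2 (m0 _ (by omega) le_rfl)) (by simp)
      · rw [rt, e31]
        refine gl nbD_W (portOf_some.2 (m0 _ (by omega) le_rfl))
          (portOf_some.2 (m0 _ (by omega) (by omega))) ?_
        simp only [ne_eq, Option.some.injEq, Prod.mk.injEq, not_and]; omega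
      · rw [rt, e21]
        refine gl (nbD_S ⟨by omega, by omega⟩) (portOf_some.2 (m0 _ (by omega) (by omega)))
          (portOf_some.2 (m1 _ (by omega) (by omega))) ?_
        simp only [ne_eq, Option.some.injEq, Prod.mk.injEq, not_and]; omega

end

end Crest.Agent.R158.Bl802
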