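import Crest.Agent.R158.Sw0_300

/-!
# R158 block GC, part 1: planar tile complexes, strands, gap connectivity

A *port* is a side of a tile (`W = 0, N = 1, E = 2, S = 3`, clockwise) or `none` (the leg at `z`).
The corner left of side `d` (looking outward) has index `d`, the right one `d + 1`.
`Bd L G Ts`: `L` is the clockwise list of the free (cut) ends of a planar complex with tiles `Ts`
and glued pairs `G`; moves (at the head, `rot` moves the base point): `att` (a new tile glued by
one side), `con` (glue two cyclically adjacent ends), `rot`.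
A splitting `s : T → Bool` pairs the sides of each tile
(`true` = W–N, E–S; `false` = W–S, N–E) and joins the two corners of the other diagonal.
-/

set_option autoImplicit false

namespace Crest.Agent.R158.Gc748

variable {T : Type*} {B : Option T}

open Crest.Agent.R158.Sw300 (Port Wd thru tl sd tls thru_thru thru_ne thru_cases)

/-- the port `(t, d)` -/
abbrev pt (t : T) (d : ZMod 4) : Port T := some (t, d)

/-- left corner of a port (looking outward) -/
def lc (p : Port T) : Port T := p

/-- right corner of a port (looking outward) -/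
def rc (p : Port T) : Port T := p.map fun x => (x.1, x.2 + 1)

@[simp] theorem lc_none : lc (none : Port T) = none := rfl
@[simp] theorem rc_none : rc (none : Port T) = none := rfl
@[simp] theorem lc_some (t : T) (d : ZMod 4) : lc (some (t, d)) = some (t, d) := rfl
@[simp] theorem rc_some (t : T) (d : ZMod 4) : rc (some (t, d)) = some (t, d + 1) := rfl

/-- first corner of the joined diagonal: `true` joins `SW = 0` and `NE = 2`,
`false` joins `NW = 1` and `SE = 3` -/
def dg (b : Bool) : ZMod 4 := if b then 0 else 1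

/-- elementary relation on corners: sides glued, diagonals joined -/
inductive Rst (s : T → Bool) (B : Option T) (G : List (Port T × Port T)) :
    Port T → Port T → Prop
  | bas (t : T) (h : B = some t) : Rst s B G none (pt t 0)
  | glr (p q : Port T) (h : (p, q) ∈ G) : Rst s B G (lc p) (rc q)
  | grl (p q : Port T) (h : (p, q) ∈ G) : Rst s B G (rc p) (lc q)
  | diag (t : T) : Rst s B G (pt t (dg (s t))) (pt t (dg (s t) + 2))

/-- face connectivity on corners: equivalence relation generated by `Rst` -/
def R (s : T → Bool) (B : Option T) (G : List (Port T × Port T)) : Port T → Port T → Prop :=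
  Relation.EqvGen (Rst s B G)

theorem R.refl {s : T → Bool} {G : List (Port T × Port T)} (c : Port T) : R s B G c c :=
  Relation.EqvGen.refl c

theorem R.symm {s : T → Bool} {G : List (Port T × Port T)} {c c' : Port T} (h : R s B G c c') :
    R s B G c' c := Relation.EqvGen.symm _ _ h

theorem R.trans {s : T → Bool} {G : List (Port T × Port T)} {c c' c'' : Port T}
    (h : R s B G c c') (h' : R s B G c' c'') : R s B G c c'' := Relation.EqvGen.trans _ _ _ h h'

theorem Rst.mono {s : T → Bool} {G G' : List (Port T × Port T)} (hG : ∀ x ∈ G, x ∈ G')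
    {c c' : Port T} (h : Rst s B G c c') : Rst s B G' c c' := by
  cases h with
  | bas t h => exact .bas t h
  | glr p q h => exact .glr p q (hG _ h)
  | grl p q h => exact .grl p q (hG _ h)
  | diag t => exact .diag t

theorem R.mono {s : T → Bool} {G G' : List (Port T × Port T)} (hG : ∀ x ∈ G, x ∈ G')
    {c c' : Port T} (h : R s B G c c') : R s B G' c c' :=
  Relation.EqvGen.mono (fun _ _ (h : Rst s B G _ _) => h.mono hG) _ _ h

theorem R.cons {s : T → Bool} {G : List (Port T × Port T)} {x : Port T × Port T}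
    {c c' : Port T} (h : R s B G c c') : R s B (x :: G) c c' :=
  h.mono fun _ hy => List.mem_cons_of_mem _ hy

theorem R.glr {s : T → Bool} {G : List (Port T × Port T)} {p q : Port T} (h : (p, q) ∈ G) :
    R s B G (lc p) (rc q) := .rel _ _ (.glr p q h)

theorem R.grl {s : T → Bool} {G : List (Port T × Port T)} {p q : Port T} (h : (p, q) ∈ G) :
    R s B G (rc p) (lc q) := .rel _ _ (.grl p q h)

/-- walks along a strand: enter a tile through `x`, …, leave a tile through `y` -/
inductive Wk (s : T → Bool) (G : List (Port T × Port T)) : Port T → Port T → Prop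
  | one (t : T) (d : ZMod 4) : Wk s G (pt t d) (pt t (thru (s t) d))
  | step {x y z w : Port T} (h : Wk s G x y) (hg : (y, z) ∈ G ∨ (z, y) ∈ G)
      (h' : Wk s G z w) : Wk s G x w

theorem Wk.symm {s : T → Bool} {G : List (Port T × Port T)} {x y : Port T} (h : Wk s G x y) :
    Wk s G y x := by
  induction h with
  | one t d =>
    have := Wk.one (s := s) (G := G) t (thru (s t) d)
    rwa [thru_thru] at this
  | step _ hg _ ih1 ih2 => exact .step ih2 hg.symm ih1

theorem Wk.mono {s : T → Bool} {G G' : List (Port T × Port T)} (hG : ∀ x ∈ G, x ∈ G')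
    {c c' : Port T} (h : Wk s G c c') : Wk s G' c c' := by
  induction h with
  | one t d => exact .one t d
  | step _ hg _ ih1 ih2 => exact .step ih1 (hg.imp (hG _) (hG _)) ih2

theorem Wk.cons {s : T → Bool} {G : List (Port T × Port T)} {x : Port T × Port T}
    {c c' : Port T} (h : Wk s G c c') : Wk s (x :: G) c c' :=
  h.mono fun _ hy => List.mem_cons_of_mem _ hy

/-- `p` is the end of the strand of the leg -/
def Lw (s : T → Bool) (G : List (Port T × Port T)) (p : Port T) : Prop :=
  p = none ∨ ∃ z, ((none, z) ∈ G ∨ (z, none) ∈ G) ∧ Wk s G z p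

theorem Lw.cons {s : T → Bool} {G : List (Port T × Port T)} {x : Port T × Port T}
    {p : Port T} (h : Lw s G p) : Lw s (x :: G) p := by
  rcases h with h | ⟨z, h1, h2⟩
  · exact Or.inl h
  · exact Or.inr ⟨z, h1.imp (List.mem_cons_of_mem _) (List.mem_cons_of_mem _), h2.cons⟩

theorem Lw.step {s : T → Bool} {G : List (Port T × Port T)} {p q w : Port T} (h : Lw s G p)
    (hg : (p, q) ∈ G ∨ (q, p) ∈ G) (hw : Wk s G q w) : Lw s G w := by
  rcases h with rfl | ⟨z, h1, h2⟩
  · exact Or.inr ⟨q, hg, hw⟩
  · exact Or.inr ⟨z, h1, h2.step hg hw⟩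

/-- a potential mod 2: constant on the generators of `R` -/
structure Pot (s : T → Bool) (B : Option T) (G : List (Port T × Port T))
    (h : Port T → ZMod 2) : Prop where
  bas : ∀ t, B = some t → h none = h (pt t 0)
  glr : ∀ p q, (p, q) ∈ G → h (lc p) = h (rc q)
  grl : ∀ p q, (p, q) ∈ G → h (rc p) = h (lc q)
  diag : ∀ t, h (pt t (dg (s t))) = h (pt t (dg (s t) + 2))

theorem Pot.const {s : T → Bool} {G : List (Port T × Port T)} {h : Port T → ZMod 2}
    (hp : Pot s B G h) {c c' : Port T} (hr : R s B G c c') : h c = h c' := by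
  induction hr with
  | rel x y hxy =>
    cases hxy with
    | bas t h => exact hp.bas t h
    | glr p q h => exact hp.glr p q h
    | grl p q h => exact hp.grl p q h
    | diag t => exact hp.diag t
  | refl x => rfl
  | symm x y _ ih => exact ih.symm
  | trans x y z _ _ ih1 ih2 => exact ih1.trans ih2

theorem Pot.cons {s : T → Bool} {G : List (Port T × Port T)} {h : Port T → ZMod 2}
    (hp : Pot s B G h) {p q : Port T} (h1 : h (lc p) = h (rc q)) (h2 : h (rc p) = h (lc q)) :
    Pot s B ((p, q) :: G) h := by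
  refine ⟨hp.bas, fun a b hab => ?_, fun a b hab => ?_, hp.diag⟩
  · rcases List.mem_cons.1 hab with hab | hab
    · cases hab; exact h1
    · exact hp.glr a b hab
  · rcases List.mem_cons.1 hab with hab | hab
    · cases hab; exact h2
    · exact hp.grl a b hab

theorem Pot.add {s : T → Bool} {G : List (Port T × Port T)} {h k : Port T → ZMod 2}
    (hp : Pot s B G h) (kp : Pot s B G k) : Pot s B G (fun c => h c + k c) :=
  ⟨fun t ht => by rw [hp.bas t ht, kp.bas t ht],
   fun p q hpq => by rw [hp.glr p q hpq, kp.glr p q hpq],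
   fun p q hpq => by rw [hp.grl p q hpq, kp.grl p q hpq],
   fun t => by rw [hp.diag t, kp.diag t]⟩

/-- tile of a port lies in `Ts` (the leg always does) -/
def inT (Ts : Set T) (p : Port T) : Prop := ∀ x, p = some x → x.1 ∈ Ts

theorem inT.mono {Ts Ts' : Set T} (h : Ts ⊆ Ts') {p : Port T} (hp : inT Ts p) : inT Ts' p :=
  fun x hx => h (hp x hx)

theorem inT_pt {Ts : Set T} {t : T} {d : ZMod 4} : inT Ts (pt t d) ↔ t ∈ Ts := by
  constructor
  · intro h; exact h (t, d) rfl
  · rintro h x hx; cases hx; exact h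

/-- jump indicator -/
def jp [DecidableEq T] (p q r : Port T) : ZMod 2 := if r = p ∨ r = q then 1 else 0

/-- cyclic chain -/
def Cyc (r : Port T → Port T → Prop) : List (Port T) → Prop
  | [] => True
  | p :: l => List.IsChain r (p :: (l ++ [p]))

/-- state of a planar complex under a splitting: `M` = partner of a free end -/
structure Gd [DecidableEq T] (s : T → Bool) (B : Option T) (L : List (Port T))
    (G : List (Port T × Port T)) (Ts : Set T) (M : Port T → Port T) : Prop where
  base : ∀ t, B = some t → t ∈ Ts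
  nodup : L.Nodup
  inL : ∀ p ∈ L, inT Ts p
  inG : ∀ x ∈ G, inT Ts x.1 ∧ inT Ts x.2
  mem : ∀ p ∈ L, M p ∈ L
  inv : ∀ p ∈ L, M (M p) = p
  str : ∀ p ∈ L, M p ≠ p → Wk s G p (M p)
  leg : ∀ p ∈ L, M p = p → Lw s G p
  legR : ∀ p ∈ L, M p = p → R s B G none (lc p)
  side : ∀ p ∈ L, R s B G (rc p) (lc (M p))
  cyc : Cyc (fun p q => R s B G (rc p) (lc q)) L
  pot : ∀ p ∈ L, M p ≠ p → ∃ h, Pot s B G h ∧ ∀ r ∈ L, h (rc r) = h (lc r) + jp p (M p) r

/-! ### chains -/

theorem chain_last {α : Type*} {r : α → α → Prop} {p p' : α} (hp : ∀ y, r y p → r y p') :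
    ∀ (x : α) (l : List α), List.IsChain r (x :: (l ++ [p])) → List.IsChain r (x :: (l ++ [p']))
  | x, [], h => by
    simp only [List.nil_append, List.isChain_cons_cons, List.isChain_singleton, and_true] at h ⊢
    exact hp _ h
  | x, y :: l, h => by
    simp only [List.cons_append, List.isChain_cons_cons] at h ⊢
    exact ⟨h.1, chain_last hp y l h.2⟩

theorem chain_head {α : Type*} {r : α → α → Prop} {x x' : α} (hx : ∀ y, r x y → r x' y)
    {l : List α} (h : List.IsChain r (x :: l)) : List.IsChain r (x' :: l) := by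
  cases l with
  | nil => simp
  | cons y l =>
    simp only [List.isChain_cons_cons] at h ⊢
    exact ⟨hx _ h.1, h.2⟩

theorem chain_snoc {α : Type*} {r : α → α → Prop} {p q : α} (hpq : r p q) :
    ∀ (l : List α), List.IsChain r (l ++ [p]) → List.IsChain r (l ++ [p] ++ [q])
  | [], _ => by simpa using hpq
  | [x], h => by
    simp only [List.cons_append, List.nil_append, List.isChain_cons_cons,
      List.isChain_singleton, and_true] at h ⊢
    exact ⟨h, hpq⟩
  | x :: y :: l, h => by
    simp only [List.cons_append, List.isChain_cons_cons] at h ⊢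
    exact ⟨h.1, by simpa using chain_snoc hpq (y :: l) (by simpa using h.2)⟩

theorem Cyc.mono {r r' : Port T → Port T → Prop} (h : ∀ x y, r x y → r' x y) :
    ∀ {l : List (Port T)}, Cyc r l → Cyc r' l
  | [], _ => trivial
  | _ :: _, hl => List.IsChain.imp h hl

theorem Cyc.rot {r : Port T → Port T → Prop} {p : Port T} {a : List (Port T)}
    (h : Cyc r (p :: a)) : Cyc r (a ++ [p]) := by
  cases a with
  | nil => simpa using h
  | cons x a =>
    simp only [Cyc, List.cons_append, List.isChain_cons_cons] at h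
    obtain ⟨hpx, h⟩ := h
    show List.IsChain r (x :: (a ++ [p] ++ [x]))
    have := chain_snoc hpx (x :: a) (by simpa using h)
    simpa using this

/-! ### the base states -/

variable [DecidableEq T]

omit [DecidableEq T] in
theorem pt_inj {t t' : T} {d d' : ZMod 4} : pt t d = pt t' d' ↔ t = t' ∧ d = d' := by
  simp [pt]

theorem two_ne_zero4 : (2 : ZMod 4) ≠ 0 := by decide

/-- the potential supported on one corner of the tile `t` -/
def cpot (t : T) (k : ZMod 4) : Port T → ZMod 2 :=
  fun c => if c = pt t k ∨ (c = none ∧ k = 0) then 1 else 0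

/-- partner of the port `(t, d)` inside the tile -/
def tM (b : Bool) (t : T) (p : Port T) : Port T :=
  match p with
  | none => none
  | some (t', d) => if t' = t then pt t (thru b d) else some (t', d)

@[simp] theorem tM_pt (b : Bool) (t : T) (d : ZMod 4) : tM b t (pt t d) = pt t (thru b d) := by
  simp [tM]

/-- the corner cut off by the passage `d ↔ thru b d` -/
theorem cut_corner (b : Bool) (d : ZMod 4) :
    ∃ k : ZMod 4, (k ≠ dg b ∧ k ≠ dg b + 2) ∧ ∀ e : ZMod 4,
      ((if e + 1 = k then (1 : ZMod 2) else 0) = (if e = k then 1 else 0) +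
        (if e = d ∨ e = thru b d then 1 else 0)) := by
  revert d; cases b <;> decide

omit [DecidableEq T] in
theorem tile_side (s : T → Bool) (G : List (Port T × Port T)) (t : T) (d : ZMod 4) :
    R s B G (rc (pt t d)) (lc (pt t (thru (s t) d))) := by
  have key : ∀ (b : Bool) (d : ZMod 4), thru b d = d + 1 ∨ (d + 1 = dg b ∧ thru b d = dg b + 2) ∨
      (thru b d = dg b ∧ d + 1 = dg b + 2) := by decide
  have hd : R s B G (pt t (dg (s t))) (pt t (dg (s t) + 2)) := .rel _ _ (.diag t)
  rcases key (s t) d with h | ⟨h1, h2⟩ | ⟨h1, h2⟩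
  · simp only [rc_some, lc_some, h]; exact R.refl _
  · simp only [rc_some, lc_some, h1, h2]; exact hd
  · simp only [rc_some, lc_some, h1, h2]; exact hd.symm

theorem gd_tile (s : T → Bool) (t : T) :
    Gd s (some t) [none, pt t 0, pt t 1, pt t 2, pt t 3] [] {t} (tM (s t) t) := by
  have hall : ∀ p ∈ [none, pt t 0, pt t 1, pt t 2, pt t 3], p = none ∨ ∃ d : ZMod 4, p = pt t d := by
    intro p hp
    simp only [List.mem_cons, List.not_mem_nil, or_false] at hp
    rcases hp with h | h | h | h | h
    · exact Or.inl h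
    all_goals exact Or.inr ⟨_, h⟩
  have hmem : ∀ d : ZMod 4, pt t d ∈ [none, pt t 0, pt t 1, pt t 2, pt t 3] := by
    intro d
    have : ∀ d : ZMod 4, d = 0 ∨ d = 1 ∨ d = 2 ∨ d = 3 := by decide
    rcases this d with h | h | h | h <;> simp [h]
  have hn : tM (s t) t none = none := rfl
  have hb : R s (some t) [] none (pt t 0) := .rel _ _ (.bas t rfl)
  refine ⟨?_, ?_, ?_, ?_, ?_, ?_, ?_, ?_, ?_, ?_, ?_, ?_⟩
  · intro t' ht'; cases ht'; exact rfl
  · simp only [List.nodup_cons, List.mem_cons, pt_inj, true_and, List.not_mem_nil, or_false,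
      not_false_eq_true, List.nodup_nil, and_true]
    refine ⟨by simp [pt], ?_⟩
    decide
  · intro p hp
    rcases hall p hp with rfl | ⟨d, rfl⟩
    · intro x hx; cases hx
    · exact inT_pt.2 rfl
  · intro x hx; simp at hx
  · intro p hp
    rcases hall p hp with rfl | ⟨d, rfl⟩
    · rw [hn]; exact hp
    · rw [tM_pt]; exact hmem _
  · intro p hp
    rcases hall p hp with rfl | ⟨d, rfl⟩
    · rfl
    · rw [tM_pt, tM_pt, thru_thru]
  · intro p hp hM
    rcases hall p hp with rfl | ⟨d, rfl⟩
    · exact absurd rfl hM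
    · rw [tM_pt]; exact Wk.one t d
  · intro p hp hM
    rcases hall p hp with rfl | ⟨d, rfl⟩
    · exact Or.inl rfl
    · rw [tM_pt, pt_inj] at hM
      exact absurd hM.2 (thru_ne _ _)
  · intro p hp hM
    rcases hall p hp with rfl | ⟨d, rfl⟩
    · exact R.refl _
    · rw [tM_pt, pt_inj] at hM
      exact absurd hM.2 (thru_ne _ _)
  · intro p hp
    rcases hall p hp with rfl | ⟨d, rfl⟩
    · exact R.refl _
    · rw [tM_pt]; exact tile_side s [] t d
  · simp only [Cyc, List.cons_append, List.nil_append, List.isChain_cons_cons,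
      List.isChain_singleton, and_true, rc_some, lc_some, rc_none, lc_none]
    refine ⟨hb, ?_, ?_, ?_, ?_⟩
    · exact R.refl _
    · have : (1 : ZMod 4) + 1 = 2 := by decide
      rw [this]; exact R.refl _
    · have : (2 : ZMod 4) + 1 = 3 := by decide
      rw [this]; exact R.refl _
    · have : (3 : ZMod 4) + 1 = 0 := by decide
      rw [this]; exact hb.symm
  · intro p hp hM
    rcases hall p hp with rfl | ⟨d, rfl⟩
    · exact absurd rfl hM
    obtain ⟨k, ⟨hk1, hk2⟩, hk⟩ := cut_corner (s t) d
    refine ⟨cpot t k, ⟨fun t' ht' => ?_, fun p q h => by simp at h, fun p q h => by simp at h,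
      fun t' => ?_⟩, ?_⟩
    · cases ht'
      by_cases hk0 : k = 0
      · subst hk0; simp [cpot]
      · have : (0 : ZMod 4) ≠ k := fun e => hk0 e.symm
        simp [cpot, hk0, this]
    · by_cases ht : t' = t
      · subst ht
        simp [cpot, hk1.symm, hk2.symm]
      · simp [cpot, ht]
    · intro r hr
      rcases hall r hr with rfl | ⟨e, rfl⟩
      · simp [jp]
      · have := hk e
        simp only [rc_some, lc_some, cpot, jp, tM_pt, true_and, reduceCtorEq, false_and,
          or_false, Option.some.injEq, Prod.mk.injEq] at this ⊢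
        exact this

theorem gd_leg (s : T → Bool) : Gd s none [none] [] ∅ (id : Port T → Port T) := by
  refine ⟨by simp, by simp, ?_, by simp, by simp, by simp, ?_, ?_, ?_, ?_, ?_, ?_⟩
  · intro p hp; simp only [List.mem_singleton] at hp; subst hp; intro x hx; cases hx
  · intro p _ h; exact absurd rfl h
  · intro p hp _; simp only [List.mem_singleton] at hp; exact Or.inl hp
  · intro p hp _; simp only [List.mem_singleton] at hp; subst hp; exact R.refl _
  · intro p hp; simp only [List.mem_singleton] at hp; subst hp; exact R.refl _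
  · simp only [Cyc, List.nil_append, List.isChain_cons_cons, List.isChain_singleton, and_true]
    exact R.refl _
  · intro p _ h; exact absurd rfl h

/-- the state only depends on the values of the partner map on the ring -/
theorem Gd.congr {s : T → Bool} {L : List (Port T)} {G : List (Port T × Port T)} {Ts : Set T}
    {M M' : Port T → Port T} (h : Gd s B L G Ts M) (hM : ∀ p ∈ L, M' p = M p) :
    Gd s B L G Ts M' := by
  refine ⟨h.base, h.nodup, h.inL, h.inG, fun p hp => ?_, fun p hp => ?_, fun p hp hf => ?_,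
    fun p hp hf => ?_, fun p hp hf => ?_, fun p hp => ?_, h.cyc, fun p hp hf => ?_⟩
  · rw [hM p hp]; exact h.mem p hp
  · rw [hM p hp, hM _ (h.mem p hp)]; exact h.inv p hp
  · rw [hM p hp] at hf ⊢; exact h.str p hp hf
  · rw [hM p hp] at hf; exact h.leg p hp hf
  · rw [hM p hp] at hf; exact h.legR p hp hf
  · rw [hM p hp]; exact h.side p hp
  · rw [hM p hp] at hf ⊢; exact h.pot p hp hf

/-! ### rotation -/

theorem Gd.rot {s : T → Bool} {p : Port T} {a : List (Port T)} {G : List (Port T × Port T)}
    {Ts : Set T} {M : Port T → Port T} (h : Gd s B (p :: a) G Ts M) :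
    Gd s B (a ++ [p]) G Ts M := by
  have hm : ∀ x, x ∈ a ++ [p] ↔ x ∈ p :: a := by
    intro x; simp [or_comm]
  refine ⟨h.base, ?_, fun x hx => h.inL x ((hm x).1 hx), h.inG,
    fun x hx => (hm _).2 (h.mem x ((hm x).1 hx)),
    fun x hx => h.inv x ((hm x).1 hx), fun x hx => h.str x ((hm x).1 hx),
    fun x hx => h.leg x ((hm x).1 hx), fun x hx => h.legR x ((hm x).1 hx),
    fun x hx => h.side x ((hm x).1 hx), h.cyc.rot, ?_⟩
  · have := h.nodup
    simp only [List.nodup_cons] at this
    rw [List.nodup_append]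
    refine ⟨this.2, by simp, ?_⟩
    intro x hx y hy
    simp only [List.mem_singleton] at hy
    subst hy
    rintro rfl; exact this.1 hx
  · intro x hx hMx
    obtain ⟨k, hk, hj⟩ := h.pot x ((hm x).1 hx) hMx
    exact ⟨k, hk, fun r hr => hj r ((hm r).1 hr)⟩

/-! ### gluing two consecutive ends -/

theorem jp_ne {p q r : Port T} (h1 : r ≠ p) (h2 : r ≠ q) : jp p q r = 0 := by
  simp [jp, h1, h2]

theorem Gd.con_aux {s : T → Bool} {p q : Port T} {b : List (Port T)}
    {G : List (Port T × Port T)} {Ts : Set T} {M : Port T → Port T}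
    (h : Gd s B (p :: q :: b) G Ts M) (M' : Port T → Port T)
    (hold : ∀ r ∈ b, r ≠ M p → r ≠ M q → M' r = M r)
    (hsp : ∀ r ∈ b, (r = M p ∨ r = M q) → M' r ∈ b ∧ M' (M' r) = r ∧
      (M' r ≠ r → Wk s ((p, q) :: G) r (M' r)) ∧ (M' r = r → Lw s ((p, q) :: G) r) ∧
      (M' r = r → R s B ((p, q) :: G) none (lc r)) ∧
      R s B ((p, q) :: G) (rc r) (lc (M' r)) ∧
      (M' r ≠ r → ∃ k, Pot s B ((p, q) :: G) k ∧ ∀ x ∈ b, k (rc x) = k (lc x) + jp r (M' r) x)) :
    Gd s B b ((p, q) :: G) Ts M' := by
  have hnd := h.nodup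
  simp only [List.nodup_cons, List.mem_cons, not_or] at hnd
  obtain ⟨⟨hpq, hpb⟩, hqb, hbnd⟩ := hnd
  have hpL : p ∈ p :: q :: b := by simp
  have hqL : q ∈ p :: q :: b := by simp
  have hbL : ∀ x ∈ b, x ∈ p :: q :: b := fun x hx => by simp [hx]
  have hcyc := h.cyc
  simp only [Cyc, List.cons_append, List.isChain_cons_cons] at hcyc
  obtain ⟨hadj, hcyc⟩ := hcyc
  -- facts on old ends
  have old_mem : ∀ r ∈ b, r ≠ M p → r ≠ M q → M r ∈ b := by
    intro r hr h1 h2
    have := h.mem r (hbL r hr)
    simp only [List.mem_cons] at this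
    rcases this with h3 | h3 | h3
    · exact absurd (by rw [← h3, h.inv r (hbL r hr)]) h1
    · exact absurd (by rw [← h3, h.inv r (hbL r hr)]) h2
    · exact h3
  have old_ne : ∀ r ∈ b, r ≠ M p → r ≠ M q → M r ≠ M p ∧ M r ≠ M q := by
    intro r hr h1 h2
    constructor
    · intro h3
      have := congrArg M h3
      rw [h.inv r (hbL r hr), h.inv p hpL] at this
      exact hpb (this ▸ hr)
    · intro h3
      have := congrArg M h3
      rw [h.inv r (hbL r hr), h.inv q hqL] at this
      exact hqb (this ▸ hr)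
  refine ⟨h.base, hbnd, fun x hx => h.inL x (hbL x hx), ?_, ?_, ?_, ?_, ?_, ?_, ?_, ?_, ?_⟩
  · intro x hx
    rcases List.mem_cons.1 hx with rfl | hx
    · exact ⟨h.inL p hpL, h.inL q hqL⟩
    · exact h.inG x hx
  · intro r hr
    by_cases h1 : r = M p ∨ r = M q
    · exact (hsp r hr h1).1
    · push Not at h1
      rw [hold r hr h1.1 h1.2]; exact old_mem r hr h1.1 h1.2
  · intro r hr
    by_cases h1 : r = M p ∨ r = M q
    · exact (hsp r hr h1).2.1
    · push Not at h1
      rw [hold r hr h1.1 h1.2, hold _ (old_mem r hr h1.1 h1.2) (old_ne r hr h1.1 h1.2).1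
        (old_ne r hr h1.1 h1.2).2, h.inv r (hbL r hr)]
  · intro r hr hM
    by_cases h1 : r = M p ∨ r = M q
    · exact (hsp r hr h1).2.2.1 hM
    · push Not at h1
      rw [hold r hr h1.1 h1.2] at hM ⊢; exact (h.str r (hbL r hr) hM).cons
  · intro r hr hM
    by_cases h1 : r = M p ∨ r = M q
    · exact (hsp r hr h1).2.2.2.1 hM
    · push Not at h1
      rw [hold r hr h1.1 h1.2] at hM
      exact (h.leg r (hbL r hr) hM).cons
  · intro r hr hM
    by_cases h1 : r = M p ∨ r = M q
    · exact (hsp r hr h1).2.2.2.2.1 hM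
    · push Not at h1
      rw [hold r hr h1.1 h1.2] at hM
      exact (h.legR r (hbL r hr) hM).cons
  · intro r hr
    by_cases h1 : r = M p ∨ r = M q
    · exact (hsp r hr h1).2.2.2.2.2.1
    · push Not at h1
      rw [hold r hr h1.1 h1.2]; exact (h.side r (hbL r hr)).cons
  · cases b with
    | nil => trivial
    | cons x b' =>
      simp only [List.cons_append, List.isChain_cons_cons] at hcyc
      obtain ⟨hqx, hch⟩ := hcyc
      show List.IsChain _ (x :: (b' ++ [x]))
      refine chain_last (p := p) (fun y hy => ?_) x b' (List.IsChain.imp (fun a c hac => hac.cons) hch)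
      exact (hy.trans (R.glr (by simp))).trans hqx.cons
  · intro r hr hM
    by_cases h1 : r = M p ∨ r = M q
    · exact (hsp r hr h1).2.2.2.2.2.2 hM
    · push Not at h1
      rw [hold r hr h1.1 h1.2] at hM
      obtain ⟨k, hk, hj⟩ := h.pot r (hbL r hr) hM
      have hp1 : p ≠ r := fun e => hpb (e ▸ hr)
      have hp2 : p ≠ M r := fun e => h1.1 (by rw [e, h.inv r (hbL r hr)])
      have hq1 : q ≠ r := fun e => hqb (e ▸ hr)
      have hq2 : q ≠ M r := fun e => h1.2 (by rw [e, h.inv r (hbL r hr)])
      have e1 : k (rc p) = k (lc p) := by rw [hj p hpL, jp_ne hp1 hp2, add_zero]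
      have e2 : k (rc q) = k (lc q) := by rw [hj q hqL, jp_ne hq1 hq2, add_zero]
      have e3 : k (rc p) = k (lc q) := hk.const hadj
      refine ⟨k, hk.cons ?_ e3, fun x hx => ?_⟩
      · rw [← e1, e3, e2]
      · rw [hold r hr h1.1 h1.2]; exact hj x (hbL x hx)

/-- partner map after glueing `p` to `q` -/
def conM (p q : Port T) (M : Port T → Port T) (x : Port T) : Port T :=
  if M x = p then (if M q = q then x else M q)
  else if M x = q then (if M p = p then x else M p)
  else M x

theorem Gd.con {s : T → Bool} {p q : Port T} {b : List (Port T)}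
    {G : List (Port T × Port T)} {Ts : Set T} {M : Port T → Port T}
    (h : Gd s B (p :: q :: b) G Ts M) : Gd s B b ((p, q) :: G) Ts (conM p q M) := by
  have hnd := h.nodup
  simp only [List.nodup_cons, List.mem_cons, not_or] at hnd
  obtain ⟨⟨hpq, hpb⟩, hqb, hbnd⟩ := hnd
  have hpL : p ∈ p :: q :: b := by simp
  have hqL : q ∈ p :: q :: b := by simp
  have hbL : ∀ x ∈ b, x ∈ p :: q :: b := fun x hx => by simp [hx]
  have hcyc := h.cyc
  simp only [Cyc, List.cons_append, List.isChain_cons_cons] at hcyc
  have hadj : R s B ((p, q) :: G) (rc p) (lc q) := R.cons hcyc.1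
  have hgl : R s B ((p, q) :: G) (lc p) (rc q) := R.glr (by simp)
  have hpqS : (p, q) ∈ (p, q) :: G ∨ (q, p) ∈ (p, q) :: G := Or.inl (by simp)
  have spA : M p ≠ p → Wk s ((p, q) :: G) p (M p) := fun hf => (h.str p hpL hf).cons
  have sqA : M q ≠ q → Wk s ((p, q) :: G) q (M q) := fun hf => (h.str q hqL hf).cons
  have memb : ∀ x, x ∈ p :: q :: b → x ≠ p → x ≠ q → x ∈ b := by
    intro x hx h1 h2
    simp only [List.mem_cons] at hx
    rcases hx with hx | hx | hx
    · exact absurd hx h1
    · exact absurd hx h2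
    · exact hx
  have c1 : ∀ r ∈ b, r ≠ M p → r ≠ M q → conM p q M r = M r := by
    intro r hr h1 h2
    have e1 : M r ≠ p := fun e => h1 (by rw [← e, h.inv r (hbL r hr)])
    have e2 : M r ≠ q := fun e => h2 (by rw [← e, h.inv r (hbL r hr)])
    simp only [conM, if_neg e1, if_neg e2]
  have c2 : conM p q M (M p) = if M q = q then M p else M q := by
    simp only [conM, h.inv p hpL, if_true]
  have c3 : conM p q M (M q) = if M p = p then M q else M p := by
    simp only [conM, h.inv q hqL, if_neg (Ne.symm hpq), if_true]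
  by_cases hA : M p = q
  · -- closed loop
    have hB : M q = p := by rw [← hA, h.inv p hpL]
    refine h.con_aux _ c1 ?_
    rintro r hr (h1 | h1)
    · exact absurd (h1.trans hA ▸ hr) hqb
    · exact absurd (h1.trans hB ▸ hr) hpb
  by_cases hpf : M p = p
  · by_cases hqf : M q = q
    · refine h.con_aux _ c1 ?_
      rintro r hr (h1 | h1)
      · exact absurd (h1.trans hpf ▸ hr) hpb
      · exact absurd (h1.trans hqf ▸ hr) hqb
    · -- the leg arrives at `p`, continues through `q` to `c = M q`
      have hcp : M q ≠ p := fun e => hqf (by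
        have := congrArg M e; rw [h.inv q hqL, hpf] at this; rw [e]; exact this.symm)
      have hc : M q ∈ b := memb _ (h.mem q hqL) hcp hqf
      rw [if_pos hpf] at c3
      refine h.con_aux _ c1 ?_
      · rintro r hr h1
        have hr' : r = M q := by
          rcases h1 with h1 | h1
          · exact absurd (h1.trans hpf ▸ hr) hpb
          · exact h1
        subst hr'
        rw [c3]
        refine ⟨hr, c3, fun e => absurd rfl e, fun _ => ?_, fun _ => ?_, ?_,
          fun e => absurd rfl e⟩
        · exact (h.leg p hpL hpf).cons.step hpqS (sqA hqf)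
        · exact ((h.legR p hpL hpf).cons.trans hgl).trans (h.side q hqL).cons
        · have s1 : R s B ((p, q) :: G) (rc (M q)) (lc q) := by
            have := (h.side (M q) (hbL _ hr)).cons (x := (p, q))
            rwa [h.inv q hqL] at this
          have s2 : R s B ((p, q) :: G) (rc p) (lc p) := by
            have := (h.side p hpL).cons (x := (p, q)); rwa [hpf] at this
          exact (((s1.trans hadj.symm).trans s2).trans hgl).trans (h.side q hqL).cons
  · by_cases hqf : M q = q
    · have hap : M p ≠ q := hA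
      have ha : M p ∈ b := memb _ (h.mem p hpL) hpf hA
      rw [if_pos hqf] at c2
      refine h.con_aux _ c1 ?_
      · rintro r hr h1
        have hr' : r = M p := by
          rcases h1 with h1 | h1
          · exact h1
          · exact absurd (h1.trans hqf ▸ hr) hqb
        subst hr'
        rw [c2]
        refine ⟨hr, c2, fun e => absurd rfl e, fun _ => ?_, fun _ => ?_, ?_,
          fun e => absurd rfl e⟩
        · exact (h.leg q hqL hqf).cons.step hpqS.symm (spA hpf)
        · exact ((h.legR q hqL hqf).cons.trans hadj.symm).trans (h.side p hpL).cons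
        · have s1 : R s B ((p, q) :: G) (rc (M p)) (lc p) := by
            have := (h.side (M p) (hbL _ hr)).cons (x := (p, q))
            rwa [h.inv p hpL] at this
          have s2 : R s B ((p, q) :: G) (rc q) (lc q) := by
            have := (h.side q hqL).cons (x := (p, q)); rwa [hqf] at this
          exact (((s1.trans hgl).trans s2).trans hadj.symm).trans (h.side p hpL).cons
    · -- two links are merged
      have hBp : M q ≠ p := fun e => hA (by rw [← e, h.inv q hqL])
      have ha : M p ∈ b := memb _ (h.mem p hpL) hpf hA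
      have hc : M q ∈ b := memb _ (h.mem q hqL) hBp hqf
      have hac : M p ≠ M q := fun e => hpq (by
        have := congrArg M e; rwa [h.inv p hpL, h.inv q hqL] at this)
      have s1 : R s B ((p, q) :: G) (rc (M p)) (lc (M q)) := by
        have := (h.side (M p) (hbL _ ha)).cons (x := (p, q))
        rw [h.inv p hpL] at this
        exact (this.trans hgl).trans (h.side q hqL).cons
      have s2 : R s B ((p, q) :: G) (rc (M q)) (lc (M p)) := by
        have := (h.side (M q) (hbL _ hc)).cons (x := (p, q))
        rw [h.inv q hqL] at this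
        exact (this.trans hadj.symm).trans (h.side p hpL).cons
      have s3 : Wk s ((p, q) :: G) (M p) (M q) := (spA hpf).symm.step hpqS (sqA hqf)
      -- the potential of the merged link
      obtain ⟨k, hk, kj⟩ := h.pot p hpL hpf
      obtain ⟨l, hl, lj⟩ := h.pot q hqL hqf
      have kp : k (rc p) = k (lc p) + 1 := by rw [kj p hpL]; simp [jp]
      have kq : k (rc q) = k (lc q) := by
        rw [kj q hqL, jp_ne (Ne.symm hpq) (Ne.symm hA), add_zero]
      have lq : l (rc q) = l (lc q) + 1 := by rw [lj q hqL]; simp [jp]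
      have lp : l (rc p) = l (lc p) := by
        rw [lj p hpL, jp_ne hpq (Ne.symm hBp), add_zero]
      have ka : k (rc p) = k (lc q) := hk.const hcyc.1
      have la : l (rc p) = l (lc q) := hl.const hcyc.1
      have hP : Pot s B ((p, q) :: G) (fun c => k c + l c) := by
        refine (hk.add hl).cons ?_ ?_
        · show k (lc p) + l (lc p) = k (rc q) + l (rc q)
          rw [kq, ← ka, kp, lq, ← la, lp]
          have h2 : (1 : ZMod 2) + 1 = 0 := by decide
          linear_combination (-1 : ZMod 2) * h2
        · show k (rc p) + l (rc p) = k (lc q) + l (lc q)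
          rw [ka, la]
      have hJ : ∀ x ∈ b, (k (rc x) + l (rc x)) = (k (lc x) + l (lc x)) + jp (M p) (M q) x := by
        intro x hx
        have hxp : x ≠ p := fun e => hpb (e ▸ hx)
        have hxq : x ≠ q := fun e => hqb (e ▸ hx)
        rw [kj x (hbL x hx), lj x (hbL x hx)]
        have : jp p (M p) x + jp q (M q) x = jp (M p) (M q) x := by
          simp only [jp, hxp, hxq, false_or]
          by_cases e1 : x = M p
          · have e2 : x ≠ M q := fun e => hac (e1.symm.trans e)
            simp [e1, hac]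
          · simp [e1]
        rw [← this]; ring
      rw [if_neg hqf] at c2
      rw [if_neg hpf] at c3
      refine h.con_aux _ c1 ?_
      · rintro r hr (h1 | h1)
        · subst h1
          rw [c2]
          refine ⟨hc, c3, fun _ => s3, fun e => absurd e.symm hac, fun e => absurd e.symm hac, s1,
            fun _ => ⟨_, hP, hJ⟩⟩
        · subst h1
          rw [c3]
          refine ⟨ha, c2, fun _ => s3.symm, fun e => absurd e hac, fun e => absurd e hac, s2,
            fun _ => ⟨_, hP, fun x hx => ?_⟩⟩
          rw [hJ x hx]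
          simp only [jp, or_comm]

/-! ### attaching a tile -/

/-- modify a potential on the corners of the tile `t` -/
def upd (t : T) (u : ZMod 4 → ZMod 2) (h : Port T → ZMod 2) (c : Port T) : ZMod 2 :=
  match c with
  | none => h none
  | some (t', k) => if t' = t then u k else h (some (t', k))

@[simp] theorem upd_pt (t : T) (u : ZMod 4 → ZMod 2) (h : Port T → ZMod 2) (k : ZMod 4) :
    upd t u h (pt t k) = u k := by simp [upd]

theorem upd_lc {t : T} {u : ZMod 4 → ZMod 2} {h : Port T → ZMod 2} {Ts : Set T} (ht : t ∉ Ts)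
    {r : Port T} (hr : inT Ts r) : upd t u h (lc r) = h (lc r) := by
  match r with
  | none => rfl
  | some (t', k) =>
    have : t' ≠ t := fun e => ht (e ▸ hr (t', k) rfl)
    simp [upd, this]

theorem upd_rc {t : T} {u : ZMod 4 → ZMod 2} {h : Port T → ZMod 2} {Ts : Set T} (ht : t ∉ Ts)
    {r : Port T} (hr : inT Ts r) : upd t u h (rc r) = h (rc r) := by
  match r with
  | none => rfl
  | some (t', k) =>
    have : t' ≠ t := fun e => ht (e ▸ hr (t', k) rfl)
    simp [upd, this]

theorem Pot.upd {s : T → Bool} {G : List (Port T × Port T)} {Ts : Set T} {h : Port T → ZMod 2}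
    (hp : Pot s B G h) (hB : ∀ t, B = some t → t ∈ Ts) (hG : ∀ x ∈ G, inT Ts x.1 ∧ inT Ts x.2)
    {t : T} (ht : t ∉ Ts)
    {u : ZMod 4 → ZMod 2} {p : Port T} (hpT : inT Ts p) {d : ZMod 4}
    (h1 : u (d + 1) = h (lc p)) (h2 : u d = h (rc p))
    (h3 : u (dg (s t)) = u (dg (s t) + 2)) :
    Pot s B ((p, pt t d) :: G) (upd t u h) := by
  have base : Pot s B G (Gc748.upd t u h) := by
    refine ⟨fun t' ht' => ?_, fun a b hab => ?_, fun a b hab => ?_, fun t' => ?_⟩
    · have e : t' ≠ t := fun e => ht (e ▸ hB t' ht')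
      have := hp.bas t' ht'
      simp only [Gc748.upd, if_neg e]; exact this
    · rw [upd_lc ht (hG _ hab).1, upd_rc ht (hG _ hab).2]; exact hp.glr a b hab
    · rw [upd_rc ht (hG _ hab).1, upd_lc ht (hG _ hab).2]; exact hp.grl a b hab
    · by_cases e : t' = t
      · subst e; rw [upd_pt, upd_pt]; exact h3
      · have := hp.diag t'
        simp only [Gc748.upd, if_neg e]; exact this
  refine base.cons ?_ ?_
  · rw [upd_lc ht hpT, rc_some]
    show h (lc p) = Gc748.upd t u h (pt t (d + 1))
    rw [upd_pt, h1]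
  · rw [upd_rc ht hpT, lc_some]
    show h (rc p) = Gc748.upd t u h (pt t d)
    rw [upd_pt, h2]

/-- the corner cut off by a passage not using the side `d` -/
theorem cut_corner2 (b : Bool) (d f : ZMod 4) (h1 : f ≠ d) (h2 : f ≠ thru b d) :
    ∃ k : ZMod 4, (k ≠ dg b ∧ k ≠ dg b + 2 ∧ k ≠ d ∧ k ≠ d + 1) ∧ ∀ e : ZMod 4,
      ((if e + 1 = k then (1 : ZMod 2) else 0) = (if e = k then 1 else 0) +
        (if e = f ∨ e = thru b f then 1 else 0)) := by
  revert d f; cases b <;> decide

/-- partner map after attaching the tile `t` by its side `d` to the head end `p` -/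
def attM (b : Bool) (t : T) (d : ZMod 4) (p : Port T) (M : Port T → Port T) (r : Port T) :
    Port T :=
  if r = pt t (thru b d) then (if M p = p then pt t (thru b d) else M p)
  else if r = M p then pt t (thru b d)
  else match r with
    | none => M none
    | some (t', c) => if t' = t then pt t (thru b c) else M (some (t', c))

theorem Gd.att {s : T → Bool} {p : Port T} {b : List (Port T)}
    {G : List (Port T × Port T)} {Ts : Set T} {M : Port T → Port T}
    (h : Gd s B (p :: b) G Ts M) {t : T} (ht : t ∉ Ts) (d : ZMod 4) :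
    Gd s B (pt t (d + 1) :: pt t (d + 2) :: pt t (d + 3) :: b) ((p, pt t d) :: G) (insert t Ts)
      (attM (s t) t d p M) := by
  have hnd := h.nodup
  simp only [List.nodup_cons] at hnd
  obtain ⟨hpb, hbnd⟩ := hnd
  have hpL : p ∈ p :: b := by simp
  have hbL : ∀ x ∈ b, x ∈ p :: b := fun x hx => by simp [hx]
  have hpT : inT Ts p := h.inL p hpL
  have hbT : ∀ x ∈ b, inT Ts x := fun x hx => h.inL x (hbL x hx)
  have nT : ∀ (c : ZMod 4) (x : Port T), inT Ts x → x ≠ pt t c := by
    intro c x hx e; subst e; exact ht (inT_pt.1 hx)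
  have hMT : inT Ts (M p) := h.inL _ (h.mem p hpL)
  have h4 : ∀ c d : ZMod 4, (c = d + 1 ∨ c = d + 2 ∨ c = d + 3) ↔ c ≠ d := by decide
  have hring : ∀ r, r ∈ pt t (d + 1) :: pt t (d + 2) :: pt t (d + 3) :: b ↔
      (∃ c, c ≠ d ∧ r = pt t c) ∨ r ∈ b := by
    intro r
    simp only [List.mem_cons]
    constructor
    · rintro (e | e | e | e)
      · exact Or.inl ⟨_, (h4 _ _).1 (Or.inl rfl), e⟩
      · exact Or.inl ⟨_, (h4 _ _).1 (Or.inr (Or.inl rfl)), e⟩
      · exact Or.inl ⟨_, (h4 _ _).1 (Or.inr (Or.inr rfl)), e⟩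
      · exact Or.inr e
    · rintro (⟨c, hc, rfl⟩ | e)
      · rcases (h4 c d).2 hc with e | e | e <;> simp [e]
      · exact Or.inr (Or.inr (Or.inr e))
  have hed : thru (s t) d ≠ d := thru_ne _ _
  -- values of the partner map
  have m1 : attM (s t) t d p M (pt t (thru (s t) d)) =
      if M p = p then pt t (thru (s t) d) else M p := by simp [attM]
  have m2 : ∀ c, c ≠ thru (s t) d → attM (s t) t d p M (pt t c) = pt t (thru (s t) c) := by
    intro c hc
    have h1 : pt t c ≠ pt t (thru (s t) d) := fun e => hc (pt_inj.1 e).2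
    have h2 : pt t c ≠ M p := fun e => nT c _ hMT e.symm
    simp only [attM, if_neg h1, if_neg h2, if_true]
  have m3 : ∀ r ∈ b, r ≠ M p → attM (s t) t d p M r = M r := by
    intro r hr h2
    have h1 : r ≠ pt t (thru (s t) d) := nT _ _ (hbT r hr)
    simp only [attM, if_neg h1, if_neg h2]
    match r, hr with
    | none, _ => rfl
    | some (t', c), hr =>
      have : t' ≠ t := fun e => nT c _ (hbT _ hr) (by rw [e])
      simp only [if_neg this]
  have m4 : attM (s t) t d p M (M p) = pt t (thru (s t) d) := by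
    have h1 : M p ≠ pt t (thru (s t) d) := nT _ _ hMT
    simp only [attM, if_neg h1, if_true]
  have hMb : M p ≠ p → M p ∈ b := by
    intro hf
    have := h.mem p hpL
    simp only [List.mem_cons] at this
    exact this.resolve_left hf
  have old_mem : ∀ r ∈ b, r ≠ M p → M r ∈ b ∧ M r ≠ M p := by
    intro r hr h1
    constructor
    · have := h.mem r (hbL r hr)
      simp only [List.mem_cons] at this
      rcases this with h3 | h3
      · exact absurd (by rw [← h3, h.inv r (hbL r hr)]) h1
      · exact h3
    · intro h3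
      have := congrArg M h3
      rw [h.inv r (hbL r hr), h.inv p hpL] at this
      exact hpb (this ▸ hr)
  have hsp2 : ∀ c, c ≠ d → c ≠ thru (s t) d → thru (s t) c ≠ d ∧ thru (s t) c ≠ thru (s t) d := by
    intro c h1 h2
    constructor
    · intro e; exact h2 (by rw [← e, thru_thru])
    · intro e
      have := congrArg (thru (s t)) e
      rw [thru_thru, thru_thru] at this; exact h1 this
  -- strands and sides
  have g1 : (p, pt t d) ∈ (p, pt t d) :: G ∨ (pt t d, p) ∈ (p, pt t d) :: G :=
    Or.inl (by simp)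
  have g2 : Wk s ((p, pt t d) :: G) (pt t d) (pt t (thru (s t) d)) := Wk.one t d
  have g3 : R s B ((p, pt t d) :: G) (lc p) (rc (pt t d)) := R.glr (by simp)
  have g4 : R s B ((p, pt t d) :: G) (rc p) (lc (pt t d)) := R.grl (by simp)
  have g5 : R s B ((p, pt t d) :: G) (rc (pt t d)) (lc (pt t (thru (s t) d))) := tile_side s _ t d
  have g6 : R s B ((p, pt t d) :: G) (rc (pt t (thru (s t) d))) (lc (pt t d)) := by
    have := tile_side (B := B) s ((p, pt t d) :: G) t (thru (s t) d)
    rwa [thru_thru] at this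
  -- case analysis on the ring
  have cases4 : ∀ r, r ∈ pt t (d + 1) :: pt t (d + 2) :: pt t (d + 3) :: b →
      r = pt t (thru (s t) d) ∨ (∃ c, c ≠ d ∧ c ≠ thru (s t) d ∧ r = pt t c) ∨
      (r ∈ b ∧ r = M p ∧ M p ≠ p) ∨ (r ∈ b ∧ r ≠ M p) := by
    intro r hr
    rcases (hring r).1 hr with ⟨c, hc, rfl⟩ | hr
    · by_cases hce : c = thru (s t) d
      · exact Or.inl (by rw [hce])
      · exact Or.inr (Or.inl ⟨c, hc, hce, rfl⟩)
    · by_cases hrM : r = M p
      · refine Or.inr (Or.inr (Or.inl ⟨hr, hrM, fun e => hpb ?_⟩))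
        rw [hrM, e] at hr; exact hr
      · exact Or.inr (Or.inr (Or.inr ⟨hr, hrM⟩))
  -- the potential of the extended link
  have potL : M p ≠ p → ∃ k, Pot s B ((p, pt t d) :: G) k ∧
      ∀ r ∈ pt t (d + 1) :: pt t (d + 2) :: pt t (d + 3) :: b,
        k (rc r) = k (lc r) + jp (pt t (thru (s t) d)) (M p) r := by
    intro hf
    obtain ⟨k, hk, kj⟩ := h.pot p hpL hf
    obtain ⟨c0, ⟨hc1, hc2⟩, hc⟩ := cut_corner (s t) d
    have kp : k (rc p) = k (lc p) + 1 := by rw [kj p hpL]; simp [jp]
    let c1 : ZMod 2 := k (rc p) + (if d = c0 then 1 else 0)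
    let u : ZMod 4 → ZMod 2 := fun e => c1 + (if e = c0 then 1 else 0)
    have h2 : (1 : ZMod 2) + 1 = 0 := by decide
    have hdd : ∀ x : ZMod 2, x + x = 0 := by decide
    refine ⟨upd t u k, hk.upd h.base h.inG ht hpT ?_ ?_ ?_, ?_⟩
    · show c1 + (if d + 1 = c0 then 1 else 0) = k (lc p)
      rw [hc d]
      simp only [true_or, if_true]
      show k (rc p) + (if d = c0 then 1 else 0) + ((if d = c0 then 1 else 0) + 1) = k (lc p)
      rw [kp]
      have := hdd (if d = c0 then 1 else 0)
      linear_combination this + h2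
    · show k (rc p) + (if d = c0 then 1 else 0) + (if d = c0 then 1 else 0) = k (rc p)
      have := hdd (if d = c0 then 1 else 0)
      linear_combination this
    · show c1 + (if dg (s t) = c0 then 1 else 0) = c1 + (if dg (s t) + 2 = c0 then 1 else 0)
      rw [if_neg hc1.symm, if_neg hc2.symm]
    · intro r hr
      rcases (hring r).1 hr with ⟨c, hcd, rfl⟩ | hr
      · rw [rc_some, lc_some]
        show upd t u k (pt t (c + 1)) = upd t u k (pt t c) + _
        rw [upd_pt, upd_pt]
        show c1 + (if c + 1 = c0 then 1 else 0) = c1 + (if c = c0 then 1 else 0) + _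
        rw [hc c]
        have : jp (pt t (thru (s t) d)) (M p) (pt t c) =
            if c = d ∨ c = thru (s t) d then (1 : ZMod 2) else 0 := by
          have e2 : pt t c ≠ M p := fun e => nT c _ hMT e.symm
          simp only [jp, pt_inj, true_and, hcd, false_or]
          simp only [pt, e2, or_false]
        rw [this]; ring
      · rw [upd_rc ht (hbT r hr), upd_lc ht (hbT r hr), kj r (hbL r hr)]
        have e1 : r ≠ p := fun e => hpb (e ▸ hr)
        have e2 : r ≠ pt t (thru (s t) d) := nT _ _ (hbT r hr)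
        simp only [jp, e1, e2]
  refine ⟨fun t' ht' => Set.mem_insert_of_mem _ (h.base t' ht'),
    ?_, ?_, ?_, ?_, ?_, ?_, ?_, ?_, ?_, ?_, ?_⟩
  · -- nodup
    have a1 : ∀ c, pt t c ∉ b := fun c hc => nT c _ (hbT _ hc) rfl
    have a2 : ∀ d : ZMod 4, d + 1 ≠ d + 2 ∧ d + 1 ≠ d + 3 ∧ d + 2 ≠ d + 3 := by decide
    simp only [List.nodup_cons, List.mem_cons, pt_inj, true_and, a1, or_false, not_or]
    exact ⟨⟨(a2 d).1, (a2 d).2.1⟩, (a2 d).2.2, not_false, hbnd⟩
  · -- inL
    intro r hr
    rcases (hring r).1 hr with ⟨c, hc, rfl⟩ | hr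
    · exact inT_pt.2 (Set.mem_insert _ _)
    · exact (hbT r hr).mono (Set.subset_insert _ _)
  · -- inG
    intro x hx
    rcases List.mem_cons.1 hx with rfl | hx
    · exact ⟨hpT.mono (Set.subset_insert _ _), inT_pt.2 (Set.mem_insert _ _)⟩
    · exact ⟨(h.inG x hx).1.mono (Set.subset_insert _ _),
        (h.inG x hx).2.mono (Set.subset_insert _ _)⟩
  · -- mem
    intro r hr
    rcases cases4 r hr with rfl | ⟨c, h1, h2, rfl⟩ | ⟨h1, h2, h3⟩ | ⟨h1, h2⟩
    · rw [m1]
      by_cases hf : M p = p
      · rw [if_pos hf]; exact hr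
      · rw [if_neg hf]; exact (hring _).2 (Or.inr (hMb hf))
    · rw [m2 c h2]; exact (hring _).2 (Or.inl ⟨_, (hsp2 c h1 h2).1, rfl⟩)
    · rw [h2, m4]; exact (hring _).2 (Or.inl ⟨_, hed, rfl⟩)
    · rw [m3 r h1 h2]; exact (hring _).2 (Or.inr (old_mem r h1 h2).1)
  · -- inv
    intro r hr
    rcases cases4 r hr with rfl | ⟨c, h1, h2, rfl⟩ | ⟨h1, h2, h3⟩ | ⟨h1, h2⟩
    · rw [m1]
      by_cases hf : M p = p
      · rw [if_pos hf, m1, if_pos hf]
      · rw [if_neg hf, m4]
    · rw [m2 c h2, m2 _ (hsp2 c h1 h2).2, thru_thru]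
    · rw [h2, m4, m1, if_neg h3]
    · rw [m3 r h1 h2, m3 _ (old_mem r h1 h2).1 (old_mem r h1 h2).2, h.inv r (hbL r h1)]
  · -- str
    intro r hr hM
    rcases cases4 r hr with rfl | ⟨c, h1, h2, rfl⟩ | ⟨h1, h2, h3⟩ | ⟨h1, h2⟩
    · rw [m1] at hM ⊢
      by_cases hf : M p = p
      · rw [if_pos hf] at hM; exact absurd rfl hM
      · rw [if_neg hf]
        exact g2.symm.step g1.symm (h.str p hpL hf).cons
    · rw [m2 c h2]; exact Wk.one t c
    · rw [h2, m4]
      exact (h.str p hpL h3).cons.symm.step g1 g2
    · rw [m3 r h1 h2] at hM ⊢; exact (h.str r (hbL r h1) hM).cons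
  · -- leg
    intro r hr hM
    rcases cases4 r hr with rfl | ⟨c, h1, h2, rfl⟩ | ⟨h1, h2, h3⟩ | ⟨h1, h2⟩
    · rw [m1] at hM
      by_cases hf : M p = p
      · exact (h.leg p hpL hf).cons.step g1 g2
      · rw [if_neg hf] at hM
        exact absurd hM (nT _ _ hMT)
    · rw [m2 c h2, pt_inj] at hM
      exact absurd hM.2 (thru_ne _ _)
    · rw [h2, m4] at hM
      exact absurd hM.symm (nT _ _ hMT)
    · rw [m3 r h1 h2] at hM; exact (h.leg r (hbL r h1) hM).cons
  · -- legR
    intro r hr hM
    rcases cases4 r hr with rfl | ⟨c, h1, h2, rfl⟩ | ⟨h1, h2, h3⟩ | ⟨h1, h2⟩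
    · rw [m1] at hM
      by_cases hf : M p = p
      · exact ((h.legR p hpL hf).cons.trans g3).trans g5
      · rw [if_neg hf] at hM
        exact absurd hM (nT _ _ hMT)
    · rw [m2 c h2, pt_inj] at hM
      exact absurd hM.2 (thru_ne _ _)
    · rw [h2, m4] at hM
      exact absurd hM.symm (nT _ _ hMT)
    · rw [m3 r h1 h2] at hM; exact (h.legR r (hbL r h1) hM).cons
  · -- side
    intro r hr
    have q1 : R s B ((p, pt t d) :: G) (rc p) (lc (M p)) := (h.side p hpL).cons
    rcases cases4 r hr with rfl | ⟨c, h1, h2, rfl⟩ | ⟨h1, h2, h3⟩ | ⟨h1, h2⟩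
    · rw [m1]
      by_cases hf : M p = p
      · rw [if_pos hf]
        rw [hf] at q1
        exact (((g6.trans g4.symm).trans q1).trans g3).trans g5
      · rw [if_neg hf]
        exact (g6.trans g4.symm).trans q1
    · rw [m2 c h2]; exact tile_side s _ t c
    · rw [h2, m4]
      have q2 : R s B ((p, pt t d) :: G) (rc (M p)) (lc p) := by
        have := (h.side (M p) (h.mem p hpL)).cons (x := (p, pt t d))
        rwa [h.inv p hpL] at this
      exact (q2.trans g3).trans g5
    · rw [m3 r h1 h2]; exact (h.side r (hbL r h1)).cons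
  · -- cyc
    have hcyc := h.cyc
    simp only [Cyc] at hcyc
    show List.IsChain _ (pt t (d + 1) :: pt t (d + 2) :: pt t (d + 3) :: (b ++ [pt t (d + 1)]))
    simp only [List.isChain_cons_cons]
    have a1 : ∀ d : ZMod 4, d + 1 + 1 = d + 2 ∧ d + 2 + 1 = d + 3 ∧ d + 3 + 1 = d := by decide
    refine ⟨?_, ?_, ?_⟩
    · rw [rc_some, lc_some, (a1 d).1]; exact R.refl _
    · rw [rc_some, lc_some, (a1 d).2.1]; exact R.refl _
    · have hch : List.IsChain (fun p_1 q => R s B ((p, pt t d) :: G) (rc p_1) (lc q))
          (p :: (b ++ [p])) := List.IsChain.imp (fun a c hac => hac.cons) hcyc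
      refine chain_head (x := p) (fun y hy => ?_) (chain_last (p := p) (fun y hy => ?_) p b hch)
      · have : rc (pt t (d + 3)) = lc (pt t d) := by rw [rc_some, lc_some, (a1 d).2.2]
        rw [this]; exact g4.symm.trans hy
      · have : lc (pt t (d + 1)) = rc (pt t d) := rfl
        rw [this]; exact hy.trans g3
  · -- pot
    intro r hr hM
    rcases cases4 r hr with rfl | ⟨c, h1, h2, rfl⟩ | ⟨h1, h2, h3⟩ | ⟨h1, h2⟩
    · rw [m1] at hM ⊢
      by_cases hf : M p = p
      · rw [if_pos hf] at hM; exact absurd rfl hM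
      · rw [if_neg hf]; exact potL hf
    · rw [m2 c h2]
      obtain ⟨c0, ⟨hc1, hc2, hc3, hc4⟩, hc⟩ := cut_corner2 (s t) d c h1 h2
      have hz : Pot s B G (fun _ => 0) :=
        ⟨fun _ _ => rfl, fun _ _ _ => rfl, fun _ _ _ => rfl, fun _ => rfl⟩
      refine ⟨upd t (fun e => if e = c0 then 1 else 0) (fun _ => 0),
        hz.upd h.base h.inG ht hpT ?_ ?_ ?_, ?_⟩
      · show (if d + 1 = c0 then (1 : ZMod 2) else 0) = 0
        rw [if_neg hc4.symm]
      · show (if d = c0 then (1 : ZMod 2) else 0) = 0
        rw [if_neg hc3.symm]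
      · show (if dg (s t) = c0 then (1 : ZMod 2) else 0) = (if dg (s t) + 2 = c0 then 1 else 0)
        rw [if_neg hc1.symm, if_neg hc2.symm]
      · intro r hr
        rcases (hring r).1 hr with ⟨c', hcd, rfl⟩ | hr
        · rw [rc_some, lc_some]
          show upd t _ _ (pt t (c' + 1)) = upd t _ _ (pt t c') + _
          rw [upd_pt, upd_pt, hc c']
          simp only [jp, pt_inj, true_and]
        · rw [upd_rc ht (hbT r hr), upd_lc ht (hbT r hr), jp_ne (nT _ _ (hbT r hr))
            (nT _ _ (hbT r hr)), add_zero]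
    · rw [h2, m4]
      obtain ⟨k, hk, kj⟩ := potL h3
      exact ⟨k, hk, fun x hx => by rw [kj x hx]; simp only [jp, or_comm]⟩
    · rw [m3 r h1 h2] at hM ⊢
      obtain ⟨k, hk, kj⟩ := h.pot r (hbL r h1) hM
      have hp1 : p ≠ r := fun e => hpb (e ▸ h1)
      have hp2 : p ≠ M r := fun e => h2 (by rw [e, h.inv r (hbL r h1)])
      have e1 : k (rc p) = k (lc p) := by rw [kj p hpL, jp_ne hp1 hp2, add_zero]
      refine ⟨upd t (fun _ => k (lc p)) k, hk.upd h.base h.inG ht hpT rfl e1.symm rfl, fun x hx => ?_⟩
      rcases (hring x).1 hx with ⟨c', hcd, rfl⟩ | hx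
      · rw [rc_some, lc_some]
        show upd t _ _ (pt t (c' + 1)) = upd t _ _ (pt t c') + _
        rw [upd_pt, upd_pt, jp_ne (nT _ _ (hbT r h1)).symm
          (nT _ _ (hbT _ (old_mem r h1 h2).1)).symm, add_zero]
      · rw [upd_rc ht (hbT x hx), upd_lc ht (hbT x hx), kj x (hbL x hx)]

/-- the same with the partner map of `Sw0_300` -/
theorem Gd.att' {s : T → Bool} {p : Port T} {b : List (Port T)}
    {G : List (Port T × Port T)} {Ts : Set T} {M : Port T → Port T}
    (h : Gd s B (p :: b) G Ts M) {t : T} (ht : t ∉ Ts) (d : ZMod 4) :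
    Gd s B (pt t (d + 1) :: pt t (d + 2) :: pt t (d + 3) :: b) ((p, pt t d) :: G) (insert t Ts)
      (fun x => if tl x = some t then
        if x = some (t, thru (s t) d) then (if M p = p then x else M p)
        else some (t, thru (s t) (sd x))
      else if M x = p then some (t, thru (s t) d) else M x) := by
  refine (h.att ht d).congr fun x hx => ?_
  have hnd := h.nodup
  simp only [List.nodup_cons] at hnd
  have hx' : (∃ c, x = pt t c) ∨ x ∈ b := by
    simp only [List.mem_cons] at hx
    rcases hx with e | e | e | e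
    · exact Or.inl ⟨_, e⟩
    · exact Or.inl ⟨_, e⟩
    · exact Or.inl ⟨_, e⟩
    · exact Or.inr e
  rcases hx' with ⟨c, rfl⟩ | hx'
  · have hMT : inT Ts (M p) := h.inL _ (h.mem p (by simp))
    have h2 : pt t c ≠ M p := fun e => by rw [← e] at hMT; exact ht (inT_pt.1 hMT)
    simp only [attM, Sw300.tl_some, if_true, Sw300.sd_some]
    by_cases hc : pt t c = pt t (thru (s t) d)
    · rw [if_pos hc, if_pos hc, hc]
    · rw [if_neg hc, if_neg hc, if_neg h2]
  · have hxT : inT Ts x := h.inL x (by simp [hx'])
    have hne : ∀ c, x ≠ pt t c := fun c e => by subst e; exact ht (inT_pt.1 hxT)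
    have htl : tl x ≠ some t := by
      match x, hne with
      | none, _ => simp
      | some (t', c), hne => intro e; exact hne c (by
          simp only [Sw300.tl_some, Option.some.injEq] at e; rw [e])
    have hiff : (M x = p) ↔ (x = M p) := by
      constructor
      · intro e; rw [← e, h.inv x (by simp [hx'])]
      · intro e; rw [e, h.inv p (by simp)]
    simp only [attM, if_neg htl, if_neg (hne _), hiff]
    by_cases hc : x = M p
    · rw [if_pos hc, if_pos hc]
    · rw [if_neg hc, if_neg hc]
      match x, hne with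
      | none, _ => rfl
      | some (t', c), hne =>
        have : t' ≠ t := fun e => hne c (by rw [e])
        simp only [if_neg this]

/-! ### words -/

/-- base tile (words without leg) -/
def bs : Wd T → Option T
  | .leg => none
  | .tile t => some t
  | .att w _ _ _ => bs w
  | .con w _ _ => bs w

/-- glued pairs of ports -/
def gl : Wd T → List (Port T × Port T)
  | .leg => []
  | .tile _ => []
  | .att w p t d => (p, pt t d) :: gl w
  | .con w p q => (p, q) :: gl w

/-- the set of tiles -/
def ts : Wd T → Set T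
  | .leg => ∅
  | .tile t => {t}
  | .att w _ t _ => insert t (ts w)
  | .con w _ _ => ts w

omit [DecidableEq T] in
theorem mem_ts {w : Wd T} {t : T} : t ∈ ts w ↔ t ∈ tls w := by
  induction w with
  | leg => simp [ts, tls]
  | tile t' => simp [ts, tls]
  | att w p t' d ih => simp [ts, tls, ih]
  | con w p q ih => simp [ts, tls, ih]

theorem Gd.rotated {s : T → Bool} {L L' : List (Port T)} {G : List (Port T × Port T)} {Ts : Set T}
    {M : Port T → Port T} (h : Gd s B L G Ts M) (hr : L ~r L') : Gd s B L' G Ts M := by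
  obtain ⟨n, rfl⟩ := hr
  induction n generalizing L with
  | zero => simpa using h
  | succ n ih =>
    cases L with
    | nil => simpa using h
    | cons a l =>
      rw [List.rotate_cons_succ]
      exact ih h.rot

theorem flatMap_not_mem {α : Type*} [DecidableEq α] (p : α) (x : List α) :
    ∀ l : List α, p ∉ l → (l.flatMap fun y => if y = p then x else [y]) = l
  | [], _ => rfl
  | a :: l, h => by
    simp only [List.mem_cons, not_or] at h
    rw [List.flatMap_cons, flatMap_not_mem p x l h.2, if_neg (Ne.symm h.1)]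
    rfl

theorem gd_wd (s : T → Bool) : ∀ {w : Wd T}, Sw300.Ok w →
    Gd s (bs w) (Sw300.L w) (gl w) (ts w) (Sw300.M s w)
  | .leg, _ => gd_leg s
  | .tile t, _ => by
    refine (gd_tile s t).congr fun x hx => ?_
    match x with
    | none => rfl
    | some (t', c) =>
      simp only [Sw300.M, Sw300.tl_some, Sw300.sd_some, Option.some.injEq, tM]
  | .att w p t d, h => by
    obtain ⟨hw, hp, ht, hnone⟩ := h
    have ih := gd_wd s hw
    obtain ⟨l1, l2, hL⟩ := List.append_of_mem hp
    have hnd := ih.nodup
    rw [hL] at hnd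
    have hn1 : p ∉ l1 := fun hm => (List.nodup_append.1 hnd).2.2 p hm p (by simp) rfl
    have hn2 : p ∉ l2 := fun hm => (List.nodup_cons.1 (List.nodup_append.1 hnd).2.1).1 hm
    have e1 : Sw300.L w ~r p :: (l2 ++ l1) := by
      rw [hL]; exact ⟨l1.length, by rw [List.rotate_append_length_eq]; simp⟩
    have h2 := (ih.rotated e1).att' (t := t) (fun hm => ht (mem_ts.1 hm)) d
    have e2 : Sw300.L (.att w p t d) =
        l1 ++ (pt t (d + 1) :: pt t (d + 2) :: pt t (d + 3) :: l2) := by
      show ((Sw300.L w).flatMap fun x =>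
        if x = p then [some (t, d + 1), some (t, d + 2), some (t, d + 3)] else [x]) = _
      rw [hL, List.flatMap_append, List.flatMap_cons, flatMap_not_mem p _ l1 hn1,
        flatMap_not_mem p _ l2 hn2, if_pos rfl]
      rfl
    rw [e2]
    refine (h2.rotated ?_)
    refine List.IsRotated.symm ⟨l1.length, ?_⟩
    rw [List.rotate_append_length_eq]; simp
  | .con w p q, h => by
    obtain ⟨hw, hpn, hqn, hpq, hadj⟩ := h
    have ih := gd_wd s hw
    have hnd := ih.nodup
    have filt : ∀ l : List (Port T), p ∉ l → q ∉ l → (l.filter fun x => x ≠ p ∧ x ≠ q) = l := by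
      intro l h1 h2
      rw [List.filter_eq_self]
      intro x hx
      simp only [ne_eq, decide_eq_true_eq]
      exact ⟨fun e => h1 (e ▸ hx), fun e => h2 (e ▸ hx)⟩
    rcases hadj with ⟨l1, l2, hL⟩ | ⟨l1, hL⟩
    · rw [hL] at hnd
      have hn := List.nodup_append.1 hnd
      have hp1 : p ∉ l1 := fun hm => hn.2.2 p hm p (by simp) rfl
      have hq1 : q ∉ l1 := fun hm => hn.2.2 q hm q (by simp) rfl
      have hn2 := List.nodup_cons.1 hn.2.1
      have hp2 : p ∉ l2 := fun hm => hn2.1 (List.mem_cons_of_mem _ hm)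
      have hq2 : q ∉ l2 := (List.nodup_cons.1 hn2.2).1
      have e1 : Sw300.L w ~r p :: q :: (l2 ++ l1) := by
        rw [hL]; exact ⟨l1.length, by rw [List.rotate_append_length_eq]; simp⟩
      have h2 := (ih.rotated e1).con
      have e2 : Sw300.L (.con w p q) = l1 ++ l2 := by
        show ((Sw300.L w).filter fun x => x ≠ p ∧ x ≠ q) = _
        rw [hL, List.filter_append, filt l1 hp1 hq1, List.filter_cons, List.filter_cons,
          filt l2 hp2 hq2]
        simp
      rw [e2]
      refine h2.rotated (List.IsRotated.symm ⟨l1.length, ?_⟩)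
      rw [List.rotate_append_length_eq]
    · rw [hL] at hnd
      have hn := List.nodup_append.1 hnd
      have hp1 : p ∉ l1 := fun hm => hn.2.2 p (by simp [hm]) p (by simp) rfl
      have hq1 : q ∉ l1 := (List.nodup_cons.1 hn.1).1
      have e1 : Sw300.L w ~r p :: q :: l1 := by
        rw [hL]
        refine ⟨(q :: l1).length, ?_⟩
        rw [List.rotate_append_length_eq]; simp
      have h2 := (ih.rotated e1).con
      have e2 : Sw300.L (.con w p q) = l1 := by
        show ((Sw300.L w).filter fun x => x ≠ p ∧ x ≠ q) = _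
        rw [hL, List.filter_append, List.filter_cons, filt l1 hp1 hq1]
        simp
      rw [e2]
      exact h2

end Crest.Agent.R158.Gc748
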