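import Crest.Agent.R158.Pt1_266
import Crest.Agent.R158.Gc1_748

/-!
# R158, patches (helper266), file Pt2: the strands of a word

* `Gw w` : glueing relation of a word on tile ports (`gl w` of `Gc1_748`)
* `mem_L` : the free ends of a word are the unglued ports of its tiles
* `glu_Gw` : `Glu (Gw w)`
* `walk_word` : the strand from a matched end `x` ends at `M s w x`, its turning is `tau s w x`
* `Flat w` : all the seam values vanish
-/

set_option autoImplicit false
set_option linter.unusedVariables false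
set_option linter.unusedSectionVars false
set_option linter.unusedSimpArgs false

namespace Crest.Agent.R158.Pt266

open Crest.Agent.R158.Sw300
open Crest.Agent.R158.Gc748 (gl bs ts gd_wd pt)

section

variable {T : Type*} [DecidableEq T]

/-- glueing relation of a word -/
def Gw (w : Wd T) (a b : T × ZMod 4) : Prop :=
  ((some a : Port T), (some b : Port T)) ∈ gl w ∨ ((some b : Port T), (some a : Port T)) ∈ gl w

/-- the port occurs in a glued pair -/
def Gp (w : Wd T) (x : Port T) : Prop := ∃ y, (x, y) ∈ gl w ∨ (y, x) ∈ gl w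

/-- all the glueings are flat -/
def Flat : Wd T → Prop
  | .leg => True
  | .tile _ => True
  | .att w _ _ _ => Flat w
  | .con w p q => Flat w ∧ phi w q = phi w p - 2

lemma mem_L_att {w : Wd T} {p : Port T} {t : T} {d : ZMod 4} {x : Port T} :
    x ∈ L (.att w p t d) ↔ (p ∈ L w ∧ (x = some (t, d + 1) ∨ x = some (t, d + 2) ∨
      x = some (t, d + 3))) ∨ (x ∈ L w ∧ x ≠ p) := by
  simp only [L, List.mem_flatMap]
  constructor
  · rintro ⟨y, hy, hx⟩
    split_ifs at hx with h
    · subst h
      simp only [List.mem_cons, List.not_mem_nil, or_false] at hx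
      exact Or.inl ⟨hy, hx⟩
    · simp only [List.mem_singleton] at hx
      subst hx
      exact Or.inr ⟨hy, h⟩
  · rintro (⟨h1, h2⟩ | ⟨h1, h2⟩)
    · exact ⟨p, h1, by rw [if_pos rfl]; simpa using h2⟩
    · exact ⟨x, h1, by rw [if_neg h2]; simp⟩

lemma mem_L_con {w : Wd T} {p q x : Port T} :
    x ∈ L (.con w p q) ↔ x ∈ L w ∧ x ≠ p ∧ x ≠ q := by
  simp [L, List.mem_filter]

lemma tl_mem {w : Wd T} (hw : Ok w) {t : T} {d : ZMod 4} (h : (some (t, d) : Port T) ∈ L w) :
    t ∈ tls w := by
  have := (gd_wd (fun _ => true) hw).inL _ h (t, d) rfl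
  exact Gc748.mem_ts.1 this

lemma gl_mem {w : Wd T} (hw : Ok w) {t : T} {d : ZMod 4} {y : Port T}
    (h : ((some (t, d) : Port T), y) ∈ gl w ∨ (y, (some (t, d) : Port T)) ∈ gl w) : t ∈ tls w := by
  have h0 := (gd_wd (fun _ => true) hw).inG
  rcases h with h | h
  · exact Gc748.mem_ts.1 ((h0 _ h).1 (t, d) rfl)
  · exact Gc748.mem_ts.1 ((h0 _ h).2 (t, d) rfl)

lemma z4_three (d e : ZMod 4) (h : e ≠ d) : e = d + 1 ∨ e = d + 2 ∨ e = d + 3 := by
  revert d e; decide

lemma z4_ne (d : ZMod 4) : d + 1 ≠ d ∧ d + 2 ≠ d ∧ d + 3 ≠ d := by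
  revert d; decide

/-- the free ends of a word are the unglued ports of its tiles -/
theorem mem_L : ∀ {w : Wd T}, Ok w → ∀ p : T × ZMod 4,
    (some p : Port T) ∈ L w ↔ p.1 ∈ tls w ∧ ¬ Gp w (some p)
  | .leg, _, p => by simp [L, tls]
  | .tile t, _, ⟨t', d⟩ => by
    simp only [L, tls, List.mem_cons, reduceCtorEq, Option.some.injEq, Prod.mk.injEq, false_or,
      List.not_mem_nil, or_false, Gp, gl, exists_false, not_false_eq_true, and_true]
    constructor
    · rintro (h | h | h | h) <;> exact h.1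
    · rintro rfl
      have : d = 0 ∨ d = 1 ∨ d = 2 ∨ d = 3 := by revert d; decide
      rcases this with rfl | rfl | rfl | rfl <;> simp
  | .att w p t d, h, ⟨t', e⟩ => by
    obtain ⟨hw, hp, ht, hnone⟩ := h
    have ih := mem_L hw
    have hpt : ∀ e, p ≠ some (t, e) := fun e he => ht (tl_mem hw (he ▸ hp))
    rw [mem_L_att]
    constructor
    · rintro (⟨-, h1⟩ | ⟨h1, h2⟩)
      · have h3 : t' = t ∧ e ≠ d := by
          simp only [Option.some.injEq, Prod.mk.injEq] at h1
          rcases h1 with ⟨h1, rfl⟩ | ⟨h1, rfl⟩ | ⟨h1, rfl⟩ <;> refine ⟨h1, ?_⟩ <;>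
            revert d <;> decide
        obtain ⟨rfl, h4⟩ := h3
        refine ⟨by simp [tls], ?_⟩
        rintro ⟨y, hy⟩
        simp only [gl, List.mem_cons, Prod.mk.injEq] at hy
        rcases hy with (⟨hy, -⟩ | hy) | (⟨-, hy⟩ | hy)
        · exact hpt _ hy.symm
        · exact ht (gl_mem hw (Or.inl hy))
        · simp only [Option.some.injEq, Prod.mk.injEq, true_and] at hy
          exact h4 hy
        · exact ht (gl_mem hw (Or.inr hy))
      · obtain ⟨h3, h4⟩ := (ih _).1 h1
        refine ⟨by simp [tls]; exact Or.inr h3, ?_⟩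
        rintro ⟨y, hy⟩
        simp only [gl, List.mem_cons, Prod.mk.injEq] at hy
        rcases hy with (⟨hy, -⟩ | hy) | (⟨-, hy⟩ | hy)
        · exact h2 hy
        · exact h4 ⟨y, Or.inl hy⟩
        · simp only [Option.some.injEq, Prod.mk.injEq] at hy
          exact ht (hy.1 ▸ h3)
        · exact h4 ⟨y, Or.inr hy⟩
    · rintro ⟨h1, h2⟩
      simp only [tls, List.mem_cons] at h1
      by_cases ht' : t' = t
      · subst ht'
        left
        refine ⟨hp, ?_⟩
        have h3 : e ≠ d := by
          rintro rfl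
          exact h2 ⟨p, Or.inr (by simp [gl])⟩
        rcases z4_three d e h3 with rfl | rfl | rfl <;> simp
      · right
        have h3 : t' ∈ tls w := h1.resolve_left ht'
        refine ⟨(ih _).2 ⟨h3, fun ⟨y, hy⟩ => h2 ⟨y, ?_⟩⟩, ?_⟩
        · rcases hy with hy | hy
          · exact Or.inl (by simp [gl, hy])
          · exact Or.inr (by simp [gl, hy])
        · rintro rfl
          exact h2 ⟨some (t, d), Or.inl (by simp [gl])⟩
  | .con w p q, h, ⟨t', e⟩ => by
    obtain ⟨hw, hpn, hqn, hpq, hadj⟩ := h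
    have ih := mem_L hw
    rw [mem_L_con, ih]
    simp only [tls]
    constructor
    · rintro ⟨⟨h1, h2⟩, h3, h4⟩
      refine ⟨h1, ?_⟩
      rintro ⟨y, hy⟩
      simp only [gl, List.mem_cons, Prod.mk.injEq] at hy
      rcases hy with (⟨hy, -⟩ | hy) | (⟨-, hy⟩ | hy)
      · exact h3 hy
      · exact h2 ⟨y, Or.inl hy⟩
      · exact h4 hy
      · exact h2 ⟨y, Or.inr hy⟩
    · rintro ⟨h1, h2⟩
      refine ⟨⟨h1, fun ⟨y, hy⟩ => h2 ⟨y, ?_⟩⟩, ?_, ?_⟩
      · rcases hy with hy | hy
        · exact Or.inl (by simp [gl, hy])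
        · exact Or.inr (by simp [gl, hy])
      · rintro rfl
        exact h2 ⟨q, Or.inl (by simp [gl])⟩
      · rintro rfl
        exact h2 ⟨p, Or.inr (by simp [gl])⟩

lemma adj_mem {α : Type*} {l : List α} {p q : α} (h : Adj l p q) : p ∈ l ∧ q ∈ l := by
  rcases h with ⟨l1, l2, rfl⟩ | ⟨l1, rfl⟩ <;> simp

/-- no end of the word is glued (also for `none`) -/
theorem not_glued {w : Wd T} (hw : Ok w) {x y : Port T} (hx : x ∈ L w)
    (h : (x, y) ∈ gl w ∨ (y, x) ∈ gl w) : False := by
  rcases x with - | p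
  · -- the marker / leg is never glued while it is in the list

    induction w generalizing y with
    | leg => simp [gl] at h
    | tile t => simp [gl] at h
    | att w p t d ih =>
      obtain ⟨hw, hp, ht, hnone⟩ := hw
      rw [mem_L_att] at hx
      rcases hx with ⟨-, hx⟩ | ⟨hx, hx2⟩
      · simp at hx
      · simp only [gl, List.mem_cons, Prod.mk.injEq, reduceCtorEq, and_false, false_or] at h
        rcases h with (⟨h, -⟩ | h) | h
        · exact hx2 h
        · exact ih hw hx (Or.inl h)
        · exact ih hw hx (Or.inr h)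
    | con w p q ih =>
      obtain ⟨hw, hpn, hqn, hpq, hadj⟩ := hw
      rw [mem_L_con] at hx
      simp only [gl, List.mem_cons, Prod.mk.injEq] at h
      rcases h with (⟨h, -⟩ | h) | (⟨-, h⟩ | h)
      · exact hpn h.symm
      · exact ih hw hx.1 (Or.inl h)
      · exact hqn h.symm
      · exact ih hw hx.1 (Or.inr h)
  · exact ((mem_L hw p).1 hx).2 ⟨y, h⟩

/-- the glueing relation of all ports of a word is functional -/
theorem gl_fn : ∀ {w : Wd T}, Ok w → ∀ {x y y' : Port T}, ((x, y) ∈ gl w ∨ (y, x) ∈ gl w) →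
    ((x, y') ∈ gl w ∨ (y', x) ∈ gl w) → y = y'
  | .leg, _, x, y, y', h, _ => by simp [gl] at h
  | .tile t, _, x, y, y', h, _ => by simp [gl] at h
  | .att w p t d, hok, x, y, y', h, h' => by
    obtain ⟨hw, hp, ht, hnone⟩ := hok
    have hpt : ∀ e, p ≠ some (t, e) := fun e he => ht (tl_mem hw (he ▸ hp))
    have np : ∀ y, ¬ ((p, y) ∈ gl w ∨ (y, p) ∈ gl w) := fun y h => not_glued hw hp h
    have nt : ∀ e y, ¬ (((some (t, e) : Port T), y) ∈ gl w ∨ (y, (some (t, e) : Port T)) ∈ gl w) :=
      fun e y h => ht (gl_mem hw h)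
    have key : ∀ {x y : Port T}, ((x, y) ∈ gl (.att w p t d) ∨ (y, x) ∈ gl (.att w p t d)) →
        (x = p ∧ y = some (t, d)) ∨ (x = some (t, d) ∧ y = p) ∨ ((x, y) ∈ gl w ∨ (y, x) ∈ gl w) := by
      intro x y h
      simp only [gl, List.mem_cons, Prod.mk.injEq] at h
      rcases h with (h | h) | (h | h)
      · exact Or.inl h
      · exact Or.inr (Or.inr (Or.inl h))
      · exact Or.inr (Or.inl ⟨h.2, h.1⟩)
      · exact Or.inr (Or.inr (Or.inr h))
    rcases key h with ⟨h1, h2⟩ | ⟨h1, h2⟩ | h1 <;> rcases key h' with ⟨h3, h4⟩ | ⟨h3, h4⟩ | h3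
    · rw [h2, h4]
    · exact absurd (h1.symm.trans h3) (hpt _)
    · rw [h1] at h3; exact absurd h3 (np _)
    · exact absurd (h3.symm.trans h1) (hpt _)
    · rw [h2, h4]
    · rw [h1] at h3; exact absurd h3 (nt _ _)
    · rw [h3] at h1; exact absurd h1 (np _)
    · rw [h3] at h1; exact absurd h1 (nt _ _)
    · exact gl_fn hw h1 h3
  | .con w p q, hok, x, y, y', h, h' => by
    obtain ⟨hw, hpn, hqn, hpq, hadj⟩ := hok
    obtain ⟨hp, hq⟩ := adj_mem hadj
    have np : ∀ y, ¬ ((p, y) ∈ gl w ∨ (y, p) ∈ gl w) := fun y h => not_glued hw hp h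
    have nq : ∀ y, ¬ ((q, y) ∈ gl w ∨ (y, q) ∈ gl w) := fun y h => not_glued hw hq h
    have key : ∀ {x y : Port T}, ((x, y) ∈ gl (.con w p q) ∨ (y, x) ∈ gl (.con w p q)) →
        (x = p ∧ y = q) ∨ (x = q ∧ y = p) ∨ ((x, y) ∈ gl w ∨ (y, x) ∈ gl w) := by
      intro x y h
      simp only [gl, List.mem_cons, Prod.mk.injEq] at h
      rcases h with (h | h) | (h | h)
      · exact Or.inl h
      · exact Or.inr (Or.inr (Or.inl h))
      · exact Or.inr (Or.inl ⟨h.2, h.1⟩)
      · exact Or.inr (Or.inr (Or.inr h))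
    rcases key h with ⟨h1, h2⟩ | ⟨h1, h2⟩ | h1 <;> rcases key h' with ⟨h3, h4⟩ | ⟨h3, h4⟩ | h3
    · rw [h2, h4]
    · exact absurd (h1.symm.trans h3) hpq
    · rw [h1] at h3; exact absurd h3 (np _)
    · exact absurd (h3.symm.trans h1) hpq
    · rw [h2, h4]
    · rw [h1] at h3; exact absurd h3 (nq _)
    · rw [h3] at h1; exact absurd h1 (np _)
    · rw [h3] at h1; exact absurd h1 (nq _)
    · exact gl_fn hw h1 h3

theorem glu_Gw {w : Wd T} (hw : Ok w) : Glu (Gw w) :=
  ⟨fun a b h => h.symm, fun a b b' h h' => by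
    have := gl_fn hw h h'
    exact Option.some.inj this⟩

lemma Gw_mono_att {w : Wd T} {p : Port T} {t : T} {d : ZMod 4} {a b : T × ZMod 4}
    (h : Gw w a b) : Gw (.att w p t d) a b := by
  rcases h with h | h
  · exact Or.inl (by simp [gl, h])
  · exact Or.inr (by simp [gl, h])

lemma Gw_mono_con {w : Wd T} {p q : Port T} {a b : T × ZMod 4}
    (h : Gw w a b) : Gw (.con w p q) a b := by
  rcases h with h | h
  · exact Or.inl (by simp [gl, h])
  · exact Or.inr (by simp [gl, h])

/-- an end of a word is a free port -/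
lemma fr_of_mem {w : Wd T} (hw : Ok w) {a : T × ZMod 4} (h : (some a : Port T) ∈ L w) :
    Fr (Gw w) a := fun b hb => not_glued hw h hb

/-- **the strands of a word** -/
theorem walk_word (s : T → Bool) : ∀ {w : Wd T}, Ok w → ∀ {x : Port T}, x ∈ L w →
    M s w x ≠ x → ∃ a b l, x = some a ∧ M s w x = some b ∧ Wk s (Gw w) a b l ∧
      (Flat w → tt s l = tau s w x)
  | .leg, _, x, hx, hm => by simp [M] at hm
  | .tile t, _, x, hx, hm => by
    rcases x with - | ⟨t', d⟩
    · simp [M] at hm
    · have ht : t' = t := by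
        simp only [L, List.mem_cons, reduceCtorEq, Option.some.injEq, Prod.mk.injEq, false_or,
          List.not_mem_nil, or_false] at hx
        rcases hx with h | h | h | h <;> exact h.1
      subst ht
      refine ⟨(t', d), (t', thru (s t') d), [(t', d)], rfl, ?_, .one, fun _ => ?_⟩
      · simp [M]
      · simp [tau]
  | .att w p t d, hok, x, hx, hm => by
    obtain ⟨hw, hp, ht, hnone⟩ := hok
    have hpt : ∀ e, p ≠ some (t, e) := fun e he => ht (tl_mem hw (he ▸ hp))
    rw [mem_L_att] at hx
    rcases hx with ⟨-, hx⟩ | ⟨hx, hx2⟩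
    · -- a side of the new tile
      obtain ⟨e, rfl, he⟩ : ∃ e, x = some (t, e) ∧ e ≠ d := by
        rcases hx with rfl | rfl | rfl
        · exact ⟨_, rfl, (z4_ne d).1⟩
        · exact ⟨_, rfl, (z4_ne d).2.1⟩
        · exact ⟨_, rfl, (z4_ne d).2.2⟩
      by_cases h1 : e = thru (s t) d
      · subst h1
        have h2 : M s (.att w p t d) (some (t, thru (s t) d)) =
            if M s w p = p then some (t, thru (s t) d) else M s w p := by
          simp [M]
        rw [h2] at hm ⊢
        have h3 : M s w p ≠ p := by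
          intro h3
          rw [if_pos h3] at hm
          exact hm rfl
        rw [if_neg h3]
        obtain ⟨a, b, l, ha, hb, hl, hf⟩ := walk_word s hw hp h3
        refine ⟨(t, thru (s t) d), b, (t, thru (s t) d) :: l, rfl, hb, ?_, fun hF => ?_⟩
        · refine Wk.cons ?_ (hl.mono fun _ _ => Gw_mono_att)
          have : pass s (t, thru (s t) d) = (t, d) := by
            simp only [pass, thru_thru]
          rw [this]
          right
          rw [← ha]
          simp [gl]
        · rw [tt_cons, hf hF]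
          simp [tau]
      · have h2 : M s (.att w p t d) (some (t, e)) = some (t, thru (s t) e) := by
          simp [M, h1]
        refine ⟨(t, e), (t, thru (s t) e), [(t, e)], rfl, h2, .one, fun _ => ?_⟩
        simp [tau, h1]
    · have hxt : tl x ≠ some t := by
        rcases x with - | ⟨t', e⟩
        · simp
        · simp only [tl_some, ne_eq, Option.some.injEq]
          rintro rfl
          exact ht (tl_mem hw hx)
      by_cases h1 : M s w x = p
      · have h2 : M s (.att w p t d) x = some (t, thru (s t) d) := by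
          simp [M, hxt, h1]
        obtain ⟨a, b, l, ha, hb, hl, hf⟩ := walk_word s hw hx (by rw [h1]; exact fun h => hx2 h.symm)
        refine ⟨a, (t, thru (s t) d), l ++ [(t, d)], ha, h2, ?_, fun hF => ?_⟩
        · refine (hl.mono fun _ _ => Gw_mono_att).snoc (r := (t, d)) ?_
          left
          rw [← hb, h1]
          simp [gl]
        · rw [tt_append, tt_cons, tt_nil, hf hF]
          simp [tau, hxt, h1]
      · have h2 : M s (.att w p t d) x = M s w x := by
          simp [M, hxt, h1]
        rw [h2] at hm ⊢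
        obtain ⟨a, b, l, ha, hb, hl, hf⟩ := walk_word s hw hx hm
        refine ⟨a, b, l, ha, hb, hl.mono fun _ _ => Gw_mono_att, fun hF => ?_⟩
        rw [hf hF]
        simp [tau, hxt, h1]
  | .con w p q, hok, x, hx, hm => by
    obtain ⟨hw, hpn, hqn, hpq, hadj⟩ := hok
    obtain ⟨hp, hq⟩ := adj_mem hadj
    rw [mem_L_con] at hx
    obtain ⟨hx, hxp, hxq⟩ := hx
    by_cases h1 : M s w x = p
    · have h2 : M s (.con w p q) x = if M s w q = q then x else M s w q := by
        simp [M, h1]
      rw [h2] at hm ⊢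
      have h3 : M s w q ≠ q := by
        intro h3
        rw [if_pos h3] at hm
        exact hm rfl
      rw [if_neg h3]
      obtain ⟨a, b, l, ha, hb, hl, hf⟩ := walk_word s hw hx (by rw [h1]; exact fun h => hxp h.symm)
      obtain ⟨a', b', l', ha', hb', hl', hf'⟩ := walk_word s hw hq h3
      refine ⟨a, b', l ++ l', ha, hb', ?_, fun hF => ?_⟩
      · refine (hl.mono fun _ _ => Gw_mono_con).trans ?_ (hl'.mono fun _ _ => Gw_mono_con)
        left
        rw [← hb, ← ha', h1]
        simp [gl]
      · rw [tt_append, hf hF.1, hf' hF.1]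
        simp only [tau, if_pos h1, hF.2]
        ring
    · by_cases h1' : M s w x = q
      · have h2 : M s (.con w p q) x = if M s w p = p then x else M s w p := by
          simp [M, h1, h1', hpq.symm]
        rw [h2] at hm ⊢
        have h3 : M s w p ≠ p := by
          intro h3
          rw [if_pos h3] at hm
          exact hm rfl
        rw [if_neg h3]
        obtain ⟨a, b, l, ha, hb, hl, hf⟩ := walk_word s hw hx
          (by rw [h1']; exact fun h => hxq h.symm)
        obtain ⟨a', b', l', ha', hb', hl', hf'⟩ := walk_word s hw hp h3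
        refine ⟨a, b', l ++ l', ha, hb', ?_, fun hF => ?_⟩
        · refine (hl.mono fun _ _ => Gw_mono_con).trans ?_ (hl'.mono fun _ _ => Gw_mono_con)
          right
          rw [← hb, ← ha', h1']
          simp [gl]
        · rw [tt_append, hf hF.1, hf' hF.1]
          simp only [tau, if_neg h1, if_pos h1', hF.2]
          ring
      · have h2 : M s (.con w p q) x = M s w x := by
          simp [M, h1, h1']
        rw [h2] at hm ⊢
        obtain ⟨a, b, l, ha, hb, hl, hf⟩ := walk_word s hw hx hm
        refine ⟨a, b, l, ha, hb, hl.mono fun _ _ => Gw_mono_con, fun hF => ?_⟩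
        rw [hf hF.1]
        simp only [tau, if_neg h1, if_neg h1']

end

end Crest.Agent.R158.Pt266
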