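import Crest.Agent.R158.Gc2_748
import Crest.Agent.R158.Xr6_249
import Crest.Agent.R158.Cb1_771

/-!
# R158 block GC, part 3: the literal face link

* `R.transfer` : corner connectivity is mapped to any equivalence relation
* `be_eq` : the list `gl w` of glued pairs is the involution `be w` of the carrier
* faces: the face `(x,y)` is the NE corner of the tile `(x,y)`; `fa (t,k)` = face of a corner
* `fp_of_R` : `R` ⟹ face path of `Cb771` through the tiles of the region
* `R_of_fp` : the converse for fully glued regions without pinch points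
-/

set_option autoImplicit false

namespace Crest.Agent.R158.Gc748

open Crest.Agent.R158.Sw300 (Port Wd thru tl sd tls)
open Crest.Agent.R158.Cb771 (FS FP dgt)
open Crest.Agent.R158.Mr679 (Dg tb)

variable {T : Type*} {B : Option T} {s : T → Bool} {G : List (Port T × Port T)} {Ts : Set T}

/-- corner connectivity is mapped to any equivalence relation respecting the generators -/
theorem R.transfer {α : Type*} {P : α → α → Prop} (hP : Equivalence P) (f : Port T → α)
    (hG : ∀ x ∈ G, inT Ts x.1 ∧ inT Ts x.2) (hB : ∀ t, B = some t → t ∈ Ts)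
    (hbas : ∀ t, B = some t → P (f none) (f (pt t 0)))
    (hgl : ∀ p q, (p, q) ∈ G → P (f (lc p)) (f (rc q)) ∧ P (f (rc p)) (f (lc q)))
    (hdg : ∀ t ∈ Ts, P (f (pt t (dg (s t)))) (f (pt t (dg (s t) + 2))))
    {c c' : Port T} (h : R s B G c c') :
    (inT Ts c ↔ inT Ts c') ∧ (inT Ts c → P (f c) (f c')) := by
  have hlr : ∀ p : Port T, (inT Ts (lc p) ↔ inT Ts p) ∧ (inT Ts (rc p) ↔ inT Ts p) := by
    intro p
    match p with
    | none => exact ⟨Iff.rfl, Iff.rfl⟩
    | some (t, d) => exact ⟨Iff.rfl, by rw [rc_some]; exact inT_pt.trans inT_pt.symm⟩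
  induction h with
  | rel x y hxy =>
    cases hxy with
    | bas t h =>
      refine ⟨⟨fun _ => inT_pt.2 (hB t h), fun _ x hx => by cases hx⟩, fun _ => hbas t h⟩
    | glr p q h =>
      have h1 := hG _ h
      exact ⟨⟨fun _ => (hlr q).2.2 h1.2, fun _ => (hlr p).1.2 h1.1⟩, fun _ => (hgl p q h).1⟩
    | grl p q h =>
      have h1 := hG _ h
      exact ⟨⟨fun _ => (hlr q).1.2 h1.2, fun _ => (hlr p).2.2 h1.1⟩, fun _ => (hgl p q h).2⟩
    | diag t =>
      exact ⟨inT_pt.trans inT_pt.symm, fun ht => hdg t (inT_pt.1 ht)⟩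
  | refl x => exact ⟨Iff.rfl, fun _ => hP.refl _⟩
  | symm x y _ ih => exact ⟨ih.1.symm, fun hy => hP.symm (ih.2 (ih.1.2 hy))⟩
  | trans x y z _ _ ih1 ih2 =>
    exact ⟨ih1.1.trans ih2.1, fun hx => hP.trans (ih1.2 hx) (ih2.2 (ih1.1.1 hx))⟩

/-! ### the glueing list and the glueing involution -/

variable [DecidableEq T]

/-- glued pairs, symmetric -/
def Gp (G : List (Port T × Port T)) (p q : Port T) : Prop := (p, q) ∈ G ∨ (q, p) ∈ G

omit [DecidableEq T] in
theorem Gp.symm {p q : Port T} (h : Gp G p q) : Gp G q p := Or.symm h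

omit [DecidableEq T] in
theorem Gp.lr {p q : Port T} (h : Gp G p q) : R s B G (lc p) (rc q) := by
  rcases h with h | h
  · exact R.glr h
  · exact (R.grl h).symm

omit [DecidableEq T] in
theorem Gp.rl {p q : Port T} (h : Gp G p q) : R s B G (rc p) (lc q) := by
  rcases h with h | h
  · exact R.grl h
  · exact (R.glr h).symm

/-- state of the glueing involution -/
structure BeS (w : Wd T) : Prop where
  out : ∀ t d, t ∉ tls w → Sw300.be w (some (t, d)) = some (t, d)
  free : ∀ p ∈ Sw300.L w, Sw300.be w p = p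
  gl : ∀ p q, Gp (gl w) p q ↔ (Sw300.be w p = q ∧ p ≠ q)

theorem mem_L_tls {w : Wd T} (h : Sw300.Ok w) {t : T} {d : ZMod 4}
    (hp : some (t, d) ∈ Sw300.L w) : t ∈ tls w :=
  mem_ts.1 (inT_pt.1 ((gd_wd (fun _ => true) h).inL _ hp))

theorem gp_cons {a b x y : Port T} {l : List (Port T × Port T)} :
    Gp ((a, b) :: l) x y ↔ (x = a ∧ y = b) ∨ (x = b ∧ y = a) ∨ Gp l x y := by
  simp only [Gp, List.mem_cons, Prod.mk.injEq]
  tauto

theorem be_state : ∀ {w : Wd T}, Sw300.Ok w → BeS w
  | .leg, _ => ⟨fun _ _ _ => rfl, fun _ _ => rfl, fun p q =>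
      ⟨fun h => by simp [Gp, gl] at h, fun h => absurd h.1 h.2⟩⟩
  | .tile t, _ => ⟨fun _ _ _ => rfl, fun _ _ => rfl, fun p q =>
      ⟨fun h => by simp [Gp, gl] at h, fun h => absurd h.1 h.2⟩⟩
  | .att w p t d, h => by
    obtain ⟨hw, hp, ht, hnone⟩ := h
    have ih := be_state hw
    have hptd : p ≠ some (t, d) := fun e => ht (mem_L_tls hw (e ▸ hp))
    have hpt : ∀ t' d', t' ∉ tls w → (some (t', d') : Port T) ≠ p := fun t' d' h' e =>
      h' (mem_L_tls hw (d := d') (e ▸ hp))
    refine ⟨fun t' d' h' => ?_, fun x hx => ?_, fun x y => ?_⟩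
    · simp only [tls, List.mem_cons, not_or] at h'
      simp only [Sw300.be, if_neg (hpt t' d' h'.2)]
      rw [if_neg (fun e => h'.1 (pt_inj.1 e).1)]
      exact ih.out t' d' h'.2
    · simp only [Sw300.L, List.mem_flatMap] at hx
      obtain ⟨z, hz, hx⟩ := hx
      by_cases hzp : z = p
      · rw [if_pos hzp] at hx
        have h4 : ∀ d : ZMod 4, d + 1 ≠ d ∧ d + 2 ≠ d ∧ d + 3 ≠ d := by decide
        have : ∃ d', d' ≠ d ∧ x = some (t, d') := by
          simp only [List.mem_cons, List.not_mem_nil, or_false] at hx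
          rcases hx with e | e | e
          · exact ⟨_, (h4 d).1, e⟩
          · exact ⟨_, (h4 d).2.1, e⟩
          · exact ⟨_, (h4 d).2.2, e⟩
        obtain ⟨d', hd', rfl⟩ := this
        simp only [Sw300.be, if_neg (hpt t d' ht)]
        rw [if_neg (fun e => hd' (pt_inj.1 e).2)]
        exact ih.out t d' ht
      · rw [if_neg hzp, List.mem_singleton] at hx
        subst hx
        have : x ≠ some (t, d) := fun e => ht (mem_L_tls hw (e ▸ hz))
        simp only [Sw300.be, if_neg hzp, if_neg this]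
        exact ih.free x hz
    · rw [gl, gp_cons]
      simp only [Sw300.be]
      by_cases h1 : x = p
      · subst h1
        rw [if_pos rfl]
        constructor
        · rintro (⟨_, e⟩ | ⟨e, _⟩ | h2)
          · exact ⟨e.symm, by rw [e]; exact hptd⟩
          · exact absurd e hptd
          · exact absurd (ih.free x hp) (by
              have := (ih.gl x y).1 h2
              rw [this.1]; exact this.2.symm)
        · rintro ⟨e, _⟩; exact Or.inl ⟨rfl, e.symm⟩
      · rw [if_neg h1]
        by_cases h2 : x = some (t, d)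
        · subst h2
          rw [if_pos rfl]
          constructor
          · rintro (⟨e, _⟩ | ⟨_, e⟩ | h3)
            · exact absurd e h1
            · exact ⟨e.symm, by rw [e]; exact h1⟩
            · exact absurd (ih.out t d ht) (by
                have := (ih.gl _ y).1 h3
                rw [this.1]; exact this.2.symm)
          · rintro ⟨e, _⟩; exact Or.inr (Or.inl ⟨rfl, e.symm⟩)
        · rw [if_neg h2, ← ih.gl]
          constructor
          · rintro (⟨e, _⟩ | ⟨e, _⟩ | h3)
            · exact absurd e h1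
            · exact absurd e h2
            · exact h3
          · exact fun h3 => Or.inr (Or.inr h3)
  | .con w p q, h => by
    obtain ⟨hw, hpn, hqn, hpq, hadj⟩ := h
    have ih := be_state hw
    have hpq' : p ∈ Sw300.L w ∧ q ∈ Sw300.L w := by
      rcases hadj with ⟨l1, l2, e⟩ | ⟨l1, e⟩ <;> rw [e] <;> simp
    refine ⟨fun t' d' h' => ?_, fun x hx => ?_, fun x y => ?_⟩
    · have h1 : (some (t', d') : Port T) ≠ p := fun e => h' (mem_L_tls hw (d := d') (e ▸ hpq'.1))
      have h2 : (some (t', d') : Port T) ≠ q := fun e => h' (mem_L_tls hw (d := d') (e ▸ hpq'.2))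
      simp only [Sw300.be, if_neg h1, if_neg h2]
      exact ih.out t' d' h'
    · simp only [Sw300.L, List.mem_filter, ne_eq, decide_eq_true_eq] at hx
      simp only [Sw300.be, if_neg hx.2.1, if_neg hx.2.2]
      exact ih.free x hx.1
    · rw [gl, gp_cons]
      simp only [Sw300.be]
      by_cases h1 : x = p
      · subst h1
        rw [if_pos rfl]
        constructor
        · rintro (⟨_, e⟩ | ⟨e, _⟩ | h2)
          · exact ⟨e.symm, by rw [e]; exact hpq⟩
          · exact absurd e hpq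
          · exact absurd (ih.free x hpq'.1) (by
              have := (ih.gl x y).1 h2
              rw [this.1]; exact this.2.symm)
        · rintro ⟨e, _⟩; exact Or.inl ⟨rfl, e.symm⟩
      · rw [if_neg h1]
        by_cases h2 : x = q
        · subst h2
          rw [if_pos rfl]
          constructor
          · rintro (⟨e, _⟩ | ⟨_, e⟩ | h3)
            · exact absurd e h1
            · exact ⟨e.symm, by rw [e]; exact h1⟩
            · exact absurd (ih.free x hpq'.2) (by
                have := (ih.gl _ y).1 h3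
                rw [this.1]; exact this.2.symm)
          · rintro ⟨e, _⟩; exact Or.inr (Or.inl ⟨rfl, e.symm⟩)
        · rw [if_neg h2, ← ih.gl]
          constructor
          · rintro (⟨e, _⟩ | ⟨e, _⟩ | h3)
            · exact absurd e h1
            · exact absurd e h2
            · exact h3
          · exact fun h3 => Or.inr (Or.inr h3)

/-! ### faces of the plane -/

/-- position of the corner `k` relative to its tile: the face `(x,y)` is the NE corner (`k = 2`) of
the tile `(x,y)` -/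
def off (k : ZMod 4) : ℤ × ℤ := if k = 0 then (-1, -1) else if k = 1 then (-1, 0) else
  if k = 2 then (0, 0) else (0, -1)

@[simp] theorem off_0 : off 0 = (-1, -1) := rfl
@[simp] theorem off_1 : off 1 = (-1, 0) := rfl
@[simp] theorem off_2 : off 2 = (0, 0) := rfl
@[simp] theorem off_3 : off 3 = (0, -1) := rfl

/-- face of a corner; `z` = face of `none` -/
def fa (z : ℤ × ℤ) : Port (ℤ × ℤ) → ℤ × ℤ
  | none => z
  | some (t, k) => t + off k

@[simp] theorem fa_some (z t : ℤ × ℤ) (k : ZMod 4) : fa z (some (t, k)) = t + off k := rfl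
@[simp] theorem fa_none (z : ℤ × ℤ) : fa z none = z := rfl

theorem fs_dg {g : ℤ × ℤ → Bool} {Q : ℤ × ℤ → Prop} {t : ℤ × ℤ} (hQ : Q t) :
    FS g Q (t + off (dg (g t))) (t + off (dg (g t) + 2)) := by
  obtain ⟨x, y⟩ := t
  cases hg : g (x, y) with
  | true =>
    have e2 : dg true + 2 = (2 : ZMod 4) := by decide
    have e0 : dg true = (0 : ZMod 4) := rfl
    rw [e2, e0, off_0, off_2]
    have ht : tb ((x, y) + (-1, -1)) ((x, y) + ((0, 0) : ℤ × ℤ)) = (x, y) := by
      simp only [tb, Prod.mk_add_mk]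
      ext <;> simp <;> omega
    refine ⟨?_, ?_, ?_⟩
    · simp only [Dg, Prod.mk_add_mk]; omega
    · rw [ht]; exact hQ
    · rw [ht, hg]
      simp only [dgt, Prod.mk_add_mk]
      exact (decide_eq_true (by omega)).symm
  | false =>
    have e2 : dg false + 2 = (3 : ZMod 4) := by decide
    have e0 : dg false = (1 : ZMod 4) := rfl
    rw [e2, e0, off_1, off_3]
    have ht : tb ((x, y) + (-1, 0)) ((x, y) + ((0, -1) : ℤ × ℤ)) = (x, y) := by
      simp only [tb, Prod.mk_add_mk]
      ext <;> simp <;> omega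
    refine ⟨?_, ?_, ?_⟩
    · simp only [Dg, Prod.mk_add_mk]; omega
    · rw [ht]; exact hQ
    · rw [ht, hg]
      simp only [dgt, Prod.mk_add_mk]
      exact (decide_eq_false (by omega)).symm

theorem fs_corner {g : ℤ × ℤ → Bool} {Q : ℤ × ℤ → Prop} {F F' : ℤ × ℤ} (h : FS g Q F F') :
    ∃ t k, Q t ∧ F = t + off k ∧ F' = t + off (k + 2) ∧ (k = dg (g t) ∨ k = dg (g t) + 2) := by
  obtain ⟨x, y⟩ := F
  obtain ⟨x', y'⟩ := F'
  obtain ⟨⟨h1, h2⟩, h3, h4⟩ := h
  simp only at h1 h2
  rcases h1 with h1 | h1 <;> rcases h2 with h2 | h2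
  · -- (1,1)
    have ht : tb (x, y) (x', y') = (x', y') := by
      simp only [tb]; ext <;> simp <;> omega
    have hd : dgt (x, y) (x', y') = true := by
      simp only [dgt]; exact decide_eq_true (by omega)
    rw [ht] at h3 h4
    rw [hd] at h4
    refine ⟨(x', y'), 0, h3, ?_, ?_, ?_⟩
    · simp only [off_0, Prod.mk_add_mk]; ext <;> simp <;> omega
    · have : (0 : ZMod 4) + 2 = 2 := by decide
      rw [this]; simp
    · rw [h4]; left; rfl
  · -- (1,-1)
    have ht : tb (x, y) (x', y') = (x', y) := by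
      simp only [tb]; ext <;> simp <;> omega
    have hd : dgt (x, y) (x', y') = false := by
      simp only [dgt]; exact decide_eq_false (by omega)
    rw [ht] at h3 h4
    rw [hd] at h4
    refine ⟨(x', y), 1, h3, ?_, ?_, ?_⟩
    · simp only [off_1, Prod.mk_add_mk]; ext <;> simp <;> omega
    · have : (1 : ZMod 4) + 2 = 3 := by decide
      rw [this]; simp only [off_3, Prod.mk_add_mk]; ext <;> simp <;> omega
    · rw [h4]; left; rfl
  · -- (-1,1)
    have ht : tb (x, y) (x', y') = (x, y') := by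
      simp only [tb]; ext <;> simp <;> omega
    have hd : dgt (x, y) (x', y') = false := by
      simp only [dgt]; exact decide_eq_false (by omega)
    rw [ht] at h3 h4
    rw [hd] at h4
    refine ⟨(x, y'), 3, h3, ?_, ?_, ?_⟩
    · simp only [off_3, Prod.mk_add_mk]; ext <;> simp <;> omega
    · have : (3 : ZMod 4) + 2 = 1 := by decide
      rw [this]; simp only [off_1, Prod.mk_add_mk]; ext <;> simp <;> omega
    · rw [h4]; right; decide
  · -- (-1,-1)
    have ht : tb (x, y) (x', y') = (x, y) := by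
      simp only [tb]; ext <;> simp <;> omega
    have hd : dgt (x, y) (x', y') = true := by
      simp only [dgt]; exact decide_eq_true (by omega)
    rw [ht] at h3 h4
    rw [hd] at h4
    refine ⟨(x, y), 2, h3, ?_, ?_, ?_⟩
    · simp
    · have : (2 : ZMod 4) + 2 = 0 := by decide
      rw [this]; simp only [off_0, Prod.mk_add_mk]; ext <;> simp <;> omega
    · rw [h4]; right; decide

theorem R.dg_any {s : T → Bool} {B : Option T} {G : List (Port T × Port T)} {t : T} {k : ZMod 4}
    (h : k = dg (s t) ∨ k = dg (s t) + 2) : R s B G (pt t k) (pt t (k + 2)) := by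
  have hd : R s B G (pt t (dg (s t))) (pt t (dg (s t) + 2)) := .rel _ _ (.diag t)
  rcases h with h | h
  · rw [h]; exact hd
  · have : ∀ a : ZMod 4, a + 2 + 2 = a := by decide
    rw [h, this]; exact hd.symm

/-! ### words of regions -/

/-- `w` is a word of the region `K` with base tile `b` -/
structure RW (K : Xr249.Reg) (w : Wd (ℤ × ℤ)) (b : ℤ × ℤ) : Prop where
  ok : Sw300.Ok w
  bas : bs w = some b
  tls : ∀ t, t ∈ tls w ↔ t ∈ K.P
  be : ∀ p q, K.gl p q ↔ (Sw300.be w p = q ∧ p ≠ q)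

theorem bas_eq (w : Wd T) : Xr249.bas w = bs w := by
  induction w with
  | leg => rfl
  | tile t => rfl
  | att w p t d ih => exact ih
  | con w p q ih => exact ih

variable {K : Xr249.Reg} {w : Wd (ℤ × ℤ)} {b : ℤ × ℤ}

theorem RW.gp (h : RW K w b) {p q : Port (ℤ × ℤ)} : Gp (gl w) p q ↔ K.gl p q := by
  rw [(be_state h.ok).gl, h.be]

theorem RW.gd (h : RW K w b) (s : ℤ × ℤ → Bool) :
    Gd s (some b) (Sw300.L w) (gl w) (ts w) (Sw300.M s w) := by
  have := gd_wd s h.ok
  rwa [h.bas] at this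

theorem RW.ts (h : RW K w b) {t : ℤ × ℤ} : t ∈ ts w ↔ t ∈ K.P := by rw [mem_ts, h.tls]

/-- glued sides see the same faces -/
theorem gl_fa {z : ℤ × ℤ} {p q : Port (ℤ × ℤ)} (h : K.gl p q) :
    fa z (lc p) = fa z (rc q) ∧ fa z (rc p) = fa z (lc q) := by
  rcases p with - | ⟨⟨x, y⟩, d⟩
  · exact h.elim
  · have a1 : (0 : ZMod 4) + 1 = 1 := by decide
    have a2 : (1 : ZMod 4) + 1 = 2 := by decide
    have a3 : (2 : ZMod 4) + 1 = 3 := by decide
    have a4 : (3 : ZMod 4) + 1 = 0 := by decide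
    rcases Xr249.Reg.d4 d with rfl | rfl | rfl | rfl
    · rw [(Xr249.Reg.gl_0.1 h).2]
      simp only [lc_some, rc_some, fa_some, a1, a3, off_0, off_1, off_2, off_3, Prod.mk_add_mk]
      constructor <;> ext <;> simp <;> omega
    · rw [(Xr249.Reg.gl_1.1 h).2]
      simp only [lc_some, rc_some, fa_some, a2, a4, off_0, off_1, off_2, off_3, Prod.mk_add_mk]
      constructor <;> ext <;> simp
    · rw [(Xr249.Reg.gl_2.1 h).2]
      simp only [lc_some, rc_some, fa_some, a1, a3, off_0, off_1, off_2, off_3, Prod.mk_add_mk]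
      constructor <;> ext <;> simp
    · rw [(Xr249.Reg.gl_3.1 h).2]
      simp only [lc_some, rc_some, fa_some, a2, a4, off_0, off_1, off_2, off_3, Prod.mk_add_mk]
      constructor <;> ext <;> simp <;> omega

/-- **corner connectivity gives a literal face path inside the region** -/
theorem fp_of_R (h : RW K w b) {s : ℤ × ℤ → Bool} {c c' : Port (ℤ × ℤ)}
    (hR : R s (some b) (gl w) c c') (hc : inT (ts w) c) :
    FP s (fun t => t ∈ K.P) (fa (b + off 0) c) (fa (b + off 0) c') := by
  have g := h.gd s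
  have hP : Equivalence (FP s (fun t => t ∈ K.P)) :=
    ⟨fun _ => FP.refl, fun h => h.symm, fun h h' => h.trans h'⟩
  refine (R.transfer hP (fa (b + off 0)) g.inG g.base ?_ ?_ ?_ hR).2 hc
  · intro t ht; cases ht; exact FP.refl
  · intro p q hpq
    have := gl_fa (z := b + off 0) (h.gp.1 (Or.inl hpq))
    rw [this.1, this.2]; exact ⟨FP.refl, FP.refl⟩
  · intro t ht
    exact FP.single (fs_dg (h.ts.1 ht))

/-- the tiles around the face `(x,y)` are glued to each other -/
structure FullAt (K : Xr249.Reg) (x y : ℤ) : Prop where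
  h0 : (x, y) ∈ K.P → (x + 1, y) ∈ K.P → K.h (x, y)
  h1 : (x, y + 1) ∈ K.P → (x + 1, y + 1) ∈ K.P → K.h (x, y + 1)
  v0 : (x, y) ∈ K.P → (x, y + 1) ∈ K.P → K.v (x, y)
  v1 : (x + 1, y) ∈ K.P → (x + 1, y + 1) ∈ K.P → K.v (x + 1, y)
  d0 : (x, y) ∈ K.P → (x + 1, y + 1) ∈ K.P → (x + 1, y) ∈ K.P ∨ (x, y + 1) ∈ K.P
  d1 : (x + 1, y) ∈ K.P → (x, y + 1) ∈ K.P → (x, y) ∈ K.P ∨ (x + 1, y + 1) ∈ K.P

/-- the corners of the region at a full face are connected -/
theorem fan (h : RW K w b) {s : ℤ × ℤ → Bool} {x y : ℤ} (hf : FullAt K x y)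
    {t t' : ℤ × ℤ} {k k' : ZMod 4} (ht : t ∈ K.P) (ht' : t' ∈ K.P) (e : t + off k = (x, y))
    (e' : t' + off k' = (x, y)) : R s (some b) (gl w) (pt t k) (pt t' k') := by
  have r21 : (x, y) ∈ K.P → (x + 1, y) ∈ K.P →
      R s (some b) (gl w) (pt (x, y) 2) (pt (x + 1, y) 1) := fun a c =>
    (h.gp.2 (Xr249.Reg.gl_2.2 ⟨hf.h0 a c, rfl⟩)).lr
  have r10 : (x + 1, y) ∈ K.P → (x + 1, y + 1) ∈ K.P →
      R s (some b) (gl w) (pt (x + 1, y) 1) (pt (x + 1, y + 1) 0) := fun a c =>
    (h.gp.2 (Xr249.Reg.gl_1.2 ⟨hf.v1 a c, rfl⟩)).lr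
  have r30 : (x, y + 1) ∈ K.P → (x + 1, y + 1) ∈ K.P →
      R s (some b) (gl w) (pt (x, y + 1) 3) (pt (x + 1, y + 1) 0) := fun a c =>
    (h.gp.2 (Xr249.Reg.gl_2.2 ⟨hf.h1 a c, rfl⟩)).rl
  have r23 : (x, y) ∈ K.P → (x, y + 1) ∈ K.P →
      R s (some b) (gl w) (pt (x, y) 2) (pt (x, y + 1) 3) := fun a c =>
    (h.gp.2 (Xr249.Reg.gl_1.2 ⟨hf.v0 a c, rfl⟩)).rl
  have c4 : ∀ (t : ℤ × ℤ) (k : ZMod 4), t + off k = (x, y) →
      (k = 0 ∧ t = (x + 1, y + 1)) ∨ (k = 1 ∧ t = (x + 1, y)) ∨ (k = 2 ∧ t = (x, y)) ∨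
      (k = 3 ∧ t = (x, y + 1)) := by
    rintro ⟨a, c⟩ k e
    rcases Xr249.Reg.d4 k with rfl | rfl | rfl | rfl
    · left
      simp only [off_0, Prod.mk_add_mk, Prod.mk.injEq] at e ⊢
      exact ⟨trivial, by omega, by omega⟩
    · right; left
      simp only [off_1, Prod.mk_add_mk, Prod.mk.injEq] at e ⊢
      exact ⟨trivial, by omega, by omega⟩
    · right; right; left
      simp only [off_2, Prod.mk_add_mk, Prod.mk.injEq] at e ⊢
      exact ⟨trivial, by omega, by omega⟩
    · right; right; right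
      simp only [off_3, Prod.mk_add_mk, Prod.mk.injEq] at e ⊢
      exact ⟨trivial, by omega, by omega⟩
  -- everything is connected to a common corner
  have key02 : (x + 1, y + 1) ∈ K.P → (x, y) ∈ K.P →
      R s (some b) (gl w) (pt (x + 1, y + 1) 0) (pt (x, y) 2) := by
    intro a c
    rcases hf.d0 c a with m | m
    · exact ((r21 c m).trans (r10 m a)).symm
    · exact ((r23 c m).trans (r30 m a)).symm
  have key13 : (x + 1, y) ∈ K.P → (x, y + 1) ∈ K.P →
      R s (some b) (gl w) (pt (x + 1, y) 1) (pt (x, y + 1) 3) := by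
    intro a c
    rcases hf.d1 a c with m | m
    · exact (r21 m a).symm.trans (r23 m c)
    · exact (r10 a m).trans (r30 c m).symm
  rcases c4 t k e with ⟨rfl, rfl⟩ | ⟨rfl, rfl⟩ | ⟨rfl, rfl⟩ | ⟨rfl, rfl⟩ <;>
    rcases c4 t' k' e' with ⟨rfl, rfl⟩ | ⟨rfl, rfl⟩ | ⟨rfl, rfl⟩ | ⟨rfl, rfl⟩
  · exact R.refl _
  · exact (r10 ht' ht).symm
  · exact key02 ht ht'
  · exact (r30 ht' ht).symm
  · exact r10 ht ht'
  · exact R.refl _
  · exact (r21 ht' ht).symm
  · exact key13 ht ht'
  · exact (key02 ht' ht).symm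
  · exact r21 ht ht'
  · exact R.refl _
  · exact r23 ht ht'
  · exact r30 ht ht'
  · exact (key13 ht' ht).symm
  · exact (r23 ht' ht).symm
  · exact R.refl _

/-- **a literal face path inside the region gives corner connectivity** -/
theorem R_of_fp (h : RW K w b) {s : ℤ × ℤ → Bool} (hf : ∀ x y, FullAt K x y)
    {F F' : ℤ × ℤ} (hp : FP s (fun t => t ∈ K.P) F F') {t t' : ℤ × ℤ} {k k' : ZMod 4}
    (ht : t ∈ K.P) (ht' : t' ∈ K.P) (e : t + off k = F) (e' : t' + off k' = F') :
    R s (some b) (gl w) (pt t k) (pt t' k') := by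
  induction hp generalizing t' k' with
  | refl => exact fan h (hf F.1 F.2) ht ht' e e'
  | @tail F1 F2 _ h2 ih =>
    obtain ⟨t1, k1, hQ, e1, e2, hk⟩ := fs_corner h2
    have r1 := ih hQ e1.symm
    have r2 : R s (some b) (gl w) (pt t1 k1) (pt t1 (k1 + 2)) := R.dg_any hk
    have r3 := fan h (s := s) (hf F2.1 F2.2) hQ ht' e2.symm e'
    exact (r1.trans r2).trans r3

/-- **face link** for fully glued regions without pinch points -/
theorem R_iff_fp (h : RW K w b) {s : ℤ × ℤ → Bool} (hf : ∀ x y, FullAt K x y)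
    {t t' : ℤ × ℤ} {k k' : ZMod 4} (ht : t ∈ K.P) (ht' : t' ∈ K.P) :
    R s (some b) (gl w) (pt t k) (pt t' k') ↔
      FP s (fun t => t ∈ K.P) (t + off k) (t' + off k') :=
  ⟨fun hR => fp_of_R h hR (inT_pt.2 (h.ts.2 ht)), fun hp => R_of_fp h hf hp ht ht' rfl rfl⟩

end Crest.Agent.R158.Gc748
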