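import Crest.Agent.R158.Sl3_434
import Crest.Agent.R158.Ob0_664
import Crest.Agent.R158.Gc3_748

/-!
# R158, block SL (helper434), file Sl4: words

* `al s` : passage through the tiles
* `vo_eq`, `hv_eq` : 664's observable `VO` / `HV` is `VV` of the list of free ends
* `sys_of_word` : the strand system of an admissible leg word (partner = same strand)
* `Ring`, `ring_of_word` : the ring of free ends of a word without leg, non-crossing
* `annS_of_chart` : the annulus state of `Sl3` from a ring in a chart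
-/

set_option autoImplicit false
set_option linter.unusedSectionVars false

namespace Crest.Agent.R158.Sl434

open Crest.Agent.R158.Sw300 (Port Wd thru tls Inv thru_thru)
open Crest.Agent.R158.Ob664 (VO Und SepO Sect HV)

/-! ### positions -/

section pos

variable {α : Type*} [DecidableEq α]

theorem gq_pos {L : List α} {pos : α → ℤ} (hs : L.Pairwise fun x y => pos x < pos y) {a t : α}
    (ha : a ∈ L) (ht : t ∈ L) : gq L a t = decide (pos a < pos t) := by
  have key : ∀ {a t : α}, a ∈ L → t ∈ L → L.idxOf a < L.idxOf t → pos a < pos t := by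
    intro a t ha ht h
    have h1 := List.idxOf_lt_length_iff.2 ha
    have h2 := List.idxOf_lt_length_iff.2 ht
    have := List.pairwise_iff_getElem.1 hs _ _ h1 h2 h
    rwa [List.getElem_idxOf h1, List.getElem_idxOf h2] at this
  unfold gq
  by_cases h : L.idxOf a < L.idxOf t
  · simp [h, key ha ht h]
  · rcases Nat.lt_or_ge (L.idxOf t) (L.idxOf a) with h2 | h2
    · have h3 := key ht ha h2
      have h4 : ¬ pos a < pos t := by omega
      simp [h, h4]
    · have h3 : L.idxOf a = L.idxOf t := by omega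
      have h4 : a = t := (List.idxOf_inj ha).1 h3
      subst h4
      simp

theorem sect_iff {L : List α} {pos : α → ℤ} (hs : L.Pairwise fun x y => pos x < pos y)
    (hi : ∀ x y, x ∈ L → y ∈ L → x ≠ y → pos x ≠ pos y) {x y u : α}
    (hx : x ∈ L) (hy : y ∈ L) (hu : u ∈ L) (hxy : x ≠ y) :
    Sect pos x y u ↔ cyc L x u y = true := by
  unfold Sect cyc Sw300.cyc
  rw [gq_pos hs hu hx, gq_pos hs hu hy, gq_pos hs hx hy]
  have h1 := hi x y hx hy hxy
  by_cases hux : u = x
  · subst hux
    simp only [true_or, true_iff, lt_self_iff_false, decide_false, Bool.not_false, Bool.true_and,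
      Bool.and_true, Bool.or_eq_true, decide_eq_true_eq, Bool.and_eq_true, Bool.not_eq_true',
      decide_eq_false_iff_not]
    omega
  · have h2 := hi u x hu hx hux
    simp only [hux, false_or, Bool.or_eq_true, decide_eq_true_eq, Bool.and_eq_true,
      Bool.not_eq_true', decide_eq_false_iff_not]
    omega

/-- sides of an arc in terms of positions -/
theorem opp_iff {L : List α} {pos : α → ℤ} (hs : L.Pairwise fun x y => pos x < pos y)
    (hi : ∀ x y, x ∈ L → y ∈ L → x ≠ y → pos x ≠ pos y) {a b x u : α} (ha : a ∈ L) (hb : b ∈ L)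
    (hx : x ∈ L) (hu : u ∈ L) (hc : Sw300.cyc (pos a) (pos b) (pos u)) :
    opp L a b x u = true ↔ (x = b ∨ Sw300.cyc (pos a) (pos x) (pos b)) := by
  unfold opp
  rw [gq_pos hs ha hx, gq_pos hs hb hx, gq_pos hs ha hu, gq_pos hs hb hu]
  unfold Sw300.cyc at *
  by_cases hxb : x = b
  · subst hxb
    simp only [true_or, iff_true, lt_self_iff_false, decide_false, Bool.xor_false]
    rcases hc with hc | hc | hc
    · have e1 : pos a < pos x := by omega
      have e2 : pos a < pos u := by omega
      have e3 : pos x < pos u := by omega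
      simp [e1, e2, e3]
    · have e1 : ¬ pos a < pos x := by omega
      have e2 : ¬ pos a < pos u := by omega
      have e3 : pos x < pos u := by omega
      simp [e1, e2, e3]
    · have e1 : pos a < pos x := by omega
      have e2 : ¬ pos a < pos u := by omega
      have e3 : ¬ pos x < pos u := by omega
      simp [e1, e2, e3]
  · have hxb' := hi x b hx hb hxb
    simp only [hxb, false_or]
    by_cases c1 : pos a < pos x <;> by_cases c2 : pos b < pos x <;> by_cases c3 : pos a < pos u <;>
      by_cases c4 : pos b < pos u <;> simp [c1, c2, c3, c4] <;> omega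

variable {L : List α} {pos : α → ℤ} {M : α → α} {S : α → Bool} {u : α}

/-- two different arcs ends and the leg are in cyclic position -/
theorem cyc_or (h : Inv (fun x => x ∈ L) pos M S u) {a : α} (ha : a ∈ L) (hau : a ≠ u) :
    Sw300.cyc (pos a) (pos (M a)) (pos u) ∨ Sw300.cyc (pos (M a)) (pos a) (pos u) := by
  have h1 := h.inj a (M a) ha (h.mem a ha) (h.Mne ha hau).symm
  have h2 := h.inj a u ha h.um hau
  have h3 := h.inj (M a) u (h.mem a ha) h.um (h.Mu ha hau)
  unfold Sw300.cyc
  omega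

theorem sepO_iff (h : Inv (fun x => x ∈ L) pos M S u)
    (hs : L.Pairwise fun x y => pos x < pos y) {x y z : α} (hx : x ∈ L) (hy : y ∈ L)
    (hz : z ∈ L) (hxy : x ≠ y) :
    SepO (fun x => x ∈ L) pos M S x y z ↔ Sepc L M u x y z := by
  constructor
  · rintro ⟨a, ha, hSa, h1, h2, h3⟩
    by_cases hau : a = u
    · exfalso
      subst hau
      unfold Und Sw300.cyc at h1 h2
      rw [h.uf] at h1 h2
      rcases h1 with h1 | h1
      · rcases h2 with h2 | h2
        · exact hxy (h1.trans h2.symm)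
        · omega
      · omega
    · have hc : Sw300.cyc (pos a) (pos (M a)) (pos u) := (h.st a ha hau).1 hSa
      refine ⟨a, ha, h.mem a ha, h.Mne ha hau, ?_, ?_, ?_⟩
      · exact (opp_iff hs h.inj ha (h.mem a ha) hx h.um hc).2 h1
      · exact (opp_iff hs h.inj ha (h.mem a ha) hy h.um hc).2 h2
      · have := mt (opp_iff hs h.inj ha (h.mem a ha) hz h.um hc).1 h3
        simpa using this
  · rintro ⟨a, ha, hMa, hne, h1, h2, h3⟩
    have hau : a ≠ u := by rintro rfl; exact hne h.uf
    have key : ∀ b, b ∈ L → b ≠ u → Sw300.cyc (pos b) (pos (M b)) (pos u) →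
        opp L b (M b) x u = true → opp L b (M b) y u = true → opp L b (M b) z u = false →
        SepO (fun x => x ∈ L) pos M S x y z := by
      intro b hb hbu hc h4 h5 h6
      refine ⟨b, hb, (h.st b hb hbu).2 hc, ?_, ?_, ?_⟩
      · exact (opp_iff hs h.inj hb (h.mem b hb) hx h.um hc).1 h4
      · exact (opp_iff hs h.inj hb (h.mem b hb) hy h.um hc).1 h5
      · intro h7
        have := (opp_iff hs h.inj hb (h.mem b hb) hz h.um hc).2 h7
        rw [this] at h6
        exact absurd h6 (by decide)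
    rcases cyc_or h ha hau with hc | hc
    · exact key a ha hau hc h1 h2 h3
    · have e : M (M a) = a := h.inv a ha
      refine key (M a) hMa (h.Mu ha hau) (by rw [e]; exact hc) ?_ ?_ ?_
      · rw [e, opp_comm]; exact h1
      · rw [e, opp_comm]; exact h2
      · rw [e, opp_comm]; exact h3

/-- an arc cannot have the gaps `x`, `z` but not `y` inside if the leg is in `[z, x)` and
`x, y, z` are in clockwise order -/
theorem sepO_not (h : Inv (fun x => x ∈ L) pos M S u) {x y z : α} (hx : x ∈ L) (hy : y ∈ L)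
    (hz : z ∈ L) (hc : Sw300.cyc (pos x) (pos y) (pos z)) (hu : Sect pos z x u) :
    ¬ SepO (fun x => x ∈ L) pos M S z x y := by
  rintro ⟨a, ha, hSa, h1, h2, h3⟩
  have hxz : x ≠ z := by rintro rfl; unfold Sw300.cyc at hc; omega
  by_cases hau : a = u
  · subst hau
    unfold Und Sw300.cyc at h1 h2
    rw [h.uf] at h1 h2
    rcases h1 with h1 | h1
    · rcases h2 with h2 | h2
      · exact hxz (h2.trans h1.symm)
      · omega
    · omega
  · have hb := h.mem a ha
    have hcu : Sw300.cyc (pos a) (pos (M a)) (pos u) := (h.st a ha hau).1 hSa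
    obtain ⟨b, hb'⟩ : ∃ b, b = M a := ⟨_, rfl⟩
    rw [← hb'] at hb hcu
    unfold Und at h1 h2 h3
    rw [← hb'] at h1 h2 h3
    push Not at h3
    obtain ⟨h3, h3'⟩ := h3
    have i1 : y = b ∨ pos y ≠ pos b := (em (y = b)).imp id fun hne => h.inj y b hy hb hne
    have i2 : z = u ∨ pos z ≠ pos u := (em (z = u)).imp id fun hne => h.inj z u hz h.um hne
    have i3 : x = u ∨ pos x ≠ pos u := (em (x = u)).imp id fun hne => h.inj x u hx h.um hne
    have j1 : z = b → pos z = pos b := fun e => by rw [e]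
    have j2 : x = b → pos x = pos b := fun e => by rw [e]
    have j3 : u = z → pos u = pos z := fun e => by rw [e]
    unfold Sect at hu
    unfold Sw300.cyc at *
    have k1 : pos z = pos b ∨ (pos a < pos z ∧ pos z < pos b ∨ pos z < pos b ∧ pos b < pos a ∨
      pos b < pos a ∧ pos a < pos z) := h1.imp j1 id
    have k2 : pos x = pos b ∨ (pos a < pos x ∧ pos x < pos b ∨ pos x < pos b ∧ pos b < pos a ∨
      pos b < pos a ∧ pos a < pos x) := h2.imp j2 id
    have k3 : pos u = pos z ∨ (pos z < pos u ∧ pos u < pos x ∨ pos u < pos x ∧ pos x < pos z ∨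
      pos x < pos z ∧ pos z < pos u) := hu.imp j3 id
    have k4 : pos y ≠ pos b := h.inj y b hy hb h3
    clear h1 h2 hu i1 i2 i3 j1 j2 j3
    omega

/-- **664's observable on a sorted list** -/
theorem vo_eq (h : Inv (fun x => x ∈ L) pos M S u) (hs : L.Pairwise fun x y => pos x < pos y)
    {m1 m2 m3 : α} (h1 : m1 ∈ L) (h2 : m2 ∈ L) (h3 : m3 ∈ L)
    (hc : Sw300.cyc (pos m1) (pos m2) (pos m3)) :
    VO (fun x => x ∈ L) pos M S u m1 m2 m3 = VV L M u m1 m2 m3 := by
  classical
  have n12 : m1 ≠ m2 := by rintro rfl; unfold Sw300.cyc at hc; omega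
  have n23 : m2 ≠ m3 := by rintro rfl; unfold Sw300.cyc at hc; omega
  have n31 : m3 ≠ m1 := by rintro rfl; unfold Sw300.cyc at hc; omega
  have s1 := sect_iff hs h.inj h3 h1 h.um n31
  have s2 := sect_iff hs h.inj h1 h2 h.um n12
  have p1 := sepO_iff h hs h2 h3 h1 n23
  have p2 := sepO_iff h hs h1 h2 h3 n12
  have p3 := sepO_iff h hs h3 h1 h2 n31
  have c2 : Sw300.cyc (pos m2) (pos m3) (pos m1) := by unfold Sw300.cyc at *; omega
  have c3 : Sw300.cyc (pos m3) (pos m1) (pos m2) := by unfold Sw300.cyc at *; omega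
  unfold VO VV vval
  by_cases q1 : Sect pos m3 m1 u
  · rw [if_pos q1]
    have q1' := s1.1 q1
    have np3 : ¬ Sepc L M u m3 m1 m2 := fun hh => sepO_not h h1 h2 h3 hc q1 (p3.2 hh)
    by_cases r1 : SepO (fun x => x ∈ L) pos M S m2 m3 m1
    · rw [if_pos r1, if_pos (p1.1 r1)]
    · rw [if_neg r1, if_neg (mt p1.2 r1)]
      by_cases r2 : SepO (fun x => x ∈ L) pos M S m1 m2 m3
      · rw [if_pos r2, if_pos (p2.1 r2)]
      · rw [if_neg r2, if_neg (mt p2.2 r2), if_neg np3, if_pos q1']
  · rw [if_neg q1]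
    have q1' : ¬ cyc L m3 u m1 = true := mt s1.2 q1
    by_cases q2 : Sect pos m1 m2 u
    · rw [if_pos q2]
      have q2' := s2.1 q2
      have np2 : ¬ Sepc L M u m1 m2 m3 := fun hh => sepO_not h h2 h3 h1 c2 q2 (p2.2 hh)
      by_cases r1 : SepO (fun x => x ∈ L) pos M S m2 m3 m1
      · rw [if_pos r1, if_pos (p1.1 r1)]
      · rw [if_neg r1, if_neg (mt p1.2 r1), if_neg np2]
        by_cases r3 : SepO (fun x => x ∈ L) pos M S m3 m1 m2
        · rw [if_pos r3, if_pos (p3.1 r3)]
        · rw [if_neg r3, if_neg (mt p3.2 r3), if_neg q1', if_pos q2']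
    · rw [if_neg q2]
      have q2' : ¬ cyc L m1 u m2 = true := mt s2.2 q2
      have q3 : Sect pos m2 m3 u := by
        have i1 := h.inj u m3 h.um h3
        have i2 := h.inj u m1 h.um h1
        have i3 := h.inj u m2 h.um h2
        unfold Sect at *
        push Not at q1 q2
        by_cases e : u = m2
        · exact Or.inl e
        · right
          have i1' := i1 q1.1
          have i2' := i2 q2.1
          have i3' := i3 e
          have q12 := q1.2
          have q22 := q2.2
          unfold Sw300.cyc at *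
          omega
      have np1 : ¬ Sepc L M u m2 m3 m1 := fun hh => sepO_not h h3 h1 h2 c3 q3 (p1.2 hh)
      by_cases r2 : SepO (fun x => x ∈ L) pos M S m1 m2 m3
      · rw [if_pos r2, if_neg np1, if_pos (p2.1 r2)]
      · rw [if_neg r2, if_neg np1, if_neg (mt p2.2 r2)]
        by_cases r3 : SepO (fun x => x ∈ L) pos M S m3 m1 m2
        · rw [if_pos r3, if_pos (p3.1 r3)]
        · rw [if_neg r3, if_neg (mt p3.2 r3), if_neg q1', if_neg q2']

end pos

variable {T : Type*} [DecidableEq T]

/-- **664's `HV` on the list of free ends** -/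
theorem hv_eq {w : Wd T} (h : Sw300.Ok w) (s : T → Bool) {m1 m2 m3 : Port T}
    (h1 : m1 ∈ Sw300.L w) (h2 : m2 ∈ Sw300.L w) (h3 : m3 ∈ Sw300.L w)
    (hc : Sw300.cyc (Sw300.pos w m1) (Sw300.pos w m2) (Sw300.pos w m3)) :
    HV w m1 m2 m3 s = VV (Sw300.L w) (Sw300.M s w) (Sw300.u s w) m1 m2 m3 :=
  vo_eq (Sw300.Ok.inv s w h) (Sw300.sorted w h) h1 h2 h3 hc

/-! ### strands of a word -/

/-- passage through the tiles -/
def al (s : T → Bool) : Port T → Port T := Option.map fun x => (x.1, thru (s x.1) x.2)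

omit [DecidableEq T] in
@[simp] theorem al_none (s : T → Bool) : al s none = none := rfl
omit [DecidableEq T] in
@[simp] theorem al_some (s : T → Bool) (t : T) (d : ZMod 4) :
    al s (some (t, d)) = some (t, thru (s t) d) := rfl

omit [DecidableEq T] in
theorem al_invol (s : T → Bool) : Function.Involutive (al s) := by
  rintro (_ | ⟨t, d⟩)
  · rfl
  · simp [thru_thru]

open Crest.Agent.R158.Gc748 (Gp BeS be_state gd_wd Gd Pot lc rc jp Wk Lw bs gl ts)

theorem be_invol {w : Wd T} (h : Sw300.Ok w) : Function.Involutive (Sw300.be w) := by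
  intro x
  by_cases hx : Sw300.be w x = x
  · rw [hx, hx]
  · have h1 : Gp (gl w) x (Sw300.be w x) := ((be_state h).gl _ _).2 ⟨rfl, fun e => hx e.symm⟩
    exact (((be_state h).gl _ _).1 h1.symm).1

/-- the full relation of a system is symmetric and generated by the two maps -/
theorem rf_al {X : Type*} {a b : X → X} (x : X) : Rf a b x (a x) :=
  ⟨trivial, .single ⟨trivial, trivial, Or.inl rfl⟩⟩

theorem rf_be {X : Type*} {a b : X → X} (x : X) : Rf a b x (b x) :=
  ⟨trivial, .single ⟨trivial, trivial, Or.inr ⟨rfl, by simp, by simp⟩⟩⟩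

theorem rf_of_gp {w : Wd T} (h : Sw300.Ok w) {s : T → Bool} {p q : Port T}
    (h1 : (p, q) ∈ gl w ∨ (q, p) ∈ gl w) : Rf (al s) (Sw300.be w) p q := by
  have h2 : Gp (gl w) p q := h1
  have h3 := (((be_state h).gl _ _).1 h2).1
  rw [← h3]; exact rf_be p

theorem rf_of_wk {w : Wd T} (h : Sw300.Ok w) {s : T → Bool} {p q : Port T}
    (hpq : Wk s (gl w) p q) : Rf (al s) (Sw300.be w) p q := by
  induction hpq with
  | one t d => exact rf_al (some (t, d))
  | step _ hg _ ih1 ih2 => exact (ih1.trans (rf_of_gp h hg)).trans ih2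

theorem rf_of_lw {w : Wd T} (h : Sw300.Ok w) {s : T → Bool} {q : Port T}
    (hq : Lw s (gl w) q) : Rf (al s) (Sw300.be w) none q := by
  rcases hq with rfl | ⟨z, h1, h2⟩
  · exact .refl trivial
  · exact (rf_of_gp h h1).trans (rf_of_wk h h2)

/-- jump of a potential across a port -/
def jmp (h : Port T → ZMod 2) (x : Port T) : ZMod 2 := h (rc x) - h (lc x)

theorem z2 (a b : ZMod 2) : a - b = b - a := by revert a b; decide

theorem jmp_al {s : T → Bool} {B : Option T} {G : List (Port T × Port T)} {h : Port T → ZMod 2}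
    (hp : Pot s B G h) (x : Port T) : jmp h (al s x) = jmp h x := by
  rcases x with _ | ⟨t, d⟩
  · rfl
  · have hd := hp.diag t
    have zc : d = 0 ∨ d = 1 ∨ d = 2 ∨ d = 3 := by revert d; decide
    unfold jmp
    simp only [al_some, Gc748.rc_some, Gc748.lc_some]
    cases hs : s t
    · rw [hs] at hd
      have hd' : h (some (t, 1)) = h (some (t, 3)) := by
        have e : (Gc748.dg false + 2 : ZMod 4) = 3 := by decide
        have e1 : (Gc748.dg false : ZMod 4) = 1 := rfl
        rw [e, e1] at hd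
        exact hd
      rcases zc with rfl | rfl | rfl | rfl
      · have e : thru false 0 = 3 := by decide
        have e2 : (3 : ZMod 4) + 1 = 0 := by decide
        have e3 : (0 : ZMod 4) + 1 = 1 := by decide
        rw [e, e2, e3, hd']; exact z2 _ _
      · have e : thru false 1 = 2 := by decide
        have e2 : (2 : ZMod 4) + 1 = 3 := by decide
        have e3 : (1 : ZMod 4) + 1 = 2 := by decide
        rw [e, e2, e3, hd']; exact z2 _ _
      · have e : thru false 2 = 1 := by decide
        have e2 : (2 : ZMod 4) + 1 = 3 := by decide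
        have e3 : (1 : ZMod 4) + 1 = 2 := by decide
        rw [e, e2, e3, hd']; exact z2 _ _
      · have e : thru false 3 = 0 := by decide
        have e2 : (3 : ZMod 4) + 1 = 0 := by decide
        have e3 : (0 : ZMod 4) + 1 = 1 := by decide
        rw [e, e2, e3, hd']; exact z2 _ _
    · rw [hs] at hd
      have hd' : h (some (t, 0)) = h (some (t, 2)) := by
        have e : (Gc748.dg true + 2 : ZMod 4) = 2 := by decide
        have e1 : (Gc748.dg true : ZMod 4) = 0 := rfl
        rw [e, e1] at hd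
        exact hd
      rcases zc with rfl | rfl | rfl | rfl
      · have e : thru true 0 = 1 := by decide
        have e2 : (1 : ZMod 4) + 1 = 2 := by decide
        have e3 : (0 : ZMod 4) + 1 = 1 := by decide
        rw [e, e2, e3, hd']; exact z2 _ _
      · have e : thru true 1 = 0 := by decide
        have e2 : (1 : ZMod 4) + 1 = 2 := by decide
        have e3 : (0 : ZMod 4) + 1 = 1 := by decide
        rw [e, e2, e3, hd']; exact z2 _ _
      · have e : thru true 2 = 3 := by decide
        have e2 : (3 : ZMod 4) + 1 = 0 := by decide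
        have e3 : (2 : ZMod 4) + 1 = 3 := by decide
        rw [e, e2, e3, hd']; exact z2 _ _
      · have e : thru true 3 = 2 := by decide
        have e2 : (3 : ZMod 4) + 1 = 0 := by decide
        have e3 : (2 : ZMod 4) + 1 = 3 := by decide
        rw [e, e2, e3, hd']; exact z2 _ _

theorem jmp_be {w : Wd T} (ho : Sw300.Ok w) {s : T → Bool} {B : Option T} {h : Port T → ZMod 2}
    (hp : Pot s B (gl w) h) (x : Port T) : jmp h (Sw300.be w x) = jmp h x := by
  by_cases hx : Sw300.be w x = x
  · rw [hx]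
  · have h1 : Gp (gl w) x (Sw300.be w x) := ((be_state ho).gl _ _).2 ⟨rfl, fun e => hx e.symm⟩
    unfold jmp
    rcases h1 with h1 | h1
    · rw [← hp.glr _ _ h1, ← hp.grl _ _ h1]; exact z2 _ _
    · rw [hp.glr _ _ h1, hp.grl _ _ h1]; exact z2 _ _

theorem jmp_rf {w : Wd T} (ho : Sw300.Ok w) {s : T → Bool} {B : Option T} {h : Port T → ZMod 2}
    (hp : Pot s B (gl w) h) {x y : Port T} (hxy : Rf (al s) (Sw300.be w) x y) :
    jmp h y = jmp h x := by
  obtain ⟨-, hxy⟩ := hxy
  induction hxy with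
  | refl => rfl
  | tail _ hbc ih =>
    obtain ⟨-, -, hbc⟩ := hbc
    rcases hbc with rfl | ⟨rfl, -, -⟩
    · rw [jmp_al hp, ih]
    · rw [jmp_be ho hp, ih]

/-- a free end on the strand of `a` is `a` or its partner -/
theorem uni_word {w : Wd T} (h : Sw300.Ok w) (s : T → Bool) {a b : Port T}
    (ha : a ∈ Sw300.L w) (hb : b ∈ Sw300.L w) (hab : Rf (al s) (Sw300.be w) a b) :
    b = a ∨ b = Sw300.M s w a := by
  have hg := gd_wd s h
  have hi := Sw300.Ok.inv s w h
  have key : ∀ {a b : Port T}, a ∈ Sw300.L w → b ∈ Sw300.L w → Sw300.M s w a ≠ a →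
      Rf (al s) (Sw300.be w) a b → b = a ∨ b = Sw300.M s w a := by
    intro a b ha hb hne hab
    obtain ⟨k, hk, hj⟩ := hg.pot a ha hne
    have e := jmp_rf h hk hab
    have e1 : jmp k a = 1 := by
      unfold jmp; rw [hj a ha, Gc748.jp_self]; ring
    have e2 : jmp k b = jp a (Sw300.M s w a) b := by
      unfold jmp; rw [hj b hb]; ring
    rw [e1, e2] at e
    unfold jp at e
    by_contra hcon
    rw [if_neg hcon] at e
    exact absurd e (by decide)
  by_cases hne : Sw300.M s w a = a
  · by_cases hne' : Sw300.M s w b = b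
    · left
      rw [hi.fix a ha hne, hi.fix b hb hne']
    · rcases key hb ha hne' (hab.symm (al_invol s) (be_invol h)) with h1 | h1
      · exact Or.inl h1.symm
      · left
        have h2 := hi.inv b hb
        rw [← h1, hne] at h2
        exact h2.symm
  · exact key ha hb hne hab

/-- **the strand system of a leg word** -/
theorem sys_of_word {w : Wd T} (h : Sw300.Ok w) (s : T → Bool) :
    Sys (al s) (Sw300.be w) none (Sw300.L w) (Sw300.M s w) (Sw300.u s w) := by
  have hg := gd_wd s h
  have hi := Sw300.Ok.inv s w h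
  have hfix : ∀ a ∈ Sw300.L w, Sw300.M s w a = a ↔ a = Sw300.u s w := fun a ha =>
    ⟨hi.fix a ha, fun e => by rw [e]; exact hi.uf⟩
  have hleg : Rf (al s) (Sw300.be w) none (Sw300.u s w) :=
    rf_of_lw h (hg.leg _ hi.um hi.uf)
  refine ⟨al_invol s, be_invol h, Sw300.nodup h, hi.mem, hi.inv, hi.um, hfix,
    fun a ha => ?_, fun a ha b hb => uni_word h s ha hb, fun a ha => ?_⟩
  · by_cases hM : Sw300.M s w a = a
    · rw [hM]; exact .refl trivial
    · exact rf_of_wk h (hg.str a ha hM)
  constructor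
  · intro h1
    have h2 := (hleg.symm (al_invol s) (be_invol h)).trans h1
    rcases uni_word h s hi.um ha h2 with h3 | h3
    · exact h3
    · rw [hi.uf] at h3; exact h3
  · rintro rfl
    exact hleg

/-! ### rings -/

/-- the ring of free ends of a planar region without leg -/
structure Ring {Y : Type*} [DecidableEq Y] (alY beY : Y → Y) (C : List Y) (MY : Y → Y) :
    Prop where
  nd : C.Nodup
  nc : NCl C MY
  mem : ∀ a ∈ C, MY a ∈ C
  inv : ∀ a ∈ C, MY (MY a) = a
  ne : ∀ a ∈ C, MY a ≠ a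
  uni : ∀ a ∈ C, ∀ b ∈ C, Rf alY beY a b → b = a ∨ b = MY a

section cycI

variable {β : Type*} [DecidableEq β]

/-- cyclic order of list positions -/
def cycI (L : List β) (a b c : β) : Prop :=
  Sw300.cyc (L.idxOf a : ℤ) (L.idxOf b) (L.idxOf c)

theorem cycI_swap {A B : List β} (hn : (A ++ B).Nodup) {a b c : β} (ha : a ∈ A ++ B)
    (hb : b ∈ A ++ B) (hc : c ∈ A ++ B) : cycI (B ++ A) a b c ↔ cycI (A ++ B) a b c := by
  have key : ∀ x ∈ A ++ B, ((B ++ A).idxOf x : ℤ) =
      if x ∈ B then ((A ++ B).idxOf x : ℤ) - A.length else ((A ++ B).idxOf x : ℤ) + B.length := by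
    intro x hx
    have hn' : (B ++ A).Nodup := List.nodup_append_comm.1 hn
    by_cases hB : x ∈ B
    · rw [if_pos hB, List.idxOf_append_of_mem hB,
        List.idxOf_append_of_notMem (notMem_left hn hB)]
      push_cast; ring
    · have hA : x ∈ A := (List.mem_append.1 hx).resolve_right hB
      rw [if_neg hB, List.idxOf_append_of_mem hA, List.idxOf_append_of_notMem hB]
      push_cast; ring
  have bd : ∀ x ∈ A ++ B, if x ∈ B then (A.length : ℤ) ≤ (A ++ B).idxOf x ∧
      ((A ++ B).idxOf x : ℤ) < A.length + B.length else ((A ++ B).idxOf x : ℤ) < A.length := by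
    intro x hx
    by_cases hB : x ∈ B
    · rw [if_pos hB]
      have h1 := List.idxOf_lt_length_iff.2 hx
      rw [List.length_append] at h1
      rw [List.idxOf_append_of_notMem (notMem_left hn hB)] at h1 ⊢
      push_cast
      constructor
      · omega
      · omega
    · rw [if_neg hB]
      have hA : x ∈ A := (List.mem_append.1 hx).resolve_right hB
      rw [List.idxOf_append_of_mem hA]
      have h1 := List.idxOf_lt_length_iff.2 hA
      omega
  unfold cycI
  rw [key a ha, key b hb, key c hc]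
  have b1 := bd a ha
  have b2 := bd b hb
  have b3 := bd c hc
  have n1 : ∀ x : β, (0 : ℤ) ≤ ((A ++ B).idxOf x : ℤ) := fun x => by positivity
  have m1 := n1 a
  have m2 := n1 b
  have m3 := n1 c
  unfold Sw300.cyc
  split_ifs at b1 b2 b3 ⊢ <;> omega

theorem cycI_rot {L L' : List β} (hr : L ~r L') (hn : L.Nodup) {a b c : β} (ha : a ∈ L)
    (hb : b ∈ L) (hc : c ∈ L) : cycI L' a b c ↔ cycI L a b c := by
  obtain ⟨n, hn', rfl⟩ := List.isRotated_iff_mod.1 hr
  rw [List.rotate_eq_drop_append_take hn']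
  have e : L.take n ++ L.drop n = L := List.take_append_drop n L
  rw [← e] at hn ha hb hc
  rw [cycI_swap hn ha hb hc, e]

/-- erasing one element does not change the order of the others -/
theorem cycI_erase {P Q : List β} {z : β} (hn : (P ++ z :: Q).Nodup) {a b c : β}
    (ha : a ∈ P ++ Q) (hb : b ∈ P ++ Q) (hc : c ∈ P ++ Q) :
    cycI (P ++ Q) a b c ↔ cycI (P ++ z :: Q) a b c := by
  have key : ∀ x ∈ P ++ Q, (((P ++ z :: Q).idxOf x : ℕ) : ℤ) =
      ((P ++ Q).idxOf x : ℤ) + (if x ∈ P then 0 else 1) := by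
    intro x hx
    have hn2 : (P ++ Q).Nodup := by
      rw [List.nodup_append] at hn ⊢
      refine ⟨hn.1, (List.nodup_cons.1 hn.2.1).2, fun a ha b hb => hn.2.2 a ha b (by simp [hb])⟩
    by_cases hP : x ∈ P
    · rw [if_pos hP, List.idxOf_append_of_mem hP, List.idxOf_append_of_mem hP]; simp
    · have hQ : x ∈ Q := (List.mem_append.1 hx).resolve_left hP
      have hz : z ≠ x := by
        rintro rfl
        rw [List.nodup_append] at hn
        exact (List.nodup_cons.1 hn.2.1).1 hQ
      rw [if_neg hP, List.idxOf_append_of_notMem hP, List.idxOf_append_of_notMem hP,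
        List.idxOf_cons_ne _ hz]
      push_cast; ring
  have bd : ∀ x ∈ P ++ Q, if x ∈ P then ((P ++ Q).idxOf x : ℤ) < P.length else
      (P.length : ℤ) ≤ (P ++ Q).idxOf x := by
    intro x hx
    by_cases hP : x ∈ P
    · rw [if_pos hP, List.idxOf_append_of_mem hP]
      have h1 := List.idxOf_lt_length_iff.2 hP
      omega
    · rw [if_neg hP, List.idxOf_append_of_notMem hP]
      push_cast; omega
  unfold cycI
  rw [key a ha, key b hb, key c hc]
  have b1 := bd a ha
  have b2 := bd b hb
  have b3 := bd c hc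
  unfold Sw300.cyc
  split_ifs at b1 b2 b3 ⊢ <;> omega

theorem idx_pos_iff {L : List β} {pos : β → ℤ} (hs : L.Pairwise fun x y => pos x < pos y)
    {a t : β} (ha : a ∈ L) (ht : t ∈ L) : L.idxOf a < L.idxOf t ↔ pos a < pos t := by
  have := gq_pos hs ha ht
  unfold gq at this
  simpa using this

theorem cycI_pos {L : List β} {pos : β → ℤ} (hs : L.Pairwise fun x y => pos x < pos y)
    {a b c : β} (ha : a ∈ L) (hb : b ∈ L) (hc : c ∈ L) :
    cycI L a b c ↔ Sw300.cyc (pos a) (pos b) (pos c) := by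
  have h1 := idx_pos_iff hs ha hb
  have h2 := idx_pos_iff hs hb hc
  have h3 := idx_pos_iff hs hc ha
  unfold cycI Sw300.cyc
  omega

end cycI

/-- **ring of a word without leg** (`none` = the marker) -/
theorem ring_of_word {w : Wd T} (h : Sw300.Ok w) (s : T → Bool) (hu : Sw300.u s w = none)
    {P Q C : List (Port T)} (hr : Sw300.L w ~r P ++ none :: Q) (hC : P ++ Q ~r C) :
    Ring (al s) (Sw300.be w) C (Sw300.M s w) := by
  have hi := Sw300.Ok.inv s w h
  have hnL := Sw300.nodup h
  have hn1 : (P ++ none :: Q).Nodup := (hr.nodup_iff).1 hnL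
  have hn2 : (P ++ Q).Nodup := by
    rw [List.nodup_append] at hn1 ⊢
    refine ⟨hn1.1, (List.nodup_cons.1 hn1.2.1).2, fun a ha b hb => hn1.2.2 a ha b (by simp [hb])⟩
  have hnC : C.Nodup := (hC.nodup_iff).1 hn2
  have hnone : (none : Port T) ∉ P ++ Q := by
    intro h1
    rw [List.nodup_append] at hn1
    rcases List.mem_append.1 h1 with h2 | h2
    · exact hn1.2.2 _ h2 _ (by simp) rfl
    · exact (List.nodup_cons.1 hn1.2.1).1 h2
  have mem1 : ∀ x, x ∈ C ↔ (x ∈ Sw300.L w ∧ x ≠ none) := by
    intro x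
    rw [← hC.mem_iff, hr.mem_iff]
    constructor
    · intro h1
      refine ⟨?_, fun e => hnone (e ▸ h1)⟩
      simp only [List.mem_append, List.mem_cons] at h1 ⊢
      tauto
    · rintro ⟨h1, h2⟩
      simp only [List.mem_append, List.mem_cons] at h1 ⊢
      tauto
  have hcyc : ∀ a ∈ C, ∀ b ∈ C, ∀ c ∈ C, cycI C a b c ↔
      Sw300.cyc (Sw300.pos w a) (Sw300.pos w b) (Sw300.pos w c) := by
    intro a ha b hb c hc
    have a1 := (mem1 a).1 ha
    have b1 := (mem1 b).1 hb
    have c1 := (mem1 c).1 hc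
    have a2 := hC.mem_iff.2 ha
    have b2 := hC.mem_iff.2 hb
    have c2 := hC.mem_iff.2 hc
    rw [cycI_rot hC hn2 a2 b2 c2, cycI_erase hn1 a2 b2 c2, cycI_rot hr hnL a1.1 b1.1 c1.1,
      cycI_pos (Sw300.sorted w h) a1.1 b1.1 c1.1]
  have hmem : ∀ a ∈ C, Sw300.M s w a ∈ C := by
    intro a ha
    have a1 := (mem1 a).1 ha
    refine (mem1 _).2 ⟨hi.mem a a1.1, ?_⟩
    rw [← hu]
    exact hi.Mu a1.1 (by rw [hu]; exact a1.2)
  refine ⟨hnC, ?_, hmem, fun a ha => hi.inv a ((mem1 a).1 ha).1, fun a ha => ?_, fun a ha b hb =>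
    uni_word h s ((mem1 a).1 ha).1 ((mem1 b).1 hb).1⟩
  · intro a ha b hb h1 h2
    have a1 := (mem1 a).1 ha
    have b1 := (mem1 b).1 hb
    have c1 : cycI C a b (Sw300.M s w a) := Or.inl ⟨by exact_mod_cast h1, by exact_mod_cast h2⟩
    have hab : b ≠ a := by rintro rfl; omega
    have hbM : b ≠ Sw300.M s w a := by rintro rfl; omega
    have c2 := (hcyc a ha b hb _ (hmem a ha)).1 c1
    have c3 := (hi.nc a b a1.1 b1.1 (by rw [hu]; exact a1.2) (by rw [hu]; exact b1.2) hab hbM).1 c2
    have c4 := (hcyc a ha _ (hmem b hb) _ (hmem a ha)).2 c3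
    unfold cycI Sw300.cyc at c4
    omega
  · have a1 := (mem1 a).1 ha
    exact hi.Mne a1.1 (by rw [hu]; exact a1.2)

/-! ### charts -/

section chart

variable {X Y : Type*} [DecidableEq X] [DecidableEq Y]

theorem idx_map {ψ : X → Y} {L : List X} (hinj : ∀ x ∈ L, ∀ y ∈ L, ψ x = ψ y → x = y) {a : X}
    (ha : a ∈ L) : (L.map ψ).idxOf (ψ a) = L.idxOf a := by
  induction L with
  | nil => simp at ha
  | cons x L ih =>
    rw [List.map_cons]
    by_cases hxa : x = a
    · subst hxa
      rw [List.idxOf_cons_self, List.idxOf_cons_self]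
    · have h1 : ψ x ≠ ψ a := fun e => hxa (hinj x (by simp) a ha e)
      rw [List.idxOf_cons_ne _ h1, List.idxOf_cons_ne _ hxa]
      have ha' : a ∈ L := (List.mem_cons.1 ha).resolve_left (fun e => hxa e.symm)
      rw [ih (fun x hx y hy => hinj x (by simp [hx]) y (by simp [hy])) ha']

open Classical in
/-- pull-back of the partner map -/
noncomputable def pull (ψ : X → Y) (L : List X) (MY : Y → Y) (x : X) : X :=
  if h : ∃ y ∈ L, ψ y = MY (ψ x) then h.choose else x

theorem pull_spec {ψ : X → Y} {L : List X} {MY : Y → Y} (hmem : ∀ a ∈ L.map ψ, MY a ∈ L.map ψ)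
    {x : X} (hx : x ∈ L) : pull ψ L MY x ∈ L ∧ ψ (pull ψ L MY x) = MY (ψ x) := by
  classical
  have h : ∃ y ∈ L, ψ y = MY (ψ x) := by
    have := hmem (ψ x) (List.mem_map_of_mem hx)
    rw [List.mem_map] at this
    exact this
  unfold pull
  rw [dif_pos h]
  exact h.choose_spec

/-- **annulus state from a ring in a chart** -/
theorem annS_of_chart {al be : X → X} {alY beY : Y → Y} {Fa An : Set X}
    {N1 Jl N2 Jo : List X} {MY : Y → Y} {ψ : X → Y}
    (hR : Ring alY beY ((N1 ++ Jl ++ N2 ++ Jo).map ψ) MY)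
    (hinj : ∀ x ∈ An, ∀ y ∈ An, ψ x = ψ y → x = y)
    (sub : ∀ x ∈ N1 ++ Jl ++ N2 ++ Jo, x ∈ An)
    (hal : ∀ x ∈ An, ψ (al x) = alY (ψ x))
    (hbe : ∀ x ∈ An, x ∉ N1 ++ Jl ++ N2 ++ Jo → ψ (be x) = beY (ψ x))
    (dj : ∀ x ∈ Fa, x ∉ An) (alF : ∀ x ∈ Fa, al x ∈ Fa) (alA : ∀ x ∈ An, al x ∈ An)
    (beF : ∀ x ∈ Fa, be x ∈ Fa ∨ be x ∈ Jo)
    (beA : ∀ x ∈ An, x ∉ N1 ++ Jl ++ N2 ++ Jo → be x ∈ An ∧ be x ∉ N1 ++ Jl ++ N2 ++ Jo)
    (beN1 : ∀ x ∈ N1, be x = x) (beN2 : ∀ x ∈ N2, be x = x) (beo : ∀ x ∈ Jo, be x ∈ Fa) :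
    AnnS al be Fa An N1 Jl N2 Jo (pull ψ (N1 ++ Jl ++ N2 ++ Jo) MY) := by
  obtain ⟨hnd, hnc, hmem, hinv, hne, huni⟩ := hR
  set LA := N1 ++ Jl ++ N2 ++ Jo with hLA
  have hi : ∀ x ∈ LA, ∀ y ∈ LA, ψ x = ψ y → x = y := fun x hx y hy => hinj x (sub x hx) y (sub y hy)
  have sp : ∀ {x : X}, x ∈ LA → pull ψ LA MY x ∈ LA ∧ ψ (pull ψ LA MY x) = MY (ψ x) :=
    fun hx => pull_spec hmem hx
  have mm : ∀ {x : X}, x ∈ LA → ψ x ∈ LA.map ψ := fun hx => List.mem_map_of_mem hx
  have hnd' : LA.Nodup := List.Nodup.of_map ψ hnd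
  refine ⟨hnd', ?_, fun a ha => (sp ha).1, fun a ha => ?_, fun a ha => ?_, ?_, dj, sub, alF, alA,
    beF, beA, beN1, beN2, beo⟩
  · intro a ha b hb h1 h2
    have e1 := idx_map hi ha
    have e2 := idx_map hi hb
    have e3 := idx_map hi (sp ha).1
    have e4 := idx_map hi (sp hb).1
    rw [(sp ha).2] at e3
    rw [(sp hb).2] at e4
    have := hnc (ψ a) (mm ha) (ψ b) (mm hb) (by rw [e1, e2]; exact h1) (by rw [e2, e3]; exact h2)
    rw [e1, e3, e4] at this
    exact this
  · apply hi _ (sp (sp ha).1).1 _ ha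
    rw [(sp (sp ha).1).2, (sp ha).2, hinv _ (mm ha)]
  · intro e
    have := (sp ha).2
    rw [e] at this
    exact hne _ (mm ha) this.symm
  · intro a ha b hb hab
    have h1 : Rf alY beY (ψ a) (ψ b) := by
      obtain ⟨-, hab⟩ := hab
      clear hb
      induction hab with
      | refl => exact .refl trivial
      | @tail c d _ hcd ih =>
        obtain ⟨hc, hd, hcd⟩ := hcd
        rcases hcd with rfl | ⟨rfl, h3, h4⟩
        · rw [hal c hc]; exact ih.trans (rf_al _)
        · rw [hbe c hc h3]; exact ih.trans (rf_be _)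
    rcases huni _ (mm ha) _ (mm hb) h1 with h2 | h2
    · exact Or.inl (hi _ hb _ ha h2)
    · right
      apply hi _ hb _ (sp ha).1
      rw [h2, (sp ha).2]

end chart

end Crest.Agent.R158.Sl434
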