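import Crest.Agent.R158.Bl3_802
import Crest.Agent.R158.Pt2_266
import Crest.Agent.R158.Sl4_434

/-!
# R158, helper802, file Bl4: the clockwise list of the free ends of `D^(z)`

* `mem_word` : the free ends of a good leg word
* `LD0`, `LD` : for a good word `W` of `D^(z)`, `L W` is a rotation of `nN :: blk w n`
  (walk `w` from the right end of the cut line), resp. of
  `blk (w (· + i0)) (n - i0) ++ nN :: blk w i0` (walk from any base)
* `ord` : the cyclic order of the free ends in terms of the counterclockwise index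
-/

set_option autoImplicit false

namespace Crest.Agent.R158.Bl802

open Crest.Agent.R158.Sp896
open Crest.Agent.R158.Xr249 (Nx rot)
open Crest.Agent.R158.Sw300 (Port Wd L M pos cyc)
open Crest.Agent.R158.Env664
open Crest.Agent.R158.Ob664

/-! ### ports of steps -/

/-- start vertex of the boundary step of a port -/
def src : Port V → V
  | none => (0, 0)
  | some (t, d) => if d = 0 then (t.1, t.2 + 1) else if d = 1 then (t.1 + 1, t.2 + 1)
      else if d = 2 then (t.1 + 1, t.2) else t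

theorem src_pt {a b : V} (h : Adj a b) : src (pt a b) = a := by
  obtain ⟨a1, a2⟩ := a
  obtain ⟨b1, b2⟩ := b
  unfold Adj at h
  simp only at h
  rcases h with ⟨h1, h2⟩ | ⟨h1, h2⟩ | ⟨h1, h2⟩ | ⟨h1, h2⟩
  · subst h1 h2
    rw [pt_E]
    simp only [src]
    rw [if_neg n30, if_neg n31, if_neg n32]
  · subst h1 h2
    rw [pt_W]
    simp only [src]
    rw [if_neg n10, if_pos trivial]
    ext <;> simp only <;> ring
  · subst h1 h2
    rw [pt_N]
    simp only [src]
    rw [if_neg n20, if_neg n21, if_pos trivial]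
    ext <;> simp only <;> ring
  · subst h1 h2
    rw [pt_S]
    simp only [src]
    rw [if_pos trivial]
    ext <;> simp only <;> ring

theorem nbP_pt {a b : V} (h : Adj a b) : ∃ d, nbP (pt a b) = some (rc a b, d) := by
  obtain ⟨a1, a2⟩ := a
  obtain ⟨b1, b2⟩ := b
  unfold Adj at h
  simp only at h
  rcases h with ⟨h1, h2⟩ | ⟨h1, h2⟩ | ⟨h1, h2⟩ | ⟨h1, h2⟩
  · subst h1 h2
    rw [pt_E, nbP_S]
    refine ⟨_, congrArg some (Prod.ext ?_ rfl)⟩
    simp only [rc]; ext <;> simp only <;> omega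
  · subst h1 h2
    rw [pt_W, nbP_N]
    refine ⟨_, congrArg some (Prod.ext ?_ rfl)⟩
    simp only [rc]; ext <;> simp only <;> omega
  · subst h1 h2
    rw [pt_N, nbP_E]
    refine ⟨_, congrArg some (Prod.ext ?_ rfl)⟩
    simp only [rc]; ext <;> simp only <;> omega
  · subst h1 h2
    rw [pt_S, nbP_W]
    refine ⟨_, congrArg some (Prod.ext ?_ rfl)⟩
    simp only [rc]; ext <;> simp only <;> omega

/-! ### membership -/

theorem mem_word {A : Finset V} {b : Port V → Port V} {W : Wd V} (h : GW A b W)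
    (hb : b none ≠ none) (x : Port V) : x ∈ L W ↔ PortOf A x ∧ b x = x := by
  obtain ⟨hok, -, ht, hbe⟩ := h.word
  have hs := Gc748.be_state hok
  rcases x with _ | ⟨t, d⟩
  · constructor
    · intro hx
      exact absurd ((hbe none).symm.trans (hs.free _ hx)) hb
    · rintro ⟨-, h2⟩
      exact absurd h2 hb
  · rw [Pt266.mem_L hok (t, d), ht, portOf_some, ← hbe]
    constructor
    · rintro ⟨h1, h2⟩
      refine ⟨h1, ?_⟩
      by_contra hc
      exact h2 ⟨_, (hs.gl _ _).2 ⟨rfl, fun e => hc e.symm⟩⟩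
    · rintro ⟨h1, h2⟩
      refine ⟨h1, ?_⟩
      rintro ⟨y, hy⟩
      obtain ⟨h3, h4⟩ := (hs.gl _ _).1 hy
      exact h4 (h2.symm.trans h3)

section

variable {A : Finset V} {p y0 xl xr : ℤ} {n : ℕ} {w : ℕ → V} {W : Wd V}

theorem beD_none (r0 : Run A xl xr y0) (h1 : xl < p) (h2 : p ≤ xr) :
    beD A p y0 xr none = some ((p, y0), 3) := by
  unfold beD
  rw [res_of (portOf_none A), nbD_leg]
  rw [nbD_leg, portOf_some]
  exact r0.mem _ h1.le h2

theorem nN_mem (r0 : Run A xl xr y0) (r1 : Run A xl xr (y0 - 1)) (h1 : xl < p) (h2 : p ≤ xr)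
    (hW : GW A (beD A p y0 xr) W) : nN xr y0 ∈ L W := by
  rw [mem_word hW (by rw [beD_none r0 h1 h2]; simp)]
  refine ⟨portOf_some.2 (r1.mem _ r1.le le_rfl), ?_⟩
  unfold beD res nN
  rw [if_neg]
  rintro ⟨-, h4⟩
  rw [nbD_N1 ⟨rfl, h2, le_rfl⟩, portOf_some] at h4
  exact r0.right h4

theorem nN_notMem (r0 : Run A xl xr y0) (h : Cyc (A : Set V) n w) (m : ℕ) :
    nN xr y0 ∉ blk w m := by
  intro hx
  obtain ⟨i, hi, e⟩ := mem_blk.1 hx
  obtain ⟨d, hd⟩ := nbP_pt (h.step i)
  rw [← e] at hd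
  unfold nN at hd
  rw [nbP_N] at hd
  simp only [Option.some.injEq, Prod.mk.injEq, sub_add_cancel] at hd
  apply h.right i
  rw [← hd.1]
  exact r0.mem _ r0.le le_rfl

theorem gl_det {b : Port V → Port V} (x y z : Port V) (h : Gl b x y) (h' : Gl b x z) : y = z :=
  h.1.symm.trans h'.1

theorem LD0 (h : AtR A n w y0 xr) (r0 : Run A xl xr y0) (r1 : Run A xl xr (y0 - 1))
    (h1 : xl < p) (h2 : p ≤ xr) (hW : GW A (beD A p y0 xr) W) :
    L W ~r nN xr y0 :: blk w n := by
  have hch := chainD h r0 r1 h1 h2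
  obtain ⟨x, l, hl, hc⟩ := hW.nx
  have hnd : (L W).Nodup := Sw300.nodup hW.word.1
  have hm := nN_mem r0 r1 h1 h2 hW
  obtain ⟨l1, l2, e⟩ := List.append_of_mem hm
  have hrot : L W ~r nN xr y0 :: (l2 ++ l1) := by
    rw [e]
    exact ⟨l1.length, by rw [List.rotate_append_length_eq]; simp⟩
  have hcy : Cycle.Chain (Nx (Gl (beD A p y0 xr))) ((L W : List (Port V)) : Cycle (Port V)) := by
    rw [hl, Cycle.chain_coe_cons]; exact hc
  rw [(Cycle.coe_eq_coe.2 hrot : ((L W : List (Port V)) : Cycle (Port V)) = _),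
    Cycle.chain_coe_cons] at hcy
  have hnd' : (nN xr y0 :: (l2 ++ l1)).Nodup := hrot.nodup_iff.1 hnd
  have e2 : l2 ++ l1 = blk w n :=
    Gc748.chain_det (r := Nx (Gl (beD A p y0 xr))) (fun a b c h1 h2 => Xr249.Nx.det gl_det h1 h2)
      hcy hch (List.nodup_cons.1 hnd').1 (nN_notMem r0 h.cyc n)
  rw [← e2]
  exact hrot

/-- **the clockwise list of the free ends**, walk with any base vertex -/
theorem LD (h : Cyc (A : Set V) n w) {i0 : ℕ} (hi : i0 < n) (e0 : w i0 = (xr + 1, y0))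
    (e1 : w (i0 + 1) = (xr + 1, y0 + 1)) (r0 : Run A xl xr y0) (r1 : Run A xl xr (y0 - 1))
    (h1 : xl < p) (h2 : p ≤ xr) (hW : GW A (beD A p y0 xr) W) :
    L W ~r blk (fun j => w (j + i0)) (n - i0) ++ nN xr y0 :: blk w i0 := by
  obtain ⟨k, hk, hat⟩ := exists_atR h r0 r1
  have hki : k = i0 := by
    apply h.inj k hk i0 hi
    rw [e0, ← hat.w0]
    show w k = w (0 + k)
    rw [zero_add]
  subst hki
  have := LD0 hat r0 r1 h1 h2 hW
  have e3 : blk (fun j => w (j + k)) n = blk w k ++ blk (fun j => w (j + k)) (n - k) := by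
    conv_lhs => rw [show n = (n - k) + k by omega, blk_app]
    congr 2
    · funext j
      show w (j + (n - k) + k) = w j
      rw [show j + (n - k) + k = j + n by omega, h.per]
  rw [e3] at this
  refine this.trans ⟨(nN xr y0 :: blk w k).length, ?_⟩
  rw [← List.cons_append, List.rotate_append_length_eq]

theorem exists_i0 (h : Cyc (A : Set V) n w) (r0 : Run A xl xr y0) :
    ∃ i0 < n, w i0 = (xr + 1, y0) ∧ w (i0 + 1) = (xr + 1, y0 + 1) :=
  h.all (xr + 1, y0) (xr + 1, y0 + 1) (by unfold Adj; simp)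
    (by rw [lcN, add_sub_cancel_right]; exact r0.mem _ r0.le le_rfl)
    (by rw [rcN]; exact r0.right)

/-- membership -/
theorem memD (h : Cyc (A : Set V) n w) {i0 : ℕ} (hi : i0 < n) (e0 : w i0 = (xr + 1, y0))
    (e1 : w (i0 + 1) = (xr + 1, y0 + 1)) (r0 : Run A xl xr y0) (r1 : Run A xl xr (y0 - 1))
    (h1 : xl < p) (h2 : p ≤ xr) (hW : GW A (beD A p y0 xr) W) (x : Port V) :
    x ∈ L W ↔ x = nN xr y0 ∨ ∃ i < n, x = pt (w i) (w (i + 1)) := by
  rw [(LD h hi e0 e1 r0 r1 h1 h2 hW).mem_iff, List.mem_append, List.mem_cons, mem_blk, mem_blk]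
  constructor
  · rintro (⟨j, hj, rfl⟩ | rfl | ⟨i, hi', rfl⟩)
    · exact Or.inr ⟨j + i0, by omega, by rw [show j + i0 + 1 = j + 1 + i0 by ring]⟩
    · exact Or.inl rfl
    · exact Or.inr ⟨i, by omega, rfl⟩
  · rintro (rfl | ⟨i, hi', rfl⟩)
    · exact Or.inr (Or.inl rfl)
    · rcases Nat.lt_or_ge i i0 with hlt | hge
      · exact Or.inr (Or.inr ⟨i, hlt, rfl⟩)
      · refine Or.inl ⟨i - i0, by omega, ?_⟩
        rw [show i - i0 + i0 = i by omega, show i - i0 + 1 + i0 = i + 1 by omega]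

theorem blk_pairwise {ci : Port V → ℤ} {m : ℕ} {w : ℕ → V} {c : ℤ}
    (hci : ∀ i < m, ci (pt (w i) (w (i + 1))) = 2 * (i + c)) :
    (blk w m).Pairwise fun x y => - ci x < - ci y := by
  induction m with
  | zero => rw [blk_zero]; exact List.Pairwise.nil
  | succ m ih =>
    rw [blk_succ, List.pairwise_cons]
    refine ⟨?_, ih fun i hi => hci i (by omega)⟩
    intro y hy
    obtain ⟨i, hi, rfl⟩ := mem_blk.1 hy
    rw [hci m (by omega), hci i (by omega)]
    omega

open Classical in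
/-- **cyclic order of the free ends of `D^(z)`** by the counterclockwise index -/
theorem ord (h : Cyc (A : Set V) n w) {i0 : ℕ} (hi : i0 < n) (e0 : w i0 = (xr + 1, y0))
    (e1 : w (i0 + 1) = (xr + 1, y0 + 1)) (r0 : Run A xl xr y0) (r1 : Run A xl xr (y0 - 1))
    (h1 : xl < p) (h2 : p ≤ xr) (hW : GW A (beD A p y0 xr) W) :
    ∃ ci : Port V → ℤ, (∀ i < n, ci (pt (w i) (w (i + 1))) = 2 * i) ∧
      ci (nN xr y0) = 2 * i0 - 1 ∧ ∀ x ∈ L W, ∀ y ∈ L W, ∀ z ∈ L W,
        (cyc (pos W x) (pos W y) (pos W z) ↔ cyc (ci z) (ci y) (ci x)) := by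
  have hinj : ∀ i < n, ∀ j < n, pt (w i) (w (i + 1)) = pt (w j) (w (j + 1)) → i = j := by
    intro i hi j hj e
    apply h.inj i hi j hj
    rw [← src_pt (h.step i), ← src_pt (h.step j), e]
  let ci : Port V → ℤ := fun x => if x = nN xr y0 then 2 * i0 - 1 else
    if hx : ∃ i < n, x = pt (w i) (w (i + 1)) then 2 * (hx.choose : ℤ) else 0
  have c1 : ∀ i < n, ci (pt (w i) (w (i + 1))) = 2 * i := by
    intro i hi'
    have hne : pt (w i) (w (i + 1)) ≠ nN xr y0 := by
      intro e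
      exact nN_notMem r0 h n (mem_blk.2 ⟨i, hi', e.symm⟩)
    have hx : ∃ j < n, pt (w i) (w (i + 1)) = pt (w j) (w (j + 1)) := ⟨i, hi', rfl⟩
    simp only [ci, if_neg hne, dif_pos hx]
    have := hinj i hi' _ hx.choose_spec.1 hx.choose_spec.2
    omega
  have c2 : ci (nN xr y0) = 2 * i0 - 1 := by simp only [ci, if_true]
  have hLD := LD h hi e0 e1 r0 r1 h1 h2 hW
  have hnd : (L W).Nodup := Sw300.nodup hW.word.1
  have hpw : (blk (fun j => w (j + i0)) (n - i0) ++ nN xr y0 :: blk w i0).Pairwise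
      fun x y => - ci x < - ci y := by
    rw [List.pairwise_append]
    have g1 : ∀ j < n - i0, ci (pt (w (j + i0)) (w (j + 1 + i0))) = 2 * (j + i0) := by
      intro j hj
      have := c1 (j + i0) (by omega)
      rw [show j + i0 + 1 = j + 1 + i0 by ring] at this
      rw [this]; push_cast; ring
    refine ⟨blk_pairwise (c := i0) (w := fun j => w (j + i0)) (by simpa using g1), ?_, ?_⟩
    · rw [List.pairwise_cons]
      refine ⟨?_, blk_pairwise (c := 0) (by simpa using fun i hi' => c1 i (by omega))⟩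
      intro y hy
      obtain ⟨i, hi', rfl⟩ := mem_blk.1 hy
      rw [c2, c1 i (by omega)]
      omega
    · intro x hx y hy
      obtain ⟨j, hj, rfl⟩ := mem_blk.1 hx
      rw [g1 j hj]
      rcases List.mem_cons.1 hy with rfl | hy
      · rw [c2]; omega
      · obtain ⟨i, hi', rfl⟩ := mem_blk.1 hy
        rw [c1 i (by omega)]
        omega
  have hpos : (L W).Pairwise fun x y => pos W x < pos W y := Sw300.sorted W hW.word.1
  refine ⟨ci, c1, c2, ?_⟩
  intro x hx y hy z hz
  rw [← Sl434.cycI_pos hpos hx hy hz, ← Sl434.cycI_rot hLD hnd hx hy hz,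
    Sl434.cycI_pos hpw (hLD.mem_iff.1 hx) (hLD.mem_iff.1 hy) (hLD.mem_iff.1 hz)]
  unfold cyc
  omega

end

end Crest.Agent.R158.Bl802
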