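import Crest.Agent.R158.Sp6_896

/-! R158 (helper896) BLOCK SP, file 7: existence of the sandwich polygons. -/

set_option autoImplicit false

open Set Topology Filter Metric
open Crest Crest.ProbabilityR Crest.ProbabilityR.Percolation
open Crest.Agent.R158.Jt785

namespace Crest.Agent.R158.Sp896

/-- SANDWICH POLYGON: a polyomino `F` of mesh `s` with boundary walk `v` and four marked edges
`0 < mb < mc < md < L`; the arcs `B`, `E` of the boundary are outside `closure D`, the arcs `A`, `C`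
cut off the sets `A`, `C`. -/
structure SPoly (A B C E D : Set ℂ) (ε s : ℝ) (F : Set V) (L : ℕ) (v : ℕ → V) (mb mc md : ℕ) :
    Prop where
  s_pos : 0 < s
  s_lt : s < ε
  fin : F.Finite
  con : ∀ q ∈ F, ∀ q' ∈ F, Con F q q'
  con' : ∀ q ∉ F, ∀ q' ∉ F, Con Fᶜ q q'
  cyc : Cyc F L v
  ord1 : 0 < mb
  ord2 : mb < mc
  ord3 : mc < md
  ord4 : md < L
  arcA : ∀ m ≤ mb, ∀ z ∈ ed s (v m) (v (m + 1)), Nr ε A z
  arcB : ∀ m, mb ≤ m → m ≤ mc → ∀ z ∈ ed s (v m) (v (m + 1)), z ∉ closure D ∧ Nr ε B z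
  arcC : ∀ m, mc ≤ m → m ≤ md → ∀ z ∈ ed s (v m) (v (m + 1)), Nr ε C z
  arcE : ∀ m, md ≤ m → m ≤ L → ∀ z ∈ ed s (v m) (v (m + 1)), z ∉ closure D ∧ Nr ε E z
  miss : ∀ q ∈ F, Disjoint (sq s q) (A ∪ C)
  cover : ∀ z ∈ closure D, ¬ Nr ε A z → ¬ Nr ε C z → z ∈ interior (⋃ q ∈ F, sq s q)
  outer : ∀ q ∈ F, ∀ z ∈ sq s q, z ∉ D → Nr ε B z ∨ Nr ε E z
  near : ∀ z ∈ A ∪ B ∪ C ∪ E, ∃ q ∉ F, ∀ w ∈ sq s q, ‖w - z‖ < ε
  inn : ∀ m, ∃ z ∈ sq s (lc (v m) (v (m + 1))), z ∈ closure D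

theorem ed_dist {s : ℝ} (hs : 0 < s) {a b : V} (h : Adj a b) {z w : ℂ} (hz : z ∈ ed s a b)
    (hw : w ∈ ed s a b) : ‖z - w‖ ≤ 2 * s :=
  sq_dist (ed_sub_lc hs h hz) (ed_sub_lc hs h hw)

theorem ed_left (s : ℝ) (a b : V) : pt s a ∈ ed s a b := left_mem_segment ℝ _ _
theorem ed_right (s : ℝ) (a b : V) : pt s b ∈ ed s a b := right_mem_segment ℝ _ _

/-- combinatorial end: contiguous runs to marked edges -/
theorem marked {A B C E D : Set ℂ} {ε s : ℝ} {F : Set V} {L : ℕ} {v : ℕ → V} (hs : 0 < s)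
    (h2s : 2 * s ≤ ε / 2) (hAC : ∀ a ∈ A, ∀ c ∈ C, 2 * ε ≤ ‖a - c‖)
    (cyc : Cyc F L v) {ib ic id ia : ℕ} (h1 : 0 < ib) (h2 : ib < ic) (h3 : ic < id) (h4 : id < ia)
    (h5 : ia ≤ L)
    (RB : ∀ m, ib ≤ m → m < ic → ∀ z ∈ ed s (v m) (v (m + 1)), z ∉ closure D ∧ Nr (ε / 2) B z)
    (RC : ∀ m, ic ≤ m → m < id → ∀ z ∈ ed s (v m) (v (m + 1)), Nr (ε / 2) C z)
    (RE : ∀ m, id ≤ m → m < ia → ∀ z ∈ ed s (v m) (v (m + 1)), z ∉ closure D ∧ Nr (ε / 2) E z)
    (RA : ∀ m, m < ib ∨ (ia ≤ m ∧ m < L) → ∀ z ∈ ed s (v m) (v (m + 1)), Nr (ε / 2) A z) :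
    ∃ (v' : ℕ → V) (mb mc md : ℕ), Cyc F L v' ∧ 0 < mb ∧ mb < mc ∧ mc < md ∧ md < L ∧
      (∀ m ≤ mb, ∀ z ∈ ed s (v' m) (v' (m + 1)), Nr ε A z) ∧
      (∀ m, mb ≤ m → m ≤ mc → ∀ z ∈ ed s (v' m) (v' (m + 1)), z ∉ closure D ∧ Nr ε B z) ∧
      (∀ m, mc ≤ m → m ≤ md → ∀ z ∈ ed s (v' m) (v' (m + 1)), Nr ε C z) ∧
      (∀ m, md ≤ m → m ≤ L → ∀ z ∈ ed s (v' m) (v' (m + 1)), z ∉ closure D ∧ Nr ε E z) := by
  have hε : 0 < ε := by linarith
  have hhalf : ε / 2 ≤ ε := by linarith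
  -- neighbours
  have nb : ∀ m, ∀ z ∈ ed s (v m) (v (m + 1)), ∀ K : Set ℂ,
      (Nr (ε / 2) K (pt s (v m)) ∨ Nr (ε / 2) K (pt s (v (m + 1)))) → Nr ε K z := by
    intro m z hz K hK
    rcases hK with hK | hK
    · exact (hK.move (ed_dist hs (cyc.step m) hz (ed_left s _ _))).mono (by linarith)
    · exact (hK.move (ed_dist hs (cyc.step m) hz (ed_right s _ _))).mono (by linarith)
  -- corner vertices
  have cB : Nr (ε / 2) A (pt s (v ib)) := by
    have := RA (ib - 1) (Or.inl (by omega)) (pt s (v ib)) (by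
      have := ed_right s (v (ib - 1)) (v (ib - 1 + 1))
      rwa [show ib - 1 + 1 = ib by omega] at this ⊢)
    exact this
  have cC : Nr (ε / 2) C (pt s (v ic)) := RC ic le_rfl h3 _ (ed_left s _ _)
  have cE : Nr (ε / 2) C (pt s (v id)) := by
    have := RC (id - 1) (by omega) (by omega) (pt s (v id)) (by
      have := ed_right s (v (id - 1)) (v (id - 1 + 1))
      rwa [show id - 1 + 1 = id by omega] at this ⊢)
    exact this
  have cA : Nr (ε / 2) A (pt s (v ia)) := by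
    rcases eq_or_lt_of_le h5 with h | h
    · have h6 := RA 0 (Or.inl h1) _ (ed_left s (v 0) (v (0 + 1)))
      have h7 := cyc.per 0
      rw [zero_add] at h7
      rw [h, h7]
      exact h6
    · exact RA ia (Or.inr ⟨le_rfl, h⟩) _ (ed_left s _ _)
  have nAC : ∀ z w : ℂ, ‖z - w‖ ≤ 2 * s → Nr (ε / 2) A z → Nr (ε / 2) C w → False := by
    rintro z w hzw ⟨a, ha, hda⟩ ⟨c, hc, hdc⟩
    have h6 := hAC a ha c hc
    have h7 : a - c = (a - z) + (z - w) + (w - c) := by ring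
    have h8 : ‖a - c‖ ≤ ‖a - z‖ + ‖z - w‖ + ‖w - c‖ := by
      rw [h7]
      exact (norm_add_le _ _).trans (add_le_add_left (norm_add_le _ _) _)
    rw [norm_sub_rev a z] at h8
    linarith
  have d1 : ib ≠ ic - 1 := by
    intro h
    have h6 := ed_dist hs (cyc.step ib) (ed_left s (v ib) (v (ib + 1))) (ed_right s (v ib) (v (ib + 1)))
    rw [show ib + 1 = ic by omega] at h6
    exact nAC _ _ h6 cB cC
  have d2 : id ≠ ia - 1 := by
    intro h
    have h6 := ed_dist hs (cyc.step id) (ed_right s (v id) (v (id + 1))) (ed_left s (v id) (v (id + 1)))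
    rw [show id + 1 = ia by omega] at h6
    exact nAC _ _ h6 cA cE
  have red : ∀ m, L ≤ m → ed s (v m) (v (m + 1)) = ed s (v (m - L)) (v (m - L + 1)) := by
    intro m hm
    have e1 : v m = v (m - L) := by
      conv_lhs => rw [show m = (m - L) + L by omega]
      exact cyc.per _
    have e2 : v (m + 1) = v (m - L + 1) := by
      conv_lhs => rw [show m + 1 = (m - L + 1) + L by omega]
      exact cyc.per _
    rw [e1, e2]
  refine ⟨fun m => v (m + (ia - 1)), ib + L - (ia - 1), ic - 1 + L - (ia - 1), id + L - (ia - 1),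
    cyc.rot _, by omega, by omega, by omega, by omega, ?_, ?_, ?_, ?_⟩
  · intro m hm z hz
    simp only [show m + 1 + (ia - 1) = m + (ia - 1) + 1 by omega] at hz
    by_cases hmL : L ≤ m + (ia - 1)
    · rw [red _ hmL] at hz
      rcases eq_or_lt_of_le (by omega : m + (ia - 1) - L ≤ ib) with h | h
      · rw [h] at hz
        exact nb ib z hz A (Or.inl cB)
      · exact (RA _ (Or.inl h) z hz).mono hhalf
    · rcases eq_or_lt_of_le (by omega : ia - 1 ≤ m + (ia - 1)) with h | h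
      · rw [← h] at hz
        refine nb (ia - 1) z hz A (Or.inr ?_)
        rwa [show ia - 1 + 1 = ia by omega]
      · exact (RA _ (Or.inr ⟨by omega, by omega⟩) z hz).mono hhalf
  · intro m hm hm' z hz
    simp only [show m + 1 + (ia - 1) = m + (ia - 1) + 1 by omega] at hz
    have hmL : L ≤ m + (ia - 1) := by omega
    rw [red _ hmL] at hz
    have := RB (m + (ia - 1) - L) (by omega) (by omega) z hz
    exact ⟨this.1, this.2.mono hhalf⟩
  · intro m hm hm' z hz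
    simp only [show m + 1 + (ia - 1) = m + (ia - 1) + 1 by omega] at hz
    have hmL : L ≤ m + (ia - 1) := by omega
    rw [red _ hmL] at hz
    rcases eq_or_lt_of_le (by omega : ic - 1 ≤ m + (ia - 1) - L) with h | h
    · rw [← h] at hz
      refine nb (ic - 1) z hz C (Or.inr ?_)
      rwa [show ic - 1 + 1 = ic by omega]
    · rcases eq_or_lt_of_le (by omega : m + (ia - 1) - L ≤ id) with h' | h'
      · rw [h'] at hz
        exact nb id z hz C (Or.inl cE)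
      · exact (RC _ (by omega) h' z hz).mono hhalf
  · intro m hm hm' z hz
    simp only [show m + 1 + (ia - 1) = m + (ia - 1) + 1 by omega] at hz
    have hmL : L ≤ m + (ia - 1) := by omega
    rw [red _ hmL] at hz
    have := RE (m + (ia - 1) - L) (by omega) (by omega) z hz
    exact ⟨this.1, this.2.mono hhalf⟩

/-- the four runs, in one of the two orders -/
theorem runs {κ : ℝ} {L b c d : ℕ} {t : ℕ → ℝ} {O : ℕ → Prop} (hκ0 : 0 < κ) (hκ : κ ≤ 1 / 200)
    (h0 : ∀ m < L, 0 ≤ t m ∧ t m ≤ 1)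
    (hO : ∀ m < L, O m → (1 / 4 ≤ t m ∧ t m ≤ 1 / 2) ∨ (3 / 4 ≤ t m))
    (hN : ∀ m < L, ¬ O m →
      t m ≤ 1 / 4 + 2 * κ ∨ (1 / 2 - 2 * κ ≤ t m ∧ t m ≤ 3 / 4 + 2 * κ) ∨ 1 - 2 * κ ≤ t m)
    (hS : SProp κ L t) (ha : |t 0 - 1 / 8| < κ) (hb : |t b - 3 / 8| < κ) (hc : |t c - 5 / 8| < κ)
    (hd : |t d - 7 / 8| < κ) (hbL : b < L) (hcL : c < L) (hdL : d < L) :
    ∃ ib ic id ia : ℕ, 0 < ib ∧ ib < ic ∧ ic < id ∧ id < ia ∧ ia ≤ L ∧
      (∀ m, ic ≤ m → m < id → 1 / 2 - 4 * κ ≤ t m ∧ t m ≤ 3 / 4 + 4 * κ) ∧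
      (∀ m, m < ib ∨ (ia ≤ m ∧ m < L) → t m ≤ 1 / 4 + 4 * κ ∨ 1 - 4 * κ ≤ t m) ∧
      (((∀ m, ib ≤ m → m < ic → O m ∧ 1 / 4 ≤ t m ∧ t m ≤ 1 / 2) ∧
        (∀ m, id ≤ m → m < ia → O m ∧ 3 / 4 ≤ t m)) ∨
       ((∀ m, id ≤ m → m < ia → O m ∧ 1 / 4 ≤ t m ∧ t m ≤ 1 / 2) ∧
        (∀ m, ib ≤ m → m < ic → O m ∧ 3 / 4 ≤ t m))) := by
  obtain ⟨σ, hσ, ib, ic, id', ia, h1, h2, h3, h4, h5, k1, k2, k3, k4⟩ :=
    marks_all (η := κ) (κ := 2 * κ) hκ0 (by linarith) (by linarith) h0 hO hN hS ha hb hc hd hbL hcL hdL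
  rcases hσ with rfl | rfl
  · simp only [id] at k1 k2 k3 k4
    refine ⟨ib, ic, id', ia, h1, h2, h3, h4, h5, ?_, ?_, Or.inl ⟨k1, k3⟩⟩
    · intro m hm hm'
      have := k2 m hm hm'
      constructor <;> linarith [this.1, this.2]
    · intro m hm
      rcases k4 m hm with h | h
      · left; linarith
      · right; linarith
  · have hr : ∀ n, 0 < n → n < L → rev L (L - n) = n := by
      intro n hn hn'
      unfold rev
      rw [if_neg (by omega)]
      omega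
    refine ⟨L - ia + 1, L - id' + 1, L - ic + 1, L - ib + 1, by omega, by omega, by omega, by omega,
      by omega, ?_, ?_, Or.inr ⟨?_, ?_⟩⟩
    · intro m hm hm'
      have := k2 (L - m) (by omega) (by omega)
      rw [hr m (by omega) (by omega)] at this
      constructor <;> linarith [this.1, this.2]
    · intro m hm
      rcases Nat.eq_zero_or_pos m with h | h
      · subst h
        have := k4 0 (Or.inl h1)
        rw [show rev L 0 = 0 by unfold rev; simp] at this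
        rcases this with h | h
        · left; linarith
        · right; linarith
      · have := k4 (L - m) (by omega)
        rw [hr m h (by omega)] at this
        rcases this with h | h
        · left; linarith
        · right; linarith
    · intro m hm hm'
      have := k1 (L - m) (by omega) (by omega)
      rwa [hr m (by omega) (by omega)] at this
    · intro m hm hm'
      have := k3 (L - m) (by omega) (by omega)
      rwa [hr m (by omega) (by omega)] at this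

section final

variable {γ : ℝ → ℂ} {φ : ℂ → ℂ}

/-- the boundary arc between two parameters -/
def arc (γ : ℝ → ℂ) (a b : ℝ) : Set ℂ := γ '' Icc a b

theorem arc_compact (h : Unif γ φ) {a b : ℝ} (ha : 0 ≤ a) (hb : b ≤ 1) : IsCompact (arc γ a b) :=
  isCompact_Icc.image_of_continuousOn (h.jc.1.mono (Icc_subset_Icc ha hb))

theorem arc_sub (h : Unif γ φ) {a b : ℝ} (ha : 0 ≤ a) (hb : b ≤ 1) :
    arc γ a b ⊆ closure (jordanInterior γ) := by
  rintro z ⟨t, ht, rfl⟩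
  exact h.tr_subset (mem_image_of_mem _ ⟨ha.trans ht.1, ht.2.trans hb⟩)

theorem arc_disj (h : Unif γ φ) : Disjoint (arc γ 0 (1/4)) (arc γ (1/2) (3/4)) := by
  refine disjoint_left.2 ?_
  rintro z ⟨t, ht, rfl⟩ ⟨t', ht', he⟩
  have := h.jc.2.1 (⟨by linarith [ht'.1], by linarith [ht'.2]⟩ : t' ∈ Ico (0:ℝ) 1)
    (⟨ht.1, by linarith [ht.2]⟩ : t ∈ Ico (0:ℝ) 1) he
  linarith [ht.2, ht'.1]

/-- EXISTENCE of the sandwich polygons -/
theorem sp_exists (h : Unif γ φ) {ε s0 : ℝ} (hε : 0 < ε) (hs0 : 0 < s0) :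
    ∃ (s : ℝ) (F : Set V) (L : ℕ) (v : ℕ → V) (mb mc md : ℕ), s < s0 ∧
      (SPoly (arc γ 0 (1/4)) (arc γ (1/4) (1/2)) (arc γ (1/2) (3/4)) (arc γ (3/4) 1)
          (jordanInterior γ) ε s F L v mb mc md ∨
       SPoly (arc γ 0 (1/4)) (arc γ (3/4) 1) (arc γ (1/2) (3/4)) (arc γ (1/4) (1/2))
          (jordanInterior γ) ε s F L v mb mc md) := by
  obtain ⟨Ψ, P⟩ := exists_pol h
  obtain ⟨R, hR0, hR, hRe⟩ := exists_R h
  -- the four arcs
  set A := arc γ 0 (1/4) with hA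
  set B := arc γ (1/4) (1/2) with hB
  set C := arc γ (1/2) (3/4) with hC
  set E := arc γ (3/4) 1 with hE
  set D := jordanInterior γ with hD
  have cA : IsCompact A := arc_compact h le_rfl (by norm_num)
  have cB : IsCompact B := arc_compact h (by norm_num) (by norm_num)
  have cC : IsCompact C := arc_compact h (by norm_num) (by norm_num)
  have cE : IsCompact E := arc_compact h (by norm_num) le_rfl
  obtain ⟨dAC, hdAC, hdist⟩ := pos_dist cA cC.isClosed (arc_disj h)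
  -- epsilon
  obtain ⟨e, he, heε, hed⟩ : ∃ e : ℝ, 0 < e ∧ e ≤ ε ∧ 2 * e ≤ dAC :=
    ⟨min ε (dAC / 2), lt_min hε (by linarith), min_le_left _ _, by
      have := min_le_right ε (dAC / 2); linarith⟩
  obtain ⟨η1, hη1, hunif⟩ := P.unif (by linarith : (0:ℝ) < e / 8)
  obtain ⟨κ, hκ0, hκ1, hκη⟩ : ∃ κ : ℝ, 0 < κ ∧ κ ≤ 1 / 200 ∧ 5 * κ ≤ η1 :=
    ⟨min (1 / 200) (η1 / 5), lt_min (by norm_num) (by linarith), min_le_left _ _, by
      have := min_le_right (1 / 200) (η1 / 5); linarith⟩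
  obtain ⟨δ1, hδ1, hinv⟩ := P.inv_unif hκ0
  obtain ⟨δ2, hδ2, hdeep1⟩ := P.deep (by linarith : 1 - 2 * κ < 1 - κ) (by linarith) (by linarith)
  obtain ⟨δ3, hδ3, hdeep2⟩ := P.deep (by linarith : 1 - κ < 1) one_pos le_rfl
  obtain ⟨δ, hδ, hδ1', hδ2', hδ3'⟩ : ∃ δ : ℝ, 0 < δ ∧ δ ≤ δ1 ∧ δ ≤ δ2 ∧ δ ≤ δ3 :=
    ⟨min δ1 (min δ2 δ3), lt_min hδ1 (lt_min hδ2 hδ3), min_le_left _ _,
      (min_le_right _ _).trans (min_le_left _ _), (min_le_right _ _).trans (min_le_right _ _)⟩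
  have hSc : IsCompact (Sig Ψ κ) := sig_compact P κ
  have hSR : ∀ z ∈ Sig Ψ κ, ‖z‖ ≤ R := fun z hz => hR z (sig_sub P κ hz)
  have dA : Disjoint A (Sig Ψ κ) := disjoint_left.2 fun z hz => by
    obtain ⟨t, ht, rfl⟩ := hz
    exact sig_miss P hκ0 ⟨ht.1, by linarith [ht.2]⟩ (Or.inl ht.2)
  have dC : Disjoint C (Sig Ψ κ) := disjoint_left.2 fun z hz => by
    obtain ⟨t, ht, rfl⟩ := hz
    exact sig_miss P hκ0 ⟨by linarith [ht.1], by linarith [ht.2]⟩ (Or.inr ht)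
  have kA : ∀ z ∈ A, Kp (Sig Ψ κ) R z := fun z hz =>
    kp_arc h P hR0 hRe le_rfl (by norm_num) (by norm_num) dA hz
  have kC : ∀ z ∈ C, Kp (Sig Ψ κ) R z := fun z hz =>
    kp_arc h P hR0 hRe (by norm_num) (by norm_num) (by norm_num) dC hz
  have kX : ∀ z ∈ ext γ, Kp (Sig Ψ κ) R z := fun z hz => kp_ext h P hR0 hRe hz
  have trc : ∀ t ∈ Icc (0:ℝ) 1, γ t ∈ A ∨ γ t ∈ B ∨ γ t ∈ C ∨ γ t ∈ E := by
    intro t ht
    rcases le_total t (1/4) with h1 | h1
    · exact Or.inl ⟨t, ⟨ht.1, h1⟩, rfl⟩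
    rcases le_total t (1/2) with h2 | h2
    · exact Or.inr (Or.inl ⟨t, ⟨h1, h2⟩, rfl⟩)
    rcases le_total t (3/4) with h3 | h3
    · exact Or.inr (Or.inr (Or.inl ⟨t, ⟨h2, h3⟩, rfl⟩))
    · exact Or.inr (Or.inr (Or.inr ⟨t, ⟨h3, ht.2⟩, rfl⟩))
  -- the compact sets of points whose cells must be outer
  set X1 : Set ℂ := (closure (ext γ) ∩ closedBall 0 (2 * R + 6)) ∩
    {z | ∀ y ∈ B ∪ E, e / 2 ≤ ‖z - y‖} with hX1
  have cX1 : IsCompact X1 := by
    refine ((isCompact_closedBall (0:ℂ) (2 * R + 6)).inter_left isClosed_closure).inter_right ?_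
    have : {z : ℂ | ∀ y ∈ B ∪ E, e / 2 ≤ ‖z - y‖} = ⋂ y ∈ B ∪ E, {z : ℂ | e / 2 ≤ ‖z - y‖} := by
      ext z; simp only [mem_setOf_eq, mem_iInter]
    rw [this]
    exact isClosed_biInter fun y _ => isClosed_le continuous_const (by fun_prop)
  have kX1 : ∀ z ∈ X1, Kp (Sig Ψ κ) R z := by
    rintro z ⟨⟨hz1, -⟩, hz2⟩
    rcases closure_ext_subset h.jc hz1 with hz3 | hz3
    · exact kX z hz3
    · obtain ⟨t, ht, rfl⟩ := hz3
      have hself : ∀ K : Set ℂ, γ t ∈ K → K ⊆ B ∪ E → False := fun K h1 h2 => by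
        have := hz2 (γ t) (h2 h1)
        rw [sub_self, norm_zero] at this
        linarith
      rcases trc t ht with h1 | h1 | h1 | h1
      · exact kA _ h1
      · exact (hself B h1 subset_union_left).elim
      · exact kC _ h1
      · exact (hself E h1 subset_union_right).elim
  -- finite net of exterior points near the curve
  obtain ⟨N, hN1, hN2, hN3⟩ : ∃ N : Set ℂ, N.Finite ∧ N ⊆ ext γ ∧
      ∀ t ∈ Icc (0:ℝ) 1, ∃ p ∈ N, ‖p - γ t‖ < e / 2 := by
    have hch : ∀ t : Icc (0:ℝ) 1, ∃ p ∈ ext γ, ‖p - γ t‖ < e / 4 := fun t =>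
      near_ext h t.2 (by linarith)
    choose p hp1 hp2 using hch
    have cT : IsCompact (curveTrace γ) := (lp_of h.jc).isCompact
    obtain ⟨T, hT⟩ := cT.elim_finite_subcover (fun t : Icc (0:ℝ) 1 => ball (γ t) (e / 4))
      (fun t => isOpen_ball) (by
        rintro z ⟨t, ht, rfl⟩
        exact mem_iUnion.2 ⟨⟨t, ht⟩, mem_ball_self (by linarith)⟩)
    refine ⟨p '' (T : Set (Icc (0:ℝ) 1)), T.finite_toSet.image p, ?_, fun t ht => ?_⟩
    · rintro z ⟨t, -, rfl⟩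
      exact hp1 t
    · have := hT (mem_image_of_mem γ ht)
      rw [mem_iUnion₂] at this
      obtain ⟨t', ht', hb⟩ := this
      refine ⟨p t', mem_image_of_mem p ht', ?_⟩
      rw [mem_ball, dist_eq_norm] at hb
      have e1 : p t' - γ t = (p t' - γ t') + (γ t' - γ t) := by ring
      rw [e1]
      refine (norm_add_le _ _).trans_lt ?_
      rw [norm_sub_rev (γ ↑t') (γ t)]
      linarith [hp2 t']
  -- target points
  obtain ⟨p1, hp1, hp1'⟩ := near_ext h (t := 1/8) ⟨by norm_num, by norm_num⟩ (half_pos hδ)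
  obtain ⟨p2, hp2, hp2'⟩ := near_ext h (t := 3/8) ⟨by norm_num, by norm_num⟩ (half_pos hδ)
  obtain ⟨p3, hp3, hp3'⟩ := near_ext h (t := 5/8) ⟨by norm_num, by norm_num⟩ (half_pos hδ)
  obtain ⟨p4, hp4, hp4'⟩ := near_ext h (t := 7/8) ⟨by norm_num, by norm_num⟩ (half_pos hδ)
  set X : Set ℂ := X1 ∪ (A ∪ C) ∪ (N ∪ {p1, p2, p3, p4}) with hX
  have cX : IsCompact X :=
    (cX1.union (cA.union cC)).union (hN1.union (by simp : ({p1, p2, p3, p4} : Set ℂ).Finite)).isCompact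
  have kXX : ∀ z ∈ X, Kp (Sig Ψ κ) R z := by
    rintro z ((hz | (hz | hz)) | (hz | hz))
    · exact kX1 z hz
    · exact kA z hz
    · exact kC z hz
    · exact kX z (hN2 hz)
    · simp only [mem_insert_iff, mem_singleton_iff] at hz
      rcases hz with rfl | rfl | rfl | rfl
      · exact kX _ hp1
      · exact kX _ hp2
      · exact kX _ hp3
      · exact kX _ hp4
  obtain ⟨s1, hs1, hout⟩ := unif_out hSc hSR cX kXX
  -- the mesh
  obtain ⟨s, hs, hss0, hss1, hse, hsδ, hsone⟩ : ∃ s : ℝ, 0 < s ∧ s < s0 ∧ s < s1 ∧ 16 * s < e ∧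
      4 * s < δ ∧ s ≤ 1 := by
    refine ⟨min (min s0 s1) (min (min (e / 16) (δ / 4)) 1) / 2, ?_, ?_, ?_, ?_, ?_, ?_⟩
    · have : 0 < min (min s0 s1) (min (min (e / 16) (δ / 4)) 1) :=
        lt_min (lt_min hs0 hs1) (lt_min (lt_min (by linarith) (by linarith)) one_pos)
      linarith
    all_goals
      have h1 : min (min s0 s1) (min (min (e / 16) (δ / 4)) 1) ≤ s0 :=
        (min_le_left _ _).trans (min_le_left _ _)
      have h2 : min (min s0 s1) (min (min (e / 16) (δ / 4)) 1) ≤ s1 :=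
        (min_le_left _ _).trans (min_le_right _ _)
      have h3 : min (min s0 s1) (min (min (e / 16) (δ / 4)) 1) ≤ e / 16 :=
        (min_le_right _ _).trans ((min_le_left _ _).trans (min_le_left _ _))
      have h4 : min (min s0 s1) (min (min (e / 16) (δ / 4)) 1) ≤ δ / 4 :=
        (min_le_right _ _).trans ((min_le_left _ _).trans (min_le_right _ _))
      have h5 : min (min s0 s1) (min (min (e / 16) (δ / 4)) 1) ≤ 1 :=
        (min_le_right _ _).trans (min_le_right _ _)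
      linarith
  have houtX : ∀ w ∈ X, ∀ q : V, w ∈ sq s q → q ∈ Out (cells s (Sig Ψ κ)) := hout s hs hss1 hsone
  set F0 : Set V := cells s (Sig Ψ κ) with hF0
  have fF0 : F0.Finite := cells_finite hs hSc.isBounded
  have cF0 : ∀ q ∈ F0, ∀ q' ∈ F0, Con F0 q q' := cells_con hs (sig_preconn P) hSc.isBounded
  set F : Set V := (Out F0)ᶜ with hF
  have fF : F.Finite := out_compl_finite fF0
  have nF : F.Nonempty := by
    obtain ⟨z, hz⟩ := sig_nonempty (Ψ := Ψ) (κ := κ) (by linarith)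
    exact ⟨_, subset_out_compl (cellOf_mem hs hz)⟩
  have conF : ∀ q ∈ F, ∀ q' ∈ F, Con F q q' := compl_con fF0 cF0
  have conF' : ∀ q ∉ F, ∀ q' ∉ F, Con Fᶜ q q' := by
    intro q hq q' hq'
    rw [hF, notMem_compl_iff] at hq hq'
    rw [hF, compl_compl]
    exact out_con fF0 q hq q' hq'
  obtain ⟨L, v0, cyc0⟩ := SpD331.exists_cyc896 fF nF conF conF'
  have mkS : ∀ v, Cyc F L v → Stg γ Ψ D κ κ δ s L v := fun v hv =>
    { P := P, κ0 := hκ0, κ1 := hκ1, η0 := hκ0, ηκ := le_rfl, s0 := hs, s1 := hsone, sδ := hsδ,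
      inv := fun r hr r' hr' t ht t' ht' hlt => hinv r hr r' hr' t ht t' ht' (hlt.trans_le hδ1')
      deep1 := fun r hr t ht z hz => by
        obtain ⟨r', hr', t', ht', rfl⟩ := hdeep1 r hr t ht z (hz.trans_le hδ2')
        exact ⟨r', ⟨hr'.1, by linarith [hr'.2]⟩, t', ht', Or.inl hr'.2.le, rfl⟩
      deep2 := fun r hr t ht z hz => by
        obtain ⟨r', hr', t', ht', rfl⟩ := hdeep2 r hr t ht z (hz.trans_le hδ3')
        exact P.mem r' ⟨hr'.1, hr'.2.le⟩ t'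
      cyc := hv }
  -- rotate so that edge 0 is near parameter 1/8
  have px1 : p1 ∈ X := Or.inr (Or.inr (by simp))
  have px2 : p2 ∈ X := Or.inr (Or.inr (by simp))
  have px3 : p3 ∈ X := Or.inr (Or.inr (by simp))
  have px4 : p4 ∈ X := Or.inr (Or.inr (by simp))
  obtain ⟨m0, hm0, hm0'⟩ := target (mkS v0 cyc0) (t := 1/8) (by norm_num) (by norm_num) hp1'
    (houtX p1 px1)
  set v : ℕ → V := fun m => v0 (m + m0) with hv
  have cyc : Cyc F L v := cyc0.rot m0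
  have S := mkS v cyc
  obtain ⟨b, hbL, hb⟩ := target S (t := 3/8) (by norm_num) (by norm_num) hp2' (houtX p2 px2)
  obtain ⟨c, hcL, hc⟩ := target S (t := 5/8) (by norm_num) (by norm_num) hp3' (houtX p3 px3)
  obtain ⟨d, hdL, hd⟩ := target S (t := 7/8) (by norm_num) (by norm_num) hp4' (houtX p4 px4)
  have ta : |S.tp 0 - 1 / 8| < κ := by
    obtain ⟨h1, h2, -, h3, h4⟩ := S.rr_tp 0
    refine hm0' _ h1 _ h2 ?_ h4
    have : Stg.lf v 0 = Stg.lf v0 m0 := by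
      show lc (v0 (0 + m0)) (v0 (0 + 1 + m0)) = lc (v0 m0) (v0 (m0 + 1))
      rw [show 0 + m0 = m0 by omega, show 0 + 1 + m0 = m0 + 1 by omega]
    rwa [this] at h3
  have tb : |S.tp b - 3 / 8| < κ := by
    obtain ⟨h1, h2, -, h3, h4⟩ := S.rr_tp b
    exact hb _ h1 _ h2 h3 h4
  have tc : |S.tp c - 5 / 8| < κ := by
    obtain ⟨h1, h2, -, h3, h4⟩ := S.rr_tp c
    exact hc _ h1 _ h2 h3 h4
  have td : |S.tp d - 7 / 8| < κ := by
    obtain ⟨h1, h2, -, h3, h4⟩ := S.rr_tp d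
    exact hd _ h1 _ h2 h3 h4
  set O : ℕ → Prop := fun m => Disjoint (sq s (Stg.rt v m)) (closure D) with hOdef
  obtain ⟨ib, ic, id', ia, h1, h2, h3, h4, h5, kC', kA', kBE⟩ := runs (κ := κ) (t := S.tp) (O := O)
    hκ0 hκ1 (fun m _ => (S.rr_tp m).2.1)
    (fun m _ hO => by
      obtain ⟨a1, a2, a3, a4, a5⟩ := S.rr_tp m
      rcases S.tt_of_out a1 a2 a3 a4 hO with h6 | h6
      · left; constructor <;> linarith [h6.1, h6.2]
      · right; linarith [h6.1])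
    (fun m _ hO => by
      obtain ⟨a1, a2, a3, a4, a5⟩ := S.rr_tp m
      exact S.tt_of_not_out a1 a2 a4 a5 hO)
    S.sprop ta tb tc td hbL hcL hdL
  -- closeness from the parameter
  have reg : ∀ (K : Set ℂ) (m : ℕ), (∃ t0 ∈ Icc (0:ℝ) 1, |S.tp m - t0| ≤ 4 * κ ∧ γ t0 ∈ K) →
      ∀ z ∈ ed s (v m) (v (m + 1)), Nr (e / 2) K z := by
    rintro K m ⟨t0, ht0, hd0, hK⟩ z hz
    obtain ⟨a1, a2, a3, a4, a5⟩ := S.rr_tp m
    refine ⟨γ t0, hK, ?_⟩
    have e1 := sq_dist (ed_sub_lc hs (cyc.step m) hz) a4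
    have e2 := hunif (S.rr m) a1 1 ⟨zero_le_one, le_rfl⟩ (S.tp m) ⟨by linarith [a2.1], by linarith [a2.2]⟩
      t0 ⟨by linarith [ht0.1], by linarith [ht0.2]⟩ (by rw [abs_lt]; constructor <;> linarith [a1.2])
      (by linarith)
    rw [P.one t0 ht0] at e2
    have e3 : z - γ t0 = (z - Ψ (S.rr m) (S.tp m)) + (Ψ (S.rr m) (S.tp m) - γ t0) := by ring
    rw [e3]
    refine (norm_add_le _ _).trans_lt ?_
    linarith
  have regA : ∀ m, (m < ib ∨ (ia ≤ m ∧ m < L)) → ∀ z ∈ ed s (v m) (v (m + 1)), Nr (e / 2) A z := by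
    intro m hm
    apply reg
    have a2 := (S.rr_tp m).2.1
    rcases kA' m hm with h6 | h6
    · rcases le_total (S.tp m) (1/4) with h7 | h7
      · exact ⟨S.tp m, a2, by rw [sub_self, abs_zero]; linarith, S.tp m, ⟨a2.1, h7⟩, rfl⟩
      · exact ⟨1/4, ⟨by norm_num, by norm_num⟩, by rw [abs_le]; constructor <;> linarith, 1/4,
          ⟨by norm_num, le_rfl⟩, rfl⟩
    · refine ⟨1, ⟨zero_le_one, le_rfl⟩, by rw [abs_le]; constructor <;> linarith [a2.2], 0,
        ⟨le_rfl, by norm_num⟩, h.jc.2.2⟩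
  have regC : ∀ m, ic ≤ m → m < id' → ∀ z ∈ ed s (v m) (v (m + 1)), Nr (e / 2) C z := by
    intro m hm hm'
    apply reg
    have a2 := (S.rr_tp m).2.1
    have h6 := kC' m hm hm'
    rcases le_total (S.tp m) (1/2) with h7 | h7
    · exact ⟨1/2, ⟨by norm_num, by norm_num⟩, by rw [abs_le]; constructor <;> linarith [h6.1], 1/2,
        ⟨le_rfl, by norm_num⟩, rfl⟩
    · rcases le_total (S.tp m) (3/4) with h8 | h8
      · exact ⟨S.tp m, a2, by rw [sub_self, abs_zero]; linarith, S.tp m, ⟨h7, h8⟩, rfl⟩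
      · exact ⟨3/4, ⟨by norm_num, by norm_num⟩, by rw [abs_le]; constructor <;> linarith [h6.2], 3/4,
          ⟨by norm_num, le_rfl⟩, rfl⟩
  have regO : ∀ m, O m → ∀ z ∈ ed s (v m) (v (m + 1)), z ∉ closure D := by
    intro m hO z hz hzD
    exact disjoint_left.1 hO (ed_sub_rc hs (cyc.step m) hz) hzD
  have regB : ∀ m, O m ∧ 1 / 4 ≤ S.tp m ∧ S.tp m ≤ 1 / 2 → ∀ z ∈ ed s (v m) (v (m + 1)),
      z ∉ closure D ∧ Nr (e / 2) B z := by
    rintro m ⟨hO, h6, h7⟩ z hz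
    refine ⟨regO m hO z hz, reg B m ⟨S.tp m, (S.rr_tp m).2.1, ?_, S.tp m, ⟨h6, h7⟩, rfl⟩ z hz⟩
    rw [sub_self, abs_zero]; linarith
  have regE : ∀ m, O m ∧ 3 / 4 ≤ S.tp m → ∀ z ∈ ed s (v m) (v (m + 1)),
      z ∉ closure D ∧ Nr (e / 2) E z := by
    rintro m ⟨hO, h6⟩ z hz
    refine ⟨regO m hO z hz, reg E m ⟨S.tp m, (S.rr_tp m).2.1, ?_, S.tp m, ⟨h6, (S.rr_tp m).2.1.2⟩, rfl⟩
      z hz⟩
    rw [sub_self, abs_zero]; linarith
  have hACe : ∀ a ∈ A, ∀ c ∈ C, 2 * e ≤ ‖a - c‖ := fun a ha c hc => hed.trans (hdist a ha c hc)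
  -- common geometric properties
  have gmiss : ∀ q ∈ F, Disjoint (sq s q) (A ∪ C) := by
    intro q hq
    refine disjoint_left.2 fun z hz hzAC => hq (houtX z (Or.inl (Or.inr hzAC)) q hz)
  have gcover : ∀ z ∈ closure D, ¬ Nr ε A z → ¬ Nr ε C z → z ∈ interior (⋃ q ∈ F, sq s q) := by
    intro z hz hnA hnC
    apply mem_interior_cells hs
    intro q hq
    apply subset_out_compl
    obtain ⟨r, hr, t, ht, rfl⟩ := P.surj z hz
    refine ⟨Ψ r t, hq, r, hr, t, ht, ?_, rfl⟩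
    by_contra hcon
    unfold SC TT at hcon
    push Not at hcon
    obtain ⟨c1, c2, c3⟩ := hcon
    have close : ∀ t0 ∈ Icc (0:ℝ) 1, |t - t0| ≤ κ → ‖Ψ r t - γ t0‖ < ε := by
      intro t0 ht0 hd0
      have e2 := hunif r hr 1 ⟨zero_le_one, le_rfl⟩ t ⟨by linarith [ht.1], by linarith [ht.2]⟩
        t0 ⟨by linarith [ht0.1], by linarith [ht0.2]⟩ (by rw [abs_lt]; constructor <;> linarith [hr.2])
        (by linarith)
      rw [P.one t0 ht0] at e2
      linarith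
    rcases lt_or_ge t (1 / 4 + κ) with h6 | h6
    · apply hnA
      rcases le_total t (1/4) with h7 | h7
      · exact ⟨γ t, ⟨t, ⟨ht.1, h7⟩, rfl⟩, close t ht (by rw [sub_self, abs_zero]; linarith)⟩
      · exact ⟨γ (1/4), ⟨1/4, ⟨by norm_num, le_rfl⟩, rfl⟩, close (1/4) ⟨by norm_num, by norm_num⟩
          (by rw [abs_le]; constructor <;> linarith)⟩
    · have h7 := c2 h6
      rcases lt_or_ge t (3 / 4 + κ) with h8 | h8
      · apply hnC
        rcases le_total t (1/2) with h9 | h9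
        · exact ⟨γ (1/2), ⟨1/2, ⟨le_rfl, by norm_num⟩, rfl⟩, close (1/2) ⟨by norm_num, by norm_num⟩
            (by rw [abs_le]; constructor <;> linarith)⟩
        · rcases le_total t (3/4) with h10 | h10
          · exact ⟨γ t, ⟨t, ⟨h9, h10⟩, rfl⟩, close t ht (by rw [sub_self, abs_zero]; linarith)⟩
          · exact ⟨γ (3/4), ⟨3/4, ⟨by norm_num, le_rfl⟩, rfl⟩, close (3/4) ⟨by norm_num, by norm_num⟩
              (by rw [abs_le]; constructor <;> linarith)⟩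
      · have h9 := c3 h8
        apply hnA
        refine ⟨γ 1, ⟨0, ⟨le_rfl, by norm_num⟩, h.jc.2.2⟩, close 1 ⟨zero_le_one, le_rfl⟩
          (by rw [abs_le]; constructor <;> linarith [ht.2])⟩
  have gouter : ∀ q ∈ F, ∀ z ∈ sq s q, z ∉ D → Nr ε B z ∨ Nr ε E z := by
    intro q hq z hz hzD
    by_contra hcon
    rw [not_or] at hcon
    apply hq
    by_cases hn : 2 * R + 6 < ‖z‖
    · exact norm_out hs hsone hSR hz hn
    · refine houtX z (Or.inl (Or.inl ⟨⟨?_, ?_⟩, ?_⟩)) q hz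
      · rcases cover h.jc z with h6 | h6 | h6
        · have : curveTrace γ ⊆ closure (ext γ) := by
            rw [← frontier_ext h.jc h.ne]
            exact frontier_subset_closure
          exact this h6
        · exact absurd h6 hzD
        · exact subset_closure h6
      · rw [mem_closedBall_zero_iff]
        exact not_lt.1 hn
      · intro y hy
        by_contra hlt
        push Not at hlt
        rcases hy with hy | hy
        · exact hcon.1 ⟨y, hy, by linarith⟩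
        · exact hcon.2 ⟨y, hy, by linarith⟩
  have gnear : ∀ t ∈ Icc (0:ℝ) 1, ∃ q ∉ F, ∀ w ∈ sq s q, ‖w - γ t‖ < ε := by
    intro t ht
    obtain ⟨p, hp, hpd⟩ := hN3 t ht
    have h6 := houtX p (Or.inr (Or.inl hp)) _ (mem_cellOf hs p)
    refine ⟨cellOf s p, by rw [hF, notMem_compl_iff]; exact h6, fun w hw => ?_⟩
    have h7 := sq_dist hw (mem_cellOf hs p)
    have e3 : w - γ t = (w - p) + (p - γ t) := by ring
    rw [e3]
    refine (norm_add_le _ _).trans_lt ?_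
    linarith
  have gnear1 : ∀ z ∈ A ∪ B ∪ C ∪ E, ∃ q ∉ F, ∀ w ∈ sq s q, ‖w - z‖ < ε := by
    rintro z (((⟨t, ht, rfl⟩ | ⟨t, ht, rfl⟩) | ⟨t, ht, rfl⟩) | ⟨t, ht, rfl⟩)
    · exact gnear t ⟨ht.1, by linarith [ht.2]⟩
    · exact gnear t ⟨by linarith [ht.1], by linarith [ht.2]⟩
    · exact gnear t ⟨by linarith [ht.1], by linarith [ht.2]⟩
    · exact gnear t ⟨by linarith [ht.1], ht.2⟩
  have up : ∀ K z, Nr e K z → Nr ε K z := fun K z hz => hz.mono heε
  have ginn : ∀ v', Cyc F L v' → ∀ m, ∃ z ∈ sq s (lc (v' m) (v' (m + 1))), z ∈ closure D := by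
    intro v' c' m
    have h6 := c'.right m
    rw [hF, notMem_compl_iff] at h6
    obtain ⟨z, hz1, hz2⟩ := mem_of_adj (adj_lc_rc (c'.step m)) (c'.left m) h6
    exact ⟨z, hz1, sig_sub P κ hz2⟩
  rcases kBE with ⟨kB, kE⟩ | ⟨kB, kE⟩
  · obtain ⟨v', mb, mc, md, c', o1, o2, o3, o4, rA, rB, rC, rE⟩ := marked (A := A) (B := B) (C := C)
      (E := E) (D := D) (ε := e) hs (by linarith) hACe cyc h1 h2 h3 h4 h5
      (fun m a b => regB m (kB m a b)) regC (fun m a b => regE m (kE m a b)) regA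
    refine ⟨s, F, L, v', mb, mc, md, hss0, Or.inl ⟨hs, by linarith, fF, conF, conF', c', o1, o2, o3, o4,
      ?_, ?_, ?_, ?_, gmiss, gcover, gouter, gnear1, ginn v' c'⟩⟩
    · exact fun m a z hz => up _ _ (rA m a z hz)
    · exact fun m a b z hz => ⟨(rB m a b z hz).1, up _ _ (rB m a b z hz).2⟩
    · exact fun m a b z hz => up _ _ (rC m a b z hz)
    · exact fun m a b z hz => ⟨(rE m a b z hz).1, up _ _ (rE m a b z hz).2⟩
  · obtain ⟨v', mb, mc, md, c', o1, o2, o3, o4, rA, rB, rC, rE⟩ := marked (A := A) (B := E) (C := C)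
      (E := B) (D := D) (ε := e) hs (by linarith) hACe cyc h1 h2 h3 h4 h5
      (fun m a b => regE m (kE m a b)) regC (fun m a b => regB m (kB m a b)) regA
    refine ⟨s, F, L, v', mb, mc, md, hss0, Or.inr ⟨hs, by linarith, fF, conF, conF', c', o1, o2, o3, o4,
      ?_, ?_, ?_, ?_, gmiss, gcover, fun q hq z hz hzD => (gouter q hq z hz hzD).symm, ?_, ginn v' c'⟩⟩
    · exact fun m a z hz => up _ _ (rA m a z hz)
    · exact fun m a b z hz => ⟨(rB m a b z hz).1, up _ _ (rB m a b z hz).2⟩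
    · exact fun m a b z hz => up _ _ (rC m a b z hz)
    · exact fun m a b z hz => ⟨(rE m a b z hz).1, up _ _ (rE m a b z hz).2⟩
    · rintro z (((hz | hz) | hz) | hz)
      · exact gnear1 z (Or.inl (Or.inl (Or.inl hz)))
      · exact gnear1 z (Or.inr hz)
      · exact gnear1 z (Or.inl (Or.inr hz))
      · exact gnear1 z (Or.inl (Or.inl (Or.inr hz)))

end final

end Crest.Agent.R158.Sp896
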