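import Crest.Agent.R158.Wk3_290

/-!
R158 (helper290): Cardy's formula from two one-sided families of lattice functions.
-/

set_option autoImplicit false
open Complex Metric Set Topology Filter

namespace Crest.Agent.R158.Wl290

open Crest.Agent.R158.Cd83 Crest.Agent.R158.Un434
open Crest.ProbabilityR.Percolation
open Crest.Agent.R158.Sk656 (sd1 sd2 sd3 sd1_cont sd2_cont sd3_cont)

variable {γ : ℝ → ℂ} {φ : ℂ → ℂ}

/-- one-sided bounds near `γ t`, `t → 1/4`, bound the boundary value at `γ (1/4)` -/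
theorem near_quarter (C : CDat γ φ) {v : ℂ → ℝ} {X : ℝ}
    (hv : Tendsto v (𝓝[jordanInterior γ] (γ (1/4))) (𝓝 X)) {S : Set ℝ} (hS : S ⊆ Icc 0 1)
    (hS4 : (1/4 : ℝ) ∈ closure S) {P : ℝ}
    (h : ∀ t ∈ S, ∀ ε > 0, ∀ᶠ z in 𝓝[jordanInterior γ] (γ t), v z - P ≤ ε) : X ≤ P := by
  refine le_of_forall_pos_le_add fun ε hε => ?_
  have h1 : ∀ᶠ z in 𝓝[jordanInterior γ] (γ (1/4)), X - ε / 2 < v z :=
    hv.eventually (lt_mem_nhds (by linarith))
  rw [eventually_nhdsWithin_iff, _root_.eventually_nhds_iff] at h1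
  obtain ⟨N, hN, hNo, hNm⟩ := h1
  have hγ4 : Tendsto γ (𝓝[S] (1/4)) (𝓝 (γ (1/4))) :=
    (C.hγ.1 (1/4) ⟨by norm_num, by norm_num⟩).mono hS
  have : (𝓝[S] (1/4 : ℝ)).NeBot := mem_closure_iff_nhdsWithin_neBot.mp hS4
  obtain ⟨t, htN, htS⟩ := ((hγ4.eventually (hNo.mem_nhds hNm)).and self_mem_nhdsWithin).exists
  have : (𝓝[jordanInterior γ] (γ t)).NeBot :=
    mem_closure_iff_nhdsWithin_neBot.mp (C.gam_mem (hS htS))
  have h2 : ∀ᶠ z in 𝓝[jordanInterior γ] (γ t), z ∈ N :=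
    mem_nhdsWithin_of_mem_nhds (hNo.mem_nhds htN)
  obtain ⟨z, ⟨hz1, hz2⟩, hz3⟩ :=
    ((h2.and self_mem_nhdsWithin).and (h t htS (ε / 2) (half_pos hε))).exists
  have := hN z hz1 hz2
  linarith

/-- identification of the limit of one family -/
theorem fam_ident (C : CDat γ φ) {g : ℂ → ℂ} {an : Bool} (hg : HA an g (jordanInterior γ))
    (hT : ∀ z ∈ jordanInterior γ, g z ∈ Tri)
    (h1 : ∀ t ∈ Ioo (0 : ℝ) (1/2), ∀ ε > 0, ∀ᶠ z in 𝓝[jordanInterior γ] (γ t), sd1 (g z) ≤ ε)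
    (h2 : ∀ t ∈ Ioo (1/2 : ℝ) (3/4), ∀ ε > 0, ∀ᶠ z in 𝓝[jordanInterior γ] (γ t), sd2 (g z) ≤ ε)
    (h3 : ∀ t ∈ Ioo (3/4 : ℝ) 1, ∀ ε > 0, ∀ᶠ z in 𝓝[jordanInterior γ] (γ t), sd3 (g z) ≤ ε) :
    Tendsto (fun z => lam (g z)) (𝓝[jordanInterior γ] (γ (1/4)))
      (𝓝 (cardyRatio (crossRatioAt (φ (γ 0)) (φ (γ (1/4))) (φ (γ (1/2))) (φ (γ (3/4)))))) := by
  have hmem : ∀ t : ℝ, ∀ᶠ z in 𝓝[jordanInterior γ] (γ t), g z ∈ Tri := fun t => by
    filter_upwards [self_mem_nhdsWithin] with z hz using hT z hz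
  have key := ident C (h := g) (M := 5) (fun z hz => Tri_norm (hT z hz)) (by
      unfold HA cj at hg
      cases an
      · left; simpa using hg
      · right; simpa using hg)
    (fun t ht => tend0 ((hmem t).mono fun z hz => hz.1) (h1 t ht))
    (fun t ht => tend0 ((hmem t).mono fun z hz => hz.2.1) (h2 t ht))
    (fun t ht => tend0 ((hmem t).mono fun z hz => hz.2.2) (h3 t ht))
  have := (lam_cont.tendsto _).comp key
  rwa [lam_point] at this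

/-- one-sided, ultrafilter form, `up = false` -/
theorem obs_le (C : CDat γ φ) {p : ℕ → ℝ} (hp : ∀ n, p n ∈ Icc (0 : ℝ) 1)
    {G0 : Geo γ} (O0 : Obs G0 p false) {U : Ultrafilter ℕ} (hU : (U : Filter ℕ) ≤ atTop) {P : ℝ}
    (hP : Tendsto p U (𝓝 P)) :
    cardyRatio (crossRatioAt (φ (γ 0)) (φ (γ (1/4))) (φ (γ (1/2))) (φ (γ (3/4)))) ≤ P := by
  have hP01 : P ∈ Icc (0 : ℝ) 1 := isClosed_Icc.mem_of_tendsto hP (Eventually.of_forall hp)
  obtain ⟨g, g1, g2, g3, g4, g5, g6, -⟩ := fam_lim C.hγ C.opn O0 hU hP hP01.1 hP01.2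
  have tg := fam_ident C g1 g2 g3 g4 g5
  refine near_quarter C tg (S := Ioo 0 (1/4)) (fun t ht => ⟨ht.1.le, by linarith [ht.2]⟩) ?_
    (g6 rfl)
  rw [closure_Ioo (by norm_num)]
  exact ⟨by norm_num, le_rfl⟩

/-- one-sided, ultrafilter form, `up = true` -/
theorem obs_ge (C : CDat γ φ) {p : ℕ → ℝ} (hp : ∀ n, p n ∈ Icc (0 : ℝ) 1)
    {G1 : Geo γ} (O1 : Obs G1 p true) {U : Ultrafilter ℕ} (hU : (U : Filter ℕ) ≤ atTop) {P : ℝ}
    (hP : Tendsto p U (𝓝 P)) :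
    P ≤ cardyRatio (crossRatioAt (φ (γ 0)) (φ (γ (1/4))) (φ (γ (1/2))) (φ (γ (3/4)))) := by
  have hP01 : P ∈ Icc (0 : ℝ) 1 := isClosed_Icc.mem_of_tendsto hP (Eventually.of_forall hp)
  obtain ⟨f, f1, f2, f3, f4, f5, -, f6⟩ := fam_lim C.hγ C.opn O1 hU hP hP01.1 hP01.2
  have tf := fam_ident C f1 f2 f3 f4 f5
  have hge : -cardyRatio (crossRatioAt (φ (γ 0)) (φ (γ (1/4))) (φ (γ (1/2))) (φ (γ (3/4)))) ≤ -P := by
    refine near_quarter C tf.neg (S := Ioo (1/4) (1/2))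
      (fun t ht => ⟨by linarith [ht.1], by linarith [ht.2]⟩) ?_ ?_
    · rw [closure_Ioo (by norm_num)]
      exact ⟨le_rfl, by norm_num⟩
    · intro t ht ε hε
      filter_upwards [f6 rfl t ht ε hε] with z hz
      linarith
  linarith

theorem ev_of_ultra {Q : ℕ → Prop}
    (h : ∀ U : Ultrafilter ℕ, (U : Filter ℕ) ≤ atTop → (∀ᶠ n in (U : Filter ℕ), ¬ Q n) → False) :
    ∀ᶠ n in atTop, Q n := by
  have : {n | Q n} ∈ (atTop : Filter ℕ) := by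
    rw [mem_iff_ultrafilter]
    intro U hU
    by_contra hc
    exact h U hU (Ultrafilter.compl_mem_iff_notMem.mpr hc)
  exact this

theorem exists_ulim {p : ℕ → ℝ} (hp : ∀ n, p n ∈ Icc (0 : ℝ) 1) (U : Ultrafilter ℕ) :
    ∃ P, Tendsto p U (𝓝 P) := by
  obtain ⟨x, hx, hx2⟩ := isCompact_Icc.ultrafilter_le_nhds (U.map p) (by
    rw [le_principal_iff]
    exact Filter.Eventually.of_forall (f := (U : Filter ℕ)) hp)
  exact ⟨x, hx2⟩

/-- one-sided, eventual form, `up = false` -/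
theorem obs_lower (C : CDat γ φ) {p : ℕ → ℝ} (hp : ∀ n, p n ∈ Icc (0 : ℝ) 1)
    {G0 : Geo γ} (O0 : Obs G0 p false) {ε : ℝ} (hε : 0 < ε) :
    ∀ᶠ n in atTop,
      cardyRatio (crossRatioAt (φ (γ 0)) (φ (γ (1/4))) (φ (γ (1/2))) (φ (γ (3/4)))) - ε < p n := by
  refine ev_of_ultra fun U hU hcon => ?_
  obtain ⟨P, hP⟩ := exists_ulim hp U
  have h1 := obs_le C hp O0 hU hP
  have h2 : P ≤ cardyRatio (crossRatioAt (φ (γ 0)) (φ (γ (1/4))) (φ (γ (1/2))) (φ (γ (3/4)))) - ε :=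
    le_of_tendsto hP (hcon.mono fun n hn => not_lt.mp hn)
  linarith

/-- one-sided, eventual form, `up = true` -/
theorem obs_upper (C : CDat γ φ) {p : ℕ → ℝ} (hp : ∀ n, p n ∈ Icc (0 : ℝ) 1)
    {G1 : Geo γ} (O1 : Obs G1 p true) {ε : ℝ} (hε : 0 < ε) :
    ∀ᶠ n in atTop, p n <
      cardyRatio (crossRatioAt (φ (γ 0)) (φ (γ (1/4))) (φ (γ (1/2))) (φ (γ (3/4)))) + ε := by
  refine ev_of_ultra fun U hU hcon => ?_
  obtain ⟨P, hP⟩ := exists_ulim hp U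
  have h1 := obs_ge C hp O1 hU hP
  have h2 : cardyRatio (crossRatioAt (φ (γ 0)) (φ (γ (1/4))) (φ (γ (1/2))) (φ (γ (3/4)))) + ε ≤ P :=
    ge_of_tendsto hP (hcon.mono fun n hn => not_lt.mp hn)
  linarith

/-- the two sides together -/
theorem tendsto_of_sides {p : ℕ → ℝ} {X : ℝ} (h0 : ∀ ε > 0, ∀ᶠ n in atTop, X - ε < p n)
    (h1 : ∀ ε > 0, ∀ᶠ n in atTop, p n < X + ε) : Tendsto p atTop (𝓝 X) := by
  rw [Metric.tendsto_nhds]
  intro ε hε
  filter_upwards [h0 ε hε, h1 ε hε] with n h2 h3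
  rw [Real.dist_eq, abs_lt]
  constructor <;> linarith

/-- **Section 5**: two one-sided families give the limit. -/
theorem cardy_of_obs (C : CDat γ φ) {p : ℕ → ℝ} (hp : ∀ n, p n ∈ Icc (0 : ℝ) 1)
    {G0 G1 : Geo γ} (O0 : Obs G0 p false) (O1 : Obs G1 p true) :
    Tendsto p atTop
      (𝓝 (cardyRatio (crossRatioAt (φ (γ 0)) (φ (γ (1/4))) (φ (γ (1/2))) (φ (γ (3/4)))))) :=
  tendsto_of_sides (fun _ hε => obs_lower C hp O0 hε) (fun _ hε => obs_upper C hp O1 hε)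

theorem arc_prob_mem (δ : ℝ) (g : ℝ → ℂ) : (arcCrossingProb δ g).toReal ∈ Icc (0 : ℝ) 1 := by
  refine ⟨ENNReal.toReal_nonneg, ?_⟩
  unfold arcCrossingProb
  have h := MeasureTheory.prob_le_one
    (μ := ProbabilityTheory.setBernoulli (regionGraph δ g).edgeSet (clampUnit (1 / 2)))
    (s := {ω | ∃ u v : ℤ × ℤ, gridPoint δ u ∈ g '' Set.Icc 0 (1 / 4) ∧
      gridPoint δ v ∈ g '' Set.Icc (1 / 2) (3 / 4) ∧
        (openSubgraph (regionGraph δ g) ω).Reachable u v})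
  have := ENNReal.toReal_mono ENNReal.one_ne_top h
  simpa using this

/-- **S0237 from two families** (literal conclusion). -/
theorem literal_of_obs (hγ : IsJordanCurve γ) (δ : ℕ → ℝ) (γs : ℕ → ℝ → ℂ)
    (hφc : ContinuousOn φ (closure (jordanInterior γ)))
    (hφi : Set.InjOn φ (closure (jordanInterior γ)))
    (hφd : DifferentiableOn ℂ φ (jordanInterior γ))
    (hφD : φ '' jordanInterior γ = Metric.ball 0 1)
    {G0 G1 : Geo γ}
    (O0 : Obs G0 (fun n => (arcCrossingProb (δ n) (γs n)).toReal) false)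
    (O1 : Obs G1 (fun n => (arcCrossingProb (δ n) (γs n)).toReal) true) :
    Filter.Tendsto (fun n : ℕ => (arcCrossingProb (δ n) (γs n)).toReal) Filter.atTop
      (nhds (cardyRatio
        (crossRatioAt (φ (γ 0)) (φ (γ (1 / 4))) (φ (γ (1 / 2))) (φ (γ (3 / 4)))))) :=
  cardy_of_obs ⟨hγ, hφc, hφi, hφd, hφD⟩ (fun _ => arc_prob_mem _ _) O0 O1

end Crest.Agent.R158.Wl290
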