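import Crest.Agent.R158.Tj1_656
import Crest.Agent.R158.Sp7_896
import Crest.Agent.R158.Wk4_290
import Crest.Agent.R158.Ob0_664
import Crest.Agent.R158.Cb1_771

/-!
R158, Lean architect of S0237 (helper656), J2 part 2: FROZEN INTERFACE.

`P4` : macroscopic polygon with four marked boundary edges, counterclockwise, index `0` = `γ 0`
`on`, `hA` : half-edge arcs `0,1,2,3`; `Ex` : vertices and midpoints of the marked edges
`cc`  : the three marks of the observable, clockwise : `γ 0, γ (3/4), γ (1/2)`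
`Q1, Q2, Q3m, Q3p` : the per-polygon inputs (410/553, 771)
`Sm, Sp` : the inputs of 949 (SPL)
-/

set_option autoImplicit false

namespace Crest.Agent.R158.Tj656

open Filter Topology Set Metric MeasureTheory
open Complex (I)
open Crest.Agent.R158.Sp896
open Crest.Agent.R158.Wl290 (CSr sg)
open Crest.Agent.R158.Cd83 (om)
open Crest.Agent.R161.Geo729 Crest.Agent.R158.Cb771
open Crest.Agent.R158.Rs689 (hf)

noncomputable section

/-- macroscopic polygon with four marked boundary edges (their midpoints are the marks),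
counterclockwise, in the order `γ 0, γ (1/4), γ (1/2), γ (3/4)` -/
structure P4 where
  /-- cells -/
  F : Finset V
  /-- number of boundary edges -/
  N : ℕ
  /-- boundary vertices -/
  v : ℕ → V
  /-- marked edges `0, mb, mc, md` -/
  mb : ℕ
  /-- marked edge of `γ (1/2)` -/
  mc : ℕ
  /-- marked edge of `γ (3/4)` -/
  md : ℕ
  con : ∀ q ∈ F, ∀ q' ∈ F, Con (↑F) q q'
  con' : ∀ q ∉ F, ∀ q' ∉ F, Con (↑F)ᶜ q q'
  cyc : Cyc (↑F) N v
  h1 : 0 < mb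
  h2 : mb < mc
  h3 : mc < md
  h4 : md < N

/-- point of the `m`-th macroscopic boundary edge -/
def ept (v : ℕ → V) (m : ℕ) (t : ℝ) : ℂ := pt 1 (v m) + (t : ℂ) * (pt 1 (v (m + 1)) - pt 1 (v m))

/-- the point `(m,t)` of the boundary lies on the arc `j` (half edges at the marks) -/
def P4.on (P : P4) (j : Fin 4) (m : ℕ) (t : ℝ) : Prop :=
  if j = 0 then (0 < m ∧ m < P.mb) ∨ (m = 0 ∧ 1 / 2 < t) ∨ (m = P.mb ∧ t < 1 / 2)
  else if j = 1 then (P.mb < m ∧ m < P.mc) ∨ (m = P.mb ∧ 1 / 2 < t) ∨ (m = P.mc ∧ t < 1 / 2)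
  else if j = 2 then (P.mc < m ∧ m < P.md) ∨ (m = P.mc ∧ 1 / 2 < t) ∨ (m = P.md ∧ t < 1 / 2)
  else (P.md < m ∧ m < P.N) ∨ (m = P.md ∧ 1 / 2 < t) ∨ (m = 0 ∧ t < 1 / 2)

/-- the flat points of the arc `j` (macroscopic coordinates) -/
def P4.hA (P : P4) (j : Fin 4) : Set ℂ :=
  {ζ | ∃ (m : ℕ) (t : ℝ), 0 < t ∧ t < 1 ∧ P.on j m t ∧ ζ = ept P.v m t}

/-- exceptional points: vertices and marks -/
def P4.Ex (P : P4) : Finset ℂ :=
  (Finset.range P.N).image (fun m => pt 1 (P.v m)) ∪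
    {ept P.v 0 (1 / 2), ept P.v P.mb (1 / 2), ept P.v P.mc (1 / 2), ept P.v P.md (1 / 2)}

/-- macroscopic domain -/
def P4.Om (P : P4) : Set ℂ := Tj656.Om 1 (↑P.F)

/-- inner cell and outward side of a boundary step (`W = 0, N = 1, E = 2, S = 3`) -/
def esd (a b : V) : (ℤ × ℤ) × ZMod 4 :=
  (lc a b, if b.1 = a.1 + 1 then 3 else if b.2 = a.2 + 1 then 2 else if b.1 = a.1 - 1 then 1 else 0)

/-- the three marks of the observable, clockwise: `x1 = γ 0`, `x2 = γ (3/4)`, `x3 = γ (1/2)` -/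
def P4.cc (P : P4) : Fin 3 → (ℤ × ℤ) × ZMod 4 :=
  ![esd (P.v 0) (P.v 1), esd (P.v P.md) (P.v (P.md + 1)), esd (P.v P.mc) (P.v (P.mc + 1))]

/-- the observable of 664, at the lattice point `(x,y)`, scale `L` -/
def P4.HD (P : P4) (L : ℤ) (x y : ℤ) : ℂ := Ob664.HD P.F L P.cc x y

/-- macroscopic position of the lattice point `(x,y)` -/
def mpos (L : ℤ) (x y : ℤ) : ℂ := ⟨(x : ℝ) / L, (y : ℝ) / L⟩

/-! ### lattice sets (949's SPL) -/

/-- tiles of the polygon at scale `L` -/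
def DT (F : Set V) (L : ℤ) : Set P2 := {t | (t.1 / L, t.2 / L) ∈ F}

/-- sup-norm neighbourhood -/
def Nk (k : ℤ) (S : Set P2) : Set P2 := {x | ∃ y ∈ S, |x.1 - y.1| ≤ k ∧ |x.2 - y.2| ≤ k}

/-- lattice points of the boundary edges `m0 ≤ m ≤ m1` -/
def arcT (L : ℤ) (v : ℕ → V) (m0 m1 : ℕ) : Set P2 :=
  {f | ∃ (m : ℕ) (r : ℤ), m0 ≤ m ∧ m ≤ m1 ∧ 0 ≤ r ∧ r ≤ L ∧
    f = (L * (v m).1 + r * ((v (m + 1)).1 - (v m).1), L * (v m).2 + r * ((v (m + 1)).2 - (v m).2))}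

/-- face path crossing (parity `par` of the faces) between two arcs in the `k`-neighbourhood -/
def XP (P : P4) (k L : ℤ) (par : ℤ) (a0 a1 b0 b1 : ℕ) : Set Mr679.TF :=
  {g | ∃ f0 f1 : P2, (f0.1 + f0.2) % 2 = par ∧ FP g (fun t => t ∈ Nk k (DT (↑P.F) L)) f0 f1 ∧
    f0 ∈ Nk k (arcT L P.v a0 a1) ∧ f1 ∈ Nk k (arcT L P.v b0 b1)}

/-- probability of an even crossing between the arcs `0` and `2` -/
def P4.pm (P : P4) (k L : ℤ) : ℝ := (Mr679.tau hf).real (XP P k L 0 0 P.mb P.mc P.md)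

/-- probability of an odd crossing between the arcs `1` and `3` -/
def P4.pp (P : P4) (k L : ℤ) : ℝ := (Mr679.tau hf).real (XP P k L 1 P.mb P.mc P.md P.N)

/-! ### the inputs -/

/-- **(Q1)** contour sums -/
def Q1 (an : Bool) : Prop :=
  ∀ (P : P4) (x1 x2 y1 y2 : ℝ), x1 ≤ x2 → y1 ≤ y2 →
    (∀ x ∈ Icc x1 x2, ∀ y ∈ Icc y1 y2, ((x : ℂ) + (y : ℂ) * I) ∈ P.Om) →
    ∀ Ln : ℕ → ℤ, (∀ n, Even (Ln n)) → Tendsto Ln atTop atTop →
      CSr atTop (sg an) (fun n => 2 / (Ln n : ℝ)) (fun n i j => P.HD (Ln n) (2 * i) (2 * j))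
        x1 x2 y1 y2

/-- one-sided boundary value at the macroscopic boundary point `b` -/
def NB (P : P4) (b : ℂ) (u : ℤ → ℂ → ℝ) : Prop :=
  ∀ ε : ℝ, 0 < ε → ∃ r : ℝ, 0 < r ∧ ∃ L0 : ℤ, ∀ L : ℤ, L0 ≤ L → Even L → ∀ i j : ℤ,
    mpos L (2 * i) (2 * j) ∈ P.Om → ‖mpos L (2 * i) (2 * j) - b‖ < r →
      u L (P.HD L (2 * i) (2 * j)) ≤ ε

/-- **(Q2)** flat boundary points: sides of the triangle `0, v2, 1` -/
def Q2 : Prop :=
  ∀ P : P4, (∀ b ∈ P.hA 0, NB P b fun _ w => w.im) ∧ (∀ b ∈ P.hA 1, NB P b fun _ w => w.im) ∧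
    (∀ b ∈ P.hA 2, NB P b fun _ w => (om ^ 2 * (w - 1)).im) ∧
    (∀ b ∈ P.hA 3, NB P b fun _ w => (om * (w - (1 + om))).im)

/-- **(Q3-)** -/
def Q3m : Prop :=
  ∃ k : ℤ, ∀ P : P4, ∀ b ∈ P.hA 0, NB P b fun L w => w.re - P.pm k L

/-- **(Q3+)** -/
def Q3p : Prop :=
  ∃ k : ℤ, ∀ P : P4, ∀ b ∈ P.hA 1, NB P b fun L w => (1 - w.re) - P.pp k L

/-! ### one-sided polygons -/

/-- even mesh number (949) -/
def Ls (s d : ℝ) : ℤ := 2 * ⌊s / (Real.sqrt 2 * d)⌋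

/-- the rotation -/
def ww : ℂ := Complex.exp ((Real.pi / 4 : ℝ) * I)

/-- `up = true`: polygon for the upper bound of `p` (arcs `1, 3` outside), `up = false`: lower bound
(arcs `0, 2` outside). Metric facts used by `Geo`. -/
structure PolyOK (γ : ℝ → ℂ) (e s : ℝ) (P : P4) : Prop where
  s_pos : 0 < s
  s_lt : s < e
  /-- every point of the arc `j` is `e`-close to the arc `j` of `ww * γ` -/
  arc : ∀ j : Fin 4, ∀ ζ ∈ P.hA j, ∃ t ∈ Icc (((j : ℕ) : ℝ) / 4) ((((j : ℕ) : ℝ) + 1) / 4),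
    ‖(s : ℂ) * ζ - ww * γ t‖ < e
  /-- points of the interior at distance at least `e` from the trace belong to the polygon -/
  cover : ∀ z ∈ Crest.ProbabilityR.Percolation.jordanInterior γ,
    (∀ t ∈ Icc (0 : ℝ) 1, e ≤ ‖z - γ t‖) → ww * z ∈ Tj656.Om s (↑P.F)
  /-- the complement comes close to every point of the trace -/
  near : ∀ t ∈ Icc (0 : ℝ) 1, ∃ z, ww * z ∉ Tj656.Om s (↑P.F) ∧ ‖z - γ t‖ < e

/-- **(S-)**: for the sequence `P k` with scales `s k`: crossing of the polygon gives crossing -/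
def Sm (s : ℝ) (P : P4) (δ : ℕ → ℝ) (p : ℕ → ℝ) : Prop :=
  ∀ k : ℤ, ∀ᶠ n in atTop, P.pm k (Ls s (δ n)) ≤ p n

/-- **(S+)** -/
def Sp (s : ℝ) (P : P4) (δ : ℕ → ℝ) (p : ℕ → ℝ) : Prop :=
  ∀ k : ℤ, ∀ᶠ n in atTop, P.pp k (Ls s (δ n)) ≤ 1 - p n

end

end Crest.Agent.R158.Tj656
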