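import Crest.Agent.R158.Bl4_802
import Crest.Agent.R158.Tj2_656

/-!
# R158, helper802, file Bl5: the marks as steps of the boundary walk

* `DF` : the tiles `D F L` are `sc F L`
* `mark_pt` : the two ends at the mark of the macro edge `k` are the steps `k L + L/2` (before the gap)
  and `k L + L/2 - 1` (after the gap, clockwise) of the subdivided walk
-/

set_option autoImplicit false

namespace Crest.Agent.R158.Bl802

open Crest.Agent.R158.Sp896
open Crest.Agent.R158.Sw300 (Port Wd L M pos cyc)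
open Crest.Agent.R158.Env664
open Crest.Agent.R158.Ob664
open Crest.Agent.R158.Tj656 (esd)

theorem mark_pt {N m : ℕ} {F : Set V} {v : ℕ → V} (h : Cyc F N v) (hm : 0 < m) (k : ℕ) :
    mark ((2 * m : ℕ) : ℤ) (esd (v k) (v (k + 1))).1 (esd (v k) (v (k + 1))).2 =
      (pt (sv (2 * m) v (k * (2 * m) + m)) (sv (2 * m) v (k * (2 * m) + m + 1)),
       pt (sv (2 * m) v (k * (2 * m) + m - 1)) (sv (2 * m) v (k * (2 * m) + m))) := by
  have hs := h.step k
  rw [sv_mk (k := k) (r := m) (by omega : m < 2 * m),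
    sv_mk_succ (k := k) (r := m) (by omega : m < 2 * m),
    show k * (2 * m) + m - 1 = k * (2 * m) + (m - 1) by omega,
    sv_mk (k := k) (r := m - 1) (by omega : m - 1 < 2 * m)]
  generalize v k = a at *
  generalize v (k + 1) = b at *
  obtain ⟨a1, a2⟩ := a
  obtain ⟨b1, b2⟩ := b
  have e1 : ((m - 1 : ℕ) : ℤ) = (m : ℤ) - 1 := by omega
  have e2 : ((2 * m : ℕ) : ℤ) / 2 = m := by push_cast; omega
  unfold Adj at hs
  simp only at hs
  rcases hs with ⟨h1, h2⟩ | ⟨h1, h2⟩ | ⟨h1, h2⟩ | ⟨h1, h2⟩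
  · subst h1 h2
    have q1 := pt_E ((2 * m : ℕ) * a1 + m) ((2 * m : ℕ) * b2)
    have q2 := pt_E ((2 * m : ℕ) * a1 + (m - 1)) ((2 * m : ℕ) * b2)
    have c1 : lc (a1, b2) (a1 + 1, b2) = (a1, b2) := by
      simp only [lc]; ext <;> simp only <;> omega
    simp only [esd, c1, mark, if_neg n30, if_neg n31, if_neg n32, if_true, e1, e2, add_sub_cancel_left,
      sub_self, mul_zero, add_zero, mul_one]
    rw [show ((2 * m : ℕ) : ℤ) * a1 + ((m : ℤ) + 1) = (2 * m : ℕ) * a1 + m + 1 by ring, q1]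
    rw [show ((2 * m : ℕ) : ℤ) * a1 + (m : ℤ) = (2 * m : ℕ) * a1 + (m - 1) + 1 by ring, q2]
    simp only [Prod.mk.injEq, Option.some.injEq, and_true]
    refine ⟨⟨?_, ?_⟩, ?_, ?_⟩ <;> ring
  · subst h1 h2
    have q1 := pt_W ((2 * m : ℕ) * a1 - m) ((2 * m : ℕ) * b2)
    have q2 := pt_W ((2 * m : ℕ) * a1 - (m - 1)) ((2 * m : ℕ) * b2)
    have c1 : lc (a1, b2) (a1 - 1, b2) = (a1 - 1, b2 - 1) := by
      simp only [lc]; ext <;> simp only <;> omega
    have x1 : ¬ (a1 - 1 = a1 + 1) := by omega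
    have x2 : ¬ (b2 = b2 + 1) := by omega
    simp only [esd, c1, mark, if_neg n10, if_neg x1, if_neg x2, if_true, e1, e2, sub_sub_cancel_left,
      sub_self, mul_zero, add_zero, mul_neg, mul_one]
    rw [show ((2 * m : ℕ) : ℤ) * a1 + -((m : ℤ) + 1) = (2 * m : ℕ) * a1 - m - 1 by ring,
      show ((2 * m : ℕ) : ℤ) * a1 + -(m : ℤ) = (2 * m : ℕ) * a1 - m by ring, q1]
    rw [show ((2 * m : ℕ) : ℤ) * a1 - (m : ℤ) = (2 * m : ℕ) * a1 - (m - 1) - 1 by ring,
      show ((2 * m : ℕ) : ℤ) * a1 + -((m : ℤ) - 1) = (2 * m : ℕ) * a1 - (m - 1) by ring, q2]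
    simp only [Prod.mk.injEq, Option.some.injEq, and_true]
    push_cast
    refine ⟨⟨?_, ?_⟩, ?_, ?_⟩ <;> ring
  · subst h1 h2
    have q1 := pt_N ((2 * m : ℕ) * b1) ((2 * m : ℕ) * a2 + m)
    have q2 := pt_N ((2 * m : ℕ) * b1) ((2 * m : ℕ) * a2 + (m - 1))
    have c1 : lc (b1, a2) (b1, a2 + 1) = (b1 - 1, a2) := lcN _ _
    have x1 : ¬ (b1 = b1 + 1) := by omega
    simp only [esd, c1, mark, if_neg n20, if_neg n21, if_neg x1, if_true, e1, e2, add_sub_cancel_left,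
      sub_self, mul_zero, add_zero, mul_one]
    rw [show ((2 * m : ℕ) : ℤ) * a2 + ((m : ℤ) + 1) = (2 * m : ℕ) * a2 + m + 1 by ring, q1]
    rw [show ((2 * m : ℕ) : ℤ) * a2 + (m : ℤ) = (2 * m : ℕ) * a2 + (m - 1) + 1 by ring, q2]
    simp only [Prod.mk.injEq, Option.some.injEq, and_true]
    push_cast
    refine ⟨⟨?_, ?_⟩, ?_, ?_⟩ <;> ring
  · subst h1 h2
    have q1 := pt_S ((2 * m : ℕ) * b1) ((2 * m : ℕ) * a2 - m)
    have q2 := pt_S ((2 * m : ℕ) * b1) ((2 * m : ℕ) * a2 - (m - 1))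
    have c1 : lc (b1, a2) (b1, a2 - 1) = (b1, a2 - 1) := by
      simp only [lc]; ext <;> simp only <;> omega
    have x1 : ¬ (b1 = b1 + 1) := by omega
    have x2 : ¬ (a2 - 1 = a2 + 1) := by omega
    have x3 : ¬ (b1 = b1 - 1) := by omega
    simp only [esd, c1, mark, if_neg x1, if_neg x2, if_neg x3, if_true, e1, e2, sub_sub_cancel_left,
      sub_self, mul_zero, add_zero, mul_neg, mul_one]
    rw [show ((2 * m : ℕ) : ℤ) * a2 + -((m : ℤ) + 1) = (2 * m : ℕ) * a2 - m - 1 by ring,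
      show ((2 * m : ℕ) : ℤ) * a2 + -(m : ℤ) = (2 * m : ℕ) * a2 - m by ring, q1]
    rw [show ((2 * m : ℕ) : ℤ) * a2 - (m : ℤ) = (2 * m : ℕ) * a2 - (m - 1) - 1 by ring,
      show ((2 * m : ℕ) : ℤ) * a2 + -((m : ℤ) - 1) = (2 * m : ℕ) * a2 - (m - 1) by ring, q2]
    simp only [Prod.mk.injEq, Option.some.injEq, and_true]
    push_cast
    refine ⟨⟨?_, ?_⟩, ?_, ?_⟩ <;> ring

end Crest.Agent.R158.Bl802
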