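import Crest.Agent.R150.Om1_932

/-!
# Row 158: the chiral mode lemma (helper857)

`f` analytic, bounded by `B` on `[-r, 1 + r] × [-V, V]`, almost antiperiodic, and
`‖f (i y)‖ ≤ B e^{-π y / 3}` at the single height `y = 9 V / 10`: the mode `e^{-iπz}` is absent up
to `e^{-6 π V / 5}`, i.e. `f (1/2) = i f 0 + O (B e^{-6 π V / 5} + s)`.
-/

set_option autoImplicit false

noncomputable section

open Complex

namespace Crest.Agent.R158.Bm857

open Crest.Agent.R150.Om932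

/-- first mode on the imaginary axis -/
lemma mode_imag (a b : ℂ) (y : ℝ) :
    a * Complex.cos (Real.pi * (y * I)) + b * Complex.sin (Real.pi * (y * I)) =
      (a + I * b) / 2 * Complex.exp ((Real.pi * y : ℝ) : ℂ) +
        (a - I * b) / 2 * Complex.exp ((-(Real.pi * y) : ℝ) : ℂ) := by
  rw [show (Real.pi : ℂ) * (y * I) = ((Real.pi * y : ℝ) : ℂ) * I by push_cast; ring,
    Complex.cos_mul_I, Complex.sin_mul_I, Complex.cosh, Complex.sinh]
  push_cast
  ring

lemma norm_exp_real (t : ℝ) : ‖Complex.exp (t : ℂ)‖ = Real.exp t := by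
  rw [Complex.norm_exp, Complex.ofReal_re]

/-- from the value of the combination to one amplitude -/
lemma amp_le {F β α : ℂ} {X Y E : ℝ} {p q : ℝ}
    (hp : Real.exp p = X) (hq : Real.exp q = Y)
    (h : ‖F - (β * Complex.exp (p : ℂ) + α * Complex.exp (q : ℂ))‖ ≤ E) :
    ‖β‖ * X ≤ ‖F‖ + ‖α‖ * Y + E := by
  have e : β * Complex.exp (p : ℂ) = F - (F - (β * Complex.exp (p : ℂ) + α * Complex.exp (q : ℂ))) -
      α * Complex.exp (q : ℂ) := by ring
  have h2 := congrArg norm e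
  rw [norm_mul, norm_exp_real, hp] at h2
  rw [h2]
  refine (norm_sub_le _ _).trans ?_
  rw [norm_mul, norm_exp_real, hq]
  have := norm_sub_le F (F - (β * Complex.exp (p : ℂ) + α * Complex.exp (q : ℂ)))
  linarith

/-- the chiral mode lemma, any height -/
theorem chiral_gen {r : ℝ} (hr : 0 < r) (hr2 : r ≤ 1 / 4) :
    ∃ C : ℝ, 0 < C ∧ ∀ V y0 : ℝ, 2 ≤ V → 0 ≤ y0 → y0 ≤ V - 1 →
      ∀ (f : ℂ → ℂ) (B X s : ℝ), 0 ≤ B → 0 ≤ s →
      (∀ z : ℂ, -r ≤ z.re → z.re ≤ 1 + r → |z.im| ≤ V → DifferentiableAt ℂ f z ∧ ‖f z‖ ≤ B) →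
      (∀ z : ℂ, |z.re| ≤ r → |z.im| ≤ V → ‖f (z + 1) + f z‖ ≤
        B * Real.exp (-(4 * Real.pi * (V - |z.im|))) + s) →
      ‖f ((y0 : ℂ) * I)‖ ≤ X →
      ‖f (1 / 2) - I * f 0‖ ≤ C * (X * Real.exp (-(Real.pi * y0)) +
        B * (Real.exp (-(Real.pi * (V + 2 * y0))) + Real.exp (-(Real.pi * (3 * V - 2 * y0)))) +
        s) := by
  have hpi := Real.pi_pos
  have hpi3 := Real.pi_gt_three
  obtain ⟨C, hC, H⟩ := one_mode hr hr2
  refine ⟨2 * (1 + 4 * (1 + C) * Real.exp Real.pi + 4 * (1 + C) + C) + C, by positivity, ?_⟩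
  intro V y0 hV hy0 hy1 f B X0 s hB hs hf he hy
  have hH := H V hV f B s hB hs hf he
  have hX0 : 0 ≤ X0 := (norm_nonneg _).trans hy
  set a : ℂ := f 0 with ha
  set b : ℂ := deriv f 0 / Real.pi with hb
  set β : ℂ := (a + I * b) / 2 with hβ
  set α : ℂ := (a - I * b) / 2 with hα
  -- on the imaginary axis
  have him : ∀ y : ℝ, |y| ≤ V - 1 → ‖f (y * I) - (β * Complex.exp ((Real.pi * y : ℝ) : ℂ) +
      α * Complex.exp ((-(Real.pi * y) : ℝ) : ℂ))‖ ≤
      C * (B * Real.exp (-(3 * Real.pi * (V - |y|))) + s * Real.exp (Real.pi * |y|)) := by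
    intro y hy
    have h2 := hH (y * I) (by simp; linarith) (by simp; linarith) (by simpa using hy)
    have h3 : f (y * I) - a * Complex.cos (Real.pi * (y * I)) -
        b * Complex.sin (Real.pi * (y * I)) = f (y * I) -
        (β * Complex.exp ((Real.pi * y : ℝ) : ℂ) + α * Complex.exp ((-(Real.pi * y) : ℝ) : ℂ)) := by
      rw [sub_sub, mode_imag]
    rw [h3] at h2
    simpa using h2
  -- crude bound of the modes
  have hcr : ‖α‖ + ‖β‖ ≤ 4 * (1 + C) * (B * Real.exp (-(Real.pi * (V - 1))) + s) := by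
    set Y : ℝ := V - 1 with hY
    have hY0 : 1 ≤ Y := by rw [hY]; linarith
    have e1 := him Y (by rw [abs_of_nonneg (by linarith)])
    have e2 := him (-Y) (by rw [abs_neg, abs_of_nonneg (by linarith)])
    have n1 := (hf ((Y : ℂ) * I) (by simp; linarith) (by simp; linarith)
      (by simp only [Complex.mul_im, Complex.ofReal_re, Complex.I_im, Complex.ofReal_im,
            Complex.I_re, mul_one, mul_zero, add_zero]; rw [abs_of_nonneg (by linarith)]; linarith)).2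
    have n2 := (hf (((-Y : ℝ) : ℂ) * I) (by simp; linarith) (by simp; linarith)
      (by simp only [Complex.mul_im, Complex.ofReal_re, Complex.I_im, Complex.ofReal_im,
            Complex.I_re, mul_one, mul_zero, add_zero, abs_neg]
          rw [abs_of_nonneg (by linarith)]; linarith)).2
    rw [abs_neg] at e2
    rw [abs_of_nonneg (by linarith : (0 : ℝ) ≤ Y)] at e1 e2
    obtain ⟨X, hX⟩ : ∃ X : ℝ, X = Real.exp (Real.pi * Y) := ⟨_, rfl⟩
    have hXi : Real.exp (-(Real.pi * Y)) = X⁻¹ := by rw [hX, Real.exp_neg]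
    have hX2 : 2 ≤ X := by
      have h5 : (1 : ℝ) ≤ Real.pi * Y := by nlinarith
      have h6 := Real.add_one_le_exp (Real.pi * Y)
      rw [hX]; linarith
    have hX0' : 0 < X := by linarith
    have hXi0 : 0 < X⁻¹ := by positivity
    have hXi1 : X⁻¹ ≤ X / 4 := by
      rw [inv_le_comm₀ hX0' (by positivity), inv_div, div_le_iff₀ hX0']
      nlinarith
    have hexp3 : Real.exp (-(3 * Real.pi * (V - Y))) ≤ 1 := by
      have : 0 ≤ 3 * Real.pi * (V - Y) := by
        have : V - Y = 1 := by rw [hY]; ring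
        rw [this]; positivity
      exact Real.exp_le_one_iff.2 (by linarith)
    have hE : C * (B * Real.exp (-(3 * Real.pi * (V - Y))) + s * Real.exp (Real.pi * Y)) ≤
        C * (B + s * X) := by
      rw [← hX]
      refine mul_le_mul_of_nonneg_left ?_ hC.le
      have := mul_le_mul_of_nonneg_left hexp3 hB
      linarith
    have a1 := amp_le hX.symm hXi (e1.trans hE)
    have e2' : ‖f (((-Y : ℝ) : ℂ) * I) - (α * Complex.exp ((-(Real.pi * -Y) : ℝ) : ℂ) +
        β * Complex.exp ((Real.pi * -Y : ℝ) : ℂ))‖ ≤ C * (B + s * X) := by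
      rw [add_comm (α * _)]
      exact e2.trans hE
    have a2 := amp_le (show Real.exp (-(Real.pi * -Y)) = X by
      rw [hX]; congr 1; ring) (show Real.exp (Real.pi * -Y) = X⁻¹ by
      rw [← hXi]; congr 1; ring) e2'
    have hα0 := norm_nonneg α
    have hβ0 := norm_nonneg β
    have h7 : (‖α‖ + ‖β‖) * (X - X⁻¹) ≤ 2 * (B + C * (B + s * X)) := by nlinarith
    have h8 : (‖α‖ + ‖β‖) * (X / 2) ≤ (‖α‖ + ‖β‖) * (X - X⁻¹) :=
      mul_le_mul_of_nonneg_left (by linarith) (by positivity)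
    have h9 : (‖α‖ + ‖β‖) * X ≤ 4 * (B + C * (B + s * X)) := by linarith
    rw [hXi]
    have h10 : ‖α‖ + ‖β‖ ≤ 4 * (B + C * (B + s * X)) * X⁻¹ := by
      rw [← div_eq_mul_inv, le_div_iff₀ hX0']
      exact h9
    have h11 : 4 * (B + C * (B + s * X)) * X⁻¹ = 4 * (1 + C) * (B * X⁻¹) + 4 * C * s := by
      field_simp
      ring
    rw [h11] at h10
    nlinarith
  -- the amplitude of the wrong mode
  obtain ⟨P1, hP1⟩ : ∃ P : ℝ, P = Real.exp (-(Real.pi * y0)) := ⟨_, rfl⟩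
  obtain ⟨P2, hP2⟩ : ∃ P : ℝ, P = Real.exp (-(Real.pi * (V + 2 * y0))) := ⟨_, rfl⟩
  obtain ⟨P3, hP3⟩ : ∃ P : ℝ, P = Real.exp (-(Real.pi * (3 * V - 2 * y0))) := ⟨_, rfl⟩
  have hP10 : 0 < P1 := by rw [hP1]; exact Real.exp_pos _
  have hP20 : 0 < P2 := by rw [hP2]; exact Real.exp_pos _
  have hP30 : 0 < P3 := by rw [hP3]; exact Real.exp_pos _
  have hβb : ‖β‖ ≤ (1 + 4 * (1 + C) * Real.exp Real.pi + 4 * (1 + C) + C) *
      (X0 * P1 + B * (P2 + P3) + s) := by
    have e1 := him y0 (by rw [abs_of_nonneg hy0]; exact hy1)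
    rw [abs_of_nonneg hy0] at e1
    obtain ⟨Z, hZ⟩ : ∃ Z : ℝ, Z = Real.exp (Real.pi * y0) := ⟨_, rfl⟩
    have hZ0 : 0 < Z := by rw [hZ]; exact Real.exp_pos _
    have hZi : Real.exp (-(Real.pi * y0)) = Z⁻¹ := by rw [hZ, Real.exp_neg]
    have hZi0 : 0 < Z⁻¹ := by positivity
    have a1 := amp_le hZ.symm hZi e1
    have hβ2 : ‖β‖ ≤ (‖f ((y0 : ℂ) * I)‖ + ‖α‖ * Z⁻¹ +
        C * (B * Real.exp (-(3 * Real.pi * (V - y0))) +
          s * Real.exp (Real.pi * y0))) * Z⁻¹ := by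
      rw [← div_eq_mul_inv, le_div_iff₀ hZ0]
      exact a1
    rw [← hZ] at hβ2
    have p2 : Real.exp (-(3 * Real.pi * (V - y0))) * Z⁻¹ = P3 := by
      rw [← hZi, ← Real.exp_add, hP3]; congr 1; ring
    have p3 : Real.exp (-(Real.pi * (V - 1))) * (Z⁻¹ * Z⁻¹) = Real.exp Real.pi * P2 := by
      rw [← hZi, ← Real.exp_add, ← Real.exp_add, hP2, ← Real.exp_add]
      congr 1; ring
    have p4 : Z⁻¹ * Z⁻¹ ≤ 1 := by
      have : Z⁻¹ ≤ 1 := inv_le_one_of_one_le₀ (by
        rw [hZ]; exact Real.one_le_exp (by positivity))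
      nlinarith
    have p5 : Z * Z⁻¹ = 1 := mul_inv_cancel₀ hZ0.ne'
    have t1 : ‖f ((y0 : ℂ) * I)‖ * Z⁻¹ ≤ X0 * P1 := by
      rw [hP1, hZi]
      exact mul_le_mul_of_nonneg_right hy hZi0.le
    have t2 : ‖α‖ * Z⁻¹ * Z⁻¹ ≤ 4 * (1 + C) * (B * (Real.exp Real.pi * P2) + s) := by
      have hα0 : ‖α‖ ≤ 4 * (1 + C) * (B * Real.exp (-(Real.pi * (V - 1))) + s) :=
        (le_add_of_nonneg_right (norm_nonneg β)).trans hcr
      calc ‖α‖ * Z⁻¹ * Z⁻¹ = ‖α‖ * (Z⁻¹ * Z⁻¹) := by ring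
        _ ≤ 4 * (1 + C) * (B * Real.exp (-(Real.pi * (V - 1))) + s) * (Z⁻¹ * Z⁻¹) :=
            mul_le_mul_of_nonneg_right hα0 (by positivity)
        _ = 4 * (1 + C) * (B * (Real.exp (-(Real.pi * (V - 1))) * (Z⁻¹ * Z⁻¹)) +
              s * (Z⁻¹ * Z⁻¹)) := by ring
        _ ≤ _ := by
            rw [p3]
            refine mul_le_mul_of_nonneg_left (add_le_add le_rfl ?_) (by positivity)
            exact (mul_le_mul_of_nonneg_left p4 hs).trans (le_of_eq (mul_one s))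
    have t3 : C * (B * Real.exp (-(3 * Real.pi * (V - y0))) + s * Z) * Z⁻¹ =
        C * (B * P3 + s) := by
      calc _ = C * (B * (Real.exp (-(3 * Real.pi * (V - y0))) * Z⁻¹) + s * (Z * Z⁻¹)) := by
            ring
        _ = _ := by rw [p2, p5, mul_one]
    have hsum : ‖β‖ ≤ X0 * P1 + 4 * (1 + C) * (B * (Real.exp Real.pi * P2) + s) +
        C * (B * P3 + s) := by
      refine hβ2.trans ?_
      rw [add_mul, add_mul, t3]
      linarith
    obtain ⟨W, hW⟩ : ∃ W : ℝ, W = X0 * P1 + B * (P2 + P3) + s := ⟨_, rfl⟩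
    rw [← hW]
    have hexp : 0 < Real.exp Real.pi := Real.exp_pos _
    have q0 : 0 ≤ X0 * P1 := by positivity
    have q1 : 0 ≤ B * P2 := by positivity
    have q2 : 0 ≤ B * P3 := by positivity
    have w1 : X0 * P1 ≤ 1 * W := by rw [hW, mul_add, one_mul]; linarith
    have w2 : 4 * (1 + C) * (B * (Real.exp Real.pi * P2)) ≤ 4 * (1 + C) * Real.exp Real.pi * W := by
      have : B * P2 ≤ W := by rw [hW, mul_add]; linarith
      calc _ = 4 * (1 + C) * Real.exp Real.pi * (B * P2) := by ring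
        _ ≤ _ := mul_le_mul_of_nonneg_left this (by positivity)
    have w3 : 4 * (1 + C) * s ≤ 4 * (1 + C) * W := by
      have : s ≤ W := by rw [hW, mul_add]; linarith
      exact mul_le_mul_of_nonneg_left this (by positivity)
    have w4 : C * (B * P3 + s) ≤ C * W := by
      have : B * P3 + s ≤ W := by rw [hW, mul_add]; linarith
      exact mul_le_mul_of_nonneg_left this hC.le
    have w5 : (1 + 4 * (1 + C) * Real.exp Real.pi + 4 * (1 + C) + C) * W =
        1 * W + 4 * (1 + C) * Real.exp Real.pi * W + 4 * (1 + C) * W + C * W := by ring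
    rw [w5]
    have w6 : 4 * (1 + C) * (B * (Real.exp Real.pi * P2) + s) =
        4 * (1 + C) * (B * (Real.exp Real.pi * P2)) + 4 * (1 + C) * s := by ring
    linarith
  -- conclusion
  have h1 := hH (1 / 2) (by norm_num; linarith) (by norm_num; linarith) (by norm_num; linarith)
  have h2 : (Real.pi : ℂ) * (1 / 2) = Real.pi / 2 := by ring
  rw [h2, Complex.cos_pi_div_two, Complex.sin_pi_div_two, mul_zero, sub_zero, mul_one] at h1
  have h3 : f (1 / 2) - I * a = (f (1 / 2) - b) + (-(2 * I) * β) := by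
    rw [hβ]
    have := Complex.I_sq
    linear_combination b * this
  rw [h3]
  refine (norm_add_le _ _).trans ?_
  have h4 : ‖-(2 * I) * β‖ = 2 * ‖β‖ := by
    rw [norm_mul, norm_neg, norm_mul, Complex.norm_I, mul_one]
    norm_num
  have h5 : ‖f (1 / 2) - b‖ ≤ C * (X0 * P1 + B * (P2 + P3) + s) := by
    refine h1.trans ?_
    have h6 : |((1 / 2 : ℂ)).im| = 0 := by norm_num
    rw [h6, mul_zero, Real.exp_zero, mul_one, sub_zero]
    refine mul_le_mul_of_nonneg_left (add_le_add ?_ le_rfl) hC.le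
    have h7 : Real.exp (-(3 * Real.pi * V)) ≤ P3 := by
      rw [hP3]
      refine Real.exp_le_exp.2 ?_
      have : 0 ≤ Real.pi * y0 := by positivity
      nlinarith
    have h8 := mul_le_mul_of_nonneg_left h7 hB
    have h9 : 0 ≤ X0 * P1 := by positivity
    have h10 : 0 ≤ B * P2 := by positivity
    linarith
  rw [h4, ← hP1, ← hP2, ← hP3, add_mul, mul_assoc 2]
  linarith

/-- the chiral mode lemma at the height `9 V / 10` -/
theorem chiral {r : ℝ} (hr : 0 < r) (hr2 : r ≤ 1 / 4) :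
    ∃ C : ℝ, 0 < C ∧ ∀ V : ℝ, 10 ≤ V → ∀ (f : ℂ → ℂ) (B s : ℝ), 0 ≤ B → 0 ≤ s →
      (∀ z : ℂ, -r ≤ z.re → z.re ≤ 1 + r → |z.im| ≤ V → DifferentiableAt ℂ f z ∧ ‖f z‖ ≤ B) →
      (∀ z : ℂ, |z.re| ≤ r → |z.im| ≤ V → ‖f (z + 1) + f z‖ ≤
        B * Real.exp (-(4 * Real.pi * (V - |z.im|))) + s) →
      ‖f (((9 * V / 10 : ℝ) : ℂ) * I)‖ ≤ B * Real.exp (-(3 * Real.pi * V / 10)) →
      ‖f (1 / 2) - I * f 0‖ ≤ C * (B * Real.exp (-(6 * Real.pi * V / 5)) + s) := by
  have hpi := Real.pi_pos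
  obtain ⟨C, hC, H⟩ := chiral_gen hr hr2
  refine ⟨3 * C, by positivity, fun V hV f B s hB hs hf he hy => ?_⟩
  have h := H V (9 * V / 10) (by linarith) (by linarith) (by linarith) f B _ s hB hs hf he hy
  refine h.trans ?_
  have e1 : B * Real.exp (-(3 * Real.pi * V / 10)) * Real.exp (-(Real.pi * (9 * V / 10))) =
      B * Real.exp (-(6 * Real.pi * V / 5)) := by
    rw [mul_assoc, ← Real.exp_add]; congr 2; ring
  have e2 : Real.exp (-(Real.pi * (3 * V - 2 * (9 * V / 10)))) =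
      Real.exp (-(6 * Real.pi * V / 5)) := by congr 1; ring
  have e3 : Real.exp (-(Real.pi * (V + 2 * (9 * V / 10)))) ≤
      Real.exp (-(6 * Real.pi * V / 5)) := by
    refine Real.exp_le_exp.2 ?_
    have : 0 ≤ Real.pi * V := by positivity
    nlinarith
  rw [e1, e2]
  obtain ⟨Q, hQ⟩ : ∃ Q : ℝ, Q = Real.exp (-(6 * Real.pi * V / 5)) := ⟨_, rfl⟩
  rw [← hQ] at e3 ⊢
  have h2 := mul_le_mul_of_nonneg_left e3 hB
  have h3 : C * (B * Q + B * (Real.exp (-(Real.pi * (V + 2 * (9 * V / 10)))) + Q) + s) ≤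
      C * (3 * (B * Q) + s) := mul_le_mul_of_nonneg_left (by linarith) hC.le
  have h4 : C * (3 * (B * Q) + s) ≤ 3 * C * (B * Q + s) := by
    have : 0 ≤ C * s := by positivity
    nlinarith
  exact h3.trans h4

end Crest.Agent.R158.Bm857
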