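import Crest.Agent.R158.Bm1_857
import Mathlib.Analysis.CStarAlgebra.Matrix
import Mathlib.Analysis.Calculus.FDeriv.Mul

/-!
# Row 158: the operator form of the chiral mode lemma (helper857)

Matrices with the `l²` operator norm.  `S x`, `S' x` analytic, close to `1`
(`‖S x - 1‖ ≤ 1/3 e^{-π (V - |im x|)}`), `S (x + 1) S x = 1 + O (t)` near `re x = 0`, `‖A‖ ≤ 1`,
`E x = S' x A - A S x`, `‖E (i y)‖ ≤ K e^{-π y / 3}` at `y = 9 V / 10`.  Then
`‖E (1/2) - i E 0‖ ≤ C ((1 + K) e^{-6 π V / 5} + t)`.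
-/

set_option autoImplicit false

noncomputable section

open Complex
open scoped Matrix.Norms.L2Operator

namespace Crest.Agent.R158.Bm857

/-! ### elements of a Banach algebra close to `1` -/

section Alg

variable {R : Type*} [NormedRing R] [CompleteSpace R]

lemma unit_of_close {s : R} {δ : ℝ} (hδ : δ ≤ 1 / 3) (h : ‖s - 1‖ ≤ δ) : IsUnit s := by
  have h2 : ‖-(s - 1)‖ < 1 := by rw [norm_neg]; linarith
  have h3 := (Units.oneSub (-(s - 1)) h2).isUnit
  rw [Units.val_oneSub] at h3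
  have e : 1 - -(s - 1) = s := by abel
  rwa [e] at h3

lemma inv_norm (h1 : ‖(1 : R)‖ ≤ 1) {s : R} {δ : ℝ} (hδ : δ ≤ 1 / 3) (h : ‖s - 1‖ ≤ δ) :
    ‖Ring.inverse s‖ ≤ 3 / 2 := by
  have hu := unit_of_close hδ h
  have e : Ring.inverse s = 1 - (s - 1) * Ring.inverse s := by
    rw [sub_mul, one_mul, Ring.mul_inverse_cancel s hu]
    abel
  have h2 : ‖Ring.inverse s‖ ≤ 1 + 1 / 3 * ‖Ring.inverse s‖ := by
    calc ‖Ring.inverse s‖ = ‖1 - (s - 1) * Ring.inverse s‖ := by rw [← e]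
      _ ≤ ‖(1 : R)‖ + ‖(s - 1) * Ring.inverse s‖ := norm_sub_le _ _
      _ ≤ 1 + ‖s - 1‖ * ‖Ring.inverse s‖ := add_le_add h1 (norm_mul_le _ _)
      _ ≤ _ := by
        have := mul_le_mul_of_nonneg_right (h.trans hδ) (norm_nonneg (Ring.inverse s))
        linarith
  linarith

lemma sub_inv_norm (h1 : ‖(1 : R)‖ ≤ 1) {s : R} {δ : ℝ} (hδ : δ ≤ 1 / 3) (h : ‖s - 1‖ ≤ δ) :
    ‖s - Ring.inverse s‖ ≤ 5 / 2 * δ := by
  have hu := unit_of_close hδ h
  have hδ0 : 0 ≤ δ := (norm_nonneg _).trans h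
  have e : s - Ring.inverse s = (s - 1) + Ring.inverse s * (s - 1) := by
    rw [mul_sub, Ring.inverse_mul_cancel s hu, mul_one]
    abel
  rw [e]
  calc _ ≤ ‖s - 1‖ + ‖Ring.inverse s‖ * ‖s - 1‖ :=
        (norm_add_le _ _).trans (add_le_add le_rfl (norm_mul_le _ _))
    _ ≤ δ + 3 / 2 * δ :=
        add_le_add h (mul_le_mul (inv_norm h1 hδ h) h (norm_nonneg _) (by norm_num))
    _ = _ := by ring

lemma second_order (h1 : ‖(1 : R)‖ ≤ 1) {s : R} {δ : ℝ} (hδ : δ ≤ 1 / 3) (h : ‖s - 1‖ ≤ δ) :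
    ‖s + Ring.inverse s - 2‖ ≤ 3 / 2 * δ ^ 2 := by
  have hu := unit_of_close hδ h
  have hδ0 : 0 ≤ δ := (norm_nonneg _).trans h
  have e : s + Ring.inverse s - 2 = (s - 1) * (s - 1) * Ring.inverse s := by
    have h3 := Ring.mul_inverse_cancel s hu
    have : (s - 1) * (s - 1) * Ring.inverse s =
        s * (s * Ring.inverse s) - 2 * (s * Ring.inverse s) + Ring.inverse s := by noncomm_ring
    rw [this, h3, mul_one, mul_one]
    abel
  rw [e]
  calc _ ≤ ‖s - 1‖ * ‖s - 1‖ * ‖Ring.inverse s‖ :=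
        (norm_mul_le _ _).trans (mul_le_mul_of_nonneg_right (norm_mul_le _ _) (norm_nonneg _))
    _ ≤ δ * δ * (3 / 2) :=
        mul_le_mul (mul_le_mul h h (norm_nonneg _) hδ0) (inv_norm h1 hδ h) (norm_nonneg _)
          (by positivity)
    _ = _ := by ring

/-- near inversion -/
lemma near_inv (h1 : ‖(1 : R)‖ ≤ 1) {s s1 : R} {δ δ1 t : ℝ} (hδ : δ ≤ 1 / 3) (h : ‖s - 1‖ ≤ δ)
    (hδ1 : δ1 ≤ 1 / 3) (h' : ‖s1 - 1‖ ≤ δ1) (ht : ‖s1 * s - 1‖ ≤ t) :
    ‖(s1 - Ring.inverse s1) + (s - Ring.inverse s)‖ ≤ 3 * t := by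
  have hu := unit_of_close hδ h
  have hu1 := unit_of_close hδ1 h'
  have ht0 : 0 ≤ t := (norm_nonneg _).trans ht
  have e : (s1 - Ring.inverse s1) + (s - Ring.inverse s) =
      (s1 * s - 1) * Ring.inverse s + Ring.inverse s1 * (s1 * s - 1) := by
    have e1 : (s1 * s - 1) * Ring.inverse s = s1 * (s * Ring.inverse s) - Ring.inverse s := by
      noncomm_ring
    have e2 : Ring.inverse s1 * (s1 * s - 1) = (Ring.inverse s1 * s1) * s - Ring.inverse s1 := by
      noncomm_ring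
    rw [e1, e2, Ring.mul_inverse_cancel s hu, Ring.inverse_mul_cancel s1 hu1]
    noncomm_ring
  rw [e]
  calc _ ≤ ‖s1 * s - 1‖ * ‖Ring.inverse s‖ + ‖Ring.inverse s1‖ * ‖s1 * s - 1‖ :=
        (norm_add_le _ _).trans (add_le_add (norm_mul_le _ _) (norm_mul_le _ _))
    _ ≤ t * (3 / 2) + 3 / 2 * t :=
        add_le_add (mul_le_mul ht (inv_norm h1 hδ h) (norm_nonneg _) ht0)
          (mul_le_mul (inv_norm h1 hδ1 h') ht (norm_nonneg _) (by norm_num))
    _ = _ := by ring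

end Alg

/-! ### matrices -/

section Mat

variable {m n : Type*} [Fintype m] [DecidableEq m] [Fintype n] [DecidableEq n]

lemma norm_one_le : ‖(1 : Matrix n n ℂ)‖ ≤ 1 := by
  rw [← Matrix.diagonal_one, Matrix.l2_opNorm_diagonal]
  exact (pi_norm_le_iff_of_nonneg zero_le_one).2 fun i => by simp

lemma mat_diff {S : ℂ → Matrix m n ℂ} {z : ℂ}
    (h : ∀ i j, DifferentiableAt ℂ (fun x => S x i j) z) : DifferentiableAt ℂ S z := by
  have e : S = fun x => ∑ i, ∑ j, S x i j • Matrix.single i j (1 : ℂ) := by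
    funext x
    conv_lhs => rw [Matrix.matrix_eq_sum_single (S x)]
    refine Finset.sum_congr rfl fun i _ => Finset.sum_congr rfl fun j _ => ?_
    rw [Matrix.smul_single, smul_eq_mul, mul_one]
  rw [e]
  refine DifferentiableAt.fun_sum fun i _ => DifferentiableAt.fun_sum fun j _ => ?_
  exact (h i j).smul_const _

/-- `B ↦ B A` -/
def mulR (A : Matrix m n ℂ) : Matrix m m ℂ →L[ℂ] Matrix m n ℂ :=
  LinearMap.mkContinuous
    { toFun := fun B => B * A
      map_add' := fun B C => Matrix.add_mul B C A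
      map_smul' := fun c B => Matrix.smul_mul c B A } ‖A‖ fun B => by
    rw [mul_comm]
    exact Matrix.l2_opNorm_mul B A

/-- `B ↦ A B` -/
def mulL (A : Matrix m n ℂ) : Matrix n n ℂ →L[ℂ] Matrix m n ℂ :=
  LinearMap.mkContinuous
    { toFun := fun B => A * B
      map_add' := fun B C => Matrix.mul_add A B C
      map_smul' := fun c B => Matrix.mul_smul A c B } ‖A‖ fun B => Matrix.l2_opNorm_mul A B

@[simp] lemma mulR_apply (A : Matrix m n ℂ) (B : Matrix m m ℂ) : mulR A B = B * A := rfl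

@[simp] lemma mulL_apply (A : Matrix m n ℂ) (B : Matrix n n ℂ) : mulL A B = A * B := rfl

lemma comm_norm {A : Matrix m n ℂ} (hA : ‖A‖ ≤ 1) {B' : Matrix m m ℂ} {B : Matrix n n ℂ}
    {b : ℝ} (h' : ‖B'‖ ≤ b) (h : ‖B‖ ≤ b) : ‖B' * A - A * B‖ ≤ 2 * b := by
  have hb : 0 ≤ b := (norm_nonneg _).trans h
  calc ‖B' * A - A * B‖ ≤ ‖B' * A‖ + ‖A * B‖ := norm_sub_le _ _
    _ ≤ ‖B'‖ * ‖A‖ + ‖A‖ * ‖B‖ :=
        add_le_add (Matrix.l2_opNorm_mul _ _) (Matrix.l2_opNorm_mul _ _)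
    _ ≤ b * 1 + 1 * b := add_le_add (mul_le_mul h' hA (norm_nonneg _) hb)
        (mul_le_mul hA h (norm_nonneg _) zero_le_one)
    _ = 2 * b := by ring

/-- **the operator form** -/
theorem band_op {r : ℝ} (hr : 0 < r) (hr2 : r ≤ 1 / 4) : ∃ C : ℝ, 0 < C ∧
    ∀ {m n : Type} [Fintype m] [DecidableEq m] [Fintype n] [DecidableEq n]
      (S' : ℂ → Matrix m m ℂ) (S : ℂ → Matrix n n ℂ) (A : Matrix m n ℂ) (V K t : ℝ),
      10 ≤ V → 0 ≤ K → 0 ≤ t → ‖A‖ ≤ 1 →
      (∀ z : ℂ, -r ≤ z.re → z.re ≤ 1 + r → |z.im| ≤ V →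
        (∀ i j, DifferentiableAt ℂ (fun x => S' x i j) z) ∧
        (∀ i j, DifferentiableAt ℂ (fun x => S x i j) z) ∧
        ‖S' z - 1‖ ≤ 1 / 3 * Real.exp (-(Real.pi * (V - |z.im|))) ∧
        ‖S z - 1‖ ≤ 1 / 3 * Real.exp (-(Real.pi * (V - |z.im|)))) →
      (∀ z : ℂ, |z.re| ≤ r → |z.im| ≤ V → ‖S' (z + 1) * S' z - 1‖ ≤ t ∧
        ‖S (z + 1) * S z - 1‖ ≤ t) →
      ‖S' (((9 * V / 10 : ℝ) : ℂ) * I) * A - A * S (((9 * V / 10 : ℝ) : ℂ) * I)‖ ≤
        K * Real.exp (-(3 * Real.pi * V / 10)) →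
      ‖(S' (1 / 2) * A - A * S (1 / 2)) - I • (S' 0 * A - A * S 0)‖ ≤
        C * ((1 + K) * Real.exp (-(6 * Real.pi * V / 5)) + t) := by
  have hpi := Real.pi_pos
  obtain ⟨C, hC, H⟩ := chiral hr hr2
  refine ⟨C * 4 + C * 6 + 2, by positivity, ?_⟩
  intro m n _ _ _ _ S' S A V K t hV hK ht hA h1 h2 h3
  have hδ : ∀ y : ℝ, |y| ≤ V → 1 / 3 * Real.exp (-(Real.pi * (V - |y|))) ≤ 1 / 3 := by
    intro y hy
    have : Real.exp (-(Real.pi * (V - |y|))) ≤ 1 := Real.exp_le_one_iff.2 (by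
      have : 0 ≤ Real.pi * (V - |y|) := mul_nonneg hpi.le (by linarith)
      linarith)
    linarith
  have hn1 : ‖(1 : Matrix n n ℂ)‖ ≤ 1 := norm_one_le
  have hm1 : ‖(1 : Matrix m m ℂ)‖ ≤ 1 := norm_one_le
  -- the antiperiodic part
  set D' : ℂ → Matrix m m ℂ := fun z => S' z - Ring.inverse (S' z) with hD'
  set D : ℂ → Matrix n n ℂ := fun z => S z - Ring.inverse (S z) with hD
  set W : ℂ → Matrix m n ℂ := fun z => D' z * A - A * D z with hW
  have hWd : ∀ z : ℂ, -r ≤ z.re → z.re ≤ 1 + r → |z.im| ≤ V → DifferentiableAt ℂ W z := by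
    intro z a1 a2 a3
    obtain ⟨b1, b2, b3, b4⟩ := h1 z a1 a2 a3
    have c1 : DifferentiableAt ℂ D' z :=
      (mat_diff b1).sub ((mat_diff b1).inverse (unit_of_close (hδ _ a3) b3))
    have c2 : DifferentiableAt ℂ D z :=
      (mat_diff b2).sub ((mat_diff b2).inverse (unit_of_close (hδ _ a3) b4))
    have e : W = fun z => mulR A (D' z) - mulL A (D z) := rfl
    rw [e]
    exact ((mulR A).differentiableAt.comp z c1).sub ((mulL A).differentiableAt.comp z c2)
  have hWn : ∀ z : ℂ, -r ≤ z.re → z.re ≤ 1 + r → |z.im| ≤ V → ‖W z‖ ≤ 2 := by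
    intro z a1 a2 a3
    obtain ⟨b1, b2, b3, b4⟩ := h1 z a1 a2 a3
    have c1 := sub_inv_norm hm1 (hδ _ a3) b3
    have c2 := sub_inv_norm hn1 (hδ _ a3) b4
    have := comm_norm hA c1 c2
    have h5 := hδ _ a3
    linarith
  have hWa : ∀ z : ℂ, |z.re| ≤ r → |z.im| ≤ V → ‖W (z + 1) + W z‖ ≤ 6 * t := by
    intro z a1 a2
    have a1' := abs_le.1 a1
    obtain ⟨b1, b2, b3, b4⟩ := h1 z a1'.1 (by linarith) a2
    have him : (z + 1).im = z.im := by simp
    have hre : (z + 1).re = z.re + 1 := by simp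
    obtain ⟨d1, d2, d3, d4⟩ := h1 (z + 1) (by rw [hre]; linarith) (by rw [hre]; linarith)
      (by rw [him]; exact a2)
    rw [him] at d3 d4
    obtain ⟨e1, e2⟩ := h2 z a1 a2
    have c1 := near_inv hm1 (hδ _ a2) b3 (hδ _ a2) d3 e1
    have c2 := near_inv hn1 (hδ _ a2) b4 (hδ _ a2) d4 e2
    have e : W (z + 1) + W z = (D' (z + 1) + D' z) * A - A * (D (z + 1) + D z) := by
      simp only [hW, Matrix.add_mul, Matrix.mul_add]
      abel
    rw [e]
    have := comm_norm hA c1 c2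
    linarith
  -- the single height
  have hW9 : ‖W (((9 * V / 10 : ℝ) : ℂ) * I)‖ ≤ 4 * K * Real.exp (-(3 * Real.pi * V / 10)) := by
    set z : ℂ := ((9 * V / 10 : ℝ) : ℂ) * I with hz
    have hzre : z.re = 0 := by rw [hz]; simp
    have hzim : z.im = 9 * V / 10 := by
      rw [hz, Complex.mul_im, Complex.ofReal_re, Complex.ofReal_im, Complex.I_re, Complex.I_im]
      ring
    have a3 : |z.im| ≤ V := by rw [hzim, abs_of_nonneg (by positivity)]; linarith
    obtain ⟨b1, b2, b3, b4⟩ := h1 z (by rw [hzre]; linarith) (by rw [hzre]; linarith) a3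
    have u1 := unit_of_close (hδ _ a3) b3
    have u2 := unit_of_close (hδ _ a3) b4
    have i1 := inv_norm hm1 (hδ _ a3) b3
    have i2 := inv_norm hn1 (hδ _ a3) b4
    have e : W z = (S' z * A - A * S z) +
        Ring.inverse (S' z) * (S' z * A - A * S z) * Ring.inverse (S z) := by
      have f1 : Ring.inverse (S' z) * (S' z * A - A * S z) * Ring.inverse (S z) =
          (Ring.inverse (S' z) * S' z) * A * Ring.inverse (S z) -
            Ring.inverse (S' z) * A * (S z * Ring.inverse (S z)) := by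
        simp only [Matrix.mul_sub, Matrix.sub_mul, Matrix.mul_assoc]
      rw [f1, Ring.mul_inverse_cancel _ u2, Ring.inverse_mul_cancel _ u1, Matrix.one_mul,
        Matrix.mul_one]
      simp only [hW, hD, hD', Matrix.sub_mul, Matrix.mul_sub]
      abel
    rw [e]
    set E : Matrix m n ℂ := S' z * A - A * S z with hE
    have hE0 := norm_nonneg E
    have f2 : ‖Ring.inverse (S' z) * E * Ring.inverse (S z)‖ ≤ 9 / 4 * ‖E‖ := by
      calc _ ≤ ‖Ring.inverse (S' z) * E‖ * ‖Ring.inverse (S z)‖ := Matrix.l2_opNorm_mul _ _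
        _ ≤ (‖Ring.inverse (S' z)‖ * ‖E‖) * ‖Ring.inverse (S z)‖ :=
            mul_le_mul_of_nonneg_right (Matrix.l2_opNorm_mul _ _) (norm_nonneg _)
        _ ≤ (3 / 2 * ‖E‖) * (3 / 2) := mul_le_mul (mul_le_mul_of_nonneg_right i1 hE0) i2
            (norm_nonneg _) (by positivity)
        _ = _ := by ring
    have f3 := norm_add_le E (Ring.inverse (S' z) * E * Ring.inverse (S z))
    have f4 : ‖E‖ ≤ K * Real.exp (-(3 * Real.pi * V / 10)) := h3
    have f5 : 0 ≤ K * Real.exp (-(3 * Real.pi * V / 10)) := by positivity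
    linarith
  -- the dual functional
  obtain ⟨g, hg1, hg2⟩ := exists_dual_vector'' ℂ (W (1 / 2) - I • W 0)
  have hgn : ∀ X : Matrix m n ℂ, ‖g X‖ ≤ ‖X‖ := fun X =>
    (g.le_opNorm X).trans (mul_le_of_le_one_left (norm_nonneg _) hg1)
  have key := H V hV (fun z => g (W z)) (2 + 4 * K) (6 * t) (by positivity) (by positivity)
    (fun z a1 a2 a3 => ⟨g.differentiableAt.comp z (hWd z a1 a2 a3),
      (hgn _).trans ((hWn z a1 a2 a3).trans (by linarith))⟩)
    (fun z a1 a2 => by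
      rw [← map_add]
      refine (hgn _).trans ((hWa z a1 a2).trans ?_)
      have : 0 ≤ (2 + 4 * K) * Real.exp (-(4 * Real.pi * (V - |z.im|))) := by positivity
      linarith)
    (by
      refine (hgn _).trans (hW9.trans ?_)
      refine mul_le_mul_of_nonneg_right (by linarith) (Real.exp_pos _).le)
  have key2 : ‖W (1 / 2) - I • W 0‖ ≤
      C * ((2 + 4 * K) * Real.exp (-(6 * Real.pi * V / 5)) + 6 * t) := by
    have e : g (W (1 / 2)) - I * g (W 0) = g (W (1 / 2) - I • W 0) := by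
      have q1 := map_sub g (W (1 / 2)) (I • W 0)
      have q2 := map_smul g I (W 0)
      rw [q1, q2, smul_eq_mul]
    rw [e, hg2] at key
    simpa using key
  -- the even part
  set G : ℂ → Matrix m n ℂ := fun z =>
    (S' z + Ring.inverse (S' z) - 2) * A - A * (S z + Ring.inverse (S z) - 2) with hG
  have hGn : ∀ z : ℂ, -r ≤ z.re → z.re ≤ 1 + r → z.im = 0 →
      ‖G z‖ ≤ 1 / 3 * Real.exp (-(2 * Real.pi * V)) := by
    intro z a1 a2 a3
    have a3' : |z.im| ≤ V := by rw [a3, abs_zero]; linarith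
    obtain ⟨b1, b2, b3, b4⟩ := h1 z a1 a2 a3'
    have c1 := second_order hm1 (hδ _ a3') b3
    have c2 := second_order hn1 (hδ _ a3') b4
    refine (comm_norm hA c1 c2).trans (le_of_eq ?_)
    rw [a3, abs_zero, sub_zero, mul_pow, ← Real.exp_nat_mul]
    have : ((2 : ℕ) : ℝ) * -(Real.pi * V) = -(2 * Real.pi * V) := by push_cast; ring
    rw [this]
    ring
  have hEW : ∀ z : ℂ, S' z * A - A * S z = (1 / 2 : ℂ) • (W z + G z) := by
    intro z
    have e : W z + G z = (2 : ℂ) • (S' z * A - A * S z) := by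
      simp only [hW, hG, hD, hD', Matrix.sub_mul, Matrix.mul_sub, Matrix.add_mul, Matrix.mul_add,
        two_smul]
      have e2 : (2 : Matrix m m ℂ) * A = A + A := by
        rw [← one_add_one_eq_two, Matrix.add_mul, Matrix.one_mul]
      have e3 : A * (2 : Matrix n n ℂ) = A + A := by
        rw [← one_add_one_eq_two, Matrix.mul_add, Matrix.mul_one]
      rw [e2, e3]
      abel
    rw [e, smul_smul]
    norm_num
  rw [hEW, hEW]
  have e : (1 / 2 : ℂ) • (W (1 / 2) + G (1 / 2)) - I • ((1 / 2 : ℂ) • (W 0 + G 0)) =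
      (1 / 2 : ℂ) • ((W (1 / 2) - I • W 0) + (G (1 / 2) - I • G 0)) := by
    simp only [smul_add, smul_sub, smul_smul]
    rw [mul_comm (1 / 2 : ℂ) I]
    abel
  have g1 := hGn (1 / 2) (by norm_num; linarith) (by norm_num; linarith) (by norm_num)
  have g0 := hGn 0 (by simp; linarith) (by simp; linarith) (by simp)
  have g2 : Real.exp (-(2 * Real.pi * V)) ≤ Real.exp (-(6 * Real.pi * V / 5)) := by
    refine Real.exp_le_exp.2 ?_
    have : 0 ≤ Real.pi * V := by positivity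
    nlinarith
  rw [e, norm_smul]
  have g3 : ‖(1 / 2 : ℂ)‖ = 1 / 2 := by norm_num
  rw [g3]
  have g4 : ‖G (1 / 2) - I • G 0‖ ≤ ‖G (1 / 2)‖ + ‖G 0‖ := by
    refine (norm_sub_le _ _).trans (add_le_add le_rfl ?_)
    rw [norm_smul, Complex.norm_I, one_mul]
  have g5 := norm_add_le (W (1 / 2) - I • W 0) (G (1 / 2) - I • G 0)
  obtain ⟨Q, hQ⟩ : ∃ Q : ℝ, Q = Real.exp (-(6 * Real.pi * V / 5)) := ⟨_, rfl⟩
  have hQ0 : 0 < Q := by rw [hQ]; exact Real.exp_pos _
  rw [← hQ] at key2 g2 ⊢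
  have p1 : 0 ≤ K * Q := by positivity
  have p2 : 0 ≤ C * (K * Q) := by positivity
  have p3 : 0 ≤ C * Q := by positivity
  have p4 : 0 ≤ C * t := by positivity
  have p5 : (C * 4 + C * 6 + 2) * ((1 + K) * Q + t) = C * ((2 + 4 * K) * Q + 6 * t) +
      (8 * (C * Q) + 6 * (C * (K * Q)) + 4 * (C * t) + 2 * (Q + K * Q + t)) := by ring
  rw [p5]
  linarith

end Mat

end Crest.Agent.R158.Bm857
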