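import Crest.Agent.R158.Bm2_857
import Crest.Agent.R158.Bd2_932

/-!
# Row 158: the operator form of the chiral mode lemma, segment hypothesis, both orientations
(helper857)

* `Chi43 r C` : the scalar coefficient lemma (932)
* `Reg r V t S` : `S` analytic, `‖S z - 1‖ ≤ 1/3 e^{-π (V - |im z|)}`, `S (z + 1) S z = 1 + O (t)`
* `band43_up`, `band43_down` : `E z = S' z A - A S z`,
  `‖E (1/2) ∓ i E 0‖ ≤ (4 C + 1) (X e^{-π y0} + e^{-2 π V} + t (1 + V))`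
-/

set_option autoImplicit false

noncomputable section

open Complex
open scoped Matrix.Norms.L2Operator

namespace Crest.Agent.R158.Bm857

/-- the scalar coefficient lemma -/
def Chi43 (r C : ℝ) : Prop := ∀ V y0 : ℝ, 2 ≤ V → 0 ≤ y0 → y0 ≤ V - 1 →
  ∀ (f : ℂ → ℂ) (B X s : ℝ), 0 ≤ B → 0 ≤ s →
  (∀ z : ℂ, -r ≤ z.re → z.re ≤ 1 + r → |z.im| ≤ V → DifferentiableAt ℂ f z ∧ ‖f z‖ ≤ B) →
  (∀ z : ℂ, |z.re| ≤ r → |z.im| ≤ V → ‖f (z + 1) + f z‖ ≤ s) →
  (∀ x : ℝ, 0 ≤ x → x ≤ 1 → ‖f (x + y0 * I)‖ ≤ X) →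
  ‖f (1 / 2) - I * f 0‖ ≤ C * (X * Real.exp (-(Real.pi * y0)) +
    B * Real.exp (-(3 * Real.pi * V)) + s * (1 + V))

/-- the lower half plane -/
lemma Chi43.down {r C : ℝ} (h : Chi43 r C) {V y0 : ℝ} (hV : 2 ≤ V) (h0 : 0 ≤ y0)
    (h1 : y0 ≤ V - 1) {f : ℂ → ℂ} {B X s : ℝ} (hB : 0 ≤ B) (hs : 0 ≤ s)
    (hf : ∀ z : ℂ, -r ≤ z.re → z.re ≤ 1 + r → |z.im| ≤ V →
      DifferentiableAt ℂ f z ∧ ‖f z‖ ≤ B)
    (ha : ∀ z : ℂ, |z.re| ≤ r → |z.im| ≤ V → ‖f (z + 1) + f z‖ ≤ s)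
    (hX : ∀ x : ℝ, 0 ≤ x → x ≤ 1 → ‖f (x - y0 * I)‖ ≤ X) :
    ‖f (1 / 2) + I * f 0‖ ≤ C * (X * Real.exp (-(Real.pi * y0)) +
      B * Real.exp (-(3 * Real.pi * V)) + s * (1 + V)) := by
  have hc : ∀ z : ℂ, (starRingEnd ℂ z).re = z.re ∧ |(starRingEnd ℂ z).im| = |z.im| := fun z =>
    ⟨Complex.conj_re z, by rw [Complex.conj_im, abs_neg]⟩
  have key := h V y0 hV h0 h1 (fun z => (starRingEnd ℂ) (f ((starRingEnd ℂ) z))) B X s hB hs
    (fun z a1 a2 a3 => by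
      obtain ⟨b1, b2⟩ := hf ((starRingEnd ℂ) z) (by rw [(hc z).1]; exact a1)
        (by rw [(hc z).1]; exact a2) (by rw [(hc z).2]; exact a3)
      refine ⟨?_, by rw [RCLike.norm_conj]; exact b2⟩
      have := b1.conj_conj
      simpa [Function.comp_def] using this)
    (fun z a1 a2 => by
      have b1 := ha ((starRingEnd ℂ) z) (by rw [(hc z).1]; exact a1) (by rw [(hc z).2]; exact a2)
      rw [map_add, map_one, ← map_add, RCLike.norm_conj]
      exact b1)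
    (fun x a1 a2 => by
      rw [RCLike.norm_conj, map_add, map_mul, Complex.conj_ofReal, Complex.conj_ofReal,
        Complex.conj_I, mul_neg, ← sub_eq_add_neg]
      exact hX x a1 a2)
  have e : (starRingEnd ℂ) (f ((starRingEnd ℂ) (1 / 2))) -
      I * (starRingEnd ℂ) (f ((starRingEnd ℂ) 0)) = (starRingEnd ℂ) (f (1 / 2) + I * f 0) := by
    have e1 : (starRingEnd ℂ) (1 / 2 : ℂ) = 1 / 2 := by
      apply Complex.ext <;> simp
    rw [e1, map_zero, map_add, map_mul, Complex.conj_I]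
    ring
  rw [e, RCLike.norm_conj] at key
  exact key

variable {m n : Type} [Fintype m] [DecidableEq m] [Fintype n] [DecidableEq n]

/-- regular family of invertible matrices, near inversion -/
structure Reg (r V t : ℝ) (S : ℂ → Matrix n n ℂ) : Prop where
  diff : ∀ z : ℂ, -r ≤ z.re → z.re ≤ 1 + r → |z.im| ≤ V →
    ∀ i j, DifferentiableAt ℂ (fun x => S x i j) z
  close : ∀ z : ℂ, -r ≤ z.re → z.re ≤ 1 + r → |z.im| ≤ V →
    ‖S z - 1‖ ≤ 1 / 3 * Real.exp (-(Real.pi * (V - |z.im|)))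
  inv : ∀ z : ℂ, |z.re| ≤ r → |z.im| ≤ V → ‖S (z + 1) * S z - 1‖ ≤ t

lemma third {V y : ℝ} (hy : |y| ≤ V) : 1 / 3 * Real.exp (-(Real.pi * (V - |y|))) ≤ 1 / 3 := by
  have : Real.exp (-(Real.pi * (V - |y|))) ≤ 1 := Real.exp_le_one_iff.2 (by
    have : 0 ≤ Real.pi * (V - |y|) := mul_nonneg Real.pi_pos.le (by linarith)
    linarith)
  linarith

/-- the odd part -/
def Wf (S' : ℂ → Matrix m m ℂ) (S : ℂ → Matrix n n ℂ) (A : Matrix m n ℂ) (z : ℂ) :
    Matrix m n ℂ :=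
  (S' z - Ring.inverse (S' z)) * A - A * (S z - Ring.inverse (S z))

/-- the even part -/
def Gf (S' : ℂ → Matrix m m ℂ) (S : ℂ → Matrix n n ℂ) (A : Matrix m n ℂ) (z : ℂ) :
    Matrix m n ℂ :=
  (S' z + Ring.inverse (S' z) - 2) * A - A * (S z + Ring.inverse (S z) - 2)

section

variable {r V t : ℝ} {S' : ℂ → Matrix m m ℂ} {S : ℂ → Matrix n n ℂ} {A : Matrix m n ℂ}

lemma Wf_diff (hS' : Reg r V t S') (hS : Reg r V t S) {z : ℂ} (a1 : -r ≤ z.re)
    (a2 : z.re ≤ 1 + r) (a3 : |z.im| ≤ V) : DifferentiableAt ℂ (Wf S' S A) z := by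
  have c1 : DifferentiableAt ℂ (fun z => S' z - Ring.inverse (S' z)) z :=
    (mat_diff (hS'.diff z a1 a2 a3)).sub
      ((mat_diff (hS'.diff z a1 a2 a3)).inverse (unit_of_close (third a3) (hS'.close z a1 a2 a3)))
  have c2 : DifferentiableAt ℂ (fun z => S z - Ring.inverse (S z)) z :=
    (mat_diff (hS.diff z a1 a2 a3)).sub
      ((mat_diff (hS.diff z a1 a2 a3)).inverse (unit_of_close (third a3) (hS.close z a1 a2 a3)))
  have e : Wf S' S A = fun z => mulR A (S' z - Ring.inverse (S' z)) -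
      mulL A (S z - Ring.inverse (S z)) := rfl
  rw [e]
  exact ((mulR A).differentiableAt.comp z c1).sub ((mulL A).differentiableAt.comp z c2)

lemma Wf_norm (hA : ‖A‖ ≤ 1) (hS' : Reg r V t S') (hS : Reg r V t S) {z : ℂ} (a1 : -r ≤ z.re)
    (a2 : z.re ≤ 1 + r) (a3 : |z.im| ≤ V) : ‖Wf S' S A z‖ ≤ 2 := by
  have c1 := sub_inv_norm (norm_one_le (n := m)) (third a3) (hS'.close z a1 a2 a3)
  have c2 := sub_inv_norm (norm_one_le (n := n)) (third a3) (hS.close z a1 a2 a3)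
  have h4 := comm_norm hA c1 c2
  have h5 := third a3
  unfold Wf
  linarith

lemma Wf_anti (hr : 0 < r) (hr2 : r ≤ 1 / 4) (hA : ‖A‖ ≤ 1) (hS' : Reg r V t S')
    (hS : Reg r V t S) {z : ℂ} (a1 : |z.re| ≤ r) (a2 : |z.im| ≤ V) :
    ‖Wf S' S A (z + 1) + Wf S' S A z‖ ≤ 6 * t := by
  have a1' := abs_le.1 a1
  have him : (z + 1).im = z.im := by simp
  have hre : (z + 1).re = z.re + 1 := by simp
  have d3 := hS'.close (z + 1) (by rw [hre]; linarith) (by rw [hre]; linarith)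
    (by rw [him]; exact a2)
  have d4 := hS.close (z + 1) (by rw [hre]; linarith) (by rw [hre]; linarith)
    (by rw [him]; exact a2)
  rw [him] at d3 d4
  have c1 := near_inv (norm_one_le (n := m)) (third a2) (hS'.close z a1'.1 (by linarith) a2)
    (third a2) d3 (hS'.inv z a1 a2)
  have c2 := near_inv (norm_one_le (n := n)) (third a2) (hS.close z a1'.1 (by linarith) a2)
    (third a2) d4 (hS.inv z a1 a2)
  have e : Wf S' S A (z + 1) + Wf S' S A z =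
      ((S' (z + 1) - Ring.inverse (S' (z + 1))) + (S' z - Ring.inverse (S' z))) * A -
        A * ((S (z + 1) - Ring.inverse (S (z + 1))) + (S z - Ring.inverse (S z))) := by
    simp only [Wf, Matrix.add_mul, Matrix.mul_add]
    abel
  rw [e]
  have := comm_norm hA c1 c2
  linarith

lemma Wf_le (hS' : Reg r V t S') (hS : Reg r V t S) {z : ℂ} (a1 : -r ≤ z.re)
    (a2 : z.re ≤ 1 + r) (a3 : |z.im| ≤ V) : ‖Wf S' S A z‖ ≤ 4 * ‖S' z * A - A * S z‖ := by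
  have u1 := unit_of_close (third a3) (hS'.close z a1 a2 a3)
  have u2 := unit_of_close (third a3) (hS.close z a1 a2 a3)
  have i1 := inv_norm (norm_one_le (n := m)) (third a3) (hS'.close z a1 a2 a3)
  have i2 := inv_norm (norm_one_le (n := n)) (third a3) (hS.close z a1 a2 a3)
  have e : Wf S' S A z = (S' z * A - A * S z) +
      Ring.inverse (S' z) * (S' z * A - A * S z) * Ring.inverse (S z) := by
    have f1 : Ring.inverse (S' z) * (S' z * A - A * S z) * Ring.inverse (S z) =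
        (Ring.inverse (S' z) * S' z) * A * Ring.inverse (S z) -
          Ring.inverse (S' z) * A * (S z * Ring.inverse (S z)) := by
      simp only [Matrix.mul_sub, Matrix.sub_mul, Matrix.mul_assoc]
    rw [f1, Ring.mul_inverse_cancel _ u2, Ring.inverse_mul_cancel _ u1, Matrix.one_mul,
      Matrix.mul_one]
    simp only [Wf, Matrix.sub_mul, Matrix.mul_sub]
    abel
  rw [e]
  set E : Matrix m n ℂ := S' z * A - A * S z with hE
  have hE0 := norm_nonneg E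
  have f2 : ‖Ring.inverse (S' z) * E * Ring.inverse (S z)‖ ≤ 9 / 4 * ‖E‖ := by
    calc _ ≤ ‖Ring.inverse (S' z) * E‖ * ‖Ring.inverse (S z)‖ := Matrix.l2_opNorm_mul _ _
      _ ≤ (‖Ring.inverse (S' z)‖ * ‖E‖) * ‖Ring.inverse (S z)‖ :=
          mul_le_mul_of_nonneg_right (Matrix.l2_opNorm_mul _ _) (norm_nonneg _)
      _ ≤ (3 / 2 * ‖E‖) * (3 / 2) := mul_le_mul (mul_le_mul_of_nonneg_right i1 hE0) i2
          (norm_nonneg _) (by positivity)
      _ = _ := by ring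
  have f3 := norm_add_le E (Ring.inverse (S' z) * E * Ring.inverse (S z))
  linarith

lemma Gf_norm (hA : ‖A‖ ≤ 1) (hS' : Reg r V t S') (hS : Reg r V t S) (hV : 0 ≤ V) {z : ℂ}
    (a1 : -r ≤ z.re) (a2 : z.re ≤ 1 + r) (a3 : z.im = 0) :
    ‖Gf S' S A z‖ ≤ 1 / 3 * Real.exp (-(2 * Real.pi * V)) := by
  have a3' : |z.im| ≤ V := by rw [a3, abs_zero]; exact hV
  have c1 := second_order (norm_one_le (n := m)) (third a3') (hS'.close z a1 a2 a3')
  have c2 := second_order (norm_one_le (n := n)) (third a3') (hS.close z a1 a2 a3')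
  refine (comm_norm hA c1 c2).trans (le_of_eq ?_)
  rw [a3, abs_zero, sub_zero, mul_pow, ← Real.exp_nat_mul]
  have : ((2 : ℕ) : ℝ) * -(Real.pi * V) = -(2 * Real.pi * V) := by push_cast; ring
  rw [this]
  ring

lemma E_eq (S' : ℂ → Matrix m m ℂ) (S : ℂ → Matrix n n ℂ) (A : Matrix m n ℂ) (z : ℂ) :
    S' z * A - A * S z = (1 / 2 : ℂ) • (Wf S' S A z + Gf S' S A z) := by
  have e : Wf S' S A z + Gf S' S A z = (2 : ℂ) • (S' z * A - A * S z) := by
    simp only [Wf, Gf, Matrix.sub_mul, Matrix.mul_sub, Matrix.add_mul, Matrix.mul_add, two_smul]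
    have e2 : (2 : Matrix m m ℂ) * A = A + A := by
      rw [← one_add_one_eq_two, Matrix.add_mul, Matrix.one_mul]
    have e3 : A * (2 : Matrix n n ℂ) = A + A := by
      rw [← one_add_one_eq_two, Matrix.mul_add, Matrix.mul_one]
    rw [e2, e3]
    abel
  rw [e, smul_smul]
  norm_num

/-- assembly, `ω = ± I` -/
lemma band_fin {C X y0 : ℝ} {ω : ℂ} (hω : ‖ω‖ = 1) (hr : 0 < r) (hC : 0 ≤ C) (hX : 0 ≤ X)
    (ht : 0 ≤ t) (hV : 0 ≤ V) (hA : ‖A‖ ≤ 1) (hS' : Reg r V t S') (hS : Reg r V t S)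
    (h : ‖Wf S' S A (1 / 2) - ω • Wf S' S A 0‖ ≤ C * (4 * X * Real.exp (-(Real.pi * y0)) +
      2 * Real.exp (-(3 * Real.pi * V)) + 6 * t * (1 + V))) :
    ‖(S' (1 / 2) * A - A * S (1 / 2)) - ω • (S' 0 * A - A * S 0)‖ ≤
      (4 * C + 1) * (X * Real.exp (-(Real.pi * y0)) + Real.exp (-(2 * Real.pi * V)) +
        t * (1 + V)) := by
  have hpi := Real.pi_pos
  rw [E_eq, E_eq]
  have e : (1 / 2 : ℂ) • (Wf S' S A (1 / 2) + Gf S' S A (1 / 2)) -
      ω • ((1 / 2 : ℂ) • (Wf S' S A 0 + Gf S' S A 0)) =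
      (1 / 2 : ℂ) • ((Wf S' S A (1 / 2) - ω • Wf S' S A 0) +
        (Gf S' S A (1 / 2) - ω • Gf S' S A 0)) := by
    simp only [smul_add, smul_sub, smul_smul]
    rw [mul_comm (1 / 2 : ℂ) ω]
    abel
  have g1 := Gf_norm hA hS' hS hV (z := 1 / 2) (by norm_num; linarith) (by norm_num; linarith)
    (by norm_num)
  have g0 := Gf_norm hA hS' hS hV (z := 0) (by simp; linarith) (by simp; linarith) (by simp)
  rw [e, norm_smul]
  have g3 : ‖(1 / 2 : ℂ)‖ = 1 / 2 := by norm_num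
  rw [g3]
  have g4 : ‖Gf S' S A (1 / 2) - ω • Gf S' S A 0‖ ≤ ‖Gf S' S A (1 / 2)‖ + ‖Gf S' S A 0‖ := by
    refine (norm_sub_le _ _).trans (add_le_add le_rfl ?_)
    rw [norm_smul, hω, one_mul]
  have g5 := norm_add_le (Wf S' S A (1 / 2) - ω • Wf S' S A 0)
    (Gf S' S A (1 / 2) - ω • Gf S' S A 0)
  have g6 : Real.exp (-(3 * Real.pi * V)) ≤ Real.exp (-(2 * Real.pi * V)) := by
    refine Real.exp_le_exp.2 ?_
    have : 0 ≤ Real.pi * V := by positivity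
    nlinarith
  obtain ⟨Q1, hQ1⟩ : ∃ Q : ℝ, Q = X * Real.exp (-(Real.pi * y0)) := ⟨_, rfl⟩
  obtain ⟨Q2, hQ2⟩ : ∃ Q : ℝ, Q = Real.exp (-(2 * Real.pi * V)) := ⟨_, rfl⟩
  obtain ⟨Q3, hQ3⟩ : ∃ Q : ℝ, Q = t * (1 + V) := ⟨_, rfl⟩
  have q1 : 0 ≤ Q1 := by rw [hQ1]; positivity
  have q2 : 0 ≤ Q2 := by rw [hQ2]; positivity
  have q3 : 0 ≤ Q3 := by rw [hQ3]; positivity
  have h7 : C * (4 * X * Real.exp (-(Real.pi * y0)) +
      2 * Real.exp (-(3 * Real.pi * V)) + 6 * t * (1 + V)) ≤ C * (4 * Q1 + 2 * Q2 + 6 * Q3) := by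
    refine mul_le_mul_of_nonneg_left ?_ hC
    rw [hQ1, hQ2, hQ3]
    linarith
  rw [← hQ1, ← hQ2, ← hQ3]
  rw [← hQ2] at g1 g0
  have p1 := mul_nonneg hC q1
  have p2 := mul_nonneg hC q2
  have p3 := mul_nonneg hC q3
  nlinarith

/-- **the band theorem, abstract, upper half plane** -/
theorem band43_up {C : ℝ} (hchi : Chi43 r C) (hC : 0 ≤ C) (hr : 0 < r) (hr2 : r ≤ 1 / 4)
    (ht : 0 ≤ t) {y0 X : ℝ} (hV : 2 ≤ V) (hy0 : 0 ≤ y0) (hy1 : y0 ≤ V - 1) (hA : ‖A‖ ≤ 1)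
    (hS' : Reg r V t S') (hS : Reg r V t S)
    (hX : ∀ x : ℝ, 0 ≤ x → x ≤ 1 → ‖S' (x + y0 * I) * A - A * S (x + y0 * I)‖ ≤ X) :
    ‖(S' (1 / 2) * A - A * S (1 / 2)) - I • (S' 0 * A - A * S 0)‖ ≤
      (4 * C + 1) * (X * Real.exp (-(Real.pi * y0)) + Real.exp (-(2 * Real.pi * V)) +
        t * (1 + V)) := by
  have hX0 : 0 ≤ X := (norm_nonneg _).trans (hX 0 le_rfl zero_le_one)
  refine band_fin Complex.norm_I hr hC hX0 ht (by linarith) hA hS' hS ?_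
  obtain ⟨g, hg1, hg2⟩ := exists_dual_vector'' ℂ (Wf S' S A (1 / 2) - I • Wf S' S A 0)
  have hgn : ∀ Y : Matrix m n ℂ, ‖g Y‖ ≤ ‖Y‖ := fun Y =>
    (g.le_opNorm Y).trans (mul_le_of_le_one_left (norm_nonneg _) hg1)
  have key := hchi V y0 hV hy0 hy1 (fun z => g (Wf S' S A z)) 2 (4 * X) (6 * t) (by norm_num)
    (by positivity)
    (fun z a1 a2 a3 => ⟨g.differentiableAt.comp z (Wf_diff hS' hS a1 a2 a3),
      (hgn _).trans (Wf_norm hA hS' hS a1 a2 a3)⟩)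
    (fun z a1 a2 => by
      rw [← map_add]
      exact (hgn _).trans (Wf_anti hr hr2 hA hS' hS a1 a2))
    (fun x a1 a2 => by
      have him : ((x : ℂ) + y0 * I).im = y0 := by simp
      have hre : ((x : ℂ) + y0 * I).re = x := by simp
      refine (hgn _).trans ((Wf_le hS' hS (by rw [hre]; linarith) (by rw [hre]; linarith)
        (by rw [him, abs_of_nonneg hy0]; linarith)).trans ?_)
      linarith [hX x a1 a2])
  have e : g (Wf S' S A (1 / 2)) - I * g (Wf S' S A 0) =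
      g (Wf S' S A (1 / 2) - I • Wf S' S A 0) := by
    have q1 := map_sub g (Wf S' S A (1 / 2)) (I • Wf S' S A 0)
    have q2 := map_smul g I (Wf S' S A 0)
    rw [q1, q2, smul_eq_mul]
  rw [e, hg2] at key
  simpa using key

/-- **the band theorem, abstract, lower half plane** -/
theorem band43_down {C : ℝ} (hchi : Chi43 r C) (hC : 0 ≤ C) (hr : 0 < r) (hr2 : r ≤ 1 / 4)
    (ht : 0 ≤ t) {y0 X : ℝ} (hV : 2 ≤ V) (hy0 : 0 ≤ y0) (hy1 : y0 ≤ V - 1) (hA : ‖A‖ ≤ 1)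
    (hS' : Reg r V t S') (hS : Reg r V t S)
    (hX : ∀ x : ℝ, 0 ≤ x → x ≤ 1 → ‖S' (x - y0 * I) * A - A * S (x - y0 * I)‖ ≤ X) :
    ‖(S' (1 / 2) * A - A * S (1 / 2)) + I • (S' 0 * A - A * S 0)‖ ≤
      (4 * C + 1) * (X * Real.exp (-(Real.pi * y0)) + Real.exp (-(2 * Real.pi * V)) +
        t * (1 + V)) := by
  have hX0 : 0 ≤ X := (norm_nonneg _).trans (hX 0 le_rfl zero_le_one)
  have hfin := band_fin (y0 := y0) (ω := -I) (S' := S') (S := S) (A := A) (X := X) (C := C)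
    (by rw [norm_neg, Complex.norm_I]) hr hC hX0 ht (by linarith) hA hS' hS
  rw [neg_smul, neg_smul, sub_neg_eq_add, sub_neg_eq_add] at hfin
  refine hfin ?_
  obtain ⟨g, hg1, hg2⟩ := exists_dual_vector'' ℂ (Wf S' S A (1 / 2) + I • Wf S' S A 0)
  have hgn : ∀ Y : Matrix m n ℂ, ‖g Y‖ ≤ ‖Y‖ := fun Y =>
    (g.le_opNorm Y).trans (mul_le_of_le_one_left (norm_nonneg _) hg1)
  have key := hchi.down hV hy0 hy1 (f := fun z => g (Wf S' S A z)) (B := 2) (X := 4 * X)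
    (s := 6 * t) (by norm_num) (by positivity)
    (fun z a1 a2 a3 => ⟨g.differentiableAt.comp z (Wf_diff hS' hS a1 a2 a3),
      (hgn _).trans (Wf_norm hA hS' hS a1 a2 a3)⟩)
    (fun z a1 a2 => by
      rw [← map_add]
      exact (hgn _).trans (Wf_anti hr hr2 hA hS' hS a1 a2))
    (fun x a1 a2 => by
      have him : ((x : ℂ) - y0 * I).im = -y0 := by simp
      have hre : ((x : ℂ) - y0 * I).re = x := by simp
      refine (hgn _).trans ((Wf_le hS' hS (by rw [hre]; linarith) (by rw [hre]; linarith)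
        (by rw [him, abs_neg, abs_of_nonneg hy0]; linarith)).trans ?_)
      linarith [hX x a1 a2])
  have e : g (Wf S' S A (1 / 2)) + I * g (Wf S' S A 0) =
      g (Wf S' S A (1 / 2) + I • Wf S' S A 0) := by
    have q1 := map_add g (Wf S' S A (1 / 2)) (I • Wf S' S A 0)
    have q2 := map_smul g I (Wf S' S A 0)
    rw [q1, q2, smul_eq_mul]
  rw [e, hg2] at key
  simpa using key

end

/-- 932's coefficient lemma -/
theorem chi43 {r : ℝ} (hr : 0 < r) (hr2 : r ≤ 1 / 4) : ∃ C : ℝ, 0 < C ∧ Chi43 r C :=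
  Bd932.chi43_of hr hr2

/-- **the band theorem, abstract, both half planes** -/
theorem band43 {r : ℝ} (hr : 0 < r) (hr2 : r ≤ 1 / 4) : ∃ C : ℝ, 0 < C ∧
    ∀ {m n : Type} [Fintype m] [DecidableEq m] [Fintype n] [DecidableEq n]
      {S' : ℂ → Matrix m m ℂ} {S : ℂ → Matrix n n ℂ} {A : Matrix m n ℂ} {V y0 X t : ℝ},
      0 ≤ t → 2 ≤ V → 0 ≤ y0 → y0 ≤ V - 1 → ‖A‖ ≤ 1 → Reg r V t S' → Reg r V t S →
      ((∀ x : ℝ, 0 ≤ x → x ≤ 1 → ‖S' (x + y0 * I) * A - A * S (x + y0 * I)‖ ≤ X) →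
        ‖(S' (1 / 2) * A - A * S (1 / 2)) - I • (S' 0 * A - A * S 0)‖ ≤
          C * (X * Real.exp (-(Real.pi * y0)) + Real.exp (-(2 * Real.pi * V)) + t * (1 + V))) ∧
      ((∀ x : ℝ, 0 ≤ x → x ≤ 1 → ‖S' (x - y0 * I) * A - A * S (x - y0 * I)‖ ≤ X) →
        ‖(S' (1 / 2) * A - A * S (1 / 2)) + I • (S' 0 * A - A * S 0)‖ ≤
          C * (X * Real.exp (-(Real.pi * y0)) + Real.exp (-(2 * Real.pi * V)) + t * (1 + V))) := by
  obtain ⟨C, hC, h⟩ := chi43 hr hr2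
  refine ⟨4 * C + 1, by positivity, ?_⟩
  intro m n _ _ _ _ S' S A V y0 X t ht hV hy0 hy1 hA hS' hS
  exact ⟨fun hX => band43_up h hC.le hr hr2 ht hV hy0 hy1 hA hS' hS hX,
    fun hX => band43_down h hC.le hr hr2 ht hV hy0 hy1 hA hS' hS hX⟩

end Crest.Agent.R158.Bm857
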