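import Crest.Agent.R158.Bm3_857
import Crest.Agent.R150.Vt1_970

/-!
# Row 158: spectral calculus of the twisted transfer matrices (helper857)

* `TPh_full` : `TPh η N c x = U diag (Λ_i x) Uᴴ`, one unitary `U` for all `x`
* `Sp U f = U diag f Uᴴ` : `Sp_mul`, `Sp_norm`
* `Reg_Sp` : the regular family of the good part
-/

set_option autoImplicit false

noncomputable section

open Complex Matrix
open scoped Matrix.Norms.L2Operator

namespace Crest.Agent.R158.Bm857

open Crest.Agent.R150.Gap970 Crest.Agent.R150.Vt970 Crest.Agent.R150.Ham970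

/-! ### unitary diagonalisation -/

/-- joint eigenbasis of the twisted lines, all sectors -/
theorem TPh_full (η : ℝ) (N : ℕ) (c : ℝ) :
    ∃ (d : ℕ) (U : Matrix (Fin N → Bool) (Fin d) ℂ) (Λ : Fin d → ℂ → ℂ),
      Uᴴ * U = 1 ∧ U * Uᴴ = 1 ∧
      (∀ i, (fun s => U s i) ≠ 0) ∧
      (∀ i x, TPh (η : ℂ) N c x *ᵥ (fun s => U s i) = Λ i x • fun s => U s i) ∧
      (∀ x, TPh (η : ℂ) N c x = U * Matrix.diagonal (fun i => Λ i x) * Uᴴ) := by
  classical
  let A : ℝ → EuclideanSpace ℂ (Fin N → Bool) →ₗ[ℂ] EuclideanSpace ℂ (Fin N → Bool) :=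
    fun v => Matrix.toEuclideanLin (TPh (η : ℂ) N c (1 / 2 + v * Complex.I))
  have hA : ∀ v, (A v).IsSymmetric := fun v =>
    Matrix.isSymmetric_toEuclideanLin_iff.2 (TPh_herm η N c v)
  have hmul : ∀ P Q : Matrix (Fin N → Bool) (Fin N → Bool) ℂ, P * Q = Q * P →
      Matrix.toEuclideanLin P * Matrix.toEuclideanLin Q =
        Matrix.toEuclideanLin Q * Matrix.toEuclideanLin P := by
    intro P Q h
    ext f s
    simp only [Module.End.mul_apply, Matrix.toEuclideanLin_apply, Matrix.mulVec_mulVec, h]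
  have hC : ∀ v w, A v * A w = A w * A v := fun v w => hmul _ _ (TPh_comm _ _ _ _ _)
  obtain ⟨b, hb⟩ := exists_joint_basis A hA hC
  choose χ hχ using hb
  have hne : ∀ a, (fun s => b a s) ≠ (0 : (Fin N → Bool) → ℂ) := by
    intro a h0
    have h1 : b a = 0 := by
      ext s
      exact congrFun h0 s
    have h2 := b.orthonormal.1 a
    rw [h1, norm_zero] at h2
    exact zero_ne_one h2
  have hL : ∀ a, ∃ Λ : ℂ → ℂ, ∀ x, TPh (η : ℂ) N c x *ᵥ (fun s => b a s) =
      Λ x • fun s => b a s := by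
    intro a
    refine eig_all (M := fun x => TPh (η : ℂ) N c x) (TPh_entry_diff (η : ℂ) N c) (hne a) ?_
    intro v
    refine ⟨χ a v, ?_⟩
    funext s
    have h1 := hχ a v
    have h2 : (A v) (b a) s = (χ a v • b a) s := by rw [h1]
    simp only [A, Matrix.toEuclideanLin_apply] at h2
    exact h2
  choose Λ hΛ using hL
  have hin : ∀ (x y : EuclideanSpace ℂ (Fin N → Bool)), inner ℂ x y =
      star (fun s => x s) ⬝ᵥ (fun s => y s) := by
    intro x y
    rw [EuclideanSpace.inner_eq_star_dotProduct, dotProduct_comm]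
  set U : Matrix (Fin N → Bool) (Fin (Module.finrank ℂ (EuclideanSpace ℂ (Fin N → Bool)))) ℂ :=
    Matrix.of fun s a => b a s with hU
  have h1 : Uᴴ * U = 1 := by
    ext i j
    have h2 := (orthonormal_iff_ite.1 b.orthonormal) i j
    rw [hin] at h2
    rw [Matrix.mul_apply, Matrix.one_apply, ← h2]
    rfl
  have h2 : U * Uᴴ = 1 := by
    ext s t
    have h3 := b.sum_repr' (EuclideanSpace.single t (1 : ℂ))
    have h4 := congrArg (fun f : EuclideanSpace ℂ (Fin N → Bool) => f s) h3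
    simp only [hin] at h4
    rw [Matrix.mul_apply, Matrix.one_apply]
    have h5 : (EuclideanSpace.single t (1 : ℂ) : EuclideanSpace ℂ (Fin N → Bool)) s =
        if s = t then 1 else 0 := by
      simp [Pi.single_apply]
    rw [← h5, ← h4]
    have h6 : ∀ a, star (fun s => b a s) ⬝ᵥ
        (fun s => (EuclideanSpace.single t (1 : ℂ) : EuclideanSpace ℂ (Fin N → Bool)) s) =
        star (b a t) := by
      intro a
      rw [dotProduct, Finset.sum_eq_single t]
      · simp
      · intro s _ hs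
        simp [hs]
      · intro h
        exact absurd (Finset.mem_univ _) h
    simp only [h6]
    rw [WithLp.ofLp_sum, Finset.sum_apply]
    refine Finset.sum_congr rfl fun a _ => ?_
    simp only [PiLp.smul_apply, WithLp.ofLp_smul, Pi.smul_apply, smul_eq_mul]
    rw [Matrix.conjTranspose_apply, mul_comm]
    rfl
  refine ⟨_, U, Λ, h1, h2, hne, hΛ, fun x => ?_⟩
  have h3 : TPh (η : ℂ) N c x * U = U * Matrix.diagonal (fun i => Λ i x) := by
    ext s a
    have h4 := congrFun (hΛ a x) s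
    rw [Matrix.mul_diagonal, Matrix.mul_apply]
    simp only [Matrix.mulVec, dotProduct, Pi.smul_apply, smul_eq_mul] at h4
    rw [mul_comm]
    exact h4
  rw [← h3, Matrix.mul_assoc, h2, Matrix.mul_one]

/-! ### functions of the family -/

section

variable {σ ι : Type} [Fintype σ] [DecidableEq σ] [Fintype ι] [DecidableEq ι]

/-- `U diag f Uᴴ` -/
def Sp (U : Matrix σ ι ℂ) (f : ι → ℂ) : Matrix σ σ ℂ := U * Matrix.diagonal f * Uᴴ

variable {U : Matrix σ ι ℂ}

lemma Sp_mul (h1 : Uᴴ * U = 1) (f g : ι → ℂ) : Sp U f * Sp U g = Sp U (fun i => f i * g i) := by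
  unfold Sp
  calc U * diagonal f * Uᴴ * (U * diagonal g * Uᴴ) =
        U * diagonal f * (Uᴴ * U) * diagonal g * Uᴴ := by simp only [Matrix.mul_assoc]
    _ = _ := by rw [h1, Matrix.mul_one, Matrix.mul_assoc U, Matrix.diagonal_mul_diagonal]

lemma Sp_one (h2 : U * Uᴴ = 1) : Sp U (fun _ => 1) = 1 := by
  unfold Sp
  rw [Matrix.diagonal_one, Matrix.mul_one, h2]

omit [Fintype σ] [DecidableEq σ] in
lemma Sp_sub (f g : ι → ℂ) : Sp U f - Sp U g = Sp U (fun i => f i - g i) := by
  unfold Sp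
  rw [← Matrix.sub_mul, ← Matrix.mul_sub, Matrix.diagonal_sub]

lemma norm_U (h1 : Uᴴ * U = 1) : ‖U‖ ≤ 1 := by
  have h3 := Matrix.l2_opNorm_conjTranspose_mul_self U
  rw [h1] at h3
  have h4 := norm_one_le (n := ι)
  rw [h3] at h4
  nlinarith [norm_nonneg U]

lemma Sp_norm (h1 : Uᴴ * U = 1) {f : ι → ℂ} {B : ℝ} (hB : 0 ≤ B) (hf : ∀ i, ‖f i‖ ≤ B) :
    ‖Sp U f‖ ≤ B := by
  have hU := norm_U h1
  have hU' : ‖Uᴴ‖ ≤ 1 := by rw [Matrix.l2_opNorm_conjTranspose]; exact hU
  have hd : ‖(diagonal f : Matrix ι ι ℂ)‖ ≤ B := by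
    rw [Matrix.l2_opNorm_diagonal]
    exact (pi_norm_le_iff_of_nonneg hB).2 hf
  unfold Sp
  calc _ ≤ ‖U * diagonal f‖ * ‖Uᴴ‖ := Matrix.l2_opNorm_mul _ _
    _ ≤ (‖U‖ * ‖(diagonal f : Matrix ι ι ℂ)‖) * ‖Uᴴ‖ :=
        mul_le_mul_of_nonneg_right (Matrix.l2_opNorm_mul _ _) (norm_nonneg _)
    _ ≤ (1 * B) * 1 := by
        refine mul_le_mul (mul_le_mul hU hd (norm_nonneg _) zero_le_one) hU' (norm_nonneg _) ?_
        positivity
    _ = B := by ring

omit [Fintype σ] [DecidableEq σ] in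
lemma Sp_diff {f : ℂ → ι → ℂ} {z : ℂ} (hf : ∀ i, DifferentiableAt ℂ (fun x => f x i) z)
    (s t : σ) : DifferentiableAt ℂ (fun x => Sp U (f x) s t) z := by
  have e : (fun x => Sp U (f x) s t) = fun x => ∑ i, U s i * f x i * Uᴴ i t := by
    funext x
    rw [Sp, Matrix.mul_apply]
    exact Finset.sum_congr rfl fun i _ => by rw [Matrix.mul_diagonal]
  rw [e]
  refine DifferentiableAt.fun_sum fun i _ => ?_
  exact ((differentiableAt_const _).mul (hf i)).mul (differentiableAt_const _)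

lemma Sp_pow (h1 : Uᴴ * U = 1) (h2 : U * Uᴴ = 1) (f : ι → ℂ) (k : ℕ) :
    Sp U f ^ k = Sp U (fun i => f i ^ k) := by
  induction k with
  | zero => simp only [pow_zero]; exact (Sp_one h2).symm
  | succ k ih =>
    rw [pow_succ, ih, Sp_mul h1]
    rfl

/-- **the regular family of the good part** -/
theorem Reg_Sp (h1 : Uᴴ * U = 1) (h2 : U * Uᴴ = 1) {r V t : ℝ} (ht : 0 ≤ t)
    (g : ι → ℂ → ℂ) (good : ι → Prop) [DecidablePred good]
    (hd : ∀ i, good i → ∀ z : ℂ, -r ≤ z.re → z.re ≤ 1 + r → |z.im| ≤ V →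
      DifferentiableAt ℂ (g i) z)
    (hc : ∀ i, good i → ∀ z : ℂ, -r ≤ z.re → z.re ≤ 1 + r → |z.im| ≤ V →
      ‖g i z ^ 2 - 1‖ ≤ 1 / 3 * Real.exp (-(Real.pi * (V - |z.im|))))
    (hi : ∀ i, good i → ∀ z : ℂ, |z.re| ≤ r → |z.im| ≤ V →
      ‖g i (z + 1) ^ 2 * g i z ^ 2 - 1‖ ≤ t) :
    Reg r V t (fun z => Sp U (fun i => if good i then g i z ^ 2 else 1)) where
  diff z a1 a2 a3 s t := by
    refine Sp_diff (f := fun z i => if good i then g i z ^ 2 else 1) (fun i => ?_) s t
    by_cases h : good i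
    · simp only [h, if_true]
      exact (hd i h z a1 a2 a3).pow 2
    · simp only [h, if_false]
      exact differentiableAt_const _
  close z a1 a2 a3 := by
    rw [← Sp_one h2, Sp_sub]
    refine Sp_norm h1 (by positivity) fun i => ?_
    by_cases h : good i
    · simp only [h, if_true]
      exact hc i h z a1 a2 a3
    · simp only [h, if_false, sub_self, norm_zero]
      positivity
  inv z a1 a2 := by
    rw [Sp_mul h1, ← Sp_one h2, Sp_sub]
    refine Sp_norm h1 ht fun i => ?_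
    by_cases h : good i
    · simp only [h, if_true]
      exact hi i h z a1 a2
    · simp only [h, if_false, mul_one, sub_self, norm_zero]
      exact ht

end

end Crest.Agent.R158.Bm857
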