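import Crest.Agent.R158.Bm4_857

/-!
# Row 158: the band theorem, consumer form on operators (helper857)

`T z` (ring with `M` columns), `T' z` (ring with `M + 1` columns), `A` (insertion), `A2` (insertion
two columns further), `T' 0 ^ 2 * A = A2 * T 0 ^ 2`.

* `Good r V t T S P` : `P` a spectral projection, `S z` regular, `S z = T z ^ 2` on the range of `P`
* `Good_Sp` : from the spectral calculus
* `band_cons` : the double step Cauchy-Riemann relation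
-/

set_option autoImplicit false

noncomputable section

open Complex Matrix
open scoped Matrix.Norms.L2Operator

namespace Crest.Agent.R158.Bm857

section

variable {m n : Type} [Fintype m] [DecidableEq m] [Fintype n] [DecidableEq n]

/-- good part of a commuting family -/
structure Good (r V t : ℝ) (T S : ℂ → Matrix n n ℂ) (P : Matrix n n ℂ) : Prop where
  reg : Reg r V t S
  Pn : ‖P‖ ≤ 1
  PP : P * P = P
  SP : ∀ z, S z * P = P * T z ^ 2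
  PS : ∀ z, P * S z = T z ^ 2 * P

/-- from the spectral calculus -/
theorem Good_Sp {ι : Type} [Fintype ι] [DecidableEq ι] {U : Matrix n ι ℂ} (h1 : Uᴴ * U = 1)
    (h2 : U * Uᴴ = 1) {r V t : ℝ} (ht : 0 ≤ t) {T : ℂ → Matrix n n ℂ}
    (g : ι → ℂ → ℂ) (hT : ∀ z, T z = Sp U fun i => g i z) (good : ι → Prop)
    [DecidablePred good]
    (hd : ∀ i, good i → ∀ z : ℂ, -r ≤ z.re → z.re ≤ 1 + r → |z.im| ≤ V →
      DifferentiableAt ℂ (g i) z)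
    (hc : ∀ i, good i → ∀ z : ℂ, -r ≤ z.re → z.re ≤ 1 + r → |z.im| ≤ V →
      ‖g i z ^ 2 - 1‖ ≤ 1 / 3 * Real.exp (-(Real.pi * (V - |z.im|))))
    (hi : ∀ i, good i → ∀ z : ℂ, |z.re| ≤ r → |z.im| ≤ V →
      ‖g i (z + 1) ^ 2 * g i z ^ 2 - 1‖ ≤ t) :
    Good r V t T (fun z => Sp U (fun i => if good i then g i z ^ 2 else 1))
      (Sp U fun i => if good i then 1 else 0) where
  reg := Reg_Sp h1 h2 ht g good hd hc hi
  Pn := Sp_norm h1 zero_le_one fun i => by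
    by_cases h : good i
    · simp [h]
    · simp [h]
  PP := by
    rw [Sp_mul h1]
    congr 1
    funext i
    by_cases h : good i
    · simp [h]
    · simp [h]
  SP z := by
    rw [hT, Sp_pow h1 h2, Sp_mul h1, Sp_mul h1]
    congr 1
    funext i
    by_cases h : good i
    · simp [h]
    · simp [h]
  PS z := by
    rw [hT, Sp_pow h1 h2, Sp_mul h1, Sp_mul h1]
    congr 1
    funext i
    by_cases h : good i
    · simp [h]
    · simp [h]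

variable {r V t : ℝ} {T' S' : ℂ → Matrix m m ℂ} {T S : ℂ → Matrix n n ℂ}
  {P' : Matrix m m ℂ} {P : Matrix n n ℂ} {A A2 : Matrix m n ℂ}

lemma norm_mul3 {X : Matrix m n ℂ} {B' : Matrix m m ℂ} {B : Matrix n n ℂ} {a b x : ℝ}
    (ha : ‖B'‖ ≤ a) (hb : ‖B‖ ≤ b) (hx : ‖X‖ ≤ x) : ‖B' * X * B‖ ≤ a * x * b := by
  have ha0 : 0 ≤ a := (norm_nonneg _).trans ha
  have hx0 : 0 ≤ x := (norm_nonneg _).trans hx
  calc _ ≤ ‖B' * X‖ * ‖B‖ := Matrix.l2_opNorm_mul _ _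
    _ ≤ (‖B'‖ * ‖X‖) * ‖B‖ := mul_le_mul_of_nonneg_right (Matrix.l2_opNorm_mul _ _) (norm_nonneg _)
    _ ≤ (a * x) * b := mul_le_mul (mul_le_mul ha hx (norm_nonneg _) ha0) hb (norm_nonneg _)
        (by positivity)

/-- the compressed commutator -/
lemma comp_eq (hG' : Good r V t T' S' P') (hG : Good r V t T S P) (z : ℂ) :
    S' z * (P' * A * P) - P' * A * P * S z = P' * (T' z ^ 2 * A - A * T z ^ 2) * P := by
  have e1 : S' z * (P' * A * P) = P' * T' z ^ 2 * A * P := by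
    rw [← Matrix.mul_assoc, ← Matrix.mul_assoc, hG'.SP]
  have e2 : P' * A * P * S z = P' * A * (T z ^ 2 * P) := by
    rw [Matrix.mul_assoc, hG.PS]
  rw [e1, e2]
  simp only [Matrix.mul_sub, Matrix.sub_mul, Matrix.mul_assoc]

lemma norm_PAP (hG' : Good r V t T' S' P') (hG : Good r V t T S P) (hA : ‖A‖ ≤ 1) :
    ‖P' * A * P‖ ≤ 1 := by
  have := norm_mul3 hG'.Pn hG.Pn hA
  linarith

/-- the compressed commutator is small on the real axis -/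
lemma comp_small (hr : 0 < r) (hV : 0 ≤ V) (hG' : Good r V t T' S' P') (hG : Good r V t T S P)
    (hA : ‖A‖ ≤ 1) : ‖P' * (T' 0 ^ 2 * A - A * T 0 ^ 2) * P‖ ≤
      2 / 3 * Real.exp (-(Real.pi * V)) := by
  rw [← comp_eq hG' hG]
  have e : S' 0 * (P' * A * P) - P' * A * P * S 0 =
      (S' 0 - 1) * (P' * A * P) - P' * A * P * (S 0 - 1) := by
    rw [Matrix.sub_mul, Matrix.mul_sub, Matrix.one_mul, Matrix.mul_one]
    abel
  rw [e]
  have a3 : |(0 : ℂ).im| ≤ V := by simpa using hV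
  have c1 := hG'.reg.close 0 (by simp; linarith) (by simp; linarith) a3
  have c2 := hG.reg.close 0 (by simp; linarith) (by simp; linarith) a3
  have h := comm_norm (norm_PAP hG' hG hA) c1 c2
  have e2 : |(0 : ℂ).im| = 0 := by simp
  rw [e2, sub_zero] at h
  linarith

/-- replacing the shifts by two rows -/
lemma shift_repl (hr : 0 < r) (hV : 0 ≤ V) (hG' : Good r V t T' S' P')
    (hG : Good r V t T S P) (hA : ‖A‖ ≤ 1) (hsh : T' 0 ^ 2 * A = A2 * T 0 ^ 2) :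
    ‖P' * ((T' 0 ^ 2 * A - A * T 0 ^ 2) - T' (1 / 2) ^ 2 * (A2 - A)) * P‖ ≤
      2 / 3 * Real.exp (-(2 * Real.pi * V)) := by
  set Y : Matrix m n ℂ := P' * (A2 - A) * P with hY
  have hZ : T' 0 ^ 2 * A - A * T 0 ^ 2 = (A2 - A) * T 0 ^ 2 := by
    rw [hsh, Matrix.sub_mul]
  have e1 : P' * (T' 0 ^ 2 * A - A * T 0 ^ 2) * P = Y * S 0 := by
    rw [hZ, hY, Matrix.mul_assoc _ P, hG.PS]
    simp only [Matrix.mul_assoc]
  have e2 : P' * (T' (1 / 2) ^ 2 * (A2 - A)) * P = S' (1 / 2) * Y := by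
    rw [hY, ← Matrix.mul_assoc (S' (1 / 2)), ← Matrix.mul_assoc (S' (1 / 2)), hG'.SP]
    simp only [Matrix.mul_assoc]
  have a3 : |(0 : ℂ).im| ≤ V := by simpa using hV
  have a3' : |(1 / 2 : ℂ).im| ≤ V := by norm_num; exact hV
  have c1 := hG'.reg.close (1 / 2) (by norm_num; linarith) (by norm_num; linarith) a3'
  have c2 := hG.reg.close 0 (by simp; linarith) (by simp; linarith) a3
  have i0 : |(0 : ℂ).im| = 0 := by simp
  have i1 : |(1 / 2 : ℂ).im| = 0 := by norm_num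
  rw [i1, sub_zero] at c1
  rw [i0, sub_zero] at c2
  obtain ⟨q, hq⟩ : ∃ q : ℝ, q = Real.exp (-(Real.pi * V)) := ⟨_, rfl⟩
  have hq0 : 0 < q := by rw [hq]; exact Real.exp_pos _
  have hq1 : q ≤ 1 := by
    rw [hq]
    exact Real.exp_le_one_iff.2 (by have := mul_nonneg Real.pi_pos.le hV; linarith)
  have hq2 : Real.exp (-(2 * Real.pi * V)) = q * q := by
    rw [hq, ← Real.exp_add]; congr 1; ring
  rw [← hq] at c1 c2
  have hu := unit_of_close (by linarith : 1 / 3 * q ≤ 1 / 3) c2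
  have hin := inv_norm (norm_one_le (n := n)) (by linarith : 1 / 3 * q ≤ 1 / 3) c2
  have hYS : ‖Y * S 0‖ ≤ 2 / 3 * q := by
    rw [← e1, hq]
    exact comp_small hr hV hG' hG hA
  have hYn : ‖Y‖ ≤ q := by
    have e3 : Y = Y * S 0 * Ring.inverse (S 0) := by
      rw [Matrix.mul_assoc, Ring.mul_inverse_cancel _ hu, Matrix.mul_one]
    rw [e3]
    refine (Matrix.l2_opNorm_mul _ _).trans ?_
    calc _ ≤ 2 / 3 * q * (3 / 2) := mul_le_mul hYS hin (norm_nonneg _) (by positivity)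
      _ = q := by ring
  have e4 : P' * ((T' 0 ^ 2 * A - A * T 0 ^ 2) - T' (1 / 2) ^ 2 * (A2 - A)) * P =
      Y * (S 0 - 1) - (S' (1 / 2) - 1) * Y := by
    rw [Matrix.mul_sub, Matrix.sub_mul, e1, e2, Matrix.mul_sub, Matrix.sub_mul, Matrix.mul_one,
      Matrix.one_mul]
    abel
  rw [e4, hq2]
  calc _ ≤ ‖Y * (S 0 - 1)‖ + ‖(S' (1 / 2) - 1) * Y‖ := norm_sub_le _ _
    _ ≤ ‖Y‖ * ‖S 0 - 1‖ + ‖S' (1 / 2) - 1‖ * ‖Y‖ :=
        add_le_add (Matrix.l2_opNorm_mul _ _) (Matrix.l2_opNorm_mul _ _)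
    _ ≤ q * (1 / 3 * q) + 1 / 3 * q * q :=
        add_le_add (mul_le_mul hYn c2 (norm_nonneg _) hq0.le)
          (mul_le_mul c1 hYn (norm_nonneg _) (by positivity))
    _ = _ := by ring

/-- splitting off the bad part -/
lemma split_bad {Q : Matrix m n ℂ} {B' : Matrix m m ℂ} {B : Matrix n n ℂ} {K β q x : ℝ}
    (hP' : ‖P'‖ ≤ 1) (hB' : ‖B'‖ ≤ K) (hB : ‖B‖ ≤ K) (hb : ‖(1 - P) * B‖ ≤ β)
    (hb' : ‖B' * (1 - P')‖ ≤ β) (hQ : ‖Q‖ ≤ q) (hx : ‖P' * Q * P‖ ≤ x) :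
    ‖B' * Q * B‖ ≤ K ^ 2 * x + 2 * q * K * β := by
  have hK : 0 ≤ K := (norm_nonneg _).trans hB
  have hβ : 0 ≤ β := (norm_nonneg _).trans hb
  have hq : 0 ≤ q := (norm_nonneg _).trans hQ
  have e : B' * Q * B = B' * (P' * Q * P) * B + (B' * (1 - P')) * Q * B +
      (B' * P') * Q * ((1 - P) * B) := by
    simp only [Matrix.mul_sub, Matrix.sub_mul, Matrix.mul_one, Matrix.one_mul, Matrix.mul_assoc]
    abel
  rw [e]
  have t1 := norm_mul3 hB' hB hx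
  have t2 := norm_mul3 hb' hB hQ
  have t3 : ‖(B' * P') * Q * ((1 - P) * B)‖ ≤ (K * 1) * q * β := by
    refine norm_mul3 ?_ hb hQ
    exact (Matrix.l2_opNorm_mul _ _).trans (mul_le_mul hB' hP' (norm_nonneg _) hK)
  calc _ ≤ ‖B' * (P' * Q * P) * B‖ + ‖(B' * (1 - P')) * Q * B‖ +
        ‖(B' * P') * Q * ((1 - P) * B)‖ := norm_add₃_le
    _ ≤ K * x * K + β * q * K + K * 1 * q * β := add_le_add (add_le_add t1 t2) t3
    _ = _ := by ring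

/-- the total, `ω = ± I` -/
lemma cons_fin {ω : ℂ} (hω : ‖ω‖ = 1) {K β x : ℝ} {a b : ℕ} (hr : 0 < r) (hV : 0 ≤ V)
    (hG' : Good r V t T' S' P') (hG : Good r V t T S P) (hA : ‖A‖ ≤ 1) (hA2 : ‖A2‖ ≤ 1)
    (hsh : T' 0 ^ 2 * A = A2 * T 0 ^ 2) (hT' : ‖T' (1 / 2)‖ ≤ 2) (hT : ‖T (1 / 2)‖ ≤ 2)
    (hB' : ‖T' (1 / 2) ^ b‖ ≤ K) (hB : ‖T (1 / 2) ^ a‖ ≤ K)
    (hb : ‖(1 - P) * T (1 / 2) ^ a‖ ≤ β) (hb' : ‖T' (1 / 2) ^ b * (1 - P')‖ ≤ β)
    (hx : ‖(S' (1 / 2) * (P' * A * P) - P' * A * P * S (1 / 2)) -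
      ω • (S' 0 * (P' * A * P) - P' * A * P * S 0)‖ ≤ x) :
    ‖T' (1 / 2) ^ b * ((T' (1 / 2) ^ 2 * A - A * T (1 / 2) ^ 2) -
      ω • (T' (1 / 2) ^ 2 * (A2 - A))) * T (1 / 2) ^ a‖ ≤
      K ^ 2 * (x + Real.exp (-(2 * Real.pi * V))) + 32 * K * β := by
  have hexp := Real.exp_pos (-(2 * Real.pi * V))
  have hPQ : ‖P' * ((T' (1 / 2) ^ 2 * A - A * T (1 / 2) ^ 2) -
      ω • (T' (1 / 2) ^ 2 * (A2 - A))) * P‖ ≤ x + Real.exp (-(2 * Real.pi * V)) := by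
    rw [comp_eq hG' hG, comp_eq hG' hG] at hx
    have e : P' * ((T' (1 / 2) ^ 2 * A - A * T (1 / 2) ^ 2) -
        ω • (T' (1 / 2) ^ 2 * (A2 - A))) * P =
        (P' * (T' (1 / 2) ^ 2 * A - A * T (1 / 2) ^ 2) * P -
          ω • (P' * (T' 0 ^ 2 * A - A * T 0 ^ 2) * P)) +
        ω • (P' * ((T' 0 ^ 2 * A - A * T 0 ^ 2) - T' (1 / 2) ^ 2 * (A2 - A)) * P) := by
      simp only [Matrix.mul_sub, Matrix.sub_mul, Matrix.mul_smul, Matrix.smul_mul, smul_sub]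
      abel
    rw [e]
    refine (norm_add_le _ _).trans (add_le_add hx ?_)
    rw [norm_smul, hω, one_mul]
    have := shift_repl hr hV hG' hG hA hsh
    linarith
  have hQ : ‖(T' (1 / 2) ^ 2 * A - A * T (1 / 2) ^ 2) - ω • (T' (1 / 2) ^ 2 * (A2 - A))‖ ≤
      16 := by
    have s' : ‖T' (1 / 2) ^ 2‖ ≤ 4 := by
      refine (norm_pow_le' _ two_pos).trans ?_
      nlinarith [norm_nonneg (T' (1 / 2))]
    have s : ‖T (1 / 2) ^ 2‖ ≤ 4 := by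
      refine (norm_pow_le' _ two_pos).trans ?_
      nlinarith [norm_nonneg (T (1 / 2))]
    have k1 : ‖T' (1 / 2) ^ 2 * A‖ ≤ 4 * 1 :=
      (Matrix.l2_opNorm_mul _ _).trans (mul_le_mul s' hA (norm_nonneg _) (by norm_num))
    have k2 : ‖A * T (1 / 2) ^ 2‖ ≤ 1 * 4 :=
      (Matrix.l2_opNorm_mul _ _).trans (mul_le_mul hA s (norm_nonneg _) (by norm_num))
    have k3 : ‖T' (1 / 2) ^ 2 * (A2 - A)‖ ≤ 4 * 2 :=
      (Matrix.l2_opNorm_mul _ _).trans (mul_le_mul s' ((norm_sub_le _ _).trans (by linarith))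
        (norm_nonneg _) (by norm_num))
    have k4 : ‖ω • (T' (1 / 2) ^ 2 * (A2 - A))‖ ≤ 8 := by
      rw [norm_smul, hω, one_mul]; linarith
    have k5 := norm_sub_le (T' (1 / 2) ^ 2 * A - A * T (1 / 2) ^ 2)
      (ω • (T' (1 / 2) ^ 2 * (A2 - A)))
    have k6 := norm_sub_le (T' (1 / 2) ^ 2 * A) (A * T (1 / 2) ^ 2)
    linarith
  have h := split_bad hG'.Pn hB' hB hb hb' hQ hPQ
  linarith

lemma seg_bound {z : ℂ} {D : ℝ} (hG' : Good r V t T' S' P') (hG : Good r V t T S P)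
    (h1 : ‖T' z‖ ≤ 2) (h2 : ‖T z‖ ≤ 2) (h3 : ‖T' z * A - A * T z‖ ≤ D) :
    ‖S' z * (P' * A * P) - P' * A * P * S z‖ ≤ 4 * D := by
  have hD : 0 ≤ D := (norm_nonneg _).trans h3
  rw [comp_eq hG' hG]
  have e : T' z ^ 2 * A - A * T z ^ 2 = T' z * (T' z * A - A * T z) +
      (T' z * A - A * T z) * T z := by
    simp only [Matrix.mul_sub, Matrix.sub_mul, pow_two, Matrix.mul_assoc]
    abel
  have h4 : ‖T' z ^ 2 * A - A * T z ^ 2‖ ≤ 4 * D := by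
    rw [e]
    calc _ ≤ ‖T' z‖ * ‖T' z * A - A * T z‖ + ‖T' z * A - A * T z‖ * ‖T z‖ :=
          (norm_add_le _ _).trans (add_le_add (Matrix.l2_opNorm_mul _ _)
            (Matrix.l2_opNorm_mul _ _))
      _ ≤ 2 * D + D * 2 := add_le_add (mul_le_mul h1 h3 (norm_nonneg _) two_pos.le)
          (mul_le_mul h3 h2 (norm_nonneg _) hD)
      _ = _ := by ring
  have := norm_mul3 hG'.Pn hG.Pn h4
  linarith

end

/-- **the band theorem, consumer form**, both half planes -/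
theorem band_cons {r : ℝ} (hr : 0 < r) (hr2 : r ≤ 1 / 4) : ∃ C : ℝ, 0 < C ∧
    ∀ {m n : Type} [Fintype m] [DecidableEq m] [Fintype n] [DecidableEq n]
      {T' S' : ℂ → Matrix m m ℂ} {T S : ℂ → Matrix n n ℂ} {P' : Matrix m m ℂ}
      {P : Matrix n n ℂ} {A A2 : Matrix m n ℂ} {V y0 D t K β : ℝ} {a b : ℕ},
      0 ≤ t → 2 ≤ V → 0 ≤ y0 → y0 ≤ V - 1 → ‖A‖ ≤ 1 → ‖A2‖ ≤ 1 →
      Good r V t T' S' P' → Good r V t T S P → T' 0 ^ 2 * A = A2 * T 0 ^ 2 →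
      ‖T' (1 / 2)‖ ≤ 2 → ‖T (1 / 2)‖ ≤ 2 → ‖T' (1 / 2) ^ b‖ ≤ K → ‖T (1 / 2) ^ a‖ ≤ K →
      ‖(1 - P) * T (1 / 2) ^ a‖ ≤ β → ‖T' (1 / 2) ^ b * (1 - P')‖ ≤ β →
      ((∀ x : ℝ, 0 ≤ x → x ≤ 1 → ‖T' (x + y0 * I)‖ ≤ 2 ∧ ‖T (x + y0 * I)‖ ≤ 2 ∧
          ‖T' (x + y0 * I) * A - A * T (x + y0 * I)‖ ≤ D) →
        ‖T' (1 / 2) ^ b * ((T' (1 / 2) ^ 2 * A - A * T (1 / 2) ^ 2) -
          I • (T' (1 / 2) ^ 2 * (A2 - A))) * T (1 / 2) ^ a‖ ≤
          C * K ^ 2 * (D * Real.exp (-(Real.pi * y0)) + Real.exp (-(2 * Real.pi * V)) +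
            t * (1 + V)) + 32 * K * β) ∧
      ((∀ x : ℝ, 0 ≤ x → x ≤ 1 → ‖T' (x - y0 * I)‖ ≤ 2 ∧ ‖T (x - y0 * I)‖ ≤ 2 ∧
          ‖T' (x - y0 * I) * A - A * T (x - y0 * I)‖ ≤ D) →
        ‖T' (1 / 2) ^ b * ((T' (1 / 2) ^ 2 * A - A * T (1 / 2) ^ 2) +
          I • (T' (1 / 2) ^ 2 * (A2 - A))) * T (1 / 2) ^ a‖ ≤
          C * K ^ 2 * (D * Real.exp (-(Real.pi * y0)) + Real.exp (-(2 * Real.pi * V)) +
            t * (1 + V)) + 32 * K * β) := by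
  obtain ⟨C, hC, H⟩ := band43 hr hr2
  refine ⟨4 * C + 1, by positivity, ?_⟩
  intro m n _ _ _ _ T' S' T S P' P A A2 V y0 D t K β a b ht hV hy0 hy1 hA hA2 hG' hG hsh hT' hT
    hB' hB hb hb'
  have hV0 : 0 ≤ V := by linarith
  have hPAP := norm_PAP hG' hG hA
  have hfin : ∀ D : ℝ, 0 ≤ D → K ^ 2 * (C * (4 * D * Real.exp (-(Real.pi * y0)) +
      Real.exp (-(2 * Real.pi * V)) + t * (1 + V)) + Real.exp (-(2 * Real.pi * V))) ≤
      (4 * C + 1) * K ^ 2 * (D * Real.exp (-(Real.pi * y0)) + Real.exp (-(2 * Real.pi * V)) +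
        t * (1 + V)) := by
    intro D hD
    obtain ⟨Q1, hQ1⟩ : ∃ Q : ℝ, Q = D * Real.exp (-(Real.pi * y0)) := ⟨_, rfl⟩
    obtain ⟨Q2, hQ2⟩ : ∃ Q : ℝ, Q = Real.exp (-(2 * Real.pi * V)) := ⟨_, rfl⟩
    obtain ⟨Q3, hQ3⟩ : ∃ Q : ℝ, Q = t * (1 + V) := ⟨_, rfl⟩
    have q1 : 0 ≤ Q1 := by rw [hQ1]; positivity
    have q2 : 0 ≤ Q2 := by rw [hQ2]; positivity
    have q3 : 0 ≤ Q3 := by rw [hQ3]; positivity
    have hK2 : 0 ≤ K ^ 2 := sq_nonneg K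
    rw [mul_assoc 4, ← hQ1, ← hQ2, ← hQ3]
    have p : (4 * C + 1) * K ^ 2 * (Q1 + Q2 + Q3) -
        K ^ 2 * (C * (4 * Q1 + Q2 + Q3) + Q2) = K ^ 2 * (3 * (C * Q2) + 3 * (C * Q3) + Q1 + Q3) := by
      ring
    have : 0 ≤ K ^ 2 * (3 * (C * Q2) + 3 * (C * Q3) + Q1 + Q3) := by positivity
    linarith
  constructor
  · intro hX
    have hD0 : 0 ≤ D := (norm_nonneg _).trans (hX 0 le_rfl zero_le_one).2.2
    have h := (H ht hV hy0 hy1 hPAP hG'.reg hG.reg).1 fun x a1 a2 =>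
      seg_bound hG' hG (hX x a1 a2).1 (hX x a1 a2).2.1 (hX x a1 a2).2.2
    have h2 := cons_fin Complex.norm_I hr hV0 hG' hG hA hA2 hsh hT' hT hB' hB hb hb' h
    exact h2.trans (add_le_add (hfin D hD0) le_rfl)
  · intro hX
    have hD0 : 0 ≤ D := (norm_nonneg _).trans (hX 0 le_rfl zero_le_one).2.2
    have h := (H ht hV hy0 hy1 hPAP hG'.reg hG.reg).2 fun x a1 a2 =>
      seg_bound hG' hG (hX x a1 a2).1 (hX x a1 a2).2.1 (hX x a1 a2).2.2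
    rw [← sub_neg_eq_add, ← neg_smul] at h
    have h2 := cons_fin (by rw [norm_neg, Complex.norm_I]) hr hV0 hG' hG hA hA2 hsh hT' hT hB' hB
      hb hb' h
    rw [neg_smul, sub_neg_eq_add] at h2
    exact h2.trans (add_le_add (hfin D hD0) le_rfl)

end Crest.Agent.R158.Bm857
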