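import Crest.Agent.R158.Bm5_857
import Crest.Agent.R158.Bd4_932
import Crest.Agent.R158.Be2_979

/-!
# Row 158: the band theorem (helper857)

Ring with `M` columns, twist `c`; ring with `M + 1` columns, twist `c'`; percolation normalisation.

* `Good_That` : the good part of the ring, heights `V ≤ hh ε M - C`
* `band_of` : for every `ε, h, H > 0` the double step Cauchy-Riemann relation with error
  `C M^(-4/3 + ε)`, `h M ≤ a, b ≤ H M`, uniformly in the twists, for all insertions with the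
  defect bound in a half plane
-/

set_option autoImplicit false

noncomputable section

open Complex Matrix Filter Topology
open scoped Matrix.Norms.L2Operator

namespace Crest.Agent.R158.Bm857

open Crest.Agent.R150.Gap970 Crest.Agent.R150.Base357
open Crest.Agent.R150.Nut979 (TJE)
open Crest.Agent.R158.Bd932 (That e3)
open Crest.Agent.R158.Be979 (Lh et hh)

/-! ### asymptotics -/

lemma ev_sub {a δ : ℝ} (ha : 0 < a) (hδ : 0 < δ) (K p : ℝ) :
    ∀ᶠ M : ℕ in atTop, K * Real.exp (-(δ * (M : ℝ) ^ a)) ≤ (M : ℝ) ^ (-p) := by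
  have h1 := tendsto_rpow_mul_exp_neg_mul_atTop_nhds_zero (p / a) δ hδ
  have h2 : Tendsto (fun M : ℕ => (M : ℝ) ^ a) atTop atTop :=
    (tendsto_rpow_atTop ha).comp tendsto_natCast_atTop_atTop
  have h3 := (h1.comp h2).eventually (gt_mem_nhds
    (show (0 : ℝ) < 1 / (|K| + 1) by positivity))
  filter_upwards [h3, eventually_ge_atTop 1] with M hM hM1
  have hM' : (0 : ℝ) < M := by exact_mod_cast hM1
  simp only [Function.comp] at hM
  rw [← Real.rpow_mul hM'.le, mul_div_cancel₀ _ ha.ne', neg_mul, lt_div_iff₀ (by positivity)] at hM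
  have h4 : 0 < (M : ℝ) ^ p := Real.rpow_pos_of_pos hM' _
  rw [Real.rpow_neg hM'.le, ← one_div, le_div_iff₀ h4]
  have h5 := Real.exp_pos (-(δ * (M : ℝ) ^ a))
  have h6 : K ≤ |K| + 1 := by linarith [le_abs_self K]
  calc K * Real.exp (-(δ * (M : ℝ) ^ a)) * (M : ℝ) ^ p =
        K * (Real.exp (-(δ * (M : ℝ) ^ a)) * (M : ℝ) ^ p) := by ring
    _ ≤ (|K| + 1) * (Real.exp (-(δ * (M : ℝ) ^ a)) * (M : ℝ) ^ p) :=
        mul_le_mul_of_nonneg_right h6 (by positivity)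
    _ = (M : ℝ) ^ p * Real.exp (-(δ * (M : ℝ) ^ a)) * (|K| + 1) := by ring
    _ ≤ 1 := hM.le

/-! ### the good part of the ring -/

/-- everything needed from the ring with `M` columns -/
structure Ring1 (ε V t : ℝ) (M : ℕ) (c : ℝ) (S : ℂ → Matrix (Fin M → Bool) (Fin M → Bool) ℂ)
    (P : Matrix (Fin M → Bool) (Fin M → Bool) ℂ) : Prop where
  good : Good (1 / 16) V t (That M c) S P
  left : ∀ n : ℕ, ‖(1 - P) * That M c (1 / 2) ^ n‖ ≤ Real.exp (-(n * (M : ℝ) ^ (-1 + ε)))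
  right : ∀ n : ℕ, ‖That M c (1 / 2) ^ n * (1 - P)‖ ≤ Real.exp (-(n * (M : ℝ) ^ (-1 + ε)))
  pow : ∀ n : ℕ, ‖That M c (1 / 2) ^ n‖ ≤ Real.exp (12 / M) ^ n

theorem Good_That {ε : ℝ} (hε : 0 < ε) (hε2 : ε < 1 / 2) : ∃ C : ℝ, 0 ≤ C ∧
    ∀ᶠ M : ℕ in atTop, ∀ (c V t : ℝ), V ≤ hh ε M - C →
      9 * Real.exp (-((M : ℝ) ^ (2 * ε) / 3)) ≤ t → ∃ S P, Ring1 ε V t M c S P := by
  classical
  obtain ⟨C, hC, hgood⟩ := Be979.Lh_good hε hε2
  refine ⟨C, hC, ?_⟩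
  filter_upwards [hgood, Be979.Lh_inv2 hε, eventually_ge_atTop 1] with M w1 w2 w3 c V t hV ht
  obtain ⟨d, U, Λ, h1, h2, hne, heig, hT⟩ := TPh_full e3 M c
  have hM : 0 < M := w3
  have hj : ∀ i, TJE et M c (fun s => U s i) (Λ i) := fun i => ⟨hne i, heig i⟩
  have hTS : ∀ z, That M c z = Sp U (fun i => Lh M (Λ i) z) := by
    intro z
    rw [That, hT, Sp, ← Matrix.smul_mul, ← Matrix.mul_smul, ← Matrix.diagonal_smul]
    congr 3
    funext i
    rw [Pi.smul_apply, smul_eq_mul, Lh, div_eq_inv_mul]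
    rfl
  have ht0 : 0 ≤ t := le_trans (by positivity) ht
  have hr0 : 0 ≤ (M : ℝ) ^ (-1 + ε) := by positivity
  refine ⟨_, _, ⟨Good_Sp h1 h2 ht0 (fun i => Lh M (Λ i)) hTS
    (fun i => 1 - (M : ℝ) ^ (-1 + ε) ≤ ‖Lh M (Λ i) (1 / 2)‖) ?_ ?_ ?_, ?_, ?_, ?_⟩⟩
  · intro i _ z a1 a2 _
    exact Be979.Lh_diff (hj i) (by linarith) (by linarith)
  · intro i hi z a1 a2 a3
    have h4 := (w1 c _ _ (hj i) hi).2 z a1 a2 (by linarith)
    refine h4.trans (mul_le_mul_of_nonneg_left (Real.exp_le_exp.2 (neg_le_neg ?_)) (by norm_num))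
    exact mul_le_mul_of_nonneg_left (by linarith) Real.pi_pos.le
  · intro i hi z a1 a2
    exact (w2 c _ _ (hj i) z (by linarith) (by linarith)).trans ht
  · intro n
    rw [hTS, Sp_pow h1 h2, ← Sp_one h2, Sp_sub, Sp_mul h1]
    refine Sp_norm h1 (Real.exp_pos _).le fun i => ?_
    by_cases hi : 1 - (M : ℝ) ^ (-1 + ε) ≤ ‖Lh M (Λ i) (1 / 2)‖
    · rw [if_pos hi, sub_self, zero_mul, norm_zero]
      exact (Real.exp_pos _).le
    · rw [if_neg hi, sub_zero, one_mul, norm_pow]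
      exact Be979.Lh_bad hi n
  · intro n
    rw [hTS, Sp_pow h1 h2, ← Sp_one h2, Sp_sub, Sp_mul h1]
    refine Sp_norm h1 (Real.exp_pos _).le fun i => ?_
    by_cases hi : 1 - (M : ℝ) ^ (-1 + ε) ≤ ‖Lh M (Λ i) (1 / 2)‖
    · rw [if_pos hi, sub_self, mul_zero, norm_zero]
      exact (Real.exp_pos _).le
    · rw [if_neg hi, sub_zero, mul_one, norm_pow]
      exact Be979.Lh_bad hi n
  · intro n
    rw [hTS, Sp_pow h1 h2]
    refine Sp_norm h1 (by positivity) fun i => ?_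
    rw [norm_pow]
    exact pow_le_pow_left₀ (norm_nonneg _) (Be979.Lh_mid hM (hj i)) n

/-! ### the total -/

lemma exp_hh_mul {ε : ℝ} {M : ℕ} (hM : 0 < M) (s : ℝ) :
    Real.exp (-(s * Real.pi * hh ε M)) = (M : ℝ) ^ (-(s * (1 - 2 * ε))) := by
  have hM' : (0 : ℝ) < M := by exact_mod_cast hM
  rw [hh, Real.rpow_def_of_pos hM']
  congr 1
  have := Real.pi_pos
  field_simp

lemma hh_le {ε : ℝ} (h0 : 0 < ε) (h1 : ε < 1 / 2) {M : ℕ} (hM : 0 < M) : hh ε M ≤ M := by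
  have hM' : (1 : ℝ) ≤ M := by exact_mod_cast hM
  have h2 : 0 ≤ Real.log M := Real.log_nonneg hM'
  have h3 := Real.log_le_sub_one_of_pos (by linarith : (0 : ℝ) < M)
  have h4 : (1 - 2 * ε) / Real.pi ≤ 1 := by
    rw [div_le_one Real.pi_pos]
    linarith [Real.pi_gt_three]
  rw [hh]
  nlinarith

lemma hh_mono {ε : ℝ} (h1 : ε < 1 / 2) {M : ℕ} (hM : 0 < M) : hh ε M ≤ hh ε (M + 1) := by
  have hM' : (0 : ℝ) < M := by exact_mod_cast hM
  rw [hh, hh]
  refine mul_le_mul_of_nonneg_left ?_ (div_nonneg (by linarith) Real.pi_pos.le)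
  exact Real.log_le_log hM' (by push_cast; linarith)

/-- **the band theorem**, both half planes -/
theorem band_of {ε h H : ℝ} (hε : 0 < ε) (hh0 : 0 < h) (hH : 0 ≤ H) : ∃ C : ℝ, 0 < C ∧
    ∀ᶠ M : ℕ in atTop, ∀ (c c' : ℝ) (A A2 : Matrix (Fin (M + 1) → Bool) (Fin M → Bool) ℂ),
      ‖A‖ ≤ 1 → ‖A2‖ ≤ 1 → That (M + 1) c' 0 ^ 2 * A = A2 * That M c 0 ^ 2 →
      ∀ a b : ℕ, h * M ≤ a → a ≤ H * M → h * M ≤ b → b ≤ H * M →
      ((∀ x : ℂ, 0 ≤ x.re → x.re ≤ 1 → 0 ≤ x.im →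
          ‖That (M + 1) c' x * A - A * That M c x‖ ≤ 4 * Real.exp (-(e3 * x.im))) →
        ‖That (M + 1) c' (1 / 2) ^ b * ((That (M + 1) c' (1 / 2) ^ 2 * A -
          A * That M c (1 / 2) ^ 2) - I • (That (M + 1) c' (1 / 2) ^ 2 * (A2 - A))) *
          That M c (1 / 2) ^ a‖ ≤ C * (M : ℝ) ^ (-(4 / 3) + ε)) ∧
      ((∀ x : ℂ, 0 ≤ x.re → x.re ≤ 1 → x.im ≤ 0 →
          ‖That (M + 1) c' x * A - A * That M c x‖ ≤ 4 * Real.exp (e3 * x.im)) →
        ‖That (M + 1) c' (1 / 2) ^ b * ((That (M + 1) c' (1 / 2) ^ 2 * A -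
          A * That M c (1 / 2) ^ 2) + I • (That (M + 1) c' (1 / 2) ^ 2 * (A2 - A))) *
          That M c (1 / 2) ^ a‖ ≤ C * (M : ℝ) ^ (-(4 / 3) + ε)) := by
  have hpi := Real.pi_pos
  obtain ⟨e, he⟩ : ∃ e : ℝ, e = min (3 * ε / 8) (1 / 4) := ⟨_, rfl⟩
  have he0 : 0 < e := by rw [he]; positivity
  have he1 : e ≤ 1 / 4 := by rw [he]; exact min_le_right _ _
  have he2 : 8 / 3 * e ≤ ε := by
    have : e ≤ 3 * ε / 8 := by rw [he]; exact min_le_left _ _
    linarith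
  obtain ⟨C1, hC1, hgood⟩ := Good_That he0 (by linarith : e < 1 / 2)
  obtain ⟨C2, hC2, hband⟩ := band_cons (r := 1 / 16) (by norm_num) (by norm_num)
  obtain ⟨K, hK⟩ : ∃ K : ℝ, K = Real.exp (12 * H) := ⟨_, rfl⟩
  have hK0 : 0 < K := by rw [hK]; exact Real.exp_pos _
  refine ⟨C2 * K ^ 2 * (4 * Real.exp (4 / 3 * Real.pi * (1 + C1)) +
    Real.exp (2 * Real.pi * C1) + 1) + 1, by positivity, ?_⟩
  filter_upwards [hgood, (tendsto_add_atTop_nat 1).eventually hgood,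
    Be979.ev_hh (by linarith : e < 1 / 2) (C1 + 2),
    ev_sub (a := 2 * e) (δ := 1 / 3) (by positivity) (by norm_num) 18 3,
    ev_sub (a := e) (δ := h / 2) he0 (by positivity) (32 * K) 2,
    eventually_ge_atTop 1] with M w1 w2 w3 w4 w5 w6 c c' A A2 hA hA2 hsh a b ha1 ha2 hb1 hb2
  have hM : 0 < M := w6
  have hM1 : (1 : ℝ) ≤ M := by exact_mod_cast w6
  have hM0 : (0 : ℝ) < M := by linarith
  obtain ⟨V, hV⟩ : ∃ V : ℝ, V = hh e M - C1 := ⟨_, rfl⟩
  obtain ⟨t, ht⟩ : ∃ t : ℝ, t = 9 * Real.exp (-((M : ℝ) ^ (2 * e) / 3)) := ⟨_, rfl⟩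
  have ht0 : 0 ≤ t := by rw [ht]; positivity
  have hV2 : 2 ≤ V := by rw [hV]; linarith
  have hmono := hh_mono (ε := e) (by linarith) hM
  have hVM : V ≤ M := by
    rw [hV]
    have := hh_le he0 (by linarith : e < 1 / 2) hM
    linarith
  obtain ⟨S, P, hR⟩ := w1 c V t hV.le ht.ge
  have hMM : (M : ℝ) ≤ ((M + 1 : ℕ) : ℝ) := by push_cast; linarith
  obtain ⟨S', P', hR'⟩ := w2 c' V t (by rw [hV]; linarith) (by
    rw [ht]
    refine mul_le_mul_of_nonneg_left (Real.exp_le_exp.2 (neg_le_neg ?_)) (by norm_num)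
    exact div_le_div_of_nonneg_right (Real.rpow_le_rpow hM0.le hMM (by positivity)) (by norm_num))
  -- norms of the powers
  have hTa : ‖That M c (1 / 2) ^ a‖ ≤ K := by
    refine (hR.pow a).trans ?_
    rw [← Real.exp_nat_mul, hK]
    refine Real.exp_le_exp.2 ?_
    rw [← mul_div_assoc, div_le_iff₀ hM0]
    linarith
  have hTb : ‖That (M + 1) c' (1 / 2) ^ b‖ ≤ K := by
    refine (hR'.pow b).trans ?_
    rw [← Real.exp_nat_mul, hK]
    refine Real.exp_le_exp.2 ?_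
    have : H * (M : ℝ) ≤ H * ((M + 1 : ℕ) : ℝ) := mul_le_mul_of_nonneg_left hMM hH
    rw [← mul_div_assoc, div_le_iff₀ (by linarith)]
    linarith
  -- the bad part
  obtain ⟨β, hβ⟩ : ∃ β : ℝ, β = Real.exp (-(h / 2 * (M : ℝ) ^ e)) := ⟨_, rfl⟩
  have hka : ‖(1 - P) * That M c (1 / 2) ^ a‖ ≤ β := by
    refine (hR.left a).trans ?_
    rw [hβ]
    refine Real.exp_le_exp.2 (neg_le_neg ?_)
    have e1 : (M : ℝ) ^ e = M * (M : ℝ) ^ (-1 + e) := by
      conv_lhs => rw [show e = 1 + (-1 + e) by ring, Real.rpow_add hM0, Real.rpow_one]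
    rw [e1, ← mul_assoc]
    refine mul_le_mul_of_nonneg_right ?_ (by positivity)
    nlinarith
  have hkb : ‖That (M + 1) c' (1 / 2) ^ b * (1 - P')‖ ≤ β := by
    refine (hR'.right b).trans ?_
    rw [hβ]
    refine Real.exp_le_exp.2 (neg_le_neg ?_)
    have hN0 : (0 : ℝ) < ((M + 1 : ℕ) : ℝ) := by linarith
    have e0 : (M : ℝ) ^ e ≤ ((M + 1 : ℕ) : ℝ) ^ e := Real.rpow_le_rpow hM0.le hMM he0.le
    have e1 : ((M + 1 : ℕ) : ℝ) ^ e = ((M + 1 : ℕ) : ℝ) * ((M + 1 : ℕ) : ℝ) ^ (-1 + e) := by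
      conv_lhs => rw [show e = 1 + (-1 + e) by ring, Real.rpow_add hN0, Real.rpow_one]
    calc h / 2 * (M : ℝ) ^ e ≤ h / 2 * ((M + 1 : ℕ) : ℝ) ^ e :=
          mul_le_mul_of_nonneg_left e0 (by positivity)
      _ = (h / 2 * ((M + 1 : ℕ) : ℝ)) * ((M + 1 : ℕ) : ℝ) ^ (-1 + e) := by rw [e1]; ring
      _ ≤ b * ((M + 1 : ℕ) : ℝ) ^ (-1 + e) := by
          refine mul_le_mul_of_nonneg_right ?_ (by positivity)
          push_cast
          nlinarith
  have hmid : (0 : ℝ) ≤ (1 / 2 : ℂ).re ∧ (1 / 2 : ℂ).re ≤ 1 := by norm_num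
  have hfin := hband (y0 := V - 1) (D := 4 * Real.exp (-(e3 * (V - 1)))) ht0 hV2 (by linarith)
    le_rfl hA hA2 hR'.good hR.good hsh (Bd932.That_norm _ _ hmid.1 hmid.2)
    (Bd932.That_norm _ _ hmid.1 hmid.2) hTb hTa hka hkb
  -- the sizes
  have q1 : 4 * Real.exp (-(e3 * (V - 1))) * Real.exp (-(Real.pi * (V - 1))) ≤
      4 * Real.exp (4 / 3 * Real.pi * (1 + C1)) * (M : ℝ) ^ (-(4 / 3) + ε) := by
    rw [mul_assoc, ← Real.exp_add, mul_assoc]
    refine mul_le_mul_of_nonneg_left ?_ (by norm_num)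
    have e1 : -(e3 * (V - 1)) + -(Real.pi * (V - 1)) =
        4 / 3 * Real.pi * (1 + C1) + -(4 / 3 * Real.pi * hh e M) := by
      rw [hV, show e3 = Real.pi / 3 from rfl]; ring
    rw [e1, Real.exp_add, exp_hh_mul hM]
    refine mul_le_mul_of_nonneg_left ?_ (Real.exp_pos _).le
    exact Real.rpow_le_rpow_of_exponent_le hM1 (by linarith)
  have q2 : Real.exp (-(2 * Real.pi * V)) ≤
      Real.exp (2 * Real.pi * C1) * (M : ℝ) ^ (-(4 / 3) + ε) := by
    have e1 : -(2 * Real.pi * V) = 2 * Real.pi * C1 + -(2 * Real.pi * hh e M) := by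
      rw [hV]; ring
    rw [e1, Real.exp_add, exp_hh_mul hM]
    refine mul_le_mul_of_nonneg_left ?_ (Real.exp_pos _).le
    exact Real.rpow_le_rpow_of_exponent_le hM1 (by linarith)
  have q3 : t * (1 + V) ≤ (M : ℝ) ^ (-(4 / 3) + ε) := by
    have e1 : t * (1 + V) ≤ 18 * Real.exp (-(1 / 3 * (M : ℝ) ^ (2 * e))) * M := by
      have e2 : t * (1 + V) ≤ t * (2 * M) := mul_le_mul_of_nonneg_left (by linarith) ht0
      refine e2.trans (le_of_eq ?_)
      rw [ht]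
      have e3 : (M : ℝ) ^ (2 * e) / 3 = 1 / 3 * (M : ℝ) ^ (2 * e) := by ring
      rw [e3]; ring
    have e2 : (M : ℝ) ^ (-3 : ℝ) * M = (M : ℝ) ^ (-2 : ℝ) := by
      conv_lhs => rw [← Real.rpow_add_one hM0.ne']
      norm_num
    calc t * (1 + V) ≤ (M : ℝ) ^ (-3 : ℝ) * M := e1.trans (mul_le_mul_of_nonneg_right w4 hM0.le)
      _ = (M : ℝ) ^ (-2 : ℝ) := e2
      _ ≤ _ := Real.rpow_le_rpow_of_exponent_le hM1 (by linarith)
  have q4 : 32 * K * β ≤ (M : ℝ) ^ (-(4 / 3) + ε) := by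
    rw [hβ]
    exact w5.trans (Real.rpow_le_rpow_of_exponent_le hM1 (by linarith))
  obtain ⟨X, hX⟩ : ∃ X : ℝ, X = (M : ℝ) ^ (-(4 / 3) + ε) := ⟨_, rfl⟩
  rw [← hX] at q1 q2 q3 q4
  rw [← hX]
  have htot : C2 * K ^ 2 * (4 * Real.exp (-(e3 * (V - 1))) * Real.exp (-(Real.pi * (V - 1))) +
      Real.exp (-(2 * Real.pi * V)) + t * (1 + V)) + 32 * K * β ≤
      (C2 * K ^ 2 * (4 * Real.exp (4 / 3 * Real.pi * (1 + C1)) +
        Real.exp (2 * Real.pi * C1) + 1) + 1) * X := by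
    have h1 := mul_le_mul_of_nonneg_left (add_le_add (add_le_add q1 q2) q3)
      (by positivity : 0 ≤ C2 * K ^ 2)
    refine (add_le_add h1 q4).trans (le_of_eq ?_)
    ring
  constructor
  · intro hD
    refine (hfin.1 fun x hx0 hx1 => ⟨Bd932.That_norm _ _ ?_ ?_, Bd932.That_norm _ _ ?_ ?_,
      ?_⟩).trans htot
    · simpa using hx0
    · simpa using hx1
    · simpa using hx0
    · simpa using hx1
    · have := hD (x + ((V - 1 : ℝ) : ℂ) * I) (by simpa using hx0) (by simpa using hx1)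
        (by simp; linarith)
      simpa using this
  · intro hD
    refine (hfin.2 fun x hx0 hx1 => ⟨Bd932.That_norm _ _ ?_ ?_, Bd932.That_norm _ _ ?_ ?_,
      ?_⟩).trans htot
    · simpa using hx0
    · simpa using hx1
    · simpa using hx0
    · simpa using hx1
    · have := hD (x - ((V - 1 : ℝ) : ℂ) * I) (by simpa using hx0) (by simpa using hx1)
        (by simp; linarith)
      have e5 : -(e3 * (V - 1)) = e3 * (1 - V) := by ring
      rw [e5]
      simpa using this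

end Crest.Agent.R158.Bm857
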