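import Crest.Agent.R158.Bm6_857
import Crest.Agent.R158.Bd5_932

/-!
# Row 158: the band theorem for the explicit insertion (helper857)

* `band` : the double step relation for `ins n p` (insertion at the gap `p`)
-/

set_option autoImplicit false

noncomputable section

open Complex Matrix Filter Topology
open scoped Matrix.Norms.L2Operator

namespace Crest.Agent.R158.Bm857

open Crest.Agent.R158.Bd932 (That e3 ins)

/-- powers of the isotropic row, every ring and every twist -/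
theorem That_pow_norm {M : ℕ} (hM : 0 < M) (c : ℝ) (n : ℕ) :
    ‖That M c (1 / 2) ^ n‖ ≤ Real.exp (12 * n / M) := by
  obtain ⟨d, U, Λ, h1, h2, hne, heig, hT⟩ := TPh_full e3 M c
  have hj : ∀ i, Crest.Agent.R150.Nut979.TJE Be979.et M c (fun s => U s i) (Λ i) :=
    fun i => ⟨hne i, heig i⟩
  have hTS : ∀ z, That M c z = Sp U (fun i => Be979.Lh M (Λ i) z) := by
    intro z
    rw [That, hT, Sp, ← Matrix.smul_mul, ← Matrix.mul_smul, ← Matrix.diagonal_smul]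
    congr 3
    funext i
    rw [Pi.smul_apply, smul_eq_mul, Be979.Lh, div_eq_inv_mul]
    rfl
  rw [hTS, Sp_pow h1 h2]
  refine Sp_norm h1 (by positivity) fun i => ?_
  rw [norm_pow]
  refine (pow_le_pow_left₀ (norm_nonneg _) (Be979.Lh_mid hM (hj i)) n).trans (le_of_eq ?_)
  rw [← Real.exp_nat_mul]
  congr 1
  ring

/-- **the band theorem for the insertion of a line**: two rows up and two columns to the right -/
theorem band {ε h H : ℝ} (hε : 0 < ε) (hh0 : 0 < h) (hH : 0 ≤ H) : ∃ C : ℝ, 0 < C ∧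
    ∀ᶠ n : ℕ in atTop, ∀ (c : ℝ) (p : Fin n) (a b : ℕ),
      h * (n + 1) ≤ a → a ≤ H * (n + 1) → h * (n + 1) ≤ b → b ≤ H * (n + 1) →
      ‖That (n + 2) (c + e3) (1 / 2) ^ b * ((That (n + 2) (c + e3) (1 / 2) ^ 2 *
          ins n p.succ.succ - ins n p.succ.succ * That (n + 1) c (1 / 2) ^ 2) -
        I • (That (n + 2) (c + e3) (1 / 2) ^ 2 *
          (ins n p.castSucc.castSucc - ins n p.succ.succ))) * That (n + 1) c (1 / 2) ^ a‖ ≤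
        C * ((n : ℝ) + 1) ^ (-(4 / 3) + ε) := by
  obtain ⟨C, hC, H1⟩ := band_of hε hh0 hH
  refine ⟨C, hC, ?_⟩
  filter_upwards [(tendsto_add_atTop_nat 1).eventually H1] with n hn c p a b ha1 ha2 hb1 hb2
  have e : ((n + 1 : ℕ) : ℝ) = (n : ℝ) + 1 := by push_cast; rfl
  rw [← e] at ha1 ha2 hb1 hb2 ⊢
  exact (hn c (c + e3) (ins n p.succ.succ) (ins n p.castSucc.castSucc) (Bd932.ins_norm _)
    (Bd932.ins_norm _) (Bd932.ins_shift2 c p) a b ha1 ha2 hb1 hb2).1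
    fun x h0 h1 h2 => Bd932.ins_defect_norm c _ h0 h1 h2

/-- matrix elements -/
theorem band_form {ε h H : ℝ} (hε : 0 < ε) (hh0 : 0 < h) (hH : 0 ≤ H) : ∃ C : ℝ, 0 < C ∧
    ∀ᶠ n : ℕ in atTop, ∀ (c : ℝ) (p : Fin n) (a b : ℕ),
      h * (n + 1) ≤ a → a ≤ H * (n + 1) → h * (n + 1) ≤ b → b ≤ H * (n + 1) →
      ∀ (φ : (Fin (n + 2) → Bool) → ℂ) (ψ : (Fin (n + 1) → Bool) → ℂ),
      ‖(star φ ⬝ᵥ ((That (n + 2) (c + e3) (1 / 2) ^ (b + 2) * ins n p.succ.succ *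
            That (n + 1) c (1 / 2) ^ a) *ᵥ ψ) -
          star φ ⬝ᵥ ((That (n + 2) (c + e3) (1 / 2) ^ b * ins n p.succ.succ *
            That (n + 1) c (1 / 2) ^ (a + 2)) *ᵥ ψ)) -
        I * (star φ ⬝ᵥ ((That (n + 2) (c + e3) (1 / 2) ^ (b + 2) * ins n p.castSucc.castSucc *
            That (n + 1) c (1 / 2) ^ a) *ᵥ ψ) -
          star φ ⬝ᵥ ((That (n + 2) (c + e3) (1 / 2) ^ (b + 2) * ins n p.succ.succ *
            That (n + 1) c (1 / 2) ^ a) *ᵥ ψ))‖ ≤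
        C * ((n : ℝ) + 1) ^ (-(4 / 3) + ε) *
          (Real.sqrt (∑ i, ‖φ i‖ ^ 2) * Real.sqrt (∑ i, ‖ψ i‖ ^ 2)) := by
  obtain ⟨C, hC, H1⟩ := band hε hh0 hH
  refine ⟨C, hC, ?_⟩
  filter_upwards [H1] with n hn c p a b ha1 ha2 hb1 hb2 φ ψ
  have h1 := hn c p a b ha1 ha2 hb1 hb2
  set T' := That (n + 2) (c + e3) (1 / 2) with hT'
  set T := That (n + 1) c (1 / 2) with hT
  set A := ins n p.succ.succ with hA
  set A2 := ins n p.castSucc.castSucc with hA2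
  have e1 : T' ^ b * ((T' ^ 2 * A - A * T ^ 2) - I • (T' ^ 2 * (A2 - A))) * T ^ a =
      (T' ^ (b + 2) * A * T ^ a - T' ^ b * A * T ^ (a + 2)) -
        I • (T' ^ (b + 2) * A2 * T ^ a - T' ^ (b + 2) * A * T ^ a) := by
    have p1 : T' ^ (b + 2) = T' ^ b * T' ^ 2 := pow_add _ _ _
    have p2 : T ^ (a + 2) = T ^ 2 * T ^ a := by rw [← pow_add, add_comm a]
    rw [p1, p2]
    simp only [Matrix.mul_sub, Matrix.sub_mul, Matrix.mul_smul, Matrix.smul_mul, Matrix.mul_assoc]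
  rw [e1] at h1
  obtain ⟨X, hX⟩ : ∃ X : Matrix (Fin (n + 2) → Bool) (Fin (n + 1) → Bool) ℂ,
    X = (T' ^ (b + 2) * A * T ^ a - T' ^ b * A * T ^ (a + 2)) -
        I • (T' ^ (b + 2) * A2 * T ^ a - T' ^ (b + 2) * A * T ^ a) := ⟨_, rfl⟩
  rw [← hX] at h1
  have e2 : (star φ ⬝ᵥ ((T' ^ (b + 2) * A * T ^ a) *ᵥ ψ) -
      star φ ⬝ᵥ ((T' ^ b * A * T ^ (a + 2)) *ᵥ ψ)) -
        I * (star φ ⬝ᵥ ((T' ^ (b + 2) * A2 * T ^ a) *ᵥ ψ) -
          star φ ⬝ᵥ ((T' ^ (b + 2) * A * T ^ a) *ᵥ ψ)) = star φ ⬝ᵥ (X *ᵥ ψ) := by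
    rw [hX]
    simp only [Matrix.sub_mulVec, Matrix.smul_mulVec, dotProduct_sub, dotProduct_smul, smul_eq_mul]
  rw [e2]
  have h2 : ‖star φ ⬝ᵥ (X *ᵥ ψ)‖ ≤ ‖X‖ * (Real.sqrt (∑ i, ‖φ i‖ ^ 2) *
      Real.sqrt (∑ i, ‖ψ i‖ ^ 2)) := by
    have h3 := norm_inner_le_norm (𝕜 := ℂ) (WithLp.toLp 2 φ : EuclideanSpace ℂ (Fin (n + 2) → Bool))
      (WithLp.toLp 2 (X *ᵥ ψ))
    have h4 := Matrix.l2_opNorm_mulVec X (WithLp.toLp 2 ψ : EuclideanSpace ℂ (Fin (n + 1) → Bool))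
    have h5 : (inner ℂ (WithLp.toLp 2 φ : EuclideanSpace ℂ (Fin (n + 2) → Bool))
        (WithLp.toLp 2 (X *ᵥ ψ)) : ℂ) = star φ ⬝ᵥ (X *ᵥ ψ) := by
      rw [EuclideanSpace.inner_eq_star_dotProduct, dotProduct_comm]
    rw [h5] at h3
    have n1 : ‖(WithLp.toLp 2 φ : EuclideanSpace ℂ (Fin (n + 2) → Bool))‖ =
        Real.sqrt (∑ i, ‖φ i‖ ^ 2) := by rw [EuclideanSpace.norm_eq]
    have n2 : ‖(WithLp.toLp 2 ψ : EuclideanSpace ℂ (Fin (n + 1) → Bool))‖ =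
        Real.sqrt (∑ i, ‖ψ i‖ ^ 2) := by rw [EuclideanSpace.norm_eq]
    have h6 : ‖(WithLp.toLp 2 (X *ᵥ ψ) : EuclideanSpace ℂ (Fin (n + 2) → Bool))‖ ≤
        ‖X‖ * Real.sqrt (∑ i, ‖ψ i‖ ^ 2) := by
      rw [← n2]; exact h4
    calc ‖star φ ⬝ᵥ (X *ᵥ ψ)‖ ≤ Real.sqrt (∑ i, ‖φ i‖ ^ 2) *
          (‖X‖ * Real.sqrt (∑ i, ‖ψ i‖ ^ 2)) := by
          rw [n1] at h3
          exact h3.trans (mul_le_mul_of_nonneg_left h6 (Real.sqrt_nonneg _))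
      _ = _ := by ring
  exact h2.trans (mul_le_mul_of_nonneg_right h1 (by positivity))

end Crest.Agent.R158.Bm857
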