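import Crest.Agent.R158.Hb2_656
import Crest.Agent.R158.Cw5_161

/-!
# R158, S0237, BLOCK BL, (B9, DN) (helper468), file Bn1: macro vertices

* **`mem_vertex`** : the tiles of `D F L` near a macro vertex
* `vtx_u`, `vtx_l` : the patterns of (B9, DN)
-/

set_option autoImplicit false

noncomputable section

namespace Crest.Agent.R158.Bn468

open Crest.Agent.R158.Sp896 (V)
open Crest.Agent.R158.Env664 (D Run mem_D div_iff)
open Crest.Agent.R158.Cw161 (Bx Sh pat shr pat_q1 pat_t0 pat_t3 pat_s0)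
open Crest.Agent.R158.Hb656 (Nt mem_Nt)
open Crest.Agent.R158.Bh679 (NP)

/-- **the tiles of `D F L` near the macro vertex `(i, j)`** -/
theorem mem_vertex {F : Finset V} {L : ℤ} (hL : 0 < L) {i j : ℤ} {t : V}
    (h1 : i * L - L ≤ t.1) (h2 : t.1 < i * L + L) (h3 : j * L - L ≤ t.2) (h4 : t.2 < j * L + L) :
    t ∈ D F L ↔ (t.1 < i * L ∧ t.2 < j * L ∧ (i - 1, j - 1) ∈ F) ∨
      (t.1 < i * L ∧ j * L ≤ t.2 ∧ (i - 1, j) ∈ F) ∨
      (i * L ≤ t.1 ∧ t.2 < j * L ∧ (i, j - 1) ∈ F) ∨ (i * L ≤ t.1 ∧ j * L ≤ t.2 ∧ (i, j) ∈ F) := by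
  rw [mem_D hL]
  have e1 : t.1 / L = if t.1 < i * L then i - 1 else i := by
    split_ifs with h
    · exact (div_iff hL _ _).2 ⟨by linarith, by linarith⟩
    · exact (div_iff hL _ _).2 ⟨by linarith, by linarith⟩
  have e2 : t.2 / L = if t.2 < j * L then j - 1 else j := by
    split_ifs with h
    · exact (div_iff hL _ _).2 ⟨by linarith, by linarith⟩
    · exact (div_iff hL _ _).2 ⟨by linarith, by linarith⟩
  rw [e1, e2]
  by_cases k1 : t.1 < i * L <;> by_cases k2 : t.2 < j * L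
  · have n1 : ¬ i * L ≤ t.1 := by omega
    have n2 : ¬ j * L ≤ t.2 := by omega
    simp [k1, k2, n1, n2]
  · have n1 : ¬ i * L ≤ t.1 := by omega
    have n2 : j * L ≤ t.2 := by omega
    simp [k1, k2, n1, n2]
  · have n1 : i * L ≤ t.1 := by omega
    have n2 : ¬ j * L ≤ t.2 := by omega
    simp [k1, k2, n1, n2]
  · have n1 : i * L ≤ t.1 := by omega
    have n2 : j * L ≤ t.2 := by omega
    simp [k1, k2, n1, n2]

/-! ### the two windows of (B9, DN) -/

section dn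

variable {F : Finset V} {L k b b' y0 y1 : ℤ} {r n : ℕ}

/-- the lower notch -/
def Nl (L k b y0 : ℤ) : Finset V := ({b * L + L - 1} : Finset ℤ) ×ˢ Finset.Ico y0 (k * L)

theorem mem_Nl {t : V} : t ∈ Nl L k b y0 ↔ t.1 = b * L + L - 1 ∧ y0 ≤ t.2 ∧ t.2 < k * L := by
  unfold Nl
  simp only [Finset.mem_product, Finset.mem_singleton, Finset.mem_Ico]

theorem Nl_sub : Nl L k b y0 ⊆ Nt L k b b' y0 y1 := by
  intro t ht
  rw [mem_Nl] at ht
  rw [mem_Nt]
  exact Or.inl ht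

/-- chart coordinates -/
theorem shr_cases (y1 : ℤ) (t : V) : (t.2 < y1 ∧ shr y1 (-1) t = t) ∨
    (y1 ≤ t.2 ∧ shr y1 (-1) t = (t.1 - 1, t.2)) := by
  unfold shr
  by_cases h : t.2 < y1
  · left; exact ⟨h, by rw [if_pos h]⟩
  · right; exact ⟨by omega, by rw [if_neg h]; rfl⟩

/-- **window at the upper notch**, DN and UP: the right end of the upper run -/
theorem pat_u (np : NP F) (hL : 0 < L) (h1 : (b', k) ∈ F) (h2 : (b' + 1, k) ∉ F)
    (hbb : b ≠ b') (hy0 : y0 < k * L) (hy1 : k * L < y1) (hr : y1 - k * L + 1 ≤ r)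
    (hn : 4 * (n : ℤ) + 8 ≤ L) :
    ∃ (sh : Sh) (e : ZMod 4), ∀ S ⊆ Nt L k b b' y0 y1, ∀ t : V,
      Bx (b' * L + L - 2) (k * L - 1) (n + 1) (shr y1 (-1) t) →
      ¬ Bx (b' * L + L - 2) (k * L - 1) (r - 1) (shr y1 (-1) t) →
      (t ∈ D F L \ S ↔ pat (b' * L + L - 2) (k * L - 1) sh e (shr y1 (-1) t)) := by
  have key : ∀ t : V, Bx (b' * L + L - 2) (k * L - 1) (n + 1) (shr y1 (-1) t) →
      b' * L + L - L ≤ t.1 ∧ t.1 < b' * L + L + L ∧ k * L - L ≤ t.2 ∧ t.2 < k * L + L := by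
    intro t ht
    unfold Bx at ht
    push_cast at ht
    rcases shr_cases y1 t with ⟨-, e⟩ | ⟨-, e⟩ <;> rw [e] at ht <;> (try simp only at ht) <;> omega
  have hm : ∀ t : V, Bx (b' * L + L - 2) (k * L - 1) (n + 1) (shr y1 (-1) t) →
      (t ∈ D F L ↔ (t.1 < b' * L + L ∧ t.2 < k * L ∧ (b', k - 1) ∈ F) ∨
      (t.1 < b' * L + L ∧ k * L ≤ t.2) ∨ (b' * L + L ≤ t.1 ∧ t.2 < k * L ∧ (b' + 1, k - 1) ∈ F)) := by
    intro t ht
    obtain ⟨g1, g2, g3, g4⟩ := key t ht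
    have e : (b' + 1) * L = b' * L + L := by ring
    rw [mem_vertex hL (i := b' + 1) (j := k) (by rw [e]; exact g1) (by rw [e]; exact g2) g3 g4, e,
      add_sub_cancel_right]
    simp only [h1, h2, and_true, and_false, or_false]
  have hS : ∀ S ⊆ Nt L k b b' y0 y1, ∀ t : V,
      Bx (b' * L + L - 2) (k * L - 1) (n + 1) (shr y1 (-1) t) →
      ¬ Bx (b' * L + L - 2) (k * L - 1) (r - 1) (shr y1 (-1) t) → t ∉ S := by
    intro S hS t h3 h4 h5
    have h6 := mem_Nt.1 (hS h5)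
    obtain ⟨g1, g2, g3, g4⟩ := key t h3
    rcases h6 with ⟨a1, a2, a3⟩ | ⟨a1, a2, a3⟩
    · -- the lower notch is far
      have : b + 1 ≤ b' ∨ b' + 1 ≤ b := by omega
      rcases this with h | h
      · have := mul_le_mul_of_nonneg_right h hL.le
        rw [add_mul, one_mul] at this
        unfold Bx at h3
        push_cast at h3
        rcases shr_cases y1 t with ⟨-, e⟩ | ⟨-, e⟩ <;> rw [e] at h3 <;> (try simp only at h3) <;> omega
      · have := mul_le_mul_of_nonneg_right h hL.le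
        rw [add_mul, one_mul] at this
        unfold Bx at h3
        push_cast at h3
        rcases shr_cases y1 t with ⟨-, e⟩ | ⟨-, e⟩ <;> rw [e] at h3 <;> (try simp only at h3) <;> omega
    · apply h4
      unfold Bx
      rcases shr_cases y1 t with ⟨-, e⟩ | ⟨h, e⟩
      · rw [e]; omega
      · omega
  by_cases f1 : (b', k - 1) ∈ F
  · by_cases f2 : (b' + 1, k - 1) ∈ F
    · refine ⟨.t, 0, fun S h3 t h4 h5 => ?_⟩
      rw [Finset.mem_sdiff, and_iff_left (hS S h3 t h4 h5), hm t h4, pat_t0]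
      simp only [f1, f2, and_true]
      unfold Bx at h5
      rcases shr_cases y1 t with ⟨h, e⟩ | ⟨h, e⟩ <;> rw [e] at h5 ⊢ <;> (try simp only at h5 ⊢) <;> omega
    · refine ⟨.h1, 0, fun S h3 t h4 h5 => ?_⟩
      rw [Finset.mem_sdiff, and_iff_left (hS S h3 t h4 h5), hm t h4, pat_s0]
      simp only [f1, f2, and_true, and_false, or_false]
      unfold Bx at h5
      rcases shr_cases y1 t with ⟨h, e⟩ | ⟨h, e⟩ <;> rw [e] at h5 ⊢ <;> (try simp only at h5 ⊢) <;> omega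
  · have f2 : (b' + 1, k - 1) ∉ F := fun f2 => by
      have := (np b' (k - 1)).2
      rw [sub_add_cancel] at this
      exact this ⟨f2, h1, f1, h2⟩
    refine ⟨.q, 1, fun S h3 t h4 h5 => ?_⟩
    rw [Finset.mem_sdiff, and_iff_left (hS S h3 t h4 h5), hm t h4, pat_q1]
    simp only [f1, f2, and_false, or_false, false_or]
    unfold Bx at h5
    rcases shr_cases y1 t with ⟨h, e⟩ | ⟨h, e⟩ <;> rw [e] at h5 ⊢ <;> (try simp only at h5 ⊢) <;> omega

/-- **window at the lower notch**, DN: three quarters -/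
theorem pat_l (hL : 0 < L) (h1 : (b, k - 1) ∈ F) (h2 : (b, k) ∈ F) (h3 : (b + 1, k) ∈ F)
    (h4 : (b + 1, k - 1) ∉ F) (hbb : b ≠ b') (hy0 : y0 < k * L) (hy1 : k * L < y1)
    (hr : k * L - y0 + 1 ≤ r) (hn : 4 * (n : ℤ) + 8 ≤ L) :
    ∀ S ⊆ Nt L k b b' y0 y1, ∀ t : V,
      Bx (b * L + L - 1) (k * L - 1) (n + 1) (shr y1 (-1) t) →
      ¬ Bx (b * L + L - 1) (k * L - 1) (r - 1) (shr y1 (-1) t) →
      (t ∈ D F L \ S ↔ pat (b * L + L - 1) (k * L - 1) .t 3 (shr y1 (-1) t)) := by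
  have key : ∀ t : V, Bx (b * L + L - 1) (k * L - 1) (n + 1) (shr y1 (-1) t) →
      b * L + L - L ≤ t.1 ∧ t.1 < b * L + L + L ∧ k * L - L ≤ t.2 ∧ t.2 < k * L + L := by
    intro t ht
    unfold Bx at ht
    push_cast at ht
    rcases shr_cases y1 t with ⟨-, e⟩ | ⟨-, e⟩ <;> rw [e] at ht <;> (try simp only at ht) <;> omega
  intro S hS t g3 g4
  obtain ⟨k1, k2, k3, k4⟩ := key t g3
  have e : (b + 1) * L = b * L + L := by ring
  have hm : t ∈ D F L ↔ (t.1 < b * L + L ∧ t.2 < k * L) ∨ (t.1 < b * L + L ∧ k * L ≤ t.2) ∨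
      (b * L + L ≤ t.1 ∧ k * L ≤ t.2) := by
    rw [mem_vertex hL (i := b + 1) (j := k) (by rw [e]; exact k1) (by rw [e]; exact k2) k3 k4, e,
      add_sub_cancel_right]
    simp only [h1, h2, h3, h4, and_true, and_false, false_or]
  have hnS : t ∉ S := by
    intro h5
    have h6 := mem_Nt.1 (hS h5)
    rcases h6 with ⟨a1, a2, a3⟩ | ⟨a1, a2, a3⟩
    · apply g4
      unfold Bx
      rcases shr_cases y1 t with ⟨-, e⟩ | ⟨h, e⟩
      · rw [e]; omega
      · omega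
    · have : b + 1 ≤ b' ∨ b' + 1 ≤ b := by omega
      unfold Bx at g3
      push_cast at g3
      rcases this with h | h
      · have := mul_le_mul_of_nonneg_right h hL.le
        rw [add_mul, one_mul] at this
        rcases shr_cases y1 t with ⟨-, e⟩ | ⟨-, e⟩ <;> rw [e] at g3 <;> (try simp only at g3) <;> omega
      · have := mul_le_mul_of_nonneg_right h hL.le
        rw [add_mul, one_mul] at this
        rcases shr_cases y1 t with ⟨-, e⟩ | ⟨-, e⟩ <;> rw [e] at g3 <;> (try simp only at g3) <;> omega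
  rw [Finset.mem_sdiff, and_iff_left hnS, hm, pat_t3]
  unfold Bx at g4
  rcases shr_cases y1 t with ⟨h, e⟩ | ⟨h, e⟩ <;> rw [e] at g4 ⊢ <;> (try simp only at g4 ⊢) <;> omega

end dn

end Crest.Agent.R158.Bn468
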