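import Crest.Agent.R158.Sp0_896

/-!
# Row 158, Block SP (helper331, for helper896): discrete Jordan facts for finite sets of cells

Cells are their lower-left corners.  `lc a b` / `rc a b` : the left / right cell of a unit dart.

* `jump` : the winding count of a closed list of unit darts jumps by `count (a,b) - count (b,a)`
* `exists_cyc` : the boundary of a finite connected set of cells with connected complement is one
  simple closed lattice walk
* `sep` : a connected set of cells touching the boundary walk at the darts `i` and `j` separates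
-/

set_option autoImplicit false

namespace Crest.Agent.R158.SpD331

open scoped Classical

/-- lattice vertices, cells (lower-left corners) -/
abbrev V := ℤ × ℤ

/-- unit step -/
def Adj (a b : V) : Prop :=
  (b.2 = a.2 ∧ (b.1 = a.1 + 1 ∨ a.1 = b.1 + 1)) ∨ (b.1 = a.1 ∧ (b.2 = a.2 + 1 ∨ a.2 = b.2 + 1))

theorem Adj.symm {a b : V} (h : Adj a b) : Adj b a := by
  unfold Adj at *; omega

/-- connection inside `S` (the starting point is not required to be in `S`) -/
def Con (S : Set V) (q q' : V) : Prop := Relation.ReflTransGen (fun a b => Adj a b ∧ b ∈ S) q q'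

/-- left cell of the dart `a → b` -/
def lc (a b : V) : V := ((a.1 + b.1 - (b.2 - a.2) - 1) / 2, (a.2 + b.2 + (b.1 - a.1) - 1) / 2)

/-- right cell of the dart `a → b` -/
def rc (a b : V) : V := ((a.1 + b.1 + (b.2 - a.2) - 1) / 2, (a.2 + b.2 - (b.1 - a.1) - 1) / 2)

theorem lc_swap {a b : V} (h : Adj a b) : lc b a = rc a b := by
  unfold Adj at h
  simp only [lc, rc, Prod.mk.injEq]
  constructor <;> omega

theorem rc_swap {a b : V} (h : Adj a b) : rc b a = lc a b := by
  unfold Adj at h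
  simp only [lc, rc, Prod.mk.injEq]
  constructor <;> omega

theorem exists_dart {q q' : V} (h : Adj q q') : ∃ a b, Adj a b ∧ lc a b = q ∧ rc a b = q' := by
  obtain ⟨x, y⟩ := q
  obtain ⟨x', y'⟩ := q'
  unfold Adj at h
  simp only at h
  rcases h with ⟨h1, h2 | h2⟩ | ⟨h1, h2 | h2⟩
  · refine ⟨(x + 1, y), (x + 1, y + 1), Or.inr ⟨rfl, Or.inl rfl⟩, ?_, ?_⟩ <;>
      (simp only [lc, rc, Prod.mk.injEq]; constructor <;> omega)
  · refine ⟨(x, y + 1), (x, y), Or.inr ⟨rfl, Or.inr rfl⟩, ?_, ?_⟩ <;>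
      (simp only [lc, rc, Prod.mk.injEq]; constructor <;> omega)
  · refine ⟨(x + 1, y + 1), (x, y + 1), Or.inl ⟨rfl, Or.inr rfl⟩, ?_, ?_⟩ <;>
      (simp only [lc, rc, Prod.mk.injEq]; constructor <;> omega)
  · refine ⟨(x, y), (x + 1, y), Or.inl ⟨rfl, Or.inl rfl⟩, ?_, ?_⟩ <;>
      (simp only [lc, rc, Prod.mk.injEq]; constructor <;> omega)

/-! ### the winding count -/

/-- contribution of a dart to the winding count at the cell `q` -/
def wt (q : V) (e : V × V) : ℤ :=
  if q.1 < e.1.1 then (if q.2 < e.2.2 then 1 else 0) - (if q.2 < e.1.2 then 1 else 0) else 0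

/-- winding count -/
def W (l : List (V × V)) (q : V) : ℤ := (l.map (wt q)).sum

/-- closed lists of darts -/
def Closed (l : List (V × V)) : Prop := ∀ h : V → ℤ, (l.map fun e => h e.2 - h e.1).sum = 0

theorem sum_count (l : List (V × V)) (f c : V × V → ℤ) (x y : V × V)
    (h : ∀ e ∈ l, f e = (if e = x then 1 else 0) - (if e = y then 1 else 0) - c e) :
    (l.map f).sum = (l.count x : ℤ) - l.count y - (l.map c).sum := by
  induction l with
  | nil => simp
  | cons e l ih =>
    have h1 := h e List.mem_cons_self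
    have h2 := ih fun e' he' => h e' (List.mem_cons_of_mem _ he')
    rw [List.map_cons, List.sum_cons, List.map_cons, List.sum_cons, h2, h1, List.count_cons,
      List.count_cons]
    by_cases hx : e = x <;> by_cases hy : e = y <;> simp [hx, hy] <;> ring

theorem W_sub (l : List (V × V)) (q q' : V) :
    W l q - W l q' = (l.map fun e => wt q e - wt q' e).sum := by
  unfold W
  induction l with
  | nil => simp
  | cons e l ih =>
    simp only [List.map_cons, List.sum_cons]
    rw [← ih]; ring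

theorem jump_aux {l : List (V × V)} (hl : ∀ e ∈ l, Adj e.1 e.2) (hc : Closed l) {a b : V}
    (hab : (b.2 = a.2 ∧ b.1 = a.1 + 1) ∨ (b.1 = a.1 ∧ b.2 = a.2 + 1)) :
    W l (lc a b) - W l (rc a b) = (l.count (a, b) : ℤ) - l.count (b, a) := by
  rw [W_sub]
  obtain ⟨x, y⟩ := a
  obtain ⟨x', y'⟩ := b
  simp only at hab
  rcases hab with ⟨h1, h2⟩ | ⟨h1, h2⟩
  · subst h1 h2
    obtain ⟨hf, hhf⟩ : ∃ hf : V → ℤ, ∀ v, hf v = if x < v.1 ∧ v.2 = y' then (1 : ℤ) else 0 :=
      ⟨_, fun _ => rfl⟩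
    rw [sum_count l _ (fun e => hf e.2 - hf e.1) ((x, y'), (x + 1, y'))
      ((x + 1, y'), (x, y')), hc hf, sub_zero]
    rintro ⟨⟨c1, c2⟩, ⟨d1, d2⟩⟩ he
    have hA := hl _ he
    have e1 : lc (x, y') (x + 1, y') = (x, y') := by
      simp only [lc, Prod.mk.injEq]; constructor <;> omega
    have e2 : rc (x, y') (x + 1, y') = (x, y' - 1) := by
      simp only [rc, Prod.mk.injEq]; constructor <;> omega
    rw [e1, e2, hhf, hhf]
    unfold wt
    unfold Adj at hA
    simp only [Prod.mk.injEq] at hA ⊢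
    split_ifs <;> omega
  · subst h1 h2
    rw [sum_count l _ (fun _ => 0) ((x', y), (x', y + 1)) ((x', y + 1), (x', y))]
    · simp
    rintro ⟨⟨c1, c2⟩, ⟨d1, d2⟩⟩ he
    have hA := hl _ he
    have e1 : lc (x', y) (x', y + 1) = (x' - 1, y) := by
      simp only [lc, Prod.mk.injEq]; constructor <;> omega
    have e2 : rc (x', y) (x', y + 1) = (x', y) := by
      simp only [rc, Prod.mk.injEq]; constructor <;> omega
    rw [e1, e2]
    unfold wt
    unfold Adj at hA
    simp only [Prod.mk.injEq] at hA ⊢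
    split_ifs <;> omega

/-- **Jump lemma** -/
theorem jump {l : List (V × V)} (hl : ∀ e ∈ l, Adj e.1 e.2) (hc : Closed l) {a b : V}
    (hab : Adj a b) : W l (lc a b) - W l (rc a b) = (l.count (a, b) : ℤ) - l.count (b, a) := by
  rcases id hab with ⟨h1, h2 | h2⟩ | ⟨h1, h2 | h2⟩
  · exact jump_aux hl hc (Or.inl ⟨h1, h2⟩)
  · have := jump_aux hl hc (a := b) (b := a) (Or.inl ⟨h1.symm, h2⟩)
    rw [lc_swap hab, rc_swap hab] at this
    linarith
  · exact jump_aux hl hc (Or.inr ⟨h1, h2⟩)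
  · have := jump_aux hl hc (a := b) (b := a) (Or.inr ⟨h1.symm, h2⟩)
    rw [lc_swap hab, rc_swap hab] at this
    linarith

/-- no dart on the edge between two cells: same winding count -/
theorem W_eq_of_step {l : List (V × V)} (hl : ∀ e ∈ l, Adj e.1 e.2) (hc : Closed l) {q q' : V}
    (h : Adj q q') (hno : ∀ e ∈ l, ¬(lc e.1 e.2 = q ∧ rc e.1 e.2 = q') ∧
      ¬(lc e.1 e.2 = q' ∧ rc e.1 e.2 = q)) : W l q = W l q' := by
  obtain ⟨a, b, hab, h1, h2⟩ := exists_dart h
  have hj := jump hl hc hab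
  have c1 : l.count (a, b) = 0 := List.count_eq_zero.2 fun he => (hno _ he).1 ⟨h1, h2⟩
  have c2 : l.count (b, a) = 0 := List.count_eq_zero.2 fun he =>
    (hno _ he).2 ⟨by rw [lc_swap hab]; exact h2, by rw [rc_swap hab]; exact h1⟩
  rw [c1, c2, h1, h2] at hj
  simpa [sub_eq_zero] using hj

/-- constancy of the winding count along a connection in `S` when no dart of `l` separates two
cells of `S` -/
theorem W_const {l : List (V × V)} (hl : ∀ e ∈ l, Adj e.1 e.2) (hc : Closed l) {S : Set V}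
    (hno : ∀ e ∈ l, lc e.1 e.2 ∈ S → rc e.1 e.2 ∉ S) {q q' : V} (hq : q ∈ S) (h : Con S q q') :
    W l q = W l q' ∧ q' ∈ S := by
  induction h with
  | refl => exact ⟨rfl, hq⟩
  | @tail b c _ h2 ih =>
    obtain ⟨ih1, ih2⟩ := ih
    refine ⟨ih1.trans (W_eq_of_step hl hc h2.1 fun e he => ⟨?_, ?_⟩), h2.2⟩
    · rintro ⟨h3, h4⟩
      exact hno e he (h3 ▸ ih2) (h4 ▸ h2.2)
    · rintro ⟨h3, h4⟩
      exact hno e he (h3 ▸ h2.2) (h4 ▸ ih2)

theorem W_far {l : List (V × V)} : ∃ X : ℤ, ∀ q : V, X ≤ q.1 → W l q = 0 := by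
  induction l with
  | nil => exact ⟨0, fun q _ => rfl⟩
  | cons e l ih =>
    obtain ⟨X, hX⟩ := ih
    refine ⟨max X e.1.1, fun q hq => ?_⟩
    have h1 := hX q (le_trans (le_max_left _ _) hq)
    have h2 : ¬ q.1 < e.1.1 := not_lt.2 (le_trans (le_max_right _ _) hq)
    unfold W at h1 ⊢
    rw [List.map_cons, List.sum_cons, h1, add_zero]
    unfold wt
    rw [if_neg h2]

/-! ### boundary darts -/

/-- boundary dart of `F` : the left cell is in `F`, the right cell is not -/
def BD (F : Set V) (a b : V) : Prop := Adj a b ∧ lc a b ∈ F ∧ rc a b ∉ F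

theorem exists_succ {F : Set V} {a b : V} (h : BD F a b) : ∃ c, BD F b c := by
  obtain ⟨hab, hl, hr⟩ := h
  obtain ⟨x, y⟩ := a
  obtain ⟨x', y'⟩ := b
  have hA := hab
  unfold Adj at hA
  simp only at hA
  have r1 : Adj (x', y') (x' + (y' - y), y' - (x' - x)) := by
    unfold Adj; simp only; omega
  have s1 : Adj (x', y') (2 * x' - x, 2 * y' - y) := by
    unfold Adj; simp only; omega
  have l1 : Adj (x', y') (x' - (y' - y), y' + (x' - x)) := by
    unfold Adj; simp only; omega
  have e1 : rc (x', y') (x' + (y' - y), y' - (x' - x)) = rc (x, y) (x', y') := by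
    simp only [rc, Prod.mk.injEq]; constructor <;> omega
  have e2 : lc (x', y') (x' - (y' - y), y' + (x' - x)) = lc (x, y) (x', y') := by
    simp only [lc, Prod.mk.injEq]; constructor <;> omega
  have e3 : rc (x', y') (2 * x' - x, 2 * y' - y) =
      lc (x', y') (x' + (y' - y), y' - (x' - x)) := by
    simp only [rc, lc, Prod.mk.injEq]; constructor <;> omega
  have e4 : rc (x', y') (x' - (y' - y), y' + (x' - x)) =
      lc (x', y') (2 * x' - x, 2 * y' - y) := by
    simp only [rc, lc, Prod.mk.injEq]; constructor <;> omega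
  by_cases h1 : lc (x', y') (x' + (y' - y), y' - (x' - x)) ∈ F
  · exact ⟨_, r1, h1, by rw [e1]; exact hr⟩
  · by_cases h2 : lc (x', y') (2 * x' - x, 2 * y' - y) ∈ F
    · exact ⟨_, s1, h2, by rw [e3]; exact h1⟩
    · exact ⟨_, l1, by rw [e2]; exact hl, by rw [e4]; exact h2⟩

theorem exists_BD {F : Set V} (hF : F.Finite) (hne : F.Nonempty) : ∃ a b, BD F a b := by
  obtain ⟨q, hq, hmax⟩ := hF.exists_maximalFor (fun q : V => q.1) F hne
  obtain ⟨a, b, hab, h1, h2⟩ := exists_dart (q := q) (q' := (q.1 + 1, q.2))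
    (Or.inl ⟨rfl, Or.inl rfl⟩)
  refine ⟨a, b, hab, h1 ▸ hq, fun h3 => ?_⟩
  rw [h2] at h3
  have := hmax h3 (show q.1 ≤ q.1 + 1 by omega)
  simp only at this
  omega

theorem corner_l {a b : V} (h : Adj a b) : (lc a b).1 ≤ a.1 ∧ a.1 ≤ (lc a b).1 + 1 ∧
    (lc a b).2 ≤ a.2 ∧ a.2 ≤ (lc a b).2 + 1 := by
  unfold Adj at h
  simp only [lc]
  omega

theorem corner_r {a b : V} (h : Adj a b) : (rc a b).1 ≤ a.1 ∧ a.1 ≤ (rc a b).1 + 1 ∧
    (rc a b).2 ≤ a.2 ∧ a.2 ≤ (rc a b).2 + 1 := by
  unfold Adj at h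
  simp only [rc]
  omega

/-- the boundary walk -/
theorem exists_walk {F : Set V} (hF : F.Finite) (hne : F.Nonempty) :
    ∃ (x : ℕ → V) (L : ℕ), 1 ≤ L ∧ (∀ n, BD F (x n) (x (n + 1))) ∧ x L = x 0 ∧
      ∀ i < L, ∀ j < L, x i = x j → i = j := by
  obtain ⟨a, b, hab⟩ := exists_BD hF hne
  have hs : ∀ e : {e : V × V // BD F e.1 e.2}, ∃ e' : {e : V × V // BD F e.1 e.2},
      e'.1.1 = e.1.2 := fun e => by
    obtain ⟨c, hc⟩ := exists_succ e.2
    exact ⟨⟨(e.1.2, c), hc⟩, rfl⟩
  choose nx hnx using hs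
  obtain ⟨y, hy⟩ : ∃ y : ℕ → {e : V × V // BD F e.1 e.2}, ∀ n, y (n + 1) = nx (y n) :=
    ⟨fun n => nx^[n] ⟨(a, b), hab⟩, fun n => Function.iterate_succ_apply' _ _ _⟩
  obtain ⟨x, hx⟩ : ∃ x : ℕ → V, ∀ n, x n = (y n).1.1 := ⟨_, fun _ => rfl⟩
  have hBD : ∀ n, BD F (x n) (x (n + 1)) := fun n => by
    rw [hx, hx, hy, hnx]
    exact (y n).2
  have hfin : (⋃ c ∈ F, (Set.Icc c.1 (c.1 + 1)) ×ˢ (Set.Icc c.2 (c.2 + 1)) : Set V).Finite :=
    hF.biUnion fun c _ => (Set.finite_Icc _ _).prod (Set.finite_Icc _ _)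
  have hmem : ∀ n, x n ∈ (⋃ c ∈ F, (Set.Icc c.1 (c.1 + 1)) ×ˢ (Set.Icc c.2 (c.2 + 1)) : Set V) := by
    intro n
    have h1 := corner_l (hBD n).1
    simp only [Set.mem_iUnion, Set.mem_prod, Set.mem_Icc, exists_prop]
    exact ⟨lc (x n) (x (n + 1)), (hBD n).2.1, ⟨h1.1, h1.2.1⟩, h1.2.2.1, h1.2.2.2⟩
  have hex : ∃ j, ∃ i < j, x i = x j := by
    by_contra hno
    push Not at hno
    have hinj : Function.Injective x := by
      intro i j hij
      rcases lt_trichotomy i j with h | h | h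
      · exact absurd hij (hno j i h)
      · exact h
      · exact absurd hij.symm (hno i j h)
    exact Set.infinite_range_of_injective hinj (hfin.subset (by rintro _ ⟨n, rfl⟩; exact hmem n))
  obtain ⟨i, hi, hij⟩ := Nat.find_spec hex
  have hmin := fun m (hm : m < Nat.find hex) => Nat.find_min hex hm
  refine ⟨fun n => x (i + n), Nat.find hex - i, by omega, fun n => hBD (i + n), ?_, ?_⟩
  · simp only
    rw [add_zero, hij]
    congr 1
    omega
  · intro m hm m' hm' h
    simp only at h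
    rcases lt_trichotomy m m' with h1 | h1 | h1
    · exact absurd ⟨i + m, by omega, h⟩ (hmin (i + m') (by omega))
    · exact h1
    · exact absurd ⟨i + m', by omega, h.symm⟩ (hmin (i + m) (by omega))

/-- the darts of a walk -/
def darts (x : ℕ → V) (L : ℕ) : List (V × V) := (List.range L).map fun k => (x k, x (k + 1))

theorem mem_darts {x : ℕ → V} {L : ℕ} {e : V × V} :
    e ∈ darts x L ↔ ∃ k < L, (x k, x (k + 1)) = e := by
  simp only [darts, List.mem_map, List.mem_range]

theorem darts_sum (x : ℕ → V) (L : ℕ) (h : V → ℤ) :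
    ((darts x L).map fun e => h e.2 - h e.1).sum = h (x L) - h (x 0) := by
  unfold darts
  induction L with
  | zero => simp
  | succ n ih =>
    rw [List.range_succ, List.map_append, List.map_append, List.sum_append, ih]
    simp

theorem darts_nodup {x : ℕ → V} {L : ℕ} (hinj : ∀ i < L, ∀ j < L, x i = x j → i = j) :
    (darts x L).Nodup := by
  unfold darts
  refine List.Nodup.map_on ?_ List.nodup_range
  intro i hi j hj hij
  rw [List.mem_range] at hi hj
  exact hinj i hi j hj (congrArg Prod.fst hij)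

/-! ### the boundary is one simple closed walk -/

/-- `v` (period `L`) is the boundary walk of `F`, `F` on the left -/
structure Cyc (F : Set V) (L : ℕ) (v : ℕ → V) : Prop where
  four_le : 4 ≤ L
  per : ∀ i, v (i + L) = v i
  inj : ∀ i < L, ∀ j < L, v i = v j → i = j
  step : ∀ i, Adj (v i) (v (i + 1))
  left : ∀ i, lc (v i) (v (i + 1)) ∈ F
  right : ∀ i, rc (v i) (v (i + 1)) ∉ F
  all : ∀ a b, Adj a b → lc a b ∈ F → rc a b ∉ F → ∃ i < L, v i = a ∧ v (i + 1) = b

theorem exists_cyc {F : Set V} (hF : F.Finite) (hne : F.Nonempty)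
    (hcon : ∀ q ∈ F, ∀ q' ∈ F, Con F q q') (hcon' : ∀ q ∉ F, ∀ q' ∉ F, Con Fᶜ q q') :
    ∃ L v, Cyc F L v := by
  obtain ⟨x, L, hL, hBD, hclose, hinj⟩ := exists_walk hF hne
  have hadj : ∀ e ∈ darts x L, Adj e.1 e.2 := by
    intro e he
    obtain ⟨k, _, rfl⟩ := mem_darts.1 he
    exact (hBD k).1
  have hclosed : Closed (darts x L) := fun h => by rw [darts_sum, hclose, sub_self]
  have hbd : ∀ e ∈ darts x L, lc e.1 e.2 ∈ F ∧ rc e.1 e.2 ∉ F := by
    intro e he
    obtain ⟨k, _, rfl⟩ := mem_darts.1 he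
    exact (hBD k).2
  -- the winding count vanishes outside `F`
  have hout : ∀ q ∉ F, W (darts x L) q = 0 := by
    intro q hq
    obtain ⟨X, hX⟩ := W_far (l := darts x L)
    obtain ⟨M, hM⟩ := (hF.image Prod.fst).bddAbove
    have hfar : ((max X (M + 1), 0) : V) ∉ F := fun h => by
      have := hM (Set.mem_image_of_mem Prod.fst h)
      simp only at this
      have := le_max_right X (M + 1)
      omega
    have h1 := (W_const hadj hclosed (S := Fᶜ) (fun e he h => absurd (hbd e he).1 h) hq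
      (hcon' q hq _ hfar)).1
    rw [h1]
    exact hX _ (le_max_left _ _)
  have hmem0 : (x 0, x 1) ∈ darts x L := mem_darts.2 ⟨0, by omega, rfl⟩
  have hrev : ∀ a b, Adj a b → rc a b ∉ F → (darts x L).count (b, a) = 0 := by
    intro a b hab hr
    refine List.count_eq_zero.2 fun h => ?_
    have := (hbd _ h).1
    simp only at this
    rw [lc_swap hab] at this
    exact hr this
  have hin0 : W (darts x L) (lc (x 0) (x 1)) = 1 := by
    have h1 := jump hadj hclosed (hBD 0).1
    rw [hout _ (hBD 0).2.2, hrev _ _ (hBD 0).1 (hBD 0).2.2,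
      List.count_eq_one_of_mem (darts_nodup hinj) hmem0] at h1
    simpa using h1
  have hin : ∀ q ∈ F, W (darts x L) q = 1 := by
    intro q hq
    rw [← hin0]
    exact ((W_const hadj hclosed (S := F) (fun e he _ => (hbd e he).2) (hBD 0).2.1
      (hcon _ (hBD 0).2.1 q hq)).1).symm
  have hall : ∀ a b, Adj a b → lc a b ∈ F → rc a b ∉ F → ∃ k < L, x k = a ∧ x (k + 1) = b := by
    intro a b hab hl hr
    have h1 := jump hadj hclosed hab
    rw [hin _ hl, hout _ hr, hrev _ _ hab hr] at h1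
    have h2 : 0 < (darts x L).count (a, b) := by
      have : ((darts x L).count (a, b) : ℤ) = 1 := by push_cast at h1 ⊢; linarith
      omega
    obtain ⟨k, hk, hk'⟩ := mem_darts.1 (List.count_pos_iff.1 h2)
    exact ⟨k, hk, congrArg Prod.fst hk', congrArg Prod.snd hk'⟩
  have hL4 : 4 ≤ L := by
    by_contra hlt
    have h0 := (hBD 0).1
    have h1 := (hBD 1).1
    have h2 := (hBD 2).1
    interval_cases L
    · rw [zero_add, hclose] at h0
      unfold Adj at h0
      omega
    · have h3 := (hBD 0).2.2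
      have h4 := (hBD 1).2.1
      rw [show 1 + 1 = 2 from rfl, hclose] at h4
      rw [zero_add] at h3 h0
      rw [lc_swap h0] at h4
      exact h3 h4
    · rw [show 2 + 1 = 3 from rfl, hclose] at h2
      rw [zero_add] at h0
      rw [show 1 + 1 = 2 from rfl] at h1
      unfold Adj at h0 h1 h2
      omega
  obtain ⟨v, hv⟩ : ∃ v : ℕ → V, ∀ n, v n = x (n % L) := ⟨_, fun _ => rfl⟩
  have hv1 : ∀ n, v (n + 1) = x (n % L + 1) := by
    intro n
    rw [hv, ← Nat.mod_add_mod]
    have hlt : n % L < L := Nat.mod_lt _ (by omega)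
    rcases Nat.lt_or_ge (n % L + 1) L with h | h
    · rw [Nat.mod_eq_of_lt h]
    · have h' : n % L + 1 = L := by omega
      rw [h', Nat.mod_self, hclose]
  refine ⟨L, v, hL4, fun i => by rw [hv, hv, Nat.add_mod_right], ?_, ?_, ?_, ?_, ?_⟩
  · intro i hi j hj h
    rw [hv, hv, Nat.mod_eq_of_lt hi, Nat.mod_eq_of_lt hj] at h
    exact hinj i hi j hj h
  · intro i
    rw [hv1, hv]
    exact (hBD _).1
  · intro i
    rw [hv1, hv]
    exact (hBD _).2.1
  · intro i
    rw [hv1, hv]
    exact (hBD _).2.2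
  · intro a b hab hl hr
    obtain ⟨k, hk, h1, h2⟩ := hall a b hab hl hr
    exact ⟨k, hk, by rw [hv, Nat.mod_eq_of_lt hk, h1], by rw [hv1, Nat.mod_eq_of_lt hk, h2]⟩

/-! ### walks along the edges of the cells of a connected set -/

/-- the vertex `p` is a corner of the cell `c` -/
def Cor (c p : V) : Prop := c.1 ≤ p.1 ∧ p.1 ≤ c.1 + 1 ∧ c.2 ≤ p.2 ∧ p.2 ≤ c.2 + 1

/-- a list of darts along edges of cells of `lam`, leading from `p` to `p'` -/
def EW (lam : Set V) (p p' : V) : Prop :=
  ∃ l : List (V × V), (∀ e ∈ l, Adj e.1 e.2 ∧ (lc e.1 e.2 ∈ lam ∨ rc e.1 e.2 ∈ lam)) ∧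
    ∀ h : V → ℤ, (l.map fun e => h e.2 - h e.1).sum = h p' - h p

theorem EW.refl (lam : Set V) (p : V) : EW lam p p := ⟨[], by simp, by simp⟩

theorem EW.trans {lam : Set V} {p q r : V} (h1 : EW lam p q) (h2 : EW lam q r) : EW lam p r := by
  obtain ⟨l1, a1, b1⟩ := h1
  obtain ⟨l2, a2, b2⟩ := h2
  refine ⟨l1 ++ l2, ?_, ?_⟩
  · intro e he
    rcases List.mem_append.1 he with h | h
    · exact a1 e h
    · exact a2 e h
  · intro h
    rw [List.map_append, List.sum_append, b1, b2]
    ring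

theorem EW.single {lam : Set V} {p q : V} (h : Adj p q) (h' : lc p q ∈ lam ∨ rc p q ∈ lam) :
    EW lam p q := by
  refine ⟨[(p, q)], ?_, ?_⟩
  · intro e he
    rw [List.mem_singleton] at he
    subst he
    exact ⟨h, h'⟩
  · intro h; simp

theorem ew_cell {lam : Set V} {c p p' : V} (hc : c ∈ lam) (hp : Cor c p) (hp' : Cor c p') :
    EW lam p p' := by
  obtain ⟨x, y⟩ := p
  obtain ⟨x', y'⟩ := p'
  obtain ⟨c1, c2⟩ := c
  unfold Cor at hp hp'
  simp only at hp hp'
  have e1 : EW lam (x, y) (x', y) := by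
    by_cases hx : x = x'
    · subst hx; exact EW.refl _ _
    · refine EW.single (Or.inl ⟨rfl, by show x' = x + 1 ∨ x = x' + 1; omega⟩) ?_
      have : lc (x, y) (x', y) = (c1, c2) ∨ rc (x, y) (x', y) = (c1, c2) := by
        simp only [lc, rc, Prod.mk.injEq]
        by_cases hy : (y = c2 ∧ x < x') ∨ (y ≠ c2 ∧ x' < x)
        · left; constructor <;> omega
        · right; constructor <;> omega
      rcases this with h | h
      · exact Or.inl (h ▸ hc)
      · exact Or.inr (h ▸ hc)
  have e2 : EW lam (x', y) (x', y') := by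
    by_cases hy : y = y'
    · subst hy; exact EW.refl _ _
    · refine EW.single (Or.inr ⟨rfl, by show y' = y + 1 ∨ y = y' + 1; omega⟩) ?_
      have : lc (x', y) (x', y') = (c1, c2) ∨ rc (x', y) (x', y') = (c1, c2) := by
        simp only [lc, rc, Prod.mk.injEq]
        by_cases hx : (x' = c1 ∧ y' < y) ∨ (x' ≠ c1 ∧ y < y')
        · left; constructor <;> omega
        · right; constructor <;> omega
      rcases this with h | h
      · exact Or.inl (h ▸ hc)
      · exact Or.inr (h ▸ hc)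
  exact e1.trans e2

theorem ew_con {lam : Set V} {c c' : V} (hc : c ∈ lam) (h : Con lam c c') :
    c' ∈ lam ∧ ∀ p p', Cor c p → Cor c' p' → EW lam p p' := by
  induction h with
  | refl => exact ⟨hc, fun p p' => ew_cell hc⟩
  | @tail b d _ h2 ih =>
    obtain ⟨hb, ih⟩ := ih
    refine ⟨h2.2, fun p p' hp hp' => ?_⟩
    have hA := h2.1
    unfold Adj at hA
    have r1 : Cor b (max b.1 d.1, max b.2 d.2) := by
      unfold Cor; simp only; omega
    have r2 : Cor d (max b.1 d.1, max b.2 d.2) := by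
      unfold Cor; simp only; omega
    exact (ih p _ hp r1).trans (ew_cell h2.2 r2 hp')

/-- **Separation**: `lam` is a connected set of cells of `F` touching the boundary walk at the
darts `i < j`; then the darts strictly between `i` and `j` are separated in `F \ lam` from the
other ones. -/
theorem sep {F lam : Set V} {L : ℕ} {v : ℕ → V} (hC : Cyc F L v)
    (hFc : ∀ q ∉ F, ∀ q' ∉ F, Con Fᶜ q q') {i j : ℕ} (hij : i < j) (hj : j < L)
    (hlam : lam ⊆ F) (hcon : ∀ q ∈ lam, ∀ q' ∈ lam, Con lam q q')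
    (hi1 : lc (v i) (v (i + 1)) ∈ lam) (hj1 : lc (v j) (v (j + 1)) ∈ lam) {k k' : ℕ}
    (hk : k < L) (hk' : k' < L) (h1 : lc (v k) (v (k + 1)) ∉ lam)
    (h2 : lc (v k') (v (k' + 1)) ∉ lam)
    (hkk : Con (F \ lam) (lc (v k) (v (k + 1))) (lc (v k') (v (k' + 1)))) :
    (i < k ∧ k < j) ↔ (i < k' ∧ k' < j) := by
  -- the closed list
  obtain ⟨l2, hl2, hs2⟩ := (ew_con hj1 (hcon _ hj1 _ hi1)).2 (v j) (v (i + 1))
    (by have := corner_l (hC.step j); exact ⟨this.1, this.2.1, this.2.2.1, this.2.2.2⟩)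
    (by
      have := corner_r (hC.step i).symm
      rw [rc_swap (hC.step i)] at this
      exact ⟨this.1, this.2.1, this.2.2.1, this.2.2.2⟩)
  obtain ⟨x, hx⟩ : ∃ x : ℕ → V, ∀ n, x n = v (i + 1 + n) := ⟨_, fun _ => rfl⟩
  have hx1 : ∀ n, x (n + 1) = v (i + 1 + n + 1) := fun n => by rw [hx]; rfl
  set l1 := darts x (j - i - 1) with hl1
  have hsum1 : ∀ h : V → ℤ, (l1.map fun e => h e.2 - h e.1).sum = h (v j) - h (v (i + 1)) := by
    intro h
    rw [hl1, darts_sum, hx, hx]
    rw [show i + 1 + (j - i - 1) = j by omega, Nat.add_zero]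
  have hb1 : ∀ e ∈ l1, Adj e.1 e.2 ∧ lc e.1 e.2 ∈ F ∧ rc e.1 e.2 ∉ F := by
    intro e he
    obtain ⟨m, _, rfl⟩ := mem_darts.1 he
    simp only
    rw [hx, hx1]
    exact ⟨hC.step _, hC.left _, hC.right _⟩
  have hadj : ∀ e ∈ l1 ++ l2, Adj e.1 e.2 := by
    intro e he
    rcases List.mem_append.1 he with h | h
    · exact (hb1 e h).1
    · exact (hl2 e h).1
  have hclosed : Closed (l1 ++ l2) := by
    intro h
    rw [List.map_append, List.sum_append, hsum1, hs2]
    ring
  -- counts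
  have hcount : ∀ m, m < L → lc (v m) (v (m + 1)) ∉ lam →
      W (l1 ++ l2) (lc (v m) (v (m + 1))) - W (l1 ++ l2) (rc (v m) (v (m + 1))) =
        if i < m ∧ m < j then 1 else 0 := by
    intro m hm hml
    have hrl : rc (v m) (v (m + 1)) ∉ lam := fun h => hC.right m (hlam h)
    rw [jump hadj hclosed (hC.step m)]
    have c1 : (l1 ++ l2).count (v (m + 1), v m) = 0 := by
      refine List.count_eq_zero.2 fun h => ?_
      rcases List.mem_append.1 h with h | h
      · have := (hb1 _ h).2.1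
        simp only at this
        rw [lc_swap (hC.step m)] at this
        exact hC.right m this
      · have := (hl2 _ h).2
        simp only at this
        rw [lc_swap (hC.step m), rc_swap (hC.step m)] at this
        rcases this with h | h
        · exact hrl h
        · exact hml h
    have c2 : l2.count (v m, v (m + 1)) = 0 := by
      refine List.count_eq_zero.2 fun h => ?_
      rcases (hl2 _ h).2 with h | h
      · exact hml h
      · exact hrl h
    have c3 : l1.count (v m, v (m + 1)) = if i < m ∧ m < j then 1 else 0 := by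
      split_ifs with hm2
      · refine List.count_eq_one_of_mem (darts_nodup ?_) (mem_darts.2 ⟨m - i - 1, by omega, ?_⟩)
        · intro a ha b hb hab
          rw [hx, hx] at hab
          have := hC.inj _ (by omega) _ (by omega) hab
          omega
        · rw [hx, hx1, show i + 1 + (m - i - 1) = m by omega]
      · refine List.count_eq_zero.2 fun h => ?_
        obtain ⟨n, hn, hn'⟩ := mem_darts.1 h
        have h3 := congrArg Prod.fst hn'
        simp only at h3
        rw [hx] at h3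
        have := hC.inj _ (by omega) _ hm h3
        omega
    rw [c1, List.count_append, c2, c3]
    split_ifs <;> simp
  have hA : W (l1 ++ l2) (lc (v k) (v (k + 1))) = W (l1 ++ l2) (lc (v k') (v (k' + 1))) := by
    refine (W_const hadj hclosed (S := F \ lam) ?_ ⟨hC.left k, h1⟩ hkk).1
    rintro e he ⟨_, h4⟩ ⟨h5, h6⟩
    rcases List.mem_append.1 he with h | h
    · exact (hb1 e h).2.2 h5
    · rcases (hl2 e h).2 with h | h
      · exact h4 h
      · exact h6 h
  have hB : W (l1 ++ l2) (rc (v k) (v (k + 1))) = W (l1 ++ l2) (rc (v k') (v (k' + 1))) := by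
    refine (W_const hadj hclosed (S := Fᶜ) ?_ (hC.right k) (hFc _ (hC.right k) _ (hC.right k'))).1
    intro e he h4 h5
    rcases List.mem_append.1 he with h | h
    · exact h4 (hb1 e h).2.1
    · rcases (hl2 e h).2 with h | h
      · exact h4 (hlam h)
      · exact h5 (hlam h)
  have e1 := hcount k hk h1
  have e2 := hcount k' hk' h2
  rw [hA, hB, e2] at e1
  by_cases c1 : i < k ∧ k < j <;> by_cases c2 : i < k' ∧ k' < j <;> simp [c1, c2] at e1 ⊢

/-! ### the same in the names of `Sp0_896` -/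

theorem adj_eq : Adj = Sp896.Adj := by
  funext a b
  apply propext
  unfold Adj Sp896.Adj
  omega

theorem con_eq : Con = Sp896.Con := by
  funext S q q'
  unfold Con Sp896.Con
  rw [adj_eq]

theorem cyc_iff {F : Set V} {L : ℕ} {v : ℕ → V} : Cyc F L v ↔ Sp896.Cyc F L v := by
  constructor
  · intro h
    exact ⟨h.four_le, h.per, h.inj, fun i => adj_eq ▸ h.step i, h.left, h.right,
      fun a b hab => h.all a b (adj_eq ▸ hab)⟩
  · intro h
    exact ⟨h.four_le, h.per, h.inj, fun i => adj_eq ▸ h.step i, h.left, h.right,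
      fun a b hab => h.all a b (adj_eq ▸ hab)⟩

/-- **(T2)** the boundary of a finite connected set of cells with connected complement is one
simple closed lattice walk -/
theorem exists_cyc896 {F : Set V} (hF : F.Finite) (hne : F.Nonempty)
    (hcon : ∀ q ∈ F, ∀ q' ∈ F, Sp896.Con F q q')
    (hcon' : ∀ q ∉ F, ∀ q' ∉ F, Sp896.Con Fᶜ q q') : ∃ L v, Sp896.Cyc F L v := by
  obtain ⟨L, v, h⟩ := exists_cyc hF hne (by rw [con_eq]; exact hcon) (by rw [con_eq]; exact hcon')
  exact ⟨L, v, cyc_iff.1 h⟩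

/-- **(T3)** separation -/
theorem sep896 {F lam : Set V} {L : ℕ} {v : ℕ → V} (hC : Sp896.Cyc F L v)
    (hFc : ∀ q ∉ F, ∀ q' ∉ F, Sp896.Con Fᶜ q q') {i j : ℕ} (hij : i < j) (hj : j < L)
    (hlam : lam ⊆ F) (hcon : ∀ q ∈ lam, ∀ q' ∈ lam, Sp896.Con lam q q')
    (hi1 : Sp896.lc (v i) (v (i + 1)) ∈ lam) (hj1 : Sp896.lc (v j) (v (j + 1)) ∈ lam) {k k' : ℕ}
    (hk : k < L) (hk' : k' < L) (h1 : Sp896.lc (v k) (v (k + 1)) ∉ lam)
    (h2 : Sp896.lc (v k') (v (k' + 1)) ∉ lam)
    (hkk : Sp896.Con (F \ lam) (Sp896.lc (v k) (v (k + 1))) (Sp896.lc (v k') (v (k' + 1)))) :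
    (i < k ∧ k < j) ↔ (i < k' ∧ k' < j) :=
  sep (cyc_iff.2 hC) (by rw [con_eq]; exact hFc) hij hj hlam (by rw [con_eq]; exact hcon)
    hi1 hj1 hk hk' h1 h2 (by rw [con_eq]; exact hkk)

end Crest.Agent.R158.SpD331
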