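import Crest.Agent.R158.Cb4_771
import Crest.Agent.R158.Cb5_771
import Crest.Agent.R158.Ob1_664

/-!
# Row 158, Block CB (helper771): leg end and crossings of `D^(z)` near a flat boundary point

* `LegBox D p y0 xr s` : the box of radius `s` around `z = (p, y0)` meets the complement of `D`
* `LegBox.chart` : `D^(z)` minus the box has a chart (shift by `0` or `1` to the left)
* `leg_loc` : outside a rare event the leg ends near `z`
* `cross_loc` : outside the rare event a joined pair of corners, one of them far from `z`, gives a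
  face path of the plane
* `par_gap` : parities of the faces at consecutive gaps
* `int_le3` : integral bound by (outer) probabilities
-/

set_option autoImplicit false
set_option linter.unusedVariables false

noncomputable section

namespace Crest.Agent.R158.Cb771

open MeasureTheory ProbabilityTheory unitInterval
open Crest.Agent.R161.Geo729 Crest.Agent.R158.Rs689 Crest.Agent.R158.Mr679
open Crest.Agent.R158.Gc748 Crest.Agent.R158.Env664
open Crest.Agent.R158.Sw300 (Port Wd)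
open Crest.Agent.R158.Ob664 (Gl GW)

theorem con_of_cpath {X : Set (ℤ × ℤ)} {a b : ℤ × ℤ} (h : Xr249.CPath X a b) :
    SpD331.Con X a b := by
  induction h with
  | refl => exact .refl
  | tail _ h2 ih =>
    refine Relation.ReflTransGen.tail ih ⟨?_, h2.2.2⟩
    have := h2.1
    unfold Adj4 at this
    unfold SpD331.Adj
    omega

/-- the box of radius `s` around `z = (p, y0)` meets the complement of the simply connected `D` -/
structure LegBox (D : Finset (ℤ × ℤ)) (p y0 xr : ℤ) (s : ℕ) : Prop where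
  hs : 1 ≤ s
  hp : p ≤ xr
  row0 : ∀ x, p ≤ x → x ≤ xr → (x, y0) ∈ D
  row1 : ∀ x, p ≤ x → x ≤ xr → (x, y0 - 1) ∈ D
  out : (xr + 1, y0) ∉ D
  cc : ∀ a ∉ D, ∀ b ∉ D, Xr249.CPath {t | t ∉ D} a b
  bd : ∃ t ∉ D, t ∈ Bx (p, y0) s

/-- the tiles outside the box -/
def AB (D : Finset (ℤ × ℤ)) (p y0 : ℤ) (s : ℕ) : Set (ℤ × ℤ) := {t | t ∈ D ∧ t ∉ Bx (p, y0) s}

theorem AB_finite (D : Finset (ℤ × ℤ)) (p y0 : ℤ) (s : ℕ) : (AB D p y0 s).Finite :=
  D.finite_toSet.subset fun _ h => h.1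

variable {D : Finset (ℤ × ℤ)} {p y0 xr : ℤ} {s : ℕ}

theorem mem_Bx {b t : ℤ × ℤ} {s : ℤ} : t ∈ Bx b s ↔ |t.1 - b.1| ≤ s ∧ |t.2 - b.2| ≤ s := Iff.rfl

theorem LegBox.conn (h : LegBox D p y0 xr s) :
    ∀ q ∉ AB D p y0 s, ∀ q' ∉ AB D p y0 s, SpD331.Con (AB D p y0 s)ᶜ q q' := by
  obtain ⟨t0, ht0, ht0'⟩ := h.bd
  have hsub1 : {t : ℤ × ℤ | t ∉ D} ⊆ (AB D p y0 s)ᶜ := fun t ht h' => ht h'.1
  have hsub2 : Bx (p, y0) s ⊆ (AB D p y0 s)ᶜ := fun t ht h' => h'.2 ht
  have key : ∀ q ∉ AB D p y0 s, Xr249.CPath (AB D p y0 s)ᶜ q t0 := by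
    intro q hq
    by_cases h1 : q ∈ D
    · have h2 : q ∈ Bx (p, y0) s := by
        by_contra h3; exact hq ⟨h1, h3⟩
      rw [mem_Bx, abs_le, abs_le] at h2 ht0'
      simp only at h2 ht0'
      refine Xr249.CPath.rect (x1 := p - s) (x2 := p + s) (y1 := y0 - s) (y2 := y0 + s)
        (fun x y e1 e2 e3 e4 => hsub2 ?_) (by omega) (by omega)
      rw [mem_Bx, abs_le, abs_le]
      simp only
      omega
    · exact (h.cc q h1 t0 ht0).mono hsub1
  intro q hq q' hq'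
  exact con_of_cpath ((key q hq).trans (key q' hq').symm)

theorem nbD_near {x y : ℤ} {d : ZMod 4} {x' y' : ℤ} {d' : ZMod 4}
    (h : nbD p y0 xr (some ((x, y), d)) = some ((x', y'), d')) :
    |x - x'| ≤ 1 ∧ |y - y'| ≤ 1 := by
  rcases z4 d with rfl | rfl | rfl | rfl
  · rw [nbD_W] at h
    simp only [Option.some.injEq, Prod.mk.injEq] at h
    rw [abs_le, abs_le]; omega
  · by_cases hc : y = y0 - 1 ∧ p ≤ x ∧ x ≤ xr
    · rw [nbD_N1 hc] at h
      simp only [Option.some.injEq, Prod.mk.injEq] at h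
      rw [abs_le, abs_le]; omega
    · rw [nbD_N hc] at h
      simp only [Option.some.injEq, Prod.mk.injEq] at h
      rw [abs_le, abs_le]; omega
  · rw [nbD_E] at h
    simp only [Option.some.injEq, Prod.mk.injEq] at h
    rw [abs_le, abs_le]; omega
  · by_cases h5 : y = y0 ∧ x = p
    · rw [nbD_Sleg h5] at h
      exact absurd h (by simp)
    by_cases hcase : y = y0 ∧ p < x ∧ x ≤ xr
    · rw [nbD_S1 hcase] at h
      simp only [Option.some.injEq, Prod.mk.injEq] at h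
      rw [abs_le, abs_le]; omega
    · rw [nbD_S (by omega)] at h
      simp only [Option.some.injEq, Prod.mk.injEq] at h
      rw [abs_le, abs_le]; omega

theorem nbD_leg' {x y : ℤ} {d : ZMod 4} (h : nbD p y0 xr (some ((x, y), d)) = none) :
    x = p ∧ y = y0 := by
  rcases z4 d with rfl | rfl | rfl | rfl
  · rw [nbD_W] at h; simp at h
  · by_cases hc : y = y0 - 1 ∧ p ≤ x ∧ x ≤ xr
    · rw [nbD_N1 hc] at h; simp at h
    · rw [nbD_N hc] at h; simp at h
  · rw [nbD_E] at h; simp at h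
  · by_cases h5 : y = y0 ∧ x = p
    · exact ⟨h5.2, h5.1⟩
    by_cases hcase : y = y0 ∧ p < x ∧ x ≤ xr
    · rw [nbD_S1 hcase] at h; simp at h
    · rw [nbD_S (by omega)] at h; simp at h

theorem gl_beD {q q' : Port (ℤ × ℤ)} (h : Gl (beD D p y0 xr) q q') :
    nbD p y0 xr q = q' ∧ PortOf D q ∧ PortOf D q' := by
  obtain ⟨h1, h2⟩ := h
  unfold beD res at h1
  split_ifs at h1 with h4
  · rw [h1] at h4; exact ⟨h1, h4⟩
  · exact absurd h1 h2

/-- **the chart of `D^(z)` minus the box** -/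
theorem LegBox.chart (h : LegBox D p y0 xr s) : ∃ c : ℤ × ℤ → ℤ, (∀ t, c t = 0 ∨ c t = 1) ∧
    Chart (Gl (beD D p y0 xr)) (AB D p y0 s) (posc c) ∧
    Near (Gl (beD D p y0 xr)) (AB D p y0 s) (posc c) (p, y0) (s + 2) := by
  have hs := h.hs
  have hin : ∀ x y : ℤ, |x - p| ≤ s → |y - y0| ≤ s → (x, y) ∉ AB D p y0 s :=
    fun x y h1 h2 h3 => h3.2 ⟨h1, h2⟩
  have hout : ∀ x y : ℤ, p + s < x → (x, y) ∉ Bx (p, y0) s := by
    intro x y hx h1
    rw [mem_Bx, abs_le] at h1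
    simp only at h1
    omega
  obtain ⟨c, c1, c2, c3, c4⟩ := exists_c (A := AB D p y0 s) h.conn (y0 := y0) (x1 := p + s + 1)
    (xr := xr) (fun x h1 h2 => ⟨h.row0 x (by omega) h2, hout x y0 (by omega)⟩)
    (hin _ _ (by rw [abs_le]; omega) (by rw [abs_le]; omega)) (fun h' => h.out h'.1)
    (fun x h1 h2 => ⟨h.row1 x (by omega) h2, hout x _ (by omega)⟩)
  refine ⟨c, c1, chartD (x1 := p + s + 1) (fun t ht => ht.1) h.hp h.out ⟨c1, c2, c3, c4⟩ (by omega)
    (fun x y hy h1 h2 => hin x y (by rw [abs_le]; omega) (by rw [abs_le]; omega)), ?_⟩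
  rintro ⟨x, y⟩ d q ht hg hq
  obtain ⟨h1, h2, h3⟩ := gl_beD hg
  cases q with
  | none =>
    obtain ⟨rfl, rfl⟩ := nbD_leg' h1
    exact absurd ht (hin _ _ (by simp) (by simp))
  | some y' =>
    obtain ⟨⟨x', y'⟩, d'⟩ := y'
    have h4 := nbD_near h1
    have h5 : (x', y') ∈ Bx (p, y0) s := by
      by_contra h6
      exact hq ⟨portOf_some.1 h3, h6⟩
    rw [mem_Bx, abs_le, abs_le] at h5
    rw [abs_le, abs_le] at h4
    have h6 := c1 (x, y)
    simp only [posc, abs_le] at h5 ⊢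
    push_cast
    omega

/-! ### words -/

variable {w : Wd (ℤ × ℤ)}

theorem GW.ok {b : Port (ℤ × ℤ) → Port (ℤ × ℤ)} (h : GW D b w) : Sw300.Ok w := h.word.1

theorem GW.gd {b : Port (ℤ × ℤ) → Port (ℤ × ℤ)} (h : GW D b w) (ξ : ℤ × ℤ → Bool) :
    Gd ξ none (Sw300.L w) (gl w) (ts w) (Sw300.M ξ w) := by
  have := gd_wd ξ (GW.ok h)
  rwa [← bas_eq, h.leg] at this

/-- the ports of the list are sides of tiles -/
theorem GW.port (hb : LegBox D p y0 xr s) (h : GW D (beD D p y0 xr) w) {x : Port (ℤ × ℤ)}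
    (hx : x ∈ Sw300.L w) : ∃ t d, x = some (t, d) ∧ t ∈ D := by
  have hf := (be_state (GW.ok h)).free x hx
  rw [h.word.2.2.2] at hf
  cases x with
  | none =>
    exfalso
    have h1 : PortOf D (nbD p y0 xr none) := by
      rw [nbD_leg]; exact portOf_some.2 (hb.row0 p le_rfl hb.hp)
    unfold beD at hf
    rw [res_of (portOf_none D) h1, nbD_leg] at hf
    exact absurd hf (by simp)
  | some y =>
    obtain ⟨t, d⟩ := y
    exact ⟨t, d, rfl, (h.word.2.2.1 t).1 (mem_L_tls (GW.ok h) hx)⟩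

theorem GW.cc (h : GW D (beD D p y0 xr) w) {ξ : ℤ × ℤ → Bool} {c c' : Port (ℤ × ℤ)}
    (hR : R ξ none (gl w) c c') : CC ξ (Gl (beD D p y0 xr)) c c' :=
  cc_of_word (GW.ok h) h.word.2.2.2 hR

/-- the unmatched end -/
theorem GW.unm {b : Port (ℤ × ℤ) → Port (ℤ × ℤ)} (h : GW D b w) (ξ : ℤ × ℤ → Bool) :
    Sw300.u ξ w ∈ Sw300.L w ∧ Sw300.M ξ w (Sw300.u ξ w) = Sw300.u ξ w ∧
      ∀ x ∈ Sw300.L w, Sw300.M ξ w x = x → x = Sw300.u ξ w := by
  have hI := Sw300.Ok.inv ξ w (GW.ok h)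
  exact ⟨hI.um, hI.uf, hI.fix⟩

/-- the rare event -/
def Rare (D : Finset (ℤ × ℤ)) (p y0 xr : ℤ) (s R : ℕ) (c : ℤ × ℤ → ℤ) : Set (ℤ × ℤ → Bool) :=
  FarC (Gl (beD D p y0 xr)) (AB D p y0 s) (posc c) (p, y0) (s + 2) R

theorem cpos_near {c : ℤ × ℤ → ℤ} (hc : ∀ t, c t = 0 ∨ c t = 1) (t : ℤ × ℤ) (d : ZMod 4) :
    (t.1 - 2 ≤ (cpos (posc c) (some (t, d))).1 ∧ (cpos (posc c) (some (t, d))).1 ≤ t.1) ∧
    (t.2 - 1 ≤ (cpos (posc c) (some (t, d))).2 ∧ (cpos (posc c) (some (t, d))).2 ≤ t.2) := by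
  have h1 := hc t
  have h2 := off_le d
  simp only [cpos, posc, Prod.fst_add, Prod.snd_add]
  omega

/-- **the leg ends near `z`** outside the rare event -/
theorem leg_loc (hb : LegBox D p y0 xr s) (h : GW D (beD D p y0 xr) w) {c : ℤ × ℤ → ℤ}
    (hc : ∀ t, c t = 0 ∨ c t = 1) {ξ : ℤ × ℤ → Bool} {Rd : ℕ} (hR : s ≤ Rd)
    (hξ : ξ ∉ Rare D p y0 xr s Rd c) :
    ∃ t d, Sw300.u ξ w = some (t, d) ∧ t ∈ D ∧ |t.1 - p| ≤ Rd + 2 ∧ |t.2 - y0| ≤ Rd + 2 := by
  obtain ⟨hu, huf, -⟩ := GW.unm h ξ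
  obtain ⟨t, d, e, ht⟩ := GW.port hb h hu
  refine ⟨t, d, e, ht, ?_⟩
  by_cases h1 : t ∈ Bx (p, y0) s
  · rw [mem_Bx] at h1
    exact ⟨h1.1.trans (by omega), h1.2.trans (by omega)⟩
  · by_contra hfar
    apply hξ
    have h2 := (GW.gd h ξ).legR _ hu huf
    have h3 := GW.cc h h2
    refine ⟨none, lc (Sw300.u ξ w), Or.inl id, h3, ?_, ?_⟩
    · rw [e]; exact ⟨ht, h1⟩
    · rw [e]
      have h4 := cpos_near hc t d
      rw [abs_le, abs_le] at hfar
      simp only [lc_some, le_abs] at h4 ⊢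
      omega

/-- plane tiles used by the chart -/
def QA (A : Set (ℤ × ℤ)) (pos : ℤ × ℤ → P2) (t : P2) : Prop := ∃ τ ∈ A, t = pos τ

/-- **a joined pair of corners, one of them far, gives a face path** outside the rare event -/
theorem cross_loc {G : Port (ℤ × ℤ) → Port (ℤ × ℤ) → Prop} {A : Set (ℤ × ℤ)} {pos : ℤ × ℤ → P2}
    {x : P2} {r Rd : ℕ} (hch : Chart G A pos) {ξ : ℤ × ℤ → Bool}
    (hξ : ξ ∉ FarC G A pos x r Rd) {c0 c1 : Port (ℤ × ℤ)}
    (h : CC ξ G c0 c1) (h1 : InT A c1)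
    (hfar : (Rd : ℤ) ≤ |(cpos pos c1).1 - x.1| ∨ (Rd : ℤ) ≤ |(cpos pos c1).2 - x.2|) :
    InT A c0 ∧ ∀ g : TF, (∀ t ∈ A, g (pos t) = ξ t) → FP g (QA A pos) (cpos pos c0) (cpos pos c1) := by
  have h0 : InT A c0 := by
    by_contra h0
    exact hξ ⟨c0, c1, Or.inl h0, h, h1, hfar⟩
  refine ⟨h0, fun g hg => ?_⟩
  -- either the chain stays in `A` or a corner outside `A` is joined to its end
  have key : ∀ {c1 : Port (ℤ × ℤ)}, CC ξ G c0 c1 → InT A c1 →
      FP g (QA A pos) (cpos pos c0) (cpos pos c1) ∨ ∃ c, ¬ InT A c ∧ CC ξ G c c1 := by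
    intro c1 h
    induction h with
    | refl => exact fun _ => Or.inl FP.refl
    | @tail b d _ h6 ih =>
      intro hd
      by_cases hbA : InT A b
      · rcases ih hbA with e | ⟨c, e1, e2⟩
        · exact Or.inl (e.trans (chart_step hch hg (fun t ht => ⟨t, ht, rfl⟩) h6 hbA hd))
        · exact Or.inr ⟨c, e1, e2.trans (Relation.ReflTransGen.single h6)⟩
      · exact Or.inr ⟨b, hbA, Relation.ReflTransGen.single h6⟩
  rcases key h h1 with e | ⟨c, e1, e2⟩
  · exact e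
  · exact absurd ⟨c, c1, Or.inl e1, e2, h1, hfar⟩ hξ

/-! ### parities of the gaps -/

theorem off_par (d : ZMod 4) : ((off (d + 1)).1 + (off (d + 1)).2 + 1) % 2 =
    ((off d).1 + (off d).2) % 2 := by
  revert d; decide

/-- consecutive gaps, far from the box, have faces of different parity -/
theorem par_step {G : Port (ℤ × ℤ) → Port (ℤ × ℤ) → Prop} {A : Set (ℤ × ℤ)} {pos : ℤ × ℤ → P2}
    {x : P2} {r : ℕ} (hch : Chart G A pos) (hn : Near G A pos x r) {q q' : Port (ℤ × ℤ)}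
    (h : Xr249.Nx G q q') (hq : InT A q)
    (hfar : (r : ℤ) + 1 < |(cpos pos (rc q)).1 - x.1| ∨ (r : ℤ) + 1 < |(cpos pos (rc q)).2 - x.2|) :
    InT A q' ∧ ((cpos pos (lc q')).1 + (cpos pos (lc q')).2) % 2 =
      ((cpos pos (lc q)).1 + (cpos pos (lc q)).2 + 1) % 2 := by
  obtain ⟨h1, h2⟩ := Nx_face hch hn h hq hfar
  refine ⟨h1, ?_⟩
  rw [h2]
  cases q with
  | none => exact absurd hq id
  | some y =>
    obtain ⟨t, d⟩ := y
    have h3 := off_par d
    simp only [cpos, rc_some, lc_some, Prod.fst_add, Prod.snd_add]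
    omega

/-- parity along an interval of gaps far from the box -/
theorem par_gap {G : Port (ℤ × ℤ) → Port (ℤ × ℤ) → Prop} {A : Set (ℤ × ℤ)} {pos : ℤ × ℤ → P2}
    {x : P2} {r : ℕ} (hch : Chart G A pos) (hn : Near G A pos x r) {l : List (Port (ℤ × ℤ))}
    {a b : ℕ} (hb : b < l.length)
    (hnx : ∀ i, a ≤ i → i < b → Xr249.Nx G (l.getD i none) (l.getD (i + 1) none))
    (hA : InT A (l.getD a none))
    (hfar : ∀ i, a ≤ i → i < b → (r : ℤ) + 1 < |(cpos pos (rc (l.getD i none))).1 - x.1| ∨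
      (r : ℤ) + 1 < |(cpos pos (rc (l.getD i none))).2 - x.2|) :
    ∀ i, a ≤ i → i ≤ b → InT A (l.getD i none) ∧
      ((cpos pos (lc (l.getD i none))).1 + (cpos pos (lc (l.getD i none))).2) % 2 =
      ((cpos pos (lc (l.getD a none))).1 + (cpos pos (lc (l.getD a none))).2 + (i - a)) % 2 := by
  intro i hai
  induction i, hai using Nat.le_induction with
  | base => intro _; exact ⟨hA, by simp⟩
  | succ i hi ih =>
    intro hib
    obtain ⟨h1, h2⟩ := ih (by omega)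
    obtain ⟨h3, h4⟩ := par_step hch hn (hnx i hi (by omega)) h1 (hfar i hi (by omega))
    refine ⟨h3, ?_⟩
    rw [h4]
    push_cast
    omega

/-! ### integrals and probabilities -/

/-- integral bound by outer probabilities -/
theorem int_le3 {Ω : Type*} [MeasurableSpace Ω] {μ : Measure Ω} [IsProbabilityMeasure μ]
    {f : Ω → ℝ} (hf : Integrable f μ) (E0 E1 E2 : Set Ω)
    (h : ∀ ω, f ω ≤ bI (ω ∈ E2) + (bI (ω ∈ E0) + bI (ω ∈ E1)) / 2) :
    ∫ ω, f ω ∂μ ≤ μ.real E2 + (μ.real E0 + μ.real E1) / 2 := by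
  have key : ∀ E : Set Ω, Integrable (fun ω => bI (ω ∈ toMeasurable μ E)) μ ∧
      ∫ ω, bI (ω ∈ toMeasurable μ E) ∂μ = μ.real E := by
    intro E
    have hm : MeasurableSet (toMeasurable μ E) := measurableSet_toMeasurable μ E
    have e : (fun ω => bI (ω ∈ toMeasurable μ E)) = (toMeasurable μ E).indicator fun _ => (1 : ℝ) := by
      funext ω
      unfold bI Set.indicator
      split_ifs <;> rfl
    rw [e]
    refine ⟨(integrable_const 1).indicator hm, ?_⟩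
    have e3 := integral_indicator_one (μ := μ) hm
    rw [show (toMeasurable μ E).indicator (fun _ => (1 : ℝ)) = (toMeasurable μ E).indicator 1 from rfl,
      e3]
    simp only [measureReal_def, measure_toMeasurable]
  have h2 : ∀ ω, f ω ≤ bI (ω ∈ toMeasurable μ E2) + (bI (ω ∈ toMeasurable μ E0) +
      bI (ω ∈ toMeasurable μ E1)) / 2 := by
    intro ω
    have := h ω
    have i0 := bI_mono (fun h : ω ∈ E0 => subset_toMeasurable μ E0 h)
    have i1 := bI_mono (fun h : ω ∈ E1 => subset_toMeasurable μ E1 h)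
    have i2 := bI_mono (fun h : ω ∈ E2 => subset_toMeasurable μ E2 h)
    linarith
  have i0 := (key E0).1
  have i1 := (key E1).1
  have i2 := (key E2).1
  calc ∫ ω, f ω ∂μ ≤ ∫ ω, (bI (ω ∈ toMeasurable μ E2) + (bI (ω ∈ toMeasurable μ E0) +
      bI (ω ∈ toMeasurable μ E1)) / 2) ∂μ := integral_mono hf (i2.add ((i0.add i1).div_const 2)) h2
    _ = _ := by
      have e1 : ∫ ω, (bI (ω ∈ toMeasurable μ E0) + bI (ω ∈ toMeasurable μ E1)) ∂μ =
          μ.real E0 + μ.real E1 := by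
        rw [integral_add i0 i1, (key E0).2, (key E1).2]
      have i3 : Integrable (fun ω => (bI (ω ∈ toMeasurable μ E0) +
          bI (ω ∈ toMeasurable μ E1)) / 2) μ := (i0.add i1).div_const 2
      rw [integral_add i2 i3, integral_div, e1, (key E2).2]

/-- crossing events of the plane -/
def XQ (Q : P2 → Prop) (e : ℤ) (S0 S1 : Set P2) : Set TF :=
  {g | ∃ f0 f1 : P2, (f0.1 + f0.2) % 2 = e ∧ FP g Q f0 f1 ∧ f0 ∈ S0 ∧ f1 ∈ S1}

theorem measurableSet_XQ (Q : P2 → Prop) (e : ℤ) (S0 S1 : Set P2) : MeasurableSet (XQ Q e S0 S1) := by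
  have : XQ Q e S0 S1 = ⋃ (f0 : P2) (f1 : P2), {g : TF | FP g Q f0 f1} ∩
      {_g | (f0.1 + f0.2) % 2 = e ∧ f0 ∈ S0 ∧ f1 ∈ S1} := by
    ext g
    simp only [XQ, Set.mem_ofPred_eq, Set.mem_iUnion, Set.mem_inter_iff]
    constructor
    · rintro ⟨f0, f1, h1, h2, h3, h4⟩
      exact ⟨f0, f1, h2, h1, h3, h4⟩
    · rintro ⟨f0, f1, h2, h1, h3, h4⟩
      exact ⟨f0, f1, h1, h2, h3, h4⟩
  rw [this]
  exact MeasurableSet.iUnion fun f0 => MeasurableSet.iUnion fun f1 =>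
    (meas_fp Q f0 f1).inter (MeasurableSet.const _)

/-- odd and even crossings: shift by one lattice step -/
theorem shift_event {Q Q' : P2 → Prop} {S0 S1 S0' S1' : Set P2} (a : P2)
    (hQ : ∀ t, Q t → Q' (t - a)) (h0 : ∀ f ∈ S0, f - a ∈ S0') (h1 : ∀ f ∈ S1, f - a ∈ S1')
    {e e' : ℤ} (he : e' = (e - (a.1 + a.2)) % 2) :
    (tau hf).real (XQ Q e S0 S1) ≤ (tau hf).real (XQ Q' e' S0' S1') := by
  rw [← tau_real_shT hf a (measurableSet_XQ Q' e' S0' S1')]
  refine measureReal_mono ?_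
  rintro g ⟨f0, f1, h2, h3, h4, h5⟩
  refine ⟨f0 - a, f1 - a, ?_, ?_, h0 _ h4, h1 _ h5⟩
  · simp only [Prod.fst_sub, Prod.snd_sub]
    omega
  · have e1 : f0 = (f0 - a) + a := (sub_add_cancel _ _).symm
    have e2 : f1 = (f1 - a) + a := (sub_add_cancel _ _).symm
    rw [e1, e2, fp_shT] at h3
    refine h3.mono fun t ht => ⟨?_, rfl⟩
    have := hQ _ ht
    rwa [add_sub_cancel_right] at this

end Crest.Agent.R158.Cb771
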