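import Crest.Agent.R158.Tj6_656

/-!
R158, Lean architect of S0237 (helper656), J2 part 7: the rows `y = c L` are avoided:
`P4.HM P L x y = HD L x (y + 2)` if `L ∣ y`, `HD L x y` otherwise;
**`S0237_ofM : Q1m an → Q2 → Q3m → Q3p → S0237Body`**.
-/

set_option autoImplicit false

namespace Crest.Agent.R158.Tj656

open Filter Topology Set Metric MeasureTheory
open Complex (I)
open Crest Crest.ProbabilityR Crest.ProbabilityR.Percolation
open Crest.Agent.R158.Sp896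
open Crest.Agent.R158.Cd83
open Crest.Agent.R158.Spl331 (rv rv_jordan rv_ji cross_rv)
open Crest.Agent.R158.Wl290 (CSr sg Geo Cone Obs MB mpt sdH obs_of_macro obs_lower obs_upper
  tendsto_of_sides arc_prob_mem)
open Crest.Agent.R158.Sk656 (S0237Body)

noncomputable section

/-- the observable without the rows `y = c L` -/
def P4.HM (P : P4) (L : ℤ) (x y : ℤ) : ℂ := if L ∣ y then P.HD L x (y + 2) else P.HD L x y

/-- **(Q1')** contour sums of `HM` -/
def Q1m (an : Bool) : Prop :=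
  ∀ (P : P4) (x1 x2 y1 y2 : ℝ), x1 ≤ x2 → y1 ≤ y2 →
    (∀ x ∈ Icc x1 x2, ∀ y ∈ Icc y1 y2, ((x : ℂ) + (y : ℂ) * I) ∈ P.Om) →
    ∀ Ln : ℕ → ℤ, (∀ n, Even (Ln n)) → Tendsto Ln atTop atTop →
      CSr atTop (sg an) (fun n => 2 / (Ln n : ℝ)) (fun n i j => P.HM (Ln n) (2 * i) (2 * j))
        x1 x2 y1 y2

theorem HM_of {P : P4} {L x y : ℤ} (h : ¬ L ∣ y) : P.HM L x y = P.HD L x y := if_neg h

theorem HM_mem (P : P4) (L x y : ℤ) : P.HM L x y ∈ Al194.Tri := by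
  unfold P4.HM
  split_ifs
  · exact Ob664.HD_mem _ _ _ _ _
  · exact Ob664.HD_mem _ _ _ _ _

/-- near an inner point of a boundary edge no point of the domain lies at an integer height -/
theorem row_ne {P : P4} {m : ℕ} {t : ℝ} (h0 : 0 < t) (h1 : t < 1) :
    ∃ r : ℝ, 0 < r ∧ ∀ z ∈ P.Om, ‖z - ept P.v m t‖ < r → ∀ c : ℤ, z.im ≠ c := by
  refine ⟨min t (1 - t), lt_min h0 (by linarith), fun z hz hr c hc => ?_⟩
  have hre : |z.re - (ept P.v m t).re| < min t (1 - t) :=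
    (Complex.abs_re_le_norm (z - ept P.v m t)).trans_lt hr
  have him : |z.im - (ept P.v m t).im| < min t (1 - t) :=
    (Complex.abs_im_le_norm (z - ept P.v m t)).trans_lt hr
  have hmin1 := min_le_left t (1 - t)
  have hmin2 := min_le_right t (1 - t)
  rw [abs_lt] at hre him
  have hst := P.cyc.step m
  have hlc := P.cyc.right m
  have hout : ∀ q : V, q ∉ P.F → z ∉ sq 1 q := fun q hq hzq => hq ((mem_om one_pos).1 hz q hzq)
  have ere : (ept P.v m t).re = (P.v m).1 + t * ((P.v (m + 1)).1 - (P.v m).1) := by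
    unfold ept
    rw [Complex.add_re, Complex.re_ofReal_mul, Complex.sub_re, pt_re, pt_re]
    ring
  have eim : (ept P.v m t).im = (P.v m).2 + t * ((P.v (m + 1)).2 - (P.v m).2) := by
    unfold ept
    rw [Complex.add_im, Complex.im_ofReal_mul, Complex.sub_im, pt_im, pt_im]
    ring
  rw [ere] at hre
  rw [eim] at him
  generalize P.v m = a at *
  generalize P.v (m + 1) = b at *
  obtain ⟨b1, b2⟩ := b
  rcases hst with ⟨e1, e2⟩ | ⟨e1, e2⟩ | ⟨e1, e2⟩ | ⟨e1, e2⟩ <;> simp only at e1 e2 <;> subst e1 e2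
  · -- east
    have hc2 : c = a.2 := by
      have : ((c : ℝ) - a.2) < 1 ∧ (-1 : ℝ) < (c : ℝ) - a.2 := by
        rw [← hc]; push_cast at him; constructor <;> nlinarith [him.1, him.2]
      have h3 : c - a.2 < 1 := by exact_mod_cast this.1
      have h4 : -1 < c - a.2 := by exact_mod_cast this.2
      omega
    refine hout _ hlc ?_
    have l2 : rc a (a.1 + 1, a.2) = (a.1, a.2 - 1) := by unfold rc; ext <;> simp only <;> omega
    rw [l2]
    push_cast at hre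
    refine ⟨?_, ?_, ?_, ?_⟩ <;> push_cast <;> rw [one_mul] <;> (try rw [hc, hc2]) <;>
      nlinarith [hre.1, hre.2]
  · have hc2 : c = a.2 := by
      have : ((c : ℝ) - a.2) < 1 ∧ (-1 : ℝ) < (c : ℝ) - a.2 := by
        rw [← hc]; push_cast at him; constructor <;> nlinarith [him.1, him.2]
      have h3 : c - a.2 < 1 := by exact_mod_cast this.1
      have h4 : -1 < c - a.2 := by exact_mod_cast this.2
      omega
    refine hout _ hlc ?_
    have l2 : rc a (a.1 - 1, a.2) = (a.1 - 1, a.2) := by unfold rc; ext <;> simp only <;> omega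
    rw [l2]
    push_cast at hre
    refine ⟨?_, ?_, ?_, ?_⟩ <;> push_cast <;> rw [one_mul] <;> (try rw [hc, hc2]) <;>
      nlinarith [hre.1, hre.2]
  · -- north: the height is not an integer
    exfalso
    push_cast at him
    have h3 : (a.2 : ℝ) < c := by rw [← hc]; nlinarith [him.1, him.2]
    have h4 : (c : ℝ) < a.2 + 1 := by rw [← hc]; nlinarith [him.1, him.2]
    have h3' : a.2 < c := by exact_mod_cast h3
    have h4' : c < a.2 + 1 := by exact_mod_cast h4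
    omega
  · exfalso
    push_cast at him
    have h3 : (c : ℝ) < a.2 := by rw [← hc]; nlinarith [him.1, him.2]
    have h4 : (a.2 : ℝ) - 1 < c := by rw [← hc]; nlinarith [him.1, him.2]
    have h3' : c < a.2 := by exact_mod_cast h3
    have h4' : a.2 - 1 < c := by exact_mod_cast h4
    omega

theorem NB.mbM {P : P4} {b : ℂ} {j : Fin 4} (hb : b ∈ P.hA j) {u : ℤ → ℂ → ℝ} (h : NB P b u)
    {v : ℕ → ℂ → ℝ} (hv : ∀ (L : ℕ) w, v L w = u L w) :
    MB (↑P.F) (fun L x y => P.HM (L : ℤ) x y) b v := by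
  obtain ⟨m, t, h0, h1, -, rfl⟩ := hb
  obtain ⟨r0, hr0, hrow⟩ := row_ne (P := P) (m := m) h0 h1
  intro ε hε
  obtain ⟨r, hr, L0, h2⟩ := h ε hε
  refine ⟨min r r0, lt_min hr hr0, L0.toNat + 1, fun L hL hL0 i j h3 h4 => ?_⟩
  rw [mpt_mpos] at h3 h4
  rw [hv]
  have hLp : (0 : ℝ) < ((L : ℤ) : ℝ) := by
    have : 0 < L := by omega
    exact_mod_cast this
  have hne : ¬ (L : ℤ) ∣ 2 * j := by
    rintro ⟨c, hc⟩
    refine hrow _ h3 (h4.trans_le (min_le_right _ _)) c ?_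
    show ((2 * j : ℤ) : ℝ) / ((L : ℤ) : ℝ) = c
    rw [hc, Int.cast_mul, mul_div_cancel_left₀ _ hLp.ne']
  simp only [HM_of hne]
  exact h2 L (by omega) (by exact_mod_cast hL) i j h3 (h4.trans_le (min_le_left _ _))

variable {γ : ℝ → ℂ} {φ : ℂ → ℂ} {δ : ℕ → ℝ} {p : ℕ → ℝ} {an : Bool}

/-- **`Obs` from a sequence of polygons**, without the rows `y = c L` -/
def obsOfM (hγ : IsJordanCurve γ) {e s : ℕ → ℝ} {P : ℕ → P4}
    (h : ∀ k, PolyOK γ (e k) (s k) (P k)) (he : Tendsto e atTop (𝓝 0))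
    (hδ : ∀ n, 0 < δ n) (hδ0 : Tendsto δ atTop (𝓝 0)) (up an : Bool)
    (q1 : Q1m an) (q2 : Q2) {κm κp : ℤ}
    (q3m : ∀ P : P4, ∀ b ∈ P.hA 0, NB P b fun L w => w.re - P.pm κm L)
    (q3p : ∀ P : P4, ∀ b ∈ P.hA 1, NB P b fun L w => (1 - w.re) - P.pp κp L)
    (hm : up = false → ∀ k, ∀ᶠ n in atTop, (P k).pm κm (Ls (s k) (δ n)) ≤ p n)
    (hp : up = true → ∀ k, ∀ᶠ n in atTop, (P k).pp κp (Ls (s k) (δ n)) ≤ 1 - p n) :
    Obs (geoOf hγ h he) p up := by
  refine obs_of_macro (geoOf hγ h he) p up an (w := ww) norm_ww (s := s) (fun k => (h k).s_pos)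
    (F := fun k => ↑(P k).F) (fun k => rfl) (Ln := fun k n => (Ls (s k) (δ n)).toNat)
    (fun k n => Ls_toNat_even _ _) (fun k => Ls_toNat_tend (h k).s_pos hδ hδ0)
    (Hd := fun k L x y => (P k).HM (L : ℤ) x y) (fun k L x y => HM_mem _ _ _ _)
    ?_ ?_ (qm := fun k L => (P k).pm κm L) (qp := fun k L => (P k).pp κp L) ?_ ?_ ?_ ?_
  · intro k a b c e hab hce hin
    have := q1 (P k) a b c e hab hce hin (fun n => (((Ls (s k) (δ n)).toNat : ℕ) : ℤ))
      (fun n => by exact_mod_cast Ls_toNat_even (s k) (δ n))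
      (tendsto_natCast_atTop_atTop.comp (Ls_toNat_tend (h k).s_pos hδ hδ0))
    simpa only [Int.cast_natCast] using this
  · intro k j ζ _ _ hζ
    have hb := geo_pt hγ h he hζ
    obtain ⟨c0, c1, c2, c3⟩ := q2 (P k)
    rw [sdH_val]
    fin_cases j
    · exact (c0 _ hb).mbM hb fun _ _ => rfl
    · exact (c1 _ hb).mbM hb fun _ _ => rfl
    · exact (c2 _ hb).mbM hb fun _ _ => rfl
    · exact (c3 _ hb).mbM hb fun _ _ => rfl
  · intro _ k ζ _ _ hζ
    have hb := geo_pt hγ h he hζ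
    exact (q3m _ _ hb).mbM hb fun _ _ => rfl
  · intro hup k
    filter_upwards [hm hup k, (Ls_tend (h k).s_pos hδ hδ0).eventually_ge_atTop 0] with n hn h0
    show (P k).pm κm (((Ls (s k) (δ n)).toNat : ℕ) : ℤ) ≤ p n
    rwa [Int.toNat_of_nonneg h0]
  · intro _ k ζ _ _ hζ
    have hb := geo_pt hγ h he hζ
    exact (q3p _ _ hb).mbM hb fun _ _ => rfl
  · intro hup k
    filter_upwards [hp hup k, (Ls_tend (h k).s_pos hδ hδ0).eventually_ge_atTop 0] with n hn h0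
    show (P k).pp κp (((Ls (s k) (δ n)).toNat : ℕ) : ℤ) ≤ 1 - p n
    rwa [Int.toNat_of_nonneg h0]

theorem lower_ofM (C : CDat γ φ) (hp : ∀ n, p n ∈ Icc (0 : ℝ) 1) (hδ : ∀ n, 0 < δ n)
    (hδ0 : Tendsto δ atTop (𝓝 0)) (q1 : Q1m an) (q2 : Q2) (q3m : Q3m) (q3p : Q3p)
    (h : LoSide γ δ p) {ε : ℝ} (hε : 0 < ε) : ∀ᶠ n in atTop, cv γ φ - ε < p n := by
  obtain ⟨κm, q3m⟩ := q3m
  obtain ⟨κp, q3p⟩ := q3p
  choose s P h1 h2 using fun k : ℕ => h _ (pos_e k)
  exact obs_lower C hp (obsOfM C.hγ h1 lim_e hδ hδ0 false an q1 q2 q3m q3p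
    (fun _ k => h2 k κm) (fun h => absurd h (by decide))) hε

theorem upper_ofM (C : CDat γ φ) (hp : ∀ n, p n ∈ Icc (0 : ℝ) 1) (hδ : ∀ n, 0 < δ n)
    (hδ0 : Tendsto δ atTop (𝓝 0)) (q1 : Q1m an) (q2 : Q2) (q3m : Q3m) (q3p : Q3p)
    (h : UpSide γ δ p) {ε : ℝ} (hε : 0 < ε) : ∀ᶠ n in atTop, p n < cv γ φ + ε := by
  obtain ⟨κm, q3m⟩ := q3m
  obtain ⟨κp, q3p⟩ := q3p
  choose s P h1 h2 using fun k : ℕ => h _ (pos_e k)
  exact obs_upper C hp (obsOfM C.hγ h1 lim_e hδ hδ0 true an q1 q2 q3m q3p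
    (fun h => absurd h (by decide)) (fun _ k => h2 k κp)) hε

theorem tend_ofM (C : CDat γ φ) (hp : ∀ n, p n ∈ Icc (0 : ℝ) 1) (hδ : ∀ n, 0 < δ n)
    (hδ0 : Tendsto δ atTop (𝓝 0)) (q1 : Q1m an) (q2 : Q2) (q3m : Q3m) (q3p : Q3p)
    (hlo : LoSide γ δ p ∨ LoSide (rv γ) δ p) (hup : UpSide γ δ p ∨ UpSide (rv γ) δ p) :
    Tendsto p atTop (𝓝 (cv γ φ)) := by
  refine tendsto_of_sides (fun ε hε => ?_) (fun ε hε => ?_)
  · rcases hlo with h | h
    · exact lower_ofM C hp hδ hδ0 q1 q2 q3m q3p h hε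
    · rw [← cv_rv]
      exact lower_ofM (cdat_rv C) hp hδ hδ0 q1 q2 q3m q3p h hε
  · rcases hup with h | h
    · exact upper_ofM C hp hδ hδ0 q1 q2 q3m q3p h hε
    · rw [← cv_rv]
      exact upper_ofM (cdat_rv C) hp hδ hδ0 q1 q2 q3m q3p h hε

/-- **S0237 from the four inputs, without the rows `y = c L`** -/
theorem S0237_ofM (q1 : Q1m an) (q2 : Q2) (q3m : Q3m) (q3p : Q3p) : S0237Body := by
  intro γ hγ δ hδ _ hδ0 γs hγs hunif φ hφc hφi hφd hφD
  have C : CDat γ φ := ⟨hγ, hφc, hφi, hφd, hφD⟩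
  obtain ⟨hlo, hup⟩ := sandwich γ φ C δ hδ hδ0 γs hγs hunif
  exact tend_ofM C (fun n => arc_prob_mem _ _) hδ hδ0 q1 q2 q3m q3p hlo hup

end

end Crest.Agent.R158.Tj656
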