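import Crest.Agent.R158.Mg1_949
import Crest.Agent.R158.Bl5_802
import Crest.Agent.R158.Cb6_771
import Crest.Agent.R158.Tj7_656

/-!
# Row 158 (helper949): macro geometry of `D^(z)`, 2: runs, words, leg boxes

Scale `L = 2 k`.

* `mac P` : the polyomino of the polygon `P`
* `wU P k` : the boundary walk at scale `2 k`, read from the middle of the edge `0`, period
  `nn P k = N (2 k)`
* `mark0, markD, markC` : the marks of the observable are the steps `nn - 1`, `md L - 1`, `mc L - 1`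
* **`WD P k x y xr q w`** : good word of `D^(z)`, its clockwise list, the value of the observable
* **`exists_WD`** : existence near a flat point, with the leg boxes
-/

set_option autoImplicit false
set_option linter.unusedVariables false

noncomputable section

namespace Crest.Agent.R158.Mg949

open Crest.Agent.R158.Sw300 (Port Wd L Ok)
open Crest.Agent.R158.Env664
open Crest.Agent.R158.Ob664 (Gl GW HW HD_word)
open Crest.Agent.R158.Sp896 (V Adj Cyc Con lc rc)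
open Crest.Agent.R158.Bl802 (sv sc scale cyc_shift nN LD exists_i0 blk mark_pt)
open Crest.Agent.R158.Tj656
open Crest.Agent.R158.Cb771 (LegBox Bx)

/-! ### the polyomino -/

theorem adj4_of {a b : V} (h : Adj a b) : Adj4 a b := by
  unfold Adj at h; unfold Adj4; omega

theorem cpath_of_con {S : Set V} {a b : V} (ha : a ∈ S) (h : Con S a b) :
    Relation.ReflTransGen (fun u v => Adj4 u v ∧ u ∈ S ∧ v ∈ S) a b := by
  induction h with
  | refl => exact .refl
  | tail h1 h2 ih => exact .tail ih ⟨adj4_of h2.1, Con.mem h1 ha, h2.2⟩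

/-- the polyomino of a polygon -/
def mac (P : P4) : Mac where
  F := P.F
  ne := ⟨_, P.cyc.left 0⟩
  conn := fun a ha b hb => cpath_of_con (S := (↑P.F : Set V)) ha (P.con a ha b hb)
  cconn := fun a ha b hb => cpath_of_con (S := (↑P.F : Set V)ᶜ) ha (P.con' a ha b hb)

/-! ### the walk -/

/-- number of steps of the boundary at scale `2 k` -/
def nn (P : P4) (k : ℕ) : ℕ := P.N * (2 * k)

/-- the scale -/
abbrev Lz (k : ℕ) : ℤ := ((2 * k : ℕ) : ℤ)

/-- boundary walk at scale `2 k`, read from the middle of the edge `0` -/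
def wU (P : P4) (k : ℕ) (i : ℕ) : V := sv (2 * k) P.v (i + k)

theorem Lz_pos {k : ℕ} (hk : 0 < k) : 0 < Lz k := by unfold Lz; omega

theorem coe_D {F : Finset V} {k : ℕ} (hk : 0 < k) : (D F (Lz k) : Set V) = sc (↑F) (2 * k) := by
  ext t
  rw [Finset.mem_coe, mem_D (Lz_pos hk)]
  rfl

theorem cycU (P : P4) {k : ℕ} (hk : 0 < k) : Cyc (D P.F (Lz k) : Set V) (nn P k) (wU P k) := by
  rw [coe_D hk]
  exact cyc_shift (scale P.cyc (by omega : 0 < 2 * k)) k

theorem nn_pos (P : P4) {k : ℕ} (hk : 0 < k) : 0 < nn P k :=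
  lt_of_lt_of_le (by norm_num) (cycU P hk).four_le

theorem wU_per (P : P4) {k : ℕ} (hk : 0 < k) (i : ℕ) : wU P k (i + nn P k) = wU P k i :=
  (cycU P hk).per i

/-- the steps -/
abbrev sU (P : P4) (k : ℕ) : ℕ → Port V := st (wU P k)

theorem mark_step (P : P4) {k : ℕ} (hk : 0 < k) {m : ℕ} (hm : 0 < m) :
    (mark (Lz k) (esd (P.v m) (P.v (m + 1))).1 (esd (P.v m) (P.v (m + 1))).2).2 =
      sU P k (m * (2 * k) - 1) := by
  have h1 : 0 < m * (2 * k) := by positivity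
  have := congrArg Prod.snd (mark_pt P.cyc hk m)
  rw [Lz, this]
  show Bl802.pt _ _ = Bl802.pt (sv (2 * k) P.v (m * (2 * k) - 1 + k))
    (sv (2 * k) P.v (m * (2 * k) - 1 + 1 + k))
  congr 2 <;> omega

theorem mark0 (P : P4) {k : ℕ} (hk : 0 < k) :
    (mark (Lz k) (P.cc 0).1 (P.cc 0).2).2 = sU P k (nn P k - 1) := by
  have h1 := mark_step P hk (m := P.N) (by have := P.h4; omega)
  have h2 : P.v P.N = P.v 0 := by
    have := P.cyc.per 0; rwa [zero_add] at this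
  have h3 : P.v (P.N + 1) = P.v 1 := by
    have := P.cyc.per 1; rwa [add_comm] at this
  rw [h2, h3] at h1
  exact h1

theorem markD (P : P4) {k : ℕ} (hk : 0 < k) :
    (mark (Lz k) (P.cc 1).1 (P.cc 1).2).2 = sU P k (P.md * (2 * k) - 1) :=
  mark_step P hk (by have := P.h1; have := P.h2; have := P.h3; omega)

theorem markC (P : P4) {k : ℕ} (hk : 0 < k) :
    (mark (Lz k) (P.cc 2).1 (P.cc 2).2).2 = sU P k (P.mc * (2 * k) - 1) :=
  mark_step P hk (by have := P.h1; have := P.h2; have := P.h3; omega)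

/-! ### the word -/

/-- good word of `D^(z)` at scale `2 k` -/
structure WD (P : P4) (k : ℕ) (x y xr : ℤ) (q : ℕ) (w : Wd V) : Prop where
  hk : 0 < k
  gw : GW (D P.F (Lz k)) (beD (D P.F (Lz k)) x y xr) w
  hq : q < nn P k
  e0 : wU P k q = (xr + 1, y)
  e1 : wU P k (q + 1) = (xr + 1, y + 1)
  hL : L w ~r LG (sU P k) (nn P k) q (nN xr y)
  hd : P.HD (Lz k) x y = HW w (sU P k (nn P k - 1)) (sU P k (P.md * (2 * k) - 1))
    (sU P k (P.mc * (2 * k) - 1))

theorem WD.ok {P : P4} {k : ℕ} {x y xr : ℤ} {q : ℕ} {w : Wd V} (h : WD P k x y xr q w) : Ok w :=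
  h.gw.word.1

theorem exists_word (P : P4) {k : ℕ} (hk : 0 < k) {x y xl xr : ℤ}
    (r0 : Run (D P.F (Lz k)) xl xr y) (r1 : Run (D P.F (Lz k)) xl xr (y - 1)) (h1 : xl < x)
    (h2 : x ≤ xr) : ∃ q w, WD P k x y xr q w := by
  obtain ⟨w, hw, hd⟩ := HD_word (mac P) (Lz_pos hk) P.cc r0 r1 h1 h2
  obtain ⟨q, hq, e0, e1⟩ := exists_i0 (cycU P hk) r0
  refine ⟨q, w, hk, hw, hq, e0, e1, ?_, ?_⟩
  · have := LD (cycU P hk) hq e0 e1 r0 r1 h1 h2 hw
    refine this.trans ?_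
    unfold LG
    rw [blk_eq, blk_eq]
    refine (List.IsRotated.refl _).trans ?_
    have e : (bk (st fun j => wU P k (j + q)) (nn P k - q)) =
        bk (fun i => sU P k (i + q)) (nn P k - q) := by
      unfold bk
      apply List.map_congr_left
      intro i hi
      show Bl802.pt (wU P k (nn P k - q - 1 - i + q)) (wU P k (nn P k - q - 1 - i + 1 + q)) =
        Bl802.pt (wU P k (nn P k - q - 1 - i + q)) (wU P k (nn P k - q - 1 - i + q + 1))
      rw [show nn P k - q - 1 - i + 1 + q = nn P k - q - 1 - i + q + 1 by ring]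
    rw [e]
  · rw [← mark0 P hk, ← markD P hk, ← markC P hk]
    exact hd

/-! ### macroscopic runs -/

/-- a lattice point of the open polygon, in a row which is not a macroscopic line, lies inside a run of
two rows, not at the left end -/
theorem exists_runs (P : P4) {k : ℕ} (hk : 0 < k) {x y : ℤ} (hz : mpos (Lz k) x y ∈ P.Om)
    (hy : ∀ c : ℤ, (mpos (Lz k) x y).im ≠ c) : ∃ xl xr, Run (D P.F (Lz k)) xl xr y ∧
      Run (D P.F (Lz k)) xl xr (y - 1) ∧ xl < x ∧ x ≤ xr := by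
  have hL := Lz_pos hk
  have hLr : (0 : ℝ) < (Lz k : ℝ) := by exact_mod_cast hL
  obtain ⟨ax, hax⟩ : ∃ a, a = x / Lz k := ⟨_, rfl⟩
  obtain ⟨ay, hay⟩ : ∃ a, a = y / Lz k := ⟨_, rfl⟩
  obtain ⟨a1, a2⟩ := (div_iff hL _ _).1 hax.symm
  obtain ⟨b1, b2⟩ := (div_iff hL _ _).1 hay.symm
  have cast1 : (ax : ℝ) ≤ x / Lz k ∧ (x : ℝ) / Lz k < ax + 1 := by
    constructor
    · rw [le_div_iff₀ hLr]; exact_mod_cast a1
    · rw [div_lt_iff₀ hLr]
      have : ((x : ℤ) : ℝ) < ((ax * Lz k + Lz k : ℤ) : ℝ) := by exact_mod_cast a2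
      push_cast at this ⊢
      linarith
  have cast2 : (ay : ℝ) ≤ y / Lz k ∧ (y : ℝ) / Lz k < ay + 1 := by
    constructor
    · rw [le_div_iff₀ hLr]; exact_mod_cast b1
    · rw [div_lt_iff₀ hLr]
      have : ((y : ℤ) : ℝ) < ((ay * Lz k + Lz k : ℤ) : ℝ) := by exact_mod_cast b2
      push_cast at this ⊢
      linarith
  have hc : ((ax, ay) : V) ∈ P.F := by
    refine (mem_om one_pos).1 hz (ax, ay) ?_
    simp only [Sp896.sq, mpos, Set.mem_ofPred_eq]
    exact ⟨by rw [one_mul]; exact cast1.1, by rw [one_mul]; exact cast1.2.le,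
      by rw [one_mul]; exact cast2.1, by rw [one_mul]; exact cast2.2.le⟩
  have hne : ay * Lz k ≠ y := by
    intro e
    apply hy ay
    show (y : ℝ) / (Lz k : ℝ) = ay
    rw [← e]
    push_cast
    field_simp
  obtain ⟨a, b, h1, h2, hr⟩ := exists_run P.F hc
  simp only at h1 h2 hr
  refine ⟨a * Lz k, b * Lz k + Lz k - 1, hr.scale hL b1 b2,
    hr.scale (y := y - 1) hL (by omega) (by omega), ?_, ?_⟩
  · have h3 : a * Lz k ≤ ax * Lz k := mul_le_mul_of_nonneg_right h1 hL.le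
    refine lt_of_le_of_ne (h3.trans a1) fun e => ?_
    have h4 : a * Lz k = ax * Lz k := le_antisymm h3 (by omega)
    have h5 : a = ax := mul_right_cancel₀ hL.ne' h4
    apply hr.left
    show ((a - 1, ay) : V) ∈ P.F
    refine (mem_om one_pos).1 hz (a - 1, ay) ?_
    simp only [Sp896.sq, mpos, Set.mem_ofPred_eq]
    have h6 : (x : ℝ) / Lz k = a := by
      rw [← e]; push_cast; field_simp
    rw [h6]
    refine ⟨by push_cast; linarith, by push_cast; linarith, by rw [one_mul]; exact cast2.1,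
      by rw [one_mul]; exact cast2.2.le⟩
  · have h3 : ax * Lz k ≤ b * Lz k := mul_le_mul_of_nonneg_right h2 hL.le
    omega

/-! ### leg boxes -/

/-- an integer of `[c L, c L + L - 1]` close to a real of `[c L, c L + L]` -/
theorem clamp {c L : ℤ} (hL : 0 < L) {r : ℝ} (h1 : ((c * L : ℤ) : ℝ) ≤ r)
    (h2 : r ≤ ((c * L + L : ℤ) : ℝ)) : ∃ u : ℤ, c * L ≤ u ∧ u < c * L + L ∧ |(u : ℝ) - r| ≤ 1 := by
  by_cases h : r < ((c * L + L : ℤ) : ℝ)
  · refine ⟨⌊r⌋, Int.le_floor.2 h1, Int.floor_lt.2 h, ?_⟩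
    have := Int.floor_le r
    have := Int.lt_floor_add_one r
    rw [abs_le]; constructor <;> linarith
  · refine ⟨c * L + L - 1, by omega, by omega, ?_⟩
    have e : r = ((c * L + L : ℤ) : ℝ) := le_antisymm h2 (not_lt.1 h)
    rw [e]; push_cast
    rw [abs_le]; constructor <;> linarith

/-- a tile outside near a point of a macroscopic cell outside -/
theorem out_tile {F : Finset V} {k : ℕ} (hk : 0 < k) {b : ℂ} {c : V} (hc : c ∉ F)
    (hb : b ∈ Sp896.sq 1 c) : ∃ t ∉ D F (Lz k), |(t.1 : ℝ) - Lz k * b.re| ≤ 1 ∧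
      |(t.2 : ℝ) - Lz k * b.im| ≤ 1 := by
  have hL := Lz_pos hk
  have hLr : (0 : ℝ) < (Lz k : ℝ) := by exact_mod_cast hL
  obtain ⟨h1, h2, h3, h4⟩ := hb
  rw [one_mul] at h1 h2 h3 h4
  obtain ⟨u, u1, u2, u3⟩ := clamp (c := c.1) hL (r := Lz k * b.re)
    (by push_cast; nlinarith) (by push_cast; nlinarith)
  obtain ⟨v, v1, v2, v3⟩ := clamp (c := c.2) hL (r := Lz k * b.im)
    (by push_cast; nlinarith) (by push_cast; nlinarith)
  refine ⟨(u, v), ?_, u3, v3⟩
  rw [mem_D hL]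
  show (u / Lz k, v / Lz k) ∉ F
  rw [(div_iff hL _ _).2 ⟨u1, u2⟩, (div_iff hL _ _).2 ⟨v1, v2⟩]
  exact hc

theorem int_abs_le {a b : ℤ} {r : ℝ} {s : ℕ} (h1 : |(a : ℝ) - r| ≤ 1) (h2 : |r - b| + 2 ≤ s) :
    |a - b| ≤ (s : ℤ) := by
  have h3 : |(a : ℝ) - b| ≤ s := by
    have := abs_sub_le (a : ℝ) r b
    linarith
  have h4 : ((|a - b| : ℤ) : ℝ) ≤ ((s : ℤ) : ℝ) := by push_cast; exact h3
  exact_mod_cast h4

theorem legBox_of (P : P4) {k : ℕ} (hk : 0 < k) {x y xl xr : ℤ}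
    (r0 : Run (D P.F (Lz k)) xl xr y) (r1 : Run (D P.F (Lz k)) xl xr (y - 1)) (h1 : xl < x)
    (h2 : x ≤ xr) {b : ℂ} {c : V} (hc : c ∉ P.F) (hb : b ∈ Sp896.sq 1 c) {s : ℕ}
    (hs : Lz k * ‖mpos (Lz k) x y - b‖ + 2 ≤ s) : LegBox (D P.F (Lz k)) x y xr s := by
  have hL := Lz_pos hk
  have hLr : (0 : ℝ) < (Lz k : ℝ) := by exact_mod_cast hL
  obtain ⟨t, ht, t1, t2⟩ := out_tile (F := P.F) hk hc hb
  refine ⟨?_, h2, fun x' e1 e2 => r0.mem x' (by omega) e2, fun x' e1 e2 => r1.mem x' (by omega) e2,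
    r0.right, fun a ha b hb => Xr249.D_cpath (mac P) hL ha hb, t, ht, ?_, ?_⟩
  · have : (0 : ℝ) ≤ Lz k * ‖mpos (Lz k) x y - b‖ := by positivity
    have h3 : (2 : ℝ) ≤ s := by linarith
    have h4 : 2 ≤ s := by exact_mod_cast h3
    omega
  · refine int_abs_le t1 ?_
    have e := Complex.abs_re_le_norm (mpos (Lz k) x y - b)
    rw [Complex.sub_re] at e
    have e2 : |(Lz k : ℝ) * b.re - x| = Lz k * |(mpos (Lz k) x y).re - b.re| := by
      rw [abs_sub_comm, ← abs_of_pos hLr, ← abs_mul, abs_of_pos hLr]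
      congr 1
      simp only [mpos]
      field_simp
    have e3 : (Lz k : ℝ) * |(mpos (Lz k) x y).re - b.re| ≤ Lz k * ‖mpos (Lz k) x y - b‖ := by
      gcongr
    show |(Lz k : ℝ) * b.re - x| + 2 ≤ s
    linarith
  · refine int_abs_le t2 ?_
    have e := Complex.abs_im_le_norm (mpos (Lz k) x y - b)
    rw [Complex.sub_im] at e
    have e2 : |(Lz k : ℝ) * b.im - y| = Lz k * |(mpos (Lz k) x y).im - b.im| := by
      rw [abs_sub_comm, ← abs_of_pos hLr, ← abs_mul, abs_of_pos hLr]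
      congr 1
      simp only [mpos]
      field_simp
    have e3 : (Lz k : ℝ) * |(mpos (Lz k) x y).im - b.im| ≤ Lz k * ‖mpos (Lz k) x y - b‖ := by
      gcongr
    show |(Lz k : ℝ) * b.im - y| + 2 ≤ s
    linarith

/-- a boundary point lies in a cell outside -/
theorem ept_out (P : P4) {m : ℕ} {t : ℝ} (h0 : 0 < t) (h1 : t < 1) :
    ept P.v m t ∈ Sp896.sq 1 (rc (P.v m) (P.v (m + 1))) := by
  have h : ept P.v m t ∈ Sp896.ed 1 (P.v m) (P.v (m + 1)) := by
    rw [Sp896.ed, segment_eq_image']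
    refine ⟨t, ⟨h0.le, h1.le⟩, ?_⟩
    simp only [ept, Complex.real_smul]
  exact Sp896.ed_sub_rc one_pos (P.cyc.step m) h

/-- **words and leg boxes near a flat point** -/
theorem exists_WD (P : P4) {j : Fin 4} {b : ℂ} (hb : b ∈ P.hA j) : ∃ ρ : ℝ, 0 < ρ ∧
    ∀ k : ℕ, 0 < k → ∀ x y : ℤ, mpos (Lz k) x y ∈ P.Om → ‖mpos (Lz k) x y - b‖ < ρ →
      ∃ xr q w, WD P k x y xr q w ∧
        ∀ s : ℕ, Lz k * ‖mpos (Lz k) x y - b‖ + 2 ≤ s → LegBox (D P.F (Lz k)) x y xr s := by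
  obtain ⟨m, t, h0, h1, -, rfl⟩ := hb
  obtain ⟨ρ, hρ, hrow⟩ := row_ne (P := P) (m := m) h0 h1
  refine ⟨ρ, hρ, fun k hk x y hz hn => ?_⟩
  obtain ⟨xl, xr, r0, r1, g1, g2⟩ := exists_runs P hk hz (hrow _ hz hn)
  obtain ⟨q, w, hw⟩ := exists_word P hk r0 r1 g1 g2
  exact ⟨xr, q, w, hw, fun s hs => legBox_of P hk r0 r1 g1 g2 (P.cyc.right m) (ept_out P h0 h1) hs⟩

end Crest.Agent.R158.Mg949
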