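import Crest.Agent.R158.Xr10_249
import Crest.Agent.R158.Ao7_857

/-!
# R158, block XR (helper249), file Xr11: the region is lower part + band + upper part

* **`split_low_up`** : `Split B (lowT A xl xr y1) (upT A xl xr y2)`
* `split_mac` : the same for `D M.F L`
-/

set_option autoImplicit false
set_option linter.unusedVariables false

noncomputable section

namespace Crest.Agent.R158.Xr249

open Env664 (Adj4 Mac D mem_D div_iff PortOf portOf_some portOf_none res nbP beP nbD beD IsWord Run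
  CutAdj lowT upT Band)

section split

variable {A : Finset (ℤ × ℤ)} {xl xr y1 y2 : ℤ}

/-- the band between two lines -/
structure BandR (A : Finset (ℤ × ℤ)) (xl xr y1 y2 : ℤ) : Prop where
  hy : y1 < y2
  run : ∀ y, y1 - 1 ≤ y → y ≤ y2 → Run A xl xr y

lemma BandR.r1 (h : BandR A xl xr y1 y2) : Run A xl xr y1 := h.run y1 (by omega) (by have := h.hy; omega)
lemma BandR.r1' (h : BandR A xl xr y1 y2) : Run A xl xr (y1 - 1) := h.run _ (le_refl _) (by have := h.hy; omega)
lemma BandR.r2 (h : BandR A xl xr y1 y2) : Run A xl xr y2 := h.run y2 (by have := h.hy; omega) (le_refl _)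
lemma BandR.r2' (h : BandR A xl xr y1 y2) : Run A xl xr (y2 - 1) := h.run _ (by have := h.hy; omega) (by omega)

/-- the band tiles are above the lower line -/
lemma BandR.band_up (h : BandR A xl xr y1 y2) {x y : ℤ} (h1 : xl ≤ x) (h2 : x ≤ xr) (h3 : y1 ≤ y)
    (h4 : y ≤ y2) : (x, y) ∈ upT A xl xr y1 := by
  have key : ∀ n : ℕ, y1 + n ≤ y2 → (x, y1 + n) ∈ upT A xl xr y1 := by
    intro n
    induction n with
    | zero => intro _; rw [Nat.cast_zero, add_zero]; exact row_up h.r1 h1 h2
    | succ n ih =>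
      intro hn
      push_cast at hn ⊢
      refine up_step (ih (by omega)) ⟨Or.inl ⟨rfl, Or.inl ?_⟩, (h.run _ (by omega) (by omega)).mem _ h1 h2,
        (h.run _ (by omega) (by omega)).mem _ h1 h2, ?_⟩
      · simp only; omega
      · simp only; omega
  have := key (y - y1).toNat (by omega)
  rwa [Int.toNat_of_nonneg (by omega), add_sub_cancel] at this

/-- the band tiles are below the upper line -/
lemma BandR.band_low (h : BandR A xl xr y1 y2) {x y : ℤ} (h1 : xl ≤ x) (h2 : x ≤ xr) (h3 : y1 - 1 ≤ y)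
    (h4 : y < y2) : (x, y) ∈ lowT A xl xr y2 := by
  have key : ∀ n : ℕ, y1 - 1 ≤ y2 - 1 - n → (x, y2 - 1 - n) ∈ lowT A xl xr y2 := by
    intro n
    induction n with
    | zero => intro _; rw [Nat.cast_zero, sub_zero]; exact row_low h.r2' h1 h2
    | succ n ih =>
      intro hn
      push_cast at hn ⊢
      refine low_step (ih (by omega)) ⟨Or.inl ⟨rfl, Or.inr ?_⟩, (h.run _ (by omega) (by omega)).mem _ h1 h2,
        (h.run _ (by omega) (by omega)).mem _ h1 h2, ?_⟩
      · simp only; omega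
      · simp only; omega
  have := key (y2 - 1 - y).toNat (by omega)
  rwa [Int.toNat_of_nonneg (by omega), sub_sub_cancel] at this

/-- above the upper line is above the lower line -/
lemma BandR.up_up (h : BandR A xl xr y1 y2) (hsc : (full A).SC) {t : ℤ × ℤ} (ht : t ∈ upT A xl xr y2) :
    t ∈ upT A xl xr y1 := by
  obtain ⟨hA, hp⟩ := mem_upT.1 ht
  clear ht hA
  induction hp with
  | refl => exact h.band_up (le_refl _) h.r2.le h.hy.le (le_refl _)
  | @tail c d h1 h2 ih =>
    refine up_step ih ⟨h2.1, h2.2.1, h2.2.2.1, ?_⟩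
    rintro ⟨g1, g2, g3, g4⟩
    have hy := h.hy
    have hc : c ∈ upT A xl xr y2 := mem_upT.2 ⟨h2.2.1, h1⟩
    have hd : d ∈ upT A xl xr y2 := up_step hc h2
    rcases g4 with ⟨g4, g5⟩ | ⟨g4, g5⟩
    · have : c ∈ lowT A xl xr y2 := by
        have := h.band_low g1 g2 (y := c.2) (by omega) (by omega)
        exact this
      exact low_disj_up hsc h.r2 this hc
    · have : c ∈ lowT A xl xr y2 := by
        have := h.band_low g1 g2 (y := c.2) (by omega) (by omega)
        exact this
      exact low_disj_up hsc h.r2 this hc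

/-- a tile above the lower line is in the band or above the upper line -/
lemma BandR.up_cases (h : BandR A xl xr y1 y2) {t : ℤ × ℤ} (ht : t ∈ upT A xl xr y1) :
    t ∈ upT A xl xr y2 ∨ (xl ≤ t.1 ∧ t.1 ≤ xr ∧ y1 ≤ t.2 ∧ t.2 < y2) := by
  have hy := h.hy
  obtain ⟨hA, hp⟩ := mem_upT.1 ht
  clear ht hA
  induction hp with
  | refl => exact Or.inr ⟨le_refl _, h.r1.le, le_refl _, hy⟩
  | @tail c d h1 h2 ih =>
    obtain ⟨h3, h4, h5, h6⟩ := h2
    rcases ih with ih | ⟨g1, g2, g3, g4⟩
    · by_cases h7 : xl ≤ c.1 ∧ c.1 ≤ xr ∧ c.1 = d.1 ∧ ((c.2 = y2 - 1 ∧ d.2 = y2) ∨ (c.2 = y2 ∧ d.2 = y2 - 1))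
      · rcases h7 with ⟨k1, k2, k3, ⟨k4, k5⟩ | ⟨k4, k5⟩⟩
        · have : (d.1, d.2) ∈ upT A xl xr y2 := by
            rw [k5]; exact row_up h.r2 (by omega) (by omega)
          exact Or.inl this
        · exact Or.inr ⟨by omega, by omega, by omega, by omega⟩
      · exact Or.inl (up_step ih ⟨h3, h4, h5, h7⟩)
    · obtain ⟨x, y⟩ := c
      obtain ⟨x', y'⟩ := d
      simp only at g1 g2 g3 g4 h6
      rcases h3 with ⟨e1, e2 | e2⟩ | ⟨e1, e2 | e2⟩ <;> simp only at e1 e2 <;> subst e1 e2
      · by_cases h8 : y + 1 = y2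
        · left; rw [h8]; exact row_up h.r2 g1 g2
        · right; exact ⟨g1, g2, by simp only; omega, by simp only; omega⟩
      · by_cases h8 : y' + 1 = y1
        · exact absurd ⟨g1, g2, rfl, Or.inr ⟨h8, by omega⟩⟩ h6
        · right; exact ⟨g1, g2, by simp only; omega, by simp only; omega⟩
      · by_cases h8 : x + 1 ≤ xr
        · right; exact ⟨by simp only; omega, h8, g3, g4⟩
        · exfalso
          have : x = xr := by omega
          subst this
          exact (h.run y (by omega) (by omega)).right h5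
      · by_cases h8 : xl ≤ x'
        · right; exact ⟨h8, by simp only; omega, g3, g4⟩
        · exfalso
          have : x' = xl - 1 := by omega
          subst this
          exact (h.run y (by omega) (by omega)).left h5

end split

/-- **the region is the lower part, the band and the upper part** -/
theorem split_low_up {A : Finset (ℤ × ℤ)} (B : Band A) (hsc : (full A).SC)
    (hc : ∀ a ∈ A, ∀ b ∈ A, CPath {t | t ∈ A} a b) (r1 : Run A B.xl B.xr (B.y1 - 1))
    (r2 : Run A B.xl B.xr B.y2) (hy : B.y1 < B.y2) :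
    Ao857.Split B (lowT A B.xl B.xr B.y1) (upT A B.xl B.xr B.y2) := by
  have h : BandR A B.xl B.xr B.y1 B.y2 := by
    refine ⟨hy, fun y h1 h2 => ?_⟩
    rcases eq_or_lt_of_le h1 with rfl | h3
    · exact r1
    · rcases eq_or_lt_of_le h2 with rfl | h4
      · exact r2
      · exact B.run y (by omega) h4
  refine ⟨?_, ?_, ?_, ?_, ?_, ?_⟩
  · intro x y
    constructor
    · intro hA
      rcases low_union_up hc h.r1 h.r1' hA with h1 | h1
      · exact Or.inl h1
      · rcases h.up_cases h1 with h2 | h2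
        · exact Or.inr (Or.inl h2)
        · exact Or.inr (Or.inr h2)
    · rintro (h1 | h1 | ⟨h1, h2, h3, h4⟩)
      · exact (mem_lowT.1 h1).1
      · exact (mem_upT.1 h1).1
      · exact (h.run y (by omega) (by omega)).mem _ h1 h2
  · rw [Finset.disjoint_left]
    intro t h1 h2
    exact low_disj_up hsc h.r1 h1 (h.up_up hsc h2)
  · rintro x y h1 ⟨h2, h3, h4, h5⟩
    exact low_disj_up hsc h.r1 h1 (h.band_up h2 h3 h4 h5.le)
  · rintro x y h1 ⟨h2, h3, h4, h5⟩
    exact low_disj_up hsc h.r2 (h.band_low h2 h3 (by omega) h5) h1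
  · intro x h1 h2 h3
    exact low_disj_up hsc h.r1 h3 (h.band_up h1 h2 hy.le (le_refl _))
  · intro x h1 h2 h3
    exact low_disj_up hsc h.r1 (row_low h.r1' h1 h2) (h.up_up hsc h3)

/-- the lower and the upper part are not adjacent -/
theorem adj_low_up {A : Finset (ℤ × ℤ)} (B : Band A) (hsc : (full A).SC)
    (r1 : Run A B.xl B.xr (B.y1 - 1)) (r2 : Run A B.xl B.xr B.y2) (hy : B.y1 < B.y2) :
    ∀ s ∈ lowT A B.xl B.xr B.y1, ∀ t ∈ upT A B.xl B.xr B.y2, ¬ Adj4 s t := by
  have h : BandR A B.xl B.xr B.y1 B.y2 := by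
    refine ⟨hy, fun y h1 h2 => ?_⟩
    rcases eq_or_lt_of_le h1 with rfl | h3
    · exact r1
    · rcases eq_or_lt_of_le h2 with rfl | h4
      · exact r2
      · exact B.run y (by omega) h4
  intro s hs t ht hadj
  obtain ⟨h1, h2, h3, h4, h5⟩ := low_up_adj hsc h.r1 hs (h.up_up hsc ht) hadj
  have h6 : (t.1, t.2) ∈ lowT A B.xl B.xr B.y2 :=
    h.band_low (by omega) (by omega) (by omega) (by omega)
  exact low_disj_up hsc h.r2 h6 ht

/-- connectedness of `D M.F L` in path form -/
lemma D_cpath_in (M : Mac) {L : ℤ} (hL : 0 < L) {a b : ℤ × ℤ} (ha : a ∈ D M.F L) (hb : b ∈ D M.F L) :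
    CPath {t | t ∈ D M.F L} a b := by
  rw [mem_D hL] at ha hb
  refine lift_path hL (Y := {t | t ∈ M.F}) (fun t ht => ?_) (M.conn _ ha _ hb) ha rfl rfl
  exact (mem_D hL t).2 ht

theorem adj_mac (M : Mac) {L : ℤ} (hL : 0 < L) (B : Band (D M.F L)) {a b c : ℤ} (hr : Run M.F a b c)
    (hxl : B.xl = a * L) (hxr : B.xr = b * L + L - 1) (h1 : c * L < B.y1) (h2 : B.y2 < c * L + L)
    (hy : B.y1 < B.y2) :
    ∀ s ∈ lowT (D M.F L) B.xl B.xr B.y1, ∀ t ∈ upT (D M.F L) B.xl B.xr B.y2, ¬ Adj4 s t := by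
  refine adj_low_up B (D_SC M hL) ?_ ?_ hy
  · rw [hxl, hxr]; exact hr.scale hL (by omega) (by omega)
  · rw [hxl, hxr]; exact hr.scale hL (by omega) (by omega)

/-- the same for a macroscopic polyomino and a band strictly inside a macroscopic row -/
theorem split_mac (M : Mac) {L : ℤ} (hL : 0 < L) (B : Band (D M.F L)) {a b c : ℤ} (hr : Run M.F a b c)
    (hxl : B.xl = a * L) (hxr : B.xr = b * L + L - 1) (h1 : c * L < B.y1) (h2 : B.y2 < c * L + L)
    (hy : B.y1 < B.y2) :
    Ao857.Split B (lowT (D M.F L) B.xl B.xr B.y1) (upT (D M.F L) B.xl B.xr B.y2) := by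
  refine split_low_up B (D_SC M hL) (fun a ha b hb => D_cpath_in M hL ha hb) ?_ ?_ hy
  · rw [hxl, hxr]; exact hr.scale hL (by omega) (by omega)
  · rw [hxl, hxr]; exact hr.scale hL (by omega) (by omega)

end Crest.Agent.R158.Xr249
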