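import Crest.Agent.R158.Xr10_249

/-!
# R158, block XR (helper249), file Xr12: the region with near stubs, charts into `G^(z)`

* `Dp A xl xr y1 y2 k` : `A` plus the two stubs of length `k` in the rows `y1 ≤ y < y2`
* `Free A xl xr y1 y2 k` : the stubs and a margin of one tile are free
* `Dp_SC`, `Dp_Conn`, **`exists_GW_Dp`**
* `eD`, **`eD_glue`** : the chart of `Dp` in the tiles of `G^(z)`
* `eS`, **`eS_glue`** : the chart of a rectangle of the strip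
-/

set_option autoImplicit false
set_option linter.unusedVariables false

noncomputable section

namespace Crest.Agent.R158.Xr249

open Env664 (Adj4 Mac D mem_D div_iff PortOf portOf_some portOf_none res nbP beP nbD beD IsWord Run
  CutAdj lowT upT Band TG)
open Ob664 (GW rgt)

/-- adding a set `S` of tiles to `A` keeps the complement connected if the outer neighbours of `S` are
joined around `S` -/
lemma cc_union {A S : Finset (ℤ × ℤ)} (hcc : ∀ a ∉ A, ∀ b ∉ A, CPath {t | t ∉ A} a b) (r : ℤ × ℤ)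
    (hring : ∀ e, e ∉ A → e ∉ S → ∀ s ∈ S, Adj4 e s → CPath {t | t ∉ A ∪ S} e r) :
    ∀ a ∉ A ∪ S, ∀ b ∉ A ∪ S, CPath {t | t ∉ A ∪ S} a b := by
  intro a ha b hb
  rw [Finset.mem_union, not_or] at ha hb
  have key : ∀ e, CPath {t | t ∉ A} a e → (e ∉ S → CPath {t | t ∉ A ∪ S} a e) ∧
      (e ∈ S → CPath {t | t ∉ A ∪ S} a r) := by
    intro e he
    induction he with
    | refl => exact ⟨fun _ => .refl, fun h => absurd h ha.2⟩
    | @tail c d _ h2 ih =>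
      obtain ⟨h3, h4, h5⟩ := h2
      simp only [Set.mem_setOf_eq] at h4 h5
      by_cases hc : c ∈ S
      · refine ⟨fun hd => ?_, fun _ => ih.2 hc⟩
        exact (ih.2 hc).trans (hring d h5 hd c hc h3.symm).symm
      · refine ⟨fun hd => (ih.1 hc).trans (CPath.step h3 ?_ ?_), fun hd => ?_⟩
        · simp only [Set.mem_setOf_eq, Finset.mem_union, not_or]; exact ⟨h4, hc⟩
        · simp only [Set.mem_setOf_eq, Finset.mem_union, not_or]; exact ⟨h5, hd⟩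
        · exact (ih.1 hc).trans (hring c h4 hc d hd h3)
  exact (key b (hcc a ha.1 b hb.1)).1 hb.2

/-- connected complement gives `SC` -/
lemma SC_of_cc {A : Finset (ℤ × ℤ)} (hcc : ∀ a ∉ A, ∀ b ∉ A, CPath {t | t ∉ A} a b) :
    (full A).SC := by
  obtain ⟨y, hy⟩ := exists_top A
  have hfar : (0, y) ∉ A := fun h => lt_irrefl _ (hy _ h)
  exact full_SC fun c hc => ⟨(0, y), hcc c hc _ hfar, fun t ht => (hy t ht).le⟩

/-- the region with the two near stubs -/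
def Dp (A : Finset (ℤ × ℤ)) (xl xr y1 y2 k : ℤ) : Finset (ℤ × ℤ) :=
  A ∪ rct (xr + 1) (xr + k + 1) y1 y2 ∪ rct (xl - k) xl y1 y2

/-- the place of the stubs is free -/
structure Free (A : Finset (ℤ × ℤ)) (xl xr y1 y2 k : ℤ) : Prop where
  k0 : 0 ≤ k
  le : xl ≤ xr
  run : ∀ y, y1 ≤ y → y < y2 → (xl, y) ∈ A ∧ (xr, y) ∈ A
  right : ∀ x y, xr < x → x ≤ xr + k + 1 → y1 - 1 ≤ y → y ≤ y2 → (x, y) ∉ A
  left : ∀ x y, x < xl → xl - k - 1 ≤ x → y1 - 1 ≤ y → y ≤ y2 → (x, y) ∉ A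

section stub

variable {A : Finset (ℤ × ℤ)} {xl xr y1 y2 k : ℤ}

lemma mem_Dp {x y : ℤ} : (x, y) ∈ Dp A xl xr y1 y2 k ↔
    (x, y) ∈ A ∨ ((xr + 1 ≤ x ∧ x < xr + k + 1) ∧ y1 ≤ y ∧ y < y2) ∨
      ((xl - k ≤ x ∧ x < xl) ∧ y1 ≤ y ∧ y < y2) := by
  rw [Dp, Finset.mem_union, Finset.mem_union, mem_rct, mem_rct, or_assoc]

theorem Dp_cc (hf : Free A xl xr y1 y2 k) (hcc : ∀ a ∉ A, ∀ b ∉ A, CPath {t | t ∉ A} a b) :
    ∀ a ∉ Dp A xl xr y1 y2 k, ∀ b ∉ Dp A xl xr y1 y2 k, CPath {t | t ∉ Dp A xl xr y1 y2 k} a b := by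
  have hk := hf.k0
  have hle := hf.le
  -- the right stub
  have h1 : ∀ a ∉ A ∪ rct (xr + 1) (xr + k + 1) y1 y2, ∀ b ∉ A ∪ rct (xr + 1) (xr + k + 1) y1 y2,
      CPath {t | t ∉ A ∪ rct (xr + 1) (xr + k + 1) y1 y2} a b := by
    refine cc_union hcc (xr + k + 1, y1 - 1) ?_
    rintro ⟨x, y⟩ hA hS ⟨x', y'⟩ hs hadj
    rw [mem_rct] at hS hs
    obtain ⟨⟨s1, s2⟩, s3, s4⟩ := hs
    have hX : ∀ {a b : ℤ}, xr < a → a ≤ xr + k + 1 → y1 - 1 ≤ b → b ≤ y2 →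
        ¬ ((xr + 1 ≤ a ∧ a < xr + k + 1) ∧ y1 ≤ b ∧ b < y2) →
        (a, b) ∈ {t : ℤ × ℤ | t ∉ A ∪ rct (xr + 1) (xr + k + 1) y1 y2} := by
      intro a b g1 g2 g3 g4 g5
      simp only [Set.mem_setOf_eq, Finset.mem_union, not_or, mem_rct]
      exact ⟨hf.right a b g1 g2 g3 g4, g5⟩
    have hx : x ≠ xr ∨ ¬ (y1 ≤ y ∧ y < y2) := by
      by_contra hcon
      push Not at hcon
      obtain ⟨rfl, c2, c3⟩ := hcon
      exact hA (hf.run y c2 c3).2
    unfold Adj4 at hadj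
    simp only at hadj
    by_cases e1 : x = xr + k + 1
    · subst e1
      exact (CPath.ver (by omega) fun z g1 g2 => hX (by omega) (by omega) (by omega) (by omega)
        (by omega)).symm
    · by_cases e2 : y = y1 - 1
      · subst e2
        exact CPath.hor (by omega) fun z g1 g2 => hX (by omega) (by omega) (by omega) (by omega)
          (by omega)
      · have e3 : y = y2 := by omega
        subst e3
        exact (CPath.hor (x2 := xr + k + 1) (by omega) fun z g1 g2 => hX (by omega) (by omega)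
          (by omega) (by omega) (by omega)).trans
          (CPath.ver (by omega) fun z g1 g2 => hX (by omega) (by omega) (by omega) (by omega)
            (by omega)).symm
  -- the left stub
  refine cc_union h1 (xl - k - 1, y1 - 1) ?_
  rintro ⟨x, y⟩ hA hS ⟨x', y'⟩ hs hadj
  rw [mem_rct] at hS hs
  rw [Finset.mem_union, not_or, mem_rct] at hA
  obtain ⟨⟨s1, s2⟩, s3, s4⟩ := hs
  have hX : ∀ {a b : ℤ}, a < xl → xl - k - 1 ≤ a → y1 - 1 ≤ b → b ≤ y2 →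
      ¬ ((xl - k ≤ a ∧ a < xl) ∧ y1 ≤ b ∧ b < y2) →
      (a, b) ∈ {t : ℤ × ℤ | t ∉ A ∪ rct (xr + 1) (xr + k + 1) y1 y2 ∪ rct (xl - k) xl y1 y2} := by
    intro a b g1 g2 g3 g4 g5
    simp only [Set.mem_setOf_eq, Finset.mem_union, not_or, mem_rct]
    exact ⟨⟨hf.left a b g1 g2 g3 g4, by omega⟩, g5⟩
  have hx : x ≠ xl ∨ ¬ (y1 ≤ y ∧ y < y2) := by
    by_contra hcon
    push Not at hcon
    obtain ⟨rfl, c2, c3⟩ := hcon
    exact hA.1 (hf.run y c2 c3).1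
  unfold Adj4 at hadj
  simp only at hadj
  by_cases e1 : x = xl - k - 1
  · subst e1
    exact (CPath.ver (by omega) fun z g1 g2 => hX (by omega) (by omega) (by omega) (by omega)
      (by omega)).symm
  · by_cases e2 : y = y1 - 1
    · subst e2
      exact (CPath.hor (by omega) fun z g1 g2 => hX (by omega) (by omega) (by omega) (by omega)
        (by omega)).symm
    · have e3 : y = y2 := by omega
      subst e3
      exact (CPath.hor (x1 := xl - k - 1) (by omega) fun z g1 g2 => hX (by omega) (by omega)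
        (by omega) (by omega) (by omega)).symm.trans
        (CPath.ver (by omega) fun z g1 g2 => hX (by omega) (by omega) (by omega) (by omega)
          (by omega)).symm

theorem Dp_SC (hf : Free A xl xr y1 y2 k) (hcc : ∀ a ∉ A, ∀ b ∉ A, CPath {t | t ∉ A} a b) :
    (full (Dp A xl xr y1 y2 k)).SC := SC_of_cc (Dp_cc hf hcc)

theorem Dp_cpath (hf : Free A xl xr y1 y2 k) (hc : ∀ a ∈ A, ∀ b ∈ A, CPath {t | t ∈ A} a b) :
    ∀ a ∈ Dp A xl xr y1 y2 k, ∀ b ∈ Dp A xl xr y1 y2 k, CPath {t | t ∈ Dp A xl xr y1 y2 k} a b := by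
  have hsub : {t | t ∈ A} ⊆ {t | t ∈ Dp A xl xr y1 y2 k} := by
    intro t ht
    exact (mem_Dp (x := t.1) (y := t.2)).2 (Or.inl ht)
  have key : ∀ a ∈ Dp A xl xr y1 y2 k, ∃ a' ∈ A, CPath {t | t ∈ Dp A xl xr y1 y2 k} a a' := by
    rintro ⟨x, y⟩ ha
    rcases mem_Dp.1 ha with h | ⟨⟨h1, h2⟩, h3, h4⟩ | ⟨⟨h1, h2⟩, h3, h4⟩
    · exact ⟨_, h, .refl⟩
    · refine ⟨(xr, y), (hf.run y h3 h4).2, (CPath.hor (by omega) fun z g1 g2 => ?_).symm⟩
      rcases eq_or_lt_of_le g1 with rfl | g3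
      · exact hsub (hf.run y h3 h4).2
      · exact mem_Dp.2 (Or.inr (Or.inl ⟨⟨by omega, by omega⟩, h3, h4⟩))
    · refine ⟨(xl, y), (hf.run y h3 h4).1, CPath.hor (by omega) fun z g1 g2 => ?_⟩
      rcases eq_or_lt_of_le g2 with rfl | g3
      · exact hsub (hf.run y h3 h4).1
      · exact mem_Dp.2 (Or.inr (Or.inr ⟨⟨by omega, by omega⟩, h3, h4⟩))
  intro a ha b hb
  obtain ⟨a', ha', h1⟩ := key a ha
  obtain ⟨b', hb', h2⟩ := key b hb
  exact h1.trans (((hc a' ha' b' hb').mono hsub).trans h2.symm)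

theorem Dp_Conn (hf : Free A xl xr y1 y2 k) (hc : ∀ a ∈ A, ∀ b ∈ A, CPath {t | t ∈ A} a b) :
    (full (Dp A xl xr y1 y2 k)).Conn := full_Conn (Dp_cpath hf hc)

/-- **the region with near stubs and leg is a good word** -/
theorem exists_GW_Dp (hf : Free A xl xr y1 y2 k) (hcc : ∀ a ∉ A, ∀ b ∉ A, CPath {t | t ∉ A} a b)
    (hc : ∀ a ∈ A, ∀ b ∈ A, CPath {t | t ∈ A} a b) {p y0 : ℤ}
    (hr1 : ∀ x, xl ≤ x → x ≤ xr → (x, y0 - 1) ∈ A ∧ (x, y0) ∈ A) (h1 : y1 < y0) (h2 : y0 < y2)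
    (h3 : xl < p) (h4 : p ≤ xr) :
    ∃ w, GW (Dp A xl xr y1 y2 k) (beD (Dp A xl xr y1 y2 k) p y0 (xr + k)) w := by
  have hk := hf.k0
  refine exists_GW (Dp_SC hf hcc) (Dp_Conn hf hc) (by omega) ?_ ?_ ?_
  · intro x g1 g2
    rcases le_or_gt x xr with g3 | g3
    · exact ⟨mem_Dp.2 (Or.inl (hr1 x (by omega) g3).1), mem_Dp.2 (Or.inl (hr1 x (by omega) g3).2)⟩
    · exact ⟨mem_Dp.2 (Or.inr (Or.inl ⟨⟨by omega, by omega⟩, by omega, by omega⟩)),
        mem_Dp.2 (Or.inr (Or.inl ⟨⟨by omega, by omega⟩, by omega, by omega⟩))⟩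
  · rw [mem_Dp]
    rintro (h | h | h)
    · exact hf.right _ _ (by omega) (le_refl _) (by omega) (by omega) h
    · omega
    · have := hf.le
      omega
  · exact Or.inr ⟨mem_Dp.2 (Or.inl (hr1 _ (by omega) (by omega)).1),
      mem_Dp.2 (Or.inl (hr1 _ (by omega) (by omega)).2)⟩

end stub

/-- the stubs inside missing macroscopic cells -/
theorem free_mac (M : Mac) {L : ℤ} {a b c : ℤ} (hr : Run M.F a b c) {y1 y2 k : ℤ}
    (h1 : c * L < y1) (h2 : y2 < c * L + L) (hk0 : 0 ≤ k) (hk : k < L) :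
    Free (D M.F L) (a * L) (b * L + L - 1) y1 y2 k := by
  have hL : 0 < L := by omega
  have hab := hr.le
  have hrun : ∀ y, c * L ≤ y → y < c * L + L → Run (D M.F L) (a * L) (b * L + L - 1) y :=
    fun y g1 g2 => hr.scale hL g1 g2
  refine ⟨hk0, by nlinarith, ?_, ?_, ?_⟩
  · intro y g1 g2
    have := hrun y (by omega) (by omega)
    exact ⟨this.mem _ (le_refl _) this.le, this.mem _ this.le (le_refl _)⟩
  · intro x y g1 g2 g3 g4
    rw [mem_D hL]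
    show (x / L, y / L) ∉ M.F
    have e1 : x / L = b + 1 := (div_iff hL _ _).2 ⟨by nlinarith, by nlinarith⟩
    have e2 : y / L = c := (div_iff hL _ _).2 ⟨by omega, by omega⟩
    rw [e1, e2]
    exact hr.right
  · intro x y g1 g2 g3 g4
    rw [mem_D hL]
    show (x / L, y / L) ∉ M.F
    have e1 : x / L = a - 1 := (div_iff hL _ _).2 ⟨by nlinarith, by nlinarith⟩
    have e2 : y / L = c := (div_iff hL _ _).2 ⟨by omega, by omega⟩
    rw [e1, e2]
    exact hr.left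

/-! ### charts -/

/-- image of a port -/
def pm {S T : Type*} (f : S → T) : Port S → Port T := Option.map fun q => (f q.1, q.2)

@[simp] lemma pm_none {S T : Type*} (f : S → T) : pm f none = none := rfl
@[simp] lemma pm_some {S T : Type*} (f : S → T) (t : S) (d : ZMod 4) :
    pm f (some (t, d)) = some (f t, d) := rfl

section chart

variable {A : Finset (ℤ × ℤ)} (B : Band A)

/-- the chart of `Dp` -/
def eD (y0 k : ℤ) (t : ℤ × ℤ) : TG :=
  if (B.y1 ≤ t.2 ∧ t.2 < B.y2) ∧ B.xr < t.1 ∧ t.1 ≤ B.xr + k then Sum.inr (t.1 - B.xr - 1, t.2)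
  else if (B.y1 ≤ t.2 ∧ t.2 < B.y2) ∧ B.xl - k ≤ t.1 ∧ t.1 < B.xl then
    Sum.inr (B.wd y0 t.2 - (B.xl - t.1), t.2)
  else Sum.inl t

/-- the chart of the strip -/
def eS (y0 : ℤ) (t : ℤ × ℤ) : TG := Sum.inr (if t.2 < y0 then t.1 else t.1 + 1, t.2)

variable {B} {y0 k x y : ℤ}

lemma eD_r (h : (B.y1 ≤ y ∧ y < B.y2) ∧ B.xr < x ∧ x ≤ B.xr + k) :
    eD B y0 k (x, y) = Sum.inr (x - B.xr - 1, y) := by
  unfold eD; rw [if_pos h]

lemma eD_l (h1 : B.xl ≤ B.xr) (h : (B.y1 ≤ y ∧ y < B.y2) ∧ B.xl - k ≤ x ∧ x < B.xl) :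
    eD B y0 k (x, y) = Sum.inr (B.wd y0 y - (B.xl - x), y) := by
  unfold eD; rw [if_neg (by simp only; omega), if_pos h]

lemma eD_in (h : ¬ ((B.y1 ≤ y ∧ y < B.y2) ∧ B.xr < x ∧ x ≤ B.xr + k))
    (h' : ¬ ((B.y1 ≤ y ∧ y < B.y2) ∧ B.xl - k ≤ x ∧ x < B.xl)) :
    eD B y0 k (x, y) = Sum.inl (x, y) := by
  unfold eD; rw [if_neg h, if_neg h']

lemma wd_cases (B : Band A) (y0 y : ℤ) : (y < y0 ∧ B.wd y0 y = B.R) ∨ (y0 ≤ y ∧ B.wd y0 y = B.R + 1) := by
  unfold Band.wd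
  split_ifs with h
  · exact Or.inl ⟨h, rfl⟩
  · exact Or.inr ⟨by omega, rfl⟩

/-- the three kinds of tiles of `Dp` -/
lemma Dp_cases (hf : Free A B.xl B.xr B.y1 B.y2 k) (h : (x, y) ∈ Dp A B.xl B.xr B.y1 B.y2 k) :
    ((x, y) ∈ A ∧ ¬ ((B.y1 ≤ y ∧ y < B.y2) ∧ B.xr < x ∧ x ≤ B.xr + k) ∧
      ¬ ((B.y1 ≤ y ∧ y < B.y2) ∧ B.xl - k ≤ x ∧ x < B.xl)) ∨
    ((x, y) ∉ A ∧ (B.y1 ≤ y ∧ y < B.y2) ∧ B.xr < x ∧ x ≤ B.xr + k) ∨
    ((x, y) ∉ A ∧ (B.y1 ≤ y ∧ y < B.y2) ∧ B.xl - k ≤ x ∧ x < B.xl) := by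
  rcases mem_Dp.1 h with h1 | ⟨⟨h1, h2⟩, h3, h4⟩ | ⟨⟨h1, h2⟩, h3, h4⟩
  · refine Or.inl ⟨h1, ?_, ?_⟩
    · rintro ⟨⟨g1, g2⟩, g3, g4⟩
      exact hf.right x y g3 (by omega) (by omega) (by omega) h1
    · rintro ⟨⟨g1, g2⟩, g3, g4⟩
      exact hf.left x y g4 (by omega) (by omega) (by omega) h1
  · refine Or.inr (Or.inl ⟨hf.right x y (by omega) (by omega) (by omega) (by omega), ⟨h3, h4⟩,
      by omega, by omega⟩)
  · refine Or.inr (Or.inr ⟨hf.left x y (by omega) (by omega) (by omega) (by omega), ⟨h3, h4⟩,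
      by omega, by omega⟩)

/-- the image is in the tiles of `G^(z)` -/
lemma eD_mem (hf : Free A B.xl B.xr B.y1 B.y2 k) (hR : 2 * k < B.R)
    (h : (x, y) ∈ Dp A B.xl B.xr B.y1 B.y2 k) : eD B y0 k (x, y) ∈ B.tG y0 := by
  have hw := wd_cases B y0 y
  rcases Dp_cases hf h with ⟨h1, h2, h3⟩ | ⟨-, h2⟩ | ⟨-, h2⟩
  · rw [eD_in h2 h3, B.inl_mem]; exact h1
  · rw [eD_r h2, B.inr_mem]; omega
  · rw [eD_l hf.le h2, B.inr_mem]; omega

/-- the chart is injective on `Dp` -/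
lemma eD_inj (hf : Free A B.xl B.xr B.y1 B.y2 k) (hR : 2 * k < B.R) {x' y' : ℤ}
    (h : (x, y) ∈ Dp A B.xl B.xr B.y1 B.y2 k) (h' : (x', y') ∈ Dp A B.xl B.xr B.y1 B.y2 k)
    (e : eD B y0 k (x, y) = eD B y0 k (x', y')) : (x, y) = (x', y') := by
  have hw := wd_cases B y0 y
  have hw' := wd_cases B y0 y'
  rcases Dp_cases hf h with ⟨h1, h2, h3⟩ | ⟨-, h2⟩ | ⟨-, h2⟩ <;>
    rcases Dp_cases hf h' with ⟨h1', h2', h3'⟩ | ⟨-, h2'⟩ | ⟨-, h2'⟩
  · rw [eD_in h2 h3, eD_in h2' h3'] at e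
    exact Sum.inl_injective e
  · rw [eD_in h2 h3, eD_r h2'] at e
    exact absurd e (by simp)
  · rw [eD_in h2 h3, eD_l hf.le h2'] at e
    exact absurd e (by simp)
  · rw [eD_r h2, eD_in h2' h3'] at e
    exact absurd e (by simp)
  · rw [eD_r h2, eD_r h2'] at e
    have := Sum.inr_injective e
    simp only [Prod.mk.injEq] at this ⊢
    omega
  · rw [eD_r h2, eD_l hf.le h2'] at e
    have := Sum.inr_injective e
    simp only [Prod.mk.injEq] at this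
    omega
  · rw [eD_l hf.le h2, eD_in h2' h3'] at e
    exact absurd e (by simp)
  · rw [eD_l hf.le h2, eD_r h2'] at e
    have := Sum.inr_injective e
    simp only [Prod.mk.injEq] at this
    omega
  · rw [eD_l hf.le h2, eD_l hf.le h2'] at e
    have := Sum.inr_injective e
    simp only [Prod.mk.injEq] at this ⊢
    obtain ⟨e1, rfl⟩ := this
    omega

end chart

end Crest.Agent.R158.Xr249
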