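import Crest.Agent.R158.Xr10_249

/-!
# R158, block XR (helper249), file Xr15: the region with a leg, lower row shorter by one

Option W with the row `y0 - 1` ending at `xr - 1` and the row `y0` ending at `xr`: `(x, y0-1).N` is
glued to `(x+1, y0).S` for `p ≤ x < xr`, and there is no tile `(xr, y0-1)`.

* `Reg.Slit'`, **`Reg.stz'`**
* **`exists_GW'`** : existence of the good word
-/

set_option autoImplicit false
set_option linter.unusedVariables false

noncomputable section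

namespace Crest.Agent.R158.Xr249

open Env664 (Adj4 Mac D mem_D div_iff PortOf portOf_some portOf_none res nbP beP nbD beD IsWord Run
  CutAdj lowT upT)
open Ob664 (GW rgt)

namespace Reg

variable {R : Reg}

/-- the hypotheses on the line: `p..xr` in the upper row, `p..xr-1` in the lower row -/
structure Slit' (R : Reg) (p y0 xr : ℤ) : Prop where
  pr : p < xr
  ver : ∀ x, p ≤ x → x < xr → R.v (x, y0 - 1)
  lo : ∀ x, p ≤ x → x < xr - 1 → R.h (x, y0 - 1)
  up : ∀ x, p ≤ x → x < xr → R.h (x, y0)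
  out : (xr, y0 - 1) ∉ R.P

variable {p y0 xr : ℤ}

theorem glz_glue' (hs : p ≤ xr) : Glue (R.glz p y0 xr) := by
  refine ⟨?_, ?_, ?_⟩
  · rintro (- | ⟨⟨x, y⟩, d⟩) q h
    · rw [glz_none.1 h]
      exact glz_3.2 (Or.inl ⟨rfl, rfl, rfl⟩)
    · rcases d4 d with rfl | rfl | rfl | rfl
      · obtain ⟨h1, rfl⟩ := glz_0.1 h
        exact glz_2.2 ⟨h1, by rw [sub_add_cancel]⟩
      · rcases glz_1.1 h with ⟨rfl, h1, h2, rfl⟩ | ⟨h1, h2, rfl⟩
        · exact glz_3.2 (Or.inr (Or.inl ⟨rfl, by omega, by omega, by rw [add_sub_cancel_right]⟩))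
        · refine glz_3.2 (Or.inr (Or.inr ⟨?_, ?_, ?_⟩))
          · rintro ⟨h3, h4, h5⟩
            exact h1 ⟨by omega, h4, h5⟩
          · rwa [add_sub_cancel_right]
          · rw [add_sub_cancel_right]
      · obtain ⟨h1, rfl⟩ := glz_2.1 h
        exact glz_0.2 ⟨by rwa [add_sub_cancel_right], by rw [add_sub_cancel_right]⟩
      · rcases glz_3.1 h with ⟨rfl, rfl, rfl⟩ | ⟨rfl, h1, h2, rfl⟩ | ⟨h1, h2, rfl⟩
        · exact glz_none.2 rfl
        · refine glz_1.2 (Or.inl ⟨rfl, by omega, by omega, by rw [sub_add_cancel]⟩)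
        · refine glz_1.2 (Or.inr ⟨?_, h2, by rw [sub_add_cancel]⟩)
          rintro ⟨h3, h4, h5⟩
          exact h1 ⟨by omega, h4, h5⟩
  · rintro (- | ⟨⟨x, y⟩, d⟩) q q' h h'
    · rw [glz_none.1 h, glz_none.1 h']
    · rcases d4 d with rfl | rfl | rfl | rfl
      · rw [(glz_0.1 h).2, (glz_0.1 h').2]
      · rcases glz_1.1 h with ⟨rfl, h1, h2, rfl⟩ | ⟨h1, h2, rfl⟩
        · rcases glz_1.1 h' with ⟨-, -, -, rfl⟩ | ⟨h4, -, -⟩
          · rfl
          · exact absurd ⟨rfl, h1, h2.le⟩ h4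
        · rcases glz_1.1 h' with ⟨h3, h4, h5, -⟩ | ⟨h4, -, rfl⟩
          · exact absurd ⟨h3, h4, h5.le⟩ h1
          · rfl
      · rw [(glz_2.1 h).2, (glz_2.1 h').2]
      · rcases glz_3.1 h with ⟨rfl, rfl, rfl⟩ | ⟨rfl, h1, h2, rfl⟩ | ⟨h1, h2, rfl⟩
        · rcases glz_3.1 h' with ⟨-, -, rfl⟩ | ⟨-, h3, -, -⟩ | ⟨h3, -, -⟩
          · rfl
          · omega
          · exact absurd ⟨rfl, le_refl _, hs⟩ h3
        · rcases glz_3.1 h' with ⟨-, h3, rfl⟩ | ⟨-, h3, -, rfl⟩ | ⟨h3, -, -⟩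
          · omega
          · rfl
          · exact absurd ⟨rfl, h1.le, h2⟩ h3
        · rcases glz_3.1 h' with ⟨h3, h4, -⟩ | ⟨h3, h4, h5, -⟩ | ⟨h3, -, rfl⟩
          · have := hs
            exact absurd ⟨h3, by omega, by omega⟩ h1
          · exact absurd ⟨h3, by omega, by omega⟩ h1
          · rfl
  · rintro (- | ⟨⟨x, y⟩, d⟩) q h
    · rw [glz_none.1 h]; simp
    · rcases d4 d with rfl | rfl | rfl | rfl
      · rw [(glz_0.1 h).2]; simp; omega
      · rcases glz_1.1 h with ⟨rfl, h1, h2, rfl⟩ | ⟨h1, h2, rfl⟩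
        · simp
        · simp
      · rw [(glz_2.1 h).2]; simp
      · rcases glz_3.1 h with ⟨rfl, rfl, rfl⟩ | ⟨rfl, h1, h2, rfl⟩ | ⟨h1, h2, rfl⟩
        · simp
        · simp; omega
        · simp; omega

/-- the root row: the whole run of `(p, y0)`, glued to the leg -/
lemma rowRoot' {a b : ℤ} (hr : R.IsRun a b y0) (h1 : a ≤ p) (h2 : p ≤ b) :
    RowData (R.glz p y0 xr) {none} (rw_ y0) a b p p 3 (fun _ => none) := by
  refine ⟨Or.inr rfl, h1, le_refl _, h2, ?_, ?_, ?_, ?_, ?_, ?_, ?_, ?_, ?_, ?_⟩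
  · intro x y _ _ _ _ h
    exact (Prod.mk.injEq _ _ _ _ ▸ h : x = y ∧ y0 = y0).1
  · intro x _ _ h
    simp at h
  · intro x h1 h2
    exact glz_2.2 ⟨hr.gl x h1 h2, rfl⟩
  · intro q hq
    exact absurd (glz_0.1 hq).1 hr.la
  · intro q hq
    exact absurd (glz_2.1 hq).1 hr.lb
  · intro x h1 h2 q hq hm
    rcases glz_1.1 (show R.glz p y0 xr (some ((x, y0), 1)) q from hq) with ⟨h3, -⟩ | ⟨-, -, rfl⟩
    · omega
    · rcases hm with hm | ⟨z, _, _, hm⟩
      · simp at hm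
      · simp [rw_] at hm
  · intro x h3 h4
    have : x = p := le_antisymm h4 h3
    subst this
    exact ⟨glz_3.2 (Or.inl ⟨rfl, rfl, rfl⟩), rfl⟩
  · intro x h3 h4 h5 q hq hm
    rcases glz_3.1 (show R.glz p y0 xr (some ((x, y0), 3)) q from hq) with
      ⟨-, h6, -⟩ | ⟨-, h6, h7, rfl⟩ | ⟨-, -, rfl⟩
    · omega
    · rcases hm with hm | ⟨z, _, _, hm⟩
      · simp at hm
      · simp only [tl_some, rw_, Option.some.injEq, Prod.mk.injEq] at hm
        omega
    · rcases hm with hm | ⟨z, _, _, hm⟩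
      · simp at hm
      · simp only [tl_some, rw_, Option.some.injEq, Prod.mk.injEq] at hm
        omega
  · intro _ x h3 h4; omega
  · intro _ x h3 h4; omega

/-- attaching a run that touches `Q` below -/
lemma rowBelowz' (hs : R.Slit' p y0 xr) {Q : Set (ℤ × ℤ)} {a b t u v : ℤ} (hr : R.IsRun a b t)
    (hd : ∀ x, a ≤ x → x ≤ b → (x, t) ∉ Q) (hb : R.Below Q a b t u v)
    (hQp : ∀ x, p ≤ x → x ≤ xr → (x, y0) ∈ Q) :
    RowData (R.glz p y0 xr) (A0 Q) (rw_ t) a b u v 3 (fun x => some ((x, t - 1), 1)) := by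
  have e1 : ∀ x, a ≤ x → x ≤ b → t = y0 → ¬ (p ≤ x ∧ x ≤ xr) := by
    rintro x h1 h2 rfl ⟨h3, h4⟩
    exact hd x h1 h2 (hQp x h3 h4)
  have e2 : ∀ x, a ≤ x → x ≤ b → t = y0 - 1 → ¬ (p ≤ x ∧ x ≤ xr) := by
    rintro x h1 h2 rfl ⟨h3, h4⟩
    have h5 : x < xr := by
      by_contra h6
      have h7 : x = xr := by omega
      exact hs.out (h7 ▸ hr.mem h1 h2)
    refine hb.free x h1 h2 ⟨hs.ver x h3 h5, ?_⟩
    rw [sub_add_cancel]
    exact hQp x h3 h4
  have k1 := hb.au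
  have k2 := hb.vb
  refine ⟨Or.inr rfl, hb.au, hb.uv, hb.vb, ?_, ?_, ?_, ?_, ?_, ?_, ?_, ?_, ?_, ?_⟩
  · intro x y _ _ _ _ h
    exact (Prod.mk.injEq _ _ _ _ ▸ h : x = y ∧ t = t).1
  · intro x h1 h2 h3
    exact hd x h1 h2 (mem_A0.1 h3)
  · intro x h1 h2
    exact glz_2.2 ⟨hr.gl x h1 h2, rfl⟩
  · intro q hq
    exact absurd (glz_0.1 hq).1 hr.la
  · intro q hq
    exact absurd (glz_2.1 hq).1 hr.lb
  · intro x h1 h2 q hq hm
    rcases glz_1.1 (show R.glz p y0 xr (some ((x, t), 1)) q from hq) with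
      ⟨h3, h4, h5, -⟩ | ⟨-, h3, rfl⟩
    · exact e2 x h1 h2 h3 ⟨h4, h5.le⟩
    · rcases mem_A0r.1 hm with h4 | h4
      · exact hb.free x h1 h2 ⟨h3, h4⟩
      · have := h4.2.2; simp only at this; omega
  · intro x h1 h2
    refine ⟨glz_3.2 (Or.inr (Or.inr ⟨?_, (hb.con x h1 h2).1, rfl⟩)), mem_A0.2 (hb.con x h1 h2).2⟩
    rintro ⟨h3, h4⟩
    exact e1 x (by omega) (by omega) h3 h4
  · intro x h1 h2 h3 q hq hm
    rcases glz_3.1 (show R.glz p y0 xr (some ((x, t), 3)) q from hq) with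
      ⟨h6, h7, -⟩ | ⟨h5, h6, h7, -⟩ | ⟨-, h4, rfl⟩
    · exact e1 x h1 h2 h6 ⟨by omega, by have := hs.pr; omega⟩
    · exact e1 x h1 h2 h5 ⟨by omega, by omega⟩
    · rcases mem_A0r.1 hm with h5 | h5
      · exact hb.out x h1 h2 h3 ⟨h4, h5⟩
      · have := h5.2.2; simp only at this; omega
  · intro _ x h1 h2
    have c1 := hb.con x h1 (by omega)
    have c2 := hb.con (x + 1) (by omega) (by omega)
    refine .go (q := some ((x + 1, t - 1), 0)) ⟨?_, mem_A0.2 c1.2, mem_A0.2 c2.2⟩ ?_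
    · rw [rot_some]
      exact glz_2.2 ⟨hb.hor x h1 h2, rfl⟩
    · refine .stop (p := some ((x + 1, t - 1), 0)) fun q hq => ?_
      rw [rot_some] at hq
      rcases glz_1.1 (show R.glz p y0 xr (some ((x + 1, t - 1), 1)) q from hq.1) with
        ⟨h3, h4, h5, -⟩ | ⟨-, -, h5⟩
      · exact e1 (x + 1) (by omega) (by omega) (by omega) ⟨h4, h5.le⟩
      · rw [sub_add_cancel] at h5
        rw [h5] at hq
        exact hd (x + 1) (by omega) (by omega) (mem_A0.1 hq.2.2)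
  · intro h; exact absurd h (by decide)

/-- attaching a run that touches `Q` above, not at the shifted line -/
lemma rowAbovez' (hs : R.Slit' p y0 xr) {Q : Set (ℤ × ℤ)} {a b t u v : ℤ} (hr : R.IsRun a b t)
    (hd : ∀ x, a ≤ x → x ≤ b → (x, t) ∉ Q) (hb : R.Above Q a b t u v)
    (hQp : ∀ x, p ≤ x → x ≤ xr → (x, y0) ∈ Q)
    (e2 : ∀ x, a ≤ x → x ≤ b → t = y0 - 1 → ¬ (p ≤ x ∧ x ≤ xr)) :
    RowData (R.glz p y0 xr) (A0 Q) (rw_ t) a b u v 1 (fun x => some ((x, t + 1), 3)) := by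
  have e1 : ∀ x, a ≤ x → x ≤ b → t = y0 → ¬ (p ≤ x ∧ x ≤ xr) := by
    rintro x h1 h2 rfl ⟨h3, h4⟩
    exact hd x h1 h2 (hQp x h3 h4)
  have k1 := hb.au
  have k2 := hb.vb
  refine ⟨Or.inl rfl, hb.au, hb.uv, hb.vb, ?_, ?_, ?_, ?_, ?_, ?_, ?_, ?_, ?_, ?_⟩
  · intro x y _ _ _ _ h
    exact (Prod.mk.injEq _ _ _ _ ▸ h : x = y ∧ t = t).1
  · intro x h1 h2 h3
    exact hd x h1 h2 (mem_A0.1 h3)
  · intro x h1 h2
    exact glz_2.2 ⟨hr.gl x h1 h2, rfl⟩
  · intro q hq
    exact absurd (glz_0.1 hq).1 hr.la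
  · intro q hq
    exact absurd (glz_2.1 hq).1 hr.lb
  · intro x h1 h2 q hq hm
    rcases glz_3.1 (show R.glz p y0 xr (some ((x, t), 3)) q from hq) with
      ⟨h6, h7, -⟩ | ⟨h5, h6, h7, -⟩ | ⟨-, h3, rfl⟩
    · exact e1 x h1 h2 h6 ⟨by omega, by have := hs.pr; omega⟩
    · exact e1 x h1 h2 h5 ⟨by omega, by omega⟩
    · rcases mem_A0r.1 hm with h4 | h4
      · exact hb.free x h1 h2 ⟨h3, h4⟩
      · have := h4.2.2; simp only at this; omega
  · intro x h1 h2
    refine ⟨glz_1.2 (Or.inr ⟨?_, (hb.con x h1 h2).1, rfl⟩), mem_A0.2 (hb.con x h1 h2).2⟩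
    rintro ⟨h3, h4⟩
    exact e2 x (by omega) (by omega) h3 h4
  · intro x h1 h2 h3 q hq hm
    rcases glz_1.1 (show R.glz p y0 xr (some ((x, t), 1)) q from hq) with
      ⟨h4, h5, h6, -⟩ | ⟨-, h4, rfl⟩
    · exact e2 x h1 h2 h4 ⟨h5, h6.le⟩
    · rcases mem_A0r.1 hm with h5 | h5
      · exact hb.out x h1 h2 h3 ⟨h4, h5⟩
      · have := h5.2.2; simp only at this; omega
  · intro h; exact absurd h (by decide)
  · intro _ x h1 h2
    have c1 := hb.con x h1 (by omega)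
    have c2 := hb.con (x + 1) (by omega) (by omega)
    refine .go (q := some ((x, t + 1), 2)) ⟨?_, mem_A0.2 c2.2, mem_A0.2 c1.2⟩ ?_
    · rw [rot_some, show (3 : ZMod 4) + 1 = 0 by decide]
      refine glz_0.2 ⟨?_, ?_⟩
      · rw [add_sub_cancel_right]; exact hb.hor x h1 h2
      · rw [add_sub_cancel_right]
    · refine .stop (p := some ((x, t + 1), 2)) fun q hq => ?_
      rw [rot_some] at hq
      rcases glz_3.1 (show R.glz p y0 xr (some ((x, t + 1), 3)) q from hq.1) with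
        ⟨h6, h7, -⟩ | ⟨h5, h6, h7, -⟩ | ⟨-, h4, h5⟩
      · exact e2 x (by omega) (by omega) (by omega) ⟨by omega, by have := hs.pr; omega⟩
      · exact e2 x (by omega) (by omega) (by omega) ⟨by omega, by omega⟩
      · rw [add_sub_cancel_right] at h5
        rw [h5] at hq
        exact hd x (by omega) (by omega) (mem_A0.1 hq.2.2)

/-- attaching the run under the shifted line -/
lemma rowLine' (hs : R.Slit' p y0 xr) {Q : Set (ℤ × ℤ)} (hQ : R.Good Q) {a b u v : ℤ}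
    (hr : R.IsRun a b (y0 - 1))
    (hd : ∀ x, a ≤ x → x ≤ b → (x, y0 - 1) ∉ Q) (hb : R.Above Q a b (y0 - 1) u v)
    (hQp : ∀ x, p ≤ x → x ≤ xr → (x, y0) ∈ Q) (hap : a ≤ p) (hxb : b = xr - 1) :
    RowData (R.glz p y0 xr) (A0 Q) (rw_ (y0 - 1)) a b u (xr - 1) 1
      (fun x => if x < p then some ((x, y0), 3) else some ((x + 1, y0), 3)) := by
  have hpr := hs.pr
  have k1 := hb.au
  have k2 := hb.vb
  have hcon : ∀ x, u ≤ x → x ≤ v → R.v (x, y0 - 1) ∧ (x, y0) ∈ Q := by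
    intro x h1 h2
    have := hb.con x h1 h2
    rwa [sub_add_cancel] at this
  have hout : ∀ x, a ≤ x → x ≤ b → R.v (x, y0 - 1) → (x, y0) ∈ Q → u ≤ x ∧ x ≤ v := by
    intro x h1 h2 h3 h4
    by_contra h5
    refine hb.out x h1 h2 h5 ⟨h3, ?_⟩
    rwa [sub_add_cancel]
  have hup : u ≤ p ∧ p ≤ v :=
    hout p hap (by omega) (hs.ver p (le_refl _) hpr) (hQp p (le_refl _) hpr.le)
  have hxr : u ≤ xr - 1 ∧ xr - 1 ≤ v :=
    hout (xr - 1) (by omega) (by omega) (hs.ver (xr - 1) (by omega) (by omega))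
      (hQp (xr - 1) (by omega) (by omega))
  have hv : v = xr - 1 := by omega
  have hu : u ≤ xr - 1 := by omega
  have hhor : ∀ x, u ≤ x → x < xr → R.h (x, y0) := by
    intro x h1 h2
    by_cases h3 : x < v
    · have := hb.hor x h1 h3
      rwa [sub_add_cancel] at this
    · exact hs.up x (by omega) h2
  have hmem : ∀ x, u ≤ x → x ≤ xr → (x, y0) ∈ Q := by
    intro x h1 h2
    by_cases h3 : x ≤ v
    · exact (hcon x h1 h3).2
    · exact hQp x (by omega) h2
  have hne : ∀ x : ℤ, (some ((x, y0), (3 : ZMod 4)) : Port (ℤ × ℤ)) = rot (some ((x, y0), 2)) := by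
    intro x; rw [rot_some]; rfl
  -- a port `(x, y0).S` of the upper row is not glued to the built part
  have hfree : ∀ x, u ≤ x → x ≤ xr → x ≠ p → ∀ q, ¬ GA (R.glz p y0 xr) (A0 Q) (some ((x, y0), 3)) q := by
    rintro x h1 h2 h3 q ⟨h4, -, h5⟩
    rcases glz_3.1 h4 with ⟨-, h6, -⟩ | ⟨-, h6, h7, rfl⟩ | ⟨h8, h6, rfl⟩
    · exact h3 h6
    · exact hd (x - 1) (by omega) (by omega) (mem_A0.1 h5)
    · have h9 : x < p := by
        by_contra h9
        exact h8 ⟨rfl, by omega, h2⟩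
      exact hd x (by omega) (by omega) (mem_A0.1 h5)
  refine ⟨Or.inl rfl, hb.au, hu, by omega, ?_, ?_, ?_, ?_, ?_, ?_, ?_, ?_, ?_, ?_⟩
  · intro x y _ _ _ _ h
    exact (Prod.mk.injEq _ _ _ _ ▸ h : x = y ∧ y0 - 1 = y0 - 1).1
  · intro x h1 h2 h3
    exact hd x h1 h2 (mem_A0.1 h3)
  · intro x h1 h2
    exact glz_2.2 ⟨hr.gl x h1 h2, rfl⟩
  · intro q hq
    exact absurd (glz_0.1 hq).1 hr.la
  · intro q hq
    exact absurd (glz_2.1 hq).1 hr.lb
  · intro x h1 h2 q hq hm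
    rcases glz_3.1 (show R.glz p y0 xr (some ((x, y0 - 1), 3)) q from hq) with
      ⟨h6, -⟩ | ⟨h6, -⟩ | ⟨-, h3, rfl⟩
    · omega
    · omega
    · rcases mem_A0r.1 hm with h4 | h4
      · exact hb.free x h1 h2 ⟨h3, h4⟩
      · have := h4.2.2; simp only at this; omega
  · intro x h1 h2
    by_cases hx : x < p
    · rw [if_pos hx]
      refine ⟨glz_1.2 (Or.inr ⟨?_, (hcon x h1 (by omega)).1, by rw [sub_add_cancel]⟩),
        mem_A0.2 (hmem x h1 (by omega))⟩
      rintro ⟨-, h3, -⟩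
      omega
    · rw [if_neg hx]
      exact ⟨glz_1.2 (Or.inl ⟨rfl, by omega, by omega, rfl⟩), mem_A0.2 (hmem (x + 1) (by omega) (by omega))⟩
  · intro x h1 h2 h3 q hq hm
    rcases glz_1.1 (show R.glz p y0 xr (some ((x, y0 - 1), 1)) q from hq) with
      ⟨h4, h5, h6, -⟩ | ⟨h4, h5, rfl⟩
    · omega
    · rw [sub_add_cancel] at hm
      rcases mem_A0r.1 hm with h6 | h6
      · have := hout x h1 h2 h5 h6
        exact h4 ⟨rfl, by omega, by omega⟩
      · have := h6.2.2; simp only at this; omega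
  · intro h; exact absurd h (by decide)
  · intro _ x h1 h2
    by_cases hx : x + 1 < p
    · rw [if_pos hx, if_pos (by omega)]
      refine .go (q := some ((x, y0), 2)) ⟨?_, mem_A0.2 (hmem _ (by omega) (by omega)),
        mem_A0.2 (hmem _ (by omega) (by omega))⟩ ?_
      · rw [rot_some, show (3 : ZMod 4) + 1 = 0 by decide]
        refine glz_0.2 ⟨?_, ?_⟩
        · rw [add_sub_cancel_right]; exact hhor x h1 (by omega)
        · rw [add_sub_cancel_right]
      · rw [hne]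
        refine .stop fun q hq => ?_
        rw [← hne] at hq
        exact hfree x (by omega) (by omega) (by omega) q hq
    · by_cases hx2 : x + 1 = p
      · -- the leg is passed
        subst hx2
        rw [if_neg (by omega), if_pos (by omega)]
        refine .go (q := some ((x + 1, y0), 2)) ⟨?_, mem_A0.2 (hmem _ (by omega) (by omega)),
          mem_A0.2 (hmem _ (by omega) (by omega))⟩ ?_
        · rw [rot_some, show (3 : ZMod 4) + 1 = 0 by decide]
          refine glz_0.2 ⟨?_, ?_⟩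
          · rw [add_sub_cancel_right]; exact hhor (x + 1) (by omega) (by omega)
          · rw [add_sub_cancel_right]
        refine .go (q := none) ⟨?_, mem_A0.2 (hmem _ (by omega) (by omega)), none_A0⟩ ?_
        · rw [← hne]
          exact glz_3.2 (Or.inl ⟨rfl, rfl, rfl⟩)
        refine .go (q := some ((x + 1, y0), 3)) ⟨?_, none_A0,
          mem_A0.2 (hmem _ (by omega) (by omega))⟩ ?_
        · rw [rot_none]
          exact glz_none.2 rfl
        refine .go (q := some ((x, y0), 2)) ⟨?_, mem_A0.2 (hmem _ (by omega) (by omega)),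
          mem_A0.2 (hmem _ (by omega) (by omega))⟩ ?_
        · rw [rot_some, show (3 : ZMod 4) + 1 = 0 by decide]
          refine glz_0.2 ⟨?_, ?_⟩
          · rw [add_sub_cancel_right]; exact hhor x (by omega) (by omega)
          · rw [add_sub_cancel_right]
        rw [hne]
        refine .stop fun q hq => ?_
        rw [← hne] at hq
        exact hfree x (by omega) (by omega) (by omega) q hq
      · rw [if_neg (by omega), if_neg (by omega)]
        refine .go (q := some ((x + 1, y0), 2)) ⟨?_, mem_A0.2 (hmem _ (by omega) (by omega)),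
          mem_A0.2 (hmem _ (by omega) (by omega))⟩ ?_
        · rw [rot_some, show (3 : ZMod 4) + 1 = 0 by decide]
          refine glz_0.2 ⟨?_, ?_⟩
          · rw [add_sub_cancel_right]; exact hhor (x + 1) (by omega) (by omega)
          · rw [add_sub_cancel_right]
        rw [hne]
        refine .stop fun q hq => ?_
        rw [← hne] at hq
        exact hfree (x + 1) (by omega) (by omega) (by omega) q hq

/-- **the region with a leg is a word** -/
theorem stz' (hs : R.Slit' p y0 xr) (hsc : R.SC) (hc : R.Conn) :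
    St none (R.glz p y0 xr) (A0 (R.P : Set (ℤ × ℤ))) := by
  have hpr := hs.pr
  have hG := glz_glue' (R := R) (y0 := y0) hpr.le
  have hpP : (p, y0) ∈ R.P := by
    have := (R.vP _ _ (hs.ver p (le_refl _) hs.pr)).2
    rwa [sub_add_cancel] at this
  obtain ⟨a0, b0, h1, h2, hr0⟩ := exists_run hpP
  have hcov := hr0.cover hs.up (le_refl p) hs.pr.le h1 h2
  refine grow hsc hc hr0 (fun Q => St none (R.glz p y0 xr) (A0 Q)) ?_ ?_
  · have := (St.base (b := none) hG).attach_row hG (rowRoot' hr0 h1 h2)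
    have e : ({none} : Set (Option (ℤ × ℤ))) ∪ Row (rw_ y0) a0 b0 = A0 (cells a0 b0 y0) := by
      rw [Row_eq, A0]; rfl
    rwa [e] at this
  · intro Q a b t hF hQ hsub hr hd hcon
    have hQp : ∀ x, p ≤ x → x ≤ xr → (x, y0) ∈ Q := fun x h3 h4 =>
      hsub ⟨by simp only; omega, by simp only; omega, rfl⟩
    rw [← A0_union]
    rcases hcon with ⟨u, v, hb⟩ | ⟨u, v, hb⟩
    · exact hF.attach_row hG (rowBelowz' hs hr hd hb hQp)
    · by_cases hp : t = y0 - 1 ∧ ∃ x, a ≤ x ∧ x ≤ b ∧ p ≤ x ∧ x ≤ xr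
      · obtain ⟨rfl, x, g1, g2, g3, g4⟩ := hp
        have h5 : x ≤ xr - 1 := by
          by_contra h6
          have h7 : x = xr := by omega
          exact hs.out (h7 ▸ hr.mem g1 g2)
        have h8 := hr.cover hs.lo g3 h5 g1 g2
        have h9 : b = xr - 1 := by
          by_contra h6
          exact hs.out (hr.mem (x := xr) (by omega) (by omega))
        have := hF.attach_row hG (rowLine' hs hQ hr hd hb hQp h8.1 h9)
        exact this
      · refine hF.attach_row hG (rowAbovez' hs hr hd hb hQp ?_)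
        rintro x g1 g2 g3 ⟨g4, g5⟩
        exact hp ⟨g3, x, g1, g2, g4, g5⟩

lemma glz_mem' (hs : R.Slit' p y0 xr) {a b : Port (ℤ × ℤ)} (h : R.glz p y0 xr a b) :
    tl a ∈ A0 (R.P : Set (ℤ × ℤ)) := by
  rcases a with - | ⟨⟨x, y⟩, d⟩
  · exact none_A0
  · refine mem_A0.2 (show (x, y) ∈ R.P from ?_)
    rcases d4 d with rfl | rfl | rfl | rfl
    · have := (R.hP _ _ (glz_0.1 h).1).2
      rwa [sub_add_cancel] at this
    · rcases glz_1.1 h with ⟨rfl, h1, h2, rfl⟩ | ⟨-, h1, rfl⟩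
      · exact (R.vP _ _ (hs.ver x h1 h2)).1
      · exact (R.vP _ _ h1).1
    · exact (R.hP _ _ (glz_2.1 h).1).1
    · rcases glz_3.1 h with ⟨rfl, rfl, rfl⟩ | ⟨rfl, h1, h2, rfl⟩ | ⟨-, h1, rfl⟩
      · have := (R.vP _ _ (hs.ver x (le_refl _) hs.pr)).2
        rwa [sub_add_cancel] at this
      · have := (R.hP _ _ (hs.up (x - 1) (by omega) (by omega))).2
        rwa [sub_add_cancel] at this
      · have := (R.vP _ _ h1).2
        rwa [sub_add_cancel] at this

lemma glz_GA' (hs : R.Slit' p y0 xr) : GA (R.glz p y0 xr) (A0 (R.P : Set (ℤ × ℤ))) = R.glz p y0 xr := by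
  funext a b
  refine propext ⟨fun h => h.1, fun h => ⟨h, glz_mem' hs h, glz_mem' hs ((glz_glue' hs.pr.le).sym _ _ h)⟩⟩

end Reg

section

variable {A : Finset (ℤ × ℤ)} {p y0 xr : ℤ}

/-- glueing with leg = `glz` of `full A`, lower row shorter by one -/
lemma gb_beD' (hpr : p < xr) (hup : ∀ x, p ≤ x → x ≤ xr → (x, y0) ∈ A)
    (hlo : ∀ x, p ≤ x → x < xr → (x, y0 - 1) ∈ A) (hx : (xr, y0 - 1) ∉ A)
    (hw : (xr + 1, y0) ∉ A) : gb (beD A p y0 xr) = (full A).glz p y0 xr := by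
  have hp0 := hup p (le_refl _) hpr.le
  funext a q
  refine propext ?_
  rcases a with - | ⟨⟨x, y⟩, d⟩
  · rw [Reg.glz_none, gb, beD, res, Env664.nbD_leg, if_pos ⟨portOf_none A, portOf_some.2 hp0⟩]
    constructor
    · rintro ⟨h1, -⟩; exact h1.symm
    · rintro rfl; exact ⟨rfl, by simp⟩
  · have key : ∀ r : Port (ℤ × ℤ), nbD p y0 xr (some ((x, y), d)) = r → some ((x, y), d) ≠ r →
        (gb (beD A p y0 xr) (some ((x, y), d)) q ↔ ((x, y) ∈ A ∧ PortOf A r) ∧ q = r) := by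
      rintro r h1 h2
      rw [beD, gb_res h1 h2, portOf_some]
    rcases Reg.d4 d with rfl | rfl | rfl | rfl
    · rw [Reg.glz_0, key _ Env664.nbD_W (by simp; omega), portOf_some]
      refine and_congr ?_ Iff.rfl
      rw [full_h, sub_add_cancel, and_comm]
    · by_cases hc : y = y0 - 1 ∧ p ≤ x ∧ x ≤ xr
      · rw [Reg.glz_1, key _ (Env664.nbD_N1 hc) (by simp), portOf_some]
        obtain ⟨rfl, hc1, hc2⟩ := hc
        constructor
        · rintro ⟨⟨h1, h2⟩, h3⟩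
          have h4 : x ≠ xr := by rintro rfl; exact hx h1
          exact Or.inl ⟨rfl, hc1, by omega, h3⟩
        · rintro (⟨-, -, h1, h2⟩ | ⟨h1, -⟩)
          · exact ⟨⟨hlo x hc1 h1, hup (x + 1) (by omega) (by omega)⟩, h2⟩
          · exact absurd ⟨rfl, hc1, hc2⟩ h1
      · rw [Reg.glz_1, key _ (Env664.nbD_N hc) (by simp), portOf_some]
        constructor
        · rintro ⟨h1, h2⟩
          exact Or.inr ⟨hc, h1, h2⟩
        · rintro (⟨h1, h2, h3, -⟩ | ⟨-, h1, h2⟩)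
          · exact absurd ⟨h1, h2, h3.le⟩ hc
          · exact ⟨h1, h2⟩
    · rw [Reg.glz_2, key _ Env664.nbD_E (by simp), portOf_some]
      exact Iff.rfl
    · rw [Reg.glz_3]
      by_cases hc : y = y0 ∧ x = p
      · rw [key _ (Env664.nbD_Sleg hc) (by simp)]
        obtain ⟨rfl, rfl⟩ := hc
        constructor
        · rintro ⟨-, h1⟩
          exact Or.inl ⟨rfl, rfl, h1⟩
        · rintro (⟨-, -, h1⟩ | ⟨-, h1, -⟩ | ⟨h1, -⟩)
          · exact ⟨⟨hp0, portOf_none A⟩, h1⟩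
          · omega
          · exact absurd ⟨rfl, le_refl _, hpr.le⟩ h1
      · by_cases hc2 : y = y0 ∧ p < x ∧ x ≤ xr
        · rw [key _ (Env664.nbD_S1 hc2) (by simp; omega), portOf_some]
          obtain ⟨rfl, h1, h2⟩ := hc2
          constructor
          · rintro ⟨-, h3⟩
            exact Or.inr (Or.inl ⟨rfl, h1, h2, h3⟩)
          · rintro (⟨-, h3, -⟩ | ⟨-, -, -, h3⟩ | ⟨h3, -⟩)
            · omega
            · exact ⟨⟨hup x h1.le h2, hlo (x - 1) (by omega) (by omega)⟩, h3⟩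
            · exact absurd ⟨rfl, h1.le, h2⟩ h3
        · rw [key _ (Env664.nbD_S ⟨by omega, hc⟩) (by simp; omega), portOf_some]
          constructor
          · rintro ⟨h1, h2⟩
            refine Or.inr (Or.inr ⟨by omega, ?_, h2⟩)
            rw [full_v, sub_add_cancel]
            exact h1.symm
          · rintro (⟨h1, h2, -⟩ | ⟨h1, h2, h3, -⟩ | ⟨-, h1, h2⟩)
            · exact absurd ⟨h1, h2⟩ hc
            · exact absurd ⟨h1, h2, h3⟩ hc2
            · rw [full_v, sub_add_cancel] at h1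
              exact ⟨h1.symm, h2⟩

/-- **region with leg (option W), lower row shorter by one, as a word** -/
theorem wordD' (hsc : (full A).SC) (hc : (full A).Conn) (hpr : p < xr)
    (hup : ∀ x, p ≤ x → x ≤ xr → (x, y0) ∈ A) (hlo : ∀ x, p ≤ x → x < xr → (x, y0 - 1) ∈ A)
    (hx : (xr, y0 - 1) ∉ A) (hw : (xr + 1, y0) ∉ A) :
    ∃ w l, Wrd w l A (beD A p y0 xr) ∧ bas w = none ∧ Sw300.L w = l ∧
      some ((xr, y0), 2) ∈ l := by
  have hs : (full A).Slit' p y0 xr := by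
    refine ⟨hpr, ?_, ?_, ?_, hx⟩
    · intro x h1 h2
      rw [full_v, sub_add_cancel]
      exact ⟨hlo x h1 h2, hup x h1 h2.le⟩
    · intro x h1 h2
      exact ⟨hlo x h1 (by omega), hlo (x + 1) (by omega) (by omega)⟩
    · intro x h1 h2
      exact ⟨hup x h1 h2.le, hup (x + 1) (by omega) (by omega)⟩
  have e := gb_beD' hpr hup hlo hx hw
  obtain ⟨c, hw'⟩ := Reg.stz' hs hsc hc
  rw [Reg.glz_GA' hs, ← e] at hw'
  obtain ⟨w, hw2⟩ := hw'.adapt (by intro t ht; cases ht)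
  have hnone : none ∉ c := by
    intro h
    refine ((hw'.inv.mem none).1 h).2 (some ((p, y0), 3)) ?_
    rw [e]
    exact Reg.glz_none.2 rfl
  obtain ⟨l, h5, -, -⟩ := hw2.wrd hw'.inv (A := A)
    (fun t => by rw [Reg.mem_A0]; exact_mod_cast Iff.rfl) (fun x hx => res_not hx)
    (fun x hx => by
      have h7 : gb (beD A p y0 xr) x (beD A p y0 xr x) := ⟨rfl, fun h => hx h.symm⟩
      rw [e] at h7
      exact Reg.glz_face h7) hnone
  refine ⟨w, l, h5, hw2.bas, ?_, ?_⟩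
  · have := h5.L
    rw [hw2.bas] at this
    simpa [mk] using this
  · rw [h5.mem]
    refine ⟨⟨by simp, portOf_some.2 (hup xr hpr.le (le_refl _))⟩, ?_⟩
    by_contra h
    have h7 : gb (beD A p y0 xr) (some ((xr, y0), 2)) (beD A p y0 xr (some ((xr, y0), 2))) :=
      ⟨rfl, fun h' => h h'.symm⟩
    rw [e] at h7
    exact hw (Reg.glz_2.1 h7).1.2

/-- **existence of a good word, lower row shorter by one** (no condition at `p`) -/
theorem exists_GW'' (hsc : (full A).SC) (hc : (full A).Conn) (hpr : p < xr)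
    (hup : ∀ x, p ≤ x → x ≤ xr → (x, y0) ∈ A) (hlo : ∀ x, p ≤ x → x < xr → (x, y0 - 1) ∈ A)
    (hx : (xr, y0 - 1) ∉ A) (hw : (xr + 1, y0) ∉ A) : ∃ w, GW A (beD A p y0 xr) w := by
  obtain ⟨w, l, h1, h2, -, h3⟩ := wordD' hsc hc hpr hup hlo hx hw
  exact ⟨w, h1.gw h2 (List.ne_nil_of_mem h3)⟩

/-- **existence of a good word, lower row shorter by one** -/
theorem exists_GW' (hsc : (full A).SC) (hc : (full A).Conn) (hpr : p < xr)
    (hup : ∀ x, p ≤ x → x ≤ xr → (x, y0) ∈ A) (hlo : ∀ x, p ≤ x → x < xr → (x, y0 - 1) ∈ A)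
    (hx : (xr, y0 - 1) ∉ A) (hw : (xr + 1, y0) ∉ A)
    (hcon : p + 1 < xr ∨ ((p - 1, y0 - 1) ∈ A ∧ (p - 1, y0) ∈ A)) :
    ∃ w, GW A (beD A p y0 xr) w := exists_GW'' hsc hc hpr hup hlo hx hw

end

end Crest.Agent.R158.Xr249
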