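import Crest.Agent.R158.Bn1_468
import Crest.Agent.R158.Xr15_249
import Crest.Agent.R158.Xr12_249
import Crest.Agent.R158.Xr11_249
import Crest.Agent.R158.Mg2_949

/-!
# R158, S0237, BLOCK BL, (B9, DN) (helper468), file Bn2: words and marks

* **`sdiff_cc`**, **`sdiff_conn`** : removal of tiles from right walls
* **`dn_word_l`**, **`dn_word_t`** : words of `D` minus notches, slit in the upper run
* `mt_far` : the marks are far from the macro vertices
-/

set_option autoImplicit false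

noncomputable section

namespace Crest.Agent.R158.Bn468

open Crest.Agent.R158.Sp896 (V)
open Crest.Agent.R158.Env664 (D Run mem_D div_iff Adj4 Mac beD)
open Crest.Agent.R158.Ob664 (GW)
open Crest.Agent.R158.Xr249 (CPath SC_of_cc full_Conn full D_cpath D_cpath_in exists_GW exists_GW'')
open Crest.Agent.R158.Hb656 (Nt mem_Nt mk2 Two)
open Crest.Agent.R158.Tj656 (P4)

/-- `S` : tiles on right walls of `A`, the tiles on the left of `S` and of the vertical neighbours of
`S` remain -/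
structure Rw (A S : Finset V) : Prop where
  sub : ∀ s ∈ S, s ∈ A
  right : ∀ s ∈ S, (s.1 + 1, s.2) ∉ A
  left : ∀ s ∈ S, (s.1 - 1, s.2) ∈ A ∧ (s.1 - 1, s.2) ∉ S
  nb : ∀ s ∈ S, ∀ y : ℤ, (y = s.2 + 1 ∨ y = s.2 - 1) → (s.1, y) ∈ A →
    (s.1 - 1, y) ∈ A ∧ (s.1 - 1, y) ∉ S

theorem sdiff_cc {A S : Finset V} (h : Rw A S) (hcc : ∀ a ∉ A, ∀ b ∉ A, CPath {t | t ∉ A} a b) :
    ∀ a ∉ A \ S, ∀ b ∉ A \ S, CPath {t | t ∉ A \ S} a b := by
  have key : ∀ a ∉ A \ S, ∃ a' ∉ A, CPath {t | t ∉ A \ S} a a' := by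
    intro a ha
    by_cases h1 : a ∈ A
    · have h2 : a ∈ S := by
        by_contra h2
        exact ha (Finset.mem_sdiff.2 ⟨h1, h2⟩)
      refine ⟨(a.1 + 1, a.2), h.right a h2, CPath.step ?_ ha ?_⟩
      · exact Or.inr ⟨rfl, Or.inl rfl⟩
      · exact fun h3 => h.right a h2 (Finset.mem_sdiff.1 h3).1
    · exact ⟨a, h1, .refl⟩
  intro a ha b hb
  obtain ⟨a', ha', pa⟩ := key a ha
  obtain ⟨b', hb', pb⟩ := key b hb
  refine pa.trans (((hcc a' ha' b' hb').mono ?_).trans pb.symm)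
  exact fun t ht h3 => ht (Finset.mem_sdiff.1 h3).1

theorem sdiff_conn {A S : Finset V} (h : Rw A S) (hc : ∀ a ∈ A, ∀ b ∈ A, CPath {t | t ∈ A} a b) :
    ∀ a ∈ A \ S, ∀ b ∈ A \ S, CPath {t | t ∈ A \ S} a b := by
  classical
  let ρ : V → V := fun t => if t ∈ S then (t.1 - 1, t.2) else t
  have hρ : ∀ t ∈ A, ρ t ∈ A \ S := by
    intro t ht
    by_cases h1 : t ∈ S
    · simp only [ρ, if_pos h1]
      exact Finset.mem_sdiff.2 (h.left t h1)
    · simp only [ρ, if_neg h1]
      exact Finset.mem_sdiff.2 ⟨ht, h1⟩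
  have hb : ∀ s ∈ S, ∀ v ∈ A, Adj4 s v → v ∉ S → CPath {t | t ∈ A \ S} (s.1 - 1, s.2) v := by
    intro s hs v hv hadj hvS
    have hl : (s.1 - 1, s.2) ∈ A \ S := Finset.mem_sdiff.2 (h.left s hs)
    have hv' : v ∈ A \ S := Finset.mem_sdiff.2 ⟨hv, hvS⟩
    rcases hadj with ⟨e1, e2⟩ | ⟨e1, e2 | e2⟩
    · -- vertical neighbour
      have hv2 : v = (s.1, v.2) := by ext <;> simp [e1]
      have h3 := h.nb s hs v.2 (by omega) (by rw [← hv2]; exact hv)
      have hm : (s.1 - 1, v.2) ∈ A \ S := Finset.mem_sdiff.2 h3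
      refine (CPath.step ?_ hl hm).trans (CPath.step ?_ hm hv')
      · exact Or.inl ⟨rfl, e2⟩
      · exact Or.inr ⟨rfl, Or.inl (by simp only; omega)⟩
    · -- right neighbour: not in `A`
      exfalso
      apply h.right s hs
      have : (s.1 + 1, s.2) = v := by ext <;> simp [e1, e2]
      rw [this]; exact hv
    · have : (s.1 - 1, s.2) = v := by ext <;> simp [e1, e2]
      rw [this]
      exact .refl
  have hstep : ∀ u v : V, Adj4 u v → u ∈ A → v ∈ A → CPath {t | t ∈ A \ S} (ρ u) (ρ v) := by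
    intro u v huv hu hv
    by_cases h1 : u ∈ S
    · by_cases h2 : v ∈ S
      · simp only [ρ, if_pos h1, if_pos h2]
        refine CPath.step ?_ (Finset.mem_sdiff.2 (h.left u h1)) (Finset.mem_sdiff.2 (h.left v h2))
        rcases huv with ⟨e1, e2⟩ | ⟨e1, e2⟩
        · exact Or.inl ⟨by simp only; omega, e2⟩
        · exact Or.inr ⟨e1, by simp only; omega⟩
      · simp only [ρ, if_pos h1, if_neg h2]
        exact hb u h1 v hv huv h2
    · by_cases h2 : v ∈ S
      · simp only [ρ, if_neg h1, if_pos h2]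
        exact (hb v h2 u hu huv.symm h1).symm
      · simp only [ρ, if_neg h1, if_neg h2]
        exact CPath.step huv (Finset.mem_sdiff.2 ⟨hu, h1⟩) (Finset.mem_sdiff.2 ⟨hv, h2⟩)
  intro a ha b hb'
  have ha' := Finset.mem_sdiff.1 ha
  have hb2 := Finset.mem_sdiff.1 hb'
  have e1 : ρ a = a := if_neg ha'.2
  have e2 : ρ b = b := if_neg hb2.2
  have key : ∀ c, CPath {t | t ∈ A} a c → CPath {t | t ∈ A \ S} (ρ a) (ρ c) := by
    intro c hac
    induction hac with
    | refl => exact .refl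
    | tail _ h2 ih => exact ih.trans (hstep _ _ h2.1 h2.2.1 h2.2.2)
  have := key b (hc a ha'.1 b hb2.1)
  rwa [e1, e2] at this

/-! ### `D` minus notches, DN -/

section dn

variable {F H : Finset V} {L k a b a' b' y0 y1 x : ℤ}

theorem row_mem {F : Finset V} {L a b j : ℤ} (hL : 0 < L) (h : Run F a b j) {x y : ℤ}
    (h1 : a * L ≤ x) (h2 : x < b * L + L) (h3 : j * L ≤ y) (h4 : y < j * L + L) :
    (x, y) ∈ D F L :=
  (h.scale hL h3 h4).mem x h1 (by omega)

theorem row_out {F : Finset V} {L a b j : ℤ} (hL : 0 < L) (h : Run F a b j) {x y : ℤ}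
    (h1 : b * L + L ≤ x) (h2 : x < b * L + L + L) (h3 : j * L ≤ y) (h4 : y < j * L + L) :
    (x, y) ∉ D F L := by
  rw [mem_D hL]
  simp only
  rw [(div_iff hL x (b + 1)).2 ⟨by rw [add_mul, one_mul]; exact h1,
    by rw [add_mul, one_mul]; exact h2⟩, (div_iff hL y j).2 ⟨h3, h4⟩]
  exact h.right

/-- the notches are on right walls -/
theorem rw_dn (hL : 2 ≤ L) (hbb : b ≠ b') (h : Two F H k a b a' b') (hy0 : k * L - L ≤ y0 - 1)
    (hy1 : y1 < k * L + L) {S : Finset V}
    (hS : S ⊆ Nt L k b b' y0 y1) : Rw (D F L) S := by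
  have hL' : 0 < L := by omega
  have hk : (k - 1) * L = k * L - L := by ring
  have nab : a * L + L ≤ b * L + L := by
    have := mul_le_mul_of_nonneg_right h.lo.le hL'.le
    omega
  have nab' : a' * L + L ≤ b' * L + L := by
    have := mul_le_mul_of_nonneg_right h.up.le hL'.le
    omega
  have lo : ∀ {u v : ℤ}, b * L ≤ u → u < b * L + L → k * L - L ≤ v → v < k * L → (u, v) ∈ D F L :=
    fun g1 g2 g3 g4 => row_mem hL' h.lo (by omega) g2 (by omega) (by omega)
  have up : ∀ {u v : ℤ}, b' * L ≤ u → u < b' * L + L → k * L ≤ v → v < k * L + L →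
      (u, v) ∈ D F L := fun g1 g2 g3 g4 => row_mem hL' h.up (by omega) g2 g3 g4
  have cb : b * L + L ≤ b' * L ∨ b' * L + L ≤ b * L := by
    have : b + 1 ≤ b' ∨ b' + 1 ≤ b := by omega
    rcases this with g | g
    · left
      have := mul_le_mul_of_nonneg_right g hL'.le
      rw [add_mul, one_mul] at this
      exact this
    · right
      have := mul_le_mul_of_nonneg_right g hL'.le
      rw [add_mul, one_mul] at this
      exact this
  have nS : ∀ {u v : ℤ}, (u = b * L + L - 2 ∨ u = b' * L + L - 2) → ((u, v) : V) ∉ S := by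
    intro u v hu hm
    have := mem_Nt.1 (hS hm)
    simp only at this
    omega
  -- the cell containing a tile of the column of `u = c L + L - 1` contains the tile on the left
  have same : ∀ {u v : ℤ}, (∃ c : ℤ, u = c * L + L - 1) → (u, v) ∈ D F L → (u - 1, v) ∈ D F L := by
    rintro u v ⟨c, rfl⟩ hm
    rw [mem_D hL'] at hm ⊢
    simp only at hm ⊢
    rw [(div_iff hL' _ c).2 ⟨by omega, by omega⟩] at hm
    rw [(div_iff hL' _ c).2 ⟨by omega, by omega⟩]
    exact hm
  refine ⟨?_, ?_, ?_, ?_⟩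
  · rintro ⟨u, v⟩ hs
    have := mem_Nt.1 (hS hs)
    simp only at this
    rcases this with ⟨rfl, g2, g3⟩ | ⟨rfl, g2, g3⟩
    · exact lo (by omega) (by omega) (by omega) g3
    · exact up (by omega) (by omega) g2 (by omega)
  · rintro ⟨u, v⟩ hs
    have := mem_Nt.1 (hS hs)
    simp only at this ⊢
    rcases this with ⟨rfl, g2, g3⟩ | ⟨rfl, g2, g3⟩
    · exact row_out hL' h.lo (by omega) (by omega) (by omega) (by omega)
    · exact row_out hL' h.up (by omega) (by omega) g2 (by omega)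
  · rintro ⟨u, v⟩ hs
    have := mem_Nt.1 (hS hs)
    simp only at this ⊢
    rcases this with ⟨rfl, g2, g3⟩ | ⟨rfl, g2, g3⟩
    · exact ⟨lo (by omega) (by omega) (by omega) g3, nS (Or.inl (by omega))⟩
    · exact ⟨up (by omega) (by omega) g2 (by omega), nS (Or.inr (by omega))⟩
  · rintro ⟨u, v⟩ hs y hy hm
    have := mem_Nt.1 (hS hs)
    simp only at this hy hm ⊢
    rcases this with ⟨rfl, g2, g3⟩ | ⟨rfl, g2, g3⟩
    · exact ⟨same ⟨b, rfl⟩ hm, nS (Or.inl (by omega))⟩
    · exact ⟨same ⟨b', rfl⟩ hm, nS (Or.inr (by omega))⟩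

theorem dn_sc (P : P4) (hL : 2 ≤ L) (hbb : b ≠ b') (h : Two P.F H k a b a' b')
    (hy0 : k * L - L ≤ y0 - 1) (hy1 : y1 < k * L + L)
    {S : Finset V} (hS : S ⊆ Nt L k b b' y0 y1) :
    (full (D P.F L \ S)).SC ∧ (full (D P.F L \ S)).Conn := by
  have hL' : 0 < L := by omega
  have hR := rw_dn hL hbb h hy0 hy1 hS
  exact ⟨SC_of_cc (sdiff_cc hR fun a ha b hb => D_cpath (Mg949.mac P) hL' ha hb),
    full_Conn (sdiff_conn hR fun a ha b hb => D_cpath_in (Mg949.mac P) hL' ha hb)⟩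

/-- **word of `D` minus the lower notch** -/
theorem dn_word_l (P : P4) (hL : 2 ≤ L) (hbb : b ≠ b') (h : Two P.F H k a b a' b')
    (hy0 : k * L - L ≤ y0 - 1) (h0 : y0 < k * L) (h1 : k * L < y1) (hy1 : y1 < k * L + L)
    (hx0 : a' * L ≤ x) (hx1 : x < b' * L + L - 1) :
    ∃ w, GW (D P.F L \ Nl L k b y0) (beD (D P.F L \ Nl L k b y0) x y1 (b' * L + L - 1)) w := by
  have hL' : 0 < L := by omega
  obtain ⟨g1, g2⟩ := dn_sc P hL hbb h hy0 hy1 (Nl_sub (b' := b') (y1 := y1))
  have hnl : ∀ {u v : ℤ}, k * L ≤ v → ((u, v) : V) ∉ Nl L k b y0 := by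
    intro u v hv hm
    have := mem_Nl.1 hm
    simp only at this
    omega
  refine exists_GW g1 g2 (by omega) (fun u hu1 hu2 => ⟨?_, ?_⟩) ?_ (Or.inl (by omega))
  · exact Finset.mem_sdiff.2 ⟨row_mem hL' h.up (by omega) (by omega) (by omega) (by omega),
      hnl (by omega)⟩
  · exact Finset.mem_sdiff.2 ⟨row_mem hL' h.up (by omega) (by omega) (by omega) (by omega),
      hnl (by omega)⟩
  · intro hm
    refine row_out hL' h.up (by omega) (by omega) (by omega) hy1 (Finset.mem_sdiff.1 hm).1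

/-- **word of `D` minus both notches** -/
theorem dn_word_t (P : P4) (hL : 2 ≤ L) (hbb : b ≠ b') (h : Two P.F H k a b a' b')
    (hy0 : k * L - L ≤ y0 - 1) (h0 : y0 < k * L) (h1 : k * L < y1) (hy1 : y1 < k * L + L)
    (hx0 : a' * L ≤ x) (hx1 : x < b' * L + L - 1) :
    ∃ w, GW (D P.F L \ Nt L k b b' y0 y1)
      (beD (D P.F L \ Nt L k b b' y0 y1) x y1 (b' * L + L - 1)) w := by
  have hL' : 0 < L := by omega
  obtain ⟨g1, g2⟩ := dn_sc P hL hbb h hy0 hy1 (Finset.Subset.refl _)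
  refine exists_GW'' g1 g2 (by omega) (fun u hu1 hu2 => ?_) (fun u hu1 hu2 => ?_) ?_ ?_
  · refine Finset.mem_sdiff.2 ⟨row_mem hL' h.up (by omega) (by omega) (by omega) (by omega), ?_⟩
    intro hm
    have := mem_Nt.1 hm
    simp only at this
    omega
  · refine Finset.mem_sdiff.2 ⟨row_mem hL' h.up (by omega) (by omega) (by omega) (by omega), ?_⟩
    intro hm
    have := mem_Nt.1 hm
    simp only at this
    omega
  · intro hm
    apply (Finset.mem_sdiff.1 hm).2
    rw [mem_Nt]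
    right
    exact ⟨rfl, by simp only; omega, by simp only; omega⟩
  · intro hm
    refine row_out hL' h.up (by omega) (by omega) (by omega) hy1 (Finset.mem_sdiff.1 hm).1

end dn

/-! ### marks -/

theorem mid_far {L c u e s : ℤ} (hL : 0 < L) (h1 : u * L - s ≤ c * L + e)
    (h2 : c * L + e ≤ u * L + s) (he : s < e) (he' : e + s < L) : False := by
  rcases le_or_gt u c with h | h
  · have := mul_le_mul_of_nonneg_right h hL.le
    omega
  · have h3 : c + 1 ≤ u := h
    have := mul_le_mul_of_nonneg_right h3 hL.le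
    rw [add_mul, one_mul] at this
    omega

/-- **the marks are far from the macro vertices** -/
theorem mt_far (P : P4) {L : ℤ} (hL : 0 < L) (i : Fin 3) {u v s : ℤ} (hs : 2 * s + 4 < L)
    (h1 : u * L - s ≤ (Hb656.mt P L i).1.1) (h2 : (Hb656.mt P L i).1.1 ≤ u * L + s)
    (h3 : v * L - s ≤ (Hb656.mt P L i).1.2) (h4 : (Hb656.mt P L i).1.2 ≤ v * L + s) : False := by
  unfold Hb656.mt mk2 at h1 h2 h3 h4
  split_ifs at h1 h2 h3 h4
  · exact mid_far hL h3 h4 (by omega) (by omega)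
  · exact mid_far hL h1 h2 (by omega) (by omega)
  · refine mid_far (c := (P.cc i).1.2) (e := L / 2 - 1) hL (h3.trans_eq ?_) (Eq.trans_le ?_ h4)
      (by omega) (by omega)
    · simp only; ring
    · simp only; ring
  · refine mid_far (c := (P.cc i).1.1) (e := L / 2 - 1) hL (h1.trans_eq ?_) (Eq.trans_le ?_ h2)
      (by omega) (by omega)
    · simp only; ring
    · simp only; ring

end Crest.Agent.R158.Bn468
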