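import Crest.Agent.R158.Cw5_161
import Crest.Agent.R158.Wd2_377

/-!
# R158, corner / mark / slit balls (helper161), file Cw6: balls for regions, in the form MK → MK

* `marks0` : the images of the marks are marks of the second region in the same order
* **`chart_mk`** : the ball theorem in a chart for the observable `HG` of marked regions
* `win_pat` : window in a turned pattern over any chart, from the tiles
* `beD_shr` : the dislocated glueing is plain in the shear chart (slit ending or passing)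
* **`nb_shr`** : two regions with the same slit which agree outside a box
* **`nb_plain`** : the same for plain glueing near the box
-/

set_option autoImplicit false
set_option linter.unusedSectionVars false
set_option linter.unusedVariables false
set_option linter.unusedSimpArgs false

noncomputable section

namespace Crest.Agent.R158.Cw161

open MeasureTheory
open Crest.Agent.R158.Sw300 (Port Wd thru tls)
open Crest.Agent.R158.Cb771 (dir)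
open Crest.Agent.R158.Sl434 (ChA Loc Pair Mm Mk' Mr Ap Fp_Ap cycI_pos cycI_rot cycI_mr)
open Crest.Agent.R158.Xr249 (Reg)
open Crest.Agent.R158.Ob664 (GW HW HG Gl)
open Crest.Agent.R158.Env664 (beP nbP beD nbD res PortOf)
open Crest.Agent.R158.Wd377 (MK)

/-- **the images of the marks**, one mark anywhere -/
theorem marks0 {T : Type*} [DecidableEq T] {K : Reg} {w0 : Wd (ℤ × ℤ)}
    {N1 Jl N2 Jo : List (Port (ℤ × ℤ))} {Ob : ℤ × ℤ → Prop} {a b : Port (ℤ × ℤ)} {w w' : Wd T}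
    {Ft At : Set T} {ψ : T → ℤ × ℤ} {φ : ℤ × ℤ → T} {δ : ZMod 4}
    (h : Pair K w0 N1 Jl N2 Jo Ob a b w w' Ft At ψ φ δ) {fl : Bool}
    (hth : ∀ (b : Bool) (d : ZMod 4), thru (xor fl b) (d + δ) = thru b d + δ)
    {m1 m2 m3 y1 y2 y3 : Port T}
    (h1 : Mm Ft At w w' m1 y1) (h2 : Mm Ft At w w' m2 y2) (h3 : Mm Ft At w w' m3 y3)
    (f12 : m1 ∈ Sl434.Fp Ft ∨ m2 ∈ Sl434.Fp Ft) (f23 : m2 ∈ Sl434.Fp Ft ∨ m3 ∈ Sl434.Fp Ft)
    (f31 : m3 ∈ Sl434.Fp Ft ∨ m1 ∈ Sl434.Fp Ft)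
    (hcyc : Sw300.cyc (Sw300.pos w m1) (Sw300.pos w m2) (Sw300.pos w m3)) :
    y1 ∈ Sw300.L w' ∧ y2 ∈ Sw300.L w' ∧ y3 ∈ Sw300.L w' ∧
      Sw300.cyc (Sw300.pos w' y1) (Sw300.pos w' y2) (Sw300.pos w' y3) := by
  obtain ⟨A, Di, Gi, k1, k2, k3⟩ := h.two hth (fun _ => true)
  set N1T := N1.map (Sl434.pm φ (-δ))
  set N2T := N2.map (Sl434.pm φ (-δ))
  have hsub : ∀ p ∈ N1 ++ N2, p ∈ N1 ++ Jl ++ N2 ++ Jo := by
    intro p hp
    simp only [List.mem_append] at hp ⊢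
    tauto
  have hNA : ∀ {m : Port T}, m ∈ N1T ∨ m ∈ N2T → m ∈ Ap At := by
    rintro m (hm | hm)
    · obtain ⟨p, hp, rfl⟩ := List.mem_map.1 hm
      exact (h.lc.pf (h.ch.port (hsub p (by simp [hp])))).1
    · obtain ⟨p, hp, rfl⟩ := List.mem_map.1 hm
      exact (h.lc.pf (h.ch.port (hsub p (by simp [hp])))).1
  have hA : ∀ {m : Port T}, m ∈ Sw300.L w → m ∈ Sl434.Fp Ft → m ∈ A := by
    intro m hm hf
    have h4 := k1.mem_iff.1 hm
    simp only [List.mem_append] at h4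
    rcases h4 with ((h4 | h4) | h4) | h4
    · exact h4
    · exact absurd (hNA (Or.inl h4)) (Fp_Ap h.lc.dj hf)
    · exact absurd (Or.inl hf) (k3.Do m h4)
    · exact absurd (hNA (Or.inr h4)) (Fp_Ap h.lc.dj hf)
  have hnw := Sw300.nodup h.ok
  have hnw' := Sw300.nodup h.ok'
  have hmk : ∀ {m y : Port T}, Mm Ft At w w' m y → Mk' A N1T Di Gi N2T m y := by
    rintro m y ⟨hm, ⟨h4, rfl⟩ | ⟨h4, h5, h6⟩⟩
    · left
      refine ⟨?_, rfl⟩
      have h5 := k1.mem_iff.1 hm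
      simp only [List.mem_append] at h5 ⊢
      rcases h5 with ((h5 | h5) | h5) | h5
      · exact Or.inl (Or.inl h5)
      · exact Or.inl (Or.inr h5)
      · exact absurd h4 (k3.Do _ h5)
      · exact Or.inr h5
    · right
      constructor
      · have h7 := k1.mem_iff.1 hm
        simp only [List.mem_append] at h7
        rcases h7 with ((h7 | h7) | h7) | h7
        · exact absurd (Or.inl (k3.AF _ h7)) h4
        · exact absurd (Or.inr (hNA (Or.inl h7))) h4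
        · exact h7
        · exact absurd (Or.inr (hNA (Or.inr h7))) h4
      · have h7 := k2.mem_iff.1 h5
        simp only [List.mem_append] at h7
        rcases h7 with ((h7 | h7) | h7) | h7
        · exact absurd (Or.inl (k3.AF _ h7)) h6
        · exact absurd (Or.inr (hNA (Or.inl h7))) h6
        · exact h7
        · exact absurd (Or.inr (hNA (Or.inr h7))) h6
  have q1 := hmk h1
  have q2 := hmk h2
  have q3 := hmk h3
  have hLy : ∀ {m y : Port T}, Mk' A N1T Di Gi N2T m y → y ∈ Sw300.L w' := by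
    rintro m y (⟨h4, rfl⟩ | ⟨h4, h5⟩)
    · refine k2.mem_iff.2 ?_
      simp only [List.mem_append] at h4 ⊢
      tauto
    · exact k2.mem_iff.2 (by simp [h5])
  have hmr : ∀ {m y : Port T}, Mk' A N1T Di Gi N2T m y →
      Mr A (N1T ++ Di ++ N2T) (N1T ++ Gi ++ N2T) m y := by
    rintro m y (⟨h4, rfl⟩ | ⟨h4, h5⟩)
    · simp only [List.mem_append] at h4
      rcases h4 with (h4 | h4) | h4
      · exact Or.inl ⟨h4, rfl⟩
      · exact Or.inr ⟨by simp [h4], by simp [h4]⟩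
      · exact Or.inr ⟨by simp [h4], by simp [h4]⟩
    · exact Or.inr ⟨by simp [h4], by simp [h5]⟩
  have fA : ∀ {m y : Port T}, Mm Ft At w w' m y → m ∈ Sl434.Fp Ft → m ∈ A := fun hm hf => hA hm.1 hf
  have A12 : m1 ∈ A ∨ m2 ∈ A := f12.imp (fA h1) (fA h2)
  have A23 : m2 ∈ A ∨ m3 ∈ A := f23.imp (fA h2) (fA h3)
  have A31 : m3 ∈ A ∨ m1 ∈ A := f31.imp (fA h3) (fA h1)
  have e1 : A ++ N1T ++ Di ++ N2T = A ++ (N1T ++ Di ++ N2T) := by simp
  have e2 : A ++ N1T ++ Gi ++ N2T = A ++ (N1T ++ Gi ++ N2T) := by simp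
  refine ⟨hLy q1, hLy q2, hLy q3, ?_⟩
  rw [← cycI_pos (Sw300.sorted w' h.ok') (hLy q1) (hLy q2) (hLy q3),
    ← cycI_rot k2 hnw' (hLy q1) (hLy q2) (hLy q3), e2]
  rw [← cycI_pos (Sw300.sorted w h.ok) h1.1 h2.1 h3.1, ← cycI_rot k1 hnw h1.1 h2.1 h3.1, e1]
    at hcyc
  refine (cycI_mr ?_ ?_ (hmr q1) (hmr q2) (hmr q3) A12 A23 A31).1 hcyc
  · rw [← e1]; exact (k1.nodup_iff).1 hnw
  · rw [← e2]; exact (k2.nodup_iff).1 hnw'

/-- a mark of `(A, b)` and its image in `(A', b')`: the same port outside the box `r`, or two ports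
in the box -/
def MkP (X Y : ℤ) (r : ℕ) (ψ : ℤ × ℤ → ℤ × ℤ) (A' : Finset (ℤ × ℤ))
    (b' : Port (ℤ × ℤ) → Port (ℤ × ℤ)) (m y : Port (ℤ × ℤ)) : Prop :=
  (y = m ∧ ∀ t d, m = some (t, d) → ¬ Bx X Y r (ψ t)) ∨
    ∃ t d t' d', m = some (t, d) ∧ Bx X Y r (ψ t) ∧ y = some (t', d') ∧ Bx X Y r (ψ t') ∧
      t' ∈ A' ∧ b' y = y

theorem mm_of_mkP {sh : Sh} {X Y : ℤ} {r n : ℕ} {ψ : ℤ × ℤ → ℤ × ℤ} {A A' : Finset (ℤ × ℤ)}
    {b b' : Port (ℤ × ℤ) → Port (ℤ × ℤ)} {w w' : Wd (ℤ × ℤ)} (hw : GW A b w) (hw' : GW A' b' w')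
    (hrn : r ≤ n) (hnp : ∀ t ∈ A, Bx X Y n (ψ t) → ¬ Bx X Y r (ψ t) → base X Y sh (ψ t))
    {m y : Port (ℤ × ℤ)} (hm : m ∈ Sw300.L w)
    (h : MkP X Y r ψ A' b' m y) : Mm (FrC X Y n ψ) (AnC X Y sh r n ψ) w w' m y := by
  refine ⟨hm, ?_⟩
  have hrr : ∀ {t : ℤ × ℤ}, Bx X Y r t → Bx X Y n t := by
    intro t ht
    unfold Bx at ht ⊢
    omega
  have hin : ∀ {t : ℤ × ℤ} {d : ZMod 4}, Bx X Y r (ψ t) →
      (some (t, d) : Port (ℤ × ℤ)) ∉ Sl434.Fp (FrC X Y n ψ) ∪ Sl434.Ap (AnC X Y sh r n ψ) := by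
    rintro t d ht (h4 | h4)
    · exact Sl434.some_Fp.1 h4 (hrr ht)
    · exact (Sl434.some_Ap.1 h4).2.2 ht
  rcases h with ⟨rfl, h3⟩ | ⟨t, d, t', d', rfl, h4, rfl, h5, h6, h7⟩
  · left
    refine ⟨?_, rfl⟩
    rcases y with - | ⟨t, d⟩
    · exact Or.inl (Sl434.none_Fp _)
    · by_cases hn : Bx X Y n (ψ t)
      · right
        have ht : t ∈ A := (hw.word.2.2.1 t).1 (Gc748.mem_L_tls hw.word.1 hm)
        exact Sl434.some_Ap.2 ⟨hnp t ht hn (h3 t d rfl), hn, h3 t d rfl⟩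
      · exact Or.inl (Sl434.some_Fp.2 hn)
  · right
    refine ⟨hin h4, ?_, hin h5⟩
    refine Sl434.mem_L_of_free hw'.word.1 ?_ ?_
    · intro z hz
      simp only [Option.mem_def, Option.some.injEq] at hz
      rw [← hz]; exact (hw'.word.2.2.1 t').2 h6
    · rw [hw'.word.2.2.2]; exact h7

/-- **the ball theorem in a chart, for marked regions** -/
theorem chart_mk : ∃ C a : ℝ, 0 < C ∧ 0 < a ∧ ∀ (sh : Sh) (X Y : ℤ) (r n : ℕ)
    (ψ φ : ℤ × ℤ → ℤ × ℤ) (δ : ZMod 4), TCh ψ φ → 1 ≤ r → r + 1 ≤ n →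
    ∀ {A A' : Finset (ℤ × ℤ)} {b b' : Port (ℤ × ℤ) → Port (ℤ × ℤ)},
    (∃ w', GW A' b' w') → WinC sh X Y r n ψ φ δ A b → WinC sh X Y r n ψ φ δ A' b' →
    (∀ t ∈ A, Bx X Y n (ψ t) → ¬ Bx X Y r (ψ t) → base X Y sh (ψ t)) →
    (∀ x, FarC X Y n ψ x → b' x = b x) → ∀ {m1 m2 m3 y1 y2 y3 : Port (ℤ × ℤ)},
    MkP X Y r ψ A' b' m1 y1 → MkP X Y r ψ A' b' m2 y2 → MkP X Y r ψ A' b' m3 y3 →
    (FarC X Y n ψ m1 ∨ FarC X Y n ψ m2) → (FarC X Y n ψ m2 ∨ FarC X Y n ψ m3) →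
    (FarC X Y n ψ m3 ∨ FarC X Y n ψ m1) → MK A b m1 m2 m3 →
    MK A' b' y1 y2 y3 ∧ ‖HG A b m1 m2 m3 - HG A' b' y1 y2 y3‖ ≤ C * ((r : ℝ) / n) ^ a := by
  obtain ⟨C, a, hC, ha, hX⟩ := x1_le
  refine ⟨2 * C, a, by positivity, ha, ?_⟩
  rintro sh X Y r n ψ φ δ hch hr hn A A' b b' ⟨w', hw'⟩ h h' hnp hF m1 m2 m3 y1 y2 y3 h1 h2 h3
    f12 f23 f31 hMK
  obtain ⟨w, hw, l1, l2, l3, hc, e⟩ := hMK.spec
  obtain ⟨K, w0, N1, Jl, N2, Jo, Ob, a0, b0, hD⟩ := annD_exists sh X Y hr hn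
  have hP := pair_of_winC hD (by omega) hch hw hw' h h' hF
  have g1 := mm_of_mkP hw hw' (by omega) hnp l1 h1
  have g2 := mm_of_mkP hw hw' (by omega) hnp l2 h2
  have g3 := mm_of_mkP hw hw' (by omega) hnp l3 h3
  have k12 := f12.imp farC_iff.1 farC_iff.1
  have k23 := f23.imp farC_iff.1 farC_iff.1
  have k31 := f31.imp farC_iff.1 farC_iff.1
  have h5 := hP.HW_le0 (hth_k δ) g1 g2 g3 k12 k23 k31 hc
  obtain ⟨p1, p2, p3, hc'⟩ := marks0 hP (hth_k δ) g1 g2 g3 k12 k23 k31 hc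
  have h6 := hX hD hr (by omega)
  refine ⟨⟨w', hw', p1, p2, p3, hc'⟩, ?_⟩
  rw [e, Wd377.HG_eq hw' p1 p2 p3 hc']
  linarith

/-! ### windows from tiles -/

/-- the glueing is the plain one in the chart -/
def Chp (X Y : ℤ) (n : ℕ) (φ : ℤ × ℤ → ℤ × ℤ) (A : Finset (ℤ × ℤ))
    (b : Port (ℤ × ℤ) → Port (ℤ × ℤ)) : Prop :=
  ∀ c d, Bx X Y n c → (φ c ∈ A ∧ φ (c + dir d) ∈ A → b (some (φ c, d)) = some (φ (c + dir d), d + 2)) ∧
    (¬ (φ c ∈ A ∧ φ (c + dir d) ∈ A) → b (some (φ c, d)) = some (φ c, d))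

/-- **window from the tiles** -/
theorem win_pat {sh : Sh} {k : ZMod 4} {X Y : ℤ} {r n : ℕ} {ψ φ : ℤ × ℤ → ℤ × ℤ} (hr : 1 ≤ r)
    (hn : r + 1 ≤ n) {A : Finset (ℤ × ℤ)} {b : Port (ℤ × ℤ) → Port (ℤ × ℤ)}
    (hA : ∀ c, Bx X Y (n + 1) c → ¬ Bx X Y (r - 1) c → (φ c ∈ A ↔ pat X Y sh k c))
    (hb : Chp X Y n φ A b) :
    WinC sh X Y r n (fun t => rk X Y k (ψ t)) (fun c => φ (rk X Y (-k) c)) k A b := by
  have up : ∀ {t : ℤ × ℤ}, Bx X Y n t → Bx X Y (n + 1) t := by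
    intro t ht; unfold Bx at *; push_cast; omega
  have dn : ∀ {t : ℤ × ℤ}, ¬ Bx X Y r t → ¬ Bx X Y (r - 1) t := by
    intro t ht h; apply ht; unfold Bx at *; omega
  have dd : ∀ {t : ℤ × ℤ} (d : ZMod 4), ¬ Bx X Y r t → ¬ Bx X Y (r - 1) (t + dir d) := by
    intro t d ht h
    apply ht
    have := bx_dir (d + 2) h
    rw [dir_back] at this
    have e : r - 1 + 1 = r := by omega
    rwa [e] at this
  have hp : ∀ {c : ℤ × ℤ}, pat X Y sh k (rk X Y (-k) c) ↔ base X Y sh c := by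
    intro c; unfold pat; rw [rk_neg']
  have hB : ∀ {m : ℕ} {c : ℤ × ℤ}, Bx X Y m (rk X Y (-k) c) ↔ Bx X Y m c := fun {m c} => bx_rk
  have st : ∀ (c : ℤ × ℤ) (d : ZMod 4), rk X Y (-k) c + dir (d - k) = rk X Y (-k) (c + dir d) := by
    intro c d; rw [rk_dir, sub_eq_add_neg]
  have hb' : ∀ c d, Bx X Y n c →
      (φ (rk X Y (-k) c) ∈ A ∧ φ (rk X Y (-k) (c + dir d)) ∈ A →
        b (some (φ (rk X Y (-k) c), d - k)) = some (φ (rk X Y (-k) (c + dir d)), d + 2 - k)) ∧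
      (¬ (φ (rk X Y (-k) c) ∈ A ∧ φ (rk X Y (-k) (c + dir d)) ∈ A) →
        b (some (φ (rk X Y (-k) c), d - k)) = some (φ (rk X Y (-k) c), d - k)) := by
    intro c d h
    have h1 := hb (rk X Y (-k) c) (d - k) (hB.2 h)
    rw [st] at h1
    have e : d - k + 2 = d + 2 - k := by ring
    rw [e] at h1
    exact h1
  refine ⟨?_, ?_, ?_, ?_, ?_⟩
  · intro c h1 h2 h3
    exact (hA _ (hB.2 (up h1)) (fun h => dn h2 (hB.1 h))).2 (hp.2 h3)
  · intro c d h1 h2 h3 h4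
    refine (hb' c d h1).1 ⟨(hA _ (hB.2 (up h1)) (fun h => dn h2 (hB.1 h))).2 (hp.2 h3), ?_⟩
    exact (hA _ (hB.2 (bx_dir d h1)) (fun h => dd d h2 (hB.1 h))).2 (hp.2 h4)
  · intro c d h1 h2 h3 h4
    refine (hb' c d h1).2 fun h => h4 ?_
    exact hp.1 ((hA _ (hB.2 (bx_dir d h1)) (fun h => dd d h2 (hB.1 h))).1 h.2)
  · intro c d h1 h2 h3
    refine (hb' c d h1).2 fun h => h3 ?_
    exact hp.1 ((hA _ (hB.2 (up h1)) (fun h => dn h2 (hB.1 h))).1 h.1)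
  · intro c d h1
    have hn' : Bx X Y n c := by unfold Bx at *; omega
    by_cases h : φ (rk X Y (-k) c) ∈ A ∧ φ (rk X Y (-k) (c + dir d)) ∈ A
    · refine ⟨c + dir d, d + 2, ?_, (hb' c d hn').1 h⟩
      have := bx_dir d h1
      unfold Bx at *; push_cast at this; omega
    · exact ⟨c, d, hn', (hb' c d hn').2 h⟩

/-- the tile condition -/
theorem np_pat {sh : Sh} {k : ZMod 4} {X Y : ℤ} {r n : ℕ} {ψ φ : ℤ × ℤ → ℤ × ℤ} (hc : TCh ψ φ)
    {A : Finset (ℤ × ℤ)}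
    (hA : ∀ c, Bx X Y (n + 1) c → ¬ Bx X Y (r - 1) c → (φ c ∈ A ↔ pat X Y sh k c)) :
    ∀ t ∈ A, Bx X Y n (rk X Y k (ψ t)) → ¬ Bx X Y r (rk X Y k (ψ t)) →
      base X Y sh (rk X Y k (ψ t)) := by
  intro t h3 h1 h2
  rw [bx_rk] at h1 h2
  refine (hA (ψ t) ?_ ?_).1 (by rw [hc.l]; exact h3)
  · unfold Bx at *; push_cast; omega
  · intro h; apply h2; unfold Bx at *; omega

theorem beD_in {A : Finset (ℤ × ℤ)} {p y0 xr : ℤ} {t t' : ℤ × ℤ} {d d' : ZMod 4}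
    (h : nbD p y0 xr (some (t, d)) = some (t', d')) (h1 : t ∈ A) (h2 : t' ∈ A) :
    beD A p y0 xr (some (t, d)) = some (t', d') := by
  unfold beD
  rw [Env664.res_of (portOf_some.2 h1) (by rw [h]; exact portOf_some.2 h2), h]

theorem beD_free {A : Finset (ℤ × ℤ)} {p y0 xr : ℤ} {t t' : ℤ × ℤ} {d d' : ZMod 4}
    (h : nbD p y0 xr (some (t, d)) = some (t', d')) (h1 : t ∉ A ∨ t' ∉ A) :
    beD A p y0 xr (some (t, d)) = some (t, d) := by
  unfold beD res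
  rw [if_neg]
  rintro ⟨h2, h3⟩
  rw [h] at h3
  rcases h1 with h1 | h1
  · exact h1 (portOf_some.1 h2)
  · exact h1 (portOf_some.1 h3)

theorem beD_not {A : Finset (ℤ × ℤ)} {p y0 xr : ℤ} {t : ℤ × ℤ} {d : ZMod 4} (h1 : t ∉ A) :
    beD A p y0 xr (some (t, d)) = some (t, d) := by
  unfold beD res
  rw [if_neg]
  rintro ⟨h2, h3⟩
  exact h1 (portOf_some.1 h2)

theorem shr_lt {y0 s : ℤ} {t : ℤ × ℤ} (h : t.2 < y0) : shr y0 s t = t := if_pos h
theorem shr_ge {y0 s : ℤ} {t : ℤ × ℤ} (h : y0 ≤ t.2) : shr y0 s t = (t.1 + s, t.2) :=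
  if_neg (by omega)

/-- **the dislocated glueing is plain in the shear chart**, whether the slit ends or passes -/
theorem beD_shr {X Y p y0 xr : ℤ} {n : ℕ} {A : Finset (ℤ × ℤ)} (hp : p + n ≤ X)
    (hx : ∀ x, xr < x → x ≤ X + n + 2 → (x, y0) ∉ A) : Chp X Y n (shr y0 1) A (beD A p y0 xr) := by
  rintro ⟨x, y⟩ d hc
  obtain ⟨c1, c2, -, -⟩ := hc
  simp only at c1 c2
  have a0 : (0 : ZMod 4) + 2 = 2 := by decide
  have a1 : (1 : ZMod 4) + 2 = 3 := by decide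
  have a2 : (2 : ZMod 4) + 2 = 0 := by decide
  have a3 : (3 : ZMod 4) + 2 = 1 := by decide
  rcases lt_or_ge y y0 with hy | hy
  · rw [shr_lt (t := (x, y)) hy]
    rcases d4 d with rfl | rfl | rfl | rfl
    · have e : ((x, y) : ℤ × ℤ) + dir 0 = (x - 1, y) := by rw [dir0]; ext <;> simp [sub_eq_add_neg]
      rw [e, a0, shr_lt (t := (x - 1, y)) hy]
      exact ⟨fun h => beD_in Env664.nbD_W h.1 h.2, fun h => beD_free Env664.nbD_W (by tauto)⟩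
    · have e : ((x, y) : ℤ × ℤ) + dir 1 = (x, y + 1) := by rw [dir1]; ext <;> simp
      rw [e, a1]
      by_cases hy1 : y + 1 < y0
      · rw [shr_lt (t := (x, y + 1)) hy1]
        have hN : nbD p y0 xr (some ((x, y), 1)) = some ((x, y + 1), 3) :=
          Env664.nbD_N (by omega)
        exact ⟨fun h => beD_in hN h.1 h.2, fun h => beD_free hN (by tauto)⟩
      · have e2 : y = y0 - 1 := by omega
        subst e2
        rw [sub_add_cancel, shr_ge (t := (x, y0)) le_rfl]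
        simp only
        by_cases hxr : x ≤ xr
        · have hN : nbD p y0 xr (some ((x, y0 - 1), 1)) = some ((x + 1, y0), 3) :=
            Env664.nbD_N1 ⟨rfl, by omega, hxr⟩
          exact ⟨fun h => beD_in hN h.1 h.2, fun h => beD_free hN (by tauto)⟩
        · have hN : nbD p y0 xr (some ((x, y0 - 1), 1)) = some ((x, y0), 3) := by
            rw [Env664.nbD_N (by omega), sub_add_cancel]
          have n1 := hx (x + 1) (by omega) (by omega)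
          have n2 := hx x (by omega) (by omega)
          exact ⟨fun h => absurd h.2 n1, fun h => beD_free hN (Or.inr n2)⟩
    · have e : ((x, y) : ℤ × ℤ) + dir 2 = (x + 1, y) := by rw [dir2]; ext <;> simp
      rw [e, a2, shr_lt (t := (x + 1, y)) hy]
      exact ⟨fun h => beD_in Env664.nbD_E h.1 h.2, fun h => beD_free Env664.nbD_E (by tauto)⟩
    · have e : ((x, y) : ℤ × ℤ) + dir 3 = (x, y - 1) := by rw [dir3]; ext <;> simp [sub_eq_add_neg]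
      rw [e, a3, shr_lt (t := (x, y - 1)) (by simp only; omega)]
      have hN : nbD p y0 xr (some ((x, y), 3)) = some ((x, y - 1), 1) :=
        Env664.nbD_S ⟨by omega, by omega⟩
      exact ⟨fun h => beD_in hN h.1 h.2, fun h => beD_free hN (by tauto)⟩
  · rw [shr_ge (t := (x, y)) hy]
    simp only
    rcases d4 d with rfl | rfl | rfl | rfl
    · have e : ((x, y) : ℤ × ℤ) + dir 0 = (x - 1, y) := by rw [dir0]; ext <;> simp [sub_eq_add_neg]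
      have e2 : x + 1 - 1 = x - 1 + 1 := by ring
      rw [e, a0, shr_ge (t := (x - 1, y)) hy]
      simp only
      rw [← e2]
      exact ⟨fun h => beD_in Env664.nbD_W h.1 h.2, fun h => beD_free Env664.nbD_W (by tauto)⟩
    · have e : ((x, y) : ℤ × ℤ) + dir 1 = (x, y + 1) := by rw [dir1]; ext <;> simp
      rw [e, a1, shr_ge (t := (x, y + 1)) (by simp only; omega)]
      have hN : nbD p y0 xr (some ((x + 1, y), 1)) = some ((x + 1, y + 1), 3) :=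
        Env664.nbD_N (by omega)
      exact ⟨fun h => beD_in hN h.1 h.2, fun h => beD_free hN (by tauto)⟩
    · have e : ((x, y) : ℤ × ℤ) + dir 2 = (x + 1, y) := by rw [dir2]; ext <;> simp
      rw [e, a2, shr_ge (t := (x + 1, y)) hy]
      exact ⟨fun h => beD_in Env664.nbD_E h.1 h.2, fun h => beD_free Env664.nbD_E (by tauto)⟩
    · have e : ((x, y) : ℤ × ℤ) + dir 3 = (x, y - 1) := by rw [dir3]; ext <;> simp [sub_eq_add_neg]
      rw [e, a3]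
      by_cases hy1 : y0 ≤ y - 1
      · rw [shr_ge (t := (x, y - 1)) hy1]
        have hN : nbD p y0 xr (some ((x + 1, y), 3)) = some ((x + 1, y - 1), 1) :=
          Env664.nbD_S ⟨by omega, by omega⟩
        exact ⟨fun h => beD_in hN h.1 h.2, fun h => beD_free hN (by tauto)⟩
      · have e2 : y = y0 := by omega
        subst e2
        rw [shr_lt (t := (x, y - 1)) (by simp only; omega)]
        by_cases hxr : x + 1 ≤ xr
        · have hN : nbD p y xr (some ((x + 1, y), 3)) = some ((x, y - 1), 1) := by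
            rw [Env664.nbD_S1 ⟨rfl, by omega, hxr⟩, add_sub_cancel_right]
          exact ⟨fun h => beD_in hN h.1 h.2, fun h => beD_free hN (by tauto)⟩
        · have n1 := hx (x + 1) (by omega) (by omega)
          exact ⟨fun h => absurd h.1 n1, fun h => beD_not n1⟩

theorem beP_chp {X Y : ℤ} {n : ℕ} {A : Finset (ℤ × ℤ)} {b : Port (ℤ × ℤ) → Port (ℤ × ℤ)}
    (hb : ∀ t d, Bx X Y n t → b (some (t, d)) = beP A (some (t, d))) :
    Chp X Y n (fun t => t) A b := by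
  intro c d h
  rw [hb c d h]
  exact ⟨fun h => beP_in h.1 h.2, fun h => beP_free (by tauto)⟩

/-! ### two regions with the same slit -/

theorem res_congr {A A' : Finset (ℤ × ℤ)} {nb : Port (ℤ × ℤ) → Port (ℤ × ℤ)} {x : Port (ℤ × ℤ)}
    (h1 : PortOf A' x ↔ PortOf A x) (h2 : PortOf A' (nb x) ↔ PortOf A (nb x)) :
    res A' nb x = res A nb x := by
  unfold res
  by_cases h : PortOf A x ∧ PortOf A (nb x)
  · rw [if_pos h, if_pos ⟨h1.2 h.1, h2.2 h.2⟩]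
  · rw [if_neg h, if_neg fun h' => h ⟨h1.1 h'.1, h2.1 h'.2⟩]

theorem nbD_near (p y0 xr x y : ℤ) (d : ZMod 4) : nbD p y0 xr (some ((x, y), d)) = none ∨
    ∃ x' y' d', nbD p y0 xr (some ((x, y), d)) = some ((x', y'), d') ∧
      (x' - x ≤ 1 ∧ x - x' ≤ 1 ∧ y' - y ≤ 1 ∧ y - y' ≤ 1) ∧
      ((x' = x ∧ (y' = y + 1 ∨ y' = y - 1)) ∨ y' = y ∨ (x' = x + 1 ∧ y' = y0 ∧ y = y0 - 1) ∨
        (x' = x - 1 ∧ y' = y0 - 1 ∧ y = y0)) := by
  rcases d4 d with rfl | rfl | rfl | rfl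
  · exact Or.inr ⟨_, _, _, Env664.nbD_W, by omega, by omega⟩
  · by_cases h : y = y0 - 1 ∧ p ≤ x ∧ x ≤ xr
    · exact Or.inr ⟨_, _, _, Env664.nbD_N1 h, by omega, by omega⟩
    · exact Or.inr ⟨_, _, _, Env664.nbD_N h, by omega, by omega⟩
  · exact Or.inr ⟨_, _, _, Env664.nbD_E, by omega, by omega⟩
  · by_cases h : y = y0 ∧ x = p
    · exact Or.inl (Env664.nbD_Sleg h)
    · by_cases h1 : y = y0 ∧ p < x ∧ x ≤ xr
      · exact Or.inr ⟨_, _, _, Env664.nbD_S1 h1, by omega, by omega⟩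
      · exact Or.inr ⟨_, _, _, Env664.nbD_S ⟨by omega, h⟩, by omega, by omega⟩

/-- the glueings agree far from the box, in the shear chart -/
theorem far_shr {X Y p y0 xr : ℤ} {r n : ℕ} {A A' : Finset (ℤ × ℤ)} (hp : p + n ≤ X)
    (hn : r + 1 ≤ n) (he : ∀ t, ¬ Bx X Y r (shr y0 (-1) t) → (t ∈ A' ↔ t ∈ A))
    {x : Port (ℤ × ℤ)} (hx : FarC X Y n (shr y0 (-1)) x) :
    beD A' p y0 xr x = beD A p y0 xr x := by
  rcases x with - | ⟨⟨x, y⟩, d⟩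
  · refine res_congr ⟨fun _ => Env664.portOf_none _, fun _ => Env664.portOf_none _⟩ ?_
    rw [Env664.nbD_leg, portOf_some, portOf_some]
    refine he _ ?_
    rw [shr_ge (t := (p, y0)) le_rfl]
    intro h
    have := h.1
    simp only at this
    omega
  · have h0 := hx _ _ rfl
    refine res_congr ?_ ?_
    · rw [portOf_some, portOf_some]
      refine he _ fun h => h0 ?_
      unfold Bx at *; omega
    · rcases nbD_near p y0 xr x y d with e | ⟨x', y', d', e, h1, h2⟩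
      · rw [e]; exact ⟨fun _ => Env664.portOf_none _, fun _ => Env664.portOf_none _⟩
      · rw [e, portOf_some, portOf_some]
        refine he _ fun h => h0 ?_
        unfold shr Bx at *
        simp only at *
        split_ifs at * <;> simp only at * <;> omega

/-- the glueings agree far from the box, plain chart -/
theorem far_id {X Y p y0 xr : ℤ} {r n : ℕ} {A A' : Finset (ℤ × ℤ)} (hp : ¬ Bx X Y r (p, y0))
    (hn : r + 1 ≤ n) (he : ∀ t, ¬ Bx X Y r t → (t ∈ A' ↔ t ∈ A))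
    {x : Port (ℤ × ℤ)} (hx : FarC X Y n (fun t => t) x) :
    beD A' p y0 xr x = beD A p y0 xr x := by
  rcases x with - | ⟨⟨x, y⟩, d⟩
  · refine res_congr ⟨fun _ => Env664.portOf_none _, fun _ => Env664.portOf_none _⟩ ?_
    rw [Env664.nbD_leg, portOf_some, portOf_some]
    exact he _ hp
  · have h0 := hx _ _ rfl
    refine res_congr ?_ ?_
    · rw [portOf_some, portOf_some]
      refine he _ fun h => h0 ?_
      change Bx X Y n (x, y)
      unfold Bx at *; omega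
    · rcases nbD_near p y0 xr x y d with e | ⟨x', y', d', e, h1, h2⟩
      · rw [e]; exact ⟨fun _ => Env664.portOf_none _, fun _ => Env664.portOf_none _⟩
      · rw [e, portOf_some, portOf_some]
        refine he _ fun h => h0 ?_
        change Bx X Y n (x, y)
        unfold Bx at *
        simp only at *
        omega

/-- away from the slit the glueing is the plain one -/
theorem beD_beP {X Y p y0 xr : ℤ} {n : ℕ} {A : Finset (ℤ × ℤ)} (hpx : p ≤ xr)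
    (h : ∀ t, Bx X Y n t → (t.2 ≠ y0 - 1 ∧ t.2 ≠ y0) ∨ xr < t.1 ∨ t.1 < p) :
    ∀ t d, Bx X Y n t → beD A p y0 xr (some (t, d)) = beP A (some (t, d)) := by
  rintro ⟨x, y⟩ d hB
  have h1 := h _ hB
  simp only at h1
  have e : nbD p y0 xr (some ((x, y), d)) = nbP (some ((x, y), d)) := by
    rcases d4 d with rfl | rfl | rfl | rfl
    · rw [Env664.nbD_W, Env664.nbP_W]
    · rw [Env664.nbD_N (by omega), Env664.nbP_N]
    · rw [Env664.nbD_E, Env664.nbP_E]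
    · rw [Env664.nbD_S ⟨by omega, by omega⟩, Env664.nbP_S]
  unfold beD beP res
  rw [e]

theorem farC_rk {X Y : ℤ} {n : ℕ} {k : ZMod 4} {ψ : ℤ × ℤ → ℤ × ℤ} {m : Port (ℤ × ℤ)} :
    FarC X Y n (fun t => rk X Y k (ψ t)) m ↔ FarC X Y n ψ m := by
  unfold FarC
  simp only [bx_rk]

theorem mkP_rk {X Y : ℤ} {r : ℕ} {k : ZMod 4} {ψ : ℤ × ℤ → ℤ × ℤ} {A' : Finset (ℤ × ℤ)}
    {b' : Port (ℤ × ℤ) → Port (ℤ × ℤ)} {m y : Port (ℤ × ℤ)} :
    MkP X Y r (fun t => rk X Y k (ψ t)) A' b' m y ↔ MkP X Y r ψ A' b' m y := by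
  unfold MkP
  simp only [bx_rk]

theorem MkP.far {X Y : ℤ} {r n : ℕ} {ψ : ℤ × ℤ → ℤ × ℤ} {A' : Finset (ℤ × ℤ)}
    {b' : Port (ℤ × ℤ) → Port (ℤ × ℤ)} {m : Port (ℤ × ℤ)} (hn : r ≤ n) (h : FarC X Y n ψ m) :
    MkP X Y r ψ A' b' m m := by
  refine Or.inl ⟨rfl, fun t d e h1 => h t d e ?_⟩
  unfold Bx at *; omega

/-- **chart ball for regions given by tiles** -/
theorem nb_gen : ∃ C a : ℝ, 0 < C ∧ 0 < a ∧ ∀ (sh : Sh) (k : ZMod 4) (X Y : ℤ) (r n : ℕ)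
    (ψ φ : ℤ × ℤ → ℤ × ℤ), TCh ψ φ → 1 ≤ r → r + 1 ≤ n →
    ∀ {A A' : Finset (ℤ × ℤ)} {b b' : Port (ℤ × ℤ) → Port (ℤ × ℤ)},
    (∃ w', GW A' b' w') → Chp X Y n φ A b → Chp X Y n φ A' b' →
    (∀ c, Bx X Y (n + 1) c → ¬ Bx X Y (r - 1) c → (φ c ∈ A ↔ pat X Y sh k c)) →
    (∀ c, Bx X Y (n + 1) c → ¬ Bx X Y (r - 1) c → (φ c ∈ A' ↔ φ c ∈ A)) →
    (∀ x, FarC X Y n ψ x → b' x = b x) → ∀ {m1 m2 m3 y1 y2 y3 : Port (ℤ × ℤ)},
    MkP X Y r ψ A' b' m1 y1 → MkP X Y r ψ A' b' m2 y2 → MkP X Y r ψ A' b' m3 y3 →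
    (FarC X Y n ψ m1 ∨ FarC X Y n ψ m2) → (FarC X Y n ψ m2 ∨ FarC X Y n ψ m3) →
    (FarC X Y n ψ m3 ∨ FarC X Y n ψ m1) → MK A b m1 m2 m3 →
    MK A' b' y1 y2 y3 ∧ ‖HG A b m1 m2 m3 - HG A' b' y1 y2 y3‖ ≤ C * ((r : ℝ) / n) ^ a := by
  obtain ⟨C, a, hC, ha, hX⟩ := chart_mk
  refine ⟨C, a, hC, ha, ?_⟩
  intro sh k X Y r n ψ φ hch hr hn A A' b b' hw' hb hb' hA he hF m1 m2 m3 y1 y2 y3 h1 h2 h3 f12 f23
    f31 hMK
  refine hX sh X Y r n _ _ k (hch.comp (TCh.rk X Y k)) hr hn hw' (win_pat hr hn hA hb)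
    (win_pat hr hn (fun c c1 c2 => (he c c1 c2).trans (hA c c1 c2)) hb') (np_pat hch hA)
    (fun x hx => hF x (farC_rk.1 hx)) (mkP_rk.2 h1) (mkP_rk.2 h2) (mkP_rk.2 h3)
    (f12.imp farC_rk.2 farC_rk.2) (f23.imp farC_rk.2 farC_rk.2) (f31.imp farC_rk.2 farC_rk.2) hMK

/-- **two regions with the same slit, which ends or passes in the box** -/
theorem nb_shr : ∃ C a : ℝ, 0 < C ∧ 0 < a ∧ ∀ (sh : Sh) (k : ZMod 4) (X Y : ℤ) (r n : ℕ)
    (p y0 xr : ℤ), 1 ≤ r → r + 1 ≤ n → p + n ≤ X → ∀ {A A' : Finset (ℤ × ℤ)},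
    (∃ w', GW A' (beD A' p y0 xr) w') →
    (∀ c, Bx X Y (n + 1) c → ¬ Bx X Y (r - 1) c → (shr y0 1 c ∈ A ↔ pat X Y sh k c)) →
    (∀ t, ¬ Bx X Y (r - 1) (shr y0 (-1) t) → (t ∈ A' ↔ t ∈ A)) →
    (∀ x, xr < x → x ≤ X + n + 2 → (x, y0) ∉ A ∧ (x, y0) ∉ A') →
    ∀ {m1 m2 m3 y1 y2 y3 : Port (ℤ × ℤ)}, MkP X Y r (shr y0 (-1)) A' (beD A' p y0 xr) m1 y1 →
    MkP X Y r (shr y0 (-1)) A' (beD A' p y0 xr) m2 y2 →
    MkP X Y r (shr y0 (-1)) A' (beD A' p y0 xr) m3 y3 →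
    (FarC X Y n (shr y0 (-1)) m1 ∨ FarC X Y n (shr y0 (-1)) m2) →
    (FarC X Y n (shr y0 (-1)) m2 ∨ FarC X Y n (shr y0 (-1)) m3) →
    (FarC X Y n (shr y0 (-1)) m3 ∨ FarC X Y n (shr y0 (-1)) m1) →
    MK A (beD A p y0 xr) m1 m2 m3 → MK A' (beD A' p y0 xr) y1 y2 y3 ∧
      ‖HG A (beD A p y0 xr) m1 m2 m3 - HG A' (beD A' p y0 xr) y1 y2 y3‖ ≤
        C * ((r : ℝ) / n) ^ a := by
  obtain ⟨C, a, hC, ha, hX⟩ := nb_gen
  refine ⟨C, a, hC, ha, ?_⟩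
  intro sh k X Y r n p y0 xr hr hn hp A A' hw' hA he hx m1 m2 m3 y1 y2 y3 h1 h2 h3 f12 f23 f31 hMK
  have hch : TCh (shr y0 (-1)) (shr y0 1) := by
    have := TCh.shr y0 (-1)
    rwa [neg_neg] at this
  refine hX sh k X Y r n _ _ hch hr hn hw' (beD_shr hp fun x hx1 hx2 => (hx x hx1 hx2).1)
    (beD_shr hp fun x hx1 hx2 => (hx x hx1 hx2).2) hA ?_
    (fun x hx' => far_shr hp hn (fun t ht => he t fun h => ht ?_) hx') h1 h2 h3 f12 f23 f31 hMK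
  · intro c c1 c2
    refine he _ ?_
    rw [hch.r]; exact c2
  · unfold Bx at *; omega

/-- **the same without slit in the box** -/
theorem nb_plain : ∃ C a : ℝ, 0 < C ∧ 0 < a ∧ ∀ (sh : Sh) (k : ZMod 4) (X Y : ℤ) (r n : ℕ)
    (p y0 xr : ℤ), 1 ≤ r → r + 1 ≤ n → p ≤ xr →
    (∀ t, Bx X Y n t → (t.2 ≠ y0 - 1 ∧ t.2 ≠ y0) ∨ xr < t.1 ∨ t.1 < p) →
    ∀ {A A' : Finset (ℤ × ℤ)}, (∃ w', GW A' (beD A' p y0 xr) w') →
    (∀ t, Bx X Y (n + 1) t → ¬ Bx X Y (r - 1) t → (t ∈ A ↔ pat X Y sh k t)) →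
    (∀ t, ¬ Bx X Y (r - 1) t → (t ∈ A' ↔ t ∈ A)) →
    ∀ {m1 m2 m3 y1 y2 y3 : Port (ℤ × ℤ)}, MkP X Y r (fun t => t) A' (beD A' p y0 xr) m1 y1 →
    MkP X Y r (fun t => t) A' (beD A' p y0 xr) m2 y2 →
    MkP X Y r (fun t => t) A' (beD A' p y0 xr) m3 y3 →
    (FarC X Y n (fun t => t) m1 ∨ FarC X Y n (fun t => t) m2) →
    (FarC X Y n (fun t => t) m2 ∨ FarC X Y n (fun t => t) m3) →
    (FarC X Y n (fun t => t) m3 ∨ FarC X Y n (fun t => t) m1) →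
    MK A (beD A p y0 xr) m1 m2 m3 → MK A' (beD A' p y0 xr) y1 y2 y3 ∧
      ‖HG A (beD A p y0 xr) m1 m2 m3 - HG A' (beD A' p y0 xr) y1 y2 y3‖ ≤
        C * ((r : ℝ) / n) ^ a := by
  obtain ⟨C, a, hC, ha, hX⟩ := nb_gen
  refine ⟨C, a, hC, ha, ?_⟩
  intro sh k X Y r n p y0 xr hr hn hpx hs A A' hw' hA he m1 m2 m3 y1 y2 y3 h1 h2 h3 f12 f23 f31 hMK
  refine hX sh k X Y r n _ _ TCh.id hr hn hw' (beP_chp (beD_beP hpx hs))
    (beP_chp (beD_beP hpx hs)) hA (fun c c1 c2 => he c c2)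
    (fun x hx' => far_id ?_ hn (fun t ht => he t fun h => ht ?_) hx') h1 h2 h3 f12 f23 f31 hMK
  · intro h
    have h4 := hs (p, y0) (by unfold Bx at *; omega)
    simp only at h4
    omega
  · unfold Bx at *; omega

end Crest.Agent.R158.Cw161
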