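import Crest.Agent.R158.Bn2_468
import Crest.Agent.R158.Cw6_161

/-!
# R158, S0237, BLOCK BL, (B9, DN) (helper468), file Bn3: the notch balls, DN

* `eps_choice` : choice of the macroscopic constants
* `Scl` : the integers of a pair
* **`nbDn : Hb656.NBdn`**
-/

set_option autoImplicit false

noncomputable section

namespace Crest.Agent.R158.Bn468

open Crest.Agent.R158.Sp896 (V)
open Crest.Agent.R158.Sw300 (Port)
open Crest.Agent.R158.Env664 (D Run mem_D div_iff beD)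
open Crest.Agent.R158.Ob664 (GW HG)
open Crest.Agent.R158.Hb656 (Nt mem_Nt Two Cr Sm Lk1 Rg GH)
open Crest.Agent.R158.Tj656 (P4)
open Crest.Agent.R158.Cw161 (Bx Sh pat shr TCh MkP FarC nb_shr)

/-- **choice of the constants**: `2 C (R / n)^e ≤ ε` for `R ≤ 2 h L + 2`, `n = ⌊r L / 4⌋` -/
theorem eps_choice {C e : ℝ} (hC : 0 < C) (he : 0 < e) {r : ℝ} (hr : 0 < r) (hr2 : r ≤ 1 / 2)
    {ε : ℝ} (hε : 0 < ε) : ∃ h : ℝ, 0 < h ∧ h ≤ 1 / 128 ∧ ∃ L0 : ℤ, ∀ L : ℤ, L0 ≤ L →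
      32 ≤ L ∧ ∃ n : ℕ, 4 * (n : ℤ) + 8 ≤ L ∧ (n : ℝ) + 2 ≤ r * L ∧ 4 ≤ n ∧
        ∀ R : ℕ, (R : ℝ) ≤ 2 * h * L + 2 → R + 1 ≤ n ∧ 2 * (C * ((R : ℝ) / n) ^ e) ≤ ε := by
  set q : ℝ := (ε / (2 * C)) ^ (1 / e) with hq
  have hq0 : 0 < q := by positivity
  set η : ℝ := min (1 / 2) q with hη
  have hη0 : 0 < η := lt_min (by norm_num) hq0
  have hη1 : η ≤ 1 / 2 := min_le_left _ _
  have hη2 : 2 * (C * η ^ e) ≤ ε := by
    have h1 : η ^ e ≤ q ^ e := Real.rpow_le_rpow hη0.le (min_le_right _ _) he.le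
    have h2 : q ^ e = ε / (2 * C) := by
      rw [hq, ← Real.rpow_mul (by positivity), one_div_mul_cancel he.ne', Real.rpow_one]
    rw [h2] at h1
    calc 2 * (C * η ^ e) ≤ 2 * (C * (ε / (2 * C))) := by gcongr
      _ = ε := by field_simp
  refine ⟨r * η / 32, by positivity, ?_, ⌈40 / (r * η)⌉ + 40, fun L hL => ?_⟩
  · nlinarith
  have hLr : 40 / (r * η) + 40 ≤ (L : ℝ) := by
    have h1 : ((⌈40 / (r * η)⌉ + 40 : ℤ) : ℝ) ≤ L := by exact_mod_cast hL
    have h2 := Int.le_ceil (40 / (r * η))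
    push_cast at h1
    linarith
  have hp : 0 < r * η := by positivity
  have hL40 : (40 : ℝ) ≤ L := by
    have : 0 < 40 / (r * η) := by positivity
    linarith
  have hLpos : (0 : ℝ) < L := by linarith
  have h40 : 40 ≤ r * η * L := by
    have h1 : 40 / (r * η) ≤ (L : ℝ) := by linarith
    rw [div_le_iff₀ hp] at h1
    linarith
  have hrL : 80 ≤ r * L := by
    have : r * η * L ≤ r * (1 / 2) * L := by gcongr
    linarith
  set n : ℕ := ⌊r * L / 4⌋₊ with hn
  have hn1 : (n : ℝ) ≤ r * L / 4 := Nat.floor_le (by positivity)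
  have hn2 : r * L / 4 < n + 1 := Nat.lt_floor_add_one _
  have hn8 : r * L / 8 ≤ n := by linarith
  have hn10 : (10 : ℝ) ≤ n := by linarith
  have hrL2 : r * L ≤ L / 2 := by nlinarith
  refine ⟨by exact_mod_cast (by linarith : (32 : ℝ) ≤ L), n, ?_, by linarith, ?_, fun R hR => ?_⟩
  · have : (4 * (n : ℝ) + 8 : ℝ) ≤ L := by linarith
    exact_mod_cast this
  · have : (4 : ℝ) ≤ n := by linarith
    exact_mod_cast this
  · have hnpos : (0 : ℝ) < n := by linarith
    have hRn : (R : ℝ) / n ≤ η := by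
      rw [div_le_iff₀ hnpos]
      have h1 : 2 * (r * η / 32) * L + 2 ≤ η * (r * L / 8) := by nlinarith
      have h2 : η * (r * L / 8) ≤ η * n := by gcongr
      linarith
    refine ⟨?_, ?_⟩
    · have h1 : (R : ℝ) ≤ n / 2 := by
        rw [div_le_iff₀ hnpos] at hRn
        nlinarith
      have : ((R + 1 : ℕ) : ℝ) ≤ n := by push_cast; linarith
      exact_mod_cast this
    · calc 2 * (C * ((R : ℝ) / n) ^ e) ≤ 2 * (C * η ^ e) := by gcongr
        _ ≤ ε := hη2

/-- marks in the chart -/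
theorem mt_box (P : P4) {L : ℤ} (hL : 0 < L) {n : ℕ} (hn : 4 * (n : ℤ) + 8 ≤ L) (hL2 : 32 ≤ L)
    {X Y u v y1 : ℤ} (hX : X = u * L - 1 ∨ X = u * L - 2) (hY : Y = v * L - 1) (i : Fin 3) :
    FarC X Y n (shr y1 (-1)) (some (Hb656.mt P L i)) := by
  intro t d h1 h2
  have h3 : (Hb656.mt P L i).1 = t := by
    simp only [Option.some.injEq] at h1
    rw [h1]
  subst h3
  unfold Bx at h2
  refine mt_far P hL i (u := u) (v := v) (s := n + 4) (by omega) ?_ ?_ ?_ ?_ <;>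
    rcases shr_cases y1 (Hb656.mt P L i).1 with ⟨-, e⟩ | ⟨-, e⟩ <;> rw [e] at h2 <;>
    (try simp only at h2) <;> omega

theorem mk_box {X Y : ℤ} {R n : ℕ} (hRn : R + 1 ≤ n) {ψ : V → V} {A' : Finset V}
    {b' : Port V → Port V} {m : Port V} (h : FarC X Y n ψ m) : MkP X Y R ψ A' b' m m := by
  refine Or.inl ⟨rfl, fun t d e h2 => h t d e ?_⟩
  unfold Bx at *
  omega

theorem shr_shr (y1 : ℤ) (c : V) : shr y1 (-1) (shr y1 1 c) = c := by
  obtain ⟨x, y⟩ := c
  unfold shr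
  by_cases h : y < y1 <;> simp [h]

/-- **(B9, DN): the notch balls** -/
theorem nbDn : Hb656.NBdn := by
  obtain ⟨C, e, hC, he, hX⟩ := nb_shr
  intro P H k a b a' b' np hbb hH hT r hr hr2 ε hε
  obtain ⟨h, h0, h1, L0, hL0⟩ := eps_choice hC he hr hr2 hε
  refine ⟨h, h0, L0, fun L hL hev x y0 y1 hc hMK => ?_⟩
  obtain ⟨hL32, n, hn, hnr, hn4, hR⟩ := hL0 L hL
  have hL' : 0 < L := by omega
  have hLr : (32 : ℝ) ≤ L := by exact_mod_cast hL32
  -- position
  have py0 : k * L - L ≤ y0 - 1 := by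
    have h2 := hc.lo'
    have h3 : (k : ℝ) * L - L / 128 ≤ y0 := by nlinarith
    have h4 : ((k * L - L : ℤ) : ℝ) ≤ ((y0 - 1 : ℤ) : ℝ) := by push_cast; linarith
    exact_mod_cast h4
  have py1 : y1 < k * L + L := by
    have h2 := hc.hi'
    have h3 : (y1 : ℝ) ≤ (k : ℝ) * L + L / 128 := by nlinarith
    have h4 : ((y1 : ℤ) : ℝ) < ((k * L + L : ℤ) : ℝ) := by push_cast; linarith
    exact_mod_cast h4
  have px0 : a' * L ≤ x := by
    have h2 := hc.l1
    have h3 : 0 < r * L := by positivity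
    have h4 : ((a' * L : ℤ) : ℝ) ≤ ((x : ℤ) : ℝ) := by push_cast; linarith
    exact_mod_cast h4
  have pxu : x + n ≤ b' * L + L - 2 := by
    have h2 := hc.r1
    have h4 : ((x + n : ℤ) : ℝ) ≤ ((b' * L + L - 2 : ℤ) : ℝ) := by push_cast; linarith
    exact_mod_cast h4
  have pxl : x + n ≤ b * L + L - 1 := by
    have h2 := hc.r0
    have h4 : ((x + n : ℤ) : ℝ) ≤ ((b * L + L - 1 : ℤ) : ℝ) := by push_cast; linarith
    exact_mod_cast h4
  have cb : b * L + L ≤ b' * L := by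
    have := mul_le_mul_of_nonneg_right (by omega : b + 1 ≤ b') hL'.le
    rw [add_mul, one_mul] at this
    exact this
  -- radius
  obtain ⟨R, hRdef⟩ : ∃ R : ℕ, (R : ℤ) = y1 - y0 + 2 :=
    ⟨(y1 - y0 + 2).toNat, Int.toNat_of_nonneg (by have := hc.lo; have := hc.hi; omega)⟩
  have hlo := hc.lo
  have hhi := hc.hi
  have hRr : (R : ℝ) ≤ 2 * h * L + 2 := by
    have h2 : ((R : ℤ) : ℝ) = ((y1 - y0 + 2 : ℤ) : ℝ) := by rw [hRdef]
    push_cast at h2
    have h3 := hc.lo'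
    have h4 := hc.hi'
    linarith
  obtain ⟨hRn, hRε⟩ := hR R hRr
  have hR1 : 1 ≤ R := by omega
  -- cells
  have f1 : (b, k - 1) ∈ P.F := hT.lo.mem b hT.lo.le le_rfl
  have hcom := hT.com
  rw [max_le_iff, le_min_iff, le_min_iff] at hcom
  have f2 : (b, k) ∈ P.F := hT.up.mem b (by omega) hbb.le
  have f3 : (b + 1, k) ∈ P.F := hT.up.mem (b + 1) (by omega) (by omega)
  have f4 : (b + 1, k - 1) ∉ P.F := hT.lo.right
  have g1 : (b', k) ∈ P.F := hT.up.mem b' hT.up.le le_rfl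
  have g2 : (b' + 1, k) ∉ P.F := hT.up.right
  -- lower notch
  have hpl := pat_l (F := P.F) (b' := b') (y0 := y0) (y1 := y1) (r := R) (n := n) hL' f1 f2 f3 f4
    (by omega) hlo hhi (by omega) hn
  have fl : ∀ i, FarC (b * L + L - 1) (k * L - 1) n (shr y1 (-1)) (some (Hb656.mt P L i)) :=
    fun i => mt_box P hL' hn hL32 (u := b + 1) (v := k) (Or.inl (by ring)) rfl i
  have t1 := hX .t 3 (b * L + L - 1) (k * L - 1) R n x y1 (b' * L + L - 1) hR1 hRn pxl
    (A := D P.F L) (A' := D P.F L \ Nl L k b y0)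
    (dn_word_l P (by omega) (by omega) hT py0 hlo hhi py1 px0 (by omega))
    (by
      intro c c1 c2
      have := hpl ∅ (Finset.empty_subset _) (shr y1 1 c) (by rw [shr_shr]; exact c1)
        (by rw [shr_shr]; exact c2)
      rwa [Finset.sdiff_empty, shr_shr] at this)
    (by
      intro t ht
      rw [Finset.mem_sdiff, and_iff_left]
      intro hm
      apply ht
      have h3 := mem_Nl.1 hm
      unfold Bx
      rcases shr_cases y1 t with ⟨-, e⟩ | ⟨h4, e⟩
      · rw [e]; omega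
      · omega)
    (by intro u hu1 hu2; omega)
    (mk_box hRn (fl 0)) (mk_box hRn (fl 1)) (mk_box hRn (fl 2)) (Or.inl (fl 0))
    (Or.inl (fl 1)) (Or.inl (fl 2)) hMK
  -- upper notch
  obtain ⟨sh, d, hpu⟩ := pat_u (F := P.F) (b := b) (y0 := y0) (y1 := y1) (r := R) (n := n) np hL'
    g1 g2 (by omega) hlo hhi (by omega) hn
  have fu : ∀ i, FarC (b' * L + L - 2) (k * L - 1) n (shr y1 (-1)) (some (Hb656.mt P L i)) :=
    fun i => mt_box P hL' hn hL32 (u := b' + 1) (v := k) (Or.inr (by ring)) rfl i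
  have t2 := hX sh d (b' * L + L - 2) (k * L - 1) R n x y1 (b' * L + L - 1) hR1 hRn pxu
    (A := D P.F L \ Nl L k b y0) (A' := D P.F L \ Nt L k b b' y0 y1)
    (dn_word_t P (by omega) (by omega) hT py0 hlo hhi py1 px0 (by omega))
    (by
      intro c c1 c2
      have := hpu (Nl L k b y0) Nl_sub (shr y1 1 c) (by rw [shr_shr]; exact c1)
        (by rw [shr_shr]; exact c2)
      rwa [shr_shr] at this)
    (by
      intro t ht
      rw [Finset.mem_sdiff, Finset.mem_sdiff]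
      refine and_congr_right fun _ => not_congr ⟨fun hm => ?_, fun hm => Nl_sub hm⟩
      rcases mem_Nt.1 hm with h3 | h3
      · exact mem_Nl.2 h3
      · exfalso
        apply ht
        unfold Bx
        rcases shr_cases y1 t with ⟨-, e⟩ | ⟨h4, e⟩
        · rw [e]; omega
        · omega)
    (by
      intro u hu1 hu2
      have h3 : (u, y1) ∉ D P.F L :=
        row_out hL' hT.up (by omega) (by omega) (by omega) py1
      exact ⟨fun hm => h3 (Finset.mem_sdiff.1 hm).1, fun hm => h3 (Finset.mem_sdiff.1 hm).1⟩)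
    (mk_box hRn (fu 0)) (mk_box hRn (fu 1)) (mk_box hRn (fu 2)) (Or.inl (fu 0))
    (Or.inl (fu 1)) (Or.inl (fu 2)) t1.1
  refine ⟨t2.1, ?_⟩
  have key := norm_sub_le_norm_sub_add_norm_sub
    (HG (D P.F L) (beD (D P.F L) x y1 (b' * L + L - 1)) (some (Hb656.mt P L 0))
      (some (Hb656.mt P L 1)) (some (Hb656.mt P L 2)))
    (HG (D P.F L \ Nl L k b y0) (beD (D P.F L \ Nl L k b y0) x y1 (b' * L + L - 1))
      (some (Hb656.mt P L 0)) (some (Hb656.mt P L 1)) (some (Hb656.mt P L 2)))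
    (HG (D P.F L \ Nt L k b b' y0 y1) (beD (D P.F L \ Nt L k b b' y0 y1) x y1 (b' * L + L - 1))
      (some (Hb656.mt P L 0)) (some (Hb656.mt P L 1)) (some (Hb656.mt P L 2)))
  have h5 := t1.2
  have h6 := t2.2
  refine key.trans ?_
  linarith

end Crest.Agent.R158.Bn468
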