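import Crest.Agent.S0211
import Crest.Agent.R150.FE10_952
import Crest.Agent.R158.Bs_410

/-!
# R158, Block B (helper410), file Bs2: unconditional form of the plane characteristic function

* `energy_nonneg` : the energy of a neutral measure is nonnegative
* `law3` : the law part of `S0211` at `c = √3`
* `char_all` : `Pi (m_δ) → exp (- 3 / (2π) * energy μ)`
-/

set_option autoImplicit false

noncomputable section

open Filter Topology MeasureTheory
open Crest.ProbabilityR.SixVertex
open Crest.Agent.R150.Hgt989 Crest.Agent.R150.Pln989 Crest.Agent.R150.Pls989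
open Crest.Agent.R150.FE952 Crest.Agent.R150.Red989 Crest.Agent.R150.Top772

namespace Crest.Agent.R158.Bs410

/-- **the energy of a neutral measure is nonnegative** -/
theorem energy_nonneg {μ : SignedMeasure (ℝ × ℝ)} (hμ : CC μ) (h0 : μ Set.univ = 0)
    (hE : HasFiniteEnergy μ) : 0 ≤ energy μ := by
  have hpi := Real.pi_pos
  have hη0 : (0 : ℝ) ≤ Real.pi / 3 := by positivity
  have hη1 : Real.pi / 3 < Real.pi := by linarith
  have hc0 : 0 < 2 * Real.cos (Real.pi / 3 / 2) := cos_half_pos hη0 hη1
  have hc2 : 2 * Real.cos (Real.pi / 3 / 2) ≤ 2 := by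
    have := Real.cos_le_one (Real.pi / 3 / 2); linarith
  obtain ⟨P, hP, -, -⟩ := planeAll_all hc0 hc2
  have hV : TwoPt (2 / (Real.pi - Real.pi / 3)) (Vp P) :=
    two_of sys_all const_all (Real.pi / 3) hη0 hη1 P hP
  set s : ℝ := 2 / (Real.pi - Real.pi / 3) with hs
  have hs0 : 0 < s := div_pos two_pos (by linarith)
  have := hP.prob
  have hm := logInt_of_finite hμ hE
  have hb : Wt (fun _ => 1) 1 := wt_one
  have hD := dat_thb h0 hb
  have hX := cov_tendsto hP hV hD (pos_bas hμ) (pos_bas hμ) (ne_base hm) (int_base hm)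
  have hpos : 0 ≤ -(s / (2 * Real.pi)) *
      QQ (μ.variation.prod be) (thb μ (fun _ => 1)) bas bas fun x y =>
        Real.log (euclidDist x y) := by
    refine ge_of_tendsto' hX fun δ => integral_nonneg fun ω => ?_
    exact mul_self_nonneg _
  rw [energy_eq hm hb]
  have e : -(s / (2 * Real.pi)) *
      QQ (μ.variation.prod be) (thb μ (fun _ => 1)) bas bas (fun x y =>
        Real.log (euclidDist x y)) = s * (-(1 / (2 * Real.pi)) *
      QQ (μ.variation.prod be) (thb μ (fun _ => 1)) bas bas (fun x y =>
        Real.log (euclidDist x y))) := by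
    field_simp
  rw [e] at hpos
  exact nonneg_of_mul_nonneg_right hpos hs0

/-- **the law part of `S0211` at `c = √3`** -/
theorem law3 : Law3 := (Crest.Agent.S0211.result (Real.sqrt 3) (by positivity) (by
  rw [Real.sqrt_le_left (by norm_num)]; norm_num)).1

/-- **the plane characteristic function**, from the lattice identity alone -/
theorem char_all {Pi : (ℤ × ℤ →₀ ℝ) → ℝ} (hPi : StarLat Pi)
    {μ : SignedMeasure (ℝ × ℝ)} (hμ : CC μ) (h0 : μ Set.univ = 0) (hE : HasFiniteEnergy μ) :
    Tendsto (fun δ => Pi (chg μ δ)) (𝓝[>] 0)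
      (𝓝 (Real.exp (-(3 / (2 * Real.pi)) * energy μ))) := by
  have h := plane_char law3 hPi hμ h0 hE
  rwa [max_eq_left (energy_nonneg hμ h0 hE)] at h

end Crest.Agent.R158.Bs410
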