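import Crest.Agent.R158.Hp12_854
import Crest.Agent.R158.Cn1_109

/-!
# R158, block HP1 (helper440): the analytic half

`hp1_of : HP1in → HP1out` : from the arrow reversal inequality on the cylinder to the boundary one-arm
bound `aw n ≤ C n^(-1/3)` (independence, two arms, joining, channels).
-/

set_option autoImplicit false

noncomputable section

namespace Crest.Agent.R158.Hp854

open MeasureTheory ProbabilityTheory unitInterval
open Crest.Agent.R158.Rs689 Crest.Agent.R158.Mr679 Crest.Agent.R158.Fl440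
open Crest.Agent.R161.Geo729

variable {ι : Type*}

/-- independence of an event and a function -/
theorem setInt_indep (w : ι → I) {S T : Finset ι} (hST : Disjoint S T) {A : Set (ι → Bool)}
    (hA : Dep S A) {f : (ι → Bool) → ℝ} (hf : Cn109.DepF T f) :
    ∫ z in A, f z ∂(PB w) = (PB w).real A * ∫ z, f z ∂(PB w) := by
  have hd : Cn109.DepF S (A.indicator fun _ => (1 : ℝ)) := by
    intro z z' h
    by_cases hz : z ∈ A
    · rw [Set.indicator_of_mem hz, Set.indicator_of_mem ((hA z z' h).1 hz)]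
    · rw [Set.indicator_of_notMem hz, Set.indicator_of_notMem fun h' => hz ((hA z z' h).2 h')]
  rw [← integral_indicator hA.measurableSet]
  have e1 : ∀ z, A.indicator f z = (A.indicator fun _ => (1 : ℝ)) z * f z := by
    intro z
    by_cases hz : z ∈ A
    · rw [Set.indicator_of_mem hz, Set.indicator_of_mem hz, one_mul]
    · rw [Set.indicator_of_notMem hz, Set.indicator_of_notMem hz, zero_mul]
  simp_rw [e1]
  rw [Cn109.integral_mul_indep w hST hd hf, integral_indicator_const _ hA.measurableSet]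
  simp

theorem bxF_sub {x0 x1 y0 y1 x0' x1' y0' y1' : ℤ} (h1 : x0' ≤ x0) (h2 : x1 ≤ x1') (h3 : y0' ≤ y0)
    (h4 : y1 ≤ y1') : bxF x0 x1 y0 y1 ⊆ bxF x0' x1' y0' y1' := by
  intro t ht
  rw [mem_bxF] at ht ⊢
  unfold InB at ht ⊢
  omega

theorem bxF_disj {x0 x1 y0 y1 x0' x1' y0' y1' : ℤ} (h : x1 ≤ x0') :
    Disjoint (bxF x0 x1 y0 y1) (bxF x0' x1' y0' y1') := by
  rw [Finset.disjoint_left]
  intro t ht ht'
  rw [mem_bxF] at ht ht'
  unfold InB at ht ht'
  omega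

theorem rr_le {n : ℕ} (hn : 1 ≤ n) : rr n ≤ n := by unfold rr; omega
theorem two_rr {n : ℕ} (hn : 2 ≤ n) : 2 * rr n + 2 ≤ 2 * n := by unfold rr; omega
theorem rr_pos {n : ℕ} (hn : 1 ≤ n) : 1 ≤ rr n := by unfold rr; omega
theorem le_two_rr (n : ℕ) : n ≤ 2 * rr n := by unfold rr; omega

theorem E1_dep (n : ℕ) : Dep (bxF (-1 - n) n 0 n) (E1 n) :=
  ((AT_dep (-1) n).mono (bxF_sub (by omega) (by omega) le_rfl le_rfl)).inter
    ((AT_dep 0 n).mono (bxF_sub (by omega) (by omega) le_rfl le_rfl))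

theorem mid_dep (n : ℕ) :
    Dep (bxF (-1 - rr n) (rr n) 0 (rr n)) (AT (-1) (rr n) ∪ AT 0 (rr n)) :=
  ((AT_dep (-1) (rr n)).mono (bxF_sub (by omega) (by omega) le_rfl le_rfl)).union
    ((AT_dep 0 (rr n)).mono (bxF_sub (by omega) (by omega) le_rfl le_rfl))

theorem E2_dep {n : ℕ} (hn : 1 ≤ n) : Dep (bxF (-1 - 3 * n) (4 * n) 0 n) (E2 n) := by
  have h := rr_le hn
  refine (Dep.inter (Dep.inter ((AT_dep (-1 - 2 * n) (rr n)).mono ?_) ((mid_dep n).mono ?_))
    ((AT_dep (-1 + 2 * n) (rr n)).mono ?_)) <;>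
  exact bxF_sub (by omega) (by omega) le_rfl (by omega)

theorem hfσ : (σ hf : I) = hf := sigma_hf

/-- three arms in disjoint boxes -/
theorem E2_le {n : ℕ} (hn : 2 ≤ n) : (tau hf).real (E2 n) ≤ 2 * aw (rr n) ^ 3 := by
  have h := two_rr hn
  have hr := aw_nonneg (rr n)
  have d1 : Disjoint (bxF (-1 - 2 * n - rr n) (-1 - 2 * n + rr n) 0 (rr n))
      (bxF (-1 - rr n) (rr n) 0 (rr n)) := bxF_disj (by omega)
  have d2 : Disjoint (bxF (-1 - 2 * n - rr n) (rr n) 0 (rr n))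
      (bxF (-1 + 2 * n - rr n) (-1 + 2 * n + rr n) 0 (rr n)) := bxF_disj (by omega)
  have e1 := PB_indep_real (fun _ : P2 => hf) d1 (AT_dep (-1 - 2 * n) (rr n)) (mid_dep n)
  have e2 := PB_indep_real (fun _ : P2 => hf) d2
    (((AT_dep (-1 - 2 * n) (rr n)).mono (bxF_sub (by omega) (by omega) le_rfl le_rfl)).inter
      ((mid_dep n).mono (bxF_sub (by omega) (by omega) le_rfl le_rfl)))
    (AT_dep (-1 + 2 * n) (rr n))
  change (tau hf).real _ = (tau hf).real _ * (tau hf).real _ at e1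
  change (tau hf).real _ = (tau hf).real _ * (tau hf).real _ at e2
  have e3 : (tau hf).real (AT (-1) (rr n) ∪ AT 0 (rr n)) ≤ 2 * aw (rr n) := by
    refine (measureReal_union_le _ _).trans ?_
    rw [tau_AT, tau_AT]
    linarith
  unfold E2
  rw [e2, e1, tau_AT, tau_AT]
  calc aw (rr n) * (tau hf).real (AT (-1) (rr n) ∪ AT 0 (rr n)) * aw (rr n)
      ≤ aw (rr n) * (2 * aw (rr n)) * aw (rr n) := by gcongr
    _ = 2 * aw (rr n) ^ 3 := by ring

theorem not_dep {S : Finset P2} {A : Set TF} (hA : Dep S A) :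
    Dep S {X : TF | (fun t => !X t) ∈ A} := by
  intro X X' h
  exact hA _ _ fun t ht => by rw [h t ht]

theorem Cr_dep (x0 x1 y : ℤ) : Dep (bxF x0 x1 0 y) (Cr x0 x1 y) :=
  (lx_dep 0 x0 x1 0 y).union (not_dep (lx_dep 1 x0 x1 0 y))

theorem lx_sub {X : TF} {b x0 x1 y0 y1 x0' x1' : ℤ} (h : X ∈ LX b x0 x1 y0 y1) (h1 : x0 ≤ x0')
    (h2 : x0' < x1') (h3 : x1' ≤ x1) : X ∈ LX b x0' x1' y0 y1 := by
  obtain ⟨F, G, e1, e2, e3, e4, e5, e6⟩ := h
  refine lx_of_path e6 h2 (by omega) (by omega) e3 ?_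
  rintro t ⟨ht, ht'⟩ _ _
  exact ⟨ht.2.2.1, ht.2.2.2, ht'⟩

/-- **long crossings are rare** -/
theorem Cr_le : ∃ q : ℝ, 0 < q ∧ q < 1 ∧ ∀ (n R : ℕ), 1 ≤ n → ∀ x0 x1 : ℤ,
    x0 + R * (20 * n) ≤ x1 → (tau hf).real (Cr x0 x1 (20 * n)) ≤ 2 * q ^ R := by
  obtain ⟨q, h0, h1, h2⟩ := chan_le
  refine ⟨q, h0, h1, fun n R hn x0 x1 hx => ?_⟩
  have hh : 1 ≤ 20 * n := by omega
  have k0 := h2 (20 * n) R hh 0 x0 0
  have k1 := h2 (20 * n) R hh 1 x0 0
  have hsub : ∀ (b b' : ℤ), (b + b') % 2 = 1 → ∀ X : TF, X ∈ LX b x0 x1 0 (20 * n) → ∀ i < R,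
      (fun t => !X t) ∉ BX b' (x0 + i * (20 * n : ℕ)) (x0 + (i + 1) * (20 * n : ℕ)) 0
        (0 + (20 * n : ℕ)) := by
    intro b b' hb X hX i hi hB
    have hn0 : (1 : ℤ) ≤ n := by exact_mod_cast hn
    have hi' : (i : ℤ) + 1 ≤ R := by exact_mod_cast hi
    have e1 : ((i : ℤ) + 1) * (20 * n) ≤ R * (20 * n) := by
      exact mul_le_mul_of_nonneg_right hi' (by omega)
    have e2 : (0 : ℤ) ≤ i * (20 * n) := by positivity
    have e3 : ((i : ℤ) + 1) * (20 * n) = i * (20 * n) + 20 * n := by ring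
    push_cast at hB
    rw [zero_add] at hB
    exact never_both hb (lx_sub hX (by omega) (by omega) (by omega)) hB
  have m1 : MeasurableSet {X : TF | ∀ i < R, X ∉ BX 1 (x0 + i * (20 * n : ℕ))
      (x0 + (i + 1) * (20 * n : ℕ)) 0 (0 + (20 * n : ℕ))} := by
    have : {X : TF | ∀ i < R, X ∉ BX 1 (x0 + i * (20 * n : ℕ))
        (x0 + (i + 1) * (20 * n : ℕ)) 0 (0 + (20 * n : ℕ))} =
        ⋂ i ∈ Finset.range R, (BX 1 (x0 + i * (20 * n : ℕ))
        (x0 + (i + 1) * (20 * n : ℕ)) 0 (0 + (20 * n : ℕ)))ᶜ := by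
      ext X
      simp only [Set.mem_ofPred_eq, Set.mem_iInter, Finset.mem_range, Set.mem_compl_iff]
    rw [this]
    exact Finset.measurableSet_biInter _ fun i _ => (bx_meas _ _ _ _ _).compl
  have a1 : (tau hf).real (LX 0 x0 x1 0 (20 * n)) ≤ q ^ R := by
    have e1 := tau_real_not hf m1
    rw [sigma_hf] at e1
    refine le_trans (measureReal_mono ?_ (measure_ne_top _ _)) (e1.le.trans k1)
    intro X hX i hi
    exact hsub 0 1 (by norm_num) X hX i hi
  have a2 : (tau hf).real {X : TF | (fun t => !X t) ∈ LX 1 x0 x1 0 (20 * n)} ≤ q ^ R := by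
    refine le_trans (measureReal_mono ?_ (measure_ne_top _ _)) k0
    intro X hX i hi hB
    refine hsub 1 0 (by norm_num) _ hX i hi ?_
    simpa using hB
  unfold Cr
  refine (measureReal_union_le _ _).trans ?_
  linarith

/-- **The analytic half of HP1** -/
theorem hp1_of (h : HP1in) : HP1out := by
  obtain ⟨CL, hCL, hin⟩ := h
  obtain ⟨C, hC, htwo⟩ := two_tile
  obtain ⟨c3, hc3, hj3⟩ := join3_tile
  obtain ⟨c2, hc2, hext⟩ := aw_ext 2 (by norm_num)
  obtain ⟨q, hq0, hq1, hCr⟩ := Cr_le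
  have hCL0 : 0 < CL := by linarith
  obtain ⟨R0, hR0⟩ := exists_pow_lt_of_lt_one
    (show (0 : ℝ) < c3 / 2 / (4 * CL / c2 ^ 3) by positivity) hq1
  set R := R0 + 1 with hR
  have hqR : 4 * CL / c2 ^ 3 * q ^ R ≤ c3 / 2 := by
    have e1 : q ^ R ≤ q ^ R0 := pow_le_pow_of_le_one hq0.le hq1.le (by omega)
    have e2 : 4 * CL / c2 ^ 3 * q ^ R0 ≤ c3 / 2 := by
      have := (lt_div_iff₀ (show (0 : ℝ) < 4 * CL / c2 ^ 3 by positivity)).1 hR0
      linarith
    exact (mul_le_mul_of_nonneg_left e1 (by positivity)).trans e2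
  set D : ℝ := 2 * CL * C / c3 with hD
  have hD0 : 0 < D := by positivity
  refine ⟨max 1 (D ^ (1 / 3 : ℝ)), by positivity, fun n hn => ?_⟩
  have hn0 : (0 : ℝ) < n := by exact_mod_cast hn
  by_cases hn2 : n < 2
  · have : n = 1 := by omega
    subst this
    simpa using (aw_le_one 1).trans (le_max_left 1 (D ^ (1 / 3 : ℝ)))
  rw [not_lt] at hn2
  obtain ⟨N, x0, x1, a, b, hx0, hx1, ha, hN, hint, hineq⟩ := hin R n (by omega) hn2
  have hNd : Cn109.DepF (bxF a b 0 (20 * n)) fun X : TF => (2 : ℝ) ^ N X := by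
    intro X X' hX
    show (2 : ℝ) ^ N X = (2 : ℝ) ^ N X'
    rw [hN X X' hX]
  have hRn : (0 : ℤ) ≤ R * (20 * n) := by positivity
  have e1 : ∫ X in E1 n, (2 : ℝ) ^ N X ∂(tau hf) ≤ C / n * CL := by
    have d : Disjoint (bxF (-1 - n) n 0 n) (bxF a b 0 (20 * n)) := bxF_disj (by omega)
    have e := setInt_indep (fun _ : P2 => hf) d (E1_dep n) hNd
    change ∫ X in E1 n, (2 : ℝ) ^ N X ∂(tau hf) = (tau hf).real (E1 n) * ∫ X, (2 : ℝ) ^ N X ∂(tau hf) at e
    rw [e]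
    refine mul_le_mul ?_ hint (integral_nonneg fun X => by positivity) (by positivity)
    have := htwo (-1) n hn
    rw [show (-1 : ℤ) + 1 = 0 by norm_num] at this
    exact this
  have hawr : aw (rr n) ≤ aw n / c2 := by
    rw [le_div_iff₀ hc2, mul_comm]
    exact (hext (rr n) (rr_pos hn)).trans (aw_anti (le_two_rr n))
  have e2 : ∫ X in E2 n ∩ Cr x0 x1 (20 * n), (2 : ℝ) ^ N X ∂(tau hf) ≤
      4 * CL / c2 ^ 3 * q ^ R * aw n ^ 3 := by
    have d1 : Disjoint (bxF (-1 - 3 * n) (4 * n) 0 n) (bxF x0 x1 0 (20 * n)) := bxF_disj (by omega)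
    have i1 := PB_indep_real (fun _ : P2 => hf) d1 (E2_dep hn) (Cr_dep x0 x1 (20 * n))
    change (tau hf).real _ = (tau hf).real _ * (tau hf).real _ at i1
    have d2 : Disjoint (bxF (-1 - 3 * n) x1 0 (20 * n)) (bxF a b 0 (20 * n)) := bxF_disj ha
    have hdep : Dep (bxF (-1 - 3 * n) x1 0 (20 * n)) (E2 n ∩ Cr x0 x1 (20 * n)) :=
      ((E2_dep hn).mono (bxF_sub le_rfl (by omega) le_rfl (by omega))).inter
        ((Cr_dep x0 x1 (20 * n)).mono (bxF_sub (by omega) le_rfl le_rfl le_rfl))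
    have e := setInt_indep (fun _ : P2 => hf) d2 hdep hNd
    change ∫ X in _, (2 : ℝ) ^ N X ∂(tau hf) = (tau hf).real _ * ∫ X, (2 : ℝ) ^ N X ∂(tau hf) at e
    rw [e, i1]
    have hE2 := E2_le hn2
    have hE2' : (tau hf).real (E2 n) ≤ 2 * (aw n / c2) ^ 3 := by
      refine hE2.trans ?_
      have := aw_nonneg (rr n)
      gcongr
    have hCr' := hCr n R hn x0 x1 hx1
    have hawn := aw_nonneg n
    calc (tau hf).real (E2 n) * (tau hf).real (Cr x0 x1 (20 * n)) * ∫ X, (2 : ℝ) ^ N X ∂(tau hf)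
        ≤ (2 * (aw n / c2) ^ 3) * (2 * q ^ R) * CL := by
          refine mul_le_mul (mul_le_mul hE2' hCr' measureReal_nonneg (by positivity)) hint
            (integral_nonneg fun X => by positivity) (by positivity)
      _ = 4 * CL / c2 ^ 3 * q ^ R * aw n ^ 3 := by
          field_simp
          ring
  have hj : c3 * aw n ^ 3 ≤ (tau hf).real (J3 n) := hj3 (-1) n hn
  have hawn := aw_nonneg n
  have hmain : c3 * aw n ^ 3 ≤ C / n * CL + c3 / 2 * aw n ^ 3 := by
    refine (hj.trans hineq).trans (add_le_add e1 (e2.trans ?_))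
    exact mul_le_mul_of_nonneg_right hqR (by positivity)
  have hcube : aw n ^ 3 ≤ D / n := by
    have h5 : c3 / 2 * aw n ^ 3 ≤ C / n * CL := by linarith
    have h6 : D / n = (C / n * CL) / (c3 / 2) := by
      rw [hD]; field_simp
    rw [h6, le_div_iff₀ (by positivity)]
    linarith
  have hroot : aw n ≤ (D / n) ^ (1 / 3 : ℝ) := by
    have h7 : aw n = (aw n ^ 3) ^ (1 / 3 : ℝ) := by
      rw [← Real.rpow_natCast, ← Real.rpow_mul hawn]
      norm_num
    rw [h7]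
    exact Real.rpow_le_rpow (by positivity) hcube (by norm_num)
  refine hroot.trans ?_
  rw [Real.div_rpow hD0.le hn0.le, Real.rpow_neg hn0.le, div_eq_mul_inv]
  exact mul_le_mul_of_nonneg_right (le_max_right _ _) (by positivity)

end Crest.Agent.R158.Hp854
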