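import Mathlib

/-!
R158, block HP1 (helper854), part 1: bookkeeping of the arrow reversal identity on a flat cylinder.

Floor ends of a cut cylinder of circumference `M` are lifted to `ℤ`; a pattern is a periodic partial
involution `σ : ℤ → Option ℤ` (`none` = the strand ends on the ceiling).  Charges: `+1` to the left of
`-2k`, a strand with middle phase at `0` (charges `-1`, `-1`), `+1` to the right of `2k-1`.
-/

set_option autoImplicit false
open Finset

namespace Crest.Agent.R158.Hp854

set_option linter.unusedVariables false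
set_option linter.unnecessarySeqFocus false

/-- relative weight of an arc of charge `k` (units `π/3`) over a flat piece -/
noncomputable def wq (k : ℤ) : ℝ :=
  Real.cos (((k : ℝ) - 1 / 2) * (Real.pi / 3)) / Real.cos (Real.pi / 6)

/-- relative weight of a floor-ceiling strand with floor phase `k` -/
noncomputable def fq (k : ℤ) : ℝ :=
  Real.cos (((k : ℝ) + 1 / 2) * (Real.pi / 3)) / Real.cos (Real.pi / 6)

theorem cos6_ne : Real.cos (Real.pi / 6) ≠ 0 := by
  rw [Real.cos_pi_div_six]; positivity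

theorem wq_zero : wq 0 = 1 := by
  have h : (((0 : ℤ) : ℝ) - 1 / 2) * (Real.pi / 3) = -(Real.pi / 6) := by push_cast; ring
  rw [wq, h, Real.cos_neg, div_self cos6_ne]

theorem wq_one : wq 1 = 1 := by
  have h : (((1 : ℤ) : ℝ) - 1 / 2) * (Real.pi / 3) = Real.pi / 6 := by push_cast; ring
  rw [wq, h, div_self cos6_ne]

theorem wq_two : wq 2 = 0 := by
  have h : (((2 : ℤ) : ℝ) - 1 / 2) * (Real.pi / 3) = Real.pi / 2 := by push_cast; ring
  rw [wq, h, Real.cos_pi_div_two, zero_div]

theorem wq_neg_one : wq (-1) = 0 := by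
  have h : (((-1 : ℤ) : ℝ) - 1 / 2) * (Real.pi / 3) = -(Real.pi / 2) := by push_cast; ring
  rw [wq, h, Real.cos_neg, Real.cos_pi_div_two, zero_div]

theorem wq_neg_two : wq (-2) = -1 := by
  have h : (((-2 : ℤ) : ℝ) - 1 / 2) * (Real.pi / 3) = Real.pi / 6 - Real.pi := by push_cast; ring
  rw [wq, h, Real.cos_sub_pi, neg_div, div_self cos6_ne]

theorem fq_zero : fq 0 = 1 := by
  have h : (((0 : ℤ) : ℝ) + 1 / 2) * (Real.pi / 3) = Real.pi / 6 := by push_cast; ring
  rw [fq, h, div_self cos6_ne]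

theorem fq_one : fq 1 = 0 := by
  have h : (((1 : ℤ) : ℝ) + 1 / 2) * (Real.pi / 3) = Real.pi / 2 := by push_cast; ring
  rw [fq, h, Real.cos_pi_div_two, zero_div]

theorem fq_neg_one : fq (-1) = 1 := by
  have h : (((-1 : ℤ) : ℝ) + 1 / 2) * (Real.pi / 3) = -(Real.pi / 6) := by push_cast; ring
  rw [fq, h, Real.cos_neg, div_self cos6_ne]

theorem wq_le {k : ℤ} (h1 : -2 ≤ k) (h2 : k ≤ 2) :
    wq k = 1 ∨ wq k = 0 ∨ (k = -2 ∧ wq k = -1) := by
  have : k = -2 ∨ k = -1 ∨ k = 0 ∨ k = 1 ∨ k = 2 := by omega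
  rcases this with h | h | h | h | h
  · subst h; exact Or.inr (Or.inr ⟨rfl, wq_neg_two⟩)
  · subst h; exact Or.inr (Or.inl wq_neg_one)
  · subst h; exact Or.inl wq_zero
  · subst h; exact Or.inl wq_one
  · subst h; exact Or.inr (Or.inl wq_two)

theorem fq_le {k : ℤ} (h1 : -1 ≤ k) (h2 : k ≤ 1) : fq k = 1 ∨ fq k = 0 := by
  have : k = -1 ∨ k = 0 ∨ k = 1 := by omega
  rcases this with h | h | h
  · subst h; exact Or.inl fq_neg_one
  · subst h; exact Or.inl fq_zero
  · subst h; exact Or.inr fq_one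

/-- lifted floor pattern of a cylinder of circumference `M` -/
structure Pat (M : ℕ) (σ : ℤ → Option ℤ) : Prop where
  per : ∀ i j : ℤ, σ i = some j → σ (i + M) = some (j + M)
  per' : ∀ i : ℤ, σ i = none → σ (i + M) = none
  inv : ∀ i j : ℤ, σ i = some j → σ j = some i
  ne : ∀ i j : ℤ, σ i = some j → j ≠ i
  near : ∀ i j : ℤ, σ i = some j → |j - i| < M

/-- floor phases (units `π/3`) -/
def bb (M k : ℕ) (i : ℤ) : ℤ :=
  let r := (i + 2 * k) % (M : ℤ)
  if r < 2 * k then 1 else if r = 2 * k then 0 else if r < 4 * k then -1 else 0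

theorem bb_le (M k : ℕ) (i : ℤ) : -1 ≤ bb M k i ∧ bb M k i ≤ 1 := by
  unfold bb
  dsimp only
  split_ifs <;> omega

theorem bb_per (M k : ℕ) (i : ℤ) : bb M k (i + M) = bb M k i := by
  unfold bb
  have : (i + (M : ℤ) + 2 * k) % (M : ℤ) = (i + 2 * k) % (M : ℤ) := by
    rw [show i + (M : ℤ) + 2 * k = i + 2 * k + M by ring, Int.add_emod_right]
  rw [this]

/-- weight of a pattern; `ε = 1`: the charges, `ε = -1`: the reversed charges -/
noncomputable def fac (M k : ℕ) (σ : ℤ → Option ℤ) (ε : ℤ) (i : ℤ) : ℝ :=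
  match σ i with
  | none => fq (bb M k i)
  | some j => if i < j then wq (ε * (bb M k j - bb M k i)) else 1

/-- total weight -/
noncomputable def wt (M k : ℕ) (σ : ℤ → Option ℤ) (L : ℕ) (ε : ℤ) : ℝ :=
  2 ^ L * ∏ i ∈ Finset.range M, fac M k σ ε i

theorem fac_cases (M k : ℕ) (σ : ℤ → Option ℤ) {ε : ℤ} (hε : ε = 1 ∨ ε = -1) (i : ℤ) :
    fac M k σ ε i = 1 ∨ fac M k σ ε i = 0 ∨
      (fac M k σ ε i = -1 ∧ ∃ j, σ i = some j ∧ i < j ∧ ε * (bb M k j - bb M k i) = -2) := by
  unfold fac
  have hi := bb_le M k i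
  rcases h : σ i with _ | j
  · dsimp only
    rcases fq_le hi.1 hi.2 with h | h
    · exact Or.inl h
    · exact Or.inr (Or.inl h)
  · dsimp only
    have hj := bb_le M k j
    by_cases hij : i < j
    · rw [if_pos hij]
      have hb1 : -2 ≤ ε * (bb M k j - bb M k i) := by
        rcases hε with h | h <;> subst h <;> omega
      have hb2 : ε * (bb M k j - bb M k i) ≤ 2 := by
        rcases hε with h | h <;> subst h <;> omega
      rcases wq_le hb1 hb2 with h | h | ⟨h1, h2⟩
      · exact Or.inl h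
      · exact Or.inr (Or.inl h)
      · exact Or.inr (Or.inr ⟨h2, j, rfl, hij, h1⟩)
    · rw [if_neg hij]; exact Or.inl rfl

theorem abs_fac_le (M k : ℕ) (σ : ℤ → Option ℤ) {ε : ℤ} (hε : ε = 1 ∨ ε = -1) (i : ℤ) :
    |fac M k σ ε i| ≤ 1 := by
  rcases fac_cases M k σ hε i with h | h | ⟨h, -⟩ <;> rw [h] <;> norm_num

theorem abs_wt_le (M k : ℕ) (σ : ℤ → Option ℤ) (L : ℕ) {ε : ℤ} (hε : ε = 1 ∨ ε = -1) :
    |wt M k σ L ε| ≤ 2 ^ L := by
  unfold wt
  rw [abs_mul, Finset.abs_prod, abs_of_pos (by positivity : (0 : ℝ) < 2 ^ L)]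
  have : ∏ i ∈ Finset.range M, |fac M k σ ε i| ≤ ∏ i ∈ Finset.range M, (1 : ℝ) :=
    Finset.prod_le_prod (fun i _ => abs_nonneg _) (fun i _ => abs_fac_le M k σ hε i)
  rw [Finset.prod_const_one] at this
  nlinarith [show (0 : ℝ) < 2 ^ L by positivity]

/-- values of the phases near the origin -/
theorem bb_neg {M k : ℕ} (hM : 4 * k ≤ M) {i : ℤ} (h1 : -(2 * k : ℤ) ≤ i) (h2 : i < 0) :
    bb M k i = 1 := by
  unfold bb
  have : (i + 2 * k) % (M : ℤ) = i + 2 * k := Int.emod_eq_of_lt (by omega) (by omega)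
  rw [this]; dsimp only; rw [if_pos (by omega)]

theorem bb_zero {M k : ℕ} (hk : 0 < k) (hM : 4 * k ≤ M) : bb M k 0 = 0 := by
  unfold bb
  have : ((0 : ℤ) + 2 * k) % (M : ℤ) = 2 * k := by
    rw [zero_add]; exact Int.emod_eq_of_lt (by omega) (by omega)
  rw [this]; dsimp only; rw [if_neg (by omega), if_pos rfl]

theorem bb_pos {M k : ℕ} (hM : 4 * k ≤ M) {i : ℤ} (h1 : 0 < i) (h2 : i < 2 * k) :
    bb M k i = -1 := by
  unfold bb
  have : (i + 2 * k) % (M : ℤ) = i + 2 * k := Int.emod_eq_of_lt (by omega) (by omega)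
  rw [this]; dsimp only; rw [if_neg (by omega), if_neg (by omega), if_pos (by omega)]

theorem bb_far {M k : ℕ} (hk : 0 < k) {i : ℤ} (h1 : 2 * k ≤ i) (h2 : i < M - 2 * k) :
    bb M k i = 0 := by
  unfold bb
  have : (i + 2 * k) % (M : ℤ) = i + 2 * k := Int.emod_eq_of_lt (by omega) (by omega)
  rw [this]; dsimp only; rw [if_neg (by omega), if_neg (by omega), if_neg (by omega)]

theorem bb_far' {M k : ℕ} (hk : 0 < k) {i : ℤ} (h1 : 2 * k - M ≤ i) (h2 : i < -(2 * k : ℤ)) :
    bb M k i = 0 := by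
  rw [← bb_per]
  exact bb_far hk (by omega) (by omega)

/-- LEFT: the strand of the end `0` must leave `[-2k, 2k-1]`. -/
theorem wt_left {M k : ℕ} (hk : 0 < k) (hM : 4 * k ≤ M) {σ : ℤ → Option ℤ} (hσ : Pat M σ) (L : ℕ)
    {j : ℤ} (h0 : σ 0 = some j) (h1 : -(2 * k : ℤ) ≤ j) (h2 : j < 2 * k) : wt M k σ L 1 = 0 := by
  unfold wt
  have hM0 : 0 < M := by omega
  rcases lt_trichotomy j 0 with hj | hj | hj
  · have h3 : σ (j + M) = some ((0 : ℤ) + M) := hσ.per _ _ (hσ.inv _ _ h0)
    have hm : (j + M).toNat ∈ Finset.range M := by rw [Finset.mem_range]; omega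
    have hc : (((j + M).toNat : ℕ) : ℤ) = j + M := Int.toNat_of_nonneg (by omega)
    rw [Finset.prod_eq_zero hm, mul_zero]
    rw [hc]; unfold fac; rw [h3]; dsimp only
    rw [if_pos (by omega), bb_per, bb_per, bb_zero hk hM, bb_neg hM h1 hj]
    exact wq_neg_one
  · exact absurd hj (hσ.ne _ _ h0)
  · have hm : 0 ∈ Finset.range M := by rw [Finset.mem_range]; omega
    rw [Finset.prod_eq_zero hm, mul_zero]
    rw [Nat.cast_zero]; unfold fac; rw [h0]; dsimp only
    rw [if_pos hj, bb_zero hk hM, bb_pos hM hj h2]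
    exact wq_neg_one

/-- a single factor at an arbitrary lift -/
theorem fac_zero_of {M k : ℕ} {σ : ℤ → Option ℤ} (hσ : Pat M σ) (hM0 : 0 < M) {ε : ℤ} {i j : ℤ}
    (h : σ i = some j) (hij : i < j) (hw : wq (ε * (bb M k j - bb M k i)) = 0) (L : ℕ) :
    wt M k σ L ε = 0 := by
  have hperN : ∀ n : ℕ, ∀ i j : ℤ, σ i = some j → σ (i + n * M) = some (j + n * M) := by
    intro n
    induction n with
    | zero => intro i j h; simpa using h
    | succ n ih =>
      intro i j h
      have := hσ.per _ _ (ih _ _ h)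
      rw [show i + ((n + 1 : ℕ) : ℤ) * M = i + n * M + M by push_cast; ring,
        show j + ((n + 1 : ℕ) : ℤ) * M = j + n * M + M by push_cast; ring]
      exact this
  have hbN : ∀ n : ℕ, ∀ i : ℤ, bb M k (i + n * M) = bb M k i := by
    intro n
    induction n with
    | zero => intro i; simp
    | succ n ih =>
      intro i
      rw [show i + ((n + 1 : ℕ) : ℤ) * M = i + n * M + M by push_cast; ring, bb_per, ih]
  have hnegN : ∀ n : ℕ, ∀ i j : ℤ, σ i = some j → σ (i - n * M) = some (j - n * M) := by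
    intro n i j h
    -- use the periodicity backwards through the involution and the values
    rcases hv : σ (i - n * M) with _ | j'
    · exfalso
      have : ∀ m : ℕ, σ (i - n * M + m * M) = none := by
        intro m
        induction m with
        | zero => simpa using hv
        | succ m ih =>
          rw [show i - n * M + ((m + 1 : ℕ) : ℤ) * M = i - n * M + m * M + M by push_cast; ring]
          exact hσ.per' _ ih
      have h2 := this n
      rw [show i - n * M + n * M = i by ring, h] at h2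
      exact absurd h2 (by simp)
    · have h2 := hperN n _ _ hv
      rw [show i - n * M + n * M = i by ring, h] at h2
      have h3 : j = j' + n * M := Option.some.inj h2
      rw [h3]; congr 1; ring
  have hbnegN : ∀ n : ℕ, ∀ i : ℤ, bb M k (i - n * M) = bb M k i := by
    intro n i
    have := hbN n (i - n * M)
    rw [show i - n * M + n * M = i by ring] at this
    exact this.symm
  -- general shift
  have key : ∃ c : ℤ, 0 ≤ i - c * M ∧ i - c * M < M ∧ σ (i - c * M) = some (j - c * M) ∧
      bb M k (i - c * M) = bb M k i ∧ bb M k (j - c * M) = bb M k j := by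
    refine ⟨i / M, ?_, ?_, ?_, ?_, ?_⟩
    · have := Int.emod_nonneg i (show (M : ℤ) ≠ 0 by omega)
      have h2 := Int.emod_add_mul_ediv i M
      nlinarith [mul_comm (M : ℤ) (i / M)]
    · have := Int.emod_lt_of_pos i (show (0 : ℤ) < M by omega)
      have h2 := Int.emod_add_mul_ediv i M
      nlinarith [mul_comm (M : ℤ) (i / M)]
    all_goals
      rcases le_total 0 (i / (M : ℤ)) with hc | hc
      · obtain ⟨n, hn⟩ := Int.eq_ofNat_of_zero_le hc
        rw [hn]
        first
          | exact hnegN n _ _ h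
          | exact hbnegN n _
      · obtain ⟨n, hn⟩ := Int.eq_ofNat_of_zero_le (neg_nonneg.mpr hc)
        have hn' : i / (M : ℤ) = -(n : ℤ) := by omega
        rw [hn']
        first
          | (rw [show i - -(n : ℤ) * M = i + n * M by ring, show j - -(n : ℤ) * M = j + n * M by ring]
             exact hperN n _ _ h)
          | (rw [show i - -(n : ℤ) * M = i + n * M by ring]; exact hbN n _)
          | (rw [show j - -(n : ℤ) * M = j + n * M by ring]; exact hbN n _)
  obtain ⟨c, hc0, hc1, hc2, hc3, hc4⟩ := key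
  have hm : (i - c * M).toNat ∈ Finset.range M := by rw [Finset.mem_range]; omega
  have hcc : (((i - c * M).toNat : ℕ) : ℤ) = i - c * M := Int.toNat_of_nonneg hc0
  unfold wt
  rw [Finset.prod_eq_zero hm, mul_zero]
  rw [hcc]; unfold fac; rw [hc2]; dsimp only
  rw [if_pos (by omega), hc3, hc4]
  exact hw

/-- the three local exclusions implied by a nonzero reversed weight -/
def NoLoc (k : ℕ) (σ : ℤ → Option ℤ) : Prop :=
  (∀ i j : ℤ, σ i = some j → -(4 * k : ℤ) ≤ i → i < -(2 * k : ℤ) → -(2 * k : ℤ) ≤ j → j < 0 → False) ∧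
  (∀ i j : ℤ, σ i = some j → 0 < i → i < 2 * k → 2 * k ≤ j → j < 4 * k → False) ∧
  (∀ i j : ℤ, σ i = some j → -(2 * k : ℤ) ≤ i → i < 0 → 0 < j → j < 2 * k → False)

/-- an arc that goes around the cylinder, from the right piece to the left piece -/
def World (M k : ℕ) (σ : ℤ → Option ℤ) : Prop :=
  ∃ i j : ℤ, σ i = some j ∧ 0 < i ∧ i < 2 * k ∧ (M : ℤ) - 2 * k ≤ j ∧ j < M

theorem noLoc_of {M k : ℕ} (hk : 0 < k) (hM : 8 * k ≤ M) {σ : ℤ → Option ℤ} (hσ : Pat M σ) {L : ℕ}
    (h : wt M k σ L (-1) ≠ 0) : NoLoc k σ := by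
  have hM0 : 0 < M := by omega
  refine ⟨?_, ?_, ?_⟩
  · intro i j hij h1 h2 h3 h4
    apply h
    apply fac_zero_of hσ hM0 hij (by omega)
    rw [bb_neg (by omega) h3 h4, bb_far' hk (by omega) h2]
    exact wq_neg_one
  · intro i j hij h1 h2 h3 h4
    apply h
    apply fac_zero_of hσ hM0 hij (by omega)
    rw [bb_pos (by omega) h1 h2, bb_far hk h3 (by omega)]
    exact wq_neg_one
  · intro i j hij h1 h2 h3 h4
    apply h
    apply fac_zero_of hσ hM0 hij (by omega)
    rw [bb_neg (by omega) h1 h2, bb_pos (by omega) h3 h4]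
    exact wq_two

theorem bb_eq_one {M k : ℕ} (hM : 0 < M) {i : ℤ} (h : bb M k i = 1) (h0 : 0 ≤ i) (h1 : i < M)
    (hkM : 4 * k ≤ M) : (M : ℤ) - 2 * k ≤ i := by
  by_contra hc
  push Not at hc
  unfold bb at h
  have : (i + 2 * k) % (M : ℤ) = i + 2 * k := Int.emod_eq_of_lt (by omega) (by omega)
  rw [this] at h
  dsimp only at h
  split_ifs at h <;> omega

theorem bb_eq_neg_one {M k : ℕ} {i : ℤ} (h : bb M k i = -1) (h0 : 0 ≤ i) (h1 : i < M)
    (hkM : 4 * k ≤ M) : 0 < i ∧ i < 2 * k := by
  unfold bb at h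
  by_cases hc : i + 2 * k < M
  · have : (i + 2 * k) % (M : ℤ) = i + 2 * k := Int.emod_eq_of_lt (by omega) (by omega)
    rw [this] at h
    dsimp only at h
    split_ifs at h <;> omega
  · have : (i + 2 * k) % (M : ℤ) = i + 2 * k - M := by
      rw [← Int.sub_emod_right]; exact Int.emod_eq_of_lt (by omega) (by omega)
    rw [this] at h
    dsimp only at h
    split_ifs at h <;> omega

/-- RIGHT: negative weights only with an arc around the cylinder and no local arc. -/
theorem wt_right_neg {M k : ℕ} (hk : 0 < k) (hM : 8 * k ≤ M) {σ : ℤ → Option ℤ} (hσ : Pat M σ)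
    {L : ℕ} (h : wt M k σ L (-1) < 0) : NoLoc k σ ∧ World M k σ := by
  refine ⟨noLoc_of hk hM hσ h.ne, ?_⟩
  unfold wt at h
  have hp : ∏ i ∈ Finset.range M, fac M k σ (-1) i < 0 := by
    by_contra hc; push Not at hc
    exact absurd h (not_lt.mpr (mul_nonneg (by positivity) hc))
  have hex : ∃ i ∈ Finset.range M, fac M k σ (-1) (i : ℤ) < 0 := by
    by_contra hc
    push Not at hc
    exact absurd hp (not_lt.mpr (Finset.prod_nonneg (fun i hi => hc i hi)))
  obtain ⟨i, hi, hlt⟩ := hex
  rw [Finset.mem_range] at hi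
  rcases fac_cases M k σ (Or.inr rfl : (-1 : ℤ) = 1 ∨ (-1 : ℤ) = -1) i with h1 | h1 | ⟨-, j, hj, hij, hb⟩
  · rw [h1] at hlt; norm_num at hlt
  · rw [h1] at hlt; norm_num at hlt
  · have hbi := bb_le M k i
    have hbj := bb_le M k j
    have e1 : bb M k i = -1 := by omega
    have e2 : bb M k j = 1 := by omega
    obtain ⟨a1, a2⟩ := bb_eq_neg_one e1 (by omega) (by omega) (by omega)
    have hn := hσ.near _ _ hj
    rw [abs_of_pos (by omega)] at hn
    by_cases hjM : j < M
    · exact ⟨i, j, hj, a1, a2, bb_eq_one (by omega) e2 (by omega) hjM (by omega), hjM⟩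
    · exfalso
      -- `j - M` lies in `[0, i)`, where the phase is not `1`
      have e3 : bb M k (j - M) = 1 := by
        rw [← bb_per]; rw [show j - (M : ℤ) + M = j by ring]; exact e2
      have := bb_eq_one (by omega) e3 (by omega) (by omega) (by omega)
      omega

/-- the good local event: both pieces are matched inside themselves -/
def GoodLoc (k : ℕ) (σ : ℤ → Option ℤ) : Prop :=
  (∀ i : ℤ, -(2 * k : ℤ) ≤ i → i < 0 → ∃ j, σ i = some j ∧ -(2 * k : ℤ) ≤ j ∧ j < 0) ∧
  (∀ i : ℤ, 0 ≤ i → i < 2 * k → ∃ j, σ i = some j ∧ 0 ≤ j ∧ j < 2 * k)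

theorem wt_right_good {M k : ℕ} (hk : 0 < k) (hM : 8 * k ≤ M) {σ : ℤ → Option ℤ} (hσ : Pat M σ)
    (L : ℕ) (h : GoodLoc k σ) : wt M k σ L (-1) = 2 ^ L := by
  obtain ⟨hl, hr⟩ := h
  unfold wt
  have : ∏ i ∈ Finset.range M, fac M k σ (-1) (i : ℤ) = 1 := by
    apply Finset.prod_eq_one
    intro i hi
    rw [Finset.mem_range] at hi
    by_cases h1 : (i : ℤ) < 2 * k
    · obtain ⟨j, hj, hj0, hj1⟩ := hr i (by omega) h1
      unfold fac; rw [hj]; dsimp only
      by_cases hij : (i : ℤ) < j
      · rw [if_pos hij, bb_pos (by omega) (by omega) hj1]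
        rcases Nat.eq_zero_or_pos i with h0 | h0
        · subst h0; rw [Nat.cast_zero, bb_zero hk (by omega)]; exact wq_one
        · rw [bb_pos (by omega) (by omega) h1]; exact wq_zero
      · rw [if_neg hij]
    · by_cases h2 : (M : ℤ) - 2 * k ≤ i
      · obtain ⟨j, hj, hj0, hj1⟩ := hl (i - M) (by omega) (by omega)
        have hj' : σ (i : ℤ) = some (j + M) := by
          have := hσ.per _ _ hj
          rwa [show (i : ℤ) - M + M = i by ring] at this
        unfold fac; rw [hj']; dsimp only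
        by_cases hij : (i : ℤ) < j + M
        · rw [if_pos hij, bb_per, bb_neg (by omega) hj0 hj1]
          have : bb M k (i : ℤ) = 1 := by
            rw [show (i : ℤ) = i - M + M by ring, bb_per]
            exact bb_neg (by omega) (by omega) (by omega)
          rw [this]; exact wq_zero
        · rw [if_neg hij]
      · push Not at h1 h2
        have hbi : bb M k (i : ℤ) = 0 := bb_far hk h1 (by omega)
        unfold fac
        rcases hs : σ (i : ℤ) with _ | j
        · dsimp only; rw [hbi]; exact fq_zero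
        · dsimp only
          by_cases hij : (i : ℤ) < j
          · rw [if_pos hij]
            have hn := hσ.near _ _ hs
            rw [abs_of_pos (by omega)] at hn
            have hinv := hσ.inv _ _ hs
            have hbj : bb M k j = 0 := by
              by_cases c1 : j < (M : ℤ) - 2 * k
              · exact bb_far hk (by omega) c1
              · by_cases c2 : j < M
                · exfalso
                  obtain ⟨j', hj', b1, b2⟩ := hl (j - M) (by omega) (by omega)
                  have := hσ.per _ _ hj'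
                  rw [show j - (M : ℤ) + M = j by ring, hinv] at this
                  have := Option.some.inj this
                  omega
                · by_cases c3 : j < M + 2 * k
                  · exfalso
                    obtain ⟨j', hj', b1, b2⟩ := hr (j - M) (by omega) (by omega)
                    have := hσ.per _ _ hj'
                    rw [show j - (M : ℤ) + M = j by ring, hinv] at this
                    have := Option.some.inj this
                    omega
                  · rw [show j = j - M + M by ring, bb_per]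
                    exact bb_far hk (by omega) (by omega)
            rw [hbi, hbj]; exact wq_zero
          · rw [if_neg hij]
  rw [this, mul_one]

/-- the strand of the end `0` leaves `[-2k, 2k-1]` -/
def Leave (k : ℕ) (σ : ℤ → Option ℤ) : Prop :=
  ∀ j : ℤ, σ 0 = some j → -(2 * k : ℤ) ≤ j → j < 2 * k → False

open Classical in
/-- **arrow reversal inequality**: good local patterns are controlled by the boundary two-arm event
of the end `0` and by three one-arm events together with an arc around the cylinder. -/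
theorem ari_ineq {M k : ℕ} (hk : 0 < k) (hM : 8 * k ≤ M) {Ω : Type*} (S : Finset Ω) (P : Ω → ℝ)
    (hP : ∀ ω ∈ S, 0 ≤ P ω) (σ : Ω → ℤ → Option ℤ) (hσ : ∀ ω ∈ S, Pat M (σ ω)) (L : Ω → ℕ)
    (hARI : ∑ ω ∈ S, P ω * wt M k (σ ω) (L ω) 1 = ∑ ω ∈ S, P ω * wt M k (σ ω) (L ω) (-1)) :
    ∑ ω ∈ S with GoodLoc k (σ ω), P ω * 2 ^ (L ω) ≤
      ∑ ω ∈ S with Leave k (σ ω), P ω * 2 ^ (L ω) +
      ∑ ω ∈ S with (NoLoc k (σ ω) ∧ World M k (σ ω)), P ω * 2 ^ (L ω) := by
  have h1 : ∑ ω ∈ S, P ω * wt M k (σ ω) (L ω) 1 ≤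
      ∑ ω ∈ S with Leave k (σ ω), P ω * 2 ^ (L ω) := by
    rw [Finset.sum_filter]
    apply Finset.sum_le_sum
    intro ω hω
    by_cases hl : Leave k (σ ω)
    · rw [if_pos hl]
      exact mul_le_mul_of_nonneg_left ((le_abs_self _).trans (abs_wt_le M k _ _ (Or.inl rfl)))
        (hP ω hω)
    · rw [if_neg hl]
      unfold Leave at hl
      push Not at hl
      obtain ⟨j, a1, a2, a3⟩ := hl
      rw [wt_left hk (by omega) (hσ ω hω) _ a1 a2 a3.1, mul_zero]
  have h2 : ∑ ω ∈ S with GoodLoc k (σ ω), P ω * 2 ^ (L ω) ≤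
      ∑ ω ∈ S, P ω * wt M k (σ ω) (L ω) (-1) +
      ∑ ω ∈ S with (NoLoc k (σ ω) ∧ World M k (σ ω)), P ω * 2 ^ (L ω) := by
    rw [Finset.sum_filter, Finset.sum_filter, ← Finset.sum_add_distrib]
    apply Finset.sum_le_sum
    intro ω hω
    have hPω := hP ω hω
    have h2L : (0 : ℝ) < 2 ^ (L ω) := by positivity
    by_cases hg : GoodLoc k (σ ω)
    · rw [if_pos hg, wt_right_good hk hM (hσ ω hω) _ hg]
      have : 0 ≤ (if NoLoc k (σ ω) ∧ World M k (σ ω) then P ω * (2 : ℝ) ^ L ω else 0) := by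
        split_ifs
        · positivity
        · exact le_rfl
      linarith
    · rw [if_neg hg]
      by_cases hn : wt M k (σ ω) (L ω) (-1) < 0
      · rw [if_pos (wt_right_neg hk hM (hσ ω hω) hn)]
        have := abs_wt_le M k (σ ω) (L ω) (Or.inr rfl : (-1 : ℤ) = 1 ∨ (-1 : ℤ) = -1)
        have := (abs_le.mp this).1
        nlinarith
      · push Not at hn
        have : 0 ≤ (if NoLoc k (σ ω) ∧ World M k (σ ω) then P ω * (2 : ℝ) ^ L ω else 0) := by
          split_ifs
          · positivity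
          · exact le_rfl
        have := mul_nonneg hPω hn
        linarith
  linarith

end Crest.Agent.R158.Hp854
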