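import Mathlib
import Crest.Agent.R158.Ts9_405

/-!
# R158, block HP1 (helper854), part 2: the six-vertex sum on a cut cylinder by reflection

* `sum_cls_cos` : sum over the functions constant on the classes of an equivalence relation
* `rv c`, `re c` : reflection `y ↦ c - y` of vertices and edges (`c` odd)
* `Ct M L H` : tiles of the cylinder (rows `1..H`, `L = 2 H`), `Xt x` symmetric extension to the torus
* `Zc c` : six-vertex sum over reflection invariant flips, `Zc_neg`
* `Zc_eq` : `Zc c = ∑ x, ∏ classes, 2 cos (∑ e in class, (π/24 * turn e + c e))`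
-/

set_option autoImplicit false
set_option linter.unusedSectionVars false
set_option linter.unusedSimpArgs false

namespace Crest.Agent.R158.Hp854

open Finset Complex
open Crest.Agent.R158.Bk430

section Cls

variable {E : Type*} [Fintype E] [DecidableEq E]

open Classical in
theorem sum_cls (r : Setoid E) (F : (E → Bool) → ℂ) :
    ∑ f : E → Bool, (if ∀ a b, r a b → f a = f b then F f else 0) =
      ∑ g : Quotient r → Bool, F (fun e => g (Quotient.mk r e)) := by
  rw [← Finset.sum_filter]
  symm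
  refine Finset.sum_nbij' (i := fun g => fun e => g (Quotient.mk r e))
    (j := fun f => fun q => f q.out) ?_ ?_ ?_ ?_ ?_
  · intro g _
    rw [mem_filter]
    refine ⟨mem_univ _, fun a b hab => ?_⟩
    have : (Quotient.mk r a) = Quotient.mk r b := Quotient.sound hab
    simp only [this]
  · intro f _; exact mem_univ _
  · intro g _
    funext q
    simp only [Quotient.out_eq]
  · intro f hf
    rw [mem_filter] at hf
    funext e
    exact hf.2 _ _ (Quotient.exact (Quotient.out_eq (Quotient.mk r e)))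
  · intro g _; rfl

open Classical in
theorem sum_cls_cos (r : Setoid E) (a : E → ℝ) :
    ∑ f : E → Bool, (if ∀ a b, r a b → f a = f b then
      Complex.exp (I * ((∑ e, a e * (sgb (f e) : ℤ) : ℝ) : ℂ)) else 0) =
      ((∏ c : Quotient r, 2 * Real.cos (∑ e with Quotient.mk r e = c, a e) : ℝ) : ℂ) := by
  rw [sum_cls r (fun f => Complex.exp (I * ((∑ e, a e * (sgb (f e) : ℤ) : ℝ) : ℂ)))]
  have h1 : ∀ g : Quotient r → Bool, Complex.exp (I * ((∑ e, a e * (sgb (g (Quotient.mk r e)) : ℤ) : ℝ) : ℂ))
      = ∏ c : Quotient r, Complex.exp (I * ((∑ e with Quotient.mk r e = c, a e : ℝ) * (sgb (g c) : ℤ))) := by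
    intro g
    rw [← Complex.exp_sum, ← Finset.mul_sum]
    congr 2
    rw [← Finset.sum_fiberwise (s := univ) (g := fun e => Quotient.mk r e)]
    push_cast
    refine Finset.sum_congr rfl fun c _ => ?_
    rw [Finset.sum_mul]
    refine Finset.sum_congr rfl fun e he => ?_
    rw [mem_filter] at he
    rw [he.2]
  simp_rw [h1]
  have h4 := Finset.prod_univ_sum (fun _ : Quotient r => (univ : Finset Bool))
    (fun c b => Complex.exp (I * ((∑ e with Quotient.mk r e = c, a e : ℝ) * (sgb b : ℤ))))
  rw [Fintype.piFinset_univ] at h4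
  rw [← h4, Complex.ofReal_prod]
  exact Finset.prod_congr rfl fun l _ => exp_sgb_sum _

end Cls

/-! ### reflection -/

section Refl

variable {A B : Type*} [CommRing A] [CommRing B] [HasPar A] [HasPar B]

/-- reflection of the vertices -/
def rv (c : B) (v : A × B) : A × B := (v.1, c - v.2)

/-- reflection of the edges -/
def re (c : B) (e : ME A B) : ME A B :=
  if e.2 then ((e.1.1, c - 1 - e.1.2), true) else ((e.1.1, c - e.1.2), false)

/-- `c` is odd -/
def OddC (c : B) : Prop := ∀ y : B, par (c - y) = !par y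

omit [HasPar A] [HasPar B] in
@[simp] theorem rv_rv (c : B) (v : A × B) : rv c (rv c v) = v := by
  simp [rv]

omit [HasPar A] [HasPar B] in
@[simp] theorem re_re (c : B) (e : ME A B) : re c (re c e) = e := by
  obtain ⟨⟨a, b⟩, d⟩ := e
  cases d <;> simp [re]

theorem vp_rv {c : B} (hc : OddC c) (v : A × B) : vp (rv c v) = !vp v := by
  simp [vp, rv, hc v.2]

theorem rv_ne {c : B} (hc : OddC c) (v : A × B) : rv c v ≠ v := by
  intro h
  have h1 := vp_rv hc v
  rw [h] at h1
  cases hv : vp v <;> rw [hv] at h1 <;> simp at h1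

theorem par_c1 {c : B} (hc : OddC c) (y : B) : par (c - 1 - y) = par y := by
  have h := hc (y + 1)
  rw [par_add_one, Bool.not_not] at h
  rw [← h]; congr 1; ring

theorem hd_re {c : B} (hc : OddC c) (e : ME A B) : hd (re c e) = rv c (tl e) := by
  obtain ⟨⟨a, b⟩, d⟩ := e
  cases d
  · have h := vp_rv hc (a, b)
    simp only [rv] at h
    cases hv : vp (a, b) <;> rw [hv] at h <;> simp [hd, tl, re, rv, hv, h]
  · have h : vp (a, c - 1 - b) = vp (a, b) := by
      simp only [vp]; rw [par_c1 hc]
    cases hv : vp (a, b) <;> rw [hv] at h <;> simp [hd, tl, re, rv, hv, h] <;> ring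

theorem tl_re {c : B} (hc : OddC c) (e : ME A B) : tl (re c e) = rv c (hd e) := by
  have h := hd_re hc (re c e)
  rw [re_re] at h
  rw [h, rv_rv]

theorem nx_re {c : B} (hc : OddC c) {s : A × B → Bool} (hs : ∀ v, s (rv c v) = !s v) (e : ME A B) :
    nx s (re c (nx s e)) = re c e := by
  obtain ⟨⟨a, b⟩, d⟩ := e
  have h0 := vp_rv hc (a, b)
  have h1 := vp_rv hc (a + 1, b)
  have h2 := vp_rv hc (a, b + 1)
  have g0 := hs (a, b)
  have g1 := hs (a + 1, b)
  have g2 := hs (a, b + 1)
  simp only [rv, vp_add_fst, vp_add_snd] at h0 h1 h2 g0 g1 g2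
  have i1 : ∀ x : A, vp (x, c - 1 - b) = vp (x, b) := fun x => by
    simp only [vp]; rw [par_c1 hc]
  have i2 : ∀ x : A, vp (x, c - (b + 1)) = vp (x, b) := fun x => by
    have := vp_rv hc (x, b + 1)
    simp only [rv, vp_add_snd, Bool.not_not] at this
    exact this
  have i3 : ∀ x : A, vp (x, c - b) = !vp (x, b) := fun x => by
    have := vp_rv hc (x, b)
    simp only [rv] at this
    exact this
  have i4 : ∀ x : A, vp (x, c - 1 - (b + 1)) = !vp (x, b) := fun x => by
    rw [show c - 1 - (b + 1) = c - 1 - b - 1 by ring, vp_sub_snd, i1]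
  have e1 : c - 1 - b + 1 = c - b := by ring
  have e2 : c - (b + 1) = c - 1 - b := by ring
  have e3 : c - 1 - (b - 1) = c - b := by ring
  have e4 : c - 1 - (b + 1) + 1 = c - 1 - b := by ring
  have e5 : c - b - 1 = c - 1 - b := by ring
  rw [e2] at g2
  cases d <;> cases hv : vp (a, b) <;> simp only [nx, hd, hv] <;>
    simp only [Bool.false_eq_true, if_false, if_true, Bool.not_false, Bool.not_true]
  all_goals
    cases hs0 : s (a, b) <;> cases hs1 : s (a + 1, b) <;> cases hs2 : s (a, b + 1) <;>
      simp only [hs0, hs1, hs2, Bool.not_false, Bool.not_true] at g0 g1 g2 <;>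
      simp_all [re, nx, hd]

theorem turn_re {c : B} (hc : OddC c) {s : A × B → Bool} (hs : ∀ v, s (rv c v) = !s v) (e : ME A B) :
    turn s (re c (nx s e)) = turn s e := by
  unfold turn kap
  rw [hd_re hc, tl_nx, hs, vp_rv hc]
  cases s (hd e) <;> cases vp (hd e) <;> rfl

theorem iter_re {c : B} (hc : OddC c) {s : A × B → Bool} (hs : ∀ v, s (rv c v) = !s v) (e : ME A B)
    (k : ℕ) : (nx s)^[k] (re c ((nx s)^[k] e)) = re c e := by
  induction k generalizing e with
  | zero => rfl
  | succ k ih =>
    rw [Function.iterate_succ_apply' (n := k) (f := nx s) (x := e)]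
    rw [Function.iterate_succ_apply, nx_re hc hs, ih]

end Refl

theorem oddC_int (a : ℤ) : OddC (2 * a + 1 : ℤ) := by
  intro y
  show decide _ = !decide _
  by_cases h : y % 2 = 1
  · have : ¬ ((2 * a + 1 - y) % 2 = 1) := by omega
    simp [h, this]
  · have : ((2 * a + 1 - y) % 2 = 1) := by omega
    simp [h, this]

/-! ### the cylinder -/

section Cyl

variable (M L H : ℕ) [NeZero M] [NeZero L] [Fact (Even M)] [Fact (Even L)]

theorem oddC_zmod : OddC (1 : ZMod L) := by
  intro y
  have h1 : y = ((y.val : ℤ) : ZMod L) := by simp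
  rw [h1]
  have h2 : (1 : ZMod L) - ((y.val : ℤ) : ZMod L) = ((1 - (y.val : ℤ) : ℤ) : ZMod L) := by push_cast; ring
  rw [h2, par_intCast, par_intCast]
  have := oddC_int 0 (y.val : ℤ)
  simpa using this

/-- tiles of the cylinder -/
def InC (v : ZMod M × ZMod L) : Prop := 1 ≤ v.2.val ∧ v.2.val ≤ H

instance : DecidablePred (InC M L H) := fun v => by unfold InC; infer_instance

/-- the tiles of the cylinder as a type -/
abbrev Ct : Type := {v : ZMod M × ZMod L // InC M L H v}

variable {M L H}

omit [NeZero M] [Fact (Even M)] [Fact (Even L)] in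
theorem inC_rv (hL : L = 2 * H) (v : ZMod M × ZMod L) : InC M L H (rv 1 v) ↔ ¬ InC M L H v := by
  obtain ⟨a, y⟩ := v
  unfold InC rv
  simp only
  have hpos : 0 < L := Nat.pos_of_ne_zero (NeZero.ne L)
  have hy := y.val_lt
  have h1 : y = ((y.val : ℕ) : ZMod L) := by simp
  have h2 : ((1 : ZMod L) - y).val = (L + 1 - y.val) % L := by
    have h3 : (1 : ZMod L) - y = ((L + 1 - y.val : ℕ) : ZMod L) := by
      rw [Nat.cast_sub (by omega)]
      push_cast
      simp
    rw [h3, ZMod.val_natCast]
  rw [h2]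
  rcases Nat.lt_or_ge (y.val) 2 with h | h
  · have : y.val = 0 ∨ y.val = 1 := by omega
    rcases this with h | h
    · rw [h]
      have : (L + 1 - 0) % L = 1 := by
        rw [show L + 1 - 0 = 1 + L by omega, Nat.add_mod_right, Nat.mod_eq_of_lt (by omega)]
      rw [this]; omega
    · rw [h]
      have : (L + 1 - 1) % L = 0 := by simp
      rw [this]; omega
  · rw [Nat.mod_eq_of_lt (by omega)]
    omega

/-- symmetric extension of a field on the cylinder -/
def Xt (hL : L = 2 * H) (x : Ct M L H → Bool) (v : ZMod M × ZMod L) : Bool :=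
  if h : InC M L H v then x ⟨v, h⟩ else x ⟨rv 1 v, (inC_rv hL v).2 h⟩

omit [NeZero M] [Fact (Even M)] [Fact (Even L)] in
theorem Xt_rv (hL : L = 2 * H) (x : Ct M L H → Bool) (v : ZMod M × ZMod L) :
    Xt hL x (rv 1 v) = Xt hL x v := by
  unfold Xt
  by_cases h : InC M L H v
  · have h2 : ¬ InC M L H (rv 1 v) := fun h3 => (inC_rv hL v).1 h3 h
    rw [dif_pos h, dif_neg h2]
    congr 1
    exact Subtype.ext (rv_rv 1 v)
  · rw [dif_neg h, dif_pos ((inC_rv hL v).2 h)]

/-- splitting of a field: `true` = the even faces are joined -/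
def spx {A B : Type*} [AddGroupWithOne A] [AddGroupWithOne B] [HasPar A] [HasPar B]
    (X : A × B → Bool) (v : A × B) : Bool := xor (!X v) (vp v)

theorem kap_spx {A B : Type*} [AddGroupWithOne A] [AddGroupWithOne B] [HasPar A] [HasPar B]
    (X : A × B → Bool) (v : A × B) : kap (spx X) v = if X v then 1 else -1 := by
  unfold kap spx
  cases X v <;> cases vp v <;> rfl

theorem spx_rv {A B : Type*} [CommRing A] [CommRing B] [HasPar A] [HasPar B] {c : B} (hc : OddC c)
    {X : A × B → Bool} (hX : ∀ v, X (rv c v) = X v) (v : A × B) : spx X (rv c v) = !spx X v := by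
  unfold spx
  rw [hX, vp_rv hc]
  cases X v <;> cases vp v <;> rfl

omit [Fact (Even M)] [Fact (Even L)] in
theorem prod_cyl {R : Type*} [CommMonoid R] (hL : L = 2 * H) (g : ZMod M × ZMod L → R) :
    ∏ v, g v = ∏ v : Ct M L H, g v.1 * g (rv 1 v.1) := by
  rw [Finset.prod_mul_distrib, ← Fintype.prod_subtype_mul_prod_subtype (InC M L H) g]
  congr 1
  refine Fintype.prod_equiv
    (⟨fun v => ⟨rv 1 v.1, (inC_rv hL v.1).2 v.2⟩, fun v => ⟨rv 1 v.1, fun h => (inC_rv hL v.1).1 h v.2⟩,
      fun v => Subtype.ext (rv_rv 1 v.1), fun v => Subtype.ext (rv_rv 1 v.1)⟩ :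
      {v : ZMod M × ZMod L // ¬ InC M L H v} ≃ Ct M L H) _ _ fun v => ?_
  simp

end Cyl

end Crest.Agent.R158.Hp854
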