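import Mathlib
import Crest.Agent.R158.Hp2_854

/-!
# R158, block HP1 (helper854), part 3: the six-vertex sum on a cut cylinder = sum over fields of a
product over the classes of strands
-/

set_option autoImplicit false
set_option linter.unusedSectionVars false
set_option linter.unusedSimpArgs false

namespace Crest.Agent.R158.Hp854

open Finset Complex
open Crest.Agent.R158.Bk430

section Dih

variable {E : Type*}

/-- `R` is an involution that reverses `P` -/
structure Dih (P : Equiv.Perm E) (R : E → E) : Prop where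
  inv : ∀ e, R (R e) = e
  rev : ∀ e, P (R (P e)) = R e

theorem Dih.symm_apply {P : Equiv.Perm E} {R : E → E} (h : Dih P R) (e : E) :
    R (P e) = P.symm (R e) := by
  rw [← h.rev e, Equiv.symm_apply_apply]

theorem Dih.symm_apply' {P : Equiv.Perm E} {R : E → E} (h : Dih P R) (e : E) :
    R (P.symm e) = P (R e) := by
  have := h.rev (P.symm e)
  rw [Equiv.apply_symm_apply] at this
  exact this.symm

theorem Dih.zpow {P : Equiv.Perm E} {R : E → E} (h : Dih P R) (k : ℤ) (e : E) :
    R ((P ^ k) e) = (P ^ (-k)) (R e) := by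
  induction k using Int.induction_on generalizing e with
  | zero => simp
  | succ n ih =>
    rw [zpow_add_one, Equiv.Perm.mul_apply, ih, h.symm_apply, neg_add, zpow_add,
      Equiv.Perm.mul_apply]
    rfl
  | pred n ih =>
    rw [zpow_sub_one, Equiv.Perm.mul_apply, ih]
    have : R (P⁻¹ e) = P (R e) := h.symm_apply' e
    rw [this, show -(-(n : ℤ) - 1) = -(-(n : ℤ)) + 1 by ring, zpow_add_one, Equiv.Perm.mul_apply]

theorem Dih.same {P : Equiv.Perm E} {R : E → E} (h : Dih P R) {a b : E} (hab : P.SameCycle a b) :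
    P.SameCycle (R a) (R b) := by
  obtain ⟨k, hk⟩ := hab
  refine ⟨-k, ?_⟩
  rw [← hk, h.zpow]

/-- classes of the group generated by `P` and `R` -/
def dr {P : Equiv.Perm E} {R : E → E} (h : Dih P R) : Setoid E where
  r a b := P.SameCycle a b ∨ P.SameCycle a (R b)
  iseqv := by
    refine ⟨fun a => Or.inl (Equiv.Perm.SameCycle.refl P a), ?_, ?_⟩
    · rintro a b (hab | hab)
      · exact Or.inl hab.symm
      · right
        have := h.same hab
        rw [h.inv] at this
        exact this.symm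
    · rintro a b c (hab | hab) (hbc | hbc)
      · exact Or.inl (hab.trans hbc)
      · exact Or.inr (hab.trans hbc)
      · exact Or.inr (hab.trans (h.same hbc))
      · left
        have := h.same hbc
        rw [h.inv] at this
        exact hab.trans this

theorem dr_iff {P : Equiv.Perm E} {R : E → E} (h : Dih P R) (f : E → Bool) :
    ((∀ e, f (R e) = f e) ∧ ∀ e, f (P e) = f e) ↔ ∀ a b, dr h a b → f a = f b := by
  constructor
  · rintro ⟨h1, h2⟩ a b (⟨k, hk⟩ | ⟨k, hk⟩)
    · rw [← hk, inv_zpow P f h2]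
    · rw [← h1 b, ← hk, inv_zpow P f h2]
  · intro h1
    refine ⟨fun e => ?_, fun e => ?_⟩
    · exact h1 _ _ (Or.inr (Equiv.Perm.SameCycle.refl P _))
    · exact h1 _ _ (Or.inl ((Equiv.Perm.sameCycle_apply_left (f := P)).2
        (Equiv.Perm.SameCycle.refl P e)))

end Dih

theorem lw_half (lam : ℝ) (p b fW fE fN fS : Bool) :
    lw lam p b fW fE fN fS = lw (lam / 2) p b fW fE fN fS * lw (lam / 2) (!p) (!b) fW fE fS fN := by
  have h1 : Bk430.cmp (!b) fW fE fS fN ↔ Bk430.cmp b fW fE fN fS := by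
    cases b <;> simp [Bk430.cmp]
  have h2 : kb (!p) (!b) = kb p b := by cases p <;> cases b <;> rfl
  unfold lw
  rw [h2]
  by_cases h : Bk430.cmp b fW fE fN fS
  · rw [if_pos h, if_pos h, if_pos (h1.2 h), ← Complex.exp_add]
    congr 1
    push_cast
    ring
  · rw [if_neg h, if_neg h, zero_mul]

theorem w6_not (lam : ℝ) (a b c d : Bool) : w6 lam (!a) (!b) (!c) (!d) = w6 lam a b c d := by
  cases a <;> cases b <;> cases c <;> cases d <;> simp [w6, ice]

theorem w6_sum (lam : ℝ) (p fW fE fN fS : Bool) :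
    (w6 lam fW fE fN fS : ℂ) = ∑ b : Bool, lw lam p (xor (!b) p) fW fE fN fS := by
  rw [← lw_sum lam p, Fintype.sum_bool, Fintype.sum_bool]
  cases p
  · simp [add_comm]
  · simp

section Cyl

variable {M L H : ℕ} [NeZero M] [NeZero L] [Fact (Even M)] [Fact (Even L)]

/-- the cylinder splitting -/
def sx (hL : L = 2 * H) (x : Ct M L H → Bool) : ZMod M × ZMod L → Bool := spx (Xt hL x)

theorem sx_rv (hL : L = 2 * H) (x : Ct M L H → Bool) (v : ZMod M × ZMod L) :
    sx hL x (rv 1 v) = !sx hL x v := spx_rv (oddC_zmod L) (Xt_rv hL x) v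

theorem dih (hL : L = 2 * H) (x : Ct M L H → Bool) :
    Dih (nxE (sx hL x)) (re (1 : ZMod L) : ME (ZMod M) (ZMod L) → ME (ZMod M) (ZMod L)) where
  inv := re_re 1
  rev := nx_re (oddC_zmod L) (sx_rv hL x)

/-- the local weights on the cylinder = the weights with half the parameter on the torus -/
theorem prod_lw (hL : L = 2 * H) (lam : ℝ) (x : Ct M L H → Bool) (f : ME (ZMod M) (ZMod L) → Bool)
    (hf : ∀ e, f (re 1 e) = f e) :
    ∏ v : Ct M L H, lw lam (vp v.1) (xor (!x v) (vp v.1)) (f (eW v.1)) (f (eE v.1)) (f (eN v.1))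
      (f (eS v.1)) = W6 (lam / 2) f (sx hL x) := by
  unfold W6
  rw [prod_cyl hL]
  refine Finset.prod_congr rfl fun v _ => ?_
  rw [lw_half]
  have h0 : sx hL x v.1 = xor (!x v) (vp v.1) := by
    unfold sx spx Xt
    rw [dif_pos v.2]
  have h1 := sx_rv hL x v.1
  have h2 := vp_rv (oddC_zmod L) v.1
  have e1 : f (eW (rv 1 v.1)) = f (eW v.1) := by
    rw [← hf (eW v.1)]; congr 1
  have e2 : f (eE (rv 1 v.1)) = f (eE v.1) := by
    rw [← hf (eE v.1)]; congr 1
  have e3 : f (eN (rv 1 v.1)) = f (eS v.1) := by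
    rw [← hf (eS v.1)]; congr 1; simp [eS, eN, re, rv]
  have e4 : f (eS (rv 1 v.1)) = f (eN v.1) := by
    rw [← hf (eN v.1)]; congr 1; simp [eS, eN, re, rv]
  rw [h1, h2, h0, e1, e2, e3, e4]

/-- the six-vertex sum on the cylinder with phases `c` -/
noncomputable def Zc (M L H : ℕ) [NeZero M] [NeZero L] [Fact (Even M)] [Fact (Even L)]
    (c : ME (ZMod M) (ZMod L) → ℝ) : ℂ :=
  ∑ f : ME (ZMod M) (ZMod L) → Bool, if ∀ e, f (re 1 e) = f e then
    (∏ v : Ct M L H, (w6 (Real.pi / 3) (f (eW v.1)) (f (eE v.1)) (f (eN v.1)) (f (eS v.1)) : ℂ)) *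
      Complex.exp (I * ((∑ e, c e * (sgb (f e) : ℤ) : ℝ) : ℂ)) else 0

/-- **arrow reversal** -/
theorem Zc_neg (c : ME (ZMod M) (ZMod L) → ℝ) : Zc M L H (fun e => -c e) = Zc M L H c := by
  unfold Zc
  refine Finset.sum_nbij' (i := fun f e => !f e) (j := fun f e => !f e)
    (fun _ _ => mem_univ _) (fun _ _ => mem_univ _) (fun f _ => by funext e; simp)
    (fun f _ => by funext e; simp) (fun f _ => ?_)
  have h : (∀ e, (!f (re 1 e)) = !f e) ↔ ∀ e, f (re 1 e) = f e := by
    refine forall_congr' fun e => ?_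
    cases f (re 1 e) <;> cases f e <;> simp
  by_cases hf : ∀ e, f (re 1 e) = f e
  · rw [if_pos hf, if_pos (h.2 hf)]
    congr 1
    · refine Finset.prod_congr rfl fun v _ => ?_
      rw [w6_not]
    · congr 2
      norm_cast
      refine Finset.sum_congr rfl fun e _ => ?_
      rcases hfe : f e with _ | _ <;> simp [sgb, hfe]
  · rw [if_neg hf, if_neg (fun h' => hf (h.1 h'))]

open Classical in
/-- **strand expansion** -/
theorem Zc_eq (hL : L = 2 * H) (c : ME (ZMod M) (ZMod L) → ℝ) :
    Zc M L H c = ((∑ x : Ct M L H → Bool, ∏ q : Quotient (dr (dih hL x)), 2 * Real.cos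
      (∑ e with Quotient.mk (dr (dih hL x)) e = q,
        (Real.pi / 24 * turn (sx hL x) e + c e)) : ℝ) : ℂ) := by
  unfold Zc
  have h1 : ∀ f : ME (ZMod M) (ZMod L) → Bool, (if ∀ e, f (re 1 e) = f e then
      (∏ v : Ct M L H, (w6 (Real.pi / 3) (f (eW v.1)) (f (eE v.1)) (f (eN v.1)) (f (eS v.1)) : ℂ)) *
      Complex.exp (I * ((∑ e, c e * (sgb (f e) : ℤ) : ℝ) : ℂ)) else 0) =
      ∑ x : Ct M L H → Bool, (if ∀ a b, dr (dih hL x) a b → f a = f b then
        Complex.exp (I * ((∑ e, (Real.pi / 24 * turn (sx hL x) e + c e) * (sgb (f e) : ℤ) : ℝ) : ℂ))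
        else 0) := by
    intro f
    by_cases hf : ∀ e, f (re 1 e) = f e
    · rw [if_pos hf]
      have h2 : (∏ v : Ct M L H, (w6 (Real.pi / 3) (f (eW v.1)) (f (eE v.1)) (f (eN v.1))
          (f (eS v.1)) : ℂ)) = ∑ x : Ct M L H → Bool, W6 (Real.pi / 3 / 2) f (sx hL x) := by
        have h3 : ∀ v : Ct M L H, (w6 (Real.pi / 3) (f (eW v.1)) (f (eE v.1)) (f (eN v.1))
            (f (eS v.1)) : ℂ) = ∑ b : Bool, lw (Real.pi / 3) (vp v.1) (xor (!b) (vp v.1)) (f (eW v.1))
              (f (eE v.1)) (f (eN v.1)) (f (eS v.1)) := fun v => w6_sum _ _ _ _ _ _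
        simp_rw [h3]
        rw [Finset.prod_univ_sum, Fintype.piFinset_univ]
        exact Finset.sum_congr rfl fun x _ => prod_lw hL _ x f hf
      rw [h2, Finset.sum_mul]
      refine Finset.sum_congr rfl fun x _ => ?_
      rw [W6_eq]
      have h4 := dr_iff (dih hL x) f
      by_cases hp : ∀ e, f (nx (sx hL x) e) = f e
      · rw [if_pos hp, if_pos (h4.1 ⟨hf, hp⟩), ← Complex.exp_add]
        congr 1
        push_cast
        rw [← mul_add, Finset.mul_sum, ← Finset.sum_add_distrib]
        congr 1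
        refine Finset.sum_congr rfl fun e _ => ?_
        ring
      · rw [if_neg hp, if_neg (fun h' => hp (h4.2 h').2), zero_mul]
    · rw [if_neg hf]
      symm
      refine Finset.sum_eq_zero fun x _ => ?_
      rw [if_neg (fun h' => hf ((dr_iff (dih hL x) f).2 h').1)]
  simp_rw [h1]
  rw [Finset.sum_comm, Complex.ofReal_sum]
  refine Finset.sum_congr rfl fun x _ => ?_
  have := sum_cls_cos (dr (dih hL x)) (fun e => Real.pi / 24 * turn (sx hL x) e + c e)
  convert this using 1

end Cyl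

end Crest.Agent.R158.Hp854
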