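import Mathlib
import Crest.Agent.R158.Hp3_854

/-!
# R158, block HP1 (helper854), part 4: reflection invariant orbits, closed strands in the plane
-/

set_option autoImplicit false
set_option linter.unusedSectionVars false
set_option linter.unusedSimpArgs false

namespace Crest.Agent.R158.Hp854

open Finset
open Crest.Agent.R158.Bk430
open Crest.Agent.R158.Ts405 (shE sL per lft proj_lft proj_eq_iff iter_proj nx_proj turn_proj Ctr
  per_pos per_iter per_min hd_proj tl_proj TT_torus T1_closed T1_periodic mp_pos sum_cycle)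

section DihCyc

variable {E : Type*} [Fintype E] [DecidableEq E]

theorem same_iter {P : Equiv.Perm E} {a b : E} (h : P.SameCycle a b) :
    ∃ k < Function.minimalPeriod P a, P^[k] a = b := by
  obtain ⟨i, hi⟩ := h
  set n := Function.minimalPeriod P a with hn
  have hpos : 0 < n := mp_pos P a
  refine ⟨(i % (n : ℤ)).toNat, ?_, ?_⟩
  · have h2 := Int.emod_lt_of_pos i (show (0 : ℤ) < n by exact_mod_cast hpos)
    have h3 := Int.emod_nonneg i (show (n : ℤ) ≠ 0 by exact_mod_cast hpos.ne')
    omega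
  · have h3 := Int.emod_nonneg i (show (n : ℤ) ≠ 0 by exact_mod_cast hpos.ne')
    have h4 : (P ^ n) a = a := by
      rw [← Equiv.Perm.iterate_eq_pow]; exact Function.iterate_minimalPeriod
    have h5 : ∀ m : ℤ, ((P ^ (n : ℤ)) ^ m) a = a := by
      intro m
      have : (P ^ (n : ℤ)) a = a := by rw [zpow_natCast]; exact h4
      exact Equiv.Perm.zpow_apply_eq_self_of_apply_eq_self this m
    have h6 : (P ^ i) a = (P ^ (i % (n : ℤ))) a := by
      conv_lhs => rw [← Int.emod_add_mul_ediv i n]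
      rw [zpow_add, Equiv.Perm.mul_apply, zpow_mul, h5]
    rw [Equiv.Perm.iterate_eq_pow, ← zpow_natCast, Int.toNat_of_nonneg h3, ← h6, hi]

theorem iter_same (P : Equiv.Perm E) (a : E) (k : ℕ) : P.SameCycle a (P^[k] a) :=
  ⟨k, by rw [zpow_natCast, Equiv.Perm.iterate_eq_pow]⟩

variable {P : Equiv.Perm E} {R : E → E}

theorem Dih.iter (h : Dih P R) (a : E) (k : ℕ) : P^[k] (R (P^[k] a)) = R a := by
  induction k generalizing a with
  | zero => rfl
  | succ k ih =>
    rw [Function.iterate_succ_apply' (n := k) (f := P) (x := a)]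
    rw [Function.iterate_succ_apply, h.rev, ih]

/-- an orbit meeting its reflection has a fixed element -/
theorem Dih.fix (h : Dih P R) (hnf : ∀ x, R x ≠ P x) {e : E} (he : P.SameCycle e (R e)) :
    ∃ l, P.SameCycle e l ∧ R l = l := by
  obtain ⟨k, hk⟩ := he
  have key : R ((P ^ (k / 2)) e) = (P ^ (k - k / 2)) e := by
    rw [h.zpow, ← hk, ← Equiv.Perm.mul_apply, ← zpow_add]
    congr 2; ring
  rcases Int.emod_two_eq_zero_or_one k with h0 | h0
  · refine ⟨(P ^ (k / 2)) e, ⟨k / 2, rfl⟩, ?_⟩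
    rw [key]; congr 2; omega
  · exfalso
    apply hnf ((P ^ (k / 2)) e)
    rw [key, show k - k / 2 = 1 + k / 2 by omega, zpow_add, zpow_one]
    rfl

theorem Dih.refl_iter (h : Dih P R) {l : E} (hl : R l = l) {j : ℕ}
    (hj : j ≤ Function.minimalPeriod P l) :
    R (P^[j] l) = P^[Function.minimalPeriod P l - j] l := by
  have h1 := h.iter l j
  rw [hl] at h1
  have h2 : P^[j] (P^[Function.minimalPeriod P l - j] l) = l := by
    rw [← Function.iterate_add_apply, Nat.add_sub_cancel' hj]
    exact Function.iterate_minimalPeriod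
  exact (P.injective.iterate j) (h1.trans h2.symm)

theorem Dih.even (h : Dih P R) (hnf : ∀ x, R x ≠ P x) {l : E} (hl : R l = l) :
    Even (Function.minimalPeriod P l) := by
  by_contra hc
  rw [Nat.not_even_iff_odd] at hc
  obtain ⟨m, hm⟩ := hc
  have h1 := h.refl_iter hl (j := m) (by omega)
  apply hnf (P^[m] l)
  rw [h1, ← Function.iterate_succ_apply' (f := P)]
  congr 1
  omega

/-- the two fixed elements of an invariant orbit -/
theorem Dih.two (h : Dih P R) (hnf : ∀ x, R x ≠ P x) {l : E} (hl : R l = l) :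
    0 < Function.minimalPeriod P l / 2 ∧
    2 * (Function.minimalPeriod P l / 2) = Function.minimalPeriod P l ∧
    R (P^[Function.minimalPeriod P l / 2] l) = P^[Function.minimalPeriod P l / 2] l ∧
    P^[Function.minimalPeriod P l / 2] l ≠ l ∧
    (∀ j, 0 < j → j < Function.minimalPeriod P l / 2 → R (P^[j] l) ≠ P^[j] l) ∧
    ∀ x, P.SameCycle l x → (R x = x ↔ x = l ∨ x = P^[Function.minimalPeriod P l / 2] l) := by
  have hpos := mp_pos P l
  obtain ⟨m, hm⟩ := h.even hnf hl
  set n := Function.minimalPeriod P l with hn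
  have hh : n / 2 = m := by omega
  rw [hh]
  have hinj : ∀ i j, i < n → j < n → P^[i] l = P^[j] l → i = j := by
    intro i j hi hj hij
    exact (Function.iterate_eq_iterate_iff_of_lt_minimalPeriod hi hj).mp hij
  have h1 : R (P^[m] l) = P^[m] l := by
    rw [h.refl_iter hl (j := m) (by omega)]
    congr 1; omega
  have h2 : ∀ j, 0 < j → j < n → R (P^[j] l) = P^[j] l → j = m := by
    intro j hj0 hjn hj
    rw [h.refl_iter hl (j := j) (by omega)] at hj
    have := hinj _ _ (by omega) (by omega) hj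
    omega
  refine ⟨by omega, by omega, h1, ?_, ?_, ?_⟩
  · intro h3
    have := hinj m 0 (by omega) (by omega) h3
    omega
  · intro j hj0 hjm hj
    have := h2 j hj0 (by omega) hj
    omega
  · intro x hx
    obtain ⟨j, hj, rfl⟩ := same_iter hx
    constructor
    · intro h3
      rcases Nat.eq_zero_or_pos j with h0 | h0
      · left; rw [h0]; rfl
      · right; rw [h2 j h0 hj h3]
    · rintro (h3 | h3)
      · rw [h3, hl]
      · rw [h3, h1]

end DihCyc

/-! ### the plane -/

theorem nx_shE {s : ℤ × ℤ → Bool} {Q : ℤ × ℤ} (hQ : (Q.1 + Q.2) % 2 = 0)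
    (hs : ∀ u : ℤ × ℤ, s (u.1 + Q.1, u.2 + Q.2) = s u) (e : ME ℤ ℤ) :
    nx s (shE Q e) = shE Q (nx s e) := by
  obtain ⟨⟨a, b⟩, d⟩ := e
  have h1 : vp ((a + Q.1, b + Q.2) : ℤ × ℤ) = vp ((a, b) : ℤ × ℤ) := by
    rw [Ts405.vp_int, Ts405.vp_int]
    congr 1
    apply propext
    omega
  have g0 := hs (a, b)
  have g1 := hs (a + 1, b)
  have g2 := hs (a, b + 1)
  simp only at g0 g1 g2
  have e1 : a + Q.1 + 1 = a + 1 + Q.1 := by ring
  have e2 : b + Q.2 + 1 = b + 1 + Q.2 := by ring
  have e3 : b + 1 + Q.2 - 1 = b + Q.2 := by ring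
  have e4 : a + 1 + Q.1 - 1 = a + Q.1 := by ring
  have e5 : b + Q.2 - 1 = b - 1 + Q.2 := by ring
  have e6 : a + Q.1 - 1 = a - 1 + Q.1 := by ring
  cases d <;> cases hv : vp ((a, b) : ℤ × ℤ) <;> rw [hv] at h1 <;>
    simp only [nx, hd, shE, h1, hv, Bool.false_eq_true, if_false, if_true, e1, e2, g0, g1, g2]
  all_goals
    split_ifs <;> simp [e3, e4, e5, e6]

theorem iter_shE {s : ℤ × ℤ → Bool} {Q : ℤ × ℤ} (hQ : (Q.1 + Q.2) % 2 = 0)
    (hs : ∀ u : ℤ × ℤ, s (u.1 + Q.1, u.2 + Q.2) = s u) (e : ME ℤ ℤ) (k : ℕ) :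
    (nx s)^[k] (shE Q e) = shE Q ((nx s)^[k] e) := by
  induction k with
  | zero => rfl
  | succ k ih => rw [Function.iterate_succ_apply', ih, nx_shE hQ hs, Function.iterate_succ_apply']

section Plane

variable {M L : ℕ} [NeZero M] [NeZero L] [Fact (Even M)] [Fact (Even L)]

theorem sL_per (s : ZMod M × ZMod L → Bool) (a b : ℤ) (u : ℤ × ℤ) :
    sL s (u.1 + M * a, u.2 + L * b) = sL s u := by
  simp [sL]

theorem iter_shE_torus (s : ZMod M × ZMod L → Bool) (a b : ℤ) (e : ME ℤ ℤ) (k : ℕ) :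
    (nx (sL s))^[k] (shE (M * a, L * b) e) = shE (M * a, L * b) ((nx (sL s))^[k] e) :=
  iter_shE (Ts405.even_MP M L a b) (sL_per s a b) e k

theorem ctr_iff (s : ZMod M × ZMod L → Bool) (e : ME ℤ ℤ) :
    Ctr s (orb (nxE s) (proj M L e)) ↔ (nx (sL s))^[per s (proj M L e)] e = e := by
  constructor
  · rintro ⟨e', h1, h2⟩
    have h3 : (nxE s).SameCycle (proj M L e') (proj M L e) := Quotient.exact h1
    obtain ⟨k, -, hk⟩ := same_iter h3
    have hk' : proj M L ((nx (sL s))^[k] e') = proj M L e := by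
      rw [iter_proj]; exact hk
    obtain ⟨a, b, hab⟩ := proj_eq_iff hk'.symm
    have hper : per s (proj M L e) = per s (proj M L e') := by
      unfold per
      rw [← hk]
      exact Function.minimalPeriod_apply_iterate
        (Function.minimalPeriod_pos_iff_mem_periodicPts.1 (mp_pos _ _)) _
    rw [hper, hab, iter_shE_torus, ← Function.iterate_add_apply, Nat.add_comm,
      Function.iterate_add_apply, h2]
  · intro h
    exact ⟨e, rfl, h⟩

end Plane

end Crest.Agent.R158.Hp854
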