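import Mathlib
import Crest.Agent.R158.Hp4_854

/-!
# R158, block HP1 (helper854), part 5: legs of the cylinder, half periods, confinement of strands
-/

set_option autoImplicit false
set_option linter.unusedSectionVars false
set_option linter.unusedSimpArgs false

namespace Crest.Agent.R158.Hp854

open Finset
open Crest.Agent.R158.Bk430
open Crest.Agent.R158.Ts405 (shE sL per lft proj_lft proj_eq_iff iter_proj nx_proj turn_proj Ctr
  per_pos per_iter per_min hd_proj tl_proj TT_torus T1_closed T1_periodic mp_pos sum_cycle)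

section Legs

variable {M L H : ℕ} [NeZero M] [NeZero L] [Fact (Even M)] [Fact (Even L)]

theorem re_ne_nx (hL : L = 2 * H) (x : Ct M L H → Bool) (e : ME (ZMod M) (ZMod L)) :
    re 1 e ≠ nxE (sx hL x) e := by
  intro h
  have h1 : tl (re 1 e) = tl (nx (sx hL x) e) := by rw [h]; rfl
  rw [tl_nx, tl_re (oddC_zmod L)] at h1
  exact rv_ne (oddC_zmod L) _ h1

/-- legs of the cylinder in the plane -/
def IsLeg (H : ℕ) (e : ME ℤ ℤ) : Prop := e.2 = true ∧ (H : ℤ) ∣ e.1.2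

theorem leg_iff (hL : L = 2 * H) (e : ME ℤ ℤ) :
    re 1 (proj M L e) = proj M L e ↔ IsLeg H e := by
  obtain ⟨⟨a, b⟩, d⟩ := e
  cases d
  · constructor
    · intro h
      exfalso
      have h1 : (1 : ZMod L) - (b : ZMod L) = (b : ZMod L) := by
        have := congrArg (fun e : ME (ZMod M) (ZMod L) => e.1.2) h
        simpa [proj, re] using this
      have h2 := oddC_zmod L (b : ZMod L)
      rw [h1] at h2
      cases h3 : par (b : ZMod L) <;> rw [h3] at h2 <;> simp at h2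
    · rintro ⟨h, -⟩
      simp at h
  · have h0 : re 1 (proj M L ((a, b), true)) = proj M L ((a, b), true) ↔
        -(b : ZMod L) = (b : ZMod L) := by
      simp [proj, re]
    rw [h0]
    have h1 : -(b : ZMod L) = (b : ZMod L) ↔ (L : ℤ) ∣ 2 * b := by
      rw [neg_eq_iff_add_eq_zero, ← ZMod.intCast_zmod_eq_zero_iff_dvd]
      push_cast
      rw [two_mul]
    rw [h1]
    unfold IsLeg
    simp only [true_and]
    rw [hL]
    push_cast
    exact mul_dvd_mul_iff_left (by norm_num)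

theorem sL_rv (hL : L = 2 * H) (x : Ct M L H → Bool) {b : ℤ} (hb : (H : ℤ) ∣ b) (v : ℤ × ℤ) :
    sL (sx hL x) (rv (2 * b + 1) v) = !sL (sx hL x) v := by
  have h := sx_rv hL x ((v.1 : ZMod M), (v.2 : ZMod L))
  unfold sL rv at *
  simp only at h ⊢
  rw [← h]
  congr 2
  have h2 : ((2 * b : ℤ) : ZMod L) = 0 := by
    rw [ZMod.intCast_zmod_eq_zero_iff_dvd, hL]
    push_cast
    exact mul_dvd_mul_left 2 hb
  push_cast at h2 ⊢
  rw [h2]
  ring

theorem re_leg {H : ℕ} {e : ME ℤ ℤ} (he : IsLeg H e) : re (2 * e.1.2 + 1) e = e := by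
  obtain ⟨⟨a, b⟩, d⟩ := e
  obtain ⟨h1, -⟩ := he
  simp only at h1
  subst h1
  simp [re]
  ring

/-- half period of a leg -/
noncomputable def hp (hL : L = 2 * H) (x : Ct M L H → Bool) (e : ME ℤ ℤ) : ℕ :=
  per (sx hL x) (proj M L e) / 2

theorem hp_facts (hL : L = 2 * H) (x : Ct M L H → Bool) {e : ME ℤ ℤ} (he : IsLeg H e) :
    0 < hp hL x e ∧ 2 * hp hL x e = per (sx hL x) (proj M L e) ∧
    IsLeg H ((nx (sL (sx hL x)))^[hp hL x e] e) ∧
    proj M L ((nx (sL (sx hL x)))^[hp hL x e] e) ≠ proj M L e ∧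
    (∀ j, 0 < j → j < hp hL x e → ¬ IsLeg H ((nx (sL (sx hL x)))^[j] e)) ∧
    ∀ y, (nxE (sx hL x)).SameCycle (proj M L e) y → (re 1 y = y ↔ y = proj M L e ∨
      y = proj M L ((nx (sL (sx hL x)))^[hp hL x e] e)) := by
  have h1 : re 1 (proj M L e) = proj M L e := (leg_iff hL e).2 he
  obtain ⟨h2, h3, h4, h5, h6, h7⟩ := (dih hL x).two (re_ne_nx hL x) h1
  have key : ∀ j, (nxE (sx hL x))^[j] (proj M L e) = proj M L ((nx (sL (sx hL x)))^[j] e) :=
    fun j => (iter_proj (sx hL x) e j).symm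
  refine ⟨h2, h3, ?_, ?_, ?_, ?_⟩
  · rw [← leg_iff hL (M := M)]
    rw [← key]
    exact h4
  · rw [← key]; exact h5
  · intro j hj0 hj
    rw [← leg_iff hL (M := M), ← key]
    exact h6 j hj0 hj
  · intro y hy
    rw [h7 y hy, key]
    rfl

/-- reflected half strand -/
theorem refl_half (hL : L = 2 * H) (x : Ct M L H → Bool) {e : ME ℤ ℤ} (he : IsLeg H e) (k : ℕ) :
    (nx (sL (sx hL x)))^[k] (re (2 * e.1.2 + 1) ((nx (sL (sx hL x)))^[k] e)) = e := by
  have := iter_re (oddC_int e.1.2) (sL_rv hL x he.2) e k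
  rw [this, re_leg he]

/-- lower level of the strip in which the strand of a leg starts -/
def lo (H : ℕ) (e : ME ℤ ℤ) : ℤ := if (e.1.1 + e.1.2) % 2 = 0 then e.1.2 else e.1.2 - H

theorem lo_dvd {H : ℕ} {e : ME ℤ ℤ} (he : IsLeg H e) : (H : ℤ) ∣ lo H e := by
  unfold lo
  split_ifs
  · exact he.2
  · exact dvd_sub_self_right.mpr he.2

theorem hd_vert (i j : ℤ) : (hd ((i, j), true) : ℤ × ℤ) = if (i + j) % 2 = 0 then (i, j + 1) else (i, j) := by
  unfold hd
  simp only [if_true]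
  rw [Ts405.vp_int]
  by_cases h : (i + j) % 2 = 0
  · rw [if_pos h, if_neg (by simp; omega)]
  · rw [if_neg h, if_pos (by simp; omega)]

theorem tl_vert (i j : ℤ) : (tl ((i, j), true) : ℤ × ℤ) = if (i + j) % 2 = 0 then (i, j) else (i, j + 1) := by
  unfold tl
  simp only [if_true]
  rw [Ts405.vp_int]
  by_cases h : (i + j) % 2 = 0
  · rw [if_pos h, if_neg (by simp; omega)]
  · rw [if_neg h, if_pos (by simp; omega)]

theorem hd_tl_horiz (i j : ℤ) : (hd ((i, j), false) : ℤ × ℤ).2 = j ∧ (tl ((i, j), false) : ℤ × ℤ).2 = j := by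
  unfold hd tl
  simp only [Bool.false_eq_true, if_false]
  constructor <;> split_ifs <;> rfl

/-- **confinement** -/
theorem confine {H : ℕ} (hH : 0 < H) {s : ℤ × ℤ → Bool} {e : ME ℤ ℤ} (he : IsLeg H e) {n : ℕ}
    (hn : ∀ j, 0 < j → j < n → ¬ IsLeg H ((nx s)^[j] e)) :
    ∀ t, t < n → lo H e + 1 ≤ (hd ((nx s)^[t] e)).2 ∧ (hd ((nx s)^[t] e)).2 ≤ lo H e + H := by
  have hlo := lo_dvd he
  intro t
  induction t with
  | zero =>
    intro _
    obtain ⟨⟨i, b⟩, d⟩ := e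
    obtain ⟨h1, h2⟩ := he
    simp only at h1 h2
    subst h1
    simp only [Function.iterate_zero, id_eq]
    rw [hd_vert]
    unfold lo
    simp only
    split_ifs <;> simp only <;> constructor <;> omega
  | succ t ih =>
    intro ht
    obtain ⟨i1, i2⟩ := ih (by omega)
    have hl := hn (t + 1) (by omega) ht
    rw [Function.iterate_succ_apply'] at hl ⊢
    have htl : tl (nx s ((nx s)^[t] e)) = hd ((nx s)^[t] e) := tl_nx _ _
    rw [← htl] at i1 i2
    clear htl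
    generalize nx s ((nx s)^[t] e) = f at hl i1 i2 ⊢
    obtain ⟨⟨i, b⟩, d⟩ := f
    cases d
    · obtain ⟨g1, g2⟩ := hd_tl_horiz i b
      rw [g2] at i1 i2
      rw [g1]
      exact ⟨i1, i2⟩
    · have hb : ¬ (H : ℤ) ∣ b := fun h => hl ⟨rfl, h⟩
      have hb1 : b ≠ lo H e := fun h => hb (h ▸ hlo)
      have hb2 : b ≠ lo H e + H := fun h => hb (h ▸ (dvd_add_self_right.mpr hlo))
      rw [tl_vert] at i1 i2
      rw [hd_vert]
      split_ifs at i1 i2 ⊢ <;> simp only at i1 i2 ⊢ <;> constructor <;> omega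

/-- the end of a strand started at a leg -/
theorem confine_end {H : ℕ} (hH : 0 < H) {s : ℤ × ℤ → Bool} {e : ME ℤ ℤ} (he : IsLeg H e) {n : ℕ}
    (h0 : 0 < n) (hn : ∀ j, 0 < j → j < n → ¬ IsLeg H ((nx s)^[j] e)) (hl : IsLeg H ((nx s)^[n] e)) :
    (((nx s)^[n] e).1.2 = lo H e ∧ (((nx s)^[n] e).1.1 + lo H e) % 2 = 1) ∨
    (((nx s)^[n] e).1.2 = lo H e + H ∧ (((nx s)^[n] e).1.1 + (lo H e + H)) % 2 = 0) := by
  have hlo := lo_dvd he
  obtain ⟨m, rfl⟩ : ∃ m, n = m + 1 := ⟨n - 1, by omega⟩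
  obtain ⟨i1, i2⟩ := confine hH he hn m (by omega)
  rw [Function.iterate_succ_apply'] at hl ⊢
  have htl : tl (nx s ((nx s)^[m] e)) = hd ((nx s)^[m] e) := tl_nx _ _
  rw [← htl] at i1 i2
  clear htl
  generalize nx s ((nx s)^[m] e) = f at hl i1 i2 ⊢
  obtain ⟨⟨i, b⟩, d⟩ := f
  obtain ⟨h1, h2⟩ := hl
  simp only at h1 h2 ⊢
  subst h1
  rw [tl_vert] at i1 i2
  obtain ⟨p, hp⟩ := hlo
  obtain ⟨q, hq⟩ := h2
  have hH' : (0 : ℤ) < H := by exact_mod_cast hH
  rw [hp] at i1 i2 ⊢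
  rw [hq] at i1 i2 ⊢
  split_ifs at i1 i2 with hpar
  · simp only at i1 i2
    have h3 : (H : ℤ) * p < H * q := by omega
    have h4 : (H : ℤ) * q < H * (p + 2) := by nlinarith
    have h5 : p < q := lt_of_mul_lt_mul_left h3 hH'.le
    have h6 : q < p + 2 := lt_of_mul_lt_mul_left h4 hH'.le
    have h7 : q = p + 1 := by omega
    right
    subst h7
    have h8 : (H : ℤ) * (p + 1) = H * p + H := by ring
    rw [h8] at hq ⊢
    refine ⟨rfl, ?_⟩
    rw [← h8]; exact hpar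
  · simp only at i1 i2
    have h3 : (H : ℤ) * p < H * (q + 1) := by nlinarith
    have h4 : (H : ℤ) * q < H * (p + 1) := by nlinarith
    have h5 : p < q + 1 := lt_of_mul_lt_mul_left h3 hH'.le
    have h6 : q < p + 1 := lt_of_mul_lt_mul_left h4 hH'.le
    have h7 : q = p := by omega
    left
    subst h7
    refine ⟨rfl, ?_⟩
    rw [← hq]; omega

end Legs

end Crest.Agent.R158.Hp854
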