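import Mathlib
import Crest.Agent.R158.Hp5_854
import Crest.Agent.R158.Hp1_854

/-!
# R158, block HP1 (helper854), part 6: the floor pattern of the cylinder and the classes with legs
-/

set_option autoImplicit false
set_option linter.unusedSectionVars false
set_option linter.unusedSimpArgs false

namespace Crest.Agent.R158.Hp854

open Finset
open Crest.Agent.R158.Bk430
open Crest.Agent.R158.Ts405 (shE sL per lft proj_lft proj_eq_iff iter_proj nx_proj turn_proj Ctr
  per_pos per_iter per_min hd_proj tl_proj TT_torus T1_closed T1_periodic mp_pos sum_cycle)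

section Sig

variable {M L H : ℕ} [NeZero M] [NeZero L] [Fact (Even M)] [Fact (Even L)]

theorem nx_iter_inj (s : ℤ × ℤ → Bool) (k : ℕ) {e f : ME ℤ ℤ} (h : (nx s)^[k] e = (nx s)^[k] f) :
    e = f := ((nxE s).injective.iterate k) h

theorem H_pos (hL : L = 2 * H) : 0 < H := by
  have := Nat.pos_of_ne_zero (NeZero.ne L)
  omega

theorem per_iter_eq (hL : L = 2 * H) (x : Ct M L H → Bool) (e : ME ℤ ℤ) (k : ℕ) :
    per (sx hL x) (proj M L ((nx (sL (sx hL x)))^[k] e)) = per (sx hL x) (proj M L e) := by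
  rw [iter_proj]
  exact Function.minimalPeriod_apply_iterate
    (Function.minimalPeriod_pos_iff_mem_periodicPts.1 (mp_pos (nxE (sx hL x)) _)) _

theorem hp_iter_eq (hL : L = 2 * H) (x : Ct M L H → Bool) (e : ME ℤ ℤ) (k : ℕ) :
    hp hL x ((nx (sL (sx hL x)))^[k] e) = hp hL x e := by
  unfold hp; rw [per_iter_eq]

/-- end of the strand of a leg -/
noncomputable def fin (hL : L = 2 * H) (x : Ct M L H → Bool) (e : ME ℤ ℤ) : ME ℤ ℤ :=
  (nx (sL (sx hL x)))^[hp hL x e] e

theorem fin_leg (hL : L = 2 * H) (x : Ct M L H → Bool) {e : ME ℤ ℤ} (he : IsLeg H e) :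
    IsLeg H (fin hL x e) := (hp_facts hL x he).2.2.1

/-- on the same level the strand comes back -/
theorem fin_fin (hL : L = 2 * H) (x : Ct M L H → Bool) {e : ME ℤ ℤ} (he : IsLeg H e)
    (h : (fin hL x e).1.2 = e.1.2) : fin hL x (fin hL x e) = e := by
  have h1 := refl_half hL x he (hp hL x e)
  have h2 : re (2 * e.1.2 + 1) ((nx (sL (sx hL x)))^[hp hL x e] e) = fin hL x e := by
    have := re_leg (fin_leg hL x he)
    rw [h] at this
    exact this
  rw [h2] at h1
  have h3 : hp hL x (fin hL x e) = hp hL x e := hp_iter_eq hL x e _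
  have h0 : fin hL x (fin hL x e) = (nx (sL (sx hL x)))^[hp hL x (fin hL x e)] (fin hL x e) := rfl
  rw [h0, h3]
  exact h1

theorem closed_of_same (hL : L = 2 * H) (x : Ct M L H → Bool) {e : ME ℤ ℤ} (he : IsLeg H e)
    (h : (fin hL x e).1.2 = e.1.2) :
    (nx (sL (sx hL x)))^[per (sx hL x) (proj M L e)] e = e := by
  have h1 := fin_fin hL x he h
  have h3 : hp hL x (fin hL x e) = hp hL x e := hp_iter_eq hL x e _
  have h4 : fin hL x (fin hL x e) = (nx (sL (sx hL x)))^[hp hL x e + hp hL x e] e := by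
    have h0 : fin hL x (fin hL x e) = (nx (sL (sx hL x)))^[hp hL x (fin hL x e)] (fin hL x e) := rfl
    rw [h0, h3, Function.iterate_add_apply]
    rfl
  rw [h4] at h1
  rw [← (hp_facts hL x he).2.1, two_mul]
  exact h1

theorem same_of_closed (hL : L = 2 * H) (x : Ct M L H → Bool) {e : ME ℤ ℤ} (he : IsLeg H e)
    (h : (nx (sL (sx hL x)))^[per (sx hL x) (proj M L e)] e = e) : (fin hL x e).1.2 = e.1.2 := by
  rw [← (hp_facts hL x he).2.1, two_mul, Function.iterate_add_apply] at h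
  have h1 := refl_half hL x he (hp hL x e)
  have h2 := nx_iter_inj _ _ (h.trans h1.symm)
  have h3 := fin_leg hL x he
  have h4 : (fin hL x e).1.2 = 2 * e.1.2 - (fin hL x e).1.2 := by
    have h5 : fin hL x e = re (2 * e.1.2 + 1) (fin hL x e) := h2
    have h6 : (re (2 * e.1.2 + 1) (fin hL x e)).1.2 = 2 * e.1.2 - (fin hL x e).1.2 := by
      unfold re
      rw [if_pos h3.1]
      simp only
      ring
    rw [← h6, ← h5]
  omega

theorem Tl_lift (s : ZMod M × ZMod L → Bool) (e : ME ℤ ℤ) : Tl s (orb (nxE s) (proj M L e))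
      = ∑ t ∈ range (per s (proj M L e)), turn (sL s) ((nx (sL s))^[t] e) := by
  classical
  unfold Tl
  rw [sum_cycle]
  refine Finset.sum_congr rfl fun t _ => ?_
  have : (nxE s)^[t] (proj M L e) = (nx s)^[t] (proj M L e) := rfl
  rw [this, ← iter_proj, turn_proj]

theorem Tl_same (hL : L = 2 * H) (x : Ct M L H → Bool) {e : ME ℤ ℤ} (he : IsLeg H e)
    (h : (fin hL x e).1.2 = e.1.2) :
    Tl (sx hL x) (orb (nxE (sx hL x)) (proj M L e)) = 4 ∨
    Tl (sx hL x) (orb (nxE (sx hL x)) (proj M L e)) = -4 :=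
  (TT_torus (sx hL x)).c_turn _ ((ctr_iff _ e).2 (closed_of_same hL x he h))

theorem Tl_diff (hL : L = 2 * H) (x : Ct M L H → Bool) {e : ME ℤ ℤ} (he : IsLeg H e)
    (h : (fin hL x e).1.2 ≠ e.1.2) :
    Tl (sx hL x) (orb (nxE (sx hL x)) (proj M L e)) = 0 :=
  (TT_torus (sx hL x)).n_turn _ fun hc => h (same_of_closed hL x he ((ctr_iff _ e).1 hc))

/-- total turn = twice the turn of the half strand -/
theorem Tl_half (hL : L = 2 * H) (x : Ct M L H → Bool) {e : ME ℤ ℤ} (he : IsLeg H e)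
    (h : (fin hL x e).1.2 = e.1.2) :
    Tl (sx hL x) (orb (nxE (sx hL x)) (proj M L e)) =
      2 * ∑ t ∈ range (hp hL x e), turn (sL (sx hL x)) ((nx (sL (sx hL x)))^[t] e) := by
  have hc := closed_of_same hL x he h
  rw [Tl_lift, ← (hp_facts hL x he).2.1, two_mul (hp hL x e), Finset.sum_range_add, two_mul]
  rw [← (hp_facts hL x he).2.1, two_mul] at hc
  congr 1
  rw [← Finset.sum_range_reflect]
  refine Finset.sum_congr rfl fun t ht => ?_
  rw [mem_range] at ht
  have h1 := refl_half hL x he (t + 1)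
  have h2 : (nx (sL (sx hL x)))^[t + 1] ((nx (sL (sx hL x)))^[hp hL x e + (hp hL x e - 1 - t)] e)
      = e := by
    rw [← Function.iterate_add_apply]
    have : t + 1 + (hp hL x e + (hp hL x e - 1 - t)) = hp hL x e + hp hL x e := by omega
    rw [this, hc]
  have h3 := nx_iter_inj _ _ (h2.trans h1.symm)
  rw [h3, Function.iterate_succ_apply', turn_re (oddC_int e.1.2) (sL_rv hL x he.2)]

/-! ### the floor pattern -/

/-- floor leg -/
def fl (i : ℤ) : ME ℤ ℤ := ((i, 0), true)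

theorem fl_leg (H : ℕ) (i : ℤ) : IsLeg H (fl i) := ⟨rfl, dvd_zero _⟩

theorem fl_eq {H : ℕ} {f : ME ℤ ℤ} (h : IsLeg H f) (h0 : f.1.2 = 0) : f = fl f.1.1 := by
  obtain ⟨⟨a, b⟩, d⟩ := f
  obtain ⟨h1, -⟩ := h
  simp only at h0 h1
  subst h0 h1
  rfl

/-- the lifted floor pattern -/
noncomputable def sgm (hL : L = 2 * H) (x : Ct M L H → Bool) (i : ℤ) : Option ℤ :=
  if (fin hL x (fl i)).1.2 = 0 then some (fin hL x (fl i)).1.1 else none

theorem sgm_some (hL : L = 2 * H) (x : Ct M L H → Bool) {i j : ℤ} :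
    sgm hL x i = some j ↔ fin hL x (fl i) = fl j := by
  unfold sgm
  constructor
  · intro h
    split_ifs at h with h1
    rw [fl_eq (fin_leg hL x (fl_leg H i)) h1]
    rw [Option.some.inj h]
  · intro h
    rw [h]
    simp [fl]

theorem sgm_none (hL : L = 2 * H) (x : Ct M L H → Bool) {i : ℤ} :
    sgm hL x i = none ↔ (fin hL x (fl i)).1.2 ≠ 0 := by
  unfold sgm
  split_ifs with h <;> simp [h]

theorem fl_shift (i : ℤ) : fl (i + M) = shE (M * 1, L * 0) (fl i) := by
  simp [fl, shE]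

theorem hp_shift (hL : L = 2 * H) (x : Ct M L H → Bool) (i : ℤ) :
    hp hL x (fl (i + M)) = hp hL x (fl i) := by
  unfold hp
  congr 2
  simp [fl, proj]

theorem fin_shift (hL : L = 2 * H) (x : Ct M L H → Bool) (i : ℤ) :
    fin hL x (fl (i + M)) = shE (M * 1, L * 0) (fin hL x (fl i)) := by
  unfold fin
  rw [hp_shift, fl_shift (L := L), iter_shE_torus]

theorem sgm_per (hL : L = 2 * H) (x : Ct M L H → Bool) (i j : ℤ) (h : sgm hL x i = some j) :
    sgm hL x (i + M) = some (j + M) := by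
  rw [sgm_some] at h ⊢
  rw [fin_shift, h, ← fl_shift]

theorem sgm_per' (hL : L = 2 * H) (x : Ct M L H → Bool) (i : ℤ) (h : sgm hL x i = none) :
    sgm hL x (i + M) = none := by
  rw [sgm_none] at h ⊢
  rw [fin_shift]
  simpa [shE] using h

theorem sgm_inv (hL : L = 2 * H) (x : Ct M L H → Bool) (i j : ℤ) (h : sgm hL x i = some j) :
    sgm hL x j = some i := by
  rw [sgm_some] at h ⊢
  rw [← h]
  refine fin_fin hL x (fl_leg H i) ?_
  rw [h]; rfl

theorem sgm_ne (hL : L = 2 * H) (x : Ct M L H → Bool) (i j : ℤ) (h : sgm hL x i = some j) :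
    j ≠ i := by
  rw [sgm_some] at h
  intro hji
  have h1 := (hp_facts hL x (fl_leg H i)).2.2.2.1
  apply h1
  have h2 : (nx (sL (sx hL x)))^[hp hL x (fl i)] (fl i) = fl j := h
  rw [h2, hji]

/-- the end of an even floor leg -/
theorem even_end (hL : L = 2 * H) (x : Ct M L H → Bool) {i : ℤ} (hi : i % 2 = 0) :
    (∃ j : ℤ, j % 2 = 1 ∧ fin hL x (fl i) = fl j) ∨
    (∃ j : ℤ, (j + H) % 2 = 0 ∧ fin hL x (fl i) = ((j, (H : ℤ)), true)) := by
  have hf := hp_facts hL x (fl_leg H i)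
  have hlo : lo H (fl i) = 0 := by
    unfold lo fl; simp [hi]
  rcases confine_end (H_pos hL) (fl_leg H i) hf.1 hf.2.2.2.2.1 hf.2.2.1 with h | h
  · left
    rw [hlo, add_zero] at h
    exact ⟨_, h.2, fl_eq (fin_leg hL x (fl_leg H i)) h.1⟩
  · right
    rw [hlo, zero_add] at h
    refine ⟨(fin hL x (fl i)).1.1, h.2, ?_⟩
    have h2 := (fin_leg hL x (fl_leg H i)).1
    have h1 : (fin hL x (fl i)).1.2 = H := h.1
    rw [← h1, ← h2]

/-- the end of an odd floor leg -/
theorem odd_end (hL : L = 2 * H) (x : Ct M L H → Bool) {i : ℤ} (hi : i % 2 = 1) :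
    (∃ j : ℤ, j % 2 = 0 ∧ fin hL x (fl i) = fl j) ∨
    (∃ j : ℤ, (j + H) % 2 = 1 ∧ fin hL x (fl i) = ((j, -(H : ℤ)), true)) := by
  have hf := hp_facts hL x (fl_leg H i)
  have hlo : lo H (fl i) = -(H : ℤ) := by
    unfold lo fl; simp [hi]
  rcases confine_end (H_pos hL) (fl_leg H i) hf.1 hf.2.2.2.2.1 hf.2.2.1 with h | h
  · right
    rw [hlo] at h
    refine ⟨(fin hL x (fl i)).1.1, ?_, ?_⟩
    · have := h.2
      have h3 : ((nx (sL (sx hL x)))^[hp hL x (fl i)] (fl i)).1.1 = (fin hL x (fl i)).1.1 := rfl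
      rw [h3] at this
      omega
    · have h2 := (fin_leg hL x (fl_leg H i)).1
      have h1 : (fin hL x (fl i)).1.2 = -(H : ℤ) := h.1
      rw [← h1, ← h2]
  · left
    rw [hlo] at h
    have h1 : (fin hL x (fl i)).1.2 = 0 := by
      have h4 : (fin hL x (fl i)).1.2 = -(H : ℤ) + H := h.1
      rw [h4]; ring
    refine ⟨(fin hL x (fl i)).1.1, ?_, fl_eq (fin_leg hL x (fl_leg H i)) h1⟩
    have := h.2
    have h3 : ((nx (sL (sx hL x)))^[hp hL x (fl i)] (fl i)).1.1 = (fin hL x (fl i)).1.1 := rfl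
    rw [h3] at this
    omega

/-- the statement of the turn of an arc (helper405) -/
def ArcTurn : Prop := ∀ (s : ℤ × ℤ → Bool) (i j : ℤ) (n : ℕ), 0 < n → i % 2 = 0 →
  (nx s)^[n] ((i, 0), true) = ((j, 0), true) → (∀ t < n, 1 ≤ (hd ((nx s)^[t] ((i, 0), true))).2) →
  (i < j → ∑ t ∈ range n, turn s ((nx s)^[t] ((i, 0), true)) = -2) ∧
  (j < i → ∑ t ∈ range n, turn s ((nx s)^[t] ((i, 0), true)) = 2)

theorem Tl_arc (hA : ArcTurn) (hL : L = 2 * H) (x : Ct M L H → Bool) {i j : ℤ} (hi : i % 2 = 0)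
    (h : fin hL x (fl i) = fl j) :
    (i < j → Tl (sx hL x) (orb (nxE (sx hL x)) (proj M L (fl i))) = -4) ∧
    (j < i → Tl (sx hL x) (orb (nxE (sx hL x)) (proj M L (fl i))) = 4) := by
  have hf := hp_facts hL x (fl_leg H i)
  have hlo : lo H (fl i) = 0 := by
    unfold lo fl; simp [hi]
  have h1 := hA (sL (sx hL x)) i j (hp hL x (fl i)) hf.1 hi h (by
    intro t ht
    have := (confine (H_pos hL) (fl_leg H i) hf.2.2.2.2.1 t ht).1
    rw [hlo] at this
    exact this)
  have h2 := Tl_half hL x (fl_leg H i) (by rw [h]; rfl)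
  have h3 : ∑ t ∈ range (hp hL x (fl i)), turn (sL (sx hL x)) ((nx (sL (sx hL x)))^[t] (fl i)) =
    ∑ t ∈ range (hp hL x (fl i)), turn (sL (sx hL x)) ((nx (sL (sx hL x)))^[t] ((i, 0), true)) := rfl
  rw [h3] at h2
  constructor
  · intro hij
    rw [h2, h1.1 hij]; rfl
  · intro hij
    rw [h2, h1.2 hij]; rfl

end Sig

end Crest.Agent.R158.Hp854
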