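import Mathlib
import Crest.Agent.R158.Hp6_854

/-!
# R158, block HP1 (helper854), part 7: values of the classes, the arrow reversal identity of patterns
-/

set_option autoImplicit false
set_option linter.unusedSectionVars false
set_option linter.unusedSimpArgs false
set_option linter.unusedVariables false

namespace Crest.Agent.R158.Hp854

open Finset
open Crest.Agent.R158.Bk430
open Crest.Agent.R158.Ts405 (shE sL per lft proj_lft proj_eq_iff iter_proj nx_proj turn_proj Ctr
  per_pos per_iter per_min hd_proj tl_proj TT_torus T1_closed T1_periodic mp_pos sum_cycle)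

/-! ### periodicity of the weights -/

theorem bb_mod (M k : ℕ) (i : ℤ) : bb M k (i % M) = bb M k i := by
  unfold bb
  rw [Int.emod_add_emod]

theorem fac_per {M k : ℕ} {σ : ℤ → Option ℤ} (h1 : ∀ i j : ℤ, σ i = some j → σ (i + M) = some (j + M))
    (h2 : ∀ i : ℤ, σ i = none → σ (i + M) = none) (ε : ℤ) (i : ℤ) :
    fac M k σ ε (i + M) = fac M k σ ε i := by
  unfold fac
  rcases h : σ i with _ | j
  · rw [h2 i h]; simp only [bb_per]
  · rw [h1 i j h]; simp only [bb_per, add_lt_add_iff_right]

theorem fac_mul {M k : ℕ} {σ : ℤ → Option ℤ} (h1 : ∀ i j : ℤ, σ i = some j → σ (i + M) = some (j + M))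
    (h2 : ∀ i : ℤ, σ i = none → σ (i + M) = none) (ε : ℤ) (i : ℤ) (n : ℕ) :
    fac M k σ ε (i + M * n) = fac M k σ ε i := by
  induction n with
  | zero => simp
  | succ n ih =>
    rw [show i + M * ((n + 1 : ℕ) : ℤ) = i + M * n + M by push_cast; ring, fac_per h1 h2, ih]

theorem fac_mod {M k : ℕ} {σ : ℤ → Option ℤ} (h1 : ∀ i j : ℤ, σ i = some j → σ (i + M) = some (j + M))
    (h2 : ∀ i : ℤ, σ i = none → σ (i + M) = none) (ε : ℤ) (i : ℤ) :
    fac M k σ ε (i % M) = fac M k σ ε i := by
  have h := Int.emod_add_mul_ediv i M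
  rcases le_total 0 (i / (M : ℤ)) with hc | hc
  · obtain ⟨n, hn⟩ := Int.eq_ofNat_of_zero_le hc
    have := fac_mul h1 h2 ε (k := k) (i % M) n
    rw [hn] at h
    rw [← this]
    congr 1
  · obtain ⟨n, hn⟩ := Int.eq_ofNat_of_zero_le (neg_nonneg.mpr hc)
    have := fac_mul h1 h2 ε (k := k) i n
    rw [← this]
    congr 1
    have hn' : i / (M : ℤ) = -(n : ℤ) := by omega
    rw [hn'] at h
    linarith

/-! ### values -/

theorem two_cos_six : 2 * Real.cos (Real.pi / 6) = Real.sqrt 3 := by
  rw [Real.cos_pi_div_six]; ring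

theorem wq_val (k : ℤ) : Real.sqrt 3 * wq k = 2 * Real.cos (((k : ℝ) - 1 / 2) * (Real.pi / 3)) := by
  rw [← two_cos_six, wq]
  field_simp [cos6_ne]

theorem fq_val (k : ℤ) : Real.sqrt 3 * fq k = 2 * Real.cos (((k : ℝ) + 1 / 2) * (Real.pi / 3)) := by
  rw [← two_cos_six, fq]
  field_simp [cos6_ne]

/-- weight per leg -/
noncomputable def kz : ℝ := Real.sqrt (Real.sqrt 3)

theorem kz_sq : kz * kz = Real.sqrt 3 := Real.mul_self_sqrt (Real.sqrt_nonneg 3)

section Val

variable {M L H : ℕ} [NeZero M] [NeZero L] [Fact (Even M)] [Fact (Even L)]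

/-- charges of the legs -/
noncomputable def cc (M L H k : ℕ) [NeZero M] [NeZero L] [Fact (Even M)] [Fact (Even L)]
    (e : ME (ZMod M) (ZMod L)) : ℝ :=
  if e.2 = true then
    (if e.1.2 = 0 then -(Real.pi / 3) * so e * bb M k (e.1.1.val : ℤ)
     else if e.1.2 = (H : ZMod L) then -(Real.pi / 6) * so e else 0) else 0

theorem so_vert (i j : ℤ) : so (((i, j), true) : ME ℤ ℤ) = if (i + j) % 2 = 0 then 1 else -1 := by
  unfold so ori
  rw [Ts405.vp_int]
  by_cases h : (i + j) % 2 = 0
  · have : ¬ ((i + j) % 2 = 1) := by omega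
    simp [h]
  · have h2 : (i + j) % 2 = 1 := by omega
    simp [h2]

theorem val_int (i : ℤ) : (((i : ZMod M)).val : ℤ) = i % M := by
  rw [ZMod.val_intCast]

theorem H_ne (hL : L = 2 * H) : (H : ZMod L) ≠ 0 := by
  have hH := H_pos hL
  intro h
  rw [ZMod.natCast_eq_zero_iff] at h
  have := Nat.le_of_dvd hH h
  omega

theorem negH (hL : L = 2 * H) : ((-(H : ℤ) : ℤ) : ZMod L) = (H : ZMod L) := by
  have h1 : ((2 * H : ℕ) : ZMod L) = 0 := by rw [← hL]; simp
  push_cast at h1 ⊢
  have : (H : ZMod L) + H = 0 := by rw [← h1]; ring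
  exact neg_eq_of_add_eq_zero_left this

theorem cc_fl (hL : L = 2 * H) (k : ℕ) (i : ℤ) : cc M L H k (proj M L (fl i)) =
    -(Real.pi / 3) * (if i % 2 = 0 then 1 else -1) * bb M k i := by
  have h1 : (proj M L (fl i)).2 = true := rfl
  have h2 : (proj M L (fl i)).1.2 = 0 := by simp [proj, fl]
  have h3 : (proj M L (fl i)).1.1 = (i : ZMod M) := rfl
  have h4 : so (proj M L (fl i)) = if i % 2 = 0 then 1 else -1 := by
    rw [Ts405.so_proj]
    have := so_vert i 0
    rw [add_zero] at this
    exact this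
  unfold cc
  rw [if_pos h1, if_pos h2, h3, h4, val_int, bb_mod]
  split_ifs <;> simp

theorem cc_top (hL : L = 2 * H) (k : ℕ) (j : ℤ) : cc M L H k (proj M L ((j, (H : ℤ)), true)) =
    -(Real.pi / 6) * (if (j + H) % 2 = 0 then 1 else -1) := by
  have h2 : (proj M L ((j, (H : ℤ)), true)).1.2 = (H : ZMod L) := by simp [proj]
  have h4 : so (proj M L ((j, (H : ℤ)), true)) = if (j + H) % 2 = 0 then 1 else -1 := by
    rw [Ts405.so_proj]
    exact so_vert j H
  have h1 : (proj M L ((j, (H : ℤ)), true)).2 = true := rfl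
  unfold cc
  rw [if_pos h1, h2, if_neg (H_ne hL), if_pos rfl, h4]
  split_ifs <;> simp

theorem cc_bot (hL : L = 2 * H) (k : ℕ) (j : ℤ) : cc M L H k (proj M L ((j, -(H : ℤ)), true)) =
    -(Real.pi / 6) * (if (j + H) % 2 = 0 then 1 else -1) := by
  have h2 : (proj M L ((j, -(H : ℤ)), true)).1.2 = (H : ZMod L) := negH hL
  have h4 : so (proj M L ((j, -(H : ℤ)), true)) = if (j + H) % 2 = 0 then 1 else -1 := by
    rw [Ts405.so_proj]
    rw [so_vert j (-(H : ℤ))]
    have : (j + -(H : ℤ)) % 2 = (j + H) % 2 := by omega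
    rw [this]
  have h1 : (proj M L ((j, -(H : ℤ)), true)).2 = true := rfl
  unfold cc
  rw [if_pos h1, h2, if_neg (H_ne hL), if_pos rfl, h4]
  split_ifs <;> simp

theorem cc_zero (hL : L = 2 * H) (k : ℕ) {y : ME (ZMod M) (ZMod L)} (h : re 1 y ≠ y) :
    cc M L H k y = 0 := by
  obtain ⟨⟨a, b⟩, d⟩ := y
  unfold cc
  by_cases h1 : d = true
  · subst h1
    simp only [if_true]
    have h2 : b ≠ 0 := by
      rintro rfl
      apply h
      simp [re]
    have h3 : b ≠ (H : ZMod L) := by
      rintro rfl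
      apply h
      have := negH (L := L) hL
      push_cast at this
      simp [re, this]
    rw [if_neg h2, if_neg h3]
  · rw [if_neg h1]

/-- leg weight -/
noncomputable def wl (hL : L = 2 * H) (k : ℕ) (x : Ct M L H → Bool) (ε : ℤ)
    (y : ME (ZMod M) (ZMod L)) : ℝ :=
  kz * (if y.1.2 = 0 then fac M k (sgm hL x) ε (y.1.1.val : ℤ) else 1)

theorem wl_fl (hL : L = 2 * H) (k : ℕ) (x : Ct M L H → Bool) (ε : ℤ) (i : ℤ) :
    wl hL k x ε (proj M L (fl i)) = kz * fac M k (sgm hL x) ε i := by
  have h2 : (proj M L (fl i)).1.2 = 0 := by simp [proj, fl]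
  have h3 : (proj M L (fl i)).1.1 = (i : ZMod M) := rfl
  unfold wl
  rw [if_pos h2, h3, val_int, fac_mod (sgm_per hL x) (sgm_per' hL x)]

theorem wl_top (hL : L = 2 * H) (k : ℕ) (x : Ct M L H → Bool) (ε : ℤ) {y : ME (ZMod M) (ZMod L)}
    (h : y.1.2 = (H : ZMod L)) : wl hL k x ε y = kz := by
  unfold wl
  rw [if_neg (by rw [h]; exact H_ne hL), mul_one]

open Classical in
/-- the class of a leg is its orbit, with two legs -/
theorem cls_leg_sum (hL : L = 2 * H) (k : ℕ) (x : Ct M L H → Bool) (ε : ℤ) {e : ME ℤ ℤ}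
    (he : IsLeg H e) :
    (∑ y with Quotient.mk (dr (dih hL x)) y = Quotient.mk (dr (dih hL x)) (proj M L e),
      (Real.pi / 24 * turn (sx hL x) y + ε * cc M L H k y)) =
    Real.pi / 24 * Tl (sx hL x) (orb (nxE (sx hL x)) (proj M L e)) +
      ε * (cc M L H k (proj M L e) + cc M L H k (proj M L (fin hL x e))) ∧
    (∏ y with re 1 y = y ∧ Quotient.mk (dr (dih hL x)) y = Quotient.mk (dr (dih hL x)) (proj M L e),
      wl hL k x ε y) = wl hL k x ε (proj M L e) * wl hL k x ε (proj M L (fin hL x e)) := by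
  obtain ⟨-, -, h3, h4, -, h6⟩ := hp_facts hL x he
  have hfix : re 1 (proj M L e) = proj M L e := (leg_iff hL e).2 he
  have hcls : ∀ y, Quotient.mk (dr (dih hL x)) y = Quotient.mk (dr (dih hL x)) (proj M L e) ↔
      orb (nxE (sx hL x)) y = orb (nxE (sx hL x)) (proj M L e) := by
    intro y
    constructor
    · intro h
      have h1 : dr (dih hL x) y (proj M L e) := Quotient.exact h
      refine Quotient.sound ?_
      rcases h1 with h1 | h1
      · exact h1
      · rw [hfix] at h1; exact h1
    · intro h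
      have h1 : (nxE (sx hL x)).SameCycle y (proj M L e) := Quotient.exact h
      exact Quotient.sound (Or.inl h1)
  have hne : proj M L e ≠ proj M L (fin hL x e) := fun h => h4 h.symm
  have hlegs : ∀ y, (re 1 y = y ∧ Quotient.mk (dr (dih hL x)) y =
      Quotient.mk (dr (dih hL x)) (proj M L e)) ↔ y = proj M L e ∨ y = proj M L (fin hL x e) := by
    intro y
    rw [hcls]
    constructor
    · rintro ⟨g1, g2⟩
      have h1 : (nxE (sx hL x)).SameCycle (proj M L e) y := Quotient.exact g2.symm
      exact (h6 y h1).1 g1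
    · intro g
      have h1 : (nxE (sx hL x)).SameCycle (proj M L e) y := by
        rcases g with rfl | rfl
        · exact Equiv.Perm.SameCycle.refl _ _
        · have := iter_same (nxE (sx hL x)) (proj M L e) (hp hL x e)
          have h7 : (nxE (sx hL x))^[hp hL x e] (proj M L e) = proj M L (fin hL x e) :=
            (iter_proj (sx hL x) e _).symm
          rwa [h7] at this
      exact ⟨(h6 y h1).2 g, Quotient.sound h1.symm⟩
  constructor
  · rw [Finset.sum_add_distrib]
    congr 1
    · rw [← Finset.mul_sum]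
      congr 1
      unfold Tl
      push_cast
      refine Finset.sum_congr ?_ fun _ _ => rfl
      ext y
      simp only [mem_filter, mem_univ, true_and]
      exact hcls y
    · rw [← Finset.mul_sum]
      congr 1
      rw [← Finset.sum_pair hne]
      symm
      refine Finset.sum_subset_zero_on_sdiff ?_ ?_ fun _ _ => rfl
      · intro y hy
        rw [mem_insert, mem_singleton] at hy
        rw [mem_filter]
        exact ⟨mem_univ _, ((hlegs y).2 hy).2⟩
      · intro y hy
        rw [mem_sdiff, mem_filter, mem_insert, mem_singleton] at hy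
        apply cc_zero hL
        intro g
        exact hy.2 ((hlegs y).1 ⟨g, hy.1.2⟩)
  · rw [← Finset.prod_pair hne]
    refine Finset.prod_congr ?_ fun _ _ => rfl
    ext y
    simp only [mem_filter, mem_univ, true_and, mem_insert, mem_singleton]
    exact hlegs y

theorem so_par (i j : ℤ) (h : (j - i) % 2 = 1) :
    (if i % 2 = 0 then (1 : ℝ) else -1) + (if j % 2 = 0 then (1 : ℝ) else -1) = 0 := by
  by_cases h1 : i % 2 = 0
  · have h2 : ¬ j % 2 = 0 := by omega
    rw [if_pos h1, if_neg h2]; norm_num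
  · have h2 : j % 2 = 0 := by omega
    rw [if_neg h1, if_pos h2]; norm_num

/-- case A: even floor leg, arc -/
theorem val_A (hA : ArcTurn) (hL : L = 2 * H) (k : ℕ) (x : Ct M L H → Bool) {ε : ℤ} {i j : ℤ}
    (hi : i % 2 = 0) (hj : j % 2 = 1) (h : fin hL x (fl i) = fl j) :
    2 * Real.cos (Real.pi / 24 * Tl (sx hL x) (orb (nxE (sx hL x)) (proj M L (fl i))) +
      ε * (cc M L H k (proj M L (fl i)) + cc M L H k (proj M L (fin hL x (fl i))))) =
    wl hL k x ε (proj M L (fl i)) * wl hL k x ε (proj M L (fin hL x (fl i))) := by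
  have h1 : sgm hL x i = some j := (sgm_some hL x).2 h
  have h2 : sgm hL x j = some i := sgm_inv hL x _ _ h1
  obtain ⟨t1, t2⟩ := Tl_arc hA hL x hi h
  rw [h, wl_fl, wl_fl, cc_fl hL, cc_fl hL, if_pos hi, if_neg (by omega)]
  have e0 : kz * fac M k (sgm hL x) ε i * (kz * fac M k (sgm hL x) ε j) =
      Real.sqrt 3 * (fac M k (sgm hL x) ε i * fac M k (sgm hL x) ε j) := by
    rw [← kz_sq]; ring
  rw [e0]
  rcases lt_trichotomy i j with hij | hij | hij
  · have f1 : fac M k (sgm hL x) ε i = wq (ε * (bb M k j - bb M k i)) := by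
      unfold fac; rw [h1]; simp only; rw [if_pos hij]
    have f2 : fac M k (sgm hL x) ε j = 1 := by
      unfold fac; rw [h2]; simp only; rw [if_neg (by omega)]
    rw [f1, f2, mul_one (wq _), wq_val, t1 hij]
    congr 2
    push_cast
    ring
  · omega
  · have f1 : fac M k (sgm hL x) ε i = 1 := by
      unfold fac; rw [h1]; simp only; rw [if_neg (by omega)]
    have f2 : fac M k (sgm hL x) ε j = wq (ε * (bb M k i - bb M k j)) := by
      unfold fac; rw [h2]; simp only; rw [if_pos hij]
    rw [f1, f2, one_mul (wq _), wq_val, t2 hij]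
    congr 1
    rw [← Real.cos_neg]
    congr 1
    push_cast
    ring

theorem cos_eps {ε : ℤ} (hε : ε = 1 ∨ ε = -1) (a : ℝ) : Real.cos (ε * a) = Real.cos a := by
  rcases hε with h | h <;> subst h <;> simp

/-- case B: a strand from the floor to the ceiling -/
theorem val_B (hL : L = 2 * H) (k : ℕ) (x : Ct M L H → Bool) {ε : ℤ} (hε : ε = 1 ∨ ε = -1) {i : ℤ}
    (hn : (fin hL x (fl i)).1.2 ≠ 0)
    (h : cc M L H k (proj M L (fin hL x (fl i))) = -(Real.pi / 6) * (if i % 2 = 0 then 1 else -1))
    (hw : (proj M L (fin hL x (fl i))).1.2 = (H : ZMod L)) :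
    2 * Real.cos (Real.pi / 24 * Tl (sx hL x) (orb (nxE (sx hL x)) (proj M L (fl i))) +
      ε * (cc M L H k (proj M L (fl i)) + cc M L H k (proj M L (fin hL x (fl i))))) =
    wl hL k x ε (proj M L (fl i)) * wl hL k x ε (proj M L (fin hL x (fl i))) := by
  have h1 : sgm hL x i = none := (sgm_none hL x).2 hn
  rw [Tl_diff hL x (fl_leg H i) hn, wl_fl, wl_top hL k x ε hw, h, cc_fl hL]
  have f1 : fac M k (sgm hL x) ε i = fq (bb M k i) := by
    unfold fac; rw [h1]
  have e0 : kz * fac M k (sgm hL x) ε i * kz = Real.sqrt 3 * fac M k (sgm hL x) ε i := by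
    rw [← kz_sq]; ring
  rw [e0, f1, fq_val, Int.cast_zero, mul_zero, zero_add, cos_eps hε]
  congr 1
  split_ifs
  · rw [← Real.cos_neg]
    congr 1
    ring
  · congr 1
    ring

/-- case C: an arc of the ceiling -/
theorem val_C (hL : L = 2 * H) (k : ℕ) (x : Ct M L H → Bool) {ε : ℤ} {e : ME ℤ ℤ}
    (he : IsLeg H e) (h : (fin hL x e).1.2 = e.1.2)
    (hc : cc M L H k (proj M L e) + cc M L H k (proj M L (fin hL x e)) = 0)
    (hw : (proj M L e).1.2 = (H : ZMod L))
    (hw' : (proj M L (fin hL x e)).1.2 = (H : ZMod L)) :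
    2 * Real.cos (Real.pi / 24 * Tl (sx hL x) (orb (nxE (sx hL x)) (proj M L e)) +
      ε * (cc M L H k (proj M L e) + cc M L H k (proj M L (fin hL x e)))) =
    wl hL k x ε (proj M L e) * wl hL k x ε (proj M L (fin hL x e)) := by
  rw [hc, mul_zero, add_zero, wl_top hL k x ε hw, wl_top hL k x ε hw', kz_sq, ← two_cos_six]
  congr 1
  rcases Tl_same hL x he h with h1 | h1
  · rw [h1]; congr 1; push_cast; ring
  · rw [h1, ← Real.cos_neg]; congr 1; push_cast; ring

open Classical in
/-- classes with a leg -/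
theorem cls_leg_val (hA : ArcTurn) (hL : L = 2 * H) (k : ℕ) (x : Ct M L H → Bool) {ε : ℤ}
    (hε : ε = 1 ∨ ε = -1) (q : Quotient (dr (dih hL x)))
    (hq : ∃ y, re 1 y = y ∧ Quotient.mk (dr (dih hL x)) y = q) :
    2 * Real.cos (∑ y with Quotient.mk (dr (dih hL x)) y = q,
      (Real.pi / 24 * turn (sx hL x) y + ε * cc M L H k y)) =
    ∏ y with re 1 y = y ∧ Quotient.mk (dr (dih hL x)) y = q, wl hL k x ε y := by
  have hfin : ∀ e : ME ℤ ℤ, Quotient.mk (dr (dih hL x)) (proj M L (fin hL x e)) =
      Quotient.mk (dr (dih hL x)) (proj M L e) := by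
    intro e
    have h7 : (nxE (sx hL x))^[hp hL x e] (proj M L e) = proj M L (fin hL x e) :=
      (iter_proj (sx hL x) e _).symm
    rw [← h7]
    exact Quotient.sound (Or.inl (iter_same _ _ _).symm)
  have red : ∀ e : ME ℤ ℤ, IsLeg H e → Quotient.mk (dr (dih hL x)) (proj M L e) = q →
      2 * Real.cos (Real.pi / 24 * Tl (sx hL x) (orb (nxE (sx hL x)) (proj M L e)) +
      ε * (cc M L H k (proj M L e) + cc M L H k (proj M L (fin hL x e)))) =
      wl hL k x ε (proj M L e) * wl hL k x ε (proj M L (fin hL x e)) →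
      2 * Real.cos (∑ y with Quotient.mk (dr (dih hL x)) y = q,
        (Real.pi / 24 * turn (sx hL x) y + ε * cc M L H k y)) =
      ∏ y with re 1 y = y ∧ Quotient.mk (dr (dih hL x)) y = q, wl hL k x ε y := by
    rintro e he rfl h
    obtain ⟨h1, h2⟩ := cls_leg_sum hL k x ε he
    rw [h1, h2, h]
  by_cases c1 : ∃ i : ℤ, i % 2 = 0 ∧ Quotient.mk (dr (dih hL x)) (proj M L (fl i)) = q
  · obtain ⟨i, hi, hiq⟩ := c1
    refine red (fl i) (fl_leg H i) hiq ?_
    rcases even_end hL x hi with ⟨j, hj, hf⟩ | ⟨j, hj, hf⟩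
    · exact val_A hA hL k x hi hj hf
    · refine val_B hL k x hε ?_ ?_ ?_
      · rw [hf]
        have := H_pos hL
        simp only
        omega
      · rw [hf, cc_top hL, if_pos hj, if_pos hi]
      · rw [hf]; simp [proj]
  · by_cases c2 : ∃ i : ℤ, Quotient.mk (dr (dih hL x)) (proj M L (fl i)) = q
    · obtain ⟨i, hiq⟩ := c2
      have hi : i % 2 = 1 := by
        by_contra hc
        exact c1 ⟨i, by omega, hiq⟩
      refine red (fl i) (fl_leg H i) hiq ?_
      rcases odd_end hL x hi with ⟨j, hj, hf⟩ | ⟨j, hj, hf⟩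
      · exfalso
        refine c1 ⟨j, hj, ?_⟩
        rw [← hf, hfin, hiq]
      · refine val_B hL k x hε ?_ ?_ ?_
        · rw [hf]
          have := H_pos hL
          simp only
          omega
        · rw [hf, cc_bot hL, if_neg (by omega), if_neg (by omega)]
        · rw [hf]; exact negH hL
    · obtain ⟨y, hy, hyq⟩ := hq
      have hpl : proj M L (lft y) = y := proj_lft y
      have hleg : IsLeg H (lft y) := by
        rw [← leg_iff hL (M := M) (L := L), hpl]; exact hy
      have hpos := H_pos hL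
      have hb : (lft y).1.2 = H := by
        have h1 : (lft y).1.2 = (y.1.2.val : ℤ) := rfl
        obtain ⟨c, hc⟩ := hleg.2
        rw [h1] at hc ⊢
        have h2 := y.1.2.val_lt
        have h3 : (H : ℤ) * c < H * 2 := by rw [← hc]; omega
        have h4 : (H : ℤ) * 0 ≤ H * c := by rw [← hc]; omega
        have h5 : c < 2 := lt_of_mul_lt_mul_left h3 (by omega)
        have h6 : 0 ≤ c := le_of_mul_le_mul_left h4 (by omega)
        have h7 : c ≠ 0 := by
          rintro rfl
          apply c2
          refine ⟨(lft y).1.1, ?_⟩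
          have h8 : lft y = fl (lft y).1.1 := fl_eq hleg (by rw [h1, hc]; ring)
          rw [← h8, hpl, hyq]
        have h8 : c = 1 := by omega
        rw [hc, h8]; ring
      have hcl : Quotient.mk (dr (dih hL x)) (proj M L (lft y)) = q := by rw [hpl]; exact hyq
      refine red (lft y) hleg hcl ?_
      have hnofl : ∀ c : ℤ, (fin hL x (lft y)).1.2 ≠ L * c := by
        intro c hc
        apply c2
        refine ⟨(fin hL x (lft y)).1.1, ?_⟩
        have h8 : proj M L (fl (fin hL x (lft y)).1.1) = proj M L (fin hL x (lft y)) := by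
          have h9 := (fin_leg hL x hleg).1
          unfold fl proj
          simp only [hc, h9]
          simp
        rw [h8, hfin, hcl]
      have hf := hp_facts hL x hleg
      have hend := confine_end hpos hleg hf.1 hf.2.2.2.2.1 hf.2.2.1
      have hfd : (nx (sL (sx hL x)))^[hp hL x (lft y)] (lft y) = fin hL x (lft y) := rfl
      rw [hfd] at hend
      have hLH : (L : ℤ) = 2 * H := by rw [hL]; push_cast; ring
      have hkey : (fin hL x (lft y)).1.2 = H ∧
          ((fin hL x (lft y)).1.1 + H - ((lft y).1.1 + H)) % 2 = 1 := by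
        have n0 := hnofl 0
        have n1 := hnofl 1
        rw [hLH] at n1
        unfold lo at hend
        rw [hb] at hend
        split_ifs at hend with hpar
        · rcases hend with ⟨g1, g2⟩ | ⟨g1, g2⟩
          · exact ⟨g1, by omega⟩
          · exfalso; apply n1; rw [g1]; ring
        · rcases hend with ⟨g1, g2⟩ | ⟨g1, g2⟩
          · exfalso; apply n0; rw [g1]; ring
          · exact ⟨by rw [g1]; ring, by omega⟩
      have e1 : lft y = (((lft y).1.1, (H : ℤ)), true) := by
        rw [← hb, ← hleg.1]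
      have e2 : fin hL x (lft y) = (((fin hL x (lft y)).1.1, (H : ℤ)), true) := by
        rw [← hkey.1, ← (fin_leg hL x hleg).1]
      refine val_C hL k x hleg (by rw [hkey.1, hb]) ?_ ?_ ?_
      · have g1 : cc M L H k (proj M L (lft y)) =
            -(Real.pi / 6) * (if ((lft y).1.1 + H) % 2 = 0 then 1 else -1) := by
          conv_lhs => rw [e1]
          exact cc_top hL k _
        have g2 : cc M L H k (proj M L (fin hL x (lft y))) =
            -(Real.pi / 6) * (if ((fin hL x (lft y)).1.1 + H) % 2 = 0 then 1 else -1) := by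
          conv_lhs => rw [e2]
          exact cc_top hL k _
        rw [g1, g2, ← mul_add, so_par _ _ hkey.2, mul_zero]
      · rw [e1]; simp [proj]
      · rw [e2]; simp [proj]

end Val

end Crest.Agent.R158.Hp854
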