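import Mathlib
import Crest.Agent.R158.Hp7_854

/-!
# R158, block HP1 (helper854), part 8: the arrow reversal identity for the patterns of the cylinder
-/

set_option autoImplicit false
set_option linter.unusedSectionVars false
set_option linter.unusedSimpArgs false
set_option linter.unusedVariables false

namespace Crest.Agent.R158.Hp854

open Finset
open Crest.Agent.R158.Bk430
open Crest.Agent.R158.Ts405 (shE sL per lft proj_lft proj_eq_iff iter_proj nx_proj turn_proj Ctr
  per_pos per_iter per_min hd_proj tl_proj TT_torus T1_closed T1_periodic mp_pos sum_cycle)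

section Val

variable {M L H : ℕ} [NeZero M] [NeZero L] [Fact (Even M)] [Fact (Even L)]

/-- classes of ring loops -/
def Ringq (hL : L = 2 * H) (x : Ct M L H → Bool) (q : Quotient (dr (dih hL x))) : Prop :=
  (¬ ∃ y, re 1 y = y ∧ Quotient.mk (dr (dih hL x)) y = q) ∧
  ∃ y, Quotient.mk (dr (dih hL x)) y = q ∧ ¬ Ctr (sx hL x) (orb (nxE (sx hL x)) y)

open Classical in
/-- number of ring loops -/
noncomputable def nring (hL : L = 2 * H) (x : Ct M L H → Bool) : ℕ :=
  (univ.filter fun q : Quotient (dr (dih hL x)) => Ringq hL x q).card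

theorem Tl_re (hL : L = 2 * H) (x : Ct M L H → Bool) (y0 : ME (ZMod M) (ZMod L)) :
    Tl (sx hL x) (orb (nxE (sx hL x)) (re 1 y0)) = Tl (sx hL x) (orb (nxE (sx hL x)) y0) := by
  classical
  unfold Tl
  symm
  have hd := dih hL x
  refine Finset.sum_bij' (i := fun z _ => re 1 (nx (sx hL x) z))
    (j := fun z _ => (nxE (sx hL x)).symm (re 1 z)) ?_ ?_ ?_ ?_ ?_
  · intro z hz
    rw [mem_filter] at hz ⊢
    refine ⟨mem_univ _, ?_⟩
    have h1 : (nxE (sx hL x)).SameCycle z y0 := Quotient.exact hz.2
    have h2 : (nxE (sx hL x)).SameCycle (nx (sx hL x) z) y0 :=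
      (Equiv.Perm.sameCycle_apply_left (f := nxE (sx hL x))).2 h1
    exact Quotient.sound (hd.same h2)
  · intro z hz
    rw [mem_filter] at hz ⊢
    refine ⟨mem_univ _, ?_⟩
    have h1 : (nxE (sx hL x)).SameCycle z (re 1 y0) := Quotient.exact hz.2
    have h2 := hd.same h1
    rw [hd.inv] at h2
    have h3 : (nxE (sx hL x)).SameCycle ((nxE (sx hL x)).symm (re 1 z)) y0 := by
      have := (Equiv.Perm.sameCycle_apply_left (f := nxE (sx hL x))
        (x := (nxE (sx hL x)).symm (re 1 z)) (y := y0)).1
      rw [Equiv.apply_symm_apply] at this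
      exact this h2
    exact Quotient.sound h3
  · intro z hz
    rw [re_re]
    exact (nxE (sx hL x)).symm_apply_apply z
  · intro z hz
    have : nx (sx hL x) ((nxE (sx hL x)).symm (re 1 z)) = re 1 z :=
      (nxE (sx hL x)).apply_symm_apply _
    rw [this, re_re]
  · intro z hz
    exact (turn_re (oddC_zmod L) (sx_rv hL x) z).symm

theorem ctr_re (hL : L = 2 * H) (x : Ct M L H → Bool) (y0 : ME (ZMod M) (ZMod L)) :
    Ctr (sx hL x) (orb (nxE (sx hL x)) (re 1 y0)) ↔ Ctr (sx hL x) (orb (nxE (sx hL x)) y0) := by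
  have hT := TT_torus (sx hL x)
  have h0 := Tl_re hL x y0
  constructor
  · intro h
    by_contra hc
    have h1 := hT.n_turn _ hc
    rcases hT.c_turn _ h with h2 | h2 <;> omega
  · intro h
    by_contra hc
    have h1 := hT.n_turn _ hc
    rcases hT.c_turn _ h with h2 | h2 <;> omega

open Classical in
/-- value of a class -/
theorem cls_val (hA : ArcTurn) (hL : L = 2 * H) (k : ℕ) (x : Ct M L H → Bool) {ε : ℤ}
    (hε : ε = 1 ∨ ε = -1) (q : Quotient (dr (dih hL x))) :
    2 * Real.cos (∑ y with Quotient.mk (dr (dih hL x)) y = q,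
      (Real.pi / 24 * turn (sx hL x) y + ε * cc M L H k y)) =
    (if Ringq hL x q then 2 else 1) *
      ∏ y with re 1 y = y ∧ Quotient.mk (dr (dih hL x)) y = q, wl hL k x ε y := by
  by_cases hq : ∃ y, re 1 y = y ∧ Quotient.mk (dr (dih hL x)) y = q
  · have h1 : ¬ Ringq hL x q := fun h => h.1 hq
    rw [if_neg h1, one_mul]
    exact cls_leg_val hA hL k x hε q hq
  · have hprod : ∏ y with re 1 y = y ∧ Quotient.mk (dr (dih hL x)) y = q, wl hL k x ε y = 1 := by
      apply Finset.prod_eq_one
      intro y hy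
      rw [mem_filter] at hy
      exact absurd ⟨y, hy.2⟩ hq
    rw [hprod, mul_one]
    obtain ⟨y0, rfl⟩ := Quotient.exists_rep q
    have hns : ¬ (nxE (sx hL x)).SameCycle y0 (re 1 y0) := by
      intro h
      obtain ⟨l, h1, h2⟩ := (dih hL x).fix (re_ne_nx hL x) h
      exact hq ⟨l, h2, Quotient.sound (Or.inl h1.symm)⟩
    have hsum : (∑ y with Quotient.mk (dr (dih hL x)) y = Quotient.mk (dr (dih hL x)) y0,
        (Real.pi / 24 * turn (sx hL x) y + ε * cc M L H k y)) =
        Real.pi / 12 * Tl (sx hL x) (orb (nxE (sx hL x)) y0) := by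
      have h1 : ∀ y ∈ univ.filter (fun y => Quotient.mk (dr (dih hL x)) y =
          Quotient.mk (dr (dih hL x)) y0), (Real.pi / 24 * turn (sx hL x) y + ε * cc M L H k y) =
          Real.pi / 24 * turn (sx hL x) y := by
        intro y hy
        rw [mem_filter] at hy
        rw [cc_zero hL k (fun h => hq ⟨y, h, hy.2⟩), mul_zero, add_zero]
      rw [Finset.sum_congr rfl h1, ← Finset.mul_sum]
      have h2 : univ.filter (fun y => Quotient.mk (dr (dih hL x)) y =
          Quotient.mk (dr (dih hL x)) y0) =
          univ.filter (fun y => orb (nxE (sx hL x)) y = orb (nxE (sx hL x)) y0) ∪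
          univ.filter (fun y => orb (nxE (sx hL x)) y = orb (nxE (sx hL x)) (re 1 y0)) := by
        ext y
        simp only [mem_filter, mem_univ, true_and, mem_union]
        constructor
        · intro h
          have h3 : dr (dih hL x) y y0 := Quotient.exact h
          rcases h3 with h3 | h3
          · exact Or.inl (Quotient.sound h3)
          · exact Or.inr (Quotient.sound h3)
        · rintro (h | h)
          · have h3 : (nxE (sx hL x)).SameCycle y y0 := Quotient.exact h
            exact Quotient.sound (Or.inl h3)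
          · have h3 : (nxE (sx hL x)).SameCycle y (re 1 y0) := Quotient.exact h
            exact Quotient.sound (Or.inr h3)
      have hdis : Disjoint (univ.filter (fun y => orb (nxE (sx hL x)) y = orb (nxE (sx hL x)) y0))
          (univ.filter (fun y => orb (nxE (sx hL x)) y = orb (nxE (sx hL x)) (re 1 y0))) := by
        rw [Finset.disjoint_left]
        intro y hy hy'
        rw [mem_filter] at hy hy'
        have h3 : (nxE (sx hL x)).SameCycle y y0 := Quotient.exact hy.2
        have h4 : (nxE (sx hL x)).SameCycle y (re 1 y0) := Quotient.exact hy'.2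
        exact hns (h3.symm.trans h4)
      rw [h2, Finset.sum_union hdis]
      have h3 := Tl_re hL x y0
      unfold Tl at h3 ⊢
      have h4 : (∑ y with orb (nxE (sx hL x)) y = orb (nxE (sx hL x)) (re 1 y0),
          (turn (sx hL x) y : ℝ)) = ∑ y with orb (nxE (sx hL x)) y = orb (nxE (sx hL x)) y0,
          (turn (sx hL x) y : ℝ) := by
        exact_mod_cast h3
      rw [h4]
      push_cast
      ring
    rw [hsum]
    have hT := TT_torus (sx hL x)
    by_cases hC : Ctr (sx hL x) (orb (nxE (sx hL x)) y0)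
    · have hR : ¬ Ringq hL x (Quotient.mk (dr (dih hL x)) y0) := by
        rintro ⟨-, y, h1, h2⟩
        apply h2
        have h3 : dr (dih hL x) y y0 := Quotient.exact h1
        rcases h3 with h3 | h3
        · have : orb (nxE (sx hL x)) y = orb (nxE (sx hL x)) y0 := Quotient.sound h3
          rw [this]; exact hC
        · have : orb (nxE (sx hL x)) y = orb (nxE (sx hL x)) (re 1 y0) := Quotient.sound h3
          rw [this, ctr_re]; exact hC
      rw [if_neg hR]
      rcases hT.c_turn _ hC with h1 | h1
      · rw [h1]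
        rw [show Real.pi / 12 * ((4 : ℤ) : ℝ) = Real.pi / 3 by push_cast; ring,
          Real.cos_pi_div_three]
        norm_num
      · rw [h1]
        rw [show Real.pi / 12 * ((-4 : ℤ) : ℝ) = -(Real.pi / 3) by push_cast; ring,
          Real.cos_neg, Real.cos_pi_div_three]
        norm_num
    · have hR : Ringq hL x (Quotient.mk (dr (dih hL x)) y0) := ⟨hq, y0, rfl, hC⟩
      rw [if_pos hR, hT.n_turn _ hC, Int.cast_zero, mul_zero, Real.cos_zero, mul_one]

theorem prod_range_zmod (f : ℤ → ℝ) : ∏ a : ZMod M, f (a.val : ℤ) = ∏ i ∈ range M, f i := by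
  symm
  refine Finset.prod_bij' (i := fun i _ => (i : ZMod M)) (j := fun a _ => a.val) ?_ ?_ ?_ ?_ ?_
  · intro i _; exact mem_univ _
  · intro a _; rw [mem_range]; exact a.val_lt
  · intro i hi
    rw [mem_range] at hi
    exact ZMod.val_cast_of_lt hi
  · intro a _; simp
  · intro i hi
    rw [mem_range] at hi
    rw [ZMod.val_cast_of_lt hi]

open Classical in
/-- product over the legs -/
theorem prod_legs (hL : L = 2 * H) (k : ℕ) (x : Ct M L H → Bool) (ε : ℤ) :
    ∏ y : ME (ZMod M) (ZMod L) with re 1 y = y, wl hL k x ε y =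
      kz ^ (univ.filter fun y : ME (ZMod M) (ZMod L) => re 1 y = y).card *
      ∏ i ∈ range M, fac M k (sgm hL x) ε i := by
  unfold wl
  rw [Finset.prod_mul_distrib, Finset.prod_const]
  congr 1
  rw [← prod_range_zmod (M := M) (fun i => fac M k (sgm hL x) ε i)]
  rw [← Finset.prod_filter, Finset.filter_filter]
  symm
  refine Finset.prod_bij' (i := fun a _ => (((a, 0), true) : ME (ZMod M) (ZMod L)))
    (j := fun y _ => y.1.1) ?_ ?_ ?_ ?_ ?_
  · intro a _
    rw [mem_filter]
    refine ⟨mem_univ _, ?_, rfl⟩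
    simp [re]
  · intro y _; exact mem_univ _
  · intro a _; rfl
  · intro y hy
    rw [mem_filter] at hy
    obtain ⟨-, h1, h2⟩ := hy
    obtain ⟨⟨a, b⟩, d⟩ := y
    simp only at h2 ⊢
    subst h2
    cases d
    · exfalso
      have h3 : (1 : ZMod L) - 0 = 0 := by
        have := congrArg (fun e : ME (ZMod M) (ZMod L) => e.1.2) h1
        simpa [re] using this
      have h4 := oddC_zmod L (0 : ZMod L)
      rw [h3] at h4
      cases h5 : par (0 : ZMod L) <;> rw [h5] at h4 <;> simp at h4
    · rfl
  · intro a _; rfl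

/-- the constant factor -/
noncomputable def K0 (M L : ℕ) [NeZero M] [NeZero L] [Fact (Even M)] [Fact (Even L)] : ℝ := by
  classical exact kz ^ (univ.filter fun y : ME (ZMod M) (ZMod L) => re 1 y = y).card

theorem K0_pos (M L : ℕ) [NeZero M] [NeZero L] [Fact (Even M)] [Fact (Even L)] : 0 < K0 M L := by
  unfold K0
  have : 0 < kz := Real.sqrt_pos.2 (Real.sqrt_pos.2 (by norm_num))
  positivity

open Classical in
theorem prod_cls (hA : ArcTurn) (hL : L = 2 * H) (k : ℕ) (x : Ct M L H → Bool) {ε : ℤ}
    (hε : ε = 1 ∨ ε = -1) :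
    ∏ q : Quotient (dr (dih hL x)), 2 * Real.cos
      (∑ y with Quotient.mk (dr (dih hL x)) y = q,
        (Real.pi / 24 * turn (sx hL x) y + ε * cc M L H k y)) =
    K0 M L * wt M k (sgm hL x) (nring hL x) ε := by
  simp_rw [cls_val hA hL k x hε]
  rw [Finset.prod_mul_distrib]
  have h1 : ∏ q : Quotient (dr (dih hL x)), (if Ringq hL x q then (2 : ℝ) else 1) =
      2 ^ nring hL x := by
    rw [Finset.prod_ite, Finset.prod_const_one, mul_one, Finset.prod_const]
    unfold nring
    rfl
  have h2 : ∏ q : Quotient (dr (dih hL x)),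
      ∏ y with re 1 y = y ∧ Quotient.mk (dr (dih hL x)) y = q, wl hL k x ε y =
      ∏ y : ME (ZMod M) (ZMod L) with re 1 y = y, wl hL k x ε y := by
    rw [← Finset.prod_fiberwise (s := univ.filter fun y : ME (ZMod M) (ZMod L) => re 1 y = y)
      (g := fun y => Quotient.mk (dr (dih hL x)) y)]
    refine Finset.prod_congr rfl fun q _ => ?_
    rw [Finset.filter_filter]
  rw [h1, h2, prod_legs]
  unfold wt K0
  ring

/-- **the arrow reversal identity on the cylinder** -/
theorem ari (hA : ArcTurn) (hL : L = 2 * H) (k : ℕ) :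
    ∑ x : Ct M L H → Bool, wt M k (sgm hL x) (nring hL x) 1 =
    ∑ x : Ct M L H → Bool, wt M k (sgm hL x) (nring hL x) (-1) := by
  classical
  have h1 := Zc_neg (M := M) (L := L) (H := H) (cc M L H k)
  rw [Zc_eq hL, Zc_eq hL] at h1
  have h2 := Complex.ofReal_injective h1
  have e1 : ∀ x : Ct M L H → Bool, (∏ q : Quotient (dr (dih hL x)), 2 * Real.cos
      (∑ e with Quotient.mk (dr (dih hL x)) e = q,
        (Real.pi / 24 * turn (sx hL x) e + cc M L H k e))) =
      K0 M L * wt M k (sgm hL x) (nring hL x) 1 := by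
    intro x
    rw [← prod_cls hA hL k x (Or.inl rfl)]
    simp
  have e2 : ∀ x : Ct M L H → Bool, (∏ q : Quotient (dr (dih hL x)), 2 * Real.cos
      (∑ e with Quotient.mk (dr (dih hL x)) e = q,
        (Real.pi / 24 * turn (sx hL x) e + -cc M L H k e))) =
      K0 M L * wt M k (sgm hL x) (nring hL x) (-1) := by
    intro x
    rw [← prod_cls hA hL k x (Or.inr rfl)]
    simp
  simp_rw [e1, e2] at h2
  rw [← Finset.mul_sum, ← Finset.mul_sum] at h2
  exact (mul_left_cancel₀ (K0_pos M L).ne' h2).symm

end Val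

end Crest.Agent.R158.Hp854
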