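import Mathlib
import Crest.Agent.R158.Hp8_854
import Crest.Agent.R158.Nm7_211

/-!
# R158, block HP1 (helper440): the ring loops of the cylinder are counted by `LR` (J2)

* `cs e` : the state of the medial edge `e` in its canonical direction, `edg c` : the edge of a state
* `ring_data` : for every class of ring loops a state in the rows `1..H` of the plane whose strand
  moves to the right by a positive multiple of `M`
* `nring_le_LR`
-/

set_option autoImplicit false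
set_option linter.unusedSectionVars false
set_option linter.unusedSimpArgs false
set_option linter.unusedVariables false

namespace Crest.Agent.R158.Hp854

open Finset
open Crest.Agent.R158.Bk430
open Crest.Agent.R158.Ts405 (shE sL per proj_lft proj_eq_iff iter_proj nx_proj Ctr
  per_pos per_iter hd_proj tl_proj lift_iter even_MP)
open Crest.Agent.R158.Nm211 (St Dir nx6 mv trn opp rev rev_nx prj prj_iter LR dx dy)

/-! ### states and edges -/

section Gen

variable {G : Type*} [AddGroupWithOne G] [HasPar G]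

/-- the state of an edge in its canonical direction -/
def cs (e : ME G ℤ) : St G :=
  (hd e, if e.2 then (if vp e.1 then 2 else 0) else (if vp e.1 then 1 else 3))

/-- the edge of a state -/
def edg (c : St G) : ME G ℤ :=
  match c.2 with
  | 0 => ((c.1.1, c.1.2 - 1), true)
  | 1 => ((c.1.1 - 1, c.1.2), false)
  | 2 => (c.1, true)
  | 3 => (c.1, false)

theorem cs_nx (s : G × ℤ → Bool) (e : ME G ℤ) : cs (nx s e) = nx6 s (cs e) := by
  obtain ⟨⟨a, b⟩, d⟩ := e
  have g1 : vp (a, b + -1) = !vp (a, b) := by rw [← sub_eq_add_neg]; exact vp_sub_snd a b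
  have g2 : vp (a + -1, b) = !vp (a, b) := by rw [← sub_eq_add_neg]; exact vp_sub_fst a b
  cases d <;> cases hv : vp (a, b) <;> simp only [nx, cs, nx6, hd, hv, Bool.false_eq_true,
    if_false, if_true, Bool.not_true, Bool.not_false]
  all_goals
    rw [hv] at g1 g2
    split_ifs with h <;> simp_all [trn, mv, dx, dy, vp_add_fst, vp_add_snd, vp_sub_fst, vp_sub_snd,
      sub_eq_add_neg]

theorem edg_cs (e : ME G ℤ) : edg (cs e) = e := by
  obtain ⟨⟨a, b⟩, d⟩ := e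
  cases d <;> cases hv : vp (a, b) <;> simp [cs, edg, hd, hv]

theorem edg_rev (c : St G) : edg (rev c) = edg c := by
  obtain ⟨⟨a, b⟩, d⟩ := c
  fin_cases d <;> simp [rev, edg, opp, mv, dx, dy, sub_eq_add_neg]

theorem rev_cs_row (e : ME G ℤ) : (rev (cs e)).1.2 = (tl e).2 := by
  obtain ⟨⟨a, b⟩, d⟩ := e
  cases d <;> cases hv : vp (a, b) <;> simp [cs, rev, opp, mv, dx, dy, hd, tl, hv]

theorem cs_iter (s : G × ℤ → Bool) (e : ME G ℤ) (k : ℕ) :
    cs ((nx s)^[k] e) = (nx6 s)^[k] (cs e) := by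
  induction k with
  | zero => rfl
  | succ k ih => rw [Function.iterate_succ_apply', Function.iterate_succ_apply', cs_nx, ih]

end Gen

/-! ### translations -/

/-- horizontal translation of a state -/
def tS (T : ℤ) (c : St ℤ) : St ℤ := ((c.1.1 + T, c.1.2), c.2)

theorem tS_tS (T T' : ℤ) (c : St ℤ) : tS T (tS T' c) = tS (T' + T) c := by
  simp [tS, add_assoc]

theorem tS_zero (c : St ℤ) : tS 0 c = c := by
  simp [tS]

theorem tS_nx {u u' : ℤ × ℤ → Bool} {T : ℤ} (h : ∀ v : ℤ × ℤ, u' v = u (v.1 + T, v.2)) (c : St ℤ) :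
    tS T (nx6 u' c) = nx6 u (tS T c) := by
  obtain ⟨⟨a, b⟩, d⟩ := c
  simp only [tS, nx6, mv, h]
  simp only [Prod.mk.injEq, and_true, Int.cast_id]
  ring

theorem tS_iter {u u' : ℤ × ℤ → Bool} {T : ℤ} (h : ∀ v : ℤ × ℤ, u' v = u (v.1 + T, v.2)) (c : St ℤ)
    (k : ℕ) : tS T ((nx6 u')^[k] c) = (nx6 u)^[k] (tS T c) := by
  induction k with
  | zero => rfl
  | succ k ih => rw [Function.iterate_succ_apply', Function.iterate_succ_apply', tS_nx h, ih]

theorem rev_tS (T : ℤ) (c : St ℤ) : rev (tS T c) = tS T (rev c) := by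
  obtain ⟨⟨a, b⟩, d⟩ := c
  simp only [tS, rev, mv, Prod.mk.injEq, and_true, Int.cast_id]
  ring

theorem edg_tS (T : ℤ) (c : St ℤ) : edg (tS T c) = shE (T, 0) (edg c) := by
  obtain ⟨⟨a, b⟩, d⟩ := c
  fin_cases d <;> simp [tS, edg, shE]
  ring

theorem hd_shE {P : ℤ × ℤ} (hP : (P.1 + P.2) % 2 = 0) (e : ME ℤ ℤ) :
    hd (shE P e) = ((hd e).1 + P.1, (hd e).2 + P.2) := by
  obtain ⟨⟨i, j⟩, c⟩ := e
  have h1 : vp ((i + P.1, j + P.2) : ℤ × ℤ) = vp ((i, j) : ℤ × ℤ) := by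
    rw [Ts405.vp_int, Ts405.vp_int]
    congr 1
    apply propext
    omega
  cases c <;> cases hv : vp ((i, j) : ℤ × ℤ) <;> rw [hv] at h1 <;>
    simp [hd, shE, h1, hv] <;> ring

theorem cs_shE {T : ℤ} (hT : T % 2 = 0) (e : ME ℤ ℤ) : cs (shE (T, 0) e) = tS T (cs e) := by
  have h := hd_shE (P := (T, 0)) (by simpa using hT) e
  obtain ⟨⟨i, j⟩, c⟩ := e
  have h1 : vp ((i + T, j + 0) : ℤ × ℤ) = vp ((i, j) : ℤ × ℤ) := by
    rw [Ts405.vp_int, Ts405.vp_int]
    congr 1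
    apply propext
    omega
  rw [add_zero] at h1
  unfold cs tS
  rw [h]
  simp only [shE, add_zero, h1]

/-! ### confinement -/

theorem strip_iff {H : ℕ} {f : ME ℤ ℤ} (hl : ¬ IsLeg H f) :
    (1 ≤ (hd f).2 ∧ (hd f).2 ≤ H) ↔ (1 ≤ (tl f).2 ∧ (tl f).2 ≤ H) := by
  obtain ⟨⟨i, b⟩, d⟩ := f
  cases d
  · obtain ⟨g1, g2⟩ := hd_tl_horiz i b
    rw [g1, g2]
  · have hb : ¬ (H : ℤ) ∣ b := fun h => hl ⟨rfl, h⟩
    have hb1 : b ≠ 0 := fun h => hb (h ▸ dvd_zero _)
    have hb2 : b ≠ H := fun h => hb (h ▸ dvd_refl _)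
    rw [tl_vert, hd_vert]
    split_ifs <;> simp only <;> omega

theorem strip_iter {H : ℕ} {s : ℤ × ℤ → Bool} {e : ME ℤ ℤ}
    (hn : ∀ j, ¬ IsLeg H ((nx s)^[j] e)) (h : 1 ≤ (hd e).2 ∧ (hd e).2 ≤ H) (j : ℕ) :
    1 ≤ (hd ((nx s)^[j] e)).2 ∧ (hd ((nx s)^[j] e)).2 ≤ H := by
  induction j with
  | zero => exact h
  | succ j ih =>
    have h1 := hn (j + 1)
    rw [Function.iterate_succ_apply'] at h1 ⊢
    rw [strip_iff h1, tl_nx]
    exact ih

/-! ### the ring loops -/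

section Ring

variable {M L H : ℕ} [NeZero M] [NeZero L] [Fact (Even M)] [Fact (Even L)]

theorem proj_shE (T : ℤ) (hT : (M : ℤ) ∣ T) (e : ME ℤ ℤ) :
    proj M L (shE (T, 0) e) = proj M L e := by
  obtain ⟨k, rfl⟩ := hT
  simp [proj, shE]

theorem proj_shE' (a b : ℤ) (e : ME ℤ ℤ) :
    proj M L (shE (M * a, L * b) e) = proj M L e := by
  simp [proj, shE]

/-- a lift whose head is in the rows `1, …, H` -/
theorem exists_lift (y : ME (ZMod M) (ZMod L)) (hy : InC M L H (hd y)) :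
    ∃ e : ME ℤ ℤ, proj M L e = y ∧ 1 ≤ (hd e).2 ∧ (hd e).2 ≤ H := by
  set f : ME ℤ ℤ := Ts405.lft y with hf
  have hp : proj M L f = y := proj_lft y
  set b : ℤ := -((hd f).2 / L) with hb
  refine ⟨shE (M * 0, L * b) f, by rw [proj_shE', hp], ?_⟩
  rw [hd_shE (P := (M * 0, L * b)) (even_MP M L 0 b)]
  simp only
  have h1 : (hd y).2 = ((hd f).2 : ZMod L) := by
    rw [← hp, hd_proj]
  have h2 : (((hd y).2.val : ℕ) : ℤ) = (hd f).2 % L := by
    rw [h1, val_int]
  have h3 := Int.emod_add_mul_ediv (hd f).2 L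
  have h4 : (hd f).2 + L * b = (hd f).2 % L := by
    rw [hb]; linarith
  rw [h4, ← h2]
  obtain ⟨h5, h6⟩ := hy
  exact ⟨by exact_mod_cast h5, by exact_mod_cast h6⟩

theorem ring_rep (hL : L = 2 * H) (x : Ct M L H → Bool) (q : Quotient (dr (dih hL x)))
    (hq : Ringq hL x q) : ∃ e : ME ℤ ℤ, Quotient.mk (dr (dih hL x)) (proj M L e) = q ∧
      ¬ Ctr (sx hL x) (orb (nxE (sx hL x)) (proj M L e)) ∧ 1 ≤ (hd e).2 ∧ (hd e).2 ≤ H := by
  obtain ⟨-, y, hy, hc⟩ := hq
  by_cases h : InC M L H (hd y)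
  · obtain ⟨e, he, h1, h2⟩ := exists_lift y h
    exact ⟨e, by rw [he]; exact hy, by rw [he]; exact hc, h1, h2⟩
  · have hn : (nxE (sx hL x)).SameCycle (nx (sx hL x) y) y :=
      (Equiv.Perm.sameCycle_apply_left (f := nxE (sx hL x))).2 (Equiv.Perm.SameCycle.refl _ _)
    have h1 : hd (re 1 (nx (sx hL x) y)) = rv 1 (hd y) := by
      rw [hd_re (oddC_zmod L), tl_nx]
    have h2 : InC M L H (hd (re 1 (nx (sx hL x) y))) := by
      rw [h1, inC_rv hL]; exact h
    obtain ⟨e, he, h3, h4⟩ := exists_lift _ h2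
    refine ⟨e, ?_, ?_, h3, h4⟩
    · rw [he, ← hy]
      refine Quotient.sound (Or.inr ?_)
      exact (dih hL x).same hn
    · rw [he, ctr_re]
      have h5 : orb (nxE (sx hL x)) (nx (sx hL x) y) = orb (nxE (sx hL x)) y := Quotient.sound hn
      rw [h5]
      exact hc

theorem ring_plane (hL : L = 2 * H) (x : Ct M L H → Bool) (q : Quotient (dr (dih hL x)))
    (hq : Ringq hL x q) : ∃ (e : ME ℤ ℤ) (p : ℕ) (a : ℤ), 0 < p ∧ a ≠ 0 ∧
      (nx (sL (sx hL x)))^[p] e = shE (M * a, 0) e ∧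
      ∀ j, (Quotient.mk (dr (dih hL x)) (proj M L ((nx (sL (sx hL x)))^[j] e)) = q ∧
        (1 ≤ (hd ((nx (sL (sx hL x)))^[j] e)).2 ∧ (hd ((nx (sL (sx hL x)))^[j] e)).2 ≤ H) ∧
        (1 ≤ (tl ((nx (sL (sx hL x)))^[j] e)).2 ∧ (tl ((nx (sL (sx hL x)))^[j] e)).2 ≤ H)) := by
  obtain ⟨e, h1, h2, h3, h4⟩ := ring_rep hL x q hq
  have hcl : ∀ j, Quotient.mk (dr (dih hL x)) (proj M L ((nx (sL (sx hL x)))^[j] e)) = q := by
    intro j
    rw [← h1]
    refine Quotient.sound (Or.inl ?_)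
    rw [iter_proj]
    exact (iter_same (nxE (sx hL x)) _ j).symm
  have hn : ∀ j, ¬ IsLeg H ((nx (sL (sx hL x)))^[j] e) := by
    intro j hj
    rw [← leg_iff hL (M := M)] at hj
    exact hq.1 ⟨_, hj, hcl j⟩
  have hrow := strip_iter hn ⟨h3, h4⟩
  have hrow' : ∀ j, 1 ≤ (tl ((nx (sL (sx hL x)))^[j] e)).2 ∧
      (tl ((nx (sL (sx hL x)))^[j] e)).2 ≤ H := fun j => (strip_iff (hn j)).1 (hrow j)
  obtain ⟨a, b, hab⟩ := lift_iter (sx hL x) e
  have hb : b = 0 := by
    have g := hrow (per (sx hL x) (proj M L e))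
    rw [hab, hd_shE (P := (M * a, L * b)) (even_MP M L a b)] at g
    simp only at g
    have hL' : (L : ℤ) = 2 * H := by rw [hL]; push_cast; ring
    by_contra hb
    rcases lt_or_gt_of_ne hb with hb | hb
    · have : (L : ℤ) * b ≤ L * (-1) := mul_le_mul_of_nonneg_left (by omega) (by positivity)
      omega
    · have : (L : ℤ) * 1 ≤ L * b := mul_le_mul_of_nonneg_left (by omega) (by positivity)
      omega
  subst hb
  have ha : a ≠ 0 := by
    rintro rfl
    apply h2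
    rw [ctr_iff, hab]
    simp [shE]
  refine ⟨e, per (sx hL x) (proj M L e), a, per_pos _ _, ha, ?_, fun j =>
    ⟨hcl j, hrow j, hrow' j⟩⟩
  rw [hab, mul_zero]

/-- **a state of every ring loop** -/
theorem ring_data (hL : L = 2 * H) (x : Ct M L H → Bool) (q : Quotient (dr (dih hL x)))
    (hq : Ringq hL x q) : ∃ (c : St ℤ) (p : ℕ) (a : ℤ), 0 < a ∧
      (nx6 (sL (sx hL x)))^[p] c = tS (M * a) c ∧
      ∀ j, (Quotient.mk (dr (dih hL x)) (proj M L (edg ((nx6 (sL (sx hL x)))^[j] c))) = q ∧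
        (1 ≤ ((nx6 (sL (sx hL x)))^[j] c).1.2 ∧ ((nx6 (sL (sx hL x)))^[j] c).1.2 ≤ H)) := by
  obtain ⟨e, p, a, hp, ha, hpe, hj⟩ := ring_plane hL x q hq
  have hev : ∀ a : ℤ, ((M : ℤ) * a) % 2 = 0 := fun a => by
    have := even_MP M L a 0
    simpa using this
  rcases lt_or_gt_of_ne ha with h0 | h0
  · -- backwards
    have hu : ∀ (a : ℤ) (v : ℤ × ℤ), sL (sx hL x) v = sL (sx hL x) (v.1 + M * a, v.2) := by
      intro a v
      simp [sL]
    have h1 : (nx6 (sL (sx hL x)))^[p] (cs e) = tS (M * a) (cs e) := by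
      rw [← cs_iter, hpe, cs_shE (hev a)]
    -- reversed strand
    have hrv : ∀ (k : ℕ) (c : St ℤ), (nx6 (sL (sx hL x)))^[k]
        (rev ((nx6 (sL (sx hL x)))^[k] c)) = rev c := by
      intro k
      induction k with
      | zero => intro c; rfl
      | succ k ih =>
        intro c
        rw [Function.iterate_succ_apply, Function.iterate_succ_apply' (n := k) (x := c), rev_nx]
        exact ih c
    have h2 := hrv p (cs e)
    rw [h1, rev_tS, ← tS_iter (hu a)] at h2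
    have h3 : (nx6 (sL (sx hL x)))^[p] (rev (cs e)) = tS (M * (-a)) (rev (cs e)) :=
      calc (nx6 (sL (sx hL x)))^[p] (rev (cs e)) =
          tS (M * (-a)) (tS (M * a) ((nx6 (sL (sx hL x)))^[p] (rev (cs e)))) := by
            rw [tS_tS, show (M : ℤ) * a + M * (-a) = 0 by ring, tS_zero]
        _ = tS (M * (-a)) (rev (cs e)) := by rw [h2]
    have key : ∀ j, ∃ (k : ℕ) (Q : ℤ), (nx6 (sL (sx hL x)))^[j] (rev (cs e)) =
        tS (M * Q) (rev (cs ((nx (sL (sx hL x)))^[k] e))) := by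
      intro j
      induction j with
      | zero => exact ⟨0, 0, by simp [tS_zero]⟩
      | succ j ih =>
        obtain ⟨k, Q, hk⟩ := ih
        -- make `k` positive
        have hk' : ∃ (k' : ℕ) (Q' : ℤ), (nx6 (sL (sx hL x)))^[j] (rev (cs e)) =
            tS (M * Q') (rev (cs ((nx (sL (sx hL x)))^[k' + 1] e))) := by
          rcases Nat.eq_zero_or_pos k with h | h
          · subst h
            obtain ⟨p', rfl⟩ : ∃ p', p = p' + 1 := ⟨p - 1, by omega⟩
            refine ⟨p', Q - a, ?_⟩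
            rw [hk, hpe, cs_shE (hev a), rev_tS, tS_tS]
            simp only [Function.iterate_zero, id_eq]
            congr 1; ring
          · obtain ⟨k', rfl⟩ : ∃ k', k = k' + 1 := ⟨k - 1, by omega⟩
            exact ⟨k', Q, hk⟩
        obtain ⟨k', Q', hk'⟩ := hk'
        refine ⟨k', Q', ?_⟩
        rw [Function.iterate_succ_apply', hk', ← tS_nx (hu Q'),
          Function.iterate_succ_apply' (n := k') (x := e), cs_nx, rev_nx]
    refine ⟨rev (cs e), p, -a, by omega, h3, fun j => ?_⟩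
    obtain ⟨k, Q, hk⟩ := key j
    obtain ⟨g1, g2, g3⟩ := hj k
    rw [hk]
    refine ⟨?_, ?_⟩
    · rw [edg_tS, edg_rev, edg_cs, proj_shE _ (dvd_mul_right _ _)]
      exact g1
    · have : (tS (M * Q) (rev (cs ((nx (sL (sx hL x)))^[k] e)))).1.2 =
          (tl ((nx (sL (sx hL x)))^[k] e)).2 := by
        rw [← rev_cs_row]; rfl
      rw [this]; exact g3
  · refine ⟨cs e, p, a, h0, ?_, fun j => ?_⟩
    · rw [← cs_iter, hpe, cs_shE (hev a)]
    · obtain ⟨g1, g2, g3⟩ := hj j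
      rw [← cs_iter, edg_cs]
      exact ⟨g1, g2⟩

theorem edg_eq {T : ℤ} {c c' : St ℤ} (h : prj M (tS T c) = prj M (tS T c')) :
    proj M L (edg c) = proj M L (edg c') := by
  obtain ⟨⟨a, b⟩, d⟩ := c
  obtain ⟨⟨a', b'⟩, d'⟩ := c'
  simp only [prj, Nm211.prv, tS, Prod.mk.injEq] at h
  obtain ⟨⟨h1, h2⟩, h3⟩ := h
  subst h2 h3
  have h4 : (a : ZMod M) = (a' : ZMod M) := by
    push_cast at h1
    exact add_right_cancel h1
  fin_cases d <;> simp [edg, proj, h4]

/-- **J2** -/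
theorem nring_le_LR (hL : L = 2 * H) (hM : 3 ≤ M) (x : Ct M L H → Bool) (τ : ZMod M) :
    nring hL x ≤ LR M 1 H (fun v : ZMod M × ℤ => sx hL x (v.1 + τ, (v.2 : ZMod L))) := by
  classical
  set t : ZMod M × ℤ → Bool := fun v => sx hL x (v.1 + τ, (v.2 : ZMod L)) with ht
  set T : ℤ := (τ.val : ℤ) with hT
  have hlft : ∀ v : ℤ × ℤ, Nm211.lft t v = sL (sx hL x) (v.1 + T, v.2) := by
    intro v
    simp [Nm211.lft, Nm211.prv, ht, sL, hT]
  choose c0 p a ha hp hj using fun l : {q // Ringq hL x q} => ring_data hL x l.1 l.2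
  have hcard : nring hL x = Fintype.card {q // Ringq hL x q} := by
    unfold nring
    rw [Fintype.card_subtype]
  have hit : ∀ (l : {q // Ringq hL x q}) (j : ℕ),
      (nx6 (Nm211.lft t))^[j] (tS (-T) (c0 l)) = tS (-T) ((nx6 (sL (sx hL x)))^[j] (c0 l)) := by
    intro l j
    have h1 := tS_iter hlft (tS (-T) (c0 l)) j
    rw [tS_tS, neg_add_cancel, tS_zero] at h1
    rw [← h1, tS_tS, add_neg_cancel, tS_zero]
  have hM1 : (1 : ℤ) ≤ M := by exact_mod_cast (by omega : 1 ≤ M)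
  have hper : ∀ (l : {q // Ringq hL x q}) (K : ℕ),
      (nx6 (sL (sx hL x)))^[K * p l] (c0 l) = tS (M * a l * K) (c0 l) := by
    intro l K
    induction K with
    | zero => simp [tS_zero]
    | succ K ih =>
      have hu : ∀ v : ℤ × ℤ, sL (sx hL x) v = sL (sx hL x) (v.1 + M * a l * K, v.2) := by
        intro v
        simp [sL, mul_assoc]
      rw [Nat.succ_mul, Nat.add_comm, Function.iterate_add_apply, ih, ← tS_iter hu, hp l, tS_tS]
      congr 1
      push_cast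
      ring
  rw [hcard]
  refine Nm211.loops_le_LR hM t (fun l => tS (-T) (c0 l))
    (fun l => (2 * (tS (-T) (c0 l)).1.1.natAbs + 2) * p l)
    (fun l => ((tS (-T) (c0 l)).1.1.natAbs : ℤ)) ?_ ?_ ?_ ?_
  · intro l j _
    rw [hit]
    obtain ⟨h1, h2⟩ := (hj l j).2
    show 1 ≤ ((nx6 (sL (sx hL x)))^[j] (c0 l)).1.2 ∧ ((nx6 (sL (sx hL x)))^[j] (c0 l)).1.2 < 1 + H
    omega
  · intro l
    have h1 : (0 : ℤ) ≤ ((tS (-T) (c0 l)).1.1.natAbs : ℤ) := by positivity
    have h2 : ((tS (-T) (c0 l)).1.1.natAbs : ℤ) * 1 ≤ ((tS (-T) (c0 l)).1.1.natAbs : ℤ) * M :=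
      mul_le_mul_of_nonneg_left hM1 h1
    omega
  · intro l
    rw [hit, hper]
    set A := (tS (-T) (c0 l)).1.1 with hA
    have h0 : (tS (-T) (tS (M * a l * ((2 * A.natAbs + 2 : ℕ) : ℤ)) (c0 l))).1.1 =
        A + M * a l * (2 * (A.natAbs : ℤ) + 2) := by
      rw [hA]
      simp only [tS]
      push_cast
      ring
    rw [h0]
    have h1 : (0 : ℤ) ≤ (A.natAbs : ℤ) := by positivity
    have h2 : (A.natAbs : ℤ) * 1 ≤ (A.natAbs : ℤ) * M := mul_le_mul_of_nonneg_left hM1 h1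
    have h3 : (M : ℤ) * 1 ≤ M * a l := mul_le_mul_of_nonneg_left (by have := ha l; omega) (by omega)
    have h4 : (M : ℤ) * 1 * (2 * (A.natAbs : ℤ) + 2) ≤ M * a l * (2 * (A.natAbs : ℤ) + 2) :=
      mul_le_mul_of_nonneg_right h3 (by omega)
    have h5 : (M : ℤ) / 2 ≤ M := Int.ediv_le_self _ (by omega)
    have h6 : (M : ℤ) * 1 * (2 * (A.natAbs : ℤ) + 2) = 2 * ((A.natAbs : ℤ) * M) + 2 * M := by ring
    have h7 : -(A.natAbs : ℤ) ≤ A := by omega
    have h8 : (M : ℤ) / 2 + 1 ≤ M := by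
      have := Int.emod_add_mul_ediv (M : ℤ) 2
      omega
    linarith
  · intro l l' hne i j h
    apply hne
    rw [← prj_iter, ← prj_iter, hit, hit] at h
    have h1 := edg_eq (L := L) h
    apply Subtype.ext
    rw [← (hj l i).1, ← (hj l' j).1, h1]

end Ring

end Crest.Agent.R158.Hp854
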