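import Crest.Agent.R158.Hp14_854
import Crest.Agent.R158.Hp13_440
import Crest.Agent.R158.Hr2_440

/-!
# R158, block HP1 (helper440): HP1 closed
-/

set_option autoImplicit false

namespace Crest.Agent.R158.Hp854

theorem nringLR : NringLR := by
  intro M L H _ _ _ _ hL hM x τ
  exact nring_le_LR hL hM x τ

theorem hp1_in : HP1in := hp1in nringLR

/-- **HP1** -/
theorem hp1_out : HP1out := hp1_of hp1_in

end Crest.Agent.R158.Hp854
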