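import Crest.Agent.R158.Zm2_180
import Crest.Agent.R158.Hr3_440

/-!
# Row 158 (helper612): the budget (H)

* `pm_up` : `Pm n ≤ C n^(-1/3)`
* `budget`, `budget_x2`
-/

set_option autoImplicit false

noncomputable section

namespace Crest.Agent.R158.Bu612

open Real Filter
open Crest.Agent.R158.Nz399 (Pm)
open Crest.Agent.R158.Zm180 (pm_aw pm_ext pm_lower pm_anti)

theorem pm_up : ∃ C : ℝ, 0 < C ∧ ∀ n : ℕ, 1 ≤ n → Pm n ≤ C * (n : ℝ) ^ (-(1 / 3 : ℝ)) := by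
  obtain ⟨C, hC, h⟩ := Hp854.hp1_out
  exact ⟨C, hC, fun n hn => by rw [pm_aw hn]; exact h n hn⟩

theorem pm_nonneg (n : ℕ) : 0 ≤ Pm n := MeasureTheory.measureReal_nonneg

/-- square roots of products -/
theorem prod_le_of_sq {x y s t : ℝ} (hs : 0 ≤ s) (ht : 0 ≤ t)
    (h : x ^ 2 * y ^ 2 ≤ s ^ 2 * t) : x * y ≤ s * √t := by
  have h1 : (x * y) ^ 2 ≤ (s * √t) ^ 2 := by
    rw [mul_pow, mul_pow, sq_sqrt ht]
    exact h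
  exact le_of_sq_le_sq h1 (by positivity)

/-- **the budget of the family** -/
theorem budget {ε : ℝ} (hε : 0 < ε) {κ : ℕ} (hκ : 1 ≤ κ) {C0 c0 : ℝ} (hC0 : 0 < C0)
    (hc0 : 0 < c0) : ∃ C : ℝ, 0 < C ∧ ∀ n : ℕ, 1 ≤ n → ∀ {ι : Type*} (J : Finset ι) (I O : ι → ℝ)
      (S Z : ℝ), 0 < S → (J.card : ℝ) ≤ C0 * n →
      (∀ μ ∈ J, I μ ^ 2 * O μ ^ 2 ≤ S ^ 2 * (C0 * (n : ℝ) ^ ε * Pm n ^ 4 * (n : ℝ)⁻¹)) →
      c0 * S * Pm (κ * n) ≤ Z →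
      ∑ μ ∈ J, I μ * O μ ≤ C * (n : ℝ) ^ (1 / 6 + ε) * Z := by
  obtain ⟨C1, hC1, hup⟩ := pm_up
  obtain ⟨c1, hc1, hext⟩ := pm_ext κ hκ
  refine ⟨C0 * √C0 * C1 / (c0 * c1), by positivity, ?_⟩
  intro n hn ι J I O S Z hS hJ hb hZ
  have hn1 : (1 : ℝ) ≤ n := by exact_mod_cast hn
  have hn0 : (0 : ℝ) < n := by linarith
  have hP := pm_nonneg n
  have hu := hup n hn
  have he := hext n hn
  -- one member
  have h1 : ∀ μ ∈ J, I μ * O μ ≤ S * (√C0 * (n : ℝ) ^ (ε / 2) * Pm n ^ 2 * (n : ℝ) ^ (-(1 / 2 : ℝ))) := by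
    intro μ hμ
    have h2 := prod_le_of_sq hS.le (by positivity) (hb μ hμ)
    have h3 : √(C0 * (n : ℝ) ^ ε * Pm n ^ 4 * (n : ℝ)⁻¹) =
        √C0 * (n : ℝ) ^ (ε / 2) * Pm n ^ 2 * (n : ℝ) ^ (-(1 / 2 : ℝ)) := by
      rw [sqrt_eq_iff_mul_self_eq (by positivity) (by positivity)]
      have e1 : √C0 * √C0 = C0 := mul_self_sqrt hC0.le
      have e2 : (n : ℝ) ^ (ε / 2) * (n : ℝ) ^ (ε / 2) = (n : ℝ) ^ ε := by
        rw [← rpow_add hn0]; congr 1; ring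
      have e3 : (n : ℝ) ^ (-(1 / 2 : ℝ)) * (n : ℝ) ^ (-(1 / 2 : ℝ)) = (n : ℝ)⁻¹ := by
        rw [← rpow_add hn0, ← rpow_neg_one]; congr 1; ring
      symm
      calc √C0 * (n : ℝ) ^ (ε / 2) * Pm n ^ 2 * (n : ℝ) ^ (-(1 / 2 : ℝ)) *
            (√C0 * (n : ℝ) ^ (ε / 2) * Pm n ^ 2 * (n : ℝ) ^ (-(1 / 2 : ℝ)))
          = (√C0 * √C0) * ((n : ℝ) ^ (ε / 2) * (n : ℝ) ^ (ε / 2)) * Pm n ^ 4 *
            ((n : ℝ) ^ (-(1 / 2 : ℝ)) * (n : ℝ) ^ (-(1 / 2 : ℝ))) := by ring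
        _ = _ := by rw [e1, e2, e3]
    rw [h3] at h2
    exact h2
  have hX0 : 0 ≤ S * (√C0 * (n : ℝ) ^ (ε / 2) * Pm n ^ 2 * (n : ℝ) ^ (-(1 / 2 : ℝ))) := by
    positivity
  have hPm : Pm n ^ 2 ≤ C1 * (n : ℝ) ^ (-(1 / 3 : ℝ)) * (Pm (κ * n) / c1) := by
    have h4 : Pm n ≤ Pm (κ * n) / c1 := by rw [le_div_iff₀ hc1]; linarith
    rw [sq]
    exact mul_le_mul hu h4 hP (by positivity)
  have hPZ : Pm (κ * n) ≤ Z / (c0 * S) := by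
    rw [le_div_iff₀ (by positivity)]
    linarith
  have hZ0 : 0 ≤ Z := le_trans (mul_nonneg (by positivity) (pm_nonneg _)) hZ
  calc ∑ μ ∈ J, I μ * O μ
      ≤ ∑ _μ ∈ J, S * (√C0 * (n : ℝ) ^ (ε / 2) * Pm n ^ 2 * (n : ℝ) ^ (-(1 / 2 : ℝ))) :=
        Finset.sum_le_sum h1
    _ = (J.card : ℝ) * (S * (√C0 * (n : ℝ) ^ (ε / 2) * Pm n ^ 2 * (n : ℝ) ^ (-(1 / 2 : ℝ)))) := by
        rw [Finset.sum_const, nsmul_eq_mul]
    _ ≤ (C0 * n) * (S * (√C0 * (n : ℝ) ^ (ε / 2) * Pm n ^ 2 * (n : ℝ) ^ (-(1 / 2 : ℝ)))) :=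
        mul_le_mul_of_nonneg_right hJ hX0
    _ = C0 * √C0 * S * ((n : ℝ) * (n : ℝ) ^ (ε / 2) * (n : ℝ) ^ (-(1 / 2 : ℝ))) * Pm n ^ 2 := by
        ring
    _ ≤ C0 * √C0 * S * ((n : ℝ) * (n : ℝ) ^ (ε / 2) * (n : ℝ) ^ (-(1 / 2 : ℝ))) *
          (C1 * (n : ℝ) ^ (-(1 / 3 : ℝ)) * ((Z / (c0 * S)) / c1)) := by
        refine mul_le_mul_of_nonneg_left (hPm.trans ?_) (by positivity)
        exact mul_le_mul_of_nonneg_left (div_le_div_of_nonneg_right hPZ hc1.le) (by positivity)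
    _ = C0 * √C0 * C1 / (c0 * c1) * ((n : ℝ) * (n : ℝ) ^ (ε / 2) * (n : ℝ) ^ (-(1 / 2 : ℝ)) *
          (n : ℝ) ^ (-(1 / 3 : ℝ))) * Z := by
        field_simp
    _ ≤ C0 * √C0 * C1 / (c0 * c1) * (n : ℝ) ^ (1 / 6 + ε) * Z := by
        refine mul_le_mul_of_nonneg_right (mul_le_mul_of_nonneg_left ?_ (by positivity)) hZ0
        have e4 : (n : ℝ) * (n : ℝ) ^ (ε / 2) * (n : ℝ) ^ (-(1 / 2 : ℝ)) *
            (n : ℝ) ^ (-(1 / 3 : ℝ)) = (n : ℝ) ^ (1 / 6 + ε / 2) := by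
          nth_rewrite 1 [← rpow_one (n : ℝ)]
          rw [← rpow_add hn0, ← rpow_add hn0, ← rpow_add hn0]
          congr 1; ring
        rw [e4]
        exact rpow_le_rpow_of_exponent_le hn1 (by linarith)

/-- **the budget of the extra member** -/
theorem budget_x2 {ε : ℝ} (hε : 0 < ε) {κ : ℕ} (hκ : 1 ≤ κ) {C0 c0 : ℝ} (hC0 : 0 < C0)
    (hc0 : 0 < c0) : ∃ C : ℝ, 0 < C ∧ ∀ n : ℕ, 1 ≤ n → ∀ (I O S Z : ℝ), 0 < S →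
      I ^ 2 * O ^ 2 ≤ S ^ 2 * (C0 * (n : ℝ) ^ ε * Pm n ^ 3) → c0 * S * Pm (κ * n) ≤ Z →
      I * O ≤ C * (n : ℝ) ^ ε * Z := by
  obtain ⟨c1, hc1, hext⟩ := pm_ext κ hκ
  refine ⟨√C0 / (c0 * c1), by positivity, ?_⟩
  intro n hn I O S Z hS hb hZ
  have hn1 : (1 : ℝ) ≤ n := by exact_mod_cast hn
  have hn0 : (0 : ℝ) < n := by linarith
  have hP := pm_nonneg n
  have hP1 : Pm n ≤ 1 := MeasureTheory.measureReal_le_one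
  have he := hext n hn
  have hZ0 : 0 ≤ Z := le_trans (mul_nonneg (by positivity) (pm_nonneg _)) hZ
  have hb' : I ^ 2 * O ^ 2 ≤ S ^ 2 * (C0 * ((n : ℝ) ^ ε * Pm n) ^ 2) := by
    refine hb.trans (mul_le_mul_of_nonneg_left ?_ (by positivity))
    have e1 : (1 : ℝ) ≤ (n : ℝ) ^ ε := one_le_rpow hn1 hε.le
    have e2 : Pm n ^ 3 ≤ Pm n ^ 2 := pow_le_pow_of_le_one hP hP1 (by norm_num)
    calc C0 * (n : ℝ) ^ ε * Pm n ^ 3 ≤ C0 * (n : ℝ) ^ ε * Pm n ^ 2 :=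
          mul_le_mul_of_nonneg_left e2 (by positivity)
      _ ≤ C0 * ((n : ℝ) ^ ε) ^ 2 * Pm n ^ 2 := by
          refine mul_le_mul_of_nonneg_right (mul_le_mul_of_nonneg_left ?_ hC0.le) (sq_nonneg _)
          nlinarith
      _ = C0 * ((n : ℝ) ^ ε * Pm n) ^ 2 := by ring
  have h2 := prod_le_of_sq hS.le (by positivity) hb'
  rw [sqrt_mul hC0.le, sqrt_sq (by positivity)] at h2
  have hPZ : Pm n ≤ (Z / (c0 * S)) / c1 := by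
    rw [le_div_iff₀ hc1, le_div_iff₀ (by positivity)]
    calc Pm n * c1 * (c0 * S) = c0 * S * (c1 * Pm n) := by ring
      _ ≤ c0 * S * Pm (κ * n) := mul_le_mul_of_nonneg_left he (by positivity)
      _ ≤ Z := hZ
  calc I * O ≤ S * (√C0 * ((n : ℝ) ^ ε * Pm n)) := h2
    _ ≤ S * (√C0 * ((n : ℝ) ^ ε * ((Z / (c0 * S)) / c1))) := by
        refine mul_le_mul_of_nonneg_left (mul_le_mul_of_nonneg_left
          (mul_le_mul_of_nonneg_left hPZ (by positivity)) (by positivity)) hS.le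
    _ = √C0 / (c0 * c1) * (n : ℝ) ^ ε * Z := by
        field_simp

end Crest.Agent.R158.Bu612
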