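import Crest.Agent.R158.Vt4_300

/-!
# Row 158, Block CB (helper771): the triangle observable near a flat boundary point

`π` is a non-crossing perfect matching of `0, ..., n-1` (seen from the leg end), gaps `0, ..., n`
(gap `g` is just before point `g`), marks `y1 ≤ y2 ≤ y3`.

* `uns π n g h` : no arc separates the gaps `g` and `h`
* `XA c` : a gap `≤ y1` of parity `c` is unseparated from a gap of `[y2, y3]`
* `XB c` : a gap of `[y1, y2]` of parity `c` is unseparated from a gap `≥ y3`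
* **`V_eq`** : `V = (1[XA 0] + 1[XA 1]) / 2`
* **`dual`** : exactly one of `XA c`, `XB (1 - c)` holds
-/

set_option autoImplicit false

namespace Crest.Agent.R158.Cb771

open Crest.Agent.R158.Vt300

/-- the arcs of a matching -/
def Arc (π : ℕ → ℕ) (n : ℕ) (e : ℕ × ℕ) : Prop := e.1 < e.2 ∧ e.2 < n ∧ π e.1 = e.2

/-- no arc separates the two gaps -/
def uns (π : ℕ → ℕ) (n g h : ℕ) : Prop := ∀ e, Arc π n e → (ins g e ↔ ins h e)

/-- some arc contains `x` and `y` and not `z` -/
def sp (π : ℕ → ℕ) (n x y z : ℕ) : Prop := ∃ e, Arc π n e ∧ ins x e ∧ ins y e ∧ ¬ ins z e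

/-- colour `c` crosses from `[0, y1]` to `[y2, y3]` -/
def XA (π : ℕ → ℕ) (n y1 y2 y3 c : ℕ) : Prop :=
  ∃ g h, g ≤ y1 ∧ y2 ≤ h ∧ h ≤ y3 ∧ g % 2 = c ∧ uns π n g h

/-- colour `c` crosses from `[y1, y2]` to `[y3, n]` -/
def XB (π : ℕ → ℕ) (n y1 y2 y3 c : ℕ) : Prop :=
  ∃ g h, y1 ≤ g ∧ g ≤ y2 ∧ y3 ≤ h ∧ h ≤ n ∧ g % 2 = c ∧ uns π n g h

variable {π : ℕ → ℕ} {n : ℕ}

theorem Arc.inv (h : NCM π 0 n) {e : ℕ × ℕ} (he : Arc π n e) : π e.2 = e.1 := by
  have := h.inv e.1 (Nat.zero_le _) (by have := he.1; have := he.2.1; omega)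
  rw [he.2.2] at this
  exact this

/-- two arcs are equal, nested or disjoint -/
theorem arc_cases (h : NCM π 0 n) {e f : ℕ × ℕ} (he : Arc π n e) (hf : Arc π n f) :
    e = f ∨ (e.1 < f.1 ∧ f.2 < e.2) ∨ (f.1 < e.1 ∧ e.2 < f.2) ∨ e.2 < f.1 ∨ f.2 < e.1 := by
  obtain ⟨a, b⟩ := e
  obtain ⟨c, d⟩ := f
  have ie := he.inv h
  have jf := hf.inv h
  obtain ⟨h1, h2, h3⟩ := he
  obtain ⟨k1, k2, k3⟩ := hf
  simp only at h1 h2 h3 k1 k2 k3 ie jf ⊢
  by_cases hac : a = c
  · left; subst hac; rw [h3] at k3; rw [k3]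
  have hbd : b ≠ d := by
    rintro rfl
    exact hac (ie.symm.trans jf)
  have had : a ≠ d := by
    rintro rfl
    rw [h3] at jf; omega
  have hbc : b ≠ c := by
    rintro rfl
    rw [k3] at ie; omega
  by_cases p1 : b < c
  · tauto
  by_cases p2 : d < a
  · tauto
  rcases lt_or_gt_of_ne hac with p | p
  · -- a < c < b
    have := h.nc a c (Nat.zero_le _) p (by rw [h3]; omega) (by rw [h3]; omega)
    rw [h3, k3] at this
    tauto
  · have := h.nc c a (Nat.zero_le _) p (by rw [k3]; omega) (by rw [k3]; omega)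
    rw [h3, k3] at this
    tauto

theorem uns.refl (g : ℕ) : uns π n g g := fun _ _ => Iff.rfl

theorem uns.symm {g h : ℕ} (H : uns π n g h) : uns π n h g := fun e he => (H e he).symm

theorem uns.trans {g h k : ℕ} (H : uns π n g h) (H' : uns π n h k) : uns π n g k :=
  fun e he => (H e he).trans (H' e he)

/-- unseparated gaps have the same parity -/
theorem uns.par (hn : NCM π 0 n) {g h : ℕ} (hg : g ≤ h) (hh : h ≤ n) (H : uns π n g h) :
    g % 2 = h % 2 := by
  have key : ∀ i, g ≤ i → i < h → g ≤ π i ∧ π i < h := by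
    intro i h1 h2
    have hm := hn.mem i (Nat.zero_le _) (by omega)
    have hne := hn.ne i (Nat.zero_le _) (by omega)
    have hi := hn.inv i (Nat.zero_le _) (by omega)
    rcases lt_or_gt_of_ne hne with hlt | hgt
    · -- π i < i
      have := H (π i, i) ⟨hlt, by simp only; omega, hi⟩
      simp only [ins] at this
      omega
    · have := H (i, π i) ⟨hgt, by simp only; omega, rfl⟩
      simp only [ins] at this
      omega
  have hsum : ∑ _i ∈ Finset.Ico g h, (1 : ZMod 2) = 0 := by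
    refine Finset.sum_involution (fun i _ => π i) ?_ ?_ ?_ ?_
    · intro a _; decide
    · intro a ha _
      rw [Finset.mem_Ico] at ha
      exact hn.ne a (Nat.zero_le _) (by omega)
    · intro a ha
      rw [Finset.mem_Ico] at ha ⊢
      exact key a ha.1 ha.2
    · intro a ha
      rw [Finset.mem_Ico] at ha
      exact hn.inv a (Nat.zero_le _) (by omega)
  rw [Finset.sum_const, Nat.card_Ico, nsmul_eq_mul, mul_one] at hsum
  have h2 := (ZMod.natCast_eq_zero_iff (h - g) 2).1 hsum
  omega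

theorem uns.par' (hn : NCM π 0 n) {g h : ℕ} (hg : g ≤ n) (hh : h ≤ n) (H : uns π n g h) :
    g % 2 = h % 2 := by
  rcases le_total g h with h1 | h1
  · exact H.par hn h1 hh
  · exact (H.symm.par hn h1 hg).symm

/-- gaps of different parity are separated -/
theorem exists_arc (hn : NCM π 0 n) {g h : ℕ} (hg : g ≤ n) (hh : h ≤ n) (H : g % 2 ≠ h % 2) :
    ∃ e, Arc π n e ∧ ¬ (ins g e ↔ ins h e) := by
  by_contra hc
  refine H (uns.par' hn hg hh fun e he => ?_)
  by_contra h1
  exact hc ⟨e, he, h1⟩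

/-- the two gaps just outside an arc -/
theorem uns_out (hn : NCM π 0 n) {e : ℕ × ℕ} (he : Arc π n e) : uns π n e.1 (e.2 + 1) := by
  intro f hf
  have h1 := he.1
  rcases arc_cases hn he hf with rfl | h | h | h | h <;> simp only [ins] <;> omega

/-- the two gaps just inside an arc -/
theorem uns_in (hn : NCM π 0 n) {e : ℕ × ℕ} (he : Arc π n e) : uns π n (e.1 + 1) e.2 := by
  intro f hf
  have h1 := he.1
  have h2 := hf.1
  rcases arc_cases hn he hf with rfl | h | h | h | h <;> simp only [ins] <;> omega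

theorem sp_XA (hn : NCM π 0 n) {y1 y2 y3 : ℕ} (H : sp π n y1 y2 y3) (h23 : y2 ≤ y3) (c : ℕ)
    (hc : c < 2) : XA π n y1 y2 y3 c := by
  obtain ⟨e, he, h1, h2, h3⟩ := H
  simp only [ins] at h1 h2 h3
  by_cases h : e.1 % 2 = c
  · exact ⟨e.1, e.2 + 1, by omega, by omega, by omega, h, uns_out hn he⟩
  · exact ⟨e.1 + 1, e.2, by omega, by omega, by omega, by omega, uns_in hn he⟩

theorem XA_sp (hn : NCM π 0 n) {y1 y2 y3 : ℕ} (h12 : y1 ≤ y2) (h3 : y3 ≤ n)
    (H0 : XA π n y1 y2 y3 0) (H1 : XA π n y1 y2 y3 1) : sp π n y1 y2 y3 := by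
  obtain ⟨g0, k0, a1, a2, a3, a4, a5⟩ := H0
  obtain ⟨g1, k1, b1, b2, b3, b4, b5⟩ := H1
  obtain ⟨e, he, hne⟩ := exists_arc hn (g := g0) (h := g1) (by omega) (by omega) (by omega)
  have p0 := a5 e he
  have p1 := b5 e he
  refine ⟨e, he, ?_⟩
  by_cases q : ins g0 e
  · have q1 : ¬ ins g1 e := fun h => hne ⟨fun _ => h, fun _ => q⟩
    have q2 := p0.1 q
    have q3 : ¬ ins k1 e := fun h => q1 (p1.2 h)
    simp only [ins] at q q1 q2 q3 ⊢
    omega
  · have q1 : ins g1 e := by
      by_contra h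
      exact hne ⟨fun h' => absurd h' q, fun h' => absurd h' h⟩
    have q2 : ¬ ins k0 e := fun h => q (p0.2 h)
    have q3 := p1.1 q1
    simp only [ins] at q q1 q2 q3 ⊢
    omega

theorem not_XA_of_sp {y1 y2 y3 : ℕ} (h12 : y1 ≤ y2) (H : sp π n y2 y3 y1) (c : ℕ) :
    ¬ XA π n y1 y2 y3 c := by
  rintro ⟨g, h, h1, h2, h3, _, h5⟩
  obtain ⟨e, he, k1, k2, k3⟩ := H
  have := h5 e he
  simp only [ins] at this k1 k2 k3
  omega

/-- if no arc contains `y2, y3` and not `y1`, some colour crosses -/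
theorem exists_XA (hn : NCM π 0 n) {y1 y2 y3 : ℕ} (h12 : y1 ≤ y2) (h23 : y2 ≤ y3) (h3 : y3 ≤ n)
    (H : ¬ sp π n y2 y3 y1) : XA π n y1 y2 y3 0 ∨ XA π n y1 y2 y3 1 := by
  have key : ∀ k : ℕ, ∀ g h, g ≤ y1 → y1 ≤ h → h ≤ y2 → y2 - h = k → uns π n g h →
      ∃ g h, g ≤ y1 ∧ y2 ≤ h ∧ h ≤ y3 ∧ uns π n g h := by
    intro k
    induction k using Nat.strong_induction_on with
    | _ k ih =>
      intro g h h1 h2 h4 h5 h6
      rcases Nat.lt_or_ge h y2 with hlt | hge
      swap
      · exact ⟨g, h, h1, by omega, by omega, h6⟩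
      have hm := hn.mem h (Nat.zero_le _) (by omega)
      have hne := hn.ne h (Nat.zero_le _) (by omega)
      have hi := hn.inv h (Nat.zero_le _) (by omega)
      rcases lt_or_gt_of_ne hne with hl | hr
      · -- the point after the gap `h` closes an arc
        have he : Arc π n (π h, h) := ⟨hl, by simp only; omega, hi⟩
        have h7 := h6 _ he
        simp only [ins] at h7
        have h8 := uns_out hn he
        simp only at h8
        exact ih (y2 - (h + 1)) (by omega) (π h) (h + 1) (by omega) (by omega) (by omega) rfl h8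
      · -- it opens an arc: skip it
        have he : Arc π n (h, π h) := ⟨hr, by simp only; omega, rfl⟩
        have h8 := h6.trans (uns_out hn he)
        simp only at h8
        rcases Nat.lt_or_ge (π h + 1) y2 with hlt' | hge'
        · exact ih (y2 - (π h + 1)) (by omega) g (π h + 1) h1 (by omega) (by omega) rfl h8
        · rcases Nat.lt_or_ge y3 (π h + 1) with h9 | h9
          · exfalso
            refine H ⟨_, he, ?_, ?_, ?_⟩ <;> simp only [ins] <;> omega
          · exact ⟨g, π h + 1, h1, hge', h9, h8⟩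
  obtain ⟨g, h, h1, h2, h4, h5⟩ := key _ y1 y1 le_rfl le_rfl h12 rfl (uns.refl _)
  rcases Nat.mod_two_eq_zero_or_one g with h6 | h6
  · exact Or.inl ⟨g, h, h1, h2, h4, h6, h5⟩
  · exact Or.inr ⟨g, h, h1, h2, h4, h6, h5⟩

/-- **the observable near the boundary arc `(x3, x1)`** : average of the crossing indicators of the
two colours -/
theorem V_eq (hn : NCM π 0 n) {y1 y2 y3 : ℕ} (h12 : y1 ≤ y2) (h23 : y2 ≤ y3) (h3 : y3 ≤ n)
    [Decidable (sp π n y2 y3 y1)] [Decidable (sp π n y1 y2 y3)]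
    [Decidable (XA π n y1 y2 y3 0)] [Decidable (XA π n y1 y2 y3 1)] :
    (if sp π n y2 y3 y1 then (0 : ℝ) else if sp π n y1 y2 y3 then 1 else 1 / 2) =
      ((if XA π n y1 y2 y3 0 then 1 else 0) + (if XA π n y1 y2 y3 1 then 1 else 0)) / 2 := by
  by_cases a : sp π n y2 y3 y1
  · rw [if_pos a, if_neg (not_XA_of_sp h12 a 0), if_neg (not_XA_of_sp h12 a 1)]; norm_num
  · rw [if_neg a]
    by_cases b : sp π n y1 y2 y3
    · rw [if_pos b, if_pos (sp_XA hn b h23 0 (by norm_num)),
        if_pos (sp_XA hn b h23 1 (by norm_num))]; norm_num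
    · rw [if_neg b]
      rcases exists_XA hn h12 h23 h3 a with h | h
      · rw [if_pos h, if_neg fun h' => b (XA_sp hn h12 h3 h h')]; norm_num
      · rw [if_pos h, if_neg fun h' => b (XA_sp hn h12 h3 h' h)]; norm_num

/-! ### duality -/

/-- different colours do not cross both ways -/
theorem not_both (hn : NCM π 0 n) {y1 y2 y3 c c' : ℕ} (hcc : c ≠ c')
    (HA : XA π n y1 y2 y3 c) (HB : XB π n y1 y2 y3 c') : False := by
  obtain ⟨g0, k0, a1, a2, a3, a4, a5⟩ := HA
  obtain ⟨g1, k1, b1, b2, b3, b4, b5, b6⟩ := HB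
  obtain ⟨e, he, hne⟩ := exists_arc hn (g := g0) (h := g1) (by omega) (by omega) (by omega)
  have p0 := a5 e he
  have p1 := b6 e he
  by_cases q : ins g0 e
  · have q1 : ¬ ins g1 e := fun h => hne ⟨fun _ => h, fun _ => q⟩
    have q2 := p0.1 q
    simp only [ins] at q q1 q2
    omega
  · have q1 : ins g1 e := by
      by_contra h
      exact hne ⟨fun h' => absurd h' q, fun h' => absurd h' h⟩
    have q2 : ¬ ins k0 e := fun h => q (p0.2 h)
    have q3 := p1.1 q1
    simp only [ins] at q q1 q2 q3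
    omega

/-- the reflected matching -/
def rfl' (π : ℕ → ℕ) (n : ℕ) (i : ℕ) : ℕ := n - 1 - π (n - 1 - i)

theorem rfl_NCM (hn : NCM π 0 n) : NCM (rfl' π n) 0 n := by
  have hmem : ∀ i, i < n → π i < n := fun i hi => by
    have := hn.mem i (Nat.zero_le _) (by omega)
    omega
  have hinv : ∀ i, i < n → π (π i) = i := fun i hi => hn.inv i (Nat.zero_le _) (by omega)
  have hne : ∀ i, i < n → π i ≠ i := fun i hi => hn.ne i (Nat.zero_le _) (by omega)
  have hii : ∀ i, i < n → n - 1 - (n - 1 - i) = i := fun i hi => by omega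
  constructor
  · intro i _ hi
    have := hmem (n - 1 - i) (by omega)
    simp only [rfl']; omega
  · intro i _ hi
    have h1 := hmem (n - 1 - i) (by omega)
    have h2 := hne (n - 1 - i) (by omega)
    simp only [rfl']; omega
  · intro i _ hi
    have h1 := hmem (n - 1 - i) (by omega)
    simp only [rfl']
    rw [hii _ h1, hinv _ (by omega)]
    omega
  · intro i j _ hij hj hi
    simp only [rfl'] at hj hi ⊢
    have hi0 : i < n := by omega
    have h1 := hmem (n - 1 - i) (by omega)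
    have h2 : π (n - 1 - i) < n - 1 - j := by omega
    have h3 := hn.nc (π (n - 1 - i)) (n - 1 - j) (Nat.zero_le _) h2
      (by rw [hinv _ (by omega)]; omega) (by rw [hinv _ (by omega)]; omega)
    rw [hinv _ (by omega)] at h3
    omega

theorem rfl_arc (hn : NCM π 0 n) {e : ℕ × ℕ} (he : Arc (rfl' π n) n e) :
    Arc π n (n - 1 - e.2, n - 1 - e.1) := by
  obtain ⟨h1, h2, h3⟩ := he
  have h4 : π (n - 1 - e.1) < n := by
    have := hn.mem (n - 1 - e.1) (Nat.zero_le _) (by omega)
    omega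
  simp only [rfl'] at h3
  have h5 : n - 1 - e.2 = π (n - 1 - e.1) := by omega
  refine ⟨by simp only; omega, by simp only; omega, ?_⟩
  simp only
  rw [h5]
  exact hn.inv _ (Nat.zero_le _) (by omega)

theorem arc_rfl (hn : NCM π 0 n) {e : ℕ × ℕ} (he : Arc π n e) :
    Arc (rfl' π n) n (n - 1 - e.2, n - 1 - e.1) := by
  have hi := he.inv hn
  obtain ⟨h1, h2, h3⟩ := he
  refine ⟨by simp only; omega, by simp only; omega, ?_⟩
  simp only [rfl']
  have h4 : n - 1 - (n - 1 - e.2) = e.2 := by omega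
  rw [h4, hi]

theorem rfl_uns (hn : NCM π 0 n) {g h : ℕ} (hg : g ≤ n) (hh : h ≤ n) :
    uns (rfl' π n) n g h ↔ uns π n (n - g) (n - h) := by
  constructor
  · intro H e he
    have h1 := H _ (arc_rfl hn he)
    have h2 := he.1
    have h3 := he.2.1
    simp only [ins] at h1 ⊢
    omega
  · intro H e he
    have h1 := H _ (rfl_arc hn he)
    have h2 := he.1
    have h3 := he.2.1
    simp only [ins] at h1 ⊢
    omega

theorem even_n (hn : NCM π 0 n) : n % 2 = 0 := by
  have h : uns π n 0 n := by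
    intro e he
    have h1 := he.1
    have h2 := he.2.1
    simp only [ins]; omega
  have := h.par hn (Nat.zero_le _) le_rfl
  omega

theorem rfl_XA (hn : NCM π 0 n) {y1 y2 y3 c : ℕ} (h12 : y1 ≤ y2) (h23 : y2 ≤ y3) (h3 : y3 ≤ n) :
    XA (rfl' π n) n (n - y3) (n - y2) (n - y1) c ↔ XB π n y1 y2 y3 c := by
  have he := even_n hn
  constructor
  · rintro ⟨g, h, h1, h2, h4, h5, h6⟩
    rw [rfl_uns hn (by omega) (by omega)] at h6
    refine ⟨n - h, n - g, by omega, by omega, by omega, by omega, ?_, h6.symm⟩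
    have := h6.par' hn (by omega) (by omega)
    omega
  · rintro ⟨g, h, h1, h2, h4, h5, h6, h7⟩
    refine ⟨n - h, n - g, by omega, by omega, by omega, ?_, ?_⟩
    · have := h7.par' hn (by omega) (by omega)
      omega
    · rw [rfl_uns hn (by omega) (by omega)]
      have e1 : n - (n - h) = h := by omega
      have e2 : n - (n - g) = g := by omega
      rw [e1, e2]
      exact h7.symm

theorem rfl_sp (hn : NCM π 0 n) {x y z : ℕ} (hx : x ≤ n) (hy : y ≤ n) (hz : z ≤ n) :
    sp (rfl' π n) n (n - x) (n - y) (n - z) ↔ sp π n x y z := by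
  constructor
  · rintro ⟨e, he, h1, h2, h3⟩
    have h4 := he.1
    have h5 := he.2.1
    refine ⟨_, rfl_arc hn he, ?_, ?_, ?_⟩ <;> simp only [ins] at h1 h2 h3 ⊢ <;> omega
  · rintro ⟨e, he, h1, h2, h3⟩
    have h4 := he.1
    have h5 := he.2.1
    refine ⟨_, arc_rfl hn he, ?_, ?_, ?_⟩ <;> simp only [ins] at h1 h2 h3 ⊢ <;> omega

theorem sp_comm {x y z : ℕ} : sp π n x y z ↔ sp π n y x z := by
  constructor <;> rintro ⟨e, he, h1, h2, h3⟩ <;> exact ⟨e, he, h2, h1, h3⟩

/-- **duality**: one colour crosses one way or the other colour crosses the other way -/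
theorem dual (hn : NCM π 0 n) {y1 y2 y3 : ℕ} (h12 : y1 ≤ y2) (h23 : y2 ≤ y3) (h3 : y3 ≤ n)
    {c c' : ℕ} (hc : c < 2) (hc' : c' < 2) (hne : c ≠ c') :
    XA π n y1 y2 y3 c ∨ XB π n y1 y2 y3 c' := by
  by_contra hcon
  push Not at hcon
  obtain ⟨hA, hB⟩ := hcon
  have b : ¬ sp π n y1 y2 y3 := fun h => hA (sp_XA hn h h23 c hc)
  have a : ¬ sp π n y2 y3 y1 := by
    intro h
    apply hB
    rw [← rfl_XA hn h12 h23 h3]
    refine sp_XA (rfl_NCM hn) ?_ (by omega) c' hc'
    rw [rfl_sp hn (by omega) (by omega) (by omega)]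
    exact sp_comm.1 h
  -- the other colours cross
  have hA' : XA π n y1 y2 y3 c' := by
    rcases exists_XA hn h12 h23 h3 a with h | h
    · interval_cases c <;> interval_cases c' <;> first | exact h | exact absurd h hA | omega
    · interval_cases c <;> interval_cases c' <;> first | exact h | exact absurd h hA | omega
  have hB' : XB π n y1 y2 y3 c := by
    have h4 := exists_XA (rfl_NCM hn) (y1 := n - y3) (y2 := n - y2) (y3 := n - y1) (by omega)
      (by omega) (by omega) (by
        rw [rfl_sp hn (by omega) (by omega) (by omega)]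
        exact fun h => b (sp_comm.1 h))
    rw [rfl_XA hn h12 h23 h3, rfl_XA hn h12 h23 h3] at h4
    rcases h4 with h | h
    · interval_cases c <;> interval_cases c' <;> first | exact h | exact absurd h hB | omega
    · interval_cases c <;> interval_cases c' <;> first | exact h | exact absurd h hB | omega
  exact not_both hn hne.symm hA' hB'

/-- dictionary with the trees of `Vt4_300` -/
theorem sep_iff {F : NC} (hF : ∀ e : ℕ × ℕ, e ∈ F.arcs 0 ↔ 0 ≤ e.1 ∧ e.1 < e.2 ∧ e.2 < 0 + n ∧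
    π e.1 = e.2) (x y z : ℕ) : sep F 0 x y z ↔ sp π n x y z := by
  constructor
  · rintro ⟨e, he, h⟩
    have := (hF e).1 he
    exact ⟨e, ⟨this.2.1, by omega, this.2.2.2⟩, h⟩
  · rintro ⟨e, he, h⟩
    exact ⟨e, (hF e).2 ⟨Nat.zero_le _, he.1, by have := he.2.1; omega, he.2.2⟩, h⟩

end Crest.Agent.R158.Cb771
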