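import Crest.Agent.R158.Cb1_771
import Crest.Agent.R158.Gc1_748

/-!
# Row 158, Block CB (helper771): charts of a glued tile region

Ports and corners of 748's complexes: sides `W = 0, N = 1, E = 2, S = 3`; corners
`SW = 0, NW = 1, NE = 2, SE = 3`; left / right corner of a side: `lc`, `rc` (`none` : the face of
the leg end).  `G p q` : the ports `p`, `q` are glued.

* `CSt s G` : two corners of one face joined (diagonal of the splitting, or glued sides), `CC` chains
* `cc_of_R` : 748's relation `R` (leg words) gives chains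
* `Chart G A pos` : glued tiles of `A` are neighbours at the positions `pos`
* **`chart_dich`**, **`chart_path`** : a chain of corners ending in `A` gives a face path of the plane
* **`chart_prob`** : a chain from the outside of `A` reaches distance `R` with probability
  `≤ C (r/R)^a`
-/

set_option autoImplicit false

noncomputable section

namespace Crest.Agent.R158.Cb771

open MeasureTheory ProbabilityTheory unitInterval
open Crest.Agent.R161.Geo729 Crest.Agent.R158.Rs689 Crest.Agent.R158.Mr679
open Crest.Agent.R158.Gc748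
open Crest.Agent.R158.Sw300 (Port)

variable {T : Type*}

/-- one step between corners: the diagonal of a tile joined by the splitting, or glued sides -/
inductive CSt (s : T → Bool) (G : Port T → Port T → Prop) : Port T → Port T → Prop
  | diag (t : T) (d : ZMod 4) (h : s t = (decide (d = 0) || decide (d = 2))) :
      CSt s G (some (t, d)) (some (t, d + 2))
  | gl (p q : Port T) (h : G p q) : CSt s G (rc p) (lc q)
  | gr (p q : Port T) (h : G p q) : CSt s G (lc p) (rc q)

/-- joined corners -/
def CC (s : T → Bool) (G : Port T → Port T → Prop) (c c' : Port T) : Prop :=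
  Relation.ReflTransGen (CSt s G) c c'

theorem CSt.symm {s : T → Bool} {G : Port T → Port T → Prop} (hG : ∀ p q, G p q → G q p)
    {c c' : Port T} (h : CSt s G c c') : CSt s G c' c := by
  cases h with
  | diag t d h =>
    have h1 : (d + 2) + 2 = d := by
      have : (2 : ZMod 4) + 2 = 0 := by decide
      rw [add_assoc, this, add_zero]
    have h3 : ∀ d : ZMod 4, (decide (d = 0) || decide (d = 2)) =
        (decide (d + 2 = 0) || decide (d + 2 = 2)) := by decide
    have h2 := CSt.diag (s := s) (G := G) t (d + 2) (by rw [h]; exact h3 d)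
    rw [h1] at h2
    exact h2
  | gl p q h => exact CSt.gr q p (hG _ _ h)
  | gr p q h => exact CSt.gl q p (hG _ _ h)

theorem CC.symm {s : T → Bool} {G : Port T → Port T → Prop} (hG : ∀ p q, G p q → G q p)
    {c c' : Port T} (h : CC s G c c') : CC s G c' c := by
  induction h with
  | refl => exact .refl
  | tail _ h2 ih => exact Relation.ReflTransGen.head (h2.symm hG) ih

theorem CC.trans {s : T → Bool} {G : Port T → Port T → Prop} {a b c : Port T} (h : CC s G a b)
    (h' : CC s G b c) : CC s G a c := Relation.ReflTransGen.trans h h'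

theorem CC.mono {s : T → Bool} {G G' : Port T → Port T → Prop} (hG : ∀ p q, G p q → G' p q)
    {a b : Port T} (h : CC s G a b) : CC s G' a b := by
  refine Relation.ReflTransGen.mono (fun x y h => ?_) _ _ h
  cases h with
  | diag t d h => exact .diag t d h
  | gl p q h => exact .gl p q (hG _ _ h)
  | gr p q h => exact .gr p q (hG _ _ h)

/-- 748's list of glued pairs as a symmetric relation -/
def GSy (G : List (Port T × Port T)) (p q : Port T) : Prop := (p, q) ∈ G ∨ (q, p) ∈ G

theorem GSy.symm {G : List (Port T × Port T)} (p q : Port T) (h : GSy G p q) : GSy G q p :=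
  Or.symm h

theorem cst_of_rst {s : T → Bool} {G : List (Port T × Port T)} {c c' : Port T}
    (h : Rst s none G c c') : CSt s (GSy G) c c' := by
  cases h with
  | bas t h => exact absurd h (by simp)
  | glr p q h => exact .gr p q (Or.inl h)
  | grl p q h => exact .gl p q (Or.inl h)
  | diag t =>
    refine .diag t (dg (s t)) ?_
    cases s t <;> rfl

theorem cc_of_R {s : T → Bool} {G : List (Port T × Port T)} {c c' : Port T}
    (h : R s none G c c') : CC s (GSy G) c c' := by
  induction h with
  | rel x y h => exact Relation.ReflTransGen.single (cst_of_rst h)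
  | refl x => exact .refl
  | symm x y _ ih => exact ih.symm GSy.symm
  | trans x y z _ _ ih1 ih2 => exact ih1.trans ih2

/-- the tile of a corner lies in `A` -/
def InT (A : Set T) : Port T → Prop
  | none => False
  | some (t, _) => t ∈ A

theorem inT_rc {A : Set T} (p : Port T) : InT A (rc p) ↔ InT A p := by
  cases p with
  | none => exact Iff.rfl
  | some y => exact Iff.rfl

/-- position of the corner `k` relative to the tile -/
def off (k : ZMod 4) : P2 := if k = 0 then (-1, -1) else if k = 1 then (-1, 0) else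
  if k = 2 then (0, 0) else (0, -1)

/-- direction of a side -/
def dir (k : ZMod 4) : P2 := if k = 0 then (-1, 0) else if k = 1 then (0, 1) else
  if k = 2 then (1, 0) else (0, -1)

/-- face of a corner -/
def cpos (pos : T → P2) : Port T → P2
  | none => 0
  | some (t, k) => pos t + off k

/-- charts -/
structure Chart (G : Port T → Port T → Prop) (A : Set T) (pos : T → P2) : Prop where
  symm : ∀ p q, G p q → G q p
  inj : Set.InjOn pos A
  glue : ∀ t d t' d', t ∈ A → t' ∈ A → G (some (t, d)) (some (t', d')) →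
    d' = d + 2 ∧ pos t' = pos t + dir d

theorem off_glue (d : ZMod 4) : off (d + 1) = dir d + off (d + 2) := by
  revert d; decide

theorem off_glue' (d : ZMod 4) : off d = dir d + off (d + 2 + 1) := by
  revert d; decide

theorem off_diag (d : ZMod 4) : Dg (off d) (off (d + 2)) ∧ tb (off d) (off (d + 2)) = 0 ∧
    dgt (off d) (off (d + 2)) = (decide (d = 0) || decide (d = 2)) := by
  have key : ∀ d : ZMod 4, (((off (d + 2)).1 = (off d).1 + 1 ∨ (off d).1 = (off (d + 2)).1 + 1) ∧
      ((off (d + 2)).2 = (off d).2 + 1 ∨ (off d).2 = (off (d + 2)).2 + 1)) ∧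
      ((max (off d).1 (off (d + 2)).1, max (off d).2 (off (d + 2)).2) : ℤ × ℤ) = (0, 0) ∧
      decide ((off (d + 2)).1 - (off d).1 = (off (d + 2)).2 - (off d).2) =
        (decide (d = 0) || decide (d = 2)) := by decide
  exact key d

theorem fs_diag (g : TF) (Q : P2 → Prop) (x : P2) (d : ZMod 4) (hQ : Q x)
    (hg : g x = (decide (d = 0) || decide (d = 2))) : FS g Q (x + off d) (x + off (d + 2)) := by
  obtain ⟨h1, h2, h3⟩ := off_diag d
  have e1 : tb (x + off d) (x + off (d + 2)) = x := by
    unfold tb at h2 ⊢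
    rw [Prod.mk_eq_zero] at h2
    ext
    · simp only [Prod.fst_add]
      omega
    · simp only [Prod.snd_add]
      omega
  refine ⟨?_, ?_, ?_⟩
  · unfold Dg at h1 ⊢
    simp only [Prod.fst_add, Prod.snd_add]
    omega
  · rw [e1]; exact hQ
  · rw [e1, hg, ← h3]
    unfold dgt
    simp only [Prod.fst_add, Prod.snd_add]
    exact decide_eq_decide.2 ⟨fun h => by omega, fun h => by omega⟩

/-- corner steps inside a chart are steps of face paths -/
theorem chart_step {G : Port T → Port T → Prop} {A : Set T} {pos : T → P2} (hc : Chart G A pos)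
    {s : T → Bool} {g : TF} (hg : ∀ t ∈ A, g (pos t) = s t) {Q : P2 → Prop}
    (hQ : ∀ t ∈ A, Q (pos t)) {c c' : Port T} (h : CSt s G c c') (h1 : InT A c) (h2 : InT A c') :
    FP g Q (cpos pos c) (cpos pos c') := by
  cases h with
  | diag t d h =>
    exact FP.single (fs_diag g Q (pos t) d (hQ t h1) (by rw [hg t h1]; exact h))
  | gl p q h =>
    rw [inT_rc] at h1
    cases p with
    | none => exact absurd h1 id
    | some y =>
      obtain ⟨t, d⟩ := y
      cases q with
      | none => exact absurd h2 id
      | some y' =>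
        obtain ⟨t', d'⟩ := y'
        have h3 := hc.glue t d t' d' h1 h2 h
        have : cpos pos (lc (some (t', d'))) = cpos pos (rc (some (t, d))) := by
          simp only [cpos, rc_some, lc_some]
          rw [h3.1, h3.2, off_glue d, add_assoc]
        rw [this]
        exact FP.refl
  | gr p q h =>
    rw [inT_rc] at h2
    cases p with
    | none => exact absurd h1 id
    | some y =>
      obtain ⟨t, d⟩ := y
      cases q with
      | none => exact absurd h2 id
      | some y' =>
        obtain ⟨t', d'⟩ := y'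
        have h3 := hc.glue t d t' d' h1 h2 h
        have : cpos pos (rc (some (t', d'))) = cpos pos (lc (some (t, d))) := by
          simp only [cpos, rc_some, lc_some]
          rw [h3.1, h3.2, off_glue' d, add_assoc]
        rw [this]
        exact FP.refl

/-- **Dichotomy.** A chain of corners ending in `A` either starts in `A` and gives a face path of
the plane, or gives a face path from a corner of `A` reached from outside. -/
theorem chart_dich {G : Port T → Port T → Prop} {A : Set T} {pos : T → P2} (hc : Chart G A pos)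
    {s : T → Bool} {g : TF} (hg : ∀ t ∈ A, g (pos t) = s t) {Q : P2 → Prop}
    (hQ : ∀ t ∈ A, Q (pos t)) {c0 c1 : Port T} (h : CC s G c0 c1) (h1 : InT A c1) :
    (InT A c0 ∧ FP g Q (cpos pos c0) (cpos pos c1)) ∨
    ∃ c c', CSt s G c c' ∧ ¬ InT A c ∧ InT A c' ∧ FP g Q (cpos pos c') (cpos pos c1) := by
  induction h with
  | refl => exact Or.inl ⟨h1, FP.refl⟩
  | @tail b c _ h2 ih =>
    by_cases hb : InT A b
    · have h3 := chart_step hc hg hQ h2 hb h1
      rcases ih hb with ⟨e1, e2⟩ | ⟨d, d', e1, e2, e3, e4⟩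
      · exact Or.inl ⟨e1, e2.trans h3⟩
      · exact Or.inr ⟨d, d', e1, e2, e3, e4.trans h3⟩
    · exact Or.inr ⟨b, c, h2, hb, h1, FP.refl⟩

/-- **Chart lemma.** `N` : a set of faces that contains every corner face of `A` next to the
outside of `A`. -/
theorem chart_path {G : Port T → Port T → Prop} {A : Set T} {pos : T → P2} (hc : Chart G A pos)
    {s : T → Bool} {g : TF} (hg : ∀ t ∈ A, g (pos t) = s t) {Q : P2 → Prop}
    (hQ : ∀ t ∈ A, Q (pos t)) {N : Set P2}
    (hN : ∀ c c', CSt s G c c' → ¬ InT A c → InT A c' → cpos pos c' ∈ N)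
    {c0 c1 : Port T} (h : CC s G c0 c1) (h0 : ¬ InT A c0 ∨ cpos pos c0 ∈ N) (h1 : InT A c1) :
    ∃ F ∈ N, FP g Q F (cpos pos c1) := by
  rcases chart_dich hc hg hQ h h1 with ⟨e1, e2⟩ | ⟨c, c', e1, e2, e3, e4⟩
  · rcases h0 with h0 | h0
    · exact absurd e1 h0
    · exact ⟨_, h0, e2⟩
  · exact ⟨_, hN _ _ e1 e2 e3, e4⟩

/-- outside of `A` is only glued to `A` near `x` -/
def Near (G : Port T → Port T → Prop) (A : Set T) (pos : T → P2) (x : P2) (r : ℕ) : Prop :=
  ∀ t d q, t ∈ A → G (some (t, d)) q → ¬ InT A q →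
    |(pos t).1 - x.1| ≤ r ∧ |(pos t).2 - x.2| ≤ r

theorem off_le (k : ZMod 4) : (-1 ≤ (off k).1 ∧ (off k).1 ≤ 0) ∧ (-1 ≤ (off k).2 ∧
    (off k).2 ≤ 0) := by
  revert k; decide

theorem Near.face {G : Port T → Port T → Prop} {A : Set T} {pos : T → P2} {x : P2} {r : ℕ}
    (h : Near G A pos x r) (hG : ∀ p q, G p q → G q p) {s : T → Bool} {c c' : Port T}
    (hs : CSt s G c c') (h1 : ¬ InT A c)
    (h2 : InT A c') : |(cpos pos c').1 - x.1| ≤ (r + 1 : ℕ) ∧ |(cpos pos c').2 - x.2| ≤
      (r + 1 : ℕ) := by
  have key : ∀ t d k q, t ∈ A → G (some (t, d)) q → ¬ InT A q →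
      |(cpos pos (some (t, k))).1 - x.1| ≤ (r + 1 : ℕ) ∧
      |(cpos pos (some (t, k))).2 - x.2| ≤ (r + 1 : ℕ) := by
    intro t d k q ht e1 e2
    have h4 := h t d q ht e1 e2
    have h5 := off_le k
    simp only [cpos, Prod.fst_add, Prod.snd_add, abs_le] at h4 ⊢
    push_cast
    omega
  cases hs with
  | diag t d h => exact absurd h2 h1
  | gl p q h3 =>
    rw [inT_rc] at h1
    cases q with
    | none => exact absurd h2 id
    | some y =>
      obtain ⟨t, d⟩ := y
      exact key t d d p h2 (hG _ _ h3) h1
  | gr p q h3 =>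
    have h1' : ¬ InT A p := h1
    rw [inT_rc] at h2
    cases q with
    | none => exact absurd h2 id
    | some y =>
      obtain ⟨t, d⟩ := y
      exact key t d (d + 1) p h2 (hG _ _ h3) h1'

/-- **Probability of a long chain through a chart.** -/
theorem chart_prob : ∃ C a : ℝ, 0 < C ∧ 0 < a ∧ ∀ {T : Type} [Finite T]
    (G : Port T → Port T → Prop)
    (A : Set T) (pos : T → P2) (x : P2) (r R : ℕ), Chart G A pos → Near G A pos x r → 1 ≤ r →
    r ≤ R → (PB (fun _ : T => hf)).real {s | ∃ c0 c1, (¬ InT A c0 ∨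
      (|(cpos pos c0).1 - x.1| ≤ (r + 1 : ℕ) ∧ |(cpos pos c0).2 - x.2| ≤ (r + 1 : ℕ))) ∧
      CC s G c0 c1 ∧ InT A c1 ∧
      ((R : ℤ) ≤ |(cpos pos c1).1 - x.1| ∨ (R : ℤ) ≤ |(cpos pos c1).2 - x.2|)} ≤
      C * ((r : ℝ) / R) ^ a := by
  obtain ⟨C, a, hC, ha, h⟩ := farm
  refine ⟨max C 1 * 2 ^ a, a, by positivity, ha, fun G A pos x r R hc hn hr hrR => ?_⟩
  have hr0 : (0 : ℝ) < r := by exact_mod_cast hr
  have hR0 : (0 : ℝ) < R := by exact_mod_cast (hr.trans hrR)
  by_cases hR : 2 * r ≤ R
  · have h1 := h x (r + 1) R (by omega) (by omega)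
    refine (transport A pos hc.inj (E' := FArm x (r + 1) R) ?_).trans (h1.trans ?_)
    · rintro s ⟨c0, c1, h0, hcc, hA, hfar⟩ g hg
      obtain ⟨F, hF, hp⟩ := chart_path hc hg (Q := fun _ => True) (fun _ _ => trivial)
        (N := {F | |F.1 - x.1| ≤ ((r + 1 : ℕ) : ℤ) ∧ |F.2 - x.2| ≤ ((r + 1 : ℕ) : ℤ)})
        (fun c c' hs e1 e2 => hn.face hc.symm hs e1 e2) hcc h0 hA
      exact ⟨F, _, hF.1, hF.2, hfar, hp⟩
    · have h2 : (((r + 1 : ℕ) : ℝ) / R) ≤ 2 * ((r : ℝ) / R) := by
        rw [← mul_div_assoc]
        refine div_le_div_of_nonneg_right ?_ hR0.le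
        push_cast
        have : (1 : ℝ) ≤ r := by exact_mod_cast hr
        linarith
      calc C * (((r + 1 : ℕ) : ℝ) / R) ^ a ≤ max C 1 * (2 * ((r : ℝ) / R)) ^ a :=
            mul_le_mul (le_max_left _ _) (Real.rpow_le_rpow (by positivity) h2 ha.le)
              (by positivity) (by positivity)
        _ = max C 1 * 2 ^ a * ((r : ℝ) / R) ^ a := by
            rw [Real.mul_rpow (by norm_num) (by positivity)]; ring
  · refine measureReal_le_one.trans ?_
    rw [mul_assoc, ← Real.mul_rpow (by norm_num) (by positivity)]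
    have h3 : (1 : ℝ) ≤ (2 * ((r : ℝ) / R)) ^ a := by
      refine Real.one_le_rpow ?_ ha.le
      rw [← mul_div_assoc, le_div_iff₀ hR0]
      have h4 : (R : ℝ) ≤ 2 * r := by exact_mod_cast (by omega : R ≤ 2 * r)
      linarith
    calc (1 : ℝ) = 1 * 1 := by ring
      _ ≤ max C 1 * (2 * ((r : ℝ) / R)) ^ a :=
          mul_le_mul (le_max_right _ _) h3 zero_le_one (by positivity)

end Crest.Agent.R158.Cb771
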