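import Crest.Agent.R158.Cb2_771
import Crest.Agent.R158.Cb3_771
import Crest.Agent.R158.Gc2_748
import Crest.Agent.R158.Al2_194

/-!
# Row 158, Block CB (helper771): the observable on the clockwise list of ends

`l` : clockwise list of the free ends of a planar complex (748's `Gd`), `u` its unmatched end.
Gaps `0 ≤ g ≤ N` of the list (`g` = just before position `g`), `gc l g` = the corner at the gap.

* `piL l M` : partner map on positions; **`nck_of_gd`** : it is 194's `NCK`
* `sep_sp` : `Sep` seen from the leg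
* **`uns_R`** : unseparated gaps are joined corners
* `YA j`, `YB j` : crossings with a gap of parity `j` at the far mark arc
* **`Vc_le`**, **`le_Vc`** : bounds of `Vc` by the crossings (leg end on the arc `(x3, x1)`)
-/

set_option autoImplicit false
set_option linter.unusedVariables false

noncomputable section

namespace Crest.Agent.R158.Cb771

open Crest.Agent.R158.Gc748 Crest.Agent.R158.Al194 Crest.Agent.R158.Vt300
open Crest.Agent.R158.Sw300 (Port)

/-! ### segments of a list -/

section seg

variable {α : Type*}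

/-- the entries with positions in `[a, b)` -/
def seg (l : List α) (a b : ℕ) : List α := (l.drop a).take (b - a)

theorem mem_seg {l : List α} {a b : ℕ} {x : α} :
    x ∈ seg l a b ↔ ∃ j, a ≤ j ∧ j < b ∧ ∃ h : j < l.length, l[j] = x := by
  unfold seg
  rw [List.mem_take_iff_getElem]
  constructor
  · rintro ⟨i, hi, e⟩
    rw [List.getElem_drop] at e
    rw [List.length_drop] at hi
    exact ⟨a + i, by omega, by omega, by omega, e⟩
  · rintro ⟨j, h1, h2, h3, e⟩
    refine ⟨j - a, by rw [List.length_drop]; omega, ?_⟩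
    rw [List.getElem_drop]
    have : a + (j - a) = j := by omega
    simp only [this]
    exact e

theorem seg_append (l : List α) {a b c : ℕ} (h1 : a ≤ b) (h2 : b ≤ c) :
    seg l a b ++ seg l b c = seg l a c := by
  unfold seg
  have e1 : l.drop b = (l.drop a).drop (b - a) := by
    rw [List.drop_drop]; congr 1; omega
  have e2 : c - a = (b - a) + (c - b) := by omega
  rw [e1, e2, List.take_add]

theorem seg_all (l : List α) : seg l 0 l.length = l := by
  unfold seg; simp

theorem seg_cons (l : List α) {a b : ℕ} (h1 : a < b) (h2 : a < l.length) :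
    seg l a b = l[a] :: seg l (a + 1) b := by
  unfold seg
  rw [List.drop_eq_getElem_cons h2]
  have : b - a = (b - (a + 1)) + 1 := by omega
  rw [this, List.take_succ_cons]

theorem seg_length (l : List α) {a b : ℕ} (h : b ≤ l.length) : (seg l a b).length = b - a := by
  unfold seg; simp; omega

end seg

/-! ### positions -/

section

variable {T : Type*} [DecidableEq T]

/-- partner map on positions -/
def piL (l : List (Port T)) (M : Port T → Port T) (i : ℕ) : ℕ := l.idxOf (M (l.getD i none))

/-- the corner at the gap `g` -/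
def gc (l : List (Port T)) (g : ℕ) : Port T := lc (l.getD (g % l.length) none)

variable {s : T → Bool} {G : List (Port T × Port T)} {Ts : Set T} {M : Port T → Port T}
  {l : List (Port T)} {u : Port T} {B : Option T}

omit [DecidableEq T] in
theorem getD_eq {i : ℕ} (hi : i < l.length) : l.getD i none = l[i] :=
  List.getD_eq_getElem _ _ hi

theorem getD_idx {x : Port T} (hx : x ∈ l) : l.getD (l.idxOf x) none = x := by
  rw [getD_eq (List.idxOf_lt_length_iff.2 hx)]
  exact List.getElem_idxOf _

theorem idx_getD (hn : l.Nodup) {i : ℕ} (hi : i < l.length) : l.idxOf (l.getD i none) = i := by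
  rw [getD_eq hi]
  exact hn.idxOf_getElem i hi

omit [DecidableEq T] in
theorem getD_mem {i : ℕ} (hi : i < l.length) : l.getD i none ∈ l := by
  rw [getD_eq hi]; exact List.getElem_mem hi

/-- **the partner map of a planar complex on positions is a non-crossing matching** -/
theorem nck_of_gd (h : Gd s B l G Ts M) (hu : u ∈ l) (hf : M u = u)
    (huniq : ∀ x ∈ l, M x = x → x = u) : NCK (piL l M) l.length (l.idxOf u) := by
  have hmem : ∀ i, i < l.length → M (l.getD i none) ∈ l := fun i hi => h.mem _ (getD_mem hi)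
  have hlt : ∀ i, i < l.length → piL l M i < l.length := fun i hi =>
    List.idxOf_lt_length_iff.2 (hmem i hi)
  have hgd : ∀ i, i < l.length → l.getD (piL l M i) none = M (l.getD i none) := fun i hi =>
    getD_idx (hmem i hi)
  refine ⟨List.idxOf_lt_length_iff.2 hu, ?_, hlt, ?_, ?_, ?_⟩
  · unfold piL; rw [getD_idx hu, hf]
  · intro i hi
    show l.idxOf (M (l.getD (piL l M i) none)) = i
    rw [hgd i hi, h.inv _ (getD_mem hi), idx_getD h.nodup hi]
  · intro i hi hik he
    apply hik
    have h1 : M (l.getD i none) = l.getD i none := by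
      rw [← hgd i hi, he]
    have h2 := huniq _ (getD_mem hi) h1
    rw [← h2, idx_getD h.nodup hi]
  · intro i j hij hj hN
    have hi : i < l.length := by omega
    have hjl : j < l.length := by omega
    right
    -- rotate the list to start at `i`
    have e1 : l = seg l 0 i ++ (l[i] :: (seg l (i + 1) (piL l M i) ++
        (l[piL l M i] :: seg l (piL l M i + 1) l.length))) := by
      conv_lhs => rw [← seg_all l, ← seg_append l (Nat.zero_le i) hi.le,
        seg_cons l (a := i) hi hi, ← seg_append l (a := i + 1) (b := piL l M i) (by omega) hN.le,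
        seg_cons l (a := piL l M i) hN hN]
    have e2 : l[piL l M i] = M l[i] := by
      have := hgd i hi
      rw [getD_eq hN, getD_eq hi] at this
      exact this
    have hr : l ~r l[i] :: (seg l (i + 1) (piL l M i) ++ M l[i] ::
        (seg l (piL l M i + 1) l.length ++ seg l 0 i)) := by
      conv_lhs => rw [e1, e2]
      have := rot_app (seg l 0 i) (l[i] :: (seg l (i + 1) (piL l M i) ++
        (M l[i] :: seg l (piL l M i + 1) l.length)))
      refine this.trans ?_
      simp only [List.append_assoc, List.cons_append]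
      exact List.IsRotated.refl _
    have hx : l[j] ∈ seg l (i + 1) (piL l M i) := mem_seg.2 ⟨j, by omega, hj, hjl, rfl⟩
    have h3 := (h.rotated hr).nc hx
    obtain ⟨j', h4, h5, h6, h7⟩ := mem_seg.1 h3
    have h8 : piL l M j = j' := by
      unfold piL
      rw [getD_eq hjl, ← h7]
      exact h.nodup.idxOf_getElem j' h6
    rw [h8]
    exact ⟨by omega, h5⟩

/-! ### seen from the leg -/

/-- separation seen from the leg -/
theorem sep_sp {π : ℕ → ℕ} {N k : ℕ} (h : NCK π N k) {x y z : ℕ} (hx : x ≤ N) (hy : y ≤ N)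
    (hz : z ≤ N) : Sep π N k x y z ↔
      sp (prt π N k) (N - 1) (rot N k x) (rot N k y) (rot N k z) := by
  have hk := h.lt
  constructor
  · rintro ⟨i, hi, hs, a, b, c⟩
    have hik : i ≠ k := by rintro rfl; exact not_st_fix h hs
    refine ⟨(rot N k i, rot N k (π i)), ⟨(h.st_iff hi hik).1 hs,
      rot_lt (h.mem i hi) hk (h.ne_k hi hik), ?_⟩, (h.ing_iff hi hs hx).1 a,
      (h.ing_iff hi hs hy).1 b, fun c' => c ((h.ing_iff hi hs hz).2 c')⟩
    simp only [prt]; rw [unr_rot hi hk hik]
  · rintro ⟨e, ⟨he1, he2, he3⟩, a, b, c⟩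
    have hj' : e.1 < N - 1 := by omega
    have hs : st π k (unr N k e.1) := by
      rw [h.st_iff (unr_lt hj' hk) (unr_ne hj' hk), rot_unr hj' hk]
      have : rot N k (π (unr N k e.1)) = e.2 := he3
      rw [this]; exact he1
    have hee : (rot N k (unr N k e.1), rot N k (π (unr N k e.1))) = e := by
      ext
      · exact rot_unr hj' hk
      · exact he3
    refine ⟨unr N k e.1, unr_lt hj' hk, hs, ?_, ?_, ?_⟩
    · rw [h.ing_iff (unr_lt hj' hk) hs hx, hee]; exact a
    · rw [h.ing_iff (unr_lt hj' hk) hs hy, hee]; exact b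
    · rw [h.ing_iff (unr_lt hj' hk) hs hz, hee]; exact c

omit [DecidableEq T] in
/-- position of an entry in a rotated list -/
theorem getD_rotate (l : List (Port T)) (n i : ℕ) (hi : i < l.length) :
    (l.rotate n).getD i none = l.getD ((i + n) % l.length) none := by
  have h1 : i < (l.rotate n).length := by rw [List.length_rotate]; exact hi
  rw [getD_eq h1, List.getElem_rotate, getD_eq (Nat.mod_lt _ (by omega))]

/-- **unseparated gaps are joined** -/
theorem uns_R (h : Gd s B l G Ts M) (hu : u ∈ l) (hf : M u = u)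
    (huniq : ∀ x ∈ l, M x = x → x = u) {g g' : ℕ} (hg : g ≤ l.length - 1) (hg' : g' ≤ l.length - 1)
    (H : uns (prt (piL l M) l.length (l.idxOf u)) (l.length - 1) g g') :
    R s B G (gc l (g + (l.idxOf u + 1))) (gc l (g' + (l.idxOf u + 1))) := by
  have hN := nck_of_gd h hu hf huniq
  -- symmetric: assume `g < g'`
  have key : ∀ g g' : ℕ, g < g' → g' ≤ l.length - 1 →
      uns (prt (piL l M) l.length (l.idxOf u)) (l.length - 1) g g' →
      R s B G (gc l (g + (l.idxOf u + 1))) (gc l (g' + (l.idxOf u + 1))) := by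
    intro g g' hlt hg' H
    have hk := hN.lt
    set k := l.idxOf u with hkdef
    set N := l.length with hNdef
    set L2 := l.rotate (k + 1) with hL2
    have hlen : L2.length = N := List.length_rotate _ _
    have hr : l ~r L2 := ⟨k + 1, rfl⟩
    have h2 := h.rotated hr
    have hgN : g < L2.length := by omega
    have hgN' : g' < L2.length := by omega
    have e1 : L2 = seg L2 0 g ++ (L2[g] :: seg L2 (g + 1) g') ++
        (L2[g'] :: seg L2 (g' + 1) N) := by
      rw [← seg_cons L2 hlt hgN, ← seg_cons L2 (a := g') (by omega) hgN', seg_append _ (by omega)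
        (by omega), seg_append _ (by omega) (by omega), ← hlen, seg_all]
    have hr2 : L2 ~r (L2[g] :: seg L2 (g + 1) g') ++ (L2[g'] :: (seg L2 (g' + 1) N ++
        seg L2 0 g)) := by
      conv_lhs => rw [e1]
      have := rot_app (seg L2 0 g) ((L2[g] :: seg L2 (g + 1) g') ++ (L2[g'] :: seg L2 (g' + 1) N))
      simpa using this
    have e3 : ∀ j, (hj : j < N) → gc l (j + (k + 1)) = lc (L2[j]'(by omega)) := by
      intro j hj
      unfold gc
      rw [← hNdef, ← getD_rotate l (k + 1) j hj, getD_eq (by rw [← hL2]; omega)]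
    rw [e3 g (by omega), e3 g' (by omega), h2.conn_iff' hr2]
    intro y hy
    rw [← seg_cons L2 hlt hgN] at hy ⊢
    obtain ⟨j, j1, j2, j3, rfl⟩ := mem_seg.1 hy
    -- position in `l`
    have hjN : j < N - 1 := by omega
    have hpos : (j + (k + 1)) % N = unr N k j := by
      unfold unr
      split_ifs with h3
      · rw [Nat.mod_eq_of_lt (by omega)]; omega
      · have : j + (k + 1) = (j - (N - 1 - k)) + N := by omega
        rw [this, Nat.add_mod_right, Nat.mod_eq_of_lt (by omega)]
    have hLj : L2[j] = l.getD (unr N k j) none := by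
      rw [← hpos, ← getD_rotate l (k + 1) j (by omega), getD_eq]
    have hult : unr N k j < N := unr_lt hjN hk
    have hune : unr N k j ≠ k := unr_ne hjN hk
    set i := unr N k j with hi
    have hpi := hN.mem i hult
    have hpk := hN.ne_k hult hune
    have hMi : M (l.getD i none) = l.getD (piL l M i) none :=
      (getD_idx (h.mem _ (getD_mem hult))).symm
    set j' := rot N k (piL l M i) with hj'
    have hj'lt : j' < N - 1 := rot_lt hpi hk hpk
    have hprt : prt (piL l M) N k j = j' := rfl
    have hin : g ≤ j' ∧ j' < g' := by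
      have hncm := hN.ncm
      have hne := hncm.ne j (Nat.zero_le _) (by omega)
      have hinv := hncm.inv j (Nat.zero_le _) (by omega)
      rw [hprt] at hne hinv
      rcases lt_or_gt_of_ne hne with hlt' | hgt'
      · have := H (j', j) ⟨hlt', by simp only; omega, hinv⟩
        simp only [ins] at this
        omega
      · have := H (j, j') ⟨hgt', by simp only; omega, hprt⟩
        simp only [ins] at this
        omega
    refine mem_seg.2 ⟨j', hin.1, hin.2, by omega, ?_⟩
    rw [hLj, hMi]
    have hpos' : (j' + (k + 1)) % N = piL l M i := by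
      have := unr_rot hpi hk hpk
      rw [← hj'] at this
      rw [← this]
      unfold unr
      split_ifs with h3
      · rw [Nat.mod_eq_of_lt (by omega)]; omega
      · have : j' + (k + 1) = (j' - (N - 1 - k)) + N := by omega
        rw [this, Nat.add_mod_right, Nat.mod_eq_of_lt (by omega)]
    rw [← hpos', ← getD_rotate l (k + 1) j' (by omega), getD_eq]
  rcases lt_trichotomy g g' with h1 | h1 | h1
  · exact key g g' h1 hg' H
  · rw [h1]; exact R.refl _
  · exact (key g' g h1 hg H.symm).symm

/-! ### bounds of the observable -/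

/-- a crossing from a gap of `(k, N]` to a gap of parity `j` of `[x2, x3]` -/
def YA (s : T → Bool) (B : Option T) (G : List (Port T × Port T)) (l : List (Port T))
    (k x2 x3 j : ℕ) : Prop :=
  ∃ g h, k < g ∧ g ≤ l.length ∧ x2 ≤ h ∧ h ≤ x3 ∧ h % 2 = j ∧ R s B G (gc l g) (gc l h)

/-- a crossing from a gap of parity `j` of `[0, x2]` to a gap of `[x3, k]` -/
def YB (s : T → Bool) (B : Option T) (G : List (Port T × Port T)) (l : List (Port T))
    (k x2 x3 j : ℕ) : Prop :=
  ∃ g h, g ≤ x2 ∧ x3 ≤ h ∧ h ≤ k ∧ g % 2 = j ∧ R s B G (gc l g) (gc l h)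

omit [DecidableEq T] in
theorem gc_add (l : List (Port T)) (g : ℕ) : gc l (g + l.length) = gc l g := by
  unfold gc; rw [Nat.add_mod_right]

open Classical in
/-- indicator of a proposition -/
def bI (p : Prop) : ℝ := if p then 1 else 0

omit [DecidableEq T] in
theorem bI_mono {p q : Prop} (h : p → q) : bI p ≤ bI q := by
  unfold bI
  by_cases h1 : p
  · rw [if_pos h1, if_pos (h h1)]
  · rw [if_neg h1]; split_ifs <;> norm_num

omit [DecidableEq T] in
theorem bI_nonneg (p : Prop) : 0 ≤ bI p := by unfold bI; split_ifs <;> norm_num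

omit [DecidableEq T] in
theorem bI_le_one (p : Prop) : bI p ≤ 1 := by unfold bI; split_ifs <;> norm_num

theorem XA_YA (h : Gd s B l G Ts M) (hu : u ∈ l) (hf : M u = u)
    (huniq : ∀ x ∈ l, M x = x → x = u) {x2 x3 c : ℕ} (h23 : x2 ≤ x3) (h3 : x3 ≤ l.idxOf u)
    (H : XA (prt (piL l M) l.length (l.idxOf u)) (l.length - 1) (l.length - 1 - l.idxOf u)
      (x2 + (l.length - 1 - l.idxOf u)) (x3 + (l.length - 1 - l.idxOf u)) c) :
    YA s B G l (l.idxOf u) x2 x3 ((c + (l.length - 1 - l.idxOf u)) % 2) := by
  have hN := nck_of_gd h hu hf huniq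
  have hk := hN.lt
  obtain ⟨g, h', h1, h2, h4, h5, h6⟩ := H
  have hp := h6.par' hN.ncm (by omega) (by omega)
  have hR := uns_R h hu hf huniq (g := g) (g' := h') (by omega) (by omega) h6
  refine ⟨g + (l.idxOf u + 1), h' - (l.length - 1 - l.idxOf u), by omega, by omega, by omega,
    by omega, by omega, ?_⟩
  have e : h' + (l.idxOf u + 1) = (h' - (l.length - 1 - l.idxOf u)) + l.length := by omega
  rwa [e, gc_add] at hR

theorem XB_YB (h : Gd s B l G Ts M) (hu : u ∈ l) (hf : M u = u)
    (huniq : ∀ x ∈ l, M x = x → x = u) {x2 x3 c : ℕ} (h23 : x2 ≤ x3) (h3 : x3 ≤ l.idxOf u)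
    (H : XB (prt (piL l M) l.length (l.idxOf u)) (l.length - 1) (l.length - 1 - l.idxOf u)
      (x2 + (l.length - 1 - l.idxOf u)) (x3 + (l.length - 1 - l.idxOf u)) c) :
    YB s B G l (l.idxOf u) x2 x3 ((c + (l.length - 1 - l.idxOf u)) % 2) := by
  have hN := nck_of_gd h hu hf huniq
  have hk := hN.lt
  obtain ⟨g, h', h1, h2, h4, h5, h6, h7⟩ := H
  have hR := uns_R h hu hf huniq (g := g) (g' := h') (by omega) (by omega) h7
  refine ⟨g - (l.length - 1 - l.idxOf u), h' - (l.length - 1 - l.idxOf u), by omega, by omega,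
    by omega, by omega, ?_⟩
  have e : h' + (l.idxOf u + 1) = (h' - (l.length - 1 - l.idxOf u)) + l.length := by omega
  have e' : g + (l.idxOf u + 1) = (g - (l.length - 1 - l.idxOf u)) + l.length := by omega
  rwa [e, e', gc_add, gc_add] at hR

open Classical in
/-- the observable with the leg end on the arc `(x3, x1)`, `x1 = 0` -/
theorem Vc_XA (h : Gd s B l G Ts M) (hu : u ∈ l) (hf : M u = u)
    (huniq : ∀ x ∈ l, M x = x → x = u) {x2 x3 : ℕ} (h23 : x2 ≤ x3) (h3 : x3 ≤ l.idxOf u) :
    Vc (piL l M) l.length (l.idxOf u) 0 x2 x3 =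
    (((bI (XA (prt (piL l M) l.length (l.idxOf u)) (l.length - 1) (l.length - 1 - l.idxOf u)
      (x2 + (l.length - 1 - l.idxOf u)) (x3 + (l.length - 1 - l.idxOf u)) 0) +
      bI (XA (prt (piL l M) l.length (l.idxOf u)) (l.length - 1) (l.length - 1 - l.idxOf u)
      (x2 + (l.length - 1 - l.idxOf u)) (x3 + (l.length - 1 - l.idxOf u)) 1)) / 2 : ℝ) : ℂ) := by
  have hN := nck_of_gd h hu hf huniq
  have hk := hN.lt
  unfold bI
  rw [← V_eq hN.ncm (by omega) (by omega) (by omega)]
  unfold Vc
  rw [if_pos (Or.inr h3)]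
  have r1 : rot l.length (l.idxOf u) 0 = l.length - 1 - l.idxOf u := by
    unfold rot; rw [if_neg (by omega)]; omega
  have r2 : rot l.length (l.idxOf u) x2 = x2 + (l.length - 1 - l.idxOf u) := by
    unfold rot; rw [if_neg (by omega)]
  have r3 : rot l.length (l.idxOf u) x3 = x3 + (l.length - 1 - l.idxOf u) := by
    unfold rot; rw [if_neg (by omega)]
  rw [if_congr (sep_sp hN (x := x2) (y := x3) (z := 0) (by omega) (by omega) (by omega)) rfl rfl,
    if_congr (sep_sp hN (x := 0) (y := x2) (z := x3) (by omega) (by omega) (by omega)) rfl rfl,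
    r1, r2, r3]
  split_ifs <;> simp

/-- **upper bound** of the observable by the crossings of the arcs `(leg end, x1)`, `(x2, x3)` -/
theorem Vc_le (h : Gd s B l G Ts M) (hu : u ∈ l) (hf : M u = u)
    (huniq : ∀ x ∈ l, M x = x → x = u) {x2 x3 : ℕ} (h23 : x2 ≤ x3) (h3 : x3 ≤ l.idxOf u) :
    (Vc (piL l M) l.length (l.idxOf u) 0 x2 x3).re ≤
      (bI (YA s B G l (l.idxOf u) x2 x3 0) + bI (YA s B G l (l.idxOf u) x2 x3 1)) / 2 := by
  rw [Vc_XA h hu hf huniq h23 h3, Complex.ofReal_re]
  have h0 := bI_mono (XA_YA h hu hf huniq (c := 0) h23 h3)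
  have h1 := bI_mono (XA_YA h hu hf huniq (c := 1) h23 h3)
  rcases Nat.mod_two_eq_zero_or_one (l.length - 1 - l.idxOf u) with e | e
  · have e0 : (0 + (l.length - 1 - l.idxOf u)) % 2 = 0 := by omega
    have e1 : (1 + (l.length - 1 - l.idxOf u)) % 2 = 1 := by omega
    rw [e0] at h0; rw [e1] at h1
    linarith
  · have e0 : (0 + (l.length - 1 - l.idxOf u)) % 2 = 1 := by omega
    have e1 : (1 + (l.length - 1 - l.idxOf u)) % 2 = 0 := by omega
    rw [e0] at h0; rw [e1] at h1
    linarith

/-- **lower bound** of the observable by the dual crossings (arcs `(x1, x2)`, `(x3, leg end)`) -/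
theorem le_Vc (h : Gd s B l G Ts M) (hu : u ∈ l) (hf : M u = u)
    (huniq : ∀ x ∈ l, M x = x → x = u) {x2 x3 : ℕ} (h23 : x2 ≤ x3) (h3 : x3 ≤ l.idxOf u) :
    1 - (Vc (piL l M) l.length (l.idxOf u) 0 x2 x3).re ≤
      (bI (YB s B G l (l.idxOf u) x2 x3 0) + bI (YB s B G l (l.idxOf u) x2 x3 1)) / 2 := by
  have hN := nck_of_gd h hu hf huniq
  have hk := hN.lt
  rw [Vc_XA h hu hf huniq h23 h3, Complex.ofReal_re]
  have key : ∀ p q : Prop, p ∨ q → 1 - bI p ≤ bI q := by
    intro p q hpq
    rcases hpq with hp | hq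
    · have : bI p = 1 := if_pos hp
      rw [this, sub_self]; exact bI_nonneg q
    · have : bI q = 1 := if_pos hq
      rw [this]; linarith [bI_nonneg p]
  have d0 := key _ _ (dual hN.ncm (y1 := l.length - 1 - l.idxOf u)
    (y2 := x2 + (l.length - 1 - l.idxOf u)) (y3 := x3 + (l.length - 1 - l.idxOf u)) (by omega)
    (by omega) (by omega) (c := 0) (c' := 1) (by norm_num) (by norm_num) (by norm_num))
  have d1 := key _ _ (dual hN.ncm (y1 := l.length - 1 - l.idxOf u)
    (y2 := x2 + (l.length - 1 - l.idxOf u)) (y3 := x3 + (l.length - 1 - l.idxOf u)) (by omega)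
    (by omega) (by omega) (c := 1) (c' := 0) (by norm_num) (by norm_num) (by norm_num))
  have h0 := bI_mono (XB_YB h hu hf huniq (c := 0) h23 h3)
  have h1 := bI_mono (XB_YB h hu hf huniq (c := 1) h23 h3)
  rcases Nat.mod_two_eq_zero_or_one (l.length - 1 - l.idxOf u) with e | e
  · have e0 : (0 + (l.length - 1 - l.idxOf u)) % 2 = 0 := by omega
    have e1 : (1 + (l.length - 1 - l.idxOf u)) % 2 = 1 := by omega
    rw [e0] at h0; rw [e1] at h1
    linarith
  · have e0 : (0 + (l.length - 1 - l.idxOf u)) % 2 = 1 := by omega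
    have e1 : (1 + (l.length - 1 - l.idxOf u)) % 2 = 0 := by omega
    rw [e0] at h0; rw [e1] at h1
    linarith

end

end Crest.Agent.R158.Cb771
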