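import Crest.Agent.R158.Cb6_771

/-!
# Row 158, Block CB (helper771): the two cores of (Q2), (Q3)

* `NearZ` : a free end near `z`
* `core_leg` : probability of the rare event, the leg ends near `z` outside it
* **`core2`** : an affine function, `≤ 0` when the leg ends near `z`, is small at `HW`
* **`core3m`**, **`core3p`** : `Re HW`, `1 - Re HW` against crossings of the plane
-/

set_option autoImplicit false
set_option linter.unusedVariables false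

noncomputable section

namespace Crest.Agent.R158.Cb771

open MeasureTheory ProbabilityTheory unitInterval
open Crest.Agent.R161.Geo729 Crest.Agent.R158.Rs689 Crest.Agent.R158.Mr679
open Crest.Agent.R158.Gc748 Crest.Agent.R158.Env664
open Crest.Agent.R158.Sw300 (Port Wd)
open Crest.Agent.R158.Ob664 (Gl GW HV HW)
open Crest.Agent.R158.Al194 (Tri rotl VL Vc)

/-- the free end `u` is near `z = (p, y0)` -/
def NearZ (p y0 : ℤ) (Rd : ℕ) (u : Port (ℤ × ℤ)) : Prop :=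
  ∃ t d, u = some (t, d) ∧ |t.1 - p| ≤ Rd + 2 ∧ |t.2 - y0| ≤ Rd + 2

/-- the law of the splittings of the tiles -/
def PZ : Measure (ℤ × ℤ → Bool) := PB fun _ : ℤ × ℤ => hf

instance : IsProbabilityMeasure PZ := by unfold PZ; infer_instance

/-- **the rare event** -/
theorem core_leg : ∃ C a : ℝ, 0 < C ∧ 0 < a ∧ ∀ (D : Finset (ℤ × ℤ)) (p y0 xr : ℤ) (s : ℕ)
    (w : Wd (ℤ × ℤ)) (Rd : ℕ), LegBox D p y0 xr s → GW D (beD D p y0 xr) w → s + 2 ≤ Rd →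
    ∃ c : ℤ × ℤ → ℤ, (∀ t, c t = 0 ∨ c t = 1) ∧
      Chart (Gl (beD D p y0 xr)) (AB D p y0 s) (posc c) ∧
      Near (Gl (beD D p y0 xr)) (AB D p y0 s) (posc c) (p, y0) (s + 2) ∧
      PZ.real (Rare D p y0 xr s Rd c) ≤ C * (((s + 2 : ℕ) : ℝ) / Rd) ^ a ∧
      ∀ ξ ∉ Rare D p y0 xr s Rd c, NearZ p y0 Rd (Sw300.u ξ w) := by
  obtain ⟨C, a, hC, ha, h⟩ := chart_probF
  refine ⟨C, a, hC, ha, fun D p y0 xr s w Rd hb hw hR => ?_⟩
  obtain ⟨c, c1, c2, c3⟩ := hb.chart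
  refine ⟨c, c1, c2, c3, h _ _ _ _ _ _ (AB_finite D p y0 s) c2 c3 (by omega) hR, fun ξ hξ => ?_⟩
  obtain ⟨t, d, h1, -, h2, h3⟩ := leg_loc hb hw c1 (Rd := Rd) (by omega) hξ
  exact ⟨t, d, h1, h2, h3⟩

/-- integral bound by one outer probability -/
theorem int_le1 {Ω : Type*} [MeasurableSpace Ω] {μ : Measure Ω} [IsProbabilityMeasure μ]
    {f : Ω → ℝ} (hf : Integrable f μ) {K : ℝ} (hK : 0 ≤ K) (E : Set Ω)
    (h : ∀ ω, f ω ≤ K * bI (ω ∈ E)) : ∫ ω, f ω ∂μ ≤ K * μ.real E := by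
  have hm : MeasurableSet (toMeasurable μ E) := measurableSet_toMeasurable μ E
  have e : (fun ω => bI (ω ∈ toMeasurable μ E)) = (toMeasurable μ E).indicator fun _ => (1 : ℝ) := by
    funext ω
    unfold bI Set.indicator
    split_ifs <;> rfl
  have i0 : Integrable (fun ω => bI (ω ∈ toMeasurable μ E)) μ := by
    rw [e]; exact (integrable_const 1).indicator hm
  have e1 : ∫ ω, bI (ω ∈ toMeasurable μ E) ∂μ = μ.real E := by
    have e3 := integral_indicator_one (μ := μ) hm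
    rw [e, show (toMeasurable μ E).indicator (fun _ => (1 : ℝ)) = (toMeasurable μ E).indicator 1
      from rfl, e3]
    simp only [measureReal_def, measure_toMeasurable]
  calc ∫ ω, f ω ∂μ ≤ ∫ ω, K * bI (ω ∈ toMeasurable μ E) ∂μ := by
        refine integral_mono hf (i0.const_mul K) fun ω => (h ω).trans ?_
        exact mul_le_mul_of_nonneg_left (bI_mono fun h : ω ∈ E => subset_toMeasurable μ E h) hK
    _ = K * μ.real E := by rw [integral_const_mul, e1]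

theorem HV_int (w : Wd (ℤ × ℤ)) (m1 m2 m3 : Port (ℤ × ℤ)) :
    Integrable (HV w m1 m2 m3) PZ := Ob664.integrable_HV w m1 m2 m3

theorem HW_eq (w : Wd (ℤ × ℤ)) (m1 m2 m3 : Port (ℤ × ℤ)) :
    HW w m1 m2 m3 = ∫ ξ, HV w m1 m2 m3 ξ ∂PZ := rfl

/-- affine functions of the mean -/
theorem aff_HW (w : Wd (ℤ × ℤ)) (m1 m2 m3 : Port (ℤ × ℤ)) (α β : ℂ) :
    Integrable (fun ξ => (α * HV w m1 m2 m3 ξ + β).im) PZ ∧
    (α * HW w m1 m2 m3 + β).im = ∫ ξ, (α * HV w m1 m2 m3 ξ + β).im ∂PZ := by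
  have i1 : Integrable (fun ξ => α * HV w m1 m2 m3 ξ + β) PZ :=
    ((HV_int w m1 m2 m3).const_mul α).add (integrable_const β)
  refine ⟨i1.im, ?_⟩
  have e1 : ∫ ξ, (α * HV w m1 m2 m3 ξ + β) ∂PZ = α * HW w m1 m2 m3 + β := by
    rw [integral_add ((HV_int w m1 m2 m3).const_mul α) (integrable_const β), integral_const_mul,
      ← HW_eq, integral_const, probReal_univ, one_smul]
  rw [← e1]
  exact (integral_im i1).symm

theorem aff_HW_re (w : Wd (ℤ × ℤ)) (m1 m2 m3 : Port (ℤ × ℤ)) :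
    Integrable (fun ξ => (HV w m1 m2 m3 ξ).re) PZ ∧
    (HW w m1 m2 m3).re = ∫ ξ, (HV w m1 m2 m3 ξ).re ∂PZ := by
  refine ⟨(HV_int w m1 m2 m3).re, ?_⟩
  rw [HW_eq]
  exact (integral_re (HV_int w m1 m2 m3)).symm

/-- **core of (Q2)** -/
theorem core2 : ∃ C a : ℝ, 0 < C ∧ 0 < a ∧ ∀ (D : Finset (ℤ × ℤ)) (p y0 xr : ℤ) (s : ℕ)
    (w : Wd (ℤ × ℤ)) (Rd : ℕ) (m1 m2 m3 : Port (ℤ × ℤ)) (α β : ℂ) (K : ℝ),
    LegBox D p y0 xr s → GW D (beD D p y0 xr) w → s + 2 ≤ Rd → 0 ≤ K →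
    (∀ z ∈ Tri, (α * z + β).im ≤ K) →
    (∀ ξ, NearZ p y0 Rd (Sw300.u ξ w) → (α * HV w m1 m2 m3 ξ + β).im ≤ 0) →
    (α * HW w m1 m2 m3 + β).im ≤ K * (C * (((s + 2 : ℕ) : ℝ) / Rd) ^ a) := by
  obtain ⟨C, a, hC, ha, h⟩ := core_leg
  refine ⟨C, a, hC, ha, fun D p y0 xr s w Rd m1 m2 m3 α β K hb hw hR hK hTri h0 => ?_⟩
  obtain ⟨c, -, -, -, hP, hN⟩ := h D p y0 xr s w Rd hb hw hR
  obtain ⟨i1, e1⟩ := aff_HW w m1 m2 m3 α β
  rw [e1]
  refine (int_le1 i1 hK (Rare D p y0 xr s Rd c) fun ξ => ?_).trans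
    (mul_le_mul_of_nonneg_left hP hK)
  by_cases hξ : ξ ∈ Rare D p y0 xr s Rd c
  · have : bI (ξ ∈ Rare D p y0 xr s Rd c) = 1 := if_pos hξ
    rw [this, mul_one]
    exact hTri _ Ob664.HV_mem
  · have : bI (ξ ∈ Rare D p y0 xr s Rd c) = 0 := if_neg hξ
    rw [this, mul_zero]
    exact h0 ξ (hN ξ hξ)

/-! ### lists -/

/-- consecutive entries of a rotated cyclic chain -/
theorem cyc_rotate {r : Port (ℤ × ℤ) → Port (ℤ × ℤ) → Prop} :
    ∀ (n : ℕ) {l : List (Port (ℤ × ℤ))}, Cyc r l → Cyc r (l.rotate n)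
  | 0, l, h => by simpa using h
  | n + 1, [], h => by simpa using h
  | n + 1, x :: l, h => by
    rw [List.rotate_cons_succ]
    exact cyc_rotate n h.rot

theorem cyc_get {r : Port (ℤ × ℤ) → Port (ℤ × ℤ) → Prop} {l : List (Port (ℤ × ℤ))} (h : Cyc r l)
    {i : ℕ} (hi : i + 1 < l.length) : r (l.getD i none) (l.getD (i + 1) none) := by
  cases l with
  | nil => simp at hi
  | cons x l =>
    have h1 : List.IsChain r ((x :: l) ++ [x]) := h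
    have h2 := List.isChain_iff_getElem.1 h1 i (by simp only [List.length_append]; omega)
    rw [List.getElem_append_left (by omega), List.getElem_append_left hi] at h2
    rw [getD_eq (by omega), getD_eq hi]
    exact h2

theorem GW.cyc {D : Finset (ℤ × ℤ)} {b : Port (ℤ × ℤ) → Port (ℤ × ℤ)} {w : Wd (ℤ × ℤ)}
    (h : GW D b w) (m : Port (ℤ × ℤ)) : Cyc (Xr249.Nx (Gl b)) (rotl (Sw300.L w) m) := by
  obtain ⟨x, l, e, hc⟩ := h.nx
  refine cyc_rotate _ ?_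
  rw [e]
  exact hc

/-- face paths preserve the parity -/
theorem fp_par {g : TF} {Q : P2 → Prop} {F G : P2} (h : FP g Q F G) :
    (F.1 + F.2) % 2 = (G.1 + G.2) % 2 := by
  induction h with
  | refl => rfl
  | tail _ h2 ih =>
    rw [ih]
    have := h2.1
    unfold Dg at this
    omega

variable {D : Finset (ℤ × ℤ)} {p y0 xr : ℤ} {s Rd : ℕ} {w : Wd (ℤ × ℤ)}
  {m1 m2 m3 : Port (ℤ × ℤ)}

/-- the tile is far from `z` -/
def FarT (p y0 : ℤ) (Rd : ℕ) (t : ℤ × ℤ) : Prop := (Rd : ℤ) + 6 < |t.1 - p| ∨ (Rd : ℤ) + 6 < |t.2 - y0|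

/-- the corner of the end `x` lies in `S` in every chart -/
def InS (x : Port (ℤ × ℤ)) (S : Set P2) : Prop :=
  ∀ t d, x = some (t, d) → ∀ e : ℤ, (e = 0 ∨ e = 1) → ((t.1 - e, t.2) + off d : P2) ∈ S

theorem FarT.cpos {c : ℤ × ℤ → ℤ} (hc : ∀ t, c t = 0 ∨ c t = 1) {t : ℤ × ℤ}
    (h : FarT p y0 Rd t) (d : ZMod 4) :
    ((Rd : ℤ) + 2 < |(cpos (posc c) (some (t, d))).1 - p| ∨
      (Rd : ℤ) + 2 < |(cpos (posc c) (some (t, d))).2 - y0|) := by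
  have h1 := cpos_near hc t d
  unfold FarT at h
  rw [lt_abs, lt_abs] at h ⊢
  omega

theorem FarT.mem (hR : s + 2 ≤ Rd) {t : ℤ × ℤ} (h : FarT p y0 Rd t) (ht : t ∈ D) :
    t ∈ AB D p y0 s := by
  refine ⟨ht, fun h1 => ?_⟩
  rw [mem_Bx, abs_le, abs_le] at h1
  unfold FarT at h
  rw [lt_abs, lt_abs] at h
  simp only at h1
  omega

/-- parity of the far gaps in the chart -/
theorem far_par (hb : LegBox D p y0 xr s) (hw : GW D (beD D p y0 xr) w) (hR : s + 2 ≤ Rd)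
    {c : ℤ × ℤ → ℤ} (hc : ∀ t, c t = 0 ∨ c t = 1)
    (hch : Chart (Gl (beD D p y0 xr)) (AB D p y0 s) (posc c))
    (hn : Near (Gl (beD D p y0 xr)) (AB D p y0 s) (posc c) (p, y0) (s + 2))
    {a b : ℕ} (hbl : b < (rotl (Sw300.L w) m1).length)
    (hfar : ∀ h, a ≤ h → h ≤ b → ∃ t d, (rotl (Sw300.L w) m1).getD h none = some (t, d) ∧
      FarT p y0 Rd t) (hab : a ≤ b) :
    ∃ P0 : ℤ, ∀ h, a ≤ h → h ≤ b → InT (AB D p y0 s) ((rotl (Sw300.L w) m1).getD h none) ∧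
      ((cpos (posc c) ((rotl (Sw300.L w) m1).getD h none)).1 +
        (cpos (posc c) ((rotl (Sw300.L w) m1).getD h none)).2) % 2 = (P0 + h) % 2 := by
  have hmem : ∀ h, a ≤ h → h ≤ b → ∃ t d, (rotl (Sw300.L w) m1).getD h none = some (t, d) ∧
      FarT p y0 Rd t ∧ t ∈ D := by
    intro h h1 h2
    obtain ⟨t, d, e, hf⟩ := hfar h h1 h2
    have hx : (rotl (Sw300.L w) m1).getD h none ∈ rotl (Sw300.L w) m1 := getD_mem (by omega)
    obtain ⟨t', d', e', ht'⟩ := GW.port hb hw (Al194.mem_rotl.1 hx)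
    rw [e] at e'
    have : t = t' := by
      simp only [Option.some.injEq, Prod.mk.injEq] at e'
      exact e'.1
    exact ⟨t, d, e, hf, this ▸ ht'⟩
  have key := par_gap hch hn (l := rotl (Sw300.L w) m1) (a := a) (b := b) hbl
    (fun i h1 h2 => cyc_get (GW.cyc hw m1) (by omega)) (by
      obtain ⟨t, d, e, hf, ht⟩ := hmem a le_rfl hab
      rw [e]; exact hf.mem hR ht) (fun i h1 h2 => by
      obtain ⟨t, d, e, hf, ht⟩ := hmem i h1 (by omega)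
      rw [e, rc_some]
      have := hf.cpos hc (d + 1)
      push_cast
      rw [lt_abs, lt_abs] at this ⊢
      omega)
  refine ⟨(cpos (posc c) (lc ((rotl (Sw300.L w) m1).getD a none))).1 +
    (cpos (posc c) (lc ((rotl (Sw300.L w) m1).getD a none))).2 - a, fun h h1 h2 => ?_⟩
  obtain ⟨k1, k2⟩ := key h h1 h2
  refine ⟨k1, ?_⟩
  have e : lc ((rotl (Sw300.L w) m1).getD h none) = (rotl (Sw300.L w) m1).getD h none := rfl
  rw [e] at k2
  rw [k2]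
  congr 1
  ring

/-- the probability of one crossing class -/
theorem cross_prob (hb : LegBox D p y0 xr s) (hw : GW D (beD D p y0 xr) w) (hR : s + 2 ≤ Rd)
    {c : ℤ × ℤ → ℤ} (hc : ∀ t, c t = 0 ∨ c t = 1)
    (hch : Chart (Gl (beD D p y0 xr)) (AB D p y0 s) (posc c)) {Q : P2 → Prop}
    (hQ : ∀ t ∈ D, ∀ e : ℤ, (e = 0 ∨ e = 1) → Q (t.1 - e, t.2)) {S0 S1 : Set P2} {e1 : ℤ}
    (E : Set (ℤ × ℤ → Bool))
    (hE : ∀ ξ ∈ E, ξ ∉ Rare D p y0 xr s Rd c ∧ ∃ c0 c1 : Port (ℤ × ℤ),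
      R ξ none (gl w) c0 c1 ∧ (∃ t d, c1 = some (t, d) ∧ FarT p y0 Rd t ∧ t ∈ D) ∧ InS c0 S0 ∧
      InS c1 S1 ∧ ((cpos (posc c) c1).1 + (cpos (posc c) c1).2) % 2 = e1) :
    PZ.real E ≤ (tau hf).real (XQ Q e1 S0 S1) := by
  refine transportF (AB_finite D p y0 s) (posc c) hch.inj fun ξ hξ g hg => ?_
  obtain ⟨hr, c0, c1, h1, ⟨t, d, h2, h3, h4⟩, h5, h6, h7⟩ := hE ξ hξ
  have hcc := GW.cc hw h1
  have hA1 : InT (AB D p y0 s) c1 := by rw [h2]; exact h3.mem hR h4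
  obtain ⟨h8, h9⟩ := cross_loc hch hr hcc hA1 (by
    have := h3.cpos hc d
    rw [h2]
    rw [lt_abs, lt_abs] at this
    rw [le_abs, le_abs]
    simp only
    omega)
  have h10 := h9 g hg
  have hin : ∀ {x : Port (ℤ × ℤ)} {S : Set P2}, InT (AB D p y0 s) x → InS x S →
      cpos (posc c) x ∈ S := by
    intro x S hx hS
    cases x with
    | none => exact absurd hx id
    | some y =>
      obtain ⟨t', d'⟩ := y
      exact hS t' d' rfl (c t') (hc t')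
  refine ⟨cpos (posc c) c0, cpos (posc c) c1, ?_, ?_, hin h8 h5, hin hA1 h6⟩
  · rw [fp_par h10, h7]
  · refine h10.mono fun x hx => ⟨?_, rfl⟩
    obtain ⟨τ, hτ, rfl⟩ := hx
    exact hQ τ hτ.1 (c τ) (hc τ)

section gen
variable {T : Type*} [DecidableEq T]

theorem VL_list {l : List (Port T)} {M : Port T → Port T} {u m1 m2 m3 : Port T} :
    VL l M u m1 m2 m3 = Vc (piL (rotl l m1) M) (rotl l m1).length ((rotl l m1).idxOf u) 0
      ((rotl l m1).idxOf m2) ((rotl l m1).idxOf m3) := by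
  unfold VL
  rw [Al194.rotl_length]
  rfl

end gen

/-- the observable on the list read from `m1` -/
theorem HV_list (hw : GW D (beD D p y0 xr) w) (h1 : m1 ∈ Sw300.L w) (h2 : m2 ∈ Sw300.L w)
    (h3 : m3 ∈ Sw300.L w) (h12 : m1 ≠ m2) (h13 : m1 ≠ m3) (h23 : m2 ≠ m3) (ξ : ℤ × ℤ → Bool) :
    HV w m1 m2 m3 ξ = Vc (piL (rotl (Sw300.L w) m1) (Sw300.M ξ w)) (rotl (Sw300.L w) m1).length
      ((rotl (Sw300.L w) m1).idxOf (Sw300.u ξ w)) 0 ((rotl (Sw300.L w) m1).idxOf m2)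
      ((rotl (Sw300.L w) m1).idxOf m3) := by
  rw [Ob664.HV_eq_VL (GW.ok hw) h1 h2 h3 h12 h13 h23, VL_list]
  congr!

/-- `Vc_le`, `le_Vc` with the instance of `Z x Z` -/
theorem Vc_leZ {s : ℤ × ℤ → Bool} {B : Option (ℤ × ℤ)} {l : List (Port (ℤ × ℤ))}
    {G : List (Port (ℤ × ℤ) × Port (ℤ × ℤ))} {Ts : Set (ℤ × ℤ)}
    {M : Port (ℤ × ℤ) → Port (ℤ × ℤ)} {u : Port (ℤ × ℤ)}
    (h : Gd s B l G Ts M) (hu : u ∈ l) (hf : M u = u)
    (huniq : ∀ x ∈ l, M x = x → x = u) {x2 x3 : ℕ} (h23 : x2 ≤ x3) (h3 : x3 ≤ l.idxOf u) :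
    (Vc (piL l M) l.length (l.idxOf u) 0 x2 x3).re ≤
      (bI (YA s B G l (l.idxOf u) x2 x3 0) + bI (YA s B G l (l.idxOf u) x2 x3 1)) / 2 := by
  have e : l.idxOf u = @List.idxOf _ (@Option.instBEq _ (@instBEqProd _ _ instBEqOfDecidableEq _)) u l := by
    congr!
  rw [e] at h3 ⊢
  exact Vc_le h hu hf huniq h23 h3

theorem le_VcZ {s : ℤ × ℤ → Bool} {B : Option (ℤ × ℤ)} {l : List (Port (ℤ × ℤ))}
    {G : List (Port (ℤ × ℤ) × Port (ℤ × ℤ))} {Ts : Set (ℤ × ℤ)}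
    {M : Port (ℤ × ℤ) → Port (ℤ × ℤ)} {u : Port (ℤ × ℤ)}
    (h : Gd s B l G Ts M) (hu : u ∈ l) (hf : M u = u)
    (huniq : ∀ x ∈ l, M x = x → x = u) {x2 x3 : ℕ} (h23 : x2 ≤ x3) (h3 : x3 ≤ l.idxOf u) :
    1 - (Vc (piL l M) l.length (l.idxOf u) 0 x2 x3).re ≤
      (bI (YB s B G l (l.idxOf u) x2 x3 0) + bI (YB s B G l (l.idxOf u) x2 x3 1)) / 2 := by
  have e : l.idxOf u = @List.idxOf _ (@Option.instBEq _ (@instBEqProd _ _ instBEqOfDecidableEq _)) u l := by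
    congr!
  rw [e] at h3 ⊢
  exact le_Vc h hu hf huniq h23 h3

theorem GW.gdr {b : Port (ℤ × ℤ) → Port (ℤ × ℤ)} (hw : GW D b w) (m : Port (ℤ × ℤ))
    (ξ : ℤ × ℤ → Bool) : Gd ξ none (rotl (Sw300.L w) m) (gl w) (ts w) (Sw300.M ξ w) :=
  (GW.gd hw ξ).rotated ⟨_, rfl⟩

theorem re_Tri {z : ℂ} (hz : z ∈ Tri) : z.re ≤ 1 :=
  (Complex.re_le_norm z).trans (Ob664.norm_le_of_Tri hz)

theorem re_Tri0 {z : ℂ} (hz : z ∈ Tri) : 0 ≤ z.re := by
  have h1 : Tri ⊆ {z : ℂ | (0 : ℝ) ≤ z.re} := by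
    refine convexHull_min (fun z hz => ?_) (convex_halfSpace_re_ge (0 : ℝ))
    simp only [Set.mem_insert_iff, Set.mem_singleton_iff] at hz
    rcases hz with rfl | rfl | rfl
    · show (0 : ℝ) ≤ (0 : ℂ).re
      simp
    · show (0 : ℝ) ≤ (1 : ℂ).re
      norm_num
    · show (0 : ℝ) ≤ Vt300.v2.re
      have e : Vt300.v2 = Complex.exp (((Real.pi / 3 : ℝ) : ℂ) * Complex.I) := by
        unfold Vt300.v2
        congr 1
        push_cast
        ring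
      rw [e, Complex.exp_ofReal_mul_I_re]
      apply Real.cos_nonneg_of_mem_Icc
      have hp := Real.pi_pos
      constructor <;> linarith
  exact h1 hz

/-- both parities -/
theorem two_par {F : ℤ → ℝ} (P0 : ℤ) : F ((P0 + (0 : ℕ)) % 2) + F ((P0 + (1 : ℕ)) % 2) = F 0 + F 1 := by
  rcases Int.emod_two_eq_zero_or_one P0 with h | h
  · have e0 : (P0 + (0 : ℕ)) % 2 = 0 := by omega
    have e1 : (P0 + (1 : ℕ)) % 2 = 1 := by omega
    rw [e0, e1]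
  · have e0 : (P0 + (0 : ℕ)) % 2 = 1 := by omega
    have e1 : (P0 + (1 : ℕ)) % 2 = 0 := by omega
    rw [e0, e1, add_comm]

/-- **core of (Q3-)** : `Re HW` is at most the mean probability of the two crossings between the
boundary part after the leg end and the arc `(m2, m3)` -/
theorem core3m : ∃ C a : ℝ, 0 < C ∧ 0 < a ∧ ∀ (D : Finset (ℤ × ℤ)) (p y0 xr : ℤ) (s : ℕ)
    (w : Wd (ℤ × ℤ)) (Rd : ℕ) (m1 m2 m3 : Port (ℤ × ℤ)) (Q : P2 → Prop) (S0 S1 : Set P2),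
    LegBox D p y0 xr s → GW D (beD D p y0 xr) w → s + 2 ≤ Rd →
    m1 ∈ Sw300.L w → m2 ∈ Sw300.L w → m3 ∈ Sw300.L w → m1 ≠ m2 → m1 ≠ m3 → m2 ≠ m3 →
    (rotl (Sw300.L w) m1).idxOf m2 ≤ (rotl (Sw300.L w) m1).idxOf m3 →
    (∀ u ∈ Sw300.L w, NearZ p y0 Rd u →
      (rotl (Sw300.L w) m1).idxOf m3 ≤ (rotl (Sw300.L w) m1).idxOf u) →
    (∀ h, (rotl (Sw300.L w) m1).idxOf m2 ≤ h → h ≤ (rotl (Sw300.L w) m1).idxOf m3 →
      ∃ t d, (rotl (Sw300.L w) m1).getD h none = some (t, d) ∧ FarT p y0 Rd t) →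
    (∀ u ∈ Sw300.L w, NearZ p y0 Rd u → ∀ g, (rotl (Sw300.L w) m1).idxOf u < g →
      g ≤ (rotl (Sw300.L w) m1).length → InS (gc (rotl (Sw300.L w) m1) g) S0) →
    (∀ h, (rotl (Sw300.L w) m1).idxOf m2 ≤ h → h ≤ (rotl (Sw300.L w) m1).idxOf m3 →
      InS ((rotl (Sw300.L w) m1).getD h none) S1) →
    (∀ t ∈ D, ∀ e : ℤ, (e = 0 ∨ e = 1) → Q (t.1 - e, t.2)) →
    (HW w m1 m2 m3).re ≤ C * (((s + 2 : ℕ) : ℝ) / Rd) ^ a +
      ((tau hf).real (XQ Q 0 S0 S1) + (tau hf).real (XQ Q 1 S0 S1)) / 2 := by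
  obtain ⟨C, a, hC, ha, h⟩ := core_leg
  refine ⟨C, a, hC, ha, ?_⟩
  intro D p y0 xr s w Rd m1 m2 m3 Q S0 S1 hb hw hR hm1 hm2 hm3 h12 h13 h23 hx23 hi hii hiii hiv hQ
  obtain ⟨c, hc, hch, hn, hP, hN⟩ := h D p y0 xr s w Rd hb hw hR
  set l := rotl (Sw300.L w) m1 with hl
  have hx3 : l.idxOf m3 < l.length := List.idxOf_lt_length_iff.2 (Al194.mem_rotl.2 hm3)
  obtain ⟨P0, hP0⟩ := far_par hb hw hR hc hch hn (m1 := m1) (a := l.idxOf m2) (b := l.idxOf m3) hx3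
    hii hx23
  obtain ⟨i1, e1⟩ := aff_HW_re w m1 m2 m3
  -- the crossing classes
  let E : ℕ → Set (ℤ × ℤ → Bool) := fun j => {ξ | ξ ∉ Rare D p y0 xr s Rd c ∧
    YA ξ none (gl w) l (l.idxOf (Sw300.u ξ w)) (l.idxOf m2) (l.idxOf m3) j}
  have hE : ∀ j, PZ.real (E j) ≤ (tau hf).real (XQ Q ((P0 + (j : ℕ)) % 2) S0 S1) := by
    intro j
    refine cross_prob hb hw hR hc hch hQ (E j) ?_
    rintro ξ ⟨hr, g, h', g1, g2, g3, g4, g5, g6⟩
    have hu := (GW.unm hw ξ).1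
    have hmod : h' % l.length = h' := Nat.mod_eq_of_lt (by omega)
    have hgc : gc l h' = l.getD h' none := by unfold gc; rw [hmod]; rfl
    obtain ⟨t, d, k1, k2⟩ := hii h' g3 g4
    obtain ⟨t', d', k3, k4⟩ := GW.port hb hw (Al194.mem_rotl.1 (getD_mem (l := l) (i := h') (by omega)))
    have k5 : t = t' := by
      rw [k1] at k3
      simp only [Option.some.injEq, Prod.mk.injEq] at k3
      exact k3.1
    refine ⟨hr, gc l g, gc l h', g6, ⟨t, d, by rw [hgc]; exact k1, k2, k5 ▸ k4⟩,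
      hiii _ hu (hN ξ hr) g g1 g2, by rw [hgc]; exact hiv h' g3 g4, ?_⟩
    rw [hgc, (hP0 h' g3 g4).2]
    omega
  have hI := int_le3 i1 (E 0) (E 1) (Rare D p y0 xr s Rd c) (fun ξ => by
    by_cases hξ : ξ ∈ Rare D p y0 xr s Rd c
    · have h0 : bI (ξ ∈ Rare D p y0 xr s Rd c) = 1 := if_pos hξ
      rw [h0]
      have := re_Tri (Ob664.HV_mem (w := w) (m1 := m1) (m2 := m2) (m3 := m3) (s := ξ))
      have := bI_nonneg (ξ ∈ E 0)
      have := bI_nonneg (ξ ∈ E 1)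
      linarith
    · have h0 : bI (ξ ∈ Rare D p y0 xr s Rd c) = 0 := if_neg hξ
      rw [h0, zero_add, HV_list hw hm1 hm2 hm3 h12 h13 h23]
      obtain ⟨hu, huf, huu⟩ := GW.unm hw ξ
      have hu' : Sw300.u ξ w ∈ l := Al194.mem_rotl.2 hu
      have hk := hi _ hu (hN ξ hξ)
      refine (Vc_leZ (GW.gdr hw m1 ξ) hu' huf (fun x hx => huu x (Al194.mem_rotl.1 hx)) hx23
        hk).trans ?_
      have a0 : bI (YA ξ none (gl w) l (l.idxOf (Sw300.u ξ w)) (l.idxOf m2) (l.idxOf m3) 0) ≤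
        bI (ξ ∈ E 0) := bI_mono fun h => ⟨hξ, h⟩
      have a1 : bI (YA ξ none (gl w) l (l.idxOf (Sw300.u ξ w)) (l.idxOf m2) (l.idxOf m3) 1) ≤
        bI (ξ ∈ E 1) := bI_mono fun h => ⟨hξ, h⟩
      linarith)
  rw [e1]
  have h0 := hE 0
  have h1 := hE 1
  have h2 := two_par (F := fun e => (tau hf).real (XQ Q e S0 S1)) P0
  beta_reduce at h2
  linarith

/-- **core of (Q3+)** : `1 - Re HW` is at most the mean probability of the two crossings between the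
arc `(m1, m2)` and the boundary part between `m3` and the leg end -/
theorem core3p : ∃ C a : ℝ, 0 < C ∧ 0 < a ∧ ∀ (D : Finset (ℤ × ℤ)) (p y0 xr : ℤ) (s : ℕ)
    (w : Wd (ℤ × ℤ)) (Rd : ℕ) (m1 m2 m3 : Port (ℤ × ℤ)) (Q : P2 → Prop) (S0 S1 : Set P2),
    LegBox D p y0 xr s → GW D (beD D p y0 xr) w → s + 2 ≤ Rd →
    m1 ∈ Sw300.L w → m2 ∈ Sw300.L w → m3 ∈ Sw300.L w → m1 ≠ m2 → m1 ≠ m3 → m2 ≠ m3 →
    (rotl (Sw300.L w) m1).idxOf m2 ≤ (rotl (Sw300.L w) m1).idxOf m3 →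
    (∀ u ∈ Sw300.L w, NearZ p y0 Rd u →
      (rotl (Sw300.L w) m1).idxOf m3 ≤ (rotl (Sw300.L w) m1).idxOf u) →
    (∀ h, h ≤ (rotl (Sw300.L w) m1).idxOf m2 →
      ∃ t d, (rotl (Sw300.L w) m1).getD h none = some (t, d) ∧ FarT p y0 Rd t) →
    (∀ u ∈ Sw300.L w, NearZ p y0 Rd u → ∀ g, (rotl (Sw300.L w) m1).idxOf m3 ≤ g →
      g ≤ (rotl (Sw300.L w) m1).idxOf u → InS ((rotl (Sw300.L w) m1).getD g none) S0) →
    (∀ h, h ≤ (rotl (Sw300.L w) m1).idxOf m2 → InS ((rotl (Sw300.L w) m1).getD h none) S1) →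
    (∀ t ∈ D, ∀ e : ℤ, (e = 0 ∨ e = 1) → Q (t.1 - e, t.2)) →
    1 - (HW w m1 m2 m3).re ≤ C * (((s + 2 : ℕ) : ℝ) / Rd) ^ a +
      ((tau hf).real (XQ Q 0 S0 S1) + (tau hf).real (XQ Q 1 S0 S1)) / 2 := by
  obtain ⟨C, a, hC, ha, h⟩ := core_leg
  refine ⟨C, a, hC, ha, ?_⟩
  intro D p y0 xr s w Rd m1 m2 m3 Q S0 S1 hb hw hR hm1 hm2 hm3 h12 h13 h23 hx23 hi hii hiii hiv hQ
  obtain ⟨c, hc, hch, hn, hP, hN⟩ := h D p y0 xr s w Rd hb hw hR
  set l := rotl (Sw300.L w) m1 with hl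
  have hx2 : l.idxOf m2 < l.length := List.idxOf_lt_length_iff.2 (Al194.mem_rotl.2 hm2)
  obtain ⟨P0, hP0⟩ := far_par hb hw hR hc hch hn (m1 := m1) (a := 0) (b := l.idxOf m2) hx2
    (fun h' _ h2 => hii h' h2) (Nat.zero_le _)
  obtain ⟨i1, e1⟩ := aff_HW_re w m1 m2 m3
  let E : ℕ → Set (ℤ × ℤ → Bool) := fun j => {ξ | ξ ∉ Rare D p y0 xr s Rd c ∧
    YB ξ none (gl w) l (l.idxOf (Sw300.u ξ w)) (l.idxOf m2) (l.idxOf m3) j}
  have hE : ∀ j, PZ.real (E j) ≤ (tau hf).real (XQ Q ((P0 + (j : ℕ)) % 2) S0 S1) := by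
    intro j
    refine cross_prob hb hw hR hc hch hQ (E j) ?_
    rintro ξ ⟨hr, g, h', g1, g2, g3, g4, g5⟩
    have hu := (GW.unm hw ξ).1
    have hul : l.idxOf (Sw300.u ξ w) < l.length := List.idxOf_lt_length_iff.2 (Al194.mem_rotl.2 hu)
    have hmod : g % l.length = g := Nat.mod_eq_of_lt (by omega)
    have hmod' : h' % l.length = h' := Nat.mod_eq_of_lt (by omega)
    have hgc : gc l g = l.getD g none := by unfold gc; rw [hmod]; rfl
    have hgc' : gc l h' = l.getD h' none := by unfold gc; rw [hmod']; rfl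
    obtain ⟨t, d, k1, k2⟩ := hii g g1
    obtain ⟨t', d', k3, k4⟩ := GW.port hb hw (Al194.mem_rotl.1 (getD_mem (l := l) (i := g) (by omega)))
    have k5 : t = t' := by
      rw [k1] at k3
      simp only [Option.some.injEq, Prod.mk.injEq] at k3
      exact k3.1
    refine ⟨hr, gc l h', gc l g, g5.symm, ⟨t, d, by rw [hgc]; exact k1, k2, k5 ▸ k4⟩,
      by rw [hgc']; exact hiii _ hu (hN ξ hr) h' g2 g3, by rw [hgc]; exact hiv g g1, ?_⟩
    rw [hgc, (hP0 g (Nat.zero_le _) g1).2]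
    omega
  have i2 : Integrable (fun ξ => 1 - (HV w m1 m2 m3 ξ).re) PZ := (integrable_const 1).sub i1
  have hI := int_le3 i2 (E 0) (E 1) (Rare D p y0 xr s Rd c) (fun ξ => by
    by_cases hξ : ξ ∈ Rare D p y0 xr s Rd c
    · have h0 : bI (ξ ∈ Rare D p y0 xr s Rd c) = 1 := if_pos hξ
      rw [h0]
      have := re_Tri0 (Ob664.HV_mem (w := w) (m1 := m1) (m2 := m2) (m3 := m3) (s := ξ))
      have := bI_nonneg (ξ ∈ E 0)
      have := bI_nonneg (ξ ∈ E 1)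
      linarith
    · have h0 : bI (ξ ∈ Rare D p y0 xr s Rd c) = 0 := if_neg hξ
      rw [h0, zero_add, HV_list hw hm1 hm2 hm3 h12 h13 h23]
      obtain ⟨hu, huf, huu⟩ := GW.unm hw ξ
      have hu' : Sw300.u ξ w ∈ l := Al194.mem_rotl.2 hu
      have hk := hi _ hu (hN ξ hξ)
      refine (le_VcZ (GW.gdr hw m1 ξ) hu' huf (fun x hx => huu x (Al194.mem_rotl.1 hx)) hx23
        hk).trans ?_
      have a0 : bI (YB ξ none (gl w) l (l.idxOf (Sw300.u ξ w)) (l.idxOf m2) (l.idxOf m3) 0) ≤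
        bI (ξ ∈ E 0) := bI_mono fun h => ⟨hξ, h⟩
      have a1 : bI (YB ξ none (gl w) l (l.idxOf (Sw300.u ξ w)) (l.idxOf m2) (l.idxOf m3) 1) ≤
        bI (ξ ∈ E 1) := bI_mono fun h => ⟨hξ, h⟩
      linarith)
  have e2 : 1 - (HW w m1 m2 m3).re = ∫ ξ, (1 - (HV w m1 m2 m3 ξ).re) ∂PZ := by
    rw [integral_sub (integrable_const 1) i1, ← e1, integral_const, probReal_univ, one_smul]
  rw [e2]
  have h0 := hE 0
  have h1 := hE 1
  have h2 := two_par (F := fun e => (tau hf).real (XQ Q e S0 S1)) P0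
  beta_reduce at h2
  linarith

end Crest.Agent.R158.Cb771
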