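import Mathlib

/-!
# R158 (S0237, block Q1d), leaf of helper399: the corner count (helper841)

`H : Finset (ℤ × ℤ)` a side-connected set of unit tiles, the vertex `p` has the four tiles
`(p.1 - e, p.2 - f)`, `e f ∈ {0, 1}`.

* `cv H` : vertices with exactly one tile
* `dg H` : vertices with exactly two tiles, opposite
* `rf H` : vertices with exactly three tiles
* `corner_count` : `#cv + 2 #dg ≤ #rf + 4`

No topology: `#cv + 2 #dg - #rf = 4 (F - E + V4)` by counting, and `V4 ≤ E - F + 1` because the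
graph stays connected if one deletes for each vertex with four tiles the adjacency above it.
-/

set_option autoImplicit false

namespace Crest.Agent.R158.Cc841

variable (H : Finset (ℤ × ℤ))

/-- the four tiles at the vertex `p` : below left, below right, above left, above right -/
def tA (p : ℤ × ℤ) : ℤ × ℤ := (p.1 - 1, p.2 - 1)
def tB (p : ℤ × ℤ) : ℤ × ℤ := (p.1, p.2 - 1)
def tC (p : ℤ × ℤ) : ℤ × ℤ := (p.1 - 1, p.2)
def tD (p : ℤ × ℤ) : ℤ × ℤ := (p.1, p.2)

/-- number of tiles at a vertex -/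
def nt (p : ℤ × ℤ) : ℕ :=
  (if tA p ∈ H then 1 else 0) + (if tB p ∈ H then 1 else 0) + (if tC p ∈ H then 1 else 0) +
    (if tD p ∈ H then 1 else 0)

/-- all the vertices of the tiles of `H` -/
def Vx : Finset (ℤ × ℤ) :=
  H.biUnion fun t => {(t.1, t.2), (t.1 + 1, t.2), (t.1, t.2 + 1), (t.1 + 1, t.2 + 1)}

variable {H}

theorem mem_Vx {p : ℤ × ℤ} : p ∈ Vx H ↔ tA p ∈ H ∨ tB p ∈ H ∨ tC p ∈ H ∨ tD p ∈ H := by
  unfold Vx tA tB tC tD
  simp only [Finset.mem_biUnion, Finset.mem_insert, Finset.mem_singleton]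
  constructor
  · rintro ⟨t, ht, rfl | rfl | rfl | rfl⟩
    · exact Or.inr (Or.inr (Or.inr ht))
    · refine Or.inr (Or.inr (Or.inl ?_)); simpa using ht
    · refine Or.inr (Or.inl ?_); simpa using ht
    · refine Or.inl ?_; simpa using ht
  · rintro (h | h | h | h)
    · exact ⟨_, h, by simp⟩
    · exact ⟨_, h, by simp⟩
    · exact ⟨_, h, by simp⟩
    · exact ⟨_, h, by simp⟩

variable (H)

/-- convex corners -/
def cv : Finset (ℤ × ℤ) := (Vx H).filter fun p => nt H p = 1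

/-- pinched vertices -/
def dg : Finset (ℤ × ℤ) := (Vx H).filter fun p =>
  (tA p ∈ H ∧ tD p ∈ H ∧ tB p ∉ H ∧ tC p ∉ H) ∨ (tB p ∈ H ∧ tC p ∈ H ∧ tA p ∉ H ∧ tD p ∉ H)

/-- reflex corners -/
def rf : Finset (ℤ × ℤ) := (Vx H).filter fun p => nt H p = 3

/-- full vertices -/
def fl : Finset (ℤ × ℤ) := (Vx H).filter fun p => tA p ∈ H ∧ tB p ∈ H ∧ tC p ∈ H ∧ tD p ∈ H

/-- horizontal adjacencies -/
def Hh : Finset (ℤ × ℤ) := H.filter fun t => (t.1 + 1, t.2) ∈ H

/-- vertical adjacencies -/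
def Hv : Finset (ℤ × ℤ) := H.filter fun t => (t.1, t.2 + 1) ∈ H

/-- horizontal adjacencies which are kept -/
def Hk : Finset (ℤ × ℤ) := (Hh H).filter fun t => ¬ ((t.1, t.2 - 1) ∈ H ∧ (t.1 + 1, t.2 - 1) ∈ H)

variable {H}

/-- counting a translate -/
theorem card_shift {P V : Finset (ℤ × ℤ)} (s : ℤ × ℤ) (hV : ∀ p, p + s ∈ P → p ∈ V) :
    (V.filter fun p => p + s ∈ P).card = P.card := by
  refine Finset.card_bij (fun p _ => p + s) (fun p hp => (Finset.mem_filter.1 hp).2)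
    (fun p _ q _ h => add_right_cancel h) (fun t ht => ⟨t - s, ?_, by simp⟩)
  rw [Finset.mem_filter]
  have : t - s + s ∈ P := by simpa using ht
  exact ⟨hV _ this, this⟩

theorem sum_shift {P V : Finset (ℤ × ℤ)} (s : ℤ × ℤ) (hV : ∀ p, p + s ∈ P → p ∈ V) :
    ∑ p ∈ V, (if p + s ∈ P then (1 : ℤ) else 0) = P.card := by
  rw [Finset.sum_boole, card_shift s hV]

theorem card_eq_sum (V : Finset (ℤ × ℤ)) (Q : ℤ × ℤ → Prop) [DecidablePred Q] :
    ((V.filter Q).card : ℤ) = ∑ p ∈ V, (if Q p then (1 : ℤ) else 0) := by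
  rw [Finset.sum_boole]

/-- **first half: counting** -/
theorem euler : ((cv H).card : ℤ) + 2 * (dg H).card - (rf H).card - 4 * (fl H).card =
    4 * (H.card : ℤ) - 4 * (Hh H).card - 4 * (Hv H).card := by
  have eA : ∀ p : ℤ × ℤ, p + (-1, -1) = tA p := fun p => rfl
  have eB : ∀ p : ℤ × ℤ, p + (0, -1) = tB p := fun p => by unfold tB; ext <;> simp; ring
  have eC : ∀ p : ℤ × ℤ, p + (-1, 0) = tC p := fun p => by unfold tC; ext <;> simp; ring
  have eD : ∀ p : ℤ × ℤ, p + (0, 0) = tD p := fun p => by unfold tD; ext <;> simp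
  have s1 := sum_shift (P := H) (V := Vx H) (-1, -1) (fun p h => mem_Vx.2 (by
    rw [eA] at h; exact Or.inl h))
  have s2 := sum_shift (P := H) (V := Vx H) (0, -1) (fun p h => mem_Vx.2 (by
    rw [eB] at h; exact Or.inr (Or.inl h)))
  have s3 := sum_shift (P := H) (V := Vx H) (-1, 0) (fun p h => mem_Vx.2 (by
    rw [eC] at h; exact Or.inr (Or.inr (Or.inl h))))
  have s4 := sum_shift (P := H) (V := Vx H) (0, 0) (fun p h => mem_Vx.2 (by
    rw [eD] at h; exact Or.inr (Or.inr (Or.inr h))))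
  have hh1 : ∀ p : ℤ × ℤ, tA p ∈ Hh H ↔ tA p ∈ H ∧ tB p ∈ H := fun p => by
    unfold Hh tA tB; rw [Finset.mem_filter]; simp
  have hh2 : ∀ p : ℤ × ℤ, tC p ∈ Hh H ↔ tC p ∈ H ∧ tD p ∈ H := fun p => by
    unfold Hh tC tD; rw [Finset.mem_filter]; simp
  have hv1 : ∀ p : ℤ × ℤ, tA p ∈ Hv H ↔ tA p ∈ H ∧ tC p ∈ H := fun p => by
    unfold Hv tA tC; rw [Finset.mem_filter]; simp
  have hv2 : ∀ p : ℤ × ℤ, tB p ∈ Hv H ↔ tB p ∈ H ∧ tD p ∈ H := fun p => by
    unfold Hv tB tD; rw [Finset.mem_filter]; simp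
  have s5 := sum_shift (P := Hh H) (V := Vx H) (-1, -1) (fun p h => mem_Vx.2 (by
    rw [eA, hh1] at h; exact Or.inl h.1))
  have s6 := sum_shift (P := Hh H) (V := Vx H) (-1, 0) (fun p h => mem_Vx.2 (by
    rw [eC, hh2] at h; exact Or.inr (Or.inr (Or.inl h.1))))
  have s7 := sum_shift (P := Hv H) (V := Vx H) (-1, -1) (fun p h => mem_Vx.2 (by
    rw [eA, hv1] at h; exact Or.inl h.1))
  have s8 := sum_shift (P := Hv H) (V := Vx H) (0, -1) (fun p h => mem_Vx.2 (by
    rw [eB, hv2] at h; exact Or.inr (Or.inl h.1)))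
  simp only [eA, eB, eC, eD, hh1, hh2, hv1, hv2] at s1 s2 s3 s4 s5 s6 s7 s8
  unfold cv dg rf fl
  rw [card_eq_sum, card_eq_sum, card_eq_sum, card_eq_sum]
  have e1 : 4 * (H.card : ℤ) - 4 * (Hh H).card - 4 * (Hv H).card =
      (((H.card : ℤ) + H.card) + (H.card + H.card)) -
        2 * (((Hh H).card + (Hh H).card) + ((Hv H).card + (Hv H).card)) := by ring
  rw [e1]
  nth_rewrite 1 [← s1]
  nth_rewrite 1 [← s2]
  nth_rewrite 1 [← s3]
  nth_rewrite 1 [← s4]
  nth_rewrite 1 [← s5]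
  nth_rewrite 1 [← s6]
  nth_rewrite 1 [← s7]
  nth_rewrite 1 [← s8]
  simp only [← Finset.sum_add_distrib, Finset.mul_sum, ← Finset.sum_sub_distrib]
  refine Finset.sum_congr rfl fun p _ => ?_
  unfold nt
  by_cases a : tA p ∈ H <;> by_cases b : tB p ∈ H <;> by_cases c : tC p ∈ H <;>
    by_cases d : tD p ∈ H <;> simp [a, b, c, d]

/-! ### second half: the graph -/

/-- the adjacency of tiles -/
def St (u v : ℤ × ℤ) : Prop :=
  (u.1 = v.1 ∧ (v.2 = u.2 + 1 ∨ u.2 = v.2 + 1)) ∨ (u.2 = v.2 ∧ (v.1 = u.1 + 1 ∨ u.1 = v.1 + 1))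

variable (H)

/-- the oriented kept adjacencies -/
def rK (u v : {t // t ∈ H}) : Prop :=
  (v.1 = (u.1.1, u.1.2 + 1)) ∨ (v.1 = (u.1.1 + 1, u.1.2) ∧ u.1 ∈ Hk H)

/-- the graph of the kept adjacencies -/
def GK : SimpleGraph {t // t ∈ H} := SimpleGraph.fromRel (rK H)

variable {H}

theorem adj_up {u v : {t // t ∈ H}} (h : v.1 = (u.1.1, u.1.2 + 1)) : (GK H).Adj u v := by
  unfold GK
  rw [SimpleGraph.fromRel_adj]
  refine ⟨?_, Or.inl (Or.inl h)⟩
  rintro rfl
  have := congrArg Prod.snd h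
  simp at this

theorem adj_right {u v : {t // t ∈ H}} (h : v.1 = (u.1.1 + 1, u.1.2)) (hk : u.1 ∈ Hk H) :
    (GK H).Adj u v := by
  unfold GK
  rw [SimpleGraph.fromRel_adj]
  refine ⟨?_, Or.inl (Or.inr ⟨h, hk⟩)⟩
  rintro rfl
  have := congrArg Prod.fst h
  simp at this

theorem reach_right {m : ℤ} (hm : ∀ t ∈ H, m ≤ t.2) (n : ℕ) : ∀ u v : {t // t ∈ H},
    v.1 = (u.1.1 + 1, u.1.2) → u.1.2 ≤ m + n → (GK H).Reachable u v := by
  induction n with
  | zero =>
      intro u v h hn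
      refine (adj_right h ?_).reachable
      unfold Hk Hh
      rw [Finset.mem_filter, Finset.mem_filter]
      refine ⟨⟨u.2, by rw [← h]; exact v.2⟩, fun hcon => ?_⟩
      have := hm _ hcon.1
      simp at this hn
      omega
  | succ n ih =>
      intro u v h hn
      by_cases hk : u.1 ∈ Hk H
      · exact (adj_right h hk).reachable
      · have h2 : (u.1.1, u.1.2 - 1) ∈ H ∧ (u.1.1 + 1, u.1.2 - 1) ∈ H := by
          by_contra hcon
          apply hk
          unfold Hk Hh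
          rw [Finset.mem_filter, Finset.mem_filter]
          exact ⟨⟨u.2, by rw [← h]; exact v.2⟩, hcon⟩
        have r1 : (GK H).Adj ⟨(u.1.1, u.1.2 - 1), h2.1⟩ u := adj_up (by ext <;> simp)
        have r2 : (GK H).Adj ⟨(u.1.1 + 1, u.1.2 - 1), h2.2⟩ v := adj_up (by rw [h]; ext <;> simp)
        have r3 := ih ⟨(u.1.1, u.1.2 - 1), h2.1⟩ ⟨(u.1.1 + 1, u.1.2 - 1), h2.2⟩ rfl (by
          push_cast at hn
          show u.1.2 - 1 ≤ m + n
          omega)
        exact (r1.symm.reachable.trans r3).trans r2.reachable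

theorem GK_conn (hne : H.Nonempty)
    (hc : ∀ a ∈ H, ∀ b ∈ H, Relation.ReflTransGen (fun u v => St u v ∧ u ∈ H ∧ v ∈ H) a b) :
    (GK H).Connected := by
  obtain ⟨m, hm⟩ : ∃ m : ℤ, ∀ t ∈ H, m ≤ t.2 := by
    obtain ⟨t, _, h⟩ := H.exists_min_image (fun t => t.2) hne
    exact ⟨t.2, h⟩
  have step : ∀ u v : {t // t ∈ H}, St u.1 v.1 → (GK H).Reachable u v := by
    intro u v h
    have key : ∀ u v : {t // t ∈ H}, v.1 = (u.1.1 + 1, u.1.2) → (GK H).Reachable u v :=
      fun u v h => reach_right hm (u.1.2 - m).toNat u v h (by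
        have := hm _ u.2
        omega)
    rcases h with ⟨h1, h2 | h2⟩ | ⟨h1, h2 | h2⟩
    · exact (adj_up (Prod.ext h1.symm h2)).reachable
    · exact (adj_up (u := v) (v := u) (Prod.ext h1 h2)).symm.reachable
    · exact key u v (Prod.ext h2 h1.symm)
    · exact (key v u (Prod.ext h2 h1)).symm
  have hpre : (GK H).Preconnected := by
    rintro ⟨a, ha⟩ ⟨b, hb⟩
    have h := hc a ha b hb
    induction h with
    | refl => exact SimpleGraph.Reachable.refl _
    | tail _ h2 ih =>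
        obtain ⟨h3, h4, h5⟩ := h2
        exact (ih h4).trans (step ⟨_, h4⟩ ⟨_, h5⟩ h3)
  have : Nonempty {t // t ∈ H} := ⟨⟨_, hne.choose_spec⟩⟩
  exact ⟨hpre⟩

theorem edges_le : Nat.card (GK H).edgeSet ≤ (Hv H).card + (Hk H).card := by
  classical
  set T : Finset (Sym2 (ℤ × ℤ)) := (Hv H).image (fun t => s(t, (t.1, t.2 + 1))) ∪
    (Hk H).image (fun t => s(t, (t.1 + 1, t.2))) with hT
  have h1 : Nat.card (GK H).edgeSet ≤ T.card := by
    have hmem : ∀ x ∈ (GK H).edgeSet, Sym2.map Subtype.val x ∈ T := by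
      intro x
      induction x using Sym2.ind with
      | _ u v =>
        intro hx
        rw [SimpleGraph.mem_edgeSet] at hx
        unfold GK at hx
        rw [SimpleGraph.fromRel_adj] at hx
        rw [Sym2.map_mk, hT, Finset.mem_union, Finset.mem_image, Finset.mem_image]
        have key : ∀ u v : {t // t ∈ H}, rK H u v →
            (∃ a ∈ Hv H, s(a, (a.1, a.2 + 1)) = s(u.1, v.1)) ∨
              (∃ a ∈ Hk H, s(a, (a.1 + 1, a.2)) = s(u.1, v.1)) := by
          rintro u v (h | ⟨h, hk⟩)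
          · refine Or.inl ⟨u.1, ?_, by rw [h]⟩
            unfold Hv
            rw [Finset.mem_filter]
            exact ⟨u.2, by rw [← h]; exact v.2⟩
          · exact Or.inr ⟨u.1, hk, by rw [h]⟩
        rcases hx.2 with h | h
        · exact key u v h
        · have := key v u h
          rwa [Sym2.eq_swap (a := v.1) (b := u.1)] at this
    have h2 := Nat.card_le_card_of_injective
      (fun x : (GK H).edgeSet => (⟨Sym2.map Subtype.val x.1, hmem x.1 x.2⟩ : {y // y ∈ T}))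
      (fun x y hxy => Subtype.ext (Sym2.map.injective Subtype.val_injective
        (congrArg Subtype.val hxy)))
    rw [Nat.card_eq_fintype_card (α := {y // y ∈ T}), Fintype.card_coe] at h2
    exact h2
  refine h1.trans ((Finset.card_union_le _ _).trans ?_)
  exact Nat.add_le_add Finset.card_image_le Finset.card_image_le

theorem full_card : (fl H).card + (Hk H).card = (Hh H).card := by
  classical
  have h1 : (fl H).card =
      ((Hh H).filter fun t => (t.1, t.2 - 1) ∈ H ∧ (t.1 + 1, t.2 - 1) ∈ H).card := by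
    have hC : ∀ p : ℤ × ℤ, p + (-1, 0) = tC p := fun p => by unfold tC; ext <;> simp; ring
    have key : ∀ p : ℤ × ℤ, tC p ∈ (Hh H).filter (fun t => (t.1, t.2 - 1) ∈ H ∧
        (t.1 + 1, t.2 - 1) ∈ H) ↔ (tA p ∈ H ∧ tB p ∈ H ∧ tC p ∈ H ∧ tD p ∈ H) := by
      intro p
      unfold Hh
      rw [Finset.mem_filter, Finset.mem_filter]
      have e1 : ((tC p).1, (tC p).2 - 1) = tA p := rfl
      have e2 : ((tC p).1 + 1, (tC p).2 - 1) = tB p := by unfold tC tB; ext <;> simp
      have e3 : ((tC p).1 + 1, (tC p).2) = tD p := by unfold tC tD; ext <;> simp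
      rw [e1, e2, e3]
      tauto
    have h5 := card_shift (P := (Hh H).filter fun t => (t.1, t.2 - 1) ∈ H ∧
      (t.1 + 1, t.2 - 1) ∈ H) (V := Vx H) (-1, 0) (fun p h => by
        rw [hC, key] at h
        exact mem_Vx.2 (Or.inl h.1))
    rw [← h5]
    unfold fl
    congr 1
    refine Finset.filter_congr fun p _ => ?_
    rw [hC, key]
  have h2 := Finset.card_filter_add_card_filter_not (s := Hh H)
    (fun t : ℤ × ℤ => (t.1, t.2 - 1) ∈ H ∧ (t.1 + 1, t.2 - 1) ∈ H)
  rw [h1]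
  exact h2

/-- **THE CORNER COUNT** -/
theorem corner_count (hne : H.Nonempty)
    (hc : ∀ a ∈ H, ∀ b ∈ H, Relation.ReflTransGen (fun u v => St u v ∧ u ∈ H ∧ v ∈ H) a b) :
    (cv H).card + 2 * (dg H).card ≤ (rf H).card + 4 := by
  have h1 := (GK_conn hne hc).card_vert_le_card_edgeSet_add_one
  have h2 := edges_le (H := H)
  have h3 := full_card (H := H)
  have h4 := euler (H := H)
  rw [Nat.card_eq_fintype_card (α := {t // t ∈ H}), Fintype.card_coe] at h1
  omega

end Crest.Agent.R158.Cc841
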