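import Crest.Agent.R158.Xr9_249
import Crest.Agent.R158.Ob0_664

/-!
# R158, block XR (helper249), file Xr10: good words (`GW`) and the crosscut lemma

* `Wrd.gw`, **`exists_GW`**, **`exists_GW_mac`** : the hypothesis of `HG_spec` for `D^(z)`
* **`cut_disj`** : a crosscut separates a hole-free region
* `low_disj_up`, `low_union_up`, `low_up_adj`, `low_SC`, `up_SC`, `low_Conn`, `up_Conn`
-/

set_option autoImplicit false
set_option linter.unusedVariables false

noncomputable section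

namespace Crest.Agent.R158.Xr249

open Env664 (Adj4 Mac D mem_D div_iff PortOf portOf_some portOf_none res nbP beP nbD beD IsWord Run
  CutAdj lowT upT)
open Ob664 (GW rgt)

/-! ### good words -/

lemma Wrd.gw {T : Type*} [DecidableEq T] {w : Sw300.Wd T} {l : List (Port T)} {A : Finset T}
    {b : Port T → Port T} (h : Wrd w l A b) (hb : bas w = none) (hl : l ≠ []) : GW A b w := by
  refine ⟨h.isWord, hb, h.tnd, ?_⟩
  have hL : Sw300.L w = l := by
    have := h.L
    rw [hb] at this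
    simpa [Xr249.mk] using this
  cases l with
  | nil => exact absurd rfl hl
  | cons x l =>
    refine ⟨x, l, hL, ?_⟩
    have := h.chain
    rw [Cycle.chain_coe_cons] at this
    exact this

/-- the facts on a good word -/
lemma gw_wrd {T : Type*} [DecidableEq T] {w : Sw300.Wd T} {A : Finset T} {b : Port T → Port T}
    (h : GW A b w) : Sw300.L w ≠ [] ∧ Cycle.Chain (Nx (gb b)) ((Sw300.L w : List (Port T)) : Cycle (Port T)) := by
  obtain ⟨x, l, h1, h2⟩ := h.nx
  rw [h1]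
  refine ⟨by simp, ?_⟩
  rw [Cycle.chain_coe_cons]
  exact h2

/-- **existence of a good word**, any region -/
theorem exists_GW {A : Finset (ℤ × ℤ)} (hsc : (full A).SC) (hc : (full A).Conn) {p y0 xr : ℤ}
    (hpr : p ≤ xr) (hv : ∀ x, p ≤ x → x ≤ xr → (x, y0 - 1) ∈ A ∧ (x, y0) ∈ A) (hw : (xr + 1, y0) ∉ A)
    (hcon : p < xr ∨ ((p - 1, y0 - 1) ∈ A ∧ (p - 1, y0) ∈ A)) :
    ∃ w, GW A (beD A p y0 xr) w := by
  obtain ⟨w, l, h1, h2, -, h3⟩ := wordD hsc hc hpr hv hw hcon
  exact ⟨w, h1.gw h2 (List.ne_nil_of_mem h3)⟩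

/-- existence of a good word inside a common run of the rows `y0 - 1`, `y0` -/
theorem exists_GW_run {A : Finset (ℤ × ℤ)} (hsc : (full A).SC) (hc : (full A).Conn) {xl xr p y0 : ℤ}
    (h1 : Run A xl xr (y0 - 1)) (h2 : Run A xl xr y0) (h3 : xl ≤ p) (h4 : p ≤ xr) (h5 : xl < xr) :
    ∃ w, GW A (beD A p y0 xr) w := by
  refine exists_GW hsc hc h4 (fun x h6 h7 => ⟨h1.mem x (by omega) h7, h2.mem x (by omega) h7⟩)
    h2.right ?_
  by_cases h6 : p < xr
  · exact Or.inl h6
  · exact Or.inr ⟨h1.mem _ (by omega) (by omega), h2.mem _ (by omega) (by omega)⟩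

/-- **`D^(z)` of a macroscopic polyomino**, `z = (p, y0)` not at a corner height -/
theorem exists_GW_mac (M : Mac) {L : ℤ} (hL : 1 < L) {a b c p y0 : ℤ} (hr : Run M.F a b c)
    (h1 : c * L < y0) (h2 : y0 < c * L + L) (h3 : a * L ≤ p) (h4 : p ≤ b * L + L - 1) :
    rgt (D M.F L) p y0 = b * L + L - 1 ∧
      ∃ w, GW (D M.F L) (beD (D M.F L) p y0 (rgt (D M.F L) p y0)) w := by
  have hL' : 0 < L := by omega
  have r1 := hr.scale hL' (y := y0 - 1) (by omega) (by omega)
  have r2 := hr.scale hL' (y := y0) (by omega) (by omega)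
  have e : rgt (D M.F L) p y0 = b * L + L - 1 := Ob664.rgt_run r2 h3 h4
  refine ⟨e, ?_⟩
  rw [e]
  have hab := hr.le
  exact exists_GW_run (D_SC M hL') (D_Conn M hL') r1 r2 h3 h4 (by nlinarith)

/-! ### the crosscut -/

section cut

variable {A : Finset (ℤ × ℤ)} {xl xr y0 : ℤ}

lemma CutAdj.symm {s t : ℤ × ℤ} (h : CutAdj A xl xr y0 s t) : CutAdj A xl xr y0 t s := by
  obtain ⟨h1, h2, h3, h4⟩ := h
  refine ⟨h1.symm, h3, h2, ?_⟩
  omega

lemma cut_symm {s t : ℤ × ℤ} (h : Relation.ReflTransGen (CutAdj A xl xr y0) s t) :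
    Relation.ReflTransGen (CutAdj A xl xr y0) t s := by
  induction h with
  | refl => exact .refl
  | tail _ h2 ih => exact .head (CutAdj.symm h2) ih

/-- the cut region -/
def cutR (A : Finset (ℤ × ℤ)) (xl xr y0 : ℤ) : Reg := Env664.reg A xl xr y0

lemma cut_walk {s t : ℤ × ℤ} (h : Relation.ReflTransGen (CutAdj A xl xr y0) s t) (hs : s ∈ A) :
    ∃ N, (cutR A xl xr y0).WN (A : Set (ℤ × ℤ)) s t N ∧ (full A).WN (A : Set (ℤ × ℤ)) s t N := by
  induction h with
  | refl => exact ⟨0, .nil (by exact_mod_cast hs), .nil (by exact_mod_cast hs)⟩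
  | @tail c d _ h2 ih =>
    obtain ⟨N, hN, hN'⟩ := ih
    obtain ⟨h3, h4, h5, h6⟩ := h2
    have hd : d ∈ (A : Set (ℤ × ℤ)) := by exact_mod_cast h5
    have hs : ∃ M, (cutR A xl xr y0).Stp c d M ∧ (full A).Stp c d M := by
      obtain ⟨x, y⟩ := c
      obtain ⟨x', y'⟩ := d
      simp only at h6
      rcases h3 with ⟨h1, h2 | h2⟩ | ⟨h1, h2 | h2⟩ <;> simp only at h1 h2 <;> subst h1 h2
      · refine ⟨_, .up ⟨h4, h5, ?_⟩, .up ⟨h4, h5⟩⟩
        simp only; omega
      · refine ⟨_, .down ⟨h5, h4, ?_⟩, .down ⟨h5, h4⟩⟩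
        simp only; omega
      · exact ⟨_, .right ⟨h4, h5⟩, .right ⟨h4, h5⟩⟩
      · exact ⟨_, .left ⟨h5, h4⟩, .left ⟨h5, h4⟩⟩
    obtain ⟨M, hM, hM'⟩ := hs
    exact ⟨_, hN.cons hM hd, hN'.cons hM' hd⟩

/-- **a crosscut separates**: the row line under the run `xl..xr` of the row `y0` -/
theorem cut_disj (hsc : (full A).SC) (h1 : (xl - 1, y0) ∉ A) (h2 : (xr + 1, y0) ∉ A) (hle : xl ≤ xr)
    (h4 : (xl, y0) ∈ A) :
    ¬ Relation.ReflTransGen (CutAdj A xl xr y0) (xl, y0 - 1) (xl, y0) := by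
  intro h
  have h3 : (xl, y0 - 1) ∈ A := by
    rcases Relation.ReflTransGen.cases_head h with h5 | ⟨c, h5, -⟩
    · simp only [Prod.mk.injEq] at h5; omega
    · exact h5.2.1
  obtain ⟨N, hN, hN'⟩ := cut_walk h h3
  -- closing the walk
  have hst : (full A).Stp (xl, y0) (xl, y0 - 1) (fun _ => 0) := by
    have := Reg.Stp.down (R := full A) (a := xl) (b := y0 - 1)
      ⟨h3, by simpa using h4⟩
    rwa [sub_add_cancel] at this
  have hcl := hN'.cons hst (by exact_mod_cast h3)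
  have hz : ∀ {f : ℤ × ℤ}, (full A).Out f → N f = 0 := by
    intro f hf
    have := hcl.closed_out hf
    simpa using this
  have o1 : (full A).Out (xl - 1, y0 - 1) := by
    refine hsc _ _ (Or.inr (Or.inl ?_))
    rw [sub_add_cancel, full_h]
    exact fun h => h1 h.1
  have o2 : (full A).Out (xr, y0 - 1) := by
    refine hsc _ _ (Or.inr (Or.inl ?_))
    rw [sub_add_cancel, full_h]
    exact fun h => h2 h.2
  have step : ∀ x, xl ≤ x + 1 → x + 1 ≤ xr →
      N (x, y0 - 1) + N (x + 1, y0 - 1) = Reg.Cc (x + 1) (y0 - 1) (xl, y0 - 1) +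
        Reg.Cc (x + 1) (y0 - 1) (xl, y0) := by
    intro x h5 h6
    refine hN.hor (Or.inl ?_)
    rintro ⟨-, -, h7⟩
    exact h7 ⟨rfl, h5, h6⟩
  have s0 := step (xl - 1) (by omega) (by omega)
  rw [sub_add_cancel, hz o1, zero_add] at s0
  have q1 : Reg.Cc xl (y0 - 1) (xl, y0 - 1) = 0 := if_neg (fun h => by have := h.2; simp only at this; omega)
  have q2 : Reg.Cc xl (y0 - 1) (xl, y0) = 1 := if_pos ⟨rfl, by simp only; omega⟩
  rw [q1, q2, zero_add] at s0
  have s1 : ∀ n : ℕ, xl + n ≤ xr → N (xl + n, y0 - 1) = 1 := by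
    intro n
    induction n with
    | zero => intro _; simpa using s0
    | succ n ih =>
      intro hn
      push_cast at hn
      have e1 := step (xl + n) (by omega) (by omega)
      rw [ih (by omega)] at e1
      simp only [Reg.Cc] at e1
      rw [if_neg (by omega), if_neg (by omega), add_zero] at e1
      rw [show xl + ((n + 1 : ℕ) : ℤ) = xl + n + 1 by push_cast; ring]
      have e : ∀ a : ZMod 2, 1 + a = 0 → a = 1 := by decide
      exact e _ e1
  have s2 := s1 (xr - xl).toNat (by omega)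
  rw [Int.toNat_of_nonneg (by omega), add_sub_cancel, hz o2] at s2
  exact zero_ne_one s2

lemma mem_lowT {t : ℤ × ℤ} : t ∈ lowT A xl xr y0 ↔
    t ∈ A ∧ Relation.ReflTransGen (CutAdj A xl xr y0) (xl, y0 - 1) t := by
  classical
  unfold lowT
  rw [Finset.mem_filter]

lemma mem_upT {t : ℤ × ℤ} : t ∈ upT A xl xr y0 ↔
    t ∈ A ∧ Relation.ReflTransGen (CutAdj A xl xr y0) (xl, y0) t := by
  classical
  unfold upT
  rw [Finset.mem_filter]

/-- closure under allowed steps -/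
lemma low_step {s t : ℤ × ℤ} (hs : s ∈ lowT A xl xr y0) (h : CutAdj A xl xr y0 s t) :
    t ∈ lowT A xl xr y0 := mem_lowT.2 ⟨h.2.2.1, (mem_lowT.1 hs).2.tail h⟩

lemma up_step {s t : ℤ × ℤ} (hs : s ∈ upT A xl xr y0) (h : CutAdj A xl xr y0 s t) :
    t ∈ upT A xl xr y0 := mem_upT.2 ⟨h.2.2.1, (mem_upT.1 hs).2.tail h⟩

/-- the two parts are disjoint -/
theorem low_disj_up (hsc : (full A).SC) (hr : Run A xl xr y0) {t : ℤ × ℤ}
    (h1 : t ∈ lowT A xl xr y0) (h2 : t ∈ upT A xl xr y0) : False :=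
  cut_disj hsc hr.left hr.right hr.le (hr.mem _ (le_refl _) hr.le)
    ((mem_lowT.1 h1).2.trans (cut_symm (mem_upT.1 h2).2))

/-- the row above the line is in the upper part -/
lemma row_up (hr : Run A xl xr y0) {x : ℤ} (h1 : xl ≤ x) (h2 : x ≤ xr) :
    (x, y0) ∈ upT A xl xr y0 := by
  have key : ∀ n : ℕ, xl + n ≤ xr → (xl + n, y0) ∈ upT A xl xr y0 := by
    intro n
    induction n with
    | zero =>
      intro _
      rw [Nat.cast_zero, add_zero]
      exact mem_upT.2 ⟨hr.mem _ (le_refl _) hr.le, .refl⟩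
    | succ n ih =>
      intro hn
      push_cast at hn ⊢
      refine up_step (ih (by omega)) ⟨Or.inr ⟨rfl, Or.inl ?_⟩, hr.mem _ (by omega) (by omega),
        hr.mem _ (by omega) (by omega), ?_⟩
      · simp only; omega
      · simp only; omega
  have := key (x - xl).toNat (by omega)
  rwa [Int.toNat_of_nonneg (by omega), add_sub_cancel] at this

/-- the row below the line is in the lower part -/
lemma row_low (hr : Run A xl xr (y0 - 1)) {x : ℤ} (h1 : xl ≤ x) (h2 : x ≤ xr) :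
    (x, y0 - 1) ∈ lowT A xl xr y0 := by
  have key : ∀ n : ℕ, xl + n ≤ xr → (xl + n, y0 - 1) ∈ lowT A xl xr y0 := by
    intro n
    induction n with
    | zero =>
      intro _
      rw [Nat.cast_zero, add_zero]
      exact mem_lowT.2 ⟨hr.mem _ (le_refl _) hr.le, .refl⟩
    | succ n ih =>
      intro hn
      push_cast at hn ⊢
      refine low_step (ih (by omega)) ⟨Or.inr ⟨rfl, Or.inl ?_⟩, hr.mem _ (by omega) (by omega),
        hr.mem _ (by omega) (by omega), ?_⟩
      · simp only; omega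
      · simp only; omega
  have := key (x - xl).toNat (by omega)
  rwa [Int.toNat_of_nonneg (by omega), add_sub_cancel] at this

/-- the row above the line is not in the lower part -/
lemma up_not_low (hsc : (full A).SC) (hr : Run A xl xr y0) {x : ℤ} (h1 : xl ≤ x) (h2 : x ≤ xr) :
    (x, y0) ∉ lowT A xl xr y0 := fun h => low_disj_up hsc hr h (row_up hr h1 h2)

lemma low_not_up (hsc : (full A).SC) (hr : Run A xl xr y0) (hr' : Run A xl xr (y0 - 1)) {x : ℤ}
    (h1 : xl ≤ x) (h2 : x ≤ xr) :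
    (x, y0 - 1) ∉ upT A xl xr y0 := fun h => low_disj_up hsc hr (row_low hr' h1 h2) h

/-- the two parts cover -/
theorem low_union_up (hc : ∀ a ∈ A, ∀ b ∈ A, CPath {t | t ∈ A} a b) (hr : Run A xl xr y0)
    (hr' : Run A xl xr (y0 - 1)) {t : ℤ × ℤ} (ht : t ∈ A) :
    t ∈ lowT A xl xr y0 ∨ t ∈ upT A xl xr y0 := by
  have h := hc _ (hr.mem xl (le_refl _) hr.le) t ht
  clear ht
  induction h with
  | refl => exact Or.inr (row_up hr (le_refl _) hr.le)
  | @tail c d _ h2 ih =>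
    obtain ⟨h3, h4, h5⟩ := h2
    by_cases h6 : xl ≤ c.1 ∧ c.1 ≤ xr ∧ c.1 = d.1 ∧ ((c.2 = y0 - 1 ∧ d.2 = y0) ∨ (c.2 = y0 ∧ d.2 = y0 - 1))
    · obtain ⟨g1, g2, g3, g4⟩ := h6
      obtain ⟨x, y⟩ := d
      simp only at g3 g4
      rcases g4 with ⟨-, rfl⟩ | ⟨-, rfl⟩
      · exact Or.inr (row_up hr (by omega) (by omega))
      · exact Or.inl (row_low hr' (by omega) (by omega))
    · have h7 : CutAdj A xl xr y0 c d := ⟨h3, h4, h5, h6⟩
      rcases ih with ih | ih
      · exact Or.inl (low_step ih h7)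
      · exact Or.inr (up_step ih h7)

/-- the two parts touch only across the line -/
theorem low_up_adj (hsc : (full A).SC) (hr : Run A xl xr y0) {s t : ℤ × ℤ}
    (hs : s ∈ lowT A xl xr y0) (ht : t ∈ upT A xl xr y0) (h : Adj4 s t) :
    xl ≤ s.1 ∧ s.1 ≤ xr ∧ s.1 = t.1 ∧ s.2 = y0 - 1 ∧ t.2 = y0 := by
  by_contra hcon
  have h7 : CutAdj A xl xr y0 s t := by
    refine ⟨h, (mem_lowT.1 hs).1, (mem_upT.1 ht).1, ?_⟩
    rintro ⟨g1, g2, g3, g4 | g4⟩
    · exact hcon ⟨g1, g2, g3, g4.1, g4.2⟩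
    · -- `s` above the line
      have : s = (s.1, y0) := by
        rw [← g4.1]
      rw [this] at hs
      exact up_not_low hsc hr g1 g2 hs
  exact low_disj_up hsc hr (low_step hs h7) ht

lemma low_cpath {t : ℤ × ℤ} (ht : t ∈ lowT A xl xr y0) :
    CPath {t | t ∈ lowT A xl xr y0} (xl, y0 - 1) t := by
  obtain ⟨hA, h⟩ := mem_lowT.1 ht
  clear ht hA
  induction h with
  | refl => exact .refl
  | @tail c d h1 h2 ih =>
    have hc : c ∈ lowT A xl xr y0 := mem_lowT.2 ⟨h2.2.1, h1⟩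
    exact ih.trans (CPath.step h2.1 hc (low_step hc h2))

lemma up_cpath {t : ℤ × ℤ} (ht : t ∈ upT A xl xr y0) :
    CPath {t | t ∈ upT A xl xr y0} (xl, y0) t := by
  obtain ⟨hA, h⟩ := mem_upT.1 ht
  clear ht hA
  induction h with
  | refl => exact .refl
  | @tail c d h1 h2 ih =>
    have hc : c ∈ upT A xl xr y0 := mem_upT.2 ⟨h2.2.1, h1⟩
    exact ih.trans (CPath.step h2.1 hc (up_step hc h2))

theorem low_Conn : (full (lowT A xl xr y0)).Conn :=
  full_Conn fun a ha b hb => (low_cpath ha).symm.trans (low_cpath hb)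

theorem up_Conn : (full (upT A xl xr y0)).Conn :=
  full_Conn fun a ha b hb => (up_cpath ha).symm.trans (up_cpath hb)

/-- the lower part has no holes -/
theorem low_SC (hsc : (full A).SC) (hcc : ∀ a ∉ A, ∀ b ∉ A, CPath {t | t ∉ A} a b)
    (hc : ∀ a ∈ A, ∀ b ∈ A, CPath {t | t ∈ A} a b) (hr : Run A xl xr y0)
    (hr' : Run A xl xr (y0 - 1)) : (full (lowT A xl xr y0)).SC := by
  have hsub : {t | t ∉ A} ⊆ {t | t ∉ lowT A xl xr y0} := fun t h h' => h (mem_lowT.1 h').1
  have hsub2 : {t | t ∈ upT A xl xr y0} ⊆ {t | t ∉ lowT A xl xr y0} :=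
    fun t h h' => low_disj_up hsc hr h' h
  obtain ⟨y, hy⟩ := exists_top A
  have hfar : (0, y) ∉ A := fun h => lt_irrefl _ (hy _ h)
  refine full_SC fun c hc' => ⟨(0, y), ?_, fun t ht => (hy t (mem_lowT.1 ht).1).le⟩
  by_cases h1 : c ∈ A
  · have h2 : c ∈ upT A xl xr y0 := (low_union_up hc hr hr' h1).resolve_left hc'
    have h3 : (xl, y0) ∈ upT A xl xr y0 := row_up hr (le_refl _) hr.le
    refine ((up_cpath h2).symm.mono hsub2).trans (.trans (CPath.step (b := (xl - 1, y0)) ?_ ?_ ?_)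
      ((hcc _ hr.left _ hfar).mono hsub))
    · exact Or.inr ⟨rfl, Or.inr (by simp)⟩
    · exact hsub2 h3
    · exact hsub hr.left
  · exact (hcc _ h1 _ hfar).mono hsub

/-- the upper part has no holes -/
theorem up_SC (hsc : (full A).SC) (hcc : ∀ a ∉ A, ∀ b ∉ A, CPath {t | t ∉ A} a b)
    (hc : ∀ a ∈ A, ∀ b ∈ A, CPath {t | t ∈ A} a b) (hr : Run A xl xr y0)
    (hr' : Run A xl xr (y0 - 1)) : (full (upT A xl xr y0)).SC := by
  have hsub : {t | t ∉ A} ⊆ {t | t ∉ upT A xl xr y0} := fun t h h' => h (mem_upT.1 h').1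
  have hsub2 : {t | t ∈ lowT A xl xr y0} ⊆ {t | t ∉ upT A xl xr y0} :=
    fun t h h' => low_disj_up hsc hr h h'
  obtain ⟨y, hy⟩ := exists_top A
  have hfar : (0, y) ∉ A := fun h => lt_irrefl _ (hy _ h)
  refine full_SC fun c hc' => ⟨(0, y), ?_, fun t ht => (hy t (mem_upT.1 ht).1).le⟩
  by_cases h1 : c ∈ A
  · have h2 : c ∈ lowT A xl xr y0 := (low_union_up hc hr hr' h1).resolve_right hc'
    have h3 : (xl, y0 - 1) ∈ lowT A xl xr y0 := row_low hr' (le_refl _) hr.le
    refine ((low_cpath h2).symm.mono hsub2).trans (.trans (CPath.step (b := (xl - 1, y0 - 1)) ?_ ?_ ?_)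
      ((hcc _ hr'.left _ hfar).mono hsub))
    · exact Or.inr ⟨rfl, Or.inr (by simp)⟩
    · exact hsub2 h3
    · exact hsub hr'.left
  · exact (hcc _ h1 _ hfar).mono hsub

end cut

end Crest.Agent.R158.Xr249
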