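import Crest.Agent.R158.Ka7_470
import Crest.Agent.R158.Xr10_249

/-!
R158, leaf F1 (helper470), part 8: the half environment of a macroscopic polyomino.

* `lowHalf` : the part of `D(F, L)` below the crosscut `y0` in the run `a..b` of the row `c` of
  macroscopic cells, with a strip of width `R` in the rows `y1 ≤ y < y0`
* `lowHalf_mc` : its macroscopic structure, `lowHalf_bd` : its size
-/

set_option autoImplicit false

namespace Crest.Agent.R158.Ka470

open Crest.Agent.R158.Nm211
open Crest.Agent.R158.Env664 (TG Mac D mem_D div_iff Run CutAdj Adj4 lowT upT)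
open Crest.Agent.R158.Xr249 (mem_lowT mem_upT low_step up_step row_up row_low low_disj_up full)

section seg

variable {A S : Finset (ℤ × ℤ)} {xl xr y0 : ℤ}

/-- vertical segments -/
theorem vseg (hS : ∀ s t, s ∈ S → CutAdj A xl xr y0 s t → t ∈ S) {x y y' : ℤ}
    (hA : ∀ z, (y ≤ z ∧ z ≤ y') ∨ (y' ≤ z ∧ z ≤ y) → (x, z) ∈ A)
    (hc : xl ≤ x → x ≤ xr → (y < y0 ↔ y' < y0)) (h : (x, y) ∈ S) : (x, y') ∈ S := by
  rcases le_total y y' with hy | hy
  · have key : ∀ n : ℕ, y + n ≤ y' → (x, y + n) ∈ S := by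
      intro n
      induction n with
      | zero => intro _; simpa using h
      | succ n ih =>
        intro hn
        push_cast at hn ⊢
        refine hS _ _ (ih (by omega)) ⟨Or.inl ⟨rfl, Or.inl ?_⟩, hA _ (by omega), hA _ (by omega), ?_⟩
        · simp only; ring
        · simp only; omega
    have := key (y' - y).toNat (by omega)
    rwa [Int.toNat_of_nonneg (by omega), add_sub_cancel] at this
  · have key : ∀ n : ℕ, y' ≤ y - n → (x, y - n) ∈ S := by
      intro n
      induction n with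
      | zero => intro _; simpa using h
      | succ n ih =>
        intro hn
        push_cast at hn ⊢
        refine hS _ _ (ih (by omega)) ⟨Or.inl ⟨rfl, Or.inr ?_⟩, hA _ (by omega), hA _ (by omega), ?_⟩
        · simp only; ring
        · simp only; omega
    have := key (y - y').toNat (by omega)
    rwa [Int.toNat_of_nonneg (by omega), sub_sub_cancel] at this

/-- horizontal segments -/
theorem hseg (hS : ∀ s t, s ∈ S → CutAdj A xl xr y0 s t → t ∈ S) {x x' y : ℤ}
    (hA : ∀ z, (x ≤ z ∧ z ≤ x') ∨ (x' ≤ z ∧ z ≤ x) → (z, y) ∈ A) (h : (x, y) ∈ S) :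
    (x', y) ∈ S := by
  rcases le_total x x' with hy | hy
  · have key : ∀ n : ℕ, x + n ≤ x' → (x + n, y) ∈ S := by
      intro n
      induction n with
      | zero => intro _; simpa using h
      | succ n ih =>
        intro hn
        push_cast at hn ⊢
        refine hS _ _ (ih (by omega)) ⟨Or.inr ⟨rfl, Or.inl ?_⟩, hA _ (by omega), hA _ (by omega), ?_⟩
        · simp only; ring
        · simp only; omega
    have := key (x' - x).toNat (by omega)
    rwa [Int.toNat_of_nonneg (by omega), add_sub_cancel] at this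
  · have key : ∀ n : ℕ, x' ≤ x - n → (x - n, y) ∈ S := by
      intro n
      induction n with
      | zero => intro _; simpa using h
      | succ n ih =>
        intro hn
        push_cast at hn ⊢
        refine hS _ _ (ih (by omega)) ⟨Or.inr ⟨rfl, Or.inr ?_⟩, hA _ (by omega), hA _ (by omega), ?_⟩
        · simp only; ring
        · simp only; omega
    have := key (x - x').toNat (by omega)
    rwa [Int.toNat_of_nonneg (by omega), sub_sub_cancel] at this

end seg

/-- data of a lower half: a run of a macroscopic polyomino, the heights of the floor of the strip and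
of the crosscut, the width of the strip -/
structure LD (M : Mac) (L a b c y1 y0 R : ℤ) : Prop where
  hL : 0 < L
  run : Run M.F a b c
  hY : c * L ≤ y1
  h1 : y1 < y0
  h2 : y0 < c * L + L
  hR : 0 < R

section

variable {M : Mac} {L a b c y1 y0 R : ℤ}

theorem LD.r0 (d : LD M L a b c y1 y0 R) : Run (D M.F L) (a * L) (b * L + L - 1) y0 :=
  d.run.scale d.hL (by have := d.hY; have := d.h1; omega) d.h2

theorem LD.r1 (d : LD M L a b c y1 y0 R) : Run (D M.F L) (a * L) (b * L + L - 1) (y0 - 1) :=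
  d.run.scale d.hL (by have := d.hY; have := d.h1; omega) (by have := d.h2; omega)

theorem LD.ab (d : LD M L a b c y1 y0 R) : a * L ≤ b * L := by
  have := d.run.le
  have := d.hL
  nlinarith

theorem LD.memD (d : LD M L a b c y1 y0 R) {x y : ℤ} (h1 : c * L ≤ y) (h2 : y < c * L + L)
    (h3 : a * L ≤ x) (h4 : x ≤ b * L + L - 1) : (x, y) ∈ D M.F L :=
  (d.run.scale d.hL h1 h2).mem x h3 h4

theorem LD.row (d : LD M L a b c y1 y0 R) {x y : ℤ} (h1 : c * L ≤ y) (h2 : y < y0)
    (h3 : a * L ≤ x) (h4 : x ≤ b * L + L - 1) :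
    (x, y) ∈ lowT (D M.F L) (a * L) (b * L + L - 1) y0 := by
  have h5 := d.h2
  refine vseg (y := y0 - 1) (fun s t => low_step) (fun z hz => d.memD ?_ ?_ h3 h4)
    (fun _ _ => ?_) (row_low d.r1 h3 h4)
  · omega
  · omega
  · omega

theorem LD.top (d : LD M L a b c y1 y0 R) {x y : ℤ} (h1 : y0 ≤ y) (h2 : y < c * L + L)
    (h3 : a * L ≤ x) (h4 : x ≤ b * L + L - 1) :
    (x, y) ∉ lowT (D M.F L) (a * L) (b * L + L - 1) y0 := by
  intro h
  have h5 := d.hY
  have h6 := d.h1
  refine low_disj_up (Xr249.D_SC M d.hL) d.r0 h ?_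
  refine vseg (y := y0) (fun s t => up_step) (fun z hz => d.memD ?_ ?_ h3 h4)
    (fun _ _ => ?_) (row_up d.r0 h3 h4)
  · omega
  · omega
  · omega

theorem LD.left (d : LD M L a b c y1 y0 R) {x y : ℤ} (h1 : c * L ≤ y) (h2 : y < c * L + L)
    (h3 : a * L - L ≤ x) (h4 : x < a * L) : (x, y) ∉ D M.F L := by
  rw [mem_D d.hL]
  have e1 : x / L = a - 1 := (div_iff d.hL _ _).2 (by constructor <;> nlinarith)
  have e2 : y / L = c := (div_iff d.hL _ _).2 ⟨h1, h2⟩
  simp only [e1, e2]
  exact d.run.left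

theorem LD.right (d : LD M L a b c y1 y0 R) {x y : ℤ} (h1 : c * L ≤ y) (h2 : y < c * L + L)
    (h3 : b * L + L - 1 < x) (h4 : x ≤ b * L + L - 1 + L) : (x, y) ∉ D M.F L := by
  rw [mem_D d.hL]
  have e1 : x / L = b + 1 := (div_iff d.hL _ _).2 (by constructor <;> nlinarith)
  have e2 : y / L = c := (div_iff d.hL _ _).2 ⟨h1, h2⟩
  simp only [e1, e2]
  exact d.run.right

/-- **the lower half environment** -/
noncomputable def lowHalf (d : LD M L a b c y1 y0 R) : Half where
  H := lowT (D M.F L) (a * L) (b * L + L - 1) y0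
  xl := a * L
  xr := b * L + L - 1
  Y := c * L
  y1 := y1
  y0 := y0
  R := R
  W := min L (c * L + L - y0)
  hY := d.hY
  h1 := d.h1
  hx := by have := d.ab; have := d.hL; omega
  hR := d.hR
  hW := by have := d.hL; have := d.h2; omega
  row x y h1 h2 h3 h4 := d.row h1 h2 h3 h4
  left x y h1 h2 h3 h4 h := d.left h1 (by omega) (by omega) h4 (mem_lowT.1 h).1
  right x y h1 h2 h3 h4 h := d.right h1 (by omega) h3 (by omega) (mem_lowT.1 h).1
  top x y h1 h2 h3 h4 := d.top h3 (by omega) h1 h2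

/-- **macroscopic structure** -/
theorem lowHalf_mc (d : LD M L a b c y1 y0 R) : (lowHalf d).Mc L a b c where
  hL := d.hL
  xl := rfl
  xr := rfl
  Y := rfl
  W := by
    show y0 + min L (c * L + L - y0) ≤ c * L + L
    omega
  same := by
    rintro ⟨x, y⟩ ⟨x', y'⟩ h1 h2 h3 h
    have hL := d.hL
    have h4 := d.hY
    have h5 := d.h1
    have h6 := d.h2
    change (x, y) ∈ lowT (D M.F L) (a * L) (b * L + L - 1) y0 at h
    show (x', y') ∈ lowT (D M.F L) (a * L) (b * L + L - 1) y0
    have hD := (mem_lowT.1 h).1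
    rw [mem_D hL] at hD
    simp only at h1 h2 hD
    obtain ⟨a1, a2⟩ := (div_iff hL x (x / L)).1 rfl
    obtain ⟨a3, a4⟩ := (div_iff hL y (y / L)).1 rfl
    obtain ⟨a5, a6⟩ := (div_iff hL x' (x / L)).1 h1.symm
    obtain ⟨a7, a8⟩ := (div_iff hL y' (y / L)).1 h2.symm
    have hA : ∀ u v : ℤ, x / L * L ≤ u → u < x / L * L + L → y / L * L ≤ v → v < y / L * L + L →
        (u, v) ∈ D M.F L := by
      intro u v u1 u2 v1 v2
      rw [mem_D hL]
      have e1 : u / L = x / L := (div_iff hL _ _).2 ⟨u1, u2⟩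
      have e2 : v / L = y / L := (div_iff hL _ _).2 ⟨v1, v2⟩
      simp only [e1, e2]
      exact hD
    refine vseg (fun s t => low_step) (y := y) (fun z hz => hA _ _ a5 a6 (by omega) (by omega))
      (fun hx1 hx2 => ?_)
      (hseg (fun s t => low_step) (x := x) (fun z hz => hA _ _ (by omega) (by omega) a3 a4) h)
    by_cases hc : y / L = c
    · have hx3 : a ≤ x / L := by
        by_contra hcon
        have : x / L + 1 ≤ a := by omega
        nlinarith
      have hx4 : x / L ≤ b := by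
        by_contra hcon
        have : b + 1 ≤ x / L := by omega
        nlinarith
      have hx5 : a * L ≤ x / L * L := by nlinarith
      have hx6 : x / L * L ≤ b * L := by nlinarith
      refine h3 ?_ ?_ hc
      · show a * L ≤ x
        omega
      · show x ≤ b * L + L - 1
        omega
    · rcases lt_or_gt_of_ne hc with hc | hc
      · have : y / L * L + L ≤ c * L := by
          have : y / L + 1 ≤ c := by omega
          nlinarith
        omega
      · have : c * L + L ≤ y / L * L := by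
          have : c + 1 ≤ y / L := by omega
          nlinarith
        omega

/-- a box that contains the cells of the polyomino -/
def BoxF (F : Finset (ℤ × ℤ)) (K X0 Y0 : ℤ) : Prop :=
  ∀ q ∈ F, (X0 ≤ q.1 ∧ q.1 < X0 + K) ∧ Y0 ≤ q.2 ∧ q.2 < Y0 + K

theorem exists_boxF (F : Finset (ℤ × ℤ)) : ∃ K X0 Y0 : ℤ, 0 ≤ K ∧ BoxF F K X0 Y0 := by
  classical
  induction F using Finset.induction_on with
  | empty => exact ⟨0, 0, 0, le_rfl, fun q hq => by simp at hq⟩
  | @insert q F _ ih =>
    obtain ⟨K, X0, Y0, hK, h⟩ := ih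
    refine ⟨K + |q.1 - X0| + |q.2 - Y0| + 1 + |q.1 - X0| + |q.2 - Y0|, X0 - |q.1 - X0|,
      Y0 - |q.2 - Y0|, by positivity, ?_⟩
    have h1 := neg_abs_le (q.1 - X0)
    have h2 := le_abs_self (q.1 - X0)
    have h3 := neg_abs_le (q.2 - Y0)
    have h4 := le_abs_self (q.2 - Y0)
    intro r hr
    rcases Finset.mem_insert.1 hr with rfl | hr
    · omega
    · have := h r hr
      omega

/-- **size** -/
theorem lowHalf_bd (d : LD M L a b c y1 y0 R) {K X0 Y0 : ℤ} (hF : BoxF M.F K X0 Y0)
    {ρ κ : ℕ} (h1 : K * L ≤ κ * ρ) (h2 : R ≤ κ * ρ) : (lowHalf d).Bd ρ κ where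
  hH := by
    refine ⟨X0 * L, Y0 * L, fun v hv => ?_⟩
    have hL := d.hL
    have hD := (mem_lowT.1 hv).1
    rw [mem_D hL] at hD
    obtain ⟨⟨f1, f2⟩, f3, f4⟩ := hF _ hD
    simp only at f1 f2 f3 f4
    obtain ⟨a1, a2⟩ := (div_iff hL v.1 (v.1 / L)).1 rfl
    obtain ⟨a3, a4⟩ := (div_iff hL v.2 (v.2 / L)).1 rfl
    refine ⟨⟨?_, ?_⟩, ?_, ?_⟩ <;> nlinarith
  hR := h2

/-- **scales**: sufficient conditions -/
theorem lowHalf_sz (d : LD M L a b c y1 y0 R) {ρ : ℕ} (h0 : 1 ≤ ρ) (h1 : 5 * (ρ : ℤ) ≤ y1 - c * L)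
    (h2 : 5 * (ρ : ℤ) ≤ c * L + L - y0) (h3 : 16 * (ρ : ℤ) ≤ R)
    (h4 : 5 * (ρ : ℤ) ≤ 2 * (y0 - y1)) : (lowHalf d).Sz ρ ∧ (lowHalf d).Sz' ρ L := by
  have h5 := d.h1
  have h6 := d.h2
  have h7 : (1 : ℤ) ≤ ρ := by exact_mod_cast h0
  refine ⟨⟨h0, h1, ?_, ?_⟩, ?_, h4⟩
  · show 5 * (ρ : ℤ) ≤ min L (c * L + L - y0)
    omega
  · show 2 * (8 * (ρ : ℤ)) ≤ R
    omega
  · omega

end

end Crest.Agent.R158.Ka470
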