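import Crest.Agent.R158.Cc1_841
import Crest.Agent.R158.Ka8_470
import Crest.Agent.R158.Nz3_399

/-!
# R158, leaf (3) of block Q1d (helper841), part 2: corner count of a half environment

* `HConn` : connectedness; `low_hc`, `up_hc` : the two parts cut along a crosscut are connected
* `cvh A` : convex corners of the planar part that are corners of the double (the two ends of the
  crosscut are removed); `half_count` : `#cvh + 2 #dg ≤ #rf + 2`
* `cvh_ver`, `rf_ver` : these vertices are macroscopic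
* `pk k g` : quadrant pattern of kind `k` after `g` quarter turns, `Patt_shp` : in terms of `pl`, `qd`
* `patt_cv0`, `patt_rf0` : pattern at a corner in chart 0, `patt_cv1`, `patt_rf1` : in chart 1
  (vertex `mir A p`), `patt_mou` : at the mouths (chart 2)
-/

set_option autoImplicit false

namespace Crest.Agent.R158.Cc841

open Crest.Agent.R158.Env664 (TG Mac D mem_D div_iff Run CutAdj Adj4 lowT upT)
open Crest.Agent.R158.Xr249 (mem_lowT mem_upT low_step up_step cut_symm)
open Crest.Agent.R158.Ka470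
open Crest.Agent.R158.Ka470.Half
open Crest.Agent.R158.Nz399
open Relation

/-! ### connectedness -/

/-- connected by side adjacency -/
def HConn (H : Finset (ℤ × ℤ)) : Prop :=
  ∀ a ∈ H, ∀ b ∈ H, ReflTransGen (fun u v => St u v ∧ u ∈ H ∧ v ∈ H) a b

theorem rtg_symm {H : Finset (ℤ × ℤ)} {a b : ℤ × ℤ}
    (h : ReflTransGen (fun u v => St u v ∧ u ∈ H ∧ v ∈ H) a b) :
    ReflTransGen (fun u v => St u v ∧ u ∈ H ∧ v ∈ H) b a := by
  induction h with
  | refl => exact .refl
  | tail _ h2 ih => exact .head ⟨by have := h2.1; unfold St at *; omega, h2.2.2, h2.2.1⟩ ih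

theorem hc_of_base {H : Finset (ℤ × ℤ)} {o : ℤ × ℤ}
    (h : ∀ t ∈ H, ReflTransGen (fun u v => St u v ∧ u ∈ H ∧ v ∈ H) o t) : HConn H :=
  fun a ha b hb => (rtg_symm (h a ha)).trans (h b hb)

section cut

variable {A : Finset (ℤ × ℤ)} {xl xr y0 : ℤ}

/-- **the part below a crosscut is connected** -/
theorem low_hc : HConn (lowT A xl xr y0) := by
  refine hc_of_base (o := (xl, y0 - 1)) fun t ht => ?_
  obtain ⟨hA, h⟩ := mem_lowT.1 ht
  clear ht hA
  induction h with
  | refl => exact .refl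
  | @tail c d h1 h2 ih =>
    have hc : c ∈ lowT A xl xr y0 := mem_lowT.2 ⟨h2.2.1, h1⟩
    exact ih.tail ⟨h2.1, hc, low_step hc h2⟩

/-- **the part above a crosscut is connected** -/
theorem up_hc : HConn (upT A xl xr y0) := by
  refine hc_of_base (o := (xl, y0)) fun t ht => ?_
  obtain ⟨hA, h⟩ := mem_upT.1 ht
  clear ht hA
  induction h with
  | refl => exact .refl
  | @tail c d h1 h2 ih =>
    have hc : c ∈ upT A xl xr y0 := mem_upT.2 ⟨h2.2.1, h1⟩
    exact ih.tail ⟨h2.1, hc, up_step hc h2⟩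

end cut

/-- reflection of a connected set -/
theorem hc_image {H : Finset (ℤ × ℤ)} {f : ℤ × ℤ → ℤ × ℤ} (hf : ∀ u v, St u v → St (f u) (f v))
    (h : HConn H) : HConn (H.image f) := by
  intro a ha b hb
  obtain ⟨a', ha', rfl⟩ := Finset.mem_image.1 ha
  obtain ⟨b', hb', rfl⟩ := Finset.mem_image.1 hb
  exact ReflTransGen.lift f (fun u v h2 => ⟨hf _ _ h2.1, Finset.mem_image_of_mem _ h2.2.1,
    Finset.mem_image_of_mem _ h2.2.2⟩) _ _ (h a' ha' b' hb')

/-! ### the half environment -/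

section half

variable (A : Half)

theorem mem_cv {H : Finset (ℤ × ℤ)} {p : ℤ × ℤ} : p ∈ cv H ↔ nt H p = 1 := by
  unfold cv
  rw [Finset.mem_filter]
  constructor
  · exact fun h => h.2
  · intro h
    refine ⟨mem_Vx.2 ?_, h⟩
    by_contra hcon
    push Not at hcon
    obtain ⟨h1, h2, h3, h4⟩ := hcon
    unfold nt at h
    simp only [h1, h2, h3, h4, if_false] at h
    omega

theorem mem_rf {H : Finset (ℤ × ℤ)} {p : ℤ × ℤ} : p ∈ rf H ↔ nt H p = 3 := by
  unfold rf
  rw [Finset.mem_filter]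
  constructor
  · exact fun h => h.2
  · intro h
    refine ⟨mem_Vx.2 ?_, h⟩
    by_contra hcon
    push Not at hcon
    obtain ⟨h1, h2, h3, h4⟩ := hcon
    unfold nt at h
    simp only [h1, h2, h3, h4, if_false] at h
    omega

theorem cut_l : (A.xl, A.y0) ∈ cv A.H := by
  have h1 : tA (A.xl, A.y0) ∉ A.H := by
    have := A.hW; have := A.hY; have := A.h1
    exact A.left _ _ (by omega) (by omega) (by omega) (by omega)
  have h2 : tB (A.xl, A.y0) ∈ A.H := by
    have := A.hW; have := A.hY; have := A.h1; have := A.hx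
    exact A.row _ _ (by omega) (by omega) (by omega) (by omega)
  have h3 : tC (A.xl, A.y0) ∉ A.H := by
    have := A.hW; have := A.hY; have := A.h1
    exact A.left _ _ (by omega) (by omega) (by omega) (by omega)
  have h4 : tD (A.xl, A.y0) ∉ A.H := by
    have := A.hW; have := A.hx
    exact A.top _ _ (by omega) (by omega) (by omega) (by omega)
  rw [mem_cv]
  unfold nt
  simp only [h1, h2, h3, h4, if_true, if_false]

theorem cut_r : (A.xr + 1, A.y0) ∈ cv A.H := by
  have h1 : tA (A.xr + 1, A.y0) ∈ A.H := by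
    have := A.hW; have := A.hY; have := A.h1; have := A.hx
    exact A.row _ _ (by omega) (by omega) (by omega) (by omega)
  have h2 : tB (A.xr + 1, A.y0) ∉ A.H := by
    have := A.hW; have := A.hY; have := A.h1; have := A.hx
    exact A.right _ _ (by omega) (by omega) (by omega) (by omega)
  have h3 : tC (A.xr + 1, A.y0) ∉ A.H := by
    have := A.hW; have := A.hY; have := A.h1; have := A.hx
    exact A.top _ _ (by omega) (by omega) (by omega) (by omega)
  have h4 : tD (A.xr + 1, A.y0) ∉ A.H := by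
    have := A.hW; have := A.hY; have := A.h1; have := A.hx
    exact A.right _ _ (by omega) (by omega) (by omega) (by omega)
  rw [mem_cv]
  unfold nt
  simp only [h1, h2, h3, h4, if_true, if_false]

/-- convex corners of the double (one copy) -/
def cvh : Finset (ℤ × ℤ) := ((cv A.H).erase (A.xl, A.y0)).erase (A.xr + 1, A.y0)

variable {A}

theorem mem_cvh {p : ℤ × ℤ} : p ∈ cvh A ↔ nt A.H p = 1 ∧ p ≠ (A.xl, A.y0) ∧ p ≠ (A.xr + 1, A.y0) := by
  unfold cvh
  rw [Finset.mem_erase, Finset.mem_erase, mem_cv]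
  tauto

theorem cvh_card : (cvh A).card + 2 = (cv A.H).card := by
  have h1 := cut_l A
  have h2 : (A.xr + 1, A.y0) ∈ (cv A.H).erase (A.xl, A.y0) := by
    rw [Finset.mem_erase]
    refine ⟨?_, cut_r A⟩
    intro h
    have := A.hx
    simp only [Prod.mk.injEq] at h
    omega
  have e1 := Finset.card_erase_add_one h1
  have e2 := Finset.card_erase_add_one h2
  unfold cvh
  omega

/-- **corner count of a half environment** -/
theorem half_count (hc : HConn A.H) : (cvh A).card + 2 * (dg A.H).card ≤ (rf A.H).card + 2 := by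
  have hne : A.H.Nonempty := ⟨(A.xl, A.y1), A.row _ _ A.hY A.h1 (le_refl _) A.hx⟩
  have h1 := corner_count hne hc
  have h2 := cvh_card (A := A)
  omega

/-- the four tiles at `p` are not symmetric under one of the two reflections -/
def NF (H : Finset (ℤ × ℤ)) (p : ℤ × ℤ) : Prop :=
  (¬(tA p ∈ H ↔ tB p ∈ H) ∨ ¬(tC p ∈ H ↔ tD p ∈ H)) ∧
    (¬(tA p ∈ H ↔ tC p ∈ H) ∨ ¬(tB p ∈ H ↔ tD p ∈ H))

theorem nf_cv {H : Finset (ℤ × ℤ)} {p : ℤ × ℤ} (h : nt H p = 1) : NF H p := by
  unfold nt at h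
  unfold NF
  by_cases h1 : tA p ∈ H <;> by_cases h2 : tB p ∈ H <;> by_cases h3 : tC p ∈ H <;>
    by_cases h4 : tD p ∈ H <;> simp [h1, h2, h3, h4] at h ⊢

theorem nf_rf {H : Finset (ℤ × ℤ)} {p : ℤ × ℤ} (h : nt H p = 3) : NF H p := by
  unfold nt at h
  unfold NF
  by_cases h1 : tA p ∈ H <;> by_cases h2 : tB p ∈ H <;> by_cases h3 : tC p ∈ H <;>
    by_cases h4 : tD p ∈ H <;> simp [h1, h2, h3, h4] at h ⊢

theorem nf_dg {H : Finset (ℤ × ℤ)} {p : ℤ × ℤ} (h : p ∈ dg H) : NF H p := by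
  unfold dg at h
  rw [Finset.mem_filter] at h
  obtain ⟨-, h⟩ := h
  unfold NF
  by_cases h1 : tA p ∈ H <;> by_cases h2 : tB p ∈ H <;> by_cases h3 : tC p ∈ H <;>
    by_cases h4 : tD p ∈ H <;> simp [h1, h2, h3, h4] at h ⊢

theorem div_pred {L x : ℤ} (hL : 0 < L) (h : ¬ L ∣ x) : (x - 1) / L = x / L := by
  refine (div_iff hL _ _).2 ?_
  obtain ⟨h1, h2⟩ := (div_iff hL x (x / L)).1 rfl
  have h3 : x / L * L ≠ x := fun e => h ⟨x / L, by rw [mul_comm]; exact e.symm⟩
  omega

/-- **corners are macroscopic** -/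
theorem ver_of {L a b c : ℤ} (m : A.Mc L a b c) {p : ℤ × ℤ} (hp : NF A.H p) :
    (L ∣ p.1 ∧ L ∣ p.2) ∨ p = (A.xl, A.y0) ∨ p = (A.xr + 1, A.y0) := by
  have hL := m.hL
  have hW := A.hW
  have hY := A.hY
  have h01 := A.h1
  have hx := A.hx
  have m1 := m.W
  have m2 := m.Y
  obtain ⟨hp1, hp2⟩ := hp
  by_cases d1 : L ∣ p.1
  swap
  · exfalso
    have e := div_pred hL d1
    rcases hp1 with h | h
    · exact h ⟨m.same _ _ e rfl fun _ _ _ => Iff.rfl, m.same _ _ e.symm rfl fun _ _ _ => Iff.rfl⟩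
    · exact h ⟨m.same _ _ e rfl fun _ _ _ => Iff.rfl, m.same _ _ e.symm rfl fun _ _ _ => Iff.rfl⟩
  by_cases d2 : L ∣ p.2
  · exact Or.inl ⟨d1, d2⟩
  have e := div_pred hL d2
  right
  by_cases hy : p.2 = A.y0
  swap
  · exfalso
    rcases hp2 with h | h
    · exact h ⟨m.same _ _ rfl e fun _ _ _ => by simp only [tA, tC]; omega,
        m.same _ _ rfl e.symm fun _ _ _ => by simp only [tA, tC]; omega⟩
    · exact h ⟨m.same _ _ rfl e fun _ _ _ => by simp only [tB, tD]; omega,
        m.same _ _ rfl e.symm fun _ _ _ => by simp only [tB, tD]; omega⟩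
  by_cases hl : p.1 = A.xl
  · exact Or.inl (Prod.ext hl hy)
  by_cases hr : p.1 = A.xr + 1
  · exact Or.inr (Prod.ext hr hy)
  exfalso
  by_cases hin : A.xl ≤ p.1 - 1 ∧ p.1 ≤ A.xr
  · have h1 : tA p ∈ A.H := A.row _ _ (by omega) (by omega) (by omega) (by omega)
    have h2 : tB p ∈ A.H := A.row _ _ (by omega) (by omega) (by omega) (by omega)
    have h3 : tC p ∉ A.H := A.top _ _ (by omega) (by omega) (by omega) (by omega)
    have h4 : tD p ∉ A.H := A.top _ _ (by omega) (by omega) (by omega) (by omega)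
    rcases hp1 with h | h
    · exact h (iff_of_true h1 h2)
    · exact h (iff_of_false h3 h4)
  · rcases hp2 with h | h
    · exact h ⟨m.same _ _ rfl e fun _ _ _ => by simp only [tA] at *; omega,
        m.same _ _ rfl e.symm fun _ _ _ => by simp only [tC] at *; omega⟩
    · exact h ⟨m.same _ _ rfl e fun _ _ _ => by simp only [tB] at *; omega,
        m.same _ _ rfl e.symm fun _ _ _ => by simp only [tD] at *; omega⟩

theorem cvh_ver {L a b c : ℤ} (m : A.Mc L a b c) {p : ℤ × ℤ} (hp : p ∈ cvh A) :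
    L ∣ p.1 ∧ L ∣ p.2 := by
  obtain ⟨h1, h2, h3⟩ := mem_cvh.1 hp
  rcases ver_of m (nf_cv h1) with h | h | h
  · exact h
  · exact absurd h h2
  · exact absurd h h3

/-- at a macroscopic height -/
theorem not_mac {L a b c : ℤ} (m : A.Mc L a b c) : ¬ L ∣ A.y0 := by
  rintro ⟨k, hk⟩
  have hL := m.hL
  have hW := A.hW
  have hY := A.hY
  have h01 := A.h1
  have m1 := m.W
  have m2 := m.Y
  have h1 : c * L < L * k := by omega
  have h2 : L * k < c * L + L := by omega
  have h3 : c < k := by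
    by_contra hcon
    nlinarith
  have h4 : k < c + 1 := by
    by_contra hcon
    nlinarith
  omega

theorem rf_ver {L a b c : ℤ} (m : A.Mc L a b c) {p : ℤ × ℤ} (hp : p ∈ rf A.H) :
    L ∣ p.1 ∧ L ∣ p.2 := by
  rw [mem_rf] at hp
  rcases ver_of m (nf_rf hp) with h | h | h
  · exact h
  · rw [h, mem_cv.1 (cut_l A)] at hp; omega
  · rw [h, mem_cv.1 (cut_r A)] at hp; omega

end half

/-! ### patterns -/

/-- quadrant pattern of the kind `k` after `g` quarter turns -/
def pk : Kind → ℕ → Bool → Bool → Bool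
  | .cv, 0, bx, bz => bx && bz
  | .cv, 1, bx, bz => !bx && bz
  | .cv, 2, bx, bz => !bx && !bz
  | .cv, _, bx, bz => bx && !bz
  | .rf, 0, bx, bz => bx || bz
  | .rf, 1, bx, bz => !bx || bz
  | .rf, 2, bx, bz => !bx || !bz
  | .rf, _, bx, bz => bx || !bz
  | .mk, 0, _, bz => bz
  | .mk, 1, bx, _ => !bx
  | .mk, 2, _, bz => !bz
  | .mk, _, bx, _ => bx

/-- **meaning of `pk`** -/
theorem pk_qd {k : Kind} {g : ℕ} (hg : g < 4) (p v : ℤ × ℤ) :
    pk k g (decide (p.1 ≤ (pl g p v).1)) (decide (p.2 ≤ (pl g p v).2)) = true ↔ qd k v := by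
  obtain ⟨x, y⟩ := v
  obtain ⟨px, py⟩ := p
  interval_cases g <;> cases k <;>
    simp [pk, qd, pl, rt, Function.iterate_succ, Function.iterate_zero] <;> omega

theorem pl_mem {g n : ℕ} (hg : g < 4) {p v : ℤ × ℤ} :
    pl g p v ∈ Bv n p ↔ v ∈ Bx (-(n : ℤ)) n (-(n : ℤ)) n := by
  obtain ⟨x, y⟩ := v
  obtain ⟨px, py⟩ := p
  interval_cases g <;>
    simp [Bv, Bx, pl, rt, Function.iterate_succ, Function.iterate_zero] <;> omega

/-- **pattern in the rotated coordinates** -/
theorem Patt_shp {R : Finset (ℤ × ℤ)} {k : Kind} {g n : ℕ} (hg : g < 4) {p : ℤ × ℤ}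
    (h : Patt R (Bv n p) p (pk k g)) {v : ℤ × ℤ} (hv : v ∈ Bx (-(n : ℤ)) n (-(n : ℤ)) n) :
    pl g p v ∈ R ↔ qd k v := by
  rw [h _ ((pl_mem hg).2 hv)]
  exact pk_qd hg p v

/-- a pattern read off the four tiles at `p` -/
theorem patt_eval {H : Finset (ℤ × ℤ)} {n : ℕ} (hn : 0 < n) {p : ℤ × ℤ} {pat : Bool → Bool → Bool}
    (h : Patt H (Bv n p) p pat) : (tA p ∈ H ↔ pat false false = true) ∧
      (tB p ∈ H ↔ pat true false = true) ∧ (tC p ∈ H ↔ pat false true = true) ∧
      (tD p ∈ H ↔ pat true true = true) := by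
  have hn' : (0 : ℤ) < n := by exact_mod_cast hn
  refine ⟨?_, ?_, ?_, ?_⟩
  · rw [h (tA p) ⟨⟨by simp only [tA]; omega, by simp only [tA]; omega⟩, by simp only [tA]; omega,
      by simp only [tA]; omega⟩]
    have e1 : decide (p.1 ≤ (tA p).1) = false := by simp [tA]
    have e2 : decide (p.2 ≤ (tA p).2) = false := by simp [tA]
    rw [e1, e2]
  · rw [h (tB p) ⟨⟨by simp only [tB]; omega, by simp only [tB]; omega⟩, by simp only [tB]; omega,
      by simp only [tB]; omega⟩]
    have e1 : decide (p.1 ≤ (tB p).1) = true := by simp [tB]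
    have e2 : decide (p.2 ≤ (tB p).2) = false := by simp [tB]
    rw [e1, e2]
  · rw [h (tC p) ⟨⟨by simp only [tC]; omega, by simp only [tC]; omega⟩, by simp only [tC]; omega,
      by simp only [tC]; omega⟩]
    have e1 : decide (p.1 ≤ (tC p).1) = false := by simp [tC]
    have e2 : decide (p.2 ≤ (tC p).2) = true := by simp [tC]
    rw [e1, e2]
  · rw [h (tD p) ⟨⟨by simp only [tD]; omega, by simp only [tD]; omega⟩, by simp only [tD]; omega,
      by simp only [tD]; omega⟩]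
    have e1 : decide (p.1 ≤ (tD p).1) = true := by simp [tD]
    have e2 : decide (p.2 ≤ (tD p).2) = true := by simp [tD]
    rw [e1, e2]

/-- direction of a convex corner -/
def gcv (H : Finset (ℤ × ℤ)) (p : ℤ × ℤ) : ℕ :=
  if tD p ∈ H then 0 else if tC p ∈ H then 1 else if tA p ∈ H then 2 else 3

/-- direction of a reflex corner -/
def grf (H : Finset (ℤ × ℤ)) (p : ℤ × ℤ) : ℕ :=
  if tA p ∉ H then 0 else if tB p ∉ H then 1 else if tD p ∉ H then 2 else 3

theorem gcv_lt (H : Finset (ℤ × ℤ)) (p : ℤ × ℤ) : gcv H p < 4 := by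
  unfold gcv; split_ifs <;> omega

theorem grf_lt (H : Finset (ℤ × ℤ)) (p : ℤ × ℤ) : grf H p < 4 := by
  unfold grf; split_ifs <;> omega

theorem pat_cv {H : Finset (ℤ × ℤ)} {n : ℕ} (hn : 0 < n) {p : ℤ × ℤ} {pat : Bool → Bool → Bool}
    (h : Patt H (Bv n p) p pat) (h1 : nt H p = 1) : pat = pk .cv (gcv H p) := by
  obtain ⟨a1, a2, a3, a4⟩ := patt_eval hn h
  unfold nt at h1
  unfold gcv
  funext bx bz
  simp only [a1, a2, a3, a4] at h1 ⊢
  rcases b1 : pat false false <;> rcases b2 : pat true false <;> rcases b3 : pat false true <;>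
    rcases b4 : pat true true <;> simp [b1, b2, b3, b4] at h1 <;>
    cases bx <;> cases bz <;> simp [pk, b1, b2, b3, b4]

theorem pat_rf {H : Finset (ℤ × ℤ)} {n : ℕ} (hn : 0 < n) {p : ℤ × ℤ} {pat : Bool → Bool → Bool}
    (h : Patt H (Bv n p) p pat) (h1 : nt H p = 3) : pat = pk .rf (grf H p) := by
  obtain ⟨a1, a2, a3, a4⟩ := patt_eval hn h
  unfold nt at h1
  unfold grf
  funext bx bz
  simp only [a1, a2, a3, a4] at h1 ⊢
  rcases b1 : pat false false <;> rcases b2 : pat true false <;> rcases b3 : pat false true <;>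
    rcases b4 : pat true true <;> simp [b1, b2, b3, b4] at h1 <;>
    cases bx <;> cases bz <;> simp [pk, b1, b2, b3, b4]

section charts

variable {A : Half} {L a b c : ℤ} {ρ : ℕ}

/-- **pattern at a convex corner**, chart 0 -/
theorem patt_cv0 (m : A.Mc L a b c) (h : A.Sz ρ) (h' : A.Sz' ρ L) {p : ℤ × ℤ} (hp : p ∈ cvh A) :
    Patt A.H (Bv (5 * ρ) p) p (pk .cv (gcv A.H p)) := by
  obtain ⟨pat, hpat⟩ := vertA m h h' (cvh_ver m hp)
  have h0 := h.pos
  rw [← pat_cv (by omega) hpat (mem_cvh.1 hp).1]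
  exact hpat

/-- **pattern at a reflex corner**, chart 0 -/
theorem patt_rf0 (m : A.Mc L a b c) (h : A.Sz ρ) (h' : A.Sz' ρ L) {p : ℤ × ℤ} (hp : p ∈ rf A.H) :
    Patt A.H (Bv (5 * ρ) p) p (pk .rf (grf A.H p)) := by
  obtain ⟨pat, hpat⟩ := vertA m h h' (rf_ver m hp)
  have h0 := h.pos
  rw [← pat_rf (by omega) hpat (mem_rf.1 hp)]
  exact hpat

/-- reflected vertex -/
def mir (A : Half) (p : ℤ × ℤ) : ℤ × ℤ := (p.1, 2 * A.y0 - p.2)

/-- reflected direction -/
def mg : Kind → ℕ → ℕ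
  | .mk, g => (6 - g) % 4
  | _, g => 3 - g

theorem pk_mg {k : Kind} {g : ℕ} (hg : g < 4) : (fun bx bz => pk k g bx (!bz)) = pk k (mg k g) := by
  funext bx bz
  interval_cases g <;> cases k <;> cases bx <;> cases bz <;> rfl

theorem mg_lt {k : Kind} {g : ℕ} : mg k g < 4 := by
  cases k
  · show 3 - g < 4; omega
  · show 3 - g < 4; omega
  · show (6 - g) % 4 < 4; omega

/-- reflection of a pattern -/
theorem patt_mir {n : ℕ} {k : Kind} {g : ℕ} (hg : g < 4) {p : ℤ × ℤ}
    (h : Patt A.H (Bv n p) p (pk k g)) :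
    Patt (A.H.image A.rf) (Bv n (mir A p)) (mir A p) (pk k (mg k g)) := by
  rw [← pk_mg hg]
  have e1 : 2 * A.y0 - ((mir A p).2 + (n : ℤ)) = p.2 - n := by simp only [mir]; ring
  have e2 : 2 * A.y0 - ((mir A p).2 - (n : ℤ)) = p.2 + n := by simp only [mir]; ring
  refine patt_rf (p := mir A p) (pat := pk k g) (x1 := (mir A p).1 - n) (x2 := (mir A p).1 + n)
      (z1 := (mir A p).2 - n) (z2 := (mir A p).2 + n) ?_
  rw [e1, e2]
  have e3 : ((mir A p).1, 2 * A.y0 - (mir A p).2) = p := by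
    refine Prod.ext rfl ?_
    simp only [mir]; ring
  rw [e3]
  exact h

/-- **convex corner**, chart 1 (copy `true`) -/
theorem patt_cv1 (m : A.Mc L a b c) (h : A.Sz ρ) (h' : A.Sz' ρ L) {p : ℤ × ℤ} (hp : p ∈ cvh A) :
    Patt (chf h 1).R (Bv (5 * ρ) (mir A p)) (mir A p) (pk .cv (mg .cv (gcv A.H p))) :=
  patt_mir (gcv_lt _ _) (patt_cv0 m h h' hp)

/-- **reflex corner**, chart 1 (copy `true`) -/
theorem patt_rf1 (m : A.Mc L a b c) (h : A.Sz ρ) (h' : A.Sz' ρ L) {p : ℤ × ℤ} (hp : p ∈ rf A.H) :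
    Patt (chf h 1).R (Bv (5 * ρ) (mir A p)) (mir A p) (pk .rf (mg .rf (grf A.H p))) :=
  patt_mir (grf_lt _ _) (patt_rf0 m h h' hp)

/-- the vertices are vertices of chart 1 -/
theorem mir_ver {p : ℤ × ℤ} (hp : L ∣ p.1 ∧ L ∣ p.2) : mir A p ∈ A.Ver L 1 := by
  refine ⟨hp.1, ?_⟩
  have e : 2 * A.y0 - (mir A p).2 = p.2 := by simp only [mir]; ring
  rw [e]
  exact hp.2

/-- mouth corners: left / right, lower copy / upper copy -/
def mou (A : Half) : Bool → Bool → ℤ × ℤ
  | false, false => (A.xl, A.y1)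
  | true, false => (A.xr + 1, A.y1)
  | false, true => (A.xl, 2 * A.y0 - A.y1)
  | true, true => (A.xr + 1, 2 * A.y0 - A.y1)

/-- their directions -/
def gmou : Bool → Bool → ℕ
  | false, false => 0
  | true, false => 1
  | false, true => 3
  | true, true => 2

theorem gmou_lt (r u : Bool) : gmou r u < 4 := by cases r <;> cases u <;> decide

theorem mou_ver (r u : Bool) : mou A r u ∈ A.Ver L 2 := by
  cases r <;> cases u
  · exact ⟨Or.inl rfl, Or.inl rfl⟩
  · exact ⟨Or.inl rfl, Or.inr rfl⟩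
  · exact ⟨Or.inr rfl, Or.inl rfl⟩
  · exact ⟨Or.inr rfl, Or.inr rfl⟩

/-- **mouth corners are reflex corners**, chart 2 -/
theorem patt_mou (m : A.Mc L a b c) (h : A.Sz ρ) (h' : A.Sz' ρ L) (r u : Bool) :
    Patt (chf h 2).R (Bv (5 * ρ) (mou A r u)) (mou A r u) (pk .rf (gmou r u)) := by
  have hg := (vert m h h' (mou_ver (A := A) (L := L) r u)).1
  have hρ : (1 : ℤ) ≤ ρ := by exact_mod_cast h.pos
  have hL := m.hL
  have h3 := h'.L
  have h4 := h'.h
  have hy := h.y
  have h01 := A.h1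
  have hab := m.ab
  intro v hv
  rw [memM h (hg v hv), y1_ry]
  obtain ⟨⟨u1, u2⟩, u3, u4⟩ := hv
  push_cast at u1 u2 u3 u4
  cases r <;> cases u <;> simp only [gmou, pk] <;>
    rw [Bool.or_eq_true] <;>
    simp only [Bool.not_eq_true', decide_eq_true_eq, decide_eq_false_iff_not] <;>
    simp only [mou] at u1 u2 u3 u4 ⊢ <;> omega

end charts

end Crest.Agent.R158.Cc841
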