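import Crest.Agent.R158.Tj7_656

/-!
R158, S0237, BLOCK BL (bad lines), file 0: DEFINITIONS (helper656, blueprint "BL").

* `Hang F H k i0 i1 up` : hanging part `H ⊆ F` behind the macroscopic crosscut of the line `k`
  (columns `i0..i1`), above (`up = true`) or below it
* `shD F H L δ` : `D F L` with the part `D H L` moved by `(δ, 0)`
* `RL F H L δ`, `LL F H L δ` : outward layer of the right / left walls of the moved part
* `mkS` : marks carried along
-/

set_option autoImplicit false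

noncomputable section

namespace Crest.Agent.R158.Hb656

open Crest.Agent.R158.Sp896 (V)
open Crest.Agent.R158.Sw300 (Port)
open Crest.Agent.R158.Env664 (D Run Adj4 Mac mark mem_D)

/-- hanging part behind the crosscut `i0..i1` of the line between the macroscopic rows `k - 1`, `k`;
`up = true` : `H` is above the line at the crosscut, `up = false` : below -/
structure Hang (F H : Finset V) (k i0 i1 : ℤ) (up : Bool) : Prop where
  sub : H ⊆ F
  /-- horizontal neighbours in `F` -/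
  hor : ∀ a b : ℤ, ((a, b) ∈ H ∧ (a + 1, b) ∈ F) ∨ ((a, b) ∈ F ∧ (a + 1, b) ∈ H) →
    (a, b) ∈ H ∧ (a + 1, b) ∈ H
  /-- vertical neighbours in `F`, except through the crosscut -/
  ver : ∀ a b : ℤ, (a, b - 1) ∈ F → (a, b) ∈ F → ((a, b - 1) ∈ H ↔ (a, b) ∈ H) ∨
    (b = k ∧ i0 ≤ a ∧ a ≤ i1)
  /-- at the crosscut -/
  cut : ∀ a : ℤ, i0 ≤ a → a ≤ i1 →
    if up then (a, k - 1) ∈ F ∧ (a, k - 1) ∉ H ∧ ((a, k) ∈ F → (a, k) ∈ H)
    else (a, k) ∈ F ∧ (a, k) ∉ H ∧ ((a, k - 1) ∈ F → (a, k - 1) ∈ H)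

/-- `D F L` with `D H L` moved by `δ` columns -/
def shD (F H : Finset V) (L δ : ℤ) : Finset V :=
  (D F L \ D H L) ∪ (D H L).image fun t => (t.1 + δ, t.2)

/-- outward layer of the right walls of the moved part -/
def RL (F H : Finset V) (L δ : ℤ) : Finset V :=
  ((D H L).filter fun t => (t.1 + 1, t.2) ∉ D F L).image fun t => (t.1 + 1 + δ, t.2)

/-- outward layer of the left walls of the moved part -/
def LL (F H : Finset V) (L δ : ℤ) : Finset V :=
  ((D H L).filter fun t => (t.1 - 1, t.2) ∉ D F L).image fun t => (t.1 - 1 + δ, t.2)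

open Classical in
/-- a mark `(t, d)` of `D F L` in the region `shD F H L δ ∪ S`: moved with its tile, and across the
layer tile in front of it if this tile is in `S` -/
def mkS (H : Finset V) (L δ : ℤ) (S : Finset V) (m : V × ZMod 4) : V × ZMod 4 :=
  if m.1 ∈ D H L then
    (if m.2 = 2 ∧ (m.1.1 + δ + 1, m.1.2) ∈ S then ((m.1.1 + δ + 1, m.1.2), m.2)
      else if m.2 = 0 ∧ (m.1.1 + δ - 1, m.1.2) ∈ S then ((m.1.1 + δ - 1, m.1.2), m.2)
      else ((m.1.1 + δ, m.1.2), m.2))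
  else m

theorem mem_shD {F H : Finset V} {L δ : ℤ} {t : V} :
    t ∈ shD F H L δ ↔ (t ∈ D F L ∧ t ∉ D H L) ∨ (t.1 - δ, t.2) ∈ D H L := by
  unfold shD
  rw [Finset.mem_union, Finset.mem_sdiff, Finset.mem_image]
  refine or_congr_right ⟨?_, fun h => ⟨_, h, by simp⟩⟩
  rintro ⟨a, ha, rfl⟩
  simpa using ha

theorem mem_RL {F H : Finset V} {L δ : ℤ} {t : V} :
    t ∈ RL F H L δ ↔ (t.1 - 1 - δ, t.2) ∈ D H L ∧ (t.1 - δ, t.2) ∉ D F L := by
  unfold RL
  rw [Finset.mem_image]
  constructor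
  · rintro ⟨a, ha, rfl⟩
    rw [Finset.mem_filter] at ha
    refine ⟨?_, ?_⟩
    · have e : a.1 + 1 + δ - 1 - δ = a.1 := by ring
      simp only [e]; exact ha.1
    · have e : a.1 + 1 + δ - δ = a.1 + 1 := by ring
      simp only [e]; exact ha.2
  · rintro ⟨h1, h2⟩
    refine ⟨(t.1 - 1 - δ, t.2), Finset.mem_filter.2 ⟨h1, ?_⟩, ?_⟩
    · have e : t.1 - 1 - δ + 1 = t.1 - δ := by ring
      simp only [e]; exact h2
    · ext
      · simp only; ring
      · rfl

theorem mem_LL {F H : Finset V} {L δ : ℤ} {t : V} :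
    t ∈ LL F H L δ ↔ (t.1 + 1 - δ, t.2) ∈ D H L ∧ (t.1 - δ, t.2) ∉ D F L := by
  unfold LL
  rw [Finset.mem_image]
  constructor
  · rintro ⟨a, ha, rfl⟩
    rw [Finset.mem_filter] at ha
    refine ⟨?_, ?_⟩
    · have e : a.1 - 1 + δ + 1 - δ = a.1 := by ring
      simp only [e]; exact ha.1
    · have e : a.1 - 1 + δ - δ = a.1 - 1 := by ring
      simp only [e]; exact ha.2
  · rintro ⟨h1, h2⟩
    refine ⟨(t.1 + 1 - δ, t.2), Finset.mem_filter.2 ⟨h1, ?_⟩, ?_⟩
    · have e : t.1 + 1 - δ - 1 = t.1 - δ := by ring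
      simp only [e]; exact h2
    · ext
      · simp only; ring
      · rfl

end Crest.Agent.R158.Hb656
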