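import Crest.Agent.R158.Hg1_896
import Crest.Agent.R158.Hb0_656

/-!
# Row 158, BL (helper896), file Hg2: leaf (B1) = macroscopic hanging parts

* `baseT A u v y q` : the cells of `A` joined to `q` without crossing the line under the row `y` in the
  columns `u..v`
* **`hang_up`**, **`hang_dn`** : `Hb656.Hang` with the two runs outside `H`
* `Hang.adj` : neighbours in `F` of a cell of `H`
* `Hang.joined` : every cell of `H` is joined inside `H` to the crosscut
* `hang_CA`, `hang_CC` : the base part is connected with connected complement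
-/

set_option autoImplicit false
set_option linter.unusedVariables false

noncomputable section

namespace Crest.Agent.R158.Hg896

open Crest.Agent.R158.Env664 (Adj4 Mac D mem_D div_iff Run CutAdj)
open Crest.Agent.R158.Xr249
open Crest.Agent.R158.Hb656 (Hang)

variable {A : Finset (ℤ × ℤ)}

open Classical in
/-- the cells joined to `q` without crossing the line under the row `y`, columns `u..v` -/
def baseT (A : Finset (ℤ × ℤ)) (u v y : ℤ) (q : ℤ × ℤ) : Finset (ℤ × ℤ) :=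
  A.filter fun t => Relation.ReflTransGen (CutAdj A u v y) q t

theorem mem_baseT {u v y : ℤ} {q t : ℤ × ℤ} :
    t ∈ baseT A u v y q ↔ t ∈ A ∧ Relation.ReflTransGen (CutAdj A u v y) q t := by
  classical
  unfold baseT
  rw [Finset.mem_filter]

theorem base_step {u v y : ℤ} {q s t : ℤ × ℤ} (hs : s ∈ baseT A u v y q) (h : CutAdj A u v y s t) :
    t ∈ baseT A u v y q := mem_baseT.2 ⟨h.2.2.1, (mem_baseT.1 hs).2.tail h⟩

/-- horizontal steps are never cut -/
theorem base_hor {u v y : ℤ} {q : ℤ × ℤ} {a b : ℤ} (h1 : (a, b) ∈ A) (h2 : (a + 1, b) ∈ A) :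
    (a, b) ∈ baseT A u v y q ↔ (a + 1, b) ∈ baseT A u v y q := by
  have hc : CutAdj A u v y (a, b) (a + 1, b) :=
    ⟨Or.inr ⟨rfl, Or.inl rfl⟩, h1, h2, by simp only; omega⟩
  exact ⟨fun h => base_step h hc, fun h => base_step h (CutAdj.symm hc)⟩

/-- vertical steps away from the cut -/
theorem base_ver {u v y : ℤ} {q : ℤ × ℤ} {a b : ℤ} (h1 : (a, b - 1) ∈ A) (h2 : (a, b) ∈ A)
    (h : ¬ (b = y ∧ u ≤ a ∧ a ≤ v)) :
    (a, b - 1) ∈ baseT A u v y q ↔ (a, b) ∈ baseT A u v y q := by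
  have hc : CutAdj A u v y (a, b - 1) (a, b) :=
    ⟨Or.inl ⟨rfl, Or.inl (by simp)⟩, h1, h2, by simp only; omega⟩
  exact ⟨fun h => base_step h hc, fun h => base_step h (CutAdj.symm hc)⟩

/-- a row segment lies in one part -/
theorem base_row {u v y : ℤ} {q : ℤ × ℤ} {a b j : ℤ} (hm : ∀ x, a ≤ x → x ≤ b → (x, j) ∈ A)
    {x x' : ℤ} (h1 : a ≤ x) (h2 : x ≤ b) (h3 : a ≤ x') (h4 : x' ≤ b)
    (h : (x, j) ∈ baseT A u v y q) : (x', j) ∈ baseT A u v y q := by
  have up : ∀ n : ℕ, x + n ≤ b → (x + n, j) ∈ baseT A u v y q := by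
    intro n
    induction n with
    | zero => intro _; simpa using h
    | succ n ih =>
      intro hn
      push_cast at hn
      have := (base_hor (hm (x + n) (by omega) (by omega))
        (hm (x + n + 1) (by omega) (by omega))).1 (ih (by omega))
      rwa [show x + ((n + 1 : ℕ) : ℤ) = x + n + 1 by push_cast; ring]
  have dn : ∀ n : ℕ, a ≤ x - n → (x - n, j) ∈ baseT A u v y q := by
    intro n
    induction n with
    | zero => intro _; simpa using h
    | succ n ih =>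
      intro hn
      push_cast at hn
      have := (base_hor (hm (x - (n + 1)) (by omega) (by omega))
        (hm (x - (n + 1) + 1) (by omega) (by omega))).2 (by
          rw [show x - ((n : ℤ) + 1) + 1 = x - n by ring]
          exact ih (by omega))
      rwa [show x - ((n + 1 : ℕ) : ℤ) = x - (n + 1) by push_cast; ring]
  rcases le_total x x' with hx | hx
  · have := up (x' - x).toNat (by omega)
    rwa [Int.toNat_of_nonneg (by omega), add_sub_cancel] at this
  · have := dn (x - x').toNat (by omega)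
    rwa [Int.toNat_of_nonneg (by omega), sub_sub_cancel] at this

/-- the part behind the cut, common construction -/
theorem hang_common {q : ℤ × ℤ} {u v k : ℤ} (up : Bool)
    (hcut : ∀ a : ℤ, u ≤ a → a ≤ v →
      if up then (a, k - 1) ∈ baseT A u v k q ∧ ((a, k) ∈ A → (a, k) ∉ baseT A u v k q)
      else (a, k) ∈ baseT A u v k q ∧ ((a, k - 1) ∈ A → (a, k - 1) ∉ baseT A u v k q)) :
    Hang A (A \ baseT A u v k q) k u v up where
  sub := Finset.sdiff_subset
  hor := by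
    rintro a b (⟨h1, h2⟩ | ⟨h1, h2⟩)
    · refine ⟨h1, ?_⟩
      rw [Finset.mem_sdiff] at h1 ⊢
      exact ⟨h2, fun h => h1.2 ((base_hor h1.1 h2).2 h)⟩
    · refine ⟨?_, h2⟩
      rw [Finset.mem_sdiff] at h2 ⊢
      exact ⟨h1, fun h => h2.2 ((base_hor h1 h2.1).1 h)⟩
  ver := by
    intro a b h1 h2
    by_cases h : b = k ∧ u ≤ a ∧ a ≤ v
    · exact Or.inr h
    · left
      rw [Finset.mem_sdiff, Finset.mem_sdiff, base_ver h1 h2 h]
      simp only [h1, h2, true_and]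
  cut := by
    intro a h1 h2
    have h := hcut a h1 h2
    cases up
    · simp only [Bool.false_eq_true, if_false] at h ⊢
      refine ⟨(mem_baseT.1 h.1).1, fun h3 => (Finset.mem_sdiff.1 h3).2 h.1, fun h3 => ?_⟩
      exact Finset.mem_sdiff.2 ⟨h3, h.2 h3⟩
    · simp only [if_true] at h ⊢
      refine ⟨(mem_baseT.1 h.1).1, fun h3 => (Finset.mem_sdiff.1 h3).2 h.1, fun h3 => ?_⟩
      exact Finset.mem_sdiff.2 ⟨h3, h.2 h3⟩

/-- the two end faces of the crosscut right of `u` above `l` -/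
theorem cut_end (hsc : (full A).SC) {x y : ℤ} {c : ℤ × ℤ} (hc : c ∉ A) (hf : Arnd c (x, y)) :
    (full A).Out (x, y) := out_of hsc hc hf

/-- **the part hanging above the lower run, right of the upper run** -/
theorem hang_up (hsc : (full A).SC) {a b a' b' k q : ℤ} (hl : Run A a b (k - 1)) (hu : Run A a' b' k)
    (h1 : a ≤ q) (h2 : q ≤ b) (h3 : a' ≤ q) (h4 : q ≤ b') (hb : b' < b) :
    Hang A (A \ baseT A (b' + 1) b k (q, k)) k (b' + 1) b true ∧
      (∀ i, a ≤ i → i ≤ b → (i, k - 1) ∈ baseT A (b' + 1) b k (q, k)) ∧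
      ∀ i, a' ≤ i → i ≤ b' → (i, k) ∈ baseT A (b' + 1) b k (q, k) := by
  have hq : (q, k) ∈ baseT A (b' + 1) b k (q, k) := mem_baseT.2 ⟨hu.mem q h3 h4, .refl⟩
  have hq' : (q, k - 1) ∈ baseT A (b' + 1) b k (q, k) :=
    (base_ver (hl.mem q h1 h2) (hu.mem q h3 h4) (by omega)).2 hq
  have hlow : ∀ i, a ≤ i → i ≤ b → (i, k - 1) ∈ baseT A (b' + 1) b k (q, k) :=
    fun i h5 h6 => base_row (fun x hx1 hx2 => hl.mem x hx1 hx2) h1 h2 h5 h6 hq'
  have hupp : ∀ i, a' ≤ i → i ≤ b' → (i, k) ∈ baseT A (b' + 1) b k (q, k) :=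
    fun i h5 h6 => base_row (fun x hx1 hx2 => hu.mem x hx1 hx2) h3 h4 h5 h6 hq
  have o1 : (full A).Out (b' + 1 - 1, k - 1) := by
    exact out_of hsc hu.right ⟨Or.inr rfl, Or.inr rfl⟩
  have o2 : (full A).Out (b, k - 1) := by
    exact out_of hsc hl.right ⟨Or.inr (by simp), Or.inl rfl⟩
  refine ⟨hang_common true fun i h5 h6 => ?_, hlow, hupp⟩
  simp only [if_true]
  refine ⟨hlow i (by omega) h6, fun h7 h8 => ?_⟩
  refine cut_sep hsc o1 o2 h5 h6 (hl.mem i (by omega) h6) h7 ?_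
  exact (cut_symm (mem_baseT.1 (hlow i (by omega) h6)).2).trans (mem_baseT.1 h8).2

/-- **the part hanging below the upper run, right of the lower run** -/
theorem hang_dn (hsc : (full A).SC) {a b a' b' k q : ℤ} (hl : Run A a b (k - 1)) (hu : Run A a' b' k)
    (h1 : a ≤ q) (h2 : q ≤ b) (h3 : a' ≤ q) (h4 : q ≤ b') (hb : b < b') :
    Hang A (A \ baseT A (b + 1) b' k (q, k)) k (b + 1) b' false ∧
      (∀ i, a ≤ i → i ≤ b → (i, k - 1) ∈ baseT A (b + 1) b' k (q, k)) ∧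
      ∀ i, a' ≤ i → i ≤ b' → (i, k) ∈ baseT A (b + 1) b' k (q, k) := by
  have hq : (q, k) ∈ baseT A (b + 1) b' k (q, k) := mem_baseT.2 ⟨hu.mem q h3 h4, .refl⟩
  have hq' : (q, k - 1) ∈ baseT A (b + 1) b' k (q, k) :=
    (base_ver (hl.mem q h1 h2) (hu.mem q h3 h4) (by omega)).2 hq
  have hlow : ∀ i, a ≤ i → i ≤ b → (i, k - 1) ∈ baseT A (b + 1) b' k (q, k) :=
    fun i h5 h6 => base_row (fun x hx1 hx2 => hl.mem x hx1 hx2) h1 h2 h5 h6 hq'
  have hupp : ∀ i, a' ≤ i → i ≤ b' → (i, k) ∈ baseT A (b + 1) b' k (q, k) :=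
    fun i h5 h6 => base_row (fun x hx1 hx2 => hu.mem x hx1 hx2) h3 h4 h5 h6 hq
  have o1 : (full A).Out (b + 1 - 1, k - 1) := by
    exact out_of hsc hl.right ⟨Or.inr rfl, Or.inl rfl⟩
  have o2 : (full A).Out (b', k - 1) := by
    exact out_of hsc hu.right ⟨Or.inr (by simp), Or.inr rfl⟩
  refine ⟨hang_common false fun i h5 h6 => ?_, hlow, hupp⟩
  simp only [Bool.false_eq_true, if_false]
  refine ⟨hupp i (by omega) h6, fun h7 h8 => ?_⟩
  refine cut_sep hsc o1 o2 h5 h6 h7 (hu.mem i (by omega) h6) ?_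
  exact (cut_symm (mem_baseT.1 h8).2).trans (mem_baseT.1 (hupp i (by omega) h6)).2

/-! ### consequences of `Hang` -/

section

variable {F H : Finset (ℤ × ℤ)} {k i0 i1 : ℤ} {up : Bool}

/-- a neighbour in `F` of a cell of `H` is in `H`, except through the crosscut -/
theorem _root_.Crest.Agent.R158.Hb656.Hang.adj (h : Hang F H k i0 i1 up) {s t : ℤ × ℤ} (hs : s ∈ H)
    (ht : t ∈ F) (hst : Adj4 s t) : t ∈ H ∨ (i0 ≤ s.1 ∧ s.1 ≤ i1 ∧ t.1 = s.1 ∧
      if up then s.2 = k ∧ t.2 = k - 1 else s.2 = k - 1 ∧ t.2 = k) := by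
  obtain ⟨x, y⟩ := s
  obtain ⟨x', y'⟩ := t
  rcases hst with ⟨e1, e2 | e2⟩ | ⟨e1, e2 | e2⟩ <;> simp only at e1 e2 <;> subst e1 e2
  · -- t above s
    have h1 := h.ver x (y + 1) (by rw [add_sub_cancel_right]; exact h.sub hs) ht
    rw [add_sub_cancel_right] at h1
    rcases h1 with h1 | ⟨h1, h2, h3⟩
    · exact Or.inl (h1.1 hs)
    · by_cases ht' : (x, y + 1) ∈ H
      · exact Or.inl ht'
      · right
        have h4 := h.cut x h2 h3
        cases up
        · simp only [Bool.false_eq_true, if_false] at h4 ⊢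
          exact ⟨h2, h3, trivial, by omega, by omega⟩
        · simp only [if_true] at h4
          exact absurd hs (by rw [show y = k - 1 by omega]; exact h4.2.1)
  · -- t below s
    have h1 := h.ver x (y' + 1) (by rw [add_sub_cancel_right]; exact ht) (h.sub hs)
    rw [add_sub_cancel_right] at h1
    rcases h1 with h1 | ⟨h1, h2, h3⟩
    · exact Or.inl (h1.2 hs)
    · by_cases ht' : (x, y') ∈ H
      · exact Or.inl ht'
      · right
        have h4 := h.cut x h2 h3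
        cases up
        · simp only [Bool.false_eq_true, if_false] at h4
          exact absurd hs (by rw [h1]; exact h4.2.1)
        · simp only [if_true] at h4 ⊢
          exact ⟨h2, h3, trivial, by omega, by omega⟩
  · exact Or.inl (h.hor x y (Or.inl ⟨hs, ht⟩)).2
  · exact Or.inl (h.hor x' y (Or.inr ⟨ht, hs⟩)).1

/-- every cell of the hanging part is joined inside it to a cell at the crosscut -/
theorem _root_.Crest.Agent.R158.Hb656.Hang.joined (h : Hang F H k i0 i1 up) (hF : CA F)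
    (hi : i0 ≤ i1) {s : ℤ × ℤ} (hs : s ∈ H) : ∃ x, i0 ≤ x ∧ x ≤ i1 ∧
      if up then (x, k) ∈ H ∧ (x, k - 1) ∈ F ∧ (x, k - 1) ∉ H ∧ CPath {t | t ∈ H} s (x, k)
      else (x, k - 1) ∈ H ∧ (x, k) ∈ F ∧ (x, k) ∉ H ∧ CPath {t | t ∈ H} s (x, k - 1) := by
  obtain ⟨b, hb1, hb2⟩ : ∃ b, b ∈ F ∧ b ∉ H := by
    have h1 := h.cut i0 le_rfl hi
    cases up
    · simp only [Bool.false_eq_true, if_false] at h1; exact ⟨_, h1.1, h1.2.1⟩
    · simp only [if_true] at h1; exact ⟨_, h1.1, h1.2.1⟩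
  have key : ∀ a : ℤ × ℤ, a ∈ H → CPath {t | t ∈ F} a b →
      ∃ c d, CPath {t | t ∈ H} a c ∧ c ∈ H ∧ d ∈ F ∧ d ∉ H ∧ Adj4 c d := by
    intro a ha hab
    induction hab using Relation.ReflTransGen.head_induction_on with
    | refl => exact absurd ha hb2
    | @head a c h1 h2 ih =>
      by_cases hc : c ∈ H
      · obtain ⟨c', d, g1, g2⟩ := ih hc
        exact ⟨c', d, .head ⟨h1.1, ha, hc⟩ g1, g2⟩
      · exact ⟨a, c, .refl, ha, h1.2.2, hc, h1.1⟩
  obtain ⟨c, d, g1, g2, g3, g4, g5⟩ := key s hs (hF _ (h.sub hs) _ hb1)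
  rcases h.adj g2 g3 g5 with g6 | ⟨g6, g7, g8, g9⟩
  · exact absurd g6 g4
  · refine ⟨c.1, g6, g7, ?_⟩
    obtain ⟨cx, cy⟩ := c
    obtain ⟨dx, dy⟩ := d
    simp only at g6 g7 g8 g9 ⊢
    subst g8
    cases up
    · simp only [Bool.false_eq_true, if_false] at g9 ⊢
      obtain ⟨rfl, rfl⟩ := g9
      exact ⟨g2, g3, g4, g1⟩
    · simp only [if_true] at g9 ⊢
      obtain ⟨rfl, rfl⟩ := g9
      exact ⟨g2, g3, g4, g1⟩

end

/-! ### the literal leaf (B1) -/

/-- **(B1), above the lower run** -/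
theorem mac_hang_up (M : Mac) {a b a' b' k q : ℤ} (hl : Run M.F a b (k - 1)) (hu : Run M.F a' b' k)
    (h1 : a ≤ q) (h2 : q ≤ b) (h3 : a' ≤ q) (h4 : q ≤ b') (hb : b' < b) :
    ∃ H, Hang M.F H k (b' + 1) b true ∧ (∀ i, a ≤ i → i ≤ b → (i, k - 1) ∉ H) ∧
      ∀ i, a' ≤ i → i ≤ b' → (i, k) ∉ H := by
  obtain ⟨g1, g2, g3⟩ := hang_up M.CC.sc hl hu h1 h2 h3 h4 hb
  exact ⟨_, g1, fun i h5 h6 h7 => (Finset.mem_sdiff.1 h7).2 (g2 i h5 h6),
    fun i h5 h6 h7 => (Finset.mem_sdiff.1 h7).2 (g3 i h5 h6)⟩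

/-- **(B1), below the upper run** -/
theorem mac_hang_dn (M : Mac) {a b a' b' k q : ℤ} (hl : Run M.F a b (k - 1)) (hu : Run M.F a' b' k)
    (h1 : a ≤ q) (h2 : q ≤ b) (h3 : a' ≤ q) (h4 : q ≤ b') (hb : b < b') :
    ∃ H, Hang M.F H k (b + 1) b' false ∧ (∀ i, a ≤ i → i ≤ b → (i, k - 1) ∉ H) ∧
      ∀ i, a' ≤ i → i ≤ b' → (i, k) ∉ H := by
  obtain ⟨g1, g2, g3⟩ := hang_dn M.CC.sc hl hu h1 h2 h3 h4 hb
  exact ⟨_, g1, fun i h5 h6 h7 => (Finset.mem_sdiff.1 h7).2 (g2 i h5 h6),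
    fun i h5 h6 h7 => (Finset.mem_sdiff.1 h7).2 (g3 i h5 h6)⟩

/-- no pinch, in 656's form -/
theorem mac_no_pinch (M : Mac) (a b : ℤ) :
    ¬ ((a, b) ∈ M.F ∧ (a + 1, b + 1) ∈ M.F ∧ (a + 1, b) ∉ M.F ∧ (a, b + 1) ∉ M.F) := by
  rintro ⟨h1, h2, h3, h4⟩
  rcases no_pinch M.CA M.CC h1 h2 with h | h
  · exact h3 h
  · exact h4 h

theorem mac_no_pinch' (M : Mac) (a b : ℤ) :
    ¬ ((a + 1, b) ∈ M.F ∧ (a, b + 1) ∈ M.F ∧ (a, b) ∉ M.F ∧ (a + 1, b + 1) ∉ M.F) := by
  rintro ⟨h1, h2, h3, h4⟩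
  rcases no_pinch' M.CA M.CC h1 h2 with h | h
  · exact h3 h
  · exact h4 h

/-! ### the tile level -/

/-- neighbours in `D F L` of a tile of `D H L` -/
theorem hang_adj_D {F H : Finset (ℤ × ℤ)} {k i0 i1 L : ℤ} {up : Bool} (h : Hang F H k i0 i1 up)
    (hL : 0 < L) {s t : ℤ × ℤ} (hs : s ∈ D H L) (ht : t ∈ D F L) (hst : Adj4 s t) :
    t ∈ D H L ∨ (i0 * L ≤ s.1 ∧ s.1 ≤ i1 * L + L - 1 ∧ t.1 = s.1 ∧
      if up then s.2 = k * L ∧ t.2 = k * L - 1 else s.2 = k * L - 1 ∧ t.2 = k * L) := by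
  rw [mem_D hL] at hs ht
  by_cases he : (s.1 / L, s.2 / L) = (t.1 / L, t.2 / L)
  · left
    rw [mem_D hL, ← he]
    exact hs
  have b1 := (div_iff hL s.1 (s.1 / L)).1 rfl
  have b2 := (div_iff hL s.2 (s.2 / L)).1 rfl
  have b3 := (div_iff hL t.1 (t.1 / L)).1 rfl
  have b4 := (div_iff hL t.2 (t.2 / L)).1 rfl
  have e1 : ∀ {u v : ℤ}, u = v → u / L = v / L := fun h => by rw [h]
  have step : ∀ {u v : ℤ}, v = u + 1 → u / L = v / L ∨
      (v / L = u / L + 1 ∧ v = (u / L + 1) * L) := by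
    intro u v huv
    have c1 := (div_iff hL u (u / L)).1 rfl
    by_cases h2 : u / L * L + L ≤ v
    · right
      have hv : v = (u / L + 1) * L := by nlinarith
      refine ⟨?_, hv⟩
      rw [div_iff hL]
      constructor <;> nlinarith
    · left
      symm
      rw [div_iff hL]
      constructor <;> nlinarith
  have hne : ¬ (s.1 / L = t.1 / L ∧ s.2 / L = t.2 / L) := fun h => he (by rw [h.1, h.2])
  have hst' : Adj4 (s.1 / L, s.2 / L) (t.1 / L, t.2 / L) ∧
      (t.1 = s.1 → (t.2 = s.2 + 1 ∧ t.2 = (s.2 / L + 1) * L) ∨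
        (s.2 = t.2 + 1 ∧ s.2 = (t.2 / L + 1) * L)) := by
    unfold Adj4 at hst ⊢
    simp only at hst ⊢
    rcases hst with ⟨g1, g2 | g2⟩ | ⟨g1, g2 | g2⟩
    · have g3 := e1 g1
      rcases step g2 with g4 | g4
      · exact absurd ⟨g3, g4⟩ hne
      · exact ⟨Or.inl ⟨g3, Or.inl g4.1⟩, fun _ => Or.inl ⟨g2, g4.2⟩⟩
    · have g3 := e1 g1
      rcases step g2 with g4 | g4
      · exact absurd ⟨g3, g4.symm⟩ hne
      · exact ⟨Or.inl ⟨g3, Or.inr g4.1⟩, fun _ => Or.inr ⟨g2, g4.2⟩⟩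
    · have g3 := e1 g1
      rcases step g2 with g4 | g4
      · exact absurd ⟨g4, g3⟩ hne
      · exact ⟨Or.inr ⟨g3, Or.inl g4.1⟩, fun g5 => by omega⟩
    · have g3 := e1 g1
      rcases step g2 with g4 | g4
      · exact absurd ⟨g4.symm, g3⟩ hne
      · exact ⟨Or.inr ⟨g3, Or.inr g4.1⟩, fun g5 => by omega⟩
  rcases h.adj hs ht hst'.1 with h1 | ⟨h1, h2, h3, h4⟩
  · left
    rw [mem_D hL]
    exact h1
  · right
    simp only at h1 h2 h3 h4
    have k1 : s.1 = t.1 := by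
      rcases hst with ⟨g1, -⟩ | ⟨g1, -⟩
      · exact g1
      · exfalso
        have := e1 g1
        cases up
        · simp only [Bool.false_eq_true, if_false] at h4; omega
        · simp only [if_true] at h4; omega
    have k2 := hst'.2 k1.symm
    refine ⟨by nlinarith, by nlinarith, k1.symm, ?_⟩
    cases up
    · simp only [Bool.false_eq_true, if_false] at h4 ⊢
      rcases k2 with ⟨g1, g2⟩ | ⟨g1, g2⟩
      · rw [h4.1] at g2
        have : t.2 = k * L := by rw [g2]; ring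
        omega
      · exfalso
        rw [h4.2] at g2
        have g3 : s.2 = (k + 1) * L := g2
        have g4 : s.2 / L = k + 1 := by
          rw [div_iff hL]; constructor <;> nlinarith
        omega
    · simp only [if_true] at h4 ⊢
      rcases k2 with ⟨g1, g2⟩ | ⟨g1, g2⟩
      · exfalso
        rw [h4.1] at g2
        have g4 : t.2 / L = k + 1 := by
          rw [div_iff hL]; constructor <;> nlinarith
        omega
      · rw [h4.2] at g2
        have : s.2 = k * L := by rw [g2]; ring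
        omega

end Crest.Agent.R158.Hg896
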