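import Crest.Agent.R158.Nm3_211

/-!
# Row 158, Block N (helper399): abstract decoupling with `N ^ ε` losses

* `hold` : `∫ f ^ (1-θ) g ^ θ ≤ (∫ f) ^ (1-θ) (∫ g) ^ θ`
* `Tame μ N C F` : Hölder with exponent `1 ± δ` costs at most `N ^ (C δ)`
* `tame_of_moments`, `tame_ind` : exponentials of counts, indicators
* `loc_upper`, `loc_lower` : `∫ (∏ F p) G` against `∏ ∫ F p`
-/

set_option autoImplicit false

noncomputable section

namespace Crest.Agent.R158.Nz399

open MeasureTheory ProbabilityTheory unitInterval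
open Crest.Agent.R158.Rs689 Crest.Agent.R158.Nm211

section general

variable {Ω : Type*} [MeasurableSpace Ω] {μ : Measure Ω} [IsProbabilityMeasure μ]

/-- bounded measurable nonnegative function -/
structure BM (f : Ω → ℝ) : Prop where
  meas : Measurable f
  nonneg : ∀ x, 0 ≤ f x
  bdd : ∃ C, ∀ x, f x ≤ C

theorem BM.integrable {f : Ω → ℝ} (h : BM f) : Integrable f μ := by
  obtain ⟨C, hC⟩ := h.bdd
  exact Integrable.of_bound h.meas.aestronglyMeasurable C
    (ae_of_all _ fun x => by rw [Real.norm_of_nonneg (h.nonneg x)]; exact hC x)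

theorem BM.mul {f g : Ω → ℝ} (hf : BM f) (hg : BM g) : BM fun x => f x * g x := by
  obtain ⟨C, hC⟩ := hf.bdd
  obtain ⟨D, hD⟩ := hg.bdd
  refine ⟨hf.meas.mul hg.meas, fun x => mul_nonneg (hf.nonneg x) (hg.nonneg x), C * D, fun x => ?_⟩
  exact mul_le_mul (hC x) (hD x) (hg.nonneg x) ((hf.nonneg x).trans (hC x))

theorem BM.rpow {f : Ω → ℝ} (hf : BM f) {t : ℝ} (ht : 0 ≤ t) : BM fun x => f x ^ t := by
  obtain ⟨C, hC⟩ := hf.bdd
  exact ⟨hf.meas.pow_const t, fun x => Real.rpow_nonneg (hf.nonneg x) t, C ^ t,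
    fun x => Real.rpow_le_rpow (hf.nonneg x) (hC x) ht⟩

theorem BM.prod {κ : Type*} (s : Finset κ) {f : κ → Ω → ℝ} (hf : ∀ k ∈ s, BM (f k)) :
    BM fun x => ∏ k ∈ s, f k x := by
  classical
  induction s using Finset.induction_on with
  | empty => exact ⟨by simp, by simp, 1, by simp⟩
  | insert a s ha ih =>
    have h := (hf a (Finset.mem_insert_self a s)).mul
      (ih fun k hk => hf k (Finset.mem_insert_of_mem hk))
    simpa only [Finset.prod_insert ha] using h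

omit [IsProbabilityMeasure μ] in
theorem BM.int_nonneg {f : Ω → ℝ} (hf : BM f) : 0 ≤ ∫ x, f x ∂μ := integral_nonneg hf.nonneg

theorem BM.memLp {f : Ω → ℝ} (hf : BM f) (p : ENNReal) : MemLp f p μ := by
  obtain ⟨C, hC⟩ := hf.bdd
  exact MemLp.of_bound hf.meas.aestronglyMeasurable C
    (ae_of_all _ fun x => by rw [Real.norm_of_nonneg (hf.nonneg x)]; exact hC x)

theorem hold {f g : Ω → ℝ} (hf : BM f) (hg : BM g) {θ : ℝ} (h0 : 0 < θ) (h1 : θ < 1) :
    ∫ x, f x ^ (1 - θ) * g x ^ θ ∂μ ≤ (∫ x, f x ∂μ) ^ (1 - θ) * (∫ x, g x ∂μ) ^ θ := by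
  have hpq : (1 / (1 - θ)).HolderConjugate (1 / θ) := by
    rw [Real.holderConjugate_iff]
    constructor
    · rw [lt_div_iff₀ (by linarith)]; linarith
    · rw [one_div, one_div, inv_inv, inv_inv]; ring
  have key := integral_mul_le_Lp_mul_Lq_of_nonneg (μ := μ) hpq
    (f := fun x => f x ^ (1 - θ)) (g := fun x => g x ^ θ)
    (ae_of_all _ fun x => Real.rpow_nonneg (hf.nonneg x) _)
    (ae_of_all _ fun x => Real.rpow_nonneg (hg.nonneg x) _)
    ((hf.rpow (by linarith)).memLp _) ((hg.rpow h0.le).memLp _)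
  have e1 : ∀ x, (f x ^ (1 - θ)) ^ (1 - θ)⁻¹ = f x := fun x => by
    rw [← Real.rpow_mul (hf.nonneg x), mul_inv_cancel₀ (by linarith), Real.rpow_one]
  have e2 : ∀ x, (g x ^ θ) ^ θ⁻¹ = g x := fun x => by
    rw [← Real.rpow_mul (hg.nonneg x), mul_inv_cancel₀ h0.ne', Real.rpow_one]
  simp only [one_div, inv_inv, e1, e2] at key
  exact key

/-- Hölder in product form -/
theorem hold' {f g : Ω → ℝ} (hf : BM f) (hg : BM g) {δ : ℝ} (h0 : 0 < δ) :
    ∫ x, f x * g x ∂μ ≤ (∫ x, f x ^ (1 + δ) ∂μ) ^ (1 / (1 + δ)) *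
      (∫ x, g x ^ ((1 + δ) / δ) ∂μ) ^ (δ / (1 + δ)) := by
  have h := hold (μ := μ) (hf.rpow (t := 1 + δ) (by linarith))
    (hg.rpow (t := (1 + δ) / δ) (by positivity)) (θ := δ / (1 + δ)) (by positivity)
    (by rw [div_lt_one (by linarith)]; linarith)
  have e : 1 - δ / (1 + δ) = 1 / (1 + δ) := by field_simp; ring
  rw [e] at h
  have e1 : ∀ x, (f x ^ (1 + δ)) ^ (1 / (1 + δ)) = f x := fun x => by
    rw [← Real.rpow_mul (hf.nonneg x), mul_one_div_cancel (by linarith), Real.rpow_one]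
  have e2 : ∀ x, (g x ^ ((1 + δ) / δ)) ^ (δ / (1 + δ)) = g x := fun x => by
    rw [← Real.rpow_mul (hg.nonneg x)]
    have : (1 + δ) / δ * (δ / (1 + δ)) = 1 := by field_simp
    rw [this, Real.rpow_one]
  simp only [e1, e2] at h
  exact h

/-- reversed Hölder -/
theorem hold_rev {f g : Ω → ℝ} (hf : BM f) (hg : BM g) {c : ℝ} (hc : 0 < c) (hgc : ∀ x, c ≤ g x)
    {δ : ℝ} (h0 : 0 < δ) (h1 : δ < 1) :
    ∫ x, f x ^ (1 - δ) ∂μ ≤ (∫ x, f x * g x ∂μ) ^ (1 - δ) *
      (∫ x, g x ^ (-((1 - δ) / δ)) ∂μ) ^ δ := by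
  have hg' : BM fun x => g x ^ (-((1 - δ) / δ)) := by
    refine ⟨hg.meas.pow_const _, fun x => Real.rpow_nonneg (hg.nonneg x) _, c ^ (-((1 - δ) / δ)),
      fun x => ?_⟩
    exact Real.rpow_le_rpow_of_nonpos hc (hgc x) (by
      rw [neg_nonpos]; exact div_nonneg (by linarith) h0.le)
  have h := hold (μ := μ) (hf.mul hg) hg' (θ := δ) h0 h1
  refine le_trans (le_of_eq ?_) h
  refine integral_congr_ae (ae_of_all _ fun x => ?_)
  have hgx : 0 < g x := hc.trans_le (hgc x)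
  show f x ^ (1 - δ) = (f x * g x) ^ (1 - δ) * (g x ^ (-((1 - δ) / δ))) ^ δ
  rw [Real.mul_rpow (hf.nonneg x) hgx.le, ← Real.rpow_mul hgx.le]
  have : -((1 - δ) / δ) * δ = -(1 - δ) := by field_simp
  rw [this, mul_assoc, ← Real.rpow_add hgx]
  simp

/-- raising to powers `1 ± δ` costs at most `N ^ (C δ)` -/
structure Tame (μ : Measure Ω) (N C : ℝ) (F : Ω → ℝ) : Prop where
  bm : BM F
  up : ∀ δ : ℝ, 0 < δ → δ ≤ 1 / 2 →
    (∫ x, F x ^ (1 + δ) ∂μ) ^ (1 / (1 + δ)) ≤ N ^ (C * δ) * ∫ x, F x ∂μ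
  lo : ∀ δ : ℝ, 0 < δ → δ ≤ 1 / 2 →
    N ^ (-(C * δ)) * ∫ x, F x ∂μ ≤ (∫ x, F x ^ (1 - δ) ∂μ) ^ (1 / (1 - δ))

omit [IsProbabilityMeasure μ] in
theorem Tame.mono {N C C' : ℝ} (hN : 1 ≤ N) (hC : C ≤ C') {F : Ω → ℝ} (h : Tame μ N C F) :
    Tame μ N C' F := by
  refine ⟨h.bm, fun δ h0 h1 => (h.up δ h0 h1).trans ?_, fun δ h0 h1 => le_trans ?_ (h.lo δ h0 h1)⟩
  · exact mul_le_mul_of_nonneg_right (Real.rpow_le_rpow_of_exponent_le hN (by nlinarith))
      h.bm.int_nonneg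
  · exact mul_le_mul_of_nonneg_right (Real.rpow_le_rpow_of_exponent_le hN (by nlinarith))
      h.bm.int_nonneg

/-- positive functions with polynomial second and inverse moments are tame -/
theorem tame_of_moments {N C : ℝ} (hN : 1 ≤ N) (hC : 0 ≤ C) {F : Ω → ℝ} (hF : BM F) {c : ℝ}
    (hc : 0 < c) (hFc : ∀ x, c ≤ F x) (h2 : ∫ x, F x ^ (2 : ℝ) ∂μ ≤ N ^ C)
    (hi : ∫ x, F x ^ (-1 : ℝ) ∂μ ≤ N ^ C) : Tame μ N (6 * C) F := by
  have hN0 : 0 < N := by linarith
  have hpos : ∀ x, 0 < F x := fun x => hc.trans_le (hFc x)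
  set E : ℝ := ∫ x, F x ∂μ with hE
  have hinv : BM fun x => F x ^ (-1 : ℝ) := by
    refine ⟨hF.meas.pow_const _, fun x => Real.rpow_nonneg (hF.nonneg x) _, c ^ (-1 : ℝ),
      fun x => ?_⟩
    exact Real.rpow_le_rpow_of_nonpos hc (hFc x) (by norm_num)
  -- lower bound of `E`
  have hcs : (1 : ℝ) ≤ E ^ (1 / 2 : ℝ) * (N ^ C) ^ (1 / 2 : ℝ) := by
    have h := hold (μ := μ) hF hinv (θ := 1 / 2) (by norm_num) (by norm_num)
    have e : ∀ x, F x ^ (1 - 1 / 2 : ℝ) * (F x ^ (-1 : ℝ)) ^ (1 / 2 : ℝ) = 1 := fun x => by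
      rw [← Real.rpow_mul (hpos x).le, ← Real.rpow_add (hpos x)]
      norm_num
    simp only [e] at h
    simp only [integral_const, probReal_univ, smul_eq_mul, mul_one] at h
    rw [show (1 - 1 / 2 : ℝ) = 1 / 2 by norm_num] at h
    refine h.trans (mul_le_mul_of_nonneg_left ?_ (Real.rpow_nonneg hF.int_nonneg _))
    exact Real.rpow_le_rpow hinv.int_nonneg hi (by norm_num)
  have hE0 : 0 < E := by
    by_contra hcon
    have h0 : E = 0 := le_antisymm (not_lt.mp hcon) hF.int_nonneg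
    rw [h0, Real.zero_rpow (by norm_num), zero_mul] at hcs
    linarith
  have hElow : N ^ (-C) ≤ E := by
    have h := Real.rpow_le_rpow (by norm_num : (0 : ℝ) ≤ 1) hcs (by norm_num : (0 : ℝ) ≤ 2)
    rw [Real.one_rpow, Real.mul_rpow (by positivity) (by positivity), ← Real.rpow_mul hE0.le,
      ← Real.rpow_mul (by positivity)] at h
    norm_num at h
    rw [Real.rpow_neg hN0.le, inv_le_iff_one_le_mul₀ (by positivity)]
    linarith
  have h2pos : 0 ≤ ∫ x, F x ^ (2 : ℝ) ∂μ := (hF.rpow (by norm_num)).int_nonneg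
  refine ⟨hF, fun δ h0 h1 => ?_, fun δ h0 h1 => ?_⟩
  · -- `∫ F^(1+δ) ≤ E^(1-δ) (∫ F²)^δ`
    have h := hold (μ := μ) hF (hF.rpow (t := 2) (by norm_num)) (θ := δ) h0 (by linarith)
    have e : ∀ x, F x ^ (1 - δ) * (F x ^ (2 : ℝ)) ^ δ = F x ^ (1 + δ) := fun x => by
      rw [← Real.rpow_mul (hpos x).le, ← Real.rpow_add (hpos x)]
      congr 1; ring
    simp only [e] at h
    have h' : ∫ x, F x ^ (1 + δ) ∂μ ≤ E ^ (1 - δ) * N ^ (C * δ) := by
      refine h.trans (mul_le_mul_of_nonneg_left ?_ (by positivity))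
      rw [Real.rpow_mul hN0.le]
      exact Real.rpow_le_rpow h2pos h2 h0.le
    have h3 : (∫ x, F x ^ (1 + δ) ∂μ) ^ (1 / (1 + δ)) ≤
        (E ^ (1 - δ) * N ^ (C * δ)) ^ (1 / (1 + δ)) :=
      Real.rpow_le_rpow (hF.rpow (by linarith)).int_nonneg h' (by positivity)
    refine h3.trans ?_
    rw [Real.mul_rpow (by positivity) (by positivity), ← Real.rpow_mul hE0.le,
      ← Real.rpow_mul hN0.le]
    have e1 : E ^ ((1 - δ) * (1 / (1 + δ))) = E * E ^ (-(2 * δ / (1 + δ))) := by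
      rw [← Real.rpow_one_add' hE0.le]
      · congr 1; field_simp; ring
      · have : 1 + -(2 * δ / (1 + δ)) = (1 - δ) / (1 + δ) := by field_simp; ring
        rw [this]
        have : 0 < (1 - δ) / (1 + δ) := div_pos (by linarith) (by linarith)
        exact this.ne'
    have e2 : E ^ (-(2 * δ / (1 + δ))) ≤ N ^ (C * (2 * δ / (1 + δ))) := by
      have h4 := Real.rpow_le_rpow_of_nonpos (x := N ^ (-C)) (y := E) (z := -(2 * δ / (1 + δ)))
        (by positivity) hElow (by rw [neg_nonpos]; positivity)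
      refine h4.trans (le_of_eq ?_)
      rw [← Real.rpow_mul hN0.le]
      congr 1; ring
    rw [e1]
    have e3 : C * δ * (1 / (1 + δ)) + C * (2 * δ / (1 + δ)) ≤ 6 * C * δ := by
      have : C * δ * (1 / (1 + δ)) + C * (2 * δ / (1 + δ)) = 3 * C * δ / (1 + δ) := by
        field_simp; ring
      rw [this, div_le_iff₀ (by linarith)]
      have : 0 ≤ C * δ := by positivity
      nlinarith
    calc E * E ^ (-(2 * δ / (1 + δ))) * N ^ (C * δ * (1 / (1 + δ)))
        ≤ E * N ^ (C * (2 * δ / (1 + δ))) * N ^ (C * δ * (1 / (1 + δ))) := by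
          gcongr
      _ = N ^ (C * δ * (1 / (1 + δ)) + C * (2 * δ / (1 + δ))) * E := by
          rw [Real.rpow_add hN0]; ring
      _ ≤ N ^ (6 * C * δ) * E := by
          gcongr
  · -- `E ≤ (∫ F^(1-δ))^(1/(1+δ)) (∫ F²)^(δ/(1+δ))`
    have hs0 : 0 < δ / (1 + δ) := by positivity
    have hs1 : δ / (1 + δ) < 1 := by rw [div_lt_one (by linarith)]; linarith
    have h := hold (μ := μ) (hF.rpow (t := 1 - δ) (by linarith)) (hF.rpow (t := 2) (by norm_num))
      (θ := δ / (1 + δ)) hs0 hs1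
    have es : 1 - δ / (1 + δ) = 1 / (1 + δ) := by field_simp; ring
    have e : ∀ x, (F x ^ (1 - δ)) ^ (1 - δ / (1 + δ)) * (F x ^ (2 : ℝ)) ^ (δ / (1 + δ)) = F x :=
      fun x => by
        rw [← Real.rpow_mul (hpos x).le, ← Real.rpow_mul (hpos x).le, ← Real.rpow_add (hpos x)]
        have : (1 - δ) * (1 - δ / (1 + δ)) + 2 * (δ / (1 + δ)) = 1 := by field_simp; ring
        rw [this, Real.rpow_one]
    simp only [e] at h
    rw [es, ← hE] at h
    set J : ℝ := ∫ x, F x ^ (1 - δ) ∂μ with hJ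
    have hJ0 : 0 ≤ J := (hF.rpow (by linarith)).int_nonneg
    have h5 : E ≤ J ^ (1 / (1 + δ)) * N ^ (C * (δ / (1 + δ))) := by
      refine h.trans (mul_le_mul_of_nonneg_left ?_ (by positivity))
      rw [Real.rpow_mul hN0.le]
      exact Real.rpow_le_rpow h2pos h2 hs0.le
    -- raise to the power `(1+δ)/(1-δ)`
    have h1δ : 0 < 1 - δ := by linarith
    have h6 : E ^ ((1 + δ) / (1 - δ)) ≤ J ^ (1 / (1 - δ)) * N ^ (C * (δ / (1 - δ))) := by
      have h7 := Real.rpow_le_rpow hE0.le h5 (z := (1 + δ) / (1 - δ)) (by positivity)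
      refine h7.trans (le_of_eq ?_)
      rw [Real.mul_rpow (by positivity) (by positivity), ← Real.rpow_mul hJ0,
        ← Real.rpow_mul hN0.le]
      congr 2
      · field_simp
      · field_simp
    have h8 : E ^ ((1 + δ) / (1 - δ)) = E * E ^ (2 * δ / (1 - δ)) := by
      rw [← Real.rpow_one_add' hE0.le]
      · congr 1; field_simp; ring
      · have : (0 : ℝ) < 1 + 2 * δ / (1 - δ) := by positivity
        exact this.ne'
    have h9 : N ^ (-(C * (2 * δ / (1 - δ)))) ≤ E ^ (2 * δ / (1 - δ)) := by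
      have h10 := Real.rpow_le_rpow (x := N ^ (-C)) (y := E) (z := 2 * δ / (1 - δ))
        (by positivity) hElow (by positivity)
      refine le_trans (le_of_eq ?_) h10
      rw [← Real.rpow_mul hN0.le]
      congr 1; ring
    have h11 : E * N ^ (-(C * (2 * δ / (1 - δ)))) ≤ J ^ (1 / (1 - δ)) * N ^ (C * (δ / (1 - δ))) :=
      (mul_le_mul_of_nonneg_left h9 hE0.le).trans (by rw [← h8]; exact h6)
    have h12 : E * N ^ (-(C * (2 * δ / (1 - δ)))) * N ^ (-(C * (δ / (1 - δ)))) ≤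
        J ^ (1 / (1 - δ)) := by
      refine (mul_le_mul_of_nonneg_right h11 (by positivity)).trans (le_of_eq ?_)
      rw [mul_assoc, ← Real.rpow_add hN0]
      simp
    refine le_trans ?_ h12
    have h13 : E * N ^ (-(C * (2 * δ / (1 - δ)))) * N ^ (-(C * (δ / (1 - δ)))) =
        N ^ (-(3 * C * δ / (1 - δ))) * E := by
      have : -(3 * C * δ / (1 - δ)) = -(C * (2 * δ / (1 - δ))) + -(C * (δ / (1 - δ))) := by
        field_simp; ring
      rw [this, Real.rpow_add hN0]; ring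
    rw [h13]
    refine mul_le_mul_of_nonneg_right (Real.rpow_le_rpow_of_exponent_le hN ?_) hE0.le
    rw [neg_le_neg_iff, div_le_iff₀ h1δ]
    have : 0 ≤ C * δ := by positivity
    nlinarith

omit [IsProbabilityMeasure μ] in
/-- events of polynomial probability are tame -/
theorem tame_ind {N C : ℝ} (hN : 1 ≤ N) (hC : 0 ≤ C) {A : Set Ω} (hA : MeasurableSet A)
    (hP : N ^ (-C) ≤ μ.real A) : Tame μ N (2 * C) (A.indicator fun _ => 1) := by
  have hN0 : 0 < N := by linarith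
  set P := μ.real A with hPd
  have hP0 : 0 < P := lt_of_lt_of_le (by positivity) hP
  have hbm : BM (A.indicator fun _ : Ω => (1 : ℝ)) := by
    refine ⟨measurable_const.indicator hA, fun x => Set.indicator_nonneg (fun _ _ => zero_le_one) x,
      1, fun x => ?_⟩
    by_cases hx : x ∈ A <;> simp [hx]
  have hpow : ∀ t : ℝ, t ≠ 0 → ∀ x, (A.indicator (fun _ : Ω => (1 : ℝ)) x) ^ t =
      A.indicator (fun _ => 1) x := fun t ht x => by
    by_cases hx : x ∈ A <;> simp [hx, ht]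
  have hint : ∫ x, A.indicator (fun _ : Ω => (1 : ℝ)) x ∂μ = P := by
    rw [integral_indicator hA]
    simp [hPd, Measure.real]
  refine ⟨hbm, fun δ h0 h1 => ?_, fun δ h0 h1 => ?_⟩
  · simp only [hpow (1 + δ) (by linarith), hint]
    have e1 : P ^ (1 / (1 + δ)) = P ^ (-(δ / (1 + δ))) * P := by
      rw [← Real.rpow_add_one' hP0.le]
      · congr 1; field_simp; ring
      · have : -(δ / (1 + δ)) + 1 = 1 / (1 + δ) := by field_simp; ring
        rw [this]; positivity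
    rw [e1]
    refine mul_le_mul_of_nonneg_right ?_ hP0.le
    have h4 := Real.rpow_le_rpow_of_nonpos (x := N ^ (-C)) (y := P) (z := -(δ / (1 + δ)))
      (by positivity) hP (by rw [neg_nonpos]; positivity)
    refine h4.trans ?_
    rw [← Real.rpow_mul hN0.le]
    refine Real.rpow_le_rpow_of_exponent_le hN ?_
    have : -C * -(δ / (1 + δ)) = C * δ / (1 + δ) := by ring
    rw [this, div_le_iff₀ (by linarith)]
    have : 0 ≤ C * δ := by positivity
    nlinarith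
  · simp only [hpow (1 - δ) (by linarith), hint]
    have h1δ : 0 < 1 - δ := by linarith
    have e1 : P ^ (1 / (1 - δ)) = P ^ (δ / (1 - δ)) * P := by
      rw [← Real.rpow_add_one' hP0.le]
      · congr 1; field_simp; ring
      · positivity
    rw [e1]
    refine mul_le_mul_of_nonneg_right ?_ hP0.le
    have h4 := Real.rpow_le_rpow (x := N ^ (-C)) (y := P) (z := δ / (1 - δ))
      (by positivity) hP (by positivity)
    refine le_trans ?_ h4
    rw [← Real.rpow_mul hN0.le]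
    refine Real.rpow_le_rpow_of_exponent_le hN ?_
    have : -C * (δ / (1 - δ)) = -(C * δ / (1 - δ)) := by ring
    rw [this, neg_le_neg_iff, div_le_iff₀ h1δ]
    have : 0 ≤ C * δ := by positivity
    nlinarith

end general

/-! ### products of independent tame factors -/

variable {ι : Type*} {w : ι → I} {κ : Type*}

theorem DepF.rpow {S : Finset ι} {f : (ι → Bool) → ℝ} (hf : DepF S f) (t : ℝ) :
    DepF S fun z => f z ^ t := fun z z' hz => by
  show f z ^ t = f z' ^ t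
  rw [hf z z' hz]

theorem int_prod_rpow (s : Finset κ) (S : κ → Finset ι)
    (hS : ∀ i ∈ s, ∀ j ∈ s, i ≠ j → Disjoint (S i) (S j)) (f : κ → (ι → Bool) → ℝ)
    (hf : ∀ i ∈ s, DepF (S i) (f i)) (h0 : ∀ i ∈ s, ∀ z, 0 ≤ f i z) (t : ℝ) :
    ∫ z, (∏ i ∈ s, f i z) ^ t ∂(PB w) = ∏ i ∈ s, ∫ z, f i z ^ t ∂(PB w) := by
  rw [← integral_prod_disj w s S hS (fun i z => f i z ^ t) fun i hi => DepF.rpow (hf i hi) t]
  refine integral_congr_ae (ae_of_all _ fun z => ?_)
  exact (Real.finsetProd_rpow s (fun i => f i z) (fun i hi => h0 i hi z) t).symm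

/-- **upper bound with `N ^ ε` loss** -/
theorem loc_upper {N C : ℝ} (hN : 1 ≤ N) (s : Finset κ) (S : κ → Finset ι)
    (hS : ∀ i ∈ s, ∀ j ∈ s, i ≠ j → Disjoint (S i) (S j)) (F : κ → (ι → Bool) → ℝ)
    (hD : ∀ i ∈ s, DepF (S i) (F i)) (hF : ∀ i ∈ s, Tame (PB w) N C (F i))
    {G : (ι → Bool) → ℝ} (hG : BM G) {δ : ℝ} (h0 : 0 < δ) (h1 : δ ≤ 1 / 2) :
    ∫ z, (∏ i ∈ s, F i z) * G z ∂(PB w) ≤ N ^ (s.card * (C * δ)) * (∏ i ∈ s, ∫ z, F i z ∂(PB w)) *
      (∫ z, G z ^ ((1 + δ) / δ) ∂(PB w)) ^ (δ / (1 + δ)) := by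
  have hN0 : 0 < N := by linarith
  have h := hold' (μ := PB w) (BM.prod s fun i hi => (hF i hi).bm) hG h0
  refine h.trans (mul_le_mul_of_nonneg_right ?_ (Real.rpow_nonneg
    (hG.rpow (by positivity)).int_nonneg _))
  rw [int_prod_rpow s S hS F hD (fun i hi => (hF i hi).bm.nonneg) (1 + δ),
    ← Real.finsetProd_rpow s _ (fun i hi => ((hF i hi).bm.rpow (by linarith)).int_nonneg) _]
  calc ∏ i ∈ s, (∫ z, F i z ^ (1 + δ) ∂(PB w)) ^ (1 / (1 + δ))
      ≤ ∏ i ∈ s, (N ^ (C * δ) * ∫ z, F i z ∂(PB w)) :=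
        Finset.prod_le_prod (fun i hi => Real.rpow_nonneg
          ((hF i hi).bm.rpow (by linarith)).int_nonneg _) fun i hi => (hF i hi).up δ h0 h1
    _ = _ := by
        rw [Finset.prod_mul_distrib, Finset.prod_const, ← Real.rpow_natCast (N ^ (C * δ)),
          ← Real.rpow_mul hN0.le]
        congr 2; ring

/-- **lower bound with `N ^ ε` loss** -/
theorem loc_lower {N C : ℝ} (hN : 1 ≤ N) (s : Finset κ) (S : κ → Finset ι)
    (hS : ∀ i ∈ s, ∀ j ∈ s, i ≠ j → Disjoint (S i) (S j)) (F : κ → (ι → Bool) → ℝ)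
    (hD : ∀ i ∈ s, DepF (S i) (F i)) (hF : ∀ i ∈ s, Tame (PB w) N C (F i))
    {G : (ι → Bool) → ℝ} (hG : BM G) {c : ℝ} (hc : 0 < c) (hGc : ∀ z, c ≤ G z) {δ : ℝ}
    (h0 : 0 < δ) (h1 : δ ≤ 1 / 2) :
    N ^ (-(s.card * (C * δ))) * (∏ i ∈ s, ∫ z, F i z ∂(PB w)) ≤
      (∫ z, (∏ i ∈ s, F i z) * G z ∂(PB w)) *
      (∫ z, G z ^ (-((1 - δ) / δ)) ∂(PB w)) ^ (δ / (1 - δ)) := by
  have hN0 : 0 < N := by linarith
  have h1δ : 0 < 1 - δ := by linarith
  have hbp := BM.prod s fun i hi => (hF i hi).bm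
  have h := hold_rev (μ := PB w) hbp hG hc hGc h0 (by linarith)
  rw [int_prod_rpow s S hS F hD (fun i hi => (hF i hi).bm.nonneg) (1 - δ)] at h
  have h2 := Real.rpow_le_rpow (Finset.prod_nonneg fun i hi =>
    ((hF i hi).bm.rpow (t := 1 - δ) (by linarith)).int_nonneg) h (z := 1 / (1 - δ)) (by positivity)
  rw [Real.mul_rpow (Real.rpow_nonneg (hbp.mul hG).int_nonneg _) (Real.rpow_nonneg
    (integral_nonneg fun z => Real.rpow_nonneg (hG.nonneg z) _) _),
    ← Real.rpow_mul (hbp.mul hG).int_nonneg, mul_one_div_cancel h1δ.ne', Real.rpow_one,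
    ← Real.rpow_mul (integral_nonneg fun z => Real.rpow_nonneg (hG.nonneg z) _),
    mul_one_div] at h2
  refine le_trans ?_ h2
  rw [← Real.finsetProd_rpow s _ (fun i hi => ((hF i hi).bm.rpow (by linarith)).int_nonneg) _]
  calc N ^ (-(s.card * (C * δ))) * ∏ i ∈ s, ∫ z, F i z ∂(PB w)
      = ∏ i ∈ s, (N ^ (-(C * δ)) * ∫ z, F i z ∂(PB w)) := by
        rw [Finset.prod_mul_distrib, Finset.prod_const, ← Real.rpow_natCast (N ^ (-(C * δ))),
          ← Real.rpow_mul hN0.le]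
        congr 2; ring
    _ ≤ _ := Finset.prod_le_prod (fun i hi => mul_nonneg (by positivity) (hF i hi).bm.int_nonneg)
        fun i hi => (hF i hi).lo δ h0 h1

end Crest.Agent.R158.Nz399
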