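import Crest.Agent.R158.Nm7_211
import Crest.Agent.R158.Nz1_399

/-!
# Row 158, corner lemma (helper211), part 2: polynomial moments of the number of arcs around a corner

* `rho v t` : distance of the tile `t` to the vertex `v` (lower left corner of the tile `v`)
* `corner_moment` : strands from `X` to `Y` such that `Y` is at distance `≥ rho v c` from every
  `c ∈ X` have moments `∫ a ^ KK ≤ C n ^ q`
* `tame_pow` : `b ^ K` is tame
-/

set_option autoImplicit false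

noncomputable section

namespace Crest.Agent.R158.Dn211

open MeasureTheory ProbabilityTheory unitInterval
open Crest.Agent.R158.Rs689 Crest.Agent.R158.Nm211 Crest.Agent.R158.Nz399

/-- distance of the tile `t` to the vertex `v` -/
def rho (v t : ℤ × ℤ) : ℤ :=
  max (max (t.1 - v.1 + 1) (v.1 - t.1)) (max (t.2 - v.2 + 1) (v.2 - t.2))

theorem rho_pos (v t : ℤ × ℤ) : 1 ≤ rho v t := by
  unfold rho; omega

theorem rho_abs (v t : ℤ × ℤ) : |t.1 - v.1| ≤ rho v t ∧ |t.2 - v.2| ≤ rho v t := by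
  unfold rho
  rw [abs_le, abs_le]
  omega

theorem rho_lip {v t t' : ℤ × ℤ} {w : ℤ} (h1 : |t'.1 - t.1| < w) (h2 : |t'.2 - t.2| < w) :
    rho v t - w < rho v t' ∧ rho v t' < rho v t + w := by
  unfold rho
  rw [abs_lt] at h1 h2
  omega

theorem Far.mono {m n : ℕ} (h : m ≤ n) {c c' : St ℤ} (hf : Far n c c') : Far m c c' := by
  unfold Far at hf ⊢
  omega

theorem not_far' {n : ℕ} {c c' : St ℤ} (h : ¬ Far n c c') :
    |c'.1.1 - c.1.1| < n ∧ |c'.1.2 - c.1.2| < n := by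
  unfold Far at h
  push Not at h
  exact h

theorem mac_dep {D : Set (St ℤ)} {X : Finset (St ℤ)} {T : Finset (ℤ × ℤ)} {n : ℕ}
    (hT : ∀ c ∈ D, c.1 ∈ T) {s s' : ℤ × ℤ → Bool} (hs : ∀ v ∈ T, s v = s' v) :
    Mac (nx6 s) D X n = Mac (nx6 s') D X n := by
  classical
  have key : ∀ s s' : ℤ × ℤ → Bool, (∀ v ∈ T, s v = s' v) → ∀ x,
      (∃ m, (∀ j < m, (nx6 s)^[j] x ∈ D) ∧ Far n x ((nx6 s)^[m] x)) →
      ∃ m, (∀ j < m, (nx6 s')^[j] x ∈ D) ∧ Far n x ((nx6 s')^[m] x) := by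
    rintro s s' hs x ⟨m, hm, hy⟩
    have h2 : ∀ k ≤ m, (nx6 s')^[k] x = (nx6 s)^[k] x := by
      intro k
      induction k with
      | zero => intro _; rfl
      | succ k ih =>
        intro hk
        rw [Function.iterate_succ_apply', Function.iterate_succ_apply', ih (by omega)]
        exact (nx6_congr (hs _ (hT _ (hm k (by omega))))).symm
    refine ⟨m, fun k hk => ?_, ?_⟩
    · rw [h2 k hk.le]; exact hm k hk
    · rw [h2 m le_rfl]; exact hy
  unfold Mac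
  congr 1
  refine Finset.filter_congr fun x _ => ⟨key s s' hs x, key s' s (fun v hv => (hs v hv).symm) x⟩

/-- a strand from `c` that gets far, stopped when it is at distance `h` -/
theorem stop_far {f : St ℤ → St ℤ} {D : Set (St ℤ)} {c : St ℤ} {h m : ℕ}
    (hm : ∀ j < m, f^[j] c ∈ D) (hf : Far h c (f^[m] c)) :
    ∃ m', (∀ j < m', f^[j] c ∈ D ∧ ¬ Far h c (f^[j] c)) ∧ Far h c (f^[m'] c) := by
  classical
  have hex : ∃ m', Far h c (f^[m'] c) := ⟨m, hf⟩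
  refine ⟨Nat.find hex, fun j hj => ⟨hm j ?_, Nat.find_min hex hj⟩, Nat.find_spec hex⟩
  exact lt_of_lt_of_le hj (Nat.find_min' hex hf)

theorem pow_log_le {C : ℝ} (hC : 1 ≤ C) : ∃ q : ℕ, ∀ n : ℕ, 1 ≤ n →
    C ^ (Nat.log 2 n) ≤ (n : ℝ) ^ q := by
  obtain ⟨q, hq⟩ := pow_unbounded_of_one_lt C (by norm_num : (1 : ℝ) < 2)
  refine ⟨q, fun n hn => ?_⟩
  have h1 : ((2 : ℝ) ^ Nat.log 2 n) ≤ n := by
    exact_mod_cast Nat.pow_log_le_self 2 (by omega)
  calc C ^ (Nat.log 2 n) ≤ (2 ^ q) ^ (Nat.log 2 n) :=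
        pow_le_pow_left₀ (by linarith) hq.le _
    _ = (2 ^ Nat.log 2 n) ^ q := by rw [← pow_mul, ← pow_mul, mul_comm]
    _ ≤ (n : ℝ) ^ q := pow_le_pow_left₀ (by positivity) h1 _

/-- half of `2 ^ k`, rounded up -/
def hk (k : ℕ) : ℕ := (2 ^ k + 1) / 2

theorem hk_spec (k : ℕ) : 1 ≤ hk k ∧ 2 ^ k ≤ 2 * hk k ∧ hk k ≤ 2 ^ k ∧ 2 * hk k ≤ 2 ^ k + 1 := by
  have : 1 ≤ 2 ^ k := Nat.one_le_two_pow
  unfold hk
  omega

/-- tiles at distance about `2 ^ k` -/
def Tk (v : ℤ × ℤ) (T : Finset (ℤ × ℤ)) (k : ℕ) : Finset (ℤ × ℤ) :=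
  T.filter fun t => (2 : ℤ) ^ k - hk k < rho v t ∧ rho v t < 2 ^ (k + 1) + hk k

theorem Tk_disj {v : ℤ × ℤ} {T : Finset (ℤ × ℤ)} {k l : ℕ} (h : k + 3 ≤ l) :
    Disjoint (Tk v T k) (Tk v T l) := by
  rw [Finset.disjoint_left]
  intro t h1 h2
  simp only [Tk, Finset.mem_filter] at h1 h2
  have e1 := hk_spec k
  have e2 := hk_spec l
  have e3 : 2 ^ (k + 3) ≤ 2 ^ l := Nat.pow_le_pow_right (by norm_num) h
  have e4 : (2 : ℕ) ^ (k + 3) = 8 * 2 ^ k := by ring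
  have e5 : (2 : ℤ) ^ (k + 1) = 2 * ((2 ^ k : ℕ) : ℤ) := by push_cast; ring
  have e6 : (2 : ℤ) ^ l = ((2 ^ l : ℕ) : ℤ) := by push_cast; ring
  rw [e5] at h1
  rw [e6] at h2
  have e7 : (1 : ℕ) ≤ 2 ^ k := Nat.one_le_two_pow
  generalize (2 ^ k : ℕ) = a at *
  generalize (2 ^ l : ℕ) = b at *
  omega

/-- **arcs around a corner** : polynomial moments (weak separation) -/
theorem corner_moment' (a : ℝ) (ha : 1 ≤ a) : ∃ C : ℝ, 1 ≤ C ∧ ∃ q : ℕ, ∀ n : ℕ, 1 ≤ n →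
    ∀ (v : ℤ × ℤ) (D Y : Set (St ℤ)) (X : Finset (St ℤ)) (T : Finset (ℤ × ℤ)),
      (∀ c ∈ D, c.1 ∈ T) → (∀ c ∈ D, ∀ s : ℤ × ℤ → Bool, nx6 s c ∉ X) →
      (∀ c ∈ X, rho v c.1 ≤ n) →
      (∀ c ∈ X, ∀ c' ∈ Y, Far (max 1 ((rho v c.1).toNat - 1)) c c') →
      ∫ s, a ^ (KK (nx6 s) D Y X) ∂(PB fun _ : ℤ × ℤ => hf) ≤ C * (n : ℝ) ^ q := by
  classical
  have ha0 : 0 ≤ a := zero_le_one.trans ha
  obtain ⟨C, hC1, hC⟩ := mac_moment.{0} (a ^ 3) (one_le_pow₀ ha) 1 4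
  obtain ⟨q, hq⟩ := pow_log_le hC1
  refine ⟨3 * C, by linarith, q, fun n hn v D Y X T hDT hent hXn hXY => ?_⟩
  let L := Nat.log 2 n
  let X' : Fin (L + 1) → Finset (St ℤ) := fun k =>
    X.filter fun c => (2 : ℤ) ^ (k : ℕ) ≤ rho v c.1 ∧ rho v c.1 < 2 ^ ((k : ℕ) + 1)
  let D' : Fin (L + 1) → Set (St ℤ) := fun k => {c | c ∈ D ∧ c.1 ∈ Tk v T k}
  let M : Fin (L + 1) → (ℤ × ℤ → Bool) → ℕ := fun k s => Mac (nx6 s) (D' k) (X' k) (hk k)
  have hMdep : ∀ k : Fin (L + 1), ∀ s s' : ℤ × ℤ → Bool, (∀ e ∈ Tk v T k, s e = s' e) → M k s = M k s' :=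
    fun k s s' hs => mac_dep (fun c hc => hc.2) hs
  have hMC : ∀ k, ∫ s, (a ^ 3) ^ (M k s) ∂(PB fun _ : ℤ × ℤ => hf) ≤ C := by
    intro k
    refine hC (hk k) (hk_spec k).1 (ℤ × ℤ) (fun _ w => w) (fun _ _ => false) (fun _ => v)
      (fun _ => D' k) (fun _ => X' k) (fun _ => T) (fun _ => fun _ _ _ _ h => h)
      (fun _ c hc => hDT c hc.1) (fun _ c hc s h => hent c hc.1 s (Finset.mem_filter.1 h).1)
      (fun _ c hc => ?_) (M k) fun s => ?_
    · obtain ⟨_, h1, h2⟩ := Finset.mem_filter.1 hc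
      obtain ⟨h3, h4⟩ := rho_abs v c.1
      have e1 := hk_spec k
      have e5 : (2 : ℤ) ^ ((k : ℕ) + 1) = 2 * ((2 ^ (k : ℕ) : ℕ) : ℤ) := by push_cast; ring
      rw [e5] at h2
      push_cast
      generalize (2 ^ (k : ℕ) : ℕ) = b at *
      omega
    · have hrd : ∀ s : ℤ × ℤ → Bool, rd (fun w => w) (fun _ => false) s = s := by
        intro s; funext w; simp [rd]
      rw [Fin.sum_univ_one, hrd]
  have h1 := local_moment (fun _ : ℤ × ℤ => hf) (J := 3) (by norm_num)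
    (fun k : Fin (L + 1) => (⟨(k : ℕ) % 3, Nat.mod_lt _ (by norm_num)⟩ : Fin 3))
    (fun k : Fin (L + 1) => Tk v T k) (fun k l hkl hc => ?_) M hMdep ha (Q := fun _ => C) hMC fun _ => hC1
  · have h2 : ∀ s, KK (nx6 s) D Y X ≤ ∑ k, M k s := by
      intro s
      have hsub : (X.filter fun c => Hit (nx6 s) D Y c) ⊆
          Finset.univ.biUnion fun k : Fin (L + 1) => (X' k).filter fun c =>
            ∃ m, (∀ j < m, (nx6 s)^[j] c ∈ D' k) ∧ Far (hk k) c ((nx6 s)^[m] c) := by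
        intro c hc
        rw [Finset.mem_filter] at hc
        obtain ⟨hcX, m, hm, hmY⟩ := hc
        have hr1 := rho_pos v c.1
        have hrn := hXn c hcX
        obtain ⟨r, hr⟩ : ∃ r : ℕ, rho v c.1 = r := ⟨(rho v c.1).toNat, by omega⟩
        rw [hr] at hr1 hrn
        have hr1' : 1 ≤ r := by omega
        have hrn' : r ≤ n := by omega
        have hkL : Nat.log 2 r < L + 1 := Nat.lt_succ_of_le (Nat.log_mono_right hrn')
        have e1 : 2 ^ Nat.log 2 r ≤ r := Nat.pow_log_le_self 2 (by omega)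
        have e2 : r < 2 ^ (Nat.log 2 r + 1) := Nat.lt_pow_succ_log_self (by norm_num) r
        set k : ℕ := Nat.log 2 r with hkd
        have hspec := hk_spec k
        have hfar : Far (hk k) c ((nx6 s)^[m] c) := by
          refine Far.mono ?_ (hXY c hcX _ hmY)
          rw [hr, Int.toNat_natCast]
          rcases Nat.eq_zero_or_pos k with hk0 | hk0
          · rw [hk0] at hspec ⊢
            rw [pow_zero] at hspec
            omega
          · obtain ⟨j, hj⟩ : ∃ j, k = j + 1 := ⟨k - 1, by omega⟩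
            rw [hj] at hspec e1 ⊢
            rw [pow_succ] at hspec e1
            have e7 : 1 ≤ 2 ^ j := Nat.one_le_two_pow
            omega
        obtain ⟨m', hm', hfar'⟩ := stop_far hm hfar
        rw [Finset.mem_biUnion]
        refine ⟨⟨k, hkL⟩, Finset.mem_univ _, ?_⟩
        rw [Finset.mem_filter]
        have e1' : (2 : ℤ) ^ k ≤ r := by exact_mod_cast e1
        have e2' : (r : ℤ) < 2 ^ (k + 1) := by exact_mod_cast e2
        refine ⟨Finset.mem_filter.2 ⟨hcX, ?_, ?_⟩, m', fun j hj => ?_, hfar'⟩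
        · rw [hr]; exact e1'
        · rw [hr]; exact e2'
        · obtain ⟨h3, h4⟩ := hm' j hj
          obtain ⟨h5, h6⟩ := not_far' h4
          obtain ⟨h7, h8⟩ := rho_lip (v := v) h5 h6
          refine ⟨h3, Finset.mem_filter.2 ⟨hDT _ h3, ?_, ?_⟩⟩
          · rw [hr] at h7
            show (2 : ℤ) ^ k - (hk k : ℤ) < _
            linarith
          · rw [hr] at h8
            show _ < (2 : ℤ) ^ (k + 1) + (hk k : ℤ)
            linarith
      have h3 : KK (nx6 s) D Y X = (X.filter fun c => Hit (nx6 s) D Y c).card := by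
        unfold KK; rfl
      rw [h3]
      refine (Finset.card_le_card hsub).trans (Finset.card_biUnion_le.trans ?_)
      refine Finset.sum_le_sum fun k _ => le_of_eq ?_
      show _ = Mac (nx6 s) (D' k) (X' k) (hk k)
      unfold Mac; rfl
    have hdep : DepF T fun s : ℤ × ℤ → Bool => a ^ (KK (nx6 s) D Y X) := fun s s' hs => by
      show a ^ (KK (nx6 s) D Y X) = a ^ (KK (nx6 s') D Y X)
      rw [plane_dep hDT hs]
    have hdep2 : DepF T fun s : ℤ × ℤ → Bool => a ^ (∑ k, M k s) := fun s s' hs => by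
      show a ^ (∑ k, M k s) = a ^ (∑ k, M k s')
      rw [Finset.sum_congr rfl fun k _ => hMdep k s s' fun e he =>
        hs e (Finset.mem_filter.1 he).1]
    have h4 : ∫ s, a ^ (KK (nx6 s) D Y X) ∂(PB fun _ : ℤ × ℤ => hf) ≤
        ∫ s, a ^ (∑ k, M k s) ∂(PB fun _ : ℤ × ℤ => hf) :=
      integral_mono (hdep.integrable _) (hdep2.integrable _) fun s =>
        pow_le_pow_right₀ ha (h2 s)
    refine h4.trans (h1.trans ?_)
    rw [Finset.prod_const, Finset.card_univ, Fintype.card_fin, pow_succ]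
    have h5 := hq n hn
    have h6 : (0 : ℝ) ≤ C := by linarith
    push_cast
    calc (3 : ℝ) * (C ^ L * C) = 3 * C * C ^ L := by ring
      _ ≤ 3 * C * (n : ℝ) ^ q := mul_le_mul_of_nonneg_left h5 (by positivity)
  · have hkl' : (k : ℕ) ≠ l := fun h => hkl (Fin.ext h)
    have hc' : (k : ℕ) % 3 = (l : ℕ) % 3 := congrArg Fin.val hc
    rcases Nat.lt_or_ge (k : ℕ) l with h | h
    · exact Tk_disj (by omega)
    · exact (Tk_disj (by omega)).symm

/-- **arcs around a corner** : polynomial moments -/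
theorem corner_moment (a : ℝ) (ha : 1 ≤ a) : ∃ C : ℝ, 1 ≤ C ∧ ∃ q : ℕ, ∀ n : ℕ, 1 ≤ n →
    ∀ (v : ℤ × ℤ) (D Y : Set (St ℤ)) (X : Finset (St ℤ)) (T : Finset (ℤ × ℤ)),
      (∀ c ∈ D, c.1 ∈ T) → (∀ c ∈ D, ∀ s : ℤ × ℤ → Bool, nx6 s c ∉ X) →
      (∀ c ∈ X, rho v c.1 ≤ n) → (∀ c ∈ X, ∀ c' ∈ Y, Far (rho v c.1).toNat c c') →
      ∫ s, a ^ (KK (nx6 s) D Y X) ∂(PB fun _ : ℤ × ℤ => hf) ≤ C * (n : ℝ) ^ q := by
  obtain ⟨C, hC, q, h⟩ := corner_moment' a ha
  refine ⟨C, hC, q, fun n hn v D Y X T h1 h2 h3 h4 => h n hn v D Y X T h1 h2 h3 fun c hc c' hc' =>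
    Far.mono ?_ (h4 c hc c' hc')⟩
  have := rho_pos v c.1
  omega

/-- powers of counts with polynomial moments are tame -/
theorem tame_pow {ι : Type*} {T : Finset ι} {K : (ι → Bool) → ℕ}
    (hT : ∀ s s' : ι → Bool, (∀ e ∈ T, s e = s' e) → K s = K s') {b : ℝ} (hb : 0 < b)
    {N C : ℝ} (hN : 1 ≤ N) (hC : 0 ≤ C)
    (h2 : ∫ s, (max 1 (b ^ 2)) ^ (K s) ∂(PB fun _ : ι => hf) ≤ N ^ C)
    (hi : ∫ s, (max 1 b⁻¹) ^ (K s) ∂(PB fun _ : ι => hf) ≤ N ^ C) :
    Tame (PB fun _ : ι => hf) N (6 * C) fun s => b ^ (K s) := by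
  have hdep : ∀ x : ℝ, DepF T fun s => x ^ (K s) := fun x s s' hs => by
    show x ^ (K s) = x ^ (K s')
    rw [hT s s' hs]
  obtain ⟨M, hM⟩ : ∃ M : ℕ, ∀ s, K s ≤ M := by
    obtain ⟨B, hB⟩ := (show DepF T fun s => (K s : ℝ) from fun s s' hs => by
      show ((K s : ℕ) : ℝ) = K s'
      rw [hT s s' hs]).bdd
    refine ⟨⌈B⌉₊, fun s => ?_⟩
    have h1 := hB s
    rw [Real.norm_of_nonneg (Nat.cast_nonneg _)] at h1
    exact_mod_cast h1.trans (Nat.le_ceil B)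
  refine tame_of_moments hN hC ⟨(hdep b).measurable, fun s => (pow_pos hb _).le, ?_⟩
    (c := (min 1 b) ^ M) (pow_pos (lt_min one_pos hb) _) (fun s => ?_) ?_ ?_
  · refine ⟨(max 1 b) ^ M, fun s => ?_⟩
    calc b ^ (K s) ≤ (max 1 b) ^ (K s) := pow_le_pow_left₀ hb.le (le_max_right _ _) _
      _ ≤ (max 1 b) ^ M := pow_le_pow_right₀ (le_max_left _ _) (hM s)
  · calc (min 1 b) ^ M ≤ (min 1 b) ^ (K s) :=
        pow_le_pow_of_le_one (le_min zero_le_one hb.le) (min_le_left _ _) (hM s)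
      _ ≤ b ^ (K s) := pow_le_pow_left₀ (le_min zero_le_one hb.le) (min_le_right _ _) _
  · refine le_trans (integral_mono ?_ ((hdep _).integrable _) fun s => ?_) h2
    · have : (fun s => (b ^ K s) ^ (2 : ℝ)) = fun s => (b ^ 2) ^ (K s) := by
        funext s
        rw [← Real.rpow_natCast (b ^ 2), ← Real.rpow_natCast b (K s), ← Real.rpow_natCast b 2,
          ← Real.rpow_mul hb.le, ← Real.rpow_mul hb.le]
        congr 1
        push_cast
        ring
      rw [this]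
      exact (hdep _).integrable _
    · show (b ^ K s) ^ (2 : ℝ) ≤ (max 1 (b ^ 2)) ^ (K s)
      have : (b ^ K s) ^ (2 : ℝ) = (b ^ 2) ^ (K s) := by
        rw [← Real.rpow_natCast (b ^ 2), ← Real.rpow_natCast b (K s), ← Real.rpow_natCast b 2,
          ← Real.rpow_mul hb.le, ← Real.rpow_mul hb.le]
        congr 1
        push_cast
        ring
      rw [this]
      exact pow_le_pow_left₀ (by positivity) (le_max_right _ _) _
  · have e : ∀ s, (b ^ K s) ^ (-1 : ℝ) = (b⁻¹) ^ (K s) := fun s => by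
      rw [Real.rpow_neg_one, inv_pow]
    refine le_trans (integral_mono ?_ ((hdep _).integrable _) fun s => ?_) hi
    · simp only [e]
      exact (hdep _).integrable _
    · simp only [e]
      exact pow_le_pow_left₀ (by positivity) (le_max_right _ _) _

end Crest.Agent.R158.Dn211
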