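import Crest.Agent.R158.Mr1_679

/-!
# Row 158, Block MR (helper679): crossings of tile boxes in medial coordinates

* `LX b x0 x1 y0 y1` : the tiles `X = true` of the box `x0 < x ≤ x1`, `y0 < y ≤ y1` contain a
  left-right path on the faces with `i + j + b` even; `BX` : bottom-top path
* `lx_dep`, `lx_inc`, `bx_dep`, `bx_inc`, shifts, transposition, monotonicity
* `lx_of_path` : extraction of a crossing from a long path
* `never_both`, `one_of`, `lx_add_bx` : duality of medial rectangles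
-/

set_option autoImplicit false

noncomputable section

namespace Crest.Agent.R158.Mr679

open MeasureTheory ProbabilityTheory unitInterval
open Crest.Agent.R161.Geo729 Crest.Agent.R161.Topo374 Crest.Agent.R161.Dual374
open Crest.Agent.R158.Rs689

/-! ### paths -/

theorem TP.map {Q Q' : P2 → Prop} (φ : P2 → P2) (hφ : ∀ u v, Dg u v → Dg (φ u) (φ v))
    (hQ : ∀ u v, Dg u v → Q (tb u v) → Q' (tb (φ u) (φ v))) {u v : P2} (h : TP Q u v) :
    TP Q' (φ u) (φ v) := by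
  induction h with
  | refl => exact .refl
  | tail _ h2 ih => exact ih.tail ⟨hφ _ _ h2.1, hQ _ _ h2.1 h2.2⟩

/-- the part of a path between two levels -/
theorem sub_cross {α : Type*} {R : α → α → Prop} (f : α → ℤ)
    (hf : ∀ u v, R u v → f v ≤ f u + 1 ∧ f u ≤ f v + 1) {a b : α}
    (h : Relation.ReflTransGen R a b) {x0 x1 : ℤ} (h01 : x0 ≤ x1) (ha : f a ≤ x0)
    (hb : x1 ≤ f b) : ∃ c d, Relation.ReflTransGen R a c ∧ f c = x0 ∧ f d = x1 ∧
      Relation.ReflTransGen (fun u v => R u v ∧ (x0 ≤ f u ∧ f u ≤ x1) ∧ (x0 ≤ f v ∧ f v ≤ x1)) c d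
      ∧ Relation.ReflTransGen R d b := by
  have key : ∀ w, Relation.ReflTransGen R a w →
      (∃ c d, Relation.ReflTransGen R a c ∧ f c = x0 ∧ f d = x1 ∧
      Relation.ReflTransGen (fun u v => R u v ∧ (x0 ≤ f u ∧ f u ≤ x1) ∧ (x0 ≤ f v ∧ f v ≤ x1)) c d
      ∧ Relation.ReflTransGen R d w) ∨ f w < x0 ∨
      (∃ c, Relation.ReflTransGen R a c ∧ f c = x0 ∧
      Relation.ReflTransGen (fun u v => R u v ∧ (x0 ≤ f u ∧ f u ≤ x1) ∧ (x0 ≤ f v ∧ f v ≤ x1)) c w
      ∧ x0 ≤ f w ∧ f w < x1) := by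
    intro w hw
    induction hw with
    | refl =>
      rcases lt_or_eq_of_le ha with h1 | h1
      · exact Or.inr (Or.inl h1)
      · rcases lt_or_eq_of_le h01 with h2 | h2
        · exact Or.inr (Or.inr ⟨a, .refl, h1, .refl, by omega, by omega⟩)
        · exact Or.inl ⟨a, a, .refl, h1, by omega, .refl, .refl⟩
    | @tail u v hu huv ih =>
      have h3 := hf u v huv
      rcases ih with ⟨c, d, e1, e2, e3, e4, e5⟩ | h4 | ⟨c, e1, e2, e3, e4, e5⟩
      · exact Or.inl ⟨c, d, e1, e2, e3, e4, e5.tail huv⟩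
      · rcases lt_or_ge (f v) x0 with h5 | h5
        · exact Or.inr (Or.inl h5)
        · rcases lt_or_eq_of_le h01 with h2 | h2
          · exact Or.inr (Or.inr ⟨v, hu.tail huv, by omega, .refl, by omega, by omega⟩)
          · exact Or.inl ⟨v, v, hu.tail huv, by omega, by omega, .refl, .refl⟩
      · rcases lt_or_ge (f v) x0 with h5 | h5
        · exact Or.inr (Or.inl h5)
        · have hs : Relation.ReflTransGen (fun u v => R u v ∧ (x0 ≤ f u ∧ f u ≤ x1) ∧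
              (x0 ≤ f v ∧ f v ≤ x1)) c v := e3.tail ⟨huv, ⟨e4, by omega⟩, h5, by omega⟩
          rcases lt_or_ge (f v) x1 with h6 | h6
          · exact Or.inr (Or.inr ⟨c, e1, e2, hs, h5, h6⟩)
          · exact Or.inl ⟨c, v, e1, e2, by omega, hs, .refl⟩
  rcases key b h with h1 | h1 | ⟨_, _, _, _, _, h1⟩
  · exact h1
  · omega
  · omega

/-! ### the events -/

/-- open tiles of a box -/
def BQ (X : TF) (x0 x1 y0 y1 : ℤ) (t : P2) : Prop := InB x0 x1 y0 y1 t ∧ X t = true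

/-- left-right crossing of a tile box on the sublattice `b` -/
def LX (b x0 x1 y0 y1 : ℤ) : Set TF :=
  {X | ∃ F G : P2, F.1 = x0 ∧ G.1 = x1 ∧ (F.1 + F.2 + b) % 2 = 0 ∧ y0 ≤ F.2 ∧ F.2 ≤ y1 ∧
    TP (BQ X x0 x1 y0 y1) F G}

/-- bottom-top crossing of a tile box on the sublattice `b` -/
def BX (b x0 x1 y0 y1 : ℤ) : Set TF :=
  {X | ∃ F G : P2, F.2 = y0 ∧ G.2 = y1 ∧ (F.1 + F.2 + b) % 2 = 0 ∧ x0 ≤ F.1 ∧ F.1 ≤ x1 ∧
    TP (BQ X x0 x1 y0 y1) F G}

/-- the tiles of a box -/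
def bxF (x0 x1 y0 y1 : ℤ) : Finset P2 := Finset.Ioc x0 x1 ×ˢ Finset.Ioc y0 y1

theorem mem_bxF {x0 x1 y0 y1 : ℤ} {t : P2} : t ∈ bxF x0 x1 y0 y1 ↔ InB x0 x1 y0 y1 t := by
  simp only [bxF, Finset.mem_product, Finset.mem_Ioc, InB]
  tauto

theorem card_bxF (x0 x1 y0 y1 : ℤ) :
    (bxF x0 x1 y0 y1).card = (x1 - x0).toNat * (y1 - y0).toNat := by
  simp [bxF]

theorem bq_congr {X X' : TF} {x0 x1 y0 y1 : ℤ} (h : ∀ t ∈ bxF x0 x1 y0 y1, X t = X' t) (t : P2)
    (ht : BQ X x0 x1 y0 y1 t) : BQ X' x0 x1 y0 y1 t :=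
  ⟨ht.1, by rw [← h t (mem_bxF.2 ht.1)]; exact ht.2⟩

theorem lx_dep (b x0 x1 y0 y1 : ℤ) : Dep (bxF x0 x1 y0 y1) (LX b x0 x1 y0 y1) := by
  intro X X' h
  constructor
  · rintro ⟨F, G, h1, h2, h3, h4, h5, h6⟩
    exact ⟨F, G, h1, h2, h3, h4, h5, h6.mono (bq_congr h)⟩
  · rintro ⟨F, G, h1, h2, h3, h4, h5, h6⟩
    exact ⟨F, G, h1, h2, h3, h4, h5, h6.mono (bq_congr fun t ht => (h t ht).symm)⟩

theorem bx_dep (b x0 x1 y0 y1 : ℤ) : Dep (bxF x0 x1 y0 y1) (BX b x0 x1 y0 y1) := by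
  intro X X' h
  constructor
  · rintro ⟨F, G, h1, h2, h3, h4, h5, h6⟩
    exact ⟨F, G, h1, h2, h3, h4, h5, h6.mono (bq_congr h)⟩
  · rintro ⟨F, G, h1, h2, h3, h4, h5, h6⟩
    exact ⟨F, G, h1, h2, h3, h4, h5, h6.mono (bq_congr fun t ht => (h t ht).symm)⟩

theorem lx_inc (b x0 x1 y0 y1 : ℤ) : Inc (LX b x0 x1 y0 y1) := by
  rintro X X' h ⟨F, G, h1, h2, h3, h4, h5, h6⟩
  exact ⟨F, G, h1, h2, h3, h4, h5, h6.mono fun t ht => ⟨ht.1, h t ht.2⟩⟩

theorem bx_inc (b x0 x1 y0 y1 : ℤ) : Inc (BX b x0 x1 y0 y1) := by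
  rintro X X' h ⟨F, G, h1, h2, h3, h4, h5, h6⟩
  exact ⟨F, G, h1, h2, h3, h4, h5, h6.mono fun t ht => ⟨ht.1, h t ht.2⟩⟩

theorem lx_meas (b x0 x1 y0 y1 : ℤ) : MeasurableSet (LX b x0 x1 y0 y1) :=
  (lx_dep b x0 x1 y0 y1).measurableSet

theorem bx_meas (b x0 x1 y0 y1 : ℤ) : MeasurableSet (BX b x0 x1 y0 y1) :=
  (bx_dep b x0 x1 y0 y1).measurableSet

theorem lx_par {b b' : ℤ} (h : (b - b') % 2 = 0) (x0 x1 y0 y1 : ℤ) :
    LX b x0 x1 y0 y1 = LX b' x0 x1 y0 y1 := by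
  ext X
  constructor <;> rintro ⟨F, G, h1, h2, h3, h4⟩ <;> exact ⟨F, G, h1, h2, by omega, h4⟩

theorem bx_par {b b' : ℤ} (h : (b - b') % 2 = 0) (x0 x1 y0 y1 : ℤ) :
    BX b x0 x1 y0 y1 = BX b' x0 x1 y0 y1 := by
  ext X
  constructor <;> rintro ⟨F, G, h1, h2, h3, h4⟩ <;> exact ⟨F, G, h1, h2, by omega, h4⟩

/-! ### symmetries -/

theorem dg_swap {u v : P2} (h : Dg u v) : Dg u.swap v.swap := ⟨h.2, h.1⟩

theorem tb_swap (u v : P2) : tb u.swap v.swap = (tb u v).swap := rfl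

theorem inB_swap {x0 x1 y0 y1 : ℤ} {t : P2} (h : InB x0 x1 y0 y1 t) :
    InB y0 y1 x0 x1 t.swap := ⟨h.2.2.1, h.2.2.2, h.1, h.2.1⟩

/-- transposition -/
theorem bx_iff {X : TF} {b x0 x1 y0 y1 : ℤ} :
    X ∈ BX b x0 x1 y0 y1 ↔ (fun t => X (Equiv.prodComm ℤ ℤ t)) ∈ LX b y0 y1 x0 x1 := by
  constructor
  · rintro ⟨F, G, h1, h2, h3, h4, h5, h6⟩
    refine ⟨F.swap, G.swap, h1, h2, by simp only [Prod.fst_swap, Prod.snd_swap]; omega, h4, h5, ?_⟩
    exact h6.map Prod.swap (fun _ _ h => dg_swap h) fun u v _ h => by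
      rw [tb_swap]
      exact ⟨inB_swap h.1, h.2⟩
  · rintro ⟨F, G, h1, h2, h3, h4, h5, h6⟩
    refine ⟨F.swap, G.swap, h1, h2, by simp only [Prod.fst_swap, Prod.snd_swap]; omega, h4, h5, ?_⟩
    exact h6.map Prod.swap (fun _ _ h => dg_swap h) fun u v _ h => by
      rw [tb_swap]
      exact ⟨inB_swap h.1, h.2⟩

theorem lx_iff {X : TF} {b x0 x1 y0 y1 : ℤ} :
    X ∈ LX b x0 x1 y0 y1 ↔ (fun t => X (Equiv.prodComm ℤ ℤ t)) ∈ BX b y0 y1 x0 x1 := by
  rw [bx_iff]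
  rfl

theorem bx_prob (p : I) (b x0 x1 y0 y1 : ℤ) :
    (tau p).real (BX b x0 x1 y0 y1) = (tau p).real (LX b y0 y1 x0 x1) := by
  rw [← tau_real_perm p (Equiv.prodComm ℤ ℤ) (lx_meas b y0 y1 x0 x1)]
  congr 1
  ext X
  exact bx_iff

theorem dg_add {u v : P2} (a : P2) (h : Dg u v) : Dg (u + a) (v + a) := by
  unfold Dg at *
  simp only [Prod.fst_add, Prod.snd_add]
  omega

theorem tb_add (u v a : P2) : tb (u + a) (v + a) = tb u v + a := by
  unfold tb
  ext <;> simp only [Prod.fst_add, Prod.snd_add] <;> omega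

/-- shifts -/
theorem lx_shift (a : P2) {X : TF} {b x0 x1 y0 y1 : ℤ} :
    (fun t => X (Equiv.addRight a t)) ∈ LX b x0 x1 y0 y1 ↔
      X ∈ LX (b - a.1 - a.2) (x0 + a.1) (x1 + a.1) (y0 + a.2) (y1 + a.2) := by
  constructor
  · rintro ⟨F, G, h1, h2, h3, h4, h5, h6⟩
    refine ⟨F + a, G + a, ?_, ?_, ?_, ?_, ?_, ?_⟩
    · simp only [Prod.fst_add]; omega
    · simp only [Prod.fst_add]; omega
    · simp only [Prod.fst_add, Prod.snd_add]; omega
    · simp only [Prod.snd_add]; omega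
    · simp only [Prod.snd_add]; omega
    · refine h6.map (fun u => u + a) (fun _ _ h => dg_add a h) fun u v _ h => ?_
      rw [tb_add]
      refine ⟨?_, h.2⟩
      have := h.1
      unfold InB at *
      simp only [Prod.fst_add, Prod.snd_add]
      omega
  · rintro ⟨F, G, h1, h2, h3, h4, h5, h6⟩
    refine ⟨F + -a, G + -a, ?_, ?_, ?_, ?_, ?_, ?_⟩
    · simp only [Prod.fst_add, Prod.fst_neg]; omega
    · simp only [Prod.fst_add, Prod.fst_neg]; omega
    · simp only [Prod.fst_add, Prod.snd_add, Prod.fst_neg, Prod.snd_neg]; omega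
    · simp only [Prod.snd_add, Prod.snd_neg]; omega
    · simp only [Prod.snd_add, Prod.snd_neg]; omega
    · refine h6.map (fun u => u + -a) (fun _ _ h => dg_add _ h) fun u v _ h => ?_
      rw [tb_add]
      refine ⟨?_, ?_⟩
      · have := h.1
        unfold InB at *
        simp only [Prod.fst_add, Prod.snd_add, Prod.fst_neg, Prod.snd_neg]
        omega
      · simp only [Equiv.coe_addRight, neg_add_cancel_right]
        exact h.2

theorem lx_prob_shift (p : I) (a : P2) (b x0 x1 y0 y1 : ℤ) :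
    (tau p).real (LX (b - a.1 - a.2) (x0 + a.1) (x1 + a.1) (y0 + a.2) (y1 + a.2)) =
      (tau p).real (LX b x0 x1 y0 y1) := by
  rw [← tau_real_perm p (Equiv.addRight a) (lx_meas b x0 x1 y0 y1)]
  congr 1
  ext X
  exact (lx_shift a).symm

/-! ### extraction and monotonicity -/

/-- a path from the left of `x0` to the right of `x1` whose tiles with `x0 < x ≤ x1` lie in the box
and are open contains a crossing -/
theorem lx_of_path {X : TF} {Q : P2 → Prop} {F G : P2} {b x0 x1 y0 y1 : ℤ} (h : TP Q F G)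
    (h01 : x0 < x1) (hF : F.1 ≤ x0) (hG : x1 ≤ G.1) (hb : (F.1 + F.2 + b) % 2 = 0)
    (hQ : ∀ t, Q t → x0 < t.1 → t.1 ≤ x1 → y0 < t.2 ∧ t.2 ≤ y1 ∧ X t = true) :
    X ∈ LX b x0 x1 y0 y1 := by
  obtain ⟨c, d, h1, h2, h3, h4, _⟩ := sub_cross (R := TS Q) (fun u : P2 => u.1)
    (fun u v huv => by have := huv.1; unfold Dg at this; omega) h h01.le hF hG
  have hp : TP (BQ X x0 x1 y0 y1) c d := by
    refine Relation.ReflTransGen.mono ?_ _ _ h4
    rintro u v ⟨huv, h5, h6⟩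
    refine ⟨huv.1, ?_⟩
    have h7 := huv.1
    unfold Dg at h7
    have h8 : x0 < (tb u v).1 ∧ (tb u v).1 ≤ x1 := by
      unfold tb; simp only; omega
    obtain ⟨h9, h10, h11⟩ := hQ _ huv.2 h8.1 h8.2
    exact ⟨⟨h8.1, h8.2, h9, h10⟩, h11⟩
  have hpar : (F.1 + F.2) % 2 = (c.1 + c.2) % 2 := TP.parity (Q := Q) h1
  have hc : y0 ≤ c.2 ∧ c.2 ≤ y1 := by
    rcases Relation.ReflTransGen.cases_head hp with h5 | ⟨v, h5, _⟩
    · rw [h5] at h2
      omega
    · have h6 := h5.2.1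
      have h7 := h5.1
      unfold InB tb at h6
      unfold Dg at h7
      simp only at h6
      omega
  exact ⟨c, d, h2, h3, by omega, hc.1, hc.2, hp⟩

/-- the same for bottom-top crossings -/
theorem bx_of_path {X : TF} {Q : P2 → Prop} {F G : P2} {b x0 x1 y0 y1 : ℤ} (h : TP Q F G)
    (h01 : y0 < y1) (hF : F.2 ≤ y0) (hG : y1 ≤ G.2) (hb : (F.1 + F.2 + b) % 2 = 0)
    (hQ : ∀ t, Q t → y0 < t.2 → t.2 ≤ y1 → x0 < t.1 ∧ t.1 ≤ x1 ∧ X t = true) :
    X ∈ BX b x0 x1 y0 y1 := by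
  rw [bx_iff]
  refine lx_of_path (Q := fun t => Q t.swap) (F := F.swap) (G := G.swap) ?_ h01 hF hG
    (by simp only [Prod.fst_swap, Prod.snd_swap]; omega) ?_
  · exact h.map Prod.swap (fun _ _ h => dg_swap h) fun u v _ h => by
      rw [tb_swap, Prod.swap_swap]
      exact h
  · intro t ht h1 h2
    obtain ⟨h3, h4, h5⟩ := hQ _ ht h1 h2
    exact ⟨h3, h4, h5⟩

/-- a crossing of a longer and thinner box crosses the box -/
theorem lx_mono {b x0 x1 y0 y1 x0' x1' y0' y1' : ℤ} (h01 : x0 < x1) (hx0 : x0' ≤ x0)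
    (hx1 : x1 ≤ x1') (hy0 : y0 ≤ y0') (hy1 : y1' ≤ y1) :
    LX b x0' x1' y0' y1' ⊆ LX b x0 x1 y0 y1 := by
  rintro X ⟨F, G, h1, h2, h3, h4, h5, h6⟩
  refine lx_of_path h6 h01 (by omega) (by omega) h3 ?_
  rintro t ⟨ht, hX⟩ _ _
  unfold InB at ht
  exact ⟨by omega, by omega, hX⟩

theorem bx_mono {b x0 x1 y0 y1 x0' x1' y0' y1' : ℤ} (h01 : y0 < y1) (hx0 : x0 ≤ x0')
    (hx1 : x1' ≤ x1) (hy0 : y0' ≤ y0) (hy1 : y1 ≤ y1') :
    BX b x0' x1' y0' y1' ⊆ BX b x0 x1 y0 y1 := by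
  rintro X ⟨F, G, h1, h2, h3, h4, h5, h6⟩
  refine bx_of_path h6 h01 (by omega) (by omega) h3 ?_
  rintro t ⟨ht, hX⟩ _ _
  unfold InB at ht
  exact ⟨by omega, by omega, hX⟩

/-! ### duality -/

/-- a left-right crossing on one sublattice and a bottom-top crossing by complementary tiles on the
other sublattice do not coexist -/
theorem never_both {X : TF} {b b' x0 x1 y0 y1 : ℤ} (hb : (b + b') % 2 = 1)
    (h1 : X ∈ LX b x0 x1 y0 y1) (h2 : (fun t => !X t) ∈ BX b' x0 x1 y0 y1) : False := by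
  obtain ⟨F, G, e1, e2, e3, e4, e5, e6⟩ := h1
  obtain ⟨P, R, f1, f2, f3, f4, f5, f6⟩ := h2
  refine mcross_ne e6 f6 ?_ ?_ ?_ ?_ ?_ ?_
  · rintro t ⟨ht, _⟩
    unfold InB at ht
    omega
  · rintro t ⟨ht, _⟩
    unfold InB at ht
    omega
  · omega
  · omega
  · omega
  · rintro t ⟨_, ht⟩ ⟨_, ht'⟩
    simp only [ht] at ht'
    exact Bool.noConfusion ht'

theorem one_of_even (X : TF) {x0 x1 y0 y1 : ℤ} (hx : x0 < x1) (hy : y0 < y1) :
    X ∈ LX 0 x0 x1 y0 y1 ∨ (fun t => !X t) ∈ BX 1 x0 x1 y0 y1 := by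
  classical
  -- the extended field
  set Y : P2 → Prop := fun t => if x0 < t.1 ∧ t.1 ≤ x1 then
    (y0 < t.2 ∧ t.2 ≤ y1 ∧ X t = true) else True with hY
  set N : ℤ := |x0| + |x1| + |y0| + |y1| + 5 with hN
  have a1 := abs_nonneg x0
  have a2 := abs_nonneg x1
  have a3 := abs_nonneg y0
  have a4 := abs_nonneg y1
  have b1 := le_abs_self x0
  have b2 := le_abs_self x1
  have b3 := le_abs_self y0
  have b4 := le_abs_self y1
  have c1 := neg_abs_le x0
  have c2 := neg_abs_le x1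
  have c3 := neg_abs_le y0
  have c4 := neg_abs_le y1
  rcases dual_rect (x0 - N) (x1 + N) (-N) N (by omega) (by omega) (fun e => Y (tE e)) with
    ⟨a, b, ha1, ha2, ha3, hb1, hab⟩ | ⟨f, g, hf1, hf2, hf3, hg1, hfg⟩
  · left
    -- the open path
    have hb2 : -N ≤ b.2 ∧ b.2 ≤ N := by
      rcases Relation.ReflTransGen.cases_tail hab with h | ⟨c, _, e, ⟨_, he⟩, h⟩
      · rw [h]; exact ⟨ha2, ha3⟩
      · obtain ⟨⟨i, j⟩, k⟩ := e
        unfold RE at he
        rcases h with ⟨_, h⟩ | ⟨_, h⟩ <;> cases k <;> simp at he h <;> subst h <;> simp <;> omega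
    have hp : TP (fun t => Y t) (prim a) (prim b) := by
      rw [tp_prim_iff]
      exact Relation.ReflTransGen.mono (fun u v ⟨e, he, h⟩ => ⟨e, he.1, h⟩) _ _ hab
    refine lx_of_path hp hx ?_ ?_ ?_ ?_
    · simp only [prim]; omega
    · simp only [prim]; omega
    · have := prim_par a; omega
    · intro t ht h1 h2
      simp only [hY, if_pos (show x0 < t.1 ∧ t.1 ≤ x1 from ⟨h1, h2⟩)] at ht
      exact ht
  · right
    have hg2 : x0 - N ≤ g.1 ∧ g.1 < x1 + N := by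
      rcases Relation.ReflTransGen.cases_tail hfg with h | ⟨c, _, e, ⟨_, he⟩, h⟩
      · rw [h]; exact ⟨hf2, hf3⟩
      · obtain ⟨⟨i, j⟩, k⟩ := e
        unfold RE at he
        rcases h with ⟨_, h⟩ | ⟨_, h⟩ <;> cases k <;> simp at he h <;> subst h <;> simp <;> omega
    have hp : TP (fun t => ¬ Y t) (dufc f) (dufc g) := by
      rw [tp_dufc_iff]
      exact Relation.ReflTransGen.mono (fun u v ⟨e, he, h⟩ => ⟨e, he.1, h⟩) _ _ hfg
    have hne : f ≠ g := by
      rintro rfl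
      omega
    -- closed tiles are in the columns `x0 < x ≤ x1`
    have hcol : ∀ t, ¬ Y t → x0 < t.1 ∧ t.1 ≤ x1 := by
      intro t ht
      by_contra hcon
      apply ht
      simp only [hY, if_neg hcon]
    have hF : (dufc f).2 ≤ y0 := by
      rcases Relation.ReflTransGen.cases_head hp with h | ⟨v, h, _⟩
      · exact absurd (dufc_inj h) hne
      · have h1 := hcol _ h.2
        have h2 := h.1
        unfold tb at h1
        unfold Dg at h2
        simp only [dufc] at *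
        omega
    have hG : y1 ≤ (dufc g).2 := by
      rcases Relation.ReflTransGen.cases_tail hp with h | ⟨v, _, h⟩
      · exact absurd (dufc_inj h).symm hne
      · have h1 := hcol _ h.2
        have h2 := h.1
        unfold tb at h1
        unfold Dg at h2
        simp only [dufc] at *
        omega
    refine bx_of_path hp hy hF hG ?_ ?_
    · have := dufc_par f; omega
    · intro t ht h1 h2
      have h3 := hcol t ht
      refine ⟨h3.1, h3.2, ?_⟩
      simp only [hY, if_pos h3] at ht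
      have : X t ≠ true := fun h => ht ⟨h1, h2, h⟩
      simp only [Bool.not_eq_true] at this
      simp [this]

/-- **duality for medial rectangles**: one of the two crossings exists -/
theorem one_of (X : TF) {b b' x0 x1 y0 y1 : ℤ} (hx : x0 < x1) (hy : y0 < y1)
    (hb : (b + b') % 2 = 1) :
    X ∈ LX b x0 x1 y0 y1 ∨ (fun t => !X t) ∈ BX b' x0 x1 y0 y1 := by
  rcases Int.emod_two_eq_zero_or_one b with h | h
  · rw [lx_par (b := b) (b' := 0) (by omega), bx_par (b := b') (b' := 1) (by omega)]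
    exact one_of_even X hx hy
  · have h1 := one_of_even (fun t => X (Equiv.addRight ((1, 0) : P2) t)) (x0 := x0 - 1)
      (x1 := x1 - 1) (y0 := y0) (y1 := y1) (by omega) hy
    rcases h1 with h1 | h1
    · left
      rw [lx_shift] at h1
      simp only [sub_zero, zero_sub, sub_add_cancel, add_zero] at h1
      rw [lx_par (b := b) (b' := -1) (by omega)]
      exact h1
    · right
      rw [bx_iff] at h1 ⊢
      have h2 := (lx_shift ((0, 1) : P2) (X := fun t => !X (Equiv.prodComm ℤ ℤ t)) (b := 1)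
        (x0 := y0) (x1 := y1) (y0 := x0 - 1) (y1 := x1 - 1)).1 (by
          convert h1 using 2
          rfl)
      simp only [sub_zero, sub_self, sub_add_cancel, add_zero] at h2
      rw [lx_par (b := b') (b' := 0) (by omega)]
      exact h2

theorem lx_add_bx (p : I) {b b' x0 x1 y0 y1 : ℤ} (hx : x0 < x1) (hy : y0 < y1)
    (hb : (b + b') % 2 = 1) :
    (tau p).real (LX b x0 x1 y0 y1) + (tau (σ p)).real (BX b' x0 x1 y0 y1) = 1 := by
  rw [← tau_real_not p (bx_meas b' x0 x1 y0 y1)]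
  have h : {X : TF | (fun t => !X t) ∈ BX b' x0 x1 y0 y1} = (LX b x0 x1 y0 y1)ᶜ := by
    ext X
    constructor
    · intro h1 h2
      exact never_both hb h2 h1
    · intro h1
      exact (one_of X hx hy hb).resolve_left h1
  rw [h, probReal_compl_eq_one_sub (lx_meas b x0 x1 y0 y1)]
  ring

theorem lx_add_bx_half {b b' x0 x1 y0 y1 : ℤ} (hx : x0 < x1) (hy : y0 < y1)
    (hb : (b + b') % 2 = 1) :
    (tau hf).real (LX b x0 x1 y0 y1) + (tau hf).real (BX b' x0 x1 y0 y1) = 1 := by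
  have h := lx_add_bx hf hx hy hb
  rwa [sigma_hf] at h

end Crest.Agent.R158.Mr679
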