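import Crest.Agent.R158.Fl4_440
import Crest.Agent.R158.Mr2_679

/-!
# Row 158, Block FW (helper440): the flat medial wall, 5: tile-field forms

Tiles at `(x,y)`, faces by their lower left corner (helper679).  Floor = the line below the tiles of the
row 1; the gap `g` is the face `(g,0)`.  A face of even (odd) parity is joined through tiles with value
`true` (`false`).
* `T : Edge ≃ P2`, `fP v = (mX v, mY v)`, `fD f = (mX f + 1, mY f)` : dictionary with `Fl1`-`Fl4`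
* `AT g n` : the gap `g` has an arm (own colour) to distance `n` in the half box
-/

set_option autoImplicit false
set_option linter.unusedSimpArgs false

noncomputable section

namespace Crest.Agent.R158.Fl440

open MeasureTheory ProbabilityTheory unitInterval
open Crest.Agent.R161.Geo729 Crest.Agent.R161.Topo374 Crest.Agent.R161.Dual374
open Crest.Agent.R161.Tas682 Crest.Agent.R158.Rs689 Crest.Agent.R158.Hp814
open Crest.Agent.R161.Ring421
open Crest.Agent.R158.Mr679 (TF Dg tb TS TP InB tau)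
open scoped ENNReal

/-- face of a primal vertex -/
def fP (v : P2) : P2 := (mX v, mY v)

/-- face of a dual vertex -/
def fD (v : P2) : P2 := (mX v + 1, mY v)

/-- tile of an edge -/
def T : Edge ≃ P2 where
  toFun e := (e.1.1 + e.1.2 + 1, e.1.2 - e.1.1 + if e.2 then 1 else 0)
  invFun t := if (t.1 + t.2) % 2 = 0 then ((t.1 - (t.1 + t.2) / 2, (t.1 + t.2) / 2 - 1), true)
    else ((t.1 - 1 - (t.1 + t.2 - 1) / 2, (t.1 + t.2 - 1) / 2), false)
  left_inv := by
    rintro ⟨⟨a, b⟩, c⟩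
    cases c
    · simp only [Bool.false_eq_true, if_false]
      rw [if_neg (by omega)]
      simp only [Prod.mk.injEq, and_true]
      omega
    · simp only [if_true]
      rw [if_pos (by omega)]
      simp only [Prod.mk.injEq, and_true]
      omega
  right_inv := by
    rintro ⟨x, y⟩
    simp only
    by_cases h : (x + y) % 2 = 0
    · rw [if_pos h]
      simp only [if_true, Prod.mk.injEq]
      omega
    · rw [if_neg h]
      simp only [Bool.false_eq_true, if_false, Prod.mk.injEq]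
      omega

@[simp] theorem T_h (v : P2) : T (v, false) = (v.1 + v.2 + 1, v.2 - v.1) := by simp [T]
@[simp] theorem T_v (v : P2) : T (v, true) = (v.1 + v.2 + 1, v.2 - v.1 + 1) := by simp [T]

theorem fP_inj {u v : P2} (h : fP u = fP v) : u = v := by
  simp only [fP, mX, mY, Prod.mk.injEq] at h
  ext <;> omega

theorem fD_inj {u v : P2} (h : fD u = fD v) : u = v := by
  simp only [fD, mX, mY, Prod.mk.injEq] at h
  ext <;> omega

theorem exists_fP {F : P2} (h : (F.1 + F.2) % 2 = 0) : ∃ v, fP v = F := by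
  refine ⟨(F.1 - (F.1 + F.2) / 2, (F.1 + F.2) / 2), ?_⟩
  ext <;> simp only [fP, mX, mY] <;> omega

theorem exists_fD {F : P2} (h : (F.1 + F.2) % 2 = 1) : ∃ v, fD v = F := by
  refine ⟨(F.1 - 1 - (F.1 + F.2 - 1) / 2, (F.1 + F.2 - 1) / 2), ?_⟩
  ext <;> simp only [fD, mX, mY] <;> omega

theorem dg_fP (e : Edge) : Dg (fP (src e)) (fP (tgt e)) := by
  obtain ⟨⟨a, b⟩, c⟩ := e
  cases c <;> simp [Dg, fP, mX, mY] <;> omega

theorem dg_fD (e : Edge) : Dg (fD (fA e)) (fD (fB e)) := by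
  obtain ⟨⟨a, b⟩, c⟩ := e
  cases c <;> simp [Dg, fD, mX, mY] <;> omega

theorem tb_fP (e : Edge) : tb (fP (src e)) (fP (tgt e)) = T e := by
  obtain ⟨⟨a, b⟩, c⟩ := e
  cases c <;> simp only [tb, fP, mX, mY, src_mk, tgt_h, tgt_v, T_h, T_v, Prod.mk.injEq] <;> omega

theorem tb_fD (e : Edge) : tb (fD (fA e)) (fD (fB e)) = T e := by
  obtain ⟨⟨a, b⟩, c⟩ := e
  cases c <;> simp only [tb, fD, mX, mY, fA_mk, fB_h, fB_v, T_h, T_v, Prod.mk.injEq] <;> omega

theorem ts_fP_iff {Q : P2 → Prop} {u v : P2} :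
    TS Q (fP u) (fP v) ↔ PStep (fun e => Q (T e)) u v := by
  constructor
  · rintro ⟨hd, hq⟩
    obtain ⟨a, b⟩ := u
    obtain ⟨c, d⟩ := v
    simp only [Dg, fP, mX, mY] at hd
    have key : (c = a + 1 ∧ d = b) ∨ (a = c + 1 ∧ d = b) ∨ (c = a ∧ d = b + 1) ∨
        (c = a ∧ b = d + 1) := by omega
    rcases key with ⟨h1, h2⟩ | ⟨h1, h2⟩ | ⟨h1, h2⟩ | ⟨h1, h2⟩
    · subst h1; subst h2
      have e := tb_fP ((a, d), false)
      simp only [src_mk, tgt_h] at e
      rw [e] at hq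
      exact ⟨((a, d), false), hq, Or.inl ⟨rfl, rfl⟩⟩
    · subst h1; subst h2
      have e := tb_fP ((c, d), false)
      simp only [src_mk, tgt_h] at e
      rw [Mr679.tb_comm, e] at hq
      exact ⟨((c, d), false), hq, Or.inr ⟨rfl, rfl⟩⟩
    · subst h1; subst h2
      have e := tb_fP ((c, b), true)
      simp only [src_mk, tgt_v] at e
      rw [e] at hq
      exact ⟨((c, b), true), hq, Or.inl ⟨rfl, rfl⟩⟩
    · subst h1; subst h2
      have e := tb_fP ((c, d), true)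
      simp only [src_mk, tgt_v] at e
      rw [Mr679.tb_comm, e] at hq
      exact ⟨((c, d), true), hq, Or.inr ⟨rfl, rfl⟩⟩
  · rintro ⟨e, he, ⟨rfl, rfl⟩ | ⟨rfl, rfl⟩⟩
    · exact ⟨dg_fP e, by rw [tb_fP]; exact he⟩
    · exact ⟨(dg_fP e).symm, by rw [Mr679.tb_comm, tb_fP]; exact he⟩

theorem ts_fD_iff {Q : P2 → Prop} {f g : P2} :
    TS Q (fD f) (fD g) ↔ DStep (fun e => Q (T e)) f g := by
  constructor
  · rintro ⟨hd, hq⟩
    obtain ⟨a, b⟩ := f
    obtain ⟨c, d⟩ := g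
    simp only [Dg, fD, mX, mY] at hd
    have key : (c = a + 1 ∧ d = b) ∨ (a = c + 1 ∧ d = b) ∨ (c = a ∧ d = b + 1) ∨
        (c = a ∧ b = d + 1) := by omega
    rcases key with ⟨h1, h2⟩ | ⟨h1, h2⟩ | ⟨h1, h2⟩ | ⟨h1, h2⟩
    · subst h1; subst h2
      have e := tb_fD ((a + 1, d), true)
      simp only [fA_mk, fB_v, add_sub_cancel_right] at e
      rw [Mr679.tb_comm, e] at hq
      exact ⟨((a + 1, d), true), hq, Or.inr ⟨by simp, rfl⟩⟩
    · subst h1; subst h2
      have e := tb_fD ((c + 1, d), true)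
      simp only [fA_mk, fB_v, add_sub_cancel_right] at e
      rw [e] at hq
      exact ⟨((c + 1, d), true), hq, Or.inl ⟨rfl, by simp⟩⟩
    · subst h1; subst h2
      have e := tb_fD ((c, b + 1), false)
      simp only [fA_mk, fB_h, add_sub_cancel_right] at e
      rw [Mr679.tb_comm, e] at hq
      exact ⟨((c, b + 1), false), hq, Or.inr ⟨by simp, rfl⟩⟩
    · subst h1; subst h2
      have e := tb_fD ((c, d + 1), false)
      simp only [fA_mk, fB_h, add_sub_cancel_right] at e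
      rw [e] at hq
      exact ⟨((c, d + 1), false), hq, Or.inl ⟨rfl, by simp⟩⟩
  · rintro ⟨e, he, ⟨rfl, rfl⟩ | ⟨rfl, rfl⟩⟩
    · exact ⟨dg_fD e, by rw [tb_fD]; exact he⟩
    · exact ⟨(dg_fD e).symm, by rw [Mr679.tb_comm, tb_fD]; exact he⟩

/-- bond configuration of a tile field -/
def zX (X : TF) : Cfz := fun e => X (T e)

theorem inB_faces {F G : P2} {x0 x1 y0 y1 : ℤ} (hd : Dg F G) :
    InB x0 x1 y0 y1 (tb F G) ↔ (x0 ≤ F.1 ∧ F.1 ≤ x1 ∧ y0 ≤ F.2 ∧ F.2 ≤ y1) ∧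
      (x0 ≤ G.1 ∧ G.1 ≤ x1 ∧ y0 ≤ G.2 ∧ G.2 ≤ y1) := by
  unfold Dg at hd
  simp only [InB, tb]
  omega

/-- vertices whose faces are in a box -/
def bxP (x0 x1 y0 y1 : ℤ) : Set P2 := {w | x0 ≤ mX w ∧ mX w ≤ x1 ∧ y0 ≤ mY w ∧ mY w ≤ y1}

/-- **dictionary, even faces** -/
theorem tp_fP_iff {X : TF} {x0 x1 y0 y1 : ℤ} {u v : P2} (hu : u ∈ bxP x0 x1 y0 y1) :
    TP (fun t => X t = true ∧ InB x0 x1 y0 y1 t) (fP u) (fP v) ↔ OC (zX X) (bxP x0 x1 y0 y1) u v := by
  constructor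
  · intro h
    have key : ∀ G, TP (fun t => X t = true ∧ InB x0 x1 y0 y1 t) (fP u) G → ∃ w, fP w = G ∧
        OC (zX X) (bxP x0 x1 y0 y1) u w := by
      intro G hG
      induction hG with
      | refl => exact ⟨u, rfl, OC.refl hu⟩
      | @tail a b _ h2 ih =>
        obtain ⟨w, rfl, hw⟩ := ih
        obtain ⟨w', rfl⟩ := exists_fP (F := b) (by
          rw [← h2.1.par]; simp only [fP, mX, mY]; omega)
        have h3 := (inB_faces h2.1).1 h2.2.2
        have h4 := ts_fP_iff.1 h2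
        refine ⟨w', rfl, hw.trans ⟨hw.right, Relation.ReflTransGen.single ⟨?_, h3.1, h3.2⟩⟩⟩
        exact pstep_mono (fun e he => he.1) h4
    obtain ⟨w, hw, h'⟩ := key _ h
    rw [← fP_inj hw]
    exact h'
  · rintro ⟨_, h⟩
    induction h with
    | refl => exact .refl
    | @tail a b _ h2 ih =>
      refine ih.tail ?_
      obtain ⟨⟨e, he, h3⟩, ha, hb⟩ := h2
      have h4 : TS (fun t => X t = true) (fP a) (fP b) := ts_fP_iff.2 ⟨e, he, h3⟩
      exact ⟨h4.1, h4.2, (inB_faces h4.1).2 ⟨ha, hb⟩⟩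

/-- **dictionary, odd faces** -/
theorem tp_fD_iff {X : TF} {x0 x1 y0 y1 : ℤ} {u v : P2} (hu : u ∈ bxP (x0 - 1) (x1 - 1) y0 y1) :
    TP (fun t => X t = false ∧ InB x0 x1 y0 y1 t) (fD u) (fD v) ↔
      OC (dual (zX X)) (bxP (x0 - 1) (x1 - 1) y0 y1) u v := by
  have hbx : ∀ w, w ∈ bxP (x0 - 1) (x1 - 1) y0 y1 ↔
      x0 ≤ (fD w).1 ∧ (fD w).1 ≤ x1 ∧ y0 ≤ (fD w).2 ∧ (fD w).2 ≤ y1 := by
    intro w
    simp only [bxP, fD, Set.mem_ofPred_eq]
    omega
  constructor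
  · intro h
    have key : ∀ G, TP (fun t => X t = false ∧ InB x0 x1 y0 y1 t) (fD u) G → ∃ w, fD w = G ∧
        OC (dual (zX X)) (bxP (x0 - 1) (x1 - 1) y0 y1) u w := by
      intro G hG
      induction hG with
      | refl => exact ⟨u, rfl, OC.refl hu⟩
      | @tail a b _ h2 ih =>
        obtain ⟨w, rfl, hw⟩ := ih
        obtain ⟨w', rfl⟩ := exists_fD (F := b) (by
          rw [← h2.1.par]; simp only [fD, mX, mY]; omega)
        have h3 := (inB_faces h2.1).1 h2.2.2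
        obtain ⟨e, he, h5⟩ := ts_fD_iff.1 h2
        refine ⟨w', rfl, hw.trans ⟨hw.right, Relation.ReflTransGen.single
          ⟨?_, (hbx _).2 h3.1, (hbx _).2 h3.2⟩⟩⟩
        rw [← dstep_dual]
        exact ⟨e, by simp [zX, he.1], h5⟩
    obtain ⟨w, hw, h'⟩ := key _ h
    rw [← fD_inj hw]
    exact h'
  · rintro ⟨_, h⟩
    induction h with
    | refl => exact .refl
    | @tail a b _ h2 ih =>
      refine ih.tail ?_
      obtain ⟨h1, ha, hb⟩ := h2
      rw [← dstep_dual] at h1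
      obtain ⟨e, he, h3⟩ := h1
      have h4 : TS (fun t => X t = false) (fD a) (fD b) :=
        ts_fD_iff.2 ⟨e, by simpa [zX] using he, h3⟩
      exact ⟨h4.1, h4.2, (inB_faces h4.1).2 ⟨(hbx _).1 ha, (hbx _).1 hb⟩⟩

/-! ### laws -/

theorem measurable_zX : Measurable zX := measurable_pi_lambda _ fun _ => measurable_pi_apply _

theorem map_zX (p : I) : (tau p).map zX = nu p := by
  have h := PB_map_equiv T.symm (fun _ : Edge => p)
  have e : (fun (x : TF) (e : Edge) => x (T.symm.symm e)) = zX := by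
    funext x e; simp [zX]
  rw [← e]
  simpa [tau, nu] using h

theorem tau_zX (p : I) {A : Set Cfz} (hA : MeasurableSet A) :
    (tau p).real (zX ⁻¹' A) = (nu p).real A := by
  rw [← map_zX p, measureReal_def, measureReal_def, Measure.map_apply measurable_zX hA]

/-! ### one arm -/

/-- own colour of the gap `g` -/
def oc (g : ℤ) : Bool := decide (g % 2 = 0)

/-- tiles of own colour of the half box of radius `n` over the gap `g` -/
def OT (X : TF) (g : ℤ) (n : ℤ) (t : P2) : Prop := X t = oc g ∧ InB (g - n) (g + n) 0 n t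

/-- faces at distance `≥ n` of the gap `g` -/
def farF (g : ℤ) (n : ℤ) : Set P2 := {G | G.1 ≤ g - n ∨ g + n ≤ G.1 ∨ n ≤ G.2}

/-- the gap `g` has an arm of its own colour to distance `n` in the half box -/
def AT (g : ℤ) (n : ℕ) : Set TF := {X | ∃ G ∈ farF g n, TP (OT X g n) (g, 0) G}

theorem oc_even (k : ℤ) : oc (2 * k) = true := by simp [oc]
theorem oc_odd (k : ℤ) : oc (2 * k + 1) = false := by simp [oc]

theorem HB_eq (k : ℤ) (n : ℕ) : (HB k n : Set P2) = bxP (2 * k - n) (2 * k + n) 0 n := by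
  ext v
  rw [Finset.mem_coe, mem_HB]
  rfl

theorem HB_eq' (k : ℤ) (n : ℕ) :
    (HB k n : Set P2) = bxP (2 * k + 1 - n - 1) (2 * k + 1 + n - 1) 0 n := by
  rw [HB_eq, show 2 * k + 1 - (n : ℤ) - 1 = 2 * k - n by ring,
    show 2 * k + 1 + (n : ℤ) - 1 = 2 * k + n by ring]

theorem ot_even {X : TF} {k n : ℤ} : OT X (2 * k) n =
    fun t => X t = true ∧ InB (2 * k - n) (2 * k + n) 0 n t := by
  funext t; simp only [OT, oc_even]

theorem ot_odd {X : TF} {k n : ℤ} : OT X (2 * k + 1) n =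
    fun t => X t = false ∧ InB (2 * k + 1 - n) (2 * k + 1 + n) 0 n t := by
  funext t; simp only [OT, oc_odd]

/-- **joins through even faces** -/
theorem tp_even {X : TF} {k : ℤ} {n : ℕ} {u v : P2} (hu : u ∈ HB k n) :
    TP (OT X (2 * k) n) (fP u) (fP v) ↔ OC (zX X) (HB k n) u v := by
  rw [ot_even, HB_eq]
  exact tp_fP_iff (by rw [← HB_eq]; exact hu)

/-- **joins through odd faces** -/
theorem tp_odd {X : TF} {k : ℤ} {n : ℕ} {u v : P2} (hu : u ∈ HB k n) :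
    TP (OT X (2 * k + 1) n) (fD u) (fD v) ↔ OC (dual (zX X)) (HB k n) u v := by
  rw [ot_odd, HB_eq']
  exact tp_fD_iff (by rw [← HB_eq']; exact hu)

theorem diag_HB {k x : ℤ} {n : ℕ} (h : 2 * |x - k| ≤ n) : ((x, x) : P2) ∈ HB k n := by
  rw [mem_HB]
  simp only [mX, mY]
  rcases abs_cases (x - k) with h1 | h1 <;> omega

theorem fP_diag (x : ℤ) : fP (x, x) = (2 * x, 0) := by simp [fP, mX, mY]; ring
theorem fD_diag (x : ℤ) : fD (x, x) = (2 * x + 1, 0) := by simp [fD, mX, mY]; ring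

theorem AT_even (k : ℤ) (n : ℕ) : AT (2 * k) n = zX ⁻¹' PA k n := by
  ext X
  have hk : ((k, k) : P2) ∈ HB k n := diag_HB (by simp)
  simp only [AT, Set.mem_preimage, mem_PA, Set.mem_ofPred_eq]
  constructor
  · rintro ⟨G, hG, h⟩
    obtain ⟨v, rfl⟩ := exists_fP (F := G) (by rw [← h.parity]; simp)
    rw [← fP_diag, tp_even hk] at h
    exact ⟨v, hG, h⟩
  · rintro ⟨v, hv, h⟩
    rw [← tp_even hk, fP_diag] at h
    exact ⟨fP v, hv, h⟩

theorem AT_odd (k : ℤ) (n : ℕ) : AT (2 * k + 1) n = zX ⁻¹' (dual ⁻¹' PA k n) := by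
  ext X
  have hk : ((k, k) : P2) ∈ HB k n := diag_HB (by simp)
  simp only [AT, Set.mem_preimage, mem_PA, Set.mem_ofPred_eq]
  constructor
  · rintro ⟨G, hG, h⟩
    obtain ⟨v, rfl⟩ := exists_fD (F := G) (by rw [← h.parity]; simp)
    rw [← fD_diag, tp_odd hk] at h
    refine ⟨v, ?_, h⟩
    simp only [farF, fD, Set.mem_ofPred_eq] at hG
    rw [mem_Far]
    omega
  · rintro ⟨v, hv, h⟩
    rw [← tp_odd hk, fD_diag] at h
    refine ⟨fD v, ?_, h⟩
    simp only [farF, fD, Set.mem_ofPred_eq]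
    rw [mem_Far] at hv
    omega

/-- one-arm probability at the flat medial wall -/
def aw (n : ℕ) : ℝ := (nu hf).real (PA 0 n)

theorem dual_real {A : Set Cfz} (hA : MeasurableSet A) : (nu hf).real (dual ⁻¹' A) = (nu hf).real A := by
  rw [nu_dual hf hA, sigma_hf]

/-- **the one-arm probability does not depend on the gap or on its parity** -/
theorem tau_AT (g : ℤ) (n : ℕ) : (tau hf).real (AT g n) = aw n := by
  rcases Int.even_or_odd' g with ⟨k, rfl | rfl⟩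
  · rw [AT_even, tau_zX hf (PA_dep k n).measurableSet, PA_prob]; rfl
  · rw [AT_odd, tau_zX hf (PA_dep k n).dual.measurableSet, dual_real (PA_dep k n).measurableSet,
      PA_prob]; rfl

theorem OT_congr {X X' : TF} {g n : ℤ} (h : ∀ t ∈ Mr679.bxF (g - n) (g + n) 0 n, X t = X' t) (t : P2)
    (ht : OT X g n t) : OT X' g n t :=
  ⟨by rw [← h t (Mr679.mem_bxF.2 ht.2)]; exact ht.1, ht.2⟩

theorem AT_dep (g : ℤ) (n : ℕ) : Dep (Mr679.bxF (g - n) (g + n) 0 n) (AT g n) := by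
  intro X X' h
  constructor
  · rintro ⟨G, hG, h1⟩
    exact ⟨G, hG, h1.mono (OT_congr h)⟩
  · rintro ⟨G, hG, h1⟩
    exact ⟨G, hG, h1.mono (OT_congr fun t ht => (h t ht).symm)⟩

theorem aw_nonneg (n : ℕ) : 0 ≤ aw n := measureReal_nonneg

theorem aw_le_one (n : ℕ) : aw n ≤ 1 := measureReal_le_one

theorem aw_anti {m n : ℕ} (h : m ≤ n) : aw n ≤ aw m :=
  measureReal_mono (pa_anti h) (measure_ne_top _ _)

theorem aw_lower : ∃ c : ℝ, 0 < c ∧ ∀ n : ℕ, 1 ≤ n → c * (n : ℝ) ^ (-(1 / 2 : ℝ)) ≤ aw n := by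
  obtain ⟨c, hc, h⟩ := pa_lower
  exact ⟨c, hc, fun n hn => h 0 n hn⟩

theorem aw_upper : ∃ C a : ℝ, 0 < C ∧ 0 < a ∧ ∀ n : ℕ, 1 ≤ n → aw n ≤ C * (1 / (n : ℝ)) ^ a := by
  obtain ⟨C, a, hC, ha, h⟩ := PA_upper
  exact ⟨C, a, hC, ha, fun n hn => h 0 n hn⟩

theorem aw_ext (κ : ℕ) (hκ : 1 ≤ κ) : ∃ c : ℝ, 0 < c ∧ ∀ n : ℕ, 1 ≤ n → c * aw n ≤ aw (κ * n) := by
  obtain ⟨c, hc, h⟩ := pa_ext κ hκ
  exact ⟨c, hc, fun n hn => h 0 n hn⟩

theorem aw_pos (n : ℕ) : 0 < aw n := by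
  obtain ⟨c, hc, h⟩ := aw_lower
  have h1 := h (n + 1) (by omega)
  have h2 := aw_anti (show n ≤ n + 1 by omega)
  have h3 : (0 : ℝ) < c * ((n + 1 : ℕ) : ℝ) ^ (-(1 / 2 : ℝ)) := by positivity
  linarith

/-! ### two arms -/

/-- **two neighbouring gaps** -/
theorem two_tile : ∃ C : ℝ, 0 < C ∧ ∀ (g : ℤ) (n : ℕ), 1 ≤ n →
    (tau hf).real (AT g n ∩ AT (g + 1) n) ≤ C / n := by
  obtain ⟨C, hC, h⟩ := two_arm
  refine ⟨C, hC, fun g n hn => ?_⟩
  rcases Int.even_or_odd' g with ⟨k, rfl | rfl⟩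
  · rw [AT_even, AT_odd, ← Set.preimage_inter, ← TwoR, tau_zX hf (TwoR_dep k n).measurableSet]
    exact (h k n hn).1
  · rw [AT_odd, show 2 * k + 1 + 1 = 2 * (k + 1) by ring, AT_even, ← Set.preimage_inter,
      Set.inter_comm]
    have h1 := (h (k + 1) n hn).2
    have h2 := (TwoL_dep (k + 1) n).measurableSet
    unfold TwoL at h1 h2
    rw [show k + 1 - 1 = k by ring] at h1 h2
    rw [tau_zX hf h2]
    exact h1

theorem two_tile_lower : ∃ c : ℝ, 0 < c ∧ ∀ (g : ℤ) (n : ℕ), 1 ≤ n →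
    c / n ≤ (tau hf).real (AT g n ∩ AT (g + 1) n) := by
  obtain ⟨C, hC, h⟩ := two_lower
  refine ⟨C, hC, fun g n hn => ?_⟩
  rcases Int.even_or_odd' g with ⟨k, rfl | rfl⟩
  · rw [AT_even, AT_odd, ← Set.preimage_inter, ← TwoR, tau_zX hf (TwoR_dep k n).measurableSet]
    exact (h k n hn).2
  · rw [AT_odd, show 2 * k + 1 + 1 = 2 * (k + 1) by ring, AT_even, ← Set.preimage_inter,
      Set.inter_comm]
    have h1 := (h (k + 1) n hn).1
    have h2 := (TwoL_dep (k + 1) n).measurableSet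
    unfold TwoL at h1 h2
    rw [show k + 1 - 1 = k by ring] at h1 h2
    rw [tau_zX hf h2]
    exact h1

/-! ### joins -/

/-- the gaps `g + 2 i`, `i ∈ l`, are joined through the tiles of own colour of the half box of radius `N`
over `g` -/
def JT (l : Finset ℤ) (g : ℤ) (N : ℕ) : Set TF :=
  {X | ∀ i ∈ l, ∀ j ∈ l, TP (OT X g N) (g + 2 * i, 0) (g + 2 * j, 0)}

theorem JT_dep (l : Finset ℤ) (g : ℤ) (N : ℕ) : Dep (Mr679.bxF (g - N) (g + N) 0 N) (JT l g N) := by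
  intro X X' h
  constructor
  · intro h1 i hi j hj
    exact (h1 i hi j hj).mono (OT_congr h)
  · intro h1 i hi j hj
    exact (h1 i hi j hj).mono (OT_congr fun t ht => (h t ht).symm)

theorem JT_even {l : Finset ℤ} {k : ℤ} {N : ℕ} (hl : ∀ i ∈ l, 2 * |i| ≤ N) :
    JT l (2 * k) N = zX ⁻¹' Jn (l.image fun i => k + i) k N := by
  ext X
  simp only [JT, Jn, Set.mem_preimage, Set.mem_ofPred_eq, Finset.forall_mem_image]
  refine forall₂_congr fun i hi => forall₂_congr fun j hj => ?_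
  rw [show 2 * k + 2 * i = 2 * (k + i) by ring, show 2 * k + 2 * j = 2 * (k + j) by ring,
    ← fP_diag, ← fP_diag, tp_even (diag_HB (by simpa using hl i hi))]

theorem JT_odd {l : Finset ℤ} {k : ℤ} {N : ℕ} (hl : ∀ i ∈ l, 2 * |i| ≤ N) :
    JT l (2 * k + 1) N = zX ⁻¹' (dual ⁻¹' Jn (l.image fun i => k + i) k N) := by
  ext X
  simp only [JT, Jn, Set.mem_preimage, Set.mem_ofPred_eq, Finset.forall_mem_image]
  refine forall₂_congr fun i hi => forall₂_congr fun j hj => ?_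
  rw [show 2 * k + 1 + 2 * i = 2 * (k + i) + 1 by ring,
    show 2 * k + 1 + 2 * j = 2 * (k + j) + 1 by ring,
    ← fD_diag, ← fD_diag, tp_odd (diag_HB (by simpa using hl i hi))]

/-- **Joining lemma, tile form** -/
theorem join_tile : ∃ c0 : ℝ, 0 < c0 ∧ ∀ (l : Finset ℤ) (g : ℤ) (a n N : ℕ), 1 ≤ a →
    (∀ i ∈ l, 2 * |i| < a) → 5 * a + 1 ≤ n → n + a ≤ N →
    c0 * aw n ^ l.card ≤ (tau hf).real (JT l g N) := by
  obtain ⟨c0, hc0, h⟩ := join_ge
  refine ⟨c0, hc0, fun l g a n N ha hl hn hN => ?_⟩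
  have hl' : ∀ i ∈ l, 2 * |i| ≤ (N : ℤ) := fun i hi => by
    have := hl i hi
    omega
  have key : ∀ k : ℤ, c0 * aw n ^ l.card ≤ (nu hf).real (Jn (l.image fun i => k + i) k N) := by
    intro k
    have h1 := h (l.image fun i => k + i) k a n N ha (by
      intro x hx
      obtain ⟨i, hi, rfl⟩ := Finset.mem_image.1 hx
      simpa using hl i hi) hn hN
    rw [Finset.card_image_of_injective _ (add_right_injective k)] at h1
    exact h1
  rcases Int.even_or_odd' g with ⟨k, rfl | rfl⟩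
  · rw [JT_even hl', tau_zX hf (Jn_dep _ _ _).measurableSet]
    exact key k
  · rw [JT_odd hl', tau_zX hf (Jn_dep _ _ _).dual.measurableSet, dual_real (Jn_dep _ _ _).measurableSet]
    exact key k

/-- **Three gaps** `g - 2 n`, `g`, `g + 2 n` joined through own colour in the half box of radius `20 n` -/
theorem join3_tile : ∃ c : ℝ, 0 < c ∧ ∀ (g : ℤ) (n : ℕ), 1 ≤ n →
    c * aw n ^ 3 ≤ (tau hf).real {X | TP (OT X g (20 * n)) (g - 2 * n, 0) (g, 0) ∧
      TP (OT X g (20 * n)) (g, 0) (g + 2 * n, 0)} := by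
  obtain ⟨c0, hc0, h⟩ := join_tile
  obtain ⟨c1, hc1, h1⟩ := aw_ext 16 (by norm_num)
  refine ⟨c0 * c1 ^ 3, by positivity, fun g n hn => ?_⟩
  have hn0 : (0 : ℤ) < n := by exact_mod_cast hn
  set l : Finset ℤ := {-(n : ℤ), 0, (n : ℤ)} with hl
  have hcard : l.card = 3 := by
    rw [hl, Finset.card_insert_of_notMem, Finset.card_insert_of_notMem, Finset.card_singleton]
    · simp; omega
    · simp; omega
  have h2 := h l g (2 * n + 1) (16 * n) (20 * n) (by omega) (by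
    intro i hi
    simp only [hl, Finset.mem_insert, Finset.mem_singleton] at hi
    rcases hi with rfl | rfl | rfl <;> push_cast
    · rw [abs_neg, abs_of_pos hn0]; omega
    · rw [abs_zero]; omega
    · rw [abs_of_pos hn0]; omega) (by omega) (by omega)
  rw [hcard] at h2
  have h3 := h1 n hn
  have h4 := aw_nonneg n
  refine le_trans ?_ (h2.trans (measureReal_mono ?_ (measure_ne_top _ _)))
  · calc c0 * c1 ^ 3 * aw n ^ 3 = c0 * (c1 * aw n) ^ 3 := by ring
      _ ≤ c0 * aw (16 * n) ^ 3 := by gcongr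
  · intro X hX
    have e1 := hX (-(n : ℤ)) (by simp [hl]) 0 (by simp [hl])
    have e2 := hX 0 (by simp [hl]) n (by simp [hl])
    push_cast at e1 e2
    rw [show g + 2 * -(n : ℤ) = g - 2 * n by ring, add_zero] at e1
    rw [add_zero] at e2
    exact ⟨e1, e2⟩

/-! ### half annuli -/

/-- crossing of the half annulus over the gap `g` (own colour, own sublattice) -/
def PXT (g : ℤ) (s n : ℕ) : Set TF :=
  {X | ∃ F G : P2, (g - s ≤ F.1 ∧ F.1 ≤ g + s ∧ 0 ≤ F.2 ∧ F.2 ≤ s) ∧ (F.1 + F.2) % 2 = g % 2 ∧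
    G ∈ farF g n ∧ TP (OT X g n) F G}

theorem PXT_dep (g : ℤ) (s n : ℕ) : Dep (Mr679.bxF (g - n) (g + n) 0 n) (PXT g s n) := by
  intro X X' h
  constructor
  · rintro ⟨F, G, h1, h2, h3, h4⟩
    exact ⟨F, G, h1, h2, h3, h4.mono (OT_congr h)⟩
  · rintro ⟨F, G, h1, h2, h3, h4⟩
    exact ⟨F, G, h1, h2, h3, h4.mono (OT_congr fun t ht => (h t ht).symm)⟩

theorem PXT_even {k : ℤ} {s n : ℕ} (hs : s ≤ n) : PXT (2 * k) s n = zX ⁻¹' PX k s n := by
  ext X
  simp only [PXT, Set.mem_preimage, mem_PX, Set.mem_ofPred_eq]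
  constructor
  · rintro ⟨F, G, h1, h2, h3, h4⟩
    obtain ⟨u, rfl⟩ := exists_fP (F := F) (by omega)
    obtain ⟨v, rfl⟩ := exists_fP (F := G) (by rw [← h4.parity]; omega)
    simp only [fP] at h1
    have hu : u ∈ HB k n := by rw [mem_HB]; omega
    exact ⟨u, hd_le.2 (by omega), v, h3, (tp_even hu).1 h4⟩
  · rintro ⟨u, hu, v, hv, h⟩
    have hu1 := hd_le.1 hu
    have hu2 := mem_HB.1 (Finset.mem_coe.1 h.left)
    refine ⟨fP u, fP v, ?_, ?_, hv, (tp_even h.left).2 h⟩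
    · simp only [fP]; omega
    · simp only [fP, mX, mY]; omega

theorem PXT_odd {k : ℤ} {s n : ℕ} (hs : s ≤ n) :
    PXT (2 * k + 1) s n = zX ⁻¹' (dual ⁻¹' PX k s n) := by
  ext X
  simp only [PXT, Set.mem_preimage, mem_PX, Set.mem_ofPred_eq]
  constructor
  · rintro ⟨F, G, h1, h2, h3, h4⟩
    obtain ⟨u, rfl⟩ := exists_fD (F := F) (by omega)
    obtain ⟨v, rfl⟩ := exists_fD (F := G) (by rw [← h4.parity]; omega)
    simp only [fD] at h1
    have hu : u ∈ HB k n := by rw [mem_HB]; omega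
    refine ⟨u, hd_le.2 (by omega), v, ?_, (tp_odd hu).1 h4⟩
    simp only [farF, fD, Set.mem_ofPred_eq] at h3
    rw [mem_Far]
    omega
  · rintro ⟨u, hu, v, hv, h⟩
    have hu1 := hd_le.1 hu
    have hu2 := mem_HB.1 (Finset.mem_coe.1 h.left)
    refine ⟨fD u, fD v, ?_, ?_, ?_, (tp_odd h.left).2 h⟩
    · simp only [fD]; omega
    · simp only [fD, mX, mY]; omega
    · simp only [farF, fD, Set.mem_ofPred_eq]
      rw [mem_Far] at hv
      omega

/-- half annulus crossing probability -/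
def xw (s n : ℕ) : ℝ := (nu hf).real (PX 0 s n)

theorem tau_PXT (g : ℤ) {s n : ℕ} (hs : s ≤ n) : (tau hf).real (PXT g s n) = xw s n := by
  rcases Int.even_or_odd' g with ⟨k, rfl | rfl⟩
  · rw [PXT_even hs, tau_zX hf (PX_dep k s n).measurableSet, PX_prob]; rfl
  · rw [PXT_odd hs, tau_zX hf (PX_dep k s n).dual.measurableSet,
      dual_real (PX_dep k s n).measurableSet, PX_prob]; rfl

theorem xw_upper : ∃ C a : ℝ, 0 < C ∧ 0 < a ∧ ∀ s n : ℕ, 1 ≤ s → s ≤ n →
    xw s n ≤ C * ((s : ℝ) / n) ^ a := by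
  obtain ⟨C, a, hC, ha, h⟩ := PX_upper
  exact ⟨C, a, hC, ha, fun s n hs hn => h 0 s n hs hn⟩

theorem xw_lower : ∃ c : ℝ, 0 < c ∧ ∀ s n : ℕ, 1 ≤ s → s ≤ n →
    c * ((s : ℝ) / n) ^ (1 / 2 : ℝ) ≤ xw s n := by
  obtain ⟨c, hc, h⟩ := PX_lower
  exact ⟨c, hc, fun s n hs hn => h 0 s n hs hn⟩

/-- tiles of own colour of the half annulus `(a, 4a)` over the gap `g` -/
def HT (X : TF) (g : ℤ) (a : ℤ) (t : P2) : Prop :=
  X t = oc g ∧ InB (g - 4 * a) (g + 4 * a) 0 (4 * a) t ∧ ¬ InB (g - a + 1) (g + a - 1) 0 (a - 1) t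

/-- wall-to-wall half circuit of own colour around the gap `g` -/
def HCT (g : ℤ) (a : ℕ) : Set TF :=
  {X | ∃ i j : ℤ, i ≤ g - 2 * a ∧ g + 2 * a ≤ j ∧ i % 2 = g % 2 ∧ TP (HT X g a) (i, 0) (j, 0)}

theorem HT_congr {X X' : TF} {g : ℤ} {a : ℤ}
    (h : ∀ t ∈ Mr679.bxF (g - 4 * a) (g + 4 * a) 0 (4 * a), X t = X' t) (t : P2)
    (ht : HT X g a t) : HT X' g a t :=
  ⟨by rw [← h t (Mr679.mem_bxF.2 ht.2.1)]; exact ht.1, ht.2⟩

theorem HCT_dep (g : ℤ) (a : ℕ) :
    Dep (Mr679.bxF (g - 4 * a) (g + 4 * a) 0 (4 * a)) (HCT g a) := by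
  intro X X' h
  constructor
  · rintro ⟨i, j, h1, h2, h3, h4⟩
    exact ⟨i, j, h1, h2, h3, h4.mono (HT_congr h)⟩
  · rintro ⟨i, j, h1, h2, h3, h4⟩
    exact ⟨i, j, h1, h2, h3, h4.mono (HT_congr fun t ht => (h t ht).symm)⟩

theorem ht_even {X : TF} {k : ℤ} {a : ℕ} {u v : P2} (h : OC (zX X) (HS k a) u v) :
    TP (HT X (2 * k) a) (fP u) (fP v) := by
  obtain ⟨_, h⟩ := h
  induction h with
  | refl => exact .refl
  | @tail b c _ h2 ih =>
    refine ih.tail ?_
    obtain ⟨⟨e, he, h3⟩, hb, hc⟩ := h2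
    have h4 : TS (fun t => X t = true) (fP b) (fP c) := ts_fP_iff.2 ⟨e, he, h3⟩
    rw [Finset.mem_coe, mem_HS] at hb hc
    have hb1 := hd_le.1 hb.2.2
    have hc1 := hd_le.1 hc.2.2
    refine ⟨h4.1, ?_, ?_, ?_⟩
    · rw [oc_even]; exact h4.2
    · rw [inB_faces h4.1]
      simp only [fP]
      omega
    · rw [inB_faces h4.1]
      simp only [fP]
      intro h5
      have : hd k b ≤ (a : ℤ) - 1 := hd_le.2 (by omega)
      omega

theorem ht_odd {X : TF} {k : ℤ} {a : ℕ} {u v : P2} (h : OC (dual (zX X)) (HS k a) u v) :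
    TP (HT X (2 * k + 1) a) (fD u) (fD v) := by
  obtain ⟨_, h⟩ := h
  induction h with
  | refl => exact .refl
  | @tail b c _ h2 ih =>
    refine ih.tail ?_
    obtain ⟨h1, hb, hc⟩ := h2
    rw [← dstep_dual] at h1
    obtain ⟨e, he, h3⟩ := h1
    have h4 : TS (fun t => X t = false) (fD b) (fD c) :=
      ts_fD_iff.2 ⟨e, by simpa [zX] using he, h3⟩
    rw [Finset.mem_coe, mem_HS] at hb hc
    have hb1 := hd_le.1 hb.2.2
    have hc1 := hd_le.1 hc.2.2
    refine ⟨h4.1, ?_, ?_, ?_⟩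
    · rw [oc_odd]; exact h4.2
    · rw [inB_faces h4.1]
      simp only [fD]
      omega
    · rw [inB_faces h4.1]
      simp only [fD]
      intro h5
      have : hd k b ≤ (a : ℤ) - 1 := hd_le.2 (by omega)
      omega

/-- **RSW for half circuits, tile form** -/
theorem HCT_prob : ∃ c : ℝ, 0 < c ∧ ∀ (g : ℤ) (a : ℕ), 1 ≤ a → c ≤ (tau hf).real (HCT g a) := by
  obtain ⟨c, hc, h⟩ := HC_prob
  refine ⟨c, hc, fun g a ha => ?_⟩
  rcases Int.even_or_odd' g with ⟨k, rfl | rfl⟩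
  · refine (h k a ha).trans ?_
    rw [← tau_zX hf (HC_dep k a).measurableSet]
    refine measureReal_mono ?_ (measure_ne_top _ _)
    intro X hX
    obtain ⟨i, j, hi, hj, h1⟩ := mem_HC hX
    have h2 := ht_even h1
    rw [fP_diag, fP_diag] at h2
    exact ⟨2 * i, 2 * j, by omega, by omega, by omega, h2⟩
  · refine (h k a ha).trans ?_
    rw [← dual_real (HC_dep k a).measurableSet, ← tau_zX hf (HC_dep k a).dual.measurableSet]
    refine measureReal_mono ?_ (measure_ne_top _ _)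
    intro X hX
    obtain ⟨i, j, hi, hj, h1⟩ := mem_HC hX
    have h2 := ht_odd h1
    rw [fD_diag, fD_diag] at h2
    exact ⟨2 * i + 1, 2 * j + 1, by omega, by omega, by omega, h2⟩

end Crest.Agent.R158.Fl440
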