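import Crest.Agent.R158.Rs6_689

/-!
# Row 158, Block MR (helper679): tile fields in medial coordinates

* faces `(i,j)` = the square `[i,i+1] × [j,j+1]`; tile `(x,y)` has the faces `(x-1,y-1)` (SW),
  `(x,y-1)` (SE), `(x,y)` (NE), `(x-1,y)` (NW)
* `Dg F G` : diagonal neighbours; `tb F G` : the tile between them
* `TP Q F G` : `F` and `G` are joined by diagonal steps through tiles satisfying `Q`
* `mcross` : a left-right and a bottom-top path share a face or a tile
* dictionary with bond percolation on `ℤ²` (689's `Edge`, `PStep`, `DStep`):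
  `tE`, `prim`, `dufc`
* `tau p` : iid law of tile fields, invariance under permutations of the tiles
-/

set_option autoImplicit false

noncomputable section

namespace Crest.Agent.R158.Mr679

open MeasureTheory ProbabilityTheory unitInterval
open Crest.Agent.R161.Geo729 Crest.Agent.R161.Topo374 Crest.Agent.R161.Dual374
open Crest.Agent.R158.Rs689

/-- tile fields -/
abbrev TF : Type := P2 → Bool

/-- diagonal neighbours -/
def Dg (F G : P2) : Prop :=
  (G.1 = F.1 + 1 ∨ F.1 = G.1 + 1) ∧ (G.2 = F.2 + 1 ∨ F.2 = G.2 + 1)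

theorem Dg.symm {F G : P2} (h : Dg F G) : Dg G F := ⟨h.1.symm, h.2.symm⟩

/-- the tile between two diagonal neighbours -/
def tb (F G : P2) : P2 := (max F.1 G.1, max F.2 G.2)

theorem tb_comm (F G : P2) : tb F G = tb G F := by
  unfold tb; rw [max_comm F.1, max_comm F.2]

/-- one step through a tile satisfying `Q` -/
def TS (Q : P2 → Prop) (F G : P2) : Prop := Dg F G ∧ Q (tb F G)

theorem TS.symm {Q : P2 → Prop} {F G : P2} (h : TS Q F G) : TS Q G F :=
  ⟨h.1.symm, by rw [tb_comm]; exact h.2⟩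

theorem TS.mono {Q Q' : P2 → Prop} (hQ : ∀ t, Q t → Q' t) {F G : P2} (h : TS Q F G) :
    TS Q' F G := ⟨h.1, hQ _ h.2⟩

/-- paths through tiles satisfying `Q` -/
def TP (Q : P2 → Prop) (F G : P2) : Prop := Relation.ReflTransGen (TS Q) F G

namespace TP

variable {Q Q' : P2 → Prop} {F G H : P2}

theorem refl : TP Q F F := Relation.ReflTransGen.refl

theorem trans (h : TP Q F G) (h' : TP Q G H) : TP Q F H := Relation.ReflTransGen.trans h h'

theorem mono (hQ : ∀ t, Q t → Q' t) (h : TP Q F G) : TP Q' F G :=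
  Relation.ReflTransGen.mono (fun _ _ h => h.mono hQ) _ _ h

theorem symm (h : TP Q F G) : TP Q G F := by
  induction h with
  | refl => exact refl
  | tail _ h2 ih => exact Relation.ReflTransGen.head h2.symm ih

theorem single (h : TS Q F G) : TP Q F G := Relation.ReflTransGen.single h

/-- the parity of a face does not change along a path -/
theorem parity (h : TP Q F G) : (F.1 + F.2) % 2 = (G.1 + G.2) % 2 := by
  induction h with
  | refl => rfl
  | tail _ h2 ih =>
    rw [ih]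
    have := h2.1
    unfold Dg at this
    omega

end TP

/-! ### the crossing lemma -/

/-- points of the doubled lattice on a path, horizontal version -/
def dH (R : P2 → P2 → Prop) (a : P2) : Set P2 :=
  {w | (∃ u, Relation.ReflTransGen R a u ∧ w = (2 * u.1, 2 * u.2)) ∨
    (∃ u v, Relation.ReflTransGen R a u ∧ R u v ∧
      (w = (u.1 + v.1, 2 * u.2) ∨ w = (u.1 + v.1, u.2 + v.2) ∨ w = (u.1 + v.1, 2 * v.2)))}

/-- points of the doubled lattice on a path, vertical version -/
def dV (R : P2 → P2 → Prop) (a : P2) : Set P2 :=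
  {w | (∃ u, Relation.ReflTransGen R a u ∧ w = (2 * u.1, 2 * u.2)) ∨
    (∃ u v, Relation.ReflTransGen R a u ∧ R u v ∧
      (w = (2 * u.1, u.2 + v.2) ∨ w = (u.1 + v.1, u.2 + v.2) ∨ w = (2 * v.1, u.2 + v.2)))}

theorem walk_dH {R : P2 → P2 → Prop} (hR : ∀ u v, R u v → Dg u v) {a b : P2}
    (h : Relation.ReflTransGen R a b) : Walk (dH R a) (2 * a.1, 2 * a.2) (2 * b.1, 2 * b.2) := by
  induction h with
  | refl => exact Walk.refl (Or.inl ⟨a, .refl, rfl⟩)
  | @tail u v h1 h2 ih =>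
    have hd := hR u v h2
    have m0 : ((2 * u.1, 2 * u.2) : P2) ∈ dH R a := Or.inl ⟨u, h1, rfl⟩
    have m1 : ((u.1 + v.1, 2 * u.2) : P2) ∈ dH R a := Or.inr ⟨u, v, h1, h2, Or.inl rfl⟩
    have m2 : ((u.1 + v.1, u.2 + v.2) : P2) ∈ dH R a :=
      Or.inr ⟨u, v, h1, h2, Or.inr (Or.inl rfl)⟩
    have m3 : ((u.1 + v.1, 2 * v.2) : P2) ∈ dH R a := Or.inr ⟨u, v, h1, h2, Or.inr (Or.inr rfl)⟩
    have m4 : ((2 * v.1, 2 * v.2) : P2) ∈ dH R a := Or.inl ⟨v, h1.tail h2, rfl⟩
    unfold Dg at hd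
    refine ih.trans (((Walk.step m0 m1 ?_).trans (Walk.step m1 m2 ?_)).trans
      ((Walk.step m2 m3 ?_).trans (Walk.step m3 m4 ?_))) <;> (unfold Nbr; simp only [true_and]; omega)

theorem walk_dV {R : P2 → P2 → Prop} (hR : ∀ u v, R u v → Dg u v) {a b : P2}
    (h : Relation.ReflTransGen R a b) : Walk (dV R a) (2 * a.1, 2 * a.2) (2 * b.1, 2 * b.2) := by
  induction h with
  | refl => exact Walk.refl (Or.inl ⟨a, .refl, rfl⟩)
  | @tail u v h1 h2 ih =>
    have hd := hR u v h2
    have m0 : ((2 * u.1, 2 * u.2) : P2) ∈ dV R a := Or.inl ⟨u, h1, rfl⟩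
    have m1 : ((2 * u.1, u.2 + v.2) : P2) ∈ dV R a := Or.inr ⟨u, v, h1, h2, Or.inl rfl⟩
    have m2 : ((u.1 + v.1, u.2 + v.2) : P2) ∈ dV R a :=
      Or.inr ⟨u, v, h1, h2, Or.inr (Or.inl rfl)⟩
    have m3 : ((2 * v.1, u.2 + v.2) : P2) ∈ dV R a := Or.inr ⟨u, v, h1, h2, Or.inr (Or.inr rfl)⟩
    have m4 : ((2 * v.1, 2 * v.2) : P2) ∈ dV R a := Or.inl ⟨v, h1.tail h2, rfl⟩
    unfold Dg at hd
    refine ih.trans (((Walk.step m0 m1 ?_).trans (Walk.step m1 m2 ?_)).trans
      ((Walk.step m2 m3 ?_).trans (Walk.step m3 m4 ?_))) <;> (unfold Nbr; simp only [true_and]; omega)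

/-- **Crossing lemma** for diagonal paths: a path from `a` to `b` whose faces have heights between
those of `p` and `q`, and a path from `p` to `q` whose faces have abscissae between those of `a`
and `b`, share a face, or go through the same tile. -/
theorem dcross {R1 R2 : P2 → P2 → Prop} (d1 : ∀ u v, R1 u v → Dg u v)
    (d2 : ∀ u v, R2 u v → Dg u v) {a b p q : P2} (h1 : Relation.ReflTransGen R1 a b)
    (h2 : Relation.ReflTransGen R2 p q)
    (hy : ∀ u, Relation.ReflTransGen R1 a u → p.2 ≤ u.2 ∧ u.2 ≤ q.2)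
    (hx : ∀ u, Relation.ReflTransGen R2 p u → a.1 ≤ u.1 ∧ u.1 ≤ b.1) :
    (∃ w, Relation.ReflTransGen R1 a w ∧ Relation.ReflTransGen R2 p w) ∨
    ∃ u v u' v', Relation.ReflTransGen R1 a u ∧ R1 u v ∧ Relation.ReflTransGen R2 p u' ∧
      R2 u' v' ∧ tb u v = tb u' v' := by
  obtain ⟨w, hw1, hw2⟩ := cross (walk_dH d1 h1) (walk_dV d2 h2) (by
    rintro w (⟨u, hu, rfl⟩ | ⟨u, v, hu, huv, h⟩)
    · have := hy u hu
      simp only; omega
    · have e1 := hy u hu
      have e2 := hy v (hu.tail huv)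
      rcases h with rfl | rfl | rfl <;> simp only <;> omega) (by
    rintro w (⟨u, hu, rfl⟩ | ⟨u, v, hu, huv, h⟩)
    · have := hx u hu
      simp only; omega
    · have e1 := hx u hu
      have e2 := hx v (hu.tail huv)
      rcases h with rfl | rfl | rfl <;> simp only <;> omega)
  obtain ⟨w1, w2⟩ := w
  rcases hw1 with ⟨u, hu, hw⟩ | ⟨u, v, hu, huv, hw⟩
  · rcases hw2 with ⟨u', hu', hw'⟩ | ⟨u', v', hu', huv', hw'⟩
    · left
      refine ⟨u, hu, ?_⟩
      have : u = u' := by
        simp only [Prod.mk.injEq] at hw hw'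
        ext <;> omega
      rw [this]; exact hu'
    · have hd := d2 _ _ huv'
      unfold Dg at hd
      simp only [Prod.mk.injEq] at hw hw'
      omega
  · have hd := d1 _ _ huv
    unfold Dg at hd
    rcases hw2 with ⟨u', hu', hw'⟩ | ⟨u', v', hu', huv', hw'⟩
    · simp only [Prod.mk.injEq] at hw hw'
      omega
    · have hd' := d2 _ _ huv'
      unfold Dg at hd'
      right
      refine ⟨u, v, u', v', hu, huv, hu', huv', ?_⟩
      unfold tb
      simp only [Prod.mk.injEq] at hw hw' ⊢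
      omega

/-- boxes of tiles `x0 < x ≤ x1`, `y0 < y ≤ y1` (faces `x0 ≤ · ≤ x1`, `y0 ≤ · ≤ y1`) -/
def InB (x0 x1 y0 y1 : ℤ) (t : P2) : Prop := x0 < t.1 ∧ t.1 ≤ x1 ∧ y0 < t.2 ∧ t.2 ≤ y1

theorem TP.faceX {Q : P2 → Prop} {F G : P2} {x0 x1 : ℤ} (h : TP Q F G)
    (hQ : ∀ t, Q t → x0 < t.1 ∧ t.1 ≤ x1) (hF : x0 ≤ F.1 ∧ F.1 ≤ x1) : x0 ≤ G.1 ∧ G.1 ≤ x1 := by
  induction h with
  | refl => exact hF
  | @tail u v _ h2 _ =>
    have h3 := hQ _ h2.2
    have h4 := h2.1
    unfold tb at h3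
    unfold Dg at h4
    simp only at h3
    omega

theorem TP.faceY {Q : P2 → Prop} {F G : P2} {y0 y1 : ℤ} (h : TP Q F G)
    (hQ : ∀ t, Q t → y0 < t.2 ∧ t.2 ≤ y1) (hF : y0 ≤ F.2 ∧ F.2 ≤ y1) : y0 ≤ G.2 ∧ G.2 ≤ y1 := by
  induction h with
  | refl => exact hF
  | @tail u v _ h2 _ =>
    have h3 := hQ _ h2.2
    have h4 := h2.1
    unfold tb at h3
    unfold Dg at h4
    simp only at h3
    omega

/-- **Crossing lemma**, tile form -/
theorem mcross {Q1 Q2 : P2 → Prop} {a b p q : P2} (h1 : TP Q1 a b) (h2 : TP Q2 p q)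
    (hy : ∀ t, Q1 t → p.2 < t.2 ∧ t.2 ≤ q.2) (hx : ∀ t, Q2 t → a.1 < t.1 ∧ t.1 ≤ b.1)
    (ha : p.2 ≤ a.2 ∧ a.2 ≤ q.2) (hp : a.1 ≤ p.1 ∧ p.1 ≤ b.1) :
    (∃ w, TP Q1 a w ∧ TP Q2 p w) ∨
    ∃ u v u' v', TP Q1 a u ∧ TS Q1 u v ∧ TP Q2 p u' ∧ TS Q2 u' v' ∧ tb u v = tb u' v' :=
  dcross (fun _ _ h => h.1) (fun _ _ h => h.1) h1 h2
    (fun _ hu => TP.faceY hu hy ha) (fun _ hu => TP.faceX hu hx hp)

/-- paths on different sublattices through disjoint sets of tiles do not cross -/
theorem mcross_ne {Q1 Q2 : P2 → Prop} {a b p q : P2} (h1 : TP Q1 a b) (h2 : TP Q2 p q)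
    (hy : ∀ t, Q1 t → p.2 < t.2 ∧ t.2 ≤ q.2) (hx : ∀ t, Q2 t → a.1 < t.1 ∧ t.1 ≤ b.1)
    (ha : p.2 ≤ a.2 ∧ a.2 ≤ q.2) (hp : a.1 ≤ p.1 ∧ p.1 ≤ b.1)
    (hpar : (a.1 + a.2) % 2 ≠ (p.1 + p.2) % 2) (hQ : ∀ t, Q1 t → Q2 t → False) : False := by
  rcases mcross h1 h2 hy hx ha hp with ⟨w, hw1, hw2⟩ | ⟨u, v, u', v', _, h3, _, h4, h5⟩
  · exact hpar (hw1.parity.trans hw2.parity.symm)
  · exact hQ _ h3.2 (by rw [h5]; exact h4.2)

/-- paths on the same sublattice that cross share a face -/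
theorem mcross_eq {Q1 Q2 : P2 → Prop} {a b p q : P2} (h1 : TP Q1 a b) (h2 : TP Q2 p q)
    (hy : ∀ t, Q1 t → p.2 < t.2 ∧ t.2 ≤ q.2) (hx : ∀ t, Q2 t → a.1 < t.1 ∧ t.1 ≤ b.1)
    (ha : p.2 ≤ a.2 ∧ a.2 ≤ q.2) (hp : a.1 ≤ p.1 ∧ p.1 ≤ b.1)
    (hpar : (a.1 + a.2) % 2 = (p.1 + p.2) % 2) : ∃ w, TP Q1 a w ∧ TP Q2 p w := by
  rcases mcross h1 h2 hy hx ha hp with h | ⟨u, v, u', v', hu, h3, hu', h4, h5⟩
  · exact h
  · have e1 := hu.parity
    have e2 := hu'.parity
    have d1 := h3.1
    have d2 := h4.1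
    unfold Dg at d1 d2
    unfold tb at h5
    simp only [Prod.mk.injEq] at h5
    have key : u = u' ∨ u = v' := by
      by_cases hh : u.1 = u'.1
      · left; ext
        · exact hh
        · omega
      · right; ext <;> omega
    rcases key with rfl | rfl
    · exact ⟨u, hu, hu'⟩
    · exact ⟨u, hu, hu'.tail h4⟩

/-! ### dictionary with `ℤ²` -/

/-- face of the primal vertex `v` -/
def prim (v : P2) : P2 := (v.1 - v.2, v.1 + v.2)

/-- face of the dual vertex `f` (square with lower left corner `f`) -/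
def dufc (f : P2) : P2 := (f.1 - f.2, f.1 + f.2 + 1)

theorem prim_inj : Function.Injective prim := by
  intro u v h
  simp only [prim, Prod.mk.injEq] at h
  ext <;> omega

theorem dufc_inj : Function.Injective dufc := by
  intro u v h
  simp only [dufc, Prod.mk.injEq] at h
  ext <;> omega

theorem prim_par (v : P2) : ((prim v).1 + (prim v).2) % 2 = 0 := by
  simp only [prim]; omega

theorem dufc_par (v : P2) : ((dufc v).1 + (dufc v).2) % 2 = 1 := by
  simp only [dufc]; omega

/-- even faces are primal vertices -/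
theorem exists_prim {F : P2} (h : (F.1 + F.2) % 2 = 0) : ∃ v, prim v = F := by
  refine ⟨((F.1 + F.2) / 2, (F.2 - F.1) / 2), ?_⟩
  ext <;> simp only [prim] <;> omega

/-- odd faces are dual vertices -/
theorem exists_dufc {F : P2} (h : (F.1 + F.2) % 2 = 1) : ∃ v, dufc v = F := by
  refine ⟨((F.1 + F.2) / 2, (F.2 - 1 - F.1) / 2), ?_⟩
  ext <;> simp only [dufc] <;> omega

/-- the tile of an edge -/
def tE : Edge ≃ P2 where
  toFun e := if e.2 then (e.1.1 - e.1.2, e.1.1 + e.1.2 + 1)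
    else (e.1.1 - e.1.2 + 1, e.1.1 + e.1.2 + 1)
  invFun t := if (t.1 + t.2) % 2 = 0 then (((t.1 + t.2) / 2 - 1, (t.2 - t.1) / 2), false)
    else (((t.1 + t.2) / 2, (t.2 - t.1) / 2), true)
  left_inv := by
    rintro ⟨⟨a, b⟩, c⟩
    cases c
    · simp only [Bool.false_eq_true, if_false]
      rw [if_pos (by omega)]
      simp only [Prod.mk.injEq, and_true]
      omega
    · simp only [if_true]
      rw [if_neg (by omega)]
      simp only [Prod.mk.injEq, and_true]
      omega
  right_inv := by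
    rintro ⟨x, y⟩
    simp only
    by_cases h : (x + y) % 2 = 0
    · rw [if_pos h]
      simp only [Bool.false_eq_true, if_false, Prod.mk.injEq]
      omega
    · rw [if_neg h]
      simp only [if_true, Prod.mk.injEq]
      omega

@[simp] theorem tE_h (v : P2) : tE (v, false) = (v.1 - v.2 + 1, v.1 + v.2 + 1) := rfl
@[simp] theorem tE_v (v : P2) : tE (v, true) = (v.1 - v.2, v.1 + v.2 + 1) := rfl

theorem dg_prim (e : Edge) : Dg (prim (src e)) (prim (tgt e)) := by
  obtain ⟨⟨a, b⟩, c⟩ := e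
  cases c <;> simp [Dg, prim] <;> omega

theorem dg_dufc (e : Edge) : Dg (dufc (fA e)) (dufc (fB e)) := by
  obtain ⟨⟨a, b⟩, c⟩ := e
  cases c <;> simp [Dg, dufc] <;> omega

theorem tb_prim (e : Edge) : tb (prim (src e)) (prim (tgt e)) = tE e := by
  obtain ⟨⟨a, b⟩, c⟩ := e
  cases c
  · simp only [tb, prim, src_mk, tgt_h, tE_h, Prod.mk.injEq]
    omega
  · simp only [tb, prim, src_mk, tgt_v, tE_v, Prod.mk.injEq]
    omega

theorem tb_dufc (e : Edge) : tb (dufc (fA e)) (dufc (fB e)) = tE e := by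
  obtain ⟨⟨a, b⟩, c⟩ := e
  cases c
  · simp only [tb, dufc, fA_mk, fB_h, tE_h, Prod.mk.injEq]
    omega
  · simp only [tb, dufc, fA_mk, fB_v, tE_v, Prod.mk.injEq]
    omega

theorem ts_prim_iff {Q : P2 → Prop} {u v : P2} :
    TS Q (prim u) (prim v) ↔ PStep (fun e => Q (tE e)) u v := by
  constructor
  · rintro ⟨hd, hq⟩
    obtain ⟨a, b⟩ := u
    obtain ⟨c, d⟩ := v
    simp only [Dg, prim] at hd
    have key : (c = a + 1 ∧ d = b) ∨ (a = c + 1 ∧ d = b) ∨ (c = a ∧ d = b + 1) ∨
        (c = a ∧ b = d + 1) := by omega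
    rcases key with ⟨h1, h2⟩ | ⟨h1, h2⟩ | ⟨h1, h2⟩ | ⟨h1, h2⟩
    · subst h1; subst h2
      have e := tb_prim ((a, d), false)
      simp only [src_mk, tgt_h] at e
      rw [e] at hq
      exact ⟨((a, d), false), hq, Or.inl ⟨rfl, rfl⟩⟩
    · subst h1; subst h2
      have e := tb_prim ((c, d), false)
      simp only [src_mk, tgt_h] at e
      rw [tb_comm, e] at hq
      exact ⟨((c, d), false), hq, Or.inr ⟨rfl, rfl⟩⟩
    · subst h1; subst h2
      have e := tb_prim ((c, b), true)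
      simp only [src_mk, tgt_v] at e
      rw [e] at hq
      exact ⟨((c, b), true), hq, Or.inl ⟨rfl, rfl⟩⟩
    · subst h1; subst h2
      have e := tb_prim ((c, d), true)
      simp only [src_mk, tgt_v] at e
      rw [tb_comm, e] at hq
      exact ⟨((c, d), true), hq, Or.inr ⟨rfl, rfl⟩⟩
  · rintro ⟨e, he, ⟨rfl, rfl⟩ | ⟨rfl, rfl⟩⟩
    · exact ⟨dg_prim e, by rw [tb_prim]; exact he⟩
    · exact ⟨(dg_prim e).symm, by rw [tb_comm, tb_prim]; exact he⟩

theorem ts_dufc_iff {Q : P2 → Prop} {f g : P2} :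
    TS Q (dufc f) (dufc g) ↔ DStep (fun e => Q (tE e)) f g := by
  constructor
  · rintro ⟨hd, hq⟩
    obtain ⟨a, b⟩ := f
    obtain ⟨c, d⟩ := g
    simp only [Dg, dufc] at hd
    have key : (c = a + 1 ∧ d = b) ∨ (a = c + 1 ∧ d = b) ∨ (c = a ∧ d = b + 1) ∨
        (c = a ∧ b = d + 1) := by omega
    rcases key with ⟨h1, h2⟩ | ⟨h1, h2⟩ | ⟨h1, h2⟩ | ⟨h1, h2⟩
    · subst h1; subst h2
      have e := tb_dufc ((a + 1, d), true)
      simp only [fA_mk, fB_v, add_sub_cancel_right] at e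
      rw [tb_comm, e] at hq
      exact ⟨((a + 1, d), true), hq, Or.inr ⟨by simp, rfl⟩⟩
    · subst h1; subst h2
      have e := tb_dufc ((c + 1, d), true)
      simp only [fA_mk, fB_v, add_sub_cancel_right] at e
      rw [e] at hq
      exact ⟨((c + 1, d), true), hq, Or.inl ⟨rfl, by simp⟩⟩
    · subst h1; subst h2
      have e := tb_dufc ((c, b + 1), false)
      simp only [fA_mk, fB_h, add_sub_cancel_right] at e
      rw [tb_comm, e] at hq
      exact ⟨((c, b + 1), false), hq, Or.inr ⟨by simp, rfl⟩⟩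
    · subst h1; subst h2
      have e := tb_dufc ((c, d + 1), false)
      simp only [fA_mk, fB_h, add_sub_cancel_right] at e
      rw [e] at hq
      exact ⟨((c, d + 1), false), hq, Or.inl ⟨rfl, by simp⟩⟩
  · rintro ⟨e, he, ⟨rfl, rfl⟩ | ⟨rfl, rfl⟩⟩
    · exact ⟨dg_dufc e, by rw [tb_dufc]; exact he⟩
    · exact ⟨(dg_dufc e).symm, by rw [tb_comm, tb_dufc]; exact he⟩

theorem Dg.par {F G : P2} (h : Dg F G) : (F.1 + F.2) % 2 = (G.1 + G.2) % 2 := by
  unfold Dg at h; omega

/-- primal paths are paths on even faces -/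
theorem tp_prim_iff {Q : P2 → Prop} {u v : P2} :
    TP Q (prim u) (prim v) ↔ Relation.ReflTransGen (PStep (fun e => Q (tE e))) u v := by
  constructor
  · intro h
    have key : ∀ G, TP Q (prim u) G → ∃ w, prim w = G ∧
        Relation.ReflTransGen (PStep (fun e => Q (tE e))) u w := by
      intro G hG
      induction hG with
      | refl => exact ⟨u, rfl, .refl⟩
      | @tail a b _ h2 ih =>
        obtain ⟨w, rfl, hw⟩ := ih
        obtain ⟨w', rfl⟩ := exists_prim (F := b) (by rw [← h2.1.par]; exact prim_par w)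
        exact ⟨w', rfl, hw.tail (ts_prim_iff.1 h2)⟩
    obtain ⟨w, hw, h'⟩ := key _ h
    rw [← prim_inj hw]
    exact h'
  · intro h
    induction h with
    | refl => exact .refl
    | tail _ h2 ih => exact ih.tail (ts_prim_iff.2 h2)

/-- dual paths are paths on odd faces -/
theorem tp_dufc_iff {Q : P2 → Prop} {u v : P2} :
    TP Q (dufc u) (dufc v) ↔ Relation.ReflTransGen (DStep (fun e => Q (tE e))) u v := by
  constructor
  · intro h
    have key : ∀ G, TP Q (dufc u) G → ∃ w, dufc w = G ∧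
        Relation.ReflTransGen (DStep (fun e => Q (tE e))) u w := by
      intro G hG
      induction hG with
      | refl => exact ⟨u, rfl, .refl⟩
      | @tail a b _ h2 ih =>
        obtain ⟨w, rfl, hw⟩ := ih
        obtain ⟨w', rfl⟩ := exists_dufc (F := b) (by rw [← h2.1.par]; exact dufc_par w)
        exact ⟨w', rfl, hw.tail (ts_dufc_iff.1 h2)⟩
    obtain ⟨w, hw, h'⟩ := key _ h
    rw [← dufc_inj hw]
    exact h'
  · intro h
    induction h with
    | refl => exact .refl
    | tail _ h2 ih => exact ih.tail (ts_dufc_iff.2 h2)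

/-! ### laws -/

/-- iid tile fields -/
def tau (p : I) : Measure TF := PB fun _ : P2 => p

instance (p : I) : IsProbabilityMeasure (tau p) := by unfold tau; infer_instance

/-- the law does not change under permutations of the tiles -/
theorem tau_perm (p : I) (e : P2 ≃ P2) : (tau p).map (fun X t => X (e t)) = tau p := by
  have h := PB_map_equiv e.symm (fun _ : P2 => p)
  simpa [tau] using h

/-- tile fields and bond configurations -/
theorem tau_map (p : I) : (tau p).map (fun X e => X (tE e)) = nu p := by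
  have h := PB_map_equiv tE.symm (fun _ : Edge => p)
  simpa [tau, nu] using h

theorem nu_map (p : I) : (nu p).map (fun z t => z (tE.symm t)) = tau p := by
  have h := PB_map_equiv tE (fun _ : P2 => p)
  simpa [tau, nu] using h

theorem tau_not (p : I) : (tau p).map (fun X t => !X t) = tau (σ p) := by
  have h := PB_map_not (fun _ : P2 => p)
  simpa [tau] using h

theorem measurable_perm (e : P2 ≃ P2) : Measurable (fun (X : TF) t => X (e t)) :=
  measurable_pi_lambda _ fun _ => measurable_pi_apply _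

theorem measurable_not : Measurable (fun (X : TF) t => !X t) :=
  measurable_pi_lambda _ fun t => (Measurable.of_discrete (f := fun b : Bool => !b)).comp
    (measurable_pi_apply t)

/-- probabilities of events pulled back by a permutation of the tiles -/
theorem tau_real_perm (p : I) (e : P2 ≃ P2) {A : Set TF} (hA : MeasurableSet A) :
    (tau p).real {X | (fun t => X (e t)) ∈ A} = (tau p).real A := by
  conv_rhs => rw [← tau_perm p e]
  rw [measureReal_def, measureReal_def, Measure.map_apply (measurable_perm e) hA]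
  rfl

/-- probabilities of events of the complementary field -/
theorem tau_real_not (p : I) {A : Set TF} (hA : MeasurableSet A) :
    (tau p).real {X | (fun t => !X t) ∈ A} = (tau (σ p)).real A := by
  rw [← tau_not p, measureReal_def, measureReal_def, Measure.map_apply measurable_not hA]
  rfl

/-- probabilities of events read on `ℤ²` -/
theorem tau_real_eq (p : I) {A : Set TF} (hA : MeasurableSet A) :
    (tau p).real A = (nu p).real {z | (fun t => z (tE.symm t)) ∈ A} := by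
  have hm : Measurable (fun (z : Cfz) (t : P2) => z (tE.symm t)) :=
    measurable_pi_lambda _ fun _ => measurable_pi_apply _
  rw [← nu_map p, measureReal_def, measureReal_def, Measure.map_apply hm hA]
  rfl

end Crest.Agent.R158.Mr679
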