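import Mathlib
import Crest.Agent.R158.Mr1_679

/-!
# R158, block HP1 (helper854), part 9: floor crossing lemma

Two diagonal paths of different parities above the floor whose end gaps interlace cannot use
disjoint sets of tiles.
-/

set_option autoImplicit false
set_option linter.unusedSectionVars false
set_option linter.unusedSimpArgs false
set_option linter.unusedVariables false

namespace Crest.Agent.R158.Hp854

open Crest.Agent.R158.Mr679
open Crest.Agent.R161.Geo729

theorem dg_of {x y x' y' : ℤ} (h1 : x' = x + 1 ∨ x = x' + 1) (h2 : y' = y + 1 ∨ y = y' + 1) :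
    Dg (x, y) (x', y') := ⟨h1, h2⟩

theorem ts_of {Q : P2 → Prop} {x y x' y' u v : ℤ} (h1 : x' = x + 1 ∨ x = x' + 1)
    (h2 : y' = y + 1 ∨ y = y' + 1) (hu : max x x' = u) (hv : max y y' = v) (hQ : Q (u, v)) :
    TS Q (x, y) (x', y') := by
  refine ⟨dg_of h1 h2, ?_⟩
  unfold tb
  simp only [hu, hv]
  exact hQ

/-- zigzag to the right in the tile row `r` -/
theorem zigR (Q : P2 → Prop) (r x : ℤ) (n : ℕ) (hQ : ∀ m, x < m → m ≤ x + n → Q (m, r)) :
    TP Q (x, r) (x + n, if n % 2 = 0 then r else r - 1) := by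
  induction n with
  | zero => simpa using TP.refl
  | succ n ih =>
    have ih' := ih fun m h1 h2 => hQ m h1 (by push_cast; omega)
    refine ih'.trans (TP.single ?_)
    have hq := hQ (x + n + 1) (by omega) (by push_cast; omega)
    by_cases hn : n % 2 = 0
    · have hn' : ¬ (n + 1) % 2 = 0 := by omega
      rw [if_pos hn, if_neg hn']
      exact ts_of (u := x + n + 1) (v := r) (by push_cast; omega) (by omega) (by push_cast; omega)
        (by omega) hq
    · have hn' : (n + 1) % 2 = 0 := by omega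
      rw [if_neg hn, if_pos hn']
      exact ts_of (u := x + n + 1) (v := r) (by push_cast; omega) (by omega) (by push_cast; omega)
        (by omega) hq

/-- zigzag to the left in the tile row `r` -/
theorem zigL (Q : P2 → Prop) (r x : ℤ) (n : ℕ) (hQ : ∀ m, x - n < m → m ≤ x → Q (m, r)) :
    TP Q (x, r) (x - n, if n % 2 = 0 then r else r - 1) := by
  induction n with
  | zero => simpa using TP.refl
  | succ n ih =>
    have ih' := ih fun m h1 h2 => hQ m (by push_cast; omega) h2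
    refine ih'.trans (TP.single ?_)
    have hq := hQ (x - n) (by push_cast; omega) (by omega)
    by_cases hn : n % 2 = 0
    · have hn' : ¬ (n + 1) % 2 = 0 := by omega
      rw [if_pos hn, if_neg hn']
      exact ts_of (u := x - n) (v := r) (by push_cast; omega) (by omega) (by push_cast; omega)
        (by omega) hq
    · have hn' : (n + 1) % 2 = 0 := by omega
      rw [if_neg hn, if_pos hn']
      exact ts_of (u := x - n) (v := r) (by push_cast; omega) (by omega) (by push_cast; omega)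
        (by omega) hq

/-- zigzag upwards in the tile column `x + 1` -/
theorem zigU (Q : P2 → Prop) (x y : ℤ) (n : ℕ) (hQ : ∀ m, y < m → m ≤ y + n → Q (x + 1, m)) :
    TP Q (x, y) (if n % 2 = 0 then x else x + 1, y + n) := by
  induction n with
  | zero => simpa using TP.refl
  | succ n ih =>
    have ih' := ih fun m h1 h2 => hQ m h1 (by push_cast; omega)
    refine ih'.trans (TP.single ?_)
    have hq := hQ (y + n + 1) (by omega) (by push_cast; omega)
    by_cases hn : n % 2 = 0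
    · have hn' : ¬ (n + 1) % 2 = 0 := by omega
      rw [if_pos hn, if_neg hn']
      exact ts_of (u := x + 1) (v := y + n + 1) (by omega) (by push_cast; omega) (by omega)
        (by push_cast; omega) hq
    · have hn' : (n + 1) % 2 = 0 := by omega
      rw [if_neg hn, if_pos hn']
      exact ts_of (u := x + 1) (v := y + n + 1) (by omega) (by push_cast; omega) (by omega)
        (by push_cast; omega) hq

theorem tp_bdd {Q : P2 → Prop} {F G : P2} (h : TP Q F G) :
    ∃ W : ℤ, ∀ W', W ≤ W' → TP (fun t => Q t ∧ |t.1| ≤ W') F G := by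
  induction h with
  | refl => exact ⟨0, fun _ _ => TP.refl⟩
  | @tail u v _ h2 ih =>
    obtain ⟨W, hW⟩ := ih
    refine ⟨max W |(tb u v).1|, fun W' hW' => ?_⟩
    exact (hW W' (le_trans (le_max_left _ _) hW')).tail
      ⟨h2.1, h2.2, le_trans (le_max_right _ _) hW'⟩

/-- **floor crossing lemma**, bounded form -/
theorem fcl_bdd {Q1 Q2 : P2 → Prop} {a b c d W Y : ℤ} (hab : a < b) (hbc : b < c) (hcd : c < d)
    (h1 : TP Q1 (a, 0) (c, 0)) (h2 : TP Q2 (b, 0) (d, 0)) (hdis : ∀ t, Q1 t → Q2 t → False)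
    (hQ1 : ∀ t, Q1 t → -W < t.1 ∧ t.1 ≤ W ∧ 1 ≤ t.2 ∧ t.2 ≤ Y)
    (hQ2 : ∀ t, Q2 t → -W < t.1 ∧ t.1 ≤ W ∧ 1 ≤ t.2 ∧ t.2 ≤ Y)
    (ha : -W ≤ a) (hd : d ≤ W) (hY : 0 ≤ Y) (hpar : (a - b) % 2 = 1) : False := by
  -- extended sets
  let D : ℤ := 2 * (W + 1) - d
  let R1 : P2 → Prop := fun t => Q1 t ∨ (t.2 = 0 ∧ t.1 ≤ a) ∨ (t = (c, 0)) ∨ (t.2 = -1 ∧ c ≤ t.1)
  let R2 : P2 → Prop := fun t => Q2 t ∨ (t = (b, 0)) ∨ (t = (b, -1)) ∨
    (t.2 = 0 ∧ d < t.1 ∧ t.1 ≤ D) ∨ (t.1 = D + 1 ∧ 1 ≤ t.2 ∧ t.2 ≤ 2 * Y)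
  -- left-right path
  obtain ⟨n1, hn1⟩ : ∃ n : ℕ, (n : ℤ) = a + W := ⟨(a + W).toNat, by omega⟩
  obtain ⟨n2, hn2⟩ : ∃ n : ℕ, (n : ℤ) = D + 3 - c := ⟨(D + 3 - c).toNat, by omega⟩
  have pL := zigL R1 0 a n1 (fun m _ h => Or.inr (Or.inl ⟨rfl, h⟩))
  have pM : TP R1 (a, 0) (c, 0) := h1.mono fun t ht => Or.inl ht
  have pS : TP R1 (c, 0) (c - 1, -1) := TP.single (ts_of (u := c) (v := 0) (by omega) (by omega)
    (by omega) (by omega) (Or.inr (Or.inr (Or.inl rfl))))
  have pR := zigR R1 (-1) (c - 1) n2 (fun m h _ => Or.inr (Or.inr (Or.inr ⟨rfl, by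
    simp only; omega⟩)))
  have P1 := pL.symm.trans (pM.trans (pS.trans pR))
  -- bottom-top path
  obtain ⟨m1, hm1⟩ : ∃ n : ℕ, (n : ℤ) = W + 1 - d := ⟨(W + 1 - d).toNat, by omega⟩
  obtain ⟨m2, hm2⟩ : ∃ n : ℕ, (n : ℤ) = Y := ⟨Y.toNat, by omega⟩
  have q1 : TP R2 (b, -2) (b - 1, -1) := TP.single (ts_of (u := b) (v := -1) (by omega) (by omega)
    (by omega) (by omega) (Or.inr (Or.inr (Or.inl rfl))))
  have q2 : TP R2 (b - 1, -1) (b, 0) := TP.single (ts_of (u := b) (v := 0) (by omega) (by omega)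
    (by omega) (by omega) (Or.inr (Or.inl rfl)))
  have q3 : TP R2 (b, 0) (d, 0) := h2.mono fun t ht => Or.inl ht
  have q4 := zigR R2 0 d (2 * m1) (fun m h h' => Or.inr (Or.inr (Or.inr (Or.inl
    ⟨rfl, h, by simp only; push_cast at h'; omega⟩))))
  have e4 : (d + ((2 * m1 : ℕ) : ℤ), if (2 * m1) % 2 = 0 then (0 : ℤ) else 0 - 1) = (D, (0 : ℤ)) := by
    rw [if_pos (by omega)]
    refine Prod.ext ?_ rfl
    simp only
    push_cast
    omega
  rw [e4] at q4
  have q5 := zigU R2 D 0 (2 * m2) (fun m h h' => Or.inr (Or.inr (Or.inr (Or.inr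
    ⟨rfl, by simp only; omega, by simp only; push_cast at h'; omega⟩))))
  have P2' := q1.trans (q2.trans (q3.trans (q4.trans q5)))
  have hD : W + 1 ≤ D := by omega
  refine mcross_ne P1 P2' ?_ ?_ ?_ ?_ ?_ ?_
  · intro t ht
    simp only
    push_cast
    rcases ht with ht | ht | ht | ht
    · have := hQ1 t ht; omega
    · omega
    · subst ht; simp only; omega
    · omega
  · intro t ht
    simp only
    rcases ht with ht | ht | ht | ht | ht
    · have := hQ2 t ht; omega
    · subst ht; simp only; omega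
    · subst ht; simp only; omega
    · omega
    · omega
  · simp only
    push_cast
    split_ifs <;> constructor <;> omega
  · simp only
    constructor <;> omega
  · have := pL.parity
    simp only at this ⊢
    rw [← this]
    omega
  · intro t ht1 ht2
    rcases ht1 with ht1 | ht1 | ht1 | ht1 <;> rcases ht2 with ht2 | ht2 | ht2 | ht2 | ht2
    · exact hdis t ht1 ht2
    · have := hQ1 t ht1; subst ht2; simp only at this; omega
    · have := hQ1 t ht1; subst ht2; simp only at this; omega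
    · have := hQ1 t ht1; omega
    · have := hQ1 t ht1; omega
    · have := hQ2 t ht2; omega
    · subst ht2; simp only at ht1; omega
    · subst ht2; simp only at ht1; omega
    · omega
    · omega
    · have := hQ2 t ht2; subst ht1; simp only at this; omega
    · subst ht1; simp only [Prod.mk.injEq] at ht2; omega
    · subst ht1; simp only [Prod.mk.injEq] at ht2; omega
    · subst ht1; simp only at ht2; omega
    · subst ht1; simp only at ht2; omega
    · have := hQ2 t ht2; omega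
    · subst ht2; simp only at ht1; omega
    · subst ht2; simp only at ht1; omega
    · omega
    · omega

/-- **floor crossing lemma** -/
theorem fcl {Q1 Q2 : P2 → Prop} {a b c d Y : ℤ} (hab : a < b) (hbc : b < c) (hcd : c < d)
    (h1 : TP Q1 (a, 0) (c, 0)) (h2 : TP Q2 (b, 0) (d, 0)) (hdis : ∀ t, Q1 t → Q2 t → False)
    (hQ1 : ∀ t, Q1 t → 1 ≤ t.2 ∧ t.2 ≤ Y) (hQ2 : ∀ t, Q2 t → 1 ≤ t.2 ∧ t.2 ≤ Y)
    (hpar : (a - b) % 2 = 1) : False := by
  obtain ⟨W1, hW1⟩ := tp_bdd h1
  obtain ⟨W2, hW2⟩ := tp_bdd h2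
  let W := max (max W1 W2) (max |a| |d|)
  have p1 := hW1 W (le_trans (le_max_left _ _) (le_max_left _ _))
  have p2 := hW2 W (le_trans (le_max_right _ _) (le_max_left _ _))
  have ha : |a| ≤ W := le_trans (le_max_left _ _) (le_max_right _ _)
  have hd : |d| ≤ W := le_trans (le_max_right _ _) (le_max_right _ _)
  have ha' := abs_le.1 ha
  have hd' := abs_le.1 hd
  refine fcl_bdd (W := W + 1) (Y := max Y 0) hab hbc hcd p1 p2 (fun t h h' => hdis t h.1 h'.1)
    ?_ ?_ (by omega) (by omega) (le_max_right _ _) hpar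
  · intro t ht
    have h3 := abs_le.1 ht.2
    have h4 := hQ1 t ht.1
    have h5 := le_max_left Y 0
    omega
  · intro t ht
    have h3 := abs_le.1 ht.2
    have h4 := hQ2 t ht.1
    have h5 := le_max_left Y 0
    omega

/-- **floor crossing lemma**, version with a path to the ceiling -/
theorem fcl_top {Q1 Q2 : P2 → Prop} {a b c g Y : ℤ} (hab : a < b) (hbc : b < c) (hY : 0 ≤ Y)
    (h1 : TP Q1 (a, 0) (c, 0)) (h2 : TP Q2 (b, 0) (g, Y)) (hdis : ∀ t, Q1 t → Q2 t → False)
    (hQ1 : ∀ t, Q1 t → 1 ≤ t.2 ∧ t.2 ≤ Y) (hQ2 : ∀ t, Q2 t → 1 ≤ t.2 ∧ t.2 ≤ Y)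
    (hpar : (a - b) % 2 = 1) : False := by
  obtain ⟨W2, hW2⟩ := tp_bdd h2
  let W := max W2 (max |a| |c|)
  have p2 := hW2 W (le_max_left _ _)
  have ha' := abs_le.1 (le_trans (le_max_left |a| |c|) (le_max_right W2 _))
  have hc' := abs_le.1 (le_trans (le_max_right |a| |c|) (le_max_right W2 _))
  let R1 : P2 → Prop := fun t => Q1 t ∨ (t.2 = 0 ∧ t.1 ≤ a) ∨ (t.2 = 0 ∧ c < t.1)
  let R2 : P2 → Prop := fun t => (Q2 t ∧ |t.1| ≤ W) ∨ (t = (b, 0))
  obtain ⟨n1, hn1⟩ : ∃ n : ℕ, (n : ℤ) = a + (W + 1) := ⟨(a + (W + 1)).toNat, by omega⟩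
  obtain ⟨n2, hn2⟩ : ∃ n : ℕ, (n : ℤ) = W + 1 - c := ⟨(W + 1 - c).toNat, by omega⟩
  have pL := zigL R1 0 a n1 (fun m _ h => Or.inr (Or.inl ⟨rfl, h⟩))
  have pM : TP R1 (a, 0) (c, 0) := h1.mono fun t ht => Or.inl ht
  have pR := zigR R1 0 c n2 (fun m h _ => Or.inr (Or.inr ⟨rfl, h⟩))
  have P1 := pL.symm.trans (pM.trans pR)
  have q2 : TP R2 (b - 1, -1) (b, 0) := TP.single (ts_of (u := b) (v := 0) (by omega) (by omega)
    (by omega) (by omega) (Or.inr rfl))
  have q3 : TP R2 (b, 0) (g, Y) := p2.mono fun t ht => Or.inl ht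
  have P2' := q2.trans q3
  refine mcross_ne P1 P2' ?_ ?_ ?_ ?_ ?_ ?_
  · intro t ht
    simp only
    rcases ht with ht | ht | ht
    · have := hQ1 t ht; omega
    · omega
    · omega
  · intro t ht
    simp only
    rcases ht with ht | ht
    · have := abs_le.1 ht.2; omega
    · subst ht; simp only; omega
  · simp only
    split_ifs <;> constructor <;> omega
  · simp only
    constructor <;> omega
  · have := pL.parity
    simp only at this ⊢
    rw [← this]
    omega
  · intro t ht1 ht2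
    rcases ht1 with ht1 | ht1 | ht1 <;> rcases ht2 with ht2 | ht2
    · exact hdis t ht1 ht2.1
    · have := hQ1 t ht1; subst ht2; simp only at this; omega
    · have := hQ2 t ht2.1; omega
    · subst ht2; simp only at ht1; omega
    · have := hQ2 t ht2.1; omega
    · subst ht2; simp only at ht1; omega

end Crest.Agent.R158.Hp854
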