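import Mathlib
import Crest.Agent.R158.Hp8_854
import Crest.Agent.R158.Hp9_854

/-!
# R158, block HP1 (helper854), part 10: faces along strands, joined gaps, arms

* `fcc c e` : the face of colour `c` next to the edge `e` (`true` = even = right side)
* `step_same`, `step_move` : one step of a strand
* `path_face` : connection along a strand
-/

set_option autoImplicit false
set_option linter.unusedSectionVars false
set_option linter.unusedSimpArgs false
set_option linter.unusedVariables false

namespace Crest.Agent.R158.Hp854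

open Finset
open Crest.Agent.R158.Bk430
open Crest.Agent.R158.Mr679
open Crest.Agent.R161.Geo729
open Crest.Agent.R158.Ts405 (shE sL per proj_eq_iff iter_proj)

/-- face of colour `c` next to an edge -/
def fcc (c : Bool) (e : ME ℤ ℤ) : ℤ × ℤ :=
  if decide ((e.1.1 + e.1.2) % 2 = 0) = c then e.1
  else if e.2 then (e.1.1 - 1, e.1.2) else (e.1.1, e.1.2 - 1)

theorem spx_int (X : ℤ × ℤ → Bool) (a b : ℤ) :
    spx X (a, b) = xor (!X (a, b)) (decide ((a + b) % 2 = 1)) := by
  unfold spx
  rw [Ts405.vp_int]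

theorem step_face (X : ℤ × ℤ → Bool) (c : Bool) (e : ME ℤ ℤ) :
    (X (hd e) = c → Dg (fcc c e) (fcc c (nx (spx X) e)) ∧
      tb (fcc c e) (fcc c (nx (spx X) e)) = hd e) ∧
    (X (hd e) ≠ c → fcc c (nx (spx X) e) = fcc c e) := by
  obtain ⟨⟨a, b⟩, d⟩ := e
  by_cases hp : (a + b) % 2 = 0
  · have hv : vp ((a, b) : ℤ × ℤ) = false := by rw [Ts405.vp_int]; simp; omega
    have h1 : (a + 1 + b) % 2 = 1 := by omega
    have h2 : (a + (b + 1)) % 2 = 1 := by omega
    have h3 : ¬ (a + b) % 2 = 1 := by omega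
    have h4 : ¬ (a + (b + 1)) % 2 = 0 := by omega
    have h5 : ¬ (a - 1 + b) % 2 = 0 := by omega
    have h6 : ¬ (a + (b - 1)) % 2 = 0 := by omega
    have h7 : (a - 1 + (b + 1)) % 2 = 0 := by omega
    have h8 : (a + (b + 1 - 1)) % 2 = 0 := by omega
    cases d
    · simp only [nx, hd, hv, Bool.false_eq_true, if_false, spx_int, Bool.not_false]
      cases hX : X (a, b) <;> cases c <;>
        simp [fcc, hp, h1, h2, h3, h4, h5, h6, h7, h8, Dg, tb]
    · simp only [nx, hd, hv, Bool.false_eq_true, if_false, if_true, spx_int, Bool.not_false]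
      cases hX : X (a, b + 1) <;> cases c <;>
        simp [fcc, hp, h1, h2, h3, h4, h5, h6, h7, h8, Dg, tb]
  · have hv : vp ((a, b) : ℤ × ℤ) = true := by rw [Ts405.vp_int]; simp; omega
    have h1 : (a + 1 + b) % 2 = 0 := by omega
    have h2 : (a + (b + 1)) % 2 = 0 := by omega
    have h3 : (a + b) % 2 = 1 := by omega
    have h4 : ¬ (a + 1 + b) % 2 = 1 := by omega
    have h5 : (a - 1 + b) % 2 = 0 := by omega
    have h6 : (a + (b - 1)) % 2 = 0 := by omega
    have h7 : (a + 1 + (b - 1)) % 2 = 1 := by omega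
    have h8 : ¬ (a + 1 + (b - 1)) % 2 = 0 := by omega
    cases d
    · simp only [nx, hd, hv, Bool.false_eq_true, if_false, if_true, spx_int, Bool.not_true]
      cases hX : X (a + 1, b) <;> cases c <;>
        simp [fcc, hp, h1, h2, h3, h4, h5, h6, h7, h8, Dg, tb]
    · simp only [nx, hd, hv, Bool.false_eq_true, if_false, if_true, spx_int, Bool.not_true]
      cases hX : X (a, b) <;> cases c <;>
        simp [fcc, hp, h1, h2, h3, h4, h5, h6, h7, h8, Dg, tb]

/-- connection of the faces of colour `c` along a strand -/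
theorem path_face (X : ℤ × ℤ → Bool) (c : Bool) (e : ME ℤ ℤ) (n : ℕ) (B : ℤ × ℤ → Prop)
    (hB : ∀ t < n, B (hd ((nx (spx X))^[t] e))) :
    TP (fun t => X t = c ∧ B t) (fcc c e) (fcc c ((nx (spx X))^[n] e)) := by
  induction n with
  | zero => exact TP.refl
  | succ n ih =>
    refine (ih fun t ht => hB t (by omega)).trans ?_
    rw [Function.iterate_succ_apply']
    obtain ⟨h1, h2⟩ := step_face X c ((nx (spx X))^[n] e)
    by_cases hX : X (hd ((nx (spx X))^[n] e)) = c
    · obtain ⟨h3, h4⟩ := h1 hX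
      refine TP.single ⟨h3, ?_⟩
      rw [h4]
      exact ⟨hX, hB n (by omega)⟩
    · rw [h2 hX]
      exact TP.refl

theorem fcc_even (c : Bool) {i : ℤ} (hi : i % 2 = 0) (b : ℤ) (hb : (i + b) % 2 = 0) :
    fcc c ((i, b), true) = if c then (i, b) else (i - 1, b) := by
  unfold fcc
  simp only [hb]
  cases c <;> simp

theorem fcc_up (c : Bool) {i b : ℤ} (hb : (i + b) % 2 = 0) :
    fcc c ((i, b), true) = if c then (i, b) else (i - 1, b) := by
  unfold fcc
  simp only [hb]
  cases c <;> simp

theorem fcc_down (c : Bool) {i b : ℤ} (hb : (i + b) % 2 = 1) :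
    fcc c ((i, b), true) = if c then (i - 1, b) else (i, b) := by
  unfold fcc
  have : ¬ (i + b) % 2 = 0 := by omega
  simp only [this]
  cases c <;> simp

section Box

variable {M L H : ℕ} [NeZero M] [NeZero L] [Fact (Even M)] [Fact (Even L)]

/-- the field of the cylinder on the plane -/
def XP (hL : L = 2 * H) (x : Ct M L H → Bool) (u : ℤ × ℤ) : Bool :=
  Xt hL x ((u.1 : ZMod M), (u.2 : ZMod L))

theorem sL_eq (hL : L = 2 * H) (x : Ct M L H → Bool) : sL (sx hL x) = spx (XP hL x) := by
  funext u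
  unfold sL sx spx XP
  rw [Ts405.vp_proj]

theorem fl_hd {i : ℤ} (hi : i % 2 = 0) : hd (fl i) = (i, 1) := by
  unfold fl
  rw [hd_vert, if_pos (by omega)]
  rfl

theorem lo_even (H : ℕ) {i : ℤ} (hi : i % 2 = 0) : lo H (fl i) = 0 := by
  unfold lo fl; simp [hi]

/-- rows of the strand of an even floor leg -/
theorem rows_even (hL : L = 2 * H) (x : Ct M L H → Bool) {i : ℤ} (hi : i % 2 = 0) :
    ∀ t < hp hL x (fl i), 1 ≤ (hd ((nx (spx (XP hL x)))^[t] (fl i))).2 ∧
      (hd ((nx (spx (XP hL x)))^[t] (fl i))).2 ≤ H := by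
  intro t ht
  have hf := hp_facts hL x (fl_leg H i)
  have := confine (H_pos hL) (fl_leg H i) hf.2.2.2.2.1 t ht
  rw [lo_even H hi, sL_eq] at this
  omega

theorem fin_eq (hL : L = 2 * H) (x : Ct M L H → Bool) (e : ME ℤ ℤ) :
    (nx (spx (XP hL x)))^[hp hL x e] e = fin hL x e := by
  unfold fin; rw [sL_eq]

/-- faces along the whole strand of an even floor leg -/
theorem whole_face (hL : L = 2 * H) (x : Ct M L H → Bool) (c : Bool) {i : ℤ} (hi : i % 2 = 0) :
    TP (fun t => XP hL x t = c ∧ (1 ≤ t.2 ∧ t.2 ≤ H)) (if c then (i, 0) else (i - 1, 0))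
      (fcc c (fin hL x (fl i))) := by
  have h1 := path_face (XP hL x) c (fl i) (hp hL x (fl i)) (fun t => 1 ≤ t.2 ∧ t.2 ≤ (H : ℤ))
    (rows_even hL x hi)
  have h2 : fcc c (fl i) = if c then (i, 0) else (i - 1, 0) := fcc_up c (by omega)
  rw [fin_eq, h2] at h1
  exact h1

/-- **(C)** two joined gaps: the even legs between them are matched between them -/
theorem joined_even (hL : L = 2 * H) (x : Ct M L H → Bool) {c : Bool} {x1 x2 b : ℤ}
    (hc1 : x1 % 2 = if c then 0 else 1) (hc2 : x2 % 2 = if c then 0 else 1)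
    (hTP : TP (fun t => XP hL x t = c ∧ (1 ≤ t.2 ∧ t.2 ≤ H)) (x1, 0) (x2, 0))
    (hb : b % 2 = 0) (h1 : x1 < b) (h2 : b ≤ x2) :
    ∃ j, j % 2 = 1 ∧ fin hL x (fl b) = fl j ∧ x1 < j ∧ j ≤ x2 := by
  have hw := whole_face hL x (!c) hb
  rcases even_end hL x hb with ⟨j, hj, hf⟩ | ⟨j, hj, hf⟩
  · refine ⟨j, hj, hf, ?_⟩
    rw [hf] at hw
    have h3 : fcc (!c) (fl j) = if (!c) = true then (j - 1, 0) else (j, 0) := fcc_down _ (by omega)
    rw [h3] at hw
    by_contra hcon
    cases c
    · simp only [Bool.not_false, if_true] at hw hc1 hc2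
      simp only [Bool.false_eq_true, if_false] at hc1 hc2
      rcases lt_or_ge x1 j with h4 | h4
      · have h5 : x2 < j := by
          by_contra h6; exact hcon ⟨h4, by omega⟩
        exact fcl (a := x1) (b := b) (c := x2) (d := j - 1) (Y := H) (by omega) (by omega)
          (by omega) hTP hw (fun t g g' => by
            have e1 := g.1; have e2 := g'.1; rw [e1] at e2; exact absurd e2 (by simp))
          (fun t g => g.2) (fun t g => g.2) (by omega)
      · exact fcl (a := j - 1) (b := x1) (c := b) (d := x2) (Y := H) (by omega) (by omega)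
          (by omega) hw.symm hTP (fun t g g' => by
            have e1 := g.1; have e2 := g'.1; rw [e1] at e2; exact absurd e2 (by simp))
          (fun t g => g.2) (fun t g => g.2) (by omega)
    · simp only [Bool.not_true, Bool.false_eq_true, if_false] at hw
      simp only [if_true] at hc1 hc2
      rcases lt_or_ge x1 j with h4 | h4
      · have h5 : x2 < j := by
          by_contra h6; exact hcon ⟨h4, by omega⟩
        exact fcl (a := x1) (b := b - 1) (c := x2) (d := j) (Y := H) (by omega) (by omega)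
          (by omega) hTP hw (fun t g g' => by
            have e1 := g.1; have e2 := g'.1; rw [e1] at e2; exact absurd e2 (by simp))
          (fun t g => g.2) (fun t g => g.2) (by omega)
      · exact fcl (a := j) (b := x1) (c := b - 1) (d := x2) (Y := H) (by omega) (by omega)
          (by omega) hw.symm hTP (fun t g g' => by
            have e1 := g.1; have e2 := g'.1; rw [e1] at e2; exact absurd e2 (by simp))
          (fun t g => g.2) (fun t g => g.2) (by omega)
  · exfalso
    rw [hf] at hw
    rw [fcc_up (!c) hj] at hw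
    cases c
    · simp only [Bool.not_false, if_true] at hw
      simp only [Bool.false_eq_true, if_false] at hc1 hc2
      exact fcl_top (a := x1) (b := b) (c := x2) (g := j) (Y := H) (by omega) (by omega)
        (by omega) hTP hw (fun t g g' => by
            have e1 := g.1; have e2 := g'.1; rw [e1] at e2; exact absurd e2 (by simp))
        (fun t g => g.2) (fun t g => g.2) (by omega)
    · simp only [Bool.not_true, Bool.false_eq_true, if_false] at hw
      simp only [if_true] at hc1 hc2
      exact fcl_top (a := x1) (b := b - 1) (c := x2) (g := j - 1) (Y := H) (by omega) (by omega)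
        (by omega) hTP hw (fun t g g' => by
            have e1 := g.1; have e2 := g'.1; rw [e1] at e2; exact absurd e2 (by simp))
        (fun t g => g.2) (fun t g => g.2) (by omega)

/-- **(C')** all legs between two joined gaps are matched between them -/
theorem joined (hL : L = 2 * H) (x : Ct M L H → Bool) {c : Bool} {x1 x2 : ℤ}
    (hc1 : x1 % 2 = if c then 0 else 1) (hc2 : x2 % 2 = if c then 0 else 1)
    (hTP : TP (fun t => XP hL x t = c ∧ (1 ≤ t.2 ∧ t.2 ≤ H)) (x1, 0) (x2, 0))
    {b : ℤ} (h1 : x1 < b) (h2 : b ≤ x2) :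
    ∃ j, sgm hL x b = some j ∧ x1 < j ∧ j ≤ x2 := by
  have key : ∀ b : ℤ, b % 2 = 0 → x1 < b → b ≤ x2 → ∃ j, j % 2 = 1 ∧ sgm hL x b = some j ∧ x1 < j ∧
      j ≤ x2 := by
    intro b g0 g1 g2
    obtain ⟨j, hj, hf, hj1, hj2⟩ := joined_even hL x hc1 hc2 hTP g0 g1 g2
    exact ⟨j, hj, (sgm_some hL x).2 hf, hj1, hj2⟩
  rcases Int.emod_two_eq_zero_or_one b with hb | hb
  · obtain ⟨j, -, h⟩ := key b hb h1 h2
    exact ⟨j, h⟩
  · -- counting
    let δ : ℤ := if c then -1 else 1
    let S : Finset ℤ := (Finset.Ioc x1 x2).filter fun i => i % 2 = 0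
    have hS : ∀ i, i ∈ S ↔ (x1 < i ∧ i ≤ x2) ∧ i % 2 = 0 := fun i => by
      simp [S, Finset.mem_filter, Finset.mem_Ioc]
    have hkey : ∀ i ∈ S, ∃ j, j % 2 = 1 ∧ sgm hL x i = some j ∧ x1 < j ∧ j ≤ x2 := fun i hi =>
      key i ((hS i).1 hi).2 ((hS i).1 hi).1.1 ((hS i).1 hi).1.2
    choose! f hf0 hf1 hf2 hf3 using hkey
    have hmap : ∀ i ∈ S, f i - δ ∈ S := by
      intro i hi
      rw [hS]
      have g0 := hf0 i hi
      have g2 := hf2 i hi
      have g3 := hf3 i hi
      cases c
      · simp only [Bool.false_eq_true, if_false, δ] at hc1 hc2 ⊢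
        omega
      · simp only [if_true, δ] at hc1 hc2 ⊢
        omega
    have hinj : Set.InjOn (fun i => f i - δ) S := by
      intro i hi i' hi' h
      simp only at h
      have h3 : f i = f i' := by omega
      have e1 := sgm_inv hL x _ _ (hf1 i hi)
      have e2 := sgm_inv hL x _ _ (hf1 i' hi')
      rw [h3, e2] at e1
      exact (Option.some.inj e1).symm
    have hsurj := Finset.surjOn_of_injOn_of_card_le (fun i => f i - δ) hmap hinj le_rfl
    have hbS : b - δ ∈ (S : Set ℤ) := by
      rw [Finset.mem_coe, hS]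
      cases c
      · simp only [Bool.false_eq_true, if_false, δ] at hc1 hc2 ⊢
        omega
      · simp only [if_true, δ] at hc1 hc2 ⊢
        omega
    obtain ⟨i, hi, hib⟩ := hsurj hbS
    simp only at hib
    have h3 : f i = b := by omega
    have h4 := hf1 i hi
    rw [h3] at h4
    have h5 := (hS i).1 hi
    exact ⟨i, sgm_inv hL x _ _ h4, h5.1.1, h5.1.2⟩

end Box

end Crest.Agent.R158.Hp854
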