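import Mathlib
import Crest.Agent.R158.Hp10_854

/-!
# R158, block HP1 (helper854), part 11: arms from strands, the pattern axioms

* `arm_odd`, `arm_even` : if no arc of the pattern passes over a gap inside a box, the gap has an arm
* `two_arms` : if the strand of an even leg leaves a box, both gaps have arms
* `arc_faces`, `pat` : noncrossing, `Pat M (sgm x)`
-/

set_option autoImplicit false
set_option linter.unusedSectionVars false
set_option linter.unusedSimpArgs false
set_option linter.unusedVariables false

namespace Crest.Agent.R158.Hp854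

open Finset
open Crest.Agent.R158.Bk430
open Crest.Agent.R158.Mr679
open Crest.Agent.R161.Geo729
open Crest.Agent.R158.Ts405 (shE sL per proj_eq_iff iter_proj)

/-- faces on the outer sides of a floor box (or beyond) -/
def Farb (x0 x1 r : ℤ) (G : ℤ × ℤ) : Prop := G.1 ≤ x0 ∨ x1 ≤ G.1 ∨ r ≤ G.2

theorem hd_tl_h (p q : ℤ) : ((hd ((p, q), false) : ℤ × ℤ) = (p, q) ∧ (tl ((p, q), false) : ℤ × ℤ) = (p + 1, q)) ∨
    ((hd ((p, q), false) : ℤ × ℤ) = (p + 1, q) ∧ (tl ((p, q), false) : ℤ × ℤ) = (p, q)) := by
  unfold hd tl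
  simp only [Bool.false_eq_true, if_false]
  cases vp ((p, q) : ℤ × ℤ) <;> simp

theorem hd_tl_v (p q : ℤ) : ((hd ((p, q), true) : ℤ × ℤ) = (p, q + 1) ∧ (tl ((p, q), true) : ℤ × ℤ) = (p, q)) ∨
    ((hd ((p, q), true) : ℤ × ℤ) = (p, q) ∧ (tl ((p, q), true) : ℤ × ℤ) = (p, q + 1)) := by
  unfold hd tl
  simp only [if_true]
  cases vp ((p, q) : ℤ × ℤ) <;> simp

theorem fcc_cases (c : Bool) (p q : ℤ) (d : Bool) : fcc c ((p, q), d) = (p, q) ∨
    fcc c ((p, q), d) = if d then (p - 1, q) else (p, q - 1) := by
  unfold fcc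
  simp only
  split_ifs <;> simp

section Box

variable {M L H : ℕ} [NeZero M] [NeZero L] [Fact (Even M)] [Fact (Even L)]

theorem strand_box (hL : L = 2 * H) (x : Ct M L H → Bool) {i x0 x1 r : ℤ} (hi : i % 2 = 0)
    (hr : 1 ≤ r) (hrH : r ≤ H) (h0 : x0 < i) (h1 : i ≤ x1) :
    (∃ n, (∀ t < n, InB x0 x1 0 r (hd ((nx (spx (XP hL x)))^[t] (fl i)))) ∧
      ∀ c, Farb x0 x1 r (fcc c ((nx (spx (XP hL x)))^[n] (fl i)))) ∨
    (∃ j, j % 2 = 1 ∧ fin hL x (fl i) = fl j ∧ x0 < j ∧ j ≤ x1 ∧
      ∀ t < hp hL x (fl i), InB x0 x1 0 r (hd ((nx (spx (XP hL x)))^[t] (fl i)))) := by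
  classical
  by_cases hall : ∀ t < hp hL x (fl i), InB x0 x1 0 r (hd ((nx (spx (XP hL x)))^[t] (fl i)))
  · rcases even_end hL x hi with ⟨j, hj, hf⟩ | ⟨j, hj, hf⟩
    · right
      refine ⟨j, hj, hf, ?_⟩
      have hpos := (hp_facts hL x (fl_leg H i)).1
      have h2 := hall (hp hL x (fl i) - 1) (by omega)
      have h3 : hd ((nx (spx (XP hL x)))^[hp hL x (fl i) - 1] (fl i)) = (j, 1) := by
        rw [← tl_nx (spx (XP hL x)), ← Function.iterate_succ_apply' (f := nx (spx (XP hL x)))]
        rw [show (hp hL x (fl i) - 1).succ = hp hL x (fl i) by omega, fin_eq, hf]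
        unfold fl
        rw [tl_vert, if_neg (by omega)]
        rfl
      rw [h3] at h2
      unfold InB at h2
      simp only at h2
      exact ⟨h2.1, h2.2.1, hall⟩
    · left
      refine ⟨hp hL x (fl i), hall, fun c => ?_⟩
      rw [fin_eq, hf]
      right; right
      rcases fcc_cases c j H true with h | h <;> rw [h] <;> simpa using hrH
  · left
    push Not at hall
    obtain ⟨h2, h3⟩ := Nat.find_spec hall
    set n := Nat.find hall with hn
    have hmin : ∀ t < n, InB x0 x1 0 r (hd ((nx (spx (XP hL x)))^[t] (fl i))) := by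
      intro t ht
      by_contra hc
      exact Nat.find_min hall ht ⟨by omega, hc⟩
    have hn0 : 0 < n := by
      rcases Nat.eq_zero_or_pos n with h4 | h4
      · exfalso
        rw [h4] at h3
        apply h3
        simp only [Function.iterate_zero, id_eq]
        rw [fl_hd hi]
        exact ⟨h0, h1, by norm_num, hr⟩
      · exact h4
    refine ⟨n, hmin, fun c => ?_⟩
    have h4 := hmin (n - 1) (by omega)
    have h5 : hd ((nx (spx (XP hL x)))^[n - 1] (fl i)) = tl ((nx (spx (XP hL x)))^[n] (fl i)) := by
      rw [← tl_nx (spx (XP hL x)), ← Function.iterate_succ_apply' (f := nx (spx (XP hL x)))]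
      rw [show (n - 1).succ = n by omega]
    rw [h5] at h4
    have h6 := (rows_even hL x hi n h2).1
    generalize (nx (spx (XP hL x)))^[n] (fl i) = f at h3 h4 h6 ⊢
    obtain ⟨⟨p, q⟩, d⟩ := f
    unfold InB at h3 h4
    unfold Farb
    cases d
    · rcases hd_tl_h p q with ⟨g1, g2⟩ | ⟨g1, g2⟩ <;> rw [g1] at h3 h6 <;> rw [g2] at h4 <;>
        simp only at h3 h4 h6 <;> rcases fcc_cases c p q false with h | h <;> rw [h] <;>
        simp only [Bool.false_eq_true, if_false] <;> omega
    · rcases hd_tl_v p q with ⟨g1, g2⟩ | ⟨g1, g2⟩ <;> rw [g1] at h3 h6 <;> rw [g2] at h4 <;>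
        simp only at h3 h4 h6 <;> rcases fcc_cases c p q true with h | h <;> rw [h] <;>
        simp only [if_true] <;> omega

/-- paths inside a floor box are paths of the cylinder -/
theorem tp_box (hL : L = 2 * H) (x : Ct M L H → Bool) {c : Bool} {x0 x1 r : ℤ} (hrH : r ≤ H)
    {F G : ℤ × ℤ} (h : TP (fun t => XP hL x t = c ∧ InB x0 x1 0 r t) F G) :
    TP (fun t => XP hL x t = c ∧ (1 ≤ t.2 ∧ t.2 ≤ H)) F G := by
  refine h.mono fun t ht => ⟨ht.1, ?_⟩
  obtain ⟨-, h2⟩ := ht
  unfold InB at h2
  omega

/-- **(B')** odd gap without local arcs over it -/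
theorem arm_odd (hL : L = 2 * H) (x : Ct M L H → Bool) {g r : ℤ} (hg : g % 2 = 1) (hr : 1 ≤ r)
    (hrH : r ≤ H) (hno : ∀ i j, sgm hL x i = some j → g - r < i → i ≤ g → g < j → j ≤ g + r → False) :
    ∃ G, TP (fun t => XP hL x t = false ∧ InB (g - r) (g + r) 0 r t) (g, 0) G ∧
      Farb (g - r) (g + r) r G := by
  have key : ∀ n : ℕ, ∀ y : ℤ, y % 2 = 1 → g ≤ y → y ≤ g + r → g + r - y ≤ n →
      TP (fun t => XP hL x t = false ∧ InB (g - r) (g + r) 0 r t) (g, 0) (y, 0) →
      ∃ G, TP (fun t => XP hL x t = false ∧ InB (g - r) (g + r) 0 r t) (g, 0) G ∧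
      Farb (g - r) (g + r) r G := by
    intro n
    induction n with
    | zero =>
      intro y hy h1 h2 h3 h4
      refine ⟨_, h4, ?_⟩
      right; left
      simp only
      omega
    | succ n ih =>
      intro y hy h1 h2 h3 h4
      rcases eq_or_lt_of_le h2 with h5 | h5
      · refine ⟨_, h4, ?_⟩
        right; left
        simp only
        omega
      · rcases strand_box hL x (i := y + 1) (x0 := g - r) (x1 := g + r) (by omega) hr hrH (by omega)
          (by omega) with ⟨m, hm1, hm2⟩ | ⟨j, hj, hf, hj0, hj1, hin⟩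
        · have h6 := path_face (XP hL x) false (fl (y + 1)) m _ hm1
          have h7 : fcc false (fl (y + 1)) = (y, 0) := by
            unfold fl
            rw [fcc_up false (by omega)]
            simp
          rw [h7] at h6
          exact ⟨_, h4.trans h6, hm2 false⟩
        · have h6 := path_face (XP hL x) false (fl (y + 1)) (hp hL x (fl (y + 1))) _ hin
          have h7 : fcc false (fl (y + 1)) = (y, 0) := by
            unfold fl
            rw [fcc_up false (by omega)]
            simp
          have h8 : fcc false (fl j) = (j, 0) := by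
            unfold fl
            rw [fcc_down false (by omega)]
            simp
          rw [fin_eq, hf, h7, h8] at h6
          have hs : sgm hL x (y + 1) = some j := (sgm_some hL x).2 hf
          have hs' := sgm_inv hL x _ _ hs
          rcases lt_or_ge y j with h9 | h9
          · exact ih j hj (by omega) (by omega) (by omega) (h4.trans h6)
          · rcases lt_or_ge g j with h10 | h10
            · exfalso
              have hgy : g < y := by omega
              obtain ⟨j', hj', -, hj2⟩ := joined hL x (c := false) (x1 := g) (x2 := y)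
                (by simpa using hg) (by simpa using hy) (tp_box hL x hrH h4) h10 h9
              rw [hs'] at hj'
              have := Option.some.inj hj'
              omega
            · exact (hno j (y + 1) hs' hj0 h10 (by omega) (by omega)).elim
  exact key (r.toNat) g hg le_rfl (by omega) (by omega) TP.refl

/-- **(B')** even gap without local arcs over it -/
theorem arm_even (hL : L = 2 * H) (x : Ct M L H → Bool) {g r : ℤ} (hg : g % 2 = 0) (hr : 1 ≤ r)
    (hrH : r ≤ H) (hno : ∀ i j, sgm hL x i = some j → g - r < i → i ≤ g → g < j → j ≤ g + r → False) :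
    ∃ G, TP (fun t => XP hL x t = true ∧ InB (g - r) (g + r) 0 r t) (g, 0) G ∧
      Farb (g - r) (g + r) r G := by
  have key : ∀ n : ℕ, ∀ y : ℤ, y % 2 = 0 → y ≤ g → g - r ≤ y → y - (g - r) ≤ n →
      TP (fun t => XP hL x t = true ∧ InB (g - r) (g + r) 0 r t) (g, 0) (y, 0) →
      ∃ G, TP (fun t => XP hL x t = true ∧ InB (g - r) (g + r) 0 r t) (g, 0) G ∧
      Farb (g - r) (g + r) r G := by
    intro n
    induction n with
    | zero =>
      intro y hy h1 h2 h3 h4
      refine ⟨_, h4, ?_⟩
      left
      simp only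
      omega
    | succ n ih =>
      intro y hy h1 h2 h3 h4
      rcases eq_or_lt_of_le h2 with h5 | h5
      · refine ⟨_, h4, ?_⟩
        left
        simp only
        omega
      · rcases strand_box hL x (i := y) (x0 := g - r) (x1 := g + r) (by omega) hr hrH (by omega)
          (by omega) with ⟨m, hm1, hm2⟩ | ⟨j, hj, hf, hj0, hj1, hin⟩
        · have h6 := path_face (XP hL x) true (fl y) m _ hm1
          have h7 : fcc true (fl y) = (y, 0) := by
            unfold fl
            rw [fcc_up true (by omega)]
            simp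
          rw [h7] at h6
          exact ⟨_, h4.trans h6, hm2 true⟩
        · have h6 := path_face (XP hL x) true (fl y) (hp hL x (fl y)) _ hin
          have h7 : fcc true (fl y) = (y, 0) := by
            unfold fl
            rw [fcc_up true (by omega)]
            simp
          have h8 : fcc true (fl j) = (j - 1, 0) := by
            unfold fl
            rw [fcc_down true (by omega)]
            simp
          rw [fin_eq, hf, h7, h8] at h6
          have hs : sgm hL x y = some j := (sgm_some hL x).2 hf
          have hs' := sgm_inv hL x _ _ hs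
          rcases lt_or_ge j y with h9 | h9
          · exact ih (j - 1) (by omega) (by omega) (by omega) (by omega) (h4.trans h6)
          · rcases lt_or_ge g j with h10 | h10
            · exact (hno y j hs h5 h1 h10 hj1).elim
            · exfalso
              have hyj : y < j := by
                have := sgm_ne hL x _ _ hs
                omega
              obtain ⟨j', hj', hj2, -⟩ := joined hL x (c := true) (x1 := y) (x2 := g)
                (by simpa using hy) (by simpa using hg) (tp_box hL x hrH h4.symm) hyj h10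
              rw [hs'] at hj'
              have := Option.some.inj hj'
              omega
  exact key (r.toNat) g hg le_rfl (by omega) (by omega) TP.refl

/-- **(A)** the strand of an even leg that does not end in the box gives two arms -/
theorem two_arms (hL : L = 2 * H) (x : Ct M L H → Bool) {i x0 x1 r : ℤ} (hi : i % 2 = 0)
    (hr : 1 ≤ r) (hrH : r ≤ H) (h0 : x0 < i) (h1 : i ≤ x1)
    (hno : ∀ j, sgm hL x i = some j → x0 < j → j ≤ x1 → False) :
    (∃ G, TP (fun t => XP hL x t = false ∧ InB x0 x1 0 r t) (i - 1, 0) G ∧ Farb x0 x1 r G) ∧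
    (∃ G, TP (fun t => XP hL x t = true ∧ InB x0 x1 0 r t) (i, 0) G ∧ Farb x0 x1 r G) := by
  rcases strand_box hL x hi hr hrH h0 h1 with ⟨m, hm1, hm2⟩ | ⟨j, hj, hf, hj0, hj1, hin⟩
  · have e1 := path_face (XP hL x) false (fl i) m _ hm1
    have e2 := path_face (XP hL x) true (fl i) m _ hm1
    have h7 : fcc false (fl i) = (i - 1, 0) := by
      unfold fl
      rw [fcc_up false (by omega)]
      simp
    have h8 : fcc true (fl i) = (i, 0) := by
      unfold fl
      rw [fcc_up true (by omega)]
      simp
    rw [h7] at e1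
    rw [h8] at e2
    exact ⟨⟨_, e1, hm2 false⟩, ⟨_, e2, hm2 true⟩⟩
  · exact (hno j ((sgm_some hL x).2 hf) hj0 hj1).elim

/-- the two faces paths along an arc: inner gaps and outer gaps -/
theorem arc_faces (hL : L = 2 * H) (x : Ct M L H → Bool) {i j : ℤ} (h : sgm hL x i = some j)
    (hij : i < j) :
    (j - i) % 2 = 1 ∧
    TP (fun t => XP hL x t = decide (i % 2 = 0) ∧ (1 ≤ t.2 ∧ t.2 ≤ H)) (i, 0) (j - 1, 0) ∧
    TP (fun t => XP hL x t = !decide (i % 2 = 0) ∧ (1 ≤ t.2 ∧ t.2 ≤ H)) (i - 1, 0) (j, 0) := by
  rcases Int.emod_two_eq_zero_or_one i with hi | hi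
  · have hf := (sgm_some hL x).1 h
    have hj : j % 2 = 1 := by
      rcases even_end hL x hi with ⟨j', hj', hf'⟩ | ⟨j', hj', hf'⟩
      · rw [hf] at hf'
        have : j = j' := congrArg (fun e : ME ℤ ℤ => e.1.1) hf'
        omega
      · rw [hf] at hf'
        have h1 : (0 : ℤ) = H := congrArg (fun e : ME ℤ ℤ => e.1.2) hf'
        have := H_pos hL
        omega
    have w1 := whole_face hL x true hi
    have w2 := whole_face hL x false hi
    rw [hf] at w1 w2
    unfold fl at w1 w2
    rw [fcc_down _ (by omega)] at w1 w2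
    have hd : decide (i % 2 = 0) = true := by simp [hi]
    rw [hd]
    simp only [if_true, Bool.false_eq_true, if_false, Bool.not_true] at w1 w2 ⊢
    exact ⟨by omega, w1, w2⟩
  · have h' := sgm_inv hL x _ _ h
    have hf := (sgm_some hL x).1 h'
    have hj : j % 2 = 0 := by
      by_contra hc
      have hj1 : j % 2 = 1 := by omega
      rcases odd_end hL x hi with ⟨j', hj', hf'⟩ | ⟨j', hj', hf'⟩
      · rw [(sgm_some hL x).1 h] at hf'
        have : j = j' := congrArg (fun e : ME ℤ ℤ => e.1.1) hf'
        omega
      · rw [(sgm_some hL x).1 h] at hf'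
        have h1 : (0 : ℤ) = -(H : ℤ) := congrArg (fun e : ME ℤ ℤ => e.1.2) hf'
        have := H_pos hL
        omega
    have w1 := whole_face hL x true hj
    have w2 := whole_face hL x false hj
    rw [hf] at w1 w2
    unfold fl at w1 w2
    rw [fcc_down _ (by omega)] at w1 w2
    have hd : decide (i % 2 = 0) = false := by simp [hi]
    rw [hd]
    simp only [if_true, Bool.false_eq_true, if_false, Bool.not_false] at w1 w2 ⊢
    exact ⟨by omega, w2.symm, w1.symm⟩

theorem near_aux (hL : L = 2 * H) (x : Ct M L H → Bool) {i j : ℤ} (h : sgm hL x i = some j)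
    (hij : i < j) : j - i < M := by
  by_contra hc
  push Not at hc
  obtain ⟨h1, h2, h3⟩ := arc_faces hL x h hij
  have hM : (M : ℤ) % 2 = 0 := by
    obtain ⟨m, hm⟩ := (inferInstance : Fact (Even M)).out
    omega
  have hM0 : 0 < M := Nat.pos_of_ne_zero (NeZero.ne M)
  have hs := sgm_per hL x i j h
  obtain ⟨g1, g2, g3⟩ := arc_faces hL x hs (by omega)
  have hdec : decide ((i + (M : ℤ)) % 2 = 0) = decide (i % 2 = 0) := by
    congr 1
    apply propext
    omega
  rw [hdec] at g3
  refine fcl (a := i) (b := i + M - 1) (c := j - 1) (d := j + M) (Y := H) (by omega) (by omega)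
    (by omega) h2 g3 (fun t a b => ?_) (fun t a => a.2) (fun t a => a.2) (by omega)
  have e1 := a.1
  have e2 := b.1
  rw [e1] at e2
  cases hd : decide (i % 2 = 0) <;> rw [hd] at e2 <;> simp at e2

/-- **the pattern axioms** -/
theorem pat (hL : L = 2 * H) (x : Ct M L H → Bool) : Pat M (sgm hL x) where
  per := sgm_per hL x
  per' := sgm_per' hL x
  inv := sgm_inv hL x
  ne := sgm_ne hL x
  near := by
    intro i j h
    rcases lt_trichotomy i j with h1 | h1 | h1
    · rw [abs_of_pos (by omega)]
      exact near_aux hL x h h1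
    · exact absurd h1.symm (sgm_ne hL x _ _ h)
    · rw [abs_of_neg (by omega)]
      have := near_aux hL x (sgm_inv hL x _ _ h) h1
      omega

end Box

end Crest.Agent.R158.Hp854
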