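import Mathlib
import Crest.Agent.R158.Hp11_854
import Crest.Agent.R158.Hr2_440
import Crest.Agent.R158.Fl5_440
import Crest.Agent.R158.Nz3_399

/-!
# Row 158, block Q1d (helper440): two arms in strand form at a flat wall

* `Wk2 n` : the walk of `nx6 s` from `((0,0),N)` above the floor `0 ≤ y` reaches sup-distance `n`
* `E2 n` : the two arm event, `wk2_sub : Wk2 n ⊆ E2 n`, `E2_dep` (tiles `Tk .mk n`), `E2_le`, `E2_ge`
* `Wk2p g a n`, `E2p g a n` : the same at the vertex `a` after `g` quarter turns; `wk2p_sub`,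
  `E2p_chart_dep`, `E2p_chart_prob` : in a chart `rd emb F`
-/

set_option autoImplicit false
set_option linter.unusedSimpArgs false
set_option linter.unusedVariables false

noncomputable section

namespace Crest.Agent.R158.Tw440

open MeasureTheory ProbabilityTheory unitInterval
open Crest.Agent.R161.Geo729
open Crest.Agent.R158.Bk430 (ME HasPar vp hd tl nx tl_nx)
open Crest.Agent.R158.Rs689 Crest.Agent.R158.Mr679 Crest.Agent.R158.Fl440
open Crest.Agent.R158.Hp854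
open Crest.Agent.R158.Nm211 (Dir dx dy trn St mv nx6 Hit KK Far rd integral_transport)
open Crest.Agent.R158.Nz399 (Kind Tk mem_Tk rt rs od pl ps nx_ps rs_iter_fst pl_inj ps_inj)

universe u

/-! ### from raw splittings to tile fields -/

/-- the tile field of a raw splitting whose floor is below the row `0` -/
def Xs (s : ℤ × ℤ → Bool) : TF := fun t => !(xor (s (t.1, t.2 - 1)) (vp (t : ℤ × ℤ)))

theorem spx_Xs (s : ℤ × ℤ → Bool) : spx (Xs s) = fun t : ℤ × ℤ => s (t.1, t.2 - 1) := by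
  funext t
  unfold spx Xs
  cases s (t.1, t.2 - 1) <;> cases vp (t : ℤ × ℤ) <;> rfl

/-- translation upwards by one row -/
def up (c : St ℤ) : St ℤ := ((c.1.1, c.1.2 + 1), c.2)

theorem up_nx (s : ℤ × ℤ → Bool) (c : St ℤ) :
    nx6 (fun t : ℤ × ℤ => s (t.1, t.2 - 1)) (up c) = up (nx6 s c) := by
  obtain ⟨⟨a, b⟩, d⟩ := c
  simp only [up, nx6, mv, add_sub_cancel_right, Prod.mk.injEq, and_true, true_and]
  ring

theorem up_iter (s : ℤ × ℤ → Bool) (c : St ℤ) (k : ℕ) :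
    (nx6 (fun t : ℤ × ℤ => s (t.1, t.2 - 1)))^[k] (up c) = up ((nx6 s)^[k] c) := by
  induction k with
  | zero => rfl
  | succ k ih => rw [Function.iterate_succ_apply', Function.iterate_succ_apply', ih, up_nx]

/-- start of the strand -/
def st0 : St ℤ := ((0, 0), 0)

theorem cs_fl0 : cs (fl 0) = up st0 := by
  unfold cs fl up st0
  rw [hd_vert]
  have : vp ((0, 0) : ℤ × ℤ) = false := by rw [Ts405.vp_int]; rfl
  simp [this]

theorem hd_iter (s : ℤ × ℤ → Bool) (k : ℕ) :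
    hd ((nx (spx (Xs s)))^[k] (fl 0)) =
      (((nx6 s)^[k] st0).1.1, ((nx6 s)^[k] st0).1.2 + 1) := by
  have h1 := cs_iter (spx (Xs s)) (fl 0) k
  rw [cs_fl0, spx_Xs, up_iter] at h1
  rw [spx_Xs]
  exact congrArg Prod.fst h1

/-! ### leaving a box -/

theorem leave_box (X : TF) {x0 x1 r : ℤ} (h0 : x0 < 0) (h1 : 0 ≤ x1) (hr : 1 ≤ r) {k : ℕ}
    (hrow : ∀ j ≤ k, 1 ≤ (hd ((nx (spx X))^[j] (fl 0))).2)
    (hk : ¬ InB x0 x1 0 r (hd ((nx (spx X))^[k] (fl 0)))) :
    ∃ n, (∀ t < n, InB x0 x1 0 r (hd ((nx (spx X))^[t] (fl 0)))) ∧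
      ∀ c, Farb x0 x1 r (fcc c ((nx (spx X))^[n] (fl 0))) := by
  classical
  have hex : ∃ n, n ≤ k ∧ ¬ InB x0 x1 0 r (hd ((nx (spx X))^[n] (fl 0))) := ⟨k, le_rfl, hk⟩
  obtain ⟨h2, h3⟩ := Nat.find_spec hex
  set n := Nat.find hex with hn
  have hmin : ∀ t < n, InB x0 x1 0 r (hd ((nx (spx X))^[t] (fl 0))) := by
    intro t ht
    by_contra hc
    exact Nat.find_min hex ht ⟨by omega, hc⟩
  have hn0 : 0 < n := by
    rcases Nat.eq_zero_or_pos n with h4 | h4
    · exfalso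
      rw [h4] at h3
      apply h3
      simp only [Function.iterate_zero, id_eq]
      rw [fl_hd (by norm_num)]
      exact ⟨h0, h1, by norm_num, hr⟩
    · exact h4
  refine ⟨n, hmin, fun c => ?_⟩
  have h4 := hmin (n - 1) (by omega)
  have h5 : hd ((nx (spx X))^[n - 1] (fl 0)) = tl ((nx (spx X))^[n] (fl 0)) := by
    rw [← tl_nx (spx X), ← Function.iterate_succ_apply' (f := nx (spx X))]
    rw [show (n - 1).succ = n by omega]
  rw [h5] at h4
  have h6 := hrow n h2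
  generalize (nx (spx X))^[n] (fl 0) = f at h3 h4 h6 ⊢
  obtain ⟨⟨p, q⟩, d⟩ := f
  unfold InB at h3 h4
  unfold Farb
  cases d
  · rcases hd_tl_h p q with ⟨g1, g2⟩ | ⟨g1, g2⟩ <;> rw [g1] at h3 h6 <;> rw [g2] at h4 <;>
      simp only at h3 h4 h6 <;> rcases fcc_cases c p q false with h | h <;> rw [h] <;>
      simp only [Bool.false_eq_true, if_false] <;> omega
  · rcases hd_tl_v p q with ⟨g1, g2⟩ | ⟨g1, g2⟩ <;> rw [g1] at h3 h6 <;> rw [g2] at h4 <;>
      simp only at h3 h4 h6 <;> rcases fcc_cases c p q true with h | h <;> rw [h] <;>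
      simp only [if_true] <;> omega

/-! ### the events -/

/-- the walk from `((0,0),N)` above the floor reaches sup-distance `n` -/
def Wk2 (n : ℕ) : Set (ℤ × ℤ → Bool) :=
  {s | ∃ k, (∀ j < k, 0 ≤ ((nx6 s)^[j] st0).1.2) ∧ Far n st0 ((nx6 s)^[k] st0)}

/-- the two arm event of radius `n` at the leg of the tile `(0,0)` -/
def E2 (n : ℕ) : Set (ℤ × ℤ → Bool) := {s | Xs s ∈ AT (-1) (n - 1) ∩ AT (-1 + 1) (n - 1)}

theorem dy_abs (d : Dir) : -1 ≤ dy d ∧ dy d ≤ 1 := by fin_cases d <;> simp [dy]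

theorem nx6_fst (s : ℤ × ℤ → Bool) (c : St ℤ) :
    (nx6 s c).1 = (c.1.1 + dx (trn (s c.1) c.2), c.1.2 + dy (trn (s c.1) c.2)) := by
  simp [nx6, mv]

theorem wk2_exit {n : ℕ} (hn : 2 ≤ n) {s : ℤ × ℤ → Bool} (h : s ∈ Wk2 n) :
    ∃ k, (∀ j ≤ k, 0 ≤ ((nx6 s)^[j] st0).1.2) ∧
      ((((nx6 s)^[k] st0).1.1 ≤ -(n : ℤ) ∨ (n : ℤ) ≤ ((nx6 s)^[k] st0).1.1) ∨
        (n : ℤ) ≤ ((nx6 s)^[k] st0).1.2) := by
  obtain ⟨k, h1, h2⟩ := h
  have h2' : (n : ℤ) ≤ |((nx6 s)^[k] st0).1.1| ∨ (n : ℤ) ≤ |((nx6 s)^[k] st0).1.2| := by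
    have h3 : Far n st0 ((nx6 s)^[k] st0) := h2
    unfold Nm211.Far st0 at h3
    simpa [st0] using h3
  have hk0 : 0 < k := by
    rcases Nat.eq_zero_or_pos k with h | h
    · subst h
      simp [st0] at h2'
      omega
    · exact h
  obtain ⟨m, rfl⟩ : ∃ m, k = m + 1 := ⟨k - 1, by omega⟩
  have h3 := h1 m (by omega)
  have h4 := nx6_fst s ((nx6 s)^[m] st0)
  rw [← Function.iterate_succ_apply' (f := nx6 s)] at h4
  by_cases hy : 0 ≤ ((nx6 s)^[m + 1] st0).1.2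
  · refine ⟨m + 1, fun j hj => ?_, ?_⟩
    · rcases Nat.lt_or_ge j (m + 1) with h5 | h5
      · exact h1 j h5
      · rw [show j = m + 1 by omega]; exact hy
    · rcases h2' with h5 | h5
      · left
        rcases le_abs.1 h5 with h6 | h6
        · right; exact h6
        · left; omega
      · right
        rw [abs_of_nonneg hy] at h5
        exact h5
  · -- the last step goes down through the floor
    push Not at hy
    refine ⟨m, fun j hj => h1 j (by omega), ?_⟩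
    have h5 : ((nx6 s)^[m + 1] st0).1.2 = ((nx6 s)^[m] st0).1.2 +
        dy (trn (s ((nx6 s)^[m] st0).1) ((nx6 s)^[m] st0).2) := congrArg Prod.snd h4
    have h6 : ((nx6 s)^[m + 1] st0).1.1 = ((nx6 s)^[m] st0).1.1 +
        dx (trn (s ((nx6 s)^[m] st0).1) ((nx6 s)^[m] st0).2) := congrArg Prod.fst h4
    have h7 := dy_abs (trn (s ((nx6 s)^[m] st0).1) ((nx6 s)^[m] st0).2)
    have h8 : dy (trn (s ((nx6 s)^[m] st0).1) ((nx6 s)^[m] st0).2) = -1 := by omega
    have h9 : dx (trn (s ((nx6 s)^[m] st0).1) ((nx6 s)^[m] st0).2) = 0 := by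
      generalize trn (s ((nx6 s)^[m] st0).1) ((nx6 s)^[m] st0).2 = d at h8
      revert h8
      fin_cases d <;> simp [dx, dy]
    rw [h9, add_zero] at h6
    rcases h2' with h10 | h10
    · left
      rw [h6] at h10
      rcases le_abs.1 h10 with h11 | h11
      · right; exact h11
      · left; omega
    · exfalso
      have h11 : ((nx6 s)^[m + 1] st0).1.2 = -1 := by omega
      rw [h11] at h10
      simp at h10
      omega

theorem AT_zero (g : ℤ) (X : TF) : X ∈ AT g 0 := by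
  refine ⟨(g, 0), ?_, TP.refl⟩
  left
  simp

/-- **a strand that goes far gives two arms** -/
theorem wk2_sub {n : ℕ} (hn : 1 ≤ n) : Wk2 n ⊆ E2 n := by
  intro s hs
  rcases Nat.lt_or_ge n 2 with h1 | h1
  · have : n = 1 := by omega
    subst this
    exact ⟨AT_zero _ _, AT_zero _ _⟩
  obtain ⟨k, h2, h3⟩ := wk2_exit h1 hs
  have hrow : ∀ j ≤ k, 1 ≤ (hd ((nx (spx (Xs s)))^[j] (fl 0))).2 := by
    intro j hj
    rw [hd_iter]
    have := h2 j hj
    simp only
    omega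
  have hc : (((n - 1 : ℕ) : ℤ)) = n - 1 := by omega
  constructor
  · have hk : ¬ InB (-1 - ((n - 1 : ℕ) : ℤ)) (-1 + ((n - 1 : ℕ) : ℤ)) 0 ((n - 1 : ℕ) : ℤ)
        (hd ((nx (spx (Xs s)))^[k] (fl 0))) := by
      rw [hd_iter, hc]
      unfold InB
      simp only
      omega
    obtain ⟨m, hm1, hm2⟩ := leave_box (Xs s) (by omega) (by omega) (by omega) hrow hk
    have e1 := path_face (Xs s) false (fl 0) m _ hm1
    have h7 : fcc false (fl 0) = (-1, 0) := by
      unfold fl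
      rw [fcc_up false (by norm_num)]
      simp
    rw [h7] at e1
    refine ⟨_, hm2 false, e1.mono fun t ht => ⟨?_, ht.2⟩⟩
    rw [ht.1]
    rfl
  · have hk : ¬ InB (-1 + 1 - ((n - 1 : ℕ) : ℤ)) (-1 + 1 + ((n - 1 : ℕ) : ℤ)) 0 ((n - 1 : ℕ) : ℤ)
        (hd ((nx (spx (Xs s)))^[k] (fl 0))) := by
      rw [hd_iter, hc]
      unfold InB
      simp only
      omega
    obtain ⟨m, hm1, hm2⟩ := leave_box (Xs s) (by omega) (by omega) (by omega) hrow hk
    have e1 := path_face (Xs s) true (fl 0) m _ hm1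
    have h7 : fcc true (fl 0) = (-1 + 1, 0) := by
      unfold fl
      rw [fcc_up true (by norm_num)]
      simp
    rw [h7] at e1
    refine ⟨_, hm2 true, e1.mono fun t ht => ⟨?_, ht.2⟩⟩
    rw [ht.1]
    rfl

/-! ### locality and law -/

theorem E2_dep {n : ℕ} (hn : 1 ≤ n) : Dep (Tk .mk n) (E2 n) := by
  intro s s' h
  have hX : ∀ t ∈ bxF (-(n : ℤ)) (n - 1) 0 (n - 1), Xs s t = Xs s' t := by
    intro t ht
    rw [mem_bxF] at ht
    unfold InB at ht
    unfold Xs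
    rw [h (t.1, t.2 - 1)]
    rw [mem_Tk]
    unfold Nz399.qd
    simp only
    omega
  have hc : (((n - 1 : ℕ) : ℤ)) = n - 1 := by omega
  have g1 := (AT_dep (-1) (n - 1)).mono (T := bxF (-(n : ℤ)) (n - 1) 0 (n - 1)) (by
    intro t ht
    rw [mem_bxF] at ht ⊢
    unfold InB at ht ⊢
    omega)
  have g2 := (AT_dep (-1 + 1) (n - 1)).mono (T := bxF (-(n : ℤ)) (n - 1) 0 (n - 1)) (by
    intro t ht
    rw [mem_bxF] at ht ⊢
    unfold InB at ht ⊢
    omega)
  exact and_congr (g1 _ _ hX) (g2 _ _ hX)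

/-- law of a local event in a chart -/
theorem law_chart {τ : Type u} {T : Finset (ℤ × ℤ)} {A : Set (ℤ × ℤ → Bool)} (hA : Dep T A)
    {g : ℤ × ℤ → τ} (hg : Set.InjOn g T) (F : ℤ × ℤ → Bool) :
    (PB fun _ : τ => hf).real {s | (fun v => xor (F v) (s (g v))) ∈ A} =
      (PB fun _ : ℤ × ℤ => hf).real A := by
  classical
  have hm : Measurable fun (s : τ → Bool) (v : ℤ × ℤ) => xor (F v) (s (g v)) :=
    Nm211.measurable_flip F g
  have hd : Nm211.DepF T (A.indicator fun _ => (1 : ℝ)) := by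
    intro z z' hz
    by_cases hzA : z ∈ A
    · rw [Set.indicator_of_mem hzA, Set.indicator_of_mem ((hA z z' hz).1 hzA)]
    · rw [Set.indicator_of_notMem hzA, Set.indicator_of_notMem fun h => hzA ((hA z z' hz).2 h)]
  have h1 := integral_transport hg F hd
  rw [integral_indicator hA.measurableSet] at h1
  simp only [integral_const, MeasurableSet.univ, measureReal_restrict_apply, Set.univ_inter,
    smul_eq_mul, mul_one] at h1
  rw [← h1]
  have h2 : (fun s : τ → Bool => A.indicator (fun _ => (1 : ℝ)) fun e => xor (F e) (s (g e))) =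
      ({s : τ → Bool | (fun v => xor (F v) (s (g v))) ∈ A}).indicator fun _ => (1 : ℝ) := by
    funext s
    rfl
  have hm2 : MeasurableSet {s : τ → Bool | (fun v => xor (F v) (s (g v))) ∈ A} :=
    hm hA.measurableSet
  rw [h2, integral_indicator hm2]
  simp only [integral_const, MeasurableSet.univ, measureReal_restrict_apply, Set.univ_inter,
    smul_eq_mul, mul_one]

theorem E2_prob (n : ℕ) : (PB fun _ : ℤ × ℤ => hf).real (E2 n) =
    (tau hf).real (AT (-1) (n - 1) ∩ AT (-1 + 1) (n - 1)) := by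
  have hd : Dep (bxF (-1 - ((n - 1 : ℕ) : ℤ)) (-1 + 1 + ((n - 1 : ℕ) : ℤ)) 0 ((n - 1 : ℕ) : ℤ))
      (AT (-1) (n - 1) ∩ AT (-1 + 1) (n - 1)) := by
    refine Dep.inter ((AT_dep (-1) (n - 1)).mono ?_) ((AT_dep (-1 + 1) (n - 1)).mono ?_)
    · intro t ht
      rw [mem_bxF] at ht ⊢
      unfold InB at ht ⊢
      omega
    · intro t ht
      rw [mem_bxF] at ht ⊢
      unfold InB at ht ⊢
      omega
  have hg : Set.InjOn (fun t : ℤ × ℤ => (t.1, t.2 - 1))
      (bxF (-1 - ((n - 1 : ℕ) : ℤ)) (-1 + 1 + ((n - 1 : ℕ) : ℤ)) 0 ((n - 1 : ℕ) : ℤ)) := by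
    rintro ⟨a, b⟩ _ ⟨c, d⟩ _ h
    simp only [Prod.mk.injEq] at h
    exact Prod.ext h.1 (by simp only; omega)
  have h1 := law_chart hd hg (fun v => !vp (v : ℤ × ℤ))
  have h2 : {s : ℤ × ℤ → Bool | (fun v : ℤ × ℤ => xor (!vp (v : ℤ × ℤ)) (s (v.1, v.2 - 1))) ∈
      AT (-1) (n - 1) ∩ AT (-1 + 1) (n - 1)} = E2 n := by
    ext s
    have : (fun v : ℤ × ℤ => xor (!vp (v : ℤ × ℤ)) (s (v.1, v.2 - 1))) = Xs s := by
      funext v
      unfold Xs
      cases s (v.1, v.2 - 1) <;> cases vp (v : ℤ × ℤ) <;> rfl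
    simp only [Set.mem_ofPred_eq, this]
    rfl
  rw [← h2]
  exact h1

/-- **upper bound** -/
theorem E2_le : ∃ C : ℝ, 0 < C ∧ ∀ n : ℕ, 1 ≤ n →
    (PB fun _ : ℤ × ℤ => hf).real (E2 n) ≤ C / n := by
  obtain ⟨C, hC, h⟩ := two_tile
  refine ⟨max (2 * C) 1, lt_max_of_lt_right one_pos, fun n hn => ?_⟩
  have hn0 : (0 : ℝ) < n := by exact_mod_cast hn
  rcases Nat.lt_or_ge n 2 with h1 | h1
  · have : n = 1 := by omega
    subst this
    refine (measureReal_le_one).trans ?_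
    simp
  · rw [E2_prob]
    refine (h (-1) (n - 1) (by omega)).trans ?_
    have h2 : (n : ℝ) ≤ 2 * ((n - 1 : ℕ) : ℝ) := by
      have : n ≤ 2 * (n - 1) := by omega
      exact_mod_cast this
    have h3 : (0 : ℝ) < ((n - 1 : ℕ) : ℝ) := by
      have : 0 < n - 1 := by omega
      exact_mod_cast this
    rw [div_le_div_iff₀ h3 hn0]
    have h4 : 2 * C ≤ max (2 * C) 1 := le_max_left _ _
    nlinarith

/-- **lower bound** -/
theorem E2_ge : ∃ c : ℝ, 0 < c ∧ ∀ n : ℕ, 1 ≤ n →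
    c / n ≤ (PB fun _ : ℤ × ℤ => hf).real (E2 n) := by
  obtain ⟨c, hc, h⟩ := two_tile_lower
  refine ⟨min c 1, lt_min hc one_pos, fun n hn => ?_⟩
  have hn0 : (0 : ℝ) < n := by exact_mod_cast hn
  rcases Nat.lt_or_ge n 2 with h1 | h1
  · have : n = 1 := by omega
    subst this
    have hu : E2 1 = Set.univ := by
      ext s
      exact ⟨fun _ => trivial, fun _ => ⟨AT_zero _ _, AT_zero _ _⟩⟩
    rw [hu, probReal_univ]
    simp
  · rw [E2_prob]
    refine le_trans ?_ (h (-1) (n - 1) (by omega))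
    have h3 : (0 : ℝ) < ((n - 1 : ℕ) : ℝ) := by
      have : 0 < n - 1 := by omega
      exact_mod_cast this
    have h2 : ((n - 1 : ℕ) : ℝ) ≤ n := by
      have : n - 1 ≤ n := by omega
      exact_mod_cast this
    have h4 : min c 1 ≤ c := min_le_left _ _
    calc min c 1 / (n : ℝ) ≤ c / n := by gcongr
      _ ≤ c / ((n - 1 : ℕ) : ℝ) := by gcongr

/-! ### general position and charts -/

/-- the walk from the leg at the vertex `a`, rotated `g` times -/
def Wk2p (g : ℕ) (a : ℤ × ℤ) (n : ℕ) : Set (ℤ × ℤ → Bool) :=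
  {s | ∃ k, (∀ j < k, (nx6 s)^[j] (ps g a st0) ∈ ps g a '' {c : St ℤ | 0 ≤ c.1.2}) ∧
    Far n (ps g a st0) ((nx6 s)^[k] (ps g a st0))}

/-- the two arm event at the vertex `a`, rotated `g` times -/
def E2p (g : ℕ) (a : ℤ × ℤ) (n : ℕ) : Set (ℤ × ℤ → Bool) :=
  {s | (fun v => xor (od g) (s (pl g a v))) ∈ E2 n}

theorem ps_iter (g : ℕ) (a : ℤ × ℤ) (s : ℤ × ℤ → Bool) (c : St ℤ) (k : ℕ) :
    (nx6 s)^[k] (ps g a c) = ps g a ((nx6 fun v => xor (od g) (s (pl g a v)))^[k] c) := by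
  induction k with
  | zero => rfl
  | succ k ih => rw [Function.iterate_succ_apply', Function.iterate_succ_apply', ih, nx_ps]

theorem far_rt {n : ℕ} (g : ℕ) (v w : ℤ × ℤ) :
    ((n : ℤ) ≤ |(rt^[g] w).1 - (rt^[g] v).1| ∨ (n : ℤ) ≤ |(rt^[g] w).2 - (rt^[g] v).2|) ↔
      ((n : ℤ) ≤ |w.1 - v.1| ∨ (n : ℤ) ≤ |w.2 - v.2|) := by
  induction g with
  | zero => exact Iff.rfl
  | succ g ih =>
    rw [Function.iterate_succ_apply', Function.iterate_succ_apply', ← ih]
    generalize rt^[g] w = w'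
    generalize rt^[g] v = v'
    unfold rt
    simp only
    rw [show -w'.2 - 1 - (-v'.2 - 1) = -(w'.2 - v'.2) by ring, abs_neg, or_comm]

theorem far_ps {n : ℕ} (g : ℕ) (a : ℤ × ℤ) (c c' : St ℤ) :
    Far n (ps g a c) (ps g a c') ↔ Far n c c' := by
  unfold Nm211.Far ps
  simp only [rs_iter_fst, Prod.fst_add, Prod.snd_add, add_sub_add_right_eq_sub]
  exact far_rt g c.1 c'.1

theorem wk2p_sub {g : ℕ} {a : ℤ × ℤ} {n : ℕ} (hn : 1 ≤ n) : Wk2p g a n ⊆ E2p g a n := by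
  rintro s ⟨k, h1, h2⟩
  refine wk2_sub hn ⟨k, fun j hj => ?_, ?_⟩
  · have h3 := h1 j hj
    rw [ps_iter, (ps_inj g a).mem_set_image] at h3
    exact h3
  · rw [ps_iter, far_ps] at h2
    exact h2

theorem E2p_chart_dep {τ : Type u} [DecidableEq τ] {g : ℕ} {a : ℤ × ℤ} {n : ℕ} (hn : 1 ≤ n)
    (emb : ℤ × ℤ → τ) (F : ℤ × ℤ → Bool) :
    Dep ((Tk .mk n).image fun v => emb (pl g a v)) {s : τ → Bool | rd emb F s ∈ E2p g a n} := by
  intro s s' h
  refine E2_dep hn _ _ fun v hv => ?_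
  simp only [rd]
  rw [h _ (Finset.mem_image_of_mem _ hv)]

theorem E2p_chart_prob {τ : Type u} {g : ℕ} {a : ℤ × ℤ} {n : ℕ} (hn : 1 ≤ n)
    (emb : ℤ × ℤ → τ) (F : ℤ × ℤ → Bool)
    (hinj : Set.InjOn (fun v => emb (pl g a v)) (Tk .mk n : Set (ℤ × ℤ))) :
    (PB fun _ : τ => hf).real {s : τ → Bool | rd emb F s ∈ E2p g a n} =
      (PB fun _ : ℤ × ℤ => hf).real (E2 n) := by
  rw [← law_chart (E2_dep hn) hinj fun v => xor (od g) (F (pl g a v))]
  congr 1
  ext s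
  simp only [E2p, rd, Set.mem_ofPred_eq, Bool.xor_assoc]

end Crest.Agent.R158.Tw440
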