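import Crest.Agent.R158.Mr3_679

/-!
# Row 158, Block MR (helper679): transport of laws, channels, annuli

* `PB_transport` : an event that depends on a finite set on which `j` is injective has the same
  probability when it is read through `j` (windows of rings, charts)
* `PB_half_count`, `PB_half_integral` : uniform law on a finite index type
* `indep_le` : `P(⋂ A_i) ≤ q ^ J` for independent events
* `chan_le` : no bottom-top crossing in any of `R` adjacent squares, `≤ (1 - c) ^ R`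
* `RingX b c r` : the four crossings of the square annulus `B(3r) \ B(r)`; `ring_block` : it blocks
  every path on the other sublattice through tiles `X = false`
* `web_le`, `web_pow` : webs on both sublattices in one of the dyadic annuli
-/

set_option autoImplicit false

noncomputable section

namespace Crest.Agent.R158.Mr679

open MeasureTheory ProbabilityTheory unitInterval
open Crest.Agent.R161.Geo729 Crest.Agent.R161.Topo374 Crest.Agent.R161.Dual374
open Crest.Agent.R158.Rs689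

/-! ### transport -/

section transport

variable {ι κ : Type*}

/-- pull back of an event along a map of indices -/
def pullE (j : κ → ι) (A : Set (κ → Bool)) : Set (ι → Bool) := {z | (fun k => z (j k)) ∈ A}

theorem pullE_dep [DecidableEq ι] {j : κ → ι} {S : Finset κ} {A : Set (κ → Bool)} (hA : Dep S A) :
    Dep (S.image j) (pullE j A) := by
  intro z z' h
  exact hA _ _ fun _ he => h _ (Finset.mem_image_of_mem j he)

theorem pullE_inc {j : κ → ι} {A : Set (κ → Bool)} (hA : Inc A) : Inc (pullE j A) :=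
  fun _ _ h hz => hA _ _ (fun _ he => h _ he) hz

/-- **transport**: only injectivity on the support is needed -/
theorem PB_transport (p : I) {j : κ → ι} {S : Finset κ} {A : Set (κ → Bool)} (hA : Dep S A)
    (hj : Set.InjOn j S) :
    (PB fun _ : ι => p).real (pullE j A) = (PB fun _ : κ => p).real A := by
  classical
  -- restrict both sides to `S`
  set A' : Set (S → Bool) := trc S A with hA'
  have h1 : A = (fun (z : κ → Bool) (k : S) => z k) ⁻¹' A' := hA.preim
  have hm : MeasurableSet A' := (Set.toFinite _).measurableSet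
  have h2 := PB_map_inj (ι := κ) (κ := S) (j := fun k : S => (k : κ)) Subtype.val_injective
    (fun _ : κ => p)
  have h3 := PB_map_inj (ι := ι) (κ := S) (j := fun k : S => j k)
    (fun a b hab => Subtype.ext (hj a.2 b.2 hab)) (fun _ : ι => p)
  have m2 : Measurable (fun (z : κ → Bool) (k : S) => z k) :=
    measurable_pi_lambda _ fun k => measurable_pi_apply _
  have m3 : Measurable (fun (z : ι → Bool) (k : S) => z (j k)) :=
    measurable_pi_lambda _ fun k => measurable_pi_apply _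
  have e2 : (PB fun _ : κ => p).real A = (PB fun _ : S => p).real A' := by
    rw [← h2, measureReal_def, measureReal_def, Measure.map_apply m2 hm, ← h1]
  have e3 : (PB fun _ : ι => p).real (pullE j A) = (PB fun _ : S => p).real A' := by
    rw [← h3, measureReal_def, measureReal_def, Measure.map_apply m3 hm]
    congr 2
    ext z
    show (fun k => z (j k)) ∈ A ↔ _
    rw [h1]
    rfl
  rw [e2, e3]

end transport

/-! ### the uniform law on a finite index type -/

section finite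

variable {ι : Type*} [Fintype ι]

open Classical in
theorem PB_half_integral (f : (ι → Bool) → ℝ) :
    ∫ z, f z ∂(PB fun _ : ι => hf) = (1 / 2) ^ Fintype.card ι * ∑ z, f z := by
  have h : PB (fun _ : ι => hf) = Measure.pi fun _ : ι => bern hf := by
    unfold PB
    exact Measure.infinitePi_eq_pi _
  rw [h, integral_fintype Integrable.of_finite, Finset.mul_sum]
  refine Finset.sum_congr rfl fun z _ => ?_
  rw [measureReal_def, Measure.pi_singleton, ENNReal.toReal_prod, smul_eq_mul]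
  congr 1
  rw [Finset.prod_congr rfl (g := fun _ => (1 / 2 : ℝ)), Finset.prod_const, Finset.card_univ]
  intro i _
  have h1 := bern_real_true hf
  have h2 := bern_real_false hf
  simp only [measureReal_def] at h1 h2
  cases z i
  · rw [h2, hf_coe]; norm_num
  · rw [h1, hf_coe]

open Classical in
theorem PB_half_count (A : Set (ι → Bool)) :
    (PB fun _ : ι => hf).real A =
      (1 / 2) ^ Fintype.card ι * ((Finset.univ.filter fun z => z ∈ A).card : ℝ) := by
  have h := PB_half_integral (A.indicator fun _ => (1 : ℝ))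
  rw [integral_indicator_const _ (Set.toFinite A).measurableSet] at h
  simp only [smul_eq_mul, mul_one] at h
  rw [h]
  congr 1
  rw [Finset.card_filter]
  push_cast
  refine Finset.sum_congr rfl fun z _ => ?_
  by_cases hz : z ∈ A <;> simp [hz]

end finite

/-! ### independent events -/

theorem indep_le {ι κ : Type*} (w : ι → I) (s : Finset κ) (S : κ → Finset ι)
    (hS : ∀ i ∈ s, ∀ j ∈ s, i ≠ j → Disjoint (S i) (S j)) (A : κ → Set (ι → Bool))
    (hA : ∀ i ∈ s, Dep (S i) (A i)) {q : ℝ} (hq : ∀ i ∈ s, (PB w).real (A i) ≤ q) :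
    (PB w).real (⋂ i ∈ s, A i) ≤ q ^ s.card := by
  rw [PB_indep_prod w s S hS A hA, ← Finset.prod_const]
  exact Finset.prod_le_prod (fun _ _ => measureReal_nonneg) hq

theorem real_compl {p : I} {A : Set TF} (hA : MeasurableSet A) {c : ℝ}
    (h : c ≤ (tau p).real A) : (tau p).real Aᶜ ≤ 1 - c := by
  rw [probReal_compl_eq_one_sub hA]
  linarith

/-! ### channels -/

/-- no bottom-top crossing in `R` adjacent squares -/
theorem chan_le : ∃ q : ℝ, 0 < q ∧ q < 1 ∧ ∀ (h R : ℕ), 1 ≤ h → ∀ b x0 y0 : ℤ,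
    (tau hf).real {X | ∀ i < R, X ∉ BX b (x0 + i * h) (x0 + (i + 1) * h) y0 (y0 + h)} ≤ q ^ R := by
  obtain ⟨c, hc, hc1, h1⟩ := rsw_bx 1
  refine ⟨1 - c / 2, by linarith, by linarith, fun h R hh b x0 y0 => ?_⟩
  have h2 := indep_le (fun _ : P2 => hf) (Finset.range R)
    (fun i => bxF (x0 + i * h) (x0 + (i + 1) * h) y0 (y0 + h)) (by
      intro i _ j _ hij
      rw [Finset.disjoint_left]
      intro t ht ht'
      rw [mem_bxF] at ht ht'
      unfold InB at ht ht'
      rcases lt_or_gt_of_ne hij with h3 | h3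
      · have h4 : ((i : ℤ) + 1) * h ≤ j * h := by
          have : (i : ℤ) + 1 ≤ j := by exact_mod_cast h3
          nlinarith
        omega
      · have h4 : ((j : ℤ) + 1) * h ≤ i * h := by
          have : (j : ℤ) + 1 ≤ i := by exact_mod_cast h3
          nlinarith
        omega)
    (fun i => (BX b (x0 + i * h) (x0 + (i + 1) * h) y0 (y0 + h))ᶜ)
    (fun i _ => (bx_dep _ _ _ _ _).compl) (q := 1 - c / 2) (by
      intro i _
      have h5 := h1 h hh b (x0 + i * h) y0
      have e1 : x0 + (i : ℤ) * h + h = x0 + (i + 1) * h := by ring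
      have e2 : y0 + ((1 : ℕ) : ℤ) * h = y0 + h := by push_cast; ring
      rw [e1, e2] at h5
      have := real_compl (bx_meas b (x0 + i * h) (x0 + (i + 1) * h) y0 (y0 + h)) h5
      show (tau hf).real _ ≤ _
      linarith)
  rw [Finset.card_range] at h2
  refine le_trans (le_of_eq ?_) h2
  show (tau hf).real _ = (tau hf).real _
  congr 1
  ext X
  simp only [Set.mem_ofPred_eq, Set.mem_iInter, Finset.mem_range, Set.mem_compl_iff]

/-- the same for left-right crossings of a vertical channel -/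
theorem chan_le' : ∃ q : ℝ, 0 < q ∧ q < 1 ∧ ∀ (h R : ℕ), 1 ≤ h → ∀ b x0 y0 : ℤ,
    (tau hf).real {X | ∀ i < R, X ∉ LX b x0 (x0 + h) (y0 + i * h) (y0 + (i + 1) * h)} ≤ q ^ R := by
  obtain ⟨q, h0, h1, h2⟩ := chan_le
  refine ⟨q, h0, h1, fun h R hh b x0 y0 => ?_⟩
  have h3 := h2 h R hh b y0 x0
  rw [← tau_real_perm hf (Equiv.prodComm ℤ ℤ)] at h3
  · refine le_trans (le_of_eq ?_) h3
    congr 1
    ext X
    simp only [Set.mem_ofPred_eq]
    refine forall_congr' fun i => forall_congr' fun _ => not_congr ?_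
    exact lx_iff
  · have : {X : TF | ∀ i < R, X ∉ BX b (y0 + i * h) (y0 + (i + 1) * h) x0 (x0 + h)} =
        ⋂ i ∈ Finset.range R, (BX b (y0 + i * h) (y0 + (i + 1) * h) x0 (x0 + h))ᶜ := by
      ext X
      simp
    rw [this]
    exact Finset.measurableSet_biInter _ fun i _ => (bx_meas _ _ _ _ _).compl

/-! ### square annuli -/

/-- the four crossings of the annulus `B(c,3r) \ B(c,r)` on the sublattice `b` -/
def RingX (b : ℤ) (c : P2) (r : ℤ) : Set TF :=
  (LX b (c.1 - 3 * r) (c.1 + 3 * r) (c.2 + r) (c.2 + 3 * r) ∩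
    LX b (c.1 - 3 * r) (c.1 + 3 * r) (c.2 - 3 * r) (c.2 - r)) ∩
  (BX b (c.1 + r) (c.1 + 3 * r) (c.2 - 3 * r) (c.2 + 3 * r) ∩
    BX b (c.1 - 3 * r) (c.1 - r) (c.2 - 3 * r) (c.2 + 3 * r))

/-- the tiles of the annulus -/
def annT (c : P2) (r : ℤ) : Finset P2 :=
  bxF (c.1 - 3 * r) (c.1 + 3 * r) (c.2 - 3 * r) (c.2 + 3 * r) \
    bxF (c.1 - r) (c.1 + r) (c.2 - r) (c.2 + r)

theorem mem_annT {c : P2} {r : ℤ} {t : P2} : t ∈ annT c r ↔
    InB (c.1 - 3 * r) (c.1 + 3 * r) (c.2 - 3 * r) (c.2 + 3 * r) t ∧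
    ¬ InB (c.1 - r) (c.1 + r) (c.2 - r) (c.2 + r) t := by
  unfold annT
  rw [Finset.mem_sdiff, mem_bxF, mem_bxF]

theorem ringX_dep (b : ℤ) (c : P2) {r : ℤ} (hr : 0 ≤ r) : Dep (annT c r) (RingX b c r) := by
  have hs : ∀ {x0 x1 y0 y1 : ℤ}, (c.1 - 3 * r ≤ x0 ∧ x1 ≤ c.1 + 3 * r ∧ c.2 - 3 * r ≤ y0 ∧
      y1 ≤ c.2 + 3 * r) → (c.1 + r ≤ x0 ∨ x1 ≤ c.1 - r ∨ c.2 + r ≤ y0 ∨ y1 ≤ c.2 - r) →
      bxF x0 x1 y0 y1 ⊆ annT c r := by
    intro x0 x1 y0 y1 h1 h2 t ht
    rw [mem_bxF] at ht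
    rw [mem_annT]
    unfold InB at *
    omega
  refine (((lx_dep _ _ _ _ _).mono (hs ?_ ?_)).inter ((lx_dep _ _ _ _ _).mono (hs ?_ ?_))).inter
    (((bx_dep _ _ _ _ _).mono (hs ?_ ?_)).inter ((bx_dep _ _ _ _ _).mono (hs ?_ ?_))) <;> omega

theorem ringX_inc (b : ℤ) (c : P2) (r : ℤ) : Inc (RingX b c r) :=
  ((lx_inc _ _ _ _ _).inter (lx_inc _ _ _ _ _)).inter ((bx_inc _ _ _ _ _).inter (bx_inc _ _ _ _ _))

theorem ringX_meas (b : ℤ) (c : P2) (r : ℤ) : MeasurableSet (RingX b c r) :=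
  ((lx_meas _ _ _ _ _).inter (lx_meas _ _ _ _ _)).inter
    ((bx_meas _ _ _ _ _).inter (bx_meas _ _ _ _ _))

/-- two increasing events -/
theorem harris2 (p : I) {S T : Finset P2} {A B : Set TF} (hA : Dep S A) (hB : Dep T B)
    (iA : Inc A) (iB : Inc B) {a b : ℝ} (ha : 0 ≤ a) (hb : 0 ≤ b) (h1 : a ≤ (tau p).real A)
    (h2 : b ≤ (tau p).real B) : a * b ≤ (tau p).real (A ∩ B) :=
  (mul_le_mul h1 h2 hb (ha.trans h1)).trans (harris _ hA hB iA iB)

theorem ringX_prob : ∃ q : ℝ, 0 < q ∧ q ≤ 1 ∧ ∀ r : ℕ, 1 ≤ r → ∀ (b : ℤ) (c : P2),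
    q ≤ (tau hf).real (RingX b c r) := by
  obtain ⟨q, hq, hq1, h⟩ := rsw_lx 3
  refine ⟨q * q * (q * q), by positivity, ?_, fun r hr b c => ?_⟩
  · have : q * q ≤ 1 := mul_le_one₀ hq1 hq.le hq1
    exact mul_le_one₀ this (by positivity) this
  · have e1 : ∀ x y : ℤ, q ≤ (tau hf).real (LX b x (x + 6 * r) y (y + 2 * r)) := by
      intro x y
      have := h (2 * r) (by omega) b x y
      push_cast at this
      have e : x + 3 * (2 * (r : ℤ)) = x + 6 * r := by ring
      rwa [e] at this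
    have h1 := e1 (c.1 - 3 * r) (c.2 + r)
    have h2 := e1 (c.1 - 3 * r) (c.2 - 3 * r)
    have h3 : q ≤ (tau hf).real (BX b (c.1 + r) (c.1 + 3 * r) (c.2 - 3 * r) (c.2 + 3 * r)) := by
      rw [bx_prob]
      have := e1 (c.2 - 3 * r) (c.1 + r)
      have a1 : c.2 - 3 * (r : ℤ) + 6 * r = c.2 + 3 * r := by ring
      have a2 : c.1 + (r : ℤ) + 2 * r = c.1 + 3 * r := by ring
      rwa [a1, a2] at this
    have h4 : q ≤ (tau hf).real (BX b (c.1 - 3 * r) (c.1 - r) (c.2 - 3 * r) (c.2 + 3 * r)) := by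
      rw [bx_prob]
      have := e1 (c.2 - 3 * r) (c.1 - 3 * r)
      have a1 : c.2 - 3 * (r : ℤ) + 6 * r = c.2 + 3 * r := by ring
      have a2 : c.1 - 3 * (r : ℤ) + 2 * r = c.1 - r := by ring
      rwa [a1, a2] at this
    have a1 : c.1 - 3 * (r : ℤ) + 6 * r = c.1 + 3 * r := by ring
    have a2 : c.2 + (r : ℤ) + 2 * r = c.2 + 3 * r := by ring
    have a3 : c.2 - 3 * (r : ℤ) + 2 * r = c.2 - r := by ring
    rw [a1, a2] at h1
    rw [a1, a3] at h2
    have k1 := harris2 hf (lx_dep _ _ _ _ _) (lx_dep _ _ _ _ _) (lx_inc _ _ _ _ _)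
      (lx_inc _ _ _ _ _) hq.le hq.le h1 h2
    have k2 := harris2 hf (bx_dep _ _ _ _ _) (bx_dep _ _ _ _ _) (bx_inc _ _ _ _ _)
      (bx_inc _ _ _ _ _) hq.le hq.le h3 h4
    have d1 := ((lx_dep b (c.1 - 3 * r) (c.1 + 3 * r) (c.2 + r) (c.2 + 3 * r)).mono
      Finset.subset_union_left).inter ((lx_dep b (c.1 - 3 * r) (c.1 + 3 * r) (c.2 - 3 * r)
        (c.2 - r)).mono Finset.subset_union_right)
    have d2 := ((bx_dep b (c.1 + r) (c.1 + 3 * r) (c.2 - 3 * r) (c.2 + 3 * r)).mono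
      Finset.subset_union_left).inter ((bx_dep b (c.1 - 3 * r) (c.1 - r) (c.2 - 3 * r)
        (c.2 + 3 * r)).mono Finset.subset_union_right)
    exact harris2 hf d1 d2 ((lx_inc _ _ _ _ _).inter (lx_inc _ _ _ _ _))
      ((bx_inc _ _ _ _ _).inter (bx_inc _ _ _ _ _)) (by positivity) (by positivity) k1 k2

/-- sup distance to `c` -/
def sdc (c u : P2) : ℤ := max |u.1 - c.1| |u.2 - c.2|

theorem sdc_le {c u : P2} {k : ℤ} : sdc c u ≤ k ↔
    c.1 - k ≤ u.1 ∧ u.1 ≤ c.1 + k ∧ c.2 - k ≤ u.2 ∧ u.2 ≤ c.2 + k := by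
  unfold sdc
  rw [max_le_iff, abs_le, abs_le]
  constructor <;> intro h <;> omega

theorem sdc_dg {c u v : P2} (h : Dg u v) : sdc c v ≤ sdc c u + 1 := by
  rw [sdc_le]
  have h1 := (sdc_le (c := c) (u := u) (k := sdc c u)).1 le_rfl
  unfold Dg at h
  omega

/-- a vertical piece of a path through closed tiles is blocked by an open left-right crossing -/
theorem block_v {X : TF} {Q : P2 → Prop} {F G : P2} {b x0 x1 y0 y1 : ℤ} (h : TP Q F G)
    (h01 : y0 < y1) (hX : X ∈ LX b x0 x1 y0 y1) (hb : (F.1 + F.2 + b) % 2 = 1)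
    (hF : F.2 ≤ y0) (hG : y1 ≤ G.2)
    (hQ : ∀ t, Q t → y0 < t.2 → t.2 ≤ y1 → x0 < t.1 ∧ t.1 ≤ x1 ∧ X t = false) : False := by
  refine never_both (b := b) (b' := b + 1) (by omega) hX ?_
  refine bx_of_path h h01 hF hG (by omega) ?_
  intro t ht h1 h2
  obtain ⟨h3, h4, h5⟩ := hQ t ht h1 h2
  exact ⟨h3, h4, by simp [h5]⟩

theorem block_h {X : TF} {Q : P2 → Prop} {F G : P2} {b x0 x1 y0 y1 : ℤ} (h : TP Q F G)
    (h01 : x0 < x1) (hX : X ∈ BX b x0 x1 y0 y1) (hb : (F.1 + F.2 + b) % 2 = 1)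
    (hF : F.1 ≤ x0) (hG : x1 ≤ G.1)
    (hQ : ∀ t, Q t → x0 < t.1 → t.1 ≤ x1 → y0 < t.2 ∧ t.2 ≤ y1 ∧ X t = false) : False := by
  refine never_both (b := b + 1) (b' := b) (x0 := x0) (x1 := x1) (y0 := y0) (y1 := y1)
    (X := fun t => !X t) (by omega) (lx_of_path h h01 hF hG (by omega) ?_) ?_
  · intro t ht h1 h2
    obtain ⟨h3, h4, h5⟩ := hQ t ht h1 h2
    exact ⟨h3, h4, by simp [h5]⟩
  · simpa using hX

/-- **blocking**: the four crossings on the sublattice `b` block every path on the other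
sublattice whose tiles in the annulus are closed -/
theorem ring_block {X : TF} {Q : P2 → Prop} {F G c : P2} {b r : ℤ} (hr : 0 < r)
    (hX : X ∈ RingX b c r) (h : TP Q F G) (hb : (F.1 + F.2 + b) % 2 = 1)
    (hF : sdc c F ≤ r) (hG : 3 * r ≤ sdc c G) (hQ : ∀ t, Q t → t ∈ annT c r → X t = false) :
    False := by
  obtain ⟨a, d, h1, h2, h3, h4, _⟩ := sub_cross (R := TS Q) (fun u : P2 => sdc c u)
    (fun u v huv => ⟨sdc_dg huv.1, sdc_dg huv.1.symm⟩) h (show r ≤ 3 * r by omega) hF hG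
  -- the path stays in the annulus
  have hp : TP (fun t => Q t ∧ InB (c.1 - 3 * r) (c.1 + 3 * r) (c.2 - 3 * r) (c.2 + 3 * r) t)
      a d := by
    refine Relation.ReflTransGen.mono ?_ _ _ h4
    rintro u v ⟨huv, ⟨_, h5⟩, ⟨_, h6⟩⟩
    rw [sdc_le] at h5 h6
    refine ⟨huv.1, huv.2, ?_⟩
    have h7 := huv.1
    unfold Dg at h7
    unfold InB tb
    simp only
    omega
  have hpar : (F.1 + F.2) % 2 = (a.1 + a.2) % 2 := TP.parity (Q := Q) h1
  have ha : c.1 - r ≤ a.1 ∧ a.1 ≤ c.1 + r ∧ c.2 - r ≤ a.2 ∧ a.2 ≤ c.2 + r := sdc_le.1 h2.le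
  obtain ⟨⟨hT, hB⟩, hR, hL⟩ := hX
  have hd : c.1 + 3 * r ≤ d.1 ∨ d.1 ≤ c.1 - 3 * r ∨ c.2 + 3 * r ≤ d.2 ∨ d.2 ≤ c.2 - 3 * r := by
    by_contra hcon
    have : sdc c d ≤ 3 * r - 1 := by rw [sdc_le]; omega
    omega
  rcases hd with h5 | h5 | h5 | h5
  · -- right
    refine block_h hp (by omega) hR (by omega) ha.2.1 h5 ?_
    rintro t ⟨ht, hin⟩ h6 h7
    have : t ∈ annT c r := by
      rw [mem_annT]; unfold InB at *; omega
    unfold InB at hin
    exact ⟨by omega, by omega, hQ t ht this⟩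
  · -- left: reverse the path
    refine block_h hp.symm (by omega) hL ?_ h5 (show c.1 - r ≤ a.1 from ha.1) ?_
    · have := hp.parity
      omega
    rintro t ⟨ht, hin⟩ h6 h7
    have : t ∈ annT c r := by
      rw [mem_annT]; unfold InB at *; omega
    unfold InB at hin
    exact ⟨by omega, by omega, hQ t ht this⟩
  · -- top
    refine block_v hp (by omega) hT (by omega) ha.2.2.2 h5 ?_
    rintro t ⟨ht, hin⟩ h6 h7
    have : t ∈ annT c r := by
      rw [mem_annT]; unfold InB at *; omega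
    unfold InB at hin
    exact ⟨by omega, by omega, hQ t ht this⟩
  · -- bottom
    refine block_v hp.symm (by omega) hB ?_ h5 (show c.2 - r ≤ a.2 from ha.2.2.1) ?_
    · have := hp.parity
      omega
    rintro t ⟨ht, hin⟩ h6 h7
    have : t ∈ annT c r := by
      rw [mem_annT]; unfold InB at *; omega
    unfold InB at hin
    exact ⟨by omega, by omega, hQ t ht this⟩

/-! ### webs -/

/-- crossings on both sublattices -/
def Web (c : P2) (r : ℤ) : Set TF := RingX 0 c r ∩ RingX 1 c r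

theorem web_dep (c : P2) {r : ℤ} (hr : 0 ≤ r) : Dep (annT c r) (Web c r) :=
  (ringX_dep 0 c hr).inter (ringX_dep 1 c hr)

theorem web_meas (c : P2) (r : ℤ) : MeasurableSet (Web c r) :=
  (ringX_meas 0 c r).inter (ringX_meas 1 c r)

theorem web_inc (c : P2) (r : ℤ) : Inc (Web c r) := (ringX_inc 0 c r).inter (ringX_inc 1 c r)

theorem web_prob : ∃ q : ℝ, 0 < q ∧ q ≤ 1 ∧ ∀ r : ℕ, 1 ≤ r → ∀ c : P2,
    q ≤ (tau hf).real (Web c r) := by
  obtain ⟨q, hq, hq1, h⟩ := ringX_prob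
  refine ⟨q * q, by positivity, mul_le_one₀ hq1 hq.le hq1, fun r hr c => ?_⟩
  exact harris2 hf (ringX_dep 0 c (by omega)) (ringX_dep 1 c (by omega)) (ringX_inc 0 c r)
    (ringX_inc 1 c r) hq.le hq.le (h r hr 0 c) (h r hr 1 c)

/-- a web blocks every path (on either sublattice) whose tiles in the annulus are closed -/
theorem web_block {X : TF} {Q : P2 → Prop} {F G c : P2} {r : ℤ} (hr : 0 < r)
    (hX : X ∈ Web c r) (h : TP Q F G) (hF : sdc c F ≤ r) (hG : 3 * r ≤ sdc c G)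
    (hQ : ∀ t, Q t → t ∈ annT c r → X t = false) : False := by
  rcases Int.emod_two_eq_zero_or_one (F.1 + F.2) with hp | hp
  · exact ring_block hr hX.2 h (by omega) hF hG hQ
  · exact ring_block hr hX.1 h (by omega) hF hG hQ

theorem annT_disj {c : P2} {r r' : ℤ} (h : 3 * r ≤ r') : Disjoint (annT c r) (annT c r') := by
  rw [Finset.disjoint_left]
  intro t ht ht'
  rw [mem_annT] at ht ht'
  unfold InB at *
  omega

/-- no web at the scales `s 3^i`, `i < J` -/
theorem web_le : ∃ q : ℝ, 0 < q ∧ q < 1 ∧ ∀ (s J : ℕ), 1 ≤ s → ∀ c : P2,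
    (tau hf).real {X | ∀ i < J, X ∉ Web c (s * 3 ^ i)} ≤ q ^ J := by
  obtain ⟨q, hq, hq1, h1⟩ := web_prob
  refine ⟨1 - q / 2, by linarith, by linarith, fun s J hs c => ?_⟩
  have hmono : ∀ i j : ℕ, i < j → 3 * ((s : ℤ) * 3 ^ i) ≤ s * 3 ^ j := by
    intro i j hij
    have h2 : (3 : ℤ) ^ (i + 1) ≤ 3 ^ j := pow_le_pow_right₀ (by norm_num) hij
    have h3 : (0 : ℤ) ≤ s := by omega
    calc 3 * ((s : ℤ) * 3 ^ i) = s * 3 ^ (i + 1) := by ring
      _ ≤ s * 3 ^ j := mul_le_mul_of_nonneg_left h2 h3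
  have h2 := indep_le (fun _ : P2 => hf) (Finset.range J)
    (fun i => annT c (s * 3 ^ i)) (by
      intro i _ j _ hij
      rcases lt_or_gt_of_ne hij with h3 | h3
      · exact annT_disj (hmono i j h3)
      · exact (annT_disj (hmono j i h3)).symm)
    (fun i => (Web c (s * 3 ^ i))ᶜ)
    (fun i _ => (web_dep _ (by positivity)).compl) (q := 1 - q / 2) (by
      intro i _
      have h5 := h1 (s * 3 ^ i) (Nat.one_le_iff_ne_zero.2 (by positivity)) c
      push_cast at h5
      have := real_compl (web_meas c (s * 3 ^ i)) h5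
      show (tau hf).real _ ≤ _
      linarith)
  rw [Finset.card_range] at h2
  refine le_trans (le_of_eq ?_) h2
  show (tau hf).real _ = (tau hf).real _
  congr 1
  ext X
  simp only [Set.mem_ofPred_eq, Set.mem_iInter, Finset.mem_range, Set.mem_compl_iff]

/-- **arm bound** (both sublattices): if every configuration of `A` has a path from `B(c,s)` to the
outside of `B(c,R)` whose tiles between `B(c,s)` and `B(c,R)` are closed, then `A` is unlikely. -/
theorem arm_bound : ∃ C a : ℝ, 0 < C ∧ 0 < a ∧ ∀ (s R : ℕ), 1 ≤ s → s ≤ R → ∀ (c : P2)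
    (A : Set TF), (∀ X ∈ A, ∃ (Q : P2 → Prop) (F G : P2), TP Q F G ∧ sdc c F ≤ s ∧ (R : ℤ) ≤ sdc c G ∧
      ∀ t, Q t → InB (c.1 - R) (c.1 + R) (c.2 - R) (c.2 + R) t →
        ¬ InB (c.1 - s) (c.1 + s) (c.2 - s) (c.2 + s) t → X t = false) →
    (tau hf).real A ≤ C * ((s : ℝ) / R) ^ a := by
  obtain ⟨q, hq, hq1, h⟩ := web_le
  set a : ℝ := Real.logb (1 / 3) q with ha
  have h3a : (1 / 3 : ℝ) ^ a = q := Real.rpow_logb (by norm_num) (by norm_num) hq
  have ha0 : 0 < a := by
    rw [ha]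
    exact Real.logb_pos_of_base_lt_one (by norm_num) (by norm_num) hq hq1
  refine ⟨3 ^ a, a, by positivity, ha0, fun s R hs hsR c A hA => ?_⟩
  set J := Nat.log 3 (R / s) with hJ
  have hRs : 1 ≤ R / s := (Nat.one_le_div_iff hs).2 hsR
  have h1 : 3 ^ J ≤ R / s := Nat.pow_log_le_self 3 (by omega)
  have h2 : s * 3 ^ J ≤ R := by
    calc s * 3 ^ J ≤ s * (R / s) := Nat.mul_le_mul_left _ h1
      _ ≤ R := Nat.mul_div_le R s
  have h3 : R < s * 3 ^ (J + 1) := by
    have : R / s < 3 ^ (J + 1) := Nat.lt_pow_succ_log_self (by norm_num) _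
    rw [Nat.div_lt_iff_lt_mul hs] at this
    rwa [mul_comm] at this
  have hsub : A ⊆ {X : TF | ∀ i < J, X ∉ Web c (s * 3 ^ i)} := by
    intro X hX i hi hw
    obtain ⟨Q, F, G, h4, h5, h6, h7⟩ := hA X hX
    have h8 : s * 3 ^ (i + 1) ≤ R :=
      (Nat.mul_le_mul_left _ (Nat.pow_le_pow_right (by norm_num) hi)).trans h2
    have h9 : (s : ℤ) ≤ s * 3 ^ i := by
      have : (1 : ℤ) ≤ 3 ^ i := one_le_pow₀ (by norm_num)
      nlinarith
    have h10 : 3 * ((s : ℤ) * 3 ^ i) ≤ R := by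
      have : ((s * 3 ^ (i + 1) : ℕ) : ℤ) ≤ R := by exact_mod_cast h8
      push_cast at this
      calc 3 * ((s : ℤ) * 3 ^ i) = s * 3 ^ (i + 1) := by ring
        _ ≤ R := this
    refine web_block (by positivity) hw h4 (h5.trans h9) (h10.trans h6) ?_
    intro t ht hin
    rw [mem_annT] at hin
    refine h7 t ht ?_ ?_
    · unfold InB at *
      omega
    · unfold InB at *
      omega
  refine (measureReal_mono hsub).trans ((h s J hs c).trans ?_)
  have hs0 : (0 : ℝ) < s := by exact_mod_cast hs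
  have hR0 : (0 : ℝ) < R := by
    have : 1 ≤ R := hs.trans hsR
    exact_mod_cast this
  have h4 : (1 / 3 : ℝ) ^ (J + 1) ≤ s / R := by
    have : (R : ℝ) ≤ s * 3 ^ (J + 1) := by exact_mod_cast h3.le
    rw [one_div, inv_pow, inv_le_comm₀ (by positivity) (by positivity), inv_div,
      div_le_iff₀ hs0, mul_comm]
    exact this
  calc q ^ J = ((1 / 3 : ℝ) ^ a) ^ J := by rw [h3a]
    _ = ((1 / 3 : ℝ) ^ J) ^ a := by
      rw [← Real.rpow_natCast, ← Real.rpow_mul (by norm_num), mul_comm a, Real.rpow_mul (by norm_num),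
        Real.rpow_natCast]
    _ = (3 * (1 / 3 : ℝ) ^ (J + 1)) ^ a := by
      congr 1
      rw [pow_succ]
      ring
    _ ≤ (3 * ((s : ℝ) / R)) ^ a := by
      apply Real.rpow_le_rpow (by positivity) _ ha0.le
      exact mul_le_mul_of_nonneg_left h4 (by norm_num)
    _ = 3 ^ a * ((s : ℝ) / R) ^ a := Real.mul_rpow (by norm_num) (by positivity)

end Crest.Agent.R158.Mr679
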