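import Crest.Agent.R158.Zm1_180
import Crest.Agent.R158.Zg1_180
import Crest.Agent.R158.Nz3_399
import Crest.Agent.R158.Fl5_440

/-!
# Row 158 (helper180): the mark count at a flat wall is the one-arm event

* `kn_iff` : `Kn .mk n s = 0 ↔ xg (gn s) ∈ FArm (-1,-1) n`
* `pm_eq` : `Pm n = Pf n`;  `pf_aw` : `Pf n = aw n` (helper440's one-arm probability)
* `pm_lower`, `pm_upper`, `pm_anti`, `pm_ext`
-/

set_option autoImplicit false

noncomputable section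

namespace Crest.Agent.R158.Zm180

open MeasureTheory ProbabilityTheory unitInterval
open Crest.Agent.R161.Geo729
open Crest.Agent.R158.Sw300 (Port Wd thru)
open Crest.Agent.R158.Gc748
open Crest.Agent.R158.Rs689 Crest.Agent.R158.Mr679
open Crest.Agent.R158.Nm211 (Dir dx dy trn St mv nx6 Hit KK)
open Crest.Agent.R158.Ka470 (en ex thru_sg ex_inj en_inj)
open Crest.Agent.R158.Cb771 (FP xg fp_even fp_odd)
open Crest.Agent.R158.Zg180 (gn)
open Crest.Agent.R158.Zb180 (FArm Pf farm_meas farm_eq farm_prob)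
open Crest.Agent.R158.Nz399 (Kind Tk mem_Tk Dk Yk Xk Kn Pm)

theorem sc_gn (s : ℤ × ℤ → Bool) : sc (gn s) = s := by
  funext v; simp [sc, gn]

theorem inR_Tk {n : ℕ} (hn : 1 ≤ n) (v : ℤ × ℤ) :
    InR (-(n : ℤ)) 0 (2 * n - 1) (n - 1) v ↔ v ∈ Tk .mk n := by
  rw [mem_Tk]
  unfold InR Crest.Agent.R158.Nz399.qd
  simp only
  omega

theorem hit_iff {n : ℕ} (hn : 1 ≤ n) (s : ℤ × ℤ → Bool) {i : ℤ} (hi0 : 0 ≤ i) (hi1 : i < n) :
    Hit (nx6 s) (Dk .mk n) (Yk .mk) ((i, 0), 0) ↔ ∃ j : ℤ, -(n : ℤ) ≤ j ∧ j < 0 ∧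
      BM (gn s) (-(n : ℤ)) 0 (2 * n - 1) (n - 1) (some ((i, 0), 3)) = some ((j, 0), 3) := by
  have hs := sc_gn s
  have hc : InR (-(n : ℤ)) 0 (2 * n - 1) (n - 1) (((i, 0), 0) : St ℤ).1 := by
    unfold InR
    dsimp only
    omega
  have hL : (some ((((i, 0), 0) : St ℤ).1, en (((i, 0), 0) : St ℤ).2) : Port (ℤ × ℤ)) ∈
      Sw300.L (rectW (-(n : ℤ)) 0 (2 * n - 1) (n - 1)) := by
    have := (mem_L_iff (x0 := -(n : ℤ)) (y0 := 0) (m := 2 * n - 1) (n := n - 1)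
      (v := (i, 0)) (d := 2)).2 ⟨hc, by unfold InR mv dy; dsimp only; omega⟩
    exact this
  have key := fun b => bm_iff (s := gn s) hc hL (b := b)
  rw [hs] at key
  constructor
  · rintro ⟨N, h1, h2⟩
    rcases Nat.eq_zero_or_pos N with h0 | h0
    · subst h0
      have h3 : (((i, 0), 0) : St ℤ).1.1 < 0 := h2.1
      dsimp only at h3
      omega
    obtain ⟨k, rfl⟩ := Nat.exists_eq_succ_of_ne_zero h0.ne'
    have h3 : ((nx6 s)^[k + 1] ((i, 0), 0)).1.1 < 0 ∧ ((nx6 s)^[k + 1] ((i, 0), 0)).1.2 < 0 := h2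
    have hin : ∀ j ≤ k, InR (-(n : ℤ)) 0 (2 * n - 1) (n - 1) ((nx6 s)^[j] ((i, 0), 0)).1 :=
      fun j hj => (inR_Tk hn _).2 (h1 j (by omega))
    have hout : ¬ InR (-(n : ℤ)) 0 (2 * n - 1) (n - 1) ((nx6 s)^[k + 1] ((i, 0), 0)).1 := by
      unfold InR; omega
    have hmv := it_fst (s := gn s) (((i, 0), 0) : St ℤ) k
    rw [hs] at hmv
    have hk := hin k le_rfl
    have hb := (key _).2 ⟨k, hin, hout, rfl⟩
    generalize (nx6 s)^[k + 1] ((i, 0), 0) = c1 at *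
    generalize (nx6 s)^[k] ((i, 0), 0) = c0 at *
    obtain ⟨v1, d1⟩ := c1
    obtain ⟨⟨a, b⟩, d0⟩ := c0
    dsimp only at *
    subst hmv
    unfold InR at hk
    dsimp only at hk
    have hd : d1 = 2 := by
      fin_cases d1 <;> simp only [mv, dx, dy] at h3 <;> first | rfl | omega
    subst hd
    have h4 : a < 0 ∧ b - 1 < 0 := by
      have e1 : (mv ((a, b) : ℤ × ℤ) (2 : Dir)).1 = a := by simp [mv, dx]
      have e2 : (mv ((a, b) : ℤ × ℤ) (2 : Dir)).2 = b - 1 := by simp [mv, dy]; ring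
      rw [e1, e2] at h3
      exact h3
    have hb0 : b = 0 := by omega
    subst hb0
    exact ⟨a, by omega, h4.1, hb⟩
  · rintro ⟨j, hj0, hj1, hb⟩
    obtain ⟨k, h1, h2, h3⟩ := (key _).1 hb
    refine ⟨k + 1, fun t ht => (inR_Tk hn _).1 (h1 t (by omega)), ?_⟩
    have hmv := it_fst (s := gn s) (((i, 0), 0) : St ℤ) k
    rw [hs] at hmv
    simp only [Prod.mk.injEq] at h3
    have hd : ((nx6 s)^[k + 1] ((i, 0), 0)).2 = 2 := by
      have : ex ((nx6 s)^[k + 1] ((i, 0), 0)).2 = ex 2 := h3.2.symm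
      exact ex_inj this
    rw [hd, ← h3.1] at hmv
    show ((nx6 s)^[k + 1] ((i, 0), 0)).1.1 < 0 ∧ ((nx6 s)^[k + 1] ((i, 0), 0)).1.2 < 0
    rw [hmv]
    simp only [mv, dx, dy]
    constructor
    · simpa using hj1
    · norm_num

/-- **no strand around the gap = one arm from the gap** -/
theorem kn_iff {n : ℕ} (hn : 1 ≤ n) (s : ℤ × ℤ → Bool) :
    Kn .mk n s = 0 ↔ xg (gn s) ∈ FArm (-1, -1) n := by
  classical
  have h0 : Kn .mk n s = 0 ↔ ∀ i : ℤ, 0 ≤ i → i < n → ∀ j : ℤ, -(n : ℤ) ≤ j → j < 0 →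
      BM (gn s) (-(n : ℤ)) 0 (2 * n - 1) (n - 1) (some ((i, 0), 3)) ≠ some ((j, 0), 3) := by
    unfold Kn KK
    rw [Finset.card_eq_zero, Finset.filter_eq_empty_iff]
    constructor
    · intro h i hi0 hi1 j hj0 hj1 hb
      refine h (x := ((i, 0), 0)) ?_ ((hit_iff hn s hi0 hi1).2 ⟨j, hj0, hj1, hb⟩)
      exact Finset.mem_image.2 ⟨i, Finset.mem_Ico.2 ⟨hi0, hi1⟩, rfl⟩
    · intro h x hx hhit
      obtain ⟨i, hi, rfl⟩ := Finset.mem_image.1 hx
      rw [Finset.mem_Ico] at hi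
      obtain ⟨j, hj0, hj1, hb⟩ := (hit_iff hn s hi.1 hi.2).1 hhit
      exact h i hi.1 hi.2 j hj0 hj1 hb
  rw [h0]
  have hpar : (((-1, -1) : P2).1 + ((-1, -1) : P2).2) % 2 = 0 := by norm_num
  constructor
  · intro h
    obtain ⟨G, hG, hout⟩ := floor_arm (s := gn s) (x0 := -(n : ℤ)) (y0 := 0) (m := 2 * n - 1)
      (n := n - 1) (c := -1) (by omega) (by omega) (fun i j hi0 hi1 hj0 hj1 =>
        h i (by omega) (by omega) j (by omega) (by omega))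
    refine ⟨G, ?_, ?_⟩
    · have h1 := (fp_even hpar).1 hG
      refine h1.mono ?_
      rintro t ⟨ht, hX⟩
      refine ⟨?_, hX⟩
      unfold InR at ht
      unfold InB
      dsimp only
      omega
    · unfold OutF at hout
      dsimp only
      omega
  · rintro ⟨G, hG, hd⟩ i hi0 hi1 j hj0 hj1
    refine floor_cross (s := gn s) (x0 := -(n : ℤ)) (y0 := 0) (m := 2 * n - 1)
      (n := n - 1) (c := -1) (G := G) (by omega) (by omega) ?_ ?_ i j (by omega) (by omega)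
      (by omega) (by omega)
    · unfold OutF
      dsimp only at hd
      omega
    · refine (fp_even hpar).2 (hG.mono ?_)
      rintro t ⟨ht, hX⟩
      refine ⟨?_, hX⟩
      unfold InR
      unfold InB at ht
      dsimp only at ht
      omega

theorem law_gn {A : Set TF} (hA : MeasurableSet A) :
    (tau hf).real {s | xg (gn s) ∈ A} = (tau hf).real A := by
  have h1 : MeasurableSet {g : TF | xg g ∈ A} := Crest.Agent.R158.Cb771.measurable_xg hA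
  have h2 := tau_real_not hf h1
  rw [sigma_hf, Crest.Agent.R158.Cb771.tau_real_xg hA] at h2
  exact h2

/-- **`Pm n = Pf n`** -/
theorem pm_eq {n : ℕ} (hn : 1 ≤ n) : Pm n = Pf n := by
  unfold Pm
  have h1 : {s : ℤ × ℤ → Bool | Kn .mk n s = 0} = {s | xg (gn s) ∈ FArm (-1, -1) n} := by
    ext s
    exact kn_iff hn s
  rw [h1]
  have h2 := law_gn (farm_meas (-1, -1) n)
  have h3 := farm_eq (-1, -1) n
  rw [h3] at h2
  exact h2

/-- helper440's one-arm event -/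
theorem farm_at (X : TF) (n : ℕ) :
    X ∈ FArm (0, 0) n ↔ X ∈ Crest.Agent.R158.Fl440.AT 0 n := by
  have oc0 : Crest.Agent.R158.Fl440.oc 0 = true := by
    have := Crest.Agent.R158.Fl440.oc_even 0
    simpa using this
  constructor
  · rintro ⟨G, h1, h2⟩
    refine ⟨G, ?_, h1.mono ?_⟩
    · show G.1 ≤ 0 - (n : ℤ) ∨ 0 + (n : ℤ) ≤ G.1 ∨ (n : ℤ) ≤ G.2
      dsimp only at h2
      omega
    · rintro t ⟨ht, hX⟩
      refine ⟨by rw [hX, oc0], ?_⟩
      unfold InB at *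
      dsimp only at ht ⊢
      omega
  · rintro ⟨G, h1, h2⟩
    have h3 := h2.faceX (x0 := 0 - (n : ℤ)) (x1 := 0 + n) (fun t ht => ⟨ht.2.1, ht.2.2.1⟩)
      (by dsimp only; omega)
    have h4 := h2.faceY (y0 := 0) (y1 := (n : ℤ)) (fun t ht => ⟨ht.2.2.2.1, ht.2.2.2.2⟩)
      (by dsimp only; omega)
    refine ⟨G, h2.mono ?_, ?_⟩
    · rintro t ⟨hX, ht⟩
      refine ⟨?_, by rw [hX, oc0]⟩
      unfold InB at *
      dsimp only
      omega
    · replace h1 : G.1 ≤ 0 - (n : ℤ) ∨ 0 + (n : ℤ) ≤ G.1 ∨ (n : ℤ) ≤ G.2 := h1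
      dsimp only
      omega

theorem pf_aw (n : ℕ) : Pf n = Crest.Agent.R158.Fl440.aw n := by
  rw [← Crest.Agent.R158.Fl440.tau_AT 0 n, ← farm_eq (0, 0) n]
  congr 1
  ext X
  exact farm_at X n

theorem pm_aw {n : ℕ} (hn : 1 ≤ n) : Pm n = Crest.Agent.R158.Fl440.aw n := by
  rw [pm_eq hn, pf_aw]

theorem pm_lower : ∃ c : ℝ, 0 < c ∧ ∀ n : ℕ, 1 ≤ n → c * (n : ℝ) ^ (-(1 / 2 : ℝ)) ≤ Pm n := by
  obtain ⟨c, hc, h⟩ := Crest.Agent.R158.Fl440.aw_lower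
  exact ⟨c, hc, fun n hn => by rw [pm_aw hn]; exact h n hn⟩

theorem pm_anti {m n : ℕ} (hm : 1 ≤ m) (h : m ≤ n) : Pm n ≤ Pm m := by
  rw [pm_aw hm, pm_aw (hm.trans h)]
  exact Crest.Agent.R158.Fl440.aw_anti h

theorem pm_ext (κ : ℕ) (hκ : 1 ≤ κ) : ∃ c : ℝ, 0 < c ∧ ∀ n : ℕ, 1 ≤ n → c * Pm n ≤ Pm (κ * n) := by
  obtain ⟨c, hc, h⟩ := Crest.Agent.R158.Fl440.aw_ext κ hκ
  refine ⟨c, hc, fun n hn => ?_⟩
  rw [pm_aw hn, pm_aw (by nlinarith : 1 ≤ κ * n)]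
  exact h n hn

end Crest.Agent.R158.Zm180
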