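import Crest.Agent.R158.Nz5_399
import Crest.Agent.R158.Dn2_211
import Crest.Agent.R158.Zm2_180
import Crest.Agent.R158.Tw1_440

/-!
# R158, block Q1d (helper399), part 6: the local factors

* `kn_moment` : polynomial moments of the standard counts; `tame_kn`, `tame_mk`, `tame_e2`
* `Fk`, `fv f n s` : local factors (convex corner, reflex corner, mark, end with two charged gaps)
* `mean f n`, `tame_fv`, `fp`, `fp_dep`, `fp_int`, `fp_tame`
-/

set_option autoImplicit false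

noncomputable section

namespace Crest.Agent.R158.Nz399

open MeasureTheory ProbabilityTheory unitInterval
open Crest.Agent.R158.Rs689
open Crest.Agent.R158.Nm211
open Crest.Agent.R158.Dn211 (rho corner_moment tame_pow)

universe u

/-! ### moments of the standard counts -/

/-- centre used for the moments -/
def vk (k : Kind) : ℤ × ℤ :=
  match k with
  | .cv => (0, 0)
  | .rf => (0, -1)
  | .mk => (0, 0)

/-- reachable part of `Yk` -/
def Yk' (k : Kind) : Set (St ℤ) := {c | c ∈ Yk k ∧ (k = .rf → c.1.2 = -1)}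

theorem dxy4 (d : Dir) : (d = 0 ∧ dx d = 0 ∧ dy d = 1) ∨ (d = 1 ∧ dx d = 1 ∧ dy d = 0) ∨
    (d = 2 ∧ dx d = 0 ∧ dy d = -1) ∨ (d = 3 ∧ dx d = -1 ∧ dy d = 0) := by
  fin_cases d <;> simp [dx, dy]

theorem nx_fst' (s : ℤ × ℤ → Bool) (c : St ℤ) :
    (nx6 s c).1.1 = c.1.1 + dx (nx6 s c).2 ∧ (nx6 s c).1.2 = c.1.2 + dy (nx6 s c).2 := by
  have h : (nx6 s c).1 = mv c.1 (nx6 s c).2 := rfl
  rw [h]
  simp [mv]

theorem kn_Y' (k : Kind) (n : ℕ) (s : ℤ × ℤ → Bool) :
    Kn k n s = KK (nx6 s) (Dk k n) (Yk' k) (Xk k n) := by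
  classical
  unfold Kn KK
  congr 1
  refine Finset.filter_congr fun c hc => ?_
  constructor
  · rintro ⟨m, h1, h2⟩
    refine ⟨m, h1, h2, fun hk => ?_⟩
    subst hk
    change (((nx6 s)^[m] c).1.1 < 0 ∧ ((nx6 s)^[m] c).1.2 < 0 ∧ ((nx6 s)^[m] c).2 = 2) at h2
    rcases Nat.eq_zero_or_pos m with hm | hm
    · subst hm
      rw [Function.iterate_zero, id] at h2
      change c ∈ (Finset.Ico (-(n : ℤ)) 0).image (fun y => (((0 : ℤ), y), (1 : Dir))) at hc
      obtain ⟨y, -, rfl⟩ := Finset.mem_image.1 hc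
      simp at h2
    · obtain ⟨j, rfl⟩ : ∃ j, m = j + 1 := ⟨m - 1, by omega⟩
      have h3 := h1 j (by omega)
      change ((nx6 s)^[j] c).1 ∈ Tk .rf n at h3
      rw [mem_Tk] at h3
      obtain ⟨-, h4⟩ := h3
      change 0 ≤ ((nx6 s)^[j] c).1.1 ∨ 0 ≤ ((nx6 s)^[j] c).1.2 at h4
      rw [Function.iterate_succ_apply'] at h2 ⊢
      obtain ⟨e1, e2⟩ := nx_fst' s ((nx6 s)^[j] c)
      rw [h2.2.2] at e1 e2
      have hx : dx (2 : Dir) = 0 := rfl
      have hy : dy (2 : Dir) = -1 := rfl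
      rw [hx] at e1
      rw [hy] at e2
      omega
  · rintro ⟨m, h1, h2⟩
    exact ⟨m, h1, h2.1⟩

theorem kn_moment (a : ℝ) (ha : 1 ≤ a) : ∃ C : ℝ, 1 ≤ C ∧ ∃ q : ℕ, ∀ (k : Kind) (n : ℕ), 1 ≤ n →
    ∫ s, a ^ (Kn k n s) ∂(PB fun _ : ℤ × ℤ => hf) ≤ C * (n : ℝ) ^ q := by
  obtain ⟨C, hC1, q, h⟩ := corner_moment a ha
  refine ⟨C, hC1, q, fun k n hn => ?_⟩
  have hn' : (1 : ℤ) ≤ n := by exact_mod_cast hn
  simp only [kn_Y']
  refine h n hn (vk k) (Dk k n) (Yk' k) (Xk k n) (Tk k n) (fun c hc => hc) ?_ ?_ ?_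
  · -- no entrance from inside
    intro c hc s hx
    change c.1 ∈ Tk k n at hc
    rw [mem_Tk] at hc
    obtain ⟨e1, e2⟩ := nx_fst' s c
    generalize nx6 s c = c' at hx e1 e2
    cases k
    · change c' ∈ (Finset.Ico (0 : ℤ) n).image (fun x => ((x, (0 : ℤ)), (0 : Dir))) at hx
      obtain ⟨x, -, rfl⟩ := Finset.mem_image.1 hx
      have h2 : dy (0 : Dir) = 1 := rfl
      simp only [h2] at e2
      have := hc.2.2
      omega
    · change c' ∈ (Finset.Ico (-(n : ℤ)) 0).image (fun y => (((0 : ℤ), y), (1 : Dir))) at hx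
      obtain ⟨y, hy, rfl⟩ := Finset.mem_image.1 hx
      rw [Finset.mem_Ico] at hy
      have h2 : dy (1 : Dir) = 0 := rfl
      have h3 : dx (1 : Dir) = 1 := rfl
      simp only [h2] at e2
      simp only [h3] at e1
      rcases hc.2 with h4 | h4 <;> omega
    · change c' ∈ (Finset.Ico (0 : ℤ) n).image (fun x => ((x, (0 : ℤ)), (0 : Dir))) at hx
      obtain ⟨x, -, rfl⟩ := Finset.mem_image.1 hx
      have h2 : dy (0 : Dir) = 1 := rfl
      simp only [h2] at e2
      have : 0 ≤ c.1.2 := hc.2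
      omega
  · intro c hx
    cases k
    · change c ∈ (Finset.Ico (0 : ℤ) n).image (fun x => ((x, (0 : ℤ)), (0 : Dir))) at hx
      obtain ⟨x, hx1, rfl⟩ := Finset.mem_image.1 hx
      rw [Finset.mem_Ico] at hx1
      simp only [rho, vk]
      omega
    · change c ∈ (Finset.Ico (-(n : ℤ)) 0).image (fun y => (((0 : ℤ), y), (1 : Dir))) at hx
      obtain ⟨x, hx1, rfl⟩ := Finset.mem_image.1 hx
      rw [Finset.mem_Ico] at hx1
      simp only [rho, vk]
      omega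
    · change c ∈ (Finset.Ico (0 : ℤ) n).image (fun x => ((x, (0 : ℤ)), (0 : Dir))) at hx
      obtain ⟨x, hx1, rfl⟩ := Finset.mem_image.1 hx
      rw [Finset.mem_Ico] at hx1
      simp only [rho, vk]
      omega
  · rintro c hx c' ⟨hy, hy'⟩
    unfold Far
    rw [le_abs, le_abs]
    cases k
    · change c ∈ (Finset.Ico (0 : ℤ) n).image (fun x => ((x, (0 : ℤ)), (0 : Dir))) at hx
      obtain ⟨x, hx1, rfl⟩ := Finset.mem_image.1 hx
      rw [Finset.mem_Ico] at hx1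
      change c'.1.1 < 0 at hy
      simp only [rho, vk]
      omega
    · change c ∈ (Finset.Ico (-(n : ℤ)) 0).image (fun y => (((0 : ℤ), y), (1 : Dir))) at hx
      obtain ⟨x, hx1, rfl⟩ := Finset.mem_image.1 hx
      rw [Finset.mem_Ico] at hx1
      have h1 : c'.1.1 < 0 := hy.1
      have h2 := hy' rfl
      simp only [rho, vk]
      omega
    · change c ∈ (Finset.Ico (0 : ℤ) n).image (fun x => ((x, (0 : ℤ)), (0 : Dir))) at hx
      obtain ⟨x, hx1, rfl⟩ := Finset.mem_image.1 hx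
      rw [Finset.mem_Ico] at hx1
      have h1 : c'.1.1 < 0 := hy.1
      simp only [rho, vk]
      omega

/-- absorbing a constant into the exponent -/
theorem absorb {C : ℝ} (hC : 1 ≤ C) (q : ℕ) : ∃ D : ℝ, 0 ≤ D ∧ ∀ n : ℕ, 2 ≤ n →
    C * (n : ℝ) ^ q ≤ (n : ℝ) ^ D := by
  refine ⟨Real.logb 2 C + q, add_nonneg (Real.logb_nonneg (by norm_num) hC) (by positivity),
    fun n hn => ?_⟩
  have hn0 : (0 : ℝ) < n := by exact_mod_cast (by omega : 0 < n)
  have hn2 : (2 : ℝ) ≤ n := by exact_mod_cast hn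
  rw [Real.rpow_add hn0, Real.rpow_natCast]
  refine mul_le_mul_of_nonneg_right ?_ (by positivity)
  calc C = (2 : ℝ) ^ Real.logb 2 C := (Real.rpow_logb (by norm_num) (by norm_num)
        (by linarith)).symm
    _ ≤ _ := Real.rpow_le_rpow (by norm_num) hn2 (Real.logb_nonneg (by norm_num) hC)

theorem tame_kn {b : ℝ} (hb : 0 < b) : ∃ C : ℝ, 0 ≤ C ∧ ∀ (k : Kind) (n : ℕ), 2 ≤ n →
    Tame (PB fun _ : ℤ × ℤ => hf) n C fun s => b ^ Kn k n s := by
  obtain ⟨C1, hC1, q1, h1⟩ := kn_moment (max 1 (b ^ 2)) (le_max_left _ _)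
  obtain ⟨C2, hC2, q2, h2⟩ := kn_moment (max 1 b⁻¹) (le_max_left _ _)
  obtain ⟨D1, hD1, h3⟩ := absorb hC1 q1
  obtain ⟨D2, hD2, h4⟩ := absorb hC2 q2
  refine ⟨6 * max D1 D2, by positivity, fun k n hn => ?_⟩
  have hn1 : (1 : ℝ) ≤ n := by exact_mod_cast (by omega : 1 ≤ n)
  refine tame_pow (T := Tk k n) (fun s s' hs => Kn_dep hs) hb hn1 (by positivity) ?_ ?_
  · refine (h1 k n (by omega)).trans ((h3 n hn).trans ?_)
    exact Real.rpow_le_rpow_of_exponent_le hn1 (le_max_left _ _)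
  · refine (h2 k n (by omega)).trans ((h4 n hn).trans ?_)
    exact Real.rpow_le_rpow_of_exponent_le hn1 (le_max_right _ _)

/-- absorbing a constant, lower bounds -/
theorem absorb' {c q : ℝ} (hc : 0 < c) (hq : 0 ≤ q) : ∃ D : ℝ, 0 ≤ D ∧ ∀ n : ℕ, 2 ≤ n →
    (n : ℝ) ^ (-D) ≤ c * (n : ℝ) ^ (-q) := by
  obtain ⟨D, hD, h⟩ := absorb (C := max 1 c⁻¹) (le_max_left _ _) 0
  refine ⟨D + q, by positivity, fun n hn => ?_⟩
  have hn0 : (0 : ℝ) < n := by exact_mod_cast (by omega : 0 < n)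
  have h1 := h n hn
  rw [pow_zero, mul_one] at h1
  have h2 : c⁻¹ ≤ (n : ℝ) ^ D := (le_max_right _ _).trans h1
  rw [neg_add, Real.rpow_add hn0]
  refine mul_le_mul_of_nonneg_right ?_ (by positivity)
  rw [Real.rpow_neg hn0.le, inv_le_comm₀ (by positivity) hc]
  exact h2

/-! ### local factors -/

/-- kinds of local factors: convex corner, reflex corner, mark, end with two charged gaps (`e2` :
its strand must leave the box; `e1` : no strand around it) -/
inductive Fk where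
  | cv | rf | mk | e2 | e1
  deriving DecidableEq

/-- one of the two gaps at the end `((0,0), S)` is free -/
def G1 (n : ℕ) : Set (ℤ × ℤ → Bool) := {s | Kn .mk n s = 0 ∨ Kp .mk 0 (1, 0) n s = 0}

/-- value of a local factor on the standard picture -/
def fv (f : Fk) (n : ℕ) (s : ℤ × ℤ → Bool) : ℝ :=
  match f with
  | .cv => (2 / √3) ^ Kn .cv n s
  | .rf => (1 / √3) ^ Kn .rf n s
  | .mk => Set.indicator {s | Kn .mk n s = 0} (fun _ => 1) s
  | .e2 => Set.indicator (Tw440.E2 n) (fun _ => 1) s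
  | .e1 => Set.indicator (G1 n) (fun _ => 1) s

/-- support of a local factor -/
def Tf (f : Fk) (n : ℕ) : Finset (ℤ × ℤ) :=
  match f with
  | .cv => Tk .cv n
  | .rf => Tk .rf n
  | .mk => Tk .mk n
  | .e2 => Tk .mk n
  | .e1 => Tk .mk (n + 1)

/-- mean of a local factor -/
def mean (f : Fk) (n : ℕ) : ℝ := ∫ s, fv f n s ∂(PB fun _ : ℤ × ℤ => hf)

theorem depF_ind {ι : Type*} {S : Finset ι} {A : Set (ι → Bool)} (h : Dep S A) :
    DepF S (A.indicator fun _ => (1 : ℝ)) := by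
  classical
  intro z z' hz
  have := h z z' hz
  by_cases hA : z ∈ A
  · rw [Set.indicator_of_mem hA, Set.indicator_of_mem (this.1 hA)]
  · rw [Set.indicator_of_notMem hA, Set.indicator_of_notMem fun h' => hA (this.2 h')]

theorem dep_mk (n : ℕ) : Dep (Tk .mk n) {s | Kn .mk n s = 0} := by
  intro s s' h
  show Kn .mk n s = 0 ↔ Kn .mk n s' = 0
  rw [Kn_dep h]

theorem dep_G1 (n : ℕ) : Dep (Tk .mk (n + 1)) (G1 n) := by
  intro s s' h
  show (Kn .mk n s = 0 ∨ Kp .mk 0 (1, 0) n s = 0) ↔ (Kn .mk n s' = 0 ∨ Kp .mk 0 (1, 0) n s' = 0)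
  have h1 : Kn .mk n s = Kn .mk n s' := Kn_dep fun v hv => h v (by
    rw [mem_Tk] at hv ⊢
    exact ⟨by push_cast; omega, hv.2⟩)
  have h2 : Kp .mk 0 (1, 0) n s = Kp .mk 0 (1, 0) n s' := by
    rw [Kp_eq, Kp_eq]
    refine Kn_dep fun v hv => ?_
    have h3 : pl 0 (1, 0) v ∈ Tk .mk (n + 1) := by
      rw [mem_Tk] at hv ⊢
      obtain ⟨h4, h5⟩ := hv
      change 0 ≤ v.2 at h5
      refine ⟨?_, ?_⟩
      · simp only [pl, Function.iterate_zero, id, Prod.fst_add, Prod.snd_add]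
        push_cast
        omega
      · show 0 ≤ (pl 0 (1, 0) v).2
        simp only [pl, Function.iterate_zero, id, Prod.snd_add]
        omega
    rw [h _ h3]
  rw [h1, h2]

theorem fv_dep (f : Fk) {n : ℕ} (hn : 1 ≤ n) : DepF (Tf f n) (fv f n) := by
  cases f
  · exact Kn_depF .cv n fun k => (2 / √3) ^ k
  · exact Kn_depF .rf n fun k => (1 / √3) ^ k
  · exact depF_ind (dep_mk n)
  · exact depF_ind (Tw440.E2_dep hn)
  · exact depF_ind (dep_G1 n)

theorem fv_nonneg (f : Fk) (n : ℕ) (s : ℤ × ℤ → Bool) : 0 ≤ fv f n s := by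
  cases f
  · exact pow_nonneg (by positivity) _
  · exact pow_nonneg (by positivity) _
  · exact Set.indicator_nonneg (fun _ _ => zero_le_one) _
  · exact Set.indicator_nonneg (fun _ _ => zero_le_one) _
  · exact Set.indicator_nonneg (fun _ _ => zero_le_one) _

theorem mean_nonneg (f : Fk) (n : ℕ) : 0 ≤ mean f n := integral_nonneg fun s => fv_nonneg f n s

theorem int_ind {ι : Type*} {S : Finset ι} {A : Set (ι → Bool)} (h : Dep S A)
    (w : ι → I) : ∫ s, A.indicator (fun _ => (1 : ℝ)) s ∂(PB w) = (PB w).real A := by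
  rw [integral_indicator h.measurableSet]
  simp [Measure.real]

theorem mean_mk (n : ℕ) : mean .mk n = Pm n := int_ind (dep_mk n) _

theorem mean_e2 {n : ℕ} (hn : 1 ≤ n) :
    mean .e2 n = (PB fun _ : ℤ × ℤ => hf).real (Tw440.E2 n) := int_ind (Tw440.E2_dep hn) _

theorem mean_e1' (n : ℕ) : mean .e1 n = (PB fun _ : ℤ × ℤ => hf).real (G1 n) :=
  int_ind (dep_G1 n) _

/-- translated gap -/
theorem gap_shift (n : ℕ) : (PB fun _ : ℤ × ℤ => hf).real {s | Kp .mk 0 (1, 0) n s = 0} =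
    Pm n := by
  have h1 := Kp_int (τ := ℤ × ℤ) .mk 0 (1, 0) n id (fun _ => false)
    (fun k => if k = 0 then (1 : ℝ) else 0) (fun v _ w _ h => pl_inj 0 (1, 0) h)
  have hrd : ∀ s : ℤ × ℤ → Bool, rd id (fun _ => false) s = s := by
    intro s; funext v; simp [rd]
  simp only [hrd] at h1
  have e1 : (fun s : ℤ × ℤ → Bool => if Kp .mk 0 (1, 0) n s = 0 then (1 : ℝ) else 0) =
      Set.indicator {s | Kp .mk 0 (1, 0) n s = 0} fun _ => 1 := by
    funext s
    by_cases h : Kp .mk 0 (1, 0) n s = 0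
    · rw [if_pos h, Set.indicator_of_mem (by exact h)]
    · rw [if_neg h, Set.indicator_of_notMem (by exact h)]
  have e2 : (fun s : ℤ × ℤ → Bool => if Kn .mk n s = 0 then (1 : ℝ) else 0) =
      Set.indicator {s | Kn .mk n s = 0} fun _ => 1 := by
    funext s
    by_cases h : Kn .mk n s = 0
    · rw [if_pos h, Set.indicator_of_mem (by exact h)]
    · rw [if_neg h, Set.indicator_of_notMem (by exact h)]
  have hd : Dep ((Tk .mk n).image fun v => pl 0 (1, 0) v)
      {s | Kp .mk 0 (1, 0) n s = 0} := by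
    intro s s' h
    show Kp .mk 0 (1, 0) n s = 0 ↔ Kp .mk 0 (1, 0) n s' = 0
    rw [Kp_eq, Kp_eq, Kn_dep (s' := fun v => xor (od 0) (s' (pl 0 (1, 0) v)))]
    intro v hv
    rw [h _ (Finset.mem_image_of_mem _ hv)]
  rw [e1, e2, int_ind hd, int_ind (dep_mk n)] at h1
  exact h1

theorem mean_e1 (n : ℕ) : mean .e1 n ≤ 2 * Pm n := by
  rw [mean_e1']
  have h : G1 n = {s | Kn .mk n s = 0} ∪ {s | Kp .mk 0 (1, 0) n s = 0} := rfl
  rw [h]
  refine (measureReal_union_le _ _).trans ?_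
  rw [gap_shift]
  exact (le_of_eq (by unfold Pm; ring))

theorem mean_e1_ge (n : ℕ) : Pm n ≤ mean .e1 n := by
  rw [mean_e1']
  exact measureReal_mono fun s hs => Or.inl hs

theorem mean_rf_le (n : ℕ) : mean .rf n ≤ 1 := by
  have h : ∀ s : ℤ × ℤ → Bool, fv .rf n s ≤ 1 := fun s => by
    refine pow_le_one₀ (by positivity) ?_
    rw [div_le_one (by positivity)]
    have : (1 : ℝ) = √1 := by simp
    rw [this]
    exact Real.sqrt_le_sqrt (by norm_num)
  have h2 : mean .rf n ≤ ∫ _s : ℤ × ℤ → Bool, (1 : ℝ) ∂(PB fun _ : ℤ × ℤ => hf) :=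
    integral_mono ((Kn_depF .rf n fun k => (1 / √3) ^ k).integrable _) (integrable_const _) h
  simpa using h2

theorem mean_le_one {f : Fk} (hf' : f ≠ .cv) (n : ℕ) : mean f n ≤ 1 := by
  cases f
  · exact absurd rfl hf'
  · exact mean_rf_le n
  · rw [mean_mk]; exact measureReal_le_one
  · rcases Nat.eq_zero_or_pos n with h | h
    · subst h
      refine (integral_mono_of_nonneg (ae_of_all _ fun s => fv_nonneg _ _ s)
        (integrable_const (1 : ℝ)) (ae_of_all _ fun s => ?_)).trans (by simp)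
      exact Set.indicator_le_self' (fun _ _ => zero_le_one) s
    · rw [mean_e2 h]; exact measureReal_le_one
  · rw [mean_e1']; exact measureReal_le_one

/-- **all the local factors are tame** -/
theorem fv_tame : ∃ C : ℝ, 0 ≤ C ∧ ∀ (f : Fk) (n : ℕ), 2 ≤ n →
    Tame (PB fun _ : ℤ × ℤ => hf) n C (fv f n) := by
  obtain ⟨C1, hC1, h1⟩ := tame_kn (b := 2 / √3) (by positivity)
  obtain ⟨C2, hC2, h2⟩ := tame_kn (b := 1 / √3) (by positivity)
  obtain ⟨c3, hc3, h3⟩ := Zm180.pm_lower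
  obtain ⟨D3, hD3, h3'⟩ := absorb' hc3 (q := 1 / 2) (by norm_num)
  obtain ⟨c4, hc4, h4⟩ := Tw440.E2_ge
  obtain ⟨D4, hD4, h4'⟩ := absorb' hc4 (q := 1) (by norm_num)
  refine ⟨max (max C1 C2) (max (2 * D3) (2 * D4)), by positivity, fun f n hn => ?_⟩
  have hn1 : (1 : ℝ) ≤ n := by exact_mod_cast (by omega : 1 ≤ n)
  have hn' : 1 ≤ n := by omega
  cases f
  · exact (h1 .cv n hn).mono hn1 ((le_max_left _ _).trans (le_max_left _ _))
  · exact (h2 .rf n hn).mono hn1 ((le_max_right _ _).trans (le_max_left _ _))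
  · refine Tame.mono hn1 ((le_max_left _ _).trans (le_max_right _ _)) (tame_ind hn1 hD3
      (dep_mk n).measurableSet ?_)
    exact (h3' n hn).trans (h3 n hn')
  · refine Tame.mono hn1 ((le_max_right _ _).trans (le_max_right _ _)) (tame_ind hn1 hD4
      (Tw440.E2_dep hn').measurableSet ?_)
    refine (h4' n hn).trans (le_trans (le_of_eq ?_) (h4 n hn'))
    rw [Real.rpow_neg (by linarith), Real.rpow_one]
    rfl
  · refine Tame.mono hn1 ((le_max_left _ _).trans (le_max_right _ _)) (tame_ind hn1 hD3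
      (dep_G1 n).measurableSet ?_)
    refine (h3' n hn).trans ((h3 n hn').trans ?_)
    rw [← mean_e1']
    exact mean_e1_ge n

/-! ### local factors in charts -/

section chart

variable {τ : Type u}

/-- local factor at the vertex `p` of a chart, rotated `g` times -/
def fp (f : Fk) (g : ℕ) (p : ℤ × ℤ) (n : ℕ) (emb : ℤ × ℤ → τ) (F : ℤ × ℤ → Bool)
    (s : τ → Bool) : ℝ :=
  fv f n fun v => xor (od g) (rd emb F s (pl g p v))

theorem fp_eq (f : Fk) (g : ℕ) (p : ℤ × ℤ) (n : ℕ) (emb : ℤ × ℤ → τ) (F : ℤ × ℤ → Bool) :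
    fp f g p n emb F = fun s => fv f n (rd (fun v => emb (pl g p v))
      (fun v => xor (od g) (F (pl g p v))) s) := by
  funext s
  unfold fp
  congr 1
  funext v
  simp only [rd]
  rw [Bool.xor_assoc]

/-- tiles of a local factor -/
def fS [DecidableEq τ] (f : Fk) (g : ℕ) (p : ℤ × ℤ) (n : ℕ) (emb : ℤ × ℤ → τ) : Finset τ :=
  (Tf f n).image fun v => emb (pl g p v)

theorem fp_nonneg (f : Fk) (g : ℕ) (p : ℤ × ℤ) (n : ℕ) (emb : ℤ × ℤ → τ) (F : ℤ × ℤ → Bool)
    (s : τ → Bool) : 0 ≤ fp f g p n emb F s := fv_nonneg _ _ _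

theorem fp_dep [DecidableEq τ] (f : Fk) (g : ℕ) (p : ℤ × ℤ) {n : ℕ} (hn : 1 ≤ n)
    (emb : ℤ × ℤ → τ) (F : ℤ × ℤ → Bool) : DepF (fS f g p n emb) (fp f g p n emb F) := by
  rw [fp_eq]
  exact depF_rd _ _ (fv_dep f hn)

theorem fp_int (f : Fk) (g : ℕ) (p : ℤ × ℤ) {n : ℕ} (hn : 1 ≤ n) (emb : ℤ × ℤ → τ)
    (F : ℤ × ℤ → Bool)
    (hinj : Set.InjOn (fun v => emb (pl g p v)) (Tf f n : Set (ℤ × ℤ))) :
    ∫ s, fp f g p n emb F s ∂(PB fun _ : τ => hf) = mean f n := by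
  rw [fp_eq]
  exact integral_transport hinj (fun v => xor (od g) (F (pl g p v))) (fv_dep f hn)

theorem fp_tame (f : Fk) (g : ℕ) (p : ℤ × ℤ) {n : ℕ} (hn : 1 ≤ n) (emb : ℤ × ℤ → τ)
    (F : ℤ × ℤ → Bool)
    (hinj : Set.InjOn (fun v => emb (pl g p v)) (Tf f n : Set (ℤ × ℤ))) {C : ℝ}
    (ht : Tame (PB fun _ : ℤ × ℤ => hf) n C (fv f n)) :
    Tame (PB fun _ : τ => hf) n C (fp f g p n emb F) := by
  rw [fp_eq]
  exact tame_transport hinj _ (fv_dep f hn) ht

end chart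

end Crest.Agent.R158.Nz399
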