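import Crest.Agent.R158.Nz4_399
import Crest.Agent.R158.Nz6_399

/-!
# R158, block Q1d (helper399), part 7: expectation over the special points of a double

* `Sp` : special points (chart, factor, rotation, vertex), `Sp.val`, `Sp.sup`, `Sp.In`
* `asm2` : `∫ (∏ x ∈ X, val x) b ^ BN ≤ C n ^ ε ∏ mean`
* `CP` : the corner product (DENT); `prod_mean` : corners cancel
* `asm3` : pointwise bound ⟹ bound of the integral
-/

set_option autoImplicit false

noncomputable section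

namespace Crest.Agent.R158.Nz399

open MeasureTheory ProbabilityTheory unitInterval
open Crest.Agent.R158.Rs689
open Crest.Agent.R158.Nm211
open Crest.Agent.R158.Ka470
open Crest.Agent.R158.Env664 (TG)

/-- special point of the double of a half environment -/
structure Sp where
  /-- chart -/
  i : Fin 4
  /-- factor -/
  f : Fk
  /-- number of quarter turns -/
  g : ℕ
  /-- vertex -/
  p : ℤ × ℤ
  deriving DecidableEq

section

variable {A : Half} {ρ : ℕ}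

/-- value of the factor -/
def Sp.val (h : A.Sz ρ) (n : ℕ) (x : Sp) (s : TG × Bool → Bool) : ℝ :=
  fp x.f x.g x.p n (Half.chf h x.i).emb (Half.chf h x.i).Fn s

open Classical in
/-- tiles of the factor -/
def Sp.sup (h : A.Sz ρ) (n : ℕ) (x : Sp) : Finset (TG × Bool) :=
  fS x.f x.g x.p n (Half.chf h x.i).emb

/-- the box of the factor lies in the region of its chart -/
def Sp.In (h : A.Sz ρ) (n : ℕ) (x : Sp) : Prop :=
  ∀ v ∈ Tf x.f n, pl x.g x.p v ∈ (Half.chf h x.i).R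

theorem Sp.In.inj {h : A.Sz ρ} {n : ℕ} {x : Sp} (hx : x.In h n) :
    Set.InjOn (fun v => (Half.chf h x.i).emb (pl x.g x.p v)) (Tf x.f n : Set (ℤ × ℤ)) :=
  fun _ hv _ hw hvw => pl_inj _ _ ((Half.chf h x.i).inj (hx _ hv) (hx _ hw) hvw)

theorem Sp.val_nonneg (h : A.Sz ρ) (n : ℕ) (x : Sp) (s : TG × Bool → Bool) : 0 ≤ x.val h n s :=
  fp_nonneg _ _ _ _ _ _ _

theorem Sp.val_dep (h : A.Sz ρ) {n : ℕ} (hn : 1 ≤ n) (x : Sp) :
    DepF (x.sup h n) (x.val h n) := by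
  classical
  have h1 := fp_dep x.f x.g x.p hn (Half.chf h x.i).emb (Half.chf h x.i).Fn
  have h2 : x.sup h n = fS x.f x.g x.p n (Half.chf h x.i).emb := by
    unfold Sp.sup
    congr
  rw [h2]
  exact h1

theorem Sp.val_int (h : A.Sz ρ) {n : ℕ} (hn : 1 ≤ n) {x : Sp} (hx : x.In h n) :
    ∫ s, x.val h n s ∂(PB fun _ : TG × Bool => hf) = mean x.f n :=
  fp_int x.f x.g x.p hn _ _ hx.inj

end

/-- **expectation over the special points** -/
theorem asm2 (κ M : ℕ) {b : ℝ} (hb : 1 ≤ b) {ε : ℝ} (hε : 0 < ε) : ∃ C : ℝ, 1 ≤ C ∧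
    ∀ (A : Half) (ρ : ℕ) (h : A.Sz ρ), A.Bd ρ κ → ∀ n : ℕ, 2 ≤ n → ∀ X : Finset Sp,
      X.card ≤ M → (∀ x ∈ X, ∀ y ∈ X, x ≠ y → Disjoint (x.sup h n) (y.sup h n)) →
      (∀ x ∈ X, x.In h n) →
      ∫ s, (∏ x ∈ X, x.val h n s) * b ^ BN h s ∂(PB fun _ : TG × Bool => hf) ≤
        C * (n : ℝ) ^ ε * ∏ x ∈ X, mean x.f n := by
  obtain ⟨C0, hC0, ht⟩ := fv_tame
  obtain ⟨C, hC1, hC⟩ := asm κ M b hb C0 hC0 ε hε
  refine ⟨C, hC1, fun A ρ h hBd n hn X hX hdis hin => ?_⟩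
  have hn1 : 1 ≤ n := by omega
  refine (hC A ρ h hBd n hn1 X hX (fun x => x.sup h n) hdis (fun x => x.val h n)
    (fun x _ => x.val_dep h hn1) fun x hx => ?_).trans (le_of_eq ?_)
  · exact fp_tame x.f x.g x.p hn1 _ _ (hin x hx).inj (ht x.f n hn)
  · congr 1
    exact Finset.prod_congr rfl fun x hx => x.val_int h hn1 (hin x hx)

/-- the corner product (DENT) -/
def CP : Prop := ∀ ε : ℝ, 0 < ε → ∃ C : ℝ, ∀ n : ℕ, 1 ≤ n →
  EK (2 / √3) .cv n * EK (1 / √3) .rf n ≤ C * (n : ℝ) ^ ε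

/-- special points of a given kind -/
def cnt (X : Finset Sp) (f : Fk) : ℕ := (X.filter fun x => x.f = f).card

theorem prod_split (X : Finset Sp) (n : ℕ) : ∏ x ∈ X, mean x.f n =
    mean .cv n ^ cnt X .cv * mean .rf n ^ cnt X .rf * mean .mk n ^ cnt X .mk *
      mean .e2 n ^ cnt X .e2 * mean .e1 n ^ cnt X .e1 := by
  classical
  induction X using Finset.induction_on with
  | empty => simp [cnt]
  | insert x X hx ih =>
    rw [Finset.prod_insert hx, ih]
    have key : ∀ f, cnt (insert x X) f = cnt X f + if x.f = f then 1 else 0 := by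
      intro f
      unfold cnt
      rw [Finset.filter_insert]
      split_ifs with h
      · rw [Finset.card_insert_of_notMem fun h' => hx (Finset.mem_filter.1 h').1]
      · rfl
    simp only [key]
    cases hxf : x.f <;> simp [pow_succ] <;> ring

/-- **the corners cancel** -/
theorem prod_mean (hcp : CP) (M : ℕ) {ε : ℝ} (hε : 0 < ε) : ∃ C : ℝ, 1 ≤ C ∧
    ∀ n : ℕ, 1 ≤ n → ∀ X : Finset Sp, X.card ≤ M → cnt X .cv ≤ cnt X .rf →
      ∏ x ∈ X, mean x.f n ≤ C * (n : ℝ) ^ ε *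
        (mean .mk n ^ cnt X .mk * mean .e2 n ^ cnt X .e2 * mean .e1 n ^ cnt X .e1) := by
  obtain ⟨C, hC⟩ := hcp (ε / (M + 1)) (by positivity)
  refine ⟨(max 1 C) ^ M, one_le_pow₀ (le_max_left _ _), fun n hn X hX hcr => ?_⟩
  have hn1 : (1 : ℝ) ≤ n := by exact_mod_cast hn
  rw [prod_split]
  have hM : cnt X .cv ≤ M := (Finset.card_filter_le _ _).trans hX
  have h0 : ∀ f, 0 ≤ mean f n := fun f => mean_nonneg f n
  have h1 : mean .cv n ^ cnt X .cv * mean .rf n ^ cnt X .rf ≤ (max 1 C) ^ M * (n : ℝ) ^ ε := by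
    have e1 : mean .cv n ^ cnt X .cv * mean .rf n ^ cnt X .rf =
        (mean .cv n * mean .rf n) ^ cnt X .cv * mean .rf n ^ (cnt X .rf - cnt X .cv) := by
      rw [mul_pow, mul_assoc, ← pow_add, Nat.add_sub_cancel' hcr]
    rw [e1]
    have e2 : mean .cv n * mean .rf n ≤ max 1 C * (n : ℝ) ^ (ε / (M + 1)) :=
      (hC n hn).trans (mul_le_mul_of_nonneg_right (le_max_right _ _) (by positivity))
    have e3 : (1 : ℝ) ≤ max 1 C * (n : ℝ) ^ (ε / (M + 1)) := by
      have h3 : (1 : ℝ) ≤ (n : ℝ) ^ (ε / (M + 1)) := Real.one_le_rpow hn1 (by positivity)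
      nlinarith [le_max_left (1 : ℝ) C]
    calc (mean .cv n * mean .rf n) ^ cnt X .cv * mean .rf n ^ (cnt X .rf - cnt X .cv)
        ≤ (max 1 C * (n : ℝ) ^ (ε / (M + 1))) ^ cnt X .cv * 1 := by
          refine mul_le_mul (pow_le_pow_left₀ (mul_nonneg (h0 _) (h0 _)) e2 _)
            (pow_le_one₀ (h0 _) (mean_rf_le n)) (pow_nonneg (h0 _) _) (by positivity)
      _ ≤ (max 1 C * (n : ℝ) ^ (ε / (M + 1))) ^ M := by
          rw [mul_one]
          exact pow_le_pow_right₀ e3 hM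
      _ = (max 1 C) ^ M * (n : ℝ) ^ (ε / (M + 1) * M) := by
          rw [mul_pow, Real.rpow_mul (by positivity), Real.rpow_natCast]
      _ ≤ (max 1 C) ^ M * (n : ℝ) ^ ε := by
          refine mul_le_mul_of_nonneg_left (Real.rpow_le_rpow_of_exponent_le hn1 ?_)
            (by positivity)
          rw [div_mul_eq_mul_div, div_le_iff₀ (by positivity)]
          nlinarith
  calc mean .cv n ^ cnt X .cv * mean .rf n ^ cnt X .rf * mean .mk n ^ cnt X .mk *
        mean .e2 n ^ cnt X .e2 * mean .e1 n ^ cnt X .e1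
      = mean .cv n ^ cnt X .cv * mean .rf n ^ cnt X .rf *
        (mean .mk n ^ cnt X .mk * mean .e2 n ^ cnt X .e2 * mean .e1 n ^ cnt X .e1) := by ring
    _ ≤ _ := mul_le_mul_of_nonneg_right h1 (by
        have := h0 .mk; have := h0 .e2; have := h0 .e1; positivity)

/-- **bound of an integral over a double from a pointwise bound** -/
theorem asm3 (hcp : CP) (κ M : ℕ) {b : ℝ} (hb : 1 ≤ b) {ε : ℝ} (hε : 0 < ε) : ∃ C : ℝ, 1 ≤ C ∧
    ∀ (A : Half) (ρ : ℕ) (h : A.Sz ρ), A.Bd ρ κ → ∀ n : ℕ, 2 ≤ n → ∀ X : Finset Sp,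
      X.card ≤ M → (∀ x ∈ X, ∀ y ∈ X, x ≠ y → Disjoint (x.sup h n) (y.sup h n)) →
      (∀ x ∈ X, x.In h n) → cnt X .cv ≤ cnt X .rf →
      ∀ (Q : ℝ), 0 ≤ Q → ∀ (T : Finset (TG × Bool)) (Z : (TG × Bool → Bool) → ℝ), DepF T Z →
      (∀ s, Z s ≤ Q * ((∏ x ∈ X, x.val h n s) * b ^ BN h s)) →
      ∫ s, Z s ∂(PB fun _ : TG × Bool => hf) ≤ Q * (C * (n : ℝ) ^ ε *
        (Pm n ^ cnt X .mk * mean .e2 n ^ cnt X .e2 * mean .e1 n ^ cnt X .e1)) := by
  classical
  obtain ⟨C1, hC1, h1⟩ := asm2 κ M hb (half_pos hε)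
  obtain ⟨C2, hC2, h2⟩ := prod_mean hcp M (half_pos hε)
  refine ⟨C1 * C2, by nlinarith, fun A ρ h hBd n hn X hX hdis hin hcr Q hQ T Z hZ hb' => ?_⟩
  have hn1 : (1 : ℝ) ≤ n := by exact_mod_cast (by omega : 1 ≤ n)
  have hdep : DepF (T ∪ (X.biUnion fun x => x.sup h n) ∪ TN h)
      fun s => Q * ((∏ x ∈ X, x.val h n s) * b ^ BN h s) := by
    intro s s' hs
    have e1 : ∏ x ∈ X, x.val h n s = ∏ x ∈ X, x.val h n s' :=
      Finset.prod_congr rfl fun x hx => x.val_dep h (by omega) s s' fun t ht => hs t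
        (Finset.mem_union_left _ (Finset.mem_union_right _ (Finset.mem_biUnion.2 ⟨x, hx, ht⟩)))
    have e2 : BN h s = BN h s' := BN_dep h fun t ht => hs t (Finset.mem_union_right _ ht)
    show Q * ((∏ x ∈ X, x.val h n s) * b ^ BN h s) = Q * ((∏ x ∈ X, x.val h n s') * b ^ BN h s')
    rw [e1, e2]
  refine (integral_mono (hZ.integrable _) (hdep.integrable _) hb').trans ?_
  rw [integral_const_mul]
  refine mul_le_mul_of_nonneg_left ?_ hQ
  refine (h1 A ρ h hBd n hn X hX hdis hin).trans ?_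
  refine (mul_le_mul_of_nonneg_left (h2 n (by omega) X hX hcr) (by positivity)).trans
    (le_of_eq ?_)
  have e : (n : ℝ) ^ ε = (n : ℝ) ^ (ε / 2) * (n : ℝ) ^ (ε / 2) := by
    rw [← Real.rpow_add (by linarith)]
    congr 1; ring
  rw [e, ← mean_mk]
  ring

end Crest.Agent.R158.Nz399
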