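import Crest.Agent.R158.Cc2_841
import Crest.Agent.R158.Hg2_896
import Crest.Agent.R158.Nz8_399

/-!
# R158, leaf (3) of block Q1d (helper841), part 3: no diagonal vertices, completeness

* `pk_patK` : my pattern table = 399's
* `dg_low`, `dg_up` : the two parts of `D F L` cut along a crosscut have no diagonal vertex
* `low_count`, `up_count` : corner count for them
* `nodg_of` : the form of `XOk.nodg`; `cv_of_patt`, `rf_of_patt` : a convex / reflex pattern at a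
  vertex of chart 1 comes from `cvh A` / `rf A.H`, with the right direction
-/

set_option autoImplicit false

namespace Crest.Agent.R158.Cc841

open Crest.Agent.R158.Env664 (TG Mac D mem_D div_iff Run CutAdj Adj4 lowT upT)
open Crest.Agent.R158.Xr249 (mem_lowT mem_upT low_step up_step cut_symm)
open Crest.Agent.R158.Ka470
open Crest.Agent.R158.Ka470.Half
open Crest.Agent.R158.Nz399
open Relation

theorem pk_patK {k : Kind} {g : ℕ} (hg : g < 4) : pk k g = patK k g := by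
  funext bx bz
  interval_cases g <;> cases k <;> cases bx <;> cases bz <;> decide

/-! ### no diagonal vertices -/

theorem mem_dg {H : Finset (ℤ × ℤ)} {p : ℤ × ℤ} : p ∈ dg H ↔
    (tA p ∈ H ∧ tD p ∈ H ∧ tB p ∉ H ∧ tC p ∉ H) ∨ (tA p ∉ H ∧ tD p ∉ H ∧ tB p ∈ H ∧ tC p ∈ H) := by
  unfold dg
  rw [Finset.mem_filter, mem_Vx]
  tauto

theorem cell_eq {L : ℤ} (hL : 0 < L) (i j : ℤ) : (L * i / L, L * j / L) = (i, j) ∧
    ((L * i - 1) / L, L * j / L) = (i - 1, j) ∧ (L * i / L, (L * j - 1) / L) = (i, j - 1) ∧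
    ((L * i - 1) / L, (L * j - 1) / L) = (i - 1, j - 1) := by
  have e1 : L * i / L = i := Int.mul_ediv_cancel_left _ hL.ne'
  have e2 : L * j / L = j := Int.mul_ediv_cancel_left _ hL.ne'
  have e3 : (L * i - 1) / L = i - 1 := (div_iff hL _ _).2 (by constructor <;> nlinarith)
  have e4 : (L * j - 1) / L = j - 1 := (div_iff hL _ _).2 (by constructor <;> nlinarith)
  rw [e1, e2, e3, e4]
  exact ⟨rfl, rfl, rfl, rfl⟩

/-- **the fine polyomino has no diagonal vertex** -/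
theorem dg_D (M : Mac) {L : ℤ} (hL : 0 < L) (p : ℤ × ℤ) : p ∉ dg (D M.F L) := by
  intro hp
  rw [mem_dg] at hp
  simp only [mem_D hL, tA, tB, tC, tD] at hp
  by_cases d1 : L ∣ p.1
  swap
  · rw [div_pred hL d1] at hp
    tauto
  by_cases d2 : L ∣ p.2
  swap
  · rw [div_pred hL d2] at hp
    tauto
  obtain ⟨i, hi⟩ := d1
  obtain ⟨j, hj⟩ := d2
  rw [hi, hj] at hp
  obtain ⟨e1, e2, e3, e4⟩ := cell_eq hL i j
  rw [e1, e2, e3, e4] at hp
  have e5 : i - 1 + 1 = i := by ring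
  have e6 : j - 1 + 1 = j := by ring
  rcases hp with ⟨h1, h2, h3, h4⟩ | ⟨h1, h2, h3, h4⟩
  · have := Hg896.mac_no_pinch M (i - 1) (j - 1)
    rw [e5, e6] at this
    exact this ⟨h1, h2, h3, h4⟩
  · have := Hg896.mac_no_pinch' M (i - 1) (j - 1)
    rw [e5, e6] at this
    exact this ⟨h3, h4, h1, h2⟩

section cut

variable {A : Finset (ℤ × ℤ)} {xl xr y0 : ℤ}

theorem row_adj {s t : ℤ × ℤ} (h : s.2 = t.2) (h' : t.1 = s.1 + 1 ∨ s.1 = t.1 + 1) (hs : s ∈ A)
    (ht : t ∈ A) : CutAdj A xl xr y0 s t :=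
  ⟨Or.inr ⟨h, h'⟩, hs, ht, fun h2 => by omega⟩

theorem low_row {s t : ℤ × ℤ} (h : s.2 = t.2) (h' : t.1 = s.1 + 1 ∨ s.1 = t.1 + 1)
    (hs : s ∈ lowT A xl xr y0) : t ∈ lowT A xl xr y0 ↔ t ∈ A :=
  ⟨fun ht => (mem_lowT.1 ht).1, fun ht => low_step hs (row_adj h h' (mem_lowT.1 hs).1 ht)⟩

theorem up_row {s t : ℤ × ℤ} (h : s.2 = t.2) (h' : t.1 = s.1 + 1 ∨ s.1 = t.1 + 1)
    (hs : s ∈ upT A xl xr y0) : t ∈ upT A xl xr y0 ↔ t ∈ A :=
  ⟨fun ht => (mem_upT.1 ht).1, fun ht => up_step hs (row_adj h h' (mem_upT.1 hs).1 ht)⟩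

/-- a part that is closed under horizontal steps has only the diagonal vertices of the whole -/
theorem dg_sub {H : Finset (ℤ × ℤ)} (hH : H ⊆ A)
    (hr : ∀ s t : ℤ × ℤ, s.2 = t.2 → (t.1 = s.1 + 1 ∨ s.1 = t.1 + 1) → s ∈ H → t ∈ A → t ∈ H)
    {p : ℤ × ℤ} (hp : p ∈ dg H) : p ∈ dg A := by
  rw [mem_dg] at hp ⊢
  rcases hp with ⟨h1, h2, h3, h4⟩ | ⟨h1, h2, h3, h4⟩
  · left
    refine ⟨hH h1, hH h2, fun h => h3 ?_, fun h => h4 ?_⟩
    · exact hr (tA p) (tB p) rfl (Or.inl (by simp only [tA, tB]; omega)) h1 h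
    · exact hr (tD p) (tC p) rfl (Or.inr (by simp only [tC, tD]; omega)) h2 h
  · right
    refine ⟨fun h => h1 ?_, fun h => h2 ?_, hH h3, hH h4⟩
    · exact hr (tB p) (tA p) rfl (Or.inr (by simp only [tA, tB]; omega)) h3 h
    · exact hr (tC p) (tD p) rfl (Or.inl (by simp only [tC, tD]; omega)) h4 h

end cut

/-- **no diagonal vertex below a crosscut** -/
theorem dg_low (M : Mac) {L : ℤ} (hL : 0 < L) (xl xr y0 : ℤ) : dg (lowT (D M.F L) xl xr y0) = ∅ := by
  rw [Finset.eq_empty_iff_forall_notMem]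
  intro p hp
  refine dg_D M hL p (dg_sub (fun t ht => (mem_lowT.1 ht).1) ?_ hp)
  exact fun s t h1 h2 h3 h4 => (low_row h1 h2 h3).2 h4

/-- **no diagonal vertex above a crosscut** -/
theorem dg_up (M : Mac) {L : ℤ} (hL : 0 < L) (xl xr y0 : ℤ) : dg (upT (D M.F L) xl xr y0) = ∅ := by
  rw [Finset.eq_empty_iff_forall_notMem]
  intro p hp
  refine dg_D M hL p (dg_sub (fun t ht => (mem_upT.1 ht).1) ?_ hp)
  exact fun s t h1 h2 h3 h4 => (up_row h1 h2 h3).2 h4

/-- reflection in a horizontal line -/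
theorem dg_image {H : Finset (ℤ × ℤ)} {κ : ℤ} (h : dg H = ∅) :
    dg (H.image fun v => (v.1, κ - v.2)) = ∅ := by
  have hmem : ∀ v : ℤ × ℤ, v ∈ (H.image fun v => (v.1, κ - v.2)) ↔ (v.1, κ - v.2) ∈ H := by
    intro v
    rw [Finset.mem_image]
    constructor
    · rintro ⟨w, hw, rfl⟩
      have e : ((w.1, κ - (κ - w.2)) : ℤ × ℤ) = w := Prod.ext rfl (by simp)
      simp only
      rw [e]
      exact hw
    · intro hv
      exact ⟨_, hv, Prod.ext rfl (by simp)⟩
  rw [Finset.eq_empty_iff_forall_notMem] at h ⊢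
  intro p hp
  refine h (p.1, κ - p.2 + 1) ?_
  rw [mem_dg] at hp ⊢
  simp only [hmem] at hp
  simp only [tA, tB, tC, tD] at hp ⊢
  have e1 : κ - (p.2 - 1) = κ - p.2 + 1 := by ring
  have e2 : κ - p.2 + 1 - 1 = κ - p.2 := by ring
  rw [e1] at hp
  rw [e2]
  tauto

/-- **corner count below a crosscut** -/
theorem low_count {M : Mac} {L a b c y1 y0 R : ℤ} (d : LD M L a b c y1 y0 R) :
    (cvh (lowHalf d)).card ≤ (rf (lowHalf d).H).card + 2 := by
  have h := half_count (A := lowHalf d) (low_hc (A := D M.F L))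
  omega

/-! ### completeness -/

section comp

variable {A : Half} {L a b c : ℤ} {ρ : ℕ}

theorem mem_img {u : ℤ × ℤ} : A.rf u ∈ A.H.image A.rf ↔ u ∈ A.H := by
  rw [Half.mem_rf]
  have e : A.rf (A.rf u) = u := rf_rf A u
  rw [e]

theorem mir_mir (p : ℤ × ℤ) : mir A (mir A p) = p := by
  refine Prod.ext rfl ?_
  simp only [mir]; ring

/-- the four tiles at a vertex of chart 1 -/
theorem mir_eval (h : A.Sz ρ) {n : ℕ} (hn : 0 < n) {p : ℤ × ℤ} {pat : Bool → Bool → Bool}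
    (hp : Patt (chf h 1).R (Bv n p) p pat) : (tC (mir A p) ∈ A.H ↔ pat false false = true) ∧
      (tD (mir A p) ∈ A.H ↔ pat true false = true) ∧ (tA (mir A p) ∈ A.H ↔ pat false true = true) ∧
      (tB (mir A p) ∈ A.H ↔ pat true true = true) := by
  obtain ⟨h1, h2, h3, h4⟩ := patt_eval hn hp
  have e1 : A.rf (tC (mir A p)) = tA p := Prod.ext rfl (by simp only [tA, tC, mir, Half.rf]; ring)
  have e2 : A.rf (tD (mir A p)) = tB p := Prod.ext rfl (by simp only [tB, tD, mir, Half.rf]; ring)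
  have e3 : A.rf (tA (mir A p)) = tC p := Prod.ext rfl (by simp only [tA, tC, mir, Half.rf]; ring)
  have e4 : A.rf (tB (mir A p)) = tD p := Prod.ext rfl (by simp only [tB, tD, mir, Half.rf]; ring)
  rw [← h1, ← h2, ← h3, ← h4, ← e1, ← e2, ← e3, ← e4]
  exact ⟨mem_img.symm, mem_img.symm, mem_img.symm, mem_img.symm⟩

/-- **`XOk.nodg`** -/
theorem nodg_of (hd : dg A.H = ∅) (h : A.Sz ρ) {p : ℤ × ℤ} {pat : Bool → Bool → Bool}
    (hp : Patt (chf h 1).R (Bv (5 * ρ) p) p pat) :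
    ¬ (pat true true = true ∧ pat false false = true ∧ pat true false = false ∧
      pat false true = false) ∧
    ¬ (pat true true = false ∧ pat false false = false ∧ pat true false = true ∧
      pat false true = true) := by
  have h0 := h.pos
  obtain ⟨h1, h2, h3, h4⟩ := mir_eval h (by omega) hp
  have h5 : mir A p ∉ dg A.H := by rw [hd]; exact Finset.notMem_empty _
  rw [mem_dg, h1, h2, h3, h4] at h5
  constructor
  · rintro ⟨a1, a2, a3, a4⟩
    rw [a1, a2, a3, a4] at h5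
    simp at h5
  · rintro ⟨a1, a2, a3, a4⟩
    rw [a1, a2, a3, a4] at h5
    simp at h5

/-- **a convex pattern in chart 1 comes from `cvh A`** -/
theorem cv_of_patt (m : A.Mc L a b c) (h : A.Sz ρ) {p : ℤ × ℤ} (hv : p ∈ A.Ver L 1) {g : ℕ}
    (hg : g < 4) (hp : Patt (chf h 1).R (Bv (5 * ρ) p) p (patK .cv g)) :
    mir A p ∈ cvh A ∧ g = mg .cv (gcv A.H (mir A p)) := by
  have h0 := h.pos
  rw [← pk_patK hg] at hp
  obtain ⟨h1, h2, h3, h4⟩ := mir_eval h (by omega) hp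
  have hy : L ∣ (mir A p).2 := hv.2
  rw [mem_cvh]
  refine ⟨⟨?_, ?_, ?_⟩, ?_⟩
  · unfold nt
    rw [if_congr h1 rfl rfl, if_congr h2 rfl rfl, if_congr h3 rfl rfl, if_congr h4 rfl rfl]
    interval_cases g <;> simp [pk]
  · intro e
    rw [e] at hy
    exact not_mac m hy
  · intro e
    rw [e] at hy
    exact not_mac m hy
  · unfold gcv
    rw [if_congr h1 rfl rfl, if_congr h2 rfl rfl, if_congr h3 rfl rfl]
    interval_cases g <;> simp [pk, mg]

/-- **a reflex pattern in chart 1 comes from `rf A.H`** -/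
theorem rf_of_patt (h : A.Sz ρ) {p : ℤ × ℤ} {g : ℕ}
    (hg : g < 4) (hp : Patt (chf h 1).R (Bv (5 * ρ) p) p (patK .rf g)) :
    mir A p ∈ rf A.H ∧ g = mg .rf (grf A.H (mir A p)) := by
  have h0 := h.pos
  rw [← pk_patK hg] at hp
  obtain ⟨h1, h2, h3, h4⟩ := mir_eval h (by omega) hp
  rw [Cc841.mem_rf]
  refine ⟨?_, ?_⟩
  · unfold nt
    rw [if_congr h1 rfl rfl, if_congr h2 rfl rfl, if_congr h3 rfl rfl, if_congr h4 rfl rfl]
    interval_cases g <;> simp [pk]
  · unfold grf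
    rw [if_congr (not_congr h3) rfl rfl, if_congr (not_congr h4) rfl rfl,
      if_congr (not_congr h2) rfl rfl]
    interval_cases g <;> simp [pk, mg]

end comp

end Crest.Agent.R158.Cc841
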