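import Crest.Agent.R158.Cd9_83

/-!
R158, block C (Cardy front), part 10: identification on the Jordan domain, weak boundary
conditions on the open arcs, no orientation input.
-/

set_option autoImplicit false

namespace Crest.Agent.R158.Cd83

open Complex Set Filter Topology MeasureTheory
open Crest.ProbabilityR.Percolation
open scoped ComplexConjugate

variable {γ : ℝ → ℂ} {φ : ℂ → ℂ}

/-- `h` tends to the line `A + ℝ B` at the boundary point `γ t`. -/
def LB (γ : ℝ → ℂ) (h : ℂ → ℂ) (A B : ℂ) (t : ℝ) : Prop :=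
  Tendsto (fun z => ((h z - A) / B).im) (𝓝[jordanInterior γ] (γ t)) (𝓝 0)

theorem radial_to_D (H : CDat γ φ) {t : ℝ} (ht : t ∈ Icc (0:ℝ) 1) :
    Tendsto (fun r : ℝ => psi γ φ ((r : ℂ) * φ (γ t))) (𝓝[<] 1)
      (𝓝[jordanInterior γ] (γ t)) := by
  have hn := H.norm_gam ht
  have hin : ∀ r : ℝ, 0 < r → r < 1 → (r : ℂ) * φ (γ t) ∈ Metric.ball (0:ℂ) 1 := by
    intro r h0 h1
    rw [mem_ball_zero_iff, norm_mul, hn, mul_one, Complex.norm_real, Real.norm_of_nonneg h0.le]
    exact h1
  rw [tendsto_nhdsWithin_iff]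
  constructor
  · have hzc : Tendsto (fun r : ℝ => (r : ℂ) * φ (γ t)) (𝓝[<] 1)
        (𝓝[Metric.closedBall 0 1] (φ (γ t))) := by
      rw [tendsto_nhdsWithin_iff]
      constructor
      · have : Continuous (fun r : ℝ => (r : ℂ) * φ (γ t)) := by fun_prop
        have h0 := this.tendsto 1
        simp only [Complex.ofReal_one, one_mul] at h0
        exact h0.mono_left nhdsWithin_le_nhds
      · filter_upwards [ev_lt_one 0 zero_lt_one] with r hr
        exact Metric.ball_subset_closedBall (hin r hr.1 hr.2)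
    have h1 := (H.psi_cont (φ (γ t)) (by rw [mem_closedBall_zero_iff, hn])).tendsto.comp hzc
    rw [H.psi_phi (H.gam_mem ht)] at h1
    exact h1
  · filter_upwards [ev_lt_one 0 zero_lt_one] with r hr
    exact H.psi_mem_int (hin r hr.1 hr.2)

theorem conj_om : conj om = om ^ 2 := by
  have h3 : (Real.sqrt 3 : ℝ) ^ 2 = 3 := Real.sq_sqrt (by norm_num)
  rw [om_eq]
  apply Complex.ext
  · simp [pow_two]; nlinarith
  · simp [pow_two]; ring

theorem crossRatio_conj (p q r s : ℂ) :
    crossRatioAt (conj p) (conj q) (conj r) (conj s) = crossRatioAt p q r s := by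
  unfold crossRatioAt
  have : ((conj q - conj p) * (conj r - conj s)) / ((conj q - conj s) * (conj r - conj p)) =
      conj (((q - p) * (r - s)) / ((q - s) * (r - p))) := by
    simp [map_div₀, map_mul, map_sub]
  rw [this, Complex.conj_re]

/-- tends to the value along `D` -/
theorem tri_tendsto (H : CDat γ φ) {α β δ : ℝ} (hm : Marks α β δ) {t : ℝ} (ht : t ∈ Icc (0:ℝ) 1) :
    Tendsto (fun z => tri α β δ (φ z)) (𝓝[jordanInterior γ] (γ t)) (𝓝 (tri α β δ (φ (γ t)))) := by
  have h1 : Tendsto φ (𝓝[jordanInterior γ] (γ t)) (𝓝[Metric.closedBall 0 1] (φ (γ t))) := by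
    rw [tendsto_nhdsWithin_iff]
    constructor
    · exact ((H.hc (γ t) (H.gam_mem ht)).mono subset_closure).tendsto
    · filter_upwards [self_mem_nhdsWithin] with z hz
      exact H.phi_mem (subset_closure hz)
  exact ((tri_main hm).1 (φ (γ t)) (H.phi_mem (H.gam_mem ht))).tendsto.comp h1

theorem tri_tendsto' (H : CDat γ φ) {α β δ : ℝ} (hm : Marks α β δ) {t : ℝ} (ht : t ∈ Icc (0:ℝ) 1) :
    Tendsto (fun z => tri α β δ (conj (φ z))) (𝓝[jordanInterior γ] (γ t))
      (𝓝 (tri α β δ (conj (φ (γ t))))) := by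
  have hcb : ∀ w ∈ Metric.closedBall (0:ℂ) 1, conj w ∈ Metric.closedBall (0:ℂ) 1 := by
    intro w hw
    rw [mem_closedBall_zero_iff] at hw ⊢
    rwa [Complex.norm_conj]
  have h1 : Tendsto (fun z => conj (φ z)) (𝓝[jordanInterior γ] (γ t))
      (𝓝[Metric.closedBall 0 1] (conj (φ (γ t)))) := by
    rw [tendsto_nhdsWithin_iff]
    constructor
    · exact (Complex.continuous_conj.tendsto _).comp
        ((H.hc (γ t) (H.gam_mem ht)).mono subset_closure).tendsto
    · filter_upwards [self_mem_nhdsWithin] with z hz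
      exact hcb _ (H.phi_mem (subset_closure hz))
  exact ((tri_main hm).1 _ (hcb _ (H.phi_mem (H.gam_mem ht)))).tendsto.comp h1

theorem LB_conj {h : ℂ → ℂ} {A B : ℂ} {t : ℝ} (hb : LB γ h A B t) :
    LB γ (fun z => conj (h z)) (conj A) (conj B) t := by
  unfold LB at hb ⊢
  have h1 : ∀ z, ((conj (h z) - conj A) / conj B).im = -((h z - A) / B).im := by
    intro z
    have : (conj (h z) - conj A) / conj B = conj ((h z - A) / B) := by
      simp [map_div₀, map_sub]
    rw [this, Complex.conj_im]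
  simp only [h1]
  simpa using hb.neg

/-- **Identification theorem** (no orientation input, boundary conditions only on the open arcs,
only the distance to the side lines). -/
theorem ident (H : CDat γ φ) {h : ℂ → ℂ} {M : ℝ} (hM : ∀ z ∈ jordanInterior γ, ‖h z‖ ≤ M)
    (hol : DifferentiableOn ℂ h (jordanInterior γ) ∨
      DifferentiableOn ℂ (fun z => conj (h z)) (jordanInterior γ))
    (b1 : ∀ t ∈ Ioo (0:ℝ) (1/2), LB γ h 1 (om - 1) t)
    (b2 : ∀ t ∈ Ioo (1/2:ℝ) (3/4), LB γ h om (om * (om - 1)) t)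
    (b3 : ∀ t ∈ Ioo (3/4:ℝ) 1, LB γ h (om ^ 2) (om ^ 2 * (om - 1)) t) :
    Tendsto h (𝓝[jordanInterior γ] (γ (1/4)))
      (𝓝 (1 + (om - 1) * ((cardyRatio (crossRatioAt (φ (γ 0)) (φ (γ (1/4)))
        (φ (γ (1/2))) (φ (γ (3/4)))) : ℝ) : ℂ))) := by
  have hpi := Real.pi_pos
  have hom3 := om_cube
  have m0 : (0:ℝ) ∈ Icc (0:ℝ) 1 := ⟨le_rfl, zero_le_one⟩
  have m14 : (1/4:ℝ) ∈ Icc (0:ℝ) 1 := ⟨by norm_num, by norm_num⟩
  have m12 : (1/2:ℝ) ∈ Icc (0:ℝ) 1 := ⟨by norm_num, by norm_num⟩
  have m34 : (3/4:ℝ) ∈ Icc (0:ℝ) 1 := ⟨by norm_num, by norm_num⟩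
  have m1 : (1:ℝ) ∈ Icc (0:ℝ) 1 := ⟨zero_le_one, le_rfl⟩
  -- conjugated boundary conditions
  have cA1 : conj (om - 1) = om ^ 2 - 1 := by rw [map_sub, conj_om, map_one]
  have cA2 : conj (om * (om - 1)) = om - om ^ 2 := by
    rw [map_mul, conj_om, cA1]; linear_combination om * hom3
  have cA3 : conj (om ^ 2) = om := by
    rw [map_pow, conj_om]; linear_combination om * hom3
  have cA4 : conj (om ^ 2 * (om - 1)) = 1 - om := by
    rw [map_mul, cA3, cA1]; linear_combination hom3
  have c1 : ∀ t ∈ Ioo (0:ℝ) (1/2), LB γ (fun z => conj (h z)) 1 (om ^ 2 - 1) t := by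
    intro t ht
    have := LB_conj (b1 t ht)
    rwa [map_one, cA1] at this
  have c2 : ∀ t ∈ Ioo (1/2:ℝ) (3/4), LB γ (fun z => conj (h z)) (om ^ 2) (om - om ^ 2) t := by
    intro t ht
    have := LB_conj (b2 t ht)
    rwa [conj_om, cA2] at this
  have c3 : ∀ t ∈ Ioo (3/4:ℝ) 1, LB γ (fun z => conj (h z)) om (1 - om) t := by
    intro t ht
    have := LB_conj (b3 t ht)
    rwa [cA3, cA4] at this
  have hM' : ∀ z ∈ jordanInterior γ, ‖conj (h z)‖ ≤ M := by
    intro z hz; rw [Complex.norm_conj]; exact hM z hz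
  have hconjball : ∀ w ∈ Metric.ball (0:ℂ) 1, conj w ∈ Metric.ball (0:ℂ) 1 := by
    intro w hw
    rw [mem_ball_zero_iff] at hw ⊢
    rwa [Complex.norm_conj]
  obtain ⟨θ, hθc, hθ, hcase⟩ := H.lift
  rcases hcase with ⟨hmono, hend⟩ | ⟨hanti, hend⟩
  · -- counterclockwise
    have hm : Marks (θ 0) (θ (1/2)) (θ (3/4)) :=
      ⟨hmono m0 m12 (by norm_num), hmono m12 m34 (by norm_num), by
        rw [← hend]; exact hmono m34 m1 (by norm_num)⟩
    have rad : ∀ (g : ℂ → ℂ) (A B : ℂ) (a b : ℝ), 0 ≤ a → b ≤ 1 → a ≤ b →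
        (∀ t ∈ Ioo a b, LB γ g A B t) → ∀ s ∈ Ioo (θ a) (θ b), RB (fun w => g (psi γ φ w)) A B s := by
      intro g A B a b ha hb hab hg s hs
      obtain ⟨t, ht, rfl⟩ := intermediate_value_Ioo hab hθc.continuousOn hs
      have hti : t ∈ Icc (0:ℝ) 1 := ⟨ha.trans ht.1.le, ht.2.le.trans hb⟩
      have h1 := (hg t ht).comp (radial_to_D H hti)
      unfold RB
      rw [← hθ t hti]
      exact h1
    rcases hol with hd | hd
    · have hf := disc_match hm (f := fun w => h (psi γ φ w))
        (hd.comp H.psi_diff (fun w hw => H.psi_mem_int hw)) (fun w hw => hM _ (H.psi_mem_int hw))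
        (rad h _ _ _ _ le_rfl (by norm_num) (by norm_num) b1)
        (rad h _ _ _ _ (by norm_num) (by norm_num) (by norm_num) b2)
        (by rw [← hend]; exact rad h _ _ _ _ (by norm_num) le_rfl (by norm_num) b3)
      have hval : ∀ z ∈ jordanInterior γ, tri (θ 0) (θ (1/2)) (θ (3/4)) (φ z) = h z := by
        intro z hz
        have := hf (φ z) (H.phi_mem_ball hz)
        simp only [H.psi_phi (subset_closure hz)] at this
        exact this.symm
      have hlim := tri_tendsto H hm m14
      rw [hθ _ m14, (tri_main hm).2.2.1 (θ (1/4)) ⟨(hmono m0 m14 (by norm_num)).le,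
        (hmono m14 m12 (by norm_num)).le⟩, ← hθ _ m0, ← hθ _ m14, ← hθ _ m12, ← hθ _ m34] at hlim
      refine hlim.congr' ?_
      filter_upwards [self_mem_nhdsWithin] with z hz
      exact hval z hz
    · exfalso
      exact disc_mismatch hm (f := fun w => conj (h (psi γ φ w)))
        (hd.comp H.psi_diff (fun w hw => H.psi_mem_int hw)) (fun w hw => hM' _ (H.psi_mem_int hw))
        (rad (fun z => conj (h z)) _ _ _ _ le_rfl (by norm_num) (by norm_num) c1)
        (rad (fun z => conj (h z)) _ _ _ _ (by norm_num) (by norm_num) (by norm_num) c2)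
        (by rw [← hend]; exact rad (fun z => conj (h z)) _ _ _ _ (by norm_num) le_rfl (by norm_num) c3)
  · -- clockwise
    have hm : Marks (-θ 0) (-θ (1/2)) (-θ (3/4)) :=
      ⟨by have := hanti m0 m12 (by norm_num); linarith,
        by have := hanti m12 m34 (by norm_num); linarith,
        by have := hanti m34 m1 (by norm_num); linarith⟩
    have hcj : ∀ t ∈ Icc (0:ℝ) 1, conj (φ (γ t)) = exp (((-θ t : ℝ) : ℂ) * I) := by
      intro t ht
      rw [hθ t ht, ← Complex.exp_conj, map_mul, Complex.conj_ofReal, Complex.conj_I]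
      congr 1
      push_cast; ring
    have rad : ∀ (g : ℂ → ℂ) (A B : ℂ) (a b : ℝ), 0 ≤ a → b ≤ 1 → a ≤ b →
        (∀ t ∈ Ioo a b, LB γ g A B t) →
        ∀ s ∈ Ioo (-θ a) (-θ b), RB (fun w => g (psi γ φ (conj w))) A B s := by
      intro g A B a b ha hb hab hg s hs
      obtain ⟨t, ht, hts⟩ := intermediate_value_Ioo hab (hθc.neg).continuousOn hs
      have hti : t ∈ Icc (0:ℝ) 1 := ⟨ha.trans ht.1.le, ht.2.le.trans hb⟩
      have h1 := (hg t ht).comp (radial_to_D H hti)
      unfold RB
      have hts' : s = -θ t := hts.symm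
      rw [hts', ← hcj t hti]
      simp only [map_mul, Complex.conj_ofReal, Complex.conj_conj]
      exact h1
    have hend' : -θ 0 + 2 * Real.pi = -θ 1 := by rw [hend]; ring
    have dconj : ∀ g : ℂ → ℂ, DifferentiableOn ℂ g (Metric.ball 0 1) →
        DifferentiableOn ℂ (fun w => conj (g (conj w))) (Metric.ball 0 1) := by
      intro g hg w hw
      have h1 : DifferentiableAt ℂ g (conj w) :=
        hg.differentiableAt (Metric.isOpen_ball.mem_nhds (hconjball w hw))
      have h2 := h1.conj_conj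
      rw [Complex.conj_conj] at h2
      exact h2.differentiableWithinAt
    rcases hol with hd | hd
    · exfalso
      have hgd : DifferentiableOn ℂ (fun w => h (psi γ φ w)) (Metric.ball 0 1) :=
        hd.comp H.psi_diff (fun w hw => H.psi_mem_int hw)
      exact disc_mismatch hm (f := fun w => conj (h (psi γ φ (conj w)))) (dconj _ hgd)
        (fun w hw => hM' _ (H.psi_mem_int (hconjball w hw)))
        (rad (fun z => conj (h z)) _ _ _ _ le_rfl (by norm_num) (by norm_num) c1)
        (rad (fun z => conj (h z)) _ _ _ _ (by norm_num) (by norm_num) (by norm_num) c2)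
        (by rw [hend']; exact rad (fun z => conj (h z)) _ _ _ _ (by norm_num) le_rfl (by norm_num) c3)
    · have hgd : DifferentiableOn ℂ (fun w => conj (h (psi γ φ w))) (Metric.ball 0 1) :=
        hd.comp H.psi_diff (fun w hw => H.psi_mem_int hw)
      have hgd' := dconj _ hgd
      simp only [Complex.conj_conj] at hgd'
      have hf := disc_match hm (f := fun w => h (psi γ φ (conj w))) hgd'
        (fun w hw => hM _ (H.psi_mem_int (hconjball w hw)))
        (rad h _ _ _ _ le_rfl (by norm_num) (by norm_num) b1)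
        (rad h _ _ _ _ (by norm_num) (by norm_num) (by norm_num) b2)
        (by rw [hend']; exact rad h _ _ _ _ (by norm_num) le_rfl (by norm_num) b3)
      have hval : ∀ z ∈ jordanInterior γ, tri (-θ 0) (-θ (1/2)) (-θ (3/4)) (conj (φ z)) = h z := by
        intro z hz
        have := hf (conj (φ z)) (hconjball _ (H.phi_mem_ball hz))
        simp only [Complex.conj_conj, H.psi_phi (subset_closure hz)] at this
        exact this.symm
      have hlim := tri_tendsto' H hm m14
      rw [hcj _ m14, (tri_main hm).2.2.1 (-θ (1/4)) ⟨by have := hanti m0 m14 (by norm_num); linarith,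
        by have := hanti m14 m12 (by norm_num); linarith⟩, ← hcj _ m0, ← hcj _ m14, ← hcj _ m12,
        ← hcj _ m34, crossRatio_conj] at hlim
      refine hlim.congr' ?_
      filter_upwards [self_mem_nhdsWithin] with z hz
      exact hval z hz

end Crest.Agent.R158.Cd83
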