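import Mathlib

/-!
R158, block C (Cardy front), part 1: uniqueness of triangle maps.
`cube_const`: `g` holomorphic in a bounded connected open set, continuous up to the boundary,
`c g³` real on the boundary ⟹ `g³` constant.
-/

set_option autoImplicit false

namespace Crest.Agent.R158.Cd83

open Complex Set Filter Topology MeasureTheory

theorem im_zero_of_frontier {U : Set ℂ} (hb : Bornology.IsBounded U) {u : ℂ → ℂ}
    (hu : DiffContOnCl ℂ u U) (hr : ∀ z ∈ frontier U, (u z).im = 0) {a : ℂ}
    (ha : a ∈ closure U) : (u a).im = 0 := by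
  have key : ∀ s : ℝ, s = 1 ∨ s = -1 → -(s * (u a).im) ≤ 0 := by
    intro s hs
    have hd : DiffContOnCl ℂ (fun z => Complex.exp ((s : ℂ) * (I * u z))) U := by
      refine ⟨?_, ?_⟩
      · exact ((hu.1.const_mul I).const_mul (s : ℂ)).cexp
      · exact ((hu.2.const_smul I).const_smul (s : ℂ)).cexp
    have hn : ∀ z, ‖Complex.exp ((s : ℂ) * (I * u z))‖ = Real.exp (-(s * (u z).im)) := by
      intro z
      rw [Complex.norm_exp]
      congr 1
      simp
    have h1 := Complex.norm_le_of_forall_mem_frontier_norm_le hb hd (C := 1)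
      (fun z hz => by rw [hn z, hr z hz]; simp) ha
    rw [hn a] at h1
    exact Real.exp_le_one_iff.mp h1
  have h1 := key 1 (Or.inl rfl)
  have h2 := key (-1) (Or.inr rfl)
  linarith

theorem const_of_real {U : Set ℂ} (hU : IsOpen U) (hc : IsPreconnected U) {u : ℂ → ℂ}
    (hu : DiffContOnCl ℂ u U) (hr : ∀ z ∈ U, (u z).im = 0) {a b : ℂ}
    (ha : a ∈ closure U) (hb : b ∈ closure U) : u a = u b := by
  have hder : ∀ z ∈ U, deriv u z = 0 := by
    intro z hz
    have hd : HasDerivAt u (deriv u z) z := (hu.1.differentiableAt (hU.mem_nhds hz)).hasDerivAt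
    -- two directions
    have h1 : HasDerivAt (fun t : ℝ => (u (z + t)).im) (deriv u z).im 0 := by
      have h2 : HasDerivAt (fun t : ℝ => u (z + t)) (deriv u z) 0 := by
        have h3 : HasDerivAt (fun t : ℂ => u (z + t)) (deriv u z) ((0 : ℝ) : ℂ) := by
          have h4 : HasDerivAt u (deriv u z) (z + ((0 : ℝ) : ℂ)) := by simpa using hd
          exact h4.comp_const_add z _
        exact h3.comp_ofReal
      exact (Complex.imCLM.hasFDerivAt.comp_hasDerivAt (0 : ℝ) h2)
    have h2 : HasDerivAt (fun t : ℝ => (u (z + t * I)).im) (deriv u z).re 0 := by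
      have h2 : HasDerivAt (fun t : ℝ => u (z + t * I)) (deriv u z * I) 0 := by
        have h3 : HasDerivAt (fun t : ℂ => u (z + t * I)) (deriv u z * I) ((0 : ℝ) : ℂ) := by
          have h4 : HasDerivAt u (deriv u z) (z + ((0 : ℝ) : ℂ) * I) := by simpa using hd
          have h5 : HasDerivAt (fun t : ℂ => z + t * I) I ((0 : ℝ) : ℂ) := by
            simpa using ((hasDerivAt_id ((0 : ℝ) : ℂ)).mul_const I).const_add z
          have h6 := HasDerivAt.comp (h₂ := u) (h := fun t : ℂ => z + t * I) ((0 : ℝ) : ℂ) h4 h5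
          exact h6
        exact h3.comp_ofReal
      have h3 := (Complex.imCLM.hasFDerivAt.comp_hasDerivAt (0 : ℝ) h2)
      have h4 : (Complex.imCLM (deriv u z * I)) = (deriv u z).re := by simp
      rw [h4] at h3
      exact h3
    have hev1 : (fun t : ℝ => (u (z + t)).im) =ᶠ[𝓝 0] fun _ => 0 := by
      have : Tendsto (fun t : ℝ => z + (t : ℂ)) (𝓝 0) (𝓝 z) := by
        have : Continuous fun t : ℝ => z + (t : ℂ) := by fun_prop
        simpa using this.tendsto 0
      filter_upwards [this (hU.mem_nhds hz)] with t ht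
      exact hr _ ht
    have hev2 : (fun t : ℝ => (u (z + t * I)).im) =ᶠ[𝓝 0] fun _ => 0 := by
      have : Tendsto (fun t : ℝ => z + (t : ℂ) * I) (𝓝 0) (𝓝 z) := by
        have : Continuous fun t : ℝ => z + (t : ℂ) * I := by fun_prop
        simpa using this.tendsto 0
      filter_upwards [this (hU.mem_nhds hz)] with t ht
      exact hr _ ht
    have e1 : (deriv u z).im = 0 :=
      (h1.congr_of_eventuallyEq hev1.symm).unique (hasDerivAt_const (0 : ℝ) (0 : ℝ))
    have e2 : (deriv u z).re = 0 :=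
      (h2.congr_of_eventuallyEq hev2.symm).unique (hasDerivAt_const (0 : ℝ) (0 : ℝ))
    exact Complex.ext e2 e1
  have hne : U.Nonempty := closure_nonempty_iff.mp ⟨a, ha⟩
  obtain ⟨z0, hz0⟩ := hne
  have hconst : EqOn u (fun _ => u z0) U := by
    intro z hz
    exact hU.is_const_of_deriv_eq_zero hc hu.1 hder hz hz0
  have hcl : EqOn u (fun _ => u z0) (closure U) :=
    hconst.of_subset_closure hu.continuousOn continuousOn_const subset_closure subset_rfl
  rw [hcl ha, hcl hb]

theorem cube_const {U : Set ℂ} (hU : IsOpen U) (hb : Bornology.IsBounded U)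
    (hc : IsPreconnected U) {g : ℂ → ℂ} (hg : DiffContOnCl ℂ g U) {c : ℂ} (hc0 : c ≠ 0)
    (hr : ∀ z ∈ frontier U, (c * g z ^ 3).im = 0) {a b : ℂ} (ha : a ∈ closure U)
    (hb' : b ∈ closure U) : g a ^ 3 = g b ^ 3 := by
  have hu : DiffContOnCl ℂ (fun z => c * g z ^ 3) U :=
    ⟨(hg.1.pow 3).const_mul c, (hg.2.pow 3).const_smul c⟩
  have h1 : c * g a ^ 3 = c * g b ^ 3 :=
    const_of_real hU hc hu
      (fun z hz => im_zero_of_frontier hb hu hr (subset_closure hz)) ha hb'
  exact mul_left_cancel₀ hc0 h1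

/-- Uniqueness: if moreover `g` vanishes at one point of the closure then `g = 0`. -/
theorem eq_zero_of_cube {U : Set ℂ} (hU : IsOpen U) (hb : Bornology.IsBounded U)
    (hc : IsPreconnected U) {g : ℂ → ℂ} (hg : DiffContOnCl ℂ g U) {c : ℂ} (hc0 : c ≠ 0)
    (hr : ∀ z ∈ frontier U, (c * g z ^ 3).im = 0) {a b : ℂ} (ha : a ∈ closure U)
    (hb' : b ∈ closure U) (h0 : g b = 0) : g a = 0 := by
  have h := cube_const hU hb hc hg hc0 hr ha hb'
  rw [h0] at h
  simpa using h

end Crest.Agent.R158.Cd83
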