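import Mathlib

/-!
R158, block C (Cardy front), part 2: the Schwarz-Christoffel map of the disc onto an
equilateral triangle, marks at `exp (α I), exp (β I), exp (γ I)`.
-/

set_option autoImplicit false

namespace Crest.Agent.R158.Cd83

open Complex Set Filter Topology MeasureTheory

/-- `(1 - z e^{-iα})^(-2/3)`. -/
noncomputable def wf (α : ℝ) (z : ℂ) : ℂ := (1 - z * exp (-(α : ℂ) * I)) ^ (((-2/3 : ℝ)) : ℂ)

noncomputable def Wf (α β γ : ℝ) (z : ℂ) : ℂ := wf α z * wf β z * wf γ z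

noncomputable def SCF (α β γ : ℝ) (z : ℂ) : ℂ := ∫ t in (0:ℝ)..1, z * Wf α β γ ((t:ℂ) * z)

theorem base_re {α : ℝ} {z : ℂ} (hz : ‖z‖ ≤ 1) (hne : z ≠ exp ((α : ℂ) * I)) :
    0 < (1 - z * exp (-(α : ℂ) * I)).re := by
  set u := z * exp (-(α : ℂ) * I) with hu
  have hnexp : ‖exp (-(α : ℂ) * I)‖ = 1 := by
    have : -(α : ℂ) * I = ((-α : ℝ) : ℂ) * I := by push_cast; ring
    rw [this, Complex.norm_exp_ofReal_mul_I]
  have hn : ‖u‖ ≤ 1 := by rw [hu, norm_mul, hnexp, mul_one]; exact hz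
  have hre : u.re ≤ 1 := (Complex.re_le_norm u).trans hn
  rw [Complex.sub_re, Complex.one_re, sub_pos]
  refine lt_of_le_of_ne hre ?_
  intro h
  apply hne
  have h2 : u.re ^ 2 + u.im ^ 2 ≤ 1 := by
    have := Complex.sq_norm u
    rw [Complex.normSq_apply] at this
    nlinarith [norm_nonneg u]
  have him : u.im = 0 := by
    rw [h] at h2
    have : u.im ^ 2 ≤ 0 := by linarith
    exact pow_eq_zero_iff (two_ne_zero) |>.mp (le_antisymm this (sq_nonneg _))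
  have hu1 : u = 1 := Complex.ext h (by simpa using him)
  calc z = u * exp ((α : ℂ) * I) := by
        rw [hu, mul_assoc, ← Complex.exp_add]; simp
    _ = exp ((α : ℂ) * I) := by rw [hu1, one_mul]

theorem wf_diffAt {α : ℝ} {z : ℂ} (h : 1 - z * exp (-(α : ℂ) * I) ∈ slitPlane) :
    DifferentiableAt ℂ (wf α) z := by
  unfold wf
  have hf : DifferentiableAt ℂ (fun z : ℂ => 1 - z * exp (-(α : ℂ) * I)) z := by fun_prop
  exact DifferentiableAt.cpow hf (differentiableAt_const _) h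

theorem Wf_diffAt {α β γ : ℝ} {z : ℂ} (h : 1 - z * exp (-(α : ℂ) * I) ∈ slitPlane)
    (h' : 1 - z * exp (-(β : ℂ) * I) ∈ slitPlane)
    (h'' : 1 - z * exp (-(γ : ℂ) * I) ∈ slitPlane) :
    DifferentiableAt ℂ (Wf α β γ) z :=
  ((wf_diffAt h).mul (wf_diffAt h')).mul (wf_diffAt h'')

theorem ball_ne {α : ℝ} {z : ℂ} (hz : ‖z‖ < 1) : z ≠ exp ((α : ℂ) * I) := by
  rintro rfl
  rw [Complex.norm_exp_ofReal_mul_I] at hz
  exact lt_irrefl _ hz

theorem ball_slit {α : ℝ} {z : ℂ} (hz : ‖z‖ < 1) :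
    1 - z * exp (-(α : ℂ) * I) ∈ slitPlane :=
  Or.inl (base_re hz.le (ball_ne hz))

theorem Wf_diffAt_ball {α β γ : ℝ} {z : ℂ} (hz : ‖z‖ < 1) :
    DifferentiableAt ℂ (Wf α β γ) z :=
  Wf_diffAt (ball_slit hz) (ball_slit hz) (ball_slit hz)

theorem wf_meas (α : ℝ) : Measurable (wf α) := by
  unfold wf
  exact Measurable.pow (by fun_prop) measurable_const

theorem Wf_meas (α β γ : ℝ) : Measurable (Wf α β γ) :=
  ((wf_meas α).mul (wf_meas β)).mul (wf_meas γ)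

theorem norm_base (α : ℝ) (z : ℂ) :
    ‖1 - z * exp (-(α : ℂ) * I)‖ = ‖exp ((α : ℂ) * I) - z‖ := by
  have h : 1 - z * exp (-(α : ℂ) * I) = (exp ((α : ℂ) * I) - z) * exp (-(α : ℂ) * I) := by
    rw [sub_mul, ← Complex.exp_add]; simp
  have hnexp : ‖exp (-(α : ℂ) * I)‖ = 1 := by
    have : -(α : ℂ) * I = ((-α : ℝ) : ℂ) * I := by push_cast; ring
    rw [this, Complex.norm_exp_ofReal_mul_I]
  rw [h, norm_mul, hnexp, mul_one]

theorem norm_Wf (α β γ : ℝ) (z : ℂ) :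
    ‖Wf α β γ z‖ = (‖exp ((α : ℂ) * I) - z‖ * ‖exp ((β : ℂ) * I) - z‖ *
      ‖exp ((γ : ℂ) * I) - z‖) ^ (-2/3 : ℝ) := by
  unfold Wf wf
  rw [norm_mul, norm_mul, Complex.norm_cpow_real, Complex.norm_cpow_real, Complex.norm_cpow_real,
    norm_base, norm_base, norm_base, ← Real.mul_rpow (norm_nonneg _) (norm_nonneg _),
    ← Real.mul_rpow (by positivity) (norm_nonneg _)]

theorem Wf_bound {α β γ : ℝ} (h1 : exp ((α : ℂ) * I) ≠ exp ((β : ℂ) * I))
    (h2 : exp ((α : ℂ) * I) ≠ exp ((γ : ℂ) * I)) (h3 : exp ((β : ℂ) * I) ≠ exp ((γ : ℂ) * I)) :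
    ∃ C : ℝ, 0 ≤ C ∧ ∀ z : ℂ, ‖z‖ ≤ 1 → ∀ t : ℝ, 0 ≤ t → t < 1 →
      ‖Wf α β γ ((t:ℂ) * z)‖ ≤ C * (1 - t) ^ (-2/3 : ℝ) := by
  set a := exp ((α : ℂ) * I) with ha
  set b := exp ((β : ℂ) * I) with hb
  set c := exp ((γ : ℂ) * I) with hc
  have hna : ‖a‖ = 1 := Complex.norm_exp_ofReal_mul_I α
  have hnb : ‖b‖ = 1 := Complex.norm_exp_ofReal_mul_I β
  have hnc : ‖c‖ = 1 := Complex.norm_exp_ofReal_mul_I γ
  obtain ⟨δ, hδ, d1, d2, d3⟩ : ∃ δ : ℝ, 0 < δ ∧ 2 * δ ≤ ‖a - b‖ ∧ 2 * δ ≤ ‖a - c‖ ∧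
      2 * δ ≤ ‖b - c‖ := by
    refine ⟨min (‖a - b‖) (min ‖a - c‖ ‖b - c‖) / 2, ?_, ?_, ?_, ?_⟩
    · have e1 : 0 < ‖a - b‖ := norm_pos_iff.mpr (sub_ne_zero.mpr h1)
      have e2 : 0 < ‖a - c‖ := norm_pos_iff.mpr (sub_ne_zero.mpr h2)
      have e3 : 0 < ‖b - c‖ := norm_pos_iff.mpr (sub_ne_zero.mpr h3)
      have : 0 < min (‖a - b‖) (min ‖a - c‖ ‖b - c‖) := lt_min e1 (lt_min e2 e3)
      linarith
    · linarith [min_le_left (‖a - b‖) (min ‖a - c‖ ‖b - c‖)]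
    · linarith [(min_le_right (‖a - b‖) (min ‖a - c‖ ‖b - c‖)).trans (min_le_left _ _)]
    · linarith [(min_le_right (‖a - b‖) (min ‖a - c‖ ‖b - c‖)).trans (min_le_right _ _)]
  refine ⟨(δ * δ) ^ (-2/3 : ℝ), by positivity, ?_⟩
  intro z hz t ht0 ht1
  rw [norm_Wf, ← Real.mul_rpow (by positivity) (by linarith)]
  have hu : ‖(t:ℂ) * z‖ ≤ t := by
    rw [norm_mul, Complex.norm_real, Real.norm_of_nonneg ht0]
    exact mul_le_of_le_one_right ht0 hz
  set u := (t:ℂ) * z with hudef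
  have lower : ∀ x : ℂ, ‖x‖ = 1 → 1 - t ≤ ‖x - u‖ := by
    intro x hx
    have := norm_sub_norm_le x u
    linarith
  have A := lower a hna
  have B := lower b hnb
  have C := lower c hnc
  have t1 : ‖a - b‖ ≤ ‖a - u‖ + ‖b - u‖ := by
    have : a - b = (a - u) - (b - u) := by ring
    rw [this]; exact norm_sub_le _ _
  have t2 : ‖a - c‖ ≤ ‖a - u‖ + ‖c - u‖ := by
    have : a - c = (a - u) - (c - u) := by ring
    rw [this]; exact norm_sub_le _ _
  have t3 : ‖b - c‖ ≤ ‖b - u‖ + ‖c - u‖ := by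
    have : b - c = (b - u) - (c - u) := by ring
    rw [this]; exact norm_sub_le _ _
  have h1t : 0 < 1 - t := by linarith
  have key : δ * δ * (1 - t) ≤ ‖a - u‖ * ‖b - u‖ * ‖c - u‖ := by
    rcases lt_or_ge ‖a - u‖ δ with hA | hA
    · have hB : δ ≤ ‖b - u‖ := by linarith
      have hC : δ ≤ ‖c - u‖ := by linarith
      calc δ * δ * (1 - t) = (1 - t) * δ * δ := by ring
        _ ≤ ‖a - u‖ * ‖b - u‖ * ‖c - u‖ := by
          apply mul_le_mul (mul_le_mul A hB hδ.le (norm_nonneg _)) hC hδ.le (by positivity)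
    · rcases lt_or_ge ‖b - u‖ δ with hB | hB
      · have hC : δ ≤ ‖c - u‖ := by linarith
        calc δ * δ * (1 - t) = δ * (1 - t) * δ := by ring
          _ ≤ ‖a - u‖ * ‖b - u‖ * ‖c - u‖ := by
            apply mul_le_mul (mul_le_mul hA B h1t.le (norm_nonneg _)) hC hδ.le (by positivity)
      · apply mul_le_mul (mul_le_mul hA hB hδ.le (norm_nonneg _)) C h1t.le (by positivity)
  exact Real.rpow_le_rpow_of_nonpos (by positivity) key (by norm_num)

theorem bound_int (C : ℝ) :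
    IntervalIntegrable (fun t : ℝ => C * (1 - t) ^ (-2/3 : ℝ)) volume 0 1 := by
  have h := intervalIntegral.intervalIntegrable_rpow' (a := (0:ℝ)) (b := 1) (r := (-2/3 : ℝ))
    (by norm_num)
  have h2 := (h.comp_sub_left 1).symm
  simp only [sub_zero, sub_self] at h2
  exact h2.const_mul C

theorem SCF_cont {α β γ : ℝ} (h1 : exp ((α : ℂ) * I) ≠ exp ((β : ℂ) * I))
    (h2 : exp ((α : ℂ) * I) ≠ exp ((γ : ℂ) * I)) (h3 : exp ((β : ℂ) * I) ≠ exp ((γ : ℂ) * I)) :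
    ContinuousOn (SCF α β γ) (Metric.closedBall 0 1) := by
  obtain ⟨C, hC0, hC⟩ := Wf_bound h1 h2 h3
  intro x hx
  unfold SCF
  refine intervalIntegral.continuousWithinAt_of_dominated_interval
    (bound := fun t : ℝ => C * (1 - t) ^ (-2/3 : ℝ)) ?_ ?_ (bound_int C) ?_
  · filter_upwards with z
    apply Measurable.aestronglyMeasurable
    exact measurable_const.mul ((Wf_meas α β γ).comp (by fun_prop))
  · filter_upwards [self_mem_nhdsWithin] with z hz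
    have hz' : ‖z‖ ≤ 1 := by simpa using hz
    have hne : ∀ᵐ t : ℝ ∂volume, t ≠ 1 := by
      simp [ae_iff, measure_singleton]
    filter_upwards [hne] with t ht1 ht
    rw [uIoc_of_le zero_le_one] at ht
    have hlt : t < 1 := lt_of_le_of_ne ht.2 ht1
    rw [norm_mul]
    calc ‖z‖ * ‖Wf α β γ ((t:ℂ) * z)‖ ≤ 1 * ‖Wf α β γ ((t:ℂ) * z)‖ := by
          gcongr
      _ ≤ C * (1 - t) ^ (-2/3 : ℝ) := by rw [one_mul]; exact hC z hz' t ht.1.le hlt
  · have hne : ∀ᵐ t : ℝ ∂volume, t ≠ 1 := by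
      simp [ae_iff, measure_singleton]
    filter_upwards [hne] with t ht1 ht
    rw [uIoc_of_le zero_le_one] at ht
    have hlt : t < 1 := lt_of_le_of_ne ht.2 ht1
    have hx' : ‖x‖ ≤ 1 := by simpa using hx
    have hu : ‖(t:ℂ) * x‖ < 1 := by
      rw [norm_mul, Complex.norm_real, Real.norm_of_nonneg ht.1.le]
      calc t * ‖x‖ ≤ t * 1 := by gcongr; exact ht.1.le
        _ < 1 := by linarith
    have hd := (Wf_diffAt_ball (α := α) (β := β) (γ := γ) hu).continuousAt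
    have hcomp : ContinuousAt (fun z : ℂ => Wf α β γ ((t:ℂ) * z)) x :=
      ContinuousAt.comp (f := fun z : ℂ => (t:ℂ) * z) (g := Wf α β γ) hd (by fun_prop)
    exact (continuousAt_id.mul hcomp).continuousWithinAt

theorem SCF_hasDeriv {α β γ : ℝ} {z : ℂ} (hz : ‖z‖ < 1) :
    HasDerivAt (SCF α β γ) (Wf α β γ z) z := by
  have hd : DifferentiableOn ℂ (Wf α β γ) (Metric.ball 0 1) := fun x hx =>
    (Wf_diffAt_ball (by simpa using hx)).differentiableWithinAt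
  obtain ⟨G, hG⟩ := hd.isExactOn_ball
  have hG' : ∀ x : ℂ, ‖x‖ < 1 → HasDerivAt G (Wf α β γ x) x := fun x hx => hG x (by simpa using hx)
  have heq : ∀ x : ℂ, ‖x‖ < 1 → SCF α β γ x = G x - G 0 := by
    intro x hx
    unfold SCF
    have hin : ∀ t : ℝ, t ∈ Set.uIcc (0:ℝ) 1 → ‖(t:ℂ) * x‖ < 1 := by
      intro t ht
      rw [uIcc_of_le zero_le_one] at ht
      rw [norm_mul, Complex.norm_real, Real.norm_of_nonneg ht.1]
      calc t * ‖x‖ ≤ 1 * ‖x‖ := by gcongr; exact ht.2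
        _ < 1 := by linarith
    have hder : ∀ t ∈ Set.uIcc (0:ℝ) 1,
        HasDerivAt (fun t : ℝ => G ((t:ℂ) * x)) (x * Wf α β γ ((t:ℂ) * x)) t := by
      intro t ht
      have h4 := hG' _ (hin t ht)
      have h5 : HasDerivAt (fun w : ℂ => w * x) x (t:ℂ) := by
        simpa using (hasDerivAt_id (t:ℂ)).mul_const x
      have h6 := HasDerivAt.comp (h₂ := G) (h := fun w : ℂ => w * x) (t:ℂ) h4 h5
      have h7 := h6.comp_ofReal
      rw [mul_comm] at h7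
      exact h7
    have hint : IntervalIntegrable (fun t : ℝ => x * Wf α β γ ((t:ℂ) * x)) volume 0 1 := by
      apply ContinuousOn.intervalIntegrable
      intro t ht
      have hc := (Wf_diffAt_ball (α := α) (β := β) (γ := γ) (hin t ht)).continuousAt
      have hcomp : ContinuousAt (fun t : ℝ => Wf α β γ ((t:ℂ) * x)) t :=
        ContinuousAt.comp (f := fun t : ℝ => (t:ℂ) * x) (g := Wf α β γ) hc (by fun_prop)
      exact (continuousAt_const.mul hcomp).continuousWithinAt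
    rw [intervalIntegral.integral_eq_sub_of_hasDerivAt hder hint]
    simp
  have hmem : Metric.ball (0:ℂ) 1 ∈ 𝓝 z := Metric.isOpen_ball.mem_nhds (by simpa using hz)
  have hev : SCF α β γ =ᶠ[𝓝 z] fun x => G x - G 0 := by
    filter_upwards [hmem] with x hx
    exact heq x (by simpa using hx)
  exact ((hG' z hz).sub_const (G 0)).congr_of_eventuallyEq hev

end Crest.Agent.R158.Cd83
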