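import Crest.Agent.R158.Cd1_83
import Crest.Agent.R158.Cd2_83

/-!
R158, block C (Cardy front), part 3: boundary behaviour of the Schwarz-Christoffel integral.
-/

set_option autoImplicit false

namespace Crest.Agent.R158.Cd83

open Complex Set Filter Topology MeasureTheory

theorem circle_slit {α s : ℝ} (h : exp ((s : ℂ) * I) ≠ exp ((α : ℂ) * I)) :
    1 - exp ((s : ℂ) * I) * exp (-(α : ℂ) * I) ∈ slitPlane :=
  Or.inl (base_re (Complex.norm_exp_ofReal_mul_I s).le h)

/-- derivative of the SC map along the circle -/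
theorem SCF_circle_deriv {α β γ s : ℝ} (h1 : exp ((α : ℂ) * I) ≠ exp ((β : ℂ) * I))
    (h2 : exp ((α : ℂ) * I) ≠ exp ((γ : ℂ) * I)) (h3 : exp ((β : ℂ) * I) ≠ exp ((γ : ℂ) * I))
    (hα : exp ((s : ℂ) * I) ≠ exp ((α : ℂ) * I)) (hβ : exp ((s : ℂ) * I) ≠ exp ((β : ℂ) * I))
    (hγ : exp ((s : ℂ) * I) ≠ exp ((γ : ℂ) * I)) :
    HasDerivAt (fun x : ℝ => SCF α β γ (exp ((x : ℂ) * I)))
      (Wf α β γ (exp ((s : ℂ) * I)) * (exp ((s : ℂ) * I) * I)) s := by
  set e := exp ((s : ℂ) * I) with he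
  have hen : ‖e‖ = 1 := Complex.norm_exp_ofReal_mul_I s
  -- the slit domain is open
  have hop : ∀ δ : ℝ, IsOpen {z : ℂ | 1 - z * exp (-(δ : ℂ) * I) ∈ slitPlane} := fun δ =>
    Complex.isOpen_slitPlane.preimage (by fun_prop)
  have hmem : {z : ℂ | 1 - z * exp (-(α : ℂ) * I) ∈ slitPlane} ∩
      ({z : ℂ | 1 - z * exp (-(β : ℂ) * I) ∈ slitPlane} ∩
        {z : ℂ | 1 - z * exp (-(γ : ℂ) * I) ∈ slitPlane}) ∈ 𝓝 e :=
    ((hop α).inter ((hop β).inter (hop γ))).mem_nhds
      ⟨circle_slit hα, circle_slit hβ, circle_slit hγ⟩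
  obtain ⟨ε, hε, hball⟩ := Metric.mem_nhds_iff.mp hmem
  have hd : DifferentiableOn ℂ (Wf α β γ) (Metric.ball e ε) := fun x hx => by
    obtain ⟨a, b, c⟩ := hball hx
    exact (Wf_diffAt a b c).differentiableWithinAt
  obtain ⟨G, hG⟩ := hd.isExactOn_ball
  -- on the intersection with the unit ball, SCF - G is constant
  set V := Metric.ball e ε ∩ Metric.ball (0:ℂ) 1 with hV
  have hVo : IsOpen V := Metric.isOpen_ball.inter Metric.isOpen_ball
  have hVc : Convex ℝ V := (convex_ball _ _).inter (convex_ball _ _)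
  have hder : ∀ x ∈ V, HasDerivAt (fun z => SCF α β γ z - G z) 0 x := by
    intro x hx
    have e1 := SCF_hasDeriv (α := α) (β := β) (γ := γ) (z := x) (by simpa using hx.2)
    have e2 := hG x hx.1
    have e3 := e1.sub e2
    rw [sub_self] at e3
    exact e3
  have hconst : ∀ x ∈ V, ∀ y ∈ V, SCF α β γ x - G x = SCF α β γ y - G y := by
    intro x hx y hy
    exact hVo.is_const_of_deriv_eq_zero hVc.isPreconnected
      (fun z hz => (hder z hz).differentiableAt.differentiableWithinAt)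
      (fun z hz => (hder z hz).deriv) hx hy
  -- pick base point
  obtain ⟨r0, hr0, hr0V⟩ : ∃ r0 : ℝ, r0 < 1 ∧ ∀ r : ℝ, r0 < r → r < 1 → 0 < r := by
    exact ⟨0, by norm_num, fun r h _ => h⟩
  have hz0 : ∃ z0, z0 ∈ V := by
    have : e ∈ closure (Metric.ball (0:ℂ) 1) := by
      rw [closure_ball _ one_ne_zero]; simp [hen]
    rw [_root_.mem_closure_iff] at this
    obtain ⟨z, hz⟩ := this (Metric.ball e ε) Metric.isOpen_ball (Metric.mem_ball_self hε)
    exact ⟨z, hz⟩
  obtain ⟨z0, hz0⟩ := hz0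
  set K := SCF α β γ z0 - G z0 with hK
  -- closure statement
  have hcl : ∀ w : ℂ, ‖w‖ = 1 → w ∈ Metric.ball e ε → SCF α β γ w = G w + K := by
    intro w hw hwb
    have hcw : w ∈ closure V := by
      rw [_root_.mem_closure_iff]
      intro O hO hwO
      have : w ∈ closure (Metric.ball (0:ℂ) 1) := by
        rw [closure_ball _ one_ne_zero]; simp [hw]
      rw [_root_.mem_closure_iff] at this
      obtain ⟨z, hz1, hz2⟩ := this (O ∩ Metric.ball e ε) (hO.inter Metric.isOpen_ball) ⟨hwO, hwb⟩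
      exact ⟨z, hz1.1, hz1.2, hz2⟩
    have hcont : ContinuousWithinAt (fun z => SCF α β γ z - G z) V w := by
      have c1 : ContinuousWithinAt (SCF α β γ) V w :=
        ((SCF_cont h1 h2 h3) w (by simp [hw])).mono
          (inter_subset_right.trans Metric.ball_subset_closedBall)
      exact c1.sub (hG w hwb).continuousAt.continuousWithinAt
    have hne : (𝓝[V] w).NeBot := mem_closure_iff_nhdsWithin_neBot.mp hcw
    have hlim : Tendsto (fun z => SCF α β γ z - G z) (𝓝[V] w) (𝓝 K) := by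
      apply tendsto_const_nhds.congr'
      filter_upwards [self_mem_nhdsWithin] with z hz
      exact (hconst z hz z0 hz0).symm
    have := tendsto_nhds_unique hcont.tendsto hlim
    rw [← this]; ring
  -- derivative
  have hGe := hG e (Metric.mem_ball_self hε)
  have hexp : HasDerivAt (fun x : ℝ => exp ((x : ℂ) * I)) (e * I) s := by
    have h4 : HasDerivAt (fun x : ℂ => exp (x * I)) (e * I) (s : ℂ) := by
      have := ((hasDerivAt_id (s:ℂ)).mul_const I).cexp
      simpa [he] using this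
    exact h4.comp_ofReal
  have hcomp : HasDerivAt (fun x : ℝ => G (exp ((x : ℂ) * I)) + K)
      (Wf α β γ e * (e * I)) s := by
    have := (HasDerivAt.comp (h₂ := G) (h := fun x : ℝ => exp ((x : ℂ) * I)) s
      (by simpa [he] using hGe) hexp)
    exact this.add_const K
  have hev : (fun x : ℝ => SCF α β γ (exp ((x : ℂ) * I))) =ᶠ[𝓝 s]
      fun x : ℝ => G (exp ((x : ℂ) * I)) + K := by
    have hct : ContinuousAt (fun x : ℝ => exp ((x : ℂ) * I)) s := hexp.continuousAt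
    have := hct.preimage_mem_nhds (Metric.isOpen_ball.mem_nhds (Metric.mem_ball_self hε))
    filter_upwards [this] with x hx
    exact hcl _ (Complex.norm_exp_ofReal_mul_I x) hx
  exact hcomp.congr_of_eventuallyEq hev

/-- value of `wf` on the circle -/
theorem wf_circle {α s : ℝ} (h0 : 0 < s - α) (h1 : s - α < 2 * Real.pi) :
    wf α (exp ((s : ℂ) * I)) =
      (((2 * Real.sin ((s - α) / 2)) ^ (-2/3 : ℝ) : ℝ) : ℂ) *
        exp ((-((s - α - Real.pi) / 3) : ℝ) * I) := by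
  set ψ := s - α with hψ
  have hs : 0 < Real.sin (ψ / 2) := Real.sin_pos_of_pos_of_lt_pi (by linarith) (by linarith)
  have hbase : 1 - exp ((s : ℂ) * I) * exp (-(α : ℂ) * I) =
      ((2 * Real.sin (ψ / 2) : ℝ) : ℂ) * exp ((((ψ - Real.pi) / 2 : ℝ) : ℂ) * I) := by
    rw [← Complex.exp_add]
    have e1 : (s : ℂ) * I + -(α : ℂ) * I = ((ψ / 2 : ℝ) : ℂ) * I + ((ψ / 2 : ℝ) : ℂ) * I := by
      rw [hψ]; push_cast; ring
    have e2 : (((ψ - Real.pi) / 2 : ℝ) : ℂ) * I = ((ψ / 2 : ℝ) : ℂ) * I + (-(Real.pi / 2 : ℂ) * I) := by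
      push_cast; ring
    rw [e1, e2, Complex.exp_add, Complex.exp_add]
    have e3 : exp (-(Real.pi / 2 : ℂ) * I) = -I := by
      have : -(Real.pi / 2 : ℂ) * I = -(Real.pi / 2 * I) := by ring
      rw [this, Complex.exp_neg, Complex.exp_pi_div_two_mul_I]; simp
    rw [e3]
    have e4 : ((2 * Real.sin (ψ / 2) : ℝ) : ℂ) = 2 * Complex.sin ((ψ / 2 : ℝ) : ℂ) := by
      push_cast; ring
    rw [e4, Complex.sin]
    have e5 : exp (-((ψ / 2 : ℝ) : ℂ) * I) * exp (((ψ / 2 : ℝ) : ℂ) * I) = 1 := by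
      rw [← Complex.exp_add]; simp
    have hI : I * I = -1 := Complex.I_mul_I
    linear_combination (-(1:ℂ)) * e5 + (exp (-((ψ / 2 : ℝ) : ℂ) * I) * exp (((ψ / 2 : ℝ) : ℂ) * I) - exp (((ψ / 2 : ℝ) : ℂ) * I) * exp (((ψ / 2 : ℝ) : ℂ) * I)) * hI
  unfold wf
  rw [hbase]
  have hpos : 0 < 2 * Real.sin (ψ / 2) := by linarith
  have hlog : Complex.log (((2 * Real.sin (ψ / 2) : ℝ) : ℂ) * exp ((((ψ - Real.pi) / 2 : ℝ) : ℂ) * I)) =
      ((Real.log (2 * Real.sin (ψ / 2)) : ℝ) : ℂ) + (((ψ - Real.pi) / 2 : ℝ) : ℂ) * I := by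
    rw [Complex.log_ofReal_mul hpos (Complex.exp_ne_zero _), Complex.log_exp]
    · simp; linarith [Real.pi_pos]
    · simp; linarith [Real.pi_pos]
  rw [Complex.cpow_def_of_ne_zero (mul_ne_zero (by exact_mod_cast hpos.ne') (Complex.exp_ne_zero _)),
    hlog, Real.rpow_def_of_pos hpos, Complex.ofReal_exp, ← Complex.exp_add]
  congr 1
  push_cast
  ring

end Crest.Agent.R158.Cd83
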