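import Crest.Agent.R158.Cd3_83
import Crest.Prelude.Def_PlanarPerc

/-!
R158, block C (Cardy front), part 4: the three sides of the triangle, and the side ratio is
`cardyRatio` of the cross ratio.
-/

set_option autoImplicit false

namespace Crest.Agent.R158.Cd83

open Complex Set Filter Topology MeasureTheory
open Crest.ProbabilityR.Percolation

/-- the positive density on the circle -/
noncomputable def Rd (α β γ s : ℝ) : ℝ :=
  (8 * |Real.sin ((s - α) / 2) * Real.sin ((s - β) / 2) * Real.sin ((s - γ) / 2)|) ^ (-2/3 : ℝ)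

/-- the first direction -/
noncomputable def Dd (α β γ : ℝ) : ℂ := I * exp ((((α + β + γ - Real.pi) / 3 : ℝ) : ℂ) * I)

noncomputable def om : ℂ := exp (((2 * Real.pi / 3 : ℝ) : ℂ) * I)

theorem om_eq : om = ⟨-1/2, Real.sqrt 3 / 2⟩ := by
  unfold om
  have h : (2 * Real.pi / 3) = Real.pi - Real.pi / 3 := by ring
  apply Complex.ext
  · rw [Complex.exp_ofReal_mul_I_re, h, Real.cos_pi_sub, Real.cos_pi_div_three]; norm_num
  · rw [Complex.exp_ofReal_mul_I_im, h, Real.sin_pi_sub, Real.sin_pi_div_three]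

theorem om_cube : om ^ 3 = 1 := by
  unfold om
  rw [← Complex.exp_nat_mul]
  have : ((3 : ℕ) : ℂ) * (((2 * Real.pi / 3 : ℝ) : ℂ) * I) = 2 * Real.pi * I := by
    push_cast; ring
  rw [this, Complex.exp_two_pi_mul_I]

theorem wf_shift (α s : ℝ) : wf α (exp (((s + 2 * Real.pi : ℝ) : ℂ) * I)) = wf α (exp ((s : ℂ) * I)) := by
  have : (((s + 2 * Real.pi : ℝ) : ℂ) * I) = (s : ℂ) * I + 2 * Real.pi * I := by
    push_cast; ring
  rw [this, Complex.exp_add, Complex.exp_two_pi_mul_I, mul_one]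

theorem wf_circle' {α s : ℝ} (h0 : s - α < 0) (h1 : -(2 * Real.pi) < s - α) :
    wf α (exp ((s : ℂ) * I)) =
      (((2 * |Real.sin ((s - α) / 2)|) ^ (-2/3 : ℝ) : ℝ) : ℂ) *
        exp ((-((s - α + Real.pi) / 3) : ℝ) * I) := by
  rw [← wf_shift]
  rw [wf_circle (by linarith) (by linarith)]
  have e1 : (s + 2 * Real.pi - α) / 2 = (s - α) / 2 + Real.pi := by ring
  have e2 : s + 2 * Real.pi - α - Real.pi = s - α + Real.pi := by ring
  have hneg : Real.sin ((s - α) / 2) < 0 :=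
    Real.sin_neg_of_neg_of_neg_pi_lt (by linarith) (by linarith)
  rw [e1, e2, Real.sin_add_pi, abs_of_neg hneg]

theorem wf_circle'' {α s : ℝ} (h0 : 0 < s - α) (h1 : s - α < 2 * Real.pi) :
    wf α (exp ((s : ℂ) * I)) =
      (((2 * |Real.sin ((s - α) / 2)|) ^ (-2/3 : ℝ) : ℝ) : ℂ) *
        exp ((-((s - α - Real.pi) / 3) : ℝ) * I) := by
  rw [wf_circle h0 h1]
  have hs : 0 < Real.sin ((s - α) / 2) := Real.sin_pos_of_pos_of_lt_pi (by linarith) (by linarith)
  rw [abs_of_pos hs]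

theorem Rd_prod (α β γ s : ℝ) :
    Rd α β γ s = (2 * |Real.sin ((s - α) / 2)|) ^ (-2/3 : ℝ) *
      (2 * |Real.sin ((s - β) / 2)|) ^ (-2/3 : ℝ) * (2 * |Real.sin ((s - γ) / 2)|) ^ (-2/3 : ℝ) := by
  unfold Rd
  rw [← Real.mul_rpow (by positivity) (by positivity), ← Real.mul_rpow (by positivity) (by positivity)]
  congr 1
  rw [abs_mul, abs_mul]; ring

theorem Wf_arc {α β γ s u v w : ℝ}
    (h1 : wf α (exp ((s : ℂ) * I)) =
      (((2 * |Real.sin ((s - α) / 2)|) ^ (-2/3 : ℝ) : ℝ) : ℂ) * exp ((u : ℂ) * I))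
    (h2 : wf β (exp ((s : ℂ) * I)) =
      (((2 * |Real.sin ((s - β) / 2)|) ^ (-2/3 : ℝ) : ℝ) : ℂ) * exp ((v : ℂ) * I))
    (h3 : wf γ (exp ((s : ℂ) * I)) =
      (((2 * |Real.sin ((s - γ) / 2)|) ^ (-2/3 : ℝ) : ℝ) : ℂ) * exp ((w : ℂ) * I)) :
    Wf α β γ (exp ((s : ℂ) * I)) * (exp ((s : ℂ) * I) * I) =
      (Rd α β γ s : ℂ) * (I * exp (((u + v + w + s : ℝ) : ℂ) * I)) := by
  unfold Wf
  rw [h1, h2, h3, Rd_prod]
  have : exp (((u + v + w + s : ℝ) : ℂ) * I) =
      exp ((u : ℂ) * I) * exp ((v : ℂ) * I) * exp ((w : ℂ) * I) * exp ((s : ℂ) * I) := by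
    rw [← Complex.exp_add, ← Complex.exp_add, ← Complex.exp_add]
    congr 1; push_cast; ring
  rw [this]
  push_cast
  ring

theorem Wf_arc1 {α β γ s : ℝ} (hβγ : β < γ) (hγ : γ < α + 2 * Real.pi)
    (h1 : α < s) (h2 : s < β) :
    Wf α β γ (exp ((s : ℂ) * I)) * (exp ((s : ℂ) * I) * I) = (Rd α β γ s : ℂ) * Dd α β γ := by
  rw [Wf_arc (wf_circle'' (by linarith) (by linarith)) (wf_circle' (by linarith) (by linarith))
    (wf_circle' (by linarith) (by linarith))]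
  unfold Dd
  congr 4
  ring_nf

theorem Wf_arc2 {α β γ s : ℝ} (hαβ : α < β) (hγ : γ < α + 2 * Real.pi)
    (h1 : β < s) (h2 : s < γ) :
    Wf α β γ (exp ((s : ℂ) * I)) * (exp ((s : ℂ) * I) * I) =
      (Rd α β γ s : ℂ) * (om * Dd α β γ) := by
  rw [Wf_arc (wf_circle'' (by linarith) (by linarith)) (wf_circle'' (by linarith) (by linarith))
    (wf_circle' (by linarith) (by linarith))]
  unfold Dd om
  have : ∀ x y : ℂ, exp x * (I * exp y) = I * exp (x + y) := by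
    intro x y; rw [Complex.exp_add]; ring
  rw [this]
  congr 3
  push_cast
  ring

theorem Wf_arc3 {α β γ s : ℝ} (hαβ : α < β) (hβγ : β < γ)
    (h1 : γ < s) (h2 : s < α + 2 * Real.pi) :
    Wf α β γ (exp ((s : ℂ) * I)) * (exp ((s : ℂ) * I) * I) =
      (Rd α β γ s : ℂ) * (om ^ 2 * Dd α β γ) := by
  rw [Wf_arc (wf_circle'' (by linarith) (by linarith)) (wf_circle'' (by linarith) (by linarith))
    (wf_circle'' (by linarith) (by linarith))]
  unfold Dd om
  rw [← Complex.exp_nat_mul]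
  have : ∀ x y : ℂ, exp x * (I * exp y) = I * exp (x + y) := by
    intro x y; rw [Complex.exp_add]; ring
  rw [this]
  congr 3
  push_cast
  ring

/-- real primitive along an arc -/
theorem arc_real {f : ℝ → ℂ} {R : ℝ → ℝ} {a b : ℝ} (hab : a < b)
    (hc : ContinuousOn f (Icc a b)) (hd : ∀ s ∈ Ioo a b, HasDerivAt f ((R s : ℝ) : ℂ) s)
    (hR : ∀ s ∈ Ioo a b, 0 < R s) :
    (∀ s ∈ Icc a b, f s = f a + (((f s).re - (f a).re : ℝ) : ℂ)) ∧ (f a).re < (f b).re := by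
  constructor
  · intro s hs
    have him : (f s).im = (f a).im := by
      rcases eq_or_lt_of_le hs.1 with h | h
      · rw [h]
      · have hcim : ContinuousOn (fun t => (f t).im) (Icc a s) :=
          Complex.continuous_im.comp_continuousOn (hc.mono (Icc_subset_Icc_right hs.2))
        obtain ⟨c, hc1, hc2⟩ := exists_hasDerivAt_eq_slope (fun t => (f t).im) (fun _ => 0) h hcim
          (fun x hx => by
            have h1 := hd x ⟨hx.1, hx.2.trans_le hs.2⟩
            have h2 := Complex.imCLM.hasFDerivAt.comp_hasDerivAt x h1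
            have h3 : Complex.imCLM ((R x : ℝ) : ℂ) = 0 := by simp
            rw [h3] at h2
            exact h2)
        have hne : s - a ≠ 0 := by linarith
        rw [eq_div_iff hne] at hc2
        simp only [zero_mul] at hc2
        linarith
    apply Complex.ext
    · simp
    · simp [him]
  · have hcre : ContinuousOn (fun t => (f t).re) (Icc a b) :=
      Complex.continuous_re.comp_continuousOn hc
    obtain ⟨c, hc1, hc2⟩ := exists_hasDerivAt_eq_slope (fun t => (f t).re) R hab hcre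
      (fun x hx => by
        have h1 := hd x hx
        have h2 := Complex.reCLM.hasFDerivAt.comp_hasDerivAt x h1
        have h3 : Complex.reCLM ((R x : ℝ) : ℂ) = R x := by simp
        rw [h3] at h2
        exact h2)
    have hpos := hR c hc1
    rw [hc2] at hpos
    have : 0 < b - a := by linarith
    have := (div_pos_iff_of_pos_right this).mp hpos
    linarith

theorem exp_ne_of {x y : ℝ} (h1 : x < y) (h2 : y < x + 2 * Real.pi) :
    exp ((x : ℂ) * I) ≠ exp ((y : ℂ) * I) := by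
  intro h
  rw [Complex.exp_eq_exp_iff_exists_int] at h
  obtain ⟨n, hn⟩ := h
  have hn' : (x : ℂ) * I = ((y + n * (2 * Real.pi) : ℝ) : ℂ) * I := by
    rw [hn]; push_cast; ring
  have h3 : (x : ℂ) = ((y + n * (2 * Real.pi) : ℝ) : ℂ) := mul_right_cancel₀ Complex.I_ne_zero hn'
  have h4 : x = y + n * (2 * Real.pi) := by exact_mod_cast h3
  have hpi := Real.pi_pos
  have h5 : (n : ℝ) < 0 := by
    by_contra hcon
    push Not at hcon
    nlinarith
  have h6 : (-1 : ℝ) < n := by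
    by_contra hcon
    push Not at hcon
    nlinarith
  have h7 : n < 0 := by exact_mod_cast h5
  have h8 : -1 < n := by exact_mod_cast h6
  omega

theorem Rd_pos {α β γ s : ℝ} (h1 : Real.sin ((s - α) / 2) ≠ 0) (h2 : Real.sin ((s - β) / 2) ≠ 0)
    (h3 : Real.sin ((s - γ) / 2) ≠ 0) : 0 < Rd α β γ s := by
  unfold Rd
  have : 0 < |Real.sin ((s - α) / 2) * Real.sin ((s - β) / 2) * Real.sin ((s - γ) / 2)| :=
    abs_pos.mpr (mul_ne_zero (mul_ne_zero h1 h2) h3)
  positivity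

theorem sin_half_ne {x y : ℝ} (h1 : x < y) (h2 : y < x + 2 * Real.pi) :
    Real.sin ((x - y) / 2) ≠ 0 ∧ Real.sin ((y - x) / 2) ≠ 0 := by
  constructor
  · exact (Real.sin_neg_of_neg_of_neg_pi_lt (by linarith) (by linarith)).ne
  · exact (Real.sin_pos_of_pos_of_lt_pi (by linarith) (by linarith)).ne'

/-- configuration of three marks on the circle -/
structure Marks (α β γ : ℝ) : Prop where
  h12 : α < β
  h23 : β < γ
  h31 : γ < α + 2 * Real.pi

theorem Marks.ne12 {α β γ : ℝ} (h : Marks α β γ) : exp ((α : ℂ) * I) ≠ exp ((β : ℂ) * I) :=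
  exp_ne_of h.h12 (by linarith [h.h23, h.h31])

theorem Marks.ne13 {α β γ : ℝ} (h : Marks α β γ) : exp ((α : ℂ) * I) ≠ exp ((γ : ℂ) * I) :=
  exp_ne_of (h.h12.trans h.h23) h.h31

theorem Marks.ne23 {α β γ : ℝ} (h : Marks α β γ) : exp ((β : ℂ) * I) ≠ exp ((γ : ℂ) * I) :=
  exp_ne_of h.h23 (by linarith [h.h12, h.h31])

theorem SCF_circle_cont {α β γ : ℝ} (h : Marks α β γ) :
    Continuous (fun s : ℝ => SCF α β γ (exp ((s : ℂ) * I))) := by
  have h1 : Continuous (fun s : ℝ => exp ((s : ℂ) * I)) := by fun_prop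
  exact (SCF_cont h.ne12 h.ne13 h.ne23).comp_continuous h1
    (fun s => by simp [Complex.norm_exp_ofReal_mul_I])

theorem Dd_ne (α β γ : ℝ) : Dd α β γ ≠ 0 :=
  mul_ne_zero Complex.I_ne_zero (Complex.exp_ne_zero _)

theorem om_ne : om ≠ 0 := Complex.exp_ne_zero _

theorem shift_exp (s : ℝ) : exp (((s + 2 * Real.pi : ℝ) : ℂ) * I) = exp ((s : ℂ) * I) := by
  have : (((s + 2 * Real.pi : ℝ) : ℂ) * I) = (s : ℂ) * I + 2 * Real.pi * I := by
    push_cast; ring
  rw [this, Complex.exp_add, Complex.exp_two_pi_mul_I, mul_one]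

/-- along each arc `SCF` moves in a fixed direction. -/
theorem arc_side {α β γ a b : ℝ} (h : Marks α β γ) (hab : a < b) {D : ℂ} (hD : D ≠ 0)
    (hdir : ∀ s ∈ Ioo a b, Wf α β γ (exp ((s : ℂ) * I)) * (exp ((s : ℂ) * I) * I) =
      (Rd α β γ s : ℂ) * D)
    (hne : ∀ s ∈ Ioo a b, exp ((s : ℂ) * I) ≠ exp ((α : ℂ) * I) ∧
      exp ((s : ℂ) * I) ≠ exp ((β : ℂ) * I) ∧ exp ((s : ℂ) * I) ≠ exp ((γ : ℂ) * I))
    (hpos : ∀ s ∈ Ioo a b, 0 < Rd α β γ s) :
    ∃ x : ℝ → ℝ, ContinuousOn x (Icc a b) ∧ x a = 0 ∧ 0 < x b ∧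
      (∀ s ∈ Icc a b, SCF α β γ (exp ((s : ℂ) * I)) = SCF α β γ (exp ((a : ℂ) * I)) + (x s : ℂ) * D) ∧
      (∀ s ∈ Ioo a b, HasDerivAt x (Rd α β γ s) s) := by
  set f : ℝ → ℂ := fun s => SCF α β γ (exp ((s : ℂ) * I)) / D with hf
  have hfc : ContinuousOn f (Icc a b) := ((SCF_circle_cont h).div_const D).continuousOn
  have hfd : ∀ s ∈ Ioo a b, HasDerivAt f ((Rd α β γ s : ℝ) : ℂ) s := by
    intro s hs
    obtain ⟨n1, n2, n3⟩ := hne s hs
    have h1 := SCF_circle_deriv h.ne12 h.ne13 h.ne23 n1 n2 n3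
    rw [hdir s hs] at h1
    have h2 := h1.div_const D
    rwa [mul_div_cancel_right₀ _ hD] at h2
  obtain ⟨h1, h2⟩ := arc_real hab hfc hfd hpos
  refine ⟨fun s => (f s).re - (f a).re, ?_, by simp, by simpa using h2, ?_, ?_⟩
  · exact (Complex.continuous_re.comp_continuousOn hfc).sub continuousOn_const
  · intro s hs
    have h3 := h1 s hs
    have h4 : f s * D = f a * D + (((f s).re - (f a).re : ℝ) : ℂ) * D := by
      rw [← add_mul, ← h3]
    simp only [hf] at h4 ⊢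
    rw [div_mul_cancel₀ _ hD, div_mul_cancel₀ _ hD] at h4
    exact h4
  · intro s hs
    have h3 := Complex.reCLM.hasFDerivAt.comp_hasDerivAt s (hfd s hs)
    have h4 : Complex.reCLM ((Rd α β γ s : ℝ) : ℂ) = Rd α β γ s := by simp
    rw [h4] at h3
    exact h3.sub_const _

theorem side1 {α β γ : ℝ} (h : Marks α β γ) :
    ∃ x : ℝ → ℝ, ContinuousOn x (Icc α β) ∧ x α = 0 ∧ 0 < x β ∧
      (∀ s ∈ Icc α β, SCF α β γ (exp ((s : ℂ) * I)) =
        SCF α β γ (exp ((α : ℂ) * I)) + (x s : ℂ) * Dd α β γ) ∧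
      (∀ s ∈ Ioo α β, HasDerivAt x (Rd α β γ s) s) := by
  obtain ⟨g1, g2, g3⟩ := h
  have h : Marks α β γ := ⟨g1, g2, g3⟩
  refine arc_side h h.h12 (Dd_ne _ _ _) ?_ ?_ ?_
  · intro s hs
    exact Wf_arc1 g2 g3 hs.1 hs.2
  · intro s hs
    obtain ⟨hs1, hs2⟩ := hs
    exact ⟨(exp_ne_of hs1 (by linarith)).symm, exp_ne_of hs2 (by linarith),
      exp_ne_of (by linarith) (by linarith)⟩
  · intro s hs
    obtain ⟨hs1, hs2⟩ := hs
    exact Rd_pos (sin_half_ne (x := α) (y := s) (by linarith) (by linarith)).2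
      (sin_half_ne (x := s) (y := β) (by linarith) (by linarith)).1
      (sin_half_ne (x := s) (y := γ) (by linarith) (by linarith)).1

theorem side2 {α β γ : ℝ} (h : Marks α β γ) :
    ∃ x : ℝ → ℝ, ContinuousOn x (Icc β γ) ∧ x β = 0 ∧ 0 < x γ ∧
      (∀ s ∈ Icc β γ, SCF α β γ (exp ((s : ℂ) * I)) =
        SCF α β γ (exp ((β : ℂ) * I)) + (x s : ℂ) * (om * Dd α β γ)) ∧
      (∀ s ∈ Ioo β γ, HasDerivAt x (Rd α β γ s) s) := by
  obtain ⟨g1, g2, g3⟩ := h
  have h : Marks α β γ := ⟨g1, g2, g3⟩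
  refine arc_side h h.h23 (mul_ne_zero om_ne (Dd_ne _ _ _)) ?_ ?_ ?_
  · intro s hs
    exact Wf_arc2 g1 g3 hs.1 hs.2
  · intro s hs
    obtain ⟨hs1, hs2⟩ := hs
    exact ⟨(exp_ne_of (by linarith) (by linarith)).symm, (exp_ne_of (by linarith) (by linarith)).symm,
      exp_ne_of (by linarith) (by linarith)⟩
  · intro s hs
    obtain ⟨hs1, hs2⟩ := hs
    exact Rd_pos (sin_half_ne (x := α) (y := s) (by linarith) (by linarith)).2
      (sin_half_ne (x := β) (y := s) (by linarith) (by linarith)).2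
      (sin_half_ne (x := s) (y := γ) (by linarith) (by linarith)).1

theorem side3 {α β γ : ℝ} (h : Marks α β γ) :
    ∃ x : ℝ → ℝ, ContinuousOn x (Icc γ (α + 2 * Real.pi)) ∧ x γ = 0 ∧ 0 < x (α + 2 * Real.pi) ∧
      (∀ s ∈ Icc γ (α + 2 * Real.pi), SCF α β γ (exp ((s : ℂ) * I)) =
        SCF α β γ (exp ((γ : ℂ) * I)) + (x s : ℂ) * (om ^ 2 * Dd α β γ)) ∧
      (∀ s ∈ Ioo γ (α + 2 * Real.pi), HasDerivAt x (Rd α β γ s) s) := by
  obtain ⟨g1, g2, g3⟩ := h
  have h : Marks α β γ := ⟨g1, g2, g3⟩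
  refine arc_side h h.h31 (mul_ne_zero (pow_ne_zero 2 om_ne) (Dd_ne _ _ _)) ?_ ?_ ?_
  · intro s hs
    exact Wf_arc3 g1 g2 hs.1 hs.2
  · intro s hs
    obtain ⟨hs1, hs2⟩ := hs
    exact ⟨(exp_ne_of (by linarith) (by linarith)).symm, (exp_ne_of (by linarith) (by linarith)).symm,
      (exp_ne_of (by linarith) (by linarith)).symm⟩
  · intro s hs
    obtain ⟨hs1, hs2⟩ := hs
    exact Rd_pos (sin_half_ne (x := α) (y := s) (by linarith) (by linarith)).2
      (sin_half_ne (x := β) (y := s) (by linarith) (by linarith)).2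
      (sin_half_ne (x := γ) (y := s) (by linarith) (by linarith)).2

/-- the normalised triangle map on the closed disc: marks go to `1, om, om^2`. -/
noncomputable def tri (α β γ : ℝ) (z : ℂ) : ℂ :=
  1 + (om - 1) * ((SCF α β γ z - SCF α β γ (exp ((α : ℂ) * I))) /
    (SCF α β γ (exp ((β : ℂ) * I)) - SCF α β γ (exp ((α : ℂ) * I))))

theorem om_sum : 1 + om + om ^ 2 = 0 := by
  have h3 : (Real.sqrt 3 : ℝ) ^ 2 = 3 := Real.sq_sqrt (by norm_num)
  rw [om_eq]
  apply Complex.ext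
  · simp [pow_two]; nlinarith
  · simp [pow_two]; ring

theorem om_sub_ne : om - 1 ≠ 0 := by
  rw [om_eq]
  intro h
  have := congrArg Complex.re h
  simp at this
  norm_num at this

theorem real_comb {l1 l2 l3 : ℝ} (h : (l1 : ℂ) + l2 * om + l3 * om ^ 2 = 0) : l1 = l2 ∧ l2 = l3 := by
  have h3 : (Real.sqrt 3 : ℝ) ^ 2 = 3 := Real.sq_sqrt (by norm_num)
  have h3' : 0 < Real.sqrt 3 := Real.sqrt_pos.mpr (by norm_num)
  rw [om_eq] at h
  have hre := congrArg Complex.re h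
  have him := congrArg Complex.im h
  simp [pow_two] at hre him
  have e1 : l2 = l3 := by
    have : (l2 - l3) * Real.sqrt 3 = 0 := by nlinarith
    rcases mul_eq_zero.mp this with h | h
    · linarith
    · exact absurd h h3'.ne'
  subst e1
  have e2 : Real.sqrt 3 / 2 * (Real.sqrt 3 / 2) = 3 / 4 := by nlinarith
  rw [e2] at hre
  constructor
  · linarith
  · rfl

/-- Everything about the triangle map on the boundary. -/
theorem tri_sides {α β γ : ℝ} (h : Marks α β γ) :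
    ∃ (x y z : ℝ → ℝ) (l : ℝ), 0 < l ∧
      (SCF α β γ (exp ((β : ℂ) * I)) - SCF α β γ (exp ((α : ℂ) * I)) = (l : ℂ) * Dd α β γ) ∧
      ContinuousOn x (Icc α β) ∧ x α = 0 ∧ x β = l ∧
      (∀ s ∈ Ioo α β, HasDerivAt x (Rd α β γ s) s) ∧
      (∀ s ∈ Icc α β, tri α β γ (exp ((s : ℂ) * I)) = 1 + (om - 1) * ((x s / l : ℝ) : ℂ)) ∧
      (∀ s ∈ Icc β γ, tri α β γ (exp ((s : ℂ) * I)) = om + (om ^ 2 - om) * ((y s : ℝ) : ℂ)) ∧
      (∀ s ∈ Icc γ (α + 2 * Real.pi),
        tri α β γ (exp ((s : ℂ) * I)) = om ^ 2 + (1 - om ^ 2) * ((z s : ℝ) : ℂ)) ∧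
      tri α β γ (exp ((α : ℂ) * I)) = 1 := by
  obtain ⟨x, hxc, hx0, hx1, hx, hxd⟩ := side1 h
  obtain ⟨y, hyc, hy0, hy1, hy, hyd⟩ := side2 h
  obtain ⟨z, hzc, hz0, hz1, hz, hzd⟩ := side3 h
  set A := SCF α β γ (exp ((α : ℂ) * I)) with hA
  set B := SCF α β γ (exp ((β : ℂ) * I)) with hB
  set C := SCF α β γ (exp ((γ : ℂ) * I)) with hC
  set D := Dd α β γ with hD
  have hDne : D ≠ 0 := Dd_ne _ _ _
  have eB : B = A + (x β : ℂ) * D := hx β ⟨h.h12.le, le_rfl⟩
  have eC : C = B + (y γ : ℂ) * (om * D) := hy γ ⟨h.h23.le, le_rfl⟩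
  have eA : A = C + (z (α + 2 * Real.pi) : ℂ) * (om ^ 2 * D) := by
    have := hz (α + 2 * Real.pi) ⟨h.h31.le, le_rfl⟩
    rwa [shift_exp] at this
  have hsum : ((x β : ℂ)) + (y γ) * om + (z (α + 2 * Real.pi)) * om ^ 2 = 0 := by
    have : (((x β : ℂ)) + (y γ) * om + (z (α + 2 * Real.pi)) * om ^ 2) * D = 0 := by
      linear_combination (-1 : ℂ) * eB - eC - eA
    exact (mul_eq_zero.mp this).resolve_right hDne
  obtain ⟨l1, l2⟩ := real_comb hsum
  have hl : (x β : ℂ) ≠ 0 := by exact_mod_cast hx1.ne'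
  have hBA : B - A = (x β : ℂ) * D := by rw [eB]; ring
  have hom3 := om_cube
  refine ⟨x, fun s => y s / x β, fun s => z s / x β, x β, hx1, hBA, hxc, hx0, rfl, hxd, ?_, ?_, ?_, ?_⟩
  · intro s hs
    unfold tri
    rw [← hA, ← hB, hBA, hx s hs]
    push_cast
    field_simp
    ring
  · intro s hs
    unfold tri
    rw [← hA, ← hB, hBA, hy s hs, eB]
    push_cast
    field_simp
    ring
  · intro s hs
    unfold tri
    rw [← hA, ← hB, hBA, hz s hs, eC, eB, ← l1]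
    push_cast
    field_simp
    linear_combination (D * z s : ℂ) * hom3
  · unfold tri
    rw [← hA]; simp

end Crest.Agent.R158.Cd83
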