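import Crest.Agent.R158.Cd4_83

/-!
R158, block C (Cardy front), part 5: the ratio on the first side is `cardyRatio (crossRatioAt ..)`.
-/

set_option autoImplicit false

namespace Crest.Agent.R158.Cd83

open Complex Set Filter Topology MeasureTheory
open Crest.ProbabilityR.Percolation

/-- The Beta density. -/
noncomputable def bd (t : ℝ) : ℝ := (t * (1 - t)) ^ (-(2 : ℝ) / 3)

theorem bd_int : IntervalIntegrable bd volume 0 1 := by
  have h := Complex.betaIntegral_convergent (u := ((1/3 : ℝ) : ℂ)) (v := ((1/3 : ℝ) : ℂ))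
    (by simp) (by simp)
  have h2 := h.norm
  refine h2.congr ?_
  intro t ht
  rw [uIoc_of_le zero_le_one] at ht
  have ht0 : 0 < t := ht.1
  have ht1 : 0 ≤ 1 - t := by linarith [ht.2]
  have e1 : (((1/3 : ℝ) : ℂ)) - 1 = ((-(2:ℝ)/3 : ℝ) : ℂ) := by push_cast; ring
  have e2 : (1 - (t:ℂ)) = ((1 - t : ℝ) : ℂ) := by push_cast; ring
  simp only [norm_mul]
  rw [e1, e2, Complex.norm_cpow_real, Complex.norm_cpow_real, Complex.norm_real, Complex.norm_real,
    Real.norm_of_nonneg ht0.le, Real.norm_of_nonneg ht1]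
  unfold bd
  rw [Real.mul_rpow ht0.le ht1]

/-- primitive of the Beta density -/
noncomputable def Bp (x : ℝ) : ℝ := ∫ t in (0:ℝ)..x, bd t

theorem Bp_cont : ContinuousOn Bp (Icc 0 1) := by
  have h := intervalIntegral.continuousOn_primitive_interval (f := bd) (a := 0) (b := 1)
    (μ := volume) (by
      rw [uIcc_of_le zero_le_one, integrableOn_Icc_iff_integrableOn_Ioc]
      exact (intervalIntegrable_iff_integrableOn_Ioc_of_le zero_le_one).mp bd_int)
  rw [uIcc_of_le zero_le_one] at h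
  exact h

theorem bd_cont {x : ℝ} (h0 : 0 < x) (h1 : x < 1) : ContinuousAt bd x := by
  unfold bd
  apply ContinuousAt.rpow_const
  · fun_prop
  · left
    have : 0 < x * (1 - x) := mul_pos h0 (by linarith)
    exact this.ne'

theorem Bp_deriv {x : ℝ} (h0 : 0 < x) (h1 : x < 1) : HasDerivAt Bp (bd x) x := by
  have hint : IntervalIntegrable bd volume 0 x :=
    bd_int.mono_set (by rw [uIcc_of_le h0.le, uIcc_of_le zero_le_one]; exact Icc_subset_Icc_right h1.le)
  refine intervalIntegral.integral_hasDerivAt_right hint ?_ (bd_cont h0 h1)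
  have hc : ContinuousOn bd (Ioo 0 1) := fun y hy => (bd_cont hy.1 hy.2).continuousWithinAt
  exact hc.stronglyMeasurableAtFilter isOpen_Ioo x ⟨h0, h1⟩

theorem cardy_eq (x : ℝ) : cardyRatio x = Bp x / Bp 1 := rfl

/-- The cross ratio in angles. -/
noncomputable def Tf (α β γ s : ℝ) : ℝ :=
  (Real.sin ((s - α) / 2) * Real.sin ((γ - β) / 2)) /
    (Real.sin ((γ - s) / 2) * Real.sin ((β - α) / 2))

theorem exp_sub (x y : ℝ) : exp ((x : ℂ) * I) - exp ((y : ℂ) * I) =
    ((2 * Real.sin ((x - y) / 2) : ℝ) : ℂ) * (I * exp ((((x + y) / 2 : ℝ) : ℂ) * I)) := by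
  have e1 : (x : ℂ) * I = (((x + y) / 2 : ℝ) : ℂ) * I + (((x - y) / 2 : ℝ) : ℂ) * I := by
    push_cast; ring
  have e2 : (y : ℂ) * I = (((x + y) / 2 : ℝ) : ℂ) * I + -(((x - y) / 2 : ℝ) : ℂ) * I := by
    push_cast; ring
  rw [e1, e2, Complex.exp_add, Complex.exp_add]
  have e4 : ((2 * Real.sin ((x - y) / 2) : ℝ) : ℂ) = 2 * Complex.sin ((((x - y) / 2 : ℝ)) : ℂ) := by
    push_cast; ring
  rw [e4, Complex.sin]
  have hI : I * I = -1 := Complex.I_mul_I
  linear_combination (-(exp ((((x + y) / 2 : ℝ) : ℂ) * I)) * (exp (-(((x - y) / 2 : ℝ) : ℂ) * I) - exp ((((x - y) / 2 : ℝ) : ℂ) * I))) * hI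

theorem ratio_alg (a b : ℝ) {c d : ℝ} {u v x y : ℂ} (hc : c ≠ 0) (hd : d ≠ 0) (hx : x ≠ 0)
    (hy : y ≠ 0) (huv : u * v = x * y) :
    (((2 * a : ℝ) : ℂ) * (I * u) * (((2 * b : ℝ) : ℂ) * (I * v))) /
      ((((2 * c : ℝ) : ℂ) * (I * x)) * (((2 * d : ℝ) : ℂ) * (I * y))) =
      (((a * b) / (c * d) : ℝ) : ℂ) := by
  have hc' : (c : ℂ) ≠ 0 := by exact_mod_cast hc
  have hd' : (d : ℂ) ≠ 0 := by exact_mod_cast hd
  have hI := Complex.I_ne_zero
  have e1 : (((2 * a : ℝ) : ℂ) * (I * u) * (((2 * b : ℝ) : ℂ) * (I * v))) =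
      (4 * I ^ 2 * (u * v)) * ((a : ℂ) * b) := by push_cast; ring
  have e2 : ((((2 * c : ℝ) : ℂ) * (I * x)) * (((2 * d : ℝ) : ℂ) * (I * y))) =
      (4 * I ^ 2 * (x * y)) * ((c : ℂ) * d) := by push_cast; ring
  rw [e1, e2, huv, mul_div_mul_left]
  · push_cast; rfl
  · exact mul_ne_zero (mul_ne_zero (by norm_num) (pow_ne_zero 2 hI)) (mul_ne_zero hx hy)

theorem crossRatio_angles {α β γ s : ℝ} (h : Marks α β γ) (h1 : α ≤ s) (h2 : s ≤ β) :
    crossRatioAt (exp ((α : ℂ) * I)) (exp ((s : ℂ) * I)) (exp ((β : ℂ) * I)) (exp ((γ : ℂ) * I)) =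
      Tf α β γ s := by
  obtain ⟨g1, g2, g3⟩ := h
  unfold crossRatioAt Tf
  rw [exp_sub s α, exp_sub β γ, exp_sub s γ, exp_sub β α]
  have n1 : Real.sin ((s - γ) / 2) ≠ 0 := (sin_half_ne (x := s) (y := γ) (by linarith) (by linarith)).1
  have n2 : Real.sin ((β - α) / 2) ≠ 0 := (sin_half_ne (x := α) (y := β) (by linarith) (by linarith)).2
  have k1 : exp ((((s + α) / 2 : ℝ) : ℂ) * I) * exp ((((β + γ) / 2 : ℝ) : ℂ) * I) =
      exp ((((s + γ) / 2 : ℝ) : ℂ) * I) * exp ((((β + α) / 2 : ℝ) : ℂ) * I) := by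
    rw [← Complex.exp_add, ← Complex.exp_add]; congr 1; push_cast; ring
  have key := ratio_alg (Real.sin ((s - α) / 2)) (Real.sin ((β - γ) / 2)) n1 n2
    (Complex.exp_ne_zero ((((s + γ) / 2 : ℝ) : ℂ) * I))
    (Complex.exp_ne_zero ((((β + α) / 2 : ℝ) : ℂ) * I)) k1
  rw [key, Complex.ofReal_re]
  have e1 : Real.sin ((β - γ) / 2) = - Real.sin ((γ - β) / 2) := by
    rw [← Real.sin_neg]; congr 1; ring
  have e2 : Real.sin ((s - γ) / 2) = - Real.sin ((γ - s) / 2) := by
    rw [← Real.sin_neg]; congr 1; ring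
  rw [e1, e2, mul_neg, neg_mul, neg_div_neg_eq]

theorem ptolemy (α β γ s : ℝ) :
    Real.sin ((γ - s) / 2) * Real.sin ((β - α) / 2) =
      Real.sin ((s - α) / 2) * Real.sin ((γ - β) / 2) +
        Real.sin ((β - s) / 2) * Real.sin ((γ - α) / 2) := by
  set x := (s - α) / 2 with hx
  set y := (β - s) / 2 with hy
  set z := (γ - β) / 2 with hz
  have e1 : (γ - s) / 2 = y + z := by rw [hy, hz]; ring
  have e2 : (β - α) / 2 = x + y := by rw [hx, hy]; ring
  have e3 : (γ - α) / 2 = x + y + z := by rw [hx, hy, hz]; ring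
  rw [e1, e2, e3, Real.sin_add y z, Real.sin_add (x+y) z, Real.sin_add x y, Real.cos_add x y]
  have h := Real.sin_sq_add_cos_sq y
  linear_combination (Real.sin x * Real.sin z) * h

theorem one_sub_Tf {α β γ s : ℝ} (h1 : Real.sin ((γ - s) / 2) ≠ 0)
    (h2 : Real.sin ((β - α) / 2) ≠ 0) :
    1 - Tf α β γ s = (Real.sin ((β - s) / 2) * Real.sin ((γ - α) / 2)) /
      (Real.sin ((γ - s) / 2) * Real.sin ((β - α) / 2)) := by
  unfold Tf
  rw [eq_div_iff (mul_ne_zero h1 h2), sub_mul, one_mul, div_mul_cancel₀ _ (mul_ne_zero h1 h2),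
    ptolemy]
  ring

theorem Tf_deriv {α β γ s : ℝ} (h1 : Real.sin ((γ - s) / 2) ≠ 0)
    (h2 : Real.sin ((β - α) / 2) ≠ 0) :
    HasDerivAt (Tf α β γ) ((1/2) * (Real.sin ((γ - β) / 2) * Real.sin ((γ - α) / 2) /
      (Real.sin ((β - α) / 2) * Real.sin ((γ - s) / 2) ^ 2))) s := by
  have d1 : HasDerivAt (fun t : ℝ => Real.sin ((t - α) / 2)) (Real.cos ((s - α) / 2) * (1/2)) s := by
    have : HasDerivAt (fun t : ℝ => (t - α) / 2) (1/2) s := by
      simpa using ((hasDerivAt_id s).sub_const α).div_const 2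
    exact this.sin
  have d2 : HasDerivAt (fun t : ℝ => Real.sin ((γ - t) / 2)) (Real.cos ((γ - s) / 2) * (-1/2)) s := by
    have : HasDerivAt (fun t : ℝ => (γ - t) / 2) (-1/2) s := by
      simpa using ((hasDerivAt_id s).const_sub γ).div_const 2
    exact this.sin
  have d3 := (d1.mul_const (Real.sin ((γ - β) / 2))).div (d2.mul_const (Real.sin ((β - α) / 2)))
    (mul_ne_zero h1 h2)
  refine d3.congr_deriv ?_
  have e : (γ - α) / 2 = (s - α) / 2 + (γ - s) / 2 := by ring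
  rw [e, Real.sin_add]
  field_simp
  ring

/-- the constant -/
noncomputable def kap (α β γ : ℝ) : ℝ :=
  (1/2) * (Real.sin ((γ - β) / 2) * Real.sin ((γ - α) / 2) / Real.sin ((β - α) / 2)) *
    ((Real.sin ((γ - β) / 2) * Real.sin ((γ - α) / 2)) / (8 * Real.sin ((β - α) / 2) ^ 2)) ^ (-2/3 : ℝ)

theorem dens {α β γ s : ℝ} (h : Marks α β γ) (h1 : α < s) (h2 : s < β) :
    bd (Tf α β γ s) * ((1/2) * (Real.sin ((γ - β) / 2) * Real.sin ((γ - α) / 2) /
      (Real.sin ((β - α) / 2) * Real.sin ((γ - s) / 2) ^ 2))) = kap α β γ * Rd α β γ s := by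
  obtain ⟨g1, g2, g3⟩ := h
  have hpi := Real.pi_pos
  have pu : 0 < Real.sin ((s - α) / 2) := Real.sin_pos_of_pos_of_lt_pi (by linarith) (by linarith)
  have pw : 0 < Real.sin ((β - s) / 2) := Real.sin_pos_of_pos_of_lt_pi (by linarith) (by linarith)
  have pv : 0 < Real.sin ((γ - s) / 2) := Real.sin_pos_of_pos_of_lt_pi (by linarith) (by linarith)
  have p32 : 0 < Real.sin ((γ - β) / 2) := Real.sin_pos_of_pos_of_lt_pi (by linarith) (by linarith)
  have p31 : 0 < Real.sin ((γ - α) / 2) := Real.sin_pos_of_pos_of_lt_pi (by linarith) (by linarith)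
  have p21 : 0 < Real.sin ((β - α) / 2) := Real.sin_pos_of_pos_of_lt_pi (by linarith) (by linarith)
  have eT := one_sub_Tf (α := α) (β := β) (γ := γ) (s := s) pv.ne' p21.ne'
  have eR : Rd α β γ s = (8 * (Real.sin ((s - α) / 2) * Real.sin ((β - s) / 2) *
      Real.sin ((γ - s) / 2))) ^ (-2/3 : ℝ) := by
    unfold Rd
    have e1 : Real.sin ((s - β) / 2) = - Real.sin ((β - s) / 2) := by
      rw [← Real.sin_neg]; congr 1; ring
    have e2 : Real.sin ((s - γ) / 2) = - Real.sin ((γ - s) / 2) := by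
      rw [← Real.sin_neg]; congr 1; ring
    rw [e1, e2, mul_neg, mul_neg, neg_mul, neg_neg, abs_of_pos (by positivity)]
  unfold bd kap
  rw [eT, eR]
  unfold Tf
  set u := Real.sin ((s - α) / 2)
  set w := Real.sin ((β - s) / 2)
  set v := Real.sin ((γ - s) / 2)
  set a := Real.sin ((γ - β) / 2)
  set b := Real.sin ((γ - α) / 2)
  set c := Real.sin ((β - α) / 2)
  have e3 : u * a / (v * c) * (w * b / (v * c)) =
      (8 * (u * w * v)) * ((a * b) / (8 * c ^ 2)) * (v ^ 3)⁻¹ := by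
    field_simp
  rw [e3, Real.mul_rpow (by positivity) (by positivity), Real.mul_rpow (by positivity) (by positivity)]
  have e4 : ((v ^ 3)⁻¹) ^ (-(2 : ℝ) / 3) = v ^ 2 := by
    rw [Real.inv_rpow (by positivity), ← Real.rpow_neg (by positivity), ← Real.rpow_natCast v 3,
      ← Real.rpow_mul pv.le, ← Real.rpow_natCast v 2]
    congr 1
    push_cast
    ring
  rw [e4]
  field_simp

theorem Tf_range {α β γ s : ℝ} (h : Marks α β γ) (h1 : α ≤ s) (h2 : s ≤ β) :
    0 ≤ Tf α β γ s ∧ Tf α β γ s ≤ 1 := by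
  obtain ⟨g1, g2, g3⟩ := h
  have hpi := Real.pi_pos
  have pu : 0 ≤ Real.sin ((s - α) / 2) := Real.sin_nonneg_of_nonneg_of_le_pi (by linarith) (by linarith)
  have pw : 0 ≤ Real.sin ((β - s) / 2) := Real.sin_nonneg_of_nonneg_of_le_pi (by linarith) (by linarith)
  have pv : 0 < Real.sin ((γ - s) / 2) := Real.sin_pos_of_pos_of_lt_pi (by linarith) (by linarith)
  have p32 : 0 < Real.sin ((γ - β) / 2) := Real.sin_pos_of_pos_of_lt_pi (by linarith) (by linarith)
  have p31 : 0 < Real.sin ((γ - α) / 2) := Real.sin_pos_of_pos_of_lt_pi (by linarith) (by linarith)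
  have p21 : 0 < Real.sin ((β - α) / 2) := Real.sin_pos_of_pos_of_lt_pi (by linarith) (by linarith)
  have eT := one_sub_Tf (α := α) (β := β) (γ := γ) (s := s) pv.ne' p21.ne'
  constructor
  · unfold Tf; positivity
  · have : 0 ≤ 1 - Tf α β γ s := by rw [eT]; positivity
    linarith

theorem Tf_range' {α β γ s : ℝ} (h : Marks α β γ) (h1 : α < s) (h2 : s < β) :
    0 < Tf α β γ s ∧ Tf α β γ s < 1 := by
  obtain ⟨g1, g2, g3⟩ := h
  have hpi := Real.pi_pos
  have pu : 0 < Real.sin ((s - α) / 2) := Real.sin_pos_of_pos_of_lt_pi (by linarith) (by linarith)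
  have pw : 0 < Real.sin ((β - s) / 2) := Real.sin_pos_of_pos_of_lt_pi (by linarith) (by linarith)
  have pv : 0 < Real.sin ((γ - s) / 2) := Real.sin_pos_of_pos_of_lt_pi (by linarith) (by linarith)
  have p32 : 0 < Real.sin ((γ - β) / 2) := Real.sin_pos_of_pos_of_lt_pi (by linarith) (by linarith)
  have p31 : 0 < Real.sin ((γ - α) / 2) := Real.sin_pos_of_pos_of_lt_pi (by linarith) (by linarith)
  have p21 : 0 < Real.sin ((β - α) / 2) := Real.sin_pos_of_pos_of_lt_pi (by linarith) (by linarith)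
  have eT := one_sub_Tf (α := α) (β := β) (γ := γ) (s := s) pv.ne' p21.ne'
  constructor
  · unfold Tf; positivity
  · have : 0 < 1 - Tf α β γ s := by rw [eT]; positivity
    linarith

/-- The position on the first side is `cardyRatio` of the cross ratio. -/
theorem side_ratio {α β γ : ℝ} (h : Marks α β γ) {x : ℝ → ℝ} {l : ℝ} (hl : 0 < l)
    (hxc : ContinuousOn x (Icc α β)) (hx0 : x α = 0) (hxl : x β = l)
    (hxd : ∀ s ∈ Ioo α β, HasDerivAt x (Rd α β γ s) s) {s : ℝ} (hs : s ∈ Icc α β) :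
    x s / l = cardyRatio (crossRatioAt (exp ((α : ℂ) * I)) (exp ((s : ℂ) * I))
      (exp ((β : ℂ) * I)) (exp ((γ : ℂ) * I))) := by
  obtain ⟨g1, g2, g3⟩ := h
  have h : Marks α β γ := ⟨g1, g2, g3⟩
  rw [crossRatio_angles h hs.1 hs.2, cardy_eq]
  have p21 : 0 < Real.sin ((β - α) / 2) := Real.sin_pos_of_pos_of_lt_pi (by linarith) (by linarith)
  have hTc : ContinuousOn (Tf α β γ) (Icc α β) := by
    intro t ht
    have pv : 0 < Real.sin ((γ - t) / 2) :=
      Real.sin_pos_of_pos_of_lt_pi (by linarith [ht.1, ht.2]) (by linarith [ht.1, ht.2])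
    exact (Tf_deriv (α := α) (β := β) (γ := γ) pv.ne' p21.ne').continuousAt.continuousWithinAt
  have hcomp : ContinuousOn (fun t => Bp (Tf α β γ t)) (Icc α β) :=
    Bp_cont.comp hTc (fun t ht => Tf_range h ht.1 ht.2)
  have hzero : ∀ t ∈ Icc α β, Bp (Tf α β γ t) = kap α β γ * x t := by
    intro t ht
    have hT0 : Tf α β γ α = 0 := by unfold Tf; simp
    have hB0 : Bp 0 = 0 := by unfold Bp; simp
    rcases eq_or_lt_of_le ht.1 with he | hlt
    · rw [← he, hT0, hB0, hx0, mul_zero]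
    · have hc : ContinuousOn (fun t => Bp (Tf α β γ t) - kap α β γ * x t) (Icc α t) :=
        (hcomp.sub (continuousOn_const.mul hxc)).mono (Icc_subset_Icc_right ht.2)
      obtain ⟨c, hc1, hc2⟩ := exists_hasDerivAt_eq_slope
        (fun t => Bp (Tf α β γ t) - kap α β γ * x t) (fun _ => 0) hlt hc (fun y hy => by
          have hy1 : α < y := hy.1
          have hy2 : y < β := hy.2.trans_le ht.2
          have pv : 0 < Real.sin ((γ - y) / 2) :=
            Real.sin_pos_of_pos_of_lt_pi (by linarith) (by linarith)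
          obtain ⟨r1, r2⟩ := Tf_range' h hy1 hy2
          have d1 := (Bp_deriv r1 r2).comp y (Tf_deriv (α := α) (β := β) (γ := γ) pv.ne' p21.ne')
          have d2 := (hxd y ⟨hy1, hy2⟩).const_mul (kap α β γ)
          have d3 := d1.sub d2
          rw [dens h hy1 hy2, sub_self] at d3
          exact d3)
      have hne : t - α ≠ 0 := by linarith
      rw [eq_div_iff hne] at hc2
      simp only [zero_mul] at hc2
      rw [hT0, hB0, hx0, mul_zero, sub_zero, sub_zero] at hc2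
      linarith
  have hT1 : Tf α β γ β = 1 := by
    have pv : 0 < Real.sin ((γ - β) / 2) := Real.sin_pos_of_pos_of_lt_pi (by linarith) (by linarith)
    unfold Tf
    rw [mul_comm, div_self (mul_pos pv p21).ne']
  have e1 := hzero s hs
  have e2 := hzero β ⟨g1.le, le_rfl⟩
  rw [hT1, hxl] at e2
  have hk : 0 < kap α β γ := by
    have p32 : 0 < Real.sin ((γ - β) / 2) := Real.sin_pos_of_pos_of_lt_pi (by linarith) (by linarith)
    have p31 : 0 < Real.sin ((γ - α) / 2) := Real.sin_pos_of_pos_of_lt_pi (by linarith) (by linarith)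
    unfold kap
    positivity
  rw [e1, e2, mul_div_mul_left _ _ hk.ne']

/-- Summary: the triangle map `tri` is holomorphic in the disc, continuous on the closed disc, maps
the three arcs into the three sides, and on the first arc the position is Cardy's formula. -/
theorem tri_main {α β γ : ℝ} (h : Marks α β γ) :
    ContinuousOn (tri α β γ) (Metric.closedBall 0 1) ∧
    DifferentiableOn ℂ (tri α β γ) (Metric.ball 0 1) ∧
    (∀ s ∈ Icc α β, tri α β γ (exp ((s : ℂ) * I)) = 1 + (om - 1) *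
      ((cardyRatio (crossRatioAt (exp ((α : ℂ) * I)) (exp ((s : ℂ) * I))
        (exp ((β : ℂ) * I)) (exp ((γ : ℂ) * I))) : ℝ) : ℂ)) ∧
    (∀ s ∈ Icc β γ, ∃ y : ℝ, tri α β γ (exp ((s : ℂ) * I)) = om + (om ^ 2 - om) * (y : ℂ)) ∧
    (∀ s ∈ Icc γ (α + 2 * Real.pi),
      ∃ y : ℝ, tri α β γ (exp ((s : ℂ) * I)) = om ^ 2 + (1 - om ^ 2) * (y : ℂ)) ∧
    tri α β γ (exp ((α : ℂ) * I)) = 1 := by
  obtain ⟨x, y, z, l, hl, hBA, hxc, hx0, hxl, hxd, h1, h2, h3, h4⟩ := tri_sides h
  refine ⟨?_, ?_, ?_, fun s hs => ⟨y s, h2 s hs⟩, fun s hs => ⟨z s, h3 s hs⟩, h4⟩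
  · unfold tri
    exact continuousOn_const.add (continuousOn_const.mul
      (((SCF_cont h.ne12 h.ne13 h.ne23).sub continuousOn_const).div_const _))
  · intro u hu
    have hd := (SCF_hasDeriv (α := α) (β := β) (γ := γ) (z := u) (by simpa using hu)).differentiableAt
    unfold tri
    exact ((((hd.sub_const _).div_const _).const_mul _).const_add _).differentiableWithinAt
  · intro s hs
    rw [h1 s hs, side_ratio h hl hxc hx0 hxl hxd hs]

end Crest.Agent.R158.Cd83
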