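import Crest.Agent.R158.Cd5_83

/-!
R158, block C (Cardy front), part 6: a holomorphic function on the disc cannot map the three arcs
to the three sides of the triangle with the wrong orientation (`no_mismatch`).
-/

set_option autoImplicit false

namespace Crest.Agent.R158.Cd83

open Complex Set Filter Topology MeasureTheory
open Crest.ProbabilityR.Percolation

theorem om_sq_sub_im : (om ^ 2 - 1).im ≠ 0 := by
  rw [om_eq]
  have h3 : 0 < Real.sqrt 3 := Real.sqrt_pos.mpr (by norm_num)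
  simp [pow_two]
  nlinarith

theorem norm_lower {α s r : ℝ} (hr : 1/4 ≤ r) :
    |Real.sin ((s - α) / 2)| ≤ ‖exp ((α : ℂ) * I) - (r : ℂ) * exp ((s : ℂ) * I)‖ := by
  apply abs_le_of_sq_le_sq _ (norm_nonneg _)
  rw [Complex.sq_norm, Complex.normSq_apply]
  simp only [Complex.sub_re, Complex.sub_im, Complex.re_ofReal_mul, Complex.im_ofReal_mul,
    Complex.exp_ofReal_mul_I_re, Complex.exp_ofReal_mul_I_im]
  have h1 := Real.sin_sq_add_cos_sq α
  have h2 := Real.sin_sq_add_cos_sq s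
  have h3 : Real.cos (s - α) = 1 - 2 * Real.sin ((s - α) / 2) ^ 2 := by
    have : s - α = 2 * ((s - α) / 2) := by ring
    rw [this, Real.cos_two_mul]
    have h4 := Real.sin_sq_add_cos_sq ((s - α) / 2)
    have : 2 * ((s - α) / 2) / 2 = (s - α) / 2 := by ring
    rw [this]; linarith
  rw [Real.cos_sub] at h3
  nlinarith [sq_nonneg (Real.sin ((s - α) / 2)), sq_nonneg (1 - r)]

theorem Wf_circle_bound {α β γ s r : ℝ} (hr : 1/4 ≤ r)
    (h1 : Real.sin ((s - α) / 2) ≠ 0) (h2 : Real.sin ((s - β) / 2) ≠ 0)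
    (h3 : Real.sin ((s - γ) / 2) ≠ 0) :
    ‖Wf α β γ ((r : ℂ) * exp ((s : ℂ) * I))‖ ≤ 4 * Rd α β γ s := by
  rw [norm_Wf]
  have hp : 0 < |Real.sin ((s - α) / 2) * Real.sin ((s - β) / 2) * Real.sin ((s - γ) / 2)| :=
    abs_pos.mpr (mul_ne_zero (mul_ne_zero h1 h2) h3)
  have e : (4 : ℝ) * Rd α β γ s =
      |Real.sin ((s - α) / 2) * Real.sin ((s - β) / 2) * Real.sin ((s - γ) / 2)| ^ (-2/3 : ℝ) := by
    unfold Rd
    rw [Real.mul_rpow (by norm_num) (abs_nonneg _), ← mul_assoc]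
    have : (8 : ℝ) ^ (-2/3 : ℝ) = 1/4 := by
      have h8 : (8 : ℝ) = 2 ^ (3 : ℝ) := by norm_num
      rw [h8, ← Real.rpow_mul (by norm_num)]
      have : (3 : ℝ) * (-2/3) = -2 := by norm_num
      rw [this, Real.rpow_neg (by norm_num)]
      norm_num
    rw [this]; norm_num
  rw [e]
  apply Real.rpow_le_rpow_of_nonpos hp _ (by norm_num)
  rw [abs_mul, abs_mul]
  apply mul_le_mul (mul_le_mul (norm_lower hr) (norm_lower hr) (abs_nonneg _) (norm_nonneg _))
    (norm_lower hr) (abs_nonneg _) (by positivity)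

/-- One arc. -/
theorem arc_int {R x : ℝ → ℝ} {a b : ℝ} (hab : a < b) (hx : ContinuousOn x (Icc a b))
    (hd : ∀ s ∈ Ioo a b, HasDerivAt x (R s) s) (hR : ∀ s ∈ Ioo a b, 0 ≤ R s)
    {F G : ℝ → ℂ} {A B D : ℂ} (hB : B ≠ 0) (hF : ContinuousOn F (Icc a b))
    (hFs : ∀ s ∈ Icc a b, F s ∈ segment ℝ A (A + B))
    (hG : ∀ s ∈ Ioo a b, G s = F s * ((R s : ℂ) * D)) :
    IntervalIntegrable R volume a b ∧ ∃ U : ℝ,
      ∫ s in a..b, G s = (((x b - x a : ℝ) : ℂ) * A + (U : ℂ) * B) * D := by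
  have hint0 := intervalIntegral.integrableOn_deriv_of_nonneg hx hd hR
  have hint : IntervalIntegrable R volume a b :=
    (intervalIntegrable_iff_integrableOn_Ioc_of_le hab.le).mpr hint0
  refine ⟨hint, ∫ s in a..b, ((F s - A) / B).re * R s, ?_⟩
  have hLx : ∫ s in a..b, R s = x b - x a :=
    intervalIntegral.integral_eq_sub_of_hasDerivAt_of_le hab.le hx hd hint
  have hcont : ContinuousOn (fun s => ((F s - A) / B).re) (Icc a b) :=
    Complex.continuous_re.comp_continuousOn ((hF.sub continuousOn_const).div_const B)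
  have hint2 : IntervalIntegrable (fun s => ((F s - A) / B).re * R s) volume a b := by
    have hc' : ContinuousOn (fun s => ((F s - A) / B).re) (uIcc a b) := by
      rwa [uIcc_of_le hab.le]
    exact hint.continuousOn_mul hc'
  have hval : ∀ s ∈ Icc a b, F s = A + (((F s - A) / B).re : ℂ) * B := by
    intro s hs
    obtain ⟨t, ht, hts⟩ := (segment_eq_image' ℝ A (A + B)) ▸ hFs s hs
    have e1 : F s = A + (t : ℂ) * B := by
      rw [← hts]; simp
    have e2 : (F s - A) / B = (t : ℂ) := by rw [e1]; field_simp; ring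
    rw [e2, Complex.ofReal_re, ← e1]
  have hcongr : ∫ s in a..b, G s =
      ∫ s in a..b, (((R s : ℂ) * A + ((((F s - A) / B).re * R s : ℝ) : ℂ) * B) * D) := by
    apply intervalIntegral.integral_congr_ae
    have hne : ∀ᵐ t : ℝ ∂volume, t ≠ b := by simp [ae_iff, measure_singleton]
    filter_upwards [hne] with s hsb hs
    rw [uIoc_of_le hab.le] at hs
    have hs' : s ∈ Ioo a b := ⟨hs.1, lt_of_le_of_ne hs.2 hsb⟩
    rw [hG s hs']
    conv_lhs => rw [hval s ⟨hs'.1.le, hs'.2.le⟩]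
    push_cast
    ring
  rw [hcongr, intervalIntegral.integral_mul_const, intervalIntegral.integral_add,
    intervalIntegral.integral_mul_const, intervalIntegral.integral_mul_const,
    intervalIntegral.integral_ofReal, intervalIntegral.integral_ofReal, hLx]
  · have hi : IntervalIntegrable (fun s => ((R s : ℝ) : ℂ)) volume a b :=
      ⟨hint.1.ofReal, hint.2.ofReal⟩
    exact IntervalIntegrable.mul_const hi A
  · have hi : IntervalIntegrable (fun s => (((((F s - A) / B).re * R s : ℝ)) : ℂ)) volume a b :=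
      ⟨hint2.1.ofReal, hint2.2.ofReal⟩
    exact IntervalIntegrable.mul_const hi B

theorem no_mismatch {α β γ : ℝ} (h : Marks α β γ) {f : ℂ → ℂ}
    (hfc : ContinuousOn f (Metric.closedBall 0 1)) (hfd : DifferentiableOn ℂ f (Metric.ball 0 1))
    (h1 : ∀ s ∈ Icc α β, f (exp ((s : ℂ) * I)) ∈ segment ℝ 1 (om ^ 2))
    (h2 : ∀ s ∈ Icc β γ, f (exp ((s : ℂ) * I)) ∈ segment ℝ (om ^ 2) om)
    (h3 : ∀ s ∈ Icc γ (α + 2 * Real.pi), f (exp ((s : ℂ) * I)) ∈ segment ℝ om 1) : False := by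
  obtain ⟨g1, g2, g3⟩ := h
  have h : Marks α β γ := ⟨g1, g2, g3⟩
  have hpi := Real.pi_pos
  obtain ⟨x, hxc, hx0, hx1, -, hxd⟩ := side1 h
  obtain ⟨y, hyc, hy0, hy1, -, hyd⟩ := side2 h
  obtain ⟨z, hzc, hz0, hz1, -, hzd⟩ := side3 h
  set G : ℝ → ℂ := fun s => f (exp ((s : ℂ) * I)) *
    (Wf α β γ (exp ((s : ℂ) * I)) * (exp ((s : ℂ) * I) * I)) with hG
  have hR0 : ∀ s, 0 ≤ Rd α β γ s := fun s => by unfold Rd; positivity
  have hcirc : Continuous (fun s : ℝ => exp ((s : ℂ) * I)) := by fun_prop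
  have hFc : Continuous (fun s : ℝ => f (exp ((s : ℂ) * I))) :=
    hfc.comp_continuous hcirc (fun s => by simp [Complex.norm_exp_ofReal_mul_I])
  have hom3 := om_cube
  have hom0 := om_ne
  have hB1 : om ^ 2 - 1 ≠ 0 := by
    intro hh
    apply om_sq_sub_im
    rw [hh]; simp
  have hB2 : om - om ^ 2 ≠ 0 := by
    have : om - om ^ 2 = -(om * (om - 1)) := by ring
    rw [this]; exact neg_ne_zero.mpr (mul_ne_zero hom0 om_sub_ne)
  have hB3 : 1 - om ≠ 0 := by
    have : 1 - om = -(om - 1) := by ring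
    rw [this]; exact neg_ne_zero.mpr om_sub_ne
  obtain ⟨i1, U1, e1⟩ := arc_int (G := G) (A := 1) (B := om ^ 2 - 1) (D := Dd α β γ) g1 hxc hxd
    (fun s _ => hR0 s) hB1 hFc.continuousOn
    (fun s hs => by have := h1 s hs; simpa using this)
    (fun s hs => by rw [hG]; simp only; rw [Wf_arc1 g2 g3 hs.1 hs.2])
  obtain ⟨i2, U2, e2⟩ := arc_int (G := G) (A := om ^ 2) (B := om - om ^ 2) (D := om * Dd α β γ) g2
    hyc hyd (fun s _ => hR0 s) hB2 hFc.continuousOn
    (fun s hs => by have := h2 s hs; simpa using this)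
    (fun s hs => by rw [hG]; simp only; rw [Wf_arc2 g1 g3 hs.1 hs.2])
  obtain ⟨i3, U3, e3⟩ := arc_int (G := G) (A := om) (B := 1 - om) (D := om ^ 2 * Dd α β γ) g3
    hzc hzd (fun s _ => hR0 s) hB3 hFc.continuousOn
    (fun s hs => by have := h3 s hs; simpa using this)
    (fun s hs => by rw [hG]; simp only; rw [Wf_arc3 g1 g2 hs.1 hs.2])
  -- the total integral vanishes
  have hiR : IntervalIntegrable (Rd α β γ) volume α (α + 2 * Real.pi) := (i1.trans i2).trans i3
  obtain ⟨M, hM⟩ : ∃ M : ℝ, ∀ w ∈ Metric.closedBall (0:ℂ) 1, ‖f w‖ ≤ M :=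
    (isCompact_closedBall 0 1).exists_bound_of_continuousOn hfc
  have hM0 : 0 ≤ M := (norm_nonneg _).trans (hM 0 (by simp))
  have hnull : ∀ᵐ s : ℝ ∂volume, s ≠ β ∧ s ≠ γ ∧ s ≠ α + 2 * Real.pi := by
    have a1 : ∀ᵐ t : ℝ ∂volume, t ≠ β := by simp [ae_iff, measure_singleton]
    have a2 : ∀ᵐ t : ℝ ∂volume, t ≠ γ := by simp [ae_iff, measure_singleton]
    have a3 : ∀ᵐ t : ℝ ∂volume, t ≠ α + 2 * Real.pi := by simp [ae_iff, measure_singleton]
    filter_upwards [a1, a2, a3] with t b1 b2 b3 using ⟨b1, b2, b3⟩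
  have hsin : ∀ s : ℝ, s ∈ Ioo α (α + 2 * Real.pi) → s ≠ β → s ≠ γ →
      Real.sin ((s - α) / 2) ≠ 0 ∧ Real.sin ((s - β) / 2) ≠ 0 ∧ Real.sin ((s - γ) / 2) ≠ 0 := by
    intro s hs hb hc
    refine ⟨(sin_half_ne (x := α) (y := s) hs.1 hs.2).2, ?_, ?_⟩
    · rcases lt_or_gt_of_ne hb with hlt | hlt
      · exact (sin_half_ne (x := s) (y := β) hlt (by linarith [hs.1])).1
      · exact (sin_half_ne (x := β) (y := s) hlt (by linarith [hs.2])).2
    · rcases lt_or_gt_of_ne hc with hlt | hlt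
      · exact (sin_half_ne (x := s) (y := γ) hlt (by linarith [hs.1])).1
      · exact (sin_half_ne (x := γ) (y := s) hlt (by linarith [hs.2])).2
  have hne : ∀ s : ℝ, s ∈ Ioo α (α + 2 * Real.pi) → s ≠ β → s ≠ γ →
      exp ((s : ℂ) * I) ≠ exp ((α : ℂ) * I) ∧ exp ((s : ℂ) * I) ≠ exp ((β : ℂ) * I) ∧
        exp ((s : ℂ) * I) ≠ exp ((γ : ℂ) * I) := by
    intro s hs hb hc
    refine ⟨(exp_ne_of hs.1 hs.2).symm, ?_, ?_⟩
    · rcases lt_or_gt_of_ne hb with hlt | hlt
      · exact exp_ne_of hlt (by linarith [hs.1])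
      · exact (exp_ne_of hlt (by linarith [hs.2])).symm
    · rcases lt_or_gt_of_ne hc with hlt | hlt
      · exact exp_ne_of hlt (by linarith [hs.1])
      · exact (exp_ne_of hlt (by linarith [hs.2])).symm
  let J : ℝ → ℝ → ℂ := fun r s => f ((r : ℂ) * exp ((s : ℂ) * I)) *
    (Wf α β γ ((r : ℂ) * exp ((s : ℂ) * I)) * (((r : ℂ) * exp ((s : ℂ) * I)) * I))
  have hJzero : ∀ r : ℝ, 0 < r → r < 1 → ∫ s in α..(α + 2 * Real.pi), J r s = 0 := by
    intro r hr0 hr1
    have hper : Function.Periodic (J r) (2 * Real.pi) := by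
      intro s
      simp only [J]
      have := shift_exp s
      rw [this]
    rw [hper.intervalIntegral_add_eq α 0, zero_add]
    have hsub : Metric.closedBall (0:ℂ) r ⊆ Metric.ball 0 1 := Metric.closedBall_subset_ball hr1
    have hW : DifferentiableOn ℂ (fun w => f w * Wf α β γ w) (Metric.ball 0 1) :=
      hfd.mul (fun w hw => (Wf_diffAt_ball (by simpa using hw)).differentiableWithinAt)
    have hC := Complex.circleIntegral_eq_zero_of_differentiable_on_off_countable hr0.le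
      (c := 0) (f := fun w => f w * Wf α β γ w) countable_empty (hW.continuousOn.mono hsub)
      (fun w hw => (hW.differentiableAt (Metric.isOpen_ball.mem_nhds
        (hsub (Metric.ball_subset_closedBall hw.1)))))
    rw [circleIntegral] at hC
    rw [← hC]
    apply intervalIntegral.integral_congr
    intro s _
    simp only [J, deriv_circleMap, circleMap, zero_add, smul_eq_mul]
    ring
  have hlim : Tendsto (fun r : ℝ => ∫ s in α..(α + 2 * Real.pi), J r s) (𝓝[<] 1)
      (𝓝 (∫ s in α..(α + 2 * Real.pi), G s)) := by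
    apply intervalIntegral.tendsto_integral_filter_of_dominated_convergence
      (fun s => M * (4 * Rd α β γ s))
    · have hev : ∀ᶠ r : ℝ in 𝓝[<] 1, 0 < r ∧ r < 1 := by
        have e1 : ∀ᶠ r : ℝ in 𝓝[<] 1, r < 1 := self_mem_nhdsWithin
        have e2 : ∀ᶠ r : ℝ in 𝓝[<] 1, 0 < r :=
          mem_nhdsWithin_of_mem_nhds (Ioi_mem_nhds zero_lt_one)
        filter_upwards [e1, e2] with r a b using ⟨b, a⟩
      filter_upwards [hev] with r hr
      apply Continuous.aestronglyMeasurable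
      have hin : ∀ s : ℝ, ‖(r : ℂ) * exp ((s : ℂ) * I)‖ < 1 := by
        intro s
        rw [norm_mul, Complex.norm_exp_ofReal_mul_I, mul_one, Complex.norm_real,
          Real.norm_of_nonneg hr.1.le]
        exact hr.2
      have c0 : Continuous (fun s : ℝ => (r : ℂ) * exp ((s : ℂ) * I)) := by fun_prop
      have c1 : Continuous (fun s : ℝ => f ((r : ℂ) * exp ((s : ℂ) * I))) :=
        hfc.comp_continuous c0 (fun s => by simpa using (hin s).le)
      have c2 : Continuous (fun s : ℝ => Wf α β γ ((r : ℂ) * exp ((s : ℂ) * I))) := by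
        have : ContinuousOn (Wf α β γ) (Metric.ball 0 1) := fun w hw =>
          (Wf_diffAt_ball (by simpa using hw)).continuousAt.continuousWithinAt
        exact this.comp_continuous c0 (fun s => by simpa using hin s)
      exact c1.mul (c2.mul (c0.mul continuous_const))
    · have hev : ∀ᶠ r : ℝ in 𝓝[<] 1, 1/4 < r ∧ r < 1 := by
        have e1 : ∀ᶠ r : ℝ in 𝓝[<] 1, r < 1 := self_mem_nhdsWithin
        have e2 : ∀ᶠ r : ℝ in 𝓝[<] 1, 1/4 < r :=
          mem_nhdsWithin_of_mem_nhds (Ioi_mem_nhds (by norm_num))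
        filter_upwards [e1, e2] with r a b using ⟨b, a⟩
      filter_upwards [hev] with r hr
      filter_upwards [hnull] with s hs hsI
      rw [uIoc_of_le (by linarith)] at hsI
      have hs' : s ∈ Ioo α (α + 2 * Real.pi) := ⟨hsI.1, lt_of_le_of_ne hsI.2 hs.2.2⟩
      obtain ⟨k1, k2, k3⟩ := hsin s hs' hs.1 hs.2.1
      have hr0 : 0 ≤ r := by linarith [hr.1]
      have hnz : ‖(r : ℂ) * exp ((s : ℂ) * I)‖ = r := by
        rw [norm_mul, Complex.norm_exp_ofReal_mul_I, mul_one, Complex.norm_real,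
          Real.norm_of_nonneg hr0]
      simp only [J]
      rw [norm_mul, norm_mul, norm_mul, hnz, Complex.norm_I, mul_one]
      have b1 := hM ((r : ℂ) * exp ((s : ℂ) * I))
        (by rw [Metric.mem_closedBall, dist_zero_right, hnz]; exact hr.2.le)
      have b2 := Wf_circle_bound (α := α) (β := β) (γ := γ) (s := s) (r := r) hr.1.le k1 k2 k3
      apply mul_le_mul b1 _ (by positivity) hM0
      calc ‖Wf α β γ ((r : ℂ) * exp ((s : ℂ) * I))‖ * r
          ≤ ‖Wf α β γ ((r : ℂ) * exp ((s : ℂ) * I))‖ * 1 := by gcongr; exact hr.2.le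
        _ ≤ 4 * Rd α β γ s := by rw [mul_one]; exact b2
    · exact (hiR.const_mul 4).const_mul M
    · filter_upwards [hnull] with s hs hsI
      rw [uIoc_of_le (by linarith)] at hsI
      have hs' : s ∈ Ioo α (α + 2 * Real.pi) := ⟨hsI.1, lt_of_le_of_ne hsI.2 hs.2.2⟩
      obtain ⟨k1, k2, k3⟩ := hne s hs' hs.1 hs.2.1
      have hzc : Tendsto (fun r : ℝ => (r : ℂ) * exp ((s : ℂ) * I)) (𝓝[<] 1)
          (𝓝 (exp ((s : ℂ) * I))) := by
        have : Continuous (fun r : ℝ => (r : ℂ) * exp ((s : ℂ) * I)) := by fun_prop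
        have h0 := this.tendsto 1
        simp only [Complex.ofReal_one, one_mul] at h0
        exact h0.mono_left nhdsWithin_le_nhds
      have hzc' : Tendsto (fun r : ℝ => (r : ℂ) * exp ((s : ℂ) * I)) (𝓝[<] 1)
          (𝓝[Metric.closedBall 0 1] (exp ((s : ℂ) * I))) := by
        rw [tendsto_nhdsWithin_iff]
        refine ⟨hzc, ?_⟩
        have e1 : ∀ᶠ r : ℝ in 𝓝[<] 1, r < 1 := self_mem_nhdsWithin
        have e2 : ∀ᶠ r : ℝ in 𝓝[<] 1, 0 < r :=
          mem_nhdsWithin_of_mem_nhds (Ioi_mem_nhds zero_lt_one)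
        filter_upwards [e1, e2] with r a b
        simp only [Metric.mem_closedBall, dist_zero_right, norm_mul, Complex.norm_exp_ofReal_mul_I,
          mul_one, Complex.norm_real, Real.norm_of_nonneg b.le]
        exact a.le
      have t1 : Tendsto (fun r : ℝ => f ((r : ℂ) * exp ((s : ℂ) * I))) (𝓝[<] 1)
          (𝓝 (f (exp ((s : ℂ) * I)))) :=
        (hfc (exp ((s : ℂ) * I)) (by simp [Complex.norm_exp_ofReal_mul_I])).tendsto.comp hzc'
      have t2 : Tendsto (fun r : ℝ => Wf α β γ ((r : ℂ) * exp ((s : ℂ) * I))) (𝓝[<] 1)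
          (𝓝 (Wf α β γ (exp ((s : ℂ) * I)))) :=
        (Wf_diffAt (circle_slit k1) (circle_slit k2) (circle_slit k3)).continuousAt.tendsto.comp hzc
      exact t1.mul (t2.mul (hzc.mul tendsto_const_nhds))
  have hlim0 : Tendsto (fun r : ℝ => ∫ s in α..(α + 2 * Real.pi), J r s) (𝓝[<] 1) (𝓝 0) := by
    apply tendsto_const_nhds.congr'
    have e1 : ∀ᶠ r : ℝ in 𝓝[<] 1, r < 1 := self_mem_nhdsWithin
    have e2 : ∀ᶠ r : ℝ in 𝓝[<] 1, 0 < r :=
      mem_nhdsWithin_of_mem_nhds (Ioi_mem_nhds zero_lt_one)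
    filter_upwards [e1, e2] with r a b
    exact (hJzero r b a).symm
  have hG0 : ∫ s in α..(α + 2 * Real.pi), G s = 0 := tendsto_nhds_unique hlim hlim0
  -- split
  have hGint : ∀ a b : ℝ, a ≤ b → Icc a b ⊆ Icc α (α + 2 * Real.pi) → IntervalIntegrable G volume a b := by
    intro a b hab hsub
    have hiab : IntervalIntegrable (Rd α β γ) volume a b := by
      apply hiR.mono_set
      rw [uIcc_of_le hab, uIcc_of_le (by linarith)]
      exact hsub
    have hbd : IntervalIntegrable (fun s => M * (4 * Rd α β γ s)) volume a b :=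
      (hiab.const_mul 4).const_mul M
    refine IntervalIntegrable.mono_fun hbd ?_ ?_
    · have hm : Measurable (fun s : ℝ => Wf α β γ (exp ((s : ℂ) * I))) :=
        (Wf_meas α β γ).comp hcirc.measurable
      exact (hFc.measurable.mul (hm.mul (hcirc.measurable.mul measurable_const))).aestronglyMeasurable
    · have hnull' : ∀ᵐ s : ℝ ∂(volume.restrict (uIoc a b)),
          (s ≠ β ∧ s ≠ γ ∧ s ≠ α + 2 * Real.pi) ∧ s ∈ uIoc a b :=
        (ae_restrict_of_ae hnull).and (ae_restrict_mem measurableSet_uIoc)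
      filter_upwards [hnull'] with s hs
      obtain ⟨hs, hsI⟩ := hs
      rw [uIoc_of_le hab] at hsI
      have hss : s ∈ Icc α (α + 2 * Real.pi) := hsub ⟨hsI.1.le, hsI.2⟩
      have hsα : α < s := lt_of_le_of_lt (hsub ⟨le_rfl, hab⟩).1 hsI.1
      have hs' : s ∈ Ioo α (α + 2 * Real.pi) := ⟨hsα, lt_of_le_of_ne hss.2 hs.2.2⟩
      obtain ⟨k1, k2, k3⟩ := hsin s hs' hs.1 hs.2.1
      have b2 := Wf_circle_bound (α := α) (β := β) (γ := γ) (s := s) (r := 1) (by norm_num) k1 k2 k3
      simp only [Complex.ofReal_one, one_mul] at b2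
      have b1 := hM (exp ((s : ℂ) * I)) (by simp [Complex.norm_exp_ofReal_mul_I])
      simp only [hG]
      rw [norm_mul, norm_mul, norm_mul, Complex.norm_exp_ofReal_mul_I, Complex.norm_I, mul_one,
        mul_one, Real.norm_of_nonneg (mul_nonneg hM0 (mul_nonneg (by norm_num) (hR0 s)))]
      exact mul_le_mul b1 b2 (norm_nonneg _) hM0
  have hs1 := hGint α β g1.le (Icc_subset_Icc le_rfl (by linarith))
  have hs2 := hGint β γ g2.le (Icc_subset_Icc g1.le g3.le)
  have hs3 := hGint γ (α + 2 * Real.pi) g3.le (Icc_subset_Icc (by linarith) le_rfl)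
  rw [← intervalIntegral.integral_add_adjacent_intervals (hs1.trans hs2) hs3,
    ← intervalIntegral.integral_add_adjacent_intervals hs1 hs2, e1, e2, e3] at hG0
  have hD := Dd_ne α β γ
  have hfin : ((((x β - x α) + (y γ - y β) + (z (α + 2 * Real.pi) - z γ) : ℝ) : ℂ)) +
      ((U1 + U2 + U3 : ℝ) : ℂ) * (om ^ 2 - 1) = 0 := by
    apply (mul_eq_zero.mp (?_ : _ * Dd α β γ = 0)).resolve_right hD
    rw [← hG0]
    push_cast
    linear_combination (-(Dd α β γ * ((y γ : ℂ) - y β)) + (Dd α β γ) * U3 -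
      (Dd α β γ) * ((z (α + 2 * Real.pi) : ℂ) - z γ) + (Dd α β γ) * U2) * hom3
  have him := congrArg Complex.im hfin
  have hre := congrArg Complex.re hfin
  rw [Complex.add_im, Complex.im_ofReal_mul, Complex.ofReal_im, zero_add, Complex.zero_im] at him
  have hU : U1 + U2 + U3 = 0 := (mul_eq_zero.mp him).resolve_right om_sq_sub_im
  rw [Complex.add_re, Complex.re_ofReal_mul, Complex.ofReal_re, hU, zero_mul, add_zero,
    Complex.zero_re, hx0, hy0, hz0] at hre
  linarith

end Crest.Agent.R158.Cd83
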