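import Crest.Agent.R158.Cd7_83

/-!
R158, block C (Cardy front), part 8: structure of `φ` on the closure of the Jordan interior.
-/

set_option autoImplicit false

namespace Crest.Agent.R158.Cd83

open Complex Set Filter Topology MeasureTheory
open Crest.ProbabilityR.Percolation

/-- the hypotheses of S0237 on `γ, φ`. -/
structure CDat (γ : ℝ → ℂ) (φ : ℂ → ℂ) : Prop where
  hγ : IsJordanCurve γ
  hc : ContinuousOn φ (closure (jordanInterior γ))
  hi : InjOn φ (closure (jordanInterior γ))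
  hd : DifferentiableOn ℂ φ (jordanInterior γ)
  hD : φ '' jordanInterior γ = Metric.ball 0 1

variable {γ : ℝ → ℂ} {φ : ℂ → ℂ}

theorem CDat.opn (h : CDat γ φ) : IsOpen (jordanInterior γ) := jint_open h.hγ

theorem CDat.nonempty (h : CDat γ φ) : (jordanInterior γ).Nonempty := by
  have : (0:ℂ) ∈ φ '' jordanInterior γ := by rw [h.hD]; simp
  obtain ⟨z, hz, -⟩ := this
  exact ⟨z, hz⟩

/-- the inverse of `φ` on the closure -/
noncomputable def psi (γ : ℝ → ℂ) (φ : ℂ → ℂ) : ℂ → ℂ :=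
  Function.invFunOn φ (closure (jordanInterior γ))

theorem CDat.preconn (h : CDat γ φ) : IsPreconnected (jordanInterior γ) := by
  obtain ⟨g, hg1, hg2, hg3, hg4, hg5⟩ := Crest.Agent.Lib.exists_holomorphic_inverse h.opn h.hd
    (h.hi.mono subset_closure)
  rw [h.hD] at hg3 hg1
  rw [← hg3]
  exact ((convex_ball (0:ℂ) 1).isPreconnected).image g hg1.continuousOn

theorem CDat.bdd (h : CDat γ φ) : Bornology.IsBounded (jordanInterior γ) := by
  obtain ⟨z, hz⟩ := h.nonempty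
  refine hz.2.subset ?_
  exact h.preconn.subset_connectedComponentIn hz (fun w hw => hw.1)

theorem CDat.cpt (h : CDat γ φ) : IsCompact (closure (jordanInterior γ)) :=
  Metric.isCompact_of_isClosed_isBounded isClosed_closure h.bdd.closure

theorem CDat.image_closure (h : CDat γ φ) :
    φ '' closure (jordanInterior γ) = Metric.closedBall 0 1 := by
  apply subset_antisymm
  · have := h.hc.image_closure
    rwa [h.hD, closure_ball _ one_ne_zero] at this
  · rw [← closure_ball (0:ℂ) one_ne_zero]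
    apply closure_minimal
    · rw [← h.hD]; exact image_mono subset_closure
    · exact (h.cpt.image_of_continuousOn h.hc).isClosed

theorem CDat.psi_mem (h : CDat γ φ) {w : ℂ} (hw : w ∈ Metric.closedBall (0:ℂ) 1) :
    psi γ φ w ∈ closure (jordanInterior γ) := by
  rw [← h.image_closure] at hw
  exact Function.invFunOn_mem hw

theorem CDat.phi_psi (h : CDat γ φ) {w : ℂ} (hw : w ∈ Metric.closedBall (0:ℂ) 1) :
    φ (psi γ φ w) = w := by
  rw [← h.image_closure] at hw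
  exact Function.invFunOn_eq hw

theorem CDat.psi_phi (h : CDat γ φ) {z : ℂ} (hz : z ∈ closure (jordanInterior γ)) :
    psi γ φ (φ z) = z := h.hi.leftInvOn_invFunOn hz

theorem CDat.phi_mem (h : CDat γ φ) {z : ℂ} (hz : z ∈ closure (jordanInterior γ)) :
    φ z ∈ Metric.closedBall (0:ℂ) 1 := by
  rw [← h.image_closure]; exact mem_image_of_mem φ hz

theorem CDat.phi_mem_ball (h : CDat γ φ) {z : ℂ} (hz : z ∈ jordanInterior γ) :
    φ z ∈ Metric.ball (0:ℂ) 1 := by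
  rw [← h.hD]; exact mem_image_of_mem φ hz

theorem CDat.psi_mem_int (h : CDat γ φ) {w : ℂ} (hw : w ∈ Metric.ball (0:ℂ) 1) :
    psi γ φ w ∈ jordanInterior γ := by
  have hw' := hw
  rw [← h.hD] at hw'
  obtain ⟨z, hz, rfl⟩ := hw'
  rw [h.psi_phi (subset_closure hz)]
  exact hz

theorem CDat.psi_cont (h : CDat γ φ) : ContinuousOn (psi γ φ) (Metric.closedBall 0 1) := by
  rw [continuousOn_iff_isClosed]
  intro t ht
  refine ⟨φ '' (t ∩ closure (jordanInterior γ)), ?_, ?_⟩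
  · exact ((h.cpt.inter_left ht).image_of_continuousOn (h.hc.mono inter_subset_right)).isClosed
  · ext w
    constructor
    · rintro ⟨h1, h2⟩
      exact ⟨⟨psi γ φ w, ⟨h1, h.psi_mem h2⟩, h.phi_psi h2⟩, h2⟩
    · rintro ⟨⟨z, ⟨hz1, hz2⟩, rfl⟩, h2⟩
      refine ⟨?_, h2⟩
      rw [mem_preimage, h.psi_phi hz2]
      exact hz1

theorem CDat.psi_diff (h : CDat γ φ) : DifferentiableOn ℂ (psi γ φ) (Metric.ball 0 1) := by
  have := Crest.Agent.Lib.differentiableOn_inverse_of_injOn (g := psi γ φ) h.opn h.hd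
    (h.hi.mono subset_closure) (fun z hz => h.psi_phi (subset_closure hz))
  rwa [h.hD] at this

theorem CDat.norm_frontier (h : CDat γ φ) {z : ℂ} (hz : z ∈ frontier (jordanInterior γ)) :
    ‖φ z‖ = 1 := by
  rw [h.opn.frontier_eq] at hz
  have h1 := h.phi_mem hz.1
  have h1' : ‖φ z‖ ≤ 1 := by simpa using h1
  refine le_antisymm h1' ?_
  by_contra hcon
  push Not at hcon
  have : φ z ∈ φ '' jordanInterior γ := by rw [h.hD]; simpa using hcon
  obtain ⟨z', hz', he⟩ := this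
  have := h.hi (subset_closure hz') hz.1 he
  exact hz.2 (this ▸ hz')

theorem CDat.psi_circle (h : CDat γ φ) {w : ℂ} (hw : ‖w‖ = 1) :
    psi γ φ w ∈ curveTrace γ := by
  have hw' : w ∈ Metric.closedBall (0:ℂ) 1 := by simp [hw]
  apply jint_frontier h.hγ
  rw [h.opn.frontier_eq]
  refine ⟨h.psi_mem hw', fun hcon => ?_⟩
  have := h.phi_mem_ball hcon
  rw [h.phi_psi hw'] at this
  simp [hw] at this

open Classical in
/-- circle coordinate of a point on the trace -/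
noncomputable def kc (γ : ℝ → ℂ) (z : ℂ) : ℂ :=
  if h : ∃ t ∈ Ico (0:ℝ) 1, γ t = z then exp (((2 * Real.pi * h.choose : ℝ) : ℂ) * I) else 0

theorem exp_one_turn : exp (((2 * Real.pi * 1 : ℝ) : ℂ) * I) = exp (((2 * Real.pi * 0 : ℝ) : ℂ) * I) := by
  have := shift_exp 0
  simpa using this

theorem kc_eq (hγ : IsJordanCurve γ) {t : ℝ} (ht : t ∈ Icc (0:ℝ) 1) :
    kc γ (γ t) = exp (((2 * Real.pi * t : ℝ) : ℂ) * I) := by
  rcases eq_or_lt_of_le ht.2 with h1 | h1
  · rw [h1, ← hγ.2.2, exp_one_turn]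
    have h : ∃ s ∈ Ico (0:ℝ) 1, γ s = γ 0 := ⟨0, ⟨le_rfl, one_pos⟩, rfl⟩
    unfold kc
    rw [dif_pos h]
    have := hγ.2.1 h.choose_spec.1 (⟨le_rfl, one_pos⟩ : (0:ℝ) ∈ Ico (0:ℝ) 1) h.choose_spec.2
    rw [this]
  · have h : ∃ s ∈ Ico (0:ℝ) 1, γ s = γ t := ⟨t, ⟨ht.1, h1⟩, rfl⟩
    unfold kc
    rw [dif_pos h]
    have := hγ.2.1 h.choose_spec.1 (⟨ht.1, h1⟩ : t ∈ Ico (0:ℝ) 1) h.choose_spec.2
    rw [this]

theorem kc_cont (hγ : IsJordanCurve γ) : ContinuousOn (kc γ) (curveTrace γ) := by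
  rw [continuousOn_iff_isClosed]
  intro C hC
  have hE : Continuous (fun t : ℝ => exp (((2 * Real.pi * t : ℝ) : ℂ) * I)) := by fun_prop
  refine ⟨γ '' (Icc 0 1 ∩ (fun t : ℝ => exp (((2 * Real.pi * t : ℝ) : ℂ) * I)) ⁻¹' C), ?_, ?_⟩
  · exact ((isCompact_Icc.inter_right (hC.preimage hE)).image_of_continuousOn
      (hγ.1.mono inter_subset_left)).isClosed
  · ext z
    constructor
    · rintro ⟨h1, h2⟩
      obtain ⟨t, ht, rfl⟩ := h2
      rw [mem_preimage, kc_eq hγ ht] at h1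
      exact ⟨⟨t, ⟨ht, h1⟩, rfl⟩, ⟨t, ht, rfl⟩⟩
    · rintro ⟨⟨t, ⟨ht, h1⟩, rfl⟩, h2⟩
      refine ⟨?_, h2⟩
      rw [mem_preimage, kc_eq hγ ht]
      exact h1

theorem kc_inj (hγ : IsJordanCurve γ) : InjOn (kc γ) (curveTrace γ) := by
  rintro _ ⟨s, hs, rfl⟩ _ ⟨t, ht, rfl⟩ h
  rw [kc_eq hγ hs, kc_eq hγ ht, Complex.exp_eq_exp_iff_exists_int] at h
  obtain ⟨n, hn⟩ := h
  have h3 : ((2 * Real.pi * s : ℝ) : ℂ) * I = ((2 * Real.pi * t + n * (2 * Real.pi) : ℝ) : ℂ) * I := by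
    rw [hn]; push_cast; ring
  have h4 := mul_right_cancel₀ Complex.I_ne_zero h3
  have h5 : 2 * Real.pi * s = 2 * Real.pi * t + n * (2 * Real.pi) := by exact_mod_cast h4
  have hpi := Real.pi_pos
  have h6 : s = t + n := by
    have : 2 * Real.pi * s = 2 * Real.pi * (t + n) := by rw [h5]; ring
    exact mul_left_cancel₀ (by positivity) this
  have hn1 : (n : ℝ) ≤ 1 := by linarith [hs.2, ht.1]
  have hn2 : (-1 : ℝ) ≤ n := by linarith [hs.1, ht.2]
  have hn1' : n ≤ 1 := by exact_mod_cast hn1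
  have hn2' : -1 ≤ n := by exact_mod_cast hn2
  have hcases : n = -1 ∨ n = 0 ∨ n = 1 := by omega
  rcases hcases with rfl | rfl | rfl
  · have e1 : s = 0 := by push_cast at h6; linarith [hs.1, ht.2]
    have e2 : t = 1 := by push_cast at h6; linarith [hs.1, ht.2]
    rw [e1, e2]; exact hγ.2.2
  · have : s = t := by push_cast at h6; linarith
    rw [this]
  · have e1 : s = 1 := by push_cast at h6; linarith [hs.2, ht.1]
    have e2 : t = 0 := by push_cast at h6; linarith [hs.2, ht.1]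
    rw [e1, e2]; exact hγ.2.2.symm

/-- The whole trace is in the frontier of the interior. -/
theorem CDat.trace_sub (h : CDat γ φ) : curveTrace γ ⊆ frontier (jordanInterior γ) := by
  have hpi := Real.pi_pos
  have hE : Continuous (fun t : ℝ => exp (((2 * Real.pi * t : ℝ) : ℂ) * I)) := by fun_prop
  have hEn : ∀ t : ℝ, ‖exp (((2 * Real.pi * t : ℝ) : ℂ) * I)‖ = 1 := fun t =>
    Complex.norm_exp_ofReal_mul_I _
  set c : ℝ → ℂ := fun t => kc γ (psi γ φ (exp (((2 * Real.pi * t : ℝ) : ℂ) * I))) with hcdef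
  have hmem : ∀ t : ℝ, exp (((2 * Real.pi * t : ℝ) : ℂ) * I) ∈ Metric.closedBall (0:ℂ) 1 := by
    intro t; rw [mem_closedBall_zero_iff, hEn t]
  have hcc : Continuous c := by
    have h1 : Continuous (fun t : ℝ => psi γ φ (exp (((2 * Real.pi * t : ℝ) : ℂ) * I))) :=
      h.psi_cont.comp_continuous hE hmem
    exact (kc_cont h.hγ).comp_continuous h1 (fun t => h.psi_circle (hEn t))
  have hcn : ∀ t ∈ Icc (0:ℝ) 1, ‖c t‖ = 1 := by
    intro t _
    obtain ⟨s, hs, hs'⟩ := h.psi_circle (hEn t)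
    simp only [hcdef]
    rw [← hs', kc_eq h.hγ hs]
    exact Complex.norm_exp_ofReal_mul_I _
  have hcinj : InjOn c (Ico 0 1) := by
    intro s hs t ht hst
    have h1 := kc_inj h.hγ (h.psi_circle (hEn s)) (h.psi_circle (hEn t)) hst
    have h2 : exp (((2 * Real.pi * s : ℝ) : ℂ) * I) = exp (((2 * Real.pi * t : ℝ) : ℂ) * I) := by
      rw [← h.phi_psi (hmem s), ← h.phi_psi (hmem t), h1]
    by_contra hne
    rcases lt_or_gt_of_ne hne with hlt | hlt
    · exact exp_ne_of (x := 2 * Real.pi * s) (y := 2 * Real.pi * t) (by nlinarith)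
        (by nlinarith [hs.1, ht.2]) h2
    · exact exp_ne_of (x := 2 * Real.pi * t) (y := 2 * Real.pi * s) (by nlinarith)
        (by nlinarith [hs.2, ht.1]) h2.symm
  have hc01 : c 0 = c 1 := by simp only [hcdef]; rw [exp_one_turn]
  obtain ⟨θ, hθc, hθ, hcase⟩ := circle_lift hcc.continuousOn hcn hcinj hc01
  -- surjectivity
  have hsurj : ∀ x : ℝ, ∃ s ∈ Icc (0:ℝ) 1, c s = exp ((x : ℂ) * I) := by
    intro x
    have key : ∀ A : ℝ, ∃ k : ℤ, x + k * (2 * Real.pi) ∈ Icc A (A + 2 * Real.pi) := by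
      intro A
      refine ⟨⌈(A - x) / (2 * Real.pi)⌉, ?_, ?_⟩
      · have := Int.le_ceil ((A - x) / (2 * Real.pi))
        rw [div_le_iff₀ (by positivity)] at this
        linarith
      · have := (Int.ceil_lt_add_one ((A - x) / (2 * Real.pi))).le
        have h2 : (⌈(A - x) / (2 * Real.pi)⌉ : ℝ) * (2 * Real.pi) ≤
            ((A - x) / (2 * Real.pi) + 1) * (2 * Real.pi) := by gcongr
        rw [add_mul, div_mul_cancel₀ _ (by positivity)] at h2
        linarith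
    have fin : ∀ k : ℤ, ∀ s ∈ Icc (0:ℝ) 1, θ s = x + k * (2 * Real.pi) → c s = exp ((x : ℂ) * I) := by
      intro k s hs hk
      rw [hθ s hs, hk, Complex.exp_eq_exp_iff_exists_int]
      exact ⟨k, by push_cast; ring⟩
    rcases hcase with ⟨-, h1⟩ | ⟨-, h1⟩
    · obtain ⟨k, hk⟩ := key (θ 0)
      rw [← h1] at hk
      obtain ⟨s, hs, hs'⟩ := intermediate_value_Icc zero_le_one hθc.continuousOn hk
      exact ⟨s, hs, fin k s hs hs'⟩
    · obtain ⟨k, hk⟩ := key (θ 1)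
      have e : θ 1 + 2 * Real.pi = θ 0 := by linarith
      rw [e] at hk
      obtain ⟨s, hs, hs'⟩ := intermediate_value_Icc' zero_le_one hθc.continuousOn hk
      exact ⟨s, hs, fin k s hs hs'⟩
  rintro _ ⟨t, ht, rfl⟩
  obtain ⟨s, hs, hs'⟩ := hsurj (2 * Real.pi * t)
  rw [← kc_eq h.hγ ht] at hs'
  have h1 := kc_inj h.hγ (h.psi_circle (hEn s)) ⟨t, ht, rfl⟩ hs'
  rw [← h1, h.opn.frontier_eq]
  refine ⟨h.psi_mem (hmem s), fun hcon => ?_⟩
  have := h.phi_mem_ball hcon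
  rw [h.phi_psi (hmem s), mem_ball_zero_iff, hEn s] at this
  exact lt_irrefl _ this

theorem CDat.frontier_eq (h : CDat γ φ) : frontier (jordanInterior γ) = curveTrace γ :=
  subset_antisymm (jint_frontier h.hγ) h.trace_sub

theorem CDat.gam_mem (h : CDat γ φ) {t : ℝ} (ht : t ∈ Icc (0:ℝ) 1) :
    γ t ∈ closure (jordanInterior γ) :=
  frontier_subset_closure (h.trace_sub ⟨t, ht, rfl⟩)

theorem CDat.norm_gam (h : CDat γ φ) {t : ℝ} (ht : t ∈ Icc (0:ℝ) 1) : ‖φ (γ t)‖ = 1 :=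
  h.norm_frontier (h.trace_sub ⟨t, ht, rfl⟩)

/-- The lift of `φ ∘ γ`. -/
theorem CDat.lift (h : CDat γ φ) :
    ∃ θ : ℝ → ℝ, Continuous θ ∧ (∀ t ∈ Icc (0:ℝ) 1, φ (γ t) = exp ((θ t : ℂ) * I)) ∧
      ((StrictMonoOn θ (Icc 0 1) ∧ θ 1 = θ 0 + 2 * Real.pi) ∨
        (StrictAntiOn θ (Icc 0 1) ∧ θ 1 = θ 0 - 2 * Real.pi)) := by
  apply circle_lift (c := fun t => φ (γ t))
  · exact h.hc.comp h.hγ.1 (fun t ht => h.gam_mem ht)
  · exact fun t ht => h.norm_gam ht
  · intro s hs t ht hst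
    have := h.hi (h.gam_mem ⟨hs.1, hs.2.le⟩) (h.gam_mem ⟨ht.1, ht.2.le⟩) hst
    exact h.hγ.2.1 hs ht this
  · show φ (γ 0) = φ (γ 1)
    rw [h.hγ.2.2]

end Crest.Agent.R158.Cd83
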