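import Crest.Agent.R158.Cd8_83

/-!
R158, block C (Cardy front), part 9: identification in the disc from radial boundary values on the
open arcs only (bounded functions).
-/

set_option autoImplicit false

namespace Crest.Agent.R158.Cd83

open Complex Set Filter Topology MeasureTheory
open Crest.ProbabilityR.Percolation

theorem ev_lt_one (a : ℝ) (ha : a < 1) : ∀ᶠ r : ℝ in 𝓝[<] 1, a < r ∧ r < 1 := by
  have e1 : ∀ᶠ r : ℝ in 𝓝[<] 1, r < 1 := self_mem_nhdsWithin
  have e2 : ∀ᶠ r : ℝ in 𝓝[<] 1, a < r := mem_nhdsWithin_of_mem_nhds (Ioi_mem_nhds ha)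
  filter_upwards [e1, e2] with r a b using ⟨b, a⟩

theorem norm_rexp {r : ℝ} (hr : 0 ≤ r) (s : ℝ) : ‖(r : ℂ) * exp ((s : ℂ) * I)‖ = r := by
  rw [norm_mul, Complex.norm_exp_ofReal_mul_I, mul_one, Complex.norm_real, Real.norm_of_nonneg hr]

/-- a bounded holomorphic function whose imaginary part has radial limit zero almost everywhere
is constant. -/
theorem const_of_im_radial {F : ℂ → ℂ} (hd : DifferentiableOn ℂ F (Metric.ball 0 1)) {M : ℝ}
    (hM : ∀ w ∈ Metric.ball (0:ℂ) 1, ‖F w‖ ≤ M)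
    (hr : ∀ᵐ s : ℝ ∂volume, s ∈ uIoc 0 (2 * Real.pi) →
      Tendsto (fun r : ℝ => (F ((r:ℂ) * exp ((s:ℂ) * I))).im) (𝓝[<] 1) (𝓝 0)) :
    ∀ w ∈ Metric.ball (0:ℂ) 1, F w = F 0 := by
  have hpi := Real.pi_pos
  have hM0 : 0 ≤ M := (norm_nonneg _).trans (hM 0 (by simp))
  have him : ∀ w ∈ Metric.ball (0:ℂ) 1, (F w).im = 0 := by
    intro w hw
    have hw1 : ‖w‖ < 1 := by simpa using hw
    set C : ℝ := 4 / (1 - ‖w‖) with hC
    have hC0 : 0 < C := by rw [hC]; apply div_pos (by norm_num); linarith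
    set K : ℝ → ℝ → ℝ := fun r s =>
      ((circleMap 0 r s - 0 + (w - 0)) / ((circleMap 0 r s - 0) - (w - 0))).re with hK
    have hform : ∀ r : ℝ, (1 + ‖w‖) / 2 < r → r < 1 →
        (F w).im = (2 * Real.pi)⁻¹ * ∫ s in (0:ℝ)..(2 * Real.pi), K r s * (F (circleMap 0 r s)).im := by
      intro r hr1 hr2
      have hwr : w ∈ Metric.ball (0:ℂ) r := by
        rw [mem_ball_zero_iff]; linarith
      have hr0 : 0 < r := by linarith [norm_nonneg w]
      have hsub : Metric.closedBall (0:ℂ) r ⊆ Metric.ball 0 1 := Metric.closedBall_subset_ball hr2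
      have hdc : DiffContOnCl ℂ F (Metric.ball 0 r) := by
        refine DifferentiableOn.diffContOnCl ?_
        rw [closure_ball _ hr0.ne']
        exact hd.mono hsub
      have hP := hdc.circleAverage_re_herglotzRieszKernel_smul' hwr
      rw [Real.circleAverage_def] at hP
      have hcont : Continuous fun s : ℝ => K r s • F (circleMap 0 r s) := by
        have hc1 : Continuous fun s : ℝ => F (circleMap 0 r s) := by
          refine hd.continuousOn.comp_continuous (continuous_circleMap 0 r) (fun s => ?_)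
          rw [mem_ball_zero_iff, norm_circleMap_zero, abs_of_pos hr0]
          exact hr2
        have hc2 : Continuous (K r) := by
          apply Complex.continuous_re.comp
          apply Continuous.div
          · exact ((continuous_circleMap 0 r).sub continuous_const).add continuous_const
          · exact ((continuous_circleMap 0 r).sub continuous_const).sub continuous_const
          · intro s h0
            rw [sub_zero, sub_zero, sub_eq_zero] at h0
            have := norm_circleMap_zero r s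
            rw [h0, abs_of_pos hr0] at this
            linarith
        exact hc2.smul hc1
      have hint : IntervalIntegrable (fun s : ℝ => K r s • F (circleMap 0 r s)) volume 0
          (2 * Real.pi) := hcont.intervalIntegrable _ _
      have h3 := Complex.imCLM.intervalIntegral_comp_comm hint
      have h4 : (F w).im = ((2 * Real.pi)⁻¹ • ∫ s in (0:ℝ)..(2 * Real.pi),
          K r s • F (circleMap 0 r s)).im := by rw [← hP]
      rw [h4, Complex.smul_im, smul_eq_mul]
      congr 1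
      rw [Complex.imCLM_apply] at h3
      rw [← h3]
      apply intervalIntegral.integral_congr
      intro s _
      simp
    have hlim : Tendsto (fun r : ℝ => (2 * Real.pi)⁻¹ * ∫ s in (0:ℝ)..(2 * Real.pi),
        K r s * (F (circleMap 0 r s)).im) (𝓝[<] 1)
        (𝓝 ((2 * Real.pi)⁻¹ * ∫ s in (0:ℝ)..(2 * Real.pi), (0:ℝ))) := by
      apply Tendsto.const_mul
      have hKb : ∀ r : ℝ, (1 + ‖w‖) / 2 < r → r < 1 → ∀ s, |K r s| ≤ C := by
        intro r hr1 hr2 s
        have hwr : w ∈ Metric.ball (0:ℂ) r := by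
          rw [mem_ball_zero_iff]; linarith
        have hr0 : 0 < r := by linarith [norm_nonneg w]
        have hz : circleMap 0 r s ∈ Metric.sphere (0:ℂ) r := circleMap_mem_sphere 0 hr0.le s
        have u1 := re_herglotzRieszKernel_le hz hwr
        have u2 := le_re_herglotzRieszKernel hz hwr
        rw [sub_zero w] at u1 u2
        have u3 : 0 ≤ (r - ‖w‖) / (r + ‖w‖) := by
          apply div_nonneg <;> linarith [norm_nonneg w]
        have u4 : (r + ‖w‖) / (r - ‖w‖) ≤ C := by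
          rw [hC, div_le_div_iff₀ (by linarith [norm_nonneg w]) (by linarith)]
          nlinarith [norm_nonneg w]
        simp only [hK]
        rw [sub_zero w, abs_of_nonneg (u3.trans u2)]
        exact u1.trans u4
      apply intervalIntegral.tendsto_integral_filter_of_dominated_convergence (fun _ => C * M)
      · filter_upwards [ev_lt_one ((1 + ‖w‖) / 2) (by linarith)] with r hr'
        obtain ⟨hr1, hr2⟩ := hr'
        have hr0 : 0 < r := by linarith [norm_nonneg w]
        apply Continuous.aestronglyMeasurable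
        have hc1 : Continuous fun s : ℝ => F (circleMap 0 r s) := by
          refine hd.continuousOn.comp_continuous (continuous_circleMap 0 r) (fun s => ?_)
          rw [mem_ball_zero_iff, norm_circleMap_zero, abs_of_pos hr0]
          exact hr2
        have hc2 : Continuous (K r) := by
          apply Complex.continuous_re.comp
          apply Continuous.div
          · exact ((continuous_circleMap 0 r).sub continuous_const).add continuous_const
          · exact ((continuous_circleMap 0 r).sub continuous_const).sub continuous_const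
          · intro s h0
            rw [sub_zero, sub_zero, sub_eq_zero] at h0
            have := norm_circleMap_zero r s
            rw [h0, abs_of_pos hr0] at this
            linarith
        exact hc2.mul (Complex.continuous_im.comp hc1)
      · filter_upwards [ev_lt_one ((1 + ‖w‖) / 2) (by linarith)] with r hr'
        obtain ⟨hr1, hr2⟩ := hr'
        have hr0 : 0 < r := by linarith [norm_nonneg w]
        refine Eventually.of_forall (fun s _ => ?_)
        rw [norm_mul, Real.norm_eq_abs, Real.norm_eq_abs]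
        apply mul_le_mul (hKb r hr1 hr2 s) _ (abs_nonneg _) hC0.le
        refine (Complex.abs_im_le_norm _).trans (hM _ ?_)
        rw [mem_ball_zero_iff, norm_circleMap_zero, abs_of_pos hr0]
        exact hr2
      · exact intervalIntegrable_const
      · filter_upwards [hr] with s hs hsI
        have h1 := hs hsI
        have h2 : Tendsto (fun r : ℝ => C * |(F ((r:ℂ) * exp ((s:ℂ) * I))).im|) (𝓝[<] 1) (𝓝 0) := by
          simpa using (h1.abs).const_mul C
        apply squeeze_zero_norm' _ h2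
        filter_upwards [ev_lt_one ((1 + ‖w‖) / 2) (by linarith)] with r hr'
        obtain ⟨hr1, hr2⟩ := hr'
        rw [norm_mul, Real.norm_eq_abs, Real.norm_eq_abs]
        have : circleMap 0 r s = (r:ℂ) * exp ((s:ℂ) * I) := by simp [circleMap]
        rw [this]
        exact mul_le_mul_of_nonneg_right (hKb r hr1 hr2 s) (abs_nonneg _)
    have hlim2 : Tendsto (fun _ : ℝ => (F w).im) (𝓝[<] (1:ℝ))
        (𝓝 ((2 * Real.pi)⁻¹ * ∫ s in (0:ℝ)..(2 * Real.pi), (0:ℝ))) := by
      apply hlim.congr'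
      filter_upwards [ev_lt_one ((1 + ‖w‖) / 2) (by linarith)] with r hr'
      exact (hform r hr'.1 hr'.2).symm
    have := tendsto_nhds_unique hlim2 tendsto_const_nhds
    rw [← this]
    simp
  intro w hw
  have hw1 : ‖w‖ < 1 := by simpa using hw
  obtain ⟨ρ, hρ1, hρ2⟩ := exists_between hw1
  have hρ0 : 0 < ρ := (norm_nonneg w).trans_lt hρ1
  have hsub : Metric.closedBall (0:ℂ) ρ ⊆ Metric.ball 0 1 := Metric.closedBall_subset_ball hρ2
  refine const_of_real (U := Metric.ball (0:ℂ) ρ) Metric.isOpen_ball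
    (convex_ball _ _).isPreconnected ?_ (fun z hz => him z (hsub (Metric.ball_subset_closedBall hz)))
    (subset_closure (by simpa using hρ1)) (subset_closure (by simpa using hρ0))
  refine DifferentiableOn.diffContOnCl ?_
  rw [closure_ball _ hρ0.ne']
  exact hd.mono hsub

theorem exp_add_int (s : ℝ) (k : ℤ) :
    exp (((s + k * (2 * Real.pi) : ℝ) : ℂ) * I) = exp ((s : ℂ) * I) := by
  rw [Complex.exp_eq_exp_iff_exists_int]
  exact ⟨k, by push_cast; ring⟩

theorem ae_arc (α β γ : ℝ) :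
    ∀ᵐ s : ℝ ∂volume, ∃ s' : ℝ, exp ((s' : ℂ) * I) = exp ((s : ℂ) * I) ∧
      (s' ∈ Ioo α β ∨ s' ∈ Ioo β γ ∨ s' ∈ Ioo γ (α + 2 * Real.pi)) := by
  have hcount : (⋃ k : ℤ, ({α + k * (2 * Real.pi), β + k * (2 * Real.pi),
      γ + k * (2 * Real.pi)} : Set ℝ)).Countable :=
    countable_iUnion (fun k => ((Set.toFinite _).countable))
  have hae := hcount.ae_notMem volume
  filter_upwards [hae] with s hs
  obtain ⟨u, k, hmem, heq⟩ : ∃ (u : ℝ) (k : ℤ), u ∈ Ico α (α + 2 * Real.pi) ∧
      s = u + k * (2 * Real.pi) := by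
    have hpi2 : (0:ℝ) < 2 * Real.pi := Real.two_pi_pos
    refine ⟨toIcoMod hpi2 α s, toIcoDiv hpi2 α s, toIcoMod_mem_Ico hpi2 α s, ?_⟩
    have := toIcoMod_add_toIcoDiv_zsmul hpi2 α s
    rw [zsmul_eq_mul] at this
    exact this.symm
  refine ⟨u, ?_, ?_⟩
  · rw [heq, exp_add_int]
  · have hne : u ≠ α ∧ u ≠ β ∧ u ≠ γ := by
      refine ⟨?_, ?_, ?_⟩ <;>
      · intro hcon
        apply hs
        rw [mem_iUnion]
        refine ⟨k, ?_⟩
        rw [heq, hcon]
        simp
    obtain ⟨n1, n2, n3⟩ := hne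
    have l1 : α < u := lt_of_le_of_ne hmem.1 n1.symm
    rcases lt_or_gt_of_ne n2 with h2 | h2
    · exact Or.inl ⟨l1, h2⟩
    · rcases lt_or_gt_of_ne n3 with h3 | h3
      · exact Or.inr (Or.inl ⟨h2, h3⟩)
      · exact Or.inr (Or.inr ⟨h3, hmem.2⟩)

theorem im_cube_bound {p : ℂ} {B : ℝ} (hp : ‖p‖ ≤ B) : |(p ^ 3).im| ≤ 4 * B ^ 2 * |p.im| := by
  have h1 : (p ^ 3).im = 3 * p.re ^ 2 * p.im - p.im ^ 3 := by
    simp [pow_succ, Complex.mul_im, Complex.mul_re]; ring
  have hB : 0 ≤ B := (norm_nonneg _).trans hp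
  have hre : |p.re| ≤ B := (Complex.abs_re_le_norm p).trans hp
  have him : |p.im| ≤ B := (Complex.abs_im_le_norm p).trans hp
  have hre2 : p.re ^ 2 ≤ B ^ 2 := sq_le_sq' (by linarith [neg_abs_le p.re]) (le_trans (le_abs_self _) hre)
  have him2 : p.im ^ 2 ≤ B ^ 2 := sq_le_sq' (by linarith [neg_abs_le p.im]) (le_trans (le_abs_self _) him)
  have h2 : 3 * p.re ^ 2 * p.im - p.im ^ 3 = (3 * p.re ^ 2 - p.im ^ 2) * p.im := by ring
  rw [h1, h2, abs_mul]
  apply mul_le_mul_of_nonneg_right _ (abs_nonneg _)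
  rw [abs_le]
  constructor <;> nlinarith [sq_nonneg p.re, sq_nonneg p.im]

theorem radial_tendsto {g : ℂ → ℂ} (hg : ContinuousOn g (Metric.closedBall 0 1)) (s : ℝ) :
    Tendsto (fun r : ℝ => g ((r:ℂ) * exp ((s:ℂ) * I))) (𝓝[<] 1) (𝓝 (g (exp ((s:ℂ) * I)))) := by
  have hzc : Tendsto (fun r : ℝ => (r : ℂ) * exp ((s : ℂ) * I)) (𝓝[<] 1)
      (𝓝 (exp ((s : ℂ) * I))) := by
    have : Continuous (fun r : ℝ => (r : ℂ) * exp ((s : ℂ) * I)) := by fun_prop
    have h0 := this.tendsto 1
    simp only [Complex.ofReal_one, one_mul] at h0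
    exact h0.mono_left nhdsWithin_le_nhds
  have hzc' : Tendsto (fun r : ℝ => (r : ℂ) * exp ((s : ℂ) * I)) (𝓝[<] 1)
      (𝓝[Metric.closedBall 0 1] (exp ((s : ℂ) * I))) := by
    rw [tendsto_nhdsWithin_iff]
    refine ⟨hzc, ?_⟩
    filter_upwards [ev_lt_one 0 zero_lt_one] with r hr
    rw [mem_closedBall_zero_iff, norm_rexp hr.1.le]
    exact hr.2.le
  exact (hg (exp ((s : ℂ) * I)) (by simp [Complex.norm_exp_ofReal_mul_I])).tendsto.comp hzc'

/-- the boundary condition on one arc -/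
def RB (f : ℂ → ℂ) (A B : ℂ) (s : ℝ) : Prop :=
  Tendsto (fun r : ℝ => ((f ((r:ℂ) * exp ((s:ℂ) * I)) - A) / B).im) (𝓝[<] 1) (𝓝 0)

theorem disc_match {α β γ : ℝ} (h : Marks α β γ) {f : ℂ → ℂ} {M : ℝ}
    (hd : DifferentiableOn ℂ f (Metric.ball 0 1)) (hM : ∀ w ∈ Metric.ball (0:ℂ) 1, ‖f w‖ ≤ M)
    (b1 : ∀ s ∈ Ioo α β, RB f 1 (om - 1) s)
    (b2 : ∀ s ∈ Ioo β γ, RB f om (om * (om - 1)) s)
    (b3 : ∀ s ∈ Ioo γ (α + 2 * Real.pi), RB f (om ^ 2) (om ^ 2 * (om - 1)) s) :
    ∀ w ∈ Metric.ball (0:ℂ) 1, f w = tri α β γ w := by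
  have hpi := Real.pi_pos
  obtain ⟨tc, td, t1, t2, t3, t4⟩ := tri_main h
  have hom3 := om_cube
  have hom0 := om_ne
  have hom1 := om_sub_ne
  obtain ⟨M', hM'⟩ : ∃ M : ℝ, ∀ w ∈ Metric.closedBall (0:ℂ) 1, ‖tri α β γ w‖ ≤ M :=
    (isCompact_closedBall 0 1).exists_bound_of_continuousOn tc
  set G : ℂ → ℂ := fun w => (f w - tri α β γ w) / (om - 1) with hG
  have hGd : DifferentiableOn ℂ G (Metric.ball 0 1) := (hd.sub td).div_const _
  set B : ℝ := (M + M') / ‖om - 1‖ with hB
  have hGb : ∀ w ∈ Metric.ball (0:ℂ) 1, ‖G w‖ ≤ B := by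
    intro w hw
    simp only [hG]
    rw [norm_div, hB]
    apply div_le_div_of_nonneg_right _ (norm_nonneg _)
    exact (norm_sub_le _ _).trans (add_le_add (hM w hw) (hM' w (Metric.ball_subset_closedBall hw)))
  -- arcwise statement
  have arc : ∀ (j : ℕ) (A : ℂ) (s : ℝ), RB f A (om ^ j * (om - 1)) s →
      (∃ y : ℝ, tri α β γ (exp ((s : ℂ) * I)) = A + om ^ j * (om - 1) * (y : ℂ)) →
      Tendsto (fun r : ℝ => (G ((r:ℂ) * exp ((s:ℂ) * I)) / om ^ j).im) (𝓝[<] 1) (𝓝 0) := by
    intro j A s hs ⟨y, hy⟩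
    have hne : om ^ j * (om - 1) ≠ 0 := mul_ne_zero (pow_ne_zero _ hom0) hom1
    have hT := radial_tendsto tc s
    have hT2 : Tendsto (fun r : ℝ => ((tri α β γ ((r:ℂ) * exp ((s:ℂ) * I)) - A) /
        (om ^ j * (om - 1))).im) (𝓝[<] 1) (𝓝 0) := by
      have h1 := ((hT.sub_const A).div_const (om ^ j * (om - 1)))
      have h2 := (Complex.continuous_im.tendsto _).comp h1
      have h3 : ((tri α β γ (exp ((s : ℂ) * I)) - A) / (om ^ j * (om - 1))).im = 0 := by
        rw [hy, add_sub_cancel_left, mul_div_cancel_left₀ _ hne, Complex.ofReal_im]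
      rw [h3] at h2
      exact h2
    have h4 := hs.sub hT2
    rw [sub_zero] at h4
    refine h4.congr (fun r => ?_)
    rw [← Complex.sub_im]
    congr 1
    simp only [hG]
    rw [← sub_div, sub_sub_sub_cancel_right, div_div, mul_comm (om - 1) (om ^ j)]
  have a1 : ∀ s ∈ Ioo α β,
      Tendsto (fun r : ℝ => (G ((r:ℂ) * exp ((s:ℂ) * I)) / om ^ 0).im) (𝓝[<] 1) (𝓝 0) := by
    intro s hs
    refine arc 0 1 s (by simpa using b1 s hs) ⟨cardyRatio (crossRatioAt (exp ((α : ℂ) * I))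
      (exp ((s : ℂ) * I)) (exp ((β : ℂ) * I)) (exp ((γ : ℂ) * I))), ?_⟩
    rw [t1 s ⟨hs.1.le, hs.2.le⟩]; ring
  have a2 : ∀ s ∈ Ioo β γ,
      Tendsto (fun r : ℝ => (G ((r:ℂ) * exp ((s:ℂ) * I)) / om ^ 1).im) (𝓝[<] 1) (𝓝 0) := by
    intro s hs
    obtain ⟨y, hy⟩ := t2 s ⟨hs.1.le, hs.2.le⟩
    exact arc 1 om s (by simpa using b2 s hs) ⟨y, by rw [hy]; ring⟩
  have a3 : ∀ s ∈ Ioo γ (α + 2 * Real.pi),
      Tendsto (fun r : ℝ => (G ((r:ℂ) * exp ((s:ℂ) * I)) / om ^ 2).im) (𝓝[<] 1) (𝓝 0) := by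
    intro s hs
    obtain ⟨y, hy⟩ := t3 s ⟨hs.1.le, hs.2.le⟩
    exact arc 2 (om ^ 2) s (b3 s hs) ⟨y, by rw [hy]; linear_combination (-(y:ℂ)) * hom3⟩
  have cube : ∀ (j : ℕ) (s : ℝ),
      Tendsto (fun r : ℝ => (G ((r:ℂ) * exp ((s:ℂ) * I)) / om ^ j).im) (𝓝[<] 1) (𝓝 0) →
      Tendsto (fun r : ℝ => (G ((r:ℂ) * exp ((s:ℂ) * I)) ^ 3).im) (𝓝[<] 1) (𝓝 0) := by
    intro j s hs
    have h1 : Tendsto (fun r : ℝ => 4 * B ^ 2 * |(G ((r:ℂ) * exp ((s:ℂ) * I)) / om ^ j).im|)
        (𝓝[<] 1) (𝓝 0) := by simpa using (hs.abs).const_mul (4 * B ^ 2)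
    apply squeeze_zero_norm' _ h1
    filter_upwards [ev_lt_one 0 zero_lt_one] with r hr
    have hmem : (r:ℂ) * exp ((s:ℂ) * I) ∈ Metric.ball (0:ℂ) 1 := by
      rw [mem_ball_zero_iff, norm_rexp hr.1.le]; exact hr.2
    have hnj : ‖om ^ j‖ = 1 := by
      unfold om
      rw [norm_pow, Complex.norm_exp_ofReal_mul_I, one_pow]
    have hb : ‖G ((r:ℂ) * exp ((s:ℂ) * I)) / om ^ j‖ ≤ B := by
      rw [norm_div, hnj, div_one]; exact hGb _ hmem
    have h2 := im_cube_bound hb
    have h3 : (G ((r:ℂ) * exp ((s:ℂ) * I)) / om ^ j) ^ 3 = G ((r:ℂ) * exp ((s:ℂ) * I)) ^ 3 := by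
      rw [div_pow, ← pow_mul, mul_comm j 3, pow_mul, hom3, one_pow, div_one]
    rw [h3] at h2
    rw [Real.norm_eq_abs]
    exact h2
  have hconst := const_of_im_radial (F := fun w => G w ^ 3) (hGd.pow 3) (M := B ^ 3)
    (fun w hw => by
      rw [norm_pow]
      exact pow_le_pow_left₀ (norm_nonneg _) (hGb w hw) 3) (by
      filter_upwards [ae_arc α β γ] with s ⟨s', hs', hcase⟩ _
      rw [← hs']
      rcases hcase with hc | hc | hc
      · exact cube 0 s' (a1 s' hc)
      · exact cube 1 s' (a2 s' hc)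
      · exact cube 2 s' (a3 s' hc))
  -- G = 0
  have hG0 : G 0 = 0 := by
    by_contra hne
    have hder : ∀ w ∈ Metric.ball (0:ℂ) 1, deriv G w = 0 := by
      intro w hw
      have hda : HasDerivAt G (deriv G w) w :=
        (hGd.differentiableAt (Metric.isOpen_ball.mem_nhds hw)).hasDerivAt
      have h1 := hda.pow 3
      have h2 : HasDerivAt (G ^ 3) 0 w := by
        have : (G ^ 3) =ᶠ[𝓝 w] fun _ => G 0 ^ 3 := by
          filter_upwards [Metric.isOpen_ball.mem_nhds hw] with v hv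
          exact hconst v hv
        exact (hasDerivAt_const w (G 0 ^ 3)).congr_of_eventuallyEq this
      have h3 := h1.unique h2
      have hGw : G w ≠ 0 := by
        intro h0
        have := hconst w hw
        rw [h0] at this
        exact hne (by simpa using this.symm)
      have h4 : ((3:ℕ):ℂ) * G w ^ (3 - 1) ≠ 0 := mul_ne_zero (by norm_num) (pow_ne_zero _ hGw)
      exact (mul_eq_zero.mp h3).resolve_left h4
    have hGc : ∀ w ∈ Metric.ball (0:ℂ) 1, G w = G 0 := fun w hw =>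
      Metric.isOpen_ball.is_const_of_deriv_eq_zero (convex_ball _ _).isPreconnected hGd hder hw
        (by simp)
    have hlimj : ∀ (j : ℕ) (s : ℝ),
        Tendsto (fun r : ℝ => (G ((r:ℂ) * exp ((s:ℂ) * I)) / om ^ j).im) (𝓝[<] 1) (𝓝 0) →
        (G 0 / om ^ j).im = 0 := by
      intro j s hs
      have : Tendsto (fun r : ℝ => (G ((r:ℂ) * exp ((s:ℂ) * I)) / om ^ j).im) (𝓝[<] 1)
          (𝓝 (G 0 / om ^ j).im) := by
        apply tendsto_const_nhds.congr'
        filter_upwards [ev_lt_one 0 zero_lt_one] with r hr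
        have hmem : (r:ℂ) * exp ((s:ℂ) * I) ∈ Metric.ball (0:ℂ) 1 := by
          rw [mem_ball_zero_iff, norm_rexp hr.1.le]; exact hr.2
        rw [hGc _ hmem]
      exact tendsto_nhds_unique this hs
    have i0 := hlimj 0 ((α + β) / 2) (a1 _ ⟨by linarith [h.h12], by linarith [h.h12]⟩)
    have i1 := hlimj 1 ((β + γ) / 2) (a2 _ ⟨by linarith [h.h23], by linarith [h.h23]⟩)
    rw [pow_zero, div_one] at i0
    rw [pow_one] at i1
    have hreal : G 0 = ((G 0).re : ℂ) := Complex.ext (by simp) (by simp [i0])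
    rw [hreal] at i1
    have hinv : om⁻¹ = ⟨-1/2, -(Real.sqrt 3 / 2)⟩ := by
      have h3 : (Real.sqrt 3 : ℝ) ^ 2 = 3 := Real.sq_sqrt (by norm_num)
      have : om * ⟨-1/2, -(Real.sqrt 3 / 2)⟩ = 1 := by
        rw [om_eq]
        apply Complex.ext
        · simp; nlinarith
        · simp; ring
      exact inv_eq_of_mul_eq_one_right this
    rw [div_eq_mul_inv, Complex.im_ofReal_mul, hinv] at i1
    have h3 : 0 < Real.sqrt 3 := Real.sqrt_pos.mpr (by norm_num)
    have : (G 0).re = 0 := by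
      rcases mul_eq_zero.mp i1 with h | h
      · exact h
      · simp at h
    exact hne (by rw [hreal, this]; simp)
  intro w hw
  have h1 := hconst w hw
  rw [hG0] at h1
  have h2 : G w = 0 := by
    have : G w ^ 3 = 0 := by rw [h1]; norm_num
    exact pow_eq_zero_iff (by norm_num) |>.mp this
  simp only [hG] at h2
  rw [div_eq_zero_iff] at h2
  rcases h2 with h2 | h2
  · exact sub_eq_zero.mp h2
  · exact absurd h2 hom1

theorem disc_mismatch {α β γ : ℝ} (h : Marks α β γ) {f : ℂ → ℂ} {M : ℝ}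
    (hd : DifferentiableOn ℂ f (Metric.ball 0 1)) (hM : ∀ w ∈ Metric.ball (0:ℂ) 1, ‖f w‖ ≤ M)
    (b1 : ∀ s ∈ Ioo α β, RB f 1 (om ^ 2 - 1) s)
    (b2 : ∀ s ∈ Ioo β γ, RB f (om ^ 2) (om - om ^ 2) s)
    (b3 : ∀ s ∈ Ioo γ (α + 2 * Real.pi), RB f om (1 - om) s) : False := by
  obtain ⟨g1, g2, g3⟩ := h
  have h : Marks α β γ := ⟨g1, g2, g3⟩
  have hpi := Real.pi_pos
  have hom3 := om_cube
  have hom0 := om_ne
  have hB1 : om ^ 2 - 1 ≠ 0 := by
    intro hh
    apply om_sq_sub_im
    rw [hh]; simp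
  have hB2 : om - om ^ 2 ≠ 0 := by
    have : om - om ^ 2 = -(om * (om - 1)) := by ring
    rw [this]; exact neg_ne_zero.mpr (mul_ne_zero hom0 om_sub_ne)
  have hB3 : 1 - om ≠ 0 := by
    have : 1 - om = -(om - 1) := by ring
    rw [this]; exact neg_ne_zero.mpr om_sub_ne
  have hD := Dd_ne α β γ
  have hM0 : 0 ≤ M := (norm_nonneg _).trans (hM 0 (by simp))
  obtain ⟨x, hxc, hx0, hx1, -, hxd⟩ := side1 h
  obtain ⟨y, hyc, hy0, hy1, -, hyd⟩ := side2 h
  obtain ⟨z, hzc, hz0, hz1, -, hzd⟩ := side3 h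
  have hR0 : ∀ s, 0 ≤ Rd α β γ s := fun s => by unfold Rd; positivity
  -- the integral of the density
  have seg : ∀ {u : ℝ → ℝ} {a b : ℝ}, a < b → ContinuousOn u (Icc a b) → u a = 0 → 0 < u b →
      (∀ s ∈ Ioo a b, HasDerivAt u (Rd α β γ s) s) →
      IntervalIntegrable (Rd α β γ) volume a b ∧ 0 < ∫ s in a..b, Rd α β γ s := by
    intro u a b hab hc h0 hb hder
    have hint : IntervalIntegrable (Rd α β γ) volume a b :=
      (intervalIntegrable_iff_integrableOn_Ioc_of_le hab.le).mpr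
        (intervalIntegral.integrableOn_deriv_of_nonneg hc hder (fun s _ => hR0 s))
    refine ⟨hint, ?_⟩
    rw [intervalIntegral.integral_eq_sub_of_hasDerivAt_of_le hab.le hc hder hint, h0, sub_zero]
    exact hb
  obtain ⟨i1, p1⟩ := seg g1 hxc hx0 hx1 hxd
  obtain ⟨i2, p2⟩ := seg g2 hyc hy0 hy1 hyd
  obtain ⟨i3, p3⟩ := seg g3 hzc hz0 hz1 hzd
  have hiR : IntervalIntegrable (Rd α β γ) volume α (α + 2 * Real.pi) := (i1.trans i2).trans i3
  have hRpos : 0 < ∫ s in α..(α + 2 * Real.pi), Rd α β γ s := by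
    rw [← intervalIntegral.integral_add_adjacent_intervals (i1.trans i2) i3,
      ← intervalIntegral.integral_add_adjacent_intervals i1 i2]
    linarith
  have hnull : ∀ᵐ s : ℝ ∂volume, s ≠ β ∧ s ≠ γ ∧ s ≠ α + 2 * Real.pi := by
    have a1 : ∀ᵐ t : ℝ ∂volume, t ≠ β := by simp [ae_iff, measure_singleton]
    have a2 : ∀ᵐ t : ℝ ∂volume, t ≠ γ := by simp [ae_iff, measure_singleton]
    have a3 : ∀ᵐ t : ℝ ∂volume, t ≠ α + 2 * Real.pi := by simp [ae_iff, measure_singleton]
    filter_upwards [a1, a2, a3] with t b1 b2 b3 using ⟨b1, b2, b3⟩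
  have hsin : ∀ s : ℝ, s ∈ Ioo α (α + 2 * Real.pi) → s ≠ β → s ≠ γ →
      Real.sin ((s - α) / 2) ≠ 0 ∧ Real.sin ((s - β) / 2) ≠ 0 ∧ Real.sin ((s - γ) / 2) ≠ 0 := by
    intro s hs hb hc
    refine ⟨(sin_half_ne (x := α) (y := s) hs.1 hs.2).2, ?_, ?_⟩
    · rcases lt_or_gt_of_ne hb with hlt | hlt
      · exact (sin_half_ne (x := s) (y := β) hlt (by linarith [hs.1])).1
      · exact (sin_half_ne (x := β) (y := s) hlt (by linarith [hs.2])).2
    · rcases lt_or_gt_of_ne hc with hlt | hlt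
      · exact (sin_half_ne (x := s) (y := γ) hlt (by linarith [hs.1])).1
      · exact (sin_half_ne (x := γ) (y := s) hlt (by linarith [hs.2])).2
  have hne : ∀ s : ℝ, s ∈ Ioo α (α + 2 * Real.pi) → s ≠ β → s ≠ γ →
      exp ((s : ℂ) * I) ≠ exp ((α : ℂ) * I) ∧ exp ((s : ℂ) * I) ≠ exp ((β : ℂ) * I) ∧
        exp ((s : ℂ) * I) ≠ exp ((γ : ℂ) * I) := by
    intro s hs hb hc
    refine ⟨(exp_ne_of hs.1 hs.2).symm, ?_, ?_⟩
    · rcases lt_or_gt_of_ne hb with hlt | hlt
      · exact exp_ne_of hlt (by linarith [hs.1])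
      · exact (exp_ne_of hlt (by linarith [hs.2])).symm
    · rcases lt_or_gt_of_ne hc with hlt | hlt
      · exact exp_ne_of hlt (by linarith [hs.1])
      · exact (exp_ne_of hlt (by linarith [hs.2])).symm
  set E : ℂ := Dd α β γ * (om ^ 2 - 1) with hE
  have hE0 : E ≠ 0 := mul_ne_zero hD hB1
  set V : ℝ → ℝ → ℂ := fun r s => Wf α β γ ((r : ℂ) * exp ((s : ℂ) * I)) *
    (((r : ℂ) * exp ((s : ℂ) * I)) * I) with hV
  set J : ℝ → ℝ → ℂ := fun r s => f ((r : ℂ) * exp ((s : ℂ) * I)) * V r s with hJ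
  have hcontJ : ∀ r : ℝ, 0 < r → r < 1 → Continuous (J r) := by
    intro r hr0 hr1
    have hin : ∀ s : ℝ, (r : ℂ) * exp ((s : ℂ) * I) ∈ Metric.ball (0:ℂ) 1 := by
      intro s
      rw [mem_ball_zero_iff, norm_rexp hr0.le]
      exact hr1
    have c0 : Continuous (fun s : ℝ => (r : ℂ) * exp ((s : ℂ) * I)) := by fun_prop
    have c1 : Continuous (fun s : ℝ => f ((r : ℂ) * exp ((s : ℂ) * I))) :=
      hd.continuousOn.comp_continuous c0 hin
    have c2 : Continuous (fun s : ℝ => Wf α β γ ((r : ℂ) * exp ((s : ℂ) * I))) := by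
      have : ContinuousOn (Wf α β γ) (Metric.ball 0 1) := fun w hw =>
        (Wf_diffAt_ball (by simpa using hw)).continuousAt.continuousWithinAt
      exact this.comp_continuous c0 hin
    exact c1.mul (c2.mul (c0.mul continuous_const))
  have hJzero : ∀ r : ℝ, 0 < r → r < 1 → ∫ s in α..(α + 2 * Real.pi), J r s = 0 := by
    intro r hr0 hr1
    have hper : Function.Periodic (J r) (2 * Real.pi) := by
      intro s
      simp only [hJ, hV]
      have := shift_exp s
      rw [this]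
    rw [hper.intervalIntegral_add_eq α 0, zero_add]
    have hsub : Metric.closedBall (0:ℂ) r ⊆ Metric.ball 0 1 := Metric.closedBall_subset_ball hr1
    have hW : DifferentiableOn ℂ (fun w => f w * Wf α β γ w) (Metric.ball 0 1) :=
      hd.mul (fun w hw => (Wf_diffAt_ball (by simpa using hw)).differentiableWithinAt)
    have hC := Complex.circleIntegral_eq_zero_of_differentiable_on_off_countable hr0.le
      (c := 0) (f := fun w => f w * Wf α β γ w) countable_empty (hW.continuousOn.mono hsub)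
      (fun w hw => (hW.differentiableAt (Metric.isOpen_ball.mem_nhds
        (hsub (Metric.ball_subset_closedBall hw.1)))))
    rw [circleIntegral] at hC
    rw [← hC]
    apply intervalIntegral.integral_congr
    intro s _
    simp only [hJ, hV, deriv_circleMap, circleMap, zero_add, smul_eq_mul]
    ring
  have hqzero : ∀ r : ℝ, 0 < r → r < 1 → ∫ s in α..(α + 2 * Real.pi), (J r s / E).im = 0 := by
    intro r hr0 hr1
    have hint : IntervalIntegrable (fun s => J r s / E) volume α (α + 2 * Real.pi) :=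
      ((hcontJ r hr0 hr1).div_const E).intervalIntegrable _ _
    have h3 := Complex.imCLM.intervalIntegral_comp_comm hint
    simp only [Complex.imCLM_apply] at h3
    rw [h3, intervalIntegral.integral_div, hJzero r hr0 hr1]
    simp
  set kp : ℝ := ((1:ℂ) / (om ^ 2 - 1)).im with hkp
  have hkp0 : kp ≠ 0 := by
    rw [hkp, one_div, Complex.inv_im]
    exact div_ne_zero (neg_ne_zero.mpr om_sq_sub_im) ((Complex.normSq_pos.mpr hB1).ne')
  have hVlim : ∀ s ∈ Ioo α (α + 2 * Real.pi), s ≠ β → s ≠ γ → Tendsto (fun r => V r s) (𝓝[<] 1)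
      (𝓝 (Wf α β γ (exp ((s : ℂ) * I)) * (exp ((s : ℂ) * I) * I))) := by
    intro s hs hb hc
    obtain ⟨k1, k2, k3⟩ := hne s hs hb hc
    have hzc : Tendsto (fun r : ℝ => (r : ℂ) * exp ((s : ℂ) * I)) (𝓝[<] 1)
        (𝓝 (exp ((s : ℂ) * I))) := by
      have : Continuous (fun r : ℝ => (r : ℂ) * exp ((s : ℂ) * I)) := by fun_prop
      have h0 := this.tendsto 1
      simp only [Complex.ofReal_one, one_mul] at h0
      exact h0.mono_left nhdsWithin_le_nhds
    have t2 : Tendsto (fun r : ℝ => Wf α β γ ((r : ℂ) * exp ((s : ℂ) * I))) (𝓝[<] 1)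
        (𝓝 (Wf α β γ (exp ((s : ℂ) * I)))) :=
      (Wf_diffAt (circle_slit k1) (circle_slit k2) (circle_slit k3)).continuousAt.tendsto.comp hzc
    exact t2.mul (hzc.mul tendsto_const_nhds)
  have arcl : ∀ (s : ℝ) (A B C : ℂ), B ≠ 0 → A * C = Dd α β γ → B * C = E → RB f A B s →
      Tendsto (fun r => V r s) (𝓝[<] 1) (𝓝 ((Rd α β γ s : ℂ) * C)) →
      Tendsto (fun r => (J r s / E).im) (𝓝[<] 1) (𝓝 (Rd α β γ s * kp)) := by
    intro s A B C hB hAC hBC hs hv
    have e1 : ∀ r : ℝ, (J r s / E).im =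
        (f ((r : ℂ) * exp ((s : ℂ) * I)) * (V r s - (Rd α β γ s : ℂ) * C) / E).im +
          (Rd α β γ s * kp + Rd α β γ s * ((f ((r : ℂ) * exp ((s : ℂ) * I)) - A) / B).im) := by
      intro r
      have e2 : J r s / E = f ((r : ℂ) * exp ((s : ℂ) * I)) * (V r s - (Rd α β γ s : ℂ) * C) / E +
          (Rd α β γ s : ℂ) * (1 / (om ^ 2 - 1) + (f ((r : ℂ) * exp ((s : ℂ) * I)) - A) / B) := by
        have hC0 : C ≠ 0 := by
          intro h0; rw [h0, mul_zero] at hBC; exact hE0 hBC.symm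
        have e3 : (1:ℂ) / (om ^ 2 - 1) = A * C / E := by
          rw [hAC, hE]; field_simp
        have e4 : (f ((r : ℂ) * exp ((s : ℂ) * I)) - A) / B =
            (f ((r : ℂ) * exp ((s : ℂ) * I)) - A) * C / E := by
          rw [← hBC]; field_simp
        rw [e3, e4]
        simp only [hJ]
        ring
      rw [e2, Complex.add_im, Complex.im_ofReal_mul, Complex.add_im]
      ring
    have l1 : Tendsto (fun r : ℝ => (f ((r : ℂ) * exp ((s : ℂ) * I)) *
        (V r s - (Rd α β γ s : ℂ) * C) / E).im) (𝓝[<] 1) (𝓝 0) := by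
      have l2 : Tendsto (fun r : ℝ => M * ‖V r s - (Rd α β γ s : ℂ) * C‖ / ‖E‖) (𝓝[<] 1) (𝓝 0) := by
        have := (((hv.sub_const ((Rd α β γ s : ℂ) * C)).norm).const_mul M).div_const ‖E‖
        simpa using this
      apply squeeze_zero_norm' _ l2
      filter_upwards [ev_lt_one 0 zero_lt_one] with r hr
      rw [Real.norm_eq_abs]
      refine (Complex.abs_im_le_norm _).trans ?_
      rw [norm_div, norm_mul]
      gcongr
      apply hM
      rw [mem_ball_zero_iff, norm_rexp hr.1.le]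
      exact hr.2
    have l3 : Tendsto (fun r : ℝ => Rd α β γ s * kp +
        Rd α β γ s * ((f ((r : ℂ) * exp ((s : ℂ) * I)) - A) / B).im) (𝓝[<] 1)
        (𝓝 (Rd α β γ s * kp)) := by
      have := (hs.const_mul (Rd α β γ s)).const_add (Rd α β γ s * kp)
      simpa using this
    have l4 := l1.add l3
    rw [zero_add] at l4
    exact l4.congr (fun r => (e1 r).symm)
  have hlim : Tendsto (fun r : ℝ => ∫ s in α..(α + 2 * Real.pi), (J r s / E).im) (𝓝[<] 1)
      (𝓝 (∫ s in α..(α + 2 * Real.pi), Rd α β γ s * kp)) := by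
    apply intervalIntegral.tendsto_integral_filter_of_dominated_convergence
      (fun s => M * (4 * Rd α β γ s) / ‖E‖)
    · filter_upwards [ev_lt_one 0 zero_lt_one] with r hr
      exact (Complex.continuous_im.comp ((hcontJ r hr.1 hr.2).div_const E)).aestronglyMeasurable
    · filter_upwards [ev_lt_one (1/4) (by norm_num)] with r hr
      filter_upwards [hnull] with s hs hsI
      rw [uIoc_of_le (by linarith)] at hsI
      have hs' : s ∈ Ioo α (α + 2 * Real.pi) := ⟨hsI.1, lt_of_le_of_ne hsI.2 hs.2.2⟩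
      obtain ⟨k1, k2, k3⟩ := hsin s hs' hs.1 hs.2.1
      have hr0 : 0 ≤ r := by linarith [hr.1]
      have b2' := Wf_circle_bound (α := α) (β := β) (γ := γ) (s := s) (r := r) hr.1.le k1 k2 k3
      rw [Real.norm_eq_abs]
      refine (Complex.abs_im_le_norm _).trans ?_
      rw [norm_div]
      apply div_le_div_of_nonneg_right _ (norm_nonneg _)
      simp only [hJ, hV]
      rw [norm_mul, norm_mul, norm_mul, norm_rexp hr0, Complex.norm_I, mul_one]
      apply mul_le_mul _ _ (by positivity) hM0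
      · apply hM
        rw [mem_ball_zero_iff, norm_rexp hr0]
        exact hr.2
      · calc ‖Wf α β γ ((r : ℂ) * exp ((s : ℂ) * I))‖ * r
            ≤ ‖Wf α β γ ((r : ℂ) * exp ((s : ℂ) * I))‖ * 1 := by gcongr; exact hr.2.le
          _ ≤ 4 * Rd α β γ s := by rw [mul_one]; exact b2'
    · exact ((hiR.const_mul 4).const_mul M).div_const _
    · filter_upwards [hnull] with s hs hsI
      rw [uIoc_of_le (by linarith)] at hsI
      have hs' : s ∈ Ioo α (α + 2 * Real.pi) := ⟨hsI.1, lt_of_le_of_ne hsI.2 hs.2.2⟩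
      have hv := hVlim s hs' hs.1 hs.2.1
      rcases lt_or_gt_of_ne hs.1 with h1 | h1
      · rw [Wf_arc1 g2 g3 hs'.1 h1] at hv
        exact arcl s 1 (om ^ 2 - 1) (Dd α β γ) hB1 (one_mul _) (by rw [hE]; ring)
          (b1 s ⟨hs'.1, h1⟩) hv
      · rcases lt_or_gt_of_ne hs.2.1 with h2 | h2
        · rw [Wf_arc2 g1 g3 h1 h2] at hv
          exact arcl s (om ^ 2) (om - om ^ 2) (om * Dd α β γ) hB2
            (by linear_combination (Dd α β γ) * hom3)
            (by rw [hE]; linear_combination (-(Dd α β γ)) * hom3) (b2 s ⟨h1, h2⟩) hv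
        · rw [Wf_arc3 g1 g2 h2 hs'.2] at hv
          exact arcl s om (1 - om) (om ^ 2 * Dd α β γ) hB3
            (by linear_combination (Dd α β γ) * hom3)
            (by rw [hE]; linear_combination (-(Dd α β γ)) * hom3) (b3 s ⟨h2, hs'.2⟩) hv
  have hlim0 : Tendsto (fun r : ℝ => ∫ s in α..(α + 2 * Real.pi), (J r s / E).im) (𝓝[<] 1)
      (𝓝 0) := by
    apply tendsto_const_nhds.congr'
    filter_upwards [ev_lt_one 0 zero_lt_one] with r hr
    exact (hqzero r hr.1 hr.2).symm
  have hfin := tendsto_nhds_unique hlim hlim0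
  rw [intervalIntegral.integral_mul_const] at hfin
  rcases mul_eq_zero.mp hfin with h0 | h0
  · exact hRpos.ne' h0
  · exact hkp0 h0

end Crest.Agent.R158.Cd83
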