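import Crest.Agent.R158.Kd4_458

/-!
# Row 158 (helper679), SEP / CORE2: rerouting a closed contour off a box

`recontour` : let `F` be a two-colouring of the faces whose contour (edges between the two colours) consists
of edges of `S` which are open or belong to the box `NB x s`.  If only one open cluster of `S` crosses the
annulus `An x s c`, then there is a colouring `k`, equal to `F` outside the hull of the box of radius `c`
around `x`, whose contour consists of open edges of `S` at distance `≥ s` from `x`.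
-/

set_option autoImplicit false

noncomputable section

namespace Crest.Agent.R158.Ce679

open Crest.Agent.R161.Geo729 Crest.Agent.R161.Topo374 Crest.Agent.R161.Dual374
open Crest.Agent.R161.Tas682
open Crest.Agent.R158.Rs689
open Crest.Agent.R158.Ru874 hiding An
open Crest.Agent.R158.Cpl963 (An mem_An)
open Crest.Agent.R158.Sq200 Crest.Agent.R158.Kd458

/-! ### chains -/

/-- the four edges at a vertex -/
theorem star_congr {N N' : Edge → ZMod 2} {v : P2}
    (h : ∀ e, (v = src e ∨ v = tgt e) → N e = N' e) : Kd458.star N v = Kd458.star N' v := by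
  unfold Kd458.star
  rw [h ((v.1, v.2), false) (Or.inl rfl), h ((v.1 - 1, v.2), false) (Or.inr (by simp [tgt_h])),
    h ((v.1, v.2), true) (Or.inl rfl), h ((v.1, v.2 - 1), true) (Or.inr (by simp [tgt_v]))]

theorem star_zero (v : P2) : Kd458.star (fun _ => 0) v = 0 := by
  simp [Kd458.star]

theorem star_jmp (F : P2 → ZMod 2) (v : P2) :
    Kd458.star (fun e => F (fA e) + F (fB e)) v = 0 := by
  unfold Kd458.star
  simp only [fA_mk, fB_h, fB_v]
  have z1 := zmod2_add_self (F (v.1, v.2))
  have z2 := zmod2_add_self (F (v.1, v.2 - 1))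
  have z3 := zmod2_add_self (F (v.1 - 1, v.2))
  have z4 := zmod2_add_self (F (v.1 - 1, v.2 - 1))
  linear_combination z1 + z2 + z3 + z4

theorem star_sum {ι : Type*} (T : Finset ι) (P : ι → Edge → ZMod 2) (v : P2) :
    Kd458.star (fun e => ∑ w ∈ T, P w e) v = ∑ w ∈ T, Kd458.star (P w) v := by
  unfold Kd458.star
  simp only [Finset.sum_add_distrib]

/-- a finite chain has an even number of end points -/
theorem finsum_star {N : Edge → ZMod 2} {S : Set P2} (hS : S.Finite)
    (hN : ∀ e, N e ≠ 0 → InE S e) : ∑ᶠ v, Kd458.star N v = 0 := by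
  have ha : (Function.support fun v : P2 => N (v, false)).Finite :=
    hS.subset fun v hv => (hN _ hv).1
  have hb : (Function.support fun v : P2 => N (v, true)).Finite :=
    hS.subset fun v hv => (hN _ hv).1
  have ha' : (Function.support fun v : P2 => N ((v.1 - 1, v.2), false)).Finite :=
    hS.subset fun v hv => by
      have h := (hN _ hv).2
      simpa [tgt_h] using h
  have hb' : (Function.support fun v : P2 => N ((v.1, v.2 - 1), true)).Finite :=
    hS.subset fun v hv => by
      have h := (hN _ hv).2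
      simpa [tgt_v] using h
  have e1 : ∑ᶠ v : P2, N ((v.1 - 1, v.2), false) = ∑ᶠ v : P2, N (v, false) := by
    have := finsum_comp_equiv (f := fun v : P2 => N (v, false)) (Equiv.subRight ((1, 0) : P2))
    rw [← this]
    apply finsum_congr
    intro v
    simp [Equiv.subRight_apply, Prod.sub_def]
  have e2 : ∑ᶠ v : P2, N ((v.1, v.2 - 1), true) = ∑ᶠ v : P2, N (v, true) := by
    have := finsum_comp_equiv (f := fun v : P2 => N (v, true)) (Equiv.subRight ((0, 1) : P2))
    rw [← this]
    apply finsum_congr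
    intro v
    simp [Equiv.subRight_apply, Prod.sub_def]
  have h1 : ∀ v, Kd458.star N v =
      (N (v, false) + N ((v.1 - 1, v.2), false)) + (N (v, true) + N ((v.1, v.2 - 1), true)) := by
    intro v
    unfold Kd458.star
    ring
  rw [finsum_congr h1, finsum_add_distrib ((ha.union ha').subset (Function.support_add _ _))
    ((hb.union hb').subset (Function.support_add _ _)), finsum_add_distrib ha ha',
    finsum_add_distrib hb hb', e1, e2, zmod2_add_self, zmod2_add_self, add_zero]

theorem ne_zero_one {a : ZMod 2} (h : a ≠ 0) : a = 1 := (zmod2_cases a).resolve_left h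

/-! ### boxes -/

theorem sd_edge (x : P2) (e : Edge) :
    sd x (tgt e) ≤ sd x (src e) + 1 ∧ sd x (src e) ≤ sd x (tgt e) + 1 :=
  ⟨sd_nbr x _ _ (Cpl963.nbr_src_tgt e), sd_nbr x _ _ (Cpl963.nbr_src_tgt e).symm⟩

theorem nb_of_lt {x v : P2} {s : ℤ} {e : Edge} (h : v = src e ∨ v = tgt e) (hv : sd x v < s) :
    NB x s e := by
  have := sd_edge x e
  rcases h with rfl | rfl <;> exact ⟨by omega, by omega⟩

theorem not_nb_of_lt {x v : P2} {s : ℤ} {e : Edge} (h : v = src e ∨ v = tgt e) (hv : s < sd x v) :
    ¬ NB x s e := by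
  rintro ⟨h1, h2⟩
  rcases h with rfl | rfl <;> omega

theorem not_nb {x : P2} {s : ℤ} {e : Edge} (h : ¬ NB x s e) : s ≤ sd x (src e) ∧ s ≤ sd x (tgt e) := by
  have := sd_edge x e
  unfold NB at h
  omega

/-- hull (faces) of the box of radius `c` around `x` -/
def Hl (x : P2) (c : ℤ) : Set P2 := Rect (x.1 - c) (x.1 + c - 1) (x.2 - c) (x.2 + c - 1)

theorem mem_Hl {x f : P2} {c : ℤ} : f ∈ Hl x c ↔
    x.1 - c ≤ f.1 ∧ f.1 ≤ x.1 + c - 1 ∧ x.2 - c ≤ f.2 ∧ f.2 ≤ x.2 + c - 1 := Iff.rfl

theorem not_mem_Hl {x f : P2} {c : ℤ} (h : c < sd x f) : f ∉ Hl x c := by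
  intro h1
  rw [mem_Hl] at h1
  have : sd x f ≤ c := sd_le.2 ⟨by omega, by omega, by omega, by omega⟩
  omega

theorem Hl_mono {x : P2} {c c' : ℤ} (h : c ≤ c') : Hl x c ⊆ Hl x c' := by
  intro f hf
  rw [mem_Hl] at *
  omega

/-- one face of an edge of the box is in the hull -/
theorem nb_face {x : P2} {s : ℤ} {e : Edge} (h : NB x s e) : fA e ∈ Hl x s ∨ fB e ∈ Hl x s := by
  obtain ⟨⟨i, j⟩, b⟩ := e
  unfold NB at h
  rw [sd_le, sd_le] at h
  rw [mem_Hl, mem_Hl]
  cases b
  · simp only [src_mk, tgt_h, fA_mk, fB_h] at *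
    omega
  · simp only [src_mk, tgt_v, fA_mk, fB_v] at *
    omega

/-- the edges of a face of the hull are in the box -/
theorem hl_nb {x : P2} {s : ℤ} {e : Edge} (h : fA e ∈ Hl x s ∨ fB e ∈ Hl x s) : NB x s e := by
  obtain ⟨⟨i, j⟩, b⟩ := e
  unfold NB
  rw [sd_le, sd_le]
  rw [mem_Hl, mem_Hl] at h
  cases b
  · simp only [src_mk, tgt_h, fA_mk, fB_h] at *
    omega
  · simp only [src_mk, tgt_v, fA_mk, fB_v] at *
    omega

/-- a face function without jumps across the edges meeting the open box is constant on the hull -/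
theorem hull_const {k : P2 → ZMod 2} {x : P2} {s : ℤ}
    (h : ∀ e, (sd x (src e) < s ∨ sd x (tgt e) < s) → k (fA e) + k (fB e) = 0) {f g : P2}
    (hf : f ∈ Hl x s) (hg : g ∈ Hl x s) : k f = k g := by
  have hrow : ∀ n : ℕ, ∀ i j, (i, j) ∈ Hl x s → (i + n, j) ∈ Hl x s → k (i, j) = k (i + n, j) := by
    intro n
    induction n with
    | zero => intro i j _ _; simp
    | succ n ih =>
        intro i j h1 h2
        rw [mem_Hl] at h1 h2
        simp only at h1 h2
        push_cast at h2 ⊢
        rw [ih i j (mem_Hl.2 h1) (mem_Hl.2 ⟨by simp only; omega, by simp only; omega, h1.2.2.1, h1.2.2.2⟩)]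
        have h3 := h ((i + n + 1, j), true) (by
          simp only [src_mk, tgt_v]
          by_cases hj : j < x.2
          · right
            have : sd x (i + n + 1, j + 1) ≤ s - 1 :=
              sd_le.2 ⟨by simp only; omega, by simp only; omega, by simp only; omega, by simp only; omega⟩
            omega
          · left
            have : sd x (i + n + 1, j) ≤ s - 1 :=
              sd_le.2 ⟨by simp only; omega, by simp only; omega, by simp only; omega, by simp only; omega⟩
            omega)
        simp only [fA_mk, fB_v] at h3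
        have h4 := zmod2_eq_of_add h3
        rw [show i + (n : ℤ) + 1 - 1 = i + n by ring] at h4
        rw [← h4, show i + ((n : ℤ) + 1) = i + n + 1 by ring]
  have hcol : ∀ n : ℕ, ∀ i j, (i, j) ∈ Hl x s → (i, j + n) ∈ Hl x s → k (i, j) = k (i, j + n) := by
    intro n
    induction n with
    | zero => intro i j _ _; simp
    | succ n ih =>
        intro i j h1 h2
        rw [mem_Hl] at h1 h2
        simp only at h1 h2
        push_cast at h2 ⊢
        rw [ih i j (mem_Hl.2 h1) (mem_Hl.2 ⟨h1.1, h1.2.1, by simp only; omega, by simp only; omega⟩)]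
        have h3 := h ((i, j + n + 1), false) (by
          simp only [src_mk, tgt_h]
          by_cases hj : i < x.1
          · right
            have : sd x (i + 1, j + n + 1) ≤ s - 1 :=
              sd_le.2 ⟨by simp only; omega, by simp only; omega, by simp only; omega, by simp only; omega⟩
            omega
          · left
            have : sd x (i, j + n + 1) ≤ s - 1 :=
              sd_le.2 ⟨by simp only; omega, by simp only; omega, by simp only; omega, by simp only; omega⟩
            omega)
        simp only [fA_mk, fB_h] at h3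
        have h4 := zmod2_eq_of_add h3
        rw [show j + (n : ℤ) + 1 - 1 = j + n by ring] at h4
        rw [← h4, show j + ((n : ℤ) + 1) = j + n + 1 by ring]
  have hrow' : ∀ i i' j, (i, j) ∈ Hl x s → (i', j) ∈ Hl x s → k (i, j) = k (i', j) := by
    intro i i' j h1 h2
    rcases le_total i i' with h3 | h3
    · have := hrow (i' - i).toNat i j h1 (by rwa [show i + ((i' - i).toNat : ℤ) = i' by omega])
      rwa [show i + ((i' - i).toNat : ℤ) = i' by omega] at this
    · have := hrow (i - i').toNat i' j h2 (by rwa [show i' + ((i - i').toNat : ℤ) = i by omega])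
      rw [show i' + ((i - i').toNat : ℤ) = i by omega] at this
      exact this.symm
  have hcol' : ∀ i j j', (i, j) ∈ Hl x s → (i, j') ∈ Hl x s → k (i, j) = k (i, j') := by
    intro i j j' h1 h2
    rcases le_total j j' with h3 | h3
    · have := hcol (j' - j).toNat i j h1 (by rwa [show j + ((j' - j).toNat : ℤ) = j' by omega])
      rwa [show j + ((j' - j).toNat : ℤ) = j' by omega] at this
    · have := hcol (j - j').toNat i j' h2 (by rwa [show j' + ((j - j').toNat : ℤ) = j by omega])
      rw [show j' + ((j - j').toNat : ℤ) = j by omega] at this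
      exact this.symm
  obtain ⟨i, j⟩ := f
  obtain ⟨i', j'⟩ := g
  have hm : (i', j) ∈ Hl x s := by
    rw [mem_Hl] at *
    exact ⟨hg.1, hg.2.1, hf.2.2.1, hf.2.2.2⟩
  exact (hrow' i i' j hf hm).trans (hcol' i' j j' hm hg)

/-! ### the theorem -/

/-- **Rerouting a contour off a box.** -/
theorem recontour {z : Cf} {S : Set P2} (hS : S.Finite) {x : P2} {s c : ℤ} (hs : 0 ≤ s) (hsc : s ≤ c)
    (hG : Gd z S x s c) {F : P2 → ZMod 2}
    (hF : ∀ e, F (fA e) + F (fB e) ≠ 0 → InE S e ∧ (z e = true ∨ NB x s e)) :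
    ∃ k : P2 → ZMod 2,
      (∀ e, k (fA e) + k (fB e) ≠ 0 →
        InE S e ∧ z e = true ∧ s ≤ sd x (src e) ∧ s ≤ sd x (tgt e)) ∧
      ∀ f, f ∉ Hl x c → k f = F f := by
  classical
  -- the part of the contour off the box
  set N1 : Edge → ZMod 2 := fun e => if NB x s e then 0 else F (fA e) + F (fB e) with hN1
  have hN1s : ∀ e, N1 e ≠ 0 → z e = true ∧ InE S e ∧ ¬ NB x s e := by
    intro e he
    simp only [hN1] at he
    split_ifs at he with h
    · exact absurd rfl he
    · obtain ⟨h1, h2⟩ := hF e he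
      exact ⟨h2.resolve_right h, h1, h⟩
  set Rr : P2 → P2 → Prop := PStep (fun e => z e = true ∧ InE S e ∧ ¬ NB x s e) with hRr
  set Far : P2 → Prop := fun w => ∃ u, c ≤ sd x u ∧ Relation.ReflTransGen Rr w u with hFar
  have hFarst : ∀ {w w' : P2}, Rr w w' → Far w' → Far w := by
    rintro w w' h ⟨u, hu, h'⟩
    exact ⟨u, hu, h'.head h⟩
  have hFare : ∀ e, N1 e ≠ 0 → (Far (src e) ↔ Far (tgt e)) := fun e he =>
    ⟨hFarst ⟨e, hN1s e he, Or.inr ⟨rfl, rfl⟩⟩, hFarst ⟨e, hN1s e he, Or.inl ⟨rfl, rfl⟩⟩⟩
  set N2 : Edge → ZMod 2 := fun e => if Far (src e) then N1 e else 0 with hN2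
  have hN2' : ∀ (v : P2) (e : Edge), (v = src e ∨ v = tgt e) → N2 e = if Far v then N1 e else 0 := by
    rintro v e (rfl | rfl)
    · rfl
    · by_cases h0 : N1 e = 0
      · simp only [hN2, h0, ite_self]
      · simp only [hN2, hFare e h0]
  have hN2s : ∀ e, N2 e ≠ 0 → N1 e ≠ 0 := by
    intro e he h0
    apply he
    simp only [hN2, h0, ite_self]
  have hstar2 : ∀ v, Kd458.star N2 v = if Far v then Kd458.star N1 v else 0 := by
    intro v
    rw [star_congr (hN2' v)]
    split_ifs
    · rfl
    · exact star_zero v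
  have hstar1 : ∀ v, sd x v ≠ s → Kd458.star N1 v = 0 := by
    intro v hv
    rcases lt_or_gt_of_ne hv with h | h
    · rw [← star_zero v]
      exact star_congr fun e he => by simp only [hN1, if_pos (nb_of_lt he h)]
    · rw [← star_jmp F v]
      exact star_congr fun e he => by simp only [hN1, if_neg (not_nb_of_lt he h)]
  -- the end points of the far part
  have hTS : ∀ v, Kd458.star N2 v ≠ 0 → v ∈ S := by
    intro v hv
    by_contra hvS
    apply hv
    rw [← star_zero v]
    apply star_congr
    intro e he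
    by_contra h0
    have := (hN1s e (hN2s e h0)).2.1
    rcases he with rfl | rfl
    · exact hvS this.1
    · exact hvS this.2
  have hT : ∀ v, Kd458.star N2 v ≠ 0 → sd x v = s ∧ ∃ q, sd x q = c ∧ OC z (S ∩ An x s c) v q := by
    intro v hv
    have hvS := hTS v hv
    rw [hstar2] at hv
    split_ifs at hv with hfar
    · have hvs : sd x v = s := by
        by_contra h
        exact hv (hstar1 v h)
      refine ⟨hvs, ?_⟩
      obtain ⟨u, hu, h⟩ := hfar
      have h1 : OC z (S ∩ {w | s ≤ sd x w}) v u := by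
        refine ⟨⟨hvS, hvs.ge⟩, rtg_congr ?_ h⟩
        rintro a b ⟨e, ⟨h2, h3, h4⟩, h5⟩
        have h6 := not_nb h4
        rcases h5 with ⟨rfl, rfl⟩ | ⟨rfl, rfl⟩
        · exact ⟨⟨e, h2, Or.inl ⟨rfl, rfl⟩⟩, ⟨h3.1, h6.1⟩, h3.2, h6.2⟩
        · exact ⟨⟨e, h2, Or.inr ⟨rfl, rfl⟩⟩, ⟨h3.2, h6.2⟩, h3.1, h6.1⟩
      obtain ⟨q, hq, h2⟩ := first_hit (sd x) (sd_nbr x) c h1 (by omega) hu
      refine ⟨q, hq, h2.monoS ?_⟩
      rintro w ⟨⟨h3, h4⟩, h5⟩
      exact ⟨h3, h4, h5⟩
    · exact absurd rfl hv
  have hTT : ∀ v v', Kd458.star N2 v ≠ 0 → Kd458.star N2 v' ≠ 0 → OC z (S ∩ An x s c) v v' := by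
    intro v v' h h'
    obtain ⟨h1, q, hq, h2⟩ := hT v h
    obtain ⟨h1', q', hq', h2'⟩ := hT v' h'
    by_contra hn
    exact hG ⟨v, h1, q, hq, v', h1', q', hq', h2, h2', hn⟩
  have hfin : {v | Kd458.star N2 v ≠ 0}.Finite := hS.subset hTS
  set T := hfin.toFinset with hTdef
  have hmT : ∀ v, v ∈ T ↔ Kd458.star N2 v ≠ 0 := fun v => hfin.mem_toFinset
  have hcard : (T.card : ZMod 2) = 0 := by
    have h1 := finsum_star hS (N := N2) fun e he => (hN1s e (hN2s e he)).2.1
    rw [finsum_eq_sum_of_support_subset (s := T) _ (fun v hv => by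
      rw [Finset.mem_coe, hmT]; exact hv)] at h1
    rw [← h1, Finset.card_eq_sum_ones, Nat.cast_sum]
    apply Finset.sum_congr rfl
    intro v hv
    rw [ne_zero_one ((hmT v).1 hv), Nat.cast_one]
  -- the new part, in the annulus
  obtain ⟨ρ, hρ, hρs⟩ : ∃ ρ : Edge → ZMod 2,
      (∀ e, ρ e ≠ 0 → z e = true ∧ src e ∈ S ∩ An x s c ∧ tgt e ∈ S ∩ An x s c) ∧
        ∀ v, Kd458.star ρ v = Kd458.star N2 v := by
    rcases T.eq_empty_or_nonempty with h0 | ⟨w0, hw0⟩
    · refine ⟨fun _ => 0, fun e h => absurd rfl h, fun v => ?_⟩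
      rw [star_zero]
      by_contra h
      have := (hmT v).2 (Ne.symm h)
      rw [h0] at this
      exact absurd this (Finset.notMem_empty v)
    · have hch : ∀ w : P2, ∃ N : Edge → ZMod 2,
          (∀ e, N e ≠ 0 → z e = true ∧ src e ∈ S ∩ An x s c ∧ tgt e ∈ S ∩ An x s c) ∧
          (w ∈ T → ∀ v, Kd458.star N v = ind (v = w0) + ind (v = w)) := by
        intro w
        by_cases hw : w ∈ T
        · have h1 := hTT w0 w ((hmT w0).1 hw0) ((hmT w).1 hw)
          have h2 : Relation.ReflTransGen (PStep (fun e => z e = true ∧ src e ∈ S ∩ An x s c ∧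
              tgt e ∈ S ∩ An x s c)) w0 w := by
            refine rtg_congr ?_ h1.2
            rintro a b ⟨⟨e, h3, h4⟩, ha, hb⟩
            rcases h4 with ⟨rfl, rfl⟩ | ⟨rfl, rfl⟩
            · exact ⟨e, ⟨h3, ha, hb⟩, Or.inl ⟨rfl, rfl⟩⟩
            · exact ⟨e, ⟨h3, hb, ha⟩, Or.inr ⟨rfl, rfl⟩⟩
          obtain ⟨N, h3, h4⟩ := walk_parity h2
          exact ⟨N, h3, fun _ => h4⟩
        · exact ⟨fun _ => 0, fun e h => absurd rfl h, fun h => absurd h hw⟩
      choose P hP1 hP2 using hch
      refine ⟨fun e => ∑ w ∈ T, P w e, ?_, ?_⟩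
      · intro e he
        obtain ⟨w, _, hw⟩ := Finset.exists_ne_zero_of_sum_ne_zero he
        exact hP1 w e hw
      · intro v
        rw [star_sum, Finset.sum_congr rfl (fun w hw => hP2 w hw v), Finset.sum_add_distrib,
          Finset.sum_const, nsmul_eq_mul, hcard, zero_mul, zero_add]
        by_cases hv : v ∈ T
        · rw [Finset.sum_eq_single v (fun w _ hwv => ind_false (fun h => hwv h.symm))
            (fun h => absurd hv h), ind_true rfl, ne_zero_one ((hmT v).1 hv)]
        · rw [Finset.sum_eq_zero (fun w hw => ind_false (fun h : v = w => hv (by rw [h]; exact hw)))]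
          by_contra h
          exact hv ((hmT v).2 (Ne.symm h))
  -- the difference
  set D : Edge → ZMod 2 := fun e => (F (fA e) + F (fB e)) + (N2 e + ρ e) with hD
  have hDstar : ∀ v, Kd458.star D v = 0 := by
    intro v
    have h1 := Kd458.star_add (fun e => F (fA e) + F (fB e)) (fun e => N2 e + ρ e) v
    have h2 := Kd458.star_add N2 ρ v
    rw [star_jmp, h2, hρs, zero_add, zmod2_add_self] at h1
    exact h1
  have hDs : ∀ e, D e ≠ 0 → NB x c e := by
    intro e he
    by_cases h1 : NB x s e
    · exact ⟨h1.1.trans hsc, h1.2.trans hsc⟩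
    by_cases h2 : ρ e = 0
    · have h3 : F (fA e) + F (fB e) = N1 e := by simp only [hN1, if_neg h1]
      simp only [hD, h2, h3, add_zero] at he
      by_cases h4 : Far (src e)
      · exfalso
        apply he
        simp only [hN2, if_pos h4]
        exact zmod2_add_self _
      · have h5 : N1 e ≠ 0 := by
          simp only [hN2, if_neg h4, add_zero] at he
          exact he
        have h6 : ¬ Far (tgt e) := fun h => h4 ((hFare e h5).2 h)
        constructor
        · by_contra h7
          push Not at h7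
          exact h4 ⟨src e, h7.le, .refl⟩
        · by_contra h7
          push Not at h7
          exact h6 ⟨tgt e, h7.le, .refl⟩
    · obtain ⟨_, h3, h4⟩ := hρ e h2
      exact ⟨h3.2.2, h4.2.2⟩
  obtain ⟨kD, hkD⟩ := face_pot (x0 := x.1 - c) (x1 := x.1 + c) (y0 := x.2 - c) (y1 := x.2 + c) D
    (fun v _ _ _ _ => hDstar v)
  have hxx : x.1 - c ≤ x.1 + c := by omega
  have hyy : x.2 - c ≤ x.2 + c := by omega
  have hring := ring_unique hxx hyy (F := kD) (G := fun _ => 0) (by
    intro e y he
    have hTB : TB (x.1 - c) (x.1 + c) (x.2 - c) (x.2 + c) e := by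
      obtain ⟨a, b⟩ := y
      unfold Out at he
      simp only at he
      rcases he with ⟨h1, h2, ⟨rfl, h3⟩ | ⟨rfl, h3⟩⟩ | ⟨h1, h2, ⟨rfl, h3⟩ | ⟨rfl, h3⟩⟩ <;>
        simp only [TB, src_mk, tgt_h, tgt_v] <;> omega
    rw [hkD e hTB]
    have : D e = 0 := by
      by_contra h0
      have h4 := hDs e h0
      obtain ⟨a, b⟩ := y
      unfold NB at h4
      rw [sd_le, sd_le] at h4
      unfold Out at he
      simp only at he
      rcases he with ⟨h1, h2, ⟨rfl, h3⟩ | ⟨rfl, h3⟩⟩ | ⟨h1, h2, ⟨rfl, h3⟩ | ⟨rfl, h3⟩⟩ <;>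
        simp only [src_mk, tgt_h, tgt_v] at h4 <;> omega
    rw [this, add_zero])
  set κ := kD (x.1 - c - 1, x.2 - c - 1) with hκ
  have hring' : ∀ f, RingF (x.1 - c) (x.1 + c) (x.2 - c) (x.2 + c) f → kD f = κ := by
    intro f hf
    have := hring f hf
    simpa using this
  set kD' : P2 → ZMod 2 := fun f => if f ∈ Hl x c then kD f + κ else 0 with hkD'
  have hjump : ∀ e, kD' (fA e) + kD' (fB e) = D e := by
    intro e
    by_cases h1 : NB x c e
    · have hTB : TB (x.1 - c) (x.1 + c) (x.2 - c) (x.2 + c) e := by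
        have := h1.1
        rw [sd_le] at this
        exact Or.inl (by omega)
      have hval : ∀ f, (f = fA e ∨ f = fB e) → kD' f = kD f + κ := by
        intro f hf
        by_cases h2 : f ∈ Hl x c
        · simp only [hkD', if_pos h2]
        · simp only [hkD', if_neg h2]
          have h3 : RingF (x.1 - c) (x.1 + c) (x.2 - c) (x.2 + c) f := by
            unfold NB at h1
            rw [sd_le, sd_le] at h1
            rw [mem_Hl] at h2
            obtain ⟨⟨i, j⟩, b⟩ := e
            unfold RingF
            cases b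
            · simp only [src_mk, tgt_h, fA_mk, fB_h] at *
              rcases hf with rfl | rfl <;> simp only at * <;> omega
            · simp only [src_mk, tgt_v, fA_mk, fB_v] at *
              rcases hf with rfl | rfl <;> simp only at * <;> omega
          rw [hring' f h3]
          exact (zmod2_add_self κ).symm
      rw [hval _ (Or.inl rfl), hval _ (Or.inr rfl), ← hkD e hTB]
      have := zmod2_add_self κ
      linear_combination this
    · have h2 : fA e ∉ Hl x c := fun h => h1 (hl_nb (Or.inl h))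
      have h3 : fB e ∉ Hl x c := fun h => h1 (hl_nb (Or.inr h))
      simp only [hkD', if_neg h2, if_neg h3, add_zero]
      by_contra h0
      exact h1 (hDs e (Ne.symm h0))
  refine ⟨fun f => F f + kD' f, ?_, ?_⟩
  · intro e he
    have h1 : F (fA e) + kD' (fA e) + (F (fB e) + kD' (fB e)) = N2 e + ρ e := by
      have h2 := hjump e
      simp only [hD] at h2
      have h3 := zmod2_add_self (F (fA e) + F (fB e))
      linear_combination h2 + h3
    simp only [h1] at he
    by_cases h2 : ρ e = 0
    · rw [h2, add_zero] at he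
      obtain ⟨h3, h4, h5⟩ := hN1s e (hN2s e he)
      have h6 := not_nb h5
      exact ⟨h4, h3, h6.1, h6.2⟩
    · obtain ⟨h3, h4, h5⟩ := hρ e h2
      exact ⟨⟨h4.1, h5.1⟩, h3, h4.2.1, h5.2.1⟩
  · intro f hf
    simp only [hkD', if_neg hf, add_zero]

end Crest.Agent.R158.Ce679
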