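import Crest.Agent.R158.Ce1_679

/-!
# Row 158 (helper679), SEP / CORE2: deterministic core of the separation of two arms

* `off_disc` : a dual arm of `f` can be pushed off the box of radius `s` around a boundary vertex `x` (only one
  open cluster crosses the annulus around `x`).
* `core2` : two arms (open arm of `v` landing at `x`, dual arm of `f`) : separated landing points.
* `off_hole`, `core2_hole` : the same for arms in the complement of a box, landing at the box.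
-/

set_option autoImplicit false

noncomputable section

namespace Crest.Agent.R158.Ce679

open Crest.Agent.R161.Geo729 Crest.Agent.R161.Topo374 Crest.Agent.R161.Dual374
open Crest.Agent.R161.Tas682
open Crest.Agent.R158.Rs689
open Crest.Agent.R158.Ru874 hiding An
open Crest.Agent.R158.Cpl963 (An mem_An)
open Crest.Agent.R158.Sq200 Crest.Agent.R158.Kd458

/-- `a` and `b` are the two faces of `e` -/
def FF (e : Edge) (a b : P2) : Prop := (a = fA e ∧ b = fB e) ∨ (a = fB e ∧ b = fA e)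

theorem FF.symm {e : Edge} {a b : P2} (h : FF e a b) : FF e b a := by
  rcases h with ⟨h1, h2⟩ | ⟨h1, h2⟩
  · exact Or.inr ⟨h2, h1⟩
  · exact Or.inl ⟨h2, h1⟩

theorem FF.add {e : Edge} {a b : P2} (h : FF e a b) (k : P2 → ZMod 2) :
    k (fA e) + k (fB e) = k a + k b := by
  rcases h with ⟨rfl, rfl⟩ | ⟨rfl, rfl⟩
  · rfl
  · exact add_comm _ _

theorem dual_ostep {z : Cf} {S : Set P2} {e : Edge} {a b : P2} (he : z e = false) (h : FF e a b)
    (ha : a ∈ S) (hb : b ∈ S) : OStep (dual z) S a b :=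
  ⟨dstep_dual.1 ⟨e, by show ¬ z e = true; rw [he]; simp, h⟩, ha, hb⟩

theorem ostep_dual {z : Cf} {S : Set P2} {a b : P2} (h : OStep (dual z) S a b) :
    ∃ e, z e = false ∧ FF e a b := by
  obtain ⟨e, he, hh⟩ := dstep_dual.2 h.1
  exact ⟨e, by simpa using he, hh⟩

theorem oc_snoc {z : Cf} {S : Set P2} {u a b : P2} (h : OC z S u a) (h' : OStep z S a b) :
    OC z S u b := ⟨h.1, h.2.tail h'⟩

/-- a face function which jumps only across open edges is constant along dual paths -/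
theorem oc_const {z : Cf} {S : Set P2} {k : P2 → ZMod 2}
    (hk : ∀ e, k (fA e) + k (fB e) ≠ 0 → z e = true) {a b : P2} (h : OC (dual z) S a b) : k a = k b := by
  obtain ⟨_, h⟩ := h
  induction h with
  | refl => rfl
  | tail _ hs ih =>
      obtain ⟨e, he, hh⟩ := ostep_dual hs
      rw [ih]
      apply zmod2_eq_of_add
      rw [← hh.add k]
      by_contra h0
      rw [hk e h0] at he
      exact absurd he (by simp)

theorem seq_const {k : P2 → ZMod 2} (u : ℕ → P2) (h : ∀ m, k (u m) = k (u (m + 1))) (n : ℕ) :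
    k (u 0) = k (u n) := by
  induction n with
  | zero => rfl
  | succ n ih => rw [ih, h n]

/-- both faces of an edge meeting the open box are in the hull -/
theorem hl_of_lt {x : P2} {s : ℤ} {e : Edge} (h : sd x (src e) < s ∨ sd x (tgt e) < s) :
    fA e ∈ Hl x s ∧ fB e ∈ Hl x s := by
  obtain ⟨⟨i, j⟩, b⟩ := e
  have h' : sd x (src ((i, j), b)) ≤ s - 1 ∨ sd x (tgt ((i, j), b)) ≤ s - 1 := by omega
  rw [sd_le, sd_le] at h'
  rw [mem_Hl, mem_Hl]
  cases b
  · simp only [src_mk, tgt_h, fA_mk, fB_h] at *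
    omega
  · simp only [src_mk, tgt_v, fA_mk, fB_v] at *
    omega

theorem ind_ne {p q : Prop} (h : ind p + ind q ≠ 0) : (p ∧ ¬ q) ∨ (q ∧ ¬ p) := by
  by_cases hp : p <;> by_cases hq : q
  · exfalso; apply h; rw [ind_true hp, ind_true hq]; decide
  · exact Or.inl ⟨hp, hq⟩
  · exact Or.inr ⟨hq, hp⟩
  · exfalso; apply h; rw [ind_false hp, ind_false hq]; decide

theorem sd_of_not_Hl {x f : P2} {c : ℤ} (h : f ∉ Hl x c) : c ≤ sd x f := by
  by_contra h1
  apply h
  have h2 : sd x f ≤ c - 1 := by omega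
  rw [sd_le] at h2
  rw [mem_Hl]
  omega

section rect

variable {x0 x1 y0 y1 : ℤ}

theorem ri_inE {e : Edge} (h : fA e ∈ Rect x0 (x1 - 1) y0 (y1 - 1) ∨ fB e ∈ Rect x0 (x1 - 1) y0 (y1 - 1)) :
    InE (Rect x0 x1 y0 y1) e := by
  obtain ⟨⟨i, j⟩, b⟩ := e
  unfold InE
  simp only [mem_rect] at *
  cases b
  · simp only [src_mk, tgt_h, fA_mk, fB_h] at *
    omega
  · simp only [src_mk, tgt_v, fA_mk, fB_v] at *
    omega

theorem rect_fin : (Rect x0 x1 y0 y1).Finite := rect_finite _ _ _ _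

/-- a face function without jumps outside the rectangle, equal to `F` far away, vanishes at an outer face next
to a boundary vertex -/
theorem outer_zero {x : P2} {s c : ℤ} (hs : 1 ≤ s)
    (hxB : x ∈ Rect x0 x1 y0 y1) (hbx : BdV x0 x1 y0 y1 x) {k F : P2 → ZMod 2}
    (hk1 : ∀ e, k (fA e) + k (fB e) ≠ 0 → InE (Rect x0 x1 y0 y1) e)
    (hk2 : ∀ f, f ∉ Hl x c → k f = F f)
    (hF : ∀ f, f ∉ Rect x0 (x1 - 1) y0 (y1 - 1) → F f = 0) :
    ∃ o ∈ Hl x s, k o = 0 := by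
  obtain ⟨a, b⟩ := x
  have hk : ∀ e, ¬ InE (Rect x0 x1 y0 y1) e → k (fA e) = k (fB e) := by
    intro e he
    apply zmod2_eq_of_add
    by_contra h0
    exact he (hk1 e h0)
  rw [mem_rect] at hxB
  simp only at hxB
  rcases hbx with h | h | h | h <;> simp only at h
  · refine ⟨(x0 - 1, b), by rw [mem_Hl]; simp only; omega, ?_⟩
    have h1 := seq_const (k := k) (fun m : ℕ => (x0 - 1 - (m : ℤ), b)) (by
      intro m
      have := hk ((x0 - 1 - (m : ℤ), b), true) (by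
        intro h2
        have := h2.1
        rw [mem_rect, src_mk] at this
        simp only at this
        omega)
      simp only [fA_mk, fB_v] at this
      rw [this]
      push_cast
      congr 2
      ring) (c.toNat)
    simp only [Nat.cast_zero, sub_zero] at h1
    rw [h1, hk2 _ (by rw [mem_Hl]; simp only; omega), hF _ (by rw [mem_rect]; simp only; omega)]
  · refine ⟨(x1, b), by rw [mem_Hl]; simp only; omega, ?_⟩
    have h1 := seq_const (k := k) (fun m : ℕ => (x1 + (m : ℤ), b)) (by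
      intro m
      have := hk ((x1 + (m : ℤ) + 1, b), true) (by
        intro h2
        have := h2.1
        rw [mem_rect, src_mk] at this
        simp only at this
        omega)
      simp only [fA_mk, fB_v] at this
      rw [show x1 + (m : ℤ) + 1 - 1 = x1 + m by ring] at this
      rw [← this]
      push_cast
      congr 2
      ring) (c.toNat)
    simp only [Nat.cast_zero, add_zero] at h1
    rw [h1, hk2 _ (by rw [mem_Hl]; simp only; omega), hF _ (by rw [mem_rect]; simp only; omega)]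
  · refine ⟨(a, y0 - 1), by rw [mem_Hl]; simp only; omega, ?_⟩
    have h1 := seq_const (k := k) (fun m : ℕ => (a, y0 - 1 - (m : ℤ))) (by
      intro m
      have := hk ((a, y0 - 1 - (m : ℤ)), false) (by
        intro h2
        have := h2.1
        rw [mem_rect, src_mk] at this
        simp only at this
        omega)
      simp only [fA_mk, fB_h] at this
      rw [this]
      push_cast
      congr 2
      ring) (c.toNat)
    simp only [Nat.cast_zero, sub_zero] at h1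
    rw [h1, hk2 _ (by rw [mem_Hl]; simp only; omega), hF _ (by rw [mem_rect]; simp only; omega)]
  · refine ⟨(a, y1), by rw [mem_Hl]; simp only; omega, ?_⟩
    have h1 := seq_const (k := k) (fun m : ℕ => (a, y1 + (m : ℤ))) (by
      intro m
      have := hk ((a, y1 + (m : ℤ) + 1), false) (by
        intro h2
        have := h2.1
        rw [mem_rect, src_mk] at this
        simp only at this
        omega)
      simp only [fA_mk, fB_h] at this
      rw [show y1 + (m : ℤ) + 1 - 1 = y1 + m by ring] at this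
      rw [← this]
      push_cast
      congr 2
      ring) (c.toNat)
    simp only [Nat.cast_zero, add_zero] at h1
    rw [h1, hk2 _ (by rw [mem_Hl]; simp only; omega), hF _ (by rw [mem_rect]; simp only; omega)]

/-- opening the box of radius `s` around `x` -/
def opB (z : Cf) (x : P2) (s : ℤ) : Cf := by
  classical exact fun e => decide (z e = true ∨ NB x s e)

theorem opB_true {z : Cf} {x : P2} {s : ℤ} {e : Edge} : opB z x s e = true ↔ (z e = true ∨ NB x s e) := by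
  simp [opB]

theorem opB_false {z : Cf} {x : P2} {s : ℤ} {e : Edge} (h : opB z x s e = false) :
    z e = false ∧ ¬ NB x s e := by
  have h1 : ¬ (z e = true ∨ NB x s e) := by
    rw [← opB_true, h]; simp
  push Not at h1
  exact ⟨by simpa using h1.1, h1.2⟩

/-- a dual path of `opB` is a dual path of `z` off the box -/
theorem oc_opB {z : Cf} {x : P2} {s : ℤ} {S : Set P2} {f g : P2} (h : OC (dual (opB z x s)) S f g)
    (hf : s ≤ sd x f) : OC (dual z) (S ∩ {u | s ≤ sd x u}) f g := by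
  refine ⟨⟨h.1, hf⟩, rtg_congr ?_ h.2⟩
  intro a b hab
  obtain ⟨e, he, hh⟩ := ostep_dual hab
  obtain ⟨h1, h2⟩ := opB_false he
  have h3 := face_far h2
  refine dual_ostep h1 hh ⟨hab.2.1, ?_⟩ ⟨hab.2.2, ?_⟩
  · rcases hh with ⟨rfl, _⟩ | ⟨rfl, _⟩
    · exact h3.1
    · exact h3.2
  · rcases hh with ⟨_, rfl⟩ | ⟨_, rfl⟩
    · exact h3.2
    · exact h3.1

/-- **A dual arm can be pushed off the box around a boundary vertex.**  `G` : a set of boundary faces which
contains every face with a closed edge on the boundary (for instance all boundary faces). -/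
theorem off_disc {z : Cf} {x f g : P2} {s c : ℤ} (hs : 1 ≤ s) (hsc : s ≤ c)
    (hxB : x ∈ Rect x0 x1 y0 y1) (hbx : BdV x0 x1 y0 y1 x) (hfx : c < sd x f)
    (hG : Gd z (Rect x0 x1 y0 y1) x s c) {G : Set P2}
    (hGb : ∀ e a b, FF e a b → a ∈ Rect x0 (x1 - 1) y0 (y1 - 1) → b ∉ Rect x0 (x1 - 1) y0 (y1 - 1) →
      z e = false → a ∈ G)
    (hg : g ∈ G) (h : OC (dual z) (Rect x0 (x1 - 1) y0 (y1 - 1)) f g) :
    ∃ f' ∈ G, OC (dual z) (Rect x0 (x1 - 1) y0 (y1 - 1) ∩ {u | s ≤ sd x u}) f f' := by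
  classical
  by_cases hK : ∃ f' ∈ G, OC (dual (opB z x s)) (Rect x0 (x1 - 1) y0 (y1 - 1)) f f'
  · obtain ⟨f', hf', h'⟩ := hK
    exact ⟨f', hf', oc_opB h' (by omega)⟩
  exfalso
  push Not at hK
  set F : P2 → ZMod 2 := fun u => ind (OC (dual (opB z x s)) (Rect x0 (x1 - 1) y0 (y1 - 1)) f u) with hFd
  have key : ∀ e a b, FF e a b → OC (dual (opB z x s)) (Rect x0 (x1 - 1) y0 (y1 - 1)) f a →
      ¬ OC (dual (opB z x s)) (Rect x0 (x1 - 1) y0 (y1 - 1)) f b →
      InE (Rect x0 x1 y0 y1) e ∧ (z e = true ∨ NB x s e) := by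
    intro e a b hab ha hb
    have haR := ha.right
    refine ⟨ri_inE (by rcases hab with ⟨rfl, _⟩ | ⟨rfl, _⟩ <;> simp [haR]), ?_⟩
    by_cases hbR : b ∈ Rect x0 (x1 - 1) y0 (y1 - 1)
    · rw [← opB_true]
      by_contra h0
      exact hb (oc_snoc ha (dual_ostep (by simpa using h0) hab haR hbR))
    · left
      by_contra h0
      exact hK a (hGb e a b hab haR hbR (by simpa using h0)) ha
  have hF : ∀ e, F (fA e) + F (fB e) ≠ 0 → InE (Rect x0 x1 y0 y1) e ∧ (z e = true ∨ NB x s e) := by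
    intro e he
    rcases ind_ne he with ⟨h1, h2⟩ | ⟨h1, h2⟩
    · exact key e _ _ (Or.inl ⟨rfl, rfl⟩) h1 h2
    · exact key e _ _ (Or.inr ⟨rfl, rfl⟩) h1 h2
  obtain ⟨k, hk1, hk2⟩ := recontour rect_fin (by omega) hsc hG hF
  obtain ⟨o, ho, hko⟩ := outer_zero hs hxB hbx (fun e he => (hk1 e he).1) hk2
    (fun u hu => ind_false fun h' => hu h'.right)
  have hkH : ∀ u ∈ Hl x s, k u = 0 := by
    intro u hu
    rw [← hko]
    refine hull_const (s := s) ?_ hu ho
    intro e he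
    by_contra h0
    have := hk1 e h0
    omega
  have hkf : k f = 1 := by
    rw [hk2 f (not_mem_Hl hfx)]
    exact ind_true (OC.refl h.1)
  obtain ⟨a, b, _, ha, hb, hab⟩ := first_exit
    (D := fun u => OC (dual (opB z x s)) (Rect x0 (x1 - 1) y0 (y1 - 1)) f u) h.2 (OC.refl h.1) (hK g hg)
  obtain ⟨e, he, hh⟩ := ostep_dual hab
  have hka : k a = 1 := by
    rw [← hkf]
    refine (oc_const (z := opB z x s) ?_ ha).symm
    intro e' h0
    rw [opB_true]
    exact Or.inl (hk1 e' h0).2.1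
  have hkb : k b = 1 := by
    rw [← hka]
    refine (oc_const (z := z) (S := Rect x0 (x1 - 1) y0 (y1 - 1)) (fun e' h0 => (hk1 e' h0).2.1) ?_).symm
    exact ⟨hab.2.1, .single hab⟩
  have hNB : NB x s e := by
    by_contra h0
    apply hb
    refine oc_snoc ha (dual_ostep ?_ hh hab.2.1 hab.2.2)
    by_contra h1
    rcases opB_true.1 (by simpa using h1) with h2 | h2
    · rw [he] at h2; exact absurd h2 (by simp)
    · exact h0 h2
  rcases nb_face hNB with h1 | h1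
  · rcases hh with ⟨rfl, _⟩ | ⟨_, rfl⟩
    · rw [hkH _ h1] at hka; exact absurd hka (by decide)
    · rw [hkH _ h1] at hkb; exact absurd hkb (by decide)
  · rcases hh with ⟨_, rfl⟩ | ⟨rfl, _⟩
    · rw [hkH _ h1] at hkb; exact absurd hkb (by decide)
    · rw [hkH _ h1] at hka; exact absurd hka (by decide)

/-- **Deterministic core of the separation of two arms.** -/
theorem core2 {z : Cf} {v f x g : P2} (hxB : x ∈ Rect x0 x1 y0 y1) (hbx : BdV x0 x1 y0 y1 x)
    (h1 : OC z (Rect x0 x1 y0 y1) v x)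
    (hg : BdV x0 (x1 - 1) y0 (y1 - 1) g) (h2 : OC (dual z) (Rect x0 (x1 - 1) y0 (y1 - 1)) f g)
    {t r s c : ℤ} (ht : 0 ≤ t) (htr : t ≤ r) (hrs : r + 1 ≤ s) (hsc : s ≤ c)
    (hfx : c < sd x f) (hG : Gd z (Rect x0 x1 y0 y1) x s c)
    (deep : ∀ w ∈ Rect x0 x1 y0 y1, BdV x0 x1 y0 y1 w → r ≤ sd w v)
    (hG' : ∀ w ∈ Rect x0 x1 y0 y1, BdV x0 x1 y0 y1 w → Gd z (Rect x0 x1 y0 y1) w t r) :
    ∃ f' w', f' ∈ Rect x0 (x1 - 1) y0 (y1 - 1) ∧ BdV x0 (x1 - 1) y0 (y1 - 1) f' ∧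
      w' ∈ Rect x0 x1 y0 y1 ∧ BdV x0 x1 y0 y1 w' ∧ sd f' w' ≤ 1 ∧ s ≤ sd x f' ∧
      OC (dual z) (Rect x0 (x1 - 1) y0 (y1 - 1) ∩ {u | s ≤ sd x u}) f f' ∧
      OC z (Rect x0 x1 y0 y1 ∩ {u | t ≤ sd w' u}) v x := by
  have hfR := h2.1
  have hxy : x0 < x1 ∧ y0 < y1 := by
    rw [mem_rect] at hfR; omega
  obtain ⟨f', hf', h3⟩ := off_disc (by omega) hsc hxB hbx hfx hG
    (G := {u | BdV x0 (x1 - 1) y0 (y1 - 1) u})
    (fun e a b hab ha hb _ => bd_face (g := b) hab ha hb) hg h2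
  have hf'R := h3.right.1
  obtain ⟨w', hw', hbw', hfw'⟩ := bd_near hxy.1 hxy.2 hf'R hf'
  have hxf' : s ≤ sd x f' := h3.right.2
  refine ⟨f', w', hf'R, hf', hw', hbw', hfw', hxf', h3, ?_⟩
  refine reroute htr (hG' w' hw' hbw') h1 (deep w' hw' hbw') ?_
  have h4 := Kd458.sd_tri x w' f'
  rw [Kd458.sd_symm x w', Kd458.sd_symm w' f'] at h4
  omega

/-! ### arms in the complement of a box -/

/-- next to the hole: face outside the hull of the box of radius `ρ` around `c0`, sharing an edge with it -/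
def Nxt (c0 : P2) (ρ : ℤ) (f : P2) : Prop := f ∉ Hl c0 ρ ∧ ∃ e b, FF e f b ∧ b ∈ Hl c0 ρ

/-- next to an adjacent face there is a vertex of the sphere -/
theorem Nxt.near {c0 f : P2} {ρ : ℤ} (h : Nxt c0 ρ f) : ∃ w, sd c0 w = ρ ∧ sd f w ≤ 1 := by
  obtain ⟨h1, e, b, h2, h3⟩ := h
  have h4 : NB c0 ρ e := by
    rcases h2 with ⟨_, rfl⟩ | ⟨_, rfl⟩
    · exact hl_nb (Or.inr h3)
    · exact hl_nb (Or.inl h3)
  have h5 : ρ ≤ sd c0 (src e) := by
    by_contra h6
    have h7 := hl_of_lt (x := c0) (s := ρ) (e := e) (Or.inl (by omega))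
    rcases h2 with ⟨rfl, _⟩ | ⟨rfl, _⟩
    · exact h1 h7.1
    · exact h1 h7.2
  refine ⟨src e, le_antisymm h4.1 h5, ?_⟩
  obtain ⟨⟨i, j⟩, c⟩ := e
  rw [sd_le]
  rcases h2 with ⟨rfl, _⟩ | ⟨rfl, _⟩ <;> cases c <;> simp only [src_mk, fA_mk, fB_h, fB_v] <;> omega

/-- **A dual arm in the complement of a box can be pushed off a small box around a vertex of the sphere.**
`G` : outer end faces, `P` : inner end faces (each contains the faces with a closed edge to the other side). -/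
theorem off_hole {z : Cf} {c0 x f g : P2} {ρ s c : ℤ} (hs : 1 ≤ s) (hsc : s ≤ c) (hcρ : c < ρ)
    (hx : sd c0 x = ρ) (hole : Hl c0 ρ ⊆ Rect x0 (x1 - 1) y0 (y1 - 1))
    (hG : Gd z (Rect x0 x1 y0 y1 ∩ {v | ρ ≤ sd c0 v}) x s c) {G P : Set P2}
    (hGx : ∀ u ∈ G, u ∈ Rect x0 (x1 - 1) y0 (y1 - 1) ∧ u ∉ Hl x c ∧ u ∉ Hl c0 ρ)
    (hGb : ∀ e a b, FF e a b → a ∈ Rect x0 (x1 - 1) y0 (y1 - 1) → b ∉ Rect x0 (x1 - 1) y0 (y1 - 1) →
      z e = false → a ∈ G)
    (hPb : ∀ e a b, FF e a b → a ∉ Hl c0 ρ → b ∈ Hl c0 ρ → z e = false → a ∈ P)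
    (hg : g ∈ G) (hf : f ∈ P) (h : OC (dual z) (Rect x0 (x1 - 1) y0 (y1 - 1) \ Hl c0 ρ) f g) :
    ∃ f' ∈ P, ∃ g' ∈ G,
      OC (dual z) ((Rect x0 (x1 - 1) y0 (y1 - 1) \ Hl c0 ρ) ∩ {u | s ≤ sd x u}) f' g' := by
  classical
  set FS := Rect x0 (x1 - 1) y0 (y1 - 1) \ Hl c0 ρ with hFS
  set S := Rect x0 x1 y0 y1 ∩ {v | ρ ≤ sd c0 v} with hS
  by_cases hK : ∃ f' ∈ P, ∃ g' ∈ G, OC (dual (opB z x s)) FS g' f'
  · obtain ⟨f', hf', g', hg', h'⟩ := hK
    exact ⟨f', hf', g', hg', (oc_opB h' (hsc.trans (sd_of_not_Hl (hGx g' hg').2.1))).symm⟩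
  exfalso
  push Not at hK
  set K : P2 → Prop := fun u => u ∉ Rect x0 (x1 - 1) y0 (y1 - 1) ∨ ∃ g' ∈ G, OC (dual (opB z x s)) FS g' u
    with hKd
  set F : P2 → ZMod 2 := fun u => ind (K u) with hFd
  have hlow : ∀ (e : Edge) (a b : P2), FF e a b → a ∉ Hl c0 ρ → ρ ≤ sd c0 (src e) ∧ ρ ≤ sd c0 (tgt e) := by
    intro e a b hab ha
    by_contra h0
    have h1 := hl_of_lt (x := c0) (s := ρ) (e := e) (by omega)
    rcases hab with ⟨rfl, _⟩ | ⟨rfl, _⟩
    · exact ha h1.1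
    · exact ha h1.2
  have key : ∀ e a b, FF e a b → K a → ¬ K b → InE S e ∧ (z e = true ∨ NB x s e) := by
    intro e a b hab ha hb
    have hbR : b ∈ Rect x0 (x1 - 1) y0 (y1 - 1) := by
      by_contra h0
      exact hb (Or.inl h0)
    have hE : InE (Rect x0 x1 y0 y1) e :=
      ri_inE (by rcases hab with ⟨_, rfl⟩ | ⟨_, rfl⟩ <;> simp [hbR])
    by_cases haR : a ∈ Rect x0 (x1 - 1) y0 (y1 - 1)
    · obtain ⟨g', hg', haK⟩ := ha.resolve_left (not_not.2 haR)
      have haH : a ∉ Hl c0 ρ := haK.right.2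
      have hlo := hlow e a b hab haH
      refine ⟨⟨⟨hE.1, hlo.1⟩, hE.2, hlo.2⟩, ?_⟩
      by_cases hbH : b ∈ Hl c0 ρ
      · left
        by_contra h0
        exact hK a (hPb e a b hab haH hbH (by simpa using h0)) g' hg' haK
      · rw [← opB_true]
        by_contra h0
        exact hb (Or.inr ⟨g', hg', oc_snoc haK (dual_ostep (by simpa using h0) hab ⟨haR, haH⟩ ⟨hbR, hbH⟩)⟩)
    · have h4 := hlow e a b hab (fun h => haR (hole h))
      refine ⟨⟨⟨hE.1, h4.1⟩, hE.2, h4.2⟩, ?_⟩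
      left
      by_contra h0
      have hbG := hGb e b a hab.symm hbR haR (by simpa using h0)
      exact hb (Or.inr ⟨b, hbG, OC.refl ⟨hbR, (hGx b hbG).2.2⟩⟩)
  have hF : ∀ e, F (fA e) + F (fB e) ≠ 0 → InE S e ∧ (z e = true ∨ NB x s e) := by
    intro e he
    rcases ind_ne he with ⟨h1, h2⟩ | ⟨h1, h2⟩
    · exact key e _ _ (Or.inl ⟨rfl, rfl⟩) h1 h2
    · exact key e _ _ (Or.inr ⟨rfl, rfl⟩) h1 h2
  obtain ⟨k, hk1, hk2⟩ := recontour (rect_fin.subset Set.inter_subset_left) (by omega) hsc hG hF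
  have hkH : ∀ u ∈ Hl x s, ∀ o ∈ Hl x s, k u = k o := by
    intro u hu o ho
    refine hull_const (s := s) ?_ hu ho
    intro e he
    by_contra h0
    have := hk1 e h0
    omega
  have hkC : ∀ u ∈ Hl c0 ρ, k u = 0 := by
    have hc0 : c0 ∈ Hl c0 ρ := by
      rw [mem_Hl]; omega
    intro u hu
    have h1 : k u = k c0 := by
      refine hull_const (s := ρ) ?_ hu hc0
      intro e he
      by_contra h0
      have h2 := (hk1 e h0).1
      have h3 := h2.1.2
      have h4 := h2.2.2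
      simp only [Set.mem_ofPred_eq] at h3 h4
      omega
    rw [h1, hk2 c0 (not_mem_Hl (by rw [Kd458.sd_symm, hx]; exact hcρ))]
    apply ind_false
    rintro (h2 | ⟨g', _, h2⟩)
    · exact h2 (hole hc0)
    · exact h2.right.2 hc0
  have hxo : ∃ o, o ∈ Hl x s ∧ o ∈ Hl c0 ρ := by
    have h1 : sd c0 x ≤ ρ := hx.le
    rw [sd_le] at h1
    refine ⟨(if x.1 = c0.1 + ρ then x.1 - 1 else x.1, if x.2 = c0.2 + ρ then x.2 - 1 else x.2), ?_, ?_⟩ <;>
      rw [mem_Hl] <;> simp only <;> split_ifs <;> omega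
  obtain ⟨o, ho1, ho2⟩ := hxo
  have hk0 : ∀ u ∈ Hl x s, k u = 0 := fun u hu => (hkH u hu o ho1).trans (hkC o ho2)
  have hkG : ∀ u, (∃ g' ∈ G, OC (dual (opB z x s)) FS g' u) → k u = 1 := by
    rintro u ⟨g', hg', h1⟩
    have h2 : k g' = k u := oc_const (z := opB z x s) (fun e' h0 => by
      rw [opB_true]; exact Or.inl (hk1 e' h0).2.1) h1
    rw [← h2, hk2 g' (hGx g' hg').2.1]
    exact ind_true (Or.inr ⟨g', hg', OC.refl h1.1⟩)
  have hgK : ∃ g' ∈ G, OC (dual (opB z x s)) FS g' g := ⟨g, hg, OC.refl h.right⟩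
  have hfK : ¬ ∃ g' ∈ G, OC (dual (opB z x s)) FS g' f := by
    rintro ⟨g', hg', h1⟩
    exact hK f hf g' hg' h1
  obtain ⟨a, b, _, ha, hb, hab⟩ := first_exit
    (D := fun u => ∃ g' ∈ G, OC (dual (opB z x s)) FS g' u) h.symm.2 hgK hfK
  obtain ⟨e, he, hh⟩ := ostep_dual hab
  have hka : k a = 1 := hkG a ha
  have hkb : k b = 1 := by
    rw [← hka]
    exact (oc_const (z := z) (S := FS) (fun e' h0 => (hk1 e' h0).2.1) ⟨hab.2.1, .single hab⟩).symm
  have hNB : NB x s e := by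
    by_contra h0
    apply hb
    obtain ⟨g', hg', ha'⟩ := ha
    refine ⟨g', hg', oc_snoc ha' (dual_ostep ?_ hh hab.2.1 hab.2.2)⟩
    by_contra h1
    rcases opB_true.1 (by simpa using h1) with h2 | h2
    · rw [he] at h2; exact absurd h2 (by simp)
    · exact h0 h2
  rcases nb_face hNB with h1 | h1
  · rcases hh with ⟨rfl, _⟩ | ⟨_, rfl⟩
    · rw [hk0 _ h1] at hka; exact absurd hka (by decide)
    · rw [hk0 _ h1] at hkb; exact absurd hkb (by decide)
  · rcases hh with ⟨_, rfl⟩ | ⟨rfl, _⟩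
    · rw [hk0 _ h1] at hkb; exact absurd hkb (by decide)
    · rw [hk0 _ h1] at hka; exact absurd hka (by decide)

/-- **Two arms in the complement of a box** (landing at the box): separated inner landing points. -/
theorem core2_hole {z : Cf} {c0 x p f g : P2} {ρ t r s c : ℤ} (ht : 0 ≤ t) (htr : t ≤ r) (hrs : r + 1 ≤ s)
    (hsc : s ≤ c) (hcρ : c < ρ)
    (b1 : x0 < c0.1 - ρ - c) (b2 : c0.1 + ρ + c < x1) (b3 : y0 < c0.2 - ρ - c) (b4 : c0.2 + ρ + c < y1)
    (hx : sd c0 x = ρ) (h1 : OC z (Rect x0 x1 y0 y1 ∩ {v | ρ ≤ sd c0 v}) x p) (hp : ρ + r ≤ sd c0 p)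
    (hf : Nxt c0 ρ f) (hg : BdV x0 (x1 - 1) y0 (y1 - 1) g)
    (h2 : OC (dual z) (Rect x0 (x1 - 1) y0 (y1 - 1) \ Hl c0 ρ) f g)
    (hG : Gd z (Rect x0 x1 y0 y1 ∩ {v | ρ ≤ sd c0 v}) x s c)
    (hG' : ∀ w, sd c0 w = ρ → Gd z (Rect x0 x1 y0 y1 ∩ {v | ρ ≤ sd c0 v}) w t r) :
    ∃ f' g' w', Nxt c0 ρ f' ∧ BdV x0 (x1 - 1) y0 (y1 - 1) g' ∧ sd c0 w' = ρ ∧ sd f' w' ≤ 1 ∧
      s ≤ sd x f' ∧
      OC (dual z) ((Rect x0 (x1 - 1) y0 (y1 - 1) \ Hl c0 ρ) ∩ {u | s ≤ sd x u}) f' g' ∧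
      OC z ((Rect x0 x1 y0 y1 ∩ {v | ρ ≤ sd c0 v}) ∩ {u | t ≤ sd w' u}) x p := by
  have hsx : sd c0 x ≤ ρ := hx.le
  rw [sd_le] at hsx
  have hnot : ∀ u, BdV x0 (x1 - 1) y0 (y1 - 1) u → u ∉ Hl x c ∧ u ∉ Hl c0 ρ := by
    intro u hu
    rw [mem_Hl, mem_Hl]
    unfold BdV at hu
    constructor
    · rintro ⟨h3, h4, h5, h6⟩
      rcases hu with h | h | h | h <;> omega
    · rintro ⟨h3, h4, h5, h6⟩
      rcases hu with h | h | h | h <;> omega
  obtain ⟨f', hf', g', hg', h3⟩ := off_hole (G := {u | u ∈ Rect x0 (x1 - 1) y0 (y1 - 1) ∧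
      BdV x0 (x1 - 1) y0 (y1 - 1) u}) (P := {u | Nxt c0 ρ u}) (by omega) hsc hcρ hx (by
      intro u hu
      rw [mem_Hl] at hu
      rw [mem_rect]
      omega) hG (fun u hu => ⟨hu.1, (hnot u hu.2).1, (hnot u hu.2).2⟩)
    (fun e a b hab ha hb _ => ⟨ha, bd_face (g := b) hab ha hb⟩)
    (fun e a b hab ha hb _ => ⟨ha, e, b, hab, hb⟩) ⟨h2.right.1, hg⟩ hf h2
  obtain ⟨w', hw', hfw'⟩ := hf'.near
  have hxf' : s ≤ sd x f' := h3.left.2
  refine ⟨f', g', w', hf', hg'.2, hw', hfw', hxf', h3, ?_⟩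
  refine reroute htr (hG' w' hw') h1 ?_ ?_
  · have h4 := Kd458.sd_tri x w' f'
    rw [Kd458.sd_symm x w', Kd458.sd_symm w' f'] at h4
    omega
  · have h4 := Kd458.sd_tri c0 w' p
    omega

end rect

end Crest.Agent.R158.Ce679
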