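import Mathlib
import Crest.Agent.R158.Pv1_470

/-!
R158 (helper290), part 1: weak limits of bounded lattice functions whose discrete contour sums vanish
are holomorphic.  No continuity of the lattice functions is used.
-/

set_option autoImplicit false
open Complex MeasureTheory Metric Set Topology Filter
open scoped Interval

namespace Crest.Agent.R158.Wl290

open Crest.Agent.R158.Pv470

/-- discrete contour sum: horizontal increments minus `s` times vertical increments -/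
noncomputable def csum (s : ℂ) (H : ℤ → ℤ → ℂ) (i1 i2 j1 j2 : ℤ) : ℂ :=
  ∑ i ∈ Finset.Ico i1 i2, (H i j2 - H i j1) - s * ∑ j ∈ Finset.Ico j1 j2, (H i2 j - H i1 j)

theorem csum_swap {s : ℂ} (hs : s ≠ 0) (H : ℤ → ℤ → ℂ) (i1 i2 j1 j2 : ℤ) :
    csum s⁻¹ (fun i j => H j i) j1 j2 i1 i2 = - s⁻¹ * csum s H i1 i2 j1 j2 := by
  unfold csum
  field_simp
  ring

variable {ι : Type*}

/-- contour sums vanish, uniformly on integer rectangles inside `[a,b] × [c,e]` -/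
def CSr (l : Filter ι) (s : ℂ) (d : ι → ℝ) (H : ι → ℤ → ℤ → ℂ) (a b c e : ℝ) : Prop :=
  ∀ ε > 0, ∀ᶠ n in l, ∀ i1 i2 j1 j2 : ℤ, i1 ≤ i2 → j1 ≤ j2 →
    a ≤ d n * i1 → d n * i2 ≤ b → c ≤ d n * j1 → d n * j2 ≤ e →
      d n * ‖csum s (H n) i1 i2 j1 j2‖ ≤ ε

theorem CSr.swap {l : Filter ι} {s : ℂ} (hs : ‖s‖ = 1) {d : ι → ℝ} {H : ι → ℤ → ℤ → ℂ}
    {a b c e : ℝ} (h : CSr l s d H a b c e) :
    CSr l s⁻¹ d (fun n i j => H n j i) c e a b := by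
  intro ε hε
  filter_upwards [h ε hε] with n hn i1 i2 j1 j2 hi hj h1 h2 h3 h4
  have hs0 : s ≠ 0 := by
    intro h0; rw [h0] at hs; simp at hs
  rw [csum_swap hs0]
  have : ‖- s⁻¹ * csum s (H n) j1 j2 i1 i2‖ = ‖csum s (H n) j1 j2 i1 i2‖ := by
    rw [norm_mul, norm_neg, norm_inv, hs]; simp
  rw [this]
  exact hn _ _ _ _ hj hi h3 h4 h1 h2

theorem CSr.mono {l l' : Filter ι} (hl : l' ≤ l) {s : ℂ} {d : ι → ℝ} {H : ι → ℤ → ℤ → ℂ}
    {a b c e a' b' c' e' : ℝ} (h : CSr l s d H a b c e) (ha : a ≤ a') (hb : b' ≤ b) (hc : c ≤ c')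
    (he : e' ≤ e) : CSr l' s d H a' b' c' e' := by
  intro ε hε
  filter_upwards [hl (h ε hε)] with n hn i1 i2 j1 j2 hi hj h1 h2 h3 h4
  exact hn _ _ _ _ hi hj (ha.trans h1) (h2.trans hb) (hc.trans h3) (h4.trans he)

/-- row sums -/
noncomputable def row (d : ℝ) (H : ℤ → ℤ → ℂ) (i1 i2 j : ℤ) : ℂ :=
  (d : ℂ) * ∑ i ∈ Finset.Ico i1 i2, H i j

theorem norm_sum_Ico_le {f : ℤ → ℂ} (hf : ∀ i, ‖f i‖ ≤ 1) {i1 i2 : ℤ} (h : i1 ≤ i2) :
    ‖∑ i ∈ Finset.Ico i1 i2, f i‖ ≤ (i2 - i1 : ℝ) := by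
  calc ‖∑ i ∈ Finset.Ico i1 i2, f i‖ ≤ ∑ i ∈ Finset.Ico i1 i2, ‖f i‖ := norm_sum_le _ _
    _ ≤ ∑ _i ∈ Finset.Ico i1 i2, (1:ℝ) := Finset.sum_le_sum fun i _ => hf i
    _ = (i2 - i1 : ℝ) := by
        rw [Finset.sum_const, Int.card_Ico, nsmul_eq_mul, mul_one]
        have : ((i2 - i1).toNat : ℤ) = i2 - i1 := Int.toNat_of_nonneg (by omega)
        have h2 : (((i2 - i1).toNat : ℤ) : ℝ) = ((i2 - i1 : ℤ) : ℝ) := by rw [this]
        push_cast at h2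
        exact_mod_cast h2

theorem row_norm {d : ℝ} (hd : 0 ≤ d) {H : ℤ → ℤ → ℂ} (hH : ∀ i j, ‖H i j‖ ≤ 1) {i1 i2 : ℤ}
    (h : i1 ≤ i2) (j : ℤ) : ‖row d H i1 i2 j‖ ≤ d * (i2 - i1) := by
  unfold row
  rw [norm_mul]
  have : ‖(d:ℂ)‖ = d := by simp [abs_of_nonneg hd]
  rw [this]
  exact mul_le_mul_of_nonneg_left (norm_sum_Ico_le (fun i => hH i j) h) hd

theorem row_diff {s : ℂ} (hs : ‖s‖ = 1) {d : ℝ} (hd : 0 ≤ d) {H : ℤ → ℤ → ℂ}
    (hH : ∀ i j, ‖H i j‖ ≤ 1) {i1 i2 j1 j2 : ℤ} (hj : j1 ≤ j2) :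
    ‖row d H i1 i2 j2 - row d H i1 i2 j1‖ ≤ d * ‖csum s H i1 i2 j1 j2‖ + 2 * (d * (j2 - j1)) := by
  have e1 : row d H i1 i2 j2 - row d H i1 i2 j1 =
      (d:ℂ) * csum s H i1 i2 j1 j2 + (d:ℂ) * (s * ∑ j ∈ Finset.Ico j1 j2, (H i2 j - H i1 j)) := by
    unfold row csum
    rw [Finset.sum_sub_distrib]
    ring
  have hdn : ‖(d:ℂ)‖ = d := by simp [abs_of_nonneg hd]
  rw [e1]
  refine (norm_add_le _ _).trans ?_
  rw [norm_mul, norm_mul, norm_mul, hs, hdn, one_mul]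
  have h2 : ‖∑ j ∈ Finset.Ico j1 j2, (H i2 j - H i1 j)‖ ≤ 2 * (j2 - j1 : ℝ) := by
    rw [Finset.sum_sub_distrib]
    refine (norm_sub_le _ _).trans ?_
    have := norm_sum_Ico_le (fun j => hH i2 j) hj
    have := norm_sum_Ico_le (fun j => hH i1 j) hj
    linarith
  have := mul_le_mul_of_nonneg_left h2 hd
  linarith

/-- floor index -/
noncomputable def fl (d x : ℝ) : ℤ := ⌊x / d⌋

theorem fl_le {d x : ℝ} (hd : 0 < d) : d * (fl d x) ≤ x := by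
  have := Int.floor_le (x / d)
  unfold fl
  calc d * (⌊x / d⌋ : ℝ) ≤ d * (x / d) := mul_le_mul_of_nonneg_left this hd.le
    _ = x := by field_simp

theorem lt_fl {d x : ℝ} (hd : 0 < d) : x - d < d * (fl d x) := by
  have := Int.sub_one_lt_floor (x / d)
  unfold fl
  calc x - d = d * (x / d - 1) := by field_simp
    _ < d * (⌊x / d⌋ : ℝ) := mul_lt_mul_of_pos_left this hd

theorem fl_mono {d x y : ℝ} (hd : 0 < d) (h : x ≤ y) : fl d x ≤ fl d y := by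
  unfold fl
  exact Int.floor_le_floor (by gcongr)

theorem fl_sub_le {d x y : ℝ} (hd : 0 < d) : d * ((fl d y : ℝ) - fl d x) ≤ y - x + d := by
  have := fl_le (x := y) hd
  have := lt_fl (x := x) hd
  linarith

theorem le_fl_sub {d x y : ℝ} (hd : 0 < d) : y - x - d ≤ d * ((fl d y : ℝ) - fl d x) := by
  have := fl_le (x := x) hd
  have := lt_fl (x := y) hd
  linarith

noncomputable def An (d : ℝ) (H : ℤ → ℤ → ℂ) (x1 x2 y : ℝ) : ℂ := row d H (fl d x1) (fl d x2) (fl d y)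

noncomputable def Sn (d : ℝ) (H : ℤ → ℤ → ℂ) (x1 x2 y1 y2 : ℝ) : ℂ :=
  (d:ℂ) * ∑ j ∈ Finset.Ico (fl d y1) (fl d y2), row d H (fl d x1) (fl d x2) j

theorem Sn_swap (d : ℝ) (H : ℤ → ℤ → ℂ) (x1 x2 y1 y2 : ℝ) :
    Sn d (fun i j => H j i) y1 y2 x1 x2 = Sn d H x1 x2 y1 y2 := by
  unfold Sn row
  simp only [Finset.mul_sum]
  rw [Finset.sum_comm]

theorem An_norm {d : ℝ} (hd : 0 < d) {H : ℤ → ℤ → ℂ} (hH : ∀ i j, ‖H i j‖ ≤ 1) {x1 x2 : ℝ}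
    (h : x1 ≤ x2) (y : ℝ) : ‖An d H x1 x2 y‖ ≤ x2 - x1 + d :=
  (row_norm hd.le hH (fl_mono hd h) _).trans (fl_sub_le hd)

theorem sum_Ico_add (f : ℤ → ℂ) {a b c : ℤ} (h1 : a ≤ b) (h2 : b ≤ c) :
    ∑ i ∈ Finset.Ico a b, f i + ∑ i ∈ Finset.Ico b c, f i = ∑ i ∈ Finset.Ico a c, f i := by
  rw [← Finset.Ico_union_Ico_eq_Ico h1 h2, Finset.sum_union (Finset.Ico_disjoint_Ico_consecutive a b c)]

theorem An_add {d : ℝ} (hd : 0 < d) (H : ℤ → ℤ → ℂ) {x1 x2 x3 : ℝ} (h1 : x1 ≤ x2) (h2 : x2 ≤ x3)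
    (y : ℝ) : An d H x1 x2 y + An d H x2 x3 y = An d H x1 x3 y := by
  unfold An row
  rw [← mul_add, sum_Ico_add _ (fl_mono hd h1) (fl_mono hd h2)]

theorem Sn_add {d : ℝ} (hd : 0 < d) (H : ℤ → ℤ → ℂ) (x1 x2 : ℝ) {y1 y2 y3 : ℝ} (h1 : y1 ≤ y2)
    (h2 : y2 ≤ y3) : Sn d H x1 x2 y1 y2 + Sn d H x1 x2 y2 y3 = Sn d H x1 x2 y1 y3 := by
  unfold Sn
  rw [← mul_add, sum_Ico_add _ (fl_mono hd h1) (fl_mono hd h2)]

/-- block estimate -/
theorem Sn_block {s : ℂ} (hs : ‖s‖ = 1) {d ε : ℝ} (hd : 0 < d) {H : ℤ → ℤ → ℂ}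
    (hH : ∀ i j, ‖H i j‖ ≤ 1) {x1 x2 y1 y2 y : ℝ} (hx : x1 ≤ x2) (hy1 : y1 ≤ y) (hy2 : y ≤ y2)
    (hε : ∀ j1 j2 : ℤ, fl d y1 ≤ j1 → j1 ≤ j2 → j2 ≤ fl d y2 →
      d * ‖csum s H (fl d x1) (fl d x2) j1 j2‖ ≤ ε) (hε0 : 0 ≤ ε) :
    ‖Sn d H x1 x2 y1 y2 - ((y2 - y1 : ℝ) : ℂ) * An d H x1 x2 y‖ ≤
      (y2 - y1 + d) * (ε + 2 * (y2 - y1 + d)) + d * (x2 - x1 + d) := by
  have hdn : ‖(d:ℂ)‖ = d := by simp [abs_of_nonneg hd.le]
  set j0 := fl d y with hj0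
  have m1 : fl d y1 ≤ j0 := fl_mono hd hy1
  have m2 : j0 ≤ fl d y2 := fl_mono hd hy2
  have m12 : fl d y1 ≤ fl d y2 := m1.trans m2
  have hlen := fl_sub_le (x := y1) (y := y2) hd
  have hlen' := le_fl_sub (x := y1) (y := y2) hd
  -- row differences
  have hrow : ∀ j ∈ Finset.Ico (fl d y1) (fl d y2),
      ‖row d H (fl d x1) (fl d x2) j - row d H (fl d x1) (fl d x2) j0‖ ≤ ε + 2 * (y2 - y1 + d) := by
    intro j hj
    rw [Finset.mem_Ico] at hj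
    rcases le_total j j0 with h | h
    · rw [norm_sub_rev]
      refine (row_diff hs hd.le hH h).trans ?_
      have a1 := hε j j0 hj.1 h m2
      have a2 : d * ((j0:ℝ) - j) ≤ d * ((fl d y2 : ℝ) - fl d y1) := by
        apply mul_le_mul_of_nonneg_left _ hd.le
        have : (j0:ℝ) ≤ fl d y2 := by exact_mod_cast m2
        have : (fl d y1 : ℝ) ≤ j := by exact_mod_cast hj.1
        linarith
      linarith
    · refine (row_diff hs hd.le hH h).trans ?_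
      have a1 := hε j0 j m1 h hj.2.le
      have a2 : d * ((j:ℝ) - j0) ≤ d * ((fl d y2 : ℝ) - fl d y1) := by
        apply mul_le_mul_of_nonneg_left _ hd.le
        have : (j:ℝ) ≤ fl d y2 := by exact_mod_cast hj.2.le
        have : (fl d y1 : ℝ) ≤ j0 := by exact_mod_cast m1
        linarith
      linarith
  have hcard : ((Finset.Ico (fl d y1) (fl d y2)).card : ℝ) = (fl d y2 : ℝ) - fl d y1 := by
    rw [Int.card_Ico]
    have : ((fl d y2 - fl d y1).toNat : ℤ) = fl d y2 - fl d y1 := Int.toNat_of_nonneg (by omega)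
    have h2 : (((fl d y2 - fl d y1).toNat : ℤ) : ℝ) = ((fl d y2 - fl d y1 : ℤ) : ℝ) := by rw [this]
    push_cast at h2
    exact_mod_cast h2
  have e1 : Sn d H x1 x2 y1 y2 - ((y2 - y1 : ℝ) : ℂ) * An d H x1 x2 y =
      (d:ℂ) * ∑ j ∈ Finset.Ico (fl d y1) (fl d y2),
        (row d H (fl d x1) (fl d x2) j - row d H (fl d x1) (fl d x2) j0) +
      ((d * ((fl d y2 : ℝ) - fl d y1) - (y2 - y1) : ℝ) : ℂ) * An d H x1 x2 y := by
    unfold Sn An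
    rw [Finset.sum_sub_distrib, Finset.sum_const, nsmul_eq_mul]
    have : ((Finset.Ico (fl d y1) (fl d y2)).card : ℂ) = ((fl d y2 : ℝ) - (fl d y1 : ℝ) : ℝ) := by
      exact_mod_cast congrArg (fun t : ℝ => (t:ℂ)) hcard
    rw [this]
    push_cast
    ring
  rw [e1]
  refine (norm_add_le _ _).trans ?_
  rw [norm_mul, norm_mul, hdn]
  have b1 : ‖∑ j ∈ Finset.Ico (fl d y1) (fl d y2),
        (row d H (fl d x1) (fl d x2) j - row d H (fl d x1) (fl d x2) j0)‖ ≤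
      ((fl d y2 : ℝ) - fl d y1) * (ε + 2 * (y2 - y1 + d)) := by
    refine (norm_sum_le _ _).trans ?_
    refine (Finset.sum_le_sum hrow).trans ?_
    rw [Finset.sum_const, nsmul_eq_mul, hcard]
  have hpos : 0 ≤ ε + 2 * (y2 - y1 + d) := by nlinarith
  have b2 : d * ‖∑ j ∈ Finset.Ico (fl d y1) (fl d y2),
        (row d H (fl d x1) (fl d x2) j - row d H (fl d x1) (fl d x2) j0)‖ ≤
      (y2 - y1 + d) * (ε + 2 * (y2 - y1 + d)) := by
    calc _ ≤ d * (((fl d y2 : ℝ) - fl d y1) * (ε + 2 * (y2 - y1 + d))) :=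
          mul_le_mul_of_nonneg_left b1 hd.le
      _ = (d * ((fl d y2 : ℝ) - fl d y1)) * (ε + 2 * (y2 - y1 + d)) := by ring
      _ ≤ _ := mul_le_mul_of_nonneg_right hlen hpos
  have b3 : ‖((d * ((fl d y2 : ℝ) - fl d y1) - (y2 - y1) : ℝ) : ℂ)‖ ≤ d := by
    rw [Complex.norm_real, Real.norm_eq_abs, abs_le]
    constructor <;> linarith
  have b4 := An_norm hd hH hx y
  have b5 := mul_le_mul b3 b4 (norm_nonneg _) hd.le
  linarith

end Crest.Agent.R158.Wl290
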