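import Mathlib
import Crest.Agent.R158.Wl1_290

/-!
# R158, Block CS (helper410), part 2: from slices to `CSr`

* `CSd l s d H a b c e δ` : contour sums with defect `δ`
* `CSd.glue` : vertical gluing, defects add
* `CSd.of_close` : comparison with a function `G` having `CSr`
* `CSr_of_cr` : pointwise relation with error `o(d)` implies `CSr`
* `CSr_of_slices` : 482's slices (every slice has its own comparison function)
* `CSr_of_uniform` : slices of height `h` with error `W h = o(h)`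
* `CSr_of_heights` : slice error `C (h/(h+t))^(1+γ) (h+t)^γ'` at distance `t` from finitely many
  bad heights
-/

set_option autoImplicit false

open Filter Topology Finset

namespace Crest.Agent.R158.Cs410

open Crest.Agent.R158.Wl290

variable {ι : Type*}

/-- contour sums with defect `δ` -/
def CSd (l : Filter ι) (s : ℂ) (d : ι → ℝ) (H : ι → ℤ → ℤ → ℂ) (a b c e δ : ℝ) : Prop :=
  ∀ᶠ n in l, ∀ i1 i2 j1 j2 : ℤ, i1 ≤ i2 → j1 ≤ j2 →
    a ≤ d n * i1 → d n * i2 ≤ b → c ≤ d n * j1 → d n * j2 ≤ e →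
      d n * ‖csum s (H n) i1 i2 j1 j2‖ ≤ δ

theorem CSd.mono {l : Filter ι} {s : ℂ} {d : ι → ℝ} {H : ι → ℤ → ℤ → ℂ}
    {a b c e δ a' b' c' e' δ' : ℝ} (h : CSd l s d H a b c e δ) (ha : a ≤ a') (hb : b' ≤ b)
    (hc : c ≤ c') (he : e' ≤ e) (hδ : δ ≤ δ') : CSd l s d H a' b' c' e' δ' := by
  filter_upwards [h] with n hn i1 i2 j1 j2 hi hj h1 h2 h3 h4
  exact (hn _ _ _ _ hi hj (ha.trans h1) (h2.trans hb) (hc.trans h3) (h4.trans he)).trans hδ

theorem CSr.toCSd {l : Filter ι} {s : ℂ} {d : ι → ℝ} {H : ι → ℤ → ℤ → ℂ}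
    {a b c e : ℝ} (h : CSr l s d H a b c e) {δ : ℝ} (hδ : 0 < δ) : CSd l s d H a b c e δ := h δ hδ

theorem CSr_iff {l : Filter ι} {s : ℂ} {d : ι → ℝ} {H : ι → ℤ → ℤ → ℂ} {a b c e : ℝ} :
    CSr l s d H a b c e ↔ ∀ δ > 0, CSd l s d H a b c e δ := Iff.rfl

theorem csum_split (s : ℂ) (H : ℤ → ℤ → ℂ) (i1 i2 : ℤ) {j1 j2 j3 : ℤ} (h1 : j1 ≤ j2)
    (h2 : j2 ≤ j3) : csum s H i1 i2 j1 j3 = csum s H i1 i2 j1 j2 + csum s H i1 i2 j2 j3 := by
  unfold csum
  have e1 : ∑ j ∈ Finset.Ico j1 j3, (H i2 j - H i1 j) =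
      ∑ j ∈ Finset.Ico j1 j2, (H i2 j - H i1 j) + ∑ j ∈ Finset.Ico j2 j3, (H i2 j - H i1 j) := by
    rw [← Finset.sum_union (Finset.disjoint_left.2 fun x hx hx' => by
      rw [Finset.mem_Ico] at hx hx'; omega), Finset.Ico_union_Ico_eq_Ico h1 h2]
  have e2 : ∑ i ∈ Finset.Ico i1 i2, (H i j3 - H i j1) =
      ∑ i ∈ Finset.Ico i1 i2, (H i j2 - H i j1) + ∑ i ∈ Finset.Ico i1 i2, (H i j3 - H i j2) := by
    rw [← Finset.sum_add_distrib]
    exact Finset.sum_congr rfl fun i _ => by ring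
  rw [e1, e2]
  ring

/-- **gluing**: defects add -/
theorem CSd.glue {l : Filter ι} {s : ℂ} {d : ι → ℝ} (hd : ∀ᶠ n in l, 0 < d n)
    (hd0 : Tendsto d l (𝓝 0)) {H : ι → ℤ → ℤ → ℂ} {a b c m m' e δ1 δ2 : ℝ} (hm : m' < m)
    (h1 : CSd l s d H a b c m δ1) (h2 : CSd l s d H a b m' e δ2) (hδ1 : 0 ≤ δ1) (hδ2 : 0 ≤ δ2) :
    CSd l s d H a b c e (δ1 + δ2) := by
  have hsm : ∀ᶠ n in l, d n < m - m' := hd0.eventually (gt_mem_nhds (sub_pos.2 hm))
  filter_upwards [h1, h2, hd, hsm] with n hn1 hn2 hn hns i1 i2 j1 j2 hi hj g1 g2 g3 g4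
  -- the cutting level
  set k : ℤ := ⌊m / d n⌋ with hk
  have hk1 : d n * (k : ℝ) ≤ m := by
    have := Int.floor_le (m / d n)
    rw [← hk, le_div_iff₀ hn] at this
    linarith
  have hk2 : m' ≤ d n * (k : ℝ) := by
    have := Int.lt_floor_add_one (m / d n)
    rw [← hk, div_lt_iff₀ hn] at this
    nlinarith
  rcases le_total j2 k with h | h
  · have h3 : d n * (j2 : ℝ) ≤ m := by
      have : (j2 : ℝ) ≤ k := by exact_mod_cast h
      nlinarith
    exact (hn1 _ _ _ _ hi hj g1 g2 g3 h3).trans (by linarith)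
  rcases le_total k j1 with h' | h'
  · have h3 : m' ≤ d n * (j1 : ℝ) := by
      have : (k : ℝ) ≤ j1 := by exact_mod_cast h'
      nlinarith
    exact (hn2 _ _ _ _ hi hj g1 g2 h3 g4).trans (by linarith)
  · rw [csum_split s (H n) i1 i2 h' h]
    have h3 := hn1 _ _ _ _ hi h' g1 g2 g3 hk1
    have h4 := hn2 _ _ _ _ hi h g1 g2 hk2 g4
    calc d n * ‖csum s (H n) i1 i2 j1 k + csum s (H n) i1 i2 k j2‖ ≤
        d n * (‖csum s (H n) i1 i2 j1 k‖ + ‖csum s (H n) i1 i2 k j2‖) :=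
          mul_le_mul_of_nonneg_left (norm_add_le _ _) hn.le
      _ ≤ _ := by linarith [mul_add (d n) ‖csum s (H n) i1 i2 j1 k‖ ‖csum s (H n) i1 i2 k j2‖]

theorem csum_sub (s : ℂ) (H G : ℤ → ℤ → ℂ) (i1 i2 j1 j2 : ℤ) :
    csum s H i1 i2 j1 j2 = csum s G i1 i2 j1 j2 + csum s (fun i j => H i j - G i j) i1 i2 j1 j2 := by
  unfold csum
  simp only [Finset.sum_sub_distrib]
  ring

/-- **comparison** on the whole slice -/
theorem CSd.of_close {l : Filter ι} {s : ℂ} (hs : ‖s‖ ≤ 1) {d : ι → ℝ} (hd : ∀ᶠ n in l, 0 < d n)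
    {H G : ι → ℤ → ℤ → ℂ} {a b c e w δ : ℝ} (hw : 0 ≤ w)
    (hG : CSd l s d G a b c e δ)
    (hH : ∀ᶠ n in l, ∀ i j : ℤ, a ≤ d n * i → d n * i ≤ b → c ≤ d n * j → d n * j ≤ e →
      ‖H n i j - G n i j‖ ≤ w) :
    CSd l s d H a b c e (δ + 2 * ((b - a) + (e - c)) * w) := by
  filter_upwards [hG, hH, hd] with n hn1 hn2 hn i1 i2 j1 j2 hi hj g1 g2 g3 g4
  have hib : (i1 : ℝ) ≤ i2 := by exact_mod_cast hi
  have hjb : (j1 : ℝ) ≤ j2 := by exact_mod_cast hj
  rw [csum_sub s (H n) (G n)]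
  have h1 : ‖∑ i ∈ Finset.Ico i1 i2, ((H n i j2 - G n i j2) - (H n i j1 - G n i j1))‖ ≤
      (i2 - i1 : ℝ) * (2 * w) := by
    refine (norm_sum_le _ _).trans ?_
    refine (Finset.sum_le_sum (g := fun _ => 2 * w) fun i hi' => ?_).trans ?_
    · rw [Finset.mem_Ico] at hi'
      have q1 : (i1 : ℝ) ≤ i := by exact_mod_cast hi'.1
      have q2 : (i : ℝ) ≤ i2 := by exact_mod_cast hi'.2.le
      have k1 : a ≤ d n * i := by nlinarith
      have k2 : d n * i ≤ b := by nlinarith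
      refine (norm_sub_le _ _).trans ?_
      have k3 := hn2 i j2 k1 k2 (by nlinarith) g4
      have k4 := hn2 i j1 k1 k2 g3 (by nlinarith)
      linarith
    · rw [Finset.sum_const, Int.card_Ico, nsmul_eq_mul]
      have : (((i2 - i1).toNat : ℕ) : ℝ) = i2 - i1 := by
        have : ((i2 - i1).toNat : ℤ) = i2 - i1 := Int.toNat_of_nonneg (by omega)
        exact_mod_cast this
      rw [this]
  have h2 : ‖∑ j ∈ Finset.Ico j1 j2, ((H n i2 j - G n i2 j) - (H n i1 j - G n i1 j))‖ ≤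
      (j2 - j1 : ℝ) * (2 * w) := by
    refine (norm_sum_le _ _).trans ?_
    refine (Finset.sum_le_sum (g := fun _ => 2 * w) fun j hj' => ?_).trans ?_
    · rw [Finset.mem_Ico] at hj'
      have q1 : (j1 : ℝ) ≤ j := by exact_mod_cast hj'.1
      have q2 : (j : ℝ) ≤ j2 := by exact_mod_cast hj'.2.le
      have k1 : c ≤ d n * j := by nlinarith
      have k2 : d n * j ≤ e := by nlinarith
      refine (norm_sub_le _ _).trans ?_
      have k3 := hn2 i2 j (by nlinarith) g2 k1 k2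
      have k4 := hn2 i1 j g1 (by nlinarith) k1 k2
      linarith
    · rw [Finset.sum_const, Int.card_Ico, nsmul_eq_mul]
      have : (((j2 - j1).toNat : ℕ) : ℝ) = j2 - j1 := by
        have : ((j2 - j1).toNat : ℤ) = j2 - j1 := Int.toNat_of_nonneg (by omega)
        exact_mod_cast this
      rw [this]
  have h3 : ‖csum s (fun i j => H n i j - G n i j) i1 i2 j1 j2‖ ≤
      (i2 - i1 : ℝ) * (2 * w) + (j2 - j1 : ℝ) * (2 * w) := by
    unfold csum
    refine (norm_sub_le _ _).trans (add_le_add h1 ?_)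
    rw [norm_mul]
    have := mul_le_mul hs h2 (norm_nonneg _) zero_le_one
    linarith
  have h4 := hn1 _ _ _ _ hi hj g1 g2 g3 g4
  have h5 : d n * ((i2 - i1 : ℝ) * (2 * w) + (j2 - j1 : ℝ) * (2 * w)) ≤
      2 * ((b - a) + (e - c)) * w := by
    have k1 : d n * (i2 - i1 : ℝ) ≤ b - a := by linarith
    have k2 : d n * (j2 - j1 : ℝ) ≤ e - c := by linarith
    nlinarith
  have h6 := mul_le_mul_of_nonneg_left h3 hn.le
  have h7 := mul_le_mul_of_nonneg_left (norm_add_le (csum s (G n) i1 i2 j1 j2)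
    (csum s (fun i j => H n i j - G n i j) i1 i2 j1 j2)) hn.le
  rw [mul_add] at h7
  linarith

/-- telescoping identity -/
theorem csum_eq_sum (s : ℂ) (H : ℤ → ℤ → ℂ) {i1 i2 j1 j2 : ℤ} (hi : i1 ≤ i2) (hj : j1 ≤ j2) :
    csum s H i1 i2 j1 j2 = ∑ i ∈ Finset.Ico i1 i2, ∑ j ∈ Finset.Ico j1 j2,
      ((H i (j + 1) - H i j) - s * (H (i + 1) j - H i j)) := by
  have tel : ∀ (f : ℤ → ℂ) {a b : ℤ}, a ≤ b → ∑ k ∈ Finset.Ico a b, (f (k + 1) - f k) =
      f b - f a := by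
    intro f a b hab
    obtain ⟨k, rfl⟩ : ∃ k : ℕ, b = a + k := ⟨(b - a).toNat, by omega⟩
    induction k with
    | zero => simp
    | succ k ih =>
      have h1 : Finset.Ico a (a + ((k + 1 : ℕ) : ℤ)) = insert (a + (k : ℤ)) (Finset.Ico a (a + k)) := by
        ext x; simp only [Finset.mem_Ico, Finset.mem_insert]; push_cast; omega
      rw [h1, Finset.sum_insert (by simp), ih (by omega)]
      push_cast
      ring_nf
  have e1 : ∑ i ∈ Finset.Ico i1 i2, (H i j2 - H i j1) =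
      ∑ i ∈ Finset.Ico i1 i2, ∑ j ∈ Finset.Ico j1 j2, (H i (j + 1) - H i j) :=
    Finset.sum_congr rfl fun i _ => (tel (H i) hj).symm
  have e2 : ∑ j ∈ Finset.Ico j1 j2, (H i2 j - H i1 j) =
      ∑ i ∈ Finset.Ico i1 i2, ∑ j ∈ Finset.Ico j1 j2, (H (i + 1) j - H i j) := by
    rw [Finset.sum_comm]
    exact Finset.sum_congr rfl fun j _ => (tel (fun i => H i j) hi).symm
  unfold csum
  rw [e1, e2, Finset.mul_sum, ← Finset.sum_sub_distrib]
  refine Finset.sum_congr rfl fun i _ => ?_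
  rw [Finset.mul_sum, ← Finset.sum_sub_distrib]

/-- **pointwise relation with error `o(d)` implies `CSr`** -/
theorem CSr_of_cr {l : Filter ι} {s : ℂ} {d : ι → ℝ} (hd : ∀ᶠ n in l, 0 < d n)
    {H : ι → ℤ → ℤ → ℂ} {a b c e : ℝ}
    (h : ∀ ε > 0, ∀ᶠ n in l, ∀ i j : ℤ, a ≤ d n * i → d n * (i + 1 : ℤ) ≤ b → c ≤ d n * j →
      d n * (j + 1 : ℤ) ≤ e →
      ‖(H n i (j + 1) - H n i j) - s * (H n (i + 1) j - H n i j)‖ ≤ ε * d n) :
    CSr l s d H a b c e := by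
  intro ε hε
  set A : ℝ := |b - a| * |e - c| + 1 with hA
  have hA0 : 0 < A := by positivity
  filter_upwards [h (ε / A) (by positivity), hd] with n hn hdn i1 i2 j1 j2 hi hj g1 g2 g3 g4
  have hib : (i1 : ℝ) ≤ i2 := by exact_mod_cast hi
  have hjb : (j1 : ℝ) ≤ j2 := by exact_mod_cast hj
  rw [csum_eq_sum s (H n) hi hj]
  have h1 : ‖∑ i ∈ Finset.Ico i1 i2, ∑ j ∈ Finset.Ico j1 j2,
      ((H n i (j + 1) - H n i j) - s * (H n (i + 1) j - H n i j))‖ ≤
      (i2 - i1 : ℝ) * ((j2 - j1 : ℝ) * (ε / A * d n)) := by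
    refine (norm_sum_le _ _).trans ?_
    refine (Finset.sum_le_sum (g := fun _ => (j2 - j1 : ℝ) * (ε / A * d n)) fun i hi' => ?_).trans ?_
    · refine (norm_sum_le _ _).trans ?_
      refine (Finset.sum_le_sum (g := fun _ => ε / A * d n) fun j hj' => ?_).trans ?_
      · rw [Finset.mem_Ico] at hi' hj'
        have q1 : (i1 : ℝ) ≤ i := by exact_mod_cast hi'.1
        have q2 : ((i + 1 : ℤ) : ℝ) ≤ i2 := by exact_mod_cast hi'.2
        have q3 : (j1 : ℝ) ≤ j := by exact_mod_cast hj'.1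
        have q4 : ((j + 1 : ℤ) : ℝ) ≤ j2 := by exact_mod_cast hj'.2
        exact hn i j (by nlinarith) (by nlinarith) (by nlinarith) (by nlinarith)
      · rw [Finset.sum_const, Int.card_Ico, nsmul_eq_mul]
        have : (((j2 - j1).toNat : ℕ) : ℝ) = j2 - j1 := by
          have : ((j2 - j1).toNat : ℤ) = j2 - j1 := Int.toNat_of_nonneg (by omega)
          exact_mod_cast this
        rw [this]
    · rw [Finset.sum_const, Int.card_Ico, nsmul_eq_mul]
      have : (((i2 - i1).toNat : ℕ) : ℝ) = i2 - i1 := by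
        have : ((i2 - i1).toNat : ℤ) = i2 - i1 := Int.toNat_of_nonneg (by omega)
        exact_mod_cast this
      rw [this]
  have k1 : d n * (i2 - i1 : ℝ) ≤ |b - a| := (by linarith : d n * (i2 - i1 : ℝ) ≤ b - a).trans
    (le_abs_self _)
  have k2 : d n * (j2 - j1 : ℝ) ≤ |e - c| := (by linarith : d n * (j2 - j1 : ℝ) ≤ e - c).trans
    (le_abs_self _)
  have k3 : 0 ≤ d n * (i2 - i1 : ℝ) := mul_nonneg hdn.le (by linarith)
  have k4 : 0 ≤ d n * (j2 - j1 : ℝ) := mul_nonneg hdn.le (by linarith)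
  calc d n * _ ≤ d n * ((i2 - i1 : ℝ) * ((j2 - j1 : ℝ) * (ε / A * d n))) :=
        mul_le_mul_of_nonneg_left h1 hdn.le
    _ = (d n * (i2 - i1 : ℝ)) * (d n * (j2 - j1 : ℝ)) * (ε / A) := by ring
    _ ≤ (|b - a| * |e - c|) * (ε / A) :=
        mul_le_mul_of_nonneg_right (mul_le_mul k1 k2 k4 (abs_nonneg _)) (by positivity)
    _ ≤ A * (ε / A) := mul_le_mul_of_nonneg_right (by rw [hA]; linarith) (by positivity)
    _ = ε := by field_simp

/-- **slices**, general form -/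
theorem CSd_of_slices {l : Filter ι} {s : ℂ} (hs : ‖s‖ ≤ 1) {d : ι → ℝ}
    (hd : ∀ᶠ n in l, 0 < d n) (hd0 : Tendsto d l (𝓝 0)) {H : ι → ℤ → ℤ → ℂ} {a b : ℝ}
    (hab : a ≤ b) (u v w : ℕ → ℝ) (K : ℕ) (huv : ∀ k ≤ K, u k ≤ v k)
    (hov : ∀ k < K, u (k + 1) < v k) (hw : ∀ k ≤ K, 0 ≤ w k) {η : ℝ} (hη : 0 < η)
    (hG : ∀ k ≤ K, ∃ G : ι → ℤ → ℤ → ℂ, CSr l s d G a b (u k) (v k) ∧
      ∀ᶠ n in l, ∀ i j : ℤ, a ≤ d n * i → d n * i ≤ b → u k ≤ d n * j → d n * j ≤ v k →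
        ‖H n i j - G n i j‖ ≤ w k) :
    CSd l s d H a b (u 0) (v K)
      (∑ k ∈ range (K + 1), (η + 2 * ((b - a) + (v k - u k)) * w k)) := by
  have hpos : ∀ k ≤ K, 0 ≤ η + 2 * ((b - a) + (v k - u k)) * w k := fun k hk => by
    have := huv k hk
    have := hw k hk
    have : 0 ≤ (b - a) + (v k - u k) := by linarith
    positivity
  have key : ∀ k ≤ K, CSd l s d H a b (u k) (v k) (η + 2 * ((b - a) + (v k - u k)) * w k) := by
    intro k hk
    obtain ⟨G, h1, h2⟩ := hG k hk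
    exact CSd.of_close hs hd (hw k hk) (CSr.toCSd h1 hη) h2
  suffices h : ∀ k ≤ K, CSd l s d H a b (u 0) (v k)
      (∑ i ∈ range (k + 1), (η + 2 * ((b - a) + (v i - u i)) * w i)) from h K le_rfl
  intro k
  induction k with
  | zero => intro _; simpa using key 0 (Nat.zero_le _)
  | succ k ih =>
    intro hk
    rw [Finset.sum_range_succ]
    refine CSd.glue hd hd0 (hov k hk) (ih (by omega)) (key (k + 1) hk) ?_ (hpos _ hk)
    exact Finset.sum_nonneg fun i hi => hpos i (by rw [Finset.mem_range] at hi; omega)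

/-- **slices**: for every `ε` a finite cover with total error `≤ ε` -/
theorem CSr_of_slices {l : Filter ι} {s : ℂ} (hs : ‖s‖ ≤ 1) {d : ι → ℝ}
    (hd : ∀ᶠ n in l, 0 < d n) (hd0 : Tendsto d l (𝓝 0)) {H : ι → ℤ → ℤ → ℂ} {a b c e : ℝ}
    (hab : a ≤ b)
    (h : ∀ ε > 0, ∃ (K : ℕ) (u v w : ℕ → ℝ), u 0 ≤ c ∧ e ≤ v K ∧ (∀ k ≤ K, u k ≤ v k) ∧
      (∀ k < K, u (k + 1) < v k) ∧ (∀ k ≤ K, 0 ≤ w k) ∧
      (∀ k ≤ K, ∃ G : ι → ℤ → ℤ → ℂ, CSr l s d G a b (u k) (v k) ∧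
        ∀ᶠ n in l, ∀ i j : ℤ, a ≤ d n * i → d n * i ≤ b → u k ≤ d n * j → d n * j ≤ v k →
          ‖H n i j - G n i j‖ ≤ w k) ∧
      ∑ k ∈ range (K + 1), ((b - a) + (v k - u k)) * w k ≤ ε) :
    CSr l s d H a b c e := by
  rw [CSr_iff]
  intro δ hδ
  obtain ⟨K, u, v, w, h1, h2, h3, h4, h5, h6, h7⟩ := h (δ / 4) (by positivity)
  have h8 := CSd_of_slices hs hd hd0 hab u v w K h3 h4 h5 (η := δ / (4 * (K + 1)))
    (by positivity) h6
  refine h8.mono le_rfl le_rfl h1 h2 ?_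
  rw [Finset.sum_add_distrib]
  have e1 : ∑ _k ∈ range (K + 1), δ / (4 * (K + 1)) = δ / 4 := by
    rw [Finset.sum_const, card_range, nsmul_eq_mul]
    push_cast
    field_simp
  have e2 : ∑ k ∈ range (K + 1), 2 * ((b - a) + (v k - u k)) * w k =
      2 * ∑ k ∈ range (K + 1), ((b - a) + (v k - u k)) * w k := by
    rw [Finset.mul_sum]
    exact Finset.sum_congr rfl fun k _ => by ring
  rw [e1, e2]
  linarith

/-- slices of half height `h` centred at `y`, error `w h y`; it is enough that the sum of the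
errors over the arithmetic progression `c + k h` is small -/
theorem CSr_of_centres {l : Filter ι} {s : ℂ} (hs : ‖s‖ ≤ 1) {d : ι → ℝ}
    (hd : ∀ᶠ n in l, 0 < d n) (hd0 : Tendsto d l (𝓝 0)) {H : ι → ℤ → ℤ → ℂ} {a b c e : ℝ}
    (hab : a ≤ b) (hce : c ≤ e) {h0 : ℝ} (hh0 : 0 < h0) (w : ℝ → ℝ → ℝ)
    (hw : ∀ h y, 0 ≤ w h y)
    (hG : ∀ h, 0 < h → h < h0 → ∀ y, c ≤ y → y ≤ e + h → ∃ G : ι → ℤ → ℤ → ℂ,
      CSr l s d G a b (y - h) (y + h) ∧
      ∀ᶠ n in l, ∀ i j : ℤ, a ≤ d n * i → d n * i ≤ b → y - h ≤ d n * j → d n * j ≤ y + h →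
        ‖H n i j - G n i j‖ ≤ w h y)
    (hS : ∀ ε > 0, ∃ h, 0 < h ∧ h < h0 ∧ h ≤ 1 ∧
      ∑ k ∈ range (⌈(e - c) / h⌉₊ + 1), w h (c + k * h) ≤ ε) :
    CSr l s d H a b c e := by
  refine CSr_of_slices hs hd hd0 hab fun ε hε => ?_
  obtain ⟨h, h1, h2, h3, h4⟩ := hS (ε / ((b - a) + 2)) (by have := sub_nonneg.2 hab; positivity)
  have hK : (e - c) / h ≤ (⌈(e - c) / h⌉₊ : ℝ) := Nat.le_ceil _
  have hK' : (⌈(e - c) / h⌉₊ : ℝ) < (e - c) / h + 1 :=
    Nat.ceil_lt_add_one (div_nonneg (sub_nonneg.2 hce) h1.le)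
  rw [div_le_iff₀ h1] at hK
  have hK2 : (⌈(e - c) / h⌉₊ : ℝ) * h < (e - c) + h := by
    have := mul_lt_mul_of_pos_right hK' h1
    rw [add_mul, div_mul_cancel₀ _ h1.ne', one_mul] at this
    exact this
  refine ⟨⌈(e - c) / h⌉₊, fun k => c + k * h - h, fun k => c + k * h + h,
    fun k => w h (c + k * h), by simp [h1.le], by linarith, fun k _ => by linarith,
    fun k _ => by push_cast; linarith, fun k _ => hw _ _, fun k hk => ?_, ?_⟩
  · have hk' : (k : ℝ) ≤ (⌈(e - c) / h⌉₊ : ℝ) := by exact_mod_cast hk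
    have h5 : (k : ℝ) * h ≤ (⌈(e - c) / h⌉₊ : ℝ) * h := mul_le_mul_of_nonneg_right hk' h1.le
    exact hG h h1 h2 (c + k * h) (by nlinarith [Nat.cast_nonneg (α := ℝ) k]) (by linarith)
  · have e1 : ∀ k ∈ range (⌈(e - c) / h⌉₊ + 1),
        ((b - a) + ((c + (k : ℝ) * h + h) - (c + k * h - h))) * w h (c + k * h) ≤
          ((b - a) + 2) * w h (c + k * h) := fun k _ =>
      mul_le_mul_of_nonneg_right (by linarith) (hw _ _)
    refine (Finset.sum_le_sum e1).trans ?_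
    rw [← Finset.mul_sum]
    have h6 : 0 < (b - a) + 2 := by linarith
    calc ((b - a) + 2) * _ ≤ ((b - a) + 2) * (ε / ((b - a) + 2)) :=
          mul_le_mul_of_nonneg_left h4 h6.le
      _ = ε := by field_simp

/-- **uniform slices**: error `W h = o(h)` -/
theorem CSr_of_uniform {l : Filter ι} {s : ℂ} (hs : ‖s‖ ≤ 1) {d : ι → ℝ}
    (hd : ∀ᶠ n in l, 0 < d n) (hd0 : Tendsto d l (𝓝 0)) {H : ι → ℤ → ℤ → ℂ} {a b c e : ℝ}
    (hab : a ≤ b) (hce : c ≤ e) {h0 : ℝ} (hh0 : 0 < h0) (W : ℝ → ℝ) (hW : ∀ h, 0 ≤ W h)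
    (hW0 : Tendsto (fun h => W h / h) (𝓝[>] 0) (𝓝 0))
    (hG : ∀ h, 0 < h → h < h0 → ∀ y, c ≤ y → y ≤ e + h → ∃ G : ι → ℤ → ℤ → ℂ,
      CSr l s d G a b (y - h) (y + h) ∧
      ∀ᶠ n in l, ∀ i j : ℤ, a ≤ d n * i → d n * i ≤ b → y - h ≤ d n * j → d n * j ≤ y + h →
        ‖H n i j - G n i j‖ ≤ W h) :
    CSr l s d H a b c e := by
  refine CSr_of_centres hs hd hd0 hab hce hh0 (fun h _ => W h) (fun h _ => hW h) hG fun ε hε => ?_
  have hA : 0 < (e - c) + 2 := by linarith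
  have h1 : ∀ᶠ h in 𝓝[>] (0 : ℝ), W h / h < ε / ((e - c) + 2) :=
    hW0.eventually (gt_mem_nhds (by positivity))
  have h2 : ∀ᶠ h in 𝓝[>] (0 : ℝ), h < min h0 1 :=
    nhdsWithin_le_nhds (gt_mem_nhds (lt_min hh0 one_pos))
  obtain ⟨h, ⟨g1, g2⟩, g3⟩ := ((h1.and h2).and self_mem_nhdsWithin).exists
  have g3' : 0 < h := g3
  refine ⟨h, g3', g2.trans_le (min_le_left _ _), (g2.trans_le (min_le_right _ _)).le, ?_⟩
  rw [Finset.sum_const, card_range, nsmul_eq_mul]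
  have hK' : (⌈(e - c) / h⌉₊ : ℝ) < (e - c) / h + 1 :=
    Nat.ceil_lt_add_one (div_nonneg (sub_nonneg.2 hce) g3'.le)
  rw [div_lt_iff₀ g3'] at g1
  have g4 : h ≤ 1 := (g2.trans_le (min_le_right _ _)).le
  push_cast
  calc ((⌈(e - c) / h⌉₊ : ℝ) + 1) * W h ≤ ((e - c) / h + 1 + 1) * (ε / ((e - c) + 2) * h) :=
        mul_le_mul (by linarith) g1.le (hW h) (by have := div_nonneg (sub_nonneg.2 hce) g3'.le; linarith)
    _ = ((e - c) + 2 * h) * (ε / ((e - c) + 2)) := by field_simp; ring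
    _ ≤ ((e - c) + 2) * (ε / ((e - c) + 2)) :=
        mul_le_mul_of_nonneg_right (by linarith) (by positivity)
    _ = ε := by field_simp

/-- sum of the errors near one bad height -/
theorem sum_near {p : ℝ} (hp : 1 < p) : ∃ S : ℝ, 0 ≤ S ∧ ∀ (K : ℕ) (m : ℤ),
    ∑ k ∈ range K, (max 1 |((k : ℤ) - m : ℝ)|) ^ (-p) ≤ S := by
  have h1 : Summable fun n : ℤ => (max 1 |(n : ℝ)|) ^ (-p) := by
    have h2 : Summable fun n : ℤ => |(n : ℝ)| ^ (-p) + if n = 0 then (1 : ℝ) else 0 := by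
      refine (Real.summable_abs_int_rpow (by simpa using hp)).add ?_
      exact summable_of_ne_finset_zero (s := {0}) fun n hn => by simp at hn; simp [hn]
    refine h2.of_nonneg_of_le (fun n => by positivity) fun n => ?_
    by_cases hn : n = 0
    · subst hn
      have : (0 : ℝ) ≤ |((0 : ℤ) : ℝ)| ^ (-p) := by positivity
      simp only [if_true]
      simp
      positivity
    · have h3 : (1 : ℝ) ≤ |(n : ℝ)| := by
        have : (1 : ℤ) ≤ |n| := Int.one_le_abs hn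
        exact_mod_cast this
      rw [max_eq_right h3, if_neg hn, add_zero]
  refine ⟨∑' n : ℤ, (max 1 |(n : ℝ)|) ^ (-p), tsum_nonneg fun n => by positivity, fun K m => ?_⟩
  have h4 : ∑ k ∈ range K, (max 1 |((k : ℤ) - m : ℝ)|) ^ (-p) =
      ∑ n ∈ (range K).image (fun k : ℕ => (k : ℤ) - m), (max 1 |(n : ℝ)|) ^ (-p) := by
    rw [Finset.sum_image fun a _ b _ hab => by simpa using hab]
    refine Finset.sum_congr rfl fun k _ => ?_
    push_cast
    rfl
  rw [h4]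
  exact h1.sum_le_tsum _ fun n _ => by positivity

/-- **bad heights**: slice error `W h + C Σ_t (h/(h+|y-t|))^(1+γ) (h+|y-t|)^γ'` -/
theorem CSr_of_heights {l : Filter ι} {s : ℂ} (hs : ‖s‖ ≤ 1) {d : ι → ℝ}
    (hd : ∀ᶠ n in l, 0 < d n) (hd0 : Tendsto d l (𝓝 0)) {H : ι → ℤ → ℤ → ℂ} {a b c e : ℝ}
    (hab : a ≤ b) (hce : c ≤ e) {h0 : ℝ} (hh0 : 0 < h0) (W : ℝ → ℝ) (hW : ∀ h, 0 ≤ W h)
    (hW0 : Tendsto (fun h => W h / h) (𝓝[>] 0) (𝓝 0)) (B : Finset ℝ) {C γ γ' : ℝ} (hC : 0 ≤ C)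
    (hγ' : 0 < γ') (hγ : γ' < γ)
    (hG : ∀ h, 0 < h → h < h0 → ∀ y, c ≤ y → y ≤ e + h → ∃ G : ι → ℤ → ℤ → ℂ,
      CSr l s d G a b (y - h) (y + h) ∧
      ∀ᶠ n in l, ∀ i j : ℤ, a ≤ d n * i → d n * i ≤ b → y - h ≤ d n * j → d n * j ≤ y + h →
        ‖H n i j - G n i j‖ ≤
          W h + C * ∑ t ∈ B, (h / (h + |y - t|)) ^ (1 + γ) * (h + |y - t|) ^ γ') :
    CSr l s d H a b c e := by
  obtain ⟨S, hS0, hS⟩ := sum_near (p := 1 + γ - γ') (by linarith)
  refine CSr_of_centres hs hd hd0 hab hce hh0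
    (fun h y => W h + C * ∑ t ∈ B, (|h| / (|h| + |y - t|)) ^ (1 + γ) * (|h| + |y - t|) ^ γ')
    (fun h y => ?_) (fun h h1 h2 y h3 h4 => ?_) fun ε hε => ?_
  · have := hW h
    positivity
  · rw [abs_of_pos h1]
    exact hG h h1 h2 y h3 h4
  · have hA : 0 < (e - c) + 2 := by linarith
    have h1 : ∀ᶠ h in 𝓝[>] (0 : ℝ), W h / h < ε / 2 / ((e - c) + 2) :=
      hW0.eventually (gt_mem_nhds (by positivity))
    have h2 : ∀ᶠ h in 𝓝[>] (0 : ℝ), h < min h0 1 :=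
      nhdsWithin_le_nhds (gt_mem_nhds (lt_min hh0 one_pos))
    have h3 : ∀ᶠ h in 𝓝[>] (0 : ℝ), C * (B.card * (S * h ^ γ')) < ε / 2 := by
      have : Tendsto (fun h : ℝ => C * (B.card * (S * h ^ γ'))) (𝓝[>] 0)
          (𝓝 (C * (B.card * (S * 0 ^ γ')))) := by
        have h5 : Tendsto (fun h : ℝ => h ^ γ') (𝓝[>] 0) (𝓝 (0 ^ γ')) :=
          ((Real.continuousAt_rpow_const 0 γ' (Or.inr hγ'.le)).tendsto).mono_left
            nhdsWithin_le_nhds
        exact ((h5.const_mul S).const_mul _).const_mul C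
      rw [Real.zero_rpow hγ'.ne', mul_zero, mul_zero, mul_zero] at this
      exact this.eventually (gt_mem_nhds (by positivity))
    obtain ⟨h, ⟨⟨g1, g2⟩, g5⟩, g3⟩ := (((h1.and h2).and h3).and self_mem_nhdsWithin).exists
    have g3' : 0 < h := g3
    refine ⟨h, g3', g2.trans_le (min_le_left _ _), (g2.trans_le (min_le_right _ _)).le, ?_⟩
    rw [abs_of_pos g3', Finset.sum_add_distrib]
    have k1 : ∑ _k ∈ range (⌈(e - c) / h⌉₊ + 1), W h ≤ ε / 2 := by
      rw [Finset.sum_const, card_range, nsmul_eq_mul]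
      have hK' : (⌈(e - c) / h⌉₊ : ℝ) < (e - c) / h + 1 :=
        Nat.ceil_lt_add_one (div_nonneg (sub_nonneg.2 hce) g3'.le)
      rw [div_lt_iff₀ g3'] at g1
      have g4 : h ≤ 1 := (g2.trans_le (min_le_right _ _)).le
      push_cast
      calc ((⌈(e - c) / h⌉₊ : ℝ) + 1) * W h ≤
            ((e - c) / h + 1 + 1) * (ε / 2 / ((e - c) + 2) * h) :=
            mul_le_mul (by linarith) g1.le (hW h)
              (by have := div_nonneg (sub_nonneg.2 hce) g3'.le; linarith)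
        _ = ((e - c) + 2 * h) * (ε / 2 / ((e - c) + 2)) := by field_simp; ring
        _ ≤ ((e - c) + 2) * (ε / 2 / ((e - c) + 2)) :=
            mul_le_mul_of_nonneg_right (by linarith) (by positivity)
        _ = ε / 2 := by field_simp
    have k2 : ∑ k ∈ range (⌈(e - c) / h⌉₊ + 1), C * ∑ t ∈ B,
        (h / (h + |c + (k : ℝ) * h - t|)) ^ (1 + γ) * (h + |c + (k : ℝ) * h - t|) ^ γ' ≤
          C * (B.card * (S * h ^ γ')) := by
      rw [← Finset.mul_sum, Finset.sum_comm]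
      refine mul_le_mul_of_nonneg_left ?_ hC
      rw [← nsmul_eq_mul]
      refine Finset.sum_le_card_nsmul _ _ _ fun t _ => ?_
      set m : ℤ := ⌊(t - c) / h⌋ with hm
      have m1 : (m : ℝ) * h ≤ t - c := by
        have := Int.floor_le ((t - c) / h)
        rw [← hm, le_div_iff₀ g3'] at this
        exact this
      have m2 : t - c < (m + 1 : ℝ) * h := by
        have := Int.lt_floor_add_one ((t - c) / h)
        rw [← hm, div_lt_iff₀ g3'] at this
        exact this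
      refine (Finset.sum_le_sum (g := fun k : ℕ => (max 1 |((k : ℤ) - m : ℝ)|) ^ (-(1 + γ - γ')) *
        h ^ γ') fun k _ => ?_).trans ?_
      · -- one slice
        set X : ℝ := h + |c + (k : ℝ) * h - t| with hX
        have hX0 : 0 < X := by positivity
        have hX1 : (max 1 |((k : ℤ) - m : ℝ)|) * h ≤ X := by
          rcases le_total |((k : ℤ) - m : ℝ)| 1 with hle | hle
          · rw [max_eq_left hle, one_mul, hX]
            linarith [abs_nonneg (c + (k : ℝ) * h - t)]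
          · rw [max_eq_right hle, hX]
            rcases le_total 0 ((k : ℤ) - m : ℝ) with h0' | h0'
            · rw [abs_of_nonneg h0']
              have := le_abs_self (c + (k : ℝ) * h - t)
              push_cast at h0' ⊢
              nlinarith
            · rw [abs_of_nonpos h0']
              have := neg_abs_le (c + (k : ℝ) * h - t)
              push_cast at h0' ⊢
              nlinarith
        have e1 : (h / X) ^ (1 + γ) * X ^ γ' = h ^ (1 + γ) * X ^ (-(1 + γ - γ')) := by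
          rw [Real.div_rpow g3'.le hX0.le, div_eq_mul_inv, ← Real.rpow_neg hX0.le, mul_assoc,
            ← Real.rpow_add hX0]
          congr 2
          ring
        have e2 : X ^ (-(1 + γ - γ')) ≤
            ((max 1 |((k : ℤ) - m : ℝ)|) * h) ^ (-(1 + γ - γ')) :=
          Real.rpow_le_rpow_of_nonpos (by positivity) hX1 (by linarith)
        rw [e1]
        calc h ^ (1 + γ) * X ^ (-(1 + γ - γ')) ≤
            h ^ (1 + γ) * ((max 1 |((k : ℤ) - m : ℝ)|) * h) ^ (-(1 + γ - γ')) :=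
              mul_le_mul_of_nonneg_left e2 (by positivity)
          _ = _ := by
              rw [Real.mul_rpow (by positivity) g3'.le, mul_left_comm, ← Real.rpow_add g3']
              congr 2
              ring
      · rw [← Finset.sum_mul]
        exact mul_le_mul_of_nonneg_right (hS _ m) (by positivity)
    linarith

end Crest.Agent.R158.Cs410
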