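import Mathlib
import Crest.Agent.R158.Cs2_410

/-!
# R158, Block CS (helper410), part 4: assembly with bad heights

* `CSd_cover` : finite cover by slices with defects
* `CSd_of_osc` : a thin slab with small vertical oscillation
* `CSr_of_centres'` : slices centred at `c + k h`, each with its own defect
* `CSr_assemble` : good slices away from finitely many bad heights `B`, thin slabs at the bad heights
-/

set_option autoImplicit false

open Filter Topology Finset

namespace Crest.Agent.R158.Cs410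

open Crest.Agent.R158.Wl290

variable {ι : Type*}

/-- finite cover -/
theorem CSd_cover {l : Filter ι} {s : ℂ} {d : ι → ℝ}
    (hd : ∀ᶠ n in l, 0 < d n) (hd0 : Tendsto d l (𝓝 0)) {H : ι → ℤ → ℤ → ℂ} {a b : ℝ}
    (u v δ : ℕ → ℝ) (K : ℕ) (hov : ∀ k < K, u (k + 1) < v k) (hδ : ∀ k ≤ K, 0 ≤ δ k)
    (h : ∀ k ≤ K, CSd l s d H a b (u k) (v k) (δ k)) :
    CSd l s d H a b (u 0) (v K) (∑ k ∈ range (K + 1), δ k) := by
  suffices h' : ∀ k ≤ K, CSd l s d H a b (u 0) (v k) (∑ i ∈ range (k + 1), δ i) from h' K le_rfl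
  intro k
  induction k with
  | zero => intro _; simpa using h 0 (Nat.zero_le _)
  | succ k ih =>
    intro hk
    rw [Finset.sum_range_succ]
    exact CSd.glue hd hd0 (hov k hk) (ih (by omega)) (h (k + 1) hk)
      (Finset.sum_nonneg fun i hi => hδ i (by rw [Finset.mem_range] at hi; omega)) (hδ _ hk)

/-- **thin slab** with small vertical oscillation -/
theorem CSd_of_osc {l : Filter ι} {s : ℂ} (hs : ‖s‖ ≤ 1) {d : ι → ℝ} (hd : ∀ᶠ n in l, 0 < d n)
    {H : ι → ℤ → ℤ → ℂ} {a b c e w B0 : ℝ} (hw : 0 ≤ w) (hB0 : 0 ≤ B0)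
    (hB : ∀ᶠ n in l, ∀ i j : ℤ, a ≤ d n * i → d n * i ≤ b → c ≤ d n * j → d n * j ≤ e →
      ‖H n i j‖ ≤ B0)
    (hH : ∀ᶠ n in l, ∀ i j j' : ℤ, a ≤ d n * i → d n * i ≤ b → c ≤ d n * j → d n * j ≤ e →
      c ≤ d n * j' → d n * j' ≤ e → ‖H n i j - H n i j'‖ ≤ w) :
    CSd l s d H a b c e ((b - a) * w + 2 * B0 * (e - c)) := by
  filter_upwards [hB, hH, hd] with n hn1 hn2 hn i1 i2 j1 j2 hi hj g1 g2 g3 g4
  have hib : (i1 : ℝ) ≤ i2 := by exact_mod_cast hi
  have hjb : (j1 : ℝ) ≤ j2 := by exact_mod_cast hj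
  have ci : (((i2 - i1).toNat : ℕ) : ℝ) = i2 - i1 := by
    have : ((i2 - i1).toNat : ℤ) = i2 - i1 := Int.toNat_of_nonneg (by omega)
    exact_mod_cast this
  have cj : (((j2 - j1).toNat : ℕ) : ℝ) = j2 - j1 := by
    have : ((j2 - j1).toNat : ℤ) = j2 - j1 := Int.toNat_of_nonneg (by omega)
    exact_mod_cast this
  have h1 : ‖∑ i ∈ Finset.Ico i1 i2, (H n i j2 - H n i j1)‖ ≤ (i2 - i1 : ℝ) * w := by
    refine (norm_sum_le _ _).trans ?_
    refine (Finset.sum_le_sum (g := fun _ => w) fun i hi' => ?_).trans ?_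
    · rw [Finset.mem_Ico] at hi'
      have q1 : (i1 : ℝ) ≤ i := by exact_mod_cast hi'.1
      have q2 : (i : ℝ) ≤ i2 := by exact_mod_cast hi'.2.le
      exact hn2 i j2 j1 (by nlinarith) (by nlinarith) (by nlinarith) g4 g3 (by nlinarith)
    · rw [Finset.sum_const, Int.card_Ico, nsmul_eq_mul, ci]
  have h2 : ‖∑ j ∈ Finset.Ico j1 j2, (H n i2 j - H n i1 j)‖ ≤ (j2 - j1 : ℝ) * (2 * B0) := by
    refine (norm_sum_le _ _).trans ?_
    refine (Finset.sum_le_sum (g := fun _ => 2 * B0) fun j hj' => ?_).trans ?_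
    · rw [Finset.mem_Ico] at hj'
      have q1 : (j1 : ℝ) ≤ j := by exact_mod_cast hj'.1
      have q2 : (j : ℝ) ≤ j2 := by exact_mod_cast hj'.2.le
      have k1 : c ≤ d n * j := by nlinarith
      have k2 : d n * j ≤ e := by nlinarith
      refine (norm_sub_le _ _).trans ?_
      have k3 := hn1 i2 j (by nlinarith) g2 k1 k2
      have k4 := hn1 i1 j g1 (by nlinarith) k1 k2
      linarith
    · rw [Finset.sum_const, Int.card_Ico, nsmul_eq_mul, cj]
  have h3 : ‖csum s (H n) i1 i2 j1 j2‖ ≤ (i2 - i1 : ℝ) * w + (j2 - j1 : ℝ) * (2 * B0) := by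
    unfold csum
    refine (norm_sub_le _ _).trans (add_le_add h1 ?_)
    rw [norm_mul]
    have := mul_le_mul hs h2 (norm_nonneg _) zero_le_one
    linarith
  have k1 : d n * (i2 - i1 : ℝ) ≤ b - a := by linarith
  have k2 : d n * (j2 - j1 : ℝ) ≤ e - c := by linarith
  calc d n * ‖csum s (H n) i1 i2 j1 j2‖ ≤
      d n * ((i2 - i1 : ℝ) * w + (j2 - j1 : ℝ) * (2 * B0)) := mul_le_mul_of_nonneg_left h3 hn.le
    _ = (d n * (i2 - i1 : ℝ)) * w + (d n * (j2 - j1 : ℝ)) * (2 * B0) := by ring
    _ ≤ (b - a) * w + (e - c) * (2 * B0) :=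
        add_le_add (mul_le_mul_of_nonneg_right k1 hw)
          (mul_le_mul_of_nonneg_right k2 (by positivity))
    _ = _ := by ring

/-- slices centred at `c + k h` -/
theorem CSr_of_centres' {l : Filter ι} {s : ℂ} {d : ι → ℝ}
    (hd : ∀ᶠ n in l, 0 < d n) (hd0 : Tendsto d l (𝓝 0)) {H : ι → ℤ → ℤ → ℂ} {a b c e : ℝ}
    (h : ∀ ε > 0, ∃ (h : ℝ) (δ : ℕ → ℝ), 0 < h ∧
      (∀ k ≤ ⌈(e - c) / h⌉₊, 0 ≤ δ k ∧ CSd l s d H a b (c + k * h - h) (c + k * h + h) (δ k)) ∧
      ∑ k ∈ range (⌈(e - c) / h⌉₊ + 1), δ k ≤ ε) :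
    CSr l s d H a b c e := by
  rw [CSr_iff]
  intro ε hε
  obtain ⟨h, δ, h1, h2, h3⟩ := h ε hε
  have hK : (e - c) / h ≤ (⌈(e - c) / h⌉₊ : ℝ) := Nat.le_ceil _
  rw [div_le_iff₀ h1] at hK
  have h4 := CSd_cover hd hd0 (fun k => c + k * h - h) (fun k => c + k * h + h) δ
    ⌈(e - c) / h⌉₊ (fun k _ => by push_cast; linarith) (fun k hk => (h2 k hk).1)
    fun k hk => (h2 k hk).2
  exact h4.mono le_rfl le_rfl (by simp [h1.le]) (by linarith) h3

/-- number of `k` with `|c + k h - t| ≤ 2 h` -/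
lemma card_near (K : ℕ) (c t h : ℝ) (hh : 0 < h) :
    ((range K).filter fun k : ℕ => |c + (k : ℝ) * h - t| ≤ 2 * h).card ≤ 5 := by
  set m : ℤ := ⌈(t - c) / h⌉ - 2 with hm
  have key : ((range K).filter fun k : ℕ => |c + (k : ℝ) * h - t| ≤ 2 * h).image
      (fun k : ℕ => (k : ℤ)) ⊆ Finset.Icc m (m + 4) := by
    intro z hz
    rw [Finset.mem_image] at hz
    obtain ⟨k, hk, rfl⟩ := hz
    rw [Finset.mem_filter, abs_le] at hk
    obtain ⟨-, g1, g2⟩ := hk
    rw [Finset.mem_Icc]
    have q1 := Int.le_ceil ((t - c) / h)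
    have q2 := Int.ceil_lt_add_one ((t - c) / h)
    rw [div_le_iff₀ hh] at q1
    have q3 : ((⌈(t - c) / h⌉ : ℤ) : ℝ) * h < (t - c) + h := by
      have := mul_lt_mul_of_pos_right q2 hh
      rwa [add_mul, div_mul_cancel₀ _ hh.ne', one_mul] at this
    constructor
    · have : ((⌈(t - c) / h⌉ - 3 : ℤ) : ℝ) * h < (k : ℝ) * h := by
        push_cast
        nlinarith
      have h5 := lt_of_mul_lt_mul_right this hh.le
      have h6 : ⌈(t - c) / h⌉ - 3 < (k : ℤ) := by exact_mod_cast h5
      omega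
    · have : (k : ℝ) * h ≤ ((⌈(t - c) / h⌉ + 2 : ℤ) : ℝ) * h := by
        push_cast
        nlinarith
      have h5 := le_of_mul_le_mul_right this hh
      have h6 : (k : ℤ) ≤ ⌈(t - c) / h⌉ + 2 := by exact_mod_cast h5
      omega
  have h1 := Finset.card_le_card key
  rw [Finset.card_image_of_injective _ Nat.cast_injective, Int.card_Icc] at h1
  omega

set_option maxHeartbeats 2000000 in
/-- **assembly**: good slices away from the bad heights, thin slabs at the bad heights -/
theorem CSr_assemble {l : Filter ι} {s : ℂ} (hs : ‖s‖ ≤ 1) {d : ι → ℝ}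
    (hd : ∀ᶠ n in l, 0 < d n) (hd0 : Tendsto d l (𝓝 0)) {H : ι → ℤ → ℤ → ℂ} {a b c e : ℝ}
    (hab : a ≤ b) (hce : c ≤ e) {h0 : ℝ} (hh0 : 0 < h0) (W : ℝ → ℝ) (hW : ∀ h, 0 ≤ W h)
    (hW0 : Tendsto (fun h => W h / h) (𝓝[>] 0) (𝓝 0)) (B : Finset ℝ) {C γ γ' : ℝ} (hC : 0 ≤ C)
    (hγ' : 0 < γ') (hγ : γ' < γ)
    (good : ∀ h, 0 < h → h < h0 → ∀ y, c ≤ y → y ≤ e + h → (∀ t ∈ B, 2 * h < |y - t|) →
      ∃ G : ι → ℤ → ℤ → ℂ, CSr l s d G a b (y - h) (y + h) ∧
      ∀ᶠ n in l, ∀ i j : ℤ, a ≤ d n * i → d n * i ≤ b → y - h ≤ d n * j → d n * j ≤ y + h →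
        ‖H n i j - G n i j‖ ≤
          W h + C * ∑ t ∈ B, (h / (h + |y - t|)) ^ (1 + γ) * (h + |y - t|) ^ γ')
    (bad : ∀ t ∈ B, c ≤ t → t ≤ e → ∀ ε > 0, ∃ h1 > 0, CSd l s d H a b (t - h1) (t + h1) ε) :
    CSr l s d H a b c e := by
  classical
  obtain ⟨S, hS0, hS⟩ := sum_near (p := 1 + γ - γ') (by linarith)
  refine CSr_of_centres' hd hd0 fun ε hε => ?_
  -- the defect allowed in a bad slab
  set ε1 : ℝ := ε / (4 * (5 * B.card + 1)) with hε1
  have hε10 : 0 < ε1 := by rw [hε1]; positivity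
  have hbad : ∃ h1 > 0, ∀ t ∈ B, c ≤ t → t ≤ e → CSd l s d H a b (t - h1) (t + h1) ε1 := by
    have key : ∀ B' : Finset ℝ, B' ⊆ B → ∃ h1 > 0, ∀ t ∈ B', c ≤ t → t ≤ e →
        CSd l s d H a b (t - h1) (t + h1) ε1 := by
      intro B'
      induction B' using Finset.induction_on with
      | empty => intro _; exact ⟨1, one_pos, fun t ht => absurd ht (Finset.notMem_empty t)⟩
      | insert t B'' _ ih =>
        intro hB
        obtain ⟨h1, h1p, h2⟩ := ih fun x hx => hB (Finset.mem_insert_of_mem hx)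
        by_cases htc : c ≤ t ∧ t ≤ e
        · obtain ⟨h3, h3p, h4⟩ := bad t (hB (Finset.mem_insert_self _ _)) htc.1 htc.2 ε1 hε10
          refine ⟨min h1 h3, lt_min h1p h3p, fun x hx hx1 hx2 => ?_⟩
          rcases Finset.mem_insert.1 hx with rfl | hx
          · exact h4.mono le_rfl le_rfl (by linarith [min_le_right h1 h3])
              (by linarith [min_le_right h1 h3]) le_rfl
          · exact (h2 x hx hx1 hx2).mono le_rfl le_rfl (by linarith [min_le_left h1 h3])
              (by linarith [min_le_left h1 h3]) le_rfl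
        · refine ⟨h1, h1p, fun x hx hx1 hx2 => ?_⟩
          rcases Finset.mem_insert.1 hx with rfl | hx
          · exact absurd ⟨hx1, hx2⟩ htc
          · exact h2 x hx hx1 hx2
    exact key B Subset.rfl
  obtain ⟨h1, h1p, hbad⟩ := hbad
  -- the distance of the outer bad heights
  have hfar : ∃ h2 > 0, ∀ t ∈ B, ¬ (c ≤ t ∧ t ≤ e) → ∀ y, c ≤ y → y ≤ e + h2 →
      2 * h2 < |y - t| := by
    have key : ∀ B' : Finset ℝ, ∃ h2 > 0, ∀ t ∈ B', ¬ (c ≤ t ∧ t ≤ e) → ∀ y, c ≤ y → y ≤ e + h2 →
        2 * h2 < |y - t| := by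
      intro B'
      induction B' using Finset.induction_on with
      | empty => exact ⟨1, one_pos, fun t ht => absurd ht (Finset.notMem_empty t)⟩
      | insert t B'' _ ih =>
        obtain ⟨h2, h2p, h3⟩ := ih
        by_cases htc : c ≤ t ∧ t ≤ e
        · refine ⟨h2, h2p, fun x hx hx1 => ?_⟩
          rcases Finset.mem_insert.1 hx with rfl | hx
          · exact absurd htc hx1
          · exact h3 x hx hx1
        · have h4 : ∃ h5 > 0, ∀ y, c ≤ y → y ≤ e + h5 → 2 * h5 < |y - t| := by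
            rcases not_and_or.1 htc with h | h
            · push Not at h
              refine ⟨(c - t) / 3, by linarith, fun y hy1 hy2 => ?_⟩
              rw [abs_of_nonneg (by linarith)]
              linarith
            · push Not at h
              refine ⟨(t - e) / 4, by linarith, fun y hy1 hy2 => ?_⟩
              rw [abs_of_nonpos (by linarith)]
              linarith
          obtain ⟨h5, h5p, h6⟩ := h4
          refine ⟨min h2 h5, lt_min h2p h5p, fun x hx hx1 y hy1 hy2 => ?_⟩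
          rcases Finset.mem_insert.1 hx with rfl | hx
          · have := h6 y hy1 (hy2.trans (by linarith [min_le_right h2 h5]))
            linarith [min_le_right h2 h5]
          · have := h3 x hx hx1 y hy1 (hy2.trans (by linarith [min_le_left h2 h5]))
            linarith [min_le_left h2 h5]
    exact key B
  obtain ⟨h2, h2p, hfar⟩ := hfar
  -- the good slices
  have hA : 0 < (b - a) + 2 := by linarith
  have hE : 0 < (e - c) + 2 := by linarith
  have e1 : ∀ᶠ h in 𝓝[>] (0 : ℝ), W h / h < ε / 16 / ((b - a) + 2) / ((e - c) + 2) :=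
    hW0.eventually (gt_mem_nhds (by positivity))
  have e2 : ∀ᶠ h in 𝓝[>] (0 : ℝ), h < min (min h0 1) (min (h1 / 3) h2) :=
    nhdsWithin_le_nhds (gt_mem_nhds (lt_min (lt_min hh0 one_pos)
      (lt_min (by positivity) h2p)))
  have e3 : ∀ᶠ h in 𝓝[>] (0 : ℝ), C * (B.card * (S * h ^ γ')) < ε / 16 / ((b - a) + 2) := by
    have : Tendsto (fun h : ℝ => C * (B.card * (S * h ^ γ'))) (𝓝[>] 0)
        (𝓝 (C * (B.card * (S * 0 ^ γ')))) := by
      have h5 : Tendsto (fun h : ℝ => h ^ γ') (𝓝[>] 0) (𝓝 (0 ^ γ')) :=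
        ((Real.continuousAt_rpow_const 0 γ' (Or.inr hγ'.le)).tendsto).mono_left
          nhdsWithin_le_nhds
      exact ((h5.const_mul S).const_mul _).const_mul C
    rw [Real.zero_rpow hγ'.ne', mul_zero, mul_zero, mul_zero] at this
    exact this.eventually (gt_mem_nhds (by positivity))
  obtain ⟨h, ⟨⟨g1, g2⟩, g3⟩, g4⟩ := (((e1.and e2).and e3).and self_mem_nhdsWithin).exists
  have hp : 0 < h := g4
  have l1 : h < h0 := g2.trans_le ((min_le_left _ _).trans (min_le_left _ _))
  have l2 : h ≤ 1 := (g2.trans_le ((min_le_left _ _).trans (min_le_right _ _))).le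
  have l3 : h < h1 / 3 := g2.trans_le ((min_le_right _ _).trans (min_le_left _ _))
  have l4 : h < h2 := g2.trans_le ((min_le_right _ _).trans (min_le_right _ _))
  set K : ℕ := ⌈(e - c) / h⌉₊ with hKdef
  have hK' : (K : ℝ) < (e - c) / h + 1 :=
    Nat.ceil_lt_add_one (div_nonneg (sub_nonneg.2 hce) hp.le)
  have hK2 : (K : ℝ) * h < (e - c) + h := by
    have := mul_lt_mul_of_pos_right hK' hp
    rwa [add_mul, div_mul_cancel₀ _ hp.ne', one_mul] at this
  set X : ℕ → ℝ := fun k => ∑ t ∈ B, (h / (h + |c + (k : ℝ) * h - t|)) ^ (1 + γ) *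
    (h + |c + (k : ℝ) * h - t|) ^ γ' with hX
  have hX0 : ∀ k, 0 ≤ X k := fun k => Finset.sum_nonneg fun t _ => by positivity
  set η : ℝ := ε / (4 * (K + 1)) with hη
  have hη0 : 0 < η := by rw [hη]; positivity
  set near : ℕ → Prop := fun k => ∃ t ∈ B, |c + (k : ℝ) * h - t| ≤ 2 * h with hnear
  have hw0 : ∀ k, 0 ≤ 2 * ((b - a) + 2 * h) * (W h + C * X k) := fun k => by
    have := hW h
    have := hX0 k
    have : 0 ≤ b - a := by linarith
    positivity
  refine ⟨h, fun k => (if near k then ε1 else 0) + (η + 2 * ((b - a) + 2 * h) * (W h + C * X k)),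
    hp, fun k hk => ?_, ?_⟩
  · have hk' : (k : ℝ) ≤ K := by exact_mod_cast hk
    have hkh : (k : ℝ) * h ≤ (K : ℝ) * h := mul_le_mul_of_nonneg_right hk' hp.le
    have y1 : c ≤ c + (k : ℝ) * h := by have := mul_nonneg (Nat.cast_nonneg (α := ℝ) k) hp.le; linarith
    have y2 : c + (k : ℝ) * h ≤ e + h := by linarith
    refine ⟨?_, ?_⟩
    · have := hw0 k
      show 0 ≤ (if near k then ε1 else 0) + (η + 2 * ((b - a) + 2 * h) * (W h + C * X k))
      split_ifs <;> linarith
    show CSd l s d H a b (c + k * h - h) (c + k * h + h)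
      ((if near k then ε1 else 0) + (η + 2 * ((b - a) + 2 * h) * (W h + C * X k)))
    by_cases hn : near k
    · obtain ⟨t, ht, hty⟩ := hn
      have htc : c ≤ t ∧ t ≤ e := by
        by_contra hcon
        have := hfar t ht hcon (c + (k : ℝ) * h) y1 (by linarith)
        linarith
      rw [if_pos ⟨t, ht, hty⟩]
      rw [abs_le] at hty
      refine (hbad t ht htc.1 htc.2).mono le_rfl le_rfl (by linarith) (by linarith) ?_
      have := hw0 k
      linarith
    · rw [if_neg hn, zero_add]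
      have hn' : ∀ t ∈ B, 2 * h < |c + (k : ℝ) * h - t| := by
        intro t ht
        by_contra hcon
        exact hn ⟨t, ht, not_lt.1 hcon⟩
      obtain ⟨G, q1, q2⟩ := good h hp l1 _ y1 y2 hn'
      have q3 := CSd.of_close hs hd (w := W h + C * X k) (by
        have := hW h
        have := hX0 k
        positivity) (CSr.toCSd q1 hη0) q2
      refine q3.mono le_rfl le_rfl le_rfl le_rfl (le_of_eq ?_)
      ring
  · -- the sum
    rw [← hKdef, Finset.sum_add_distrib, Finset.sum_add_distrib]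
    have s1 : ∑ k ∈ range (K + 1), (if near k then ε1 else 0) ≤ ε / 4 := by
      rw [← Finset.sum_filter, Finset.sum_const, nsmul_eq_mul]
      have hsub : (range (K + 1)).filter near ⊆ B.biUnion fun t =>
          (range (K + 1)).filter fun k : ℕ => |c + (k : ℝ) * h - t| ≤ 2 * h := by
        intro k hk
        rw [Finset.mem_filter] at hk
        obtain ⟨hk1, t, ht, hk2⟩ := hk
        exact Finset.mem_biUnion.2 ⟨t, ht, Finset.mem_filter.2 ⟨hk1, hk2⟩⟩
      have hcard : ((range (K + 1)).filter near).card ≤ B.card * 5 :=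
        (Finset.card_le_card hsub).trans (Finset.card_biUnion_le_card_mul _ _ _ fun t _ =>
          card_near (K + 1) c t h hp)
      have hcard' : ((((range (K + 1)).filter near).card : ℕ) : ℝ) ≤ 5 * B.card + 1 := by
        have : ((((range (K + 1)).filter near).card : ℕ) : ℝ) ≤ ((B.card * 5 : ℕ) : ℝ) := by
          exact_mod_cast hcard
        push_cast at this
        linarith
      calc _ ≤ (5 * (B.card : ℝ) + 1) * ε1 := mul_le_mul_of_nonneg_right hcard' hε10.le
        _ = ε / 4 := by rw [hε1]; field_simp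
    have s2 : ∑ _k ∈ range (K + 1), η = ε / 4 := by
      rw [Finset.sum_const, card_range, nsmul_eq_mul, hη]
      push_cast
      field_simp
    have s3 : ∑ k ∈ range (K + 1), 2 * ((b - a) + 2 * h) * (W h + C * X k) ≤ ε / 4 := by
      rw [← Finset.mul_sum, Finset.sum_add_distrib, ← Finset.mul_sum]
      have t1 : ∑ _k ∈ range (K + 1), W h ≤ ε / 16 / ((b - a) + 2) := by
        rw [Finset.sum_const, card_range, nsmul_eq_mul]
        rw [div_lt_iff₀ hp] at g1
        push_cast
        have hq : 0 < ε / 16 / ((b - a) + 2) := by positivity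
        calc ((K : ℝ) + 1) * W h ≤
              ((e - c) / h + 1 + 1) * (ε / 16 / ((b - a) + 2) / ((e - c) + 2) * h) :=
              mul_le_mul (by linarith) g1.le (hW h)
                (by have := div_nonneg (sub_nonneg.2 hce) hp.le; linarith)
          _ = ((e - c) + 2 * h) * (ε / 16 / ((b - a) + 2) / ((e - c) + 2)) := by
              field_simp; ring
          _ ≤ ((e - c) + 2) * (ε / 16 / ((b - a) + 2) / ((e - c) + 2)) :=
              mul_le_mul_of_nonneg_right (by linarith) (by positivity)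
          _ = ε / 16 / ((b - a) + 2) := by field_simp
      have t2 : C * ∑ k ∈ range (K + 1), X k ≤ ε / 16 / ((b - a) + 2) := by
        refine le_trans ?_ g3.le
        refine mul_le_mul_of_nonneg_left ?_ hC
        rw [hX, Finset.sum_comm, ← nsmul_eq_mul]
        refine Finset.sum_le_card_nsmul _ _ _ fun t _ => ?_
        set m : ℤ := ⌊(t - c) / h⌋ with hm
        have m1 : (m : ℝ) * h ≤ t - c := by
          have := Int.floor_le ((t - c) / h)
          rw [← hm, le_div_iff₀ hp] at this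
          exact this
        have m2 : t - c < (m + 1 : ℝ) * h := by
          have := Int.lt_floor_add_one ((t - c) / h)
          rw [← hm, div_lt_iff₀ hp] at this
          exact this
        refine (Finset.sum_le_sum (g := fun k : ℕ =>
          (max 1 |((k : ℤ) - m : ℝ)|) ^ (-(1 + γ - γ')) * h ^ γ') fun k _ => ?_).trans ?_
        · set Y : ℝ := h + |c + (k : ℝ) * h - t| with hY
          have hY0 : 0 < Y := by positivity
          have hY1 : (max 1 |((k : ℤ) - m : ℝ)|) * h ≤ Y := by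
            rcases le_total |((k : ℤ) - m : ℝ)| 1 with hle | hle
            · rw [max_eq_left hle, one_mul, hY]
              linarith [abs_nonneg (c + (k : ℝ) * h - t)]
            · rw [max_eq_right hle, hY]
              rcases le_total 0 ((k : ℤ) - m : ℝ) with h0' | h0'
              · rw [abs_of_nonneg h0']
                have := le_abs_self (c + (k : ℝ) * h - t)
                push_cast at h0' ⊢
                nlinarith
              · rw [abs_of_nonpos h0']
                have := neg_abs_le (c + (k : ℝ) * h - t)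
                push_cast at h0' ⊢
                nlinarith
          have f1 : (h / Y) ^ (1 + γ) * Y ^ γ' = h ^ (1 + γ) * Y ^ (-(1 + γ - γ')) := by
            rw [Real.div_rpow hp.le hY0.le, div_eq_mul_inv, ← Real.rpow_neg hY0.le, mul_assoc,
              ← Real.rpow_add hY0]
            congr 2
            ring
          have f2 : Y ^ (-(1 + γ - γ')) ≤
              ((max 1 |((k : ℤ) - m : ℝ)|) * h) ^ (-(1 + γ - γ')) :=
            Real.rpow_le_rpow_of_nonpos (by positivity) hY1 (by linarith)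
          rw [f1]
          calc h ^ (1 + γ) * Y ^ (-(1 + γ - γ')) ≤
              h ^ (1 + γ) * ((max 1 |((k : ℤ) - m : ℝ)|) * h) ^ (-(1 + γ - γ')) :=
                mul_le_mul_of_nonneg_left f2 (by positivity)
            _ = _ := by
                rw [Real.mul_rpow (by positivity) hp.le, mul_left_comm, ← Real.rpow_add hp]
                congr 2
                ring
        · rw [← Finset.sum_mul]
          exact mul_le_mul_of_nonneg_right (hS _ m) (by positivity)
      have t3 : (∑ _k ∈ range (K + 1), W h + C * ∑ k ∈ range (K + 1), X k) ≤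
          ε / 8 / ((b - a) + 2) := by
        have : ε / 8 / ((b - a) + 2) = ε / 16 / ((b - a) + 2) + ε / 16 / ((b - a) + 2) := by
          field_simp; ring
        linarith
      have t4 : 2 * ((b - a) + 2 * h) ≤ 2 * ((b - a) + 2) := by linarith
      calc 2 * ((b - a) + 2 * h) * (∑ _k ∈ range (K + 1), W h + C * ∑ k ∈ range (K + 1), X k) ≤
          2 * ((b - a) + 2) * (ε / 8 / ((b - a) + 2)) := by
            refine mul_le_mul t4 t3 ?_ (by linarith)
            have w1 : 0 ≤ ∑ _k ∈ range (K + 1), W h := Finset.sum_nonneg fun _ _ => hW h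
            have w2 : 0 ≤ ∑ k ∈ range (K + 1), X k := Finset.sum_nonneg fun k _ => hX0 k
            positivity
        _ = ε / 4 := by field_simp; ring
    refine (add_le_add s1 (add_le_add s2.le s3)).trans ?_
    linarith only [hε]

end Crest.Agent.R158.Cs410
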