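import Crest.Agent.R158.Tj2_656
import Crest.Agent.R158.Cs4_410

/-!
# R158, Q1 = assembly (helper410): `SliceP` and `OscP` imply 656's `Q1`

* `eT γ γ' h u` : the error `(h/(h+u))^(1+γ) (h+u)^γ'` of a mouth of half height `h` at distance `u` from
  a corner or a mark
* `SliceP s γ γ' P` : for every macroscopic run `[A, B]` of `P` at height `r`, every `a < b` inside it and
  every thin slice `(y - h, y + h)` of the row `(r, r + 1)`, off the middle height `r + 1/2`, the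
  observable is close to a function with contour sums `o(1)`
* `OscP P` : small vertical oscillation in thin slabs around the heights `k / 2`
* `Q1_of_slices` : `SliceP` and `OscP` for all polygons imply `Q1`
-/

set_option autoImplicit false

open Filter Topology Set Metric
open Complex (I)

namespace Crest.Agent.R158.Cs410

open Crest.Agent.R158.Wl290 (CSr sg)
open Crest.Agent.R158.Sp896 (V)
open Crest.Agent.R158.Env664 (Run exists_run)
open Crest.Agent.R158.Tj656 (P4 Om mpos Q1 mem_om om_open)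

noncomputable section

/-- error of a mouth of half height `h` at distance `u` from a corner or a mark -/
def eT (γ γ' h u : ℝ) : ℝ := (h / (h + u)) ^ (1 + γ) * (h + u) ^ γ'

lemma eT_nonneg {γ γ' h u : ℝ} (hh : 0 ≤ h) (hu : 0 ≤ u) : 0 ≤ eT γ γ' h u := by
  unfold eT; positivity

/-- **slices**: `s` = `I` or `-I` -/
def SliceP (s : ℂ) (γ γ' : ℝ) (P : P4) : Prop :=
  ∀ A B r : ℤ, Run P.F A B r → ∀ a b : ℝ, (A : ℝ) < a → a ≤ b → b < B + 1 →
    ∃ (h0 C : ℝ) (W : ℝ → ℝ), 0 < h0 ∧ 0 ≤ C ∧ (∀ h, 0 ≤ W h) ∧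
      Tendsto (fun h => W h / h) (𝓝[>] 0) (𝓝 0) ∧
      ∀ h y : ℝ, 0 < h → h < h0 → (r : ℝ) + 2 * h < y → y < (r : ℝ) + 1 - 2 * h →
        2 * h < |y - ((r : ℝ) + 1 / 2)| →
        ∀ Ln : ℕ → ℤ, (∀ n, Even (Ln n)) → Tendsto Ln atTop atTop →
          ∃ G : ℕ → ℤ → ℤ → ℂ, CSr atTop s (fun n => 2 / (Ln n : ℝ)) G a b (y - h) (y + h) ∧
            ∀ᶠ n in atTop, ∀ i j : ℤ, a ≤ 2 / (Ln n : ℝ) * i → 2 / (Ln n : ℝ) * i ≤ b →
              y - h ≤ 2 / (Ln n : ℝ) * j → 2 / (Ln n : ℝ) * j ≤ y + h →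
              ‖P.HD (Ln n) (2 * i) (2 * j) - G n i j‖ ≤
                W h + C * (eT γ γ' h |y - r| + eT γ γ' h |y - ((r : ℝ) + 1 / 2)| +
                  eT γ γ' h |y - ((r : ℝ) + 1)|)

/-- **thin slabs** around the heights `k / 2`: small vertical oscillation, all pairs of points of the
slab, the line itself included -/
def OscP (P : P4) : Prop :=
  ∀ (k : ℤ) (r0 ε : ℝ), 0 < r0 → 0 < ε → ∃ h : ℝ, 0 < h ∧ ∃ L0 : ℤ, ∀ L : ℤ, L0 ≤ L → Even L →
    ∀ x y y' : ℤ, |(y : ℝ) / L - k / 2| ≤ h → |(y' : ℝ) / L - k / 2| ≤ h →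
      ball (mpos L x y) r0 ⊆ P.Om → ball (mpos L x y') r0 ⊆ P.Om →
      ‖P.HD L x y - P.HD L x y'‖ ≤ ε

lemma mem_sq_iff {q : V} {x y : ℝ} : ((x : ℂ) + (y : ℂ) * I) ∈ Crest.Agent.R158.Sp896.sq 1 q ↔
    (q.1 : ℝ) ≤ x ∧ x ≤ q.1 + 1 ∧ (q.2 : ℝ) ≤ y ∧ y ≤ q.2 + 1 := by
  unfold Crest.Agent.R158.Sp896.sq
  simp

/-- the run under a horizontal segment of the open region -/
theorem exists_run_of {F : Finset (ℤ × ℤ)} {a b y : ℝ} (hab : a ≤ b)
    (h : ∀ x ∈ Icc a b, ((x : ℂ) + (y : ℂ) * I) ∈ Om 1 (↑F)) :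
    ∃ A B : ℤ, Run F A B ⌊y⌋ ∧ (A : ℝ) < a ∧ b < (B : ℝ) + 1 := by
  have key : ∀ (k : ℤ) (x : ℝ), x ∈ Icc a b → (k : ℝ) ≤ x → x ≤ k + 1 → (k, ⌊y⌋) ∈ F := by
    intro k x hx h1 h2
    have h3 := (mem_om one_pos).1 (h x hx) (k, ⌊y⌋) (mem_sq_iff.2
      ⟨h1, h2, Int.floor_le y, (Int.lt_floor_add_one y).le⟩)
    exact_mod_cast h3
  obtain ⟨A, B, h1, h2, hr⟩ := exists_run F (key ⌊a⌋ a (left_mem_Icc.2 hab) (Int.floor_le a)
    (Int.lt_floor_add_one a).le)
  simp only at h1 h2 hr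
  refine ⟨A, B, hr, ?_, ?_⟩
  · have h3 : (A : ℝ) ≤ a := (by exact_mod_cast h1 : (A : ℝ) ≤ ⌊a⌋).trans (Int.floor_le a)
    rcases h3.eq_or_lt with h4 | h4
    · exfalso
      exact hr.left (key (A - 1) a (left_mem_Icc.2 hab) (by push_cast; linarith)
        (by push_cast; linarith))
    · exact h4
  · by_contra hcon
    push Not at hcon
    have h5 : a ≤ (B : ℝ) + 1 := by
      have h6 : (⌊a⌋ : ℝ) ≤ B := by exact_mod_cast h2
      linarith [Int.lt_floor_add_one a]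
    exact hr.right (key (B + 1) ((B : ℝ) + 1) ⟨h5, hcon⟩ (by push_cast; linarith)
      (by push_cast; linarith))

/-- uniform constants over finitely many rows -/
theorem SliceP.unif {s : ℂ} {γ γ' : ℝ} {P : P4} (h : SliceP s γ γ' P) {a b : ℝ} (hab : a ≤ b)
    (S : Finset ℤ) :
    ∃ (h0 C : ℝ) (W : ℝ → ℝ), 0 < h0 ∧ 0 ≤ C ∧ (∀ h, 0 ≤ W h) ∧
      Tendsto (fun h => W h / h) (𝓝[>] 0) (𝓝 0) ∧
      ∀ r ∈ S, (∃ A B : ℤ, Run P.F A B r ∧ (A : ℝ) < a ∧ b < B + 1) →
      ∀ h y : ℝ, 0 < h → h < h0 → (r : ℝ) + 2 * h < y → y < (r : ℝ) + 1 - 2 * h →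
        2 * h < |y - ((r : ℝ) + 1 / 2)| →
        ∀ Ln : ℕ → ℤ, (∀ n, Even (Ln n)) → Tendsto Ln atTop atTop →
          ∃ G : ℕ → ℤ → ℤ → ℂ, CSr atTop s (fun n => 2 / (Ln n : ℝ)) G a b (y - h) (y + h) ∧
            ∀ᶠ n in atTop, ∀ i j : ℤ, a ≤ 2 / (Ln n : ℝ) * i → 2 / (Ln n : ℝ) * i ≤ b →
              y - h ≤ 2 / (Ln n : ℝ) * j → 2 / (Ln n : ℝ) * j ≤ y + h →
              ‖P.HD (Ln n) (2 * i) (2 * j) - G n i j‖ ≤
                W h + C * (eT γ γ' h |y - r| + eT γ γ' h |y - ((r : ℝ) + 1 / 2)| +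
                  eT γ γ' h |y - ((r : ℝ) + 1)|) := by
  induction S using Finset.induction_on with
  | empty =>
    refine ⟨1, 0, fun _ => 0, one_pos, le_rfl, fun _ => le_rfl, by simp, ?_⟩
    intro r hr
    exact absurd hr (Finset.notMem_empty r)
  | insert r0 S _ ih =>
    obtain ⟨h1, C1, W1, hh1, hC1, hW1, hT1, H1⟩ := ih
    by_cases hr0 : ∃ A B : ℤ, Run P.F A B r0 ∧ (A : ℝ) < a ∧ b < B + 1
    · obtain ⟨A, B, hrun, hA, hB⟩ := hr0
      obtain ⟨h2, C2, W2, hh2, hC2, hW2, hT2, H2⟩ := h A B r0 hrun a b hA hab hB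
      refine ⟨min h1 h2, C1 + C2, fun h => W1 h + W2 h, lt_min hh1 hh2, add_nonneg hC1 hC2,
        fun h => add_nonneg (hW1 h) (hW2 h), ?_, ?_⟩
      · have := hT1.add hT2
        rw [add_zero] at this
        refine this.congr fun h => ?_
        rw [add_div]
      · intro r hr hex h' y hh' hlt g1 g2 g3 Ln hev hL
        have n1 : 0 ≤ eT γ γ' h' |y - r| := eT_nonneg hh'.le (abs_nonneg _)
        have n2 : 0 ≤ eT γ γ' h' |y - ((r : ℝ) + 1 / 2)| := eT_nonneg hh'.le (abs_nonneg _)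
        have n3 : 0 ≤ eT γ γ' h' |y - ((r : ℝ) + 1)| := eT_nonneg hh'.le (abs_nonneg _)
        rcases Finset.mem_insert.1 hr with rfl | hr
        · obtain ⟨G, q1, q2⟩ := H2 h' y hh' (hlt.trans_le (min_le_right _ _)) g1 g2 g3 Ln hev hL
          refine ⟨G, q1, ?_⟩
          filter_upwards [q2] with n hn i j k1 k2 k3 k4
          refine (hn i j k1 k2 k3 k4).trans ?_
          have := hW1 h'
          nlinarith
        · obtain ⟨G, q1, q2⟩ := H1 r hr hex h' y hh' (hlt.trans_le (min_le_left _ _)) g1 g2 g3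
            Ln hev hL
          refine ⟨G, q1, ?_⟩
          filter_upwards [q2] with n hn i j k1 k2 k3 k4
          refine (hn i j k1 k2 k3 k4).trans ?_
          have := hW2 h'
          nlinarith
    · refine ⟨h1, C1, W1, hh1, hC1, hW1, hT1, ?_⟩
      intro r hr hex
      rcases Finset.mem_insert.1 hr with rfl | hr
      · exact absurd hex hr0
      · exact H1 r hr hex

/-- bad heights: all `k / 2` in a range -/
def badH (c e : ℝ) : Finset ℝ :=
  (Finset.Icc (⌊2 * c⌋ - 2) (⌈2 * e⌉ + 4)).image fun k : ℤ => (k : ℝ) / 2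

lemma mem_badH {c e : ℝ} {k : ℤ} (h1 : 2 * c - 2 ≤ k) (h2 : (k : ℝ) ≤ 2 * e + 4) :
    (k : ℝ) / 2 ∈ badH c e := by
  unfold badH
  refine Finset.mem_image_of_mem _ (Finset.mem_Icc.2 ⟨?_, ?_⟩)
  · have h3 := Int.floor_le (2 * c)
    have : ((⌊2 * c⌋ - 2 : ℤ) : ℝ) ≤ (k : ℝ) := by push_cast; linarith
    exact_mod_cast this
  · have h3 := Int.le_ceil (2 * e)
    have : (k : ℝ) ≤ ((⌈2 * e⌉ + 4 : ℤ) : ℝ) := by push_cast; linarith
    exact_mod_cast this

lemma dpos {Ln : ℕ → ℤ} (hL : Tendsto Ln atTop atTop) : ∀ᶠ n in atTop, 0 < 2 / (Ln n : ℝ) := by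
  filter_upwards [hL.eventually (eventually_ge_atTop 1)] with n hn
  have : (1 : ℝ) ≤ Ln n := by exact_mod_cast hn
  positivity

lemma dlim {Ln : ℕ → ℤ} (hL : Tendsto Ln atTop atTop) :
    Tendsto (fun n => 2 / (Ln n : ℝ)) atTop (𝓝 0) := by
  have h1 : Tendsto (fun n => (Ln n : ℝ)) atTop atTop := tendsto_intCast_atTop_iff.2 hL
  exact h1.const_div_atTop 2

lemma mpos_eq (L x y : ℤ) : mpos L x y = (((x : ℝ) / L : ℝ) : ℂ) + (((y : ℝ) / L : ℝ) : ℂ) * I := by
  apply Complex.ext <;> simp [mpos]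

/-- **`SliceP` and `OscP` imply contour sums for one polygon** -/
theorem cs_of_slices {s : ℂ} (hs : ‖s‖ ≤ 1) {γ γ' : ℝ} (hγ' : 0 < γ') (hγ : γ' < γ) {P : P4}
    (h : SliceP s γ γ' P) (ho : OscP P) {a b c e : ℝ} (hab : a ≤ b) (hce : c ≤ e)
    (hR : ∀ x ∈ Icc a b, ∀ y ∈ Icc c e, ((x : ℂ) + (y : ℂ) * I) ∈ P.Om) {Ln : ℕ → ℤ}
    (hev : ∀ n, Even (Ln n)) (hL : Tendsto Ln atTop atTop) :
    CSr atTop s (fun n => 2 / (Ln n : ℝ)) (fun n i j => P.HD (Ln n) (2 * i) (2 * j)) a b c e := by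
  -- distance to the complement
  set R : Set ℂ := Icc a b ×ℂ Icc c e with hRdef
  have hRc : IsCompact R := (isCompact_Icc).reProdIm isCompact_Icc
  have hRO : R ⊆ P.Om := by
    intro z hz
    rw [hRdef, Complex.mem_reProdIm] at hz
    have := hR z.re hz.1 z.im hz.2
    rwa [Complex.re_add_im] at this
  have hopen : IsOpen P.Om := om_open 1 _
  obtain ⟨r0, hr0, hball⟩ := hRc.exists_thickening_subset_open hopen hRO
  have hball' : ∀ x y : ℝ, a ≤ x → x ≤ b → ∀ t, c ≤ t → t ≤ e → |y - t| < r0 / 2 →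
      ball ((x : ℂ) + (y : ℂ) * I) (r0 / 2) ⊆ P.Om := by
    intro x y hx1 hx2 t ht1 ht2 hyt w hw
    refine hball (mem_thickening_iff.2 ⟨(x : ℂ) + (t : ℂ) * I, ?_, ?_⟩)
    · rw [hRdef, Complex.mem_reProdIm]
      simp [hx1, hx2, ht1, ht2]
    · have h1 : dist w ((x : ℂ) + (y : ℂ) * I) < r0 / 2 := hw
      have h2 : dist ((x : ℂ) + (y : ℂ) * I) ((x : ℂ) + (t : ℂ) * I) < r0 / 2 := by
        rw [dist_eq_norm]
        have e1 : (x : ℂ) + (y : ℂ) * I - ((x : ℂ) + (t : ℂ) * I) = ((y - t : ℝ) : ℂ) * I := by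
          push_cast; ring
        rw [e1, norm_mul, Complex.norm_I, mul_one, Complex.norm_real, Real.norm_eq_abs]
        exact hyt
      linarith [dist_triangle w ((x : ℂ) + (y : ℂ) * I) ((x : ℂ) + (t : ℂ) * I)]
  obtain ⟨h0, C, W, hh0, hC, hW, hT, H⟩ := h.unif (b := b) hab (Finset.Icc (⌊c⌋ - 1) (⌈e⌉ + 1))
  refine CSr_assemble hs (dpos hL) (dlim hL) hab hce (h0 := min h0 1) (lt_min hh0 one_pos) W hW hT
    (badH c e) hC hγ' hγ ?_ ?_
  · intro h' hh' hlt y hy1 hy2 hfar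
    have hle1 : h' < 1 := hlt.trans_le (min_le_right _ _)
    set r : ℤ := ⌊y⌋ with hr
    have hr1 : (r : ℝ) ≤ y := Int.floor_le y
    have hr2 : y < r + 1 := Int.lt_floor_add_one y
    have m0 : (r : ℝ) ∈ badH c e := by
      have := mem_badH (c := c) (e := e) (k := 2 * r) (by push_cast; linarith)
        (by push_cast; linarith)
      rwa [show ((2 * r : ℤ) : ℝ) / 2 = r by push_cast; ring] at this
    have m1 : (r : ℝ) + 1 / 2 ∈ badH c e := by
      have := mem_badH (c := c) (e := e) (k := 2 * r + 1) (by push_cast; linarith)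
        (by push_cast; linarith)
      rwa [show ((2 * r + 1 : ℤ) : ℝ) / 2 = (r : ℝ) + 1 / 2 by push_cast; ring] at this
    have m2 : (r : ℝ) + 1 ∈ badH c e := by
      have := mem_badH (c := c) (e := e) (k := 2 * r + 2) (by push_cast; linarith)
        (by push_cast; linarith)
      rwa [show ((2 * r + 2 : ℤ) : ℝ) / 2 = (r : ℝ) + 1 by push_cast; ring] at this
    have f0 := hfar _ m0
    have f1 := hfar _ m1
    have f2 := hfar _ m2
    rw [abs_of_nonneg (by linarith)] at f0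
    rw [abs_of_nonpos (by linarith)] at f2
    -- the row contains a point of the rectangle
    have hyy : ∃ y', y' ∈ Icc c e ∧ ⌊y'⌋ = r := by
      rcases le_total y e with hye | hye
      · exact ⟨y, ⟨hy1, hye⟩, rfl⟩
      · refine ⟨e, ⟨hce, le_rfl⟩, ?_⟩
        rw [Int.floor_eq_iff]
        constructor <;> linarith
    obtain ⟨y', hy', hfl⟩ := hyy
    obtain ⟨A, B, hrun, hA, hB⟩ := exists_run_of hab fun x hx => hR x hx y' hy'
    rw [hfl] at hrun
    have hrS : r ∈ Finset.Icc (⌊c⌋ - 1) (⌈e⌉ + 1) := by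
      rw [Finset.mem_Icc]
      constructor
      · have h3 := Int.floor_le c
        have : ((⌊c⌋ - 1 : ℤ) : ℝ) < (r + 1 : ℤ) := by push_cast; linarith
        have : ⌊c⌋ - 1 < r + 1 := by exact_mod_cast this
        have h4 : ⌊c⌋ ≤ ⌊y⌋ := Int.floor_le_floor hy1
        omega
      · have h3 := Int.le_ceil e
        have : (r : ℝ) ≤ ((⌈e⌉ + 1 : ℤ) : ℝ) := by push_cast; linarith
        exact_mod_cast this
    obtain ⟨G, q1, q2⟩ := H r hrS ⟨A, B, hrun, hA, hB⟩ h' y hh' (hlt.trans_le (min_le_left _ _))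
      (by linarith) (by linarith) f1 Ln hev hL
    refine ⟨G, q1, ?_⟩
    filter_upwards [q2] with n hn i j k1 k2 k3 k4
    refine (hn i j k1 k2 k3 k4).trans ?_
    refine add_le_add le_rfl (mul_le_mul_of_nonneg_left ?_ hC)
    have hsub : ({(r : ℝ), (r : ℝ) + 1 / 2, (r : ℝ) + 1} : Finset ℝ) ⊆ badH c e := by
      intro t ht
      simp only [Finset.mem_insert, Finset.mem_singleton] at ht
      rcases ht with rfl | rfl | rfl
      · exact m0
      · exact m1
      · exact m2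
    have hsum := Finset.sum_le_sum_of_subset_of_nonneg
      (f := fun t => (h' / (h' + |y - t|)) ^ (1 + γ) * (h' + |y - t|) ^ γ') hsub
      (fun t _ _ => by positivity)
    refine le_trans (le_of_eq ?_) hsum
    rw [Finset.sum_insert, Finset.sum_insert, Finset.sum_singleton]
    · unfold eT
      ring
    · simp only [Finset.mem_singleton]
      intro hcon; linarith
    · simp only [Finset.mem_insert, Finset.mem_singleton, not_or]
      constructor <;> (intro hcon; linarith)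
  · intro t ht ht1 ht2 ε hε
    unfold badH at ht
    rw [Finset.mem_image] at ht
    obtain ⟨k, -, rfl⟩ := ht
    obtain ⟨h1, hh1, L0, hosc⟩ := ho k (r0 / 2) (ε / 2 / ((b - a) + 1)) (by positivity)
      (by have : 0 < (b - a) + 1 := by linarith
          positivity)
    have hb1 : 0 < (b - a) + 1 := by linarith
    set h2 : ℝ := min h1 (min (r0 / 4) (ε / 16)) with hh2
    have p1 : h2 ≤ h1 := min_le_left _ _
    have p2 : h2 ≤ r0 / 4 := (min_le_right _ _).trans (min_le_left _ _)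
    have p3 : h2 ≤ ε / 16 := (min_le_right _ _).trans (min_le_right _ _)
    have p0 : 0 < h2 := lt_min hh1 (lt_min (by positivity) (by positivity))
    refine ⟨h2, p0, ?_⟩
    have hmain := CSd_of_osc (l := atTop) hs (dpos hL)
      (H := fun n i j => P.HD (Ln n) (2 * i) (2 * j)) (a := a) (b := b)
      (c := (k : ℝ) / 2 - h2) (e := (k : ℝ) / 2 + h2)
      (w := ε / 2 / ((b - a) + 1)) (B0 := 1) (by positivity) zero_le_one
      (Eventually.of_forall fun n i j _ _ _ _ => Ob664.norm_HD_le _ _ _ _ _) ?_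
    · refine hmain.mono le_rfl le_rfl le_rfl le_rfl ?_
      have e1 : (b - a) * (ε / 2 / ((b - a) + 1)) ≤ ε / 2 := by
        rw [mul_div_assoc', div_le_iff₀ hb1]
        nlinarith
      linarith
    · filter_upwards [hL.eventually (eventually_ge_atTop L0), hL.eventually (eventually_ge_atTop 1)]
        with n hn hn1 i j j' g1 g2 g3 g4 g5 g6
      have hLp : (0 : ℝ) < Ln n := by
        have : (1 : ℝ) ≤ Ln n := by exact_mod_cast hn1
        linarith
      have ex : ∀ i : ℤ, ((2 * i : ℤ) : ℝ) / (Ln n : ℝ) = 2 / (Ln n : ℝ) * i := by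
        intro i; push_cast; ring
      have d1 : |((2 * j : ℤ) : ℝ) / (Ln n : ℝ) - (k : ℝ) / 2| ≤ h2 := by
        rw [ex, abs_le]; constructor <;> linarith
      have d2 : |((2 * j' : ℤ) : ℝ) / (Ln n : ℝ) - (k : ℝ) / 2| ≤ h2 := by
        rw [ex, abs_le]; constructor <;> linarith
      refine hosc (Ln n) hn (hev n) (2 * i) (2 * j) (2 * j') (d1.trans p1) (d2.trans p1) ?_ ?_
      · rw [mpos_eq, ex i]
        exact hball' _ _ g1 g2 _ ht1 ht2 (by linarith)
      · rw [mpos_eq, ex i]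
        exact hball' _ _ g1 g2 _ ht1 ht2 (by linarith)

/-- **`Q1` from slices** -/
theorem Q1_of_slices (an : Bool) {γ γ' : ℝ} (hγ' : 0 < γ') (hγ : γ' < γ)
    (h : ∀ P : P4, SliceP (sg an) γ γ' P) (ho : ∀ P : P4, OscP P) : Q1 an := by
  intro P x1 x2 y1 y2 hx hy hR Ln hev hL
  refine cs_of_slices ?_ hγ' hγ (h P) (ho P) hx hy hR hev hL
  cases an <;> simp [sg]

end

end Crest.Agent.R158.Cs410
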