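import Crest.Agent.R158.Tj7_656
import Crest.Agent.R158.Csf_410

/-!
# R158, Q1 = assembly (helper410), part 2: the target `Q1m` of 656

* `SliceU s P` : for every macroscopic run `[A, B]` of `P` at height `r`, every `a ≤ b` inside it, every
  `[c, e]` inside one half row, thin slices centred in `[c, e]`: comparison function with error
  `W h = o(h)`
* `OscM P` : **the official form of BL**, rows `L ∣ y` excluded
* `Q1m_of_slices : (∀ P, SliceU (sg an) P) → (∀ P, OscM P) → Q1m an`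
-/

set_option autoImplicit false

open Filter Topology Set Metric
open Complex (I)

namespace Crest.Agent.R158.Cs410

open Crest.Agent.R158.Wl290 (CSr sg)
open Crest.Agent.R158.Sp896 (V)
open Crest.Agent.R158.Env664 (Run exists_run)
open Crest.Agent.R158.Tj656 (P4 Om mpos Q1 Q1m mem_om om_open)

noncomputable section

/-- half row: `[c, e]` lies inside `(r, r + 1/2)` or inside `(r + 1/2, r + 1)` -/
def InHalf (r : ℤ) (c e : ℝ) : Prop :=
  ((r : ℝ) < c ∧ e < (r : ℝ) + 1 / 2) ∨ ((r : ℝ) + 1 / 2 < c ∧ e < (r : ℝ) + 1)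

/-- **slices** -/
def SliceU (s : ℂ) (P : P4) : Prop :=
  ∀ A B r : ℤ, Run P.F A B r → ∀ a b : ℝ, (A : ℝ) < a → a ≤ b → b < B + 1 →
    ∀ c e : ℝ, c ≤ e → InHalf r c e →
    ∃ (h0 : ℝ) (W : ℝ → ℝ), 0 < h0 ∧ (∀ h, 0 ≤ W h) ∧
      Tendsto (fun h => W h / h) (𝓝[>] 0) (𝓝 0) ∧
      ∀ h y : ℝ, 0 < h → h < h0 → c ≤ y → y ≤ e →
        ∀ Ln : ℕ → ℤ, (∀ n, Even (Ln n)) → Tendsto Ln atTop atTop →
          ∃ G : ℕ → ℤ → ℤ → ℂ, CSr atTop s (fun n => 2 / (Ln n : ℝ)) G a b (y - h) (y + h) ∧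
            ∀ᶠ n in atTop, ∀ i j : ℤ, a ≤ 2 / (Ln n : ℝ) * i → 2 / (Ln n : ℝ) * i ≤ b →
              y - h ≤ 2 / (Ln n : ℝ) * j → 2 / (Ln n : ℝ) * j ≤ y + h →
              ‖P.HD (Ln n) (2 * i) (2 * j) - G n i j‖ ≤ W h

/-- **BL, official form**: small vertical oscillation in thin slabs around the heights `k / 2` -/
def OscM (P : P4) : Prop :=
  ∀ (k : ℤ) (r0 ε : ℝ), 0 < r0 → 0 < ε → ∃ h : ℝ, 0 < h ∧ ∃ L0 : ℤ, ∀ L : ℤ, L0 ≤ L → Even L →
    ∀ x y y' : ℤ, ¬ L ∣ y → ¬ L ∣ y' → |(y : ℝ) / L - k / 2| ≤ h → |(y' : ℝ) / L - k / 2| ≤ h →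
      ball (mpos L x y) r0 ⊆ P.Om → ball (mpos L x y') r0 ⊆ P.Om →
      ‖P.HD L x y - P.HD L x y'‖ ≤ ε

/-- closeness transfers `CSr` -/
theorem csr_congr {ι : Type*} {l : Filter ι} {s : ℂ} {d : ι → ℝ} {H H' : ι → ℤ → ℤ → ℂ}
    {a b c e : ℝ} (h : CSr l s d H a b c e) (hd : ∀ᶠ n in l, 0 < d n)
    (heq : ∀ᶠ n in l, ∀ i j : ℤ, a ≤ d n * i → d n * i ≤ b → c ≤ d n * j → d n * j ≤ e →
      H' n i j = H n i j) : CSr l s d H' a b c e := by
  intro ε hε
  filter_upwards [h ε hε, heq, hd] with n hn he hdn i1 i2 j1 j2 hi hj g1 g2 g3 g4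
  have hib : (i1 : ℝ) ≤ i2 := by exact_mod_cast hi
  have hjb : (j1 : ℝ) ≤ j2 := by exact_mod_cast hj
  have e1 : Wl290.csum s (H' n) i1 i2 j1 j2 = Wl290.csum s (H n) i1 i2 j1 j2 := by
    unfold Wl290.csum
    congr 1
    · refine Finset.sum_congr rfl fun i hi' => ?_
      rw [Finset.mem_Ico] at hi'
      have q1 : (i1 : ℝ) ≤ i := by exact_mod_cast hi'.1
      have q2 : (i : ℝ) ≤ i2 := by exact_mod_cast hi'.2.le
      rw [he i j2 (by nlinarith) (by nlinarith) (by nlinarith) g4,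
        he i j1 (by nlinarith) (by nlinarith) g3 (by nlinarith)]
    · congr 1
      refine Finset.sum_congr rfl fun j hj' => ?_
      rw [Finset.mem_Ico] at hj'
      have q1 : (j1 : ℝ) ≤ j := by exact_mod_cast hj'.1
      have q2 : (j : ℝ) ≤ j2 := by exact_mod_cast hj'.2.le
      rw [he i2 j (by nlinarith) g2 (by nlinarith) (by nlinarith),
        he i1 j g1 (by nlinarith) (by nlinarith) (by nlinarith)]
  rw [e1]
  exact hn i1 i2 j1 j2 hi hj g1 g2 g3 g4

/-- **closed rectangles inside a half row** -/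
theorem half_row {s : ℂ} (hs : ‖s‖ ≤ 1) {P : P4} (h : SliceU s P) {A B r : ℤ}
    (hr : Run P.F A B r) {a b : ℝ} (hA : (A : ℝ) < a) (hab : a ≤ b) (hB : b < B + 1) {c e : ℝ}
    (hce : c ≤ e) (hc : InHalf r c e) {Ln : ℕ → ℤ} (hev : ∀ n, Even (Ln n))
    (hL : Tendsto Ln atTop atTop) :
    CSr atTop s (fun n => 2 / (Ln n : ℝ)) (fun n i j => P.HD (Ln n) (2 * i) (2 * j)) a b c e := by
  obtain ⟨e', he, hc'⟩ : ∃ e' : ℝ, e < e' ∧ InHalf r c e' := by
    rcases hc with ⟨h1, h2⟩ | ⟨h1, h2⟩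
    · exact ⟨(e + ((r : ℝ) + 1 / 2)) / 2, by linarith, Or.inl ⟨h1, by linarith⟩⟩
    · exact ⟨(e + ((r : ℝ) + 1)) / 2, by linarith, Or.inr ⟨h1, by linarith⟩⟩
  obtain ⟨h0, W, hh0, hW, hT, H⟩ := h A B r hr a b hA hab hB c e' (hce.trans he.le) hc'
  refine CSr_assemble hs (dpos hL) (dlim hL) hab hce (h0 := min h0 (e' - e))
    (lt_min hh0 (sub_pos.2 he)) W hW hT ∅ le_rfl (γ := 2) (γ' := 1) one_pos (by norm_num) ?_ ?_
  · intro h' hh' hlt y hy1 hy2 _
    have g1 := hlt.trans_le (min_le_left _ _)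
    have g2 := hlt.trans_le (min_le_right _ _)
    obtain ⟨G, q1, q2⟩ := H h' y hh' g1 hy1 (by linarith) Ln hev hL
    refine ⟨G, q1, ?_⟩
    filter_upwards [q2] with n hn i j k1 k2 k3 k4
    simpa using hn i j k1 k2 k3 k4
  · intro t ht
    exact absurd ht (Finset.notMem_empty t)

/-- a height at positive distance from all half integers lies in one half row, with its slice -/
lemma inHalf_of {y h : ℝ} (h0 : 2 * h < |y - (⌊y⌋ : ℝ)|) (h1 : 2 * h < |y - ((⌊y⌋ : ℝ) + 1 / 2)|)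
    (h2 : 2 * h < |y - ((⌊y⌋ : ℝ) + 1)|) (hh : 0 < h) : InHalf ⌊y⌋ (y - h) (y + h) := by
  have hr1 : (⌊y⌋ : ℝ) ≤ y := Int.floor_le y
  have hr2 : y < ⌊y⌋ + 1 := Int.lt_floor_add_one y
  rw [abs_of_nonneg (by linarith)] at h0
  rw [abs_of_nonpos (by linarith)] at h2
  rcases le_total y ((⌊y⌋ : ℝ) + 1 / 2) with hy | hy
  · rw [abs_of_nonpos (by linarith)] at h1
    exact Or.inl ⟨by linarith, by linarith⟩
  · rw [abs_of_nonneg (by linarith)] at h1
    exact Or.inr ⟨by linarith, by linarith⟩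

/-- on a half row no lattice row is a multiple of `L` -/
lemma not_dvd_of {r L j : ℤ} {c e : ℝ} (h : InHalf r c e) (hL : 0 < L) (h1 : c ≤ (j : ℝ) / L)
    (h2 : (j : ℝ) / L ≤ e) : ¬ L ∣ j := by
  rintro ⟨k, rfl⟩
  have hLp : (L : ℝ) ≠ 0 := by exact_mod_cast hL.ne'
  rw [Int.cast_mul, mul_div_cancel_left₀ _ hLp] at h1 h2
  have h3 : (r : ℝ) < k := by rcases h with ⟨a1, a2⟩ | ⟨a1, a2⟩ <;> linarith
  have h4 : (k : ℝ) < r + 1 := by rcases h with ⟨a1, a2⟩ | ⟨a1, a2⟩ <;> linarith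
  have h5 : r < k := by exact_mod_cast h3
  have h6 : k < r + 1 := by exact_mod_cast h4
  omega

set_option maxHeartbeats 1000000 in
/-- **`SliceU` and `OscM` imply contour sums for one polygon** -/
theorem csm_of_slices {s : ℂ} (hs : ‖s‖ ≤ 1) {P : P4} (h : SliceU s P) (ho : OscM P)
    {a b c e : ℝ} (hab : a ≤ b) (hce : c ≤ e)
    (hR : ∀ x ∈ Icc a b, ∀ y ∈ Icc c e, ((x : ℂ) + (y : ℂ) * I) ∈ P.Om) {Ln : ℕ → ℤ}
    (hev : ∀ n, Even (Ln n)) (hL : Tendsto Ln atTop atTop) :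
    CSr atTop s (fun n => 2 / (Ln n : ℝ)) (fun n i j => P.HM (Ln n) (2 * i) (2 * j)) a b c e := by
  -- distance to the complement
  set R : Set ℂ := Icc a b ×ℂ Icc c e with hRdef
  have hRc : IsCompact R := (isCompact_Icc).reProdIm isCompact_Icc
  have hRO : R ⊆ P.Om := by
    intro z hz
    rw [hRdef, Complex.mem_reProdIm] at hz
    have := hR z.re hz.1 z.im hz.2
    rwa [Complex.re_add_im] at this
  have hopen : IsOpen P.Om := om_open 1 _
  obtain ⟨r0, hr0, hball⟩ := hRc.exists_thickening_subset_open hopen hRO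
  have hball' : ∀ x y : ℝ, a ≤ x → x ≤ b → ∀ t, c ≤ t → t ≤ e → |y - t| < r0 / 2 →
      ball ((x : ℂ) + (y : ℂ) * I) (r0 / 2) ⊆ P.Om := by
    intro x y hx1 hx2 t ht1 ht2 hyt w hw
    refine hball (mem_thickening_iff.2 ⟨(x : ℂ) + (t : ℂ) * I, ?_, ?_⟩)
    · rw [hRdef, Complex.mem_reProdIm]
      simp [hx1, hx2, ht1, ht2]
    · have h1 : dist w ((x : ℂ) + (y : ℂ) * I) < r0 / 2 := hw
      have h2 : dist ((x : ℂ) + (y : ℂ) * I) ((x : ℂ) + (t : ℂ) * I) < r0 / 2 := by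
        rw [dist_eq_norm]
        have e1 : (x : ℂ) + (y : ℂ) * I - ((x : ℂ) + (t : ℂ) * I) = ((y - t : ℝ) : ℂ) * I := by
          push_cast; ring
        rw [e1, norm_mul, Complex.norm_I, mul_one, Complex.norm_real, Real.norm_eq_abs]
        exact hyt
      linarith [dist_triangle w ((x : ℂ) + (y : ℂ) * I) ((x : ℂ) + (t : ℂ) * I)]
  refine CSr_assemble hs (dpos hL) (dlim hL) hab hce (h0 := 1) one_pos (fun _ => 0)
    (fun _ => le_rfl) (by simp) (badH c e) le_rfl (γ := 2) (γ' := 1) one_pos (by norm_num) ?_ ?_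
  · intro h' hh' hle1 y hy1 hy2 hfar
    set r : ℤ := ⌊y⌋ with hr
    have hr1 : (r : ℝ) ≤ y := Int.floor_le y
    have hr2 : y < r + 1 := Int.lt_floor_add_one y
    have m0 : (r : ℝ) ∈ badH c e := by
      have := mem_badH (c := c) (e := e) (k := 2 * r) (by push_cast; linarith)
        (by push_cast; linarith)
      rwa [show ((2 * r : ℤ) : ℝ) / 2 = r by push_cast; ring] at this
    have m1 : (r : ℝ) + 1 / 2 ∈ badH c e := by
      have := mem_badH (c := c) (e := e) (k := 2 * r + 1) (by push_cast; linarith)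
        (by push_cast; linarith)
      rwa [show ((2 * r + 1 : ℤ) : ℝ) / 2 = (r : ℝ) + 1 / 2 by push_cast; ring] at this
    have m2 : (r : ℝ) + 1 ∈ badH c e := by
      have := mem_badH (c := c) (e := e) (k := 2 * r + 2) (by push_cast; linarith)
        (by push_cast; linarith)
      rwa [show ((2 * r + 2 : ℤ) : ℝ) / 2 = (r : ℝ) + 1 by push_cast; ring] at this
    have hIn : InHalf r (y - h') (y + h') := inHalf_of (hfar _ m0) (hfar _ m1) (hfar _ m2) hh'
    have f0 := hfar _ m0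
    have f2 := hfar _ m2
    rw [abs_of_nonneg (by linarith)] at f0
    rw [abs_of_nonpos (by linarith)] at f2
    -- the row contains a point of the rectangle
    have hyy : ∃ y', y' ∈ Icc c e ∧ ⌊y'⌋ = r := by
      rcases le_total y e with hye | hye
      · exact ⟨y, ⟨hy1, hye⟩, rfl⟩
      · refine ⟨e, ⟨hce, le_rfl⟩, ?_⟩
        rw [Int.floor_eq_iff]
        constructor <;> linarith
    obtain ⟨y', hy', hfl⟩ := hyy
    obtain ⟨A, B, hrun, hA, hB⟩ := exists_run_of hab fun x hx => hR x hx y' hy'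
    rw [hfl] at hrun
    refine ⟨fun n i j => P.HM (Ln n) (2 * i) (2 * j), ?_, ?_⟩
    · refine csr_congr (half_row hs h hrun hA hab hB (by linarith) hIn hev hL) (dpos hL) ?_
      filter_upwards [hL.eventually (eventually_ge_atTop 1)] with n hn i j g1 g2 g3 g4
      refine Tj656.HM_of (not_dvd_of hIn (by omega) ?_ ?_)
      · push_cast; rw [mul_div_right_comm]; exact g3
      · push_cast; rw [mul_div_right_comm]; exact g4
    · exact Eventually.of_forall fun n i j _ _ _ _ => by simp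
  · intro t ht ht1 ht2 ε hε
    unfold badH at ht
    rw [Finset.mem_image] at ht
    obtain ⟨k, -, rfl⟩ := ht
    have hb1 : 0 < (b - a) + 1 := by linarith
    obtain ⟨h1, hh1, L0, hosc⟩ := ho k (r0 / 2) (ε / 2 / ((b - a) + 1)) (by positivity)
      (by positivity)
    set h2 : ℝ := min (h1 / 2) (min (r0 / 8) (ε / 16)) with hh2
    have p1 : h2 ≤ h1 / 2 := min_le_left _ _
    have p2 : h2 ≤ r0 / 8 := (min_le_right _ _).trans (min_le_left _ _)
    have p3 : h2 ≤ ε / 16 := (min_le_right _ _).trans (min_le_right _ _)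
    have p0 : 0 < h2 := lt_min (by positivity) (lt_min (by positivity) (by positivity))
    refine ⟨h2, p0, ?_⟩
    have hmain := CSd_of_osc (l := atTop) hs (dpos hL)
      (H := fun n i j => P.HM (Ln n) (2 * i) (2 * j)) (a := a) (b := b)
      (c := (k : ℝ) / 2 - h2) (e := (k : ℝ) / 2 + h2)
      (w := ε / 2 / ((b - a) + 1)) (B0 := 1) (by positivity) zero_le_one
      (Eventually.of_forall fun n i j _ _ _ _ => Ob664.norm_le_of_Tri (Tj656.HM_mem _ _ _ _)) ?_
    · refine hmain.mono le_rfl le_rfl le_rfl le_rfl ?_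
      have e1 : (b - a) * (ε / 2 / ((b - a) + 1)) ≤ ε / 2 := by
        rw [mul_div_assoc', div_le_iff₀ hb1]
        nlinarith
      linarith
    · have hd2 := (dlim hL).eventually (gt_mem_nhds p0)
      filter_upwards [hL.eventually (eventually_ge_atTop L0), hL.eventually (eventually_ge_atTop 3),
        hd2] with n hn hn1 hdn i j j' g1 g2 g3 g4 g5 g6
      have hLp : (0 : ℝ) < Ln n := by
        have : (3 : ℝ) ≤ Ln n := by exact_mod_cast hn1
        linarith
      -- the row that is used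
      have key : ∀ j : ℤ, (k : ℝ) / 2 - h2 ≤ 2 / (Ln n : ℝ) * j →
          2 / (Ln n : ℝ) * j ≤ (k : ℝ) / 2 + h2 → ∃ y : ℤ, ¬ Ln n ∣ y ∧
            P.HM (Ln n) (2 * i) (2 * j) = P.HD (Ln n) (2 * i) y ∧
            |(y : ℝ) / (Ln n : ℝ) - (k : ℝ) / 2| ≤ 2 * h2 := by
        intro j q1 q2
        by_cases hdv : Ln n ∣ 2 * j
        · refine ⟨2 * j + 2, ?_, if_pos hdv, ?_⟩
          · intro h3
            have h4 := (Int.dvd_iff_dvd_of_dvd_add h3).1 hdv
            have h5 := Int.le_of_dvd (by norm_num) h4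
            omega
          · have e1 : ((2 * j + 2 : ℤ) : ℝ) / (Ln n : ℝ) = 2 / (Ln n : ℝ) * j + 2 / (Ln n : ℝ) := by
              push_cast; ring
            rw [e1, abs_le]
            have e2 : 0 < 2 / (Ln n : ℝ) := by positivity
            constructor <;> linarith
        · refine ⟨2 * j, hdv, if_neg hdv, ?_⟩
          have e1 : ((2 * j : ℤ) : ℝ) / (Ln n : ℝ) = 2 / (Ln n : ℝ) * j := by
            push_cast; ring
          rw [e1, abs_le]
          constructor <;> linarith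
      obtain ⟨y, v1, v2, v3⟩ := key j g3 g4
      obtain ⟨y', w1, w2, w3⟩ := key j' g5 g6
      have ex : ((2 * i : ℤ) : ℝ) / (Ln n : ℝ) = 2 / (Ln n : ℝ) * i := by
        push_cast; ring
      rw [v2, w2]
      refine hosc (Ln n) hn (hev n) (2 * i) y y' v1 w1 (v3.trans (by linarith))
        (w3.trans (by linarith)) ?_ ?_
      · rw [mpos_eq, ex]
        exact hball' _ _ g1 g2 _ ht1 ht2 (by linarith)
      · rw [mpos_eq, ex]
        exact hball' _ _ g1 g2 _ ht1 ht2 (by linarith)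

/-- **`Q1m` from slices** -/
theorem Q1m_of_slices (an : Bool) (h : ∀ P : P4, SliceU (sg an) P) (ho : ∀ P : P4, OscM P) :
    Q1m an := by
  intro P x1 x2 y1 y2 hx hy hR Ln hev hL
  refine csm_of_slices ?_ (h P) (ho P) hx hy hR hev hL
  cases an <;> simp [sg]

end

end Crest.Agent.R158.Cs410
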