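import Crest.Agent.R158.Hw1_949

/-!
# Row 158 (helper949), BLOCK BL: words and marks of a polygon, 2

* `dir d` : step across the side `d`
* `mtl_cell`, `mtl_nb` : the tile of a mark lies in its cell, the tile in front of it in the neighbour cell
* **`mkS_out`** : in the region `shD F H L δ ∪ S` the carried mark is a tile, the tile in front is not
* **`mkS_free`** : it is a free port of `beD`; `gw_mem` : free ports of a good word; **`mkS_mem`**
-/

set_option autoImplicit false
set_option linter.unusedVariables false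

noncomputable section

namespace Crest.Agent.R158.Hw949

open Crest.Agent.R158.Sw300 (Port Wd L Ok pos cyc)
open Crest.Agent.R158.Env664
open Crest.Agent.R158.Ob664 (Gl GW HW HG)
open Crest.Agent.R158.Sp896 (V Adj Cyc Con lc rc)
open Crest.Agent.R158.Tj656
open Crest.Agent.R158.Hb656

/-- neighbouring tile across the side `d` -/
def nt (m : V × ZMod 4) : V := nbc m.1 m.2

theorem nt_0 (t : V) : nt (t, 0) = (t.1 - 1, t.2) := rfl
theorem nt_1 (t : V) : nt (t, 1) = (t.1, t.2 + 1) := by
  unfold nt nbc; rw [if_neg n10, if_pos rfl]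
theorem nt_2 (t : V) : nt (t, 2) = (t.1 + 1, t.2) := by
  unfold nt nbc; rw [if_neg n20, if_neg n21, if_pos rfl]
theorem nt_3 (t : V) : nt (t, 3) = (t.1, t.2 - 1) := by
  unfold nt nbc; rw [if_neg n30, if_neg n31, if_neg n32]

theorem memD' {F : Finset V} {L : ℤ} (hL : 0 < L) {x y a b : ℤ} (h1 : a * L ≤ x) (h2 : x < a * L + L)
    (h3 : b * L ≤ y) (h4 : y < b * L + L) : ((x, y) : V) ∈ D F L ↔ ((a, b) : V) ∈ F := by
  rw [mem_D hL]
  simp only
  rw [(div_iff hL _ _).2 ⟨h1, h2⟩, (div_iff hL _ _).2 ⟨h3, h4⟩]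

/-- **the carried mark is a tile of the region and the tile in front of it is not** -/
theorem mkS_out {F H : Finset V} (hHF : H ⊆ F) {L δ : ℤ} (hL : 8 ≤ L) (hev : Even L) (d0 : -1 ≤ δ)
    (d1 : δ ≤ 1) {S : Finset V} (hS : S ⊆ RL F H L δ ∨ S ⊆ LL F H L δ) {c : V} {d : ZMod 4}
    (hc : c ∈ F) (hn : nbc c d ∉ F) :
    (mkS H L δ S (mtl L c d)).1 ∈ shD F H L δ ∪ S ∧
      nt (mkS H L δ S (mtl L c d)) ∉ shD F H L δ ∪ S ∧ (mkS H L δ S (mtl L c d)).2 = d := by
  obtain ⟨m, hm⟩ := hev
  have e2 : L / 2 = m := by omega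
  have hL0 : 0 < L := by omega
  obtain ⟨a, b⟩ := c
  -- membership of a tile at the front
  have key : ∀ n : V, n ∉ D F L ∨ n ∈ D H L → (n.1 - δ, n.2) ∉ D H L → n ∉ S → n ∉ shD F H L δ ∪ S := by
    intro n h1 h2 h3 h4
    rcases Finset.mem_union.1 h4 with h4 | h4
    · rcases mem_shD.1 h4 with h5 | h5
      · rcases h1 with h1 | h1
        · exact h1 h5.1
        · exact h5.2 h1
      · exact h2 h5
    · exact h3 h4
  have keyS : ∀ n : V, ((n.1 - 1 - δ, n.2) ∉ D H L ∨ (n.1 - δ, n.2) ∈ D F L) →
      ((n.1 + 1 - δ, n.2) ∉ D H L ∨ (n.1 - δ, n.2) ∈ D F L) → n ∉ S := by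
    intro n h1 h2 h3
    rcases hS with hS | hS
    · have := mem_RL.1 (hS h3)
      tauto
    · have := mem_LL.1 (hS h3)
      tauto
  have sub : ∀ {t : V}, t ∉ F → t ∉ H := fun h h' => h (hHF h')
  rcases z4 d with rfl | rfl | rfl | rfl
  · -- west
    have hn' : ((a - 1, b) : V) ∉ F := hn
    have hH' := sub hn'
    have q : ∀ {G : Finset V} {x y : ℤ}, a * L - L ≤ x → x < a * L → b * L ≤ y → y < b * L + L →
        (((x, y) : V) ∈ D G L ↔ ((a - 1, b) : V) ∈ G) := fun h1 h2 h3 h4 =>
      memD' hL0 (by rw [sub_mul, one_mul]; exact h1) (by rw [sub_mul, one_mul]; omega) h3 h4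
    have q0 : ∀ {G : Finset V} {x y : ℤ}, a * L ≤ x → x < a * L + L → b * L ≤ y → y < b * L + L →
        (((x, y) : V) ∈ D G L ↔ ((a, b) : V) ∈ G) := fun h1 h2 h3 h4 => memD' hL0 h1 h2 h3 h4
    rw [mtl_0, e2]
    by_cases hH : ((a, b) : V) ∈ H
    · have hmem : (((a * L, b * L + m), (0 : ZMod 4)) : V × ZMod 4).1 ∈ D H L :=
        (q0 (by omega) (by omega) (by omega) (by omega)).2 hH
      unfold mkS
      rw [if_pos hmem]
      simp only [n20.symm, false_and, if_false, true_and]
      split_ifs with h1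
      · refine ⟨Finset.mem_union_right _ h1, ?_, rfl⟩
        rw [nt_0]
        refine key _ ?_ ?_ (keyS _ ?_ ?_)
        · left; rw [q (by simp only; omega) (by simp only; omega) (by omega) (by omega)]; exact hn'
        · rw [q (by simp only; omega) (by simp only; omega) (by simp only; omega) (by simp only; omega)]
          exact hH'
        · left
          rw [q (by simp only; omega) (by simp only; omega) (by simp only; omega) (by simp only; omega)]
          exact hH'
        · left
          rw [q (by simp only; omega) (by simp only; omega) (by simp only; omega) (by simp only; omega)]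
          exact hH'
      · refine ⟨Finset.mem_union_left _ (mem_shD.2 (Or.inr ?_)), ?_, rfl⟩
        · simp only [add_sub_cancel_right]
          exact hmem
        · rw [nt_0]
          refine key _ ?_ ?_ h1
          · by_cases hd : δ = 1
            · right
              rw [q0 (by simp only; omega) (by simp only; omega) (by simp only; omega)
                (by simp only; omega)]
              exact hH
            · left
              rw [q (by simp only; omega) (by simp only; omega) (by simp only; omega)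
                (by simp only; omega)]
              exact hn'
          · rw [q (by simp only; omega) (by simp only; omega) (by simp only; omega)
              (by simp only; omega)]
            exact hH'
    · have hmem : (((a * L, b * L + m), (0 : ZMod 4)) : V × ZMod 4).1 ∉ D H L := fun h =>
        hH ((q0 (by omega) (by omega) (by omega) (by omega)).1 h)
      unfold mkS
      rw [if_neg hmem]
      refine ⟨Finset.mem_union_left _ (mem_shD.2 (Or.inl
        ⟨(q0 (by simp only; omega) (by simp only; omega) (by simp only; omega) (by simp only; omega)).2 hc,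
          hmem⟩)), ?_, rfl⟩
      rw [nt_0]
      have hD : ∀ x : ℤ, a * L - L ≤ x → x < a * L + L → ((x, b * L + m) : V) ∉ D H L := by
        intro x h1 h2 h3
        by_cases h4 : x < a * L
        · exact hH' ((q h1 h4 (by omega) (by omega)).1 h3)
        · exact hH ((q0 (by omega) h2 (by omega) (by omega)).1 h3)
      refine key _ ?_ ?_ (keyS _ (Or.inl ?_) (Or.inl ?_))
      · left
        rw [q (by simp only; omega) (by simp only; omega) (by simp only; omega) (by simp only; omega)]
        exact hn'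
      all_goals exact hD _ (by simp only; omega) (by simp only; omega)
  · -- north
    have hn' : ((a, b + 1) : V) ∉ F := hn
    have hH' := sub hn'
    have q : ∀ {G : Finset V} {x y : ℤ}, a * L ≤ x → x < a * L + L → b * L + L ≤ y →
        y < b * L + 2 * L → (((x, y) : V) ∈ D G L ↔ ((a, b + 1) : V) ∈ G) := fun h1 h2 h3 h4 =>
      memD' hL0 h1 h2 (by rw [add_mul, one_mul]; exact h3) (by rw [add_mul, one_mul]; omega)
    have q0 : ∀ {G : Finset V} {x y : ℤ}, a * L ≤ x → x < a * L + L → b * L ≤ y → y < b * L + L →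
        (((x, y) : V) ∈ D G L ↔ ((a, b) : V) ∈ G) := fun h1 h2 h3 h4 => memD' hL0 h1 h2 h3 h4
    rw [mtl_1, e2]
    by_cases hH : ((a, b) : V) ∈ H
    · have hmem : (((a * L + m, b * L + L - 1), (1 : ZMod 4)) : V × ZMod 4).1 ∈ D H L :=
        (q0 (by omega) (by omega) (by omega) (by omega)).2 hH
      unfold mkS
      rw [if_pos hmem]
      simp only [n10, n21.symm, false_and, if_false]
      refine ⟨Finset.mem_union_left _ (mem_shD.2 (Or.inr ?_)), ?_, trivial⟩
      · simp only [add_sub_cancel_right]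
        exact hmem
      · rw [nt_1]
        refine key _ (Or.inl ?_) ?_ (keyS _ (Or.inl ?_) (Or.inl ?_))
        · rw [q (by simp only; omega) (by simp only; omega) (by simp only; omega) (by simp only; omega)]
          exact hn'
        all_goals
          rw [q (by simp only; omega) (by simp only; omega) (by simp only; omega) (by simp only; omega)]
          exact hH'
    · have hmem : (((a * L + m, b * L + L - 1), (1 : ZMod 4)) : V × ZMod 4).1 ∉ D H L := fun h =>
        hH ((q0 (by omega) (by omega) (by omega) (by omega)).1 h)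
      unfold mkS
      rw [if_neg hmem]
      refine ⟨Finset.mem_union_left _ (mem_shD.2 (Or.inl
        ⟨(q0 (by simp only; omega) (by simp only; omega) (by simp only; omega) (by simp only; omega)).2 hc,
          hmem⟩)), ?_, rfl⟩
      rw [nt_1]
      refine key _ (Or.inl ?_) ?_ (keyS _ (Or.inl ?_) (Or.inl ?_))
      · rw [q (by simp only; omega) (by simp only; omega) (by simp only; omega) (by simp only; omega)]
        exact hn'
      all_goals
        rw [q (by simp only; omega) (by simp only; omega) (by simp only; omega) (by simp only; omega)]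
        exact hH'
  · -- east
    have hn' : ((a + 1, b) : V) ∉ F := hn
    have hH' := sub hn'
    have q : ∀ {G : Finset V} {x y : ℤ}, a * L + L ≤ x → x < a * L + 2 * L → b * L ≤ y →
        y < b * L + L → (((x, y) : V) ∈ D G L ↔ ((a + 1, b) : V) ∈ G) := fun h1 h2 h3 h4 =>
      memD' hL0 (by rw [add_mul, one_mul]; exact h1) (by rw [add_mul, one_mul]; omega) h3 h4
    have q0 : ∀ {G : Finset V} {x y : ℤ}, a * L ≤ x → x < a * L + L → b * L ≤ y → y < b * L + L →
        (((x, y) : V) ∈ D G L ↔ ((a, b) : V) ∈ G) := fun h1 h2 h3 h4 => memD' hL0 h1 h2 h3 h4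
    rw [mtl_2, e2]
    by_cases hH : ((a, b) : V) ∈ H
    · have hmem : (((a * L + L - 1, b * L + m - 1), (2 : ZMod 4)) : V × ZMod 4).1 ∈ D H L :=
        (q0 (by omega) (by omega) (by omega) (by omega)).2 hH
      unfold mkS
      rw [if_pos hmem]
      simp only [n20, false_and, if_false, true_and]
      split_ifs with h1
      · refine ⟨Finset.mem_union_right _ h1, ?_, rfl⟩
        rw [nt_2]
        refine key _ ?_ ?_ (keyS _ ?_ ?_)
        · left
          rw [q (by simp only; omega) (by simp only; omega) (by simp only; omega) (by simp only; omega)]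
          exact hn'
        · rw [q (by simp only; omega) (by simp only; omega) (by simp only; omega) (by simp only; omega)]
          exact hH'
        · left
          rw [q (by simp only; omega) (by simp only; omega) (by simp only; omega) (by simp only; omega)]
          exact hH'
        · left
          rw [q (by simp only; omega) (by simp only; omega) (by simp only; omega) (by simp only; omega)]
          exact hH'
      · refine ⟨Finset.mem_union_left _ (mem_shD.2 (Or.inr ?_)), ?_, rfl⟩
        · simp only [add_sub_cancel_right]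
          exact hmem
        · rw [nt_2]
          refine key _ ?_ ?_ h1
          · by_cases hd : δ = -1
            · right
              rw [q0 (by simp only; omega) (by simp only; omega) (by simp only; omega)
                (by simp only; omega)]
              exact hH
            · left
              rw [q (by simp only; omega) (by simp only; omega) (by simp only; omega)
                (by simp only; omega)]
              exact hn'
          · rw [q (by simp only; omega) (by simp only; omega) (by simp only; omega)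
              (by simp only; omega)]
            exact hH'
    · have hmem : (((a * L + L - 1, b * L + m - 1), (2 : ZMod 4)) : V × ZMod 4).1 ∉ D H L := fun h =>
        hH ((q0 (by omega) (by omega) (by omega) (by omega)).1 h)
      unfold mkS
      rw [if_neg hmem]
      refine ⟨Finset.mem_union_left _ (mem_shD.2 (Or.inl
        ⟨(q0 (by simp only; omega) (by simp only; omega) (by simp only; omega) (by simp only; omega)).2 hc,
          hmem⟩)), ?_, rfl⟩
      rw [nt_2]
      have hD : ∀ x : ℤ, a * L ≤ x → x < a * L + 2 * L → ((x, b * L + m - 1) : V) ∉ D H L := by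
        intro x h1 h2 h3
        by_cases h4 : a * L + L ≤ x
        · exact hH' ((q h4 h2 (by omega) (by omega)).1 h3)
        · exact hH ((q0 (by omega) (by omega) (by omega) (by omega)).1 h3)
      refine key _ ?_ ?_ (keyS _ (Or.inl ?_) (Or.inl ?_))
      · left
        rw [q (by simp only; omega) (by simp only; omega) (by simp only; omega) (by simp only; omega)]
        exact hn'
      all_goals exact hD _ (by simp only; omega) (by simp only; omega)
  · -- south
    have hn' : ((a, b - 1) : V) ∉ F := hn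
    have hH' := sub hn'
    have q : ∀ {G : Finset V} {x y : ℤ}, a * L ≤ x → x < a * L + L → b * L - L ≤ y →
        y < b * L → (((x, y) : V) ∈ D G L ↔ ((a, b - 1) : V) ∈ G) := fun h1 h2 h3 h4 =>
      memD' hL0 h1 h2 (by rw [sub_mul, one_mul]; exact h3) (by rw [sub_mul, one_mul]; omega)
    have q0 : ∀ {G : Finset V} {x y : ℤ}, a * L ≤ x → x < a * L + L → b * L ≤ y → y < b * L + L →
        (((x, y) : V) ∈ D G L ↔ ((a, b) : V) ∈ G) := fun h1 h2 h3 h4 => memD' hL0 h1 h2 h3 h4
    rw [mtl_3, e2]
    by_cases hH : ((a, b) : V) ∈ H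
    · have hmem : (((a * L + m - 1, b * L), (3 : ZMod 4)) : V × ZMod 4).1 ∈ D H L :=
        (q0 (by omega) (by omega) (by omega) (by omega)).2 hH
      unfold mkS
      rw [if_pos hmem]
      simp only [n30, n32, false_and, if_false]
      refine ⟨Finset.mem_union_left _ (mem_shD.2 (Or.inr ?_)), ?_, trivial⟩
      · simp only [add_sub_cancel_right]
        exact hmem
      · rw [nt_3]
        refine key _ (Or.inl ?_) ?_ (keyS _ (Or.inl ?_) (Or.inl ?_))
        · rw [q (by simp only; omega) (by simp only; omega) (by simp only; omega) (by simp only; omega)]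
          exact hn'
        all_goals
          rw [q (by simp only; omega) (by simp only; omega) (by simp only; omega) (by simp only; omega)]
          exact hH'
    · have hmem : (((a * L + m - 1, b * L), (3 : ZMod 4)) : V × ZMod 4).1 ∉ D H L := fun h =>
        hH ((q0 (by omega) (by omega) (by omega) (by omega)).1 h)
      unfold mkS
      rw [if_neg hmem]
      refine ⟨Finset.mem_union_left _ (mem_shD.2 (Or.inl
        ⟨(q0 (by simp only; omega) (by simp only; omega) (by simp only; omega) (by simp only; omega)).2 hc,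
          hmem⟩)), ?_, rfl⟩
      rw [nt_3]
      refine key _ (Or.inl ?_) ?_ (keyS _ (Or.inl ?_) (Or.inl ?_))
      · rw [q (by simp only; omega) (by simp only; omega) (by simp only; omega) (by simp only; omega)]
        exact hn'
      all_goals
        rw [q (by simp only; omega) (by simp only; omega) (by simp only; omega) (by simp only; omega)]
        exact hH'

/-! ### free ports -/

theorem mkS_row (H : Finset V) (L δ : ℤ) (S : Finset V) (m : V × ZMod 4) :
    (mkS H L δ S m).1.2 = m.1.2 := by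
  unfold mkS
  split_ifs <;> rfl

theorem mkS_side (H : Finset V) (L δ : ℤ) (S : Finset V) (m : V × ZMod 4) :
    (mkS H L δ S m).2 = m.2 := by
  unfold mkS
  split_ifs <;> rfl

theorem mkS_col (H : Finset V) {L δ : ℤ} (d0 : -1 ≤ δ) (d1 : δ ≤ 1) (S : Finset V)
    (m : V × ZMod 4) : |(mkS H L δ S m).1.1 - m.1.1| ≤ 2 := by
  unfold mkS
  rw [abs_le]
  split_ifs
  · simp only; omega
  · simp only; omega
  · simp only; omega
  · omega

/-- partner of a port away from the two lines of the slit -/
theorem nbD_nt {x y xr : ℤ} {m : V × ZMod 4} (h1 : m.2 = 1 → m.1.2 ≠ y - 1)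
    (h3 : m.2 = 3 → m.1.2 ≠ y) : nbD x y xr (some m) = some (nt m, m.2 + 2) := by
  obtain ⟨⟨a, b⟩, d⟩ := m
  simp only at h1 h3
  rcases z4 d with rfl | rfl | rfl | rfl
  · rw [nbD_W, nt_0]; rfl
  · rw [nbD_N (fun h => h1 rfl h.1), nt_1]; rfl
  · rw [nbD_E, nt_2]; rfl
  · rw [nbD_S ⟨fun h => h3 rfl h.1, fun h => h3 rfl h.1⟩, nt_3]; rfl

/-- free port -/
theorem beD_free {A : Finset V} {x y xr : ℤ} {m : V × ZMod 4} (h1 : m.2 = 1 → m.1.2 ≠ y - 1)
    (h3 : m.2 = 3 → m.1.2 ≠ y) (hn : nt m ∉ A) : beD A x y xr (some m) = some m := by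
  unfold beD res
  rw [if_neg]
  rintro ⟨-, h⟩
  rw [nbD_nt h1 h3, portOf_some] at h
  exact hn h

/-- the ends of a good word are the free ports -/
theorem gw_mem {A : Finset V} {b : Port V → Port V} {w : Wd V} (h : GW A b w) (m : V × ZMod 4) :
    some m ∈ L w ↔ m.1 ∈ A ∧ b (some m) = some m := by
  obtain ⟨t, d⟩ := m
  obtain ⟨hok, -, ht, hbe⟩ := h.word
  have hs := Gc748.be_state hok
  rw [Pt266.mem_L hok (t, d), ht, ← hbe]
  constructor
  · rintro ⟨h1, h2⟩
    refine ⟨h1, ?_⟩
    by_contra hc
    exact h2 ⟨_, (hs.gl _ _).2 ⟨rfl, fun e => hc e.symm⟩⟩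
  · rintro ⟨h1, h2⟩
    refine ⟨h1, ?_⟩
    rintro ⟨y, hy⟩
    obtain ⟨h3, h4⟩ := (hs.gl _ _).1 hy
    exact h4 (h2.symm.trans h3)

theorem free_mem {A : Finset V} {x y xr : ℤ} {w : Wd V} (h : GW A (beD A x y xr) w)
    {m : V × ZMod 4} (h1 : m.2 = 1 → m.1.2 ≠ y - 1) (h3 : m.2 = 3 → m.1.2 ≠ y) (hm : m.1 ∈ A)
    (hn : nt m ∉ A) : some m ∈ L w :=
  (gw_mem h m).2 ⟨hm, beD_free h1 h3 hn⟩

/-- rows of the marks on horizontal sides -/
theorem mtl_row {L : ℤ} {c : V} {d : ZMod 4} {y : ℤ} (hy : ¬ L ∣ y) :
    (d = 1 → (mtl L c d).1.2 ≠ y - 1) ∧ (d = 3 → (mtl L c d).1.2 ≠ y) := by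
  constructor
  · rintro rfl h
    rw [mtl_1] at h
    simp only at h
    exact hy ⟨c.2 + 1, by linarith⟩
  · rintro rfl h
    rw [mtl_3] at h
    simp only at h
    exact hy ⟨c.2, by linarith⟩

/-- **the carried mark is a free port** -/
theorem mkS_free {F H : Finset V} (hHF : H ⊆ F) {L δ : ℤ} (hL : 8 ≤ L) (hev : Even L) (d0 : -1 ≤ δ)
    (d1 : δ ≤ 1) {S : Finset V} (hS : S ⊆ RL F H L δ ∨ S ⊆ LL F H L δ) {c : V} {d : ZMod 4}
    (hc : c ∈ F) (hn : nbc c d ∉ F) {A : Finset V} (hA : A ⊆ shD F H L δ ∪ S)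
    (hm : (mkS H L δ S (mtl L c d)).1 ∈ A) {x y xr : ℤ} (hy : ¬ L ∣ y) :
    beD A x y xr (some (mkS H L δ S (mtl L c d))) = some (mkS H L δ S (mtl L c d)) := by
  obtain ⟨h1, h2, h3⟩ := mkS_out hHF hL hev d0 d1 hS hc hn
  obtain ⟨r1, r3⟩ := mtl_row (c := c) (d := d) hy
  refine beD_free ?_ ?_ fun h => h2 (hA h)
  · rw [mkS_row, h3]; exact r1
  · rw [mkS_row, h3]; exact r3

section P

variable {P : P4} {H : Finset V} {L δ : ℤ} {S A : Finset V} {x y xr : ℤ} {w : Wd V}

/-- the three carried marks are free tiles of the region -/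
theorem mkS_tile (hH : H ⊆ P.F) (hL : 8 ≤ L) (hev : Even L) (d0 : -1 ≤ δ) (d1 : δ ≤ 1)
    (hS : S ⊆ RL P.F H L δ ∨ S ⊆ LL P.F H L δ) (i : Fin 3) :
    (mkS H L δ S (mt P L i)).1 ∈ shD P.F H L δ ∪ S ∧
      nt (mkS H L δ S (mt P L i)) ∉ shD P.F H L δ ∪ S := by
  obtain ⟨h1, h2⟩ := ci_spec P i
  obtain ⟨h3, h4, -⟩ := mkS_out hH hL hev d0 d1 hS h1 h2
  exact ⟨h3, h4⟩

/-- **the carried marks are ends of every good word** of a region `A ⊆ shD ∪ S` containing their
tiles -/
theorem mkS_mem (hH : H ⊆ P.F) (hL : 8 ≤ L) (hev : Even L) (d0 : -1 ≤ δ) (d1 : δ ≤ 1)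
    (hS : S ⊆ RL P.F H L δ ∨ S ⊆ LL P.F H L δ) (hA : A ⊆ shD P.F H L δ ∪ S) (hy : ¬ L ∣ y)
    (h : GW A (beD A x y xr) w) {i : Fin 3} (hm : (mkS H L δ S (mt P L i)).1 ∈ A) :
    some (mkS H L δ S (mt P L i)) ∈ Sw300.L w := by
  obtain ⟨h1, h2⟩ := ci_spec P i
  exact (gw_mem h _).2 ⟨hm, mkS_free hH hL hev d0 d1 hS h1 h2 hA hm hy⟩

/-- distance of the carried marks -/
theorem mkS_dist (hL : 8 ≤ L) (hev : Even L) (d0 : -1 ≤ δ) (d1 : δ ≤ 1) {i j : Fin 3} (h : i ≠ j) :
    L / 2 - 4 ≤ |(mkS H L δ S (mt P L i)).1.1 - (mkS H L δ S (mt P L j)).1.1| ∨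
      L / 2 ≤ |(mkS H L δ S (mt P L i)).1.2 - (mkS H L δ S (mt P L j)).1.2| := by
  rcases mt_dist P (by omega : 2 ≤ L) hev h with h1 | h1
  · left
    have h2 := mkS_col H (L := L) d0 d1 S (mt P L i)
    have h3 := mkS_col H (L := L) d0 d1 S (mt P L j)
    rw [abs_le] at h2 h3
    rw [le_abs] at h1 ⊢
    omega
  · right
    rw [mkS_row, mkS_row]
    exact h1

/-- distance of the marks in the region and outside -/
theorem mkS_dist' (hL : 8 ≤ L) (hev : Even L) (d0 : -1 ≤ δ) (d1 : δ ≤ 1) {S' : Finset V}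
    {i j : Fin 3} (h : i ≠ j) :
    L / 2 - 4 ≤ |(mkS H L δ S (mt P L i)).1.1 - (mkS H L δ S' (mt P L j)).1.1| ∨
      L / 2 ≤ |(mkS H L δ S (mt P L i)).1.2 - (mkS H L δ S' (mt P L j)).1.2| := by
  rcases mt_dist P (by omega : 2 ≤ L) hev h with h1 | h1
  · left
    have h2 := mkS_col H (L := L) d0 d1 S (mt P L i)
    have h3 := mkS_col H (L := L) d0 d1 S' (mt P L j)
    rw [abs_le] at h2 h3
    rw [le_abs] at h1 ⊢
    omega
  · right
    rw [mkS_row, mkS_row]
    exact h1

/-- the carried marks are distinct -/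
theorem mkS_ne (hL : 10 ≤ L) (hev : Even L) (d0 : -1 ≤ δ) (d1 : δ ≤ 1) {i j : Fin 3} (h : i ≠ j) :
    mkS H L δ S (mt P L i) ≠ mkS H L δ S (mt P L j) := by
  intro e
  rcases mkS_dist (P := P) (H := H) (S := S) (by omega : 8 ≤ L) hev d0 d1 h with h1 | h1
  · rw [e, sub_self, abs_zero] at h1; omega
  · rw [e, sub_self, abs_zero] at h1; omega

theorem mt_ne (hL : 2 ≤ L) (hev : Even L) {i j : Fin 3} (h : i ≠ j) : mt P L i ≠ mt P L j := by
  intro e
  rcases mt_dist P hL hev h with h1 | h1
  · rw [e, sub_self, abs_zero] at h1; omega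
  · rw [e, sub_self, abs_zero] at h1; omega

/-- the marks in `D P.F L` -/
theorem mt_out (hL : 2 ≤ L) (hev : Even L) (i : Fin 3) :
    (mt P L i).1 ∈ D P.F L ∧ nt (mt P L i) ∉ D P.F L := by
  obtain ⟨h1, h2⟩ := ci_spec P i
  unfold mt
  obtain ⟨m, rfl⟩ := hev
  have e2 : (m + m) / 2 = m := by omega
  have hL0 : 0 < m + m := by omega
  generalize P.cc i = q at *
  obtain ⟨⟨a, b⟩, d⟩ := q
  have ea : (a - 1) * (m + m) = a * (m + m) - (m + m) := by ring
  have eb : (b - 1) * (m + m) = b * (m + m) - (m + m) := by ring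
  have fa : (a + 1) * (m + m) = a * (m + m) + (m + m) := by ring
  have fb : (b + 1) * (m + m) = b * (m + m) + (m + m) := by ring
  rcases z4 d with rfl | rfl | rfl | rfl
  · have h2' : ((a - 1, b) : V) ∉ P.F := h2
    rw [mtl_0, nt_0, e2]
    dsimp only at h1 ⊢
    refine ⟨(memD' hL0 (by omega) (by omega) (by omega) (by omega)).2 h1, fun h => h2' ?_⟩
    exact (memD' hL0 (by omega) (by omega) (by omega) (by omega)).1 h
  · have h2' : ((a, b + 1) : V) ∉ P.F := h2
    rw [mtl_1, nt_1, e2]
    dsimp only at h1 ⊢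
    refine ⟨(memD' hL0 (by omega) (by omega) (by omega) (by omega)).2 h1, fun h => h2' ?_⟩
    exact (memD' hL0 (by omega) (by omega) (by omega) (by omega)).1 h
  · have h2' : ((a + 1, b) : V) ∉ P.F := h2
    rw [mtl_2, nt_2, e2]
    dsimp only at h1 ⊢
    refine ⟨(memD' hL0 (by omega) (by omega) (by omega) (by omega)).2 h1, fun h => h2' ?_⟩
    exact (memD' hL0 (by omega) (by omega) (by omega) (by omega)).1 h
  · have h2' : ((a, b - 1) : V) ∉ P.F := h2
    rw [mtl_3, nt_3, e2]
    dsimp only at h1 ⊢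
    refine ⟨(memD' hL0 (by omega) (by omega) (by omega) (by omega)).2 h1, fun h => h2' ?_⟩
    exact (memD' hL0 (by omega) (by omega) (by omega) (by omega)).1 h

/-- the marks are ends of every good word of a region `A ⊆ D` containing their tiles -/
theorem mt_mem (hL : 2 ≤ L) (hev : Even L) (hA : A ⊆ D P.F L) (hy : ¬ L ∣ y)
    (h : GW A (beD A x y xr) w) {i : Fin 3} (hm : (mt P L i).1 ∈ A) :
    some (mt P L i) ∈ Sw300.L w := by
  obtain ⟨h1, h2⟩ := mt_out (P := P) hL hev i
  obtain ⟨r1, r3⟩ := mtl_row (L := L) (c := (P.cc i).1) (d := (P.cc i).2) hy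
  have e : (mt P L i).2 = (P.cc i).2 := mtl_snd _ _ _
  refine free_mem h ?_ ?_ hm fun h => h2 (hA h)
  · rw [e]; exact r1
  · rw [e]; exact r3

end P

end Crest.Agent.R158.Hw949
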