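import Crest.Agent.R158.Hb1_656
import Crest.Agent.R158.Csf2_410
import Crest.Agent.R158.Bh4_679
import Crest.Agent.R158.Hw2_949

/-!
R158, S0237, BLOCK BL, file 2 (helper656): **the leaves of the blueprint as Props** and macroscopic
preparations. All analytic leaves are in ε-form for fixed macroscopic data.

* `Two` the two runs at the line `k`, `Cfg` hanging part + run of the slit far from it
* `Cr` position of a pair across the line `k`, `Sm` ε-form; `Cr1, Sm1` for a pair with one right end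
* `Rg` region + slit + marks, `Rg.val`, `Rg.ok`, `Lk1` directed link, `Nk`
* leaves: `HangEx, MK0, WordsEx, DRone, NBone, DRup, NBup, DRdn, NBdn, MBup, MBdn, MBup', MBdn'` and
  679's `Bh679.RLchain, Bh679.LLchain`
* `far_of`, `cfg_up`, `cfg_dn`; `np_P4`, `mt_eq`
-/

set_option autoImplicit false

noncomputable section

namespace Crest.Agent.R158.Hb656

open Crest.Agent.R158.Sp896 (V)
open Crest.Agent.R158.Sw300 (Port)
open Crest.Agent.R158.Env664 (D Run Adj4 Mac mark mem_D beD div_iff exists_run)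
open Crest.Agent.R158.Ob664 (HG HA HD rgt)
open Crest.Agent.R158.Tj656 (P4)
open Crest.Agent.R158.Bh679 (NP Words RLchain LLchain)
open Crest.Agent.R158.Wd377 (MK)

/-- the two runs `[a, b]` (row `k - 1`), `[a', b']` (row `k`) at the line `k`, with a common column,
none of their cells in `H` -/
structure Two (F H : Finset V) (k a b a' b' : ℤ) : Prop where
  lo : Run F a b (k - 1)
  up : Run F a' b' k
  com : max a a' ≤ min b b'
  nlo : ∀ i, a ≤ i → i ≤ b → (i, k - 1) ∉ H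
  nup : ∀ i, a' ≤ i → i ≤ b' → (i, k) ∉ H

/-- hanging part `H` (crosscut `i0..i1` at the line `k`) and the run `[a, b]` of the row `j` that
contains the slit, far from `H` -/
structure Cfg (F H : Finset V) (k i0 i1 : ℤ) (up : Bool) (a b j : ℤ) : Prop where
  hang : Hang F H k i0 i1 up
  np : NP F
  le : i0 ≤ i1
  /-- the ends of the crosscut -/
  ends : if up then (i0 - 1, k - 1) ∈ F ∧ (i0 - 1, k - 1) ∉ H ∧ (i0, k) ∉ F ∧ (i1 + 1, k - 1) ∉ F
    else (i0 - 1, k) ∈ F ∧ (i0 - 1, k) ∉ H ∧ (i0, k - 1) ∉ F ∧ (i1 + 1, k) ∉ F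
  run : Run F a b j
  far : ∀ c, a ≤ c → c ≤ b → ∀ s ∈ H, 2 ≤ |s.1 - c| ∨ 2 ≤ |s.2 - j|

/-- the slit from `(x, y)` to the right end `b L + L - 1` of the run `[a, b]` of the row `j` -/
structure Sl (L a b j x y : ℤ) : Prop where
  hx : a * L + 1 ≤ x
  hx' : x + 2 ≤ b * L + L - 1
  hy : j * L < y
  hy' : y < j * L + L

/-- position of a pair `(x, y0)`, `(x, y1)` across the line `k`, `r L` away from the complement -/
structure Cr (L k a b a' b' : ℤ) (r h : ℝ) (x y0 y1 : ℤ) : Prop where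
  lo : y0 < k * L
  hi : k * L < y1
  lo' : (k : ℝ) * L - h * L ≤ y0
  hi' : (y1 : ℝ) ≤ k * L + h * L
  l0 : (a : ℝ) * L + r * L ≤ x
  l1 : (a' : ℝ) * L + r * L ≤ x
  r0 : (x : ℝ) + r * L ≤ (b + 1) * L
  r1 : (x : ℝ) + r * L ≤ (b' + 1) * L

/-- small for fixed macroscopic data -/
def Sm (k a b a' b' : ℤ) (Q : ℤ → ℤ → ℤ → ℤ → ℝ → Prop) : Prop :=
  ∀ r : ℝ, 0 < r → r ≤ 1 / 2 → ∀ ε : ℝ, 0 < ε → ∃ h : ℝ, 0 < h ∧ ∃ L0 : ℤ, ∀ L : ℤ, L0 ≤ L →
    Even L → ∀ x y0 y1 : ℤ, Cr L k a b a' b' r h x y0 y1 → Q L x y0 y1 ε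

/-- position of a pair `y0 < y1` near the height `q L / 2` with one right end `b L + L - 1` -/
structure Cr1 (F : Finset V) (L q b : ℤ) (r h : ℝ) (x y0 y1 : ℤ) : Prop where
  lt : y0 < y1
  n0 : ¬ L ∣ y0
  n1 : ¬ L ∣ y1
  c0 : |(y0 : ℝ) - q * L / 2| ≤ h * L
  c1 : |(y1 : ℝ) - q * L / 2| ≤ h * L
  row : ∀ x1 y : ℤ, (x : ℝ) - r * L ≤ x1 → x1 ≤ b * L + L - 1 → y0 - 1 ≤ y → y ≤ y1 →
    (x1, y) ∈ D F L
  box : ∀ x1 y : ℤ, |(x1 : ℝ) - x| ≤ r * L → |(y : ℝ) - y0| ≤ r * L → (x1, y) ∈ D F L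
  out : ∀ y : ℤ, y0 - 1 ≤ y → y ≤ y1 → (b * L + L, y) ∉ D F L
  xr : (x : ℝ) + r * L ≤ (b + 1) * L

/-- small for fixed macroscopic data, one right end -/
def Sm1 (P : P4) (q b : ℤ) (Q : ℤ → ℤ → ℤ → ℤ → ℝ → Prop) : Prop :=
  ∀ r : ℝ, 0 < r → r ≤ 1 / 2 → ∀ ε : ℝ, 0 < ε → ∃ h : ℝ, 0 < h ∧ ∃ L0 : ℤ, ∀ L : ℤ, L0 ≤ L →
    Even L → ∀ x y0 y1 : ℤ, Cr1 P.F L q b r h x y0 y1 → Q L x y0 y1 ε

/-- notches of a crossing pair -/
def Nt (L k b b' y0 y1 : ℤ) : Finset V :=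
  (({b * L + L - 1} : Finset ℤ) ×ˢ Finset.Ico y0 (k * L)) ∪
    (({b' * L + L - 1} : Finset ℤ) ×ˢ Finset.Ico (k * L) y1)

theorem mem_Nt {L k b b' y0 y1 : ℤ} {t : V} : t ∈ Nt L k b b' y0 y1 ↔
    (t.1 = b * L + L - 1 ∧ y0 ≤ t.2 ∧ t.2 < k * L) ∨
      (t.1 = b' * L + L - 1 ∧ k * L ≤ t.2 ∧ t.2 < y1) := by
  unfold Nt
  simp only [Finset.mem_union, Finset.mem_product, Finset.mem_singleton, Finset.mem_Ico]

/-- the slab of a crossing pair -/
def Sx (L k b b' x y0 y1 : ℤ) : Finset V :=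
  (Finset.Ioo x (b * L + L) ×ˢ Finset.Ico y0 (k * L)) ∪
    (Finset.Ioo x (b' * L + L) ×ˢ Finset.Ico (k * L) y1)

theorem mem_Sx {L k b b' x y0 y1 : ℤ} {t : V} : t ∈ Sx L k b b' x y0 y1 ↔
    ((x < t.1 ∧ t.1 < b * L + L) ∧ y0 ≤ t.2 ∧ t.2 < k * L) ∨
      ((x < t.1 ∧ t.1 < b' * L + L) ∧ k * L ≤ t.2 ∧ t.2 < y1) := by
  unfold Sx
  simp only [Finset.mem_union, Finset.mem_product, Finset.mem_Ioo, Finset.mem_Ico]

/-- notch of a pair with one right end -/
def N1 (L b y0 y1 : ℤ) : Finset V := ({b * L + L - 1} : Finset ℤ) ×ˢ Finset.Ico y0 y1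

theorem mem_N1 {L b y0 y1 : ℤ} {t : V} :
    t ∈ N1 L b y0 y1 ↔ t.1 = b * L + L - 1 ∧ y0 ≤ t.2 ∧ t.2 < y1 := by
  unfold N1
  simp only [Finset.mem_product, Finset.mem_singleton, Finset.mem_Ico]

open Classical in
/-- a mark in front of the notch -/
def nmk (L b y0 y1 : ℤ) (m : V × ZMod 4) : V × ZMod 4 :=
  if m.1 ∈ N1 L b y0 y1 then ((m.1.1 - 1, m.1.2), m.2) else m

open Classical in
/-- marks of the region after DR (`E` is moved to the left) -/
def mkE (E : Finset V) (m : V × ZMod 4) : V × ZMod 4 :=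
  if m.1 ∈ E then ((m.1.1 - 1, m.1.2), m.2) else m

open Classical in
/-- marks of the region before DR (`= fp (gE E)`) -/
def pkE (E : Finset V) (m : V × ZMod 4) : V × ZMod 4 :=
  if (m.1.1 + 1, m.1.2) ∈ E then ((m.1.1 + 1, m.1.2), m.2) else m

open Classical in
/-- marks of `shD F H L (-1)` that come out of DR, UP: also the mark on the ceiling of the lower run
to the right of the upper run has moved -/
def mU (H : Finset V) (L k b b' : ℤ) (m : V × ZMod 4) : V × ZMod 4 :=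
  if m.2 = 1 ∧ m.1.2 = k * L - 1 ∧ b' * L + L ≤ m.1.1 ∧ m.1.1 < b * L + L then
    ((m.1.1 - 1, m.1.2), m.2) else mkS H L (-1) ∅ m

open Classical in
/-- marks of `shD F H L 1` that go into DR, DN: also the mark on the floor of the upper run to the
right of the lower run has moved -/
def mD (H : Finset V) (L k b b' : ℤ) (m : V × ZMod 4) : V × ZMod 4 :=
  if m.2 = 3 ∧ m.1.2 = k * L ∧ b * L + L ≤ m.1.1 ∧ m.1.1 < b' * L + L then
    ((m.1.1 + 1, m.1.2), m.2) else mkS H L 1 ∅ m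

/-! ### regions with slit and marks -/

/-- region, slit from `(x, y)` to the column `xr`, three marks -/
structure Rg where
  /-- tiles -/
  A : Finset V
  /-- column of `z` -/
  x : ℤ
  /-- row of `z` -/
  y : ℤ
  /-- last column of the slit -/
  xr : ℤ
  /-- marks -/
  m : Fin 3 → V × ZMod 4

/-- value of the observable -/
def Rg.val (R : Rg) : ℂ := GH R.A R.x R.y R.xr R.m

/-- there is a word, the marks are free ends in clockwise order -/
def Rg.ok (R : Rg) : Prop :=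
  MK R.A (beD R.A R.x R.y R.xr) (some (R.m 0)) (some (R.m 1)) (some (R.m 2))

/-- directed link : `R` good gives `R'` good and close -/
def Lk1 (R R' : Rg) (ε : ℝ) : Prop := R.ok → R'.ok ∧ ‖R.val - R'.val‖ ≤ ε

/-- both good gives close -/
def Nk (R R' : Rg) (ε : ℝ) : Prop := R.ok → R'.ok → ‖R.val - R'.val‖ ≤ ε

/-! ### the leaves -/

/-- **(B1)** hanging parts (896) -/
def HangEx : Prop := ∀ (P : P4) (k a b a' b' : ℤ), Run P.F a b (k - 1) → Run P.F a' b' k →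
  max a a' ≤ min b b' →
    (b' < b → ∃ H, Hang P.F H k (b' + 1) b true ∧ Two P.F H k a b a' b') ∧
    (b < b' → ∃ H, Hang P.F H k (b + 1) b' false ∧ Two P.F H k a b a' b')

/-- **words and order of the marks of `D`** (949) -/
def MK0 : Prop := ∀ (P : P4) (a b j : ℤ), Run P.F a b j → ∃ L0 : ℤ, ∀ L : ℤ, L0 ≤ L → Even L →
  ∀ x y : ℤ, Sl L a b j x y → Rg.ok ⟨D P.F L, x, y, b * L + L - 1, mt P L⟩

/-- **(B2)** words of all states of the two chains (279) -/
def WordsEx : Prop := ∀ (P : P4) (H : Finset V) (k i0 i1 : ℤ) (up : Bool) (a b j : ℤ),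
  Cfg P.F H k i0 i1 up a b j → ∃ L0 : ℤ, ∀ L : ℤ, L0 ≤ L → Even L → ∀ x y : ℤ, Sl L a b j x y →
    (∀ δ : ℤ, (up = true ∧ δ = -1 ∨ up = false ∧ δ = 0) →
      Words P.F H L δ x y (b * L + L - 1) (RL P.F H L δ)) ∧
    (∀ δ : ℤ, (up = true ∧ δ = 0 ∨ up = false ∧ δ = 1) →
      Words P.F H L δ x y (b * L + L - 1) (LL P.F H L δ))

/-- **(B8, SR)** (945) -/
def DRone : Prop := ∀ (P : P4) (q b : ℤ), Sm1 P q b fun L x y0 y1 ε =>
  Nk ⟨D P.F L, x, y0, b * L + L - 1, mt P L⟩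
    ⟨D P.F L \ N1 L b y0 y1, x, y1, b * L + L - 1, fun i => nmk L b y0 y1 (mt P L i)⟩ ε

/-- **(B9, SR)** (771) -/
def NBone : Prop := ∀ (P : P4) (q b : ℤ), Sm1 P q b fun L x y0 y1 ε =>
  Lk1 ⟨D P.F L, x, y1, b * L + L - 1, mt P L⟩
    ⟨D P.F L \ N1 L b y0 y1, x, y1, b * L + L - 1, fun i => nmk L b y0 y1 (mt P L i)⟩ ε

/-- **(B8, UP)** (945, 689) -/
def DRup : Prop := ∀ (P : P4) (H : Finset V) (k a b a' b' : ℤ), NP P.F → b' < b →
  Hang P.F H k (b' + 1) b true → Two P.F H k a b a' b' → Sm k a b a' b' fun L x y0 y1 ε =>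
    Nk ⟨D P.F L, x, y0, b * L + L - 1, mt P L⟩
      ⟨shD P.F H L (-1) \ Nt L k b b' y0 y1, x, y1, b' * L + L - 1,
        fun i => mkE (Sx L k b b' x y0 y1 ∪ D H L) (mt P L i)⟩ ε

/-- **(B8, DN)** (945, 689) -/
def DRdn : Prop := ∀ (P : P4) (H : Finset V) (k a b a' b' : ℤ), NP P.F → b < b' →
  Hang P.F H k (b + 1) b' false → Two P.F H k a b a' b' → Sm k a b a' b' fun L x y0 y1 ε =>
    Nk ⟨shD P.F H L 1, x, y0, b * L + L - 1, fun i =>
        pkE (Sx L k b b' x y0 y1 ∪ (D H L).image fun t => (t.1 + 1, t.2)) (mt P L i)⟩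
      ⟨D P.F L \ Nt L k b b' y0 y1, x, y1, b' * L + L - 1, mt P L⟩ ε

/-- **(B9, UP)** (161) -/
def NBup : Prop := ∀ (P : P4) (H : Finset V) (k a b a' b' : ℤ), NP P.F → b' < b →
  Hang P.F H k (b' + 1) b true → Two P.F H k a b a' b' → Sm k a b a' b' fun L x y0 y1 ε =>
    Lk1 ⟨shD P.F H L (-1), x, y1, b' * L + L - 1, fun i => mU H L k b b' (mt P L i)⟩
      ⟨shD P.F H L (-1) \ Nt L k b b' y0 y1, x, y1, b' * L + L - 1,
        fun i => mU H L k b b' (mt P L i)⟩ ε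

/-- **(B9, DN)** (468) -/
def NBdn : Prop := ∀ (P : P4) (H : Finset V) (k a b a' b' : ℤ), NP P.F → b < b' →
  Hang P.F H k (b + 1) b' false → Two P.F H k a b a' b' → Sm k a b a' b' fun L x y0 y1 ε =>
    Lk1 ⟨D P.F L, x, y1, b' * L + L - 1, mt P L⟩
      ⟨D P.F L \ Nt L k b b' y0 y1, x, y1, b' * L + L - 1, mt P L⟩ ε

/-- **mark balls, UP, between the chains** (331) -/
def MBup : Prop := ∀ (P : P4) (H : Finset V) (k i0 i1 : ℤ) (a b j : ℤ),
  Cfg P.F H k i0 i1 true a b j → ∀ ε : ℝ, 0 < ε → ∃ L0 : ℤ, ∀ L : ℤ, L0 ≤ L → Even L →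
    ∀ x y : ℤ, Sl L a b j x y →
      Lk1 ⟨D P.F L ∪ LL P.F H L 0, x, y, b * L + L - 1,
          fun i => mkS H L 0 (LL P.F H L 0) (mt P L i)⟩
        ⟨D P.F L ∪ LL P.F H L 0, x, y, b * L + L - 1,
          fun i => mkS H L (-1) (RL P.F H L (-1)) (mt P L i)⟩ ε

/-- **mark balls, DN, between the chains** (331) -/
def MBdn : Prop := ∀ (P : P4) (H : Finset V) (k i0 i1 : ℤ) (a b j : ℤ),
  Cfg P.F H k i0 i1 false a b j → ∀ ε : ℝ, 0 < ε → ∃ L0 : ℤ, ∀ L : ℤ, L0 ≤ L → Even L →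
    ∀ x y : ℤ, Sl L a b j x y →
      Lk1 ⟨D P.F L ∪ RL P.F H L 0, x, y, b * L + L - 1,
          fun i => mkS H L 0 (RL P.F H L 0) (mt P L i)⟩
        ⟨D P.F L ∪ RL P.F H L 0, x, y, b * L + L - 1,
          fun i => mkS H L 1 (LL P.F H L 1) (mt P L i)⟩ ε

/-- **mark ball, UP, after DR** : the mark on the ceiling of the lower run (331) -/
def MBup' : Prop := ∀ (P : P4) (H : Finset V) (k a b a' b' : ℤ), b' < b →
  Two P.F H k a b a' b' → Cfg P.F H k (b' + 1) b true a' b' k → ∀ ε : ℝ, 0 < ε →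
    ∃ L0 : ℤ, ∀ L : ℤ, L0 ≤ L → Even L → ∀ x y : ℤ, Sl L a' b' k x y →
      Lk1 ⟨shD P.F H L (-1), x, y, b' * L + L - 1, fun i => mkS H L (-1) ∅ (mt P L i)⟩
        ⟨shD P.F H L (-1), x, y, b' * L + L - 1, fun i => mU H L k b b' (mt P L i)⟩ ε

/-- **mark ball, DN, before DR** : the mark on the floor of the upper run (331) -/
def MBdn' : Prop := ∀ (P : P4) (H : Finset V) (k a b a' b' : ℤ), b < b' →
  Two P.F H k a b a' b' → Cfg P.F H k (b + 1) b' false a b (k - 1) → ∀ ε : ℝ, 0 < ε →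
    ∃ L0 : ℤ, ∀ L : ℤ, L0 ≤ L → Even L → ∀ x y : ℤ, Sl L a b (k - 1) x y →
      Lk1 ⟨shD P.F H L 1, x, y, b * L + L - 1, fun i => mkS H L 1 ∅ (mt P L i)⟩
        ⟨shD P.F H L 1, x, y, b * L + L - 1, fun i => mD H L k b b' (mt P L i)⟩ ε

/-! ### the run of the slit is far from the hanging part -/

variable {F H : Finset V} {k i0 i1 L : ℤ} {up : Bool}

theorem Hang.ver' (h : Hang F H k i0 i1 up) {c m : ℤ} (hc : c < i0) (h1 : (c, m - 1) ∈ F)
    (h2 : (c, m) ∈ F) : (c, m - 1) ∈ H ↔ (c, m) ∈ H := by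
  rcases h.ver c m h1 h2 with g | ⟨-, g, -⟩
  · exact g
  · omega

theorem far_of (h : Hang F H k i0 i1 up) (np : NP F) {a b j : ℤ} (hr : Run F a b j) (hb : b < i0)
    (hn : ∀ i, a ≤ i → i ≤ b → (i, j) ∉ H) :
    ∀ c, a ≤ c → c ≤ b → ∀ s ∈ H, 2 ≤ |s.1 - c| ∨ 2 ≤ |s.2 - j| := by
  intro c h1 h2 s hs
  by_contra hcon
  push Not at hcon
  obtain ⟨g1, g2⟩ := hcon
  obtain ⟨s1, s2⟩ := s
  simp only at g1 g2
  rw [abs_lt] at g1 g2
  have hcF : (c, j) ∈ F := hr.mem c h1 h2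
  have hcH : (c, j) ∉ H := hn c h1 h2
  have hsF : (s1, s2) ∈ F := h.sub hs
  -- neighbours in the row
  have e1 : (c + 1, j) ∉ H := fun g => hcH (h.hor c j (Or.inr ⟨hcF, g⟩)).1
  have e2 : (c - 1, j) ∉ H := fun g => by
    have := h.hor (c - 1) j (Or.inl ⟨g, by rwa [sub_add_cancel]⟩)
    rw [sub_add_cancel] at this
    exact hcH this.2
  -- neighbours in the column
  have e3 : (c, j + 1) ∉ H := fun g => by
    have := h.ver' (c := c) (m := j + 1) (by omega) (by rwa [add_sub_cancel_right]) (h.sub g)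
    rw [add_sub_cancel_right] at this
    exact hcH (this.2 g)
  have e4 : (c, j - 1) ∉ H := fun g =>
    hcH ((h.ver' (c := c) (m := j) (by omega) (h.sub g) hcF).1 g)
  have hs1 : s1 = c - 1 ∨ s1 = c ∨ s1 = c + 1 := by omega
  have hs2 : s2 = j - 1 ∨ s2 = j ∨ s2 = j + 1 := by omega
  rcases hs1 with rfl | rfl | rfl <;> rcases hs2 with rfl | rfl | rfl
  · -- lower left
    by_cases f1 : (c, j - 1) ∈ F
    · have := h.hor (c - 1) (j - 1) (Or.inl ⟨hs, by rwa [sub_add_cancel]⟩)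
      rw [sub_add_cancel] at this
      exact e4 this.2
    by_cases f2 : (c - 1, j) ∈ F
    · exact e2 ((h.ver' (c := c - 1) (m := j) (by omega) hsF f2).1 hs)
    · have := (np (c - 1) (j - 1)).1
      rw [sub_add_cancel, sub_add_cancel] at this
      exact this ⟨hsF, hcF, f1, f2⟩
  · exact e2 hs
  · -- upper left
    by_cases f1 : (c, j + 1) ∈ F
    · have := h.hor (c - 1) (j + 1) (Or.inl ⟨hs, by rwa [sub_add_cancel]⟩)
      rw [sub_add_cancel] at this
      exact e3 this.2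
    by_cases f2 : (c - 1, j) ∈ F
    · have := h.ver' (c := c - 1) (m := j + 1) (by omega) (by rwa [add_sub_cancel_right]) hsF
      rw [add_sub_cancel_right] at this
      exact e2 (this.2 hs)
    · have := (np (c - 1) j).2
      rw [sub_add_cancel] at this
      exact this ⟨hcF, hsF, f2, f1⟩
  · exact e4 hs
  · exact hcH hs
  · exact e3 hs
  · -- lower right
    by_cases f1 : (c, j - 1) ∈ F
    · exact e4 (h.hor c (j - 1) (Or.inr ⟨f1, hs⟩)).1
    by_cases f2 : (c + 1, j) ∈ F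
    · have hcb : c + 1 ≤ b := by
        by_contra hcb
        have : c = b := by omega
        subst this
        exact hr.right f2
      exact e1 ((h.ver' (c := c + 1) (m := j) (by omega) hsF f2).1 hs)
    · have := (np c (j - 1)).2
      rw [sub_add_cancel] at this
      exact this ⟨hsF, hcF, f1, f2⟩
  · exact e1 hs
  · -- upper right
    by_cases f1 : (c, j + 1) ∈ F
    · exact e3 (h.hor c (j + 1) (Or.inr ⟨f1, hs⟩)).1
    by_cases f2 : (c + 1, j) ∈ F
    · have hcb : c + 1 ≤ b := by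
        by_contra hcb
        have : c = b := by omega
        subst this
        exact hr.right f2
      have := h.ver' (c := c + 1) (m := j + 1) (by omega) (by rwa [add_sub_cancel_right]) hsF
      rw [add_sub_cancel_right] at this
      exact e1 (this.2 hs)
    · exact (np c j).1 ⟨hcF, hsF, f2, f1⟩

theorem cfg_up {a b a' b' : ℤ} (np : NP F) (hb : b' < b) (h : Hang F H k (b' + 1) b true)
    (t : Two F H k a b a' b') : Cfg F H k (b' + 1) b true a' b' k where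
  hang := h
  np := np
  le := by omega
  ends := by
    have hc := t.com
    rw [max_le_iff, le_min_iff, le_min_iff] at hc
    simp only [add_sub_cancel_right, if_true]
    exact ⟨t.lo.mem _ hc.1.2 hb.le, t.nlo _ hc.1.2 hb.le, t.up.right, t.lo.right⟩
  run := t.up
  far := far_of h np t.up (by omega) t.nup

theorem cfg_dn {a b a' b' : ℤ} (np : NP F) (hb : b < b') (h : Hang F H k (b + 1) b' false)
    (t : Two F H k a b a' b') : Cfg F H k (b + 1) b' false a b (k - 1) where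
  hang := h
  np := np
  le := by omega
  ends := by
    have hc := t.com
    rw [max_le_iff, le_min_iff, le_min_iff] at hc
    simp only [add_sub_cancel_right]
    exact ⟨t.up.mem _ hc.2.1 hb.le, t.nup _ hc.2.1 hb.le, t.lo.right, t.up.right⟩
  run := t.lo
  far := far_of h np t.lo (by omega) t.nlo

theorem np_P4 (P : P4) : NP P.F := by
  intro a b
  obtain ⟨h1, h2⟩ := Hw949.np P
  constructor
  · rintro ⟨g1, g2, g3, g4⟩
    rcases h1 a b g1 g2 with g | g
    · exact g3 g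
    · exact g4 g
  · rintro ⟨g1, g2, g3, g4⟩
    rcases h2 a b g1 g2 with g | g
    · exact g3 g
    · exact g4 g

/-- same marks as 949 -/
theorem mt_eq (P : P4) (L : ℤ) : mt P L = Hw949.mt P L := rfl

end Crest.Agent.R158.Hb656
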