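import Crest.Agent.R158.Cw6_161
import Crest.Agent.R158.Hb2_656

/-!
# R158, BLOCK BL, notch balls (helper161), file Cn1: preparations

* `pick` : choice of `h`, `L0`, `n`
* `mem_vert`, `sh_vert` : tiles of `D F L`, `shD F H L (-1)` near a macroscopic vertex
* `half` : middles of sides are far from the vertices
* `mt_far`, `mU_tile`
-/

set_option autoImplicit false
set_option linter.unusedVariables false

noncomputable section

namespace Crest.Agent.R158.Cn161

open Crest.Agent.R158.Sp896 (V)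
open Crest.Agent.R158.Sw300 (Port Wd)
open Crest.Agent.R158.Env664 (D Run mem_D beD div_iff)
open Crest.Agent.R158.Tj656 (P4)
open Crest.Agent.R158.Cw161 (Bx Sh pat shr rk FarC MkP)
open Crest.Agent.R158.Hb656 (Hang shD mem_shD Two Nt mem_Nt N1 mem_N1 mU mkS mk2)
open Crest.Agent.R158.Bh679 (NP)

/-- **choice of the parameters** -/
theorem pick {C a r ε : ℝ} (hC : 0 < C) (ha : 0 < a) (hr : 0 < r) (hr2 : r ≤ 1 / 2) (hε : 0 < ε) :
    ∃ h : ℝ, 0 < h ∧ h ≤ 1 / 64 ∧ ∃ L0 : ℤ, 64 ≤ L0 ∧ ∀ L : ℤ, L0 ≤ L → ∃ n : ℕ, 8 ≤ n ∧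
      (n : ℝ) + 4 ≤ r * L ∧ 8 * (n : ℤ) + 32 ≤ L ∧ ∀ ρ : ℕ, (ρ : ℝ) ≤ 2 * h * L + 10 →
        ρ + 1 ≤ n ∧ C * ((ρ : ℝ) / n) ^ a ≤ ε := by
  set q : ℝ := min (1 / 2) ((ε / C) ^ (1 / a)) with hq
  have q0 : 0 < q := lt_min (by norm_num) (Real.rpow_pos_of_pos (by positivity) _)
  have q1 : q ≤ 1 / 2 := min_le_left _ _
  have q2 : q ^ a ≤ ε / C := by
    calc q ^ a ≤ ((ε / C) ^ (1 / a)) ^ a :=
          Real.rpow_le_rpow q0.le (min_le_right _ _) ha.le
      _ = ε / C := by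
          rw [← Real.rpow_mul (by positivity), one_div_mul_cancel ha.ne', Real.rpow_one]
  have hqr : 0 < q * r := by positivity
  refine ⟨q * r / 128, by positivity, ?_, max 64 ⌈640 / (q * r) + 256 / r⌉, le_max_left _ _, ?_⟩
  · have : q * r ≤ 1 / 2 * (1 / 2) := mul_le_mul q1 hr2 hr.le (by norm_num)
    linarith
  intro L hL
  have hL1 : (64 : ℤ) ≤ L := (le_max_left _ _).trans hL
  have hL2 : 640 / (q * r) + 256 / r ≤ (L : ℝ) :=
    (Int.le_ceil _).trans (by exact_mod_cast (le_max_right _ _).trans hL)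
  have hL3 : (64 : ℝ) ≤ L := by exact_mod_cast hL1
  have e1 : 0 < 640 / (q * r) := by positivity
  have e2 : 0 < 256 / r := by positivity
  have k1 : 256 ≤ r * L := by
    have : 256 / r ≤ L := by linarith
    rw [div_le_iff₀ hr] at this
    linarith
  have k2 : 640 ≤ q * r * L := by
    have : 640 / (q * r) ≤ L := by linarith
    rw [div_le_iff₀ hqr] at this
    linarith
  set n : ℕ := ⌊r * L / 16⌋₊ with hn
  have n1 : (n : ℝ) ≤ r * L / 16 := Nat.floor_le (by positivity)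
  have n2 : r * L / 16 < n + 1 := Nat.lt_floor_add_one _
  have n3 : r * L / 32 ≤ n := by linarith
  have n4 : (8 : ℝ) ≤ n := by linarith
  have n5 : r * L ≤ L / 2 := by
    have := mul_le_mul_of_nonneg_right hr2 (by linarith : (0 : ℝ) ≤ L)
    linarith
  refine ⟨n, by exact_mod_cast n4, by linarith, ?_, ?_⟩
  · have : 8 * (n : ℝ) + 32 ≤ L := by linarith
    exact_mod_cast this
  intro ρ hρ
  have n0 : (0 : ℝ) < n := by linarith
  have hb : (ρ : ℝ) ≤ q * n := by
    have h1 : q * (r * L / 32) ≤ q * n := mul_le_mul_of_nonneg_left n3 q0.le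
    have h2 : q * (r * L / 32) = q * r * L / 32 := by ring
    have h3 : 2 * (q * r / 128) * L = q * r * L / 64 := by ring
    rw [h3] at hρ
    linarith
  constructor
  · have : (ρ : ℝ) + 1 ≤ n := by
      have := mul_le_mul_of_nonneg_right q1 n0.le
      linarith
    exact_mod_cast this
  · have h1 : (ρ : ℝ) / n ≤ q := by
      rw [div_le_iff₀ n0]; exact hb
    have h2 : ((ρ : ℝ) / n) ^ a ≤ q ^ a := Real.rpow_le_rpow (by positivity) h1 ha.le
    calc C * ((ρ : ℝ) / n) ^ a ≤ C * (ε / C) := mul_le_mul_of_nonneg_left (h2.trans q2) hC.le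
      _ = ε := by field_simp

/-! ### macroscopic vertices -/

variable {F H : Finset V} {L i j k : ℤ}

/-- tiles of `D F L` near a macroscopic vertex -/
theorem mem_vert (hL : 0 < L) {x y : ℤ} (h1 : i * L - L ≤ x) (h2 : x < i * L + L)
    (h3 : j * L - L ≤ y) (h4 : y < j * L + L) : (x, y) ∈ D F L ↔
      (x < i * L ∧ y < j * L ∧ (i - 1, j - 1) ∈ F) ∨ (x < i * L ∧ j * L ≤ y ∧ (i - 1, j) ∈ F) ∨
      (i * L ≤ x ∧ y < j * L ∧ (i, j - 1) ∈ F) ∨ (i * L ≤ x ∧ j * L ≤ y ∧ (i, j) ∈ F) := by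
  have ei : (i - 1) * L = i * L - L := by ring
  have ej : (j - 1) * L = j * L - L := by ring
  rw [mem_D hL]
  simp only
  rcases lt_or_ge x (i * L) with hx | hx <;> rcases lt_or_ge y (j * L) with hy | hy
  · rw [(div_iff hL x (i - 1)).2 ⟨by omega, by omega⟩, (div_iff hL y (j - 1)).2 ⟨by omega, by omega⟩]
    have n1 : ¬ i * L ≤ x := by omega
    have n2 : ¬ j * L ≤ y := by omega
    simp only [hx, hy, n1, n2, true_and, false_and, or_false]
  · rw [(div_iff hL x (i - 1)).2 ⟨by omega, by omega⟩, (div_iff hL y j).2 ⟨by omega, by omega⟩]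
    have n1 : ¬ i * L ≤ x := by omega
    have n2 : ¬ y < j * L := by omega
    simp only [hx, hy, n1, n2, true_and, false_and, false_or, or_false]
  · rw [(div_iff hL x i).2 ⟨by omega, by omega⟩, (div_iff hL y (j - 1)).2 ⟨by omega, by omega⟩]
    have n1 : ¬ x < i * L := by omega
    have n2 : ¬ j * L ≤ y := by omega
    simp only [hx, hy, n1, n2, true_and, false_and, false_or, or_false]
  · rw [(div_iff hL x i).2 ⟨by omega, by omega⟩, (div_iff hL y j).2 ⟨by omega, by omega⟩]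
    have n1 : ¬ x < i * L := by omega
    have n2 : ¬ y < j * L := by omega
    simp only [hx, hy, n1, n2, true_and, false_and, false_or]

/-- tiles of `shD F H L (-1)` near a macroscopic vertex -/
theorem sh_vert (hL : 0 < L) {x y : ℤ} (h1 : i * L - L ≤ x) (h2 : x + 1 < i * L + L)
    (h3 : j * L - L ≤ y) (h4 : y < j * L + L) : (x, y) ∈ shD F H L (-1) ↔
      (((x < i * L ∧ y < j * L ∧ (i - 1, j - 1) ∈ F) ∨ (x < i * L ∧ j * L ≤ y ∧ (i - 1, j) ∈ F) ∨
      (i * L ≤ x ∧ y < j * L ∧ (i, j - 1) ∈ F) ∨ (i * L ≤ x ∧ j * L ≤ y ∧ (i, j) ∈ F)) ∧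
      ¬ ((x < i * L ∧ y < j * L ∧ (i - 1, j - 1) ∈ H) ∨ (x < i * L ∧ j * L ≤ y ∧ (i - 1, j) ∈ H) ∨
      (i * L ≤ x ∧ y < j * L ∧ (i, j - 1) ∈ H) ∨ (i * L ≤ x ∧ j * L ≤ y ∧ (i, j) ∈ H))) ∨
      ((x + 1 < i * L ∧ y < j * L ∧ (i - 1, j - 1) ∈ H) ∨
      (x + 1 < i * L ∧ j * L ≤ y ∧ (i - 1, j) ∈ H) ∨
      (i * L ≤ x + 1 ∧ y < j * L ∧ (i, j - 1) ∈ H) ∨ (i * L ≤ x + 1 ∧ j * L ≤ y ∧ (i, j) ∈ H)) := by
  rw [mem_shD, mem_vert hL h1 (by omega) h3 h4, mem_vert hL h1 (by omega) h3 h4]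
  have e : ((x, y).1 - -1, (x, y).2) = (x + 1, y) := by simp
  rw [e, mem_vert (i := i) hL (by omega) h2 h3 h4]

/-- middles of sides are far from the vertices -/
theorem half {N c e : ℤ} (hL : 0 < L) (hN : 4 * N + 16 ≤ L) (h1 : L / 2 - 3 ≤ e)
    (h2 : e ≤ L / 2 + 1) : ¬ (i * L - N ≤ c * L + e ∧ c * L + e < i * L + N) := by
  rintro ⟨g1, g2⟩
  rcases lt_or_ge c i with h | h
  · have : c * L ≤ (i - 1) * L := mul_le_mul_of_nonneg_right (by omega) hL.le
    have e1 : (i - 1) * L = i * L - L := by ring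
    omega
  · have : i * L ≤ c * L := mul_le_mul_of_nonneg_right h hL.le
    omega

/-- the tile of a mark, moved by at most one column, is far from the vertices -/
theorem mt_far {P : P4} {N : ℤ} (hL : 0 < L) (hN : 4 * N + 16 ≤ L) (l : Fin 3) {s : V}
    (hs : s = (Hb656.mt P L l).1 ∨ s = ((Hb656.mt P L l).1.1 - 1, (Hb656.mt P L l).1.2)) :
    ¬ (i * L - N ≤ s.1 ∧ s.1 < i * L + N ∧ j * L - N ≤ s.2 ∧ s.2 < j * L + N) := by
  rintro ⟨g1, g2, g3, g4⟩
  unfold Hb656.mt at hs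
  generalize hc : (P.cc l).1 = c at hs
  obtain ⟨c1, c2⟩ := c
  unfold mk2 at hs
  split_ifs at hs
  · -- west
    have : s.2 = c2 * L + L / 2 := by rcases hs with rfl | rfl <;> rfl
    exact half (i := j) hL hN (c := c2) (e := L / 2) (by omega) (by omega) ⟨by omega, by omega⟩
  · -- north
    have : s.1 = c1 * L + L / 2 ∨ s.1 = c1 * L + (L / 2 - 1) := by
      rcases hs with rfl | rfl
      · left; rfl
      · right; simp only; ring
    rcases this with h | h
    · exact half (i := i) hL hN (c := c1) (e := L / 2) (by omega) (by omega) ⟨by omega, by omega⟩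
    · exact half (i := i) hL hN (c := c1) (e := L / 2 - 1) (by omega) (by omega)
        ⟨by omega, by omega⟩
  · -- east
    have : s.2 = c2 * L + (L / 2 - 1) := by
      rcases hs with rfl | rfl <;> simp only <;> ring
    exact half (i := j) hL hN (c := c2) (e := L / 2 - 1) (by omega) (by omega)
      ⟨by omega, by omega⟩
  · -- south
    have : s.1 = c1 * L + (L / 2 - 1) ∨ s.1 = c1 * L + (L / 2 - 2) := by
      rcases hs with rfl | rfl
      · left; simp only; ring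
      · right; simp only; ring
    rcases this with h | h
    · exact half (i := i) hL hN (c := c1) (e := L / 2 - 1) (by omega) (by omega)
        ⟨by omega, by omega⟩
    · exact half (i := i) hL hN (c := c1) (e := L / 2 - 2) (by omega) (by omega)
        ⟨by omega, by omega⟩

theorem mU_tile (H : Finset V) (L k b b' : ℤ) (m : V × ZMod 4) :
    (mU H L k b b' m).1 = m.1 ∨ (mU H L k b b' m).1 = (m.1.1 - 1, m.1.2) := by
  unfold mU mkS
  split_ifs <;> simp_all [sub_eq_add_neg]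

end Crest.Agent.R158.Cn161
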