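import Crest.Agent.R158.Cn1_109
import Crest.Agent.R161.Geo_729

/-!
# Row 158, Block W (helper109), part 2: concentration of the local loop statistics

`LS` : random family `Lps z` of finite sets of faces (interiors of loops), locally determined.
`cnt k v z` = number of `A ∈ Lps z` with `v ∈ A` and `Nat.log 2 (dia A + 1) = k`.
`SS u V κ z = ∑ v ∈ V, u v * ∑ k < κ, cnt k v z` = sum of the masses `u A` of the small loops
(`dia A + 1 < 2 ^ κ`), `QQ` = sum of the squares of the masses.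

* `conc_SS`, `conc_abs_SS` : exponential concentration of `SS` for every real parameter
* `exp_QQ` : exponential moments of the sum of squares
-/

set_option autoImplicit false

noncomputable section

namespace Crest.Agent.R158.Cn109

open MeasureTheory ProbabilityTheory unitInterval
open Crest.Agent.R158.Rs689 Crest.Agent.R161.Geo729
open scoped ENNReal

/-- faces of the medial lattice: `(v, false)` = vertex `v`, `(v, true)` = dual face -/
abbrev Face : Type := P2 × Bool

/-- a locally determined random family of finite sets of faces -/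
structure LS where
  Lps : (Edge → Bool) → Set (Finset Face)
  bd : Finset Face → Finset Edge
  dia : Finset Face → ℕ
  dep : ∀ A : Finset Face, A.Nonempty → Dep (bd A) {z | A ∈ Lps z}
  bd_near : ∀ A : Finset Face, ∀ v ∈ A, ∀ e ∈ bd A,
    |e.1.1 - v.1.1| ≤ dia A + 2 ∧ |e.1.2 - v.1.2| ≤ dia A + 2
  dia_le : ∀ A : Finset Face, ∀ v ∈ A, ∀ w ∈ A,
    |w.1.1 - v.1.1| ≤ dia A ∧ |w.1.2 - v.1.2| ≤ dia A

/-- the box of faces of radius `n` around `v` -/
def FB (v : Face) (n : ℤ) : Finset Face :=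
  (Finset.Icc (v.1.1 - n) (v.1.1 + n) ×ˢ Finset.Icc (v.1.2 - n) (v.1.2 + n)) ×ˢ Finset.univ

theorem mem_FB {v w : Face} {n : ℤ} : w ∈ FB v n ↔ |w.1.1 - v.1.1| ≤ n ∧ |w.1.2 - v.1.2| ≤ n := by
  simp only [FB, Finset.mem_product, Finset.mem_Icc, Finset.mem_univ, and_true, abs_le]
  constructor <;> rintro ⟨⟨h1, h2⟩, h3, h4⟩ <;> exact ⟨⟨by linarith, by linarith⟩, by linarith, by linarith⟩

theorem card_FB (v : Face) (n : ℕ) : (FB v n).card = 2 * (2 * n + 1) ^ 2 := by
  simp only [FB, Finset.card_product, Int.card_Icc, Finset.card_univ, Fintype.card_bool]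
  have h1 : (v.1.1 + n + 1 - (v.1.1 - n)).toNat = 2 * n + 1 := by omega
  have h2 : (v.1.2 + n + 1 - (v.1.2 - n)).toNat = 2 * n + 1 := by omega
  rw [h1, h2]
  ring

variable (L : LS)

open Classical in
/-- the finite family of candidates -/
def fam (k : ℕ) (v : Face) : Finset (Finset Face) :=
  (FB v (2 ^ (k + 1))).powerset.filter fun A => v ∈ A ∧ Nat.log 2 (L.dia A + 1) = k

theorem mem_fam {k : ℕ} {v : Face} {A : Finset Face} :
    A ∈ fam L k v ↔ v ∈ A ∧ Nat.log 2 (L.dia A + 1) = k := by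
  classical
  rw [fam, Finset.mem_filter, Finset.mem_powerset, and_iff_right_iff_imp]
  rintro ⟨h1, h2⟩ w hw
  have h3 := L.dia_le A v h1 w hw
  have h4 : L.dia A + 1 < 2 ^ (k + 1) := by
    rw [← h2]; exact Nat.lt_pow_succ_log_self (by norm_num) _
  have h5 : (L.dia A : ℤ) ≤ 2 ^ (k + 1) := by
    have : L.dia A ≤ 2 ^ (k + 1) := by omega
    exact_mod_cast this
  exact mem_FB.2 ⟨h3.1.trans h5, h3.2.trans h5⟩

open Classical in
/-- number of loops around `v` of scale `k` -/
def cnt (k : ℕ) (v : Face) (z : Edge → Bool) : ℝ :=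
  ∑ A ∈ fam L k v, if A ∈ L.Lps z then 1 else 0

theorem cnt_nonneg (k : ℕ) (v : Face) (z : Edge → Bool) : 0 ≤ cnt L k v z :=
  Finset.sum_nonneg fun A _ => by split_ifs <;> norm_num

theorem cnt_eq_ncard (k : ℕ) (v : Face) (z : Edge → Bool) :
    cnt L k v z = ({A ∈ L.Lps z | v ∈ A ∧ Nat.log 2 (L.dia A + 1) = k}.ncard : ℝ) := by
  classical
  have h : {A ∈ L.Lps z | v ∈ A ∧ Nat.log 2 (L.dia A + 1) = k} =
      (((fam L k v).filter fun A => A ∈ L.Lps z : Finset (Finset Face)) :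
        Set (Finset Face)) := by
    ext A
    simp only [Set.mem_ofPred_eq, Finset.coe_filter, mem_fam]
    tauto
  rw [h, Set.ncard_coe_finset, Finset.card_filter, cnt]
  push_cast
  rfl

open Classical in
/-- the edges that determine `cnt k v` -/
def Sup (k : ℕ) (v : Face) : Finset Edge := (fam L k v).biUnion L.bd

theorem cnt_dep (k : ℕ) (v : Face) : DepF (Sup L k v) (cnt L k v) := by
  classical
  refine DepF.sum fun A hA => ?_
  intro z z' h
  have h1 : z ∈ {z | A ∈ L.Lps z} ↔ z' ∈ {z | A ∈ L.Lps z} :=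
    L.dep A ⟨v, (mem_fam L |>.1 hA).1⟩ z z' fun e he => h e (Finset.mem_biUnion.2 ⟨A, hA, he⟩)
  simp only [Set.mem_ofPred_eq] at h1
  simp only [h1]

theorem sup_near {k : ℕ} {v : Face} {e : Edge} (he : e ∈ Sup L k v) :
    |e.1.1 - v.1.1| ≤ 2 ^ (k + 1) ∧ |e.1.2 - v.1.2| ≤ 2 ^ (k + 1) := by
  classical
  obtain ⟨A, hA, heA⟩ := Finset.mem_biUnion.1 he
  obtain ⟨hv, hk⟩ := (mem_fam L).1 hA
  have h4 : L.dia A + 1 < 2 ^ (k + 1) := by
    rw [← hk]; exact Nat.lt_pow_succ_log_self (by norm_num) _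
  have h5 : (L.dia A : ℤ) + 2 ≤ 2 ^ (k + 1) := by
    have : L.dia A + 2 ≤ 2 ^ (k + 1) := by omega
    exact_mod_cast this
  have h6 := L.bd_near A v hv e heA
  exact ⟨h6.1.trans h5, h6.2.trans h5⟩

/-! ### colours -/

/-- residue as an element of `Fin m` -/
def res (m : ℕ) (hm : 0 < m) (a : ℤ) : Fin m :=
  ⟨(a % m).toNat, by
    have h1 : 0 ≤ a % m := Int.emod_nonneg _ (by omega)
    have h2 : a % m < m := Int.emod_lt_of_pos _ (by omega)
    omega⟩

theorem res_eq {m : ℕ} {hm : 0 < m} {a b : ℤ} (h : res m hm a = res m hm b)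
    (hab : |a - b| < m) : a = b := by
  have h1 : (a % m).toNat = (b % m).toNat := congrArg Fin.val h
  have h2 : 0 ≤ a % m := Int.emod_nonneg _ (by omega)
  have h3 : 0 ≤ b % m := Int.emod_nonneg _ (by omega)
  have h4 : a % m = b % m := by omega
  have h5 : (m : ℤ) ∣ a - b := Int.ModEq.dvd (Eq.symm h4)
  have h6 := Int.eq_zero_of_abs_lt_dvd h5 hab
  omega

/-- side of the colour cells -/
def md (k : ℕ) : ℕ := 2 ^ (k + 3)

theorem md_pos (k : ℕ) : 0 < md k := by unfold md; positivity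

/-- colours of the faces at scale `k` -/
def col (k : ℕ) (v : Face) : Fin (md k * md k * 2) :=
  finProdFinEquiv (finProdFinEquiv (res (md k) (md_pos k) v.1.1, res (md k) (md_pos k) v.1.2),
    if v.2 then 1 else 0)

theorem col_eq {k : ℕ} {v w : Face} (h : col k v = col k w)
    (h1 : |v.1.1 - w.1.1| < md k) (h2 : |v.1.2 - w.1.2| < md k) : v = w := by
  unfold col at h
  rw [EmbeddingLike.apply_eq_iff_eq, Prod.mk.injEq, EmbeddingLike.apply_eq_iff_eq,
    Prod.mk.injEq] at h
  obtain ⟨⟨h3, h4⟩, h5⟩ := h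
  have e1 := res_eq h3 h1
  have e2 := res_eq h4 h2
  have e3 : v.2 = w.2 := by
    cases hv : v.2 <;> cases hw : w.2 <;> simp [hv, hw] at h5 ⊢
  exact Prod.ext (Prod.ext e1 e2) e3

theorem col_disj {k : ℕ} {v w : Face} (hvw : v ≠ w) (h : col k v = col k w) :
    Disjoint (Sup L k v) (Sup L k w) := by
  rw [Finset.disjoint_left]
  intro e he he'
  refine hvw (col_eq h ?_ ?_)
  · have h1 := (sup_near L he).1
    have h2 := (sup_near L he').1
    have h3 : ((md k : ℕ) : ℤ) = 4 * 2 ^ (k + 1) := by unfold md; push_cast; ring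
    have h4 : (0 : ℤ) < 2 ^ (k + 1) := by positivity
    rw [h3]
    rw [abs_le] at h1 h2
    rw [abs_lt]
    constructor <;> linarith
  · have h1 := (sup_near L he).2
    have h2 := (sup_near L he').2
    have h3 : ((md k : ℕ) : ℤ) = 4 * 2 ^ (k + 1) := by unfold md; push_cast; ring
    have h4 : (0 : ℤ) < 2 ^ (k + 1) := by positivity
    rw [h3]
    rw [abs_le] at h1 h2
    rw [abs_lt]
    constructor <;> linarith

/-! ### the linear statistic -/

/-- sum of the masses of the small loops -/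
def SS (u : Face → ℝ) (V : Finset Face) (κ : ℕ) (z : Edge → Bool) : ℝ :=
  ∑ v ∈ V, u v * ∑ k ∈ Finset.range κ, cnt L k v z

open Classical in
theorem SS_dep (u : Face → ℝ) (V : Finset Face) (κ : ℕ) :
    DepF (V.biUnion fun v => (Finset.range κ).biUnion fun k => Sup L k v) (SS L u V κ) := by
  refine DepF.sum fun v hv => DepF.smul _ (DepF.sum fun k hk => (cnt_dep L k v).mono ?_)
  exact (Finset.subset_biUnion_of_mem (fun k => Sup L k v) hk).trans
    (Finset.subset_biUnion_of_mem (fun v => (Finset.range κ).biUnion fun k => Sup L k v) hv)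

section conc

variable {w : Edge → I} {M : ℝ → ℝ}
  (hM : ∀ s : ℝ, 0 ≤ s → ∀ k v, ∫ z, Real.exp (s * cnt L k v z) ∂(PB w) ≤ M s)
include hM

omit hM in
theorem M_nonneg' (hM : ∀ s : ℝ, 0 ≤ s → ∀ k v, ∫ z, Real.exp (s * cnt L k v z) ∂(PB w) ≤ M s)
    {s : ℝ} (hs : 0 ≤ s) : 1 ≤ M s := by
  refine le_trans ?_ (hM s hs 0 ((0, 0), false))
  have h1 : ∫ _z : Edge → Bool, (1 : ℝ) ∂(PB w) = 1 := by simp
  rw [← h1]
  refine integral_mono (integrable_const _)
    (((cnt_dep L 0 _).comp fun x => Real.exp (s * x)).integrable w) fun z => ?_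
  exact Real.one_le_exp (mul_nonneg hs (cnt_nonneg L _ _ _))

/-- **concentration of the linear loop statistic** -/
theorem conc_SS {κ : ℕ} {C : ℝ} (hC : 0 ≤ C) {V : Finset Face} {u : Face → ℝ}
    (u0 : ∀ v ∈ V, 0 ≤ u v) (u1 : ∑ v ∈ V, u v = 1) (hu : ∀ v ∈ V, u v ≤ C / 4 ^ κ) (t : ℝ) :
    ∫ z, Real.exp (t * (SS L u V κ z - ∫ z', SS L u V κ z' ∂(PB w))) ∂(PB w) ≤
      GG M 128 C t + 1 := by
  have hGG : 0 ≤ GG M 128 C t := by
    have h1 := M_nonneg' L hM (s := 4 * (128 * C) * t ^ 2) (by positivity)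
    unfold GG
    positivity
  rcases κ with _ | K
  · simp only [SS, Finset.range_zero, Finset.sum_empty, mul_zero, Finset.sum_const_zero,
      integral_zero, sub_zero, Real.exp_zero, integral_const, probReal_univ, smul_eq_mul, mul_one]
    linarith
  · have e1 : ∀ z, SS L u V (K + 1) z - ∫ z', SS L u V (K + 1) z' ∂(PB w) =
        ∑ v ∈ V, u v * ∑ k ∈ Finset.range (K + 1),
          (cnt L k v z - ∫ z', cnt L k v z' ∂(PB w)) := by
      intro z
      have h1 : ∫ z', SS L u V (K + 1) z' ∂(PB w) =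
          ∑ v ∈ V, u v * ∑ k ∈ Finset.range (K + 1), ∫ z', cnt L k v z' ∂(PB w) := by
        unfold SS
        rw [integral_finsetSum _ fun v _ =>
          ((integrable_finsetSum _ fun k _ => (cnt_dep L k v).integrable w).const_mul _)]
        refine Finset.sum_congr rfl fun v _ => ?_
        rw [integral_const_mul, integral_finsetSum _ fun k _ => (cnt_dep L k v).integrable w]
      rw [h1]
      unfold SS
      rw [← Finset.sum_sub_distrib]
      refine Finset.sum_congr rfl fun v _ => ?_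
      rw [← mul_sub, ← Finset.sum_sub_distrib]
    simp only [e1]
    refine conc (w := w) (V := V) (ρ := u) (M := M) u0 u1 (K := K) (c := 128) (C := C)
      (by norm_num) hC ?_ (S := fun k v => Sup L k v) (N := fun k => md k * md k * 2)
      (fun k _ => ?_) (fun k _ => ?_) (fun k => col k) (fun k _ i _ j _ hij hc => ?_)
      (Z := fun k v => cnt L k v) (fun k _ v _ => cnt_dep L k v) ?_ t
    · intro v hv
      refine (hu v hv).trans ?_
      refine div_le_div_of_nonneg_left hC (by positivity) ?_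
      exact pow_le_pow_right₀ (by norm_num) (Nat.le_succ K)
    · have := md_pos k; positivity
    · unfold md
      push_cast
      have : (2 : ℝ) ^ (k + 3) * 2 ^ (k + 3) * 2 = 128 * (2 ^ k * 2 ^ k) := by ring
      rw [this, ← mul_pow]
      norm_num
    · exact col_disj L hij hc
    · intro s hs k _ v _
      simp only [abs_of_nonneg (cnt_nonneg L _ _ _)]
      exact hM s hs k v

theorem conc_abs_SS {κ : ℕ} {C : ℝ} (hC : 0 ≤ C) {V : Finset Face} {u : Face → ℝ}
    (u0 : ∀ v ∈ V, 0 ≤ u v) (u1 : ∑ v ∈ V, u v = 1) (hu : ∀ v ∈ V, u v ≤ C / 4 ^ κ) (t : ℝ) :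
    ∫ z, Real.exp (|t| * |SS L u V κ z - ∫ z', SS L u V κ z' ∂(PB w)|) ∂(PB w) ≤
      2 * (GG M 128 C t + 1) := by
  classical
  have h1 := conc_SS L hM hC u0 u1 hu t
  have h2 := conc_SS L hM hC u0 u1 hu (-t)
  have h3 : GG M 128 C (-t) = GG M 128 C t := by unfold GG; rw [neg_sq]
  rw [h3] at h2
  set m := ∫ z', SS L u V κ z' ∂(PB w)
  have hd := SS_dep L u V κ
  calc ∫ z, Real.exp (|t| * |SS L u V κ z - m|) ∂(PB w)
      ≤ ∫ z, (Real.exp (t * (SS L u V κ z - m)) + Real.exp (-t * (SS L u V κ z - m))) ∂(PB w) := by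
        refine integral_mono ((hd.comp fun x => Real.exp (|t| * |x - m|)).integrable w)
          (((hd.comp fun x => Real.exp (t * (x - m))).integrable w).add
            ((hd.comp fun x => Real.exp (-t * (x - m))).integrable w)) fun z => ?_
        show Real.exp (|t| * |SS L u V κ z - m|) ≤ _
        rw [← abs_mul]
        rcases abs_choice (t * (SS L u V κ z - m)) with h | h
        · rw [h]
          exact le_add_of_nonneg_right (Real.exp_pos _).le
        · rw [h, ← neg_mul]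
          exact le_add_of_nonneg_left (Real.exp_pos _).le
    _ = _ + _ := integral_add ((hd.comp fun x => Real.exp (t * (x - m))).integrable w)
        ((hd.comp fun x => Real.exp (-t * (x - m))).integrable w)
    _ ≤ 2 * (GG M 128 C t + 1) := by linarith

omit hM in
/-- Jensen, total weight at most one -/
theorem jensen_exp' {κ : Type*} {V : Finset κ} {ρ : κ → ℝ} (h0 : ∀ v ∈ V, 0 ≤ ρ v)
    (h1 : ∑ v ∈ V, ρ v ≤ 1) {S : Finset Edge} {Z : κ → (Edge → Bool) → ℝ}
    (hZ : ∀ v ∈ V, DepF S (Z v)) {G : ℝ} (hG1 : 1 ≤ G)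
    (hG : ∀ v ∈ V, ∫ z, Real.exp (Z v z) ∂(PB w) ≤ G) :
    ∫ z, Real.exp (∑ v ∈ V, ρ v * Z v z) ∂(PB w) ≤ G := by
  have h := jensen_exp (w := w) (V := Finset.insertNone V)
    (ρ := fun o : Option κ => o.elim (1 - ∑ i ∈ V, ρ i) ρ) (S := S)
    (Z := fun o : Option κ => o.elim (fun _ => 0) Z) (G := G)
    (fun o ho => by
      cases o with
      | none => simp only [Option.elim]; linarith
      | some i => exact h0 i (by simpa using ho))
    (by rw [Finset.sum_insertNone]; simp)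
    (fun o ho => by
      cases o with
      | none => exact DepF.const S 0
      | some i => exact hZ i (by simpa using ho))
    (fun o ho => by
      cases o with
      | none => simpa using hG1
      | some i => exact hG i (by simpa using ho))
  simp only [Finset.sum_insertNone, Option.elim] at h
  simpa using h

end conc

/-! ### sums over loops -/

open Classical in
/-- mass of a set of faces -/
def mass (u : Face → ℝ) (V : Finset Face) (A : Finset Face) : ℝ := ∑ v ∈ V with v ∈ A, u v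

open Classical in
/-- the small loops that meet `V` -/
def smalls (V : Finset Face) (κ : ℕ) (z : Edge → Bool) : Finset (Finset Face) :=
  (V.biUnion fun v => (Finset.range κ).biUnion fun k => fam L k v).filter fun A => A ∈ L.Lps z

theorem mem_smalls {V : Finset Face} {κ : ℕ} {z : Edge → Bool} {A : Finset Face} :
    A ∈ smalls L V κ z ↔ A ∈ L.Lps z ∧ (∃ v ∈ V, v ∈ A) ∧ L.dia A + 1 < 2 ^ κ := by
  classical
  simp only [smalls, Finset.mem_filter, Finset.mem_biUnion, Finset.mem_range, mem_fam]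
  constructor
  · rintro ⟨⟨v, hv, k, hk, hvA, hkA⟩, hA⟩
    refine ⟨hA, ⟨v, hv, hvA⟩, ?_⟩
    rw [← Nat.log_lt_iff_lt_pow (by norm_num) (by omega), hkA]
    exact hk
  · rintro ⟨hA, ⟨v, hv, hvA⟩, h⟩
    exact ⟨⟨v, hv, _, (Nat.log_lt_iff_lt_pow (by norm_num) (by omega)).2 h, hvA, rfl⟩, hA⟩

open Classical in
/-- exchange of summations -/
theorem sum_smalls (u : Face → ℝ) (V : Finset Face) (κ : ℕ) (z : Edge → Bool)
    (g : Finset Face → ℝ) :
    ∑ v ∈ V, u v * ∑ k ∈ Finset.range κ, ∑ A ∈ fam L k v, (if A ∈ L.Lps z then g A else 0) =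
      ∑ A ∈ smalls L V κ z, mass u V A * g A := by
  have h1 : ∀ v ∈ V, ∑ k ∈ Finset.range κ, ∑ A ∈ fam L k v, (if A ∈ L.Lps z then g A else 0) =
      ∑ A ∈ smalls L V κ z, if v ∈ A then g A else 0 := by
    intro v hv
    have h2 : ∀ k ∈ Finset.range κ, ∑ A ∈ fam L k v, (if A ∈ L.Lps z then g A else 0) =
        ∑ A ∈ smalls L V κ z with v ∈ A ∧ Nat.log 2 (L.dia A + 1) = k, g A := by
      intro k hk
      rw [← Finset.sum_filter]
      refine Finset.sum_congr ?_ fun _ _ => rfl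
      ext A
      simp only [Finset.mem_filter, mem_fam, mem_smalls]
      constructor
      · rintro ⟨⟨h3, h4⟩, h5⟩
        refine ⟨⟨h5, ⟨v, hv, h3⟩, ?_⟩, h3, h4⟩
        rw [← Nat.log_lt_iff_lt_pow (by norm_num) (by omega), h4]
        exact Finset.mem_range.1 hk
      · rintro ⟨⟨h3, _, _⟩, h4, h5⟩
        exact ⟨⟨h4, h5⟩, h3⟩
    rw [Finset.sum_congr rfl h2]
    have h6 : ∀ k, ∑ A ∈ smalls L V κ z with v ∈ A ∧ Nat.log 2 (L.dia A + 1) = k, g A =
        ∑ A ∈ (smalls L V κ z).filter (fun A => v ∈ A) with Nat.log 2 (L.dia A + 1) = k, g A := by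
      intro k
      rw [Finset.filter_filter]
    simp only [h6]
    rw [Finset.sum_fiberwise_of_maps_to (t := Finset.range κ)
      (g := fun A => Nat.log 2 (L.dia A + 1)) (fun A hA => ?_), Finset.sum_filter]
    rw [Finset.mem_filter, mem_smalls] at hA
    rw [Finset.mem_range, Nat.log_lt_iff_lt_pow (by norm_num) (by omega)]
    exact hA.1.2.2
  rw [Finset.sum_congr rfl fun v hv => by rw [h1 v hv]]
  simp only [Finset.mul_sum]
  rw [Finset.sum_comm]
  refine Finset.sum_congr rfl fun A _ => ?_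
  rw [mass, Finset.sum_mul, Finset.sum_filter]
  refine Finset.sum_congr rfl fun v _ => ?_
  split_ifs <;> simp

theorem SS_eq (u : Face → ℝ) (V : Finset Face) (κ : ℕ) (z : Edge → Bool) :
    SS L u V κ z = ∑ A ∈ smalls L V κ z, mass u V A := by
  classical
  have h := sum_smalls L u V κ z fun _ => 1
  simp only [mul_one] at h
  rw [← h]
  rfl

/-- sum of the squares of the masses of the small loops -/
def QQ (u : Face → ℝ) (V : Finset Face) (κ : ℕ) (z : Edge → Bool) : ℝ :=
  ∑ A ∈ smalls L V κ z, mass u V A ^ 2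

theorem QQ_nonneg (u : Face → ℝ) (V : Finset Face) (κ : ℕ) (z : Edge → Bool) :
    0 ≤ QQ L u V κ z := Finset.sum_nonneg fun _ _ => sq_nonneg _

theorem mass_nonneg {u : Face → ℝ} {V : Finset Face} (u0 : ∀ v ∈ V, 0 ≤ u v) (A : Finset Face) :
    0 ≤ mass u V A := Finset.sum_nonneg fun v hv => u0 v (Finset.mem_filter.1 hv).1

theorem mass_le {u : Face → ℝ} {V : Finset Face} {C : ℝ} (hC : 0 ≤ C) {κ k : ℕ}
    (hu : ∀ v ∈ V, u v ≤ C / 4 ^ κ) {v : Face} {A : Finset Face} (hA : A ∈ fam L k v) :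
    mass u V A ≤ 72 * C * (4 ^ k / 4 ^ κ) := by
  classical
  obtain ⟨hv, hk⟩ := (mem_fam L).1 hA
  have h4 : L.dia A + 1 < 2 ^ (k + 1) := by
    rw [← hk]; exact Nat.lt_pow_succ_log_self (by norm_num) _
  have h5 : A ⊆ FB v (L.dia A : ℕ) := fun w hw => mem_FB.2 (by exact_mod_cast L.dia_le A v hv w hw)
  have h6 : (A.card : ℝ) ≤ 72 * 4 ^ k := by
    have h7 := (Finset.card_le_card h5).trans (le_of_eq (card_FB v _))
    have h8 : 2 * L.dia A + 1 ≤ 6 * 2 ^ k := by
      have : 2 ^ (k + 1) = 2 * 2 ^ k := by ring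
      omega
    have h9 : A.card ≤ 2 * (6 * 2 ^ k) ^ 2 :=
      h7.trans (Nat.mul_le_mul_left _ (Nat.pow_le_pow_left h8 2))
    calc (A.card : ℝ) ≤ ((2 * (6 * 2 ^ k) ^ 2 : ℕ) : ℝ) := by exact_mod_cast h9
      _ = 72 * 4 ^ k := by
          push_cast
          have : (4 : ℝ) ^ k = 2 ^ k * 2 ^ k := by rw [← mul_pow]; norm_num
          rw [this]; ring
  calc mass u V A ≤ ∑ v ∈ V with v ∈ A, C / 4 ^ κ :=
        Finset.sum_le_sum fun v hv => hu v (Finset.mem_filter.1 hv).1
    _ = ((V.filter fun v => v ∈ A).card : ℝ) * (C / 4 ^ κ) := by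
        rw [Finset.sum_const, nsmul_eq_mul]
    _ ≤ (A.card : ℝ) * (C / 4 ^ κ) := by
        refine mul_le_mul_of_nonneg_right ?_ (by positivity)
        exact_mod_cast Finset.card_le_card fun v hv => (Finset.mem_filter.1 hv).2
    _ ≤ 72 * 4 ^ k * (C / 4 ^ κ) := mul_le_mul_of_nonneg_right h6 (by positivity)
    _ = 72 * C * (4 ^ k / 4 ^ κ) := by ring

/-- pointwise bound of the sum of squares -/
theorem QQ_le {u : Face → ℝ} {V : Finset Face} {C : ℝ} (hC : 0 ≤ C) {κ : ℕ}
    (u0 : ∀ v ∈ V, 0 ≤ u v) (hu : ∀ v ∈ V, u v ≤ C / 4 ^ κ) (z : Edge → Bool) :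
    QQ L u V κ z ≤ ∑ v ∈ V, u v * ∑ k ∈ Finset.range κ, 72 * C * (4 ^ k / 4 ^ κ) * cnt L k v z := by
  classical
  have h := sum_smalls L u V κ z fun A => mass u V A
  have h1 : QQ L u V κ z = ∑ A ∈ smalls L V κ z, mass u V A * mass u V A :=
    Finset.sum_congr rfl fun A _ => sq _
  rw [h1, ← h]
  refine Finset.sum_le_sum fun v hv => mul_le_mul_of_nonneg_left
    (Finset.sum_le_sum fun k _ => ?_) (u0 v hv)
  rw [cnt, Finset.mul_sum]
  refine Finset.sum_le_sum fun A hA => ?_
  split_ifs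
  · rw [mul_one]; exact mass_le L hC hu hA
  · simp

open Classical in
theorem QQ_dep (u : Face → ℝ) (V : Finset Face) (κ : ℕ) :
    DepF (V.biUnion fun v => (Finset.range κ).biUnion fun k => Sup L k v) (QQ L u V κ) := by
  have h : QQ L u V κ = fun z => ∑ v ∈ V, u v * ∑ k ∈ Finset.range κ, ∑ A ∈ fam L k v,
      (if A ∈ L.Lps z then mass u V A else 0) := by
    funext z
    rw [sum_smalls L u V κ z fun A => mass u V A]
    exact Finset.sum_congr rfl fun A _ => sq _
  rw [h]
  refine DepF.sum fun v hv => DepF.smul _ (DepF.sum fun k hk => DepF.sum fun A hA => ?_)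
  intro z z' hz
  have h1 : z ∈ {z | A ∈ L.Lps z} ↔ z' ∈ {z | A ∈ L.Lps z} :=
    L.dep A ⟨v, (mem_fam L |>.1 hA).1⟩ z z' fun e he => hz e
      (Finset.mem_biUnion.2 ⟨v, hv, Finset.mem_biUnion.2 ⟨k, hk, Finset.mem_biUnion.2 ⟨A, hA, he⟩⟩⟩)
  simp only [Set.mem_ofPred_eq] at h1
  simp only [h1]

/-- **exponential moments of the sum of squares** -/
theorem exp_QQ {w : Edge → I} {M : ℝ → ℝ}
    (hM : ∀ s : ℝ, 0 ≤ s → ∀ k v, ∫ z, Real.exp (s * cnt L k v z) ∂(PB w) ≤ M s)
    {κ : ℕ} {C : ℝ} (hC : 0 ≤ C) {V : Finset Face} {u : Face → ℝ}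
    (u0 : ∀ v ∈ V, 0 ≤ u v) (u1 : ∑ v ∈ V, u v = 1) (hu : ∀ v ∈ V, u v ≤ C / 4 ^ κ)
    {t : ℝ} (ht : 0 ≤ t) :
    ∫ z, Real.exp (t * QQ L u V κ z) ∂(PB w) ≤ M (72 * C * t) := by
  classical
  set T : Finset Edge := V.biUnion fun v => (Finset.range κ).biUnion fun k => Sup L k v
  have hT : ∀ p ∈ V ×ˢ Finset.range κ, DepF T (cnt L p.2 p.1) := fun p hp =>
    (cnt_dep L p.2 p.1).mono ((Finset.subset_biUnion_of_mem (fun k => Sup L k p.1)
      (Finset.mem_product.1 hp).2).trans (Finset.subset_biUnion_of_mem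
        (fun v => (Finset.range κ).biUnion fun k => Sup L k v) (Finset.mem_product.1 hp).1))
  have hgeo : ∑ k ∈ Finset.range κ, (4 : ℝ) ^ k / 4 ^ κ ≤ 1 := by
    rw [← Finset.sum_div, div_le_one (by positivity)]
    have h1 : ∀ n : ℕ, ∑ k ∈ Finset.range n, (4 : ℝ) ^ k ≤ 4 ^ n := by
      intro n
      induction n with
      | zero => simp
      | succ n ih => rw [Finset.sum_range_succ, pow_succ]; nlinarith [pow_pos (by norm_num : (0:ℝ) < 4) n]
    exact h1 κ
  have h1 : ∫ z, Real.exp (∑ p ∈ V ×ˢ Finset.range κ, (u p.1 * (4 ^ p.2 / 4 ^ κ)) *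
      ((72 * C * t) * cnt L p.2 p.1 z)) ∂(PB w) ≤ M (72 * C * t) := by
    refine jensen_exp' (S := T) (fun p hp => mul_nonneg (u0 _ (Finset.mem_product.1 hp).1)
      (by positivity)) ?_ (fun p hp => (hT p hp).smul _)
      (M_nonneg' L hM (by positivity)) (fun p _ => hM _ (by positivity) _ _)
    rw [Finset.sum_product]
    calc ∑ v ∈ V, ∑ k ∈ Finset.range κ, u v * ((4 : ℝ) ^ k / 4 ^ κ)
        = (∑ v ∈ V, u v) * ∑ k ∈ Finset.range κ, (4 : ℝ) ^ k / 4 ^ κ := by
          rw [Finset.sum_mul]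
          exact Finset.sum_congr rfl fun v _ => (Finset.mul_sum _ _ _).symm
      _ ≤ 1 := by rw [u1, one_mul]; exact hgeo
  refine le_trans (integral_mono (((QQ_dep L u V κ).comp fun x => Real.exp (t * x)).integrable w)
    (((DepF.sum fun p hp => ((hT p hp).smul _).smul _).comp Real.exp).integrable w)
    fun z => ?_) h1
  show Real.exp (t * QQ L u V κ z) ≤ Real.exp _
  rw [Real.exp_le_exp, Finset.sum_product]
  refine (mul_le_mul_of_nonneg_left (QQ_le L hC u0 hu z) ht).trans (le_of_eq ?_)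
  rw [Finset.mul_sum]
  refine Finset.sum_congr rfl fun v _ => ?_
  rw [Finset.mul_sum, Finset.mul_sum]
  refine Finset.sum_congr rfl fun k _ => ?_
  ring

end Crest.Agent.R158.Cn109
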