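import Crest.Agent.R158.Sh3_279

/-!
R158, S0237, BLOCK BL, leaf (B2), file 4 (helper279): words of all regions of the BL chains

`M : Mac`, `Hang M.F H k i0 i1 up`, `NoPinch M.F`, `8 ≤ L`, `δ = 0, 1, -1`.

* `D_cn`, `D_cc` : the plain polyomino
* **`lay_reg`** : `shD F H L δ ∪ S` (`S ⊆ RL` or `S ⊆ LL`): `SC`, `Conn`
* **`notch_reg`** : `shD F H L δ \ N` (`N` right wall tiles of the part that is not moved): `SC`, `Conn`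
* **`lay_GW`**, **`notch_GW`**, **`notch_GW'`** : good words for the slit in a run that is not moved,
  with the value of `rgt`
* **`D_notch_GW`**, **`D_notch_GW'`** : the same without hanging part (same run)
-/

set_option autoImplicit false

noncomputable section

namespace Crest.Agent.R158.Sh279

open Crest.Agent.R158.Xr249 (CPath full full_Conn SC_of_cc D_cpath lift_path exists_GW)
open Crest.Agent.R158.Env664 (D Run Adj4 Mac mem_D div_iff beD)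
open Crest.Agent.R158.Ob664 (GW rgt rgt_not_mem rgt_mem)
open Crest.Agent.R158.Hb656

theorem D_cn (M : Mac) {L : ℤ} (hL : 8 ≤ L) : Cn {t | t ∈ D M.F L} := by
  intro a ha b hb
  have hL' : 0 < L := by omega
  have ha' := (mem_D hL' a).1 ha
  have hb' := (mem_D hL' b).1 hb
  refine lift_path hL' (Y := {t | t ∈ M.F}) (fun t ht => ?_) (M.conn _ ha' _ hb') ha' rfl rfl
  exact (mem_D hL' t).2 ht

theorem D_cc (M : Mac) {L : ℤ} (hL : 8 ≤ L) : Cn {t | t ∉ D M.F L} :=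
  fun _ ha _ hb => D_cpath M (by omega) ha hb

theorem SC_of_cn {A : Finset (ℤ × ℤ)} (h : Cn {t | t ∉ A}) : (full A).SC := SC_of_cc h

theorem Conn_of_cn {A : Finset (ℤ × ℤ)} (h : Cn {t | t ∈ A}) : (full A).Conn := full_Conn h

/-- right end of a run -/
theorem rgt_eq {A : Finset (ℤ × ℤ)} {p xr y : ℤ} (hp : p ≤ xr) (h : ∀ x, p ≤ x → x ≤ xr → (x, y) ∈ A)
    (hw : (xr + 1, y) ∉ A) : rgt A p y = xr := by
  rcases lt_trichotomy (rgt A p y) xr with h1 | h1 | h1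
  · have h2 := Ob664.le_rgt A p y
    exact absurd (h _ (by omega) (by omega)) (rgt_not_mem A p y)
  · exact h1
  · exact absurd (rgt_mem (h p (le_refl _) hp) (by omega) (by omega)) hw

section reg

variable {M : Mac} {H : Finset (ℤ × ℤ)} {k i0 i1 L δ : ℤ} {up : Bool}

/-- **`shD ∪ S`** -/
theorem lay_cn_cc (h : Hang M.F H k i0 i1 up) (np : NoPinch M.F) (hL : 8 ≤ L)
    (hδ : δ = 0 ∨ δ = 1 ∨ δ = -1) {S : Finset (ℤ × ℤ)}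
    (hS : S ⊆ RL M.F H L δ ∨ S ⊆ LL M.F H L δ) :
    Cn {t | t ∈ shD M.F H L δ ∪ S} ∧ Cn {t | t ∉ shD M.F H L δ ∪ S} := by
  obtain ⟨σ, hσ, hN⟩ : ∃ σ : ℤ, (σ = 1 ∨ σ = -1) ∧ (S : Set (ℤ × ℤ)) ⊆ Lay M.F H L δ σ := by
    rcases hS with hS | hS
    · exact ⟨1, Or.inl rfl, fun t ht => RL_Lay (hS ht)⟩
    · exact ⟨-1, Or.inr rfl, fun t ht => LL_Lay (hS ht)⟩
  have e1 : {t | t ∈ shD M.F H L δ ∪ S} = Sd M.F H L δ ∪ S := by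
    ext t; simp [Sd]
  have e2 : {t | t ∉ shD M.F H L δ ∪ S} = (Sd M.F H L δ ∪ S)ᶜ := by
    rw [← e1]; rfl
  rw [e1, e2]
  exact ⟨lay_cn hN hσ (shD_cn h hL (D_cn M hL) hδ),
    lay_cc h np hL hN hσ hδ (shD_cc h hL (D_cc M hL) hδ)⟩

/-- **`shD ∪ S` as a region** -/
theorem lay_reg (h : Hang M.F H k i0 i1 up) (np : NoPinch M.F) (hL : 8 ≤ L)
    (hδ : δ = 0 ∨ δ = 1 ∨ δ = -1) {S : Finset (ℤ × ℤ)}
    (hS : S ⊆ RL M.F H L δ ∨ S ⊆ LL M.F H L δ) :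
    (full (shD M.F H L δ ∪ S)).SC ∧ (full (shD M.F H L δ ∪ S)).Conn :=
  ⟨SC_of_cn (lay_cn_cc h np hL hδ hS).2, Conn_of_cn (lay_cn_cc h np hL hδ hS).1⟩

/-- **`shD \ N`** -/
theorem notch_cn_cc (h : Hang M.F H k i0 i1 up) (np : NoPinch M.F) (hL : 8 ≤ L)
    (hδ : δ = 0 ∨ δ = 1 ∨ δ = -1) {N : Finset (ℤ × ℤ)}
    (hN : ∀ t ∈ N, t ∈ D M.F L ∧ t ∉ D H L ∧ (t.1 + 1, t.2) ∉ D M.F L) :
    Cn {t | t ∈ shD M.F H L δ \ N} ∧ Cn {t | t ∉ shD M.F H L δ \ N} := by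
  have e1 : {t | t ∈ shD M.F H L δ \ N} = Sd M.F H L δ \ N := by
    ext t; simp [Sd]
  have e2 : {t | t ∉ shD M.F H L δ \ N} = (Sd M.F H L δ \ N)ᶜ := by
    rw [← e1]; rfl
  rw [e1, e2]
  have hN' : ∀ t ∈ (N : Set (ℤ × ℤ)), t ∈ D M.F L ∧ t ∉ D H L ∧ (t.1 + 1, t.2) ∉ D M.F L :=
    fun t ht => hN t (by exact_mod_cast ht)
  exact ⟨notch_cn h np hL hN' hδ (shD_cn h hL (D_cn M hL) hδ),
    notch_cc h hL hN' hδ (shD_cc h hL (D_cc M hL) hδ)⟩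

theorem notch_reg (h : Hang M.F H k i0 i1 up) (np : NoPinch M.F) (hL : 8 ≤ L)
    (hδ : δ = 0 ∨ δ = 1 ∨ δ = -1) {N : Finset (ℤ × ℤ)}
    (hN : ∀ t ∈ N, t ∈ D M.F L ∧ t ∉ D H L ∧ (t.1 + 1, t.2) ∉ D M.F L) :
    (full (shD M.F H L δ \ N)).SC ∧ (full (shD M.F H L δ \ N)).Conn :=
  ⟨SC_of_cn (notch_cn_cc h np hL hδ hN).2, Conn_of_cn (notch_cn_cc h np hL hδ hN).1⟩

/-- the tile right of a run that is not moved is outside `shD` -/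
theorem wall_shD (h : Hang M.F H k i0 i1 up) (hL : 8 ≤ L) (hδ : δ = 0 ∨ δ = 1 ∨ δ = -1) {x y : ℤ}
    (h1 : (x, y) ∈ D M.F L) (h2 : (x, y) ∉ D H L) (h3 : (x + 1, y) ∉ D M.F L) :
    (x + 1, y) ∉ shD M.F H L δ := by
  intro h4
  rcases mem_shD.1 h4 with ⟨h5, -⟩ | h5
  · exact h3 h5
  · simp only at h5
    exact h2 (hor3 h hL (by omega) (by omega) h5 h1)

/-- and outside the layers -/
theorem wall_lay (h : Hang M.F H k i0 i1 up) (hL : 8 ≤ L) (hδ : δ = 0 ∨ δ = 1 ∨ δ = -1) {x y : ℤ}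
    (h1 : (x, y) ∈ D M.F L) (h2 : (x, y) ∉ D H L) {S : Finset (ℤ × ℤ)}
    (hS : S ⊆ RL M.F H L δ ∨ S ⊆ LL M.F H L δ) : (x + 1, y) ∉ S := by
  intro h4
  rcases hS with hS | hS
  · have h5 := (mem_RL.1 (hS h4)).1
    simp only at h5
    exact h2 (hor3 h hL (by omega) (by omega) h5 h1)
  · have h5 := (mem_LL.1 (hS h4)).1
    simp only at h5
    exact h2 (hor3 h hL (by omega) (by omega) h5 h1)

/-- **words of `shD ∪ S`**, the slit in a run that is not moved -/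
theorem lay_GW (h : Hang M.F H k i0 i1 up) (np : NoPinch M.F) (hL : 8 ≤ L)
    (hδ : δ = 0 ∨ δ = 1 ∨ δ = -1) {S : Finset (ℤ × ℤ)}
    (hS : S ⊆ RL M.F H L δ ∨ S ⊆ LL M.F H L δ) {p xr y : ℤ} (hp : p < xr)
    (h0 : ∀ x, p ≤ x → x ≤ xr → (x, y - 1) ∈ D M.F L ∧ (x, y - 1) ∉ D H L)
    (h1 : ∀ x, p ≤ x → x ≤ xr → (x, y) ∈ D M.F L ∧ (x, y) ∉ D H L)
    (hw : (xr + 1, y) ∉ D M.F L) :
    rgt (shD M.F H L δ ∪ S) p y = xr ∧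
      ∃ w, GW (shD M.F H L δ ∪ S) (beD (shD M.F H L δ ∪ S) p y xr) w := by
  have m0 : ∀ x, p ≤ x → x ≤ xr → (x, y - 1) ∈ shD M.F H L δ ∪ S := fun x h2 h3 =>
    Finset.mem_union_left _ (mem_shD.2 (Or.inl (h0 x h2 h3)))
  have m1 : ∀ x, p ≤ x → x ≤ xr → (x, y) ∈ shD M.F H L δ ∪ S := fun x h2 h3 =>
    Finset.mem_union_left _ (mem_shD.2 (Or.inl (h1 x h2 h3)))
  have mw : (xr + 1, y) ∉ shD M.F H L δ ∪ S := by
    have h2 := h1 xr hp.le (le_refl _)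
    rw [Finset.mem_union, not_or]
    exact ⟨wall_shD h hL hδ h2.1 h2.2 hw, wall_lay h hL hδ h2.1 h2.2 hS⟩
  have hr := lay_reg h np hL hδ hS
  exact ⟨rgt_eq hp.le m1 mw, exists_GW hr.1 hr.2 hp.le (fun x h2 h3 => ⟨m0 x h2 h3, m1 x h2 h3⟩) mw
    (Or.inl hp)⟩

/-- **words of `shD \ N`**, both rows of the slit complete -/
theorem notch_GW (h : Hang M.F H k i0 i1 up) (np : NoPinch M.F) (hL : 8 ≤ L)
    (hδ : δ = 0 ∨ δ = 1 ∨ δ = -1) {N : Finset (ℤ × ℤ)}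
    (hN : ∀ t ∈ N, t ∈ D M.F L ∧ t ∉ D H L ∧ (t.1 + 1, t.2) ∉ D M.F L) {p xr y : ℤ} (hp : p < xr)
    (h0 : ∀ x, p ≤ x → x ≤ xr → (x, y - 1) ∈ D M.F L ∧ (x, y - 1) ∉ D H L ∧ (x, y - 1) ∉ N)
    (h1 : ∀ x, p ≤ x → x ≤ xr → (x, y) ∈ D M.F L ∧ (x, y) ∉ D H L ∧ (x, y) ∉ N)
    (hw : (xr + 1, y) ∉ D M.F L) :
    rgt (shD M.F H L δ \ N) p y = xr ∧
      ∃ w, GW (shD M.F H L δ \ N) (beD (shD M.F H L δ \ N) p y xr) w := by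
  have m0 : ∀ x, p ≤ x → x ≤ xr → (x, y - 1) ∈ shD M.F H L δ \ N := fun x h2 h3 =>
    Finset.mem_sdiff.2 ⟨mem_shD.2 (Or.inl ⟨(h0 x h2 h3).1, (h0 x h2 h3).2.1⟩), (h0 x h2 h3).2.2⟩
  have m1 : ∀ x, p ≤ x → x ≤ xr → (x, y) ∈ shD M.F H L δ \ N := fun x h2 h3 =>
    Finset.mem_sdiff.2 ⟨mem_shD.2 (Or.inl ⟨(h1 x h2 h3).1, (h1 x h2 h3).2.1⟩), (h1 x h2 h3).2.2⟩
  have mw : (xr + 1, y) ∉ shD M.F H L δ \ N := by
    have h2 := h1 xr hp.le (le_refl _)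
    intro h3
    exact wall_shD h hL hδ h2.1 h2.2.1 hw (Finset.mem_sdiff.1 h3).1
  have hr := notch_reg h np hL hδ hN
  exact ⟨rgt_eq hp.le m1 mw, exists_GW hr.1 hr.2 hp.le (fun x h2 h3 => ⟨m0 x h2 h3, m1 x h2 h3⟩) mw
    (Or.inl hp)⟩

/-- **words of `shD \ N`**, the last tile of the lower row of the slit is in the notch -/
theorem notch_GW' (h : Hang M.F H k i0 i1 up) (np : NoPinch M.F) (hL : 8 ≤ L)
    (hδ : δ = 0 ∨ δ = 1 ∨ δ = -1) {N : Finset (ℤ × ℤ)}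
    (hN : ∀ t ∈ N, t ∈ D M.F L ∧ t ∉ D H L ∧ (t.1 + 1, t.2) ∉ D M.F L) {p xr y : ℤ} (hp : p < xr)
    (h0 : ∀ x, p ≤ x → x < xr → (x, y - 1) ∈ D M.F L ∧ (x, y - 1) ∉ D H L ∧ (x, y - 1) ∉ N)
    (h1 : ∀ x, p ≤ x → x ≤ xr → (x, y) ∈ D M.F L ∧ (x, y) ∉ D H L ∧ (x, y) ∉ N)
    (hx : (xr, y - 1) ∈ N) (hw : (xr + 1, y) ∉ D M.F L) :
    rgt (shD M.F H L δ \ N) p y = xr ∧
      ∃ w, GW (shD M.F H L δ \ N) (beD (shD M.F H L δ \ N) p y xr) w := by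
  have m0 : ∀ x, p ≤ x → x < xr → (x, y - 1) ∈ shD M.F H L δ \ N := fun x h2 h3 =>
    Finset.mem_sdiff.2 ⟨mem_shD.2 (Or.inl ⟨(h0 x h2 h3).1, (h0 x h2 h3).2.1⟩), (h0 x h2 h3).2.2⟩
  have m1 : ∀ x, p ≤ x → x ≤ xr → (x, y) ∈ shD M.F H L δ \ N := fun x h2 h3 =>
    Finset.mem_sdiff.2 ⟨mem_shD.2 (Or.inl ⟨(h1 x h2 h3).1, (h1 x h2 h3).2.1⟩), (h1 x h2 h3).2.2⟩
  have mw : (xr + 1, y) ∉ shD M.F H L δ \ N := by
    have h2 := h1 xr hp.le (le_refl _)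
    intro h3
    exact wall_shD h hL hδ h2.1 h2.2.1 hw (Finset.mem_sdiff.1 h3).1
  have hr := notch_reg h np hL hδ hN
  exact ⟨rgt_eq hp.le m1 mw, exists_GW' hr.1 hr.2 hp (fun x h2 h3 => ⟨m0 x h2 h3, m1 x h2 h3.le⟩)
    (m1 xr hp.le (le_refl _)) (fun h3 => (Finset.mem_sdiff.1 h3).2 hx) mw⟩

/-! ### no hanging part -/

/-- the empty hanging part -/
theorem hang_empty (F : Finset (ℤ × ℤ)) : Hang F ∅ 0 1 0 true where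
  sub := by simp
  hor := by simp
  ver := by simp
  cut := by intro a h1 h2; omega

theorem shD_empty (F : Finset (ℤ × ℤ)) (L δ : ℤ) : shD F ∅ L δ = D F L := by
  ext t
  rw [mem_shD]
  simp [D]

theorem not_mem_D_empty {L : ℤ} (t : ℤ × ℤ) : t ∉ D ∅ L := by simp [D]

theorem D_notch_reg (np : NoPinch M.F) (hL : 8 ≤ L) {N : Finset (ℤ × ℤ)}
    (hN : ∀ t ∈ N, t ∈ D M.F L ∧ (t.1 + 1, t.2) ∉ D M.F L) :
    (full (D M.F L \ N)).SC ∧ (full (D M.F L \ N)).Conn := by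
  have := notch_reg (M := M) (δ := 0) (hang_empty M.F) np hL (Or.inl rfl) (N := N)
    (fun t ht => ⟨(hN t ht).1, not_mem_D_empty t, (hN t ht).2⟩)
  rwa [shD_empty] at this

theorem D_notch_GW (np : NoPinch M.F) (hL : 8 ≤ L) {N : Finset (ℤ × ℤ)}
    (hN : ∀ t ∈ N, t ∈ D M.F L ∧ (t.1 + 1, t.2) ∉ D M.F L) {p xr y : ℤ} (hp : p < xr)
    (h0 : ∀ x, p ≤ x → x ≤ xr → (x, y - 1) ∈ D M.F L ∧ (x, y - 1) ∉ N)
    (h1 : ∀ x, p ≤ x → x ≤ xr → (x, y) ∈ D M.F L ∧ (x, y) ∉ N)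
    (hw : (xr + 1, y) ∉ D M.F L) :
    rgt (D M.F L \ N) p y = xr ∧ ∃ w, GW (D M.F L \ N) (beD (D M.F L \ N) p y xr) w := by
  have := notch_GW (M := M) (δ := 0) (hang_empty M.F) np hL (Or.inl rfl) (N := N)
    (fun t ht => ⟨(hN t ht).1, not_mem_D_empty t, (hN t ht).2⟩) hp
    (fun x h2 h3 => ⟨(h0 x h2 h3).1, not_mem_D_empty _, (h0 x h2 h3).2⟩)
    (fun x h2 h3 => ⟨(h1 x h2 h3).1, not_mem_D_empty _, (h1 x h2 h3).2⟩) hw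
  rwa [shD_empty] at this

theorem D_notch_GW' (np : NoPinch M.F) (hL : 8 ≤ L) {N : Finset (ℤ × ℤ)}
    (hN : ∀ t ∈ N, t ∈ D M.F L ∧ (t.1 + 1, t.2) ∉ D M.F L) {p xr y : ℤ} (hp : p < xr)
    (h0 : ∀ x, p ≤ x → x < xr → (x, y - 1) ∈ D M.F L ∧ (x, y - 1) ∉ N)
    (h1 : ∀ x, p ≤ x → x ≤ xr → (x, y) ∈ D M.F L ∧ (x, y) ∉ N)
    (hx : (xr, y - 1) ∈ N) (hw : (xr + 1, y) ∉ D M.F L) :
    rgt (D M.F L \ N) p y = xr ∧ ∃ w, GW (D M.F L \ N) (beD (D M.F L \ N) p y xr) w := by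
  have := notch_GW' (M := M) (δ := 0) (hang_empty M.F) np hL (Or.inl rfl) (N := N)
    (fun t ht => ⟨(hN t ht).1, not_mem_D_empty t, (hN t ht).2⟩) hp
    (fun x h2 h3 => ⟨(h0 x h2 h3).1, not_mem_D_empty _, (h0 x h2 h3).2⟩)
    (fun x h2 h3 => ⟨(h1 x h2 h3).1, not_mem_D_empty _, (h1 x h2 h3).2⟩) hx hw
  rwa [shD_empty] at this

end reg

end Crest.Agent.R158.Sh279
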