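import Crest.Agent.R158.Cn1_161
import Crest.Agent.R158.Sh4_279

/-!
# R158, BLOCK BL, leaf (B9, UP) (helper161), file Cn2

* `pat_l` : the pattern of `shD F H L (-1)` at the right end of the lower run
* **`nBup : NBup`**
-/

set_option autoImplicit false
set_option linter.unusedVariables false
set_option linter.unusedSimpArgs false

noncomputable section

namespace Crest.Agent.R158.Cn161

open Crest.Agent.R158.Sp896 (V)
open Crest.Agent.R158.Sw300 (Port Wd)
open Crest.Agent.R158.Ob664 (GW HG)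
open Crest.Agent.R158.Env664 (D Run mem_D beD div_iff)
open Crest.Agent.R158.Wd377 (MK)
open Crest.Agent.R158.Tj656 (P4)
open Crest.Agent.R158.Cw161 (Bx Sh pat shr shr_lt shr_ge rk FarC MkP nb_shr nb_plain)
open Crest.Agent.R158.Hb656 (Hang shD mem_shD Two Nt mem_Nt N1 mem_N1 mU mkS mk2 Cr Sm NBup Lk1 GH Rg)
open Crest.Agent.R158.Bh679 (NP)

variable {F H : Finset V} {L k a b a' b' : ℤ}

/-- the pattern at the right end of the lower run (with the hanging part moved) -/
theorem pat_l (np : NP F) (hb : b' < b) (hH : Hang F H k (b' + 1) b true)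
    (ht : Two F H k a b a' b') (hL : 4 ≤ L) : ∃ (sh : Sh) (kk : ZMod 4) (X : ℤ),
      (X = b * L + L - 1 ∨ X = b * L + L - 2) ∧ ∀ x y : ℤ, b * L + 2 ≤ x → x + 2 < b * L + L + L →
        k * L - L ≤ y → y < k * L + L →
          ((x, y) ∈ shD F H L (-1) ↔ pat X (k * L - 1) sh kk (x, y)) := by
  have hab := ht.lo.le
  have f1 : (b, k - 1) ∈ F := ht.lo.mem b hab le_rfl
  have f2 : (b, k - 1) ∉ H := ht.nlo b hab le_rfl
  have f3 : (b + 1, k - 1) ∉ F := ht.lo.right
  have f4 : (b + 1, k - 1) ∉ H := fun h => f3 (hH.sub h)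
  have f5 : (b, k) ∈ F → (b, k) ∈ H := by
    have := hH.cut b (by omega) le_rfl
    simp only [if_true] at this
    exact this.2.2
  have f6 : (b, k) ∈ H → (b + 1, k) ∈ F → (b + 1, k) ∈ H := fun h h' =>
    (hH.hor b k (Or.inl ⟨h, h'⟩)).2
  have key := fun (x y : ℤ) (h1 : b * L + 2 ≤ x) (h2 : x + 2 < b * L + L + L)
    (h3 : k * L - L ≤ y) (h4 : y < k * L + L) => sh_vert (F := F) (H := H) (i := b + 1) (j := k)
      (x := x) (y := y) (by omega : 0 < L) (by linarith [add_mul b 1 L, one_mul L])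
      (by linarith [add_mul b 1 L, one_mul L]) h3 h4
  have eX : (b + 1) * L = b * L + L := by ring
  simp only [add_sub_cancel_right, eX] at key
  by_cases g1 : (b, k) ∈ F
  · have g2 := f5 g1
    by_cases g3 : (b + 1, k) ∈ F
    · have g4 := f6 g2 g3
      refine ⟨.t, 3, b * L + L - 1, Or.inl rfl, fun x y h1 h2 h3 h4 => ?_⟩
      rw [key x y h1 h2 h3 h4, Cw161.pat_t3]
      simp only [f1, f2, f3, f4, g1, g2, g3, g4, and_true, and_false, or_false, false_or]
      omega
    · have g4 : (b + 1, k) ∉ H := fun h => g3 (hH.sub h)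
      refine ⟨.h1, 0, b * L + L - 2, Or.inr rfl, fun x y h1 h2 h3 h4 => ?_⟩
      rw [key x y h1 h2 h3 h4, Cw161.pat_s0]
      simp only [f1, f2, f3, f4, g1, g2, g3, g4, and_true, and_false, or_false, false_or]
      omega
  · have g2 : (b, k) ∉ H := fun h => g1 (hH.sub h)
    have g3 : (b + 1, k) ∉ F := fun h => by
      have := (np b (k - 1)).1
      rw [sub_add_cancel] at this
      exact this ⟨f1, h, f3, g1⟩
    have g4 : (b + 1, k) ∉ H := fun h => g3 (hH.sub h)
    refine ⟨.q, 2, b * L + L - 1, Or.inl rfl, fun x y h1 h2 h3 h4 => ?_⟩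
    rw [key x y h1 h2 h3 h4, Cw161.pat_q2]
    simp only [f1, f2, f3, f4, g1, g2, g3, g4, and_true, and_false, or_false, false_or,
      not_false_eq_true]
    omega

/-- the pattern at the right end of the upper run -/
theorem pat_u (hb : b' < b) (hH : Hang F H k (b' + 1) b true) (ht : Two F H k a b a' b')
    (hL : 4 ≤ L) {x y : ℤ} (h1 : b' * L + 2 ≤ x) (h2 : x + 2 < b' * L + L + L)
    (h3 : k * L - L ≤ y) (h4 : y < k * L + L) :
    (x, y) ∈ shD F H L (-1) ↔ x < b' * L + L ∨ y < k * L := by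
  have hc := ht.com
  rw [max_le_iff, le_min_iff, le_min_iff] at hc
  have hab' := ht.up.le
  have f1 : (b', k - 1) ∈ F := ht.lo.mem _ (by omega) (by omega)
  have f2 : (b', k - 1) ∉ H := ht.nlo _ (by omega) (by omega)
  have f3 : (b' + 1, k - 1) ∈ F := ht.lo.mem _ (by omega) (by omega)
  have f4 : (b' + 1, k - 1) ∉ H := ht.nlo _ (by omega) (by omega)
  have f5 : (b', k) ∈ F := ht.up.mem _ hab' le_rfl
  have f6 : (b', k) ∉ H := ht.nup _ hab' le_rfl
  have f7 : (b' + 1, k) ∉ F := ht.up.right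
  have f8 : (b' + 1, k) ∉ H := fun h => f7 (hH.sub h)
  have eX : (b' + 1) * L = b' * L + L := by ring
  have key := sh_vert (F := F) (H := H) (i := b' + 1) (j := k)
      (x := x) (y := y) (by omega : 0 < L) (by omega) (by omega) h3 h4
  simp only [add_sub_cancel_right, eX] at key
  rw [key]
  simp only [f1, f2, f3, f4, f5, f6, f7, f8, and_true, and_false, or_false, false_or, not_false_eq_true]
  omega

/-- **(B9, UP)** -/
theorem nBup : NBup := by
  obtain ⟨C1, a1, hC1, ha1, hX1⟩ := nb_plain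
  obtain ⟨C2, a2, hC2, ha2, hX2⟩ := nb_shr
  intro P H k a b a' b' np hb hH ht r hr hr2 ε hε
  obtain ⟨h1, p1, q1, M1, t1, z1⟩ := pick hC1 ha1 hr hr2 (half_pos hε)
  obtain ⟨h2, p2, q2, M2, t2, z2⟩ := pick hC2 ha2 hr hr2 (half_pos hε)
  refine ⟨min h1 h2, lt_min p1 p2, max M1 M2, ?_⟩
  intro L hL hev x y0 y1 hc hok
  have hL1 : M1 ≤ L := (le_max_left _ _).trans hL
  have hL2 : M2 ≤ L := (le_max_right _ _).trans hL
  obtain ⟨n1, u1, v1, w1, s1⟩ := z1 L hL1
  obtain ⟨n2, u2, v2, w2, s2⟩ := z2 L hL2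
  have L64 : 64 ≤ L := t1.trans hL1
  have LR : (64 : ℝ) ≤ L := by exact_mod_cast L64
  have L0 : (0 : ℝ) < L := by linarith
  -- the position
  have c1 := hc.lo
  have c2 := hc.hi
  have hh1 : min h1 h2 * L ≤ h1 * L := mul_le_mul_of_nonneg_right (min_le_left _ _) L0.le
  have hh2 : min h1 h2 * L ≤ h2 * L := mul_le_mul_of_nonneg_right (min_le_right _ _) L0.le
  have hq : h1 * L ≤ L / 64 := by
    have := mul_le_mul_of_nonneg_right q1 L0.le
    linarith
  have c3 : k * L - L + 2 ≤ y0 := by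
    have h := hc.lo'
    have : ((k * L - L + 2 : ℤ) : ℝ) ≤ y0 := by push_cast; linarith
    exact_mod_cast this
  have c4 : y1 + 2 ≤ k * L + L := by
    have h := hc.hi'
    have : ((y1 + 2 : ℤ) : ℝ) ≤ ((k * L + L : ℤ) : ℝ) := by push_cast; linarith
    exact_mod_cast this
  have c5 : a' * L + 1 ≤ x := by
    have h := hc.l1
    have : ((a' * L + 1 : ℤ) : ℝ) ≤ x := by push_cast; linarith
    exact_mod_cast this
  have c6 : x + n2 ≤ b' * L + L - 2 := by
    have h := hc.r1
    have : ((x + n2 : ℤ) : ℝ) ≤ ((b' * L + L - 2 : ℤ) : ℝ) := by push_cast; linarith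
    exact_mod_cast this
  obtain ⟨ρ, hρ⟩ : ∃ ρ : ℕ, (ρ : ℤ) = y1 - y0 + 4 := ⟨(y1 - y0 + 4).toNat, by omega⟩
  have hρR : (ρ : ℝ) = y1 - y0 + 4 := by exact_mod_cast hρ
  have hρ1 : (ρ : ℝ) ≤ 2 * h1 * L + 10 := by
    have h := hc.lo'
    have h' := hc.hi'
    linarith
  have hρ2 : (ρ : ℝ) ≤ 2 * h2 * L + 10 := by
    have h := hc.lo'
    have h' := hc.hi'
    linarith
  obtain ⟨r1, e1⟩ := s1 ρ hρ1
  obtain ⟨r2, e2⟩ := s2 ρ hρ2
  have hbL : b' * L + L ≤ b * L := by
    have : (b' + 1) * L ≤ b * L := mul_le_mul_of_nonneg_right (by omega) (by omega)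
    linarith [add_mul b' 1 L, one_mul L]
  -- macroscopic cells
  have hcom := ht.com
  rw [max_le_iff, le_min_iff, le_min_iff] at hcom
  have hab := ht.lo.le
  have hab' := ht.up.le
  have ek : (k - 1) * L = k * L - L := by ring
  have hrow : ∀ x', x ≤ x' → x' ≤ b' * L + L - 1 → ∀ y, k * L ≤ y → y < k * L + L →
      (x', y) ∈ D P.F L ∧ (x', y) ∉ D H L := by
    intro x' g1 g2 y g3 g4
    have hy : y / L = k := (div_iff (by omega) _ _).2 ⟨g3, g4⟩
    have hx1 : a' ≤ x' / L := by
      rw [Int.le_ediv_iff_mul_le (by omega)]; omega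
    have hx2 : x' / L ≤ b' := by
      have : x' / L < b' + 1 := by
        rw [Int.ediv_lt_iff_lt_mul (by omega)]
        linarith [add_mul b' 1 L, one_mul L]
      omega
    rw [mem_D (by omega), mem_D (by omega)]
    simp only [hy]
    exact ⟨ht.up.mem _ hx1 hx2, ht.nup _ hx1 hx2⟩
  have hright : ∀ y, k * L ≤ y → y < k * L + L → (b' * L + L - 1 + 1, y) ∉ D P.F L := by
    intro y g3 g4
    have hy : y / L = k := (div_iff (by omega) _ _).2 ⟨g3, g4⟩
    rw [mem_D (by omega)]
    simp only [hy]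
    rw [(div_iff (by omega) _ (b' + 1)).2 ⟨by linarith [add_mul b' 1 L, one_mul L],
      by linarith [add_mul b' 1 L, one_mul L]⟩]
    exact ht.up.right
  have hlow : ∀ y, k * L - L ≤ y → y < k * L → (b * L + L - 1, y) ∈ D P.F L ∧
      (b * L + L - 1, y) ∉ D H L ∧ (b * L + L - 1 + 1, y) ∉ D P.F L := by
    intro y g3 g4
    have hy : y / L = k - 1 := (div_iff (by omega) _ _).2 ⟨by omega, by omega⟩
    rw [mem_D (by omega), mem_D (by omega), mem_D (by omega)]
    simp only [hy]
    rw [(div_iff (by omega) (b * L + L - 1) b).2 ⟨by omega, by omega⟩,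
      (div_iff (by omega) (b * L + L - 1 + 1) (b + 1)).2 ⟨by linarith [add_mul b 1 L, one_mul L],
      by linarith [add_mul b 1 L, one_mul L]⟩]
    exact ⟨ht.lo.mem _ hab le_rfl, ht.nlo _ hab le_rfl, ht.lo.right⟩
  have npN : Sh279.NoPinch (Mg949.mac P).F := by
    constructor
    · intro a b g1 g2
      have := (np a b).1
      by_contra g3
      rw [not_or] at g3
      exact this ⟨g1, g2, g3.1, g3.2⟩
    · intro a b g1 g2
      have := (np a b).2
      by_contra g3
      rw [not_or] at g3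
      exact this ⟨g1, g2, g3.1, g3.2⟩
  have hHM : Hang (Mg949.mac P).F H k (b' + 1) b true := hH
  set A2 := shD P.F H L (-1) with hA2
  set A1 := A2 \ N1 L b y0 (k * L) with hA1
  set A0 := A2 \ Nt L k b b' y0 y1 with hA0
  -- words
  have W1 : ∃ w, GW A1 (beD A1 x y1 (b' * L + L - 1)) w := by
    refine (Sh279.notch_GW (M := Mg949.mac P) (δ := -1) hHM npN (by omega) (Or.inr (Or.inr rfl))
      ?_ (by omega) ?_ ?_ (hright y1 (by omega) (by omega))).2
    · rintro ⟨t1, t2⟩ g
      rw [mem_N1] at g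
      simp only at g
      obtain ⟨rfl, g1, g2⟩ := g
      exact hlow t2 (by omega) g2
    · intro x' g1 g2
      obtain ⟨g3, g4⟩ := hrow x' g1 g2 (y1 - 1) (by omega) (by omega)
      refine ⟨g3, g4, fun g => ?_⟩
      rw [mem_N1] at g; simp only at g; omega
    · intro x' g1 g2
      obtain ⟨g3, g4⟩ := hrow x' g1 g2 y1 (by omega) (by omega)
      refine ⟨g3, g4, fun g => ?_⟩
      rw [mem_N1] at g; simp only at g; omega
  have W0 : ∃ w, GW A0 (beD A0 x y1 (b' * L + L - 1)) w := by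
    refine (Sh279.notch_GW' (M := Mg949.mac P) (δ := -1) hHM npN (by omega) (Or.inr (Or.inr rfl))
      ?_ (by omega) ?_ ?_ ?_ (hright y1 (by omega) (by omega))).2
    · rintro ⟨t1, t2⟩ g
      rw [mem_Nt] at g
      simp only at g
      rcases g with ⟨rfl, g1, g2⟩ | ⟨rfl, g1, g2⟩
      · exact hlow t2 (by omega) g2
      · obtain ⟨g3, g4⟩ := hrow (b' * L + L - 1) (by omega) le_rfl t2 g1 (by omega)
        exact ⟨g3, g4, hright t2 g1 (by omega)⟩
    · intro x' g1 g2
      obtain ⟨g3, g4⟩ := hrow x' g1 (by omega) (y1 - 1) (by omega) (by omega)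
      refine ⟨g3, g4, fun g => ?_⟩
      rw [mem_Nt] at g; simp only at g; omega
    · intro x' g1 g2
      obtain ⟨g3, g4⟩ := hrow x' g1 g2 y1 (by omega) (by omega)
      refine ⟨g3, g4, fun g => ?_⟩
      rw [mem_Nt] at g; simp only at g; omega
    · rw [mem_Nt]; exact Or.inr ⟨rfl, by omega, by omega⟩
  -- marks
  set m : Fin 3 → V × ZMod 4 := fun i => mU H L k b b' (Hb656.mt P L i) with hm
  have far1 : ∀ X : ℤ, (X = b * L + L - 1 ∨ X = b * L + L - 2) → ∀ i,
      FarC X (k * L - 1) n1 (fun t => t) (some (m i)) := by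
    intro X hX i t d e hB
    have e' : (m i).1 = t := by
      have := Option.some.inj e
      rw [this]
    have h5 := mt_far (i := b + 1) (j := k) (N := n1 + 4) (by omega) (by omega) i
      (mU_tile H L k b b' (Hb656.mt P L i))
    change ¬ ((b + 1) * L - _ ≤ (m i).1.1 ∧ (m i).1.1 < _ ∧ _ ≤ (m i).1.2 ∧ (m i).1.2 < _) at h5
    rw [e'] at h5
    unfold Bx at hB
    simp only at hB
    have eX : (b + 1) * L = b * L + L := by ring
    rw [eX] at h5
    omega
  have far2 : ∀ i, FarC (b' * L + L - 2) (k * L - 1) n2 (shr y1 (-1)) (some (m i)) := by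
    intro i t d e hB
    have e' : (m i).1 = t := by
      have := Option.some.inj e
      rw [this]
    have h5 := mt_far (i := b' + 1) (j := k) (N := n2 + 4) (by omega) (by omega) i
      (mU_tile H L k b b' (Hb656.mt P L i))
    change ¬ ((b' + 1) * L - _ ≤ (m i).1.1 ∧ (m i).1.1 < _ ∧ _ ≤ (m i).1.2 ∧ (m i).1.2 < _) at h5
    rw [e'] at h5
    have eX : (b' + 1) * L = b' * L + L := by ring
    rw [eX] at h5
    rcases lt_or_ge t.2 y1 with g | g
    · rw [shr_lt g] at hB
      unfold Bx at hB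
      omega
    · rw [shr_ge g] at hB
      unfold Bx at hB
      simp only at hB
      omega
  -- the ball at the end of the lower run
  have B1 : MK A1 (beD A1 x y1 (b' * L + L - 1)) (some (m 0)) (some (m 1)) (some (m 2)) ∧
      ‖HG A2 (beD A2 x y1 (b' * L + L - 1)) (some (m 0)) (some (m 1)) (some (m 2)) -
        HG A1 (beD A1 x y1 (b' * L + L - 1)) (some (m 0)) (some (m 1)) (some (m 2))‖ ≤
          ε / 2 := by
    obtain ⟨sh, kk, X, hX, hp⟩ := pat_l np hb hH ht (by omega : 4 ≤ L)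
    have := hX1 sh kk X (k * L - 1) ρ n1 x y1 (b' * L + L - 1) (by omega) r1 (by omega) ?_
      (A := A2) (A' := A1) W1 ?_ ?_ (MkP.far (by omega) (far1 X hX 0))
      (MkP.far (by omega) (far1 X hX 1)) (MkP.far (by omega) (far1 X hX 2))
      (Or.inl (far1 X hX 0)) (Or.inl (far1 X hX 1)) (Or.inl (far1 X hX 2)) hok
    · exact ⟨this.1, this.2.trans e1⟩
    · intro t g
      unfold Bx at g
      right; left
      omega
    · rintro ⟨t1, t2⟩ g1 g2
      unfold Bx at g1
      push_cast at g1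
      exact hp t1 t2 (by omega) (by omega) (by omega) (by omega)
    · rintro ⟨t1, t2⟩ g
      rw [hA1, Finset.mem_sdiff, mem_N1]
      simp only
      constructor
      · exact fun g => g.1
      · refine fun g' => ⟨g', fun g'' => g ?_⟩
        unfold Bx
        simp only
        have : ((ρ - 1 : ℕ) : ℤ) = ρ - 1 := by omega
        omega
  -- the ball at the end of the upper run
  have B2 : MK A0 (beD A0 x y1 (b' * L + L - 1)) (some (m 0)) (some (m 1)) (some (m 2)) ∧
      ‖HG A1 (beD A1 x y1 (b' * L + L - 1)) (some (m 0)) (some (m 1)) (some (m 2)) -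
        HG A0 (beD A0 x y1 (b' * L + L - 1)) (some (m 0)) (some (m 1)) (some (m 2))‖ ≤
          ε / 2 := by
    have mem1 : ∀ x y : ℤ, b' * L + 2 ≤ x → x + 2 < b' * L + L + L → x < b * L + L - 1 →
        k * L - L ≤ y → y < k * L + L → ((x, y) ∈ A1 ↔ x < b' * L + L ∨ y < k * L) := by
      intro x y g1 g2 g3 g4 g5
      rw [hA1, Finset.mem_sdiff, mem_N1, pat_u hb hH ht (by omega) g1 g2 g4 g5]
      simp only
      omega
    have := hX2 .t 0 (b' * L + L - 2) (k * L - 1) ρ n2 x y1 (b' * L + L - 1) (by omega) r2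
      (by omega) (A := A1) (A' := A0) W0 ?_ ?_ ?_ (MkP.far (by omega) (far2 0))
      (MkP.far (by omega) (far2 1)) (MkP.far (by omega) (far2 2))
      (Or.inl (far2 0)) (Or.inl (far2 1)) (Or.inl (far2 2)) B1.1
    · exact ⟨this.1, this.2.trans e2⟩
    · rintro ⟨c1, c2⟩ g1 g2
      rw [Cw161.pat_t0]
      have : ((ρ - 1 : ℕ) : ℤ) = ρ - 1 := by omega
      unfold Bx at g1 g2
      rw [this] at g2
      push_cast at g1
      simp only at g1 g2 ⊢
      rcases lt_or_ge c2 y1 with g | g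
      · rw [shr_lt (t := (c1, c2)) g, mem1 c1 c2 (by omega) (by omega) (by omega) (by omega)
          (by omega)]
        omega
      · rw [shr_ge (t := (c1, c2)) g]
        simp only
        rw [mem1 (c1 + 1) c2 (by omega) (by omega) (by omega) (by omega) (by omega)]
        omega
    · rintro ⟨t1, t2⟩ g
      rw [hA0, hA1, Finset.mem_sdiff, Finset.mem_sdiff, mem_N1, mem_Nt]
      simp only
      constructor
      · exact fun g => ⟨g.1, fun g' => g.2 (Or.inl g')⟩
      · rintro ⟨g1, g2⟩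
        refine ⟨g1, ?_⟩
        rintro (g3 | g3)
        · exact g2 g3
        · apply g
          rw [shr_lt (t := (t1, t2)) (by omega)]
          unfold Bx
          simp only
          have : ((ρ - 1 : ℕ) : ℤ) = ρ - 1 := by omega
          omega
    · intro x' g1 g2
      have h3 : (x', y1) ∉ A1 := by
        rw [mem1 x' y1 (by omega) (by omega) (by omega) (by omega) (by omega)]
        omega
      refine ⟨h3, fun g => h3 ?_⟩
      rw [hA0, Finset.mem_sdiff, mem_Nt] at g
      rw [hA1, Finset.mem_sdiff, mem_N1]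
      exact ⟨g.1, fun g' => g.2 (Or.inl g')⟩
  refine ⟨B2.1, ?_⟩
  change ‖HG A2 (beD A2 x y1 (b' * L + L - 1)) (some (m 0)) (some (m 1)) (some (m 2)) -
        HG A0 (beD A0 x y1 (b' * L + L - 1)) (some (m 0)) (some (m 1)) (some (m 2))‖ ≤ ε
  have := norm_sub_le_norm_sub_add_norm_sub
    (HG A2 (beD A2 x y1 (b' * L + L - 1)) (some (m 0)) (some (m 1)) (some (m 2)))
    (HG A1 (beD A1 x y1 (b' * L + L - 1)) (some (m 0)) (some (m 1)) (some (m 2)))
    (HG A0 (beD A0 x y1 (b' * L + L - 1)) (some (m 0)) (some (m 1)) (some (m 2)))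
  linarith [B1.2, B2.2]

end Crest.Agent.R158.Cn161
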