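import Crest.Agent.R158.Cn2_109
import Crest.Agent.R158.Wf0_850

/-!
# Row 158, Block W (helper109), part 3: the loops of percolation as an instance of `LS`

* `dia A` : sup-diameter;  `lsW : LS` : the family `Wf850.Lps`
* `cnt_le_of_split` : loops around `v` of scale `k` split `BF v.1 (2 ^ k)`
-/

set_option autoImplicit false

noncomputable section

namespace Crest.Agent.R158.Cn109

open MeasureTheory ProbabilityTheory unitInterval
open Crest.Agent.R158.Rs689 (PB Dep)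
open Crest.Agent.R161.Geo729 Crest.Agent.R161.Tas682
open Crest.Agent.R158.It200 (Cfz Corner ah fc)
open Crest.Agent.R158.Wf850 (BF mem_BF Lps bdE sepC cv cf Splits mem_bdE)

/-- distance of a pair -/
def dpr (p : Face × Face) : ℕ := (sd p.1.1 p.2.1).toNat

/-- sup-diameter of a finite set of faces -/
def dia (A : Finset Face) : ℕ := (A ×ˢ A).sup dpr

theorem dia_def (A : Finset Face) :
    dia A = (A ×ˢ A).sup fun p => (sd p.1.1 p.2.1).toNat := rfl

theorem sd_le_dia {A : Finset Face} {v w : Face} (hv : v ∈ A) (hw : w ∈ A) :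
    sd v.1 w.1 ≤ dia A := by
  have hm : ((v, w) : Face × Face) ∈ A ×ˢ A := Finset.mem_product.2 ⟨hv, hw⟩
  have h : dpr (v, w) ≤ dia A := Finset.le_sup hm
  have h2 : sd v.1 w.1 ≤ ((dpr (v, w) : ℕ) : ℤ) := Int.self_le_toNat _
  exact h2.trans (by exact_mod_cast h)

theorem coord_le_dia {A : Finset Face} {v w : Face} (hv : v ∈ A) (hw : w ∈ A) :
    |w.1.1 - v.1.1| ≤ dia A ∧ |w.1.2 - v.1.2| ≤ dia A := by
  have h := sd_le_dia hv hw
  unfold sd at h
  exact ⟨(le_max_left _ _).trans h, (le_max_right _ _).trans h⟩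

theorem exists_dia {A : Finset Face} (h : A.Nonempty) :
    ∃ v ∈ A, ∃ w ∈ A, (dia A : ℤ) ≤ sd v.1 w.1 ∨ dia A = 0 := by
  obtain ⟨p, hp, he⟩ := Finset.exists_mem_eq_sup (A ×ˢ A) (h.product h) dpr
  rw [Finset.mem_product] at hp
  refine ⟨p.1, hp.1, p.2, hp.2, ?_⟩
  have h1 : dia A = dpr p := he
  have h2 : dpr p = (sd p.1.1 p.2.1).toNat := rfl
  omega

theorem corner_near (d : Corner) : |(ah d).1.1 - d.1.1| ≤ 1 ∧ |(ah d).1.2 - d.1.2| ≤ 1 ∧
    |(ah d).1.1 - (fc d).1| ≤ 1 ∧ |(ah d).1.2 - (fc d).2| ≤ 1 := by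
  obtain ⟨⟨a, b⟩, q⟩ := d
  fin_cases q <;> simp [ah, fc]

/-- the percolation loops -/
def lsW : LS where
  Lps := Lps
  bd := bdE
  dia := dia
  dep := fun A _ => Wf850.loc A
  bd_near := by
    intro A v hv e he
    obtain ⟨d, hd, rfl⟩ := mem_bdE.1 he
    have hc := corner_near d
    unfold sepC at hd
    by_cases h1 : cv d ∈ A
    · have h2 := coord_le_dia hv h1
      have h3 : (cv d).1 = d.1 := rfl
      rw [h3] at h2
      obtain ⟨c1, c2, _, _⟩ := hc
      obtain ⟨c3, c4⟩ := h2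
      rw [abs_le] at c1 c2 c3 c4
      constructor <;> rw [abs_le] <;> constructor <;> linarith
    · have h1' : cf d ∈ A := by
        by_contra h
        exact hd ⟨fun h' => absurd h' h1, fun h' => absurd h' h⟩
      have h2 := coord_le_dia hv h1'
      have h3 : (cf d).1 = fc d := rfl
      rw [h3] at h2
      obtain ⟨_, _, c1, c2⟩ := hc
      obtain ⟨c3, c4⟩ := h2
      rw [abs_le] at c1 c2 c3 c4
      constructor <;> rw [abs_le] <;> constructor <;> linarith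
  dia_le := fun A v hv w hw => coord_le_dia hv hw

@[simp] theorem lsW_Lps (z : Cfz) : lsW.Lps z = Lps z := rfl
@[simp] theorem lsW_dia (A : Finset Face) : lsW.dia A = dia A := rfl

/-- a set of scale `k` around `v` splits the box `BF v (2 ^ k)` -/
theorem splits_of_scale {A : Finset Face} {v : Face} {k : ℕ} (hv : v ∈ A)
    (hk : Nat.log 2 (dia A + 1) = k) :
    Splits A (BF v.1 (2 ^ k : ℕ)) ∧ 2 ^ k ≤ dia A + 1 := by
  have h1 : 2 ^ k ≤ dia A + 1 := by
    rw [← hk]; exact Nat.pow_log_le_self 2 (by omega)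
  have h2 : dia A + 1 < 2 ^ (k + 1) := by
    rw [← hk]; exact Nat.lt_pow_succ_log_self (by norm_num) _
  refine ⟨⟨⟨v, ?_, hv⟩, ?_⟩, h1⟩
  · rw [mem_BF]
    have : sd v.1 v.1 = 0 := by simp [sd]
    rw [this]; positivity
  · by_contra hcon
    push Not at hcon
    have e1 : (((v.1.1 + (2 ^ k : ℕ), v.1.2), false) : Face) ∈ A := by
      refine hcon _ ?_
      rw [mem_BF, sd_le]
      have : (0 : ℤ) ≤ ((2 ^ k : ℕ) : ℤ) := by positivity
      refine ⟨?_, ?_, ?_, ?_⟩ <;> dsimp only <;> linarith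
    have e2 : (((v.1.1 - (2 ^ k : ℕ), v.1.2), false) : Face) ∈ A := by
      refine hcon _ ?_
      rw [mem_BF, sd_le]
      have : (0 : ℤ) ≤ ((2 ^ k : ℕ) : ℤ) := by positivity
      refine ⟨?_, ?_, ?_, ?_⟩ <;> dsimp only <;> linarith
    have h3 := (coord_le_dia e2 e1).1
    have h4 : (v.1.1 + (2 ^ k : ℕ) - (v.1.1 - (2 ^ k : ℕ)) : ℤ) = ((2 ^ (k + 1) : ℕ) : ℤ) := by
      push_cast; ring
    dsimp only at h3
    rw [h4, abs_of_nonneg (by positivity)] at h3
    omega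

theorem cnt_eq (k : ℕ) (v : Face) (z : Cfz) :
    cnt lsW k v z = ({A ∈ Lps z | v ∈ A ∧ Nat.log 2 (dia A + 1) = k}.ncard : ℝ) :=
  cnt_eq_ncard lsW k v z

/-- loops of scale `k` around `v` are counted by the loops that split `BF v (2 ^ k)` -/
theorem cnt_le_of_split (k : ℕ) (v : Face) (z : Cfz) :
    cnt lsW k v z ≤ ({A | A ∈ Lps z ∧ Splits A (BF v.1 (2 ^ k : ℕ)) ∧
      2 ^ k ≤ dia A + 1}.ncard : ℝ) := by
  rw [cnt_eq]
  have hfin : {A | A ∈ Lps z ∧ Splits A (BF v.1 (2 ^ k : ℕ)) ∧ 2 ^ k ≤ dia A + 1}.Finite :=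
    (Wf850.fin_split z v.1 (2 ^ k : ℕ)).subset fun A hA => ⟨hA.1, hA.2.1⟩
  exact_mod_cast Set.ncard_le_ncard (fun A hA => by
    obtain ⟨h1, h2, h3⟩ := hA
    exact ⟨h1, splits_of_scale h2 h3⟩) hfin

end Crest.Agent.R158.Cn109
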