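import Crest.Agent.R158.Cn2_161

/-!
# R158, BLOCK BL, leaf (B9, DN) (helper161), file Cn3: **`nBdn : NBdn`**
-/

set_option autoImplicit false
set_option linter.unusedVariables false
set_option linter.unusedSimpArgs false

noncomputable section

namespace Crest.Agent.R158.Cn161

open Crest.Agent.R158.Sp896 (V)
open Crest.Agent.R158.Sw300 (Port Wd)
open Crest.Agent.R158.Ob664 (GW HG)
open Crest.Agent.R158.Env664 (D Run mem_D beD div_iff)
open Crest.Agent.R158.Wd377 (MK)
open Crest.Agent.R158.Tj656 (P4)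
open Crest.Agent.R158.Cw161 (Bx Sh pat shr shr_lt shr_ge rk FarC MkP nb_shr nb_plain)
open Crest.Agent.R158.Hb656 (Hang Two Nt mem_Nt N1 mem_N1 Cr Sm NBdn Lk1 GH Rg)
open Crest.Agent.R158.Bh679 (NP)

variable {F H : Finset V} {L k a b a' b' : ℤ}

/-- the tiles at the right end of the lower run, DN -/
theorem dn_l (hb : b < b') (ht : Two F H k a b a' b') (hL : 4 ≤ L) {x y : ℤ}
    (h1 : b * L + 2 ≤ x) (h2 : x + 2 < b * L + L + L)
    (h3 : k * L - L ≤ y) (h4 : y < k * L + L) :
    (x, y) ∈ D F L ↔ x < b * L + L ∨ k * L ≤ y := by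
  have hc := ht.com
  rw [max_le_iff, le_min_iff, le_min_iff] at hc
  have hab := ht.lo.le
  have f1 : (b, k - 1) ∈ F := ht.lo.mem _ hab le_rfl
  have f3 : (b + 1, k - 1) ∉ F := ht.lo.right
  have f5 : (b, k) ∈ F := ht.up.mem _ (by omega) (by omega)
  have f7 : (b + 1, k) ∈ F := ht.up.mem _ (by omega) (by omega)
  have eX : (b + 1) * L = b * L + L := by ring
  have key := mem_vert (F := F) (i := b + 1) (j := k)
      (x := x) (y := y) (by omega : 0 < L) (by omega) (by omega) h3 h4
  simp only [add_sub_cancel_right, eX] at key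
  rw [key]
  simp only [f1, f3, f5, f7, and_true, and_false, or_false, false_or]
  omega

/-- the tiles at the right end of the upper run, DN -/
theorem dn_u (np : NP F) (hb : b < b') (ht : Two F H k a b a' b') (hL : 4 ≤ L) :
    ∃ (sh : Sh) (kk : ZMod 4), ∀ x y : ℤ, b' * L + 2 ≤ x → x + 2 < b' * L + L + L →
        k * L - L ≤ y → y < k * L + L →
          ((x, y) ∈ D F L ↔ (k * L ≤ y ∧ x < b' * L + L) ∨
            (y < k * L ∧ pat (b' * L + L - 2) (k * L - 1) sh kk (x, y))) ∧
          (k * L ≤ y → (pat (b' * L + L - 2) (k * L - 1) sh kk (x, y) ↔ x < b' * L + L - 1)) := by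
  have hab' := ht.up.le
  have f5 : (b', k) ∈ F := ht.up.mem _ hab' le_rfl
  have f7 : (b' + 1, k) ∉ F := ht.up.right
  have key := fun (x y : ℤ) (h1 : b' * L + 2 ≤ x) (h2 : x + 2 < b' * L + L + L)
    (h3 : k * L - L ≤ y) (h4 : y < k * L + L) => mem_vert (F := F) (i := b' + 1) (j := k)
      (x := x) (y := y) (by omega : 0 < L) (by linarith [add_mul b' 1 L, one_mul L])
      (by linarith [add_mul b' 1 L, one_mul L]) h3 h4
  have eX : (b' + 1) * L = b' * L + L := by ring
  simp only [add_sub_cancel_right, eX] at key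
  by_cases g1 : (b', k - 1) ∈ F
  · by_cases g3 : (b' + 1, k - 1) ∈ F
    · refine ⟨.t, 0, fun x y h1 h2 h3 h4 => ?_⟩
      rw [key x y h1 h2 h3 h4, Cw161.pat_t0]
      simp only [f5, f7, g1, g3, and_true, and_false, or_false, false_or]
      constructor <;> omega
    · refine ⟨.h1, 0, fun x y h1 h2 h3 h4 => ?_⟩
      rw [key x y h1 h2 h3 h4, Cw161.pat_s0]
      simp only [f5, f7, g1, g3, and_true, and_false, or_false, false_or]
      constructor <;> omega
  · have g3 : (b' + 1, k - 1) ∉ F := fun h => by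
      have := (np b' (k - 1)).2
      rw [sub_add_cancel] at this
      exact this ⟨h, f5, g1, f7⟩
    refine ⟨.q, 1, fun x y h1 h2 h3 h4 => ?_⟩
    rw [key x y h1 h2 h3 h4, Cw161.pat_q1]
    simp only [f5, f7, g1, g3, and_true, and_false, or_false, false_or]
    constructor <;> omega

/-- **(B9, DN)** -/
theorem nBdn : NBdn := by
  obtain ⟨C2, a2, hC2, ha2, hX2⟩ := nb_shr
  intro P H k a b a' b' np hb hH ht r hr hr2 ε hε
  obtain ⟨h2, p2, q2, M2, t2, z2⟩ := pick hC2 ha2 hr hr2 (half_pos hε)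
  refine ⟨h2, p2, M2, ?_⟩
  intro L hL2 hev x y0 y1 hc hok
  obtain ⟨n2, u2, v2, w2, s2⟩ := z2 L hL2
  have L64 : 64 ≤ L := t2.trans hL2
  have LR : (64 : ℝ) ≤ L := by exact_mod_cast L64
  have L0 : (0 : ℝ) < L := by linarith
  -- the position
  have c1 := hc.lo
  have c2 := hc.hi
  have hq : h2 * L ≤ L / 64 := by
    have := mul_le_mul_of_nonneg_right q2 L0.le
    linarith
  have c3 : k * L - L + 2 ≤ y0 := by
    have h := hc.lo'
    have : ((k * L - L + 2 : ℤ) : ℝ) ≤ y0 := by push_cast; linarith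
    exact_mod_cast this
  have c4 : y1 + 2 ≤ k * L + L := by
    have h := hc.hi'
    have : ((y1 + 2 : ℤ) : ℝ) ≤ ((k * L + L : ℤ) : ℝ) := by push_cast; linarith
    exact_mod_cast this
  have c5 : a' * L + 1 ≤ x := by
    have h := hc.l1
    have : ((a' * L + 1 : ℤ) : ℝ) ≤ x := by push_cast; linarith
    exact_mod_cast this
  have c6 : x + n2 ≤ b' * L + L - 2 := by
    have h := hc.r1
    have : ((x + n2 : ℤ) : ℝ) ≤ ((b' * L + L - 2 : ℤ) : ℝ) := by push_cast; linarith
    exact_mod_cast this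
  have c7 : x + n2 ≤ b * L + L - 2 := by
    have h := hc.r0
    have : ((x + n2 : ℤ) : ℝ) ≤ ((b * L + L - 2 : ℤ) : ℝ) := by push_cast; linarith
    exact_mod_cast this
  obtain ⟨ρ, hρ⟩ : ∃ ρ : ℕ, (ρ : ℤ) = y1 - y0 + 4 := ⟨(y1 - y0 + 4).toNat, by omega⟩
  have hρR : (ρ : ℝ) = y1 - y0 + 4 := by exact_mod_cast hρ
  have hρ2 : (ρ : ℝ) ≤ 2 * h2 * L + 10 := by
    have h := hc.lo'
    have h' := hc.hi'
    linarith
  obtain ⟨r2, e2⟩ := s2 ρ hρ2
  have hbL : b * L + L ≤ b' * L := by
    have : (b + 1) * L ≤ b' * L := mul_le_mul_of_nonneg_right (by omega) (by omega)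
    linarith [add_mul b 1 L, one_mul L]
  -- macroscopic cells
  have hcom := ht.com
  rw [max_le_iff, le_min_iff, le_min_iff] at hcom
  have hab := ht.lo.le
  have hab' := ht.up.le
  have hrow : ∀ x', x ≤ x' → x' ≤ b' * L + L - 1 → ∀ y, k * L ≤ y → y < k * L + L →
      (x', y) ∈ D P.F L := by
    intro x' g1 g2 y g3 g4
    have hy : y / L = k := (div_iff (by omega) _ _).2 ⟨g3, g4⟩
    have hx1 : a' ≤ x' / L := by
      rw [Int.le_ediv_iff_mul_le (by omega)]; omega
    have hx2 : x' / L ≤ b' := by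
      have : x' / L < b' + 1 := by
        rw [Int.ediv_lt_iff_lt_mul (by omega)]
        linarith [add_mul b' 1 L, one_mul L]
      omega
    rw [mem_D (by omega)]
    simp only [hy]
    exact ht.up.mem _ hx1 hx2
  have hright : ∀ y, k * L ≤ y → y < k * L + L → (b' * L + L - 1 + 1, y) ∉ D P.F L := by
    intro y g3 g4
    have hy : y / L = k := (div_iff (by omega) _ _).2 ⟨g3, g4⟩
    rw [mem_D (by omega)]
    simp only [hy]
    rw [(div_iff (by omega) _ (b' + 1)).2 ⟨by linarith [add_mul b' 1 L, one_mul L],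
      by linarith [add_mul b' 1 L, one_mul L]⟩]
    exact ht.up.right
  have ek : (k - 1) * L = k * L - L := by ring
  have hlow : ∀ y, k * L - L ≤ y → y < k * L → (b * L + L - 1, y) ∈ D P.F L ∧
      (b * L + L - 1 + 1, y) ∉ D P.F L := by
    intro y g3 g4
    have hy : y / L = k - 1 := (div_iff (by omega) _ _).2 ⟨by omega, by omega⟩
    rw [mem_D (by omega), mem_D (by omega)]
    simp only [hy]
    rw [(div_iff (by omega) (b * L + L - 1) b).2 ⟨by omega, by omega⟩,
      (div_iff (by omega) (b * L + L - 1 + 1) (b + 1)).2 ⟨by linarith [add_mul b 1 L, one_mul L],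
      by linarith [add_mul b 1 L, one_mul L]⟩]
    exact ⟨ht.lo.mem _ hab le_rfl, ht.lo.right⟩
  have npN : Sh279.NoPinch (Mg949.mac P).F := by
    constructor
    · intro a b g1 g2
      have := (np a b).1
      by_contra g3
      rw [not_or] at g3
      exact this ⟨g1, g2, g3.1, g3.2⟩
    · intro a b g1 g2
      have := (np a b).2
      by_contra g3
      rw [not_or] at g3
      exact this ⟨g1, g2, g3.1, g3.2⟩
  set A2 := D P.F L with hA2
  set A1 := A2 \ N1 L b y0 (k * L) with hA1
  set A0 := A2 \ Nt L k b b' y0 y1 with hA0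
  -- words
  have W1 : ∃ w, GW A1 (beD A1 x y1 (b' * L + L - 1)) w := by
    refine (Sh279.D_notch_GW (M := Mg949.mac P) npN (by omega)
      ?_ (by omega) ?_ ?_ (hright y1 (by omega) (by omega))).2
    · rintro ⟨t1, t2⟩ g
      rw [mem_N1] at g
      simp only at g
      obtain ⟨rfl, g1, g2⟩ := g
      exact hlow t2 (by omega) g2
    · intro x' g1 g2
      refine ⟨hrow x' g1 g2 (y1 - 1) (by omega) (by omega), fun g => ?_⟩
      rw [mem_N1] at g; simp only at g; omega
    · intro x' g1 g2
      refine ⟨hrow x' g1 g2 y1 (by omega) (by omega), fun g => ?_⟩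
      rw [mem_N1] at g; simp only at g; omega
  have W0 : ∃ w, GW A0 (beD A0 x y1 (b' * L + L - 1)) w := by
    refine (Sh279.D_notch_GW' (M := Mg949.mac P) npN (by omega)
      ?_ (by omega) ?_ ?_ ?_ (hright y1 (by omega) (by omega))).2
    · rintro ⟨t1, t2⟩ g
      rw [mem_Nt] at g
      simp only at g
      rcases g with ⟨rfl, g1, g2⟩ | ⟨rfl, g1, g2⟩
      · exact hlow t2 (by omega) g2
      · exact ⟨hrow (b' * L + L - 1) (by omega) le_rfl t2 g1 (by omega), hright t2 g1 (by omega)⟩
    · intro x' g1 g2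
      refine ⟨hrow x' g1 (by omega) (y1 - 1) (by omega) (by omega), fun g => ?_⟩
      rw [mem_Nt] at g; simp only at g; omega
    · intro x' g1 g2
      refine ⟨hrow x' g1 g2 y1 (by omega) (by omega), fun g => ?_⟩
      rw [mem_Nt] at g; simp only at g; omega
    · rw [mem_Nt]; exact Or.inr ⟨rfl, by omega, by omega⟩
  -- marks
  set m : Fin 3 → V × ZMod 4 := fun i => Hb656.mt P L i with hm
  have far : ∀ c : ℤ, ∀ X : ℤ, (X = c * L + L - 1 ∨ X = c * L + L - 2) → ∀ i,
      FarC X (k * L - 1) n2 (shr y1 (-1)) (some (m i)) := by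
    intro c X hX i t d e hB
    have e' : (m i).1 = t := by
      have := Option.some.inj e
      rw [this]
    have h5 := mt_far (i := c + 1) (j := k) (N := n2 + 4) (by omega) (by omega) i
      (s := (m i).1) (Or.inl rfl)
    rw [e'] at h5
    have eX : (c + 1) * L = c * L + L := by ring
    rw [eX] at h5
    rcases lt_or_ge t.2 y1 with g | g
    · rw [shr_lt g] at hB
      unfold Bx at hB
      omega
    · rw [shr_ge g] at hB
      unfold Bx at hB
      simp only at hB
      omega
  have hρ' : ((ρ - 1 : ℕ) : ℤ) = ρ - 1 := by omega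
  -- the ball at the end of the lower run
  have B1 : MK A1 (beD A1 x y1 (b' * L + L - 1)) (some (m 0)) (some (m 1)) (some (m 2)) ∧
      ‖HG A2 (beD A2 x y1 (b' * L + L - 1)) (some (m 0)) (some (m 1)) (some (m 2)) -
        HG A1 (beD A1 x y1 (b' * L + L - 1)) (some (m 0)) (some (m 1)) (some (m 2))‖ ≤
          ε / 2 := by
    have fr := far b (b * L + L - 1) (Or.inl rfl)
    have := hX2 .t 3 (b * L + L - 1) (k * L - 1) ρ n2 x y1 (b' * L + L - 1) (by omega) r2
      (by omega) (A := A2) (A' := A1) W1 ?_ ?_ ?_ (MkP.far (by omega) (fr 0))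
      (MkP.far (by omega) (fr 1)) (MkP.far (by omega) (fr 2))
      (Or.inl (fr 0)) (Or.inl (fr 1)) (Or.inl (fr 2)) hok
    · exact ⟨this.1, this.2.trans e2⟩
    · rintro ⟨c1, c2⟩ g1 g2
      rw [Cw161.pat_t3]
      unfold Bx at g1 g2
      rw [hρ'] at g2
      push_cast at g1
      simp only at g1 g2 ⊢
      rcases lt_or_ge c2 y1 with g | g
      · rw [shr_lt (t := (c1, c2)) g, dn_l hb ht (by omega) (by omega) (by omega) (by omega)
          (by omega)]
        omega
      · rw [shr_ge (t := (c1, c2)) g]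
        simp only
        rw [dn_l hb ht (by omega) (by omega) (by omega) (by omega) (by omega)]
        omega
    · rintro ⟨t1, t2⟩ g
      rw [hA1, Finset.mem_sdiff, mem_N1]
      simp only
      constructor
      · exact fun g => g.1
      · refine fun g' => ⟨g', fun g'' => g ?_⟩
        rw [shr_lt (t := (t1, t2)) (by omega)]
        unfold Bx
        simp only
        omega
    · intro x' g1 g2
      omega
  -- the ball at the end of the upper run
  have B2 : MK A0 (beD A0 x y1 (b' * L + L - 1)) (some (m 0)) (some (m 1)) (some (m 2)) ∧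
      ‖HG A1 (beD A1 x y1 (b' * L + L - 1)) (some (m 0)) (some (m 1)) (some (m 2)) -
        HG A0 (beD A0 x y1 (b' * L + L - 1)) (some (m 0)) (some (m 1)) (some (m 2))‖ ≤
          ε / 2 := by
    obtain ⟨sh, kk, hp⟩ := dn_u np hb ht (by omega : 4 ≤ L)
    have fr := far b' (b' * L + L - 2) (Or.inr rfl)
    have := hX2 sh kk (b' * L + L - 2) (k * L - 1) ρ n2 x y1 (b' * L + L - 1) (by omega) r2
      (by omega) (A := A1) (A' := A0) W0 ?_ ?_ ?_ (MkP.far (by omega) (fr 0))
      (MkP.far (by omega) (fr 1)) (MkP.far (by omega) (fr 2))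
      (Or.inl (fr 0)) (Or.inl (fr 1)) (Or.inl (fr 2)) B1.1
    · exact ⟨this.1, this.2.trans e2⟩
    · rintro ⟨c1, c2⟩ g1 g2
      unfold Bx at g1 g2
      rw [hρ'] at g2
      push_cast at g1
      simp only at g1 g2 ⊢
      obtain ⟨p1, p2⟩ := hp c1 c2 (by omega) (by omega) (by omega) (by omega)
      rcases lt_or_ge c2 y1 with g | g
      · rw [shr_lt (t := (c1, c2)) g, hA1, Finset.mem_sdiff, mem_N1, p1]
        simp only
        rcases lt_or_ge c2 (k * L) with g3 | g3
        · constructor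
          · rintro ⟨(⟨g4, -⟩ | ⟨-, g4⟩), -⟩
            · omega
            · exact g4
          · exact fun g4 => ⟨Or.inr ⟨g3, g4⟩, by omega⟩
        · rw [p2 g3]
          omega
      · rw [shr_ge (t := (c1, c2)) g, hA1, Finset.mem_sdiff, mem_N1]
        simp only
        obtain ⟨p3, -⟩ := hp (c1 + 1) c2 (by omega) (by omega) (by omega) (by omega)
        rw [p3, p2 (by omega)]
        have n1 : ¬ c2 < k * L := by omega
        simp only [n1, false_and, or_false, and_false, not_false_eq_true, and_true]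
        omega
    · rintro ⟨t1, t2⟩ g
      rw [hA0, hA1, Finset.mem_sdiff, Finset.mem_sdiff, mem_N1, mem_Nt]
      simp only
      constructor
      · exact fun g => ⟨g.1, fun g' => g.2 (Or.inl g')⟩
      · rintro ⟨g1, g2⟩
        refine ⟨g1, ?_⟩
        rintro (g3 | g3)
        · exact g2 g3
        · apply g
          rw [shr_lt (t := (t1, t2)) (by omega)]
          unfold Bx
          simp only
          omega
    · intro x' g1 g2
      have h3 : (x', y1) ∉ A2 := by
        obtain ⟨p3, -⟩ := hp x' y1 (by omega) (by omega) (by omega) (by omega)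
        rw [hA2, p3]
        omega
      exact ⟨fun g => h3 (Finset.mem_sdiff.1 g).1, fun g => h3 (Finset.mem_sdiff.1 g).1⟩
  refine ⟨B2.1, ?_⟩
  change ‖HG A2 (beD A2 x y1 (b' * L + L - 1)) (some (m 0)) (some (m 1)) (some (m 2)) -
        HG A0 (beD A0 x y1 (b' * L + L - 1)) (some (m 0)) (some (m 1)) (some (m 2))‖ ≤ ε
  have := norm_sub_le_norm_sub_add_norm_sub
    (HG A2 (beD A2 x y1 (b' * L + L - 1)) (some (m 0)) (some (m 1)) (some (m 2)))
    (HG A1 (beD A1 x y1 (b' * L + L - 1)) (some (m 0)) (some (m 1)) (some (m 2)))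
    (HG A0 (beD A0 x y1 (b' * L + L - 1)) (some (m 0)) (some (m 1)) (some (m 2)))
  linarith [B1.2, B2.2]

end Crest.Agent.R158.Cn161
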