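import Crest.Agent.R158.Rs1_689

/-!
# Row 158 (helper963): hybrid coupling for product Bernoulli laws

* `PB_congr`   : the law of an event depending on `S` only depends on the parameters on `S`
* `up b e A`   : the event `A` after the status of `e` is set to `b`
* `piv e A`    : `e` is pivotal for `A`
* `PB_split`   : conditioning on one edge
* `PB_tele`    : `|P_w(A) - P_w'(A)| ≤ Σ_{e ∈ R} |w e - w' e| * M` if `w = w'` off `R` and all
  hybrids `v` of `w`, `w'` satisfy `P_v(e piv A) ≤ M`
* `PB_compare` : `P_w(A) ≤ P_w'(B) + d |R| M` if `A` implies `B` and `B` depends on `R` only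
-/

set_option autoImplicit false

noncomputable section

namespace Crest.Agent.R158.Cpl963

open MeasureTheory ProbabilityTheory unitInterval
open Crest.Agent.R158.Rs689
open scoped ENNReal

variable {ι : Type*}

/-- the law of an event depending on `S` only depends on the parameters on `S` -/
theorem PB_congr {w w' : ι → I} {S : Finset ι} {A : Set (ι → Bool)} (hA : Dep S A)
    (h : ∀ e ∈ S, w e = w' e) : (PB w).real A = (PB w').real A := by
  classical
  rw [PB_real_eq w hA, PB_real_eq w' hA]
  refine Finset.sum_congr rfl fun y _ => ?_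
  congr 1
  unfold wt
  exact Finset.prod_congr rfl fun e _ => by rw [h e e.2]

section upd
variable [DecidableEq ι]

/-- the event `A` after the status of `e` is set to `b` -/
def up (b : Bool) (e : ι) (A : Set (ι → Bool)) : Set (ι → Bool) :=
  {z | Function.update z e b ∈ A}

/-- `e` is pivotal for `A` -/
def piv (e : ι) (A : Set (ι → Bool)) : Set (ι → Bool) :=
  {z | ¬ (Function.update z e true ∈ A ↔ Function.update z e false ∈ A)}

theorem dep_up {S : Finset ι} {A : Set (ι → Bool)} (hA : Dep S A) (b : Bool) (e : ι) :
    Dep (S.erase e) (up b e A) := by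
  intro z z' h
  refine hA _ _ fun f hf => ?_
  by_cases hfe : f = e
  · subst hfe
    simp
  · rw [Function.update_of_ne hfe, Function.update_of_ne hfe]
    exact h f (Finset.mem_erase.2 ⟨hfe, hf⟩)

theorem dep_piv {S : Finset ι} {A : Set (ι → Bool)} (hA : Dep S A) (e : ι) :
    Dep (S.erase e) (piv e A) := by
  intro z z' h
  have h1 := dep_up hA true e z z' h
  have h2 := dep_up hA false e z z' h
  exact not_congr (iff_congr h1 h2)

theorem dep_single (e : ι) (b : Bool) : Dep {e} {z : ι → Bool | z e = b} := by
  intro z z' h
  have := h e (Finset.mem_singleton_self e)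
  simp only [Set.mem_setOf_eq, this]

theorem PB_single_true (w : ι → I) (e : ι) : (PB w).real {z | z e = true} = w e := by
  classical
  have h : (PB w).map (fun z => z e) = bern (w e) := by
    unfold PB
    exact Measure.infinitePi_map_eval _ e
  have h2 : (PB w).real {z | z e = true} = ((PB w).map (fun z => z e)).real {true} := by
    rw [measureReal_def, measureReal_def, Measure.map_apply (measurable_pi_apply e)
      (measurableSet_singleton true)]
    rfl
  rw [h2, h, bern_real_true]

theorem PB_single_false (w : ι → I) (e : ι) : (PB w).real {z | z e = false} = 1 - w e := by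
  classical
  have h : (PB w).map (fun z => z e) = bern (w e) := by
    unfold PB
    exact Measure.infinitePi_map_eval _ e
  have h2 : (PB w).real {z | z e = false} = ((PB w).map (fun z => z e)).real {false} := by
    rw [measureReal_def, measureReal_def, Measure.map_apply (measurable_pi_apply e)
      (measurableSet_singleton false)]
    rfl
  rw [h2, h, bern_real_false]

/-- conditioning on one edge -/
theorem PB_split (w : ι → I) (e : ι) {S : Finset ι} {A : Set (ι → Bool)} (hA : Dep S A) :
    (PB w).real A = w e * (PB w).real (up true e A) + (1 - w e) * (PB w).real (up false e A) := by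
  have hd : Disjoint (S.erase e) {e} := by simp
  have h1 : A ∩ {z | z e = true} = up true e A ∩ {z | z e = true} := by
    ext z
    simp only [Set.mem_inter_iff, Set.mem_setOf_eq, up]
    refine and_congr_left fun hz => ?_
    rw [← hz, Function.update_eq_self]
  have h2 : A \ {z | z e = true} = up false e A ∩ {z | z e = false} := by
    ext z
    simp only [Set.mem_inter_iff, Set.mem_setOf_eq, up, Set.mem_diff, Bool.not_eq_true]
    refine and_congr_left fun hz => ?_
    rw [← hz, Function.update_eq_self]
  have h3 := measureReal_inter_add_diff (μ := PB w) (s := A) (t := {z | z e = true})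
    (dep_single e true).measurableSet
  rw [h1, h2, PB_indep_real w hd (dep_up hA true e) (dep_single e true),
    PB_indep_real w hd (dep_up hA false e) (dep_single e false), PB_single_true,
    PB_single_false] at h3
  rw [← h3]
  ring

/-- the two restrictions differ at most by pivotality -/
theorem abs_up_sub_le (w : ι → I) (e : ι) {S : Finset ι} {A : Set (ι → Bool)} (hA : Dep S A) :
    |(PB w).real (up true e A) - (PB w).real (up false e A)| ≤ (PB w).real (piv e A) := by
  have h1 : up true e A ⊆ up false e A ∪ piv e A := by
    intro z hz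
    by_cases h : z ∈ up false e A
    · exact Or.inl h
    · exact Or.inr fun hc => h (hc.1 hz)
  have h2 : up false e A ⊆ up true e A ∪ piv e A := by
    intro z hz
    by_cases h : z ∈ up true e A
    · exact Or.inl h
    · exact Or.inr fun hc => h (hc.2 hz)
  have h3 := (measureReal_mono (μ := PB w) h1).trans (measureReal_union_le _ _)
  have h4 := (measureReal_mono (μ := PB w) h2).trans (measureReal_union_le _ _)
  rw [abs_le]
  constructor <;> linarith

/-- change of one parameter -/
theorem PB_one (w : ι → I) (e : ι) (p : I) {S : Finset ι} {A : Set (ι → Bool)} (hA : Dep S A) :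
    |(PB w).real A - (PB (Function.update w e p)).real A| ≤
      |(w e : ℝ) - p| * (PB w).real (piv e A) := by
  have h1 := PB_split w e hA
  have h2 := PB_split (Function.update w e p) e hA
  have h3 : ∀ b, (PB (Function.update w e p)).real (up b e A) = (PB w).real (up b e A) := by
    intro b
    refine PB_congr (dep_up hA b e) fun f hf => ?_
    rw [Function.update_of_ne (Finset.ne_of_mem_erase hf)]
  rw [Function.update_self, h3, h3] at h2
  have h4 : (PB w).real A - (PB (Function.update w e p)).real A =
      ((w e : ℝ) - p) * ((PB w).real (up true e A) - (PB w).real (up false e A)) := by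
    rw [h1, h2]; ring
  rw [h4, abs_mul]
  exact mul_le_mul_of_nonneg_left (abs_up_sub_le w e hA) (abs_nonneg _)

end upd

/-- `v` is a hybrid of `w` and `w'` -/
def Hyb (w w' v : ι → I) : Prop := ∀ e, v e = w e ∨ v e = w' e

open Classical in
/-- **Telescoping.** -/
theorem PB_tele {S : Finset ι} {A : Set (ι → Bool)} (hA : Dep S A) {M : ℝ} (R : Finset ι)
    (w w' : ι → I) (hR : ∀ e, e ∉ R → w e = w' e)
    (hM : ∀ v, Hyb w w' v → ∀ e ∈ R, (PB v).real (piv e A) ≤ M) :
    |(PB w).real A - (PB w').real A| ≤ ∑ e ∈ R, |(w e : ℝ) - w' e| * M := by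
  induction R using Finset.induction_on generalizing w with
  | empty =>
    have : w = w' := funext fun e => hR e (Finset.notMem_empty e)
    subst this
    simp
  | insert a R ha ih =>
    set w1 := Function.update w a (w' a) with hw1
    have h1 : Hyb w w' w := fun e => Or.inl rfl
    have h2 := PB_one w a (w' a) hA
    have h3 : |(PB w).real A - (PB w1).real A| ≤ |(w a : ℝ) - w' a| * M :=
      h2.trans (mul_le_mul_of_nonneg_left (hM w h1 a (Finset.mem_insert_self _ _))
        (abs_nonneg _))
    have h4 : |(PB w1).real A - (PB w').real A| ≤ ∑ e ∈ R, |(w1 e : ℝ) - w' e| * M := by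
      refine ih w1 (fun e he => ?_) fun v hv e he => hM v (fun f => ?_) e
        (Finset.mem_insert_of_mem he)
      · by_cases hea : e = a
        · subst hea; simp [hw1]
        · rw [hw1, Function.update_of_ne hea]
          exact hR e (by simp [hea, he])
      · rcases hv f with hf | hf
        · by_cases hfa : f = a
          · subst hfa
            right
            rw [hf, hw1, Function.update_self]
          · left
            rw [hf, hw1, Function.update_of_ne hfa]
        · exact Or.inr hf
    have h5 : ∑ e ∈ R, |(w1 e : ℝ) - w' e| * M = ∑ e ∈ R, |(w e : ℝ) - w' e| * M := by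
      refine Finset.sum_congr rfl fun e he => ?_
      have : e ≠ a := fun h => ha (h ▸ he)
      rw [hw1, Function.update_of_ne this]
    rw [Finset.sum_insert ha]
    have h6 : (PB w).real A - (PB w').real A =
        ((PB w).real A - (PB w1).real A) + ((PB w1).real A - (PB w').real A) := by ring
    rw [h6]
    refine (abs_add_le _ _).trans ?_
    rw [h5] at h4
    exact add_le_add h3 h4

/-- the window between two parameters: all edge parameters within distance `d` of `w0` -/
def Win (w0 : ι → I) (d : ℝ) : Set (ι → I) := {w | ∀ e, |(w e : ℝ) - w0 e| ≤ d}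

open Classical in
/-- parameters of `w` reverted to `w0` on `R` -/
def rev (R : Finset ι) (w w0 : ι → I) : ι → I := fun e => if e ∈ R then w0 e else w e

theorem rev_mem_win {w0 w : ι → I} {d : ℝ} (hd : 0 ≤ d) (hw : w ∈ Win w0 d) (R : Finset ι) :
    rev R w w0 ∈ Win w0 d := by
  intro e
  unfold rev
  split_ifs
  · simpa using hd
  · exact hw e

theorem hyb_mem_win {w0 w v : ι → I} {d : ℝ} (hd : 0 ≤ d) (hw : w ∈ Win w0 d) {R : Finset ι}
    (hv : Hyb w (rev R w w0) v) : v ∈ Win w0 d := by
  intro e
  rcases hv e with h | h
  · rw [h]; exact hw e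
  · rw [h]; exact rev_mem_win hd hw R e

/-- **Comparison, two sided.** The parameters of the edges in `R` are reverted to `w0`. -/
theorem PB_revert [DecidableEq ι] {S : Finset ι} {A : Set (ι → Bool)} (hA : Dep S A)
    (R : Finset ι)
    {w0 w : ι → I} {d M : ℝ} (hd : 0 ≤ d) (hw : w ∈ Win w0 d)
    (hM : ∀ v ∈ Win w0 d, ∀ e ∈ R, (PB v).real (piv e A) ≤ M) :
    |(PB w).real A - (PB (rev R w w0)).real A| ≤ d * R.card * M := by
  classical
  rcases R.eq_empty_or_nonempty with rfl | ⟨e0, he0⟩
  · have : rev ∅ w w0 = w := by funext e; simp [rev]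
    rw [this]; simp
  have hM0 : 0 ≤ M := measureReal_nonneg.trans (hM w hw e0 he0)
  have hdec : ∀ e, piv e A = @piv ι (fun a b => Classical.propDecidable (a = b)) e A := by
    intro e
    unfold piv
    congr!
  have h := PB_tele hA (M := M) R w (rev R w w0) (fun e he => by simp [rev, he])
    fun v hv e he => by
      rw [← hdec]
      exact hM v (hyb_mem_win hd hw hv) e he
  refine h.trans ?_
  calc ∑ e ∈ R, |(w e : ℝ) - rev R w w0 e| * M ≤ ∑ e ∈ R, d * M := by
        refine Finset.sum_le_sum fun e he => mul_le_mul_of_nonneg_right ?_ hM0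
        simp only [rev, he, if_true]
        exact hw e
    _ = d * R.card * M := by rw [Finset.sum_const, nsmul_eq_mul]; ring

/-- **One step, upper bound.** `A ⊆ B`, `B` depends on the reverted edges only. -/
theorem PB_step_le [DecidableEq ι] {S : Finset ι} {A B : Set (ι → Bool)} (hA : Dep S A)
    {R : Finset ι}
    (hB : Dep R B) (hAB : A ⊆ B) {w0 w : ι → I} {d M : ℝ} (hd : 0 ≤ d) (hw : w ∈ Win w0 d)
    (hM : ∀ v ∈ Win w0 d, ∀ e ∈ R, (PB v).real (piv e A) ≤ M) :
    (PB w).real A ≤ (PB w0).real B + d * R.card * M := by
  have h1 := PB_revert hA R hd hw hM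
  have h2 : (PB (rev R w w0)).real A ≤ (PB (rev R w w0)).real B := measureReal_mono hAB
  have h3 : (PB (rev R w w0)).real B = (PB w0).real B :=
    PB_congr hB fun e he => by simp [rev, he]
  have h4 := (abs_le.1 h1).2
  linarith

/-- **One step, lower bound.** `B ⊆ A`, `B` depends on the reverted edges only. -/
theorem PB_step_ge [DecidableEq ι] {S : Finset ι} {A B : Set (ι → Bool)} (hA : Dep S A)
    {R : Finset ι}
    (hB : Dep R B) (hBA : B ⊆ A) {w0 w : ι → I} {d M : ℝ} (hd : 0 ≤ d) (hw : w ∈ Win w0 d)
    (hM : ∀ v ∈ Win w0 d, ∀ e ∈ R, (PB v).real (piv e A) ≤ M) :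
    (PB w0).real B - d * R.card * M ≤ (PB w).real A := by
  have h1 := PB_revert hA R hd hw hM
  have h2 : (PB (rev R w w0)).real B ≤ (PB (rev R w w0)).real A := measureReal_mono hBA
  have h3 : (PB (rev R w w0)).real B = (PB w0).real B :=
    PB_congr hB fun e he => by simp [rev, he]
  have h4 := (abs_le.1 h1).1
  linarith

/-- **One step, lower bound with corridors.** `B ∩ C ⊆ A`, `B` depends on the reverted edges
only, `C` on other edges. -/
theorem PB_step_ge_corr [DecidableEq ι] {S : Finset ι} {A B C : Set (ι → Bool)} (hA : Dep S A)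
    {R T : Finset ι} (hB : Dep R B) (hC : Dep T C) (hRT : Disjoint R T) (hBA : B ∩ C ⊆ A)
    {w0 w : ι → I} {d M : ℝ} (hd : 0 ≤ d) (hw : w ∈ Win w0 d)
    (hM : ∀ v ∈ Win w0 d, ∀ e ∈ R, (PB v).real (piv e A) ≤ M) :
    (PB w0).real B * (PB w).real C - d * R.card * M ≤ (PB w).real A := by
  have h1 := PB_revert hA R hd hw hM
  have h2 : (PB (rev R w w0)).real (B ∩ C) ≤ (PB (rev R w w0)).real A := measureReal_mono hBA
  rw [PB_indep_real _ hRT hB hC] at h2
  have h3 : (PB (rev R w w0)).real B = (PB w0).real B :=
    PB_congr hB fun e he => by simp [rev, he]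
  have h5 : (PB (rev R w w0)).real C = (PB w).real C :=
    PB_congr hC fun e he => by
      have : e ∉ R := fun h => Finset.disjoint_left.1 hRT h he
      simp [rev, this]
  rw [h3, h5] at h2
  have h4 := (abs_le.1 h1).1
  linarith

end Crest.Agent.R158.Cpl963
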