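import Crest.Agent.R158.Cpl2_963

/-!
# Row 158 (helper963): the four-arm bound in the whole near-critical window

* `PB_step_two` : comparison of two laws of the window
* `HypU4` : the annulus form of the four-arm bound at `p = 1/2`
* `Q_bound` : `P_w(T2 x 1 s) ≤ n^ε s^{-5/4}` for all `s ≤ n` and all product laws with parameters
  within `n^{-3/4-δ}` of `1/2`
-/

set_option autoImplicit false

noncomputable section

namespace Crest.Agent.R158.Cpl963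

open MeasureTheory ProbabilityTheory unitInterval Filter
open Crest.Agent.R161.Geo729 Crest.Agent.R161.Topo374 Crest.Agent.R161.Dual374
open Crest.Agent.R161.Tas682 Crest.Agent.R161.Ring421
open Crest.Agent.R158.Rs689

/-! ### comparison of two laws of the window -/

/-- **Two laws of the window.** `A ⊆ B`, `B` depends on the edges of `R` only. -/
theorem PB_step_two {ι : Type*} [DecidableEq ι] {S : Finset ι} {A B : Set (ι → Bool)}
    (hA : Dep S A) {R : Finset ι} (hB : Dep R B) (hAB : A ⊆ B) {w0 w1 w2 : ι → I} {d M : ℝ}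
    (hd : 0 ≤ d) (h1 : w1 ∈ Win w0 d) (h2 : w2 ∈ Win w0 d)
    (hM : ∀ v ∈ Win w0 d, ∀ e ∈ R, (PB v).real (piv e A) ≤ M) :
    (PB w1).real A ≤ (PB w2).real B + 2 * d * R.card * M := by
  classical
  set w' : ι → I := fun e => if e ∈ R then w2 e else w1 e with hw'
  have hyb : ∀ v, Hyb w1 w' v → v ∈ Win w0 d := by
    intro v hv e
    rcases hv e with h | h
    · rw [h]; exact h1 e
    · rw [h, hw']
      dsimp only
      split_ifs
      · exact h2 e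
      · exact h1 e
  have hdec : ∀ e, piv e A = @piv ι (fun a b => Classical.propDecidable (a = b)) e A := by
    intro e
    unfold piv
    congr!
  have hd2 : ∀ e, |(w1 e : ℝ) - w2 e| ≤ 2 * d := by
    intro e
    have h3 := h1 e
    have h4 := h2 e
    rw [abs_le] at h3 h4 ⊢
    constructor <;> linarith
  have h3 : |(PB w1).real A - (PB w').real A| ≤ 2 * d * R.card * M := by
    rcases R.eq_empty_or_nonempty with rfl | ⟨e0, he0⟩
    · have : w' = w1 := by funext e; simp [hw']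
      rw [this]; simp
    have hM0 : 0 ≤ M := measureReal_nonneg.trans (hM w1 h1 e0 he0)
    refine (PB_tele hA (M := M) R w1 w' (fun e he => by simp [hw', he])
      fun v hv e he => by
        rw [← hdec]
        exact hM v (hyb v hv) e he).trans ?_
    calc ∑ e ∈ R, |(w1 e : ℝ) - w' e| * M ≤ ∑ e ∈ R, 2 * d * M := by
          refine Finset.sum_le_sum fun e he => mul_le_mul_of_nonneg_right ?_ hM0
          simp only [hw', he, if_true]
          exact hd2 e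
      _ = 2 * d * R.card * M := by rw [Finset.sum_const, nsmul_eq_mul]; ring
  have h4 : (PB w').real A ≤ (PB w').real B := measureReal_mono hAB
  have h5 : (PB w').real B = (PB w2).real B := PB_congr hB fun e he => by simp [hw', he]
  have h6 := (abs_le.1 h3).2
  linarith

/-! ### arithmetic -/

theorem four_pow : (4 : ℝ) ^ (5 / 4 : ℝ) ≤ 6 := by
  have h1 : (4 : ℝ) ^ (5 / 4 : ℝ) = ((4 : ℝ) ^ (5 : ℕ)) ^ (1 / 4 : ℝ) := by
    rw [← Real.rpow_natCast, ← Real.rpow_mul (by norm_num)]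
    norm_num
  have h2 : (6 : ℝ) = ((6 : ℝ) ^ (4 : ℕ)) ^ (1 / 4 : ℝ) := by
    rw [← Real.rpow_natCast, ← Real.rpow_mul (by norm_num)]
    norm_num
  rw [h1, h2]
  exact Real.rpow_le_rpow (by norm_num) (by norm_num) (by norm_num)

/-- arithmetic of one step of the scale induction -/
theorem arith_step {N s t B δ ε1 K : ℝ} (hN : 1 ≤ N) (hs : 0 < s) (hsN : s ≤ N) (ht : 0 < t)
    (hK : 0 < K) (hst : s / (2 * K) ≤ t) (hB : 0 ≤ B) (hε : 0 ≤ ε1)
    (hstar : 18 * N ^ (-δ) * B * (2 * K) ^ (5 / 2 : ℝ) ≤ 1) :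
    N ^ ε1 * (4 * t / s) ^ (5 / 4 : ℝ) +
        N ^ (-(3 / 4 : ℝ) - δ) * (18 * s ^ 2) * (B * t ^ (-(5 / 4 : ℝ)))
      ≤ 7 * N ^ ε1 * (t / s) ^ (5 / 4 : ℝ) := by
  have hN0 : 0 < N := by linarith
  have hNε : 1 ≤ N ^ ε1 := Real.one_le_rpow hN hε
  have hts : 0 < (t / s) ^ (5 / 4 : ℝ) := Real.rpow_pos_of_pos (div_pos ht hs) _
  have h1 : (4 * t / s) ^ (5 / 4 : ℝ) ≤ 6 * (t / s) ^ (5 / 4 : ℝ) := by
    rw [mul_div_assoc, Real.mul_rpow (by norm_num) (div_pos ht hs).le]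
    exact mul_le_mul_of_nonneg_right four_pow hts.le
  have h2 : N ^ (-(3 / 4 : ℝ) - δ) * (18 * s ^ 2) * (B * t ^ (-(5 / 4 : ℝ))) ≤
      (t / s) ^ (5 / 4 : ℝ) := by
    have e1 : N ^ (-(3 / 4 : ℝ) - δ) = N ^ (-(3 / 4 : ℝ)) * N ^ (-δ) := by
      rw [← Real.rpow_add hN0]; ring_nf
    have e2 : s ^ 2 = s ^ (3 / 4 : ℝ) * s ^ (5 / 4 : ℝ) := by
      rw [← Real.rpow_add hs, ← Real.rpow_natCast]
      norm_num
    have e3 : N ^ (-(3 / 4 : ℝ)) * s ^ (3 / 4 : ℝ) ≤ 1 := by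
      have h3 : s ^ (3 / 4 : ℝ) ≤ N ^ (3 / 4 : ℝ) := Real.rpow_le_rpow hs.le hsN (by norm_num)
      have h4 : N ^ (-(3 / 4 : ℝ)) * N ^ (3 / 4 : ℝ) = 1 := by
        rw [← Real.rpow_add hN0]; simp
      rw [← h4]
      exact mul_le_mul_of_nonneg_left h3 (Real.rpow_nonneg hN0.le _)
    -- lower bound of `t`
    have h5 : s ^ (5 / 2 : ℝ) ≤ t ^ (5 / 2 : ℝ) * (2 * K) ^ (5 / 2 : ℝ) := by
      rw [← Real.mul_rpow ht.le (by positivity)]
      refine Real.rpow_le_rpow hs.le ?_ (by norm_num)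
      rwa [div_le_iff₀ (by positivity)] at hst
    have e4 : (t / s) ^ (5 / 4 : ℝ) = t ^ (5 / 2 : ℝ) * t ^ (-(5 / 4 : ℝ)) * s ^ (-(5 / 4 : ℝ)) := by
      rw [Real.div_rpow ht.le hs.le, Real.rpow_neg hs.le, ← Real.rpow_add ht, div_eq_mul_inv]
      norm_num
    have e5 : s ^ (5 / 4 : ℝ) = s ^ (5 / 2 : ℝ) * s ^ (-(5 / 4 : ℝ)) := by
      rw [← Real.rpow_add hs]
      norm_num
    have htn : 0 ≤ t ^ (-(5 / 4 : ℝ)) := Real.rpow_nonneg ht.le _
    have hsn : 0 ≤ s ^ (-(5 / 4 : ℝ)) := Real.rpow_nonneg hs.le _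
    have hs54 : 0 ≤ s ^ (5 / 4 : ℝ) := Real.rpow_nonneg hs.le _
    have hNδ : 0 ≤ N ^ (-δ) := Real.rpow_nonneg hN0.le _
    calc N ^ (-(3 / 4 : ℝ) - δ) * (18 * s ^ 2) * (B * t ^ (-(5 / 4 : ℝ)))
        = (N ^ (-(3 / 4 : ℝ)) * s ^ (3 / 4 : ℝ)) *
            (18 * N ^ (-δ) * B * s ^ (5 / 4 : ℝ) * t ^ (-(5 / 4 : ℝ))) := by
          rw [e1, e2]; ring
      _ ≤ 1 * (18 * N ^ (-δ) * B * s ^ (5 / 4 : ℝ) * t ^ (-(5 / 4 : ℝ))) :=
          mul_le_mul_of_nonneg_right e3 (by positivity)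
      _ = 18 * N ^ (-δ) * B * s ^ (5 / 2 : ℝ) * s ^ (-(5 / 4 : ℝ)) * t ^ (-(5 / 4 : ℝ)) := by
          rw [e5]; ring
      _ ≤ 18 * N ^ (-δ) * B * (t ^ (5 / 2 : ℝ) * (2 * K) ^ (5 / 2 : ℝ)) * s ^ (-(5 / 4 : ℝ)) *
            t ^ (-(5 / 4 : ℝ)) := by
          have : 0 ≤ 18 * N ^ (-δ) * B := by positivity
          exact mul_le_mul_of_nonneg_right (mul_le_mul_of_nonneg_right
            (mul_le_mul_of_nonneg_left h5 this) hsn) htn
      _ = (18 * N ^ (-δ) * B * (2 * K) ^ (5 / 2 : ℝ)) *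
            (t ^ (5 / 2 : ℝ) * t ^ (-(5 / 4 : ℝ)) * s ^ (-(5 / 4 : ℝ))) := by ring
      _ ≤ 1 * (t ^ (5 / 2 : ℝ) * t ^ (-(5 / 4 : ℝ)) * s ^ (-(5 / 4 : ℝ))) := by
          refine mul_le_mul_of_nonneg_right hstar ?_
          have := Real.rpow_nonneg ht.le (5 / 2 : ℝ)
          positivity
      _ = (t / s) ^ (5 / 4 : ℝ) := by rw [e4, one_mul]
  have h3 : N ^ ε1 * (4 * t / s) ^ (5 / 4 : ℝ) ≤ N ^ ε1 * (6 * (t / s) ^ (5 / 4 : ℝ)) :=
    mul_le_mul_of_nonneg_left h1 (by linarith)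
  nlinarith

/-! ### the four-arm bound -/

/-- the annulus form of the four-arm bound at `p = 1/2` -/
def HypU4 : Prop :=
  ∀ ε : ℝ, 0 < ε → ∀ᶠ n : ℕ in atTop, ∀ k l : ℕ, 1 ≤ k → k ≤ l → l ≤ n →
    (nu hf).real (T2 (0, 0) k l) ≤ (n : ℝ) ^ ε * ((k : ℝ) / l) ^ (5 / 4 : ℝ)

/-- the window -/
abbrev Wd (d : ℝ) : Set (Edge → I) := Win (fun _ : Edge => hf) d

theorem hf_mem_Wd {d : ℝ} (hd : 0 ≤ d) : (fun _ : Edge => hf) ∈ Wd d := by
  intro e
  simpa using hd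

/-- one step of the scale induction -/
theorem Q_step {n s t : ℕ} {B δ ε1 K : ℝ} (hn : 1 ≤ n)
    (hU : ∀ k l : ℕ, 1 ≤ k → k ≤ l → l ≤ n →
      (nu hf).real (T2 (0, 0) k l) ≤ (n : ℝ) ^ ε1 * ((k : ℝ) / l) ^ (5 / 4 : ℝ))
    (hsn : s ≤ n) (ht : 1 ≤ t) (hts : 4 * t ≤ s) (hK : 0 < K)
    (hst : (s : ℝ) / (2 * K) ≤ t) (hB : 0 ≤ B) (hε : 0 ≤ ε1)
    (hstar : 18 * (n : ℝ) ^ (-δ) * B * (2 * K) ^ (5 / 2 : ℝ) ≤ 1)
    (hQ : ∀ w ∈ Wd ((n : ℝ) ^ (-(3 / 4 : ℝ) - δ)), ∀ x : P2,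
      (PB w).real (T2 x 1 t) ≤ B * (t : ℝ) ^ (-(5 / 4 : ℝ))) :
    ∀ w ∈ Wd ((n : ℝ) ^ (-(3 / 4 : ℝ) - δ)), ∀ x : P2,
      (PB w).real (T2 x 1 s) ≤ 7 * (n : ℝ) ^ ε1 * B * (s : ℝ) ^ (-(5 / 4 : ℝ)) := by
  intro w hw x
  have hN : (1 : ℝ) ≤ n := by exact_mod_cast hn
  have hN0 : (0 : ℝ) < n := by linarith
  have hs0 : (0 : ℝ) < s := by exact_mod_cast (by omega : 0 < s)
  have ht0 : (0 : ℝ) < t := by exact_mod_cast (by omega : 0 < t)
  have hsN : (s : ℝ) ≤ n := by exact_mod_cast hsn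
  set d : ℝ := (n : ℝ) ^ (-(3 / 4 : ℝ) - δ) with hd
  have hd0 : 0 ≤ d := Real.rpow_nonneg hN0.le _
  set A := T2 x ((t : ℤ) + 1) s with hA
  set Bv := T2 x (((t : ℤ) + 1) + t) ((s : ℤ) - t) with hBv
  set R := eAn x (((t : ℤ) + 1) + t) ((s : ℤ) - t) with hR
  set M : ℝ := B * (t : ℝ) ^ (-(5 / 4 : ℝ)) with hM
  have hM0 : 0 ≤ M := mul_nonneg hB (Real.rpow_nonneg ht0.le _)
  -- independence of the two annuli
  have h1 : T2 x 1 s ⊆ T2 x 1 t ∩ A := by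
    intro z hz
    exact ⟨T2_shrink le_rfl (by exact_mod_cast ht) (by exact_mod_cast (by omega : t ≤ s)) hz,
      T2_shrink (by omega) (by omega) le_rfl hz⟩
  have h2 : (PB w).real (T2 x 1 t ∩ A) = (PB w).real (T2 x 1 t) * (PB w).real A :=
    PB_indep_real w (eAn_disj (by omega)) (T2_dep x 1 t) (T2_dep x _ _)
  -- one step
  have h3 : (PB w).real A ≤ (PB fun _ : Edge => hf).real Bv + d * R.card * M := by
    refine PB_step_le (T2_dep x _ _) (T2_dep x _ _) (T2_shrink (by omega) (by omega) (by omega))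
      hd0 hw fun v hv e he => ?_
    refine (measureReal_mono (piv_An (T2_bdEv x _ _) he (k := 1) (l := t) le_rfl
      (by exact_mod_cast ht) le_rfl)).trans ?_
    exact hQ v hv (src e)
  have h4 : (PB fun _ : Edge => hf).real Bv ≤ (n : ℝ) ^ ε1 * (4 * (t : ℝ) / s) ^ (5 / 4 : ℝ) := by
    have h5 := T2_prob hf x (((t : ℤ) + 1) + t) ((s : ℤ) - t)
    have h6 : (nu hf).real Bv = (PB fun _ : Edge => hf).real Bv := rfl
    rw [← h6, h5]
    have h7 := hU (2 * t + 1) (s - t) (by omega) (by omega) (by omega)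
    have e1 : ((2 * t + 1 : ℕ) : ℤ) = ((t : ℤ) + 1) + t := by push_cast; ring
    have e2 : ((s - t : ℕ) : ℤ) = (s : ℤ) - t := by push_cast [Nat.cast_sub (by omega : t ≤ s)]; ring
    rw [e1, e2] at h7
    refine h7.trans (mul_le_mul_of_nonneg_left ?_ (Real.rpow_nonneg hN0.le _))
    refine Real.rpow_le_rpow (by positivity) ?_ (by norm_num)
    rw [Nat.cast_sub (by omega : t ≤ s)]
    push_cast
    have h8 : (4 : ℝ) * t ≤ s := by exact_mod_cast hts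
    have h9 : (1 : ℝ) ≤ t := by exact_mod_cast ht
    rw [div_le_div_iff₀ (by linarith) hs0]
    nlinarith
  have h5 : (R.card : ℝ) ≤ 18 * (s : ℝ) ^ 2 := by
    have h6 : R.card ≤ 2 * (2 * s + 1) ^ 2 := by
      refine (Finset.card_le_card ?_).trans (eAn_card x (((t : ℤ) + 1) + t) s)
      exact eAn_mono le_rfl (by omega)
    have h7 : 2 * (2 * s + 1) ^ 2 ≤ 18 * s ^ 2 := by
      have : 1 ≤ s := by omega
      nlinarith
    exact_mod_cast h6.trans h7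
  have h6 : (PB w).real A ≤ 7 * (n : ℝ) ^ ε1 * ((t : ℝ) / s) ^ (5 / 4 : ℝ) := by
    have h7 := arith_step (δ := δ) hN hs0 hsN ht0 hK hst hB hε hstar
    rw [← hd, ← hM] at h7
    have h8 : d * R.card * M ≤ d * (18 * (s : ℝ) ^ 2) * M :=
      mul_le_mul_of_nonneg_right (mul_le_mul_of_nonneg_left h5 hd0) hM0
    linarith
  have h7 := hQ w hw x
  calc (PB w).real (T2 x 1 s) ≤ (PB w).real (T2 x 1 t ∩ A) := measureReal_mono h1
    _ = (PB w).real (T2 x 1 t) * (PB w).real A := h2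
    _ ≤ M * (7 * (n : ℝ) ^ ε1 * ((t : ℝ) / s) ^ (5 / 4 : ℝ)) :=
        mul_le_mul h7 h6 measureReal_nonneg hM0
    _ = 7 * (n : ℝ) ^ ε1 * B * (s : ℝ) ^ (-(5 / 4 : ℝ)) := by
        rw [hM, Real.div_rpow ht0.le hs0.le, Real.rpow_neg ht0.le, Real.rpow_neg hs0.le]
        have : (t : ℝ) ^ (5 / 4 : ℝ) ≠ 0 := (Real.rpow_pos_of_pos ht0 _).ne'
        field_simp

/-- **The four-arm bound in the near-critical window.** -/
theorem Q_bound (hU : HypU4) {δ ε : ℝ} (hδ : 0 < δ) (hε : 0 < ε) :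
    ∀ᶠ n : ℕ in atTop, ∀ w ∈ Wd ((n : ℝ) ^ (-(3 / 4 : ℝ) - δ)), ∀ x : P2, ∀ s : ℕ,
      1 ≤ s → s ≤ n → (PB w).real (T2 x 1 s) ≤ (n : ℝ) ^ ε * (s : ℝ) ^ (-(5 / 4 : ℝ)) := by
  -- parameters
  obtain ⟨η, hη, hη1, hη2⟩ : ∃ η : ℝ, 0 < η ∧ 10 * η ≤ δ ∧ 10 * η ≤ ε :=
    ⟨min δ ε / 10, by positivity, by have := min_le_left δ ε; linarith,
      by have := min_le_right δ ε; linarith⟩
  obtain ⟨J, hJ⟩ : ∃ J : ℕ, 1 ≤ J * η := by
    obtain ⟨J, hJ⟩ := exists_nat_ge (1 / η)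
    exact ⟨J, by rwa [div_le_iff₀ hη] at hJ⟩
  have hJ0 : 0 < (J : ℝ) := by
    rcases Nat.eq_zero_or_pos J with h | h
    · subst h; simp at hJ; linarith
    · exact_mod_cast h
  set ε1 : ℝ := η / J with hε1
  have hε1p : 0 < ε1 := div_pos hη hJ0
  have hJε : J * ε1 = η := by rw [hε1]; field_simp
  have ev1 : ∀ᶠ n : ℕ in atTop, (7 : ℝ) ^ J ≤ (n : ℝ) ^ η :=
    ((tendsto_rpow_atTop hη).comp tendsto_natCast_atTop_atTop).eventually_ge_atTop _
  have ev2 : ∀ᶠ n : ℕ in atTop, (4 : ℝ) ≤ (n : ℝ) ^ η :=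
    ((tendsto_rpow_atTop hη).comp tendsto_natCast_atTop_atTop).eventually_ge_atTop _
  have ev3 : ∀ᶠ n : ℕ in atTop, (18 * (2 : ℝ) ^ (5 / 2 : ℝ)) ≤ (n : ℝ) ^ η :=
    ((tendsto_rpow_atTop hη).comp tendsto_natCast_atTop_atTop).eventually_ge_atTop _
  filter_upwards [ev1, ev2, ev3, hU ε1 hε1p, eventually_ge_atTop 1] with n h7 h4 h18 hUn hn
  have hN : (1 : ℝ) ≤ n := by exact_mod_cast hn
  have hN0 : (0 : ℝ) < n := by linarith
  set K : ℝ := (n : ℝ) ^ η with hK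
  have hK0 : 0 < K := Real.rpow_pos_of_pos hN0 _
  have hK1 : 1 ≤ K := by linarith
  set Bj : ℕ → ℝ := fun j => (7 * (n : ℝ) ^ ε1) ^ j * K ^ (5 / 4 : ℝ) with hBj
  have h7n : 1 ≤ 7 * (n : ℝ) ^ ε1 := by
    have := Real.one_le_rpow hN hε1p.le
    linarith
  have hBj0 : ∀ j, 0 ≤ Bj j := fun j => by positivity
  have hKB : ∀ j, K ^ (5 / 4 : ℝ) ≤ Bj j := by
    intro j
    have h1 : 1 ≤ (7 * (n : ℝ) ^ ε1) ^ j := one_le_pow₀ h7n
    have h2 : 0 ≤ K ^ (5 / 4 : ℝ) := by positivity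
    simp only [hBj]
    nlinarith
  have hBJ : ∀ j, j ≤ J → Bj j ≤ (n : ℝ) ^ (13 / 4 * η) := by
    intro j hj
    simp only [hBj]
    rw [mul_pow]
    have h1 : (7 : ℝ) ^ j ≤ K := (pow_le_pow_right₀ (by norm_num) hj).trans h7
    have h2 : ((n : ℝ) ^ ε1) ^ j ≤ K := by
      rw [← Real.rpow_natCast, ← Real.rpow_mul hN0.le, hK]
      refine Real.rpow_le_rpow_of_exponent_le hN ?_
      rw [← hJε, mul_comm]
      exact mul_le_mul_of_nonneg_right (by exact_mod_cast hj) hε1p.le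
    have h3 : (n : ℝ) ^ (13 / 4 * η) = K * K * K ^ (5 / 4 : ℝ) := by
      rw [hK, ← Real.rpow_mul hN0.le, ← Real.rpow_add hN0, ← Real.rpow_add hN0]
      congr 1
      ring
    rw [h3]
    refine mul_le_mul_of_nonneg_right ?_ (by positivity)
    exact mul_le_mul h1 h2 (by positivity) hK0.le
  have hstar : ∀ j, j ≤ J → 18 * (n : ℝ) ^ (-δ) * Bj j * (2 * K) ^ (5 / 2 : ℝ) ≤ 1 := by
    intro j hj
    rw [Real.mul_rpow (by norm_num) hK0.le]
    have h1 : K ^ (5 / 2 : ℝ) = (n : ℝ) ^ (5 / 2 * η) := by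
      rw [hK, ← Real.rpow_mul hN0.le]
      congr 1
      ring
    calc 18 * (n : ℝ) ^ (-δ) * Bj j * ((2 : ℝ) ^ (5 / 2 : ℝ) * K ^ (5 / 2 : ℝ))
        ≤ 18 * (n : ℝ) ^ (-δ) * (n : ℝ) ^ (13 / 4 * η) *
            ((2 : ℝ) ^ (5 / 2 : ℝ) * K ^ (5 / 2 : ℝ)) := by
          refine mul_le_mul_of_nonneg_right (mul_le_mul_of_nonneg_left (hBJ j hj) ?_) ?_ <;>
            positivity
      _ = (18 * (2 : ℝ) ^ (5 / 2 : ℝ)) * ((n : ℝ) ^ (-δ) * (n : ℝ) ^ (13 / 4 * η) *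
            (n : ℝ) ^ (5 / 2 * η)) := by rw [h1]; ring
      _ ≤ (n : ℝ) ^ η * ((n : ℝ) ^ (-δ) * (n : ℝ) ^ (13 / 4 * η) * (n : ℝ) ^ (5 / 2 * η)) :=
          mul_le_mul_of_nonneg_right h18 (by positivity)
      _ = (n : ℝ) ^ (η + (-δ + 13 / 4 * η + 5 / 2 * η)) := by
          rw [Real.rpow_add hN0, Real.rpow_add hN0, Real.rpow_add hN0]
      _ ≤ (n : ℝ) ^ (0 : ℝ) := Real.rpow_le_rpow_of_exponent_le hN (by linarith)
      _ = 1 := Real.rpow_zero _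
  -- trivial scales
  have triv : ∀ j, ∀ s : ℕ, 1 ≤ s → (s : ℝ) ≤ K → ∀ w : Edge → I, ∀ x : P2,
      (PB w).real (T2 x 1 s) ≤ Bj j * (s : ℝ) ^ (-(5 / 4 : ℝ)) := by
    intro j s hs hsK w x
    have hs0 : (0 : ℝ) < s := by exact_mod_cast (by omega : 0 < s)
    have h1 : (PB w).real (T2 x 1 s) ≤ 1 := measureReal_le_one
    refine h1.trans ?_
    have h2 : (s : ℝ) ^ (5 / 4 : ℝ) ≤ Bj j :=
      (Real.rpow_le_rpow hs0.le hsK (by norm_num)).trans (hKB j)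
    have h3 : 0 < (s : ℝ) ^ (5 / 4 : ℝ) := Real.rpow_pos_of_pos hs0 _
    rw [Real.rpow_neg hs0.le, ← div_eq_mul_inv, le_div_iff₀ h3, one_mul]
    exact h2
  -- induction on the scale
  have main : ∀ j, j ≤ J → ∀ s : ℕ, 1 ≤ s → s ≤ n → (s : ℝ) ≤ (n : ℝ) ^ (((j : ℝ) + 1) * η) →
      ∀ w ∈ Wd ((n : ℝ) ^ (-(3 / 4 : ℝ) - δ)), ∀ x : P2,
        (PB w).real (T2 x 1 s) ≤ Bj j * (s : ℝ) ^ (-(5 / 4 : ℝ)) := by
    intro j
    induction j with
    | zero =>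
      intro _ s hs _ hsK w _ x
      refine triv 0 s hs ?_ w x
      rw [hK]
      simpa using hsK
    | succ j ih =>
      intro hj s hs hsn hsK w hw x
      by_cases hsmall : (s : ℝ) ≤ K
      · exact triv (j + 1) s hs hsmall w x
      push Not at hsmall
      have hs0 : (0 : ℝ) < s := by exact_mod_cast (by omega : 0 < s)
      set t : ℕ := ⌊(s : ℝ) / K⌋₊ with ht
      have hq1 : 1 ≤ (s : ℝ) / K := by rw [le_div_iff₀ hK0]; linarith
      have ht1 : 1 ≤ t := by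
        rw [ht]
        exact Nat.le_floor (by exact_mod_cast hq1)
      have ht2 : (t : ℝ) ≤ s / K := Nat.floor_le (by positivity)
      have ht3 : (s : ℝ) / K < t + 1 := Nat.lt_floor_add_one _
      have ht1' : (1 : ℝ) ≤ t := by exact_mod_cast ht1
      have ht4 : (s : ℝ) / (2 * K) ≤ t := by
        have e : (s : ℝ) / (2 * K) = s / K / 2 := by field_simp
        rw [e]
        linarith
      have ht5 : 4 * t ≤ s := by
        rw [le_div_iff₀ hK0] at ht2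
        have : (4 : ℝ) * t ≤ s := by nlinarith
        exact_mod_cast this
      have ht6 : (t : ℝ) ≤ (n : ℝ) ^ (((j : ℝ) + 1) * η) := by
        refine ht2.trans ?_
        rw [div_le_iff₀ hK0, hK, ← Real.rpow_add hN0]
        refine hsK.trans (le_of_eq ?_)
        congr 1
        push_cast
        ring
      have h1 := Q_step (δ := δ) hn hUn hsn ht1 ht5 hK0 ht4 (hBj0 j) hε1p.le
        (hstar j (by omega)) (ih (by omega) t ht1 (by omega) ht6) w hw x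
      refine h1.trans (le_of_eq ?_)
      simp only [hBj]
      rw [pow_succ]
      ring
  intro w hw x s hs hsn
  have hs0 : (0 : ℝ) < s := by exact_mod_cast (by omega : 0 < s)
  have hsN : (s : ℝ) ≤ n := by exact_mod_cast hsn
  refine (main J le_rfl s hs hsn ?_ w hw x).trans ?_
  · refine hsN.trans ?_
    conv_lhs => rw [← Real.rpow_one (n : ℝ)]
    refine Real.rpow_le_rpow_of_exponent_le hN ?_
    nlinarith
  · refine mul_le_mul_of_nonneg_right ?_ (Real.rpow_nonneg hs0.le _)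
    exact (hBJ J le_rfl).trans (Real.rpow_le_rpow_of_exponent_le hN (by linarith))

end Crest.Agent.R158.Cpl963
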