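import Crest.Agent.R158.FrPre_158

/-!
# Row 158 (helper522): quasi-multiplicativity of one arm under RSW, any law with FKG and symmetries

* `Bl x r`, `Fr x r` : closed sup-ball, vertices at sup-distance at least `r`
* `AR x a R` : `Bl x a` joined to `Fr x R` inside `Bl x R`  (`ar_arm1 : AR 0 0 n = Arm1 n`)
* `RS P c N` : hard-way `3:1` crossings have probability `≥ c` at the scales `1..N`
* `ext_out` : `P(a → r) ≤ C P(a → s)`, `r ≤ s ≤ 2^j r`
* `ext_in`  : `P(s → R) ≤ C P(r → R)`, `r ≤ s ≤ 2^j r`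
* `qm`      : `P(a → r) P(s → R) ≤ C P(a → R)`, `a ≤ r ≤ s ≤ 2^j r`, `s ≤ R`
-/

set_option autoImplicit false

noncomputable section

namespace Crest.Agent.R158.Qm522

open Crest.Agent.R161.Geo729 Crest.Agent.R161.Topo374 Crest.Agent.R161.Tas682
open Crest.Agent.R158.Fr158

/-- closed ball for the sup-distance -/
def Bl (x : P2) (r : ℤ) : Set P2 := {v | sd x v ≤ r}

/-- vertices at sup-distance at least `r` -/
def Fr (x : P2) (r : ℤ) : Set P2 := {v | r ≤ sd x v}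

theorem mem_Bl {x v : P2} {r : ℤ} : v ∈ Bl x r ↔ sd x v ≤ r := Iff.rfl

theorem mem_Fr {x v : P2} {r : ℤ} : v ∈ Fr x r ↔ r ≤ sd x v := Iff.rfl

theorem bl_eq (x : P2) (r : ℤ) : Bl x r = Rect (x.1 - r) (x.1 + r) (x.2 - r) (x.2 + r) := by
  ext v
  rw [mem_Bl, sd_le, mem_rect]

theorem bl_finite (x : P2) (r : ℤ) : (Bl x r).Finite := by
  rw [bl_eq]; exact rect_finite _ _ _ _

theorem bl_mono {x : P2} {r s : ℤ} (h : r ≤ s) : Bl x r ⊆ Bl x s := fun _ hv => le_trans hv h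

theorem fr_anti {x : P2} {r s : ℤ} (h : r ≤ s) : Fr x s ⊆ Fr x r := fun _ hv => le_trans h hv

/-- `Bl x a` is joined to distance `R` inside `Bl x R` -/
def AR (x : P2) (a R : ℤ) : Set Cf := EV (Bl x R) (Bl x a) (Fr x R)

theorem ar_arm1 (n : ℤ) : AR (0, 0) 0 n = Arm1 n := by
  have h1 : Bl (0, 0) n = Bx n := by
    rw [bl_eq]; simp [Bx]
  have h2 : Bl ((0, 0) : P2) 0 = {((0 : ℤ), (0 : ℤ))} := by
    ext v
    rw [mem_Bl, sd_le, Set.mem_singleton_iff, Prod.ext_iff]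
    simp only
    omega
  have h3 : Fr (0, 0) n = Out n := by
    ext v
    rw [mem_Fr, mem_Out]
  unfold AR Arm1
  rw [h1, h2, h3]

theorem ar_incLoc (x : P2) (a R : ℤ) : IncLoc (AR x a R) := EV_incLoc (bl_finite x R) _ _

theorem ar_mono_in {x : P2} {a b R : ℤ} (h : a ≤ b) : AR x a R ⊆ AR x b R :=
  EV_mono subset_rfl (bl_mono h) subset_rfl

/-- first exit -/
theorem ar_of_oc {z : Cf} {x : P2} {a R : ℤ} (haR : a ≤ R) {S : Set P2} {u v : P2}
    (h : OC z S u v) (hu : sd x u ≤ a) (hv : R ≤ sd x v) : z ∈ AR x a R := by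
  obtain ⟨w, hw, h1⟩ := first_hit (sd x) (sd_nbr x) R h (hu.trans haR) hv
  exact ⟨u, hu, w, hw.ge, h1.monoS fun p hp => hp.2⟩

theorem ar_anti {x : P2} {a R R' : ℤ} (haR : a ≤ R) (h : R ≤ R') : AR x a R' ⊆ AR x a R := by
  rintro z ⟨u, hu, v, hv, h1⟩
  exact ar_of_oc haR h1 hu (h.trans hv)

/-- deterministic gluing of two arms along a circuit -/
theorem glue_arm {z : Cf} {x : P2} {a b n m R1 R2 : ℤ} (hn : 0 ≤ n) (hnm : n ≤ m) (han : a ≤ n)
    (hmR1 : m ≤ R1) (hbn : b ≤ n) (hR : R1 ≤ R2) (h1 : z ∈ AR x a R1) (hC : Circ4 z x n m)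
    (h2 : z ∈ AR x b R2) : z ∈ AR x a R2 := by
  obtain ⟨t, _, ht⟩ := circ4_meet hn hnm hC
  obtain ⟨u1, hu1, v1, hv1, hp1⟩ := h1
  obtain ⟨u2, hu2, v2, hv2, hp2⟩ := h2
  obtain ⟨w1, hw1, hw1'⟩ := ht _ u1 v1 hp1 (le_trans hu1 han) (hmR1.trans hv1)
  obtain ⟨w2, hw2, hw2'⟩ := ht _ u2 v2 hp2 (le_trans hu2 hbn) ((hmR1.trans hR).trans hv2)
  have hQ : Rect (x.1 - m) (x.1 + m) (x.2 - m) (x.2 + m) ⊆ Bl x R2 := by
    rw [← bl_eq]; exact bl_mono (hmR1.trans hR)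
  refine ⟨u1, hu1, v2, hv2, ?_⟩
  exact (((hw1.monoS (bl_mono hR)).trans (hw1'.monoS hQ).symm).trans (hw2'.monoS hQ)).trans
    (hw2.symm.trans hp2)

theorem circ4_incLoc (x : P2) (n m : ℤ) : IncLoc {z | Circ4 z x n m} :=
  (lrc_incLoc _ _ _ _).inter ((lrc_incLoc _ _ _ _).inter
    ((btc_incLoc _ _ _ _).inter (btc_incLoc _ _ _ _)))

/-- a horizontal crossing is an arm -/
theorem ar_of_lr {z : Cf} {x : P2} {b R : ℤ} (hbR : b ≤ R)
    (h : LRc z x.1 (x.1 + R) (x.2 - b) (x.2 + b)) : z ∈ AR x b R := by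
  obtain ⟨u, v, hu, hv, h1⟩ := h
  have hl := h1.left
  rw [mem_rect] at hl
  refine ar_of_oc hbR h1 ?_ ?_
  · rw [sd_le]; omega
  · have := le_max_left |v.1 - x.1| |v.2 - x.2|
    unfold sd
    refine le_trans ?_ this
    rw [hv]
    have : x.1 + R - x.1 = R := by ring
    rw [this]
    exact le_abs_self _

/-- hard-way crossings of aspect ratio 3 have probability at least `c` at the scales `1, …, N` -/
def RS (P : Set Cf → ℝ) (c : ℝ) (N : ℤ) : Prop :=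
  ∀ n : ℤ, 1 ≤ n → n ≤ N → c ≤ lr P 0 (3 * n) 0 n

theorem RS.mono {P : Set Cf → ℝ} {c : ℝ} {N N' : ℤ} (h : RS P c N) (hN : N' ≤ N) : RS P c N' :=
  fun n h1 h2 => h n h1 (h2.trans hN)

section

variable {P : Set Cf → ℝ} (hP : Perc P) {c : ℝ} (hc0 : 0 < c) {N : ℤ} (hR : RS P c N)
include hP hc0 hR

omit hc0 in
theorem c_le_one {n : ℤ} (h1 : 1 ≤ n) (h2 : n ≤ N) : c ≤ 1 := (hR n h1 h2).trans (hP.le_one _)

theorem lr_long {n : ℤ} (h1 : 1 ≤ n) (h2 : n ≤ N) (k : ℕ) :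
    (c ^ 2) ^ (k + 1) ≤ lr P 0 ((2 * k + 3) * n) 0 n := by
  have h3 := hP.h_long (c0 := c) (q := c) (H := n) (δ := 2 * n) (by omega) (by omega) hc0.le hc0.le
    ((hR n h1 h2).trans (hP.h_mono (by omega) (by omega) le_rfl))
    ((hR n h1 h2).trans (le_of_eq (by congr 1; ring))) k
  rw [sq]
  refine h3.trans (le_of_eq ?_)
  congr 1
  ring

theorem lr_five {n : ℤ} (h1 : 1 ≤ n) (h2 : n ≤ N) : c ^ 4 ≤ lr P 0 (5 * n) 0 n := by
  have h := lr_long hP hc0 hR h1 h2 1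
  norm_num at h
  calc c ^ 4 = (c ^ 2) ^ 2 := by ring
    _ ≤ _ := h

/-- circuits in `A(n, 2n)` -/
theorem circ_double (x : P2) {n : ℤ} (h1 : 1 ≤ n) (h2 : n ≤ N) :
    c ^ 16 ≤ P {z | Circ4 z x n (2 * n)} := by
  refine le_trans ?_ (hP.circ4_ge x n (2 * n))
  have h3 : c ^ 4 ≤ lr P 0 (2 * (2 * n)) 0 (2 * n - n) :=
    (lr_five hP hc0 hR h1 h2).trans (hP.h_mono (by omega) (by omega) (by omega))
  calc c ^ 16 = (c ^ 4) ^ 4 := by ring
    _ ≤ _ := pow_le_pow_left₀ (by positivity) h3 4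

/-- circuits in `A(r - k, r)`, `k = ⌈r/2⌉` -/
theorem circ_half (x : P2) {r k : ℤ} (h1 : 1 ≤ k) (h2 : k ≤ N) (hr : r ≤ 2 * k) (hr0 : 0 ≤ r) :
    c ^ 16 ≤ P {z | Circ4 z x (r - k) r} := by
  refine le_trans ?_ (hP.circ4_ge x (r - k) r)
  have h3 : c ^ 4 ≤ lr P 0 (2 * r) 0 (r - (r - k)) :=
    (lr_five hP hc0 hR h1 h2).trans (hP.h_mono (by omega) (by omega) (by omega))
  calc c ^ 16 = (c ^ 4) ^ 4 := by ring
    _ ≤ _ := pow_le_pow_left₀ (by positivity) h3 4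

omit hc0 hR in
theorem arm_lr (x : P2) {b R : ℤ} (hbR : b ≤ R) :
    lr P 0 R 0 (2 * b) ≤ P (AR x b R) := by
  rw [← hP.lr_shift 0 R 0 (2 * b) x.1 (x.2 - b)]
  refine hP.mono _ _ fun z hz => ?_
  refine ar_of_lr hbR ?_
  have : LRc z (0 + x.1) (R + x.1) (0 + (x.2 - b)) (2 * b + (x.2 - b)) := hz
  rw [show (0 : ℤ) + x.1 = x.1 by ring, show R + x.1 = x.1 + R by ring,
    show 0 + (x.2 - b) = x.2 - b by ring, show 2 * b + (x.2 - b) = x.2 + b by ring] at this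
  exact this

/-- the arm from `Bl x ⌊r/2⌋` to `Fr x (2r)` -/
theorem arm_base (x : P2) {r k : ℤ} (hr : 1 ≤ r) (hrN : r ≤ N) (hk : r ≤ 2 * k) (hk' : 2 * k ≤ r + 1) :
    (c / 2) ^ 2 ≤ P (AR x (r - k) (2 * r)) := by
  refine le_trans ?_ (arm_lr hP x (by omega))
  have hc1 : c ≤ 1 := c_le_one hP hR hr hrN
  by_cases h1 : r = 1
  · subst h1
    have : k = 1 := by omega
    subst this
    have h2 : c ≤ lr P 0 1 0 1 :=
      (hR 1 le_rfl hrN).trans (hP.h_mono (by omega) (by omega) le_rfl)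
    have h3 := hP.h_line (e0 := c / 2) (by positivity) (hP.h_edge h2) 1
    simpa using h3
  · have h2 : c ≤ lr P 0 (2 * r) 0 (2 * (r - k)) :=
      (hR (2 * (r - k)) (by omega) (by omega)).trans (hP.h_mono (by omega) (by omega) le_rfl)
    refine le_trans ?_ h2
    nlinarith

omit hc0 hR in
/-- probabilistic gluing -/
theorem glue_P (x : P2) {a b n m R1 R2 : ℤ} (hn : 0 ≤ n) (hnm : n ≤ m) (han : a ≤ n)
    (hmR1 : m ≤ R1) (hbn : b ≤ n) (hR12 : R1 ≤ R2) :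
    P (AR x a R1) * P {z | Circ4 z x n m} * P (AR x b R2) ≤ P (AR x a R2) := by
  have h1 := hP.fkg _ _ (ar_incLoc x a R1) (circ4_incLoc x n m)
  have h2 := hP.fkg _ _ ((ar_incLoc x a R1).inter (circ4_incLoc x n m)) (ar_incLoc x b R2)
  refine (mul_le_mul_of_nonneg_right h1 (hP.nonneg _)).trans (h2.trans (hP.mono _ _ ?_))
  rintro z ⟨⟨h3, h4⟩, h5⟩
  exact glue_arm hn hnm han hmR1 hbn hR12 h3 h4 h5

/-- one doubling outwards -/
theorem ext_double (x : P2) {a r : ℤ} (ha : 0 ≤ a) (har : a ≤ r) (hr : 1 ≤ r) (hrN : r ≤ N) :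
    (c / 2) ^ 18 * P (AR x a r) ≤ P (AR x a (2 * r)) := by
  have hc1 : c ≤ 1 := c_le_one hP hR hr hrN
  obtain ⟨k, hk, hk'⟩ : ∃ k : ℤ, r ≤ 2 * k ∧ 2 * k ≤ r + 1 := ⟨(r + 1) / 2, by omega, by omega⟩
  by_cases hak : a ≤ r - k
  · have h1 := glue_P hP x (a := a) (b := r - k) (n := r - k) (m := r) (R1 := r)
      (R2 := 2 * r) (by omega) (by omega) hak le_rfl le_rfl (by omega)
    have h2 := circ_half hP hc0 hR x (r := r) (k := k) (by omega) (by omega) hk (by omega)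
    have h3 := arm_base hP hc0 hR x hr hrN hk hk'
    refine le_trans ?_ h1
    have h4 : (c / 2) ^ 16 ≤ P {z | Circ4 z x (r - k) r} :=
      (pow_le_pow_left₀ (by positivity) (by linarith) 16).trans h2
    calc (c / 2) ^ 18 * P (AR x a r) = P (AR x a r) * (c / 2) ^ 16 * (c / 2) ^ 2 := by ring
      _ ≤ _ := mul_le_mul (mul_le_mul_of_nonneg_left h4 (hP.nonneg _)) h3 (by positivity)
        (mul_nonneg (hP.nonneg _) (hP.nonneg _))
  · have h1 : c ≤ lr P 0 (2 * r) 0 (2 * a) :=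
      (hR r hr hrN).trans (hP.h_mono (by omega) (by omega) (by omega))
    have h2 := h1.trans (arm_lr hP x (b := a) (R := 2 * r) (by omega))
    have h3 : (c / 2) ^ 18 ≤ c := by
      calc (c / 2) ^ 18 ≤ (c / 2) ^ 1 :=
            pow_le_pow_of_le_one (by positivity) (by linarith) (by norm_num)
        _ ≤ c := by rw [pow_one]; linarith
    calc (c / 2) ^ 18 * P (AR x a r) ≤ (c / 2) ^ 18 * 1 :=
          mul_le_mul_of_nonneg_left (hP.le_one _) (by positivity)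
      _ ≤ P (AR x a (2 * r)) := by rw [mul_one]; exact h3.trans h2

/-- **extension outwards** -/
theorem ext_out (x : P2) (j : ℕ) : ∀ {a r s : ℤ}, 0 ≤ a → a ≤ r → 1 ≤ r → r ≤ s → s ≤ N →
    s ≤ 2 ^ j * r → ((c / 2) ^ 18) ^ j * P (AR x a r) ≤ P (AR x a s) := by
  induction j with
  | zero =>
      intro a r s _ _ _ h1 _ h2
      have : r = s := by simp at h2; omega
      subst this
      simp
  | succ j ih =>
      intro a r s ha har hr hrs hsN hs
      have h1 := ext_double hP hc0 hR x ha har hr (hrs.trans hsN)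
      have h0 : (0 : ℝ) ≤ ((c / 2) ^ 18) ^ j := by positivity
      by_cases h2 : s ≤ 2 * r
      · have hc1 : c ≤ 1 := c_le_one hP hR hr (hrs.trans hsN)
        have h3 : ((c / 2) ^ 18) ^ j ≤ 1 :=
          pow_le_one₀ (by positivity) (pow_le_one₀ (by positivity) (by linarith))
        calc ((c / 2) ^ 18) ^ (j + 1) * P (AR x a r)
            = ((c / 2) ^ 18) ^ j * ((c / 2) ^ 18 * P (AR x a r)) := by ring
          _ ≤ 1 * ((c / 2) ^ 18 * P (AR x a r)) :=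
            mul_le_mul_of_nonneg_right h3 (mul_nonneg (by positivity) (hP.nonneg _))
          _ = (c / 2) ^ 18 * P (AR x a r) := one_mul _
          _ ≤ P (AR x a (2 * r)) := h1
          _ ≤ P (AR x a s) := hP.mono _ _ (ar_anti (by omega) h2)
      · have h3 := ih (a := a) (r := 2 * r) (s := s) ha (by omega) (by omega) (by omega) hsN
          (by rw [pow_succ] at hs; linarith)
        calc ((c / 2) ^ 18) ^ (j + 1) * P (AR x a r)
            = ((c / 2) ^ 18) ^ j * ((c / 2) ^ 18 * P (AR x a r)) := by ring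
          _ ≤ ((c / 2) ^ 18) ^ j * P (AR x a (2 * r)) := mul_le_mul_of_nonneg_left h1 h0
          _ ≤ P (AR x a s) := h3

/-- **quasi-multiplicativity at one radius** -/
theorem qm_one (x : P2) {a r R : ℤ} (ha : 0 ≤ a) (har : a ≤ r) (hr : 1 ≤ r) (hrR : r ≤ R)
    (hrN : r ≤ N) :
    (c / 2) ^ 34 * (P (AR x a r) * P (AR x r R)) ≤ P (AR x a R) := by
  have hc1 : c ≤ 1 := c_le_one hP hR hr hrN
  have h1 := ext_double hP hc0 hR x ha har hr hrN
  by_cases h2 : R ≤ 2 * r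
  · have h3 : (c / 2) ^ 34 ≤ (c / 2) ^ 18 :=
      pow_le_pow_of_le_one (by positivity) (by linarith) (by norm_num)
    calc (c / 2) ^ 34 * (P (AR x a r) * P (AR x r R))
        ≤ (c / 2) ^ 18 * (P (AR x a r) * 1) :=
          mul_le_mul h3 (mul_le_mul_of_nonneg_left (hP.le_one _) (hP.nonneg _))
            (mul_nonneg (hP.nonneg _) (hP.nonneg _)) (by positivity)
      _ = (c / 2) ^ 18 * P (AR x a r) := by rw [mul_one]
      _ ≤ P (AR x a (2 * r)) := h1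
      _ ≤ P (AR x a R) := hP.mono _ _ (ar_anti (by omega) h2)
  · have h3 := glue_P hP x (a := a) (b := r) (n := r) (m := 2 * r) (R1 := 2 * r)
      (R2 := R) (by omega) (by omega) har le_rfl le_rfl (by omega)
    have h4 : (c / 2) ^ 16 ≤ P {z | Circ4 z x r (2 * r)} :=
      (pow_le_pow_left₀ (by positivity) (by linarith) 16).trans (circ_double hP hc0 hR x hr hrN)
    refine le_trans ?_ h3
    calc (c / 2) ^ 34 * (P (AR x a r) * P (AR x r R))
        = ((c / 2) ^ 18 * P (AR x a r)) * (c / 2) ^ 16 * P (AR x r R) := by ring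
      _ ≤ _ := mul_le_mul_of_nonneg_right (mul_le_mul h1 h4 (by positivity) (hP.nonneg _))
        (hP.nonneg _)

/-- **quasi-multiplicativity** with a gap between the two arms -/
theorem qm (x : P2) (j : ℕ) {a r s R : ℤ} (ha : 0 ≤ a) (har : a ≤ r) (hr : 1 ≤ r) (hrs : r ≤ s)
    (hs : s ≤ 2 ^ j * r) (hsR : s ≤ R) (hsN : s ≤ N) :
    (c / 2) ^ (34 + 18 * j) * (P (AR x a r) * P (AR x s R)) ≤ P (AR x a R) := by
  have h1 := ext_out hP hc0 hR x j ha har hr hrs hsN hs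
  have h2 := qm_one hP hc0 hR x (a := a) (r := s) (R := R) ha (by omega) (by omega) hsR hsN
  refine le_trans ?_ h2
  calc (c / 2) ^ (34 + 18 * j) * (P (AR x a r) * P (AR x s R))
      = (c / 2) ^ 34 * ((((c / 2) ^ 18) ^ j * P (AR x a r)) * P (AR x s R)) := by
        rw [pow_add, pow_mul]; ring
    _ ≤ _ := mul_le_mul_of_nonneg_left (mul_le_mul_of_nonneg_right h1 (hP.nonneg _))
        (by positivity)

/-- **extension inwards** -/
theorem ext_in (x : P2) (j : ℕ) {r s R : ℤ} (hr : 1 ≤ r) (hrs : r ≤ s) (hs : s ≤ 2 ^ j * r)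
    (hsR : s ≤ R) (hsN : s ≤ N) :
    (c / 2) ^ (34 + 18 * j) * P (AR x s R) ≤ P (AR x r R) := by
  have h := qm hP hc0 hR x j (a := r) (r := r) (s := s) (R := R) (by omega) le_rfl hr hrs hs hsR hsN
  have h1 : P (AR x r r) = 1 := by
    rw [← hP.univ]
    congr 1
    rw [Set.eq_univ_iff_forall]
    intro z
    refine ⟨(x.1 + r, x.2), ?_, (x.1 + r, x.2), ?_, OC.refl ?_⟩
    · rw [mem_Bl, sd_le]; simp only; omega
    · rw [mem_Fr]
      have := le_max_left |(x.1 + r) - x.1| |x.2 - x.2|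
      unfold sd
      refine le_trans ?_ this
      have h3 : x.1 + r - x.1 = r := by ring
      rw [h3]
      exact le_abs_self _
    · rw [mem_Bl, sd_le]; simp only; omega
  rw [h1, one_mul] at h
  exact h

end

end Crest.Agent.R158.Qm522
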