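import Crest.Agent.R158.Cpl4_963
import Crest.Agent.R158.Qm1_522

/-!
# Row 158 (helper963): `HypU4 → HypB`

* `arm_low`, `arm0_low` : polynomial lower bounds of one-arm probabilities under RSW
* `arm_ratio` : `P_p(0 ↔ n) ≤ N^ε P_p'(0 ↔ n)` for all `p, p'` in the window, `n ≤ N`
* `hypB_of_U4`
-/

set_option autoImplicit false

noncomputable section

namespace Crest.Agent.R158.Cpl963

open MeasureTheory ProbabilityTheory unitInterval Filter Topology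
open Crest.Agent.R161.Geo729 Crest.Agent.R161.Topo374 Crest.Agent.R161.Dual374
open Crest.Agent.R161.Tas682 Crest.Agent.R161.Ring421
open Crest.Agent.R158.Rs689 Crest.Agent.R158.Qm522
open Crest.ProbabilityR.Percolation

theorem A1_sub_AR (x : P2) (r R : ℤ) : A1 x r R ⊆ AR x r R := by
  rintro z ⟨u, v, hu, hv, h⟩
  exact ⟨u, hu.le, v, hv.ge, h.monoS fun w hw => hw.2⟩

theorem AR_sub_A1 {x : P2} {a r R : ℤ} (har : a ≤ r) (hrR : r ≤ R) : AR x a R ⊆ A1 x r R := by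
  rintro z ⟨u, hu, v, hv, h⟩
  obtain ⟨p, q, hp, hq, h4, _⟩ := cross_sub x hrR h (le_trans hu har) hv
  exact ⟨p, q, hp, hq, h4.monoS Set.inter_subset_right⟩

/-- edges of a ball -/
theorem AR_dep {x : P2} {a R : ℤ} : Dep (eAn x 0 R) (AR x a R) := by
  intro z z' h
  have key : ∀ u v, OC z (Bl x R) u v ↔ OC z' (Bl x R) u v := fun u v =>
    OC_congr_iff fun e h1 h2 => h e (mem_eAn.2 ⟨⟨sd_nonneg _ _, h1⟩, ⟨sd_nonneg _ _, h2⟩⟩)
  constructor
  · rintro ⟨u, hu, v, hv, h1⟩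
    exact ⟨u, hu, v, hv, (key u v).1 h1⟩
  · rintro ⟨u, hu, v, hv, h1⟩
    exact ⟨u, hu, v, hv, (key u v).2 h1⟩

theorem AR_self (P : Set Cf → ℝ) (hP : Perc P) (x : P2) {r : ℤ} (hr : 0 ≤ r) :
    P (AR x r r) = 1 := by
  rw [← hP.univ]
  congr 1
  rw [Set.eq_univ_iff_forall]
  intro z
  refine ⟨(x.1 + r, x.2), ?_, (x.1 + r, x.2), ?_, OC.refl ?_⟩
  · rw [mem_Bl, sd_le]; simp only; omega
  · rw [mem_Fr]
    have := le_max_left |(x.1 + r) - x.1| |x.2 - x.2|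
    unfold sd
    refine le_trans ?_ this
    have h3 : x.1 + r - x.1 = r := by ring
    rw [h3]
    exact le_abs_self _
  · rw [mem_Bl, sd_le]; simp only; omega

/-- a power of two between `A` and `2 A` -/
theorem exists_pow_two {A : ℝ} (hA : 1 ≤ A) : ∃ j : ℕ, A ≤ 2 ^ j ∧ (2 : ℝ) ^ j ≤ 2 * A := by
  obtain ⟨j, h1, h2⟩ := exists_nat_pow_near hA (show (1 : ℝ) < 2 by norm_num)
  exact ⟨j + 1, h2.le, by rw [pow_succ]; linarith⟩

section low

variable {P : Set Cf → ℝ} (hP : Perc P) {c : ℝ} (hc0 : 0 < c) {N : ℤ} (hR : RS P c N)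
  {C0 : ℝ} (hC0 : 0 ≤ C0) (hκ : (c / 2) ^ 18 = (2 : ℝ) ^ (-C0))
include hP hc0 hR hC0 hκ

theorem kappa_pow {A : ℝ} (hA : 1 ≤ A) : ∃ j : ℕ, A ≤ 2 ^ j ∧
    (2 * A) ^ (-C0) ≤ ((c / 2) ^ 18) ^ j := by
  obtain ⟨j, h1, h2⟩ := exists_pow_two hA
  refine ⟨j, h1, ?_⟩
  rw [hκ, ← Real.rpow_natCast, ← Real.rpow_mul (by norm_num), mul_comm (-C0),
    Real.rpow_mul (by norm_num), Real.rpow_natCast]
  have h3 : (0 : ℝ) < 2 ^ j := by positivity
  rw [Real.rpow_neg (by linarith), Real.rpow_neg h3.le]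
  exact inv_anti₀ (Real.rpow_pos_of_pos h3 _) (Real.rpow_le_rpow h3.le h2 hC0)

/-- lower bound of the annulus one-arm probability -/
theorem arm_low (x : P2) {r R : ℕ} (hr : 1 ≤ r) (hrR : r ≤ R) (hRN : (R : ℤ) ≤ N) :
    (2 * ((R : ℝ) / r)) ^ (-C0) ≤ P (AR x r R) := by
  have hr0 : (0 : ℝ) < r := by exact_mod_cast (by omega : 0 < r)
  obtain ⟨j, h1, h2⟩ := kappa_pow hP hc0 hR hC0 hκ (A := (R : ℝ) / r)
    (by rw [le_div_iff₀ hr0, one_mul]; exact_mod_cast hrR)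
  refine h2.trans ?_
  have h3 := ext_out hP hc0 hR x j (a := r) (r := r) (s := R) (by omega) le_rfl
    (by exact_mod_cast hr) (by exact_mod_cast hrR) hRN (by
      rw [div_le_iff₀ hr0] at h1
      exact_mod_cast h1)
  rwa [AR_self P hP x (by omega), mul_one] at h3

/-- lower bound of the one-arm probability -/
theorem arm0_low (h1 : 1 / 4 ≤ P (AR (0, 0) 0 1)) {n : ℕ} (hn : 1 ≤ n) (hnN : (n : ℤ) ≤ N) :
    1 / 4 * (2 * (n : ℝ)) ^ (-C0) ≤ P (AR (0, 0) 0 n) := by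
  obtain ⟨j, h2, h3⟩ := kappa_pow hP hc0 hR hC0 hκ (A := (n : ℝ)) (by exact_mod_cast hn)
  have h4 := ext_out hP hc0 hR (0, 0) j (a := 0) (r := 1) (s := n) le_rfl (by norm_num) le_rfl
    (by exact_mod_cast hn) hnN (by rw [mul_one]; exact_mod_cast h2)
  refine le_trans ?_ h4
  rw [mul_comm]
  exact mul_le_mul h3 h1 (by norm_num) (by positivity)

end low

theorem AR_one (p : I) : (p : ℝ) ≤ (nu p).real (AR (0, 0) 0 1) := by
  have h1 : {z : Cf | z ((0, 0), false) = true} ⊆ AR (0, 0) 0 1 := by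
    intro z hz
    refine ⟨(0, 0), ?_, (1, 0), ?_, ?_, ?_⟩
    · rw [mem_Bl, sd_le]; simp
    · rw [mem_Fr]
      have := le_max_left |(1 : ℤ) - 0| |(0 : ℤ) - 0|
      unfold sd
      simpa using this
    · rw [mem_Bl, sd_le]; simp
    · refine Relation.ReflTransGen.single ⟨⟨((0, 0), false), hz, Or.inl ⟨rfl, rfl⟩⟩, ?_, ?_⟩ <;>
        · rw [mem_Bl, sd_le]; simp
  have h2 := PB_single_true (fun _ : Edge => p) ((0, 0), false)
  rw [← h2]
  exact measureReal_mono h1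

/-- one step of the comparison of one-arm probabilities -/
theorem ratio_step {N n t : ℕ} {c δ K C0 F : ℝ} {p p' : I} (hN : 1 ≤ N) (hc0 : 0 < c)
    (hp : |(p : ℝ) - 1 / 2| ≤ (N : ℝ) ^ (-(3 / 4 : ℝ) - δ))
    (hp' : |(p' : ℝ) - 1 / 2| ≤ (N : ℝ) ^ (-(3 / 4 : ℝ) - δ))
    (hR : RS (fun A => ((nu p') A).toReal) c N)
    (hC0 : 0 ≤ C0) (hκ : (c / 2) ^ 18 = (2 : ℝ) ^ (-C0))
    (hQ : ∀ w ∈ Wd ((N : ℝ) ^ (-(3 / 4 : ℝ) - δ)), ∀ x : P2, ∀ s : ℕ,
      1 ≤ s → s ≤ N → (PB w).real (T2 x 1 s) ≤ (N : ℝ) ^ (δ / 2) * (s : ℝ) ^ (-(5 / 4 : ℝ)))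
    (hnN : n ≤ N) (ht : 1 ≤ t) (htn : 4 * t ≤ n) (hK : 0 < K) (hnt : (n : ℝ) ≤ 2 * K * t)
    (hstar : 576 * (2 * K) ^ 2 * (N : ℝ) ^ (δ / 2 - δ) ≤ (2 * K) ^ (-C0))
    (hF : 0 ≤ F) (ih : (nu p).real (AR (0, 0) 0 t) ≤ F * (nu p').real (AR (0, 0) 0 t)) :
    (nu p).real (AR (0, 0) 0 n) ≤
      (2 / ((c / 2) ^ 70 * (c / 2) ^ 18)) * F * (nu p').real (AR (0, 0) 0 n) := by
  have hN0 : (0 : ℝ) < N := by exact_mod_cast (by omega : 0 < N)
  have ht0 : (0 : ℝ) < t := by exact_mod_cast (by omega : 0 < t)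
  have hn0 : (0 : ℝ) < n := by exact_mod_cast (by omega : 0 < n)
  have hd : (0 : ℝ) ≤ (N : ℝ) ^ (-(3 / 4 : ℝ) - δ) := by positivity
  have hP := perc p'
  have hw : (fun _ : Edge => p) ∈ Wd ((N : ℝ) ^ (-(3 / 4 : ℝ) - δ)) := fun e => by
    rw [hf_coe]; exact hp
  have hw' : (fun _ : Edge => p') ∈ Wd ((N : ℝ) ^ (-(3 / 4 : ℝ) - δ)) := fun e => by
    rw [hf_coe]; exact hp'
  -- independence
  have h1 : AR (0, 0) 0 n ⊆ AR (0, 0) 0 t ∩ A1 (0, 0) ((t : ℤ) + 1) n :=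
    fun z hz => ⟨ar_anti (by omega) (by omega) hz, AR_sub_A1 (by omega) (by omega) hz⟩
  have h2 : (nu p).real (AR (0, 0) 0 t ∩ A1 (0, 0) ((t : ℤ) + 1) n) =
      (nu p).real (AR (0, 0) 0 t) * (nu p).real (A1 (0, 0) ((t : ℤ) + 1) n) :=
    PB_indep_real _ (eAn_disj (by omega)) AR_dep (A1_dep _ _ _)
  -- comparison in the annulus
  have h3 := A1_step_two hd hw hw' (s := t) (l := n) (r := (t : ℤ) + 1) (R := (n : ℤ)) ht
    (by omega) (by omega) le_rfl (fun v hv y => hQ v hv y t ht (by omega)) (0, 0)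
  have h4 := err_bound hN (δ := δ) (ε := δ / 2) (r := t) (s := t) (l := n) (2 * K) ht ht
    (by omega) hnt (by omega)
  have h5 : (nu p').real (A1 (0, 0) ((t : ℤ) + 1 + t) ((n : ℤ) - t)) ≤
      (nu p').real (AR (0, 0) ((2 * t + 1 : ℕ) : ℤ) ((n - t : ℕ) : ℤ)) := by
    refine measureReal_mono ?_
    have e1 : (t : ℤ) + 1 + t = ((2 * t + 1 : ℕ) : ℤ) := by push_cast; ring
    have e2 : (n : ℤ) - t = ((n - t : ℕ) : ℤ) := by
      rw [Nat.cast_sub (by omega)]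
    rw [e1, e2]
    exact A1_sub_AR _ _ _
  -- lower bound
  have h6 : (2 * K) ^ (-C0) ≤
      (nu p').real (AR (0, 0) ((2 * t + 1 : ℕ) : ℤ) ((n - t : ℕ) : ℤ)) := by
    have h7 := arm_low hP hc0 hR hC0 hκ (0, 0) (r := 2 * t + 1) (R := n - t) (by omega)
      (by omega) (by omega)
    refine le_trans ?_ h7
    have h8 : (0 : ℝ) < 2 * (((n - t : ℕ) : ℝ) / ((2 * t + 1 : ℕ) : ℝ)) := by
      have : (0 : ℝ) < ((n - t : ℕ) : ℝ) := by exact_mod_cast (by omega : 0 < n - t)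
      positivity
    rw [Real.rpow_neg (by positivity), Real.rpow_neg h8.le]
    refine inv_anti₀ (Real.rpow_pos_of_pos h8 _) (Real.rpow_le_rpow h8.le ?_ hC0)
    have h9 : ((n - t : ℕ) : ℝ) ≤ n := by exact_mod_cast Nat.sub_le n t
    have h10 : ((2 * t + 1 : ℕ) : ℝ) = 2 * t + 1 := by push_cast; ring
    rw [h10, ← mul_div_assoc, div_le_iff₀ (by positivity)]
    nlinarith
  set Q : ℝ := (nu p').real (AR (0, 0) ((2 * t + 1 : ℕ) : ℤ) ((n - t : ℕ) : ℤ)) with hQd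
  have h7 : (nu p).real (A1 (0, 0) ((t : ℤ) + 1) n) ≤ 2 * Q := by
    have h8 : (nu p).real (A1 (0, 0) ((t : ℤ) + 1) n) ≤
        (nu p').real (A1 (0, 0) ((t : ℤ) + 1 + t) ((n : ℤ) - t)) +
          2 * (N : ℝ) ^ (-(3 / 4 : ℝ) - δ) * (18 * (n : ℝ) ^ 2) *
            ((N : ℝ) ^ (δ / 2) * (t : ℝ) ^ (-(5 / 4 : ℝ))) := h3
    linarith
  -- gluing under `p'`
  have h8 := qm hP hc0 hR (0, 0) 2 (a := 0) (r := t) (s := ((2 * t + 1 : ℕ) : ℤ))
    (R := ((n - t : ℕ) : ℤ)) le_rfl (by omega) (by omega) (by push_cast; omega)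
    (by push_cast; omega) (by push_cast [Nat.cast_sub (by omega : t ≤ n)]; omega)
    (by push_cast; omega)
  have h9 := ext_out hP hc0 hR (0, 0) 1 (a := 0) (r := ((n - t : ℕ) : ℤ)) (s := n) le_rfl
    (by omega) (by omega) (by omega) (by omega) (by
      rw [Nat.cast_sub (by omega : t ≤ n)]; omega)
  rw [pow_one] at h9
  have h8' : (c / 2) ^ 70 * ((nu p').real (AR (0, 0) 0 t) * Q) ≤
      (nu p').real (AR (0, 0) 0 ((n - t : ℕ) : ℤ)) := h8
  have h9' : (c / 2) ^ 18 * (nu p').real (AR (0, 0) 0 ((n - t : ℕ) : ℤ)) ≤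
      (nu p').real (AR (0, 0) 0 n) := h9
  have hc70 : 0 < (c / 2) ^ 70 := by positivity
  have hc18 : 0 < (c / 2) ^ 18 := by positivity
  have h10 : (c / 2) ^ 70 * (c / 2) ^ 18 * ((nu p').real (AR (0, 0) 0 t) * Q) ≤
      (nu p').real (AR (0, 0) 0 n) := by
    refine le_trans ?_ h9'
    calc (c / 2) ^ 70 * (c / 2) ^ 18 * ((nu p').real (AR (0, 0) 0 t) * Q)
        = (c / 2) ^ 18 * ((c / 2) ^ 70 * ((nu p').real (AR (0, 0) 0 t) * Q)) := by ring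
      _ ≤ _ := mul_le_mul_of_nonneg_left h8' hc18.le
  have hQ0 : 0 ≤ Q := measureReal_nonneg
  have hT0 : 0 ≤ (nu p').real (AR (0, 0) 0 t) := measureReal_nonneg
  calc (nu p).real (AR (0, 0) 0 n)
      ≤ (nu p).real (AR (0, 0) 0 t ∩ A1 (0, 0) ((t : ℤ) + 1) n) := measureReal_mono h1
    _ = (nu p).real (AR (0, 0) 0 t) * (nu p).real (A1 (0, 0) ((t : ℤ) + 1) n) := h2
    _ ≤ (F * (nu p').real (AR (0, 0) 0 t)) * (2 * Q) :=
        mul_le_mul ih h7 measureReal_nonneg (mul_nonneg hF hT0)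
    _ = 2 / ((c / 2) ^ 70 * (c / 2) ^ 18) * F *
          ((c / 2) ^ 70 * (c / 2) ^ 18 * ((nu p').real (AR (0, 0) 0 t) * Q)) := by
        field_simp
    _ ≤ 2 / ((c / 2) ^ 70 * (c / 2) ^ 18) * F * (nu p').real (AR (0, 0) 0 n) :=
        mul_le_mul_of_nonneg_left h10 (by positivity)

/-- RSW for the law `nu p` in the window -/
theorem RS_of {N : ℕ} {c : ℝ} {p : I}
    (h : ∀ n : ℕ, 1 ≤ n → n ≤ N → c ≤ xpr p (3 * n + 1) (n - 1)) :
    RS (fun A => ((nu p) A).toReal) c N := by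
  intro n hn hnN
  obtain ⟨m, rfl⟩ : ∃ m : ℕ, n = m := ⟨n.toNat, by omega⟩
  have h1 := h m (by omega) (by omega)
  exact h1.trans (xpr_mono p (by omega) (by omega) (by omega))

/-- **One-arm probabilities in the window are comparable.** -/
theorem arm_ratio (hU : HypU4) {δ ε : ℝ} (hδ : 0 < δ) (hε : 0 < ε) :
    ∀ᶠ N : ℕ in atTop, ∀ p p' : I, |(p : ℝ) - 1 / 2| ≤ (N : ℝ) ^ (-(3 / 4 : ℝ) - δ) →
      |(p' : ℝ) - 1 / 2| ≤ (N : ℝ) ^ (-(3 / 4 : ℝ) - δ) → ∀ n : ℕ, 1 ≤ n → n ≤ N →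
      (nu p).real (AR (0, 0) 0 n) ≤ (N : ℝ) ^ ε * (nu p').real (AR (0, 0) 0 n) := by
  obtain ⟨c', hc'0, hc'⟩ := xpr_win hU
  obtain ⟨c, hc0, hc1, hcc⟩ : ∃ c : ℝ, 0 < c ∧ c ≤ 1 ∧ c ≤ c' :=
    ⟨min c' 1, lt_min hc'0 one_pos, min_le_right _ _, min_le_left _ _⟩
  -- the exponent `C0`
  obtain ⟨C0, hC0, hκ⟩ : ∃ C0 : ℝ, 0 ≤ C0 ∧ (c / 2) ^ 18 = (2 : ℝ) ^ (-C0) := by
    have hpos : 0 < (c / 2) ^ 18 := by positivity
    have hle : (c / 2) ^ 18 ≤ 1 := pow_le_one₀ (by positivity) (by linarith)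
    refine ⟨-(Real.logb 2 ((c / 2) ^ 18)), ?_, ?_⟩
    · have := Real.logb_nonpos (b := 2) (by norm_num) hpos.le hle
      linarith
    · rw [neg_neg, Real.rpow_logb (by norm_num) (by norm_num) hpos]
  obtain ⟨η, hη, hη1, hη2⟩ : ∃ η : ℝ, 0 < η ∧ (2 + C0) * η < δ / 2 ∧ C0 * η ≤ ε / 2 := by
    refine ⟨min (δ / (4 * (2 + C0))) (ε / (2 * (2 + C0))), by positivity, ?_, ?_⟩
    · calc (2 + C0) * min (δ / (4 * (2 + C0))) (ε / (2 * (2 + C0)))
          ≤ (2 + C0) * (δ / (4 * (2 + C0))) :=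
            mul_le_mul_of_nonneg_left (min_le_left _ _) (by positivity)
        _ = δ / 4 := by field_simp
        _ < δ / 2 := by linarith
    · calc C0 * min (δ / (4 * (2 + C0))) (ε / (2 * (2 + C0)))
          ≤ (2 + C0) * (ε / (2 * (2 + C0))) :=
            mul_le_mul (by linarith) (min_le_right _ _) (by positivity) (by positivity)
        _ = ε / 2 := by field_simp
  obtain ⟨J, hJ⟩ : ∃ J : ℕ, 1 ≤ J * η := by
    obtain ⟨J, hJ⟩ := exists_nat_ge (1 / η)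
    exact ⟨J, by rwa [div_le_iff₀ hη] at hJ⟩
  set G : ℝ := 2 / ((c / 2) ^ 70 * (c / 2) ^ 18) with hG
  have hG1 : 1 ≤ G := by
    rw [hG, le_div_iff₀ (by positivity), one_mul]
    have h1 : (c / 2) ^ 70 ≤ 1 := pow_le_one₀ (by positivity) (by linarith)
    have h2 : (c / 2) ^ 18 ≤ 1 := pow_le_one₀ (by positivity) (by linarith)
    nlinarith [show 0 ≤ (c / 2) ^ 70 by positivity, show 0 ≤ (c / 2) ^ 18 by positivity]
  have tend : ∀ a : ℝ, 0 < a → Tendsto (fun n : ℕ => (n : ℝ) ^ a) atTop atTop := fun a ha =>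
    (tendsto_rpow_atTop ha).comp tendsto_natCast_atTop_atTop
  have ev1 : ∀ᶠ n : ℕ in atTop, G ^ J * (4 * (2 : ℝ) ^ C0) ≤ (n : ℝ) ^ (ε / 2) :=
    (tend _ (by positivity)).eventually_ge_atTop _
  have ev2 : ∀ᶠ n : ℕ in atTop, (4 : ℝ) ≤ (n : ℝ) ^ η := (tend _ hη).eventually_ge_atTop _
  have ev3 : ∀ᶠ n : ℕ in atTop, 576 * (2 : ℝ) ^ (2 + C0) ≤ (n : ℝ) ^ (δ / 2 - (2 + C0) * η) :=
    (tend _ (by linarith)).eventually_ge_atTop _
  have ev4 : ∀ᶠ N : ℕ in atTop, (N : ℝ) ^ (-(3 / 4 : ℝ) - δ) < 1 / 4 := by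
    have h1 : Tendsto (fun N : ℕ => (N : ℝ) ^ (-(3 / 4 + δ))) atTop (𝓝 0) :=
      (tendsto_rpow_neg_atTop (by positivity)).comp tendsto_natCast_atTop_atTop
    refine (h1.eventually_lt_const (show (0 : ℝ) < 1 / 4 by norm_num)).mono fun N hN => ?_
    have e : -(3 / 4 : ℝ) - δ = -(3 / 4 + δ) := by ring
    rw [e]
    exact hN
  filter_upwards [ev1, ev2, ev3, ev4, hc' δ hδ, Q_bound hU hδ (half_pos hδ),
    eventually_ge_atTop 1] with N h1 h4 h3 hquart hxpr hQ hN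
  intro p p' hp hp'
  have hN1 : (1 : ℝ) ≤ N := by exact_mod_cast hN
  have hN0 : (0 : ℝ) < N := by linarith
  set K : ℝ := (N : ℝ) ^ η with hK
  have hK0 : 0 < K := Real.rpow_pos_of_pos hN0 _
  have hP := perc p'
  have hR : RS (fun A => ((nu p') A).toReal) c N :=
    RS_of fun n h5 h6 => hcc.trans (hxpr p' hp' n h5 h6)
  have hstar : 576 * (2 * K) ^ 2 * (N : ℝ) ^ (δ / 2 - δ) ≤ (2 * K) ^ (-C0) := by
    have e1 : (2 * K) ^ 2 = (2 * K) ^ (2 : ℝ) := by rw [← Real.rpow_natCast]; norm_num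
    have h2K : 0 < 2 * K := by positivity
    have e2 : (2 * K) ^ (-C0) = (2 * K) ^ (2 : ℝ) * ((2 * K) ^ (2 + C0))⁻¹ := by
      rw [← Real.rpow_neg h2K.le, ← Real.rpow_add h2K]
      congr 1
      ring
    rw [e1, e2]
    have h5 : 576 * (N : ℝ) ^ (δ / 2 - δ) ≤ ((2 * K) ^ (2 + C0))⁻¹ := by
      rw [le_inv_comm₀ (by positivity) (by positivity), Real.mul_rpow (by norm_num) hK0.le]
      have e3 : K ^ (2 + C0) = (N : ℝ) ^ ((2 + C0) * η) := by
        rw [hK, ← Real.rpow_mul hN0.le, mul_comm]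
      have e4 : (576 * (N : ℝ) ^ (δ / 2 - δ))⁻¹ = (N : ℝ) ^ (δ / 2) / 576 := by
        rw [mul_inv, ← Real.rpow_neg hN0.le]
        have : -(δ / 2 - δ) = δ / 2 := by ring
        rw [this]
        ring
      rw [e3, e4, le_div_iff₀ (by norm_num)]
      calc (2 : ℝ) ^ (2 + C0) * (N : ℝ) ^ ((2 + C0) * η) * 576
          = 576 * (2 : ℝ) ^ (2 + C0) * (N : ℝ) ^ ((2 + C0) * η) := by ring
        _ ≤ (N : ℝ) ^ (δ / 2 - (2 + C0) * η) * (N : ℝ) ^ ((2 + C0) * η) :=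
            mul_le_mul_of_nonneg_right h3 (by positivity)
        _ = (N : ℝ) ^ (δ / 2) := by
            rw [← Real.rpow_add hN0]
            congr 1
            ring
    calc 576 * (2 * K) ^ (2 : ℝ) * (N : ℝ) ^ (δ / 2 - δ)
        = (2 * K) ^ (2 : ℝ) * (576 * (N : ℝ) ^ (δ / 2 - δ)) := by ring
      _ ≤ _ := mul_le_mul_of_nonneg_left h5 (by positivity)
  set F0 : ℝ := 4 * (2 * K) ^ C0 with hF0
  have hF00 : 0 ≤ F0 := by positivity
  have hquarter : 1 / 4 ≤ (nu p').real (AR (0, 0) 0 1) := by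
    refine le_trans ?_ (AR_one p')
    rw [abs_le] at hp'
    linarith [hp'.1]
  -- trivial scales
  have triv : ∀ n : ℕ, 1 ≤ n → n ≤ N → (n : ℝ) ≤ K →
      (nu p).real (AR (0, 0) 0 n) ≤ F0 * (nu p').real (AR (0, 0) 0 n) := by
    intro n hn hnN hnK
    have h5 := arm0_low hP hc0 hR hC0 hκ hquarter hn (by exact_mod_cast hnN)
    have h6 : (nu p).real (AR (0, 0) 0 n) ≤ 1 := measureReal_le_one
    have hn0 : (0 : ℝ) < n := by exact_mod_cast (by omega : 0 < n)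
    have h7 : (2 * K) ^ (-C0) ≤ (2 * (n : ℝ)) ^ (-C0) := by
      rw [Real.rpow_neg (by positivity), Real.rpow_neg (by positivity)]
      exact inv_anti₀ (Real.rpow_pos_of_pos (by positivity) _)
        (Real.rpow_le_rpow (by positivity) (by linarith) hC0)
    have h8 : (2 * K) ^ C0 * (2 * K) ^ (-C0) = 1 := by
      rw [← Real.rpow_add (by positivity)]
      simp
    have h9 : 1 / 4 * (2 * K) ^ (-C0) ≤ (nu p').real (AR (0, 0) 0 n) :=
      (mul_le_mul_of_nonneg_left h7 (by norm_num)).trans h5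
    calc (nu p).real (AR (0, 0) 0 n) ≤ 1 := h6
      _ = F0 * (1 / 4 * (2 * K) ^ (-C0)) := by
          rw [hF0]
          linear_combination (-1 : ℝ) * h8
      _ ≤ _ := mul_le_mul_of_nonneg_left h9 hF00
  have main : ∀ j : ℕ, ∀ n : ℕ, 1 ≤ n → n ≤ N → (n : ℝ) ≤ (N : ℝ) ^ (((j : ℝ) + 1) * η) →
      (nu p).real (AR (0, 0) 0 n) ≤ G ^ j * F0 * (nu p').real (AR (0, 0) 0 n) := by
    intro j
    induction j with
    | zero =>
      intro n hn hnN hnK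
      rw [pow_zero, one_mul]
      refine triv n hn hnN ?_
      rw [hK]
      simpa using hnK
    | succ j ih =>
      intro n hn hnN hnK
      by_cases hsmall : (n : ℝ) ≤ K
      · refine (triv n hn hnN hsmall).trans ?_
        refine mul_le_mul_of_nonneg_right ?_ measureReal_nonneg
        have : 1 ≤ G ^ (j + 1) := one_le_pow₀ hG1
        nlinarith
      push Not at hsmall
      have hn0 : (0 : ℝ) < n := by exact_mod_cast (by omega : 0 < n)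
      set t : ℕ := ⌊(n : ℝ) / K⌋₊ with ht
      have hq1 : 1 ≤ (n : ℝ) / K := by rw [le_div_iff₀ hK0]; linarith
      have ht1 : 1 ≤ t := Nat.le_floor (by exact_mod_cast hq1)
      have ht2 : (t : ℝ) ≤ n / K := Nat.floor_le (by positivity)
      have ht3 : (n : ℝ) / K < t + 1 := Nat.lt_floor_add_one _
      have ht1' : (1 : ℝ) ≤ t := by exact_mod_cast ht1
      have ht4 : (n : ℝ) ≤ 2 * K * t := by
        rw [div_lt_iff₀ hK0] at ht3
        nlinarith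
      have ht5 : 4 * t ≤ n := by
        rw [le_div_iff₀ hK0] at ht2
        have : (4 : ℝ) * t ≤ n := by nlinarith
        exact_mod_cast this
      have ht6 : (t : ℝ) ≤ (N : ℝ) ^ (((j : ℝ) + 1) * η) := by
        refine ht2.trans ?_
        rw [div_le_iff₀ hK0, hK, ← Real.rpow_add hN0]
        refine hnK.trans (le_of_eq ?_)
        congr 1
        push_cast
        ring
      have h5 := ratio_step (p := p) (p' := p') (c := c) (δ := δ) (K := K) (C0 := C0)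
        (F := G ^ j * F0) hN hc0 hp hp' hR hC0 hκ hQ hnN ht1 ht5 hK0 ht4 hstar (by positivity)
        (ih t ht1 (by omega) ht6)
      refine h5.trans (le_of_eq ?_)
      rw [← hG, pow_succ]
      ring
  intro n hn hnN
  refine (main J n hn hnN ?_).trans ?_
  · have hnN' : (n : ℝ) ≤ N := by exact_mod_cast hnN
    refine hnN'.trans ?_
    conv_lhs => rw [← Real.rpow_one (N : ℝ)]
    refine Real.rpow_le_rpow_of_exponent_le hN1 ?_
    nlinarith
  · refine mul_le_mul_of_nonneg_right ?_ measureReal_nonneg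
    rw [hF0, Real.mul_rpow (by norm_num) hK0.le]
    have e3 : K ^ C0 = (N : ℝ) ^ (C0 * η) := by
      rw [hK, ← Real.rpow_mul hN0.le, mul_comm]
    calc G ^ J * (4 * ((2 : ℝ) ^ C0 * K ^ C0)) = G ^ J * (4 * (2 : ℝ) ^ C0) * K ^ C0 := by ring
      _ ≤ (N : ℝ) ^ (ε / 2) * (N : ℝ) ^ (C0 * η) := by
          rw [e3]
          exact mul_le_mul_of_nonneg_right h1 (by positivity)
      _ = (N : ℝ) ^ (ε / 2 + C0 * η) := by rw [Real.rpow_add hN0]
      _ ≤ (N : ℝ) ^ ε := Real.rpow_le_rpow_of_exponent_le hN1 (by linarith)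

/-- **(B)** -/
theorem hypB_of_U4 (hU : HypU4) : Fr158.HypB := by
  intro ε hε
  obtain ⟨ε', hε'0, hε'1, hε'ε⟩ : ∃ ε' : ℝ, 0 < ε' ∧ ε' ≤ 1 ∧ ε' ≤ ε :=
    ⟨min ε 1, lt_min hε one_pos, min_le_right _ _, min_le_left _ _⟩
  filter_upwards [exists_win hε'0 hε'1 (arm_ratio hU (half_pos hε'0) (half_pos hε))] with p hp
  obtain ⟨N, hE, hN1, hpN, hnN, hNd, hd0, hd4⟩ := hp
  intro n hn hn2
  have hn3 : n ≤ N := by
    refine hnN n (hn2.trans ?_)
    exact Real.rpow_le_rpow_of_exponent_ge hd0 (by linarith) (by linarith)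
  have hcl := clamp_coe hd4
  have h1 := hE (clampUnit p) hf (by rw [hcl]; exact hpN)
    (by rw [hf_coe, sub_self, abs_zero]; positivity) n hn hn3
  have h2 := hE hf (clampUnit p) (by rw [hf_coe, sub_self, abs_zero]; positivity)
    (by rw [hcl]; exact hpN) n hn hn3
  have hN0 : (0 : ℝ) < N := by exact_mod_cast (by omega : 0 < N)
  have h3 : (N : ℝ) ^ (ε / 2) ≤ |p - 1 / 2| ^ (-ε) := by
    calc (N : ℝ) ^ (ε / 2) ≤ (|p - 1 / 2| ^ (-(4 / 3 : ℝ) + ε')) ^ (ε / 2) :=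
          Real.rpow_le_rpow hN0.le hNd (by positivity)
      _ = |p - 1 / 2| ^ ((-(4 / 3 : ℝ) + ε') * (ε / 2)) := by rw [← Real.rpow_mul hd0.le]
      _ ≤ |p - 1 / 2| ^ (-ε) := by
          refine Real.rpow_le_rpow_of_exponent_ge hd0 (by linarith) ?_
          nlinarith
  have e1 : Fr158.Pr p (Fr158.Arm1 n) = (nu (clampUnit p)).real (AR (0, 0) 0 n) := by
    rw [ar_arm1]
    rfl
  have e2 : Fr158.Pr (1 / 2) (Fr158.Arm1 n) = (nu hf).real (AR (0, 0) 0 n) := by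
    rw [ar_arm1, ← clampUnit_half]
    rfl
  rw [e1, e2]
  have hA : 0 ≤ (nu (clampUnit p)).real (AR (0, 0) 0 n) := measureReal_nonneg
  have hB : 0 ≤ (nu hf).real (AR (0, 0) 0 n) := measureReal_nonneg
  have hdε : 0 < |p - 1 / 2| ^ ε := Real.rpow_pos_of_pos hd0 _
  constructor
  · have h4 : (nu hf).real (AR (0, 0) 0 n) ≤
        |p - 1 / 2| ^ (-ε) * (nu (clampUnit p)).real (AR (0, 0) 0 n) :=
      h2.trans (mul_le_mul_of_nonneg_right h3 hA)
    calc |p - 1 / 2| ^ ε * (nu hf).real (AR (0, 0) 0 n)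
        ≤ |p - 1 / 2| ^ ε * (|p - 1 / 2| ^ (-ε) * (nu (clampUnit p)).real (AR (0, 0) 0 n)) :=
          mul_le_mul_of_nonneg_left h4 hdε.le
      _ = (nu (clampUnit p)).real (AR (0, 0) 0 n) := by
          rw [← mul_assoc, ← Real.rpow_add hd0]
          simp
  · exact h1.trans (mul_le_mul_of_nonneg_right h3 hB)

end Crest.Agent.R158.Cpl963
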