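import Crest.Agent.R158.Cpl5_963

/-!
# Row 158 (helper963): annulus form of the window bound; stability of the four-arm point bound

* `PB_tele_var` : telescoping with edge dependent bounds
* `ann_bound` : `P_w(T2 x k l) ≤ n^ε (k/l)^{5/4}`, all `1 ≤ k ≤ l ≤ n`, all laws of the window
* `A4 e R` : the endpoints of `e` are joined to distance `R` by two distinct clusters off `e`
* `piv_A4`, `piv_A4'` : pivotal edges of `A4 e R`
* `A4_compare` : `P_{w1}(A4 e (2r)) ≤ P_{w2}(A4 e r) + error`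
* `HypL4`, `A4_low` : the point lower bound in the window
-/

set_option autoImplicit false

noncomputable section

namespace Crest.Agent.R158.Cpl963

open MeasureTheory ProbabilityTheory unitInterval Filter Topology
open Crest.Agent.R161.Geo729 Crest.Agent.R161.Topo374 Crest.Agent.R161.Dual374
open Crest.Agent.R161.Tas682 Crest.Agent.R161.Ring421
open Crest.Agent.R158.Rs689 Crest.Agent.R158.Qm522
open Crest.ProbabilityR.Percolation

/-! ### telescoping with edge dependent bounds -/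

open Classical in
theorem PB_tele_var {ι : Type*} {S : Finset ι} {A : Set (ι → Bool)} (hA : Dep S A) {M : ι → ℝ}
    (R : Finset ι) (w w' : ι → I) (hR : ∀ e, e ∉ R → w e = w' e)
    (hM : ∀ v, Hyb w w' v → ∀ e ∈ R, (PB v).real (piv e A) ≤ M e) :
    |(PB w).real A - (PB w').real A| ≤ ∑ e ∈ R, |(w e : ℝ) - w' e| * M e := by
  induction R using Finset.induction_on generalizing w with
  | empty =>
    have : w = w' := funext fun e => hR e (Finset.notMem_empty e)
    subst this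
    simp
  | insert a R ha ih =>
    set w1 := Function.update w a (w' a) with hw1
    have h1 : Hyb w w' w := fun e => Or.inl rfl
    have h2 := PB_one w a (w' a) hA
    have h3 : |(PB w).real A - (PB w1).real A| ≤ |(w a : ℝ) - w' a| * M a :=
      h2.trans (mul_le_mul_of_nonneg_left (hM w h1 a (Finset.mem_insert_self _ _))
        (abs_nonneg _))
    have h4 : |(PB w1).real A - (PB w').real A| ≤ ∑ e ∈ R, |(w1 e : ℝ) - w' e| * M e := by
      refine ih w1 (fun e he => ?_) fun v hv e he => hM v (fun f => ?_) e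
        (Finset.mem_insert_of_mem he)
      · by_cases hea : e = a
        · subst hea; simp [hw1]
        · rw [hw1, Function.update_of_ne hea]
          exact hR e (by simp [hea, he])
      · rcases hv f with hf | hf
        · by_cases hfa : f = a
          · subst hfa
            right
            rw [hf, hw1, Function.update_self]
          · left
            rw [hf, hw1, Function.update_of_ne hfa]
        · exact Or.inr hf
    have h5 : ∑ e ∈ R, |(w1 e : ℝ) - w' e| * M e = ∑ e ∈ R, |(w e : ℝ) - w' e| * M e := by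
      refine Finset.sum_congr rfl fun e he => ?_
      have : e ≠ a := fun h => ha (h ▸ he)
      rw [hw1, Function.update_of_ne this]
    rw [Finset.sum_insert ha]
    have h6 : (PB w).real A - (PB w').real A =
        ((PB w).real A - (PB w1).real A) + ((PB w1).real A - (PB w').real A) := by ring
    rw [h6]
    refine (abs_add_le _ _).trans ?_
    rw [h5] at h4
    exact add_le_add h3 h4

/-- two laws of the window, edge dependent bounds -/
theorem PB_step_var {ι : Type*} [DecidableEq ι] {S : Finset ι} {A B : Set (ι → Bool)}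
    (hA : Dep S A) {R : Finset ι} (hB : Dep R B) (hAB : A ⊆ B) {w0 w1 w2 : ι → I} {d : ℝ}
    {M : ι → ℝ} (h1 : w1 ∈ Win w0 d) (h2 : w2 ∈ Win w0 d)
    (hM : ∀ v ∈ Win w0 d, ∀ e ∈ R, (PB v).real (piv e A) ≤ M e) :
    (PB w1).real A ≤ (PB w2).real B + 2 * d * ∑ e ∈ R, M e := by
  classical
  set w' : ι → I := fun e => if e ∈ R then w2 e else w1 e with hw'
  have hyb : ∀ v, Hyb w1 w' v → v ∈ Win w0 d := by
    intro v hv e
    rcases hv e with h | h
    · rw [h]; exact h1 e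
    · rw [h, hw']
      dsimp only
      split_ifs
      · exact h2 e
      · exact h1 e
  have hdec : ∀ e, piv e A = @piv ι (fun a b => Classical.propDecidable (a = b)) e A := by
    intro e
    unfold piv
    congr!
  have hd2 : ∀ e, |(w1 e : ℝ) - w2 e| ≤ 2 * d := by
    intro e
    have h3 := h1 e
    have h4 := h2 e
    rw [abs_le] at h3 h4 ⊢
    constructor <;> linarith
  have h3 : |(PB w1).real A - (PB w').real A| ≤ 2 * d * ∑ e ∈ R, M e := by
    refine (PB_tele_var hA (M := M) R w1 w' (fun e he => by simp [hw', he])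
      fun v hv e he => by
        rw [← hdec]
        exact hM v (hyb v hv) e he).trans ?_
    rw [Finset.mul_sum]
    refine Finset.sum_le_sum fun e he => mul_le_mul_of_nonneg_right ?_
      (measureReal_nonneg.trans (hM w1 h1 e he))
    simp only [hw', he, if_true]
    exact hd2 e
  have h4 : (PB w').real A ≤ (PB w').real B := measureReal_mono hAB
  have h5 : (PB w').real B = (PB w2).real B := PB_congr hB fun e he => by simp [hw', he]
  have h6 := (abs_le.1 h3).2
  linarith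

/-! ### the annulus bound -/

/-- one annulus in the window -/
theorem ann_step {n s t : ℕ} {B δ ε1 K : ℝ} (hn : 1 ≤ n)
    (hU : ∀ k l : ℕ, 1 ≤ k → k ≤ l → l ≤ n →
      (nu hf).real (T2 (0, 0) k l) ≤ (n : ℝ) ^ ε1 * ((k : ℝ) / l) ^ (5 / 4 : ℝ))
    (hsn : s ≤ n) (ht : 1 ≤ t) (hts : 4 * t ≤ s) (hK : 0 < K)
    (hst : (s : ℝ) / (2 * K) ≤ t) (hB : 0 ≤ B) (hε : 0 ≤ ε1)
    (hstar : 18 * (n : ℝ) ^ (-δ) * B * (2 * K) ^ (5 / 2 : ℝ) ≤ 1)
    (hQ : ∀ w ∈ Wd ((n : ℝ) ^ (-(3 / 4 : ℝ) - δ)), ∀ x : P2,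
      (PB w).real (T2 x 1 t) ≤ B * (t : ℝ) ^ (-(5 / 4 : ℝ))) :
    ∀ w ∈ Wd ((n : ℝ) ^ (-(3 / 4 : ℝ) - δ)), ∀ x : P2,
      (PB w).real (T2 x ((t : ℤ) + 1) s) ≤ 7 * (n : ℝ) ^ ε1 * ((t : ℝ) / s) ^ (5 / 4 : ℝ) := by
  intro w hw x
  have hN : (1 : ℝ) ≤ n := by exact_mod_cast hn
  have hN0 : (0 : ℝ) < n := by linarith
  have hs0 : (0 : ℝ) < s := by exact_mod_cast (by omega : 0 < s)
  have ht0 : (0 : ℝ) < t := by exact_mod_cast (by omega : 0 < t)
  have hsN : (s : ℝ) ≤ n := by exact_mod_cast hsn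
  set d : ℝ := (n : ℝ) ^ (-(3 / 4 : ℝ) - δ) with hd
  have hd0 : 0 ≤ d := Real.rpow_nonneg hN0.le _
  set A := T2 x ((t : ℤ) + 1) s with hA
  set Bv := T2 x (((t : ℤ) + 1) + t) ((s : ℤ) - t) with hBv
  set R := eAn x (((t : ℤ) + 1) + t) ((s : ℤ) - t) with hR
  set M : ℝ := B * (t : ℝ) ^ (-(5 / 4 : ℝ)) with hM
  have hM0 : 0 ≤ M := mul_nonneg hB (Real.rpow_nonneg ht0.le _)
  have h3 : (PB w).real A ≤ (PB fun _ : Edge => hf).real Bv + d * R.card * M := by
    refine PB_step_le (T2_dep x _ _) (T2_dep x _ _) (T2_shrink (by omega) (by omega) (by omega))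
      hd0 hw fun v hv e he => ?_
    refine (measureReal_mono (piv_An (T2_bdEv x _ _) he (k := 1) (l := t) le_rfl
      (by exact_mod_cast ht) le_rfl)).trans ?_
    exact hQ v hv (src e)
  have h4 : (PB fun _ : Edge => hf).real Bv ≤ (n : ℝ) ^ ε1 * (4 * (t : ℝ) / s) ^ (5 / 4 : ℝ) := by
    have h5 := T2_prob hf x (((t : ℤ) + 1) + t) ((s : ℤ) - t)
    have h6 : (nu hf).real Bv = (PB fun _ : Edge => hf).real Bv := rfl
    rw [← h6, h5]
    have h7 := hU (2 * t + 1) (s - t) (by omega) (by omega) (by omega)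
    have e1 : ((2 * t + 1 : ℕ) : ℤ) = ((t : ℤ) + 1) + t := by push_cast; ring
    have e2 : ((s - t : ℕ) : ℤ) = (s : ℤ) - t := by
      push_cast [Nat.cast_sub (by omega : t ≤ s)]; ring
    rw [e1, e2] at h7
    refine h7.trans (mul_le_mul_of_nonneg_left ?_ (Real.rpow_nonneg hN0.le _))
    refine Real.rpow_le_rpow (by positivity) ?_ (by norm_num)
    rw [Nat.cast_sub (by omega : t ≤ s)]
    push_cast
    have h8 : (4 : ℝ) * t ≤ s := by exact_mod_cast hts
    have h9 : (1 : ℝ) ≤ t := by exact_mod_cast ht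
    rw [div_le_div_iff₀ (by linarith) hs0]
    nlinarith
  have h5 : (R.card : ℝ) ≤ 18 * (s : ℝ) ^ 2 := card_An_le (by omega) (by omega)
  have h7 := arith_step (δ := δ) hN hs0 hsN ht0 hK hst hB hε hstar
  rw [← hd, ← hM] at h7
  have h8 : d * R.card * M ≤ d * (18 * (s : ℝ) ^ 2) * M :=
    mul_le_mul_of_nonneg_right (mul_le_mul_of_nonneg_left h5 hd0) hM0
  linarith

/-- **The annulus form of the four-arm bound in the window.** -/
theorem ann_bound (hU : HypU4) {δ ε : ℝ} (hδ : 0 < δ) (hε : 0 < ε) :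
    ∀ᶠ n : ℕ in atTop, ∀ w ∈ Wd ((n : ℝ) ^ (-(3 / 4 : ℝ) - δ)), ∀ x : P2, ∀ k l : ℕ,
      1 ≤ k → k ≤ l → l ≤ n →
        (PB w).real (T2 x k l) ≤ (n : ℝ) ^ ε * ((k : ℝ) / l) ^ (5 / 4 : ℝ) := by
  obtain ⟨η, hη, hη1, hη2⟩ : ∃ η : ℝ, 0 < η ∧ 10 * η ≤ δ ∧ 10 * η ≤ ε :=
    ⟨min δ ε / 10, by positivity, by have := min_le_left δ ε; linarith,
      by have := min_le_right δ ε; linarith⟩
  obtain ⟨J, hJ⟩ : ∃ J : ℕ, 1 ≤ J * η := by
    obtain ⟨J, hJ⟩ := exists_nat_ge (1 / η)
    exact ⟨J, by rwa [div_le_iff₀ hη] at hJ⟩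
  have hJ0 : 0 < (J : ℝ) := by
    rcases Nat.eq_zero_or_pos J with h | h
    · subst h; simp at hJ; linarith
    · exact_mod_cast h
  set ε1 : ℝ := η / J with hε1
  have hε1p : 0 < ε1 := div_pos hη hJ0
  have hJε : J * ε1 = η := by rw [hε1]; field_simp
  have ev1 : ∀ᶠ n : ℕ in atTop, (7 : ℝ) ^ J ≤ (n : ℝ) ^ η :=
    ((tendsto_rpow_atTop hη).comp tendsto_natCast_atTop_atTop).eventually_ge_atTop _
  have ev2 : ∀ᶠ n : ℕ in atTop, (4 : ℝ) ≤ (n : ℝ) ^ η :=
    ((tendsto_rpow_atTop hη).comp tendsto_natCast_atTop_atTop).eventually_ge_atTop _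
  have ev3 : ∀ᶠ n : ℕ in atTop, (18 * (2 : ℝ) ^ (5 / 2 : ℝ)) ≤ (n : ℝ) ^ η :=
    ((tendsto_rpow_atTop hη).comp tendsto_natCast_atTop_atTop).eventually_ge_atTop _
  filter_upwards [ev1, ev2, ev3, hU ε1 hε1p, Q_bound hU hδ hη, eventually_ge_atTop 1] with
    n h7 h4 h18 hUn hQn hn
  have hN : (1 : ℝ) ≤ n := by exact_mod_cast hn
  have hN0 : (0 : ℝ) < n := by linarith
  set K : ℝ := (n : ℝ) ^ η with hK
  have hK0 : 0 < K := Real.rpow_pos_of_pos hN0 _
  have h7n : 1 ≤ 7 * (n : ℝ) ^ ε1 := by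
    have := Real.one_le_rpow hN hε1p.le
    linarith
  have hstar : 18 * (n : ℝ) ^ (-δ) * (n : ℝ) ^ η * (2 * K) ^ (5 / 2 : ℝ) ≤ 1 := by
    rw [Real.mul_rpow (by norm_num) hK0.le]
    have h1 : K ^ (5 / 2 : ℝ) = (n : ℝ) ^ (5 / 2 * η) := by
      rw [hK, ← Real.rpow_mul hN0.le]
      congr 1
      ring
    calc 18 * (n : ℝ) ^ (-δ) * (n : ℝ) ^ η * ((2 : ℝ) ^ (5 / 2 : ℝ) * K ^ (5 / 2 : ℝ))
        = (18 * (2 : ℝ) ^ (5 / 2 : ℝ)) * ((n : ℝ) ^ (-δ) * (n : ℝ) ^ η *
            (n : ℝ) ^ (5 / 2 * η)) := by rw [h1]; ring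
      _ ≤ (n : ℝ) ^ η * ((n : ℝ) ^ (-δ) * (n : ℝ) ^ η * (n : ℝ) ^ (5 / 2 * η)) :=
          mul_le_mul_of_nonneg_right h18 (by positivity)
      _ = (n : ℝ) ^ (η + (-δ + η + 5 / 2 * η)) := by
          rw [Real.rpow_add hN0, Real.rpow_add hN0, Real.rpow_add hN0]
      _ ≤ (n : ℝ) ^ (0 : ℝ) := Real.rpow_le_rpow_of_exponent_le hN (by linarith)
      _ = 1 := Real.rpow_zero _
  intro w hw x k l hk
  have hk0 : (0 : ℝ) < k := by exact_mod_cast (by omega : 0 < k)
  -- trivial range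
  have triv : ∀ j : ℕ, ∀ l : ℕ, k ≤ l → (l : ℝ) ≤ k * K →
      (PB w).real (T2 x k l) ≤
        (7 * (n : ℝ) ^ ε1) ^ j * K ^ (5 / 4 : ℝ) * ((k : ℝ) / l) ^ (5 / 4 : ℝ) := by
    intro j l hkl hlK
    have hl0 : (0 : ℝ) < l := by exact_mod_cast (by omega : 0 < l)
    have h1 : (PB w).real (T2 x k l) ≤ 1 := measureReal_le_one
    have h2 : 1 ≤ (7 * (n : ℝ) ^ ε1) ^ j := one_le_pow₀ h7n
    have h3 : 1 ≤ K ^ (5 / 4 : ℝ) * ((k : ℝ) / l) ^ (5 / 4 : ℝ) := by
      rw [← Real.mul_rpow hK0.le (by positivity)]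
      refine Real.one_le_rpow ?_ (by norm_num)
      rw [← mul_div_assoc, le_div_iff₀ hl0, one_mul]
      linarith
    calc (PB w).real (T2 x k l) ≤ 1 * 1 := by rw [one_mul]; exact h1
      _ ≤ (7 * (n : ℝ) ^ ε1) ^ j * (K ^ (5 / 4 : ℝ) * ((k : ℝ) / l) ^ (5 / 4 : ℝ)) :=
          mul_le_mul h2 h3 (by norm_num) (by positivity)
      _ = _ := by ring
  have main : ∀ j : ℕ, ∀ l : ℕ, k ≤ l → l ≤ n → (l : ℝ) ≤ k * (n : ℝ) ^ (((j : ℝ) + 1) * η) →
      (PB w).real (T2 x k l) ≤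
        (7 * (n : ℝ) ^ ε1) ^ j * K ^ (5 / 4 : ℝ) * ((k : ℝ) / l) ^ (5 / 4 : ℝ) := by
    intro j
    induction j with
    | zero =>
      intro l hkl hln hlK
      refine triv 0 l hkl ?_
      rw [hK]
      simpa using hlK
    | succ j ih =>
      intro l hkl hln hlK
      by_cases hsmall : (l : ℝ) ≤ k * K
      · exact triv (j + 1) l hkl hsmall
      push Not at hsmall
      have hl0 : (0 : ℝ) < l := by exact_mod_cast (by omega : 0 < l)
      set t : ℕ := ⌊(l : ℝ) / K⌋₊ with ht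
      have hkt : k ≤ t := by
        refine Nat.le_floor ?_
        rw [le_div_iff₀ hK0]
        exact hsmall.le
      have ht1 : 1 ≤ t := hk.trans hkt
      have ht2 : (t : ℝ) ≤ l / K := Nat.floor_le (by positivity)
      have ht3 : (l : ℝ) / K < t + 1 := Nat.lt_floor_add_one _
      have ht1' : (1 : ℝ) ≤ t := by exact_mod_cast ht1
      have ht0 : (0 : ℝ) < t := by linarith
      have ht4 : (l : ℝ) / (2 * K) ≤ t := by
        have e : (l : ℝ) / (2 * K) = l / K / 2 := by field_simp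
        rw [e]
        linarith
      have ht5 : 4 * t ≤ l := by
        rw [le_div_iff₀ hK0] at ht2
        have : (4 : ℝ) * t ≤ l := by nlinarith
        exact_mod_cast this
      have ht6 : (t : ℝ) ≤ k * (n : ℝ) ^ (((j : ℝ) + 1) * η) := by
        refine ht2.trans ?_
        rw [div_le_iff₀ hK0, hK, mul_assoc, ← Real.rpow_add hN0]
        refine hlK.trans (le_of_eq ?_)
        congr 2
        push_cast
        ring
      have h1 := ih t hkt (by omega) ht6
      have h2 := ann_step (δ := δ) hn hUn hln ht1 ht5 hK0 ht4 (by positivity) hε1p.le hstar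
        (fun v hv y => hQn v hv y t ht1 (by omega)) w hw x
      have h3 : T2 x k l ⊆ T2 x k t ∩ T2 x ((t : ℤ) + 1) l := fun z hz =>
        ⟨T2_shrink le_rfl (by exact_mod_cast hkt) (by exact_mod_cast (by omega : t ≤ l)) hz,
          T2_shrink (by omega) (by omega) le_rfl hz⟩
      have h5 : (PB w).real (T2 x k t ∩ T2 x ((t : ℤ) + 1) l) =
          (PB w).real (T2 x k t) * (PB w).real (T2 x ((t : ℤ) + 1) l) :=
        PB_indep_real w (eAn_disj (by omega)) (T2_dep x _ _) (T2_dep x _ _)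
      calc (PB w).real (T2 x k l) ≤ (PB w).real (T2 x k t ∩ T2 x ((t : ℤ) + 1) l) :=
            measureReal_mono h3
        _ = (PB w).real (T2 x k t) * (PB w).real (T2 x ((t : ℤ) + 1) l) := h5
        _ ≤ ((7 * (n : ℝ) ^ ε1) ^ j * K ^ (5 / 4 : ℝ) * ((k : ℝ) / t) ^ (5 / 4 : ℝ)) *
              (7 * (n : ℝ) ^ ε1 * ((t : ℝ) / l) ^ (5 / 4 : ℝ)) :=
            mul_le_mul h1 h2 measureReal_nonneg (by positivity)
        _ = (7 * (n : ℝ) ^ ε1) ^ (j + 1) * K ^ (5 / 4 : ℝ) *
              (((k : ℝ) / t) ^ (5 / 4 : ℝ) * ((t : ℝ) / l) ^ (5 / 4 : ℝ)) := by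
            rw [pow_succ]; ring
        _ = (7 * (n : ℝ) ^ ε1) ^ (j + 1) * K ^ (5 / 4 : ℝ) * ((k : ℝ) / l) ^ (5 / 4 : ℝ) := by
            rw [← Real.mul_rpow (by positivity) (by positivity)]
            congr 2
            field_simp
  intro hkl hln
  have hl0 : (0 : ℝ) < l := by exact_mod_cast (by omega : 0 < l)
  refine (main J l hkl hln ?_).trans ?_
  · have h1 : (l : ℝ) ≤ n := by exact_mod_cast hln
    have h2 : (n : ℝ) ≤ (n : ℝ) ^ (((J : ℝ) + 1) * η) := by
      conv_lhs => rw [← Real.rpow_one (n : ℝ)]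
      refine Real.rpow_le_rpow_of_exponent_le hN ?_
      nlinarith
    have h3 : (1 : ℝ) ≤ k := by exact_mod_cast hk
    nlinarith
  · refine mul_le_mul_of_nonneg_right ?_ (by positivity)
    rw [mul_pow]
    have h2 : ((n : ℝ) ^ ε1) ^ J = K := by
      rw [← Real.rpow_natCast, ← Real.rpow_mul hN0.le, hK, mul_comm ε1, hJε]
    rw [h2]
    calc (7 : ℝ) ^ J * K * K ^ (5 / 4 : ℝ) ≤ K * K * K ^ (5 / 4 : ℝ) := by
          refine mul_le_mul_of_nonneg_right (mul_le_mul_of_nonneg_right h7 hK0.le) (by positivity)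
      _ = (n : ℝ) ^ (13 / 4 * η) := by
          rw [hK, ← Real.rpow_mul hN0.le, ← Real.rpow_add hN0, ← Real.rpow_add hN0]
          congr 1
          ring
      _ ≤ (n : ℝ) ^ ε := Real.rpow_le_rpow_of_exponent_le hN (by linarith)

/-! ### the point event -/

/-- the endpoints of `e` are joined, off `e` and inside the ball of radius `R`, to distance `R` by two
distinct clusters; connectivity form for a configuration with `e` closed -/
def A4c (e : Edge) (R : ℤ) : Set Cf :=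
  {z | (∃ a : P2, sd (src e) a = R ∧ OC z (Bl (src e) R) (src e) a) ∧
    (∃ b : P2, sd (src e) b = R ∧ OC z (Bl (src e) R) (tgt e) b) ∧
    ¬ OC z (Bl (src e) R) (src e) (tgt e)}

/-- the four-arm event of the edge `e` -/
def A4 (e : Edge) (R : ℤ) : Set Cf := {z | Function.update z e false ∈ A4c e R}

/-- boundary vertices of the point event -/
def B4 (e : Edge) (R : ℤ) : Set P2 := {v | v = src e ∨ v = tgt e ∨ sd (src e) v = R}

theorem A4c_bdEv (e : Edge) (R : ℤ) : BdEv (Bl (src e) R) (B4 e R) (A4c e R) := by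
  intro z z' h
  have hs : src e ∈ B4 e R := Or.inl rfl
  have ht : tgt e ∈ B4 e R := Or.inr (Or.inl rfl)
  constructor
  · rintro ⟨⟨a, ha, h1⟩, ⟨b, hb, h2⟩, h3⟩
    exact ⟨⟨a, ha, (h _ hs a (Or.inr (Or.inr ha))).1 h1⟩,
      ⟨b, hb, (h _ ht b (Or.inr (Or.inr hb))).1 h2⟩, fun hc => h3 ((h _ hs _ ht).2 hc)⟩
  · rintro ⟨⟨a, ha, h1⟩, ⟨b, hb, h2⟩, h3⟩
    exact ⟨⟨a, ha, (h _ hs a (Or.inr (Or.inr ha))).2 h1⟩,
      ⟨b, hb, (h _ ht b (Or.inr (Or.inr hb))).2 h2⟩, fun hc => h3 ((h _ hs _ ht).1 hc)⟩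

theorem A4c_dep (e : Edge) (R : ℤ) : Dep (eAn (src e) 0 R) (A4c e R) := by
  intro z z' h
  refine A4c_bdEv e R z z' fun u _ v _ => OC_congr_iff fun f h1 h2 => h f (mem_eAn.2
    ⟨⟨sd_nonneg _ _, h1⟩, ⟨sd_nonneg _ _, h2⟩⟩)

theorem A4_dep (e : Edge) (R : ℤ) : Dep (eAn (src e) 0 R) (A4 e R) := by
  intro z z' h
  refine A4c_dep e R _ _ fun f hf => ?_
  by_cases hfe : f = e
  · subst hfe; simp
  · rw [Function.update_of_ne hfe, Function.update_of_ne hfe]
    exact h f hf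

theorem A4c_T2 {e : Edge} {R k l : ℤ} (hk : 1 ≤ k) (hkl : k ≤ l) (hl : l ≤ R) :
    A4c e R ⊆ T2 (src e) k l := by
  rintro z ⟨⟨a, ha, h1⟩, ⟨b, hb, h2⟩, h3⟩
  obtain ⟨p, q, hp, hq, h4, h5⟩ := cross_sub (src e) hkl h1 (by rw [sd_self]; omega) (by omega)
  obtain ⟨p', q', hp', hq', h4', h5'⟩ := cross_sub (src e) hkl h2
    (by have := sd_src_tgt e; omega) (by omega)
  refine ⟨p, q, p', q', hp, hq, hp', hq', h4.monoS Set.inter_subset_right,
    h4'.monoS Set.inter_subset_right, fun hc => h3 ?_⟩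
  have hc' : OC z (Bl (src e) R) p p' := hc.monoS fun w hw => by
    rw [mem_An] at hw; rw [mem_Bl]; omega
  exact (h5.trans hc').trans h5'.symm

theorem A4_T2 {e : Edge} {R k l : ℤ} (hk : 1 ≤ k) (hkl : k ≤ l) (hl : l ≤ R) :
    A4 e R ⊆ T2 (src e) k l := fun _ hz => (T2_update hk).1 (A4c_T2 hk hkl hl hz)

theorem A4_shrink {e : Edge} {R R' : ℤ} (h0 : 1 ≤ R') (h : R' ≤ R) : A4 e R ⊆ A4 e R' := by
  rintro z ⟨⟨a, ha, h1⟩, ⟨b, hb, h2⟩, h3⟩
  obtain ⟨a', ha', h4⟩ := first_hit (sd (src e)) (sd_nbr _) R' h1 (by rw [sd_self]; omega)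
    (by omega)
  obtain ⟨b', hb', h5⟩ := first_hit (sd (src e)) (sd_nbr _) R' h2
    (by have := sd_src_tgt e; omega) (by omega)
  refine ⟨⟨a', ha', h4.monoS fun w hw => hw.2⟩, ⟨b', hb', h5.monoS fun w hw => hw.2⟩,
    fun hc => h3 (hc.monoS fun w hw => ?_)⟩
  rw [mem_Bl] at hw ⊢
  omega

/-- a pivotal edge of `A4 e R` leaves the annuli around `e` which do not contain it four-armed -/
theorem piv_A4 {e f : Edge} {R k l : ℤ} (hk : 1 ≤ k) (hkl : k ≤ l) (hl : l ≤ R)
    (hf : f ∉ eAn (src e) k l) : piv f (A4 e R) ⊆ T2 (src e) k l := by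
  intro z hz
  have h1 : ∃ b, Function.update z f b ∈ A4 e R := by
    by_contra hc
    push Not at hc
    exact hz ⟨fun h => absurd h (hc true), fun h => absurd h (hc false)⟩
  obtain ⟨b, hb⟩ := h1
  have h2 := A4_T2 hk hkl hl hb
  refine (T2_dep (src e) k l _ _ fun g hg => ?_).1 h2
  have : g ≠ f := fun h => hf (h ▸ hg)
  rw [Function.update_of_ne this]

/-- a pivotal edge of `A4 e R` is itself four-armed -/
theorem piv_A4' {e f : Edge} {R s k l : ℤ} (hef : f ≠ e)
    (h1 : s + 1 ≤ sd (src e) (src f)) (h2 : sd (src e) (src f) + s ≤ R) (hk : 1 ≤ k)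
    (hkl : k ≤ l) (hl : l ≤ s) : piv f (A4 e R) ⊆ T2 (src f) k l := by
  intro z hz
  have h3 : Function.update z e false ∈ piv f (A4c e R) := by
    intro hc
    apply hz
    have e1 : ∀ b, Function.update (Function.update z f b) e false =
        Function.update (Function.update z e false) f b := fun b =>
      Function.update_comm hef _ _ _
    constructor
    · intro h
      show Function.update (Function.update z f false) e false ∈ A4c e R
      rw [e1]
      refine hc.1 ?_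
      rw [← e1]
      exact h
    · intro h
      show Function.update (Function.update z f true) e false ∈ A4c e R
      rw [e1]
      refine hc.2 ?_
      rw [← e1]
      exact h
  have h4 := piv_T2 (A4c_bdEv e R) (e := f) (s := s) (k := k) (l := l) (fun w hw => by
      have := sd_tri (src e) (src f) w
      rw [mem_Bl]
      omega) (fun w hw => by
      have h5 := sd_tri (src e) w (src f)
      have h6 := sd_comm w (src f)
      have h7 := sd_src_tgt e
      have h8 := sd_comm (src e) (src f)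
      rcases hw with rfl | rfl | hw
      · omega
      · omega
      · have h9 := sd_tri (src e) (src f) w
        omega) hk hkl hl h3
  refine (T2_dep (src f) k l _ _ fun g hg => ?_).1 h4
  have : g ≠ e := by
    rintro rfl
    rw [mem_eAn, mem_An] at hg
    have h8 := sd_comm (src g) (src f)
    omega
  rw [Function.update_of_ne this]

end Crest.Agent.R158.Cpl963
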