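import Crest.Agent.R158.Os4_488
import Crest.Agent.R158.Qm1_522

/-!
# Row 158, Block OS (helper488), part 5: the one-arm bound at near-critical parameters

* `RScale c p N` : `c ≤ Pr p (LR n)` and `Pr p (BT n) ≤ 1 - c` for `1 ≤ n ≤ N` (the body of `HypC`)
* `rs_primal`, `rs_dual` : `RS` (hard-way crossings) for `Pr p` and for the dual law
* `circ_dual_ge` : dual circuits have probability at least `c^16` at all scales up to `N`
* `al c`, `Ca c` : explicit exponent in `(0, 1/2]` and constant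
* `arm_nc` : `P(B_s(x) ↔ distance R) ≤ Ca c (s/R)^(al c)` for `1 ≤ s ≤ R ≤ N`
* `piv_nc` : `∑_blocks P(block pivotal for a crossing) ≥ κ(c) (N/m)^(al c/2) f(1-f)`
* `piv_nc_LR` : the same for `LR n`, with `f(1-f) ≥ c(1-c)`
-/

set_option autoImplicit false

noncomputable section

namespace Crest.Agent.R158.Os488

open MeasureTheory Filter Topology unitInterval
open Crest.ProbabilityR.Percolation Crest.ProbabilityR.FirstPassage
open Crest.Agent.R158.Rs689 Crest.Agent.R161.Tas682 Crest.Agent.R161.Geo729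
open Crest.Agent.R161.Topo374 Crest.Agent.R161.Ifc372
open Crest.Agent.R158.Fr158 Crest.Agent.R158.Qm522

/-- RSW, primal and dual, at the scales `1, …, N` (the body of `HypC`) -/
def RScale (c p : ℝ) (N : ℕ) : Prop :=
  ∀ n : ℕ, 1 ≤ n → n ≤ N → c ≤ Pr p (LR n) ∧ Pr p (BT n) ≤ 1 - c

theorem RScale.mono {c p : ℝ} {N N' : ℕ} (h : RScale c p N) (hN : N' ≤ N) : RScale c p N' :=
  fun n h1 h2 => h n h1 (h2.trans hN)

theorem RScale.anti {c c' p : ℝ} {N : ℕ} (h : RScale c p N) (hc : c' ≤ c) : RScale c' p N :=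
  fun n h1 h2 => ⟨hc.trans (h n h1 h2).1, (h n h1 h2).2.trans (by linarith)⟩

theorem lrn_eq (p : ℝ) (n : ℤ) : Pr p (LR n) = xpr (clampUnit p) (3 * n) n := by
  have h := lr_eq_xpr (clampUnit p) 0 (3 * n) 0 n
  rw [sub_zero, sub_zero] at h
  exact h

theorem btn_eq (p : ℝ) (n : ℤ) : Pr p (BT n) = xpr (clampUnit p) n (3 * n) := by
  have h := bt_eq_xpr (clampUnit p) 0 (3 * n) 0 n
  rw [sub_zero, sub_zero] at h
  exact h

theorem lrn_le_btn (p : ℝ) {n : ℤ} (hn : 0 ≤ n) : Pr p (LR n) ≤ Pr p (BT n) := by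
  rw [lrn_eq, btn_eq]
  exact xpr_mono _ hn (by omega) (by omega)

theorem RScale.two_le {c p : ℝ} {N : ℕ} (h : RScale c p N) (hN : 1 ≤ N) : c ≤ 1 / 2 := by
  obtain ⟨h1, h2⟩ := h 1 le_rfl hN
  have h3 := lrn_le_btn p (n := ((1 : ℕ) : ℤ)) (by norm_num)
  linarith

/-- hard-way crossings of the primal law -/
theorem rs_primal {c p : ℝ} {N : ℕ} (h : RScale c p N) : RS (Pr p) c N := by
  intro n h1 h2
  lift n to ℕ using (by omega)
  have h3 := (h n (by exact_mod_cast h1) (by exact_mod_cast h2)).1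
  exact h3

/-- dual hard-way crossings -/
theorem xpr_dual_ge {c p : ℝ} {N : ℕ} (h : RScale c p N) {n : ℤ} (h1 : 1 ≤ n) (h2 : n ≤ N) :
    c ≤ xpr (σ (clampUnit p)) (3 * n) n := by
  lift n to ℕ using (by omega)
  have h3 := (h n (by exact_mod_cast h1) (by exact_mod_cast h2)).2
  rw [btn_eq] at h3
  have h4 := xpr_dual (clampUnit p) n (3 * n) (by omega) (by omega)
  have h5 : xpr (σ (clampUnit p)) (3 * (n : ℤ) + 1) (n - 1) ≤
      xpr (σ (clampUnit p)) (3 * (n : ℤ)) n :=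
    xpr_mono _ (by omega) (by omega) (by omega)
  linarith

theorem rs_dual {c p : ℝ} {N : ℕ} (h : RScale c p N) :
    RS (fun A => ((Rs689.nu (σ (clampUnit p))) A).toReal) c N := by
  intro n h1 h2
  exact xpr_dual_ge h h1 h2

theorem circZ_ge {q : I} {c : ℝ} {N : ℕ} (hc : 0 < c)
    (h : RS (fun A => ((Rs689.nu q) A).toReal) c N) (x : P2) {n : ℕ} (h1 : 1 ≤ n) (h2 : n ≤ N) :
    c ^ 16 ≤ (Rs689.nu q).real (CircZ x n (2 * n)) := by
  have h3 := circ_double (perc q) hc h x (n := (n : ℤ)) (by exact_mod_cast h1)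
    (by exact_mod_cast h2)
  refine h3.trans ?_
  have h4 := circ4_sub x n (2 * n) h1 (by omega)
  have h5 : {z : Cf | Circ4 z x (n : ℤ) (2 * (n : ℤ))} =
      {z : Cf | Circ4 z x (n : ℕ) ((2 * n : ℕ) : ℤ)} := by push_cast; rfl
  rw [h5]
  exact ENNReal.toReal_mono (measure_ne_top _ _) (measure_mono h4)

/-- dual circuits -/
theorem circ_dual_ge {c p : ℝ} {N : ℕ} (hc : 0 < c) (h : RScale c p N) (x : P2) {n : ℕ}
    (h1 : 1 ≤ n) (h2 : n ≤ N) :
    c ^ 16 ≤ (Rs689.nu (σ (clampUnit p))).real (CircZ x n (2 * n)) :=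
  circZ_ge hc (rs_dual h) x h1 h2

/-- primal circuits -/
theorem circ_primal_ge {c p : ℝ} {N : ℕ} (hc : 0 < c) (h : RScale c p N) (x : P2) {n : ℕ}
    (h1 : 1 ≤ n) (h2 : n ≤ N) :
    c ^ 16 ≤ Pr p (CircZ x n (2 * n)) :=
  circZ_ge hc (rs_primal h) x h1 h2

/-- the exponent of the one-arm bound -/
def al (c : ℝ) : ℝ := -Real.log (1 - c ^ 16 / 2) / Real.log 4

/-- the constant of the one-arm bound -/
def Ca (c : ℝ) : ℝ := (16 : ℝ) ^ al c

theorem q_bounds {c : ℝ} (hc : 0 < c) (hc1 : c ≤ 1) : 0 < c ^ 16 / 2 ∧ c ^ 16 / 2 ≤ 1 / 2 := by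
  have h1 : 0 < c ^ 16 := by positivity
  have h2 : c ^ 16 ≤ 1 := pow_le_one₀ hc.le hc1
  constructor <;> linarith

theorem al_pos {c : ℝ} (hc : 0 < c) (hc1 : c ≤ 1) : 0 < al c := by
  obtain ⟨h1, h2⟩ := q_bounds hc hc1
  have hl4 : 0 < Real.log 4 := Real.log_pos (by norm_num)
  exact div_pos (neg_pos.2 (Real.log_neg (by linarith) (by linarith))) hl4

theorem al_le {c : ℝ} (hc : 0 < c) (hc1 : c ≤ 1) : al c ≤ 1 / 2 := by
  obtain ⟨h1, h2⟩ := q_bounds hc hc1
  have hl4 : 0 < Real.log 4 := Real.log_pos (by norm_num)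
  have hl : Real.log 4 = 2 * Real.log 2 := by
    rw [show (4 : ℝ) = 2 ^ 2 by norm_num, Real.log_pow]; norm_num
  unfold al
  rw [div_le_iff₀ hl4, hl]
  have h3 : Real.log (1 / 2) ≤ Real.log (1 - c ^ 16 / 2) :=
    Real.log_le_log (by norm_num) (by linarith)
  rw [one_div, Real.log_inv] at h3
  linarith

theorem Ca_pos (c : ℝ) : 0 < Ca c := by unfold Ca; positivity

theorem one_le_Ca {c : ℝ} (hc : 0 < c) (hc1 : c ≤ 1) : 1 ≤ Ca c :=
  Real.one_le_rpow (by norm_num) (al_pos hc hc1).le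

/-- **one-arm bound from dual circuits up to scale `N`** -/
theorem arm_of_circ (p : I) {c : ℝ} (hc : 0 < c) (hc1 : c ≤ 1) {N : ℕ}
    (h : ∀ (x : P2) (n : ℕ), 1 ≤ n → n ≤ N →
      c ^ 16 ≤ (Rs689.nu (σ p)).real (CircZ x n (2 * n)))
    (x : P2) {s R : ℕ} (hs : 1 ≤ s) (hsR : s ≤ R) (hRN : R ≤ N) :
    (Rs689.nu p).real (ArmX x s R) ≤ Ca c * ((s : ℝ) / R) ^ al c := by
  obtain ⟨hq, hq1⟩ := q_bounds hc hc1
  set q := c ^ 16 / 2 with hqdef
  have h1q : 0 < 1 - q := by linarith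
  have ha0 : 0 < al c := al_pos hc hc1
  have hs0 : (0 : ℝ) < s := by exact_mod_cast hs
  have hR0 : (0 : ℝ) < R := by exact_mod_cast (hs.trans hsR)
  unfold Ca
  by_cases hbig : 4 * s ≤ R
  · have hex : ∃ J : ℕ, 4 * s * 4 ^ J ≤ R ∧ R < 4 * s * 4 ^ (J + 1) := by
      have hlt : ∃ J : ℕ, R < 4 * s * 4 ^ (J + 1) := by
        refine ⟨R, ?_⟩
        have h2 : R < 4 ^ R := Nat.lt_pow_self (by norm_num)
        have h3 : 4 ^ R ≤ 4 ^ (R + 1) := Nat.pow_le_pow_right (by norm_num) (by omega)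
        have h4 : 1 * 4 ^ (R + 1) ≤ 4 * s * 4 ^ (R + 1) := Nat.mul_le_mul_right _ (by omega)
        omega
      classical
      refine ⟨Nat.find hlt, ?_, Nat.find_spec hlt⟩
      rcases Nat.eq_zero_or_pos (Nat.find hlt) with h0 | h0
      · rw [h0]; simpa using hbig
      · have h2 := Nat.find_min hlt (m := Nat.find hlt - 1) (by omega)
        rw [Nat.sub_add_cancel h0] at h2
        omega
    obtain ⟨J, hJ1, hJ2⟩ := hex
    have h2 : (Rs689.nu p).real (ArmX x s R) ≤ (1 - q) ^ J := by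
      refine arm_le_pow p hs hJ1 fun i hi => ?_
      have h3 : sc s i ≤ N := by
        refine le_trans ?_ (hJ1.trans hRN)
        unfold sc
        exact Nat.mul_le_mul_left _ (Nat.pow_le_pow_right (by norm_num) hi.le)
      have h4 : 1 ≤ sc s i := by
        unfold sc
        exact Nat.one_le_iff_ne_zero.2 (by positivity)
      have h5 := h x (sc s i) h4 h3
      have h6 : (0 : ℝ) < c ^ 16 := by positivity
      linarith
    refine h2.trans ?_
    have h3 : (1 - q) ^ J = ((4 : ℝ) ^ J)⁻¹ ^ al c := by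
      rw [← Real.rpow_natCast 4 J, ← Real.rpow_neg (by norm_num), ← Real.rpow_mul (by norm_num),
        ← Real.rpow_natCast (1 - q) J]
      rw [Real.rpow_def_of_pos h1q, Real.rpow_def_of_pos (by norm_num : (0 : ℝ) < 4)]
      congr 1
      unfold al
      rw [← hqdef]
      field_simp
    rw [h3, ← Real.mul_rpow (by norm_num) (by positivity)]
    refine Real.rpow_le_rpow (by positivity) ?_ ha0.le
    have h4 : (R : ℝ) < 4 * s * 4 ^ (J + 1) := by exact_mod_cast hJ2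
    rw [pow_succ] at h4
    rw [inv_le_iff_one_le_mul₀ (by positivity)]
    rw [← mul_div_assoc, div_mul_eq_mul_div, le_div_iff₀ hR0]
    nlinarith
  · have h2 : (Rs689.nu p).real (ArmX x s R) ≤ 1 := measureReal_le_one
    refine h2.trans ?_
    rw [← Real.mul_rpow (by norm_num) (by positivity)]
    refine Real.one_le_rpow ?_ ha0.le
    rw [← mul_div_assoc, le_div_iff₀ hR0]
    have h4 : (R : ℝ) ≤ 4 * s := by exact_mod_cast (by omega : R ≤ 4 * s)
    linarith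

/-- **one-arm bound at a near-critical parameter**, all centres, all scales up to `N` -/
theorem arm_nc {c p : ℝ} (hc : 0 < c) {N : ℕ} (h : RScale c p N) (x : P2) {s R : ℕ}
    (hs : 1 ≤ s) (hsR : s ≤ R) (hRN : R ≤ N) :
    Pr p (ArmX x s R) ≤ Ca c * ((s : ℝ) / R) ^ al c := by
  have hc1 : c ≤ 1 := (h.two_le (hs.trans (hsR.trans hRN))).trans (by norm_num)
  exact arm_of_circ (clampUnit p) hc hc1 (fun x n h1 h2 => circ_dual_ge hc h x h1 h2) x hs hsR hRN

/-- **dual one-arm bound** (the dual configuration has parameter `1 - p`) -/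
theorem arm_nc_dual {c p : ℝ} (hc : 0 < c) {N : ℕ} (h : RScale c p N) (x : P2) {s R : ℕ}
    (hs : 1 ≤ s) (hsR : s ≤ R) (hRN : R ≤ N) :
    (Rs689.nu (σ (clampUnit p))).real (ArmX x s R) ≤ Ca c * ((s : ℝ) / R) ^ al c := by
  have hc1 : c ≤ 1 := (h.two_le (hs.trans (hsR.trans hRN))).trans (by norm_num)
  refine arm_of_circ (σ (clampUnit p)) hc hc1 (fun x n h1 h2 => ?_) x hs hsR hRN
  rw [unitInterval.symm_symm]
  exact circ_primal_ge hc h x h1 h2

/-- **pivotal blocks at a near-critical parameter** -/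
theorem piv_nc {c p : ℝ} (hc : 0 < c) {N m : ℕ} (h : RScale c p N) (hm : 1 ≤ m) (hmN : m ≤ N)
    {a b c' d : ℤ} (hab : (N : ℤ) ≤ b - a) :
    2 * (Pr p {z : Cf | LRc z a b c' d} * (1 - Pr p {z : Cf | LRc z a b c' d})) ≤
      (4 * (Ca c + 3)) * ((m : ℝ) / N) ^ (al c / 2) *
        ∑ k ∈ (rS a b c' d).image (blk m), Pr p (PivS (blk m) k {z : Cf | LRc z a b c' d}) := by
  have hc1 : c ≤ 1 := (h.two_le (hm.trans hmN)).trans (by norm_num)
  exact piv_blocks_pow (clampUnit p) (Ca_pos c).le (al_pos hc hc1)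
    ((al_le hc hc1).trans (by norm_num)) hm hmN
    (fun R h1 h2 => arm_nc hc h (0, 0) hm h1 h2) hab

/-- **pivotal blocks for `LR n`**: `∑ P(block pivotal) ≥ κ (n/m)^{α/2}` with `f(1-f) ≥ c(1-c)` -/
theorem piv_nc_LR {c p : ℝ} (hc : 0 < c) {n m : ℕ} (h : RScale c p n) (hm : 1 ≤ m) (hmn : m ≤ n) :
    2 * (c * (1 - c)) ≤ (4 * (Ca c + 3)) * ((m : ℝ) / n) ^ (al c / 2) *
        ∑ k ∈ (rS 0 (3 * n) 0 n).image (blk m), Pr p (PivS (blk m) k (LR n)) := by
  have h1 := piv_nc hc h hm hmn (a := 0) (b := 3 * n) (c' := 0) (d := n) (by omega)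
  refine le_trans ?_ h1
  obtain ⟨h2, h3⟩ := h n (hm.trans hmn) le_rfl
  have h4 := lrn_le_btn p (n := (n : ℤ)) (by omega)
  have h5 : Pr p {z : Cf | LRc z 0 (3 * n) 0 n} = Pr p (LR n) := rfl
  rw [h5]
  have h6 : Pr p (LR n) ≤ 1 - c := h4.trans h3
  nlinarith

end Crest.Agent.R158.Os488
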