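import Crest.Agent.R158.Cpl8_963
import Crest.Agent.R158.Os5_488

/-!
# Row 158 (helper963): RSW hypotheses `RSp`, `RScale` in the window
-/

set_option autoImplicit false

noncomputable section

namespace Crest.Agent.R158.Cpl963

open MeasureTheory ProbabilityTheory unitInterval Filter Topology
open Crest.Agent.R161.Tas682
open Crest.Agent.R158.Rs689 Crest.Agent.R158.Qm522
open Crest.ProbabilityR.Percolation

/-- 580's RSW hypothesis in the window -/
theorem RSp_win (hU : HypU4) : ∃ c : ℝ, 0 < c ∧ c ≤ 1 ∧ ∀ δ : ℝ, 0 < δ → ∀ᶠ N : ℕ in atTop,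
    ∀ p : I, |(p : ℝ) - 1 / 2| ≤ (N : ℝ) ^ (-(3 / 4 : ℝ) - δ) → Sp580.RSp c p N := by
  obtain ⟨c', hc'0, hc'⟩ := xpr_win hU
  refine ⟨min c' 1, lt_min hc'0 one_pos, min_le_right _ _, fun δ hδ => ?_⟩
  filter_upwards [hc' δ hδ] with N h
  intro p hp
  refine ⟨lt_min hc'0 one_pos, fun n hn hnN => ⟨?_, ?_⟩⟩
  · exact (min_le_left _ _).trans ((h p hp n hn hnN).trans
      (xpr_mono p (by omega) (by omega) (by omega)))
  · exact (min_le_left _ _).trans ((h (σ p) (by rw [abs_sigma]; exact hp) n hn hnN).trans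
      (xpr_mono (σ p) (by omega) (by omega) (by omega)))

/-- 488's / 570's RSW hypothesis in the window -/
theorem RScale_win (hU : HypU4) : ∃ c : ℝ, 0 < c ∧ c ≤ 1 ∧ ∀ δ : ℝ, 0 < δ → ∀ᶠ N : ℕ in atTop,
    ∀ q : ℝ, |q - 1 / 2| ≤ (N : ℝ) ^ (-(3 / 4 : ℝ) - δ) → Os488.RScale c q N := by
  obtain ⟨c', hc'0, hc'⟩ := xpr_win hU
  refine ⟨min c' 1, lt_min hc'0 one_pos, min_le_right _ _, fun δ hδ => ?_⟩
  have ev4 : ∀ᶠ N : ℕ in atTop, (N : ℝ) ^ (-(3 / 4 : ℝ) - δ) < 1 / 4 := by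
    have h1 : Tendsto (fun N : ℕ => (N : ℝ) ^ (-(3 / 4 + δ))) atTop (𝓝 0) :=
      (tendsto_rpow_neg_atTop (by positivity)).comp tendsto_natCast_atTop_atTop
    refine (h1.eventually_lt_const (show (0 : ℝ) < 1 / 4 by norm_num)).mono fun N hN => ?_
    have e : -(3 / 4 : ℝ) - δ = -(3 / 4 + δ) := by ring
    rw [e]
    exact hN
  filter_upwards [hc' δ hδ, ev4] with N h h4
  intro q hq n hn hnN
  have hcl := clamp_coe (hq.trans_lt h4)
  have h1 := h (clampUnit q) (by rw [hcl]; exact hq) n hn hnN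
  have h2 := h (σ (clampUnit q)) (by rw [abs_sigma, hcl]; exact hq) n hn hnN
  have hm : min c' 1 ≤ c' := min_le_left _ _
  constructor
  · have h3 : Fr158.Pr q (Fr158.LR n) = xpr (clampUnit q) (3 * n) n := by
      have := lr_eq_xpr (clampUnit q) 0 (3 * n) 0 n
      rw [sub_zero, sub_zero] at this
      exact this
    rw [h3]
    exact hm.trans (h1.trans (xpr_mono _ (by omega) (by omega) (by omega)))
  · have h3 : Fr158.Pr q (Fr158.BT n) = xpr (clampUnit q) n (3 * n) := by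
      have := bt_eq_xpr (clampUnit q) 0 (3 * n) 0 n
      rw [sub_zero, sub_zero] at this
      exact this
    have h4 := xpr_dual (clampUnit q) n (3 * n) (by omega) (by omega)
    rw [h3]
    linarith

end Crest.Agent.R158.Cpl963
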