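import Crest.Agent.R158.Pj3_679

/-!
# R158 (helper679): the probability half in helper434's literal shape

* `free_mem` : a port of a region whose neighbour tile is outside is an end of every word
* **`stp_prob'`** : `P{∃ i ≠ j ∈ Jl, M i, M j ∈ Jo} ≤ C (r/n)^(1+c)` for the stepped half annulus
-/

set_option autoImplicit false

namespace Crest.Agent.R158.Pj679

open MeasureTheory
open Crest.Agent.R158.Sw300 (Port Wd)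
open Crest.Agent.R158.Gc748 (RW mem_fl stp InS mem_stp JoW JoN JoS JlS JlE JlN)
open Crest.Agent.R158.Xr249 (Reg)
open Crest.Agent.R158.Mr679 (TF tau)
open Crest.Agent.R158.Rs689 (hf)

/-- a port whose neighbour tile is outside is an end -/
theorem free_mem {K : Reg} {w : Wd (ℤ × ℤ)} {b : ℤ × ℤ} (hw : RW K w b) {t : ℤ × ℤ} {d : ZMod 4}
    (ht : t ∈ K.P) (hn : nbt t d ∉ K.P) : some (t, d) ∈ Sw300.L w := by
  refine mem_L_of_free hw.ok ((hw.tls t).2 ht) ?_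
  by_contra hne
  have h1 : K.gl (some (t, d)) (Sw300.be w (some (t, d))) :=
    (hw.be _ _).2 ⟨rfl, fun e => hne e.symm⟩
  exact hn (gl_geo h1).2.1

theorem jl_mem {X Y : ℤ} {r n e : ℕ} (hr : 1 ≤ r) (hrn : r + 1 ≤ n) {w : Wd (ℤ × ℤ)}
    {b : ℤ × ℤ} (hw : RW (stp X Y r n e) w b) {i : Port (ℤ × ℤ)} (hi : i ∈ Jl X Y r e) :
    i ∈ Sw300.L w := by
  simp only [Jl, JlS, JlE, JlN, List.mem_append, mem_fl] at hi
  rcases hi with ⟨k, hk, rfl⟩ | ⟨k, hk, rfl⟩ | ⟨k, hk, rfl⟩ <;>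
    refine free_mem hw ?_ ?_ <;>
    simp only [mem_stp, nbt_1, nbt_2, nbt_3] <;> unfold InS <;> simp only <;> omega

theorem jo_mem {X Y : ℤ} {r n e : ℕ} (hr : 1 ≤ r) (hrn : r + 1 ≤ n) {w : Wd (ℤ × ℤ)}
    {b : ℤ × ℤ} (hw : RW (stp X Y r n e) w b) {i : Port (ℤ × ℤ)} (hi : i ∈ Jo X Y n e) :
    i ∈ Sw300.L w := by
  simp only [Jo, JoW, JoN, JoS, List.mem_append, mem_fl] at hi
  rcases hi with ⟨k, hk, rfl⟩ | ⟨k, hk, rfl⟩ | ⟨k, hk, rfl⟩ <;>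
    refine free_mem hw ?_ ?_ <;>
    simp only [mem_stp, nbt_0, nbt_1, nbt_3] <;> unfold InS <;> simp only <;> omega

/-- **helper434's literal shape** -/
theorem stp_prob' : ∃ c : ℝ, 0 < c ∧ c ≤ 1 ∧ ∀ e : ℕ, ∃ C : ℝ, 1 ≤ C ∧
    ∀ (X Y : ℤ) (r n : ℕ), 1 ≤ r → r + 1 ≤ n → ∀ (w : Wd (ℤ × ℤ)) (b : ℤ × ℤ),
    RW (stp X Y r n e) w b →
    (Mr679.tau hf).real {s | ∃ i j, i ∈ Jl X Y r e ∧ j ∈ Jl X Y r e ∧ i ≠ j ∧
      Sw300.M s w i ∈ Jo X Y n e ∧ Sw300.M s w j ∈ Jo X Y n e} ≤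
      C * ((r : ℝ) / n) ^ (1 + c) := by
  obtain ⟨c, hc, hc1, h⟩ := stp_prob
  refine ⟨c, hc, hc1, fun e => ?_⟩
  obtain ⟨C, hC, h⟩ := h e
  refine ⟨C, hC, fun X Y r n hr hrn w b hw => (measureReal_mono ?_).trans (h X Y r n hr hrn w b hw)⟩
  rintro s ⟨i, j, li, lj, h1⟩
  exact ⟨i, jl_mem hr hrn hw li, j, jl_mem hr hrn hw lj, li, lj, h1⟩

/-- the same with the product measure written out -/
theorem stp_prob'' : ∃ c : ℝ, 0 < c ∧ c ≤ 1 ∧ ∀ e : ℕ, ∃ C : ℝ, 1 ≤ C ∧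
    ∀ (X Y : ℤ) (r n : ℕ), 1 ≤ r → r + 1 ≤ n → ∀ (w : Wd (ℤ × ℤ)) (b : ℤ × ℤ),
    RW (stp X Y r n e) w b →
    (Rs689.PB fun _ : ℤ × ℤ => hf).real {s | ∃ i j, i ∈ Jl X Y r e ∧ j ∈ Jl X Y r e ∧ i ≠ j ∧
      Sw300.M s w i ∈ Jo X Y n e ∧ Sw300.M s w j ∈ Jo X Y n e} ≤
      C * ((r : ℝ) / n) ^ (1 + c) := stp_prob'

end Crest.Agent.R158.Pj679
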