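import Crest.Agent.R158.Pj2_679

/-!
# R158 (helper679): two crossing strands of a half annulus give the (F3) event, part 3

* `Ev D X Y r n` : the (F3) event of the half annulus `(r, n)` at a flat wall; **`ev_prob`**
* **`two_ev`** : two different crossings (general chart form) ⟹ `s ∈ Ev`
* **`one_ev`** : `¬ OneC` ⟹ `s ∈ Ev`
* **`word_ev`** : any region behind the wall, arcs of a word
* **`stp_ev`, `stp_prob`** : the stepped half annulus of helper748 / helper434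
-/

set_option autoImplicit false

namespace Crest.Agent.R158.Pj679

open MeasureTheory
open Crest.Agent.R158.Sw300 (Port Wd thru)
open Crest.Agent.R158.Gc748 (off FullAt RW gl Gp gd_wd M_none M_fix lc rc R Wk bs pt_inj mem_fl stp
  InS mem_stp JoW JoN JoS JlS JlE JlN)
open Crest.Agent.R158.Sl434
open Crest.Agent.R158.Xr249 (Reg full full_P)
open Crest.Agent.R158.Mr679 (TF tau)
open Crest.Agent.R158.Rs689 (hf)

/-- the (F3) event: two distinct clusters of faces of the same parity cross the half annulus -/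
def Ev (D : Dr) (X Y r n : ℤ) : Set TF := Fw814.T3 (D.dd X Y) (D.ss X Y r n) r n

/-- **(F3)** for the four walls -/
theorem ev_prob : ∃ C c : ℝ, 1 ≤ C ∧ 0 < c ∧ c ≤ 1 ∧ ∀ (D : Dr) (X Y r n : ℤ), 1 ≤ r → r ≤ n →
    (tau hf).real (Ev D X Y r n) ≤ C * ((r : ℝ) / n) ^ (1 + c) := by
  obtain ⟨c, hc, hc1, h⟩ := Fw814.f3_slack
  obtain ⟨C, hC, h⟩ := h 0
  refine ⟨C, c, hC, hc, hc1, fun D X Y r n hr hrn => ?_⟩
  have := h X Y r n hr hrn
  simp only [Nat.cast_zero, add_zero, sub_zero] at this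
  cases D
  · exact this.1
  · exact this.2.1
  · exact this.2.2.1
  · exact this.2.2.2

/-- **two different crossings of the half annulus**, general chart form -/
theorem two_ev (D : Dr) {Xc Yc r n : ℤ} (hr : 0 ≤ r) (hrn : r < n) {X : Type*}
    {s : ℤ × ℤ → Bool} {al be : X → X} {O J : Set X} {φ : X → Port (ℤ × ℤ)} {rd : X → ℤ}
    (hl : Loc s al be (Ann O rd r (n + 1)) J φ rd (D.H Xc Yc) (D.rho Xc Yc) r n) {p q p' q' : X}
    (hp : InP be O J rd r (n + 1) p) (hq : OutP be O J rd r (n + 1) q)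
    (hpq : Rl al be (Ann O rd r (n + 1)) (AnnJ be O J rd r (n + 1)) p q)
    (hp' : InP be O J rd r (n + 1) p') (hq' : OutP be O J rd r (n + 1) q')
    (hpq' : Rl al be (Ann O rd r (n + 1)) (AnnJ be O J rd r (n + 1)) p' q')
    (hne : φ p ≠ φ p') : s ∈ Ev D Xc Yc r n := by
  have h := two_t3 (Dr.an D hr hrn) hl hp hq hpq hp' hq' hpq' hne
  have e : (fun t => t ∈ (full (D.A Xc Yc r n)).P) = D.ss Xc Yc r n := by
    funext t
    rw [full_P, Dr.mem_A hr]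
  rwa [e] at h

/-- **if more than one class joins the far set to the interface, the (F3) event occurs** -/
theorem one_ev (D : Dr) {Xc Yc r n : ℤ} (hr : 0 ≤ r) (hrn : r < n) {X : Type*}
    {s : ℤ × ℤ → Bool} {al be : X → X} (hal : Function.Involutive al)
    (hbe : Function.Involutive be) {O J F : Set X} {φ : X → Port (ℤ × ℤ)} {rd : X → ℤ}
    (hl : Loc s al be (Ann O rd r (n + 1)) J φ rd (D.H Xc Yc) (D.rho Xc Yc) r n)
    (hφ : ∀ x ∈ Ann O rd r (n + 1), ∀ y ∈ Ann O rd r (n + 1), φ x = φ y → x = y)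
    (hal' : ∀ x ∈ O, rd (al x) = rd x)
    (hρ : ∀ x ∈ O, x ∉ J → be x ∈ O → rd (be x) ≤ rd x + 1) (hJ : ∀ j ∈ J, rd j ≤ r)
    (hF : ∀ x ∈ F, n < rd x) (h : ¬ OneC al be O J F) : s ∈ Ev D Xc Yc r n := by
  obtain ⟨p, q, p', q', h1, h2, h3, h4, h5, h6, h7⟩ :=
    two_cross hal hbe (r := r) (R := n + 1) (by omega) hal' hρ hJ
      (fun x hx => by have := hF x hx; omega) h
  refine two_ev D hr hrn hl h1 h2 h3 h4 h5 h6 fun e => h7 ?_
  rw [hφ p h1.1 p' h4.1 e]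
  exact .refl h4.1.1

/-! ### planar systems -/

/-- radius of the tile of a port -/
def prt (ρ : ℤ × ℤ → ℤ) (x : Port (ℤ × ℤ)) : ℤ := x.elim 0 fun y => ρ y.1

@[simp] theorem prt_none (ρ : ℤ × ℤ → ℤ) : prt ρ none = 0 := rfl
@[simp] theorem prt_some (ρ : ℤ × ℤ → ℤ) (t : ℤ × ℤ) (d : ZMod 4) : prt ρ (some (t, d)) = ρ t := rfl

theorem prt_pas (ρ : ℤ × ℤ → ℤ) (s : ℤ × ℤ → Bool) (x : Port (ℤ × ℤ)) :
    prt ρ (pas s x) = prt ρ x := by
  rcases x with - | ⟨t, d⟩ <;> rfl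

/-- planar systems: identity chart -/
theorem loc_plain {H : ℤ × ℤ → Prop} {ρ : ℤ × ℤ → ℤ} {r n : ℤ} (s : ℤ × ℤ → Bool)
    {be : Port (ℤ × ℤ) → Port (ℤ × ℤ)} {O J : Set (Port (ℤ × ℤ))}
    (h1 : ∀ x ∈ Ann O (prt ρ) r (n + 1), ∃ t d, x = some (t, d) ∧ H t)
    (h2 : ∀ x ∈ Ann O (prt ρ) r (n + 1), x ∉ J → be x = x ∨
      ∃ t d, x = some (t, d) ∧ H (nbt t d) ∧ be x = some (nbt t d, d + 2)) :
    Loc s (pas s) be (Ann O (prt ρ) r (n + 1)) J id (prt ρ) H ρ r n where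
  som := by
    intro x hx
    obtain ⟨t, d, rfl, h3⟩ := h1 x hx
    have h4 : r < ρ t := hx.2.1
    have h5 : ρ t < n + 1 := hx.2.2
    exact ⟨t, d, rfl, h3, h4, by omega⟩
  al := fun _ _ _ => rfl
  be := by
    intro x hx hJ
    rcases h2 x hx hJ with h3 | ⟨t, d, h3, h4, h5⟩
    · exact Or.inl h3
    · refine Or.inr ⟨t, d, h3, h4, fun _ => h5, fun h6 => ?_, fun h6 => ?_⟩
      · rw [h5] at h6; exact h6
      · rw [h5] at h6; exact h6

/-- glueings of a region are geometric -/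
theorem gl_geo {K : Reg} {t : ℤ × ℤ} {d : ZMod 4} {q : Port (ℤ × ℤ)} (h : K.gl (some (t, d)) q) :
    t ∈ K.P ∧ nbt t d ∈ K.P ∧ q = some (nbt t d, d + 2) := by
  obtain ⟨x, y⟩ := t
  have a0 : (0 : ZMod 4) + 2 = 2 := by decide
  have a1 : (1 : ZMod 4) + 2 = 3 := by decide
  have a2 : (2 : ZMod 4) + 2 = 0 := by decide
  have a3 : (3 : ZMod 4) + 2 = 1 := by decide
  rcases Reg.d4 d with rfl | rfl | rfl | rfl
  · obtain ⟨h1, h2⟩ := Reg.gl_0.1 h
    have := K.hP _ _ h1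
    rw [sub_add_cancel] at this
    exact ⟨this.2, this.1, by rw [a0]; exact h2⟩
  · obtain ⟨h1, h2⟩ := Reg.gl_1.1 h
    have := K.vP _ _ h1
    exact ⟨this.1, this.2, by rw [a1]; exact h2⟩
  · obtain ⟨h1, h2⟩ := Reg.gl_2.1 h
    have := K.hP _ _ h1
    exact ⟨this.1, this.2, by rw [a2]; exact h2⟩
  · obtain ⟨h1, h2⟩ := Reg.gl_3.1 h
    have := K.vP _ _ h1
    rw [sub_add_cancel] at this
    exact ⟨this.2, this.1, by rw [a3]; exact h2⟩

/-- the radius changes by at most one -/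
theorem Dr.rho_nbt (D : Dr) (X Y : ℤ) (t : ℤ × ℤ) (d : ZMod 4) :
    D.rho X Y (nbt t d) ≤ D.rho X Y t + 1 := by
  obtain ⟨x, y⟩ := t
  rcases Reg.d4 d with rfl | rfl | rfl | rfl <;> cases D <;>
    simp only [Dr.rho, nbt_0, nbt_1, nbt_2, nbt_3] <;> omega

/-- the ports of the tiles of a region -/
def PO (K : Reg) : Set (Port (ℤ × ℤ)) := {x | ∃ t d, x = some (t, d) ∧ t ∈ K.P}

section word

variable {K : Reg} {w : Wd (ℤ × ℤ)} {b : ℤ × ℤ} {s : ℤ × ℤ → Bool}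

/-- strands of a word are walks of the system `(pas, be)` -/
theorem wk_rl (hw : RW K w b) {x y : Port (ℤ × ℤ)} (h : Wk s (gl w) x y) (hx : x ∈ PO K) :
    Rl (pas s) (Sw300.be w) (PO K) ∅ x y := by
  induction h with
  | one t d =>
    have : (Gc748.pt t (thru (s t) d) : Port (ℤ × ℤ)) ∈ PO K := by
      obtain ⟨t', d', h1, h2⟩ := hx
      obtain ⟨rfl, -⟩ := pt_inj.1 h1
      exact ⟨_, _, rfl, h2⟩
    exact ⟨hx, .single ⟨hx, this, Or.inl rfl⟩⟩
  | @step x y z v _ hg _ ih1 ih2 =>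
    have h1 := ih1 hx
    have h2 := h1.right
    have h3 : K.gl y z := hw.gp.1 hg
    have h4 : Sw300.be w y = z := ((hw.be _ _).1 h3).1
    have h5 : z ∈ PO K := by
      obtain ⟨t, d, rfl, -⟩ := h2
      obtain ⟨-, h6, h7⟩ := gl_geo h3
      exact ⟨_, _, h7, h6⟩
    refine h1.trans (Rl.trans ⟨h2, .single ⟨h2, h5, Or.inr ⟨h4.symm, by simp, by simp⟩⟩⟩ (ih2 h5))

/-- the glueing of a word of a region -/
theorem be_geo (hw : RW K w b) {x : Port (ℤ × ℤ)} (hx : x ∈ PO K) : Sw300.be w x = x ∨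
    ∃ t d, x = some (t, d) ∧ nbt t d ∈ K.P ∧ Sw300.be w x = some (nbt t d, d + 2) := by
  by_cases h : Sw300.be w x = x
  · exact Or.inl h
  · right
    have h1 : K.gl x (Sw300.be w x) := (hw.be _ _).2 ⟨rfl, fun e => h e.symm⟩
    obtain ⟨t, d, rfl, -⟩ := hx
    obtain ⟨-, h2, h3⟩ := gl_geo h1
    exact ⟨t, d, rfl, h2, h3⟩

/-- **word form, any region behind the wall**: two different arcs from radius `≤ r` to radius
`> n` -/
theorem word_ev (D : Dr) {X Y r n : ℤ} (hr : 0 ≤ r) (hrn : r < n) (hw : RW K w b)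
    (hK : ∀ t ∈ K.P, D.H X Y t) {i j : Port (ℤ × ℤ)} (hi : i ∈ Sw300.L w) (hj : j ∈ Sw300.L w)
    (hij : i ≠ j) (hM : Sw300.M s w i ≠ j) (ri : prt (D.rho X Y) i ≤ r)
    (rj : prt (D.rho X Y) j ≤ r) (ni : n < prt (D.rho X Y) (Sw300.M s w i))
    (nj : n < prt (D.rho X Y) (Sw300.M s w j)) : s ∈ Ev D X Y r n := by
  have g := hw.gd s
  have hbs : bs w ≠ none := by rw [hw.bas]; simp
  -- ends
  have ends : ∀ k, k ∈ Sw300.L w → n < prt (D.rho X Y) (Sw300.M s w k) →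
      prt (D.rho X Y) k ≤ r → k ∈ PO K ∧ Sw300.M s w k ≠ k := by
    intro k hk h1 h2
    have h3 : Sw300.M s w k ≠ k := fun e => by rw [e] at h1; omega
    refine ⟨?_, h3⟩
    rcases k with - | ⟨t, d⟩
    · exact absurd (M_none s hw.ok hbs) h3
    · exact ⟨t, d, rfl, hw.ts.1 (Gc748.inT_pt.1 (g.inL _ hk))⟩
  obtain ⟨ki, mi⟩ := ends i hi ni ri
  obtain ⟨kj, mj⟩ := ends j hj nj rj
  have wi := wk_rl hw (g.str i hi mi) ki
  have wj := wk_rl hw (g.str j hj mj) kj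
  have hbi : Function.Involutive (Sw300.be w) := by
    intro x
    by_cases h : Sw300.be w x = x
    · rw [h, h]
    · have h1 : K.gl x (Sw300.be w x) := (hw.be _ _).2 ⟨rfl, fun e => h e.symm⟩
      have h2 := (hw.gp.1 (hw.gp.2 h1).symm)
      exact ((hw.be _ _).1 h2).1
  have hρ : ∀ x ∈ PO K, x ∉ (∅ : Set (Port (ℤ × ℤ))) → Sw300.be w x ∈ PO K →
      prt (D.rho X Y) (Sw300.be w x) ≤ prt (D.rho X Y) x + 1 := by
    intro x hx _ _
    rcases be_geo hw hx with h1 | ⟨t, d, rfl, -, h2⟩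
    · rw [h1]; omega
    · rw [h2, prt_some, prt_some]; exact D.rho_nbt X Y t d
  obtain ⟨p, q, h1, h2, h3, h4⟩ := wi.cross hbi (r := r) (R := n + 1) (by omega)
    (fun x _ => prt_pas _ s x) hρ ri (by omega)
  obtain ⟨p', q', h1', h2', h3', h4'⟩ := wj.cross hbi (r := r) (R := n + 1) (by omega)
    (fun x _ => prt_pas _ s x) hρ rj (by omega)
  have hl : Loc s (pas s) (Sw300.be w) (Ann (PO K) (prt (D.rho X Y)) r (n + 1)) ∅ id
      (prt (D.rho X Y)) (D.H X Y) (D.rho X Y) r n := by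
    refine loc_plain s (fun x hx => ?_) fun x hx _ => ?_
    · obtain ⟨t, d, h5, h6⟩ := hx.1
      exact ⟨t, d, h5, hK t h6⟩
    · rcases be_geo hw hx.1 with h5 | ⟨t, d, h5, h6, h7⟩
      · exact Or.inl h5
      · exact Or.inr ⟨t, d, h5, hK _ h6, h7⟩
  refine two_ev D hr hrn hl h1 h2 h4 h1' h2' h4' fun e => ?_
  have e' : p = p' := e
  subst e'
  have hjoin : Rl (pas s) (Sw300.be w) (PO K) ∅ i j := h3.trans (h3'.symm (pas_inv s) hbi)
  have hss : SS s (some b) (gl w) (id i) (id j) := by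
    refine rl_sides (φ := id) (fun _ _ _ => rfl) (fun x _ _ _ => ?_) hjoin
    by_cases h : Sw300.be w x = x
    · exact Or.inl h
    · exact Or.inr (hw.gp.2 ((hw.be _ _).2 ⟨rfl, fun e => h e.symm⟩))
  rcases hss.eq_or g hi mi hj with h5 | h5
  · exact hij h5.symm
  · exact hM h5.symm

end word

/-! ### the stepped half annulus -/

/-- the ends facing the hole -/
noncomputable def Jl (X Y : ℤ) (r e : ℕ) : List (Port (ℤ × ℤ)) := JlS X Y r ++ (JlE X Y r ++ JlN X Y r e)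

/-- the outer ends -/
noncomputable def Jo (X Y : ℤ) (n e : ℕ) : List (Port (ℤ × ℤ)) := JoW X Y n ++ (JoN X Y n ++ JoS X Y n e)

theorem jl_rho {X Y : ℤ} {r e : ℕ} (hr : 1 ≤ r) {i : Port (ℤ × ℤ)} (h : i ∈ Jl X Y r e) :
    prt (Dr.E.rho (X + e) (Y - 1)) i ≤ r + 1 + e := by
  simp only [Jl, JlS, JlE, JlN, List.mem_append, mem_fl] at h
  rcases h with ⟨k, hk, rfl⟩ | ⟨k, hk, rfl⟩ | ⟨k, hk, rfl⟩ <;>
    simp only [prt_some, Dr.rho] <;> omega

theorem jo_rho {X Y : ℤ} {n e : ℕ} (hn : 1 ≤ n) {i : Port (ℤ × ℤ)} (h : i ∈ Jo X Y n e) :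
    (n : ℤ) ≤ prt (Dr.E.rho (X + e) (Y - 1)) i := by
  simp only [Jo, JoW, JoN, JoS, List.mem_append, mem_fl] at h
  rcases h with ⟨k, hk, rfl⟩ | ⟨k, hk, rfl⟩ | ⟨k, hk, rfl⟩ <;>
    simp only [prt_some, Dr.rho] <;> omega

/-- **stepped half annulus, deterministic half**: two different arcs between the hole and the outer
side give the (F3) event of the completed half annulus -/
theorem stp_ev {X Y : ℤ} {r n e : ℕ} (hr : 1 ≤ r) (hn : r + e + 2 < n) {w : Wd (ℤ × ℤ)}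
    {b : ℤ × ℤ} (hw : RW (stp X Y r n e) w b) {s : ℤ × ℤ → Bool} {i j : Port (ℤ × ℤ)}
    (hi : i ∈ Sw300.L w) (hj : j ∈ Sw300.L w) (li : i ∈ Jl X Y r e) (lj : j ∈ Jl X Y r e)
    (hij : i ≠ j) (oi : Sw300.M s w i ∈ Jo X Y n e) (oj : Sw300.M s w j ∈ Jo X Y n e) :
    s ∈ Ev Dr.E (X + e) (Y - 1) (r + 1 + e) (n - 1) := by
  have h1 := jl_rho hr li
  have h2 := jl_rho hr lj
  have h3 := jo_rho (by omega) oi
  have h4 := jo_rho (by omega) oj
  refine word_ev Dr.E (by omega) (by omega) hw (fun t ht => ?_) hi hj hij (fun e' => ?_) h1 h2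
    (by omega) (by omega)
  · have := mem_stp.1 ht
    unfold InS at this
    simp only [Dr.H]
    omega
  · rw [e'] at h3
    omega

theorem stp_arith {C c : ℝ} (hC : 1 ≤ C) (hc : 0 < c) (hc1 : c ≤ 1) {r n e : ℕ} (hr : 1 ≤ r)
    (hrn : r + 1 ≤ n) {x : ℝ} (hx : x ≤ 1)
    (h : r + e + 2 < n → x ≤ C * (((r + 1 + e : ℤ) : ℝ) / ((n - 1 : ℤ) : ℝ)) ^ (1 + c)) :
    x ≤ C * (2 * e + 4) ^ 2 * ((r : ℝ) / n) ^ (1 + c) := by
  have hr' : (1 : ℝ) ≤ r := by exact_mod_cast hr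
  have hn' : (r : ℝ) + 1 ≤ n := by exact_mod_cast hrn
  have he : (0 : ℝ) ≤ e := Nat.cast_nonneg e
  have hn0 : (0 : ℝ) < n := by linarith
  have hK : (1 : ℝ) ≤ 2 * e + 4 := by linarith
  have hpow : (2 * (e : ℝ) + 4) ^ (1 + c) ≤ (2 * e + 4) ^ 2 := by
    have := Real.rpow_le_rpow_of_exponent_le hK (show 1 + c ≤ ((2 : ℕ) : ℝ) by push_cast; linarith)
    rwa [Real.rpow_natCast] at this
  have hq : (0 : ℝ) ≤ (r : ℝ) / n := by positivity
  have hq2 : (0 : ℝ) ≤ ((r : ℝ) / n) ^ (1 + c) := Real.rpow_nonneg hq _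
  have key : ∀ y : ℝ, 0 ≤ y → y ≤ (2 * e + 4) * ((r : ℝ) / n) →
      y ^ (1 + c) ≤ (2 * e + 4) ^ 2 * ((r : ℝ) / n) ^ (1 + c) := by
    intro y hy0 hy
    refine (Real.rpow_le_rpow hy0 hy (by linarith)).trans ?_
    rw [Real.mul_rpow (by linarith) hq]
    exact mul_le_mul_of_nonneg_right hpow hq2
  by_cases h1 : r + e + 2 < n
  · refine (h h1).trans ?_
    have h2 : (r : ℝ) + e + 2 < n := by exact_mod_cast h1
    push_cast
    rw [mul_assoc]
    refine mul_le_mul_of_nonneg_left (key _ (div_nonneg (by linarith) (by linarith)) ?_)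
      (by linarith)
    rw [mul_div_assoc', div_le_div_iff₀ (by linarith) hn0]
    nlinarith [mul_nonneg he (sub_nonneg.2 hr')]
  · have h2 : (n : ℝ) ≤ r + e + 2 := by
      have : n ≤ r + e + 2 := by omega
      exact_mod_cast this
    have h3 := key 1 (by norm_num) (by
      rw [mul_div_assoc', le_div_iff₀ hn0]
      nlinarith [mul_nonneg he (sub_nonneg.2 hr')])
    rw [Real.one_rpow] at h3
    calc x ≤ 1 := hx
      _ ≤ 1 * ((2 * (e : ℝ) + 4) ^ 2 * ((r : ℝ) / n) ^ (1 + c)) := by rw [one_mul]; exact h3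
      _ ≤ C * ((2 * (e : ℝ) + 4) ^ 2 * ((r : ℝ) / n) ^ (1 + c)) :=
        mul_le_mul_of_nonneg_right hC (by positivity)
      _ = _ := by ring

/-- **stepped half annulus, probability**: exponent `1 + c` for two arcs between the hole and the
outer side -/
theorem stp_prob : ∃ c : ℝ, 0 < c ∧ c ≤ 1 ∧ ∀ e : ℕ, ∃ C : ℝ, 1 ≤ C ∧
    ∀ (X Y : ℤ) (r n : ℕ), 1 ≤ r → r + 1 ≤ n → ∀ (w : Wd (ℤ × ℤ)) (b : ℤ × ℤ),
    RW (stp X Y r n e) w b →
    (tau hf).real {s | ∃ i ∈ Sw300.L w, ∃ j ∈ Sw300.L w, i ∈ Jl X Y r e ∧ j ∈ Jl X Y r e ∧ i ≠ j ∧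
      Sw300.M s w i ∈ Jo X Y n e ∧ Sw300.M s w j ∈ Jo X Y n e} ≤
      C * ((r : ℝ) / n) ^ (1 + c) := by
  obtain ⟨C, c, hC, hc, hc1, h⟩ := ev_prob
  refine ⟨c, hc, hc1, fun e => ⟨C * (2 * e + 4) ^ 2, ?_, fun X Y r n hr hrn w b hw => ?_⟩⟩
  · have he : (0 : ℝ) ≤ e := Nat.cast_nonneg e
    nlinarith [sq_nonneg (e : ℝ)]
  · refine stp_arith hC hc hc1 hr hrn measureReal_le_one fun h1 => ?_
    refine (measureReal_mono ?_).trans (h Dr.E (X + e) (Y - 1) (r + 1 + e) (n - 1) (by omega)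
      (by omega))
    rintro s ⟨i, hi, j, hj, li, lj, hij, oi, oj⟩
    exact stp_ev hr h1 hw hi hj li lj hij oi oj

end Crest.Agent.R158.Pj679

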