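import Crest.Agent.R158.Sl11_434
import Crest.Agent.R158.Pj3_679
import Crest.Agent.R158.Wd2_377
import Crest.Agent.R158.Xr12_249

/-!
# R158, block SL (helper434), file Sl12: `D^(z)` against `D^+(z)`

* `mouth_right`, `mouth_left` : the two comparisons
* **`comp_gen`** : `‖HW w - HW w2‖ ≤ 2 P(X2, e = 1) + 2 P(X2, e = 0)` for words of `D^(z)` and `D^+(z)`
-/

set_option autoImplicit false
set_option linter.unusedSectionVars false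

noncomputable section

namespace Crest.Agent.R158.Sl434

open MeasureTheory ProbabilityTheory
open Crest.Agent.R158.Sw300 (Port Wd thru tls)
open Crest.Agent.R158.Gc748 (RW stp InS)
open Crest.Agent.R158.Xr249 (Nx rot Reg full Dp mem_Dp Free rct mem_rct CPath cc_union SC_of_cc
  full_Conn exists_GW exists_GW_Dp)
open Crest.Agent.R158.Env664
open Crest.Agent.R158.Ob664 (Gl GW HV HW HG HA HD rgt)
open Crest.Agent.R158.Rs689 (PB hf)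
open Crest.Agent.R158.Wd377 (MK be_eq)

/-- data of a pair from good words -/
theorem pair_of_gw {K : Reg} {w0 : Wd (ℤ × ℤ)} {N1 Jl N2 Jo : List (Port (ℤ × ℤ))}
    {Ob : ℤ × ℤ → Prop} {a b : Port (ℤ × ℤ)} {w w' : Wd (ℤ × ℤ)} {Ft At : Set (ℤ × ℤ)}
    {ψ φ : ℤ × ℤ → ℤ × ℤ} {δ : ZMod 4} {A A' : Finset (ℤ × ℤ)}
    {bA bA' : Port (ℤ × ℤ) → Port (ℤ × ℤ)} (hc : ChA K w0 N1 Jl N2 Jo Ob a b)
    (hw : GW A bA w) (hw' : GW A' bA' w') (hl : Loc K N1 Jl N2 Jo bA Ft At ψ φ δ)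
    (hl' : Loc K N1 Jl N2 Jo bA' Ft At ψ φ δ) (hA : ∀ t ∈ At, t ∈ A) (hA' : ∀ t ∈ At, t ∈ A')
    (hF : ∀ x ∈ Fp Ft, bA' x = bA x) :
    Pair K w0 N1 Jl N2 Jo Ob a b w w' Ft At ψ φ δ := by
  have e1 := be_eq hw
  have e2 := be_eq hw'
  subst e1
  subst e2
  exact ⟨hc, hw.word.1, hw'.word.1, hw.nx, hw'.nx, hl, hl', fun t ht => (hw.word.2.2.1 t).2 (hA t ht),
    fun t ht => (hw'.word.2.2.1 t).2 (hA' t ht), hF⟩

theorem hth0 (b : Bool) (d : ZMod 4) : thru (xor false b) (d + 0) = thru b d + 0 := by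
  revert b d; decide
theorem hth2 (b : Bool) (d : ZMod 4) : thru (xor false b) (d + 2) = thru b d + 2 := by
  revert b d; decide

/-- probability of two arcs across the stepped half annulus -/
def p2 (X Y : ℤ) (r n e : ℕ) (w : Wd (ℤ × ℤ)) : ℝ :=
  (PB fun _ : ℤ × ℤ => hf).real (X2 w (Jls X Y r e) (Jos X Y n e))

/-- the marks of the second region -/
theorem Pair.marks {T : Type*} [DecidableEq T] {K : Reg} {w0 : Wd (ℤ × ℤ)}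
    {N1 Jl N2 Jo : List (Port (ℤ × ℤ))} {Ob : ℤ × ℤ → Prop} {a b : Port (ℤ × ℤ)} {w w' : Wd T}
    {Ft At : Set T} {ψ : T → ℤ × ℤ} {φ : ℤ × ℤ → T} {δ : ZMod 4}
    (h : Pair K w0 N1 Jl N2 Jo Ob a b w w' Ft At ψ φ δ) {fl : Bool}
    (hth : ∀ (b : Bool) (d : ZMod 4), thru (xor fl b) (d + δ) = thru b d + δ)
    {m1 m2 m3 : Port T} (h1 : m1 ∈ Sw300.L w) (h2 : m2 ∈ Sw300.L w) (h3 : m3 ∈ Sw300.L w)
    (f1 : m1 ∈ Fp Ft) (f2 : m2 ∈ Fp Ft) (f3 : m3 ∈ Fp Ft)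
    (hcyc : Sw300.cyc (Sw300.pos w m1) (Sw300.pos w m2) (Sw300.pos w m3)) :
    m1 ∈ Sw300.L w' ∧ m2 ∈ Sw300.L w' ∧ m3 ∈ Sw300.L w' ∧
      Sw300.cyc (Sw300.pos w' m1) (Sw300.pos w' m2) (Sw300.pos w' m3) := by
  obtain ⟨A, Di, Gi, k1, k2, k3⟩ := h.two hth (fun _ => true)
  set N1T := N1.map (pm φ (-δ))
  set N2T := N2.map (pm φ (-δ))
  have hsub : ∀ p ∈ N1 ++ N2, p ∈ N1 ++ Jl ++ N2 ++ Jo := by
    intro p hp
    simp only [List.mem_append] at hp ⊢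
    tauto
  have hA : ∀ {m : Port T}, m ∈ Sw300.L w → m ∈ Fp Ft → m ∈ A := by
    intro m hm hf
    have h4 := k1.mem_iff.1 hm
    simp only [List.mem_append] at h4
    rcases h4 with ((h4 | h4) | h4) | h4
    · exact h4
    · obtain ⟨p, hp, rfl⟩ := List.mem_map.1 h4
      exact absurd (h.lc.pf (h.ch.port (hsub p (by simp [hp])))).1 (Fp_Ap h.lc.dj hf)
    · exact absurd (Or.inl hf) (k3.Do m h4)
    · obtain ⟨p, hp, rfl⟩ := List.mem_map.1 h4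
      exact absurd (h.lc.pf (h.ch.port (hsub p (by simp [hp])))).1 (Fp_Ap h.lc.dj hf)
  have a1 := hA h1 f1
  have a2 := hA h2 f2
  have a3 := hA h3 f3
  have hL' : ∀ {m : Port T}, m ∈ A → m ∈ Sw300.L w' := fun hm => k2.mem_iff.2 (by simp [hm])
  have hnw := Sw300.nodup h.ok
  have hnw' := Sw300.nodup h.ok'
  have e1 : A ++ N1T ++ Di ++ N2T = A ++ (N1T ++ Di ++ N2T) := by simp
  have e2 : A ++ N1T ++ Gi ++ N2T = A ++ (N1T ++ Gi ++ N2T) := by simp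
  refine ⟨hL' a1, hL' a2, hL' a3, ?_⟩
  rw [← cycI_pos (Sw300.sorted w' h.ok') (hL' a1) (hL' a2) (hL' a3),
    ← cycI_rot k2 hnw' (hL' a1) (hL' a2) (hL' a3), e2]
  rw [← cycI_pos (Sw300.sorted w h.ok) h1 h2 h3, ← cycI_rot k1 hnw h1 h2 h3, e1] at hcyc
  refine (cycI_mr ?_ ?_ (Or.inl ⟨a1, rfl⟩) (Or.inl ⟨a2, rfl⟩) (Or.inl ⟨a3, rfl⟩) (Or.inl a1)
    (Or.inl a2) (Or.inl a3)).1 hcyc
  · rw [← e1]; exact (k1.nodup_iff).1 hnw
  · rw [← e2]; exact (k2.nodup_iff).1 hnw'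

theorem mouth_right {A A' : Finset (ℤ × ℤ)} {p y0 xr xe xe' k : ℤ} {r n : ℕ} {w w' w0 : Wd (ℤ × ℤ)}
    (h : MouthR A p y0 xr xe k r n) (h' : MouthR A' p y0 xr xe' k r n) (hs : A ⊆ A')
    (hd : ∀ t ∈ A', t ∉ A → t ∈ InR xr y0 k r) (hw : GW A (beD A p y0 xe) w)
    (hw' : GW A' (beD A' p y0 xe') w') (h0 : SW xr y0 r n 1 w0) {m1 m2 m3 : Port (ℤ × ℤ)}
    (h1 : m1 ∈ Sw300.L w) (h2 : m2 ∈ Sw300.L w) (h3 : m3 ∈ Sw300.L w)
    (f1 : m1 ∈ Fp (FtR xr y0 k r n)) (f2 : m2 ∈ Fp (FtR xr y0 k r n))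
    (f3 : m3 ∈ Fp (FtR xr y0 k r n))
    (hcyc : Sw300.cyc (Sw300.pos w m1) (Sw300.pos w m2) (Sw300.pos w m3)) :
    (m1 ∈ Sw300.L w' ∧ m2 ∈ Sw300.L w' ∧ m3 ∈ Sw300.L w' ∧
      Sw300.cyc (Sw300.pos w' m1) (Sw300.pos w' m2) (Sw300.pos w' m3)) ∧
    ‖HW w m1 m2 m3 - HW w' m1 m2 m3‖ ≤ 2 * p2 xr y0 r n 1 w0 := by
  have hat : ∀ t ∈ AtR xr y0 r n, t ∈ A := by
    rintro ⟨x, y⟩ ht
    rw [mem_AtR] at ht
    have := h.hr
    have := h.hn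
    exact h.box x y (by omega) (by omega) (by omega) (by omega)
  have P := pair_of_gw (chA_stp h.hr h.hn h0) hw hw' h.loc h'.loc hat (fun t ht => hs (hat t ht))
    (fun x hx => h.eqF h' hs hd hx)
  exact ⟨P.marks hth0 h1 h2 h3 f1 f2 f3 hcyc, P.HW_le hth0 h1 h2 h3 f1 f2 f3 hcyc⟩

theorem mouth_left {A A' : Finset (ℤ × ℤ)} {p y0 xl xe k : ℤ} {r n : ℕ} {w w' w0 : Wd (ℤ × ℤ)}
    (h : MouthL A p y0 xl xe k r n) (h' : MouthL A' p y0 xl xe k r n) (hs : A ⊆ A')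
    (hd : ∀ t ∈ A', t ∉ A → t ∈ InL xl y0 k r) (hw : GW A (beD A p y0 xe) w)
    (hw' : GW A' (beD A' p y0 xe) w') (h0 : SW (-xl) (1 - y0) r n 0 w0) {m1 m2 m3 : Port (ℤ × ℤ)}
    (h1 : m1 ∈ Sw300.L w) (h2 : m2 ∈ Sw300.L w) (h3 : m3 ∈ Sw300.L w)
    (f1 : m1 ∈ Fp (FtL xl y0 k r n)) (f2 : m2 ∈ Fp (FtL xl y0 k r n))
    (f3 : m3 ∈ Fp (FtL xl y0 k r n))
    (hcyc : Sw300.cyc (Sw300.pos w m1) (Sw300.pos w m2) (Sw300.pos w m3)) :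
    (m1 ∈ Sw300.L w' ∧ m2 ∈ Sw300.L w' ∧ m3 ∈ Sw300.L w' ∧
      Sw300.cyc (Sw300.pos w' m1) (Sw300.pos w' m2) (Sw300.pos w' m3)) ∧
    ‖HW w m1 m2 m3 - HW w' m1 m2 m3‖ ≤ 2 * p2 (-xl) (1 - y0) r n 0 w0 := by
  have hat : ∀ t ∈ AtL xl y0 r n, t ∈ A := by
    rintro ⟨x, y⟩ ht
    rw [mem_AtL] at ht
    have := h.hr
    have := h.hn
    exact h.box x y (by omega) (by omega) (by omega) (by omega)
  have P := pair_of_gw (chA_stp h.hr h.hn h0) hw hw' h.loc h'.loc hat (fun t ht => hs (hat t ht))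
    (fun x hx => h'.eqF hs hd hx)
  exact ⟨P.marks hth2 h1 h2 h3 f1 f2 f3 hcyc, P.HW_le hth2 h1 h2 h3 f1 f2 f3 hcyc⟩

/-! ### the region with the right stub -/

section stub

variable {A : Finset (ℤ × ℤ)} {xl xr y1 y2 k : ℤ}

/-- the region with the right stub -/
def D1 (A : Finset (ℤ × ℤ)) (xr y1 y2 k : ℤ) : Finset (ℤ × ℤ) := A ∪ rct (xr + 1) (xr + k + 1) y1 y2

theorem mem_D1 {x y : ℤ} : (x, y) ∈ D1 A xr y1 y2 k ↔
    (x, y) ∈ A ∨ ((xr + 1 ≤ x ∧ x < xr + k + 1) ∧ y1 ≤ y ∧ y < y2) := by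
  rw [D1, Finset.mem_union, mem_rct]

theorem D1_cc (hf : Free A xl xr y1 y2 k) (hcc : ∀ a ∉ A, ∀ b ∉ A, CPath {t | t ∉ A} a b) :
    ∀ a ∉ D1 A xr y1 y2 k, ∀ b ∉ D1 A xr y1 y2 k, CPath {t | t ∉ D1 A xr y1 y2 k} a b := by
  have hk := hf.k0
  refine cc_union hcc (xr + k + 1, y1 - 1) ?_
  rintro ⟨x, y⟩ hA hS ⟨x', y'⟩ hs hadj
  rw [mem_rct] at hS hs
  obtain ⟨⟨s1, s2⟩, s3, s4⟩ := hs
  have hX : ∀ {a b : ℤ}, xr < a → a ≤ xr + k + 1 → y1 - 1 ≤ b → b ≤ y2 →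
      ¬ ((xr + 1 ≤ a ∧ a < xr + k + 1) ∧ y1 ≤ b ∧ b < y2) →
      (a, b) ∈ {t : ℤ × ℤ | t ∉ A ∪ rct (xr + 1) (xr + k + 1) y1 y2} := by
    intro a b g1 g2 g3 g4 g5
    simp only [Set.mem_ofPred_eq, Finset.mem_union, not_or, mem_rct]
    exact ⟨hf.right a b g1 g2 g3 g4, g5⟩
  have hx : x ≠ xr ∨ ¬ (y1 ≤ y ∧ y < y2) := by
    by_contra hcon
    push Not at hcon
    obtain ⟨rfl, c2, c3⟩ := hcon
    exact hA (hf.run y c2 c3).2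
  unfold Adj4 at hadj
  simp only at hadj
  by_cases e1 : x = xr + k + 1
  · subst e1
    exact (CPath.ver (by omega) fun z g1 g2 => hX (by omega) (by omega) (by omega) (by omega)
      (by omega)).symm
  · by_cases e2 : y = y1 - 1
    · subst e2
      exact CPath.hor (by omega) fun z g1 g2 => hX (by omega) (by omega) (by omega) (by omega)
        (by omega)
    · have e3 : y = y2 := by omega
      subst e3
      exact (CPath.hor (x2 := xr + k + 1) (by omega) fun z g1 g2 => hX (by omega) (by omega)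
        (by omega) (by omega) (by omega)).trans
        (CPath.ver (by omega) fun z g1 g2 => hX (by omega) (by omega) (by omega) (by omega)
          (by omega)).symm

theorem D1_Conn (hf : Free A xl xr y1 y2 k) (hc : ∀ a ∈ A, ∀ b ∈ A, CPath {t | t ∈ A} a b) :
    (full (D1 A xr y1 y2 k)).Conn := by
  have hsub : {t | t ∈ A} ⊆ {t | t ∈ D1 A xr y1 y2 k} := by
    intro t ht
    exact (mem_D1 (x := t.1) (y := t.2)).2 (Or.inl ht)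
  have key : ∀ a ∈ D1 A xr y1 y2 k, ∃ a' ∈ A, CPath {t | t ∈ D1 A xr y1 y2 k} a a' := by
    rintro ⟨x, y⟩ ha
    rcases mem_D1.1 ha with h | ⟨⟨h1, h2⟩, h3, h4⟩
    · exact ⟨_, h, .refl⟩
    · refine ⟨(xr, y), (hf.run y h3 h4).2, (CPath.hor (by omega) fun z g1 g2 => ?_).symm⟩
      rcases eq_or_lt_of_le g1 with rfl | g3
      · exact hsub (hf.run y h3 h4).2
      · exact mem_D1.2 (Or.inr ⟨⟨by omega, by omega⟩, h3, h4⟩)
  refine full_Conn fun a ha b hb => ?_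
  obtain ⟨a', ha', h1⟩ := key a ha
  obtain ⟨b', hb', h2⟩ := key b hb
  exact h1.trans (((hc a' ha' b' hb').mono hsub).trans h2.symm)

theorem exists_GW_D1 (hf : Free A xl xr y1 y2 k) (hcc : ∀ a ∉ A, ∀ b ∉ A, CPath {t | t ∉ A} a b)
    (hc : ∀ a ∈ A, ∀ b ∈ A, CPath {t | t ∈ A} a b) {p y0 : ℤ}
    (hr1 : ∀ x, xl ≤ x → x ≤ xr → (x, y0 - 1) ∈ A ∧ (x, y0) ∈ A) (h1 : y1 < y0) (h2 : y0 < y2)
    (h3 : xl < p) (h4 : p ≤ xr) :
    ∃ w, GW (D1 A xr y1 y2 k) (beD (D1 A xr y1 y2 k) p y0 (xr + k)) w := by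
  have hk := hf.k0
  refine exists_GW (SC_of_cc (D1_cc hf hcc)) (D1_Conn hf hc) (by omega) ?_ ?_ ?_
  · intro x g1 g2
    rcases le_or_gt x xr with g3 | g3
    · exact ⟨mem_D1.2 (Or.inl (hr1 x (by omega) g3).1), mem_D1.2 (Or.inl (hr1 x (by omega) g3).2)⟩
    · exact ⟨mem_D1.2 (Or.inr ⟨⟨by omega, by omega⟩, by omega, by omega⟩),
        mem_D1.2 (Or.inr ⟨⟨by omega, by omega⟩, by omega, by omega⟩)⟩
  · rw [mem_D1]
    rintro (h | h)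
    · exact hf.right _ _ (by omega) (le_refl _) (by omega) (by omega) h
    · omega
  · exact Or.inr ⟨mem_D1.2 (Or.inl (hr1 _ (by omega) (by omega)).1),
      mem_D1.2 (Or.inl (hr1 _ (by omega) (by omega)).2)⟩

end stub

/-- hypotheses of the comparison: rows `y0 - n - 1, .., y0 + n` have the run `xl..xr`, the stubs are
in the rows `y1, .., y2 - 1` inside the ball of radius `r` -/
structure CG (A : Finset (ℤ × ℤ)) (xl xr y1 y2 k p y0 : ℤ) (r n : ℕ) : Prop where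
  fr : Free A xl xr y1 y2 k
  hr : 1 ≤ r
  hn : r + 1 ≤ n
  a1 : y0 - r ≤ y1
  a2 : y1 < y0
  a3 : y0 < y2
  a4 : y2 ≤ y0 + r
  run : ∀ x y, xl ≤ x → x ≤ xr → y0 - n - 1 ≤ y → y ≤ y0 + n → (x, y) ∈ A
  oR : ∀ x y, xr < x → x ≤ xr + k + 1 → y0 - n ≤ y → y < y0 + n → (x, y) ∉ A
  oL : ∀ x y, xl - k - 1 ≤ x → x < xl → y0 - n ≤ y → y < y0 + n → (x, y) ∉ A
  p1 : xl + n < p
  p2 : p ≤ xr - n

section comp

variable {A : Finset (ℤ × ℤ)} {xl xr y1 y2 k p y0 : ℤ} {r n : ℕ}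

theorem CG.mR (h : CG A xl xr y1 y2 k p y0 r n) : MouthR A p y0 xr xr k r n := by
  obtain ⟨fr, hr, hn, a1, a2, a3, a4, run, oR, oL, p1, p2⟩ := h
  have hk := fr.k0
  exact ⟨hr, hn, hk, fun x y g1 g2 g3 g4 => run x y (by omega) g2 g3 g4,
    fun x y g1 g2 g3 g4 g5 => absurd g5 (oR x y g1 g2 g3 g4), p2, le_rfl, by omega,
    oR _ _ (by omega) (by omega) (by omega) (by omega)⟩

theorem CG.mR1 (h : CG A xl xr y1 y2 k p y0 r n) :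
    MouthR (D1 A xr y1 y2 k) p y0 xr (xr + k) k r n := by
  obtain ⟨fr, hr, hn, a1, a2, a3, a4, run, oR, oL, p1, p2⟩ := h
  have hk := fr.k0
  refine ⟨hr, hn, hk, fun x y g1 g2 g3 g4 => mem_D1.2 (Or.inl (run x y (by omega) g2 g3 g4)),
    fun x y g1 g2 g3 g4 g5 => ?_, p2, by omega, le_rfl, fun g5 => ?_⟩
  · rcases mem_D1.1 g5 with g6 | g6
    · exact absurd g6 (oR x y g1 g2 g3 g4)
    · omega
  · rcases mem_D1.1 g5 with g6 | g6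
    · exact absurd g6 (oR _ _ (by omega) (by omega) (by omega) (by omega))
    · omega

theorem CG.mL1 (h : CG A xl xr y1 y2 k p y0 r n) :
    MouthL (D1 A xr y1 y2 k) p y0 xl (xr + k) k r n := by
  have hR := h.mR1.end'
  obtain ⟨fr, hr, hn, a1, a2, a3, a4, run, oR, oL, p1, p2⟩ := h
  have hk := fr.k0
  refine ⟨hr, hn, hk, fun x y g1 g2 g3 g4 => mem_D1.2 (Or.inl (run x y (by omega) (by omega) g3 g4)),
    fun x y g1 g2 g3 g4 g5 => ?_, p1, by omega, hR⟩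
  rcases mem_D1.1 g5 with g6 | g6
  · exact absurd g6 (oL x y g1 g2 g3 g4)
  · omega

theorem CG.mL2 (h : CG A xl xr y1 y2 k p y0 r n) :
    MouthL (Dp A xl xr y1 y2 k) p y0 xl (xr + k) k r n := by
  obtain ⟨fr, hr, hn, a1, a2, a3, a4, run, oR, oL, p1, p2⟩ := h
  have hk := fr.k0
  refine ⟨hr, hn, hk, fun x y g1 g2 g3 g4 => mem_Dp.2 (Or.inl (run x y (by omega) (by omega) g3 g4)),
    fun x y g1 g2 g3 g4 g5 => ?_, p1, by omega, fun g5 => ?_⟩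
  · rcases mem_Dp.1 g5 with g6 | g6 | g6
    · exact absurd g6 (oL x y g1 g2 g3 g4)
    · omega
    · omega
  · rcases mem_Dp.1 g5 with g6 | g6 | g6
    · exact absurd g6 (oR _ _ (by omega) (by omega) (by omega) (by omega))
    · omega
    · omega

/-- **`D^(z)` against `D^+(z)`** -/
theorem comp_gen (h : CG A xl xr y1 y2 k p y0 r n)
    (hcc : ∀ a ∉ A, ∀ b ∉ A, CPath {t | t ∉ A} a b) (hc : ∀ a ∈ A, ∀ b ∈ A, CPath {t | t ∈ A} a b)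
    {m1 m2 m3 : Port (ℤ × ℤ)} (hm : MK A (beD A p y0 xr) m1 m2 m3)
    (f1 : m1 ∈ Fp (FtR xr y0 k r n) ∩ Fp (FtL xl y0 k r n))
    (f2 : m2 ∈ Fp (FtR xr y0 k r n) ∩ Fp (FtL xl y0 k r n))
    (f3 : m3 ∈ Fp (FtR xr y0 k r n) ∩ Fp (FtL xl y0 k r n)) {w1 w0 : Wd (ℤ × ℤ)}
    (h1 : SW xr y0 r n 1 w1) (h0 : SW (-xl) (1 - y0) r n 0 w0) :
    MK (Dp A xl xr y1 y2 k) (beD (Dp A xl xr y1 y2 k) p y0 (xr + k)) m1 m2 m3 ∧
    ‖HG A (beD A p y0 xr) m1 m2 m3 -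
      HG (Dp A xl xr y1 y2 k) (beD (Dp A xl xr y1 y2 k) p y0 (xr + k)) m1 m2 m3‖ ≤
      2 * p2 xr y0 r n 1 w1 + 2 * p2 (-xl) (1 - y0) r n 0 w0 := by
  have mR := h.mR
  have mR1 := h.mR1
  have mL1 := h.mL1
  have mL2 := h.mL2
  obtain ⟨fr, hr, hn, a1, a2, a3, a4, run, oR, oL, q1, q2⟩ := h
  have hk := fr.k0
  have hr1 : ∀ x, xl ≤ x → x ≤ xr → (x, y0 - 1) ∈ A ∧ (x, y0) ∈ A := fun x g1 g2 =>
    ⟨run x _ g1 g2 (by omega) (by omega), run x _ g1 g2 (by omega) (by omega)⟩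
  obtain ⟨w, hw, l1, l2, l3, hcyc, e⟩ := hm.spec
  obtain ⟨v1, hv1⟩ := exists_GW_D1 fr hcc hc hr1 a2 a3 (by omega : xl < p) (by omega)
  obtain ⟨v2, hv2⟩ := exists_GW_Dp fr hcc hc hr1 a2 a3 (by omega : xl < p) (by omega)
  have s1 : A ⊆ D1 A xr y1 y2 k := fun t ht => (mem_D1 (x := t.1) (y := t.2)).2 (Or.inl ht)
  have s2 : D1 A xr y1 y2 k ⊆ Dp A xl xr y1 y2 k := by
    rintro ⟨x, y⟩ ht
    rcases mem_D1.1 ht with g | g
    · exact mem_Dp.2 (Or.inl g)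
    · exact mem_Dp.2 (Or.inr (Or.inl g))
  have d1 : ∀ t ∈ D1 A xr y1 y2 k, t ∉ A → t ∈ InR xr y0 k r := by
    rintro ⟨x, y⟩ ht hnt
    rcases mem_D1.1 ht with g | g
    · exact absurd g hnt
    · rw [mem_InR]; omega
  have d2 : ∀ t ∈ Dp A xl xr y1 y2 k, t ∉ D1 A xr y1 y2 k → t ∈ InL xl y0 k r := by
    rintro ⟨x, y⟩ ht hnt
    rcases mem_Dp.1 ht with g | g | g
    · exact absurd (mem_D1.2 (Or.inl g)) hnt
    · exact absurd (mem_D1.2 (Or.inr g)) hnt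
    · rw [mem_InL]; omega
  obtain ⟨⟨b1, b2, b3, b4⟩, b5⟩ := mouth_right mR mR1 s1 d1 hw hv1 h1 l1 l2 l3 f1.1 f2.1 f3.1 hcyc
  obtain ⟨⟨c1, c2, c3, c4⟩, c5⟩ := mouth_left mL1 mL2 s2 d2 hv1 hv2 h0 b1 b2 b3 f1.2 f2.2 f3.2 b4
  refine ⟨⟨v2, hv2, c1, c2, c3, c4⟩, ?_⟩
  rw [e, Wd377.HG_eq hv2 c1 c2 c3 c4]
  have e3 : HW w m1 m2 m3 - HW v2 m1 m2 m3 =
      (HW w m1 m2 m3 - HW v1 m1 m2 m3) + (HW v1 m1 m2 m3 - HW v2 m1 m2 m3) := by ring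
  rw [e3]
  exact (norm_add_le _ _).trans (add_le_add b5 c5)

end comp

end Crest.Agent.R158.Sl434
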