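import Crest.Agent.R158.Csh_410
import Crest.Agent.R158.Sl12_434
import Crest.Agent.R158.Mg2_949
import Crest.Agent.R158.Xr11_249
import Crest.Agent.R158.Pj4_679

/-!
# R158, Q1 = assembly (helper410), part 5: the comparison with the stubs

* `mk_word` : the marks of the polygon are in clockwise order in the region cut open at `z`
* `mark_row` : rows of the marks
* `comp_slice` : `‖H_{D^+}(z) - H_D(z)‖ ≤ 2 P(X2, right) + 2 P(X2, left)`
* **`compP : ∀ P, CompP P`**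
-/

set_option autoImplicit false

open Set

namespace Crest.Agent.R158.Cs410

open Crest.Agent.R158.Sw300 (Port Wd Ok pos cyc)
open Crest.Agent.R158.Env664 (Run Band D mark Mac div_iff mem_D beD)
open Crest.Agent.R158.Tj656 (P4)
open Crest.Agent.R158.Xr249 (Dp mem_Dp free_mac)
open Crest.Agent.R158.Mg949 (WD Lz sU nn exists_word mac Lz_pos mark0 markD markC nn_pos)
open Crest.Agent.R158.Wd377 (MK)
open Crest.Agent.R158.Ob664 (HA rgt_run)
open Crest.Agent.R158.Sl434 (CG p2 SW comp_gen exists_SW Fp FtR FtL mem_FtR mem_AtR mem_InR mem_AtL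
  mem_InL X2 Jls Jos)
open Crest.Agent.R158.Rs689 (PB hf)

noncomputable section

/-- the marks of the polygon are in clockwise order -/
theorem mk_word {P : P4} {k : ℕ} {x y xr : ℤ} {q : ℕ} {w : Wd (ℤ × ℤ)}
    (h : WD P k x y xr q w) :
    MK (D P.F (Lz k)) (beD (D P.F (Lz k)) x y xr) (mk P (Lz k) 0) (mk P (Lz k) 1)
      (mk P (Lz k) 2) := by
  have hk := h.hk
  have hok := h.ok
  have hL := h.hL
  have hq := h.hq
  have e0 : mk P (Lz k) 0 = sU P k (nn P k - 1) := mark0 P hk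
  have e1 : mk P (Lz k) 1 = sU P k (P.md * (2 * k) - 1) := markD P hk
  have e2 : mk P (Lz k) 2 = sU P k (P.mc * (2 * k) - 1) := markC P hk
  have hn : nn P k = P.N * (2 * k) := rfl
  have i1 := P.h1
  have i2 := P.h2
  have i3 := P.h3
  have i4 := P.h4
  have i5 : 0 < P.mc := by omega
  have j0 : 0 < P.mc * (2 * k) := by positivity
  have j1 : P.mc * (2 * k) < P.md * (2 * k) := by
    apply Nat.mul_lt_mul_of_pos_right i3; omega
  have j2 : P.md * (2 * k) < P.N * (2 * k) := by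
    apply Nat.mul_lt_mul_of_pos_right i4; omega
  have hD : P.md * (2 * k) - 1 < nn P k := by omega
  have hC : P.mc * (2 * k) - 1 < nn P k := by omega
  have m1 := Mg949.m1_mem hok hL hq
  have mD : sU P k (P.md * (2 * k) - 1) ∈ Sw300.L w :=
    (Mg949.mem_L hok hL hq).2 ⟨_, hD, Or.inl rfl⟩
  have mC : sU P k (P.mc * (2 * k) - 1) ∈ Sw300.L w :=
    (Mg949.mem_L hok hL hq).2 ⟨_, hC, Or.inl rfl⟩
  refine ⟨w, h.gw, by rw [e0]; exact m1, by rw [e1]; exact mD, by rw [e2]; exact mC, ?_⟩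
  rw [e0, e1, e2, Ob664.cyc_idL hok m1 m1 mD mC, Mg949.idL_m1 hok hL hq,
    Mg949.idL_step hok hL hq hD, Mg949.idL_step hok hL hq hC]
  unfold Mg949.pu cyc
  split_ifs <;> omega

/-- rows of the marks -/
theorem mark_row {L r y0 : ℤ} {n : ℕ} (hL : 0 < L) (hev : Even L) (c : ℤ × ℤ) (d : ZMod 4)
    (h : (r * L < y0 - n ∧ y0 + n ≤ r * L + L / 2 - 1) ∨
      (r * L + L / 2 < y0 - n ∧ y0 + n ≤ r * L + L - 1)) :
    ∀ z ∈ (mark L c d).2, z.1.2 < y0 - n ∨ y0 + n ≤ z.1.2 := by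
  obtain ⟨l, hl⟩ := hev
  have hl2 : L / 2 = l := by omega
  have key : c.2 * L ≤ r * L - L ∨ c.2 * L = r * L ∨ r * L + L ≤ c.2 * L := by
    rcases lt_trichotomy c.2 r with g | g | g
    · left; nlinarith
    · right; left; rw [g]
    · right; right; nlinarith
  obtain ⟨u, hu⟩ : ∃ u, u = c.2 * L := ⟨_, rfl⟩
  intro z hz
  unfold mark at hz
  rw [← hu] at hz key
  split_ifs at hz <;> obtain rfl := Option.mem_some_iff.1 hz <;> simp only <;> omega

/-- a mark is far from the mouths -/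
theorem mark_far {L r y0 xl xr k : ℤ} {r' n : ℕ} (hL : 0 < L) (hev : Even L) (hrn : r' ≤ n)
    (c : ℤ × ℤ) (d : ZMod 4)
    (h : (r * L < y0 - n ∧ y0 + n ≤ r * L + L / 2 - 1) ∨
      (r * L + L / 2 < y0 - n ∧ y0 + n ≤ r * L + L - 1)) :
    (mark L c d).2 ∈ Fp (FtR xr y0 k r' n) ∩ Fp (FtL xl y0 k r' n) := by
  have h1 := mark_row hL hev c d h
  constructor
  · rintro ⟨⟨x, y⟩, e⟩ hz
    have h2 := h1 _ hz
    simp only at h2 ⊢
    rw [mem_FtR, mem_AtR, mem_InR]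
    constructor <;> omega
  · rintro ⟨⟨x, y⟩, e⟩ hz
    have h2 := h1 _ hz
    simp only at h2 ⊢
    show (x, y) ∉ Sl434.AtL xl y0 r' n ∧ (x, y) ∉ Sl434.InL xl y0 k r'
    rw [mem_AtL, mem_InL]
    constructor <;> omega

/-- run of the region with stubs -/
theorem run_Dp {A : Finset (ℤ × ℤ)} {xl xr y1 y2 k y0 : ℤ} (h : Run A xl xr y0)
    (hf : Xr249.Free A xl xr y1 y2 k) (h1 : y1 ≤ y0) (h2 : y0 < y2) :
    Run (Dp A xl xr y1 y2 k) (xl - k) (xr + k) y0 := by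
  have hk := hf.k0
  have hle := hf.le
  refine ⟨by omega, fun x g1 g2 => ?_, ?_, ?_⟩
  · rw [mem_Dp]
    rcases lt_or_ge x xl with g | g
    · right; right; omega
    · rcases lt_or_ge xr x with g' | g'
      · right; left; omega
      · left; exact h.mem x g g'
  · rw [mem_Dp]
    have := hf.left (xl - k - 1) y0 (by omega) (by omega) (by omega) (by omega)
    rintro (g | g | g)
    · exact this g
    · omega
    · omega
  · rw [mem_Dp]
    have := hf.right (xr + k + 1) y0 (by omega) (by omega) (by omega) (by omega)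
    rintro (g | g | g)
    · exact this g
    · omega
    · omega

/-- the hypotheses of the comparison for a macroscopic run -/
theorem cg_mac {P : P4} {A B' r L p y0 y1 y2 : ℤ} {r' n : ℕ} (hrun : Run P.F A B' r) (hL : 8 ≤ L)
    (hr : 1 ≤ r') (hn : r' + 1 ≤ n) (a1 : y0 - r' ≤ y1) (a2 : y1 < y0) (a3 : y0 < y2)
    (a4 : y2 ≤ y0 + r') (b1 : r * L < y0 - n) (b2 : y0 + n < r * L + L) (p1 : A * L + n < p)
    (p2 : p ≤ B' * L + L - 1 - n) :
    CG (D P.F L) (A * L) (B' * L + L - 1) y1 y2 (L / 8) p y0 r' n := by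
  have hL0 : 0 < L := by omega
  have hk0 : 0 ≤ L / 8 := by omega
  have hk1 : L / 8 + 1 ≤ L := by omega
  refine ⟨free_mac (mac P) hrun (by omega) (by omega) hk0 (by omega), hr, hn, a1, a2, a3, a4,
    fun x y g1 g2 g3 g4 => (hrun.scale hL0 (by omega) (by omega)).mem x g1 g2, ?_, ?_, p1, p2⟩
  · intro x y g1 g2 g3 g4
    rw [mem_D hL0]
    have e1 : x / L = B' + 1 := (div_iff hL0 _ _).2 ⟨by nlinarith, by nlinarith⟩
    have e2 : y / L = r := (div_iff hL0 _ _).2 ⟨by omega, by omega⟩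
    simp only [e1, e2]
    exact hrun.right
  · intro x y g1 g2 g3 g4
    rw [mem_D hL0]
    have e1 : x / L = A - 1 := (div_iff hL0 _ _).2 ⟨by nlinarith, by nlinarith⟩
    have e2 : y / L = r := (div_iff hL0 _ _).2 ⟨by omega, by omega⟩
    simp only [e1, e2]
    exact hrun.left

/-- **the comparison of one point** -/
theorem comp_slice {P : P4} {A B' r L p y0 : ℤ} {h y : ℝ} {B : Band (D P.F L)}
    (hB : OnB A B' L h y B) {r' n : ℕ} (hrun : Run P.F A B' r) (hL : 8 ≤ L) (hev : Even L)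
    (hr : 1 ≤ r') (hn : r' + 1 ≤ n) (a1 : y0 - r' ≤ B.y1) (a2 : B.y1 < y0) (a3 : y0 < B.y2)
    (a4 : B.y2 ≤ y0 + r')
    (b : (r * L < y0 - n ∧ y0 + n ≤ r * L + L / 2 - 1) ∨
      (r * L + L / 2 < y0 - n ∧ y0 + n ≤ r * L + L - 1)) (p1 : A * L + n < p)
    (p2' : p ≤ B' * L + L - 1 - n) {w1 w0 : Wd (ℤ × ℤ)}
    (h1 : SW (B' * L + L - 1) y0 r' n 1 w1) (h0 : SW (-(A * L)) (1 - y0) r' n 0 w0) :
    ‖HAp P L B p y0 - P.HD L p y0‖ ≤
      2 * p2 (B' * L + L - 1) y0 r' n 1 w1 + 2 * p2 (-(A * L)) (1 - y0) r' n 0 w0 := by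
  have hL0 : 0 < L := by omega
  obtain ⟨l, hl⟩ := id hev
  have b1 : r * L < y0 - n := by
    rcases b with b | b
    · exact b.1
    · omega
  have b2 : y0 + n < r * L + L := by
    rcases b with b | b
    · omega
    · omega
  have G := cg_mac hrun hL hr hn a1 a2 a3 a4 b1 b2 p1 p2'
  have hle : A * L ≤ B' * L + L - 1 := G.fr.le
  have hk : 0 < l.toNat := by omega
  have hLk : Lz l.toNat = L := by
    unfold Mg949.Lz; push_cast; omega
  have r0 : Run (D P.F L) (A * L) (B' * L + L - 1) y0 := hrun.scale hL0 (by omega) (by omega)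
  have r1 : Run (D P.F L) (A * L) (B' * L + L - 1) (y0 - 1) := hrun.scale hL0 (by omega) (by omega)
  have hMK : MK (D P.F L) (beD (D P.F L) p y0 (B' * L + L - 1)) (mk P L 0) (mk P L 1)
      (mk P L 2) := by
    obtain ⟨q, w, hw⟩ := exists_word P hk (x := p) (xl := A * L) (xr := B' * L + L - 1) (y := y0)
      (by rw [hLk]; exact r0) (by rw [hLk]; exact r1) (by omega) (by omega)
    have := mk_word hw
    rw [hLk] at this
    exact this
  have hcc : ∀ a ∉ D P.F L, ∀ b ∉ D P.F L, Xr249.CPath {t | t ∉ D P.F L} a b :=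
    fun a ha b hb => Xr249.D_cpath (mac P) hL0 ha hb
  have hc : ∀ a ∈ D P.F L, ∀ b ∈ D P.F L, Xr249.CPath {t | t ∈ D P.F L} a b :=
    fun a ha b hb => Xr249.D_cpath_in (mac P) hL0 ha hb
  have hmain := (comp_gen G hcc hc hMK (mark_far hL0 hev (by omega) _ _ b)
    (mark_far hL0 hev (by omega) _ _ b) (mark_far hL0 hev (by omega) _ _ b) h1 h0).2
  have e1 : P.HD L p y0 = Ob664.HG (D P.F L) (beD (D P.F L) p y0 (B' * L + L - 1)) (mk P L 0)
      (mk P L 1) (mk P L 2) := by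
    show Ob664.HG (D P.F L) (beD (D P.F L) p y0 (Ob664.rgt (D P.F L) p y0)) _ _ _ = _
    rw [rgt_run r0 (by omega) (by omega)]
    rfl
  have e2 : HAp P L B p y0 = Ob664.HG (Dp (D P.F L) (A * L) (B' * L + L - 1) B.y1 B.y2 (L / 8))
      (beD (Dp (D P.F L) (A * L) (B' * L + L - 1) B.y1 B.y2 (L / 8)) p y0
        (B' * L + L - 1 + L / 8)) (mk P L 0) (mk P L 1) (mk P L 2) := by
    unfold HAp HA
    rw [hB.xl, hB.xr, rgt_run (run_Dp r0 G.fr (by omega) (by omega)) (by omega) (by omega)]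
  rw [e1, e2, norm_sub_rev]
  exact hmain

/-- numbers -/
theorem comp_num {h L y ρ : ℝ} {y0 y1 y2 : ℤ} {r' n : ℕ} (hh : 0 < h) (hhL : 3 ≤ h * L)
    (hρ : 6 * h ≤ ρ) (hr' : r' = ⌊5 * h * L⌋₊) (hn : n = ⌊ρ * L⌋₊)
    (hy1 : y1 = ⌊(y - 3 * h) * L⌋) (hy2 : y2 = ⌊(y + 3 * h) * L⌋) (hL : 0 < L)
    (g1 : (y - h) * L ≤ y0) (g2 : (y0 : ℝ) ≤ (y + h) * L) :
    1 ≤ r' ∧ r' + 1 ≤ n ∧ y0 - r' ≤ y1 ∧ y1 < y0 ∧ y0 < y2 ∧ y2 ≤ y0 + r' ∧
      (r' : ℝ) / n ≤ 10 / ρ * h ∧ (n : ℝ) ≤ ρ * L := by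
  have f1 : (r' : ℝ) ≤ 5 * h * L := by rw [hr']; exact Nat.floor_le (by positivity)
  have f2 : 5 * h * L < r' + 1 := by rw [hr']; exact Nat.lt_floor_add_one _
  have hρ0 : 0 < ρ := by linarith
  have f3 : (n : ℝ) ≤ ρ * L := by rw [hn]; exact Nat.floor_le (by positivity)
  have f4 : ρ * L < n + 1 := by rw [hn]; exact Nat.lt_floor_add_one _
  have f5 : (y1 : ℝ) ≤ (y - 3 * h) * L := by rw [hy1]; exact Int.floor_le _
  have f6 : (y - 3 * h) * L < y1 + 1 := by rw [hy1]; exact Int.lt_floor_add_one _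
  have f7 : (y2 : ℝ) ≤ (y + 3 * h) * L := by rw [hy2]; exact Int.floor_le _
  have f8 : (y + 3 * h) * L < y2 + 1 := by rw [hy2]; exact Int.lt_floor_add_one _
  have f9 : 6 * (h * L) ≤ ρ * L := by nlinarith
  have n0 : (0 : ℝ) < n := by nlinarith
  refine ⟨?_, ?_, ?_, ?_, ?_, ?_, ?_, f3⟩
  · have : (1 : ℝ) ≤ r' := by nlinarith
    exact_mod_cast this
  · have : ((r' + 1 : ℕ) : ℝ) ≤ n := by push_cast; nlinarith
    exact_mod_cast this
  · have : ((y0 - r' : ℤ) : ℝ) ≤ y1 := by push_cast; nlinarith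
    exact_mod_cast this
  · have : (y1 : ℝ) < y0 := by nlinarith
    exact_mod_cast this
  · have : (y0 : ℝ) < y2 := by nlinarith
    exact_mod_cast this
  · have : (y2 : ℝ) ≤ ((y0 + r' : ℤ) : ℝ) := by push_cast; nlinarith
    exact_mod_cast this
  · rw [div_le_iff₀ n0]
    have e : 10 / ρ * h * n = (10 * h * n) / ρ := by ring
    rw [e, le_div_iff₀ hρ0]
    have k1 : (r' : ℝ) * ρ ≤ 5 * h * L * ρ := by nlinarith
    have k2 : L * ρ ≤ 2 * n := by nlinarith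
    nlinarith

/-- the probability of the stepped half annulus -/
theorem p2_le : ∃ c C : ℝ, 0 < c ∧ 1 ≤ C ∧ ∀ (e : ℕ) (X Y : ℤ) (r n : ℕ) (w : Wd (ℤ × ℤ)),
    (e = 0 ∨ e = 1) → 1 ≤ r → r + 1 ≤ n → SW X Y r n e w →
    p2 X Y r n e w ≤ C * ((r : ℝ) / n) ^ (1 + c) := by
  obtain ⟨c, hc, hc1, hP⟩ := Pj679.stp_prob''
  obtain ⟨C0, hC0, h0⟩ := hP 0
  obtain ⟨C1, hC1, h1⟩ := hP 1
  have key : ∀ (e : ℕ) (X Y : ℤ) (r n : ℕ) (w : Wd (ℤ × ℤ)),
      p2 X Y r n e w ≤ (PB fun _ : ℤ × ℤ => hf).real {s | ∃ i j, i ∈ Pj679.Jl X Y r e ∧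
        j ∈ Pj679.Jl X Y r e ∧ i ≠ j ∧
        Sw300.M s w i ∈ Pj679.Jo X Y n e ∧ Sw300.M s w j ∈ Pj679.Jo X Y n e} := by
    intro e X Y r n w
    refine MeasureTheory.measureReal_mono ?_
    rintro s ⟨i, hi, j, hj, h6, h7, h8⟩
    refine ⟨i, j, ?_, ?_, h6, ?_, ?_⟩
    · simpa only [Pj679.Jl, Jls, List.mem_append, or_assoc] using hi
    · simpa only [Pj679.Jl, Jls, List.mem_append, or_assoc] using hj
    · simp only [Pj679.Jo, Jos, List.mem_append] at h7 ⊢; tauto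
    · simp only [Pj679.Jo, Jos, List.mem_append] at h8 ⊢; tauto
  refine ⟨c, max C0 C1, hc, hC0.trans (le_max_left _ _), ?_⟩
  rintro e X Y r n w (rfl | rfl) hr hn hw
  · refine (key _ _ _ _ _ _).trans ((h0 X Y r n hr hn w _ hw.rw).trans ?_)
    gcongr
    exact le_max_left _ _
  · refine (key _ _ _ _ _ _).trans ((h1 X Y r n hr hn w _ hw.rw).trans ?_)
    gcongr
    exact le_max_right _ _

/-- **the comparison** -/
theorem compP (P : P4) : CompP P := by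
  obtain ⟨c, C, hc, hC, hp2⟩ := p2_le
  intro A B' r hrun a b c1 e1 hA hab hB hce hhalf
  obtain ⟨m, hm0, hm, -, -⟩ := hhalf.margin hce
  set ρ : ℝ := min (m / 2) (min ((a - A) / 2) ((B' + 1 - b) / 2)) with hρ
  have hρ0 : 0 < ρ := lt_min (by linarith) (lt_min (by linarith) (by linarith))
  have ρ1 : ρ ≤ m / 2 := min_le_left _ _
  have ρ2 : ρ ≤ (a - A) / 2 := (min_le_right _ _).trans (min_le_left _ _)
  have ρ3 : ρ ≤ (B' + 1 - b) / 2 := (min_le_right _ _).trans (min_le_right _ _)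
  refine ⟨ρ / 6, 4 * (C * (10 / ρ) ^ (1 + c)), c, by positivity, by positivity, hc, ?_⟩
  intro h y hh hlt hy1 hy2
  refine ⟨⌈3 / h⌉ + ⌈8 / ρ⌉ + 9, fun L hL hev B hB0 p y0 g1 g2 g3 g4 => ?_⟩
  have k1 := Int.le_ceil (3 / h)
  have k2 := Int.le_ceil (8 / ρ)
  have k3 : (0 : ℝ) < 3 / h := by positivity
  have k4 : (0 : ℝ) < 8 / ρ := by positivity
  have hL' : ((⌈3 / h⌉ + ⌈8 / ρ⌉ + 9 : ℤ) : ℝ) ≤ L := by exact_mod_cast hL
  push_cast at hL'
  have hLr : (0 : ℝ) < L := by linarith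
  have hL8 : 8 ≤ L := by
    have : ((8 : ℤ) : ℝ) ≤ L := by push_cast; linarith
    exact_mod_cast this
  have hhL : 3 ≤ h * L := by
    have : 3 / h ≤ L := by linarith
    rw [div_le_iff₀ hh] at this; linarith
  have hρL : 8 ≤ ρ * L := by
    have : 8 / ρ ≤ L := by linarith
    rw [div_le_iff₀ hρ0] at this; linarith
  have i3 : (y - h) * L ≤ y0 := by rwa [le_div_iff₀ hLr] at g3
  have i4 : (y0 : ℝ) ≤ (y + h) * L := by rwa [div_le_iff₀ hLr] at g4
  have i1 : a * L ≤ p := by rwa [le_div_iff₀ hLr] at g1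
  have i2 : (p : ℝ) ≤ b * L := by rwa [div_le_iff₀ hLr] at g2
  obtain ⟨n1, n2, n3, n4, n5, n6, n7, n8⟩ := comp_num (y := y) (ρ := ρ) (y0 := y0) hh hhL
    (by linarith) rfl rfl rfl rfl hLr i3 i4
  set r' := ⌊5 * h * L⌋₊
  set n := ⌊ρ * L⌋₊
  obtain ⟨l, hl⟩ := id hev
  have hl2 : L / 2 = l := by omega
  have hlr : (L : ℝ) = l + l := by rw [hl]; push_cast; ring
  have hrow : (r * L < y0 - n ∧ y0 + n ≤ r * L + L / 2 - 1) ∨
      (r * L + L / 2 < y0 - n ∧ y0 + n ≤ r * L + L - 1) := by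
    rw [hl2]
    have u1 : (c1 - m) * L ≤ (y - h - ρ) * L := mul_le_mul_of_nonneg_right (by linarith) hLr.le
    have u2 : (y + h + ρ) * L + 3 ≤ (e1 + m) * L := by
      have : (y + h + ρ + h) * L ≤ (e1 + m) * L :=
        mul_le_mul_of_nonneg_right (by linarith) hLr.le
      linarith
    rcases hm with ⟨q1, q2⟩ | ⟨q1, q2⟩
    · left
      have v1 : (r : ℝ) * L < (c1 - m) * L := mul_lt_mul_of_pos_right q1 hLr
      have v2 : (e1 + m) * L < ((r : ℝ) + 1 / 2) * L := mul_lt_mul_of_pos_right q2 hLr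
      constructor
      · have : ((r * L : ℤ) : ℝ) < ((y0 - n : ℤ) : ℝ) := by push_cast; linarith
        exact_mod_cast this
      · have : ((y0 + n : ℤ) : ℝ) ≤ ((r * L + l - 1 : ℤ) : ℝ) := by push_cast; linarith
        exact_mod_cast this
    · right
      have v1 : ((r : ℝ) + 1 / 2) * L < (c1 - m) * L := mul_lt_mul_of_pos_right q1 hLr
      have v2 : (e1 + m) * L < ((r : ℝ) + 1) * L := mul_lt_mul_of_pos_right q2 hLr
      constructor
      · have : ((r * L + l : ℤ) : ℝ) < ((y0 - n : ℤ) : ℝ) := by push_cast; linarith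
        exact_mod_cast this
      · have : ((y0 + n : ℤ) : ℝ) ≤ ((r * L + L - 1 : ℤ) : ℝ) := by push_cast; linarith
        exact_mod_cast this
  have hp1 : A * L + n < p := by
    have v1 : (A + ρ + ρ) * L ≤ a * L := mul_le_mul_of_nonneg_right (by linarith) hLr.le
    have : ((A * L + n : ℤ) : ℝ) < p := by push_cast; linarith
    exact_mod_cast this
  have hp2' : p ≤ B' * L + L - 1 - n := by
    have v1 : (b + ρ + ρ) * L ≤ (B' + 1) * L := mul_le_mul_of_nonneg_right (by linarith) hLr.le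
    have : (p : ℝ) ≤ ((B' * L + L - 1 - n : ℤ) : ℝ) := by push_cast; linarith
    exact_mod_cast this
  obtain ⟨w1, hw1⟩ := exists_SW (B' * L + L - 1) y0 r' n 1 n1 n2
  obtain ⟨w0, hw0⟩ := exists_SW (-(A * L)) (1 - y0) r' n 0 n1 n2
  have t := comp_slice hB0 hrun hL8 hev n1 n2 (by rw [hB0.y1]; exact n3) (by rw [hB0.y1]; exact n4)
    (by rw [hB0.y2]; exact n5) (by rw [hB0.y2]; exact n6) hrow hp1 hp2' hw1 hw0
  have t1 := hp2 1 _ _ r' n w1 (Or.inr rfl) n1 n2 hw1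
  have t0 := hp2 0 _ _ r' n w0 (Or.inl rfl) n1 n2 hw0
  have t2 : ((r' : ℝ) / n) ^ (1 + c) ≤ (10 / ρ) ^ (1 + c) * h ^ (1 + c) := by
    rw [← Real.mul_rpow (by positivity) hh.le]
    exact Real.rpow_le_rpow (by positivity) n7 (by linarith)
  have t3 : C * ((r' : ℝ) / n) ^ (1 + c) ≤ C * ((10 / ρ) ^ (1 + c) * h ^ (1 + c)) :=
    mul_le_mul_of_nonneg_left t2 (by linarith)
  calc ‖HAp P L B p y0 - P.HD L p y0‖ ≤ _ := t
    _ ≤ 4 * (C * ((10 / ρ) ^ (1 + c) * h ^ (1 + c))) := by linarith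
    _ = 4 * (C * (10 / ρ) ^ (1 + c)) * h ^ (1 + c) := by ring

/-- **`Q1m false` from norms, evaluation and the boundary** -/
theorem Q1m_of_three {fz : FZ} (hN : ∀ P, NormP fz P) (hE : ∀ P, EvalP fz P)
    (ho : ∀ P : P4, OscM P) : Tj656.Q1m false :=
  Q1m_of_inputs hN hE compP ho

end

end Crest.Agent.R158.Cs410
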