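import Crest.Agent.R158.Cq1_410

/-!
# R158, Q1 = assembly (helper410), part 6: the marks in the region with stubs

* `mk_slice` : the marks of the polygon are in clockwise order in `D^+` cut open at `z`
* **`mkDp`** : the same with the quantifiers of `CompP`
-/

set_option autoImplicit false

open Set

namespace Crest.Agent.R158.Cs410

open Crest.Agent.R158.Sw300 (Port Wd Ok pos cyc)
open Crest.Agent.R158.Env664 (Run Band D mark Mac div_iff mem_D beD)
open Crest.Agent.R158.Tj656 (P4)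
open Crest.Agent.R158.Xr249 (Dp mem_Dp free_mac)
open Crest.Agent.R158.Mg949 (WD Lz sU nn exists_word mac Lz_pos mark0 markD markC nn_pos)
open Crest.Agent.R158.Wd377 (MK)
open Crest.Agent.R158.Ob664 (HA rgt_run)
open Crest.Agent.R158.Sl434 (CG p2 SW comp_gen exists_SW Fp FtR FtL mem_FtR mem_AtR mem_InR mem_AtL
  mem_InL X2 Jls Jos)

noncomputable section

/-- **the marks in the region with stubs** -/
theorem mk_slice {P : P4} {A B' r L p y0 : ℤ} {h y : ℝ} {B : Band (D P.F L)}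
    (hB : OnB A B' L h y B) {r' n : ℕ} (hrun : Run P.F A B' r) (hL : 8 ≤ L) (hev : Even L)
    (hr : 1 ≤ r') (hn : r' + 1 ≤ n) (a1 : y0 - r' ≤ B.y1) (a2 : B.y1 < y0) (a3 : y0 < B.y2)
    (a4 : B.y2 ≤ y0 + r')
    (b : (r * L < y0 - n ∧ y0 + n ≤ r * L + L / 2 - 1) ∨
      (r * L + L / 2 < y0 - n ∧ y0 + n ≤ r * L + L - 1)) (p1 : A * L + n < p)
    (p2' : p ≤ B' * L + L - 1 - n) :
    MK (Dp (D P.F L) B.xl B.xr B.y1 B.y2 (L / 8))
      (beD (Dp (D P.F L) B.xl B.xr B.y1 B.y2 (L / 8)) p y0 (B.xr + L / 8)) (mk P L 0) (mk P L 1)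
      (mk P L 2) := by
  have hL0 : 0 < L := by omega
  obtain ⟨l, hl⟩ := id hev
  have b1 : r * L < y0 - n := by
    rcases b with b | b
    · exact b.1
    · omega
  have b2 : y0 + n < r * L + L := by
    rcases b with b | b
    · omega
    · omega
  have G := cg_mac hrun hL hr hn a1 a2 a3 a4 b1 b2 p1 p2'
  have hk : 0 < l.toNat := by omega
  have hLk : Lz l.toNat = L := by
    unfold Mg949.Lz; push_cast; omega
  have r0 : Run (D P.F L) (A * L) (B' * L + L - 1) y0 := hrun.scale hL0 (by omega) (by omega)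
  have r1 : Run (D P.F L) (A * L) (B' * L + L - 1) (y0 - 1) := hrun.scale hL0 (by omega) (by omega)
  have hMK : MK (D P.F L) (beD (D P.F L) p y0 (B' * L + L - 1)) (mk P L 0) (mk P L 1)
      (mk P L 2) := by
    obtain ⟨q, w, hw⟩ := exists_word P hk (x := p) (xl := A * L) (xr := B' * L + L - 1) (y := y0)
      (by rw [hLk]; exact r0) (by rw [hLk]; exact r1) (by omega) (by omega)
    have := mk_word hw
    rw [hLk] at this
    exact this
  obtain ⟨w1, h1⟩ := exists_SW (B' * L + L - 1) y0 r' n 1 hr hn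
  obtain ⟨w0, h0⟩ := exists_SW (-(A * L)) (1 - y0) r' n 0 hr hn
  rw [hB.xl, hB.xr]
  exact (comp_gen G (fun a ha b hb => Xr249.D_cpath (mac P) hL0 ha hb)
    (fun a ha b hb => Xr249.D_cpath_in (mac P) hL0 ha hb) hMK (mark_far hL0 hev (by omega) _ _ b)
    (mark_far hL0 hev (by omega) _ _ b) (mark_far hL0 hev (by omega) _ _ b) h1 h0).1

/-- **the marks in the region with stubs**, quantifiers of `CompP` -/
theorem mkDp (P : P4) (A B' r : ℤ) (hrun : Run P.F A B' r) (a b c1 e1 : ℝ) (hA : (A : ℝ) < a)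
    (_hab : a ≤ b) (hB : b < B' + 1) (hce : c1 ≤ e1) (hhalf : InHalf r c1 e1) :
    ∃ h0 : ℝ, 0 < h0 ∧ ∀ h y : ℝ, 0 < h → h < h0 → c1 ≤ y → y ≤ e1 →
      ∃ L0 : ℤ, ∀ L : ℤ, L0 ≤ L → Even L → ∀ B : Band (D P.F L), OnB A B' L h y B →
        ∀ p y0 : ℤ, a * L ≤ p → (p : ℝ) ≤ b * L → (y - h) * L ≤ y0 →
          (y0 : ℝ) ≤ (y + h) * L →
          MK (Dp (D P.F L) B.xl B.xr B.y1 B.y2 (L / 8))
            (beD (Dp (D P.F L) B.xl B.xr B.y1 B.y2 (L / 8)) p y0 (B.xr + L / 8)) (mk P L 0)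
            (mk P L 1) (mk P L 2) := by
  obtain ⟨m, hm0, hm, -, -⟩ := hhalf.margin hce
  set ρ : ℝ := min (m / 2) (min ((a - A) / 2) ((B' + 1 - b) / 2)) with hρ
  have hρ0 : 0 < ρ := lt_min (by linarith) (lt_min (by linarith) (by linarith))
  have ρ1 : ρ ≤ m / 2 := min_le_left _ _
  have ρ2 : ρ ≤ (a - A) / 2 := (min_le_right _ _).trans (min_le_left _ _)
  have ρ3 : ρ ≤ (B' + 1 - b) / 2 := (min_le_right _ _).trans (min_le_right _ _)
  refine ⟨ρ / 6, by positivity, ?_⟩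
  intro h y hh hlt hy1 hy2
  refine ⟨⌈3 / h⌉ + ⌈8 / ρ⌉ + 9, fun L hL hev B hB0 p y0 i1 i2 i3 i4 => ?_⟩
  have k1 := Int.le_ceil (3 / h)
  have k2 := Int.le_ceil (8 / ρ)
  have k3 : (0 : ℝ) < 3 / h := by positivity
  have k4 : (0 : ℝ) < 8 / ρ := by positivity
  have hL' : ((⌈3 / h⌉ + ⌈8 / ρ⌉ + 9 : ℤ) : ℝ) ≤ L := by exact_mod_cast hL
  push_cast at hL'
  have hLr : (0 : ℝ) < L := by linarith
  have hL8 : 8 ≤ L := by
    have : ((8 : ℤ) : ℝ) ≤ L := by push_cast; linarith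
    exact_mod_cast this
  have hhL : 3 ≤ h * L := by
    have : 3 / h ≤ L := by linarith
    rw [div_le_iff₀ hh] at this; linarith
  have hρL : 8 ≤ ρ * L := by
    have : 8 / ρ ≤ L := by linarith
    rw [div_le_iff₀ hρ0] at this; linarith
  obtain ⟨n1, n2, n3, n4, n5, n6, n7, n8⟩ := comp_num (y := y) (ρ := ρ) (y0 := y0) hh hhL
    (by linarith) rfl rfl rfl rfl hLr i3 i4
  set r' := ⌊5 * h * L⌋₊
  set n := ⌊ρ * L⌋₊
  obtain ⟨l, hl⟩ := id hev
  have hl2 : L / 2 = l := by omega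
  have hlr : (L : ℝ) = l + l := by rw [hl]; push_cast; ring
  have hrow : (r * L < y0 - n ∧ y0 + n ≤ r * L + L / 2 - 1) ∨
      (r * L + L / 2 < y0 - n ∧ y0 + n ≤ r * L + L - 1) := by
    rw [hl2]
    have u1 : (c1 - m) * L ≤ (y - h - ρ) * L := mul_le_mul_of_nonneg_right (by linarith) hLr.le
    have u2 : (y + h + ρ) * L + 3 ≤ (e1 + m) * L := by
      have : (y + h + ρ + h) * L ≤ (e1 + m) * L :=
        mul_le_mul_of_nonneg_right (by linarith) hLr.le
      linarith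
    rcases hm with ⟨q1, q2⟩ | ⟨q1, q2⟩
    · left
      have v1 : (r : ℝ) * L < (c1 - m) * L := mul_lt_mul_of_pos_right q1 hLr
      have v2 : (e1 + m) * L < ((r : ℝ) + 1 / 2) * L := mul_lt_mul_of_pos_right q2 hLr
      constructor
      · have : ((r * L : ℤ) : ℝ) < ((y0 - n : ℤ) : ℝ) := by push_cast; linarith
        exact_mod_cast this
      · have : ((y0 + n : ℤ) : ℝ) ≤ ((r * L + l - 1 : ℤ) : ℝ) := by push_cast; linarith
        exact_mod_cast this
    · right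
      have v1 : ((r : ℝ) + 1 / 2) * L < (c1 - m) * L := mul_lt_mul_of_pos_right q1 hLr
      have v2 : (e1 + m) * L < ((r : ℝ) + 1) * L := mul_lt_mul_of_pos_right q2 hLr
      constructor
      · have : ((r * L + l : ℤ) : ℝ) < ((y0 - n : ℤ) : ℝ) := by push_cast; linarith
        exact_mod_cast this
      · have : ((y0 + n : ℤ) : ℝ) ≤ ((r * L + L - 1 : ℤ) : ℝ) := by push_cast; linarith
        exact_mod_cast this
  have hp1 : A * L + n < p := by
    have v1 : (A + ρ + ρ) * L ≤ a * L := mul_le_mul_of_nonneg_right (by linarith) hLr.le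
    have : ((A * L + n : ℤ) : ℝ) < p := by push_cast; linarith
    exact_mod_cast this
  have hp2' : p ≤ B' * L + L - 1 - n := by
    have v1 : (b + ρ + ρ) * L ≤ (B' + 1) * L := mul_le_mul_of_nonneg_right (by linarith) hLr.le
    have : (p : ℝ) ≤ ((B' * L + L - 1 - n : ℤ) : ℝ) := by push_cast; linarith
    exact_mod_cast this
  exact mk_slice hB0 hrun hL8 hev n1 n2 (by rw [hB0.y1]; exact n3) (by rw [hB0.y1]; exact n4)
    (by rw [hB0.y2]; exact n5) (by rw [hB0.y2]; exact n6) hrow hp1 hp2'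

end

end Crest.Agent.R158.Cs410
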