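import Mathlib
import Crest.Agent.R158.Bm7_857
import Crest.Agent.R158.Cs1_410
import Crest.Agent.R158.Cs2_410

/-!
# R158, Block CS (helper410), part 3: the ring function satisfies `CSr`

* `insN n p` : 857/932's insertion, `p : ℕ`
* `HG n L c O I Z p a` : family of amplitudes, insertion at the gap `p`, `a` rows below, `L - a` above
* `hg_step` : two rows / two columns, from `band`
* `csum_back`, `CSr_of_back` : backward form of the relation
* `ring_CSr` (`s = I`), `ring_CSr_mirror` (`s = -I`)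
-/

set_option autoImplicit false

noncomputable section

open Matrix Finset Filter Topology
open scoped Matrix.Norms.L2Operator

namespace Crest.Agent.R158.Cs410

open Crest.Agent.R158.Wl290
open Crest.Agent.R158.Bd932 (That e3 ins)

/-- insertion of a line at the gap `p` -/
def insN (n p : ℕ) : Matrix (Fin (n + 2) → Bool) (Fin (n + 1) → Bool) ℂ :=
  if h : p < n + 2 then ins n ⟨p, h⟩ else 0

/-- family of amplitudes on the ring with `n + 1` columns (`n + 2` above the insertion); the twist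
`c μ` may depend on the member of the family -/
def HG (n : ℕ) (L : ℕ) {ι : Type*} [Fintype ι] (c : ι → ℝ) (O : ι → (Fin (n + 2) → Bool) → ℂ)
    (I : ι → (Fin (n + 1) → Bool) → ℂ) (Z : ℂ) (p a : ℕ) : ℂ :=
  (∑ μ, amp (That (n + 2) (c μ + e3) (1 / 2)) (That (n + 1) (c μ) (1 / 2)) (insN n p) (L - a) a
    (O μ) (I μ)) / Z

/-- **two rows / two columns** -/
theorem hg_step {ε h H : ℝ} (hε : 0 < ε) (hh0 : 0 < h) (hH : 0 ≤ H) : ∃ C : ℝ, 0 < C ∧
    ∀ᶠ n : ℕ in atTop, ∀ (L p a : ℕ), p + 2 < n + 2 → h * (n + 1) ≤ a → a + 2 ≤ L →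
      h * (n + 1) ≤ (L - (a + 2) : ℕ) → L ≤ H * (n + 1) →
      ∀ {ι : Type} [Fintype ι] (c : ι → ℝ) (O : ι → (Fin (n + 2) → Bool) → ℂ)
        (I : ι → (Fin (n + 1) → Bool) → ℂ) (Z : ℂ), Z ≠ 0 → ∀ K : ℝ,
        ∑ μ, nrm (I μ) * nrm (O μ) ≤ K * ‖Z‖ →
      ‖(HG n L c O I Z (p + 2) (a + 2) - HG n L c O I Z (p + 2) a) -
          Complex.I * (HG n L c O I Z (p + 2) a - HG n L c O I Z p a)‖ ≤
        C * ((n : ℝ) + 1) ^ (-(4 / 3) + ε) * K := by
  obtain ⟨C, hC, H1⟩ := Crest.Agent.R158.Bm857.band hε hh0 hH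
  refine ⟨C, hC, ?_⟩
  filter_upwards [H1] with n hn L p a hp ha1 ha2 hb1 hL ι _ c O I Z hZ K hK
  have hp' : p < n := by omega
  have haL : (a : ℝ) ≤ L := by exact_mod_cast (by omega : a ≤ L)
  have hbL : ((L - (a + 2) : ℕ) : ℝ) ≤ L := by exact_mod_cast Nat.sub_le _ _
  have h1 := fun μ => hn (c μ) ⟨p, hp'⟩ a (L - (a + 2)) ha1 (haL.trans hL) hb1 (hbL.trans hL)
  have e1 : insN n (p + 2) = ins n (⟨p, hp'⟩ : Fin n).succ.succ := by
    rw [insN, dif_pos (by omega)]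
    rfl
  have e2 : insN n p = ins n (⟨p, hp'⟩ : Fin n).castSucc.castSucc := by
    rw [insN, dif_pos (by omega)]
    rfl
  simp only [← e1, ← e2] at h1
  have hZ' : 0 < ‖Z‖ := norm_pos_iff.2 hZ
  have e3 : L - a = L - (a + 2) + 2 := by omega
  have h2 : (HG n L c O I Z (p + 2) (a + 2) - HG n L c O I Z (p + 2) a) -
          Complex.I * (HG n L c O I Z (p + 2) a - HG n L c O I Z p a) =
      (∑ μ, ((amp (That (n + 2) (c μ + Bd932.e3) (1 / 2)) (That (n + 1) (c μ) (1 / 2)) (insN n (p + 2))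
          (L - (a + 2)) (a + 2) (O μ) (I μ) -
        amp (That (n + 2) (c μ + Bd932.e3) (1 / 2)) (That (n + 1) (c μ) (1 / 2)) (insN n (p + 2))
          (L - (a + 2) + 2) a (O μ) (I μ)) +
        Complex.I * (amp (That (n + 2) (c μ + Bd932.e3) (1 / 2)) (That (n + 1) (c μ) (1 / 2)) (insN n p)
          (L - (a + 2) + 2) a (O μ) (I μ) -
          amp (That (n + 2) (c μ + Bd932.e3) (1 / 2)) (That (n + 1) (c μ) (1 / 2)) (insN n (p + 2))
          (L - (a + 2) + 2) a (O μ) (I μ)))) / Z := by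
    simp only [HG, e3, Finset.sum_add_distrib, Finset.sum_sub_distrib, ← Finset.mul_sum]
    ring
  rw [h2, norm_div, div_le_iff₀ hZ']
  refine (norm_sum_le _ _).trans ?_
  refine (Finset.sum_le_sum fun μ _ => amp_step_le (h1 μ) (O μ) (I μ)).trans ?_
  rw [← Finset.mul_sum]
  have h3 : 0 ≤ C * ((n : ℝ) + 1) ^ (-(4 / 3) + ε) := by positivity
  calc C * ((n : ℝ) + 1) ^ (-(4 / 3) + ε) * ∑ μ, nrm (I μ) * nrm (O μ) ≤
      C * ((n : ℝ) + 1) ^ (-(4 / 3) + ε) * (K * ‖Z‖) := mul_le_mul_of_nonneg_left hK h3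
    _ = _ := by ring

/-- backward telescoping identity -/
theorem csum_back (s : ℂ) (H : ℤ → ℤ → ℂ) {i1 i2 j1 j2 : ℤ} (hi : i1 ≤ i2) (hj : j1 ≤ j2) :
    csum s H i1 i2 j1 j2 = ∑ i ∈ Finset.Ico i1 i2, ∑ j ∈ Finset.Ico j1 j2,
      ((H (i + 1) (j + 1) - H (i + 1) j) - s * (H (i + 1) j - H i j)) +
      ((H i1 j2 - H i1 j1) - (H i2 j2 - H i2 j1)) := by
  have tel : ∀ (f : ℤ → ℂ) {a b : ℤ}, a ≤ b → ∑ k ∈ Finset.Ico a b, (f (k + 1) - f k) =
      f b - f a := by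
    intro f a b hab
    obtain ⟨k, rfl⟩ : ∃ k : ℕ, b = a + k := ⟨(b - a).toNat, by omega⟩
    induction k with
    | zero => simp
    | succ k ih =>
      have h1 : Finset.Ico a (a + ((k + 1 : ℕ) : ℤ)) = insert (a + (k : ℤ)) (Finset.Ico a (a + k)) := by
        ext x; simp only [Finset.mem_Ico, Finset.mem_insert]; push_cast; omega
      rw [h1, Finset.sum_insert (by simp), ih (by omega)]
      push_cast
      ring_nf
  have e1 : ∑ i ∈ Finset.Ico i1 i2, (H i j2 - H i j1) =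
      ∑ i ∈ Finset.Ico i1 i2, ∑ j ∈ Finset.Ico j1 j2, (H (i + 1) (j + 1) - H (i + 1) j) +
      ((H i1 j2 - H i1 j1) - (H i2 j2 - H i2 j1)) := by
    have h1 : ∑ i ∈ Finset.Ico i1 i2, ∑ j ∈ Finset.Ico j1 j2, (H (i + 1) (j + 1) - H (i + 1) j) =
        ∑ i ∈ Finset.Ico i1 i2, (H (i + 1) j2 - H (i + 1) j1) :=
      Finset.sum_congr rfl fun i _ => tel (H (i + 1)) hj
    have h2 := tel (fun i => H i j2 - H i j1) hi
    have h3 : ∑ i ∈ Finset.Ico i1 i2, (H (i + 1) j2 - H (i + 1) j1) -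
        ∑ i ∈ Finset.Ico i1 i2, (H i j2 - H i j1) =
        (H i2 j2 - H i2 j1) - (H i1 j2 - H i1 j1) := by
      rw [← Finset.sum_sub_distrib]; exact h2
    rw [h1]
    linear_combination -h3
  have e2 : ∑ j ∈ Finset.Ico j1 j2, (H i2 j - H i1 j) =
      ∑ i ∈ Finset.Ico i1 i2, ∑ j ∈ Finset.Ico j1 j2, (H (i + 1) j - H i j) := by
    rw [Finset.sum_comm]
    exact Finset.sum_congr rfl fun j _ => (tel (fun i => H i j) hi).symm
  unfold csum
  rw [e1, e2, Finset.mul_sum, add_sub_right_comm, ← Finset.sum_sub_distrib]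
  congr 1
  refine Finset.sum_congr rfl fun i _ => ?_
  rw [Finset.mul_sum, ← Finset.sum_sub_distrib]

lemma dsum_le {F : ℤ → ℤ → ℂ} {i1 i2 j1 j2 : ℤ} {η : ℝ} (hi : i1 ≤ i2) (hj : j1 ≤ j2)
    (h : ∀ i j, i1 ≤ i → i < i2 → j1 ≤ j → j < j2 → ‖F i j‖ ≤ η) :
    ‖∑ i ∈ Finset.Ico i1 i2, ∑ j ∈ Finset.Ico j1 j2, F i j‖ ≤
      (i2 - i1 : ℝ) * ((j2 - j1 : ℝ) * η) := by
  have ci : (((i2 - i1).toNat : ℕ) : ℝ) = i2 - i1 := by
    have : ((i2 - i1).toNat : ℤ) = i2 - i1 := Int.toNat_of_nonneg (by omega)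
    exact_mod_cast this
  have cj : (((j2 - j1).toNat : ℕ) : ℝ) = j2 - j1 := by
    have : ((j2 - j1).toNat : ℤ) = j2 - j1 := Int.toNat_of_nonneg (by omega)
    exact_mod_cast this
  refine (norm_sum_le _ _).trans ?_
  refine (Finset.sum_le_sum (g := fun _ => (j2 - j1 : ℝ) * η) fun i hi' => ?_).trans ?_
  · refine (norm_sum_le _ _).trans ?_
    refine (Finset.sum_le_sum (g := fun _ => η) fun j hj' => ?_).trans ?_
    · rw [Finset.mem_Ico] at hi' hj'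
      exact h i j hi'.1 hi'.2 hj'.1 hj'.2
    · rw [Finset.sum_const, Int.card_Ico, nsmul_eq_mul, cj]
  · rw [Finset.sum_const, Int.card_Ico, nsmul_eq_mul, ci]

/-- backward relation with error `o(d)` and boundedness imply `CSr` -/
theorem CSr_of_back {ι : Type*} {l : Filter ι} {s : ℂ} {d : ι → ℝ} (hd : ∀ᶠ n in l, 0 < d n)
    (hd0 : Tendsto d l (𝓝 0)) {H : ι → ℤ → ℤ → ℂ} {a b c e B : ℝ} (hB0 : 0 ≤ B)
    (hB : ∀ᶠ n in l, ∀ i j : ℤ, a ≤ d n * i → d n * i ≤ b → c ≤ d n * j → d n * j ≤ e →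
      ‖H n i j‖ ≤ B)
    (h : ∀ ε > 0, ∀ᶠ n in l, ∀ i j : ℤ, a ≤ d n * i → d n * (i + 1 : ℤ) ≤ b → c ≤ d n * j →
      d n * (j + 1 : ℤ) ≤ e →
      ‖(H n (i + 1) (j + 1) - H n (i + 1) j) - s * (H n (i + 1) j - H n i j)‖ ≤ ε * d n) :
    CSr l s d H a b c e := by
  intro ε hε
  set A : ℝ := |b - a| * |e - c| + 1 with hA
  have hA0 : 0 < A := by positivity
  have hsm : ∀ᶠ n in l, d n < ε / 2 / (4 * B + 1) := hd0.eventually (gt_mem_nhds (by positivity))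
  filter_upwards [h (ε / 2 / A) (by positivity), hd, hB, hsm] with n hn hdn hBn hns i1 i2 j1 j2 hi hj
    g1 g2 g3 g4
  have hib : (i1 : ℝ) ≤ i2 := by exact_mod_cast hi
  have hjb : (j1 : ℝ) ≤ j2 := by exact_mod_cast hj
  rw [csum_back s (H n) hi hj]
  have h1 := dsum_le (F := fun i j => (H n (i + 1) (j + 1) - H n (i + 1) j) -
      s * (H n (i + 1) j - H n i j)) (η := ε / 2 / A * d n) hi hj fun i j k1 k2 k3 k4 => by
    have q1 : (i1 : ℝ) ≤ i := by exact_mod_cast k1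
    have q2 : ((i + 1 : ℤ) : ℝ) ≤ i2 := by exact_mod_cast k2
    have q3 : (j1 : ℝ) ≤ j := by exact_mod_cast k3
    have q4 : ((j + 1 : ℤ) : ℝ) ≤ j2 := by exact_mod_cast k4
    exact hn i j (by nlinarith) (by nlinarith) (by nlinarith) (by nlinarith)
  have h2 : ‖(H n i1 j2 - H n i1 j1) - (H n i2 j2 - H n i2 j1)‖ ≤ 4 * B := by
    have b1 := hBn i1 j2 g1 (by nlinarith) (by nlinarith) g4
    have b2 := hBn i1 j1 g1 (by nlinarith) g3 (by nlinarith)
    have b3 := hBn i2 j2 (by nlinarith) g2 (by nlinarith) g4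
    have b4 := hBn i2 j1 (by nlinarith) g2 g3 (by nlinarith)
    refine (norm_sub_le _ _).trans ?_
    have c1 := norm_sub_le (H n i1 j2) (H n i1 j1)
    have c2 := norm_sub_le (H n i2 j2) (H n i2 j1)
    linarith
  have k1 : d n * (i2 - i1 : ℝ) ≤ |b - a| := (by linarith : d n * (i2 - i1 : ℝ) ≤ b - a).trans
    (le_abs_self _)
  have k2 : d n * (j2 - j1 : ℝ) ≤ |e - c| := (by linarith : d n * (j2 - j1 : ℝ) ≤ e - c).trans
    (le_abs_self _)
  have k3 : 0 ≤ d n * (i2 - i1 : ℝ) := mul_nonneg hdn.le (by linarith)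
  have k4 : 0 ≤ d n * (j2 - j1 : ℝ) := mul_nonneg hdn.le (by linarith)
  have h3 : d n * ((i2 - i1 : ℝ) * ((j2 - j1 : ℝ) * (ε / 2 / A * d n))) ≤ ε / 2 := by
    calc d n * ((i2 - i1 : ℝ) * ((j2 - j1 : ℝ) * (ε / 2 / A * d n))) =
        (d n * (i2 - i1 : ℝ)) * (d n * (j2 - j1 : ℝ)) * (ε / 2 / A) := by ring
      _ ≤ (|b - a| * |e - c|) * (ε / 2 / A) :=
        mul_le_mul_of_nonneg_right (mul_le_mul k1 k2 k4 (abs_nonneg _)) (by positivity)
      _ ≤ A * (ε / 2 / A) := mul_le_mul_of_nonneg_right (by rw [hA]; linarith) (by positivity)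
      _ = ε / 2 := by field_simp
  have h4 : d n * (4 * B) ≤ ε / 2 := by
    rw [lt_div_iff₀ (by positivity)] at hns
    nlinarith
  have h5 := mul_le_mul_of_nonneg_left (norm_add_le (∑ i ∈ Finset.Ico i1 i2,
    ∑ j ∈ Finset.Ico j1 j2, ((H n (i + 1) (j + 1) - H n (i + 1) j) -
      s * (H n (i + 1) j - H n i j))) ((H n i1 j2 - H n i1 j1) - (H n i2 j2 - H n i2 j1))) hdn.le
  have h6 := mul_le_mul_of_nonneg_left h1 hdn.le
  have h7 := mul_le_mul_of_nonneg_left h2 hdn.le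
  rw [mul_add] at h5
  linarith

/-- data of the ring function: `H x i j` is the family amplitude at the gap `P x i` (natural
number), `Q x j` rows below -/
def IsRing {ι : Type*} (l : Filter ι) (d : ι → ℝ) (H : ι → ℤ → ℤ → ℂ) (a b c' e : ℝ)
    (P : ι → ℤ → ℤ) (κ : ℝ) : Prop :=
  ∃ (N L : ι → ℕ) (J : ι → Type) (_ : ∀ x, Fintype (J x)) (c : ∀ x, J x → ℝ)
    (O : ∀ x, J x → (Fin (N x + 2) → Bool) → ℂ) (I : ∀ x, J x → (Fin (N x + 1) → Bool) → ℂ)
    (Z : ι → ℂ) (a0 : ι → ℤ) (h Hh r0 K0 : ℝ), 0 < h ∧ 0 < r0 ∧ 0 ≤ Hh ∧ 0 ≤ K0 ∧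
    ∀ᶠ x in l, r0 ≤ d x * (N x + 1) ∧ (L x : ℝ) ≤ Hh * (N x + 1) ∧ Z x ≠ 0 ∧
      (∑ μ, nrm (I x μ) * nrm (O x μ)) ≤ K0 * ((N x : ℝ) + 1) ^ κ * ‖Z x‖ ∧
      ∀ i j : ℤ, a ≤ d x * i → d x * i ≤ b → c' ≤ d x * j → d x * j ≤ e →
        ∃ p q : ℕ, (p : ℤ) = P x i ∧ (q : ℤ) = a0 x + 2 * j ∧ p < N x + 2 ∧
          h * (N x + 1) ≤ q ∧ q ≤ L x ∧ h * (N x + 1) ≤ (L x - q : ℕ) ∧
          H x i j = HG (N x) (L x) (c x) (O x) (I x) (Z x) p q

/-- size of the error -/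
lemma small_err {ι : Type*} {l : Filter ι} {d : ι → ℝ} (hd : ∀ᶠ x in l, 0 < d x)
    (hd0 : Tendsto d l (𝓝 0)) {N : ι → ℕ} {r0 C K0 ρ : ℝ} (hr0 : 0 < r0) (hC : 0 ≤ C * K0)
    (hρ : 0 < ρ) (hN : ∀ᶠ x in l, r0 ≤ d x * (N x + 1)) {δ : ℝ} (hδ : 0 < δ) :
    ∀ᶠ x in l, C * K0 * ((N x : ℝ) + 1) ^ (-1 - ρ) ≤ δ * d x := by
  have h1 : Tendsto (fun x => (d x / r0) ^ ρ) l (𝓝 0) := by
    have h2 : Tendsto (fun x => d x / r0) l (𝓝 0) := by
      have := hd0.div_const r0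
      rwa [zero_div] at this
    have h3 := (Real.continuousAt_rpow_const 0 ρ (Or.inr hρ.le)).tendsto.comp h2
    rw [Real.zero_rpow hρ.ne'] at h3
    exact h3
  have h2 : ∀ᶠ x in l, (d x / r0) ^ ρ < δ * r0 / (C * K0 + 1) :=
    h1.eventually (gt_mem_nhds (by positivity))
  filter_upwards [hd, hN, h2] with x hx hNx h2x
  have hn0 : (0 : ℝ) < (N x : ℝ) + 1 := by positivity
  have e1 : ((N x : ℝ) + 1)⁻¹ ≤ d x / r0 := by
    rw [inv_eq_one_div, div_le_div_iff₀ hn0 hr0]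
    linarith
  have e2 : ((N x : ℝ) + 1) ^ (-1 - ρ) = ((N x : ℝ) + 1)⁻¹ * (((N x : ℝ) + 1)⁻¹) ^ ρ := by
    rw [sub_eq_add_neg, Real.rpow_add hn0, Real.rpow_neg_one, Real.rpow_neg hn0.le,
      Real.inv_rpow hn0.le]
  have e3 : (((N x : ℝ) + 1)⁻¹) ^ ρ ≤ (d x / r0) ^ ρ :=
    Real.rpow_le_rpow (by positivity) e1 hρ.le
  have e4 : 0 ≤ d x / r0 := by positivity
  rw [e2]
  calc C * K0 * (((N x : ℝ) + 1)⁻¹ * (((N x : ℝ) + 1)⁻¹) ^ ρ) ≤
      C * K0 * ((d x / r0) * (δ * r0 / (C * K0 + 1))) :=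
        mul_le_mul_of_nonneg_left (mul_le_mul e1 (e3.trans h2x.le) (by positivity) e4) hC
    _ = (C * K0) / (C * K0 + 1) * (δ * d x) := by field_simp
    _ ≤ 1 * (δ * d x) := by
        refine mul_le_mul_of_nonneg_right ?_ (by positivity)
        rw [div_le_one (by positivity)]; linarith
    _ = _ := one_mul _

/-- **the ring function satisfies `CSr` with `s = I`** -/
theorem ring_CSr {ι : Type*} {l : Filter ι} {d : ι → ℝ} (hd : ∀ᶠ x in l, 0 < d x)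
    (hd0 : Tendsto d l (𝓝 0)) {H : ι → ℤ → ℤ → ℂ} {a b c' e B κ : ℝ} (hB0 : 0 ≤ B)
    (hB : ∀ᶠ x in l, ∀ i j : ℤ, a ≤ d x * i → d x * i ≤ b → c' ≤ d x * j → d x * j ≤ e →
      ‖H x i j‖ ≤ B) (hκ : κ < 1 / 3) {p0 : ι → ℤ}
    (hR : IsRing l d H a b c' e (fun x i => p0 x + 2 * i) κ) :
    CSr l Complex.I d H a b c' e := by
  obtain ⟨N, L, J, _, c, O, I, Z, a0, h, Hh, r0, K0, hh, hr0, hHh, hK0, hR⟩ := hR
  set ε : ℝ := (1 / 3 - κ) / 2 with hε
  have hε0 : 0 < ε := by rw [hε]; linarith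
  obtain ⟨C, hC, H1⟩ := hg_step hε0 hh hHh
  have hN : ∀ᶠ x in l, r0 ≤ d x * (N x + 1) := hR.mono fun x hx => hx.1
  have hNt : Tendsto N l atTop := by
    have h1 : Tendsto (fun x => (N x : ℝ)) l atTop := by
      rw [tendsto_atTop]
      intro A
      have h2 : ∀ᶠ x in l, d x < r0 / (|A| + 1) := hd0.eventually (gt_mem_nhds (by positivity))
      filter_upwards [hd, hN, h2] with x hx hNx h2x
      rw [lt_div_iff₀ (by positivity)] at h2x
      have h3 : |A| + 1 < (N x : ℝ) + 1 := by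
        by_contra hcon
        push Not at hcon
        have := mul_le_mul_of_nonneg_left hcon hx.le
        linarith
      linarith [le_abs_self A]
    exact tendsto_natCast_atTop_iff.1 h1
  refine CSr_of_back hd hd0 hB0 hB fun δ hδ => ?_
  have hsmall := small_err (C := C) (K0 := K0) (ρ := ε) hd hd0 hr0 (by positivity) hε0 hN hδ
  filter_upwards [hNt.eventually H1, hR, hsmall] with x hx hRx hsx i j g1 g2 g3 g4
  obtain ⟨-, hL, hZ, hK, hH⟩ := hRx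
  have hdi : d x * i ≤ d x * (i + 1 : ℤ) ∧ d x * j ≤ d x * (j + 1 : ℤ) := by
    have hdx : 0 ≤ d x := by
      by_contra hcon
      push Not at hcon
      have hpos : (0 : ℝ) ≤ C * K0 * ((N x : ℝ) + 1) ^ (-1 - ε) := by positivity
      have : δ * d x < 0 := mul_neg_of_pos_of_neg hδ hcon
      linarith
    constructor
    · refine mul_le_mul_of_nonneg_left ?_ hdx
      push_cast; linarith
    · refine mul_le_mul_of_nonneg_left ?_ hdx
      push_cast; linarith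
  obtain ⟨p1, q1, e1, e2, e3, e4, e5, e6, e7⟩ := hH i j g1 (hdi.1.trans g2) g3 (hdi.2.trans g4)
  obtain ⟨p2, q2, f1, f2, f3, f4, f5, f6, f7⟩ := hH (i + 1) j (g1.trans hdi.1) g2 g3
    (hdi.2.trans g4)
  obtain ⟨p3, q3, k1, k2, k3, k4, k5, k6, k7⟩ := hH (i + 1) (j + 1) (g1.trans hdi.1) g2
    (g3.trans hdi.2) g4
  have a1 : p2 = p1 + 2 := by
    have : (p2 : ℤ) = p1 + 2 := by rw [f1, e1]; ring
    exact_mod_cast this
  have a2 : p3 = p1 + 2 := by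
    have : (p3 : ℤ) = p1 + 2 := by rw [k1, e1]; ring
    exact_mod_cast this
  have a3 : q2 = q1 := by
    have : (q2 : ℤ) = q1 := by rw [f2, e2]
    exact_mod_cast this
  have a4 : q3 = q1 + 2 := by
    have : (q3 : ℤ) = q1 + 2 := by rw [k2, e2]; ring
    exact_mod_cast this
  subst a1 a2 a3 a4
  rw [e7, f7, k7]
  have := hx (L x) p1 q2 f3 e4 k5 k6 hL (c x) (O x) (I x) (Z x) hZ (K0 * ((N x : ℝ) + 1) ^ κ) hK
  refine this.trans (le_trans (le_of_eq ?_) hsx)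
  have hn0 : (0 : ℝ) < (N x : ℝ) + 1 := by positivity
  have e8 : (-1 - ε : ℝ) = (-(4 / 3) + ε) + κ := by rw [hε]; ring
  rw [e8, Real.rpow_add hn0 (-(4 / 3) + ε) κ]
  ring

/-- **mirror version, `s = -I`** -/
theorem ring_CSr_mirror {ι : Type*} {l : Filter ι} {d : ι → ℝ} (hd : ∀ᶠ x in l, 0 < d x)
    (hd0 : Tendsto d l (𝓝 0)) {H : ι → ℤ → ℤ → ℂ} {a b c' e κ : ℝ} (hκ : κ < 1 / 3) {p0 : ι → ℤ}
    (hR : IsRing l d H a b c' e (fun x i => p0 x - 2 * i) κ) :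
    CSr l (-Complex.I) d H a b c' e := by
  obtain ⟨N, L, J, _, c, O, I, Z, a0, h, Hh, r0, K0, hh, hr0, hHh, hK0, hR⟩ := hR
  set ε : ℝ := (1 / 3 - κ) / 2 with hε
  have hε0 : 0 < ε := by rw [hε]; linarith
  obtain ⟨C, hC, H1⟩ := hg_step hε0 hh hHh
  have hN : ∀ᶠ x in l, r0 ≤ d x * (N x + 1) := hR.mono fun x hx => hx.1
  have hNt : Tendsto N l atTop := by
    have h1 : Tendsto (fun x => (N x : ℝ)) l atTop := by
      rw [tendsto_atTop]
      intro A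
      have h2 : ∀ᶠ x in l, d x < r0 / (|A| + 1) := hd0.eventually (gt_mem_nhds (by positivity))
      filter_upwards [hd, hN, h2] with x hx hNx h2x
      rw [lt_div_iff₀ (by positivity)] at h2x
      have h3 : |A| + 1 < (N x : ℝ) + 1 := by
        by_contra hcon
        push Not at hcon
        have := mul_le_mul_of_nonneg_left hcon hx.le
        linarith
      linarith [le_abs_self A]
    exact tendsto_natCast_atTop_iff.1 h1
  refine CSr_of_cr hd fun δ hδ => ?_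
  have hsmall := small_err (C := C) (K0 := K0) (ρ := ε) hd hd0 hr0 (by positivity) hε0 hN hδ
  filter_upwards [hNt.eventually H1, hR, hsmall] with x hx hRx hsx i j g1 g2 g3 g4
  obtain ⟨-, hL, hZ, hK, hH⟩ := hRx
  have hdi : d x * i ≤ d x * (i + 1 : ℤ) ∧ d x * j ≤ d x * (j + 1 : ℤ) := by
    have hdx : 0 ≤ d x := by
      by_contra hcon
      push Not at hcon
      have hpos : (0 : ℝ) ≤ C * K0 * ((N x : ℝ) + 1) ^ (-1 - ε) := by positivity
      have : δ * d x < 0 := mul_neg_of_pos_of_neg hδ hcon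
      linarith
    constructor
    · refine mul_le_mul_of_nonneg_left ?_ hdx
      push_cast; linarith
    · refine mul_le_mul_of_nonneg_left ?_ hdx
      push_cast; linarith
  obtain ⟨p1, q1, e1, e2, e3, e4, e5, e6, e7⟩ := hH i j g1 (hdi.1.trans g2) g3 (hdi.2.trans g4)
  obtain ⟨p2, q2, f1, f2, f3, f4, f5, f6, f7⟩ := hH (i + 1) j (g1.trans hdi.1) g2 g3
    (hdi.2.trans g4)
  obtain ⟨p3, q3, k1, k2, k3, k4, k5, k6, k7⟩ := hH i (j + 1) g1 (hdi.1.trans g2)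
    (g3.trans hdi.2) g4
  have a1 : p1 = p2 + 2 := by
    have : (p1 : ℤ) = p2 + 2 := by rw [f1, e1]; ring
    exact_mod_cast this
  have a2 : p3 = p2 + 2 := by
    have : (p3 : ℤ) = p2 + 2 := by rw [f1, k1]; ring
    exact_mod_cast this
  have a3 : q2 = q1 := by
    have : (q2 : ℤ) = q1 := by rw [f2, e2]
    exact_mod_cast this
  have a4 : q3 = q1 + 2 := by
    have : (q3 : ℤ) = q1 + 2 := by rw [k2, e2]; ring
    exact_mod_cast this
  subst a1 a2 a3 a4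
  rw [e7, f7, k7]
  have := hx (L x) p2 q2 e3 e4 k5 k6 hL (c x) (O x) (I x) (Z x) hZ (K0 * ((N x : ℝ) + 1) ^ κ) hK
  have e9 : ∀ u v w : ℂ, (u - v) - -Complex.I * (w - v) = (u - v) - Complex.I * (v - w) := by
    intro u v w; ring
  rw [e9]
  refine this.trans (le_trans (le_of_eq ?_) hsx)
  have hn0 : (0 : ℝ) < (N x : ℝ) + 1 := by positivity
  have e8 : (-1 - ε : ℝ) = (-(4 / 3) + ε) + κ := by rw [hε]; ring
  rw [e8, Real.rpow_add hn0 (-(4 / 3) + ε) κ]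
  ring

end Crest.Agent.R158.Cs410
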