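import Crest.Agent.R158.Csf2_410
import Crest.Agent.R158.Cs3_410

/-!
# R158, Q1 = assembly (helper410), part 3: ring data

* `Pack n` : a family of ring vectors on `n + 1` columns
* `Pack.val D Lt p q` : `HG`, gap `p`, `q` rows below, `Lt - q` rows above
* `nR A B L` : `n + 1` = width of the ring below the leg (strip width `L`)
* `RingAt` : ring data of one slice at scale `L`, `SliceR` : for all slices
* `sliceU_of_ring : SliceR P → SliceU I P`
-/

set_option autoImplicit false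

open Filter Topology Set Metric
open Complex (I)

namespace Crest.Agent.R158.Cs410

open Crest.Agent.R158.Wl290 (CSr sg)
open Crest.Agent.R158.Env664 (Run exists_run)
open Crest.Agent.R158.Tj656 (P4 Om mpos Q1 Q1m mem_om om_open)

noncomputable section

/-- a family of ring vectors -/
structure Pack (n : ℕ) where
  /-- index type -/
  J : Type
  /-- finiteness -/
  fin : Fintype J
  /-- twist of the member below the leg -/
  c : J → ℝ
  /-- vector above -/
  O : J → (Fin (n + 2) → Bool) → ℂ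
  /-- vector below, with the coefficient -/
  I : J → (Fin (n + 1) → Bool) → ℂ
  /-- normalisation -/
  Z : ℂ

attribute [instance] Pack.fin

namespace Pack

variable {n : ℕ}

/-- value at the gap `p`, `q` rows below the leg, `Lt - q` rows above -/
def val (D : Pack n) (Lt p q : ℕ) : ℂ := HG n Lt D.c D.O D.I D.Z p q

/-- sum of the products of the norms -/
def nm (D : Pack n) : ℝ := ∑ μ, nrm (D.I μ) * nrm (D.O μ)

/-- trivial family -/
def triv (n : ℕ) : Pack n where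
  J := Empty
  fin := inferInstance
  c := Empty.elim
  O := fun μ => Empty.elim μ
  I := fun μ => Empty.elim μ
  Z := 1

end Pack

/-- `n + 1` = width of the ring below the leg, strip width `L` -/
def nR (A B L : ℤ) : ℕ := ((B - A + 2) * L - 1).toNat

/-- ring data of one slice at scale `L` -/
def RingAt (P : P4) (A B L y1 y2 : ℤ) (a b ya yb K κ δ : ℝ) (D : Pack (nR A B L)) : Prop :=
  D.Z ≠ 0 ∧ D.nm ≤ K * (L : ℝ) ^ κ * ‖D.Z‖ ∧
    ∀ p y0 : ℤ, a ≤ (p : ℝ) / L → (p : ℝ) / L ≤ b → ya ≤ (y0 : ℝ) / L → (y0 : ℝ) / L ≤ yb →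
      ‖P.HD L p y0 - D.val (y2 - y1).toNat (p - A * L).toNat (y0 - y1).toNat‖ ≤ δ

/-- **ring data for all slices** -/
def SliceR (P : P4) : Prop :=
  ∀ A B r : ℤ, Run P.F A B r → ∀ a b : ℝ, (A : ℝ) < a → a ≤ b → b < B + 1 →
    ∀ c e : ℝ, c ≤ e → InHalf r c e →
    ∃ (h0 κ : ℝ) (W : ℝ → ℝ), 0 < h0 ∧ κ < 1 / 3 ∧ (∀ h, 0 ≤ W h) ∧
      Tendsto (fun h => W h / h) (𝓝[>] 0) (𝓝 0) ∧
      ∀ h y : ℝ, 0 < h → h < h0 → c ≤ y → y ≤ e →
        ∃ (K : ℝ) (L0 : ℤ), ∀ L : ℤ, L0 ≤ L → Even L →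
          ∃ D, RingAt P A B L ⌊(y - 2 * h) * L⌋ ⌊(y + 2 * h) * L⌋ a b (y - h) (y + h) K κ (W h) D

lemma nR_eq {A B L : ℤ} (hAB : A ≤ B) (hL : 1 ≤ L) : (nR A B L : ℤ) + 1 = (B - A + 2) * L := by
  unfold nR
  have : 1 ≤ (B - A + 2) * L := by nlinarith
  omega

lemma nR_real {A B L : ℤ} (hAB : A ≤ B) (hL : 1 ≤ L) :
    ((nR A B L : ℕ) : ℝ) + 1 = ((B : ℝ) - A + 2) * L := by
  have := nR_eq hAB hL
  exact_mod_cast this

set_option maxHeartbeats 1000000 in
/-- **ring data give the comparison functions** -/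
theorem sliceU_of_ring {P : P4} (h : SliceR P) : SliceU I P := by
  intro A B r hrun a b hA hab hB c e hce hc
  obtain ⟨h0, κ, W, hh0, hκ, hW, hT, H⟩ := h A B r hrun a b hA hab hB c e hce hc
  refine ⟨h0, W, hh0, hW, hT, fun h' y hh' hlt hy1 hy2 Ln hev hL => ?_⟩
  obtain ⟨K, L0, HD⟩ := H h' y hh' hlt hy1 hy2
  have hAB : A ≤ B := hrun.le
  -- the data
  set y1 : ℤ → ℤ := fun L => ⌊(y - 2 * h') * L⌋ with hy1d
  set y2 : ℤ → ℤ := fun L => ⌊(y + 2 * h') * L⌋ with hy2d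
  have hex : ∀ n : ℕ, ∃ D : Pack (nR A B (Ln n)), L0 ≤ Ln n →
      RingAt P A B (Ln n) (y1 (Ln n)) (y2 (Ln n)) a b (y - h') (y + h') K κ (W h') D := by
    intro n
    by_cases hn : L0 ≤ Ln n
    · obtain ⟨D, hD⟩ := HD (Ln n) hn (hev n)
      exact ⟨D, fun _ => hD⟩
    · exact ⟨Pack.triv _, fun h => absurd h hn⟩
  choose D hD using hex
  set G : ℕ → ℤ → ℤ → ℂ := fun n i j =>
    (D n).val (y2 (Ln n) - y1 (Ln n)).toNat (2 * i - A * Ln n).toNat (2 * j - y1 (Ln n)).toNat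
    with hG
  have hLp : ∀ᶠ n in atTop, (1 : ℤ) ≤ Ln n := hL.eventually (eventually_ge_atTop 1)
  have hL0 : ∀ᶠ n in atTop, L0 ≤ Ln n := hL.eventually (eventually_ge_atTop L0)
  have ex : ∀ (n : ℕ) (i : ℤ), ((2 * i : ℤ) : ℝ) / (Ln n : ℝ) = 2 / (Ln n : ℝ) * i := by
    intro n i; push_cast; ring
  have hclose : ∀ᶠ n in atTop, ∀ i j : ℤ, a ≤ 2 / (Ln n : ℝ) * i → 2 / (Ln n : ℝ) * i ≤ b →
      y - h' ≤ 2 / (Ln n : ℝ) * j → 2 / (Ln n : ℝ) * j ≤ y + h' →
      ‖P.HD (Ln n) (2 * i) (2 * j) - G n i j‖ ≤ W h' := by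
    filter_upwards [hL0] with n hn i j g1 g2 g3 g4
    exact (hD n hn).2.2 (2 * i) (2 * j) (by rwa [ex]) (by rwa [ex]) (by rwa [ex]) (by rwa [ex])
  refine ⟨G, ?_, hclose⟩
  -- the ring function
  refine ring_CSr (p0 := fun n => - (A * Ln n)) (dpos hL) (dlim hL) (B := 1 + W h')
    (by have := hW h'; linarith) ?_ hκ ?_
  · filter_upwards [hclose] with n hn i j g1 g2 g3 g4
    have h1 := hn i j g1 g2 g3 g4
    have h2 : ‖P.HD (Ln n) (2 * i) (2 * j)‖ ≤ 1 := Ob664.norm_HD_le _ _ _ _ _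
    have h3 : G n i j = P.HD (Ln n) (2 * i) (2 * j) - (P.HD (Ln n) (2 * i) (2 * j) - G n i j) := by
      ring
    rw [h3]
    exact (norm_sub_le _ _).trans (add_le_add h2 h1)
  · -- `IsRing`
    have hm : (1 : ℝ) ≤ (B : ℝ) - A + 1 := by
      have : (A : ℝ) ≤ B := by exact_mod_cast hAB
      linarith
    set m : ℝ := (B : ℝ) - A + 2 with hmd
    have hm0 : 0 < m := by rw [hmd]; linarith
    refine ⟨fun n => nR A B (Ln n), fun n => (y2 (Ln n) - y1 (Ln n)).toNat, fun n => (D n).J,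
      fun n => (D n).fin, fun n => (D n).c, fun n => (D n).O, fun n => (D n).I, fun n => (D n).Z,
      fun n => - y1 (Ln n), h' / (2 * m), (4 * h' + 1) / m, 1, |K| * (1 / m) ^ κ,
      by positivity, one_pos, by positivity, by positivity, ?_⟩
    have hLbig : ∀ᶠ n in atTop, (2 / h' + 1 : ℝ) ≤ Ln n :=
      (tendsto_intCast_atTop_iff.2 hL).eventually (eventually_ge_atTop _)
    filter_upwards [hLp, hL0, hLbig] with n h1 hn0 h2
    have hLr : (0 : ℝ) < Ln n := by
      have : (1 : ℝ) ≤ Ln n := by exact_mod_cast h1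
      linarith
    have hLr1 : (1 : ℝ) ≤ Ln n := by exact_mod_cast h1
    have hN := nR_real hAB h1
    have hhL : 2 ≤ h' * Ln n := by
      have h3 : 2 / h' ≤ Ln n := by linarith
      rw [div_le_iff₀ hh'] at h3
      linarith
    have f1 : (y1 (Ln n) : ℝ) ≤ (y - 2 * h') * Ln n := Int.floor_le _
    have f2 : (y - 2 * h') * Ln n < y1 (Ln n) + 1 := Int.lt_floor_add_one _
    have f3 : (y2 (Ln n) : ℝ) ≤ (y + 2 * h') * Ln n := Int.floor_le _
    have f4 : (y + 2 * h') * Ln n < y2 (Ln n) + 1 := Int.lt_floor_add_one _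
    have f5 : (0 : ℝ) ≤ (y2 (Ln n) : ℝ) - y1 (Ln n) := by nlinarith
    have f6 : y1 (Ln n) ≤ y2 (Ln n) := by
      have : (y1 (Ln n) : ℝ) ≤ y2 (Ln n) := by linarith
      exact_mod_cast this
    have f7 : (((y2 (Ln n) - y1 (Ln n)).toNat : ℕ) : ℝ) = (y2 (Ln n) : ℝ) - y1 (Ln n) := by
      have : (((y2 (Ln n) - y1 (Ln n)).toNat : ℕ) : ℤ) = y2 (Ln n) - y1 (Ln n) :=
        Int.toNat_of_nonneg (by omega)
      exact_mod_cast this
    obtain ⟨hZ, hnm, -⟩ := hD n hn0
    refine ⟨?_, ?_, hZ, ?_, ?_⟩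
    · rw [hN, ← hmd]
      have : 2 / (Ln n : ℝ) * (m * Ln n) = 2 * m := by field_simp
      rw [this]; linarith
    · rw [f7, hN, ← hmd]
      have : (4 * h' + 1) / m * (m * Ln n) = (4 * h' + 1) * Ln n := by field_simp
      rw [this]
      nlinarith
    · refine hnm.trans ?_
      refine mul_le_mul_of_nonneg_right ?_ (norm_nonneg _)
      rw [hN, ← hmd, Real.mul_rpow hm0.le hLr.le]
      have e1 : (1 / m) ^ κ * (m ^ κ * (Ln n : ℝ) ^ κ) = (Ln n : ℝ) ^ κ := by
        rw [← mul_assoc, ← Real.mul_rpow (by positivity) hm0.le, one_div_mul_cancel hm0.ne',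
          Real.one_rpow, one_mul]
      calc K * (Ln n : ℝ) ^ κ ≤ |K| * (Ln n : ℝ) ^ κ :=
            mul_le_mul_of_nonneg_right (le_abs_self K) (by positivity)
        _ = |K| * ((1 / m) ^ κ * (m ^ κ * (Ln n : ℝ) ^ κ)) := by rw [e1]
        _ = _ := by ring
    · intro i j g1 g2 g3 g4
      have i1 : a * Ln n ≤ 2 * i := by
        rw [div_mul_eq_mul_div, le_div_iff₀ hLr] at g1; linarith
      have i2 : 2 * (i : ℝ) ≤ b * Ln n := by
        rw [div_mul_eq_mul_div, div_le_iff₀ hLr] at g2; linarith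
      have i3 : (y - h') * Ln n ≤ 2 * j := by
        rw [div_mul_eq_mul_div, le_div_iff₀ hLr] at g3; linarith
      have i4 : 2 * (j : ℝ) ≤ (y + h') * Ln n := by
        rw [div_mul_eq_mul_div, div_le_iff₀ hLr] at g4; linarith
      have k1 : A * Ln n ≤ 2 * i := by
        have : ((A * Ln n : ℤ) : ℝ) ≤ ((2 * i : ℤ) : ℝ) := by
          push_cast
          nlinarith
        exact_mod_cast this
      have k2 : y1 (Ln n) ≤ 2 * j := by
        have : ((y1 (Ln n) : ℤ) : ℝ) ≤ ((2 * j : ℤ) : ℝ) := by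
          push_cast
          nlinarith
        exact_mod_cast this
      have k3 : 2 * j ≤ y2 (Ln n) := by
        have : ((2 * j : ℤ) : ℝ) < ((y2 (Ln n) + 1 : ℤ) : ℝ) := by
          push_cast
          nlinarith
        have : 2 * j < y2 (Ln n) + 1 := by exact_mod_cast this
        omega
      have cq : (((2 * j - y1 (Ln n)).toNat : ℕ) : ℝ) = 2 * j - y1 (Ln n) := by
        have : (((2 * j - y1 (Ln n)).toNat : ℕ) : ℤ) = 2 * j - y1 (Ln n) :=
          Int.toNat_of_nonneg (by omega)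
        have h3 : ((((2 * j - y1 (Ln n)).toNat : ℕ) : ℤ) : ℝ) = ((2 * j - y1 (Ln n) : ℤ) : ℝ) := by
          rw [this]
        rw [Int.cast_natCast] at h3
        rw [h3]
        push_cast
        ring
      have cq2 : (((y2 (Ln n) - y1 (Ln n)).toNat - (2 * j - y1 (Ln n)).toNat : ℕ) : ℝ) =
          y2 (Ln n) - 2 * j := by
        have : (((y2 (Ln n) - y1 (Ln n)).toNat - (2 * j - y1 (Ln n)).toNat : ℕ) : ℤ) =
            y2 (Ln n) - 2 * j := by omega
        have h3 : ((((y2 (Ln n) - y1 (Ln n)).toNat - (2 * j - y1 (Ln n)).toNat : ℕ) : ℤ) : ℝ) =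
            ((y2 (Ln n) - 2 * j : ℤ) : ℝ) := by
          rw [this]
        rw [Int.cast_natCast] at h3
        rw [h3]
        push_cast
        ring
      refine ⟨(2 * i - A * Ln n).toNat, (2 * j - y1 (Ln n)).toNat, ?_, ?_, ?_, ?_, ?_, ?_, rfl⟩
      · rw [Int.toNat_of_nonneg (by omega)]; ring
      · rw [Int.toNat_of_nonneg (by omega)]; ring
      · have h3 : ((2 * i - A * Ln n : ℤ) : ℝ) < (((nR A B (Ln n) : ℕ) : ℤ) + 2 : ℤ) := by
          push_cast
          have : (b - A) * Ln n < (B + 1 - A) * Ln n := by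
            refine mul_lt_mul_of_pos_right ?_ hLr
            linarith
          nlinarith
        have h4 : 2 * i - A * Ln n < ((nR A B (Ln n) : ℕ) : ℤ) + 2 := by exact_mod_cast h3
        omega
      · show h' / (2 * m) * (((nR A B (Ln n) : ℕ) : ℝ) + 1) ≤ (((2 * j - y1 (Ln n)).toNat : ℕ) : ℝ)
        rw [cq, hN, ← hmd]
        have : h' / (2 * m) * (m * Ln n) = h' * Ln n / 2 := by field_simp
        rw [this]
        nlinarith
      · show (2 * j - y1 (Ln n)).toNat ≤ (y2 (Ln n) - y1 (Ln n)).toNat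
        omega
      · show h' / (2 * m) * (((nR A B (Ln n) : ℕ) : ℝ) + 1) ≤
          (((y2 (Ln n) - y1 (Ln n)).toNat - (2 * j - y1 (Ln n)).toNat : ℕ) : ℝ)
        rw [cq2, hN, ← hmd]
        have : h' / (2 * m) * (m * Ln n) = h' * Ln n / 2 := by field_simp
        rw [this]
        nlinarith

/-- **`Q1m false` from ring data and `OscM`** -/
theorem Q1m_of_ring (h : ∀ P : P4, SliceR P) (ho : ∀ P : P4, OscM P) : Q1m false :=
  Q1m_of_slices false (fun P => sliceU_of_ring (h P)) ho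

end

end Crest.Agent.R158.Cs410
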