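import Crest.Agent.R158.Csg_410
import Crest.Agent.R158.Ao12_857
import Crest.Agent.R158.Xr12_249

/-!
# R158, Q1 = assembly (helper410), part 4: the three named inputs `NormP`, `EvalP`, `CompP`

* `FamZ B` : a family `(c μ, φ μ, co μ)` with normalisation `Z`, `FamZ.amp` : its amplitude, `FamZ.nm` :
  sum of the products of the norms after `a1` rows below / `b1` rows above
* `FamZ.pack`, `pack_val` : the ring vectors
* `OnB` : the band of the slice, `bandOf`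
* `HAp` : the observable of the region with stubs (length `L / 8`)
* `NormP`, `EvalP`, `CompP`
* `sliceR_of : NormP fz P → EvalP fz P → CompP P → SliceR P`
-/

set_option autoImplicit false

open Filter Topology Set Metric Matrix
open Complex (I)

namespace Crest.Agent.R158.Cs410

open Crest.Agent.R158.Wl290 (CSr sg)
open Crest.Agent.R158.Sw300 (Port)
open Crest.Agent.R158.Bd932 (That e3 ins)
open Crest.Agent.R158.Env664 (Run Band TG D mark lowT upT)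
open Crest.Agent.R158.Ao857 (nn aa bb pp InZ OutZ Kz plainL nn_eq aa_eq bb_eq pp_eq)
open Crest.Agent.R158.Tj656 (P4 Om mpos Q1 Q1m)
open Crest.Agent.R158.Xr249 (Dp)

noncomputable section

/-- the arrows outside do not matter -/
def σ0 : Port TG → Bool := fun _ => false

/-- vector of the part below the band -/
def InA {A : Finset (ℤ × ℤ)} (B : Band A) (φ : Port TG → ℝ) : (Fin (nn B + 1) → Bool) → ℂ :=
  InZ B (lowT A B.xl B.xr B.y1) φ (plainL A (lowT A B.xl B.xr B.y1) φ) σ0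

/-- vector of the part above the band -/
def OutA {A : Finset (ℤ × ℤ)} (B : Band A) (φ : Port TG → ℝ) : (Fin (nn B + 2) → Bool) → ℂ :=
  OutZ B (upT A B.xl B.xr B.y2) φ (plainL A (upT A B.xl B.xr B.y2) φ) σ0

/-- a family of phases with normalisation -/
structure FamZ {A : Finset (ℤ × ℤ)} (B : Band A) where
  /-- index type -/
  J : Type
  /-- finiteness -/
  fin : Fintype J
  /-- twist below the leg -/
  c : J → ℝ
  /-- phases of the cut ends -/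
  φ : J → Port TG → ℝ
  /-- coefficient -/
  co : J → ℂ
  /-- normalisation -/
  Z : ℂ

attribute [instance] FamZ.fin

namespace FamZ

variable {A : Finset (ℤ × ℤ)} {B : Band A}

/-- the amplitude of the family at `z = (p, y0)` -/
def amp (F : FamZ B) (p y0 : ℤ) : ℂ :=
  ∑ μ, F.co μ * (OutA B (F.φ μ) ⬝ᵥ (Kz B p y0 (F.c μ) (F.c μ + e3) *ᵥ InA B (F.φ μ)))

/-- sum of the products of the norms, after `a1` rows below and `b1` rows above -/
def nm (F : FamZ B) (a1 b1 : ℕ) : ℝ :=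
  ∑ μ, ‖F.co μ‖ * (nrm (That (nn B + 1) (F.c μ) (1 / 2) ^ a1 *ᵥ InA B (F.φ μ)) *
    nrm (OutA B (F.φ μ) ᵥ* That (nn B + 2) (F.c μ + e3) (1 / 2) ^ b1))

/-- the ring vectors -/
def pack (F : FamZ B) (a1 b1 : ℕ) : Pack (nn B) where
  J := F.J
  fin := F.fin
  c := F.c
  O μ := OutA B (F.φ μ) ᵥ* That (nn B + 2) (F.c μ + e3) (1 / 2) ^ b1
  I μ := F.co μ • (That (nn B + 1) (F.c μ) (1 / 2) ^ a1 *ᵥ InA B (F.φ μ))
  Z := F.Z

lemma pack_nm (F : FamZ B) (a1 b1 : ℕ) : (F.pack a1 b1).nm = F.nm a1 b1 := by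
  show (∑ μ, nrm (F.co μ • (That (nn B + 1) (F.c μ) (1 / 2) ^ a1 *ᵥ InA B (F.φ μ))) * _) = _
  refine Finset.sum_congr rfl fun μ _ => ?_
  have h1 : nrm (F.co μ • (That (nn B + 1) (F.c μ) (1 / 2) ^ a1 *ᵥ InA B (F.φ μ))) =
      ‖F.co μ‖ * nrm (That (nn B + 1) (F.c μ) (1 / 2) ^ a1 *ᵥ InA B (F.φ μ)) := by
    unfold nrm
    rw [WithLp.toLp_smul, norm_smul]
  rw [h1, mul_assoc]
  rfl

theorem pack_val (F : FamZ B) {p y0 : ℤ} (h : B.At p y0) {a1 b1 Lt q g : ℕ}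
    (hg : (g : ℤ) = p - B.xl) (ha : (a1 : ℤ) + q = y0 - B.y1)
    (hb : (b1 : ℤ) + (Lt - q : ℕ) = B.y2 - y0) :
    (F.pack a1 b1).val Lt g q = F.amp p y0 / F.Z := by
  have haa := aa_eq B h
  have hbb := bb_eq B h
  have hpp := pp_eq B h
  have e1 : aa B y0 + 1 = q + a1 := by omega
  have e2 : bb B y0 + 1 = b1 + (Lt - q) := by omega
  have e3' : insN (nn B) g = ins (nn B) (pp B p) := by
    have hg' : g = ((pp B p : Fin (nn B + 2)) : ℕ) := by omega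
    rw [insN, dif_pos (by rw [hg']; exact (pp B p).2)]
    congr 1
    exact Fin.ext hg'
  unfold Pack.val HG FamZ.amp
  congr 1
  refine Finset.sum_congr rfl fun μ _ => ?_
  show Cs410.amp (That (nn B + 2) (F.c μ + e3) (1 / 2)) (That (nn B + 1) (F.c μ) (1 / 2))
    (insN (nn B) g) (Lt - q) q (OutA B (F.φ μ) ᵥ* That (nn B + 2) (F.c μ + e3) (1 / 2) ^ b1)
      (F.co μ • (That (nn B + 1) (F.c μ) (1 / 2) ^ a1 *ᵥ InA B (F.φ μ))) = _
  unfold Cs410.amp Kz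
  rw [Matrix.mulVec_smul, dotProduct_smul, smul_eq_mul, ← Matrix.dotProduct_mulVec,
    Matrix.mulVec_mulVec, Matrix.mulVec_mulVec, e3', e1, e2, pow_add _ q a1, pow_add _ b1 (Lt - q)]
  simp only [Matrix.mul_assoc]

end FamZ

/-! ### the bands -/

/-- the band of the slice: strip width `L`, rows from `(y - 3 h) L` to `(y + 3 h) L` -/
structure OnB (A B' L : ℤ) (h y : ℝ) {T : Finset (ℤ × ℤ)} (B : Band T) : Prop where
  xl : B.xl = A * L
  xr : B.xr = B' * L + L - 1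
  R : B.R = L
  y1 : B.y1 = ⌊(y - 3 * h) * L⌋
  y2 : B.y2 = ⌊(y + 3 * h) * L⌋

/-- existence of the band -/
theorem exists_band {F : Finset (ℤ × ℤ)} {A B' r L : ℤ} (hrun : Run F A B' r) (hL : 0 < L) {h y : ℝ}
    (h1 : (r : ℝ) ≤ y - 3 * h) (h2 : y + 3 * h < r + 1) :
    ∃ B : Band (D F L), OnB A B' L h y B := by
  have hLr : (0 : ℝ) < L := by exact_mod_cast hL
  have g1 : r * L ≤ ⌊(y - 3 * h) * L⌋ := by
    rw [Int.le_floor]; push_cast; nlinarith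
  have g2 : ⌊(y + 3 * h) * L⌋ ≤ r * L + L := by
    have h3 := Int.floor_le ((y + 3 * h) * L)
    have : (⌊(y + 3 * h) * L⌋ : ℝ) ≤ ((r * L + L : ℤ) : ℝ) := by push_cast; nlinarith
    exact_mod_cast this
  let B : Band (D F L) :=
    { xl := A * L
      xr := B' * L + L - 1
      y1 := ⌊(y - 3 * h) * L⌋
      y2 := ⌊(y + 3 * h) * L⌋
      R := L
      hR := hL
      run := fun y' g3 g4 => hrun.scale hL (by omega) (by omega) }
  exact ⟨B, ⟨rfl, rfl, rfl, rfl, rfl⟩⟩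

lemma OnB.nn_eq {F : Finset (ℤ × ℤ)} {A B' L : ℤ} {h y : ℝ} {B : Band (D F L)}
    (hB : OnB A B' L h y B) : nn B = nR A B' L := by
  unfold Ao857.nn nR
  rw [hB.xl, hB.xr, hB.R]
  congr 1
  ring

/-- a band on each scale -/
abbrev FZ : Type 1 := ∀ (P : P4) (L : ℤ) (_δ : ℝ) (B : Band (D P.F L)), FamZ B

/-- marks of the polygon at scale `L` -/
def mk (P : P4) (L : ℤ) (i : Fin 3) : Port (ℤ × ℤ) := (mark L (P.cc i).1 (P.cc i).2).2

/-- the observable of the region with stubs of length `L / 8` -/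
def HAp (P : P4) (L : ℤ) (B : Band (D P.F L)) (p y0 : ℤ) : ℂ :=
  Ob664.HA (Dp (D P.F L) B.xl B.xr B.y1 B.y2 (L / 8)) (mk P L 0) (mk P L 1) (mk P L 2) p y0

/-! ### the inputs -/

/-- **norms** -/
def NormP (fz : FZ) (P : P4) : Prop :=
  ∃ κ h0 : ℝ, κ < 1 / 3 ∧ 0 < h0 ∧ ∀ A B' r : ℤ, Run P.F A B' r → ∀ h y δ : ℝ, 0 < h → h < h0 →
    0 < δ → δ ≤ h / 100 → InHalf r (y - 4 * h) (y + 4 * h) → ∃ (K : ℝ) (L0 : ℤ), ∀ L : ℤ, L0 ≤ L →
      Even L → ∀ B : Band (D P.F L), OnB A B' L h y B →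
        (fz P L δ B).Z ≠ 0 ∧ (fz P L δ B).nm (⌊(y - 2 * h) * L⌋ - B.y1).toNat
          (B.y2 - ⌊(y + 2 * h) * L⌋).toNat ≤ K * (L : ℝ) ^ κ * ‖(fz P L δ B).Z‖

/-- **evaluation** -/
def EvalP (fz : FZ) (P : P4) : Prop :=
  ∀ A B' r : ℤ, Run P.F A B' r → ∀ a b c e : ℝ, (A : ℝ) < a → a ≤ b → b < B' + 1 → c ≤ e →
    InHalf r c e → ∃ h0 C γ : ℝ, 0 < h0 ∧ 0 ≤ C ∧ 0 < γ ∧
      ∀ h y : ℝ, 0 < h → h < h0 → c ≤ y → y ≤ e → ∃ δ : ℝ, 0 < δ ∧ δ ≤ h / 100 ∧
        ∃ L0 : ℤ, ∀ L : ℤ, L0 ≤ L → Even L → ∀ B : Band (D P.F L), OnB A B' L h y B →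
          ∀ p y0 : ℤ, a ≤ (p : ℝ) / L → (p : ℝ) / L ≤ b → y - h ≤ (y0 : ℝ) / L →
            (y0 : ℝ) / L ≤ y + h →
            ‖(fz P L δ B).amp p y0 / (fz P L δ B).Z - HAp P L B p y0‖ ≤ C * h ^ (1 + γ)

/-- **comparison** with the region without stubs -/
def CompP (P : P4) : Prop :=
  ∀ A B' r : ℤ, Run P.F A B' r → ∀ a b c e : ℝ, (A : ℝ) < a → a ≤ b → b < B' + 1 → c ≤ e →
    InHalf r c e → ∃ h0 C γ : ℝ, 0 < h0 ∧ 0 ≤ C ∧ 0 < γ ∧
      ∀ h y : ℝ, 0 < h → h < h0 → c ≤ y → y ≤ e →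
        ∃ L0 : ℤ, ∀ L : ℤ, L0 ≤ L → Even L → ∀ B : Band (D P.F L), OnB A B' L h y B →
          ∀ p y0 : ℤ, a ≤ (p : ℝ) / L → (p : ℝ) / L ≤ b → y - h ≤ (y0 : ℝ) / L →
            (y0 : ℝ) / L ≤ y + h → ‖HAp P L B p y0 - P.HD L p y0‖ ≤ C * h ^ (1 + γ)

/-! ### the slices -/

lemma RingAt.cast {P : P4} {A B L y1 y2 : ℤ} {a b ya yb K κ δ : ℝ} {n : ℕ} (hn : n = nR A B L)
    (D : Pack n) (hZ : D.Z ≠ 0) (hnm : D.nm ≤ K * (L : ℝ) ^ κ * ‖D.Z‖)
    (hv : ∀ p y0 : ℤ, a ≤ (p : ℝ) / L → (p : ℝ) / L ≤ b → ya ≤ (y0 : ℝ) / L → (y0 : ℝ) / L ≤ yb →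
      ‖P.HD L p y0 - D.val (y2 - y1).toNat (p - A * L).toNat (y0 - y1).toNat‖ ≤ δ) :
    ∃ D, RingAt P A B L y1 y2 a b ya yb K κ δ D := by
  subst hn
  exact ⟨D, hZ, hnm, hv⟩

/-- error of a slice -/
def Wf (C C' γ γ' h : ℝ) : ℝ := C * |h| ^ (1 + γ) + C' * |h| ^ (1 + γ')

lemma Wf_nonneg {C C' γ γ' : ℝ} (hC : 0 ≤ C) (hC' : 0 ≤ C') (h : ℝ) : 0 ≤ Wf C C' γ γ' h := by
  unfold Wf; positivity

lemma Wf_tendsto {C C' γ γ' : ℝ} (hγ : 0 < γ) (hγ' : 0 < γ') :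
    Tendsto (fun h => Wf C C' γ γ' h / h) (𝓝[>] 0) (𝓝 0) := by
  have t : ∀ q : ℝ, 1 < q → Tendsto (fun h : ℝ => |h| ^ q / h) (𝓝[>] 0) (𝓝 0) := by
    intro q hq
    have h1 : Tendsto (fun h : ℝ => h ^ (q - 1)) (𝓝[>] 0) (𝓝 0) := by
      have := ((Real.continuousAt_rpow_const 0 (q - 1) (Or.inr (by linarith))).tendsto).mono_left
        (nhdsWithin_le_nhds (s := Ioi 0))
      rwa [Real.zero_rpow (by linarith)] at this
    refine h1.congr' ?_
    filter_upwards [self_mem_nhdsWithin] with h hh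
    have hh' : (0 : ℝ) < h := hh
    rw [abs_of_pos hh', Real.rpow_sub_one hh'.ne']
  have e2 := t (1 + γ) (by linarith)
  have e3 := t (1 + γ') (by linarith)
  have h1 := (e2.const_mul C).add (e3.const_mul C')
  rw [mul_zero, mul_zero, add_zero] at h1
  refine h1.congr fun h => ?_
  unfold Wf
  ring

/-- margin inside the half row -/
lemma InHalf.margin {r : ℤ} {c e : ℝ} (h : InHalf r c e) (hce : c ≤ e) :
    ∃ m : ℝ, 0 < m ∧ InHalf r (c - m) (e + m) ∧ (r : ℝ) < c - m ∧ e + m < r + 1 := by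
  rcases h with ⟨h1, h2⟩ | ⟨h1, h2⟩
  · refine ⟨min ((c - r) / 2) (((r : ℝ) + 1 / 2 - e) / 2), lt_min (by linarith) (by linarith),
      Or.inl ⟨?_, ?_⟩, ?_, ?_⟩
    · linarith [min_le_left ((c - r) / 2) (((r : ℝ) + 1 / 2 - e) / 2)]
    · linarith [min_le_right ((c - r) / 2) (((r : ℝ) + 1 / 2 - e) / 2)]
    · linarith [min_le_left ((c - r) / 2) (((r : ℝ) + 1 / 2 - e) / 2)]
    · linarith [min_le_right ((c - r) / 2) (((r : ℝ) + 1 / 2 - e) / 2)]
  · refine ⟨min ((c - ((r : ℝ) + 1 / 2)) / 2) (((r : ℝ) + 1 - e) / 2),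
      lt_min (by linarith) (by linarith), Or.inr ⟨?_, ?_⟩, ?_, ?_⟩
    · linarith [min_le_left ((c - ((r : ℝ) + 1 / 2)) / 2) (((r : ℝ) + 1 - e) / 2)]
    · linarith [min_le_right ((c - ((r : ℝ) + 1 / 2)) / 2) (((r : ℝ) + 1 - e) / 2)]
    · linarith [min_le_left ((c - ((r : ℝ) + 1 / 2)) / 2) (((r : ℝ) + 1 - e) / 2)]
    · linarith [min_le_right ((c - ((r : ℝ) + 1 / 2)) / 2) (((r : ℝ) + 1 - e) / 2)]

lemma InHalf.mono {r : ℤ} {c e c' e' : ℝ} (h : InHalf r c e) (hc : c ≤ c') (he : e' ≤ e) :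
    InHalf r c' e' := by
  rcases h with ⟨h1, h2⟩ | ⟨h1, h2⟩
  · exact Or.inl ⟨by linarith, by linarith⟩
  · exact Or.inr ⟨by linarith, by linarith⟩

set_option maxHeartbeats 1000000 in
/-- **the slices from norms, evaluation and comparison** -/
theorem sliceR_of {fz : FZ} {P : P4} (hN : NormP fz P) (hE : EvalP fz P) (hC : CompP P) :
    SliceR P := by
  obtain ⟨κ, h3, hκ, hh3, hN⟩ := hN
  intro A B' r hrun a b hA hab hB c e hce hc
  obtain ⟨h1, C, γ1, hh1, hC0, hγ1, hE⟩ := hE A B' r hrun a b c e hA hab hB hce hc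
  obtain ⟨h2, C', γ, hh2, hC0', hγ, hC⟩ := hC A B' r hrun a b c e hA hab hB hce hc
  obtain ⟨m, hm0, hm, hm1, hm2⟩ := hc.margin hce
  refine ⟨min (min h1 h2) (min (m / 4) h3), κ, Wf C C' γ1 γ,
    lt_min (lt_min hh1 hh2) (lt_min (by positivity) hh3), hκ, Wf_nonneg hC0 hC0',
    Wf_tendsto hγ1 hγ, fun h y hh hlt hy1 hy2 => ?_⟩
  have l1 : h < h1 := hlt.trans_le ((min_le_left _ _).trans (min_le_left _ _))
  have l2 : h < h2 := hlt.trans_le ((min_le_left _ _).trans (min_le_right _ _))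
  have l3 : h < m / 4 := hlt.trans_le ((min_le_right _ _).trans (min_le_left _ _))
  have l4 : h < h3 := hlt.trans_le ((min_le_right _ _).trans (min_le_right _ _))
  obtain ⟨δ, hδ0, hδ1, L2, hE⟩ := hE h y hh l1 hy1 hy2
  obtain ⟨K, L1, hN⟩ := hN A B' r hrun h y δ hh l4 hδ0 hδ1 (hm.mono (by linarith) (by linarith))
  obtain ⟨L3, hC⟩ := hC h y hh l2 hy1 hy2
  refine ⟨K, max (max L1 L2) (max L3 (⌈2 / h⌉ + 1)), fun L hL hev => ?_⟩
  have k1 : L1 ≤ L := (le_max_left _ _).trans ((le_max_left _ _).trans hL)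
  have k2 : L2 ≤ L := (le_max_right _ _).trans ((le_max_left _ _).trans hL)
  have k3 : L3 ≤ L := (le_max_left _ _).trans ((le_max_right _ _).trans hL)
  have k4 : ⌈2 / h⌉ + 1 ≤ L := (le_max_right _ _).trans ((le_max_right _ _).trans hL)
  have hL2 : 2 / h + 1 ≤ L := by
    have h5 := Int.le_ceil (2 / h)
    have : ((⌈2 / h⌉ + 1 : ℤ) : ℝ) ≤ L := by exact_mod_cast k4
    push_cast at this
    linarith
  have hLr : (0 : ℝ) < L := by
    have : 0 < 2 / h := by positivity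
    linarith
  have hL0 : 0 < L := by exact_mod_cast hLr
  have hhL : 2 ≤ h * L := by
    have h3 : 2 / h ≤ L := by linarith
    rw [div_le_iff₀ hh] at h3
    linarith
  obtain ⟨B, hB0⟩ := exists_band (F := P.F) hrun hL0 (h := h) (y := y) (by linarith) (by linarith)
  obtain ⟨hZ, hnm⟩ := hN L k1 hev B hB0
  set F := fz P L δ B with hF
  set y1 : ℤ := ⌊(y - 2 * h) * L⌋ with hy1'
  set y2 : ℤ := ⌊(y + 2 * h) * L⌋ with hy2'
  refine RingAt.cast hB0.nn_eq (F.pack (y1 - B.y1).toNat (B.y2 - y2).toNat) hZ ?_ ?_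
  · rw [FamZ.pack_nm]
    exact hnm
  · intro p y0 g1 g2 g3 g4
    have f1 : (y1 : ℝ) ≤ (y - 2 * h) * L := Int.floor_le _
    have f2 : (y - 2 * h) * L < y1 + 1 := Int.lt_floor_add_one _
    have f3 : (y2 : ℝ) ≤ (y + 2 * h) * L := Int.floor_le _
    have f4 : (y + 2 * h) * L < y2 + 1 := Int.lt_floor_add_one _
    have f5 : (B.y1 : ℝ) ≤ (y - 3 * h) * L := by rw [hB0.y1]; exact Int.floor_le _
    have f6 : (y + 3 * h) * L < B.y2 + 1 := by rw [hB0.y2]; exact Int.lt_floor_add_one _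
    have i3 : (y - h) * L ≤ y0 := by rwa [le_div_iff₀ hLr] at g3
    have i4 : (y0 : ℝ) ≤ (y + h) * L := by rwa [div_le_iff₀ hLr] at g4
    have i1 : a * L ≤ p := by rwa [le_div_iff₀ hLr] at g1
    have i2 : (p : ℝ) ≤ b * L := by rwa [div_le_iff₀ hLr] at g2
    have j1 : B.y1 ≤ y1 := by
      have : (B.y1 : ℝ) < ((y1 + 1 : ℤ) : ℝ) := by push_cast; nlinarith
      have : B.y1 < y1 + 1 := by exact_mod_cast this
      omega
    have j2 : y1 < y0 := by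
      have : (y1 : ℝ) < y0 := by nlinarith
      exact_mod_cast this
    have j3 : y0 < y2 := by
      have : ((y0 : ℤ) : ℝ) < y2 := by nlinarith
      exact_mod_cast this
    have j4 : y2 ≤ B.y2 := by
      have : (y2 : ℝ) < ((B.y2 + 1 : ℤ) : ℝ) := by push_cast; nlinarith
      have : y2 < B.y2 + 1 := by exact_mod_cast this
      omega
    have j5 : A * L < p := by
      have : ((A * L : ℤ) : ℝ) < p := by push_cast; nlinarith
      exact_mod_cast this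
    have j6 : p < B' * L + L := by
      have : (p : ℝ) < ((B' * L + L : ℤ) : ℝ) := by push_cast; nlinarith
      exact_mod_cast this
    have hAt : B.At p y0 := ⟨by omega, by omega, by rw [hB0.xl]; exact j5, by rw [hB0.xr]; omega⟩
    have hval := F.pack_val hAt (a1 := (y1 - B.y1).toNat) (b1 := (B.y2 - y2).toNat)
      (Lt := (y2 - y1).toNat) (q := (y0 - y1).toNat) (g := (p - A * L).toNat)
      (by rw [hB0.xl]; omega) (by omega) (by omega)
    rw [hval]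
    have e1 := hE L k2 hev B hB0 p y0 g1 g2 g3 g4
    have e2 := hC L k3 hev B hB0 p y0 g1 g2 g3 g4
    have e3 : P.HD L p y0 - F.amp p y0 / F.Z =
        -((F.amp p y0 / F.Z - HAp P L B p y0) + (HAp P L B p y0 - P.HD L p y0)) := by ring
    rw [e3, norm_neg]
    refine (norm_add_le _ _).trans ?_
    unfold Wf
    rw [abs_of_pos hh]
    exact add_le_add e1 e2

/-- **`Q1m false` from the named inputs** -/
theorem Q1m_of_inputs {fz : FZ} (hN : ∀ P, NormP fz P) (hE : ∀ P, EvalP fz P)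
    (hC : ∀ P, CompP P) (ho : ∀ P : P4, OscM P) : Q1m false :=
  Q1m_of_ring (fun P => sliceR_of (hN P) (hE P) (hC P)) ho

end

end Crest.Agent.R158.Cs410
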