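import Crest.Agent.R158.Gc7_748
import Crest.Agent.R158.Xr8_249

/-!
# R158 block GC, part 8: sector annuli (request of helper161)

Centre face `(X, Y)` (NE corner of the tile `(X, Y)`), radii `1 ≤ r < n`.
* `QA` (`InQ`) : quarter annulus, tiles `X < x ≤ X+n`, `Y < y ≤ Y+n`, not (`x ≤ X+r`, `y ≤ Y+r`)
* `TA` (`InT`) : three quarter annulus, tiles of the box of radius `n`, not in the box of radius `r`,
  not in the quadrant `x > X`, `y > Y`
* **`word_of_chain`** : an explicit `Nx`-chain from the base `W` port is the ring of a word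
* **`qa_word`**, **`ta_word`**
-/

set_option autoImplicit false
set_option linter.unusedVariables false

namespace Crest.Agent.R158.Gc748

open Crest.Agent.R158.Xr249 (Reg Nx CPath)
open Crest.Agent.R158.Sw300 (Port Wd)

/-- **an explicit boundary list is the ring** -/
theorem word_of_chain {K : Reg} (hsc : K.SC) (hc : K.Conn) {a0 b0 t0 : ℤ}
    (hr0 : K.IsRun a0 b0 t0) {e : List (Port (ℤ × ℤ))}
    (hch : List.IsChain (Nx K.gl) (some ((a0, t0), 0) :: (e ++ [some ((a0, t0), 0)])))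
    (hne : some ((a0, t0), (0 : ZMod 4)) ∉ e) :
    ∃ w : Wd (ℤ × ℤ), RW K w (a0, t0) ∧ Sw300.Fc w ∧
      Sw300.L w = none :: some ((a0, t0), 0) :: e := by
  obtain ⟨w, l, h1, h2, h3, h4, _, h6, h7, h8, _, h10⟩ := Reg.ok hsc hc hr0
  refine ⟨w, ⟨h1, by rw [← bas_eq]; exact h3, h4, h6⟩, h2, ?_⟩
  have hdet : ∀ a b c, Nx K.gl a b → Nx K.gl a c → b = c := fun a b c => Nx.det K.gl_glue.fn
  rw [h7] at h8
  have hn' := (List.nodup_cons.1 (List.nodup_cons.1 h8).2).1
  rw [h7, chain_det hdet h10 hch hn' hne]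

/-- fully glued set of tiles: the faces without pinch -/
theorem full_at {A : Finset (ℤ × ℤ)} {x y : ℤ}
    (h0 : (x, y) ∈ A → (x + 1, y + 1) ∈ A → (x + 1, y) ∈ A ∨ (x, y + 1) ∈ A)
    (h1 : (x + 1, y) ∈ A → (x, y + 1) ∈ A → (x, y) ∈ A ∨ (x + 1, y + 1) ∈ A) :
    FullAt (Xr249.full A) x y :=
  ⟨fun h h' => ⟨h, h'⟩, fun h h' => ⟨h, h'⟩, fun h h' => ⟨h, h'⟩, fun h h' => ⟨h, h'⟩, h0, h1⟩

variable {X Y : ℤ} {r n : ℕ}

/-! ### quarter annulus -/

/-- tiles of the quarter annulus -/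
def InQ (X Y : ℤ) (r n : ℕ) (p : ℤ × ℤ) : Prop :=
  X < p.1 ∧ p.1 ≤ X + n ∧ Y < p.2 ∧ p.2 ≤ Y + n ∧ ¬ (p.1 ≤ X + r ∧ p.2 ≤ Y + r)

open Classical in
/-- the quarter annulus -/
noncomputable def QA (X Y : ℤ) (r n : ℕ) : Finset (ℤ × ℤ) :=
  ((Finset.Icc X (X + n)) ×ˢ (Finset.Icc Y (Y + n))).filter (InQ X Y r n)

theorem mem_QA {t : ℤ × ℤ} : t ∈ QA X Y r n ↔ InQ X Y r n t := by
  simp only [QA, Finset.mem_filter, Finset.mem_product, Finset.mem_Icc]
  refine ⟨fun h => h.2, fun h => ⟨?_, h⟩⟩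
  unfold InQ at h; omega

theorem qa_full (x y : ℤ) : FullAt (Xr249.full (QA X Y r n)) x y := by
  refine full_at ?_ ?_ <;>
    (simp only [mem_QA]; unfold InQ; simp only; intro h h'; omega)

theorem qa_sc : (Xr249.full (QA X Y r n)).SC := by
  refine Xr249.full_SC ?_
  rintro ⟨x, y⟩ hc
  have hX : ∀ {a b : ℤ}, ¬ InQ X Y r n (a, b) → (a, b) ∈ {t : ℤ × ℤ | t ∉ QA X Y r n} :=
    fun h h' => h (mem_QA.1 h')
  rw [mem_QA] at hc
  have top : ∀ d : ℤ, Y + n ≤ d → ∀ t ∈ QA X Y r n, t.2 ≤ d := by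
    intro d hd t ht
    have := mem_QA.1 ht
    unfold InQ at this; omega
  have up : ∀ x y : ℤ, (x ≤ X ∨ X + n < x) → ∃ d, CPath {t | t ∉ QA X Y r n} (x, y) d ∧
      ∀ t ∈ QA X Y r n, t.2 ≤ d.2 := by
    intro x y hx
    refine ⟨(x, max y (Y + n)), CPath.ver (le_max_left _ _) fun z _ _ => hX ?_,
      top _ (le_max_right _ _)⟩
    unfold InQ; simp only; omega
  have left : ∀ x y : ℤ, (∀ a, X ≤ a → a ≤ x → ¬ InQ X Y r n (a, y)) → X ≤ x →
      ∃ d, CPath {t | t ∉ QA X Y r n} (x, y) d ∧ ∀ t ∈ QA X Y r n, t.2 ≤ d.2 := by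
    intro x y h hx
    obtain ⟨d, h1, h2⟩ := up X y (Or.inl le_rfl)
    exact ⟨d, (CPath.hor hx fun z h3 h4 => hX (h z h3 h4)).symm.trans h1, h2⟩
  by_cases h1 : x ≤ X ∨ X + n < x
  · exact up x y h1
  by_cases h2 : Y + n < y
  · exact ⟨(x, y), .refl, top _ h2.le⟩
  refine left x y (fun a h3 h4 => ?_) (by omega)
  unfold InQ at hc ⊢
  simp only at hc ⊢
  omega

theorem qa_conn (hn : r + 1 ≤ n) : (Xr249.full (QA X Y r n)).Conn := by
  refine Xr249.full_Conn ?_
  have hX : ∀ {a b : ℤ}, InQ X Y r n (a, b) → (a, b) ∈ {t : ℤ × ℤ | t ∈ QA X Y r n} :=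
    fun h => mem_QA.2 h
  have hub : ∀ a ∈ QA X Y r n, CPath {t | t ∈ QA X Y r n} a (X + n, Y + n) := by
    rintro ⟨x, y⟩ ha
    have h := mem_QA.1 ha
    unfold InQ at h
    simp only at h
    refine (CPath.hor (x2 := X + n) (by omega) fun z h1 h2 => hX ?_).trans
      (CPath.ver (y2 := Y + n) (by omega) fun z h1 h2 => hX ?_)
    · unfold InQ; simp only; omega
    · unfold InQ; simp only; omega
  intro a ha b hb
  exact (hub a ha).trans (hub b hb).symm

theorem qa_run (hr : 1 ≤ r) (hn : r + 1 ≤ n) :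
    (Xr249.full (QA X Y r n)).IsRun (X + r + 1) (X + n) (Y + 1) := by
  refine ⟨by omega, ?_, fun x h1 h2 => ?_, ?_, ?_⟩
  · rw [Xr249.full_P, mem_QA]; unfold InQ; simp only; omega
  · rw [Xr249.full_h, mem_QA, mem_QA]; unfold InQ; simp only; omega
  · rw [Xr249.full_h, mem_QA, mem_QA]; unfold InQ; simp only; omega
  · rw [Xr249.full_h, mem_QA, mem_QA]; unfold InQ; simp only; omega

/-- inner side, right part, up -/
def QjW (X Y : ℤ) (r n : ℕ) : List (Port (ℤ × ℤ)) :=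
  fl (fun i => some ((X + r + 1, Y + 1 + i), 0)) (r - 1)

/-- inner side, upper part, to the left -/
def QjS (X Y : ℤ) (r n : ℕ) : List (Port (ℤ × ℤ)) :=
  fl (fun i => some ((X + r - i, Y + r + 1), 3)) (r - 1)

/-- wall on the left, up -/
def QnW (X Y : ℤ) (r n : ℕ) : List (Port (ℤ × ℤ)) :=
  fl (fun i => some ((X + 1, Y + r + 1 + i), 0)) (n - r - 1)

/-- outer side, to the right -/
def QoN (X Y : ℤ) (r n : ℕ) : List (Port (ℤ × ℤ)) :=
  fl (fun i => some ((X + 1 + i, Y + n), 1)) (n - 1)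

/-- outer side, down -/
def QoE (X Y : ℤ) (r n : ℕ) : List (Port (ℤ × ℤ)) :=
  fl (fun i => some ((X + n, Y + n - i), 2)) (n - 1)

/-- wall below, to the left -/
def QnS (X Y : ℤ) (r n : ℕ) : List (Port (ℤ × ℤ)) :=
  fl (fun i => some ((X + n - i, Y + 1), 3)) (n - r - 1)

theorem qa_chain (hr : 1 ≤ r) (hn : r + 1 ≤ n) : List.IsChain (Nx (Xr249.full (QA X Y r n)).gl)
    (QjW X Y r n ++ (QjS X Y r n ++ (QnW X Y r n ++ (QoN X Y r n ++ (QoE X Y r n ++ (QnS X Y r n ++ [some ((X + r + 1, Y + 1), 0)])))))) := by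
  refine fl_fl_chain (fun i hi => ?_) ?_ ?_
  · refine nx_eq ((nx_straight (x := X + r + 1) (y := Y + 1 + i)).1 ?_ ?_) rfl
      (pe (by omega) (by omega))
    · rw [Xr249.full_v, mem_QA, mem_QA]; unfold InQ; simp only; omega
    · rw [Xr249.full_h, mem_QA, mem_QA]; unfold InQ; simp only; omega
  · refine nx_eq ((nx_reflex (x := X + r + 1) (y := Y + r)).1 ?_ ?_ ?_)
      (pe (by omega) (by omega)) (pe (by omega) (by omega))
    · rw [Xr249.full_v, mem_QA, mem_QA]; unfold InQ; simp only; omega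
    · rw [Xr249.full_h, mem_QA, mem_QA]; unfold InQ; simp only; omega
    · rw [Xr249.full_v, mem_QA, mem_QA]; unfold InQ; simp only; omega
  refine fl_fl_chain (fun i hi => ?_) ?_ ?_
  · refine nx_eq ((nx_straight (x := X + r - i) (y := Y + r + 1)).2.2.2 ?_ ?_) rfl
      (pe (by omega) (by omega))
    · rw [Xr249.full_h, mem_QA, mem_QA]; unfold InQ; simp only; omega
    · rw [Xr249.full_v, mem_QA, mem_QA]; unfold InQ; simp only; omega
  · refine nx_eq ((nx4 (x := X + 1) (y := Y + r + 1)).2.2.2 ?_) (pe (by omega) (by omega))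
      (pe (by omega) (by omega))
    rw [Xr249.full_h, mem_QA, mem_QA]; unfold InQ; simp only; omega
  refine fl_fl_chain (fun i hi => ?_) ?_ ?_
  · refine nx_eq ((nx_straight (x := X + 1) (y := Y + r + 1 + i)).1 ?_ ?_) rfl
      (pe (by omega) (by omega))
    · rw [Xr249.full_v, mem_QA, mem_QA]; unfold InQ; simp only; omega
    · rw [Xr249.full_h, mem_QA, mem_QA]; unfold InQ; simp only; omega
  · refine nx_eq ((nx4 (x := X + 1) (y := Y + n)).1 ?_) (pe (by omega) (by omega))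
      (pe (by omega) (by omega))
    rw [Xr249.full_v, mem_QA, mem_QA]; unfold InQ; simp only; omega
  refine fl_fl_chain (fun i hi => ?_) ?_ ?_
  · refine nx_eq ((nx_straight (x := X + 1 + i) (y := Y + n)).2.1 ?_ ?_) rfl
      (pe (by omega) (by omega))
    · rw [Xr249.full_h, mem_QA, mem_QA]; unfold InQ; simp only; omega
    · rw [Xr249.full_v, mem_QA, mem_QA]; unfold InQ; simp only; omega
  · refine nx_eq ((nx4 (x := X + n) (y := Y + n)).2.1 ?_) (pe (by omega) (by omega))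
      (pe (by omega) (by omega))
    rw [Xr249.full_h, mem_QA, mem_QA]; unfold InQ; simp only; omega
  refine fl_fl_chain (fun i hi => ?_) ?_ ?_
  · refine nx_eq ((nx_straight (x := X + n) (y := Y + n - i)).2.2.1 ?_ ?_) rfl
      (pe (by omega) (by omega))
    · rw [Xr249.full_v, mem_QA, mem_QA]; unfold InQ; simp only; omega
    · rw [Xr249.full_h, mem_QA, mem_QA]; unfold InQ; simp only; omega
  · refine nx_eq ((nx4 (x := X + n) (y := Y + 1)).2.2.1 ?_) (pe (by omega) (by omega))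
      (pe (by omega) (by omega))
    rw [Xr249.full_v, mem_QA, mem_QA]; unfold InQ; simp only; omega
  refine fl_app_chain (fun i hi => ?_) ?_ (by simp)
  · refine nx_eq ((nx_straight (x := X + n - i) (y := Y + 1)).2.2.2 ?_ ?_) rfl
      (pe (by omega) (by omega))
    · rw [Xr249.full_h, mem_QA, mem_QA]; unfold InQ; simp only; omega
    · rw [Xr249.full_v, mem_QA, mem_QA]; unfold InQ; simp only; omega
  · refine nx_eq ((nx4 (x := X + r + 1) (y := Y + 1)).2.2.2 ?_) (pe (by omega) (by omega))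
      rfl
    rw [Xr249.full_h, mem_QA, mem_QA]; unfold InQ; simp only; omega

/-- **the word of the region `QA`** -/
theorem qa_word (X Y : ℤ) (r n : ℕ) (hr : 1 ≤ r) (hn : r + 1 ≤ n) :
    ∃ w : Wd (ℤ × ℤ), RW (Xr249.full (QA X Y r n)) w (X + r + 1, Y + 1) ∧ Sw300.Fc w ∧
    Sw300.L w = none :: (QjW X Y r n ++ (QjS X Y r n ++ (QnW X Y r n ++ (QoN X Y r n ++ (QoE X Y r n ++ (QnS X Y r n)))))) := by
  have hw0 : ∃ l, QjW X Y r n = some ((X + r + 1, Y + 1), 0) :: l := by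
    obtain ⟨l, hl⟩ := fl_cons (fun i : ℕ => (some ((X + r + 1, Y + 1 + i), 0) : Port (ℤ × ℤ)))
      (r - 1)
    exact ⟨l, by unfold QjW; rw [hl]; simp⟩
  obtain ⟨l', hl'⟩ := hw0
  have hch := qa_chain (X := X) (Y := Y) hr hn
  rw [hl'] at hch
  have hch' : List.IsChain (Nx (Xr249.full (QA X Y r n)).gl) (some ((X + r + 1, Y + 1), 0) ::
      ((l' ++ (QjS X Y r n ++ (QnW X Y r n ++ (QoN X Y r n ++ (QoE X Y r n ++ (QnS X Y r n)))))) ++
        [some ((X + r + 1, Y + 1), 0)])) := by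
    simpa [List.append_assoc] using hch
  have hne : some ((X + r + 1, Y + 1), (0 : ZMod 4)) ∉ l' ++ (QjS X Y r n ++ (QnW X Y r n ++ (QoN X Y r n ++ (QoE X Y r n ++ (QnS X Y r n))))) := by
    have k1 : some ((X + r + 1, Y + 1), (0 : ZMod 4)) ∉ l' := by
      have hw : wS ((X + r + 1, Y + 1).1) ((X + r + 1, Y + 1).2) (r - 1) = QjW X Y r n := rfl
      exact nodup_head (hw.trans hl')
    simp only [List.mem_append, not_or]
    refine ⟨k1, ?_, ?_, ?_, ?_, ?_⟩
    all_goals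
      intro hm
      obtain ⟨i, hi', hi⟩ := mem_fl.1 hm
      simp only [Option.some.injEq, Prod.mk.injEq] at hi
      first
        | exact absurd hi.2 (by decide)
        | omega
  obtain ⟨w, h1, h2, h3⟩ := word_of_chain qa_sc (qa_conn hn) (qa_run hr hn) hch' hne
  exact ⟨w, h1, h2, by rw [h3, hl']; simp⟩

/-! ### three quarter annulus -/

/-- tiles of the three quarter annulus -/
def InT (X Y : ℤ) (r n : ℕ) (p : ℤ × ℤ) : Prop :=
  X - n < p.1 ∧ p.1 ≤ X + n ∧ Y - n < p.2 ∧ p.2 ≤ Y + n ∧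
    ¬ (X - r < p.1 ∧ p.1 ≤ X + r ∧ Y - r < p.2 ∧ p.2 ≤ Y + r) ∧ ¬ (X < p.1 ∧ Y < p.2)

open Classical in
/-- the three quarter annulus -/
noncomputable def TA (X Y : ℤ) (r n : ℕ) : Finset (ℤ × ℤ) :=
  ((Finset.Icc (X - n) (X + n)) ×ˢ (Finset.Icc (Y - n) (Y + n))).filter (InT X Y r n)

theorem mem_TA {t : ℤ × ℤ} : t ∈ TA X Y r n ↔ InT X Y r n t := by
  simp only [TA, Finset.mem_filter, Finset.mem_product, Finset.mem_Icc]
  refine ⟨fun h => h.2, fun h => ⟨?_, h⟩⟩
  unfold InT at h; omega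

theorem ta_full (x y : ℤ) (hr : 1 ≤ r) : FullAt (Xr249.full (TA X Y r n)) x y := by
  refine full_at ?_ ?_ <;>
    (simp only [mem_TA]; unfold InT; simp only; intro h h'; omega)

theorem ta_sc (hr : 1 ≤ r) : (Xr249.full (TA X Y r n)).SC := by
  refine Xr249.full_SC ?_
  rintro ⟨x, y⟩ hc
  have hX : ∀ {a b : ℤ}, ¬ InT X Y r n (a, b) → (a, b) ∈ {t : ℤ × ℤ | t ∉ TA X Y r n} :=
    fun h h' => h (mem_TA.1 h')
  rw [mem_TA] at hc
  have top : ∀ d : ℤ, Y + n ≤ d → ∀ t ∈ TA X Y r n, t.2 ≤ d := by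
    intro d hd t ht
    have := mem_TA.1 ht
    unfold InT at this; omega
  have up : ∀ x y : ℤ, (x ≤ X - n ∨ X + n < x ∨ (X < x ∧ Y < y)) →
      ∃ d, CPath {t | t ∉ TA X Y r n} (x, y) d ∧ ∀ t ∈ TA X Y r n, t.2 ≤ d.2 := by
    intro x y hx
    refine ⟨(x, max y (Y + n)), CPath.ver (le_max_left _ _) fun z hz _ => hX ?_,
      top _ (le_max_right _ _)⟩
    unfold InT; simp only; omega
  by_cases h1 : x ≤ X - n ∨ X + n < x ∨ (X < x ∧ Y < y)
  · exact up x y h1
  by_cases h2 : Y + n < y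
  · exact ⟨(x, y), .refl, top _ h2.le⟩
  by_cases h3 : y ≤ Y - n
  · obtain ⟨d, h4, h5⟩ := up (X - n) y (Or.inl le_rfl)
    refine ⟨d, (CPath.hor (x1 := X - n) (x2 := x) (by omega) fun z h6 h7 => hX ?_).symm.trans h4, h5⟩
    unfold InT; simp only; omega
  -- the inner box
  have h4 : X - r < x ∧ x ≤ X + r ∧ Y - r < y ∧ y ≤ Y + r := by
    unfold InT at hc; simp only at hc; omega
  have v1 : CPath {t | t ∉ TA X Y r n} (x, y) (x, Y + r) :=
    CPath.ver h4.2.2.2 fun z h6 h7 => hX (by unfold InT; simp only; omega)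
  by_cases h5 : X < x
  · obtain ⟨d, h6, h7⟩ := up x (Y + r) (Or.inr (Or.inr ⟨h5, by omega⟩))
    exact ⟨d, v1.trans h6, h7⟩
  · obtain ⟨d, h6, h7⟩ := up (X + 1) (Y + r) (Or.inr (Or.inr ⟨by omega, by omega⟩))
    refine ⟨d, (v1.trans (CPath.hor (x2 := X + 1) (by omega) fun z h8 h9 => hX ?_)).trans h6, h7⟩
    unfold InT; simp only; omega

theorem ta_conn (hn : r + 1 ≤ n) : (Xr249.full (TA X Y r n)).Conn := by
  refine Xr249.full_Conn ?_
  have hX : ∀ {a b : ℤ}, InT X Y r n (a, b) → (a, b) ∈ {t : ℤ × ℤ | t ∈ TA X Y r n} :=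
    fun h => mem_TA.2 h
  have left : ∀ x y : ℤ, InT X Y r n (x, y) → (y ≤ Y - r ∨ x ≤ X - r ∨ (Y + r < y ∧ x ≤ X)) →
      CPath {t | t ∈ TA X Y r n} (X - n + 1, Y - n + 1) (x, y) := by
    intro x y h hcase
    unfold InT at h
    simp only at h
    refine (CPath.ver (y2 := y) (by omega) fun z h1 h2 => hX ?_).trans
      (CPath.hor (by omega) fun z h1 h2 => hX ?_)
    · unfold InT; simp only; omega
    · unfold InT; simp only; omega
  have hub : ∀ a ∈ TA X Y r n, CPath {t | t ∈ TA X Y r n} (X - n + 1, Y - n + 1) a := by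
    rintro ⟨x, y⟩ ha
    have h := mem_TA.1 ha
    by_cases hcase : y ≤ Y - r ∨ x ≤ X - r ∨ (Y + r < y ∧ x ≤ X)
    · exact left x y h hcase
    · unfold InT at h
      simp only at h
      refine (left x (Y - r) ?_ (Or.inl le_rfl)).trans
        (CPath.ver (y1 := Y - r) (by omega) fun z h1 h2 => hX ?_)
      · unfold InT; simp only; omega
      · unfold InT; simp only; omega
  intro a ha b hb
  exact (hub a ha).symm.trans (hub b hb)

theorem ta_run (hr : 1 ≤ r) (hn : r + 1 ≤ n) :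
    (Xr249.full (TA X Y r n)).IsRun (X - n + 1) (X + n) (Y - n + 1) := by
  refine ⟨by omega, ?_, fun x h1 h2 => ?_, ?_, ?_⟩
  · rw [Xr249.full_P, mem_TA]; unfold InT; simp only; omega
  · rw [Xr249.full_h, mem_TA, mem_TA]; unfold InT; simp only; omega
  · rw [Xr249.full_h, mem_TA, mem_TA]; unfold InT; simp only; omega
  · rw [Xr249.full_h, mem_TA, mem_TA]; unfold InT; simp only; omega

/-- outer side, left, up -/
def ToW (X Y : ℤ) (r n : ℕ) : List (Port (ℤ × ℤ)) :=
  fl (fun i => some ((X - n + 1, Y - n + 1 + i), 0)) (2 * n - 1)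

/-- outer side, top, to the right -/
def ToN (X Y : ℤ) (r n : ℕ) : List (Port (ℤ × ℤ)) :=
  fl (fun i => some ((X - n + 1 + i, Y + n), 1)) (n - 1)

/-- vertical wall, down -/
def TnE (X Y : ℤ) (r n : ℕ) : List (Port (ℤ × ℤ)) :=
  fl (fun i => some ((X, Y + n - i), 2)) (n - r - 1)

/-- inner side, top, to the left -/
def TjS (X Y : ℤ) (r n : ℕ) : List (Port (ℤ × ℤ)) :=
  fl (fun i => some ((X - i, Y + r + 1), 3)) (r - 1)

/-- inner side, left, down -/
def TjE (X Y : ℤ) (r n : ℕ) : List (Port (ℤ × ℤ)) :=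
  fl (fun i => some ((X - r, Y + r - i), 2)) (2 * r - 1)

/-- inner side, bottom, to the right -/
def TjN (X Y : ℤ) (r n : ℕ) : List (Port (ℤ × ℤ)) :=
  fl (fun i => some ((X - r + 1 + i, Y - r), 1)) (2 * r - 1)

/-- inner side, right, up -/
def TjW (X Y : ℤ) (r n : ℕ) : List (Port (ℤ × ℤ)) :=
  fl (fun i => some ((X + r + 1, Y - r + 1 + i), 0)) (r - 1)

/-- horizontal wall, to the right -/
def TnN (X Y : ℤ) (r n : ℕ) : List (Port (ℤ × ℤ)) :=
  fl (fun i => some ((X + r + 1 + i, Y), 1)) (n - r - 1)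

/-- outer side, right, down -/
def ToE (X Y : ℤ) (r n : ℕ) : List (Port (ℤ × ℤ)) :=
  fl (fun i => some ((X + n, Y - i), 2)) (n - 1)

/-- outer side, bottom, to the left -/
def ToS (X Y : ℤ) (r n : ℕ) : List (Port (ℤ × ℤ)) :=
  fl (fun i => some ((X + n - i, Y - n + 1), 3)) (2 * n - 1)

theorem ta_chain (hr : 1 ≤ r) (hn : r + 1 ≤ n) : List.IsChain (Nx (Xr249.full (TA X Y r n)).gl)
    (ToW X Y r n ++ (ToN X Y r n ++ (TnE X Y r n ++ (TjS X Y r n ++ (TjE X Y r n ++ (TjN X Y r n ++ (TjW X Y r n ++ (TnN X Y r n ++ (ToE X Y r n ++ (ToS X Y r n ++ [some ((X - n + 1, Y - n + 1), 0)])))))))))) := by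
  refine fl_fl_chain (fun i hi => ?_) ?_ ?_
  · refine nx_eq ((nx_straight (x := X - n + 1) (y := Y - n + 1 + i)).1 ?_ ?_) rfl
      (pe (by omega) (by omega))
    · rw [Xr249.full_v, mem_TA, mem_TA]; unfold InT; simp only; omega
    · rw [Xr249.full_h, mem_TA, mem_TA]; unfold InT; simp only; omega
  · refine nx_eq ((nx4 (x := X - n + 1) (y := Y + n)).1 ?_) (pe (by omega) (by omega))
      (pe (by omega) (by omega))
    rw [Xr249.full_v, mem_TA, mem_TA]; unfold InT; simp only; omega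
  refine fl_fl_chain (fun i hi => ?_) ?_ ?_
  · refine nx_eq ((nx_straight (x := X - n + 1 + i) (y := Y + n)).2.1 ?_ ?_) rfl
      (pe (by omega) (by omega))
    · rw [Xr249.full_h, mem_TA, mem_TA]; unfold InT; simp only; omega
    · rw [Xr249.full_v, mem_TA, mem_TA]; unfold InT; simp only; omega
  · refine nx_eq ((nx4 (x := X) (y := Y + n)).2.1 ?_) (pe (by omega) (by omega))
      (pe (by omega) (by omega))
    rw [Xr249.full_h, mem_TA, mem_TA]; unfold InT; simp only; omega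
  refine fl_fl_chain (fun i hi => ?_) ?_ ?_
  · refine nx_eq ((nx_straight (x := X) (y := Y + n - i)).2.2.1 ?_ ?_) rfl
      (pe (by omega) (by omega))
    · rw [Xr249.full_v, mem_TA, mem_TA]; unfold InT; simp only; omega
    · rw [Xr249.full_h, mem_TA, mem_TA]; unfold InT; simp only; omega
  · refine nx_eq ((nx4 (x := X) (y := Y + r + 1)).2.2.1 ?_) (pe (by omega) (by omega))
      (pe (by omega) (by omega))
    rw [Xr249.full_v, mem_TA, mem_TA]; unfold InT; simp only; omega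
  refine fl_fl_chain (fun i hi => ?_) ?_ ?_
  · refine nx_eq ((nx_straight (x := X - i) (y := Y + r + 1)).2.2.2 ?_ ?_) rfl
      (pe (by omega) (by omega))
    · rw [Xr249.full_h, mem_TA, mem_TA]; unfold InT; simp only; omega
    · rw [Xr249.full_v, mem_TA, mem_TA]; unfold InT; simp only; omega
  · refine nx_eq ((nx_reflex (x := X - r + 1) (y := Y + r + 1)).2.2.2 ?_ ?_ ?_)
      (pe (by omega) (by omega)) (pe (by omega) (by omega))
    · rw [Xr249.full_h, mem_TA, mem_TA]; unfold InT; simp only; omega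
    · rw [Xr249.full_v, mem_TA, mem_TA]; unfold InT; simp only; omega
    · rw [Xr249.full_h, mem_TA, mem_TA]; unfold InT; simp only; omega
  refine fl_fl_chain (fun i hi => ?_) ?_ ?_
  · refine nx_eq ((nx_straight (x := X - r) (y := Y + r - i)).2.2.1 ?_ ?_) rfl
      (pe (by omega) (by omega))
    · rw [Xr249.full_v, mem_TA, mem_TA]; unfold InT; simp only; omega
    · rw [Xr249.full_h, mem_TA, mem_TA]; unfold InT; simp only; omega
  · refine nx_eq ((nx_reflex (x := X - r) (y := Y - r + 1)).2.2.1 ?_ ?_ ?_)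
      (pe (by omega) (by omega)) (pe (by omega) (by omega))
    · rw [Xr249.full_v, mem_TA, mem_TA]; unfold InT; simp only; omega
    · rw [Xr249.full_h, mem_TA, mem_TA]; unfold InT; simp only; omega
    · rw [Xr249.full_v, mem_TA, mem_TA]; unfold InT; simp only; omega
  refine fl_fl_chain (fun i hi => ?_) ?_ ?_
  · refine nx_eq ((nx_straight (x := X - r + 1 + i) (y := Y - r)).2.1 ?_ ?_) rfl
      (pe (by omega) (by omega))
    · rw [Xr249.full_h, mem_TA, mem_TA]; unfold InT; simp only; omega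
    · rw [Xr249.full_v, mem_TA, mem_TA]; unfold InT; simp only; omega
  · refine nx_eq ((nx_reflex (x := X + r) (y := Y - r)).2.1 ?_ ?_ ?_)
      (pe (by omega) (by omega)) (pe (by omega) (by omega))
    · rw [Xr249.full_h, mem_TA, mem_TA]; unfold InT; simp only; omega
    · rw [Xr249.full_v, mem_TA, mem_TA]; unfold InT; simp only; omega
    · rw [Xr249.full_h, mem_TA, mem_TA]; unfold InT; simp only; omega
  refine fl_fl_chain (fun i hi => ?_) ?_ ?_
  · refine nx_eq ((nx_straight (x := X + r + 1) (y := Y - r + 1 + i)).1 ?_ ?_) rfl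
      (pe (by omega) (by omega))
    · rw [Xr249.full_v, mem_TA, mem_TA]; unfold InT; simp only; omega
    · rw [Xr249.full_h, mem_TA, mem_TA]; unfold InT; simp only; omega
  · refine nx_eq ((nx4 (x := X + r + 1) (y := Y)).1 ?_) (pe (by omega) (by omega))
      (pe (by omega) (by omega))
    rw [Xr249.full_v, mem_TA, mem_TA]; unfold InT; simp only; omega
  refine fl_fl_chain (fun i hi => ?_) ?_ ?_
  · refine nx_eq ((nx_straight (x := X + r + 1 + i) (y := Y)).2.1 ?_ ?_) rfl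
      (pe (by omega) (by omega))
    · rw [Xr249.full_h, mem_TA, mem_TA]; unfold InT; simp only; omega
    · rw [Xr249.full_v, mem_TA, mem_TA]; unfold InT; simp only; omega
  · refine nx_eq ((nx4 (x := X + n) (y := Y)).2.1 ?_) (pe (by omega) (by omega))
      (pe (by omega) (by omega))
    rw [Xr249.full_h, mem_TA, mem_TA]; unfold InT; simp only; omega
  refine fl_fl_chain (fun i hi => ?_) ?_ ?_
  · refine nx_eq ((nx_straight (x := X + n) (y := Y - i)).2.2.1 ?_ ?_) rfl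
      (pe (by omega) (by omega))
    · rw [Xr249.full_v, mem_TA, mem_TA]; unfold InT; simp only; omega
    · rw [Xr249.full_h, mem_TA, mem_TA]; unfold InT; simp only; omega
  · refine nx_eq ((nx4 (x := X + n) (y := Y - n + 1)).2.2.1 ?_) (pe (by omega) (by omega))
      (pe (by omega) (by omega))
    rw [Xr249.full_v, mem_TA, mem_TA]; unfold InT; simp only; omega
  refine fl_app_chain (fun i hi => ?_) ?_ (by simp)
  · refine nx_eq ((nx_straight (x := X + n - i) (y := Y - n + 1)).2.2.2 ?_ ?_) rfl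
      (pe (by omega) (by omega))
    · rw [Xr249.full_h, mem_TA, mem_TA]; unfold InT; simp only; omega
    · rw [Xr249.full_v, mem_TA, mem_TA]; unfold InT; simp only; omega
  · refine nx_eq ((nx4 (x := X - n + 1) (y := Y - n + 1)).2.2.2 ?_) (pe (by omega) (by omega))
      rfl
    rw [Xr249.full_h, mem_TA, mem_TA]; unfold InT; simp only; omega

/-- **the word of the region `TA`** -/
theorem ta_word (X Y : ℤ) (r n : ℕ) (hr : 1 ≤ r) (hn : r + 1 ≤ n) :
    ∃ w : Wd (ℤ × ℤ), RW (Xr249.full (TA X Y r n)) w (X - n + 1, Y - n + 1) ∧ Sw300.Fc w ∧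
    Sw300.L w = none :: (ToW X Y r n ++ (ToN X Y r n ++ (TnE X Y r n ++ (TjS X Y r n ++ (TjE X Y r n ++ (TjN X Y r n ++ (TjW X Y r n ++ (TnN X Y r n ++ (ToE X Y r n ++ (ToS X Y r n)))))))))) := by
  have hw0 : ∃ l, ToW X Y r n = some ((X - n + 1, Y - n + 1), 0) :: l := by
    obtain ⟨l, hl⟩ := fl_cons (fun i : ℕ => (some ((X - n + 1, Y - n + 1 + i), 0) : Port (ℤ × ℤ)))
      (2 * n - 1)
    exact ⟨l, by unfold ToW; rw [hl]; simp⟩
  obtain ⟨l', hl'⟩ := hw0
  have hch := ta_chain (X := X) (Y := Y) hr hn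
  rw [hl'] at hch
  have hch' : List.IsChain (Nx (Xr249.full (TA X Y r n)).gl) (some ((X - n + 1, Y - n + 1), 0) ::
      ((l' ++ (ToN X Y r n ++ (TnE X Y r n ++ (TjS X Y r n ++ (TjE X Y r n ++ (TjN X Y r n ++ (TjW X Y r n ++ (TnN X Y r n ++ (ToE X Y r n ++ (ToS X Y r n)))))))))) ++
        [some ((X - n + 1, Y - n + 1), 0)])) := by
    simpa [List.append_assoc] using hch
  have hne : some ((X - n + 1, Y - n + 1), (0 : ZMod 4)) ∉ l' ++ (ToN X Y r n ++ (TnE X Y r n ++ (TjS X Y r n ++ (TjE X Y r n ++ (TjN X Y r n ++ (TjW X Y r n ++ (TnN X Y r n ++ (ToE X Y r n ++ (ToS X Y r n))))))))) := by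
    have k1 : some ((X - n + 1, Y - n + 1), (0 : ZMod 4)) ∉ l' := by
      have hw : wS ((X - n + 1, Y - n + 1).1) ((X - n + 1, Y - n + 1).2) (2 * n - 1) = ToW X Y r n := rfl
      exact nodup_head (hw.trans hl')
    simp only [List.mem_append, not_or]
    refine ⟨k1, ?_, ?_, ?_, ?_, ?_, ?_, ?_, ?_, ?_⟩
    all_goals
      intro hm
      obtain ⟨i, hi', hi⟩ := mem_fl.1 hm
      simp only [Option.some.injEq, Prod.mk.injEq] at hi
      first
        | exact absurd hi.2 (by decide)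
        | omega
  obtain ⟨w, h1, h2, h3⟩ := word_of_chain (ta_sc hr) (ta_conn hn) (ta_run hr hn) hch' hne
  exact ⟨w, h1, h2, by rw [h3, hl']; simp⟩

end Crest.Agent.R158.Gc748
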