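import Crest.Agent.R158.Sl4_434
import Crest.Agent.R158.Gc8_748
import Crest.Agent.R158.Cb5_771

/-!
# R158, corner / mark / flat balls (helper161), file Cw1: standard annuli and their images

* `mem_or_be` : every side of a tile of a word is a free end or glued
* `Std K C b0 M0` : a plane annulus `K` (tiles of `ℤ²`, plain glueing) with its ring `C` of free ends
* `std_of_rw` : from 748's words
* `pm e k` : image of a port under the tile map `e` and `k` quarter turns; `stK` : the state seen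
  from the annulus
* `Emb` : the annulus lies in the glued region `b`
* **`annS_of_std`** : 434's annulus state `AnnS` in the region
-/

set_option autoImplicit false
set_option linter.unusedSectionVars false

noncomputable section

namespace Crest.Agent.R158.Cw161

open Crest.Agent.R161.Geo729
open Crest.Agent.R158.Sw300 (Port Wd thru tls)
open Crest.Agent.R158.Gc748 (RW pt lc rc bs fa be_state Gp)
open Crest.Agent.R158.Cb771 (dir FP FS)
open Crest.Agent.R158.Sl434

variable {T : Type*} [DecidableEq T]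

/-- every side of a tile of the word is a free end or glued -/
theorem mem_or_be : ∀ {w : Wd T}, Sw300.Ok w → ∀ t ∈ tls w, ∀ d : ZMod 4,
    some (t, d) ∈ Sw300.L w ∨ Sw300.be w (some (t, d)) ≠ some (t, d)
  | .leg, _, t, ht, _ => by simp [tls] at ht
  | .tile t0, _, t, ht, d => by
      left
      have e : t = t0 := by simpa [tls] using ht
      subst e
      have : ∀ d : ZMod 4, d = 0 ∨ d = 1 ∨ d = 2 ∨ d = 3 := by decide
      rcases this d with rfl | rfl | rfl | rfl <;> simp [Sw300.L]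
  | .att w p t0 d0, h, t, ht, d => by
      obtain ⟨hw, hp, ht0, hnone⟩ := h
      simp only [tls, List.mem_cons] at ht
      by_cases htt : t = t0
      · subst htt
        have hpd : ∀ d', p ≠ some (t, d') := fun d' e =>
          ht0 (Gc748.mem_L_tls hw (d := d') (e ▸ hp))
        by_cases hd : d = d0
        · right
          subst hd
          simp only [Sw300.be, if_neg (Ne.symm (hpd d)), if_true]
          exact hpd d
        · left
          simp only [Sw300.L, List.mem_flatMap]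
          refine ⟨p, hp, ?_⟩
          rw [if_pos rfl]
          have : ∀ d d0 : ZMod 4, d ≠ d0 → d = d0 + 1 ∨ d = d0 + 2 ∨ d = d0 + 3 := by decide
          rcases this d d0 hd with rfl | rfl | rfl <;> simp
      · have ht' : t ∈ tls w := ht.resolve_left htt
        rcases mem_or_be hw t ht' d with h1 | h1
        · by_cases hxp : (some (t, d) : Port T) = p
          · right
            simp only [Sw300.be, if_pos hxp]
            intro e
            exact htt (Gc748.pt_inj.1 e).1.symm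
          · left
            simp only [Sw300.L, List.mem_flatMap]
            exact ⟨some (t, d), h1, by rw [if_neg hxp]; simp⟩
        · right
          have hxp : (some (t, d) : Port T) ≠ p := by
            rintro rfl
            exact h1 ((be_state hw).free _ hp)
          have hx0 : (some (t, d) : Port T) ≠ some (t0, d0) := fun e => htt (Gc748.pt_inj.1 e).1
          simp only [Sw300.be, if_neg hxp, if_neg hx0]
          exact h1
  | .con w p q, h, t, ht, d => by
      obtain ⟨hw, hp0, hq0, hpq, hadj⟩ := h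
      have ht' : t ∈ tls w := by simpa [tls] using ht
      have hpq' : p ∈ Sw300.L w ∧ q ∈ Sw300.L w := by
        rcases hadj with ⟨l1, l2, e⟩ | ⟨l1, e⟩
        · rw [e]; simp
        · rw [e]; simp
      rcases mem_or_be hw t ht' d with h1 | h1
      · by_cases hxp : (some (t, d) : Port T) = p
        · right
          simp only [Sw300.be, if_pos hxp]
          rw [hxp]; exact Ne.symm hpq
        · by_cases hxq : (some (t, d) : Port T) = q
          · right
            simp only [Sw300.be, if_neg hxp, if_pos hxq]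
            rw [hxq]; exact hpq
          · left
            simp only [Sw300.L, List.mem_filter]
            exact ⟨h1, by simp [hxp, hxq]⟩
      · right
        have hxp : (some (t, d) : Port T) ≠ p := by
          rintro rfl
          exact h1 ((be_state hw).free _ hpq'.1)
        have hxq : (some (t, d) : Port T) ≠ q := by
          rintro rfl
          exact h1 ((be_state hw).free _ hpq'.2)
        simp only [Sw300.be, if_neg hxp, if_neg hxq]
        exact h1

/-! ### standard annuli -/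

/-- a plane annulus with tiles `K`, ring of free ends `C`, glueing `b0`, partner map `M0` -/
structure Std (K : Finset P2) (C : List (Port P2)) (b0 : Port P2 → Port P2)
    (M0 : (P2 → Bool) → Port P2 → Port P2) : Prop where
  ring : ∀ s, Ring (al s) b0 C (M0 s)
  inK : ∀ y ∈ C, ∃ t ∈ K, ∃ d, y = some (t, d) ∧ t + dir d ∉ K
  out : ∀ t ∈ K, ∀ d, some (t, d) ∉ C → t + dir d ∈ K
  be : ∀ t ∈ K, ∀ d, t + dir d ∈ K → b0 (some (t, d)) = some (t + dir d, d + 2)
  fp : ∀ s, ∀ y ∈ C, FP s (fun t => t ∈ K) (fa 0 (rc y)) (fa 0 (lc (M0 s y)))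
  dep : ∀ s s', (∀ t ∈ K, s t = s' t) → M0 s = M0 s'

/-- the plain glueing of a set of tiles -/
structure Plain (R : Xr249.Reg) : Prop where
  h : ∀ x y, R.h (x, y) ↔ (x, y) ∈ R.P ∧ (x + 1, y) ∈ R.P
  v : ∀ x y, R.v (x, y) ↔ (x, y) ∈ R.P ∧ (x, y + 1) ∈ R.P

theorem plain_full (A : Finset P2) : Plain (Xr249.full A) := ⟨fun _ _ => Iff.rfl, fun _ _ => Iff.rfl⟩

theorem plain_gl {R : Xr249.Reg} (hR : Plain R) {t : P2} {d : ZMod 4} {q : Port P2} :
    R.gl (some (t, d)) q ↔ t ∈ R.P ∧ t + dir d ∈ R.P ∧ q = some (t + dir d, d + 2) := by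
  obtain ⟨x, y⟩ := t
  have a0 : (0 : ZMod 4) + 2 = 2 := by decide
  have a1 : (1 : ZMod 4) + 2 = 3 := by decide
  have a2 : (2 : ZMod 4) + 2 = 0 := by decide
  have a3 : (3 : ZMod 4) + 2 = 1 := by decide
  have e0 : dir 0 = (-1, 0) := by decide
  have e1 : dir 1 = (0, 1) := by decide
  have e2 : dir 2 = (1, 0) := by decide
  have e3 : dir 3 = (0, -1) := by decide
  rcases Xr249.Reg.d4 d with rfl | rfl | rfl | rfl
  · rw [Xr249.Reg.gl_0, hR.h, e0, a0]
    have e : ((x, y) : P2) + (-1, 0) = (x - 1, y) := by ext <;> simp; omega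
    rw [e, sub_add_cancel]; tauto
  · rw [Xr249.Reg.gl_1, hR.v, e1, a1]
    have e : ((x, y) : P2) + (0, 1) = (x, y + 1) := by ext <;> simp
    rw [e]; tauto
  · rw [Xr249.Reg.gl_2, hR.h, e2, a2]
    have e : ((x, y) : P2) + (1, 0) = (x + 1, y) := by ext <;> simp
    rw [e]; tauto
  · rw [Xr249.Reg.gl_3, hR.v, e3, a3]
    have e : ((x, y) : P2) + (0, -1) = (x, y - 1) := by ext <;> simp; omega
    rw [e, sub_add_cancel]; tauto

/-- the partner of the marker -/
theorem u_none {w : Wd P2} (h : Sw300.Ok w) (hb : bs w ≠ none) (hn : (none : Port P2) ∈ Sw300.L w)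
    (s : P2 → Bool) : Sw300.u s w = none :=
  ((Sw300.Ok.inv s w h).fix none hn (Gc748.M_none s h hb)).symm

theorem std_of_rw {R : Xr249.Reg} (hR : Plain R) {w : Wd P2} {b : P2} (h : RW R w b)
    {C' C : List (Port P2)} (hL : Sw300.L w = none :: C') (hC : C' ~r C) :
    Std R.P C (Sw300.be w) (fun s => Sw300.M s w) := by
  have hb : bs w ≠ none := by rw [h.bas]; simp
  have hnone : (none : Port P2) ∈ Sw300.L w := by rw [hL]; simp
  have hmem : ∀ y, y ∈ C → y ∈ Sw300.L w := by
    intro y hy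
    rw [hL]; exact List.mem_cons_of_mem _ (hC.mem_iff.2 hy)
  have hnd : (none : Port P2) ∉ C' := by
    have := Sw300.nodup h.ok
    rw [hL] at this
    exact (List.nodup_cons.1 this).1
  have hmem' : ∀ t d, some (t, d) ∈ Sw300.L w → some (t, d) ∈ C := by
    intro t d hy
    rw [hL] at hy
    rcases List.mem_cons.1 hy with h1 | h1
    · exact absurd h1 (by simp)
    · exact hC.mem_iff.1 h1
  refine ⟨fun s => ?_, fun y hy => ?_, fun t ht d hd => ?_, fun t ht d hd => ?_, fun s y hy => ?_,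
    fun s s' hs => (Ob664.state_congr w fun t ht => hs t ((h.tls t).1 ht)).1⟩
  · exact ring_of_word h.ok s (u_none h.ok hb hnone s) (P := []) (Q := C') (by rw [hL]; exact List.IsRotated.refl _)
      (by simpa using hC)
  · have hyL := hmem y hy
    rcases y with - | ⟨t, d⟩
    · exact absurd (hC.mem_iff.2 hy) hnd
    · have ht : t ∈ R.P := (h.tls t).1 (Gc748.mem_L_tls h.ok hyL)
      refine ⟨t, ht, d, rfl, fun hd => ?_⟩
      have h1 := (be_state h.ok).free _ hyL
      have h2 := (plain_gl hR (t := t) (d := d) (q := some (t + dir d, d + 2))).2 ⟨ht, hd, rfl⟩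
      have h3 := (h.be _ _).1 h2
      rw [h1] at h3
      exact h3.2 h3.1
  · rcases mem_or_be h.ok t ((h.tls t).2 ht) d with h1 | h1
    · exact absurd (hmem' t d h1) hd
    · have h2 := (h.be (some (t, d)) _).2 ⟨rfl, Ne.symm h1⟩
      exact ((plain_gl hR).1 h2).2.1
  · exact ((h.be _ _).1 ((plain_gl hR).2 ⟨ht, hd, rfl⟩)).1
  · have h1 := Gc748.side_fp (s := s) h (hmem y hy)
    have hM : Sw300.M s w y ∈ C := (ring_of_word h.ok s (u_none h.ok hb hnone s) (P := []) (Q := C')
      (by rw [hL]; exact List.IsRotated.refl _) (by simpa using hC)).mem y hy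
    rcases y with - | ⟨t, d⟩
    · exact absurd (hC.mem_iff.2 hy) hnd
    · rcases hm : Sw300.M s w (some (t, d)) with - | ⟨t', d'⟩
      · rw [hm] at hM; exact absurd (hC.mem_iff.2 hM) hnd
      · rw [hm] at h1
        exact h1

/-! ### embedded annuli -/

/-- odd number of quarter turns -/
def odd4 (k : ZMod 4) : Bool := decide (k = 1 ∨ k = 3)

theorem thru_rot (b : Bool) (k d : ZMod 4) : thru (xor b (odd4 k)) d + k = thru b (d + k) := by
  revert b k d; decide

/-- image of a port under the tile map `e` and `k` quarter turns -/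
def pm (e : P2 → T) (k : ZMod 4) : Port P2 → Port T := Option.map fun x => (e x.1, x.2 + k)

/-- the state seen from the annulus -/
def stK (e : P2 → T) (k : ZMod 4) (s : T → Bool) (t : P2) : Bool := xor (s (e t)) (odd4 k)

omit [DecidableEq T] in
@[simp] theorem pm_none (e : P2 → T) (k : ZMod 4) : pm e k none = none := rfl
omit [DecidableEq T] in
@[simp] theorem pm_some (e : P2 → T) (k : ZMod 4) (t : P2) (d : ZMod 4) :
    pm e k (some (t, d)) = some (e t, d + k) := rfl

omit [DecidableEq T] in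
theorem al_pm (e : P2 → T) (k : ZMod 4) (s : T → Bool) (y : Port P2) :
    al s (pm e k y) = pm e k (al (stK e k s) y) := by
  rcases y with - | ⟨t, d⟩
  · rfl
  · simp only [pm_some, al_some, stK, thru_rot]

/-- the annulus `K` lies in the glued region `b` -/
structure Emb (b : Port T → Port T) (K : Finset P2) (e : P2 → T) (k : ZMod 4) : Prop where
  inj : ∀ t ∈ K, ∀ t' ∈ K, e t = e t' → t = t'
  gl : ∀ t ∈ K, ∀ d, t + dir d ∈ K → b (some (e t, d + k)) = some (e (t + dir d), d + 2 + k)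

/-- ports of the far tiles, leg included -/
def Fp (F : Set T) : Set (Port T) := {x | ∀ t d, x = some (t, d) → t ∈ F}

/-- ports of the annulus -/
def Kp (K : Finset P2) (e : P2 → T) : Set (Port T) := {x | ∃ t ∈ K, ∃ d, x = some (e t, d)}

/-- the annulus in its surroundings: `F` = far tiles -/
structure Amb (b : Port T → Port T) (K : Finset P2) (e : P2 → T) (k : ZMod 4) (F : Set T)
    (N1 Jl N2 Jo : List (Port P2)) : Prop extends Emb b K e k where
  dj : ∀ t ∈ K, e t ∉ F
  wall : ∀ y ∈ N1 ++ N2, b (pm e k y) = pm e k y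
  outer : ∀ y ∈ Jo, b (pm e k y) ∈ Fp F
  far : ∀ x ∈ Fp F, b x ∈ Fp F ∨ ∃ y ∈ Jo, b x = pm e k y

section

variable {K : Finset P2} {e : P2 → T} {k : ZMod 4}

/-- ports of the plane annulus -/
def K0 (K : Finset P2) : Set (Port P2) := {y | ∃ t ∈ K, ∃ d, y = some (t, d)}

omit [DecidableEq T] in
theorem pm_inj (hi : ∀ t ∈ K, ∀ t' ∈ K, e t = e t' → t = t') : Set.InjOn (pm e k) (K0 K) := by
  rintro y ⟨t, ht, d, rfl⟩ y' ⟨t', ht', d', rfl⟩ h
  simp only [pm_some, Option.some.injEq, Prod.mk.injEq, add_left_inj] at h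
  rw [hi t ht t' ht' h.1, h.2]

/-- chart of the annulus -/
def ch (K : Finset P2) (e : P2 → T) (k : ZMod 4) : Port T → Port P2 :=
  Function.invFunOn (pm e k) (K0 K)

omit [DecidableEq T] in
theorem ch_pm (hi : ∀ t ∈ K, ∀ t' ∈ K, e t = e t' → t = t') {y : Port P2} (hy : y ∈ K0 K) :
    ch K e k (pm e k y) = y :=
  (pm_inj hi).leftInvOn_invFunOn hy

omit [DecidableEq T] in
theorem kp_iff {x : Port T} : x ∈ Kp K e ↔ ∃ y ∈ K0 K, x = pm e k y := by
  constructor
  · rintro ⟨t, ht, d, rfl⟩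
    exact ⟨some (t, d - k), ⟨t, ht, _, rfl⟩, by simp⟩
  · rintro ⟨y, ⟨t, ht, d, rfl⟩, rfl⟩
    exact ⟨t, ht, d + k, rfl⟩

variable {C : List (Port P2)} {b0 : Port P2 → Port P2} {M0 : (P2 → Bool) → Port P2 → Port P2}

theorem Std.mem_K0 (h : Std K C b0 M0) {y : Port P2} (hy : y ∈ C) : y ∈ K0 K := by
  obtain ⟨t, ht, d, rfl, -⟩ := h.inK y hy
  exact ⟨t, ht, d, rfl⟩

theorem Std.map_ch (h : Std K C b0 M0) (hi : ∀ t ∈ K, ∀ t' ∈ K, e t = e t' → t = t') :
    (C.map (pm e k)).map (ch K e k) = C := by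
  rw [List.map_map]
  conv_rhs => rw [← List.map_id C]
  refine List.map_congr_left fun y hy => ?_
  exact ch_pm hi (h.mem_K0 hy)

/-- partner map of the annulus in the region -/
def MA (K : Finset P2) (e : P2 → T) (k : ZMod 4) (C : List (Port P2))
    (M0 : (P2 → Bool) → Port P2 → Port P2) (s : T → Bool) : Port T → Port T :=
  pull (ch K e k) (C.map (pm e k)) (M0 (stK e k s))

/-- **the annulus state in the region** -/
theorem annS_of_std {b : Port T → Port T} {N1 Jl N2 Jo : List (Port P2)} {F : Set T}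
    (h : Std K (N1 ++ Jl ++ N2 ++ Jo) b0 M0) (ha : Amb b K e k F N1 Jl N2 Jo) (s : T → Bool) :
    AnnS (al s) b (Fp F) (Kp K e) (N1.map (pm e k)) (Jl.map (pm e k)) (N2.map (pm e k))
      (Jo.map (pm e k)) (MA K e k (N1 ++ Jl ++ N2 ++ Jo) M0 s) := by
  have hC : N1.map (pm e k) ++ Jl.map (pm e k) ++ N2.map (pm e k) ++ Jo.map (pm e k) =
      (N1 ++ Jl ++ N2 ++ Jo).map (pm e k) := by simp
  unfold MA
  rw [← hC]
  have inA : ∀ {y : Port P2}, y ∈ N1 ++ Jl ++ N2 ++ Jo → pm e k y ∈ Kp K e := fun hy =>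
    (kp_iff (k := k)).2 ⟨_, h.mem_K0 hy, rfl⟩
  -- glueing of the other annulus ports
  have glue : ∀ y ∈ K0 K, y ∉ N1 ++ Jl ++ N2 ++ Jo → b (pm e k y) = pm e k (b0 y) ∧
      b0 y ∈ K0 K ∧ b0 y ∉ N1 ++ Jl ++ N2 ++ Jo := by
    rintro y ⟨t, ht, d, rfl⟩ hy
    have h1 := h.out t ht d hy
    have h2 := h.be t ht d h1
    refine ⟨?_, ?_, ?_⟩
    · rw [h2, pm_some, pm_some]; exact ha.gl t ht d h1
    · rw [h2]; exact ⟨_, h1, _, rfl⟩
    · rw [h2]
      intro h3
      obtain ⟨t', ht', d', e1, h4⟩ := h.inK _ h3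
      obtain ⟨rfl, rfl⟩ := Gc748.pt_inj.1 e1
      apply h4
      have : ∀ d : ZMod 4, dir d + dir (d + 2) = 0 := by decide
      rw [add_assoc, this, add_zero]; exact ht
  refine annS_of_chart (alY := al (stK e k s)) (beY := b0) (ψ := ch K e k) (Fa := Fp F)
    (An := Kp K e) (MY := M0 (stK e k s)) ?_ ?_ ?_ ?_ ?_ ?_ ?_ ?_ ?_ ?_ ?_ ?_ ?_
  · rw [hC, h.map_ch ha.inj]
    exact h.ring _
  · intro x hx x' hx' hxx
    obtain ⟨y, hy, rfl⟩ := (kp_iff (k := k)).1 hx
    obtain ⟨y', hy', rfl⟩ := (kp_iff (k := k)).1 hx'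
    rw [ch_pm ha.inj hy, ch_pm ha.inj hy'] at hxx
    rw [hxx]
  · intro x hx
    rw [hC, List.mem_map] at hx
    obtain ⟨y, hy, rfl⟩ := hx
    exact inA hy
  · intro x hx
    obtain ⟨y, hy, rfl⟩ := (kp_iff (k := k)).1 hx
    rw [al_pm, ch_pm ha.inj hy, ch_pm ha.inj]
    obtain ⟨t, ht, d, rfl⟩ := hy
    exact ⟨t, ht, _, rfl⟩
  · intro x hx hxC
    obtain ⟨y, hy, rfl⟩ := (kp_iff (k := k)).1 hx
    rw [hC] at hxC
    have hyC : y ∉ N1 ++ Jl ++ N2 ++ Jo := fun h1 => hxC (List.mem_map_of_mem h1)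
    obtain ⟨h1, h2, -⟩ := glue y hy hyC
    rw [h1, ch_pm ha.inj h2, ch_pm ha.inj hy]
  · intro x hx hx'
    obtain ⟨t, ht, d, rfl⟩ := hx'
    exact ha.dj t ht (hx _ _ rfl)
  · rintro (- | ⟨t, d⟩) hx
    · exact hx
    · intro t' d' h1
      rw [al_some, Option.some.injEq, Prod.mk.injEq] at h1
      rw [← h1.1]; exact hx _ _ rfl
  · rintro x ⟨t, ht, d, rfl⟩
    exact ⟨t, ht, _, rfl⟩
  · intro x hx
    rcases ha.far x hx with h1 | ⟨y, hy, h1⟩
    · exact Or.inl h1
    · exact Or.inr (h1 ▸ List.mem_map_of_mem hy)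
  · intro x hx hxC
    obtain ⟨y, hy, rfl⟩ := (kp_iff (k := k)).1 hx
    rw [hC] at hxC
    have hyC : y ∉ N1 ++ Jl ++ N2 ++ Jo := fun h1 => hxC (List.mem_map_of_mem h1)
    obtain ⟨h1, h2, h3⟩ := glue y hy hyC
    rw [h1, hC]
    refine ⟨(kp_iff (k := k)).2 ⟨_, h2, rfl⟩, fun h4 => h3 ?_⟩
    obtain ⟨y', hy', h5⟩ := List.mem_map.1 h4
    rw [← pm_inj ha.inj (h.mem_K0 hy') h2 h5]
    exact hy'
  · intro x hx
    obtain ⟨y, hy, rfl⟩ := List.mem_map.1 hx
    exact ha.wall y (by simp [hy])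
  · intro x hx
    obtain ⟨y, hy, rfl⟩ := List.mem_map.1 hx
    exact ha.wall y (by simp [hy])
  · intro x hx
    obtain ⟨y, hy, rfl⟩ := List.mem_map.1 hx
    exact ha.outer y hy

/-- a crossing arc of the annulus -/
theorem ma_cross {N1 Jl N2 Jo : List (Port P2)} (h : Std K (N1 ++ Jl ++ N2 ++ Jo) b0 M0)
    (hi : ∀ t ∈ K, ∀ t' ∈ K, e t = e t' → t = t') {s : T → Bool} {y : Port P2} (hy : y ∈ Jl)
    (hM : MA K e k (N1 ++ Jl ++ N2 ++ Jo) M0 s (pm e k y) ∈ Jo.map (pm e k)) :
    M0 (stK e k s) y ∈ Jo := by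
  set C := N1 ++ Jl ++ N2 ++ Jo with hC
  have hyC : y ∈ C := by simp [hC, hy]
  have h1 := pull_spec (ψ := ch K e k) (L := C.map (pm e k)) (MY := M0 (stK e k s))
    (by rw [h.map_ch hi]; exact (h.ring _).mem) (List.mem_map_of_mem hyC)
  have h2 : ch K e k (MA K e k C M0 s (pm e k y)) = M0 (stK e k s) y := by
    have := h1.2
    rw [ch_pm hi (h.mem_K0 hyC)] at this
    exact this
  obtain ⟨y', hy', h3⟩ := List.mem_map.1 hM
  rw [← h3, ch_pm hi (h.mem_K0 (by simp [hC, hy']))] at h2
  rw [← h2]; exact hy'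

end

end Crest.Agent.R158.Cw161
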