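import Crest.Agent.R158.Cw1_161

/-!
# R158, corner / mark / flat balls (helper161), file Cw2: two regions which coincide outside a ball

* `Pair` : two words which coincide outside the inner ball of an annulus
* `two_of_pair` : 434's `Two`; `cyc_pair` : cyclic order of the marks
* `hv_one` / `hv_zero` : equality of the observables if at most one / no arc crosses
* `st_prob` : the law of the state seen from the annulus
* **`ball1`**, **`ball0`** : `‖HW w m - HW w' m'‖ ≤ 2 P(two arcs cross)`, `≤ 2 P(an arc crosses)`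
* **`cross_prob`** : `P(an arc crosses) ≤ C (r / n)^a`
-/

set_option autoImplicit false
set_option linter.unusedSectionVars false

noncomputable section

namespace Crest.Agent.R158.Cw161

open MeasureTheory
open Crest.Agent.R161.Geo729
open Crest.Agent.R158.Sw300 (Port Wd thru tls)
open Crest.Agent.R158.Gc748 (RW pt lc rc bs fa be_state Gp)
open Crest.Agent.R158.Cb771 (dir FP FS FArm farm transportF)
open Crest.Agent.R158.Sl434
open Crest.Agent.R158.Ob664 (HV HW measurable_HV integrable_HV HV_mem norm_le_of_Tri)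
open Crest.Agent.R158.Rs689 (PB hf Dep)
open Crest.Agent.R158.Mr679 (tau TF)

variable {T : Type*} [DecidableEq T]

section idx

variable {α : Type*} [DecidableEq α]

theorem idx_A {L0 B : List α} {x : α} :
    (x ∈ L0 ∧ (L0 ++ B).idxOf x = L0.idxOf x ∧ L0.idxOf x < L0.length) ∨
      (x ∉ L0 ∧ L0.length ≤ (L0 ++ B).idxOf x) := by
  by_cases h : x ∈ L0
  · exact Or.inl ⟨h, List.idxOf_append_of_mem h, List.idxOf_lt_length_iff.2 h⟩
  · refine Or.inr ⟨h, ?_⟩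
    rw [List.idxOf_append_of_notMem h]; omega

theorem mk_mem {N1' N2' Di Gi A : List α} {x y : α} (h : Mk' A N1' Di Gi N2' x y) :
    x ∈ A ++ (N1' ++ Di ++ N2') ∧ y ∈ A ++ (N1' ++ Gi ++ N2') := by
  rcases h with ⟨h1, rfl⟩ | ⟨h1, h2⟩
  · simp only [List.mem_append] at h1 ⊢; tauto
  · simp [h1, h2]

theorem cycI_mk {N1' N2' Di Gi A : List α} (hn : (A ++ (N1' ++ Di ++ N2')).Nodup)
    (hn' : (A ++ (N1' ++ Gi ++ N2')).Nodup) {x1 x2 x3 y1 y2 y3 : α}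
    (h1 : Mk' A N1' Di Gi N2' x1 y1) (h2 : Mk' A N1' Di Gi N2' x2 y2)
    (h3 : Mk' A N1' Di Gi N2' x3 y3) (m12 : x1 ∈ A ∨ x2 ∈ A) (m23 : x2 ∈ A ∨ x3 ∈ A)
    (m31 : x3 ∈ A ∨ x1 ∈ A) (hc : cycI (A ++ (N1' ++ Di ++ N2')) x1 x2 x3) :
    cycI (A ++ (N1' ++ Gi ++ N2')) y1 y2 y3 := by
  have key : ∀ {x y : α}, Mk' A N1' Di Gi N2' x y →
      (x ∈ A ∧ ((A ++ (N1' ++ Di ++ N2')).idxOf x = (A ++ (N1' ++ Gi ++ N2')).idxOf y ∧
        (A ++ (N1' ++ Gi ++ N2')).idxOf y < A.length)) ∨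
      (x ∉ A ∧ (A.length ≤ (A ++ (N1' ++ Di ++ N2')).idxOf x ∧
        A.length ≤ (A ++ (N1' ++ Gi ++ N2')).idxOf y)) := by
    intro x y h
    rcases idx_A (L0 := A) (B := N1' ++ Di ++ N2') (x := x) with ⟨a1, a2, a3⟩ | ⟨a1, a2⟩
    · left
      refine ⟨a1, ?_⟩
      have hxy : y = x := by
        rcases h with ⟨_, h⟩ | ⟨h, _⟩
        · exact h
        · exfalso
          exact notMem_left hn (by simp [h] : x ∈ N1' ++ Di ++ N2') a1
      subst hxy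
      rcases idx_A (L0 := A) (B := N1' ++ Gi ++ N2') (x := y) with ⟨b1, b2, b3⟩ | ⟨b1, b2⟩
      · rw [a2, b2]; exact ⟨rfl, b3⟩
      · exact absurd a1 b1
    · right
      refine ⟨a1, a2, ?_⟩
      rcases idx_A (L0 := A) (B := N1' ++ Gi ++ N2') (x := y) with ⟨b1, b2, b3⟩ | ⟨b1, b2⟩
      · exfalso
        rcases h with ⟨_, h⟩ | ⟨_, h⟩
        · exact a1 (h ▸ b1)
        · exact notMem_left hn' (by simp [h] : y ∈ N1' ++ Gi ++ N2') b1
      · exact b2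
  unfold cycI Sw300.cyc at *
  rcases key h1 with ⟨a1, a2⟩ | ⟨a1, a2⟩ <;> rcases key h2 with ⟨c1, c2⟩ | ⟨c1, c2⟩ <;>
    rcases key h3 with ⟨d1, d2⟩ | ⟨d1, d2⟩
  · omega
  · omega
  · omega
  · exact absurd m23 (by tauto)
  · omega
  · exact absurd m31 (by tauto)
  · exact absurd m12 (by tauto)
  · exact absurd m12 (by tauto)

end idx

/-- two words which coincide outside the inner ball of an annulus -/
structure Pair (w w' : Wd T) (K : Finset P2) (e : P2 → T) (k : ZMod 4) (F : Set T)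
    (N1 Jl N2 Jo : List (Port P2)) (A Di Gi : List (Port T)) : Prop where
  ok : Sw300.Ok w
  ok' : Sw300.Ok w'
  amb : Amb (Sw300.be w) K e k F N1 Jl N2 Jo
  eqb : ∀ x ∈ Fp F ∪ Kp K e, x ∉ Jl.map (pm e k) → Sw300.be w' x = Sw300.be w x
  AF : ∀ a ∈ A, a ∈ Fp F
  L : Sw300.L w ~r A ++ N1.map (pm e k) ++ Di ++ N2.map (pm e k)
  L' : Sw300.L w' ~r A ++ N1.map (pm e k) ++ Gi ++ N2.map (pm e k)
  Do : ∀ a ∈ Di, a ∉ Fp F ∪ Kp K e
  Go : ∀ a ∈ Gi, a ∉ Fp F ∪ Kp K e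

section

variable {K : Finset P2} {e : P2 → T} {k : ZMod 4} {F : Set T} {N1 Jl N2 Jo : List (Port P2)}
  {b0 : Port P2 → Port P2} {M0 : (P2 → Bool) → Port P2 → Port P2} {A Di Gi : List (Port T)}
  {w w' : Wd T}

theorem two_of_pair (hS : Std K (N1 ++ Jl ++ N2 ++ Jo) b0 M0)
    (h : Pair w w' K e k F N1 Jl N2 Jo A Di Gi) (s : T → Bool) :
    Two (al s) (Sw300.be w) (al s) (Sw300.be w') (Fp F) (Kp K e) (N1.map (pm e k))
      (Jl.map (pm e k)) (N2.map (pm e k)) (Jo.map (pm e k))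
      (MA K e k (N1 ++ Jl ++ N2 ++ Jo) M0 s) none A Di Gi (Sw300.M s w) (Sw300.M s w')
      (Sw300.u s w) (Sw300.u s w') where
  an := annS_of_std hS h.amb s
  al_eq _ _ := rfl
  be_eq := h.eqb
  zF := fun _ _ h => absurd h (by simp)
  AF := h.AF
  D := (sys_of_word h.ok s).rot h.L
  G := (sys_of_word h.ok' s).rot h.L'
  Do := h.Do
  Go := h.Go

theorem not_jl (hS : Std K (N1 ++ Jl ++ N2 ++ Jo) b0 M0)
    (h : Pair w w' K e k F N1 Jl N2 Jo A Di Gi) {s : T → Bool}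
    (hc : ∀ i ∈ Jl, M0 (stK e k s) i ∉ Jo) :
    ∀ i ∈ Jl.map (pm e k), MA K e k (N1 ++ Jl ++ N2 ++ Jo) M0 s i ∉ Jo.map (pm e k) := by
  intro i hi hi'
  obtain ⟨y, hy, rfl⟩ := List.mem_map.1 hi
  exact hc y hy (ma_cross hS h.amb.inj hy hi')

theorem one_jl (hS : Std K (N1 ++ Jl ++ N2 ++ Jo) b0 M0)
    (h : Pair w w' K e k F N1 Jl N2 Jo A Di Gi) {s : T → Bool}
    (hc : ∀ i ∈ Jl, ∀ j ∈ Jl, M0 (stK e k s) i ∈ Jo → M0 (stK e k s) j ∈ Jo → i = j) :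
    ∀ i ∈ Jl.map (pm e k), ∀ j ∈ Jl.map (pm e k),
      MA K e k (N1 ++ Jl ++ N2 ++ Jo) M0 s i ∈ Jo.map (pm e k) →
      MA K e k (N1 ++ Jl ++ N2 ++ Jo) M0 s j ∈ Jo.map (pm e k) → i = j := by
  intro i hi j hj hi' hj'
  obtain ⟨y, hy, rfl⟩ := List.mem_map.1 hi
  obtain ⟨y', hy', rfl⟩ := List.mem_map.1 hj
  rw [hc y hy y' hy' (ma_cross hS h.amb.inj hy hi') (ma_cross hS h.amb.inj hy' hj')]

/-- the cyclic order of the marks is the same -/
theorem cyc_pair (h : Pair w w' K e k F N1 Jl N2 Jo A Di Gi) {x1 x2 x3 y1 y2 y3 : Port T}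
    (h1 : Mk' A (N1.map (pm e k)) Di Gi (N2.map (pm e k)) x1 y1)
    (h2 : Mk' A (N1.map (pm e k)) Di Gi (N2.map (pm e k)) x2 y2)
    (h3 : Mk' A (N1.map (pm e k)) Di Gi (N2.map (pm e k)) x3 y3) (m12 : x1 ∈ A ∨ x2 ∈ A)
    (m23 : x2 ∈ A ∨ x3 ∈ A) (m31 : x3 ∈ A ∨ x1 ∈ A)
    (hc : Sw300.cyc (Sw300.pos w x1) (Sw300.pos w x2) (Sw300.pos w x3)) :
    (x1 ∈ Sw300.L w ∧ x2 ∈ Sw300.L w ∧ x3 ∈ Sw300.L w) ∧
    (y1 ∈ Sw300.L w' ∧ y2 ∈ Sw300.L w' ∧ y3 ∈ Sw300.L w') ∧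
    Sw300.cyc (Sw300.pos w' y1) (Sw300.pos w' y2) (Sw300.pos w' y3) := by
  have e1 : A ++ N1.map (pm e k) ++ Di ++ N2.map (pm e k) =
      A ++ (N1.map (pm e k) ++ Di ++ N2.map (pm e k)) := by simp
  have e2 : A ++ N1.map (pm e k) ++ Gi ++ N2.map (pm e k) =
      A ++ (N1.map (pm e k) ++ Gi ++ N2.map (pm e k)) := by simp
  have r1 := h.L
  have r2 := h.L'
  rw [e1] at r1
  rw [e2] at r2
  have n1 := Sw300.nodup h.ok
  have n2 := Sw300.nodup h.ok'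
  have q1 : x1 ∈ Sw300.L w := r1.mem_iff.2 (mk_mem h1).1
  have q2 : x2 ∈ Sw300.L w := r1.mem_iff.2 (mk_mem h2).1
  have q3 : x3 ∈ Sw300.L w := r1.mem_iff.2 (mk_mem h3).1
  have p1 : y1 ∈ Sw300.L w' := r2.mem_iff.2 (mk_mem h1).2
  have p2 : y2 ∈ Sw300.L w' := r2.mem_iff.2 (mk_mem h2).2
  have p3 : y3 ∈ Sw300.L w' := r2.mem_iff.2 (mk_mem h3).2
  refine ⟨⟨q1, q2, q3⟩, ⟨p1, p2, p3⟩, ?_⟩
  have a1 := (cycI_pos (Sw300.sorted w h.ok) q1 q2 q3).2 hc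
  have a2 := (cycI_rot r1 n1 q1 q2 q3).2 a1
  have a3 := cycI_mk ((r1.nodup_iff).1 n1) ((r2.nodup_iff).1 n2) h1 h2 h3 m12 m23 m31 a2
  exact (cycI_pos (Sw300.sorted w' h.ok') p1 p2 p3).1 ((cycI_rot r2 n2 p1 p2 p3).1 a3)

theorem cyc_ne {a b c : ℤ} (h : Sw300.cyc a b c) : a ≠ b ∧ c ≠ a := by
  unfold Sw300.cyc at h; omega

/-- **no crossing arc: the observable is the same** -/
theorem hv_zero (hS : Std K (N1 ++ Jl ++ N2 ++ Jo) b0 M0)
    (h : Pair w w' K e k F N1 Jl N2 Jo A Di Gi) {x1 x2 x3 y1 y2 y3 : Port T}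
    (h1 : Mk' A (N1.map (pm e k)) Di Gi (N2.map (pm e k)) x1 y1)
    (h2 : Mk' A (N1.map (pm e k)) Di Gi (N2.map (pm e k)) x2 y2)
    (h3 : Mk' A (N1.map (pm e k)) Di Gi (N2.map (pm e k)) x3 y3) (m12 : x1 ∈ A ∨ x2 ∈ A)
    (m23 : x2 ∈ A ∨ x3 ∈ A) (m31 : x3 ∈ A ∨ x1 ∈ A)
    (hc : Sw300.cyc (Sw300.pos w x1) (Sw300.pos w x2) (Sw300.pos w x3)) {s : T → Bool}
    (h0 : ∀ i ∈ Jl, M0 (stK e k s) i ∉ Jo) : HV w x1 x2 x3 s = HV w' y1 y2 y3 s := by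
  obtain ⟨⟨q1, q2, q3⟩, ⟨p1, p2, p3⟩, hc'⟩ := cyc_pair h h1 h2 h3 m12 m23 m31 hc
  have ne1 := cyc_ne hc
  have ne2 := cyc_ne hc'
  have h12 : x1 ≠ x2 := fun e => ne1.1 (by rw [e])
  have h31 : x3 ≠ x1 := fun e => ne1.2 (by rw [e])
  have h12' : y1 ≠ y2 := fun e => ne2.1 (by rw [e])
  have h31' : y3 ≠ y1 := fun e => ne2.2 (by rw [e])
  have hT := two_of_pair hS h s
  rw [hv_eq h.ok s q1 q2 q3 hc, hv_eq h.ok' s p1 p2 p3 hc',
    ← vv_rot h.L (Sw300.nodup h.ok) (sys_of_word h.ok s).uL q1 q2 q3 h12 h31,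
    ← vv_rot h.L' (Sw300.nodup h.ok') (sys_of_word h.ok' s).uL p1 p2 p3 h12' h31']
  exact vv_ann0 hT (not_jl hS h h0) h1 h2 h3 m12 m23 m31 h12 h31 h12' h31'

/-- **at most one crossing arc, far marks: the observable is the same** -/
theorem hv_one (hS : Std K (N1 ++ Jl ++ N2 ++ Jo) b0 M0)
    (h : Pair w w' K e k F N1 Jl N2 Jo A Di Gi) {x1 x2 x3 : Port T} (h1 : x1 ∈ A) (h2 : x2 ∈ A)
    (h3 : x3 ∈ A) (hc : Sw300.cyc (Sw300.pos w x1) (Sw300.pos w x2) (Sw300.pos w x3))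
    {s : T → Bool}
    (h0 : ∀ i ∈ Jl, ∀ j ∈ Jl, M0 (stK e k s) i ∈ Jo → M0 (stK e k s) j ∈ Jo → i = j) :
    HV w x1 x2 x3 s = HV w' x1 x2 x3 s := by
  have mk : ∀ {x : Port T}, x ∈ A → Mk' A (N1.map (pm e k)) Di Gi (N2.map (pm e k)) x x :=
    fun hx => Or.inl ⟨by simp [hx], rfl⟩
  obtain ⟨⟨q1, q2, q3⟩, ⟨p1, p2, p3⟩, hc'⟩ := cyc_pair h (mk h1) (mk h2) (mk h3) (Or.inl h1)
    (Or.inl h2) (Or.inl h3) hc
  have ne1 := cyc_ne hc
  have h12 : x1 ≠ x2 := fun e => ne1.1 (by rw [e])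
  have h31 : x3 ≠ x1 := fun e => ne1.2 (by rw [e])
  have hT := two_of_pair hS h s
  rw [hv_eq h.ok s q1 q2 q3 hc, hv_eq h.ok' s p1 p2 p3 hc',
    ← vv_rot h.L (Sw300.nodup h.ok) (sys_of_word h.ok s).uL q1 q2 q3 h12 h31,
    ← vv_rot h.L' (Sw300.nodup h.ok') (sys_of_word h.ok' s).uL p1 p2 p3 h12 h31]
  exact vv_ann hT (one_jl hS h h0) h1 h2 h3 h12 h31

end

/-! ### probabilities -/

/-- difference of two means -/
theorem hw_sub_le {w w' : Wd T} {x1 x2 x3 y1 y2 y3 : Port T} {E : Set (T → Bool)}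
    (h : ∀ s, s ∉ E → HV w x1 x2 x3 s = HV w' y1 y2 y3 s) :
    ‖HW w x1 x2 x3 - HW w' y1 y2 y3‖ ≤ 2 * (PB fun _ : T => hf).real E := by
  classical
  unfold HW
  rw [← integral_sub (integrable_HV w x1 x2 x3) (integrable_HV w' y1 y2 y3)]
  set f : (T → Bool) → ℂ := fun s => HV w x1 x2 x3 s - HV w' y1 y2 y3 s with hf'
  have hm : Measurable f := (measurable_HV w x1 x2 x3).sub (measurable_HV w' y1 y2 y3)
  set D : Set (T → Bool) := {s | f s ≠ 0} with hD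
  have hDm : MeasurableSet D := (hm (measurableSet_singleton (0 : ℂ))).compl
  have hDE : D ⊆ E := by
    intro s hs
    by_contra hcon
    exact hs (by simp only [hf', h s hcon, sub_self])
  have hb : ∀ s, ‖f s‖ ≤ 2 * D.indicator (fun _ => (1 : ℝ)) s := by
    intro s
    by_cases hs : s ∈ D
    · rw [Set.indicator_of_mem hs, mul_one]
      refine (norm_sub_le _ _).trans ?_
      have h1 : ‖HV w x1 x2 x3 s‖ ≤ 1 := norm_le_of_Tri HV_mem
      have h2 : ‖HV w' y1 y2 y3 s‖ ≤ 1 := norm_le_of_Tri HV_mem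
      linarith
    · rw [Set.indicator_of_notMem hs, mul_zero]
      have : f s = 0 := by by_contra h0; exact hs h0
      rw [this, norm_zero]
  calc ‖∫ s, f s ∂(PB fun _ : T => hf)‖ ≤ ∫ s, ‖f s‖ ∂(PB fun _ : T => hf) :=
        norm_integral_le_integral_norm _
    _ ≤ ∫ s, 2 * D.indicator (fun _ => (1 : ℝ)) s ∂(PB fun _ : T => hf) := by
        refine integral_mono_of_nonneg (Filter.Eventually.of_forall fun _ => norm_nonneg _) ?_
          (Filter.Eventually.of_forall hb)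
        exact ((integrable_const (1 : ℝ)).indicator hDm).const_mul 2
    _ = 2 * (PB fun _ : T => hf).real D := by
        rw [integral_const_mul, integral_indicator_const _ hDm]; simp
    _ ≤ 2 * (PB fun _ : T => hf).real E := by
        have := measureReal_mono (μ := PB fun _ : T => hf) hDE
        linarith

/-- **the state seen from the annulus** -/
theorem st_prob {K : Finset P2} {e : P2 → T} (k : ZMod 4)
    (hi : ∀ t ∈ K, ∀ t' ∈ K, e t = e t' → t = t') {E : Set TF} (hE : Dep K E) :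
    (PB fun _ : T => hf).real {s | stK e k s ∈ E} ≤ (tau hf).real E := by
  classical
  let pos : T → P2 := Function.invFunOn e (K : Set P2)
  have hinj : Set.InjOn e (K : Set P2) := fun t ht t' ht' h => hi t ht t' ht' h
  have hpos : ∀ t ∈ K, pos (e t) = t := fun t ht => hinj.leftInvOn_invFunOn ht
  have h1 : (PB fun _ : T => hf).real {s | stK e k s ∈ E} ≤
      (tau hf).real {g : TF | (fun t => xor (g t) (odd4 k)) ∈ E} := by
    refine transportF (A := e '' (K : Set P2)) (K.finite_toSet.image e) pos ?_ ?_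
    · rintro _ ⟨t, ht, rfl⟩ _ ⟨t', ht', rfl⟩ h
      rw [hpos t ht, hpos t' ht'] at h
      rw [h]
    · intro s hs g hg
      refine (hE _ _ fun t ht => ?_).1 hs
      have := hg (e t) ⟨t, ht, rfl⟩
      rw [hpos t ht] at this
      simp only [stK, this]
  refine h1.trans (le_of_eq ?_)
  cases hk : odd4 k
  · simp only [Bool.xor_false]
    rfl
  · have := Mr679.tau_real_not hf hE.measurableSet
    rw [Rs689.sigma_hf] at this
    rw [← this]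
    simp

/-- an arc crosses the annulus -/
def Cr (M0 : (P2 → Bool) → Port P2 → Port P2) (Jl Jo : List (Port P2)) : Set TF :=
  {g | ∃ i ∈ Jl, M0 g i ∈ Jo}

/-- two arcs cross the annulus -/
def Cr2 (M0 : (P2 → Bool) → Port P2 → Port P2) (Jl Jo : List (Port P2)) : Set TF :=
  {g | ∃ i ∈ Jl, ∃ j ∈ Jl, i ≠ j ∧ M0 g i ∈ Jo ∧ M0 g j ∈ Jo}

section

variable {K : Finset P2} {e : P2 → T} {k : ZMod 4} {F : Set T} {N1 Jl N2 Jo : List (Port P2)}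
  {b0 : Port P2 → Port P2} {M0 : (P2 → Bool) → Port P2 → Port P2} {A Di Gi : List (Port T)}
  {w w' : Wd T} {C : List (Port P2)}

theorem cr_dep (hS : Std K C b0 M0) : Dep K (Cr M0 Jl Jo) := by
  intro g g' h
  unfold Cr
  simp only [Set.mem_ofPred_eq]
  rw [hS.dep g g' h]

theorem cr2_dep (hS : Std K C b0 M0) : Dep K (Cr2 M0 Jl Jo) := by
  intro g g' h
  unfold Cr2
  simp only [Set.mem_ofPred_eq]
  rw [hS.dep g g' h]

/-- **one-arm ball**: any change inside the ball, one mark may lie there -/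
theorem ball0 (hS : Std K (N1 ++ Jl ++ N2 ++ Jo) b0 M0)
    (h : Pair w w' K e k F N1 Jl N2 Jo A Di Gi) {x1 x2 x3 y1 y2 y3 : Port T}
    (h1 : Mk' A (N1.map (pm e k)) Di Gi (N2.map (pm e k)) x1 y1)
    (h2 : Mk' A (N1.map (pm e k)) Di Gi (N2.map (pm e k)) x2 y2)
    (h3 : Mk' A (N1.map (pm e k)) Di Gi (N2.map (pm e k)) x3 y3) (m12 : x1 ∈ A ∨ x2 ∈ A)
    (m23 : x2 ∈ A ∨ x3 ∈ A) (m31 : x3 ∈ A ∨ x1 ∈ A)
    (hc : Sw300.cyc (Sw300.pos w x1) (Sw300.pos w x2) (Sw300.pos w x3)) :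
    ‖HW w x1 x2 x3 - HW w' y1 y2 y3‖ ≤ 2 * (tau hf).real (Cr M0 Jl Jo) := by
  refine (hw_sub_le (E := {s | stK e k s ∈ Cr M0 Jl Jo}) fun s hs => ?_).trans ?_
  · refine hv_zero hS h h1 h2 h3 m12 m23 m31 hc fun i hi hi' => hs ?_
    exact ⟨i, hi, hi'⟩
  · have := st_prob k h.amb.inj (cr_dep (Jl := Jl) (Jo := Jo) hS)
    linarith

/-- **two-arm ball**: any change inside the ball, the marks are far -/
theorem ball1 (hS : Std K (N1 ++ Jl ++ N2 ++ Jo) b0 M0)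
    (h : Pair w w' K e k F N1 Jl N2 Jo A Di Gi) {x1 x2 x3 : Port T} (h1 : x1 ∈ A) (h2 : x2 ∈ A)
    (h3 : x3 ∈ A) (hc : Sw300.cyc (Sw300.pos w x1) (Sw300.pos w x2) (Sw300.pos w x3)) :
    ‖HW w x1 x2 x3 - HW w' x1 x2 x3‖ ≤ 2 * (tau hf).real (Cr2 M0 Jl Jo) := by
  refine (hw_sub_le (E := {s | stK e k s ∈ Cr2 M0 Jl Jo}) fun s hs => ?_).trans ?_
  · refine hv_one hS h h1 h2 h3 hc fun i hi j hj hi' hj' => ?_
    by_contra hij
    exact hs ⟨i, hi, j, hj, hij, hi', hj'⟩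
  · have := st_prob k h.amb.inj (cr2_dep (Jl := Jl) (Jo := Jo) hS)
    linarith

/-- position of the inner and the outer side -/
structure Rad (c : P2) (r n : ℕ) (Jl Jo : List (Port P2)) : Prop where
  i : ∀ y ∈ Jl, |(fa 0 (rc y)).1 - c.1| ≤ r ∧ |(fa 0 (rc y)).2 - c.2| ≤ r
  o : ∀ y ∈ Jo, (n : ℤ) ≤ |(fa 0 (lc y)).1 - c.1| ∨ (n : ℤ) ≤ |(fa 0 (lc y)).2 - c.2|

end

/-- **probability of a crossing arc** -/
theorem cross_prob : ∃ C a : ℝ, 0 < C ∧ 0 < a ∧ ∀ {K : Finset P2} {N1 Jl N2 Jo : List (Port P2)}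
    {b0 : Port P2 → Port P2} {M0 : (P2 → Bool) → Port P2 → Port P2} {c : P2} {r n : ℕ},
    Std K (N1 ++ Jl ++ N2 ++ Jo) b0 M0 → Rad c r n Jl Jo → 1 ≤ r → r ≤ n →
    (tau hf).real (Cr M0 Jl Jo) ≤ C * ((r : ℝ) / n) ^ a := by
  obtain ⟨C, a, hC, ha, h⟩ := farm
  refine ⟨C, a, hC, ha, ?_⟩
  intro K N1 Jl N2 Jo b0 M0 c r n hS hR hr hn
  refine (measureReal_mono ?_).trans (h c r n hr hn)
  rintro g ⟨i, hi, hi'⟩
  have h1 := hS.fp g i (by simp [hi])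
  refine ⟨_, _, (hR.i i hi).1, (hR.i i hi).2, hR.o _ hi', ?_⟩
  exact h1.mono fun _ _ => ⟨trivial, rfl⟩

end Crest.Agent.R158.Cw161
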