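import Crest.Agent.R158.Sl9_434
import Crest.Agent.R158.Cw1_161

/-!
# R158, corner / mark / flat balls (helper161), file Cw3: the standard annuli of the corner balls

* `Bx X Y n` : box of radius `n` round the face `(X, Y)`
* `Sh`, `base` : the shapes (quarter, three quarters, half plane, stepped half plane)
* `AnnD` : annulus between the boxes of radii `r` and `n` in the shape, as 434's chart annulus `ChA`
* **`annD_exists`** : all four shapes (over 748's words)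
* **`x1_le`** : `P(an arc crosses) ≤ C (r / n)^a`, all shapes
-/

set_option autoImplicit false
set_option linter.unusedSectionVars false
set_option linter.unusedVariables false
set_option linter.unusedSimpArgs false

noncomputable section

namespace Crest.Agent.R158.Cw161

open MeasureTheory
open Crest.Agent.R158.Sw300 (Port Wd thru tls)
open Crest.Agent.R158.Gc748 (RW pt lc rc bs fa fl mem_fl mem_stp mem_QA mem_TA InS InQ InT QA TA stp
  QjW QjS QnW QoN QoE QnS ToW ToN TnE TjS TjE TjN TjW TnN ToE ToS qa_word ta_word qa_chain ta_chain)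
open Crest.Agent.R158.Cb771 (dir FP FS FArm farm)
open Crest.Agent.R158.Sl434 (ChA Loc X1 V0 V1 V0_E V0_S V0_N V0_W V1_W V1_N V1_E V1_S chA_stp
  exists_SW bs_isLeg Jls Jos Obs)
open Crest.Agent.R158.Rs689 (PB hf)
open Crest.Agent.R158.Mr679 (tau TF)
open Crest.Agent.R158.Xr249 (Nx Reg)

/-- box of radius `n` round the face `(X, Y)` -/
def Bx (X Y : ℤ) (n : ℕ) (t : ℤ × ℤ) : Prop :=
  X - n < t.1 ∧ t.1 ≤ X + n ∧ Y - n < t.2 ∧ t.2 ≤ Y + n

/-- shapes: quarter, three quarters, half plane, stepped half plane -/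
inductive Sh
  | q | t | h0 | h1

/-- tiles of the shape -/
def base (X Y : ℤ) : Sh → ℤ × ℤ → Prop
  | .q, t => X < t.1 ∧ Y < t.2
  | .t, t => ¬ (X < t.1 ∧ Y < t.2)
  | .h0, t => t.1 ≤ X
  | .h1, t => (t.2 ≤ Y → t.1 ≤ X + 1) ∧ (Y < t.2 → t.1 ≤ X)

theorem dir0 : dir 0 = (-1, 0) := by decide
theorem dir1 : dir 1 = (0, 1) := by decide
theorem dir2 : dir 2 = (1, 0) := by decide
theorem dir3 : dir 3 = (0, -1) := by decide

/-- the annulus of a shape -/
structure AnnD (sh : Sh) (X Y : ℤ) (r n : ℕ) (K : Reg) (w0 : Wd (ℤ × ℤ))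
    (N1 Jl N2 Jo : List (Port (ℤ × ℤ))) (Ob : ℤ × ℤ → Prop) (a b : Port (ℤ × ℤ)) : Prop where
  ch : ChA K w0 N1 Jl N2 Jo Ob a b
  pl : Plain K
  mem : ∀ t, t ∈ K.P ↔ base X Y sh t ∧ Bx X Y n t ∧ ¬ Bx X Y r t
  wl : ∀ c d, some (c, d) ∈ N1 ++ N2 → ¬ base X Y sh (c + dir d)
  jl : ∀ c d, some (c, d) ∈ Jl → base X Y sh (c + dir d) ∧ Bx X Y r (c + dir d)
  jo : ∀ c d, some (c, d) ∈ Jo → base X Y sh (c + dir d) ∧ ¬ Bx X Y n (c + dir d)
  ri : ∀ p ∈ Jl, |(V1 p).1 - X| ≤ r ∧ |(V1 p).2 - Y| ≤ r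
  ro : ∀ p ∈ Jo, (n : ℤ) ≤ |(V0 p).1 - X| ∨ (n : ℤ) ≤ |(V0 p).2 - Y|

theorem ex_fl {x : Port (ℤ × ℤ)} {f : ℕ → Port (ℤ × ℤ)} {m : ℕ} (h : x ∈ fl f m) :
    ∃ i ≤ m, x = f i := mem_fl.1 h

/-! ### quarter -/

theorem annD_q {X Y : ℤ} {r n : ℕ} (hr : 1 ≤ r) (hn : r + 1 ≤ n) :
    ∃ w, AnnD .q X Y r n (Xr249.full (QA X Y r n)) w (QnS X Y r n) (QjW X Y r n ++ QjS X Y r n)
      (QnW X Y r n) (QoN X Y r n ++ QoE X Y r n) (fun v => v.1 = X + n ∨ v.2 = Y + n)
      (some ((X + n, Y + 1), 3)) (some ((X + 1, Y + n), 0)) := by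
  obtain ⟨w, h1, h2, h3⟩ := qa_word X Y r n hr hn
  refine ⟨w, ⟨⟨_, h1⟩, bs_isLeg w h1.bas, ?_, ?_, ?_, ?_, ?_, ?_, ?_, ?_, ?_⟩, plain_full _, ?_, ?_,
    ?_, ?_, ?_, ?_⟩
  · refine ⟨_, h3, ?_⟩
    have e1 : QjW X Y r n ++ (QjS X Y r n ++ (QnW X Y r n ++ (QoN X Y r n ++ (QoE X Y r n ++
        QnS X Y r n)))) = (QjW X Y r n ++ (QjS X Y r n ++ (QnW X Y r n ++ (QoN X Y r n ++
        QoE X Y r n)))) ++ QnS X Y r n := by simp
    have e2 : QnS X Y r n ++ (QjW X Y r n ++ QjS X Y r n) ++ QnW X Y r n ++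
        (QoN X Y r n ++ QoE X Y r n) = QnS X Y r n ++ (QjW X Y r n ++ (QjS X Y r n ++
        (QnW X Y r n ++ (QoN X Y r n ++ QoE X Y r n)))) := by simp
    rw [e1, e2]
    exact List.isRotated_append
  · exact (qa_chain (X := X) (Y := Y) hr
      hn).right_of_append.right_of_append.right_of_append.right_of_append.right_of_append.left_of_append
  · exact (qa_chain (X := X) (Y := Y) hr hn).right_of_append.right_of_append.left_of_append
  · obtain ⟨l, hl⟩ := Gc748.fl_cons (fun i : ℕ => (some ((X + n - i, Y + 1), 3) : Port (ℤ × ℤ)))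
      (n - r - 1)
    refine ⟨l, ?_⟩
    unfold QnS
    rw [hl]; simp
  · obtain ⟨l, hl⟩ := Gc748.fl_snoc
      (fun i : ℕ => (some ((X + 1, Y + r + 1 + i), 0) : Port (ℤ × ℤ))) (n - r - 1)
    refine ⟨l, ?_⟩
    unfold QnW
    rw [hl]
    have : Y + r + 1 + ((n - r - 1 : ℕ) : ℤ) = Y + n := by omega
    rw [this]
  · intro p hp
    rcases List.mem_append.1 hp with hp | hp <;> obtain ⟨i, hi, rfl⟩ := mem_fl.1 hp
    · right; rw [V1_N]
    · left; rw [V1_E]
  · right; rw [V1_W]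
  · intro p hp
    rcases List.mem_append.1 hp with hp | hp <;> obtain ⟨i, hi, rfl⟩ := mem_fl.1 hp
    · rw [V0_W]; simp only; omega
    · rw [V0_S]; simp only; omega
  · intro p hp
    rcases List.mem_append.1 hp with hp | hp <;> obtain ⟨i, hi, rfl⟩ := mem_fl.1 hp
    · rw [V0_S]
      simp only
      intro h1
      have : i = 0 := by omega
      subst this
      simp
    · rw [V0_W]
      simp only
      intro h1
      omega
  · intro t
    rw [Xr249.full_P, mem_QA]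
    unfold InQ Bx base
    omega
  · intro c d hp
    rcases List.mem_append.1 hp with hp | hp <;> obtain ⟨i, hi, he⟩ := mem_fl.1 hp <;>
      obtain ⟨rfl, rfl⟩ := Gc748.pt_inj.1 he <;> unfold base <;>
      simp only [dir0, dir1, dir2, dir3, Prod.mk_add_mk] <;> omega
  · intro c d hp
    rcases List.mem_append.1 hp with hp | hp <;> obtain ⟨i, hi, he⟩ := mem_fl.1 hp <;>
      obtain ⟨rfl, rfl⟩ := Gc748.pt_inj.1 he <;> unfold base Bx <;>
      simp only [dir0, dir1, dir2, dir3, Prod.mk_add_mk] <;> omega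
  · intro c d hp
    rcases List.mem_append.1 hp with hp | hp <;> obtain ⟨i, hi, he⟩ := mem_fl.1 hp <;>
      obtain ⟨rfl, rfl⟩ := Gc748.pt_inj.1 he <;> unfold base Bx <;>
      simp only [dir0, dir1, dir2, dir3, Prod.mk_add_mk] <;> omega
  · intro p hp
    rcases List.mem_append.1 hp with hp | hp <;> obtain ⟨i, hi, rfl⟩ := mem_fl.1 hp
    · rw [V1_W, abs_le, abs_le]; simp only; omega
    · rw [V1_S, abs_le, abs_le]; simp only; omega
  · intro p hp
    rcases List.mem_append.1 hp with hp | hp <;> obtain ⟨i, hi, rfl⟩ := mem_fl.1 hp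
    · rw [V0_N, le_abs, le_abs]; simp only; omega
    · rw [V0_E, le_abs, le_abs]; simp only; omega

/-! ### three quarters -/

theorem annD_t {X Y : ℤ} {r n : ℕ} (hr : 1 ≤ r) (hn : r + 1 ≤ n) :
    ∃ w, AnnD .t X Y r n (Xr249.full (TA X Y r n)) w (TnE X Y r n)
      (TjS X Y r n ++ TjE X Y r n ++ TjN X Y r n ++ TjW X Y r n)
      (TnN X Y r n) (ToE X Y r n ++ ToS X Y r n ++ ToW X Y r n ++ ToN X Y r n)
      (fun v => v.1 = X + n ∨ v.1 = X - n ∨ v.2 = Y + n ∨ v.2 = Y - n)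
      (some ((X, Y + n), 2)) (some ((X + n, Y), 1)) := by
  obtain ⟨w, h1, h2, h3⟩ := ta_word X Y r n hr hn
  refine ⟨w, ⟨⟨_, h1⟩, bs_isLeg w h1.bas, ?_, ?_, ?_, ?_, ?_, ?_, ?_, ?_, ?_⟩, plain_full _, ?_, ?_,
    ?_, ?_, ?_, ?_⟩
  · refine ⟨_, h3, ?_⟩
    have e1 : ToW X Y r n ++ (ToN X Y r n ++ (TnE X Y r n ++ (TjS X Y r n ++ (TjE X Y r n ++
        (TjN X Y r n ++ (TjW X Y r n ++ (TnN X Y r n ++ (ToE X Y r n ++ ToS X Y r n)))))))) =
        (ToW X Y r n ++ ToN X Y r n) ++ (TnE X Y r n ++ (TjS X Y r n ++ (TjE X Y r n ++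
        (TjN X Y r n ++ (TjW X Y r n ++ (TnN X Y r n ++ (ToE X Y r n ++ ToS X Y r n))))))) := by
      simp
    have e2 : TnE X Y r n ++ (TjS X Y r n ++ TjE X Y r n ++ TjN X Y r n ++ TjW X Y r n) ++
        TnN X Y r n ++ (ToE X Y r n ++ ToS X Y r n ++ ToW X Y r n ++ ToN X Y r n) =
        (TnE X Y r n ++ (TjS X Y r n ++ (TjE X Y r n ++
        (TjN X Y r n ++ (TjW X Y r n ++ (TnN X Y r n ++ (ToE X Y r n ++ ToS X Y r n))))))) ++
        (ToW X Y r n ++ ToN X Y r n) := by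
      simp
    rw [e1, e2]
    exact List.isRotated_append
  · exact (ta_chain (X := X) (Y := Y) hr hn).right_of_append.right_of_append.left_of_append
  · exact (ta_chain (X := X) (Y := Y) hr
      hn).right_of_append.right_of_append.right_of_append.right_of_append.right_of_append.right_of_append.right_of_append.left_of_append
  · obtain ⟨l, hl⟩ := Gc748.fl_cons (fun i : ℕ => (some ((X, Y + n - i), 2) : Port (ℤ × ℤ)))
      (n - r - 1)
    refine ⟨l, ?_⟩
    unfold TnE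
    rw [hl]; simp
  · obtain ⟨l, hl⟩ := Gc748.fl_snoc
      (fun i : ℕ => (some ((X + r + 1 + i, Y), 1) : Port (ℤ × ℤ))) (n - r - 1)
    refine ⟨l, ?_⟩
    unfold TnN
    rw [hl]
    have : X + r + 1 + ((n - r - 1 : ℕ) : ℤ) = X + n := by omega
    rw [this]
  · intro p hp
    simp only [List.mem_append] at hp
    rcases hp with ((hp | hp) | hp) | hp <;> obtain ⟨i, hi, rfl⟩ := mem_fl.1 hp
    · left; rw [V1_E]
    · right; right; right; rw [V1_S]; simp
    · right; left; rw [V1_W]; simp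
    · right; right; left; rw [V1_N]
  · left; rw [V1_N]
  · intro p hp
    simp only [List.mem_append] at hp
    rcases hp with ((hp | hp) | hp) | hp <;> obtain ⟨i, hi, rfl⟩ := mem_fl.1 hp
    · rw [V0_S]; simp only; omega
    · rw [V0_E]; simp only; omega
    · rw [V0_N]; simp only; omega
    · rw [V0_W]; simp only; omega
  · intro p hp
    rcases List.mem_append.1 hp with hp | hp <;> obtain ⟨i, hi, rfl⟩ := mem_fl.1 hp
    · rw [V0_E]
      simp only
      intro h1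
      have : i = 0 := by omega
      subst this
      simp
    · rw [V0_N]
      simp only
      intro h1
      omega
  · intro t
    rw [Xr249.full_P, mem_TA]
    unfold InT Bx base
    omega
  · intro c d hp
    rcases List.mem_append.1 hp with hp | hp <;> obtain ⟨i, hi, he⟩ := mem_fl.1 hp <;>
      obtain ⟨rfl, rfl⟩ := Gc748.pt_inj.1 he <;> unfold base <;>
      simp only [dir0, dir1, dir2, dir3, Prod.mk_add_mk] <;> omega
  · intro c d hp
    simp only [List.mem_append] at hp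
    rcases hp with ((hp | hp) | hp) | hp <;> obtain ⟨i, hi, he⟩ := mem_fl.1 hp <;>
      obtain ⟨rfl, rfl⟩ := Gc748.pt_inj.1 he <;> unfold base Bx <;>
      simp only [dir0, dir1, dir2, dir3, Prod.mk_add_mk] <;> omega
  · intro c d hp
    simp only [List.mem_append] at hp
    rcases hp with ((hp | hp) | hp) | hp <;> obtain ⟨i, hi, he⟩ := mem_fl.1 hp <;>
      obtain ⟨rfl, rfl⟩ := Gc748.pt_inj.1 he <;> unfold base Bx <;>
      simp only [dir0, dir1, dir2, dir3, Prod.mk_add_mk] <;> omega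
  · intro p hp
    simp only [List.mem_append] at hp
    rcases hp with ((hp | hp) | hp) | hp <;> obtain ⟨i, hi, rfl⟩ := mem_fl.1 hp
    · rw [V1_S, abs_le, abs_le]; simp only; omega
    · rw [V1_E, abs_le, abs_le]; simp only; omega
    · rw [V1_N, abs_le, abs_le]; simp only; omega
    · rw [V1_W, abs_le, abs_le]; simp only; omega
  · intro p hp
    simp only [List.mem_append] at hp
    rcases hp with ((hp | hp) | hp) | hp <;> obtain ⟨i, hi, rfl⟩ := mem_fl.1 hp
    · rw [V0_E, le_abs, le_abs]; simp only; omega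
    · rw [V0_S, le_abs, le_abs]; simp only; omega
    · rw [V0_W, le_abs, le_abs]; simp only; omega
    · rw [V0_N, le_abs, le_abs]; simp only; omega

/-! ### half planes -/

theorem plain_stp (X Y : ℤ) (r n e : ℕ) : Plain (stp X Y r n e) :=
  ⟨fun x y => by rw [mem_stp, mem_stp]; exact Gc748.stp_h,
    fun x y => by rw [mem_stp, mem_stp]; exact Gc748.stp_v⟩

/-- shape of the stepped half plane -/
def shS (e : ℕ) : Sh := if e = 0 then .h0 else .h1

theorem base_stp {X Y : ℤ} {e : ℕ} (he : e ≤ 1) {t : ℤ × ℤ} :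
    base X Y (shS e) t ↔ (t.2 ≤ Y → t.1 ≤ X + e) ∧ (Y < t.2 → t.1 ≤ X) := by
  have : e = 0 ∨ e = 1 := by omega
  rcases this with rfl | rfl
  · simp only [shS, if_true, base]
    constructor
    · intro h; constructor <;> intro _ <;> push_cast <;> omega
    · intro h
      by_cases h1 : t.2 ≤ Y
      · have := h.1 h1; push_cast at this; omega
      · exact h.2 (by omega)
  · simp only [shS, base]
    simp

theorem annD_s {X Y : ℤ} {r n e : ℕ} (he : e ≤ 1) (hr : 1 ≤ r) (hn : r + 1 ≤ n) :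
    ∃ w, AnnD (shS e) X Y r n (stp X (Y + 1) r n e) w (Gc748.N1 X (Y + 1) r n)
      (Jls X (Y + 1) r e) (Gc748.N2 X (Y + 1) r n e) (Jos X (Y + 1) n e) (Obs X (Y + 1) n)
      (some ((X, Y + 1 + n - 1), 2)) (some ((X + e, Y + 1 - n), 2)) := by
  obtain ⟨w, hw⟩ := exists_SW X (Y + 1) r n e hr hn
  refine ⟨w, chA_stp hr hn hw, plain_stp _ _ _ _ _, ?_, ?_, ?_, ?_, ?_, ?_⟩
  · intro t
    rw [mem_stp, base_stp he]
    unfold InS Bx
    omega
  · intro c d hp
    rw [base_stp he]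
    rcases List.mem_append.1 hp with hp | hp <;> obtain ⟨i, hi, he⟩ := mem_fl.1 hp <;>
      obtain ⟨rfl, rfl⟩ := Gc748.pt_inj.1 he <;>
      simp only [dir0, dir1, dir2, dir3, Prod.mk_add_mk] <;> omega
  · intro c d hp
    unfold Jls at hp
    simp only [List.mem_append] at hp
    rw [base_stp he]
    rcases hp with (hp | hp) | hp <;> obtain ⟨i, hi, he⟩ := mem_fl.1 hp <;>
      obtain ⟨rfl, rfl⟩ := Gc748.pt_inj.1 he <;> unfold Bx <;>
      simp only [dir0, dir1, dir2, dir3, Prod.mk_add_mk] <;> omega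
  · intro c d hp
    unfold Jos at hp
    simp only [List.mem_append] at hp
    rw [base_stp he]
    rcases hp with (hp | hp) | hp <;> obtain ⟨i, hi, he⟩ := mem_fl.1 hp <;>
      obtain ⟨rfl, rfl⟩ := Gc748.pt_inj.1 he <;> unfold Bx <;>
      simp only [dir0, dir1, dir2, dir3, Prod.mk_add_mk] <;> omega
  · intro p hp
    unfold Jls at hp
    simp only [List.mem_append] at hp
    rcases hp with (hp | hp) | hp <;> obtain ⟨i, hi, rfl⟩ := mem_fl.1 hp
    · rw [V1_S, abs_le, abs_le]; simp only; omega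
    · rw [V1_E, abs_le, abs_le]; simp only; omega
    · rw [V1_N, abs_le, abs_le]; simp only; omega
  · intro p hp
    unfold Jos at hp
    simp only [List.mem_append] at hp
    rcases hp with (hp | hp) | hp <;> obtain ⟨i, hi, rfl⟩ := mem_fl.1 hp
    · rw [V0_S, le_abs, le_abs]; simp only; omega
    · rw [V0_W, le_abs, le_abs]; simp only; omega
    · rw [V0_N, le_abs, le_abs]; simp only; omega

/-- **the annulus of every shape** -/
theorem annD_exists (sh : Sh) (X Y : ℤ) {r n : ℕ} (hr : 1 ≤ r) (hn : r + 1 ≤ n) :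
    ∃ K w0 N1 Jl N2 Jo Ob a b, AnnD sh X Y r n K w0 N1 Jl N2 Jo Ob a b := by
  cases sh with
  | q =>
    obtain ⟨w, h⟩ := annD_q (X := X) (Y := Y) hr hn
    exact ⟨_, _, _, _, _, _, _, _, _, h⟩
  | t =>
    obtain ⟨w, h⟩ := annD_t (X := X) (Y := Y) hr hn
    exact ⟨_, _, _, _, _, _, _, _, _, h⟩
  | h0 =>
    obtain ⟨w, h⟩ := annD_s (X := X) (Y := Y) (e := 0) (by omega) hr hn
    exact ⟨_, _, _, _, _, _, _, _, _, h⟩
  | h1 =>
    obtain ⟨w, h⟩ := annD_s (X := X) (Y := Y) (e := 1) (by omega) hr hn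
    exact ⟨_, _, _, _, _, _, _, _, _, h⟩

/-! ### probability -/

/-- **probability of a crossing arc** -/
theorem x1_le : ∃ C a : ℝ, 0 < C ∧ 0 < a ∧ ∀ {sh : Sh} {X Y : ℤ} {r n : ℕ} {K : Reg}
    {w0 : Wd (ℤ × ℤ)} {N1 Jl N2 Jo : List (Port (ℤ × ℤ))} {Ob : ℤ × ℤ → Prop}
    {a0 b0 : Port (ℤ × ℤ)}, AnnD sh X Y r n K w0 N1 Jl N2 Jo Ob a0 b0 → 1 ≤ r → r ≤ n →
    (PB fun _ : ℤ × ℤ => hf).real (X1 w0 Jl Jo) ≤ C * ((r : ℝ) / n) ^ a := by
  obtain ⟨C, a, hC, ha, h⟩ := farm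
  refine ⟨C, a, hC, ha, ?_⟩
  intro sh X Y r n K w0 N1 Jl N2 Jo Ob a0 b0 hA hr hn
  refine (measureReal_mono ?_).trans (h (X, Y) r n hr hn)
  rintro g ⟨i, hi, hi'⟩
  obtain ⟨b, hb⟩ := hA.ch.rw
  have hiC : i ∈ N1 ++ Jl ++ N2 ++ Jo := by simp [hi]
  have hiL := (hA.ch.mem.1 hiC)
  have hjC : Sw300.M g w0 i ∈ N1 ++ Jl ++ N2 ++ Jo := by simp [hi']
  have hjL := (hA.ch.mem.1 hjC)
  have h1 := Gc748.side_fp (s := g) hb hiL.1
  have h2 := hA.ri i hi
  have h3 := hA.ro _ hi'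
  refine ⟨V1 i, V0 (Sw300.M g w0 i), h2.1, h2.2, h3, ?_⟩
  rcases i with - | ⟨t, d⟩
  · exact absurd rfl hiL.2
  · rcases hm : Sw300.M g w0 (some (t, d)) with - | ⟨t', d'⟩
    · exact absurd hm hjL.2
    · rw [hm] at h1
      exact h1.mono fun _ _ => ⟨trivial, rfl⟩

end Crest.Agent.R158.Cw161
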