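import Crest.Agent.R158.Cw3_161

/-!
# R158, corner / mark / flat balls (helper161), file Cw4: the ball theorem

* `rk X Y k` : `k` clockwise quarter turns round the face `(X, Y)`
* `pat X Y sh k` : the shape `sh` turned by `-k`
* `Win sh k X Y r n A b` : the region `(A, b)` looks like the shape between the boxes `r` and `n`
* `win_plain` : from the plain glueing
* **`ball_win`** : two regions with the same window differ by at most `C (r / n)^a`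
* `pat_q0` .. `pat_s2` : the patterns in plain coordinates
-/

set_option autoImplicit false
set_option linter.unusedSectionVars false
set_option linter.unusedVariables false
set_option linter.unusedSimpArgs false

noncomputable section

namespace Crest.Agent.R158.Cw161

open MeasureTheory
open Crest.Agent.R158.Sw300 (Port Wd thru tls)
open Crest.Agent.R158.Gc748 (RW pt lc rc bs fa)
open Crest.Agent.R158.Cb771 (dir)
open Crest.Agent.R158.Sl434 (ChA Loc X1 X2 Pair Mm Cy some_Fp some_Ap none_Fp gl_ne)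
open Crest.Agent.R158.Rs689 (PB hf)
open Crest.Agent.R158.Xr249 (Nx Reg)
open Crest.Agent.R158.Ob664 (GW HW Gl)
open Crest.Agent.R158.Env664 (beP nbP res PortOf)

/-! ### quarter turns -/

/-- `k` clockwise quarter turns round the face `(X, Y)` -/
def rk (X Y : ℤ) (k : ZMod 4) (t : ℤ × ℤ) : ℤ × ℤ :=
  if k = 0 then t else if k = 1 then (X - Y + t.2, X + Y + 1 - t.1)
  else if k = 2 then (2 * X + 1 - t.1, 2 * Y + 1 - t.2) else (X + Y + 1 - t.2, Y - X + t.1)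

theorem rk_0 (X Y : ℤ) (t : ℤ × ℤ) : rk X Y 0 t = t := rfl
theorem rk_1 (X Y : ℤ) (t : ℤ × ℤ) : rk X Y 1 t = (X - Y + t.2, X + Y + 1 - t.1) := rfl
theorem rk_2 (X Y : ℤ) (t : ℤ × ℤ) : rk X Y 2 t = (2 * X + 1 - t.1, 2 * Y + 1 - t.2) := rfl
theorem rk_3 (X Y : ℤ) (t : ℤ × ℤ) : rk X Y 3 t = (X + Y + 1 - t.2, Y - X + t.1) := rfl

theorem d4 : ∀ d : ZMod 4, d = 0 ∨ d = 1 ∨ d = 2 ∨ d = 3 := by decide

theorem rk_neg (X Y : ℤ) (k : ZMod 4) (t : ℤ × ℤ) : rk X Y (-k) (rk X Y k t) = t := by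
  have a1 : -(1 : ZMod 4) = 3 := by decide
  have a2 : -(2 : ZMod 4) = 2 := by decide
  have a3 : -(3 : ZMod 4) = 1 := by decide
  have a0 : -(0 : ZMod 4) = 0 := by decide
  obtain ⟨x, y⟩ := t
  rcases d4 k with rfl | rfl | rfl | rfl
  · rw [a0, rk_0, rk_0]
  · rw [a1, rk_1, rk_3]; ext <;> simp <;> ring
  · rw [a2, rk_2, rk_2]; ext <;> simp
  · rw [a3, rk_3, rk_1]; ext <;> simp <;> ring

theorem rk_neg' (X Y : ℤ) (k : ZMod 4) (t : ℤ × ℤ) : rk X Y k (rk X Y (-k) t) = t := by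
  have := rk_neg X Y (-k) t
  rwa [neg_neg] at this

theorem rk_dir (X Y : ℤ) (k : ZMod 4) (t : ℤ × ℤ) (d : ZMod 4) :
    rk X Y k (t + dir d) = rk X Y k t + dir (d + k) := by
  have b1 : (1 : ZMod 4) + 1 = 2 := by decide
  have b2 : (1 : ZMod 4) + 2 = 3 := by decide
  have b3 : (1 : ZMod 4) + 3 = 0 := by decide
  have c1 : (2 : ZMod 4) + 1 = 3 := by decide
  have c2 : (2 : ZMod 4) + 2 = 0 := by decide
  have c3 : (2 : ZMod 4) + 3 = 1 := by decide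
  have e1 : (3 : ZMod 4) + 1 = 0 := by decide
  have e2 : (3 : ZMod 4) + 2 = 1 := by decide
  have e3 : (3 : ZMod 4) + 3 = 2 := by decide
  obtain ⟨x, y⟩ := t
  rcases d4 k with rfl | rfl | rfl | rfl <;> rcases d4 d with rfl | rfl | rfl | rfl <;>
    simp only [rk_0, rk_1, rk_2, rk_3, zero_add, add_zero, b1, b2, b3, c1, c2, c3, e1, e2, e3,
      dir0, dir1, dir2, dir3, Prod.mk_add_mk] <;> ext <;> simp <;> ring

theorem bx_rk {X Y : ℤ} {n : ℕ} {k : ZMod 4} {t : ℤ × ℤ} :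
    Bx X Y n (rk X Y k t) ↔ Bx X Y n t := by
  obtain ⟨x, y⟩ := t
  unfold Bx
  rcases d4 k with rfl | rfl | rfl | rfl
  · rw [rk_0]
  · rw [rk_1]; simp only; omega
  · rw [rk_2]; simp only; omega
  · rw [rk_3]; simp only; omega

/-- the shape `sh`, turned -/
def pat (X Y : ℤ) (sh : Sh) (k : ZMod 4) (t : ℤ × ℤ) : Prop := base X Y sh (rk X Y k t)

/-! ### windows -/

/-- the region looks like the turned shape between the boxes of radii `r` and `n` -/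
structure Win (sh : Sh) (k : ZMod 4) (X Y : ℤ) (r n : ℕ) (A : Finset (ℤ × ℤ))
    (b : Port (ℤ × ℤ) → Port (ℤ × ℤ)) : Prop where
  tile : ∀ t, Bx X Y n t → ¬ Bx X Y r t → pat X Y sh k t → t ∈ A
  glue : ∀ t d, Bx X Y n t → ¬ Bx X Y r t → pat X Y sh k t → pat X Y sh k (t + dir d) →
    b (some (t, d)) = some (t + dir d, d + 2)
  free : ∀ t d, Bx X Y n t → ¬ Bx X Y r t → pat X Y sh k t → ¬ pat X Y sh k (t + dir d) →
    b (some (t, d)) = some (t, d)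
  out : ∀ t d, Bx X Y n t → ¬ Bx X Y r t → ¬ pat X Y sh k t → b (some (t, d)) = some (t, d)
  inner : ∀ t d, Bx X Y r t → ∃ t' d', Bx X Y n t' ∧ b (some (t, d)) = some (t', d')

/-- far tiles -/
def Fr (X Y : ℤ) (n : ℕ) : Set (ℤ × ℤ) := {t | ¬ Bx X Y n t}
/-- annulus tiles -/
def An (X Y : ℤ) (sh : Sh) (k : ZMod 4) (r n : ℕ) : Set (ℤ × ℤ) :=
  {t | pat X Y sh k t ∧ Bx X Y n t ∧ ¬ Bx X Y r t}

theorem dir_back (t : ℤ × ℤ) (d : ZMod 4) : t + dir d + dir (d + 2) = t := by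
  have : ∀ d : ZMod 4, dir d + dir (d + 2) = 0 := by decide
  rw [add_assoc, this, add_zero]

theorem not_fp {S : Set (ℤ × ℤ)} {t : ℤ × ℤ} {d : ZMod 4} (h : t ∉ S) :
    (some (t, d) : Port (ℤ × ℤ)) ∉ Sl434.Fp S := fun h' => h (some_Fp.1 h')

theorem loc_of_win {sh : Sh} {k : ZMod 4} {X Y : ℤ} {r n : ℕ} {K : Reg} {w0 : Wd (ℤ × ℤ)}
    {N1 Jl N2 Jo : List (Port (ℤ × ℤ))} {Ob : ℤ × ℤ → Prop} {a0 b0 : Port (ℤ × ℤ)}
    (hA : AnnD sh X Y r n K w0 N1 Jl N2 Jo Ob a0 b0) (hrn : r ≤ n) {A : Finset (ℤ × ℤ)}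
    {b : Port (ℤ × ℤ) → Port (ℤ × ℤ)} (hinv : Function.Involutive b) (h : Win sh k X Y r n A b) :
    Loc K N1 Jl N2 Jo b (Fr X Y n) (An X Y sh k r n) (rk X Y k) (rk X Y (-k)) k := by
  have key : ∀ {c : ℤ × ℤ}, c ∈ K.P → pat X Y sh k (rk X Y (-k) c) ∧ Bx X Y n (rk X Y (-k) c) ∧
      ¬ Bx X Y r (rk X Y (-k) c) := by
    intro c hc
    obtain ⟨h1, h2, h3⟩ := (hA.mem c).1 hc
    unfold pat
    rw [rk_neg', bx_rk, bx_rk]
    exact ⟨h1, h2, h3⟩
  have hrr : ∀ {t : ℤ × ℤ}, Bx X Y r t → Bx X Y n t := by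
    intro t ht
    unfold Bx at ht ⊢
    omega
  have inK : ∀ {c : ℤ × ℤ} {d : ZMod 4}, some (c, d) ∈ N1 ++ Jl ++ N2 ++ Jo → c ∈ K.P := by
    intro c d hc
    exact some_Ap.1 (hA.ch.port hc)
  have step : ∀ (c : ℤ × ℤ) (d : ZMod 4), rk X Y (-k) c + dir (d + -k) = rk X Y (-k) (c + dir d) :=
    fun c d => (rk_dir X Y (-k) c d).symm
  have hp : ∀ {c : ℤ × ℤ}, pat X Y sh k (rk X Y (-k) c) ↔ base X Y sh c := by
    intro c; unfold pat; rw [rk_neg']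
  refine ⟨?_, ?_, ?_, ?_, ?_, hinv, ?_, ?_, ?_, ?_, ?_⟩
  · intro t ht ht'
    exact ht ht'.2.1
  · intro t ht
    rw [hA.mem, bx_rk, bx_rk]
    exact ht
  · intro t _
    exact rk_neg X Y k t
  · intro c hc
    exact key hc
  · intro c _
    exact rk_neg' X Y k c
  · intro p q hpq
    rcases p with - | ⟨c, d⟩
    · exact hpq.elim
    obtain ⟨h1, h2, rfl⟩ := (plain_gl hA.pl).1 hpq
    have k1 := key h1
    have k2 := key h2
    rw [Sl434.pm_some, Sl434.pm_some]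
    have h3 := h.glue _ (d + -k) k1.2.1 k1.2.2 k1.1 (by rw [step]; exact k2.1)
    rw [h3, step, add_right_comm]
  · intro p hpN
    have hpC : p ∈ N1 ++ Jl ++ N2 ++ Jo := by
      simp only [List.mem_append] at hpN ⊢; tauto
    rcases p with - | ⟨c, d⟩
    · exact absurd rfl (hA.ch.mem.1 hpC).2
    have k1 := key (inK hpC)
    rw [Sl434.pm_some]
    refine h.free _ _ k1.2.1 k1.2.2 k1.1 ?_
    rw [step, hp]
    exact hA.wl c d hpN
  · intro p hpJ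
    have hpC : p ∈ N1 ++ Jl ++ N2 ++ Jo := by simp [hpJ]
    rcases p with - | ⟨c, d⟩
    · exact absurd rfl (hA.ch.mem.1 hpC).2
    have k1 := key (inK hpC)
    obtain ⟨j1, j2⟩ := hA.jl c d hpJ
    rw [Sl434.pm_some, h.glue _ _ k1.2.1 k1.2.2 k1.1 (by rw [step, hp]; exact j1), step]
    have j3 : Bx X Y r (rk X Y (-k) (c + dir d)) := bx_rk.2 j2
    rintro (h4 | h4)
    · exact some_Fp.1 h4 (hrr j3)
    · exact (some_Ap.1 h4).2.2 j3
  · intro p hpJ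
    have hpC : p ∈ N1 ++ Jl ++ N2 ++ Jo := by simp [hpJ]
    rcases p with - | ⟨c, d⟩
    · exact absurd rfl (hA.ch.mem.1 hpC).2
    have k1 := key (inK hpC)
    obtain ⟨j1, j2⟩ := hA.jo c d hpJ
    rw [Sl434.pm_some, h.glue _ _ k1.2.1 k1.2.2 k1.1 (by rw [step, hp]; exact j1), step]
    refine some_Fp.2 fun h4 => j2 ?_
    exact bx_rk.1 h4
  · intro x hx
    rcases hbx : b x with - | ⟨t, d⟩
    · exact Or.inl (none_Fp _)
    by_cases hn : Bx X Y n t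
    · right
      have hx' : b (some (t, d)) = x := by rw [← hbx]; exact hinv x
      have hxn : ∀ t' d', x = some (t', d') → ¬ Bx X Y n t' := by
        rintro t' d' rfl
        exact some_Fp.1 hx
      by_cases hr : Bx X Y r t
      · obtain ⟨t', d', h5, h6⟩ := h.inner t d hr
        exact absurd h5 (hxn t' d' (hx'.symm.trans h6))
      · by_cases hpt : pat X Y sh k t
        · exact some_Ap.2 ⟨hpt, hn, hr⟩
        · have h6 := h.out t d hn hr hpt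
          exact absurd hn (hxn t d (hx'.symm.trans h6))
    · exact Or.inl (some_Fp.2 hn)

/-! ### the ball theorem -/

/-- position of a mark and its image -/
def MkB (X Y : ℤ) (r n : ℕ) (w w' : Wd (ℤ × ℤ)) (m y : Port (ℤ × ℤ)) : Prop :=
  m ∈ Sw300.L w ∧ y ∈ Sw300.L w' ∧ ((y = m ∧ ∀ t d, m = some (t, d) → ¬ Bx X Y r t) ∨
    ∃ t d t' d', m = some (t, d) ∧ Bx X Y r t ∧ y = some (t', d') ∧ Bx X Y r t')

/-- the mark is far -/
def FarM (X Y : ℤ) (n : ℕ) (m : Port (ℤ × ℤ)) : Prop := ∀ t d, m = some (t, d) → ¬ Bx X Y n t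

theorem farM_iff {X Y : ℤ} {n : ℕ} {m : Port (ℤ × ℤ)} : FarM X Y n m ↔ m ∈ Sl434.Fp (Fr X Y n) := by
  rcases m with - | ⟨t, d⟩
  · exact ⟨fun _ => none_Fp _, fun _ t d h => absurd h (by simp)⟩
  · rw [some_Fp]
    constructor
    · intro h; exact h t d rfl
    · intro h t' d' e
      obtain ⟨rfl, rfl⟩ := Gc748.pt_inj.1 e
      exact h

theorem be_eq_of_gw {A : Finset (ℤ × ℤ)} {b : Port (ℤ × ℤ) → Port (ℤ × ℤ)} {w : Wd (ℤ × ℤ)}
    (h : GW A b w) : Sw300.be w = b := funext h.word.2.2.2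

theorem cy_of_gw {A : Finset (ℤ × ℤ)} {b : Port (ℤ × ℤ) → Port (ℤ × ℤ)} {w : Wd (ℤ × ℤ)}
    (h : GW A b w) : Cy (Nx (Gl (Sw300.be w))) (Sw300.L w) := by
  rw [be_eq_of_gw h]
  exact h.nx

theorem hth_k (k : ZMod 4) : ∀ (b : Bool) (d : ZMod 4),
    thru (xor (odd4 k) b) (d + k) = thru b d + k := by
  revert k; decide

/-- the pair of words of a window -/
theorem pair_of_win {sh : Sh} {k : ZMod 4} {X Y : ℤ} {r n : ℕ} {K : Reg} {w0 : Wd (ℤ × ℤ)}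
    {N1 Jl N2 Jo : List (Port (ℤ × ℤ))} {Ob : ℤ × ℤ → Prop} {a0 b0 : Port (ℤ × ℤ)}
    (hD : AnnD sh X Y r n K w0 N1 Jl N2 Jo Ob a0 b0) (hrn : r ≤ n) {A A' : Finset (ℤ × ℤ)}
    {b b' : Port (ℤ × ℤ) → Port (ℤ × ℤ)} {w w' : Wd (ℤ × ℤ)} (hw : GW A b w) (hw' : GW A' b' w')
    (h : Win sh k X Y r n A b) (h' : Win sh k X Y r n A' b')
    (hF : ∀ x, FarM X Y n x → b' x = b x) :
    Pair K w0 N1 Jl N2 Jo Ob a0 b0 w w' (Fr X Y n) (An X Y sh k r n) (rk X Y k) (rk X Y (-k)) k := by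
  have e := be_eq_of_gw hw
  have e' := be_eq_of_gw hw'
  have i1 : Function.Involutive b := e ▸ Sl434.be_invol hw.word.1
  have i2 : Function.Involutive b' := e' ▸ Sl434.be_invol hw'.word.1
  refine ⟨hD.ch, hw.word.1, hw'.word.1, cy_of_gw hw, cy_of_gw hw', ?_, ?_, ?_, ?_, ?_⟩
  · rw [e]; exact loc_of_win hD hrn i1 h
  · rw [e']; exact loc_of_win hD hrn i2 h'
  · intro t ht
    exact (hw.word.2.2.1 t).2 (h.tile t ht.2.1 ht.2.2 ht.1)
  · intro t ht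
    exact (hw'.word.2.2.1 t).2 (h'.tile t ht.2.1 ht.2.2 ht.1)
  · intro x hx
    rw [e, e']
    exact hF x (farM_iff.2 hx)

/-- a free end in the annulus is an annulus end -/
theorem mm_of_mkB {sh : Sh} {k : ZMod 4} {X Y : ℤ} {r n : ℕ} {A : Finset (ℤ × ℤ)}
    {b : Port (ℤ × ℤ) → Port (ℤ × ℤ)} {w w' : Wd (ℤ × ℤ)} (hw : GW A b w) (hrn : r ≤ n)
    (hnp : ∀ t, Bx X Y n t → ¬ Bx X Y r t → t ∈ A → pat X Y sh k t) {m y : Port (ℤ × ℤ)}
    (h : MkB X Y r n w w' m y) : Mm (Fr X Y n) (An X Y sh k r n) w w' m y := by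
  obtain ⟨h1, h2, h3⟩ := h
  refine ⟨h1, ?_⟩
  have hrr : ∀ {t : ℤ × ℤ}, Bx X Y r t → Bx X Y n t := by
    intro t ht
    unfold Bx at ht ⊢
    omega
  have hin : ∀ {t : ℤ × ℤ} {d : ZMod 4}, Bx X Y r t →
      (some (t, d) : Port (ℤ × ℤ)) ∉ Sl434.Fp (Fr X Y n) ∪ Sl434.Ap (An X Y sh k r n) := by
    rintro t d ht (h4 | h4)
    · exact some_Fp.1 h4 (hrr ht)
    · exact (some_Ap.1 h4).2.2 ht
  rcases h3 with ⟨rfl, h3⟩ | ⟨t, d, t', d', rfl, h4, rfl, h5⟩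
  · left
    refine ⟨?_, rfl⟩
    rcases y with - | ⟨t, d⟩
    · exact Or.inl (none_Fp _)
    · by_cases hn : Bx X Y n t
      · right
        have ht : t ∈ A := (hw.word.2.2.1 t).1 (Gc748.mem_L_tls hw.word.1 h1)
        exact some_Ap.2 ⟨hnp t hn (h3 t d rfl) ht, hn, h3 t d rfl⟩
      · exact Or.inl (some_Fp.2 hn)
  · right
    exact ⟨hin h4, h2, hin h5⟩

/-- **the ball theorem** -/
theorem ball_win : ∃ C a : ℝ, 0 < C ∧ 0 < a ∧ ∀ (sh : Sh) (k : ZMod 4) (X Y : ℤ) (r n : ℕ),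
    1 ≤ r → r + 1 ≤ n → ∀ {A A' : Finset (ℤ × ℤ)} {b b' : Port (ℤ × ℤ) → Port (ℤ × ℤ)}
    {w w' : Wd (ℤ × ℤ)}, GW A b w → GW A' b' w' → Win sh k X Y r n A b → Win sh k X Y r n A' b' →
    (∀ t, Bx X Y n t → ¬ Bx X Y r t → t ∈ A → pat X Y sh k t) →
    (∀ x, FarM X Y n x → b' x = b x) → ∀ {m1 m2 m3 y1 y2 y3 : Port (ℤ × ℤ)},
    MkB X Y r n w w' m1 y1 → MkB X Y r n w w' m2 y2 → MkB X Y r n w w' m3 y3 →
    (FarM X Y n m1 ∨ FarM X Y n m2) → (FarM X Y n m2 ∨ FarM X Y n m3) →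
    (FarM X Y n m3 ∨ FarM X Y n m1) →
    Sw300.cyc (Sw300.pos w m1) (Sw300.pos w m2) (Sw300.pos w m3) →
    ‖HW w m1 m2 m3 - HW w' y1 y2 y3‖ ≤ C * ((r : ℝ) / n) ^ a := by
  obtain ⟨C, a, hC, ha, hX⟩ := x1_le
  refine ⟨2 * C, a, by positivity, ha, ?_⟩
  intro sh k X Y r n hr hn A A' b b' w w' hw hw' h h' hnp hF m1 m2 m3 y1 y2 y3 h1 h2 h3 f12 f23 f31
    hc
  obtain ⟨K, w0, N1, Jl, N2, Jo, Ob, a0, b0, hD⟩ := annD_exists sh X Y hr hn
  have hP := pair_of_win hD (by omega) hw hw' h h' hF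
  have h5 := hP.HW_le0 (hth_k k) (mm_of_mkB hw (by omega) hnp h1) (mm_of_mkB hw (by omega) hnp h2)
    (mm_of_mkB hw (by omega) hnp h3) (f12.imp farM_iff.1 farM_iff.1)
    (f23.imp farM_iff.1 farM_iff.1) (f31.imp farM_iff.1 farM_iff.1) hc
  have h6 := hX hD hr (by omega)
  linarith

/-! ### plain windows -/

theorem nbP_dir (t : ℤ × ℤ) (d : ZMod 4) : nbP (some (t, d)) = some (t + dir d, d + 2) := by
  obtain ⟨x, y⟩ := t
  have a0 : (0 : ZMod 4) + 2 = 2 := by decide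
  have a1 : (1 : ZMod 4) + 2 = 3 := by decide
  have a2 : (2 : ZMod 4) + 2 = 0 := by decide
  have a3 : (3 : ZMod 4) + 2 = 1 := by decide
  rcases d4 d with rfl | rfl | rfl | rfl
  · rw [Env664.nbP_W, a0, dir0]; simp [sub_eq_add_neg]
  · rw [Env664.nbP_N, a1, dir1]; simp
  · rw [Env664.nbP_E, a2, dir2]; simp
  · rw [Env664.nbP_S, a3, dir3]; simp [sub_eq_add_neg]

theorem portOf_some {A : Finset (ℤ × ℤ)} {t : ℤ × ℤ} {d : ZMod 4} :
    PortOf A (some (t, d)) ↔ t ∈ A := by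
  constructor
  · intro h; exact h (t, d) rfl
  · intro h y hy
    simp only [Option.mem_def, Option.some.injEq] at hy
    rw [← hy]; exact h

theorem beP_in {A : Finset (ℤ × ℤ)} {t : ℤ × ℤ} {d : ZMod 4} (h : t ∈ A) (h' : t + dir d ∈ A) :
    beP A (some (t, d)) = some (t + dir d, d + 2) := by
  unfold beP
  rw [Env664.res_of (portOf_some.2 h) (by rw [nbP_dir]; exact portOf_some.2 h'), nbP_dir]

theorem beP_free {A : Finset (ℤ × ℤ)} {t : ℤ × ℤ} {d : ZMod 4} (h : t ∉ A ∨ t + dir d ∉ A) :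
    beP A (some (t, d)) = some (t, d) := by
  unfold beP res
  rw [if_neg]
  rintro ⟨h1, h2⟩
  rw [nbP_dir] at h2
  rcases h with h | h
  · exact h (portOf_some.1 h1)
  · exact h (portOf_some.1 h2)

theorem bx_dir {X Y : ℤ} {n : ℕ} {t : ℤ × ℤ} (d : ZMod 4) (h : Bx X Y n t) :
    Bx X Y (n + 1) (t + dir d) := by
  obtain ⟨x, y⟩ := t
  unfold Bx at *
  rcases d4 d with rfl | rfl | rfl | rfl
  · rw [dir0]; simp only [Prod.mk_add_mk] at *; push_cast; omega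
  · rw [dir1]; simp only [Prod.mk_add_mk] at *; push_cast; omega
  · rw [dir2]; simp only [Prod.mk_add_mk] at *; push_cast; omega
  · rw [dir3]; simp only [Prod.mk_add_mk] at *; push_cast; omega

/-- **a window of a plainly glued region** -/
theorem win_plain {sh : Sh} {k : ZMod 4} {X Y : ℤ} {r n : ℕ} (hr : 1 ≤ r) (hn : r + 1 ≤ n)
    {A : Finset (ℤ × ℤ)} {b : Port (ℤ × ℤ) → Port (ℤ × ℤ)}
    (hA : ∀ t, Bx X Y (n + 1) t → ¬ Bx X Y (r - 1) t → (t ∈ A ↔ pat X Y sh k t))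
    (hb : ∀ t d, Bx X Y n t → b (some (t, d)) = beP A (some (t, d))) : Win sh k X Y r n A b := by
  have up : ∀ {t : ℤ × ℤ}, Bx X Y n t → Bx X Y (n + 1) t := by
    intro t ht; unfold Bx at *; push_cast; omega
  have dn : ∀ {t : ℤ × ℤ}, ¬ Bx X Y r t → ¬ Bx X Y (r - 1) t := by
    intro t ht h; apply ht; unfold Bx at *; omega
  have dd : ∀ {t : ℤ × ℤ} (d : ZMod 4), ¬ Bx X Y r t → ¬ Bx X Y (r - 1) (t + dir d) := by
    intro t d ht h
    apply ht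
    have := bx_dir (d + 2) h
    rw [dir_back] at this
    have e : r - 1 + 1 = r := by omega
    rwa [e] at this
  refine ⟨?_, ?_, ?_, ?_, ?_⟩
  · intro t h1 h2 h3
    exact (hA t (up h1) (dn h2)).2 h3
  · intro t d h1 h2 h3 h4
    rw [hb t d h1]
    exact beP_in ((hA t (up h1) (dn h2)).2 h3) ((hA _ (bx_dir d h1) (dd d h2)).2 h4)
  · intro t d h1 h2 h3 h4
    rw [hb t d h1]
    exact beP_free (Or.inr fun h => h4 ((hA _ (bx_dir d h1) (dd d h2)).1 h))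
  · intro t d h1 h2 h3
    rw [hb t d h1]
    exact beP_free (Or.inl fun h => h3 ((hA t (up h1) (dn h2)).1 h))
  · intro t d h1
    have hn' : Bx X Y n t := by unfold Bx at *; omega
    rw [hb t d hn']
    by_cases h : t ∈ A ∧ t + dir d ∈ A
    · rw [beP_in h.1 h.2]
      refine ⟨_, _, ?_, rfl⟩
      have := bx_dir d h1
      unfold Bx at *; push_cast at this; omega
    · rw [beP_free (by tauto)]
      exact ⟨_, _, hn', rfl⟩

/-- the tile condition of `ball_win` from the same hypothesis -/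
theorem np_plain {sh : Sh} {k : ZMod 4} {X Y : ℤ} {r n : ℕ} {A : Finset (ℤ × ℤ)}
    (hA : ∀ t, Bx X Y (n + 1) t → ¬ Bx X Y (r - 1) t → (t ∈ A ↔ pat X Y sh k t)) :
    ∀ t, Bx X Y n t → ¬ Bx X Y r t → t ∈ A → pat X Y sh k t := by
  intro t h1 h2 h3
  refine (hA t ?_ ?_).1 h3
  · unfold Bx at *; push_cast; omega
  · intro h; apply h2; unfold Bx at *; omega

/-! ### the patterns in plain coordinates -/

section pats

variable {X Y : ℤ} {t : ℤ × ℤ}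

/-- quarters -/
theorem pat_q0 : pat X Y .q 0 t ↔ X < t.1 ∧ Y < t.2 := Iff.rfl
theorem pat_q1 : pat X Y .q 1 t ↔ t.1 ≤ X ∧ Y < t.2 := by
  unfold pat; rw [rk_1]; unfold base; simp only; omega
theorem pat_q2 : pat X Y .q 2 t ↔ t.1 ≤ X ∧ t.2 ≤ Y := by
  unfold pat; rw [rk_2]; unfold base; simp only; omega
theorem pat_q3 : pat X Y .q 3 t ↔ X < t.1 ∧ t.2 ≤ Y := by
  unfold pat; rw [rk_3]; unfold base; simp only; omega

/-- three quarters -/
theorem pat_t0 : pat X Y .t 0 t ↔ t.1 ≤ X ∨ t.2 ≤ Y := by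
  unfold pat; rw [rk_0]; unfold base; omega
theorem pat_t1 : pat X Y .t 1 t ↔ X < t.1 ∨ t.2 ≤ Y := by
  unfold pat; rw [rk_1]; unfold base; simp only; omega
theorem pat_t2 : pat X Y .t 2 t ↔ X < t.1 ∨ Y < t.2 := by
  unfold pat; rw [rk_2]; unfold base; simp only; omega
theorem pat_t3 : pat X Y .t 3 t ↔ t.1 ≤ X ∨ Y < t.2 := by
  unfold pat; rw [rk_3]; unfold base; simp only; omega

/-- half planes: right wall, ceiling, left wall, floor -/
theorem pat_h0 : pat X Y .h0 0 t ↔ t.1 ≤ X := Iff.rfl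
theorem pat_h1 : pat X Y .h0 1 t ↔ t.2 ≤ Y := by
  unfold pat; rw [rk_1]; unfold base; simp only; omega
theorem pat_h2 : pat X Y .h0 2 t ↔ X < t.1 := by
  unfold pat; rw [rk_2]; unfold base; simp only; omega
theorem pat_h3 : pat X Y .h0 3 t ↔ Y < t.2 := by
  unfold pat; rw [rk_3]; unfold base; simp only; omega

/-- stepped right wall (lower half one column wider) and stepped left wall (upper half wider) -/
theorem pat_s0 : pat X Y .h1 0 t ↔ (t.2 ≤ Y → t.1 ≤ X + 1) ∧ (Y < t.2 → t.1 ≤ X) := Iff.rfl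
theorem pat_s2 : pat X Y .h1 2 t ↔ (Y < t.2 → X ≤ t.1) ∧ (t.2 ≤ Y → X < t.1) := by
  unfold pat; rw [rk_2]; unfold base; simp only; omega

end pats

end Crest.Agent.R158.Cw161
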