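import Crest.Agent.R158.Ad4_350
import Crest.Agent.R158.Nm4_211

/-!
# Row 158, Block N, DENT-A (helper570), part 1: arrow reversal and expectations

* `integral_half` : the expectation of a function of finitely many fair splittings is an average
* `Zc A be ch` : the six-vertex sum over the arrows on the ports of `A`
* `Zc_eq` : it is `2^{-|A|}` times the sum of the closed networks
* `Zc_neg` : arrow reversal, `Zc A be (-ch) = Zc A be ch`
-/

set_option autoImplicit false
set_option linter.unusedSectionVars false

noncomputable section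

open Finset

namespace Crest.Agent.R158.Da570

open MeasureTheory ProbabilityTheory unitInterval
open Crest.Agent.R158.Rs689 (PB bern hf)
open Crest.Agent.R158.Nm211 (DepF)
open Crest.Agent.R158.Sw300 (Port thru)
open Crest.Agent.R158.Ad350 hiding gb

/-! ### expectations -/

section

variable {ι : Type*} [DecidableEq ι]

theorem bern_hf (b : Bool) : (bern hf).real {b} = 1 / 2 := by
  cases b
  · rw [Rs689.bern_real_false]
    show 1 - (1 / 2 : ℝ) = 1 / 2
    norm_num
  · rw [Rs689.bern_real_true]
    rfl

/-- probability of one value -/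
theorem int_one (e : ι) (b : Bool) :
    ∫ z : ι → Bool, (if z e = b then (1 : ℝ) else 0) ∂(PB fun _ : ι => hf) = 1 / 2 := by
  have h1 : (fun z : ι → Bool => if z e = b then (1 : ℝ) else 0) =
      Set.indicator {z : ι → Bool | z e = b} (fun _ => (1 : ℝ)) := by
    funext z
    by_cases h : z e = b
    · rw [if_pos h, Set.indicator_of_mem (by exact h)]
    · rw [if_neg h, Set.indicator_of_notMem (by exact h)]
  have hm : MeasurableSet {z : ι → Bool | z e = b} := by
    have h0 : Measurable fun z : ι → Bool => z e := measurable_pi_apply e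
    exact h0 (MeasurableSet.of_discrete (s := {b}))
  rw [h1, integral_indicator hm, setIntegral_const, smul_eq_mul, mul_one]
  have h2 : {z : ι → Bool | z e = b} = (({e} : Finset ι) : Set ι).pi fun _ => ({b} : Set Bool) := by
    ext z
    simp
  rw [h2, measureReal_def, PB, Measure.infinitePi_pi _ (fun _ _ => MeasurableSet.of_discrete)]
  rw [Finset.prod_singleton, ← measureReal_def]
  exact bern_hf b

/-- agreement on `S` -/
def agr (S T : Finset ι) (z : ι → Bool) : ℝ := ∏ e ∈ S, if z e = decide (e ∈ T) then (1 : ℝ) else 0

theorem agr_dep (S T : Finset ι) : DepF S (agr S T) := fun z z' h => by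
  unfold agr
  exact Finset.prod_congr rfl fun e he => by rw [h e he]

theorem int_agr (S T : Finset ι) : ∫ z : ι → Bool, agr S T z ∂(PB fun _ : ι => hf) =
    (1 / 2) ^ S.card := by
  have h := Nm211.integral_prod_disj (fun _ : ι => hf) S (fun e => {e})
    (fun i _ j _ hij => Finset.disjoint_singleton.2 hij)
    (fun e z => if z e = decide (e ∈ T) then (1 : ℝ) else 0)
    (fun e _ z z' hz => by
      show (if z e = _ then (1 : ℝ) else 0) = _
      rw [hz e (Finset.mem_singleton_self e)])
  have h2 : ∫ z : ι → Bool, agr S T z ∂(PB fun _ : ι => hf) =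
      ∏ e ∈ S, ∫ z : ι → Bool, (if z e = decide (e ∈ T) then (1 : ℝ) else 0)
        ∂(PB fun _ : ι => hf) := h
  rw [h2, Finset.prod_congr rfl fun e _ => int_one e _, Finset.prod_const]

theorem agr_eq {S T : Finset ι} (hT : T ⊆ S) (z : ι → Bool) :
    agr S T z = if T = S.filter (fun e => z e = true) then 1 else 0 := by
  unfold agr
  split_ifs with h
  · refine Finset.prod_eq_one fun e he => ?_
    rw [if_pos]
    subst h
    cases hz : z e <;> simp [he, hz]
  · obtain ⟨e, he, hne⟩ : ∃ e ∈ S, z e ≠ decide (e ∈ T) := by
      by_contra hcon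
      push Not at hcon
      apply h
      ext e
      rw [Finset.mem_filter]
      constructor
      · intro k
        refine ⟨hT k, ?_⟩
        rw [hcon e (hT k)]
        simpa using k
      · rintro ⟨k1, k2⟩
        rw [hcon e k1] at k2
        simpa using k2
    exact Finset.prod_eq_zero he (if_neg hne)

/-- **expectation = average** -/
theorem integral_half {S : Finset ι} {f : (ι → Bool) → ℝ} (h : DepF S f) :
    ∫ z, f z ∂(PB fun _ : ι => hf) =
      (1 / 2) ^ S.card * ∑ T ∈ S.powerset, f (fun e => decide (e ∈ T)) := by
  have h1 : ∀ z, f z = ∑ T ∈ S.powerset, f (fun e => decide (e ∈ T)) * agr S T z := by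
    intro z
    rw [Finset.sum_congr rfl fun T hT => by rw [agr_eq (Finset.mem_powerset.1 hT)]]
    rw [Finset.sum_congr rfl fun T _ => mul_ite _ _ _ _]
    simp only [mul_one, mul_zero]
    rw [Finset.sum_ite_eq' S.powerset (S.filter fun e => z e = true)
      (fun T => f fun e => decide (e ∈ T)), if_pos]
    · refine h _ _ fun e he => ?_
      cases hz : z e <;> simp [he, hz]
    · exact Finset.mem_powerset.2 (Finset.filter_subset _ _)
  rw [integral_congr_ae (ae_of_all _ h1), integral_finsetSum]
  · rw [Finset.mul_sum]
    refine Finset.sum_congr rfl fun T _ => ?_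
    rw [integral_const_mul, int_agr]
    ring
  · intro T _
    exact ((agr_dep S T).integrable _).const_mul _

/-- at `1/2` all the splittings can be flipped -/
theorem integral_not {S : Finset ι} {f : (ι → Bool) → ℝ} (h : DepF S f) :
    ∫ z, f (fun e => !z e) ∂(PB fun _ : ι => hf) = ∫ z, f z ∂(PB fun _ : ι => hf) := by
  have h1 := Nm211.integral_transport (ι := ι) (g := id) (Set.injOn_id _) (fun _ => true) h
  simpa using h1

end

/-! ### arrow reversal -/

section

variable {T : Type*} [DecidableEq T]

/-- the six-vertex sum -/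
def Zc (A : Finset T) (be : Port T → Port T) (ch : Port T → ℝ) : ℂ :=
  ∑ B ∈ (ports A).powerset with Ad350.gb be (ports A) B,
    ei (pb ch (ports A) B) * tilesF A (ov (ports A) B fun _ => false)

theorem Zc_eq {A : Finset T} {be : Port T → Port T} (hbe : ∀ p ∈ ports A, be p ∈ ports A)
    (ch : Port T → ℝ) : Zc A be ch =
      (1 / 2) ^ A.card * ∑ S ∈ A.powerset, (tnet A (fun t => decide (t ∈ S)) be ch).z (ports A) := by
  have h : Ad350.Rep be ch (fun F τ => ∑ B ∈ (ports A).powerset with Ad350.gb be (ports A) B,
      ei (pb ch (ports A) B) * F (ov (ports A) B τ)) (ports A) := ⟨hbe, fun F τ => rfl⟩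
  exact h.tiles fun _ => false

theorem Zc_neg {A : Finset T} {be : Port T → Port T} (hbe : ∀ p ∈ ports A, be p ∈ ports A)
    (ch : Port T → ℝ) : Zc A be (fun p => -ch p) = Zc A be ch := by
  unfold Zc
  refine Finset.sum_bij' (fun B _ => ports A \ B) (fun B _ => ports A \ B) ?_ ?_ ?_ ?_ ?_
  · intro B hB
    rw [Finset.mem_filter, Finset.mem_powerset] at hB ⊢
    refine ⟨Finset.sdiff_subset, fun p hp hne => ?_⟩
    have := hB.2 p hp hne
    rw [Finset.mem_sdiff, Finset.mem_sdiff]
    have h2 := hbe p hp
    tauto
  · intro B hB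
    rw [Finset.mem_filter, Finset.mem_powerset] at hB ⊢
    refine ⟨Finset.sdiff_subset, fun p hp hne => ?_⟩
    have := hB.2 p hp hne
    rw [Finset.mem_sdiff, Finset.mem_sdiff]
    have h2 := hbe p hp
    tauto
  · intro B hB
    rw [Finset.mem_filter, Finset.mem_powerset] at hB
    exact Finset.sdiff_sdiff_eq_self hB.1
  · intro B hB
    rw [Finset.mem_filter, Finset.mem_powerset] at hB
    exact Finset.sdiff_sdiff_eq_self hB.1
  · intro B hB
    rw [Finset.mem_filter, Finset.mem_powerset] at hB
    have h1 : pb (fun p => -ch p) (ports A) B = pb ch (ports A) (ports A \ B) := by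
      unfold pb
      refine Finset.sum_congr rfl fun p hp => ?_
      by_cases h : p ∈ B
      · simp [h]
      · simp [h, hp]
    have h2 : tilesF A (ov (ports A) B fun _ => false) =
        tilesF A (ov (ports A) (ports A \ B) fun _ => false) := by
      unfold tilesF
      refine Finset.prod_congr rfl fun t ht => ?_
      rw [← w6_flip]
      congr 1
      funext d
      have hp : (some (t, d) : Port T) ∈ ports A := mem_ports.2 ht
      unfold ov
      rw [if_pos hp, if_pos hp]
      by_cases h : (some (t, d) : Port T) ∈ B
      · simp [h]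
      · simp [h, ht]
    rw [h1, h2]

end

end Crest.Agent.R158.Da570
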