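import Crest.Agent.R158.Pt6_266

/-!
# R158 (helper570), file Da2: region table of the L-shape (DENT-A, 211's message 11100)

* `Lr n = [0,8n) × [0,4n) ∪ [4n,8n) × [-4n,0)`, sides `sid`, levels `lv`
* **(T1)** `lr_sc`, `lr_conn`
* **(T2)** `lr_free`
* **(T3)** `lr_chain`
-/

set_option autoImplicit false
set_option linter.unusedVariables false
set_option linter.unusedSimpArgs false

noncomputable section

namespace Crest.Agent.R158.Da570

open Crest.Agent.R158.Pt266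
open Crest.Agent.R158.Xr249 (rot rot_some rot_none Nx Reg full CPath full_SC full_Conn)
open Crest.Agent.R158.Env664 (Adj4)

/-- the L-shape -/
def Lr (n : ℕ) : Finset (ℤ × ℤ) :=
  (Finset.Ico (0 : ℤ) (8 * n) ×ˢ Finset.Ico (0 : ℤ) (4 * n)) ∪
    (Finset.Ico (4 * n : ℤ) (8 * n) ×ˢ Finset.Ico (-(4 * n) : ℤ) 0)

/-- side of a port -/
def sid (x : (ℤ × ℤ) × ZMod 4) : Fin 6 :=
  if x.2 = 0 then (if x.1.2 < 0 then 4 else 0) else if x.2 = 1 then 1 else if x.2 = 2 then 2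
    else (if x.1.2 < 0 then 3 else 5)

/-- levels of the sides -/
def lv : Fin 6 → ℤ := ![0, 1, 2, 3, 4, 3]

lemma mem_Lr {n : ℕ} {x y : ℤ} : (x, y) ∈ Lr n ↔
    (0 ≤ x ∧ x < 8 * n ∧ 0 ≤ y ∧ y < 4 * n) ∨ (4 * n ≤ x ∧ x < 8 * n ∧ -(4 * n) ≤ y ∧ y < 0) := by
  simp only [Lr, Finset.mem_union, Finset.mem_product, Finset.mem_Ico]
  tauto

lemma zd : (0 : ZMod 4) ≠ 1 ∧ (0 : ZMod 4) ≠ 2 ∧ (0 : ZMod 4) ≠ 3 ∧ (1 : ZMod 4) ≠ 0 ∧
    (1 : ZMod 4) ≠ 2 ∧ (1 : ZMod 4) ≠ 3 ∧ (2 : ZMod 4) ≠ 0 ∧ (2 : ZMod 4) ≠ 1 ∧ (2 : ZMod 4) ≠ 3 ∧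
    (3 : ZMod 4) ≠ 0 ∧ (3 : ZMod 4) ≠ 1 ∧ (3 : ZMod 4) ≠ 2 := by decide

lemma dir0 : dir 0 = (-1, 0) := by simp [dir]
lemma dir1 : dir 1 = (0, 1) := by
  obtain ⟨h1, h2, h3, h4, h5, h6, h7, h8, h9, h10, h11, h12⟩ := zd
  simp [dir, h4]
lemma dir2 : dir 2 = (1, 0) := by
  obtain ⟨h1, h2, h3, h4, h5, h6, h7, h8, h9, h10, h11, h12⟩ := zd
  simp [dir, h7, h8]
lemma dir3 : dir 3 = (0, -1) := by
  obtain ⟨h1, h2, h3, h4, h5, h6, h7, h8, h9, h10, h11, h12⟩ := zd
  simp [dir, h10, h11, h12]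

lemma z31 : (3 : ZMod 4) + 1 = 0 := by decide
lemma z21 : (2 : ZMod 4) + 1 = 3 := by decide
lemma z11 : (1 : ZMod 4) + 1 = 2 := by decide
lemma z01 : (0 : ZMod 4) + 1 = 1 := by decide
lemma z03 : (0 : ZMod 4) + 3 = 3 := by decide

/-- **(T1)** -/
theorem lr_hole (n : ℕ) : Hole (Lr n) := by
  rintro ⟨x, y⟩ hc
  rw [mem_Lr] at hc
  have htop : ∀ t ∈ Lr n, t.2 ≤ 4 * (n : ℤ) := by
    rintro ⟨a, b⟩ h
    rw [mem_Lr] at h
    simp only
    omega
  -- a column from which we can go up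
  have up : ∀ a b : ℤ, (a < 0 ∨ 8 * (n : ℤ) ≤ a ∨ 4 * (n : ℤ) ≤ b) →
      CPath {t | t ∉ Lr n} (a, b) (a, max b (4 * n)) := by
    intro a b hab
    refine CPath.ver (le_max_left _ _) fun z h1 h2 => ?_
    simp only [Set.mem_ofPred_eq, mem_Lr]
    omega
  have top' : ∀ a b : ℤ, ∀ t ∈ Lr n, t.2 ≤ (a, max b (4 * (n : ℤ))).2 := fun a b t ht =>
    (htop t ht).trans (le_max_right _ _)
  by_cases h1 : x < 0 ∨ 8 * (n : ℤ) ≤ x ∨ 4 * (n : ℤ) ≤ y
  · exact ⟨_, up x y h1, top' x y⟩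
  by_cases h2 : x < 4 * (n : ℤ)
  · refine ⟨_, CPath.trans (b := (-1, y)) ?_ (up (-1) y (Or.inl (by omega))), top' (-1) y⟩
    refine (CPath.hor (x1 := -1) (x2 := x) (y := y) (by omega) fun z h3 h4 => ?_).symm
    simp only [Set.mem_ofPred_eq, mem_Lr]
    omega
  · refine ⟨_, CPath.trans (b := (8 * (n : ℤ), y)) ?_ (up (8 * n) y (Or.inr (Or.inl le_rfl))),
      top' (8 * n) y⟩
    refine CPath.hor (x1 := x) (x2 := 8 * n) (y := y) (by omega) fun z h3 h4 => ?_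
    simp only [Set.mem_ofPred_eq, mem_Lr]
    omega

theorem lr_sc (n : ℕ) : (full (Lr n)).SC := full_SC (lr_hole n)

theorem lr_conn {n : ℕ} : (full (Lr n)).Conn := by
  have key : ∀ a ∈ Lr n, CPath {t | t ∈ Lr n} a (0, 0) := by
    rintro ⟨x, y⟩ h
    rw [mem_Lr] at h
    have h1 : CPath {t | t ∈ Lr n} (x, y) (x, 0) := by
      rcases le_total 0 y with h2 | h2
      · refine (CPath.ver (y1 := 0) (y2 := y) (x := x) h2 fun z h3 h4 => ?_).symm
        simp only [Set.mem_ofPred_eq, mem_Lr]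
        omega
      · refine CPath.ver (y1 := y) (y2 := 0) (x := x) h2 fun z h3 h4 => ?_
        simp only [Set.mem_ofPred_eq, mem_Lr]
        omega
    refine h1.trans (CPath.hor (x1 := 0) (x2 := x) (y := 0) (by omega) fun z h3 h4 => ?_).symm
    simp only [Set.mem_ofPred_eq, mem_Lr]
    omega
  exact full_Conn fun a ha b hb => (key a ha).trans (key b hb).symm

/-- **(T2)** -/
theorem lr_free {n : ℕ} {a b : ℤ} {d : ZMod 4} : RFree (full (Lr n)) ((a, b), d) ↔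
    (d = 0 ∧ a = 0 ∧ 0 ≤ b ∧ b < 4 * n) ∨ (d = 1 ∧ b = 4 * n - 1 ∧ 0 ≤ a ∧ a < 8 * n) ∨
    (d = 2 ∧ a = 8 * n - 1 ∧ -(4 * n) ≤ b ∧ b < 4 * n) ∨
    (d = 3 ∧ b = -(4 * n) ∧ 4 * n ≤ a ∧ a < 8 * n) ∨
    (d = 0 ∧ a = 4 * n ∧ -(4 * n) ≤ b ∧ b < 0) ∨ (d = 3 ∧ b = 0 ∧ 0 ≤ a ∧ a < 4 * n) := by
  obtain ⟨h1, h2, h3, h4, h5, h6, h7, h8, h9, h10, h11, h12⟩ := zd
  rw [rfree_full, FFree]
  rcases Xr249.Reg.d4 d with rfl | rfl | rfl | rfl
  · simp only [dir0, Prod.mk_add_mk, mem_Lr, h1, h2, h3, true_and, false_and, false_or, or_false]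
    omega
  · simp only [dir1, Prod.mk_add_mk, mem_Lr, h4, h5, h6, true_and, false_and, false_or, or_false]
    omega
  · simp only [dir2, Prod.mk_add_mk, mem_Lr, h7, h8, h9, true_and, false_and, false_or, or_false]
    omega
  · simp only [dir3, Prod.mk_add_mk, mem_Lr, h10, h11, h12, true_and, false_and, false_or, or_false]
    omega

/-! ### the boundary, numbered -/

/-- port number `i` of the boundary -/
def bp (n i : ℤ) : (ℤ × ℤ) × ZMod 4 :=
  if i < 4 * n then ((0, i), 0) else if i < 12 * n then ((i - 4 * n, 4 * n - 1), 1)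
  else if i < 20 * n then ((8 * n - 1, 16 * n - 1 - i), 2)
  else if i < 24 * n then ((28 * n - 1 - i, -(4 * n)), 3)
  else if i < 28 * n then ((4 * n, i - 28 * n), 0)
  else ((32 * n - 1 - i, 0), 3)

lemma bp1 {n i : ℤ} (h : i < 4 * n) : bp n i = ((0, i), 0) := if_pos h
lemma bp2 {n i : ℤ} (h0 : 4 * n ≤ i) (h : i < 12 * n) : bp n i = ((i - 4 * n, 4 * n - 1), 1) := by
  rw [bp, if_neg (by omega), if_pos h]
lemma bp3 {n i : ℤ} (hn : 0 ≤ n) (h0 : 12 * n ≤ i) (h : i < 20 * n) :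
    bp n i = ((8 * n - 1, 16 * n - 1 - i), 2) := by
  rw [bp, if_neg (by omega), if_neg (by omega), if_pos h]
lemma bp4 {n i : ℤ} (hn : 0 ≤ n) (h0 : 20 * n ≤ i) (h : i < 24 * n) :
    bp n i = ((28 * n - 1 - i, -(4 * n)), 3) := by
  rw [bp, if_neg (by omega), if_neg (by omega), if_neg (by omega), if_pos h]
lemma bp5 {n i : ℤ} (hn : 0 ≤ n) (h0 : 24 * n ≤ i) (h : i < 28 * n) :
    bp n i = ((4 * n, i - 28 * n), 0) := by
  rw [bp, if_neg (by omega), if_neg (by omega), if_neg (by omega), if_neg (by omega), if_pos h]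
lemma bp6 {n i : ℤ} (hn : 0 ≤ n) (h0 : 28 * n ≤ i) : bp n i = ((32 * n - 1 - i, 0), 3) := by
  rw [bp, if_neg (by omega), if_neg (by omega), if_neg (by omega), if_neg (by omega),
    if_neg (by omega)]

/-- number of a port -/
def ix (n : ℤ) (x : (ℤ × ℤ) × ZMod 4) : ℤ :=
  if x.2 = 0 then (if x.1.2 < 0 then x.1.2 + 28 * n else x.1.2)
  else if x.2 = 1 then x.1.1 + 4 * n
  else if x.2 = 2 then 16 * n - 1 - x.1.2
  else (if x.1.2 < 0 then 28 * n - 1 - x.1.1 else 32 * n - 1 - x.1.1)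

lemma ix_bp {n i : ℤ} (hn : 1 ≤ n) (h0 : 0 ≤ i) (h : i < 32 * n) : ix n (bp n i) = i := by
  obtain ⟨h1, h2, h3, h4, h5, h6, h7, h8, h9, h10, h11, h12⟩ := zd
  rcases lt_or_ge i (4 * n) with c1 | c1
  · rw [bp1 c1]
    simp only [ix, if_true, if_neg (show ¬ i < 0 by omega)]
  rcases lt_or_ge i (12 * n) with c2 | c2
  · rw [bp2 c1 c2]
    simp only [ix, h4, if_false, if_true]
    omega
  rcases lt_or_ge i (20 * n) with c3 | c3
  · rw [bp3 (by omega) c2 c3]
    simp only [ix, h7, h8, if_false, if_true]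
    omega
  rcases lt_or_ge i (24 * n) with c4 | c4
  · rw [bp4 (by omega) c3 c4]
    simp only [ix, h10, h11, h12, if_false, if_pos (show -(4 * n) < 0 by omega)]
    omega
  rcases lt_or_ge i (28 * n) with c5 | c5
  · rw [bp5 (by omega) c4 c5]
    simp only [ix, if_true, if_pos (show i - 28 * n < 0 by omega)]
    omega
  · rw [bp6 (by omega) c5]
    simp only [ix, h10, h11, h12, if_false, if_neg (show ¬ (0 : ℤ) < 0 by omega)]
    omega

lemma bp_ix {n : ℕ} (hn : 1 ≤ n) {x : (ℤ × ℤ) × ZMod 4} (hx : RFree (full (Lr n)) x) :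
    bp n (ix n x) = x ∧ 0 ≤ ix n x ∧ ix n x < 32 * n := by
  obtain ⟨h1, h2, h3, h4, h5, h6, h7, h8, h9, h10, h11, h12⟩ := zd
  rcases x with ⟨⟨a, b⟩, d⟩
  rw [lr_free] at hx
  rcases hx with ⟨rfl, rfl, c1, c2⟩ | ⟨rfl, rfl, c1, c2⟩ | ⟨rfl, rfl, c1, c2⟩ | ⟨rfl, rfl, c1, c2⟩ |
    ⟨rfl, rfl, c1, c2⟩ | ⟨rfl, rfl, c1, c2⟩
  · have e : ix n (((0 : ℤ), b), (0 : ZMod 4)) = b := by
      simp only [ix, if_true, if_neg (show ¬ b < 0 by omega)]
    rw [e, bp1 (by omega)]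
    exact ⟨rfl, by omega, by omega⟩
  · have e : ix n ((a, (4 * n - 1 : ℤ)), (1 : ZMod 4)) = a + 4 * n := by
      simp only [ix, h4, if_false, if_true]
    rw [e, bp2 (by omega) (by omega)]
    refine ⟨by rw [add_sub_cancel_right], by omega, by omega⟩
  · have e : ix n (((8 * n - 1 : ℤ), b), (2 : ZMod 4)) = 16 * n - 1 - b := by
      simp only [ix, h7, h8, if_false, if_true]
    rw [e, bp3 (by omega) (by omega) (by omega)]
    refine ⟨by rw [sub_sub_cancel], by omega, by omega⟩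
  · have e : ix n ((a, (-(4 * n) : ℤ)), (3 : ZMod 4)) = 28 * n - 1 - a := by
      simp only [ix, h10, h11, h12, if_false, if_pos (show -(4 * (n : ℤ)) < 0 by omega)]
    rw [e, bp4 (by omega) (by omega) (by omega)]
    refine ⟨by rw [sub_sub_cancel], by omega, by omega⟩
  · have e : ix n (((4 * n : ℤ), b), (0 : ZMod 4)) = b + 28 * n := by
      simp only [ix, if_true, if_pos (show b < 0 by omega)]
    rw [e, bp5 (by omega) (by omega) (by omega)]
    refine ⟨by rw [add_sub_cancel_right], by omega, by omega⟩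
  · have e : ix n ((a, (0 : ℤ)), (3 : ZMod 4)) = 32 * n - 1 - a := by
      simp only [ix, h10, h11, h12, if_false, if_neg (show ¬ (0 : ℤ) < 0 by omega)]
    rw [e, bp6 (by omega) (by omega)]
    refine ⟨by rw [sub_sub_cancel], by omega, by omega⟩

/-- side of port number `i` -/
lemma sid_bp {n i : ℤ} (hn : 1 ≤ n) (h0 : 0 ≤ i) (h : i < 32 * n) :
    sid (bp n i) = if i < 4 * n then 0 else if i < 12 * n then 1 else if i < 20 * n then 2
      else if i < 24 * n then 3 else if i < 28 * n then 4 else 5 := by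
  obtain ⟨h1, h2, h3, h4, h5, h6, h7, h8, h9, h10, h11, h12⟩ := zd
  rcases lt_or_ge i (4 * n) with c1 | c1
  · rw [bp1 c1, if_pos c1]
    simp only [sid, if_true, if_neg (show ¬ i < 0 by omega)]
  rw [if_neg (not_lt.2 c1)]
  rcases lt_or_ge i (12 * n) with c2 | c2
  · rw [bp2 c1 c2, if_pos c2]
    simp only [sid, h4, if_false, if_true]
  rw [if_neg (not_lt.2 c2)]
  rcases lt_or_ge i (20 * n) with c3 | c3
  · rw [bp3 (by omega) c2 c3, if_pos c3]
    simp only [sid, h7, h8, if_false, if_true]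
  rw [if_neg (not_lt.2 c3)]
  rcases lt_or_ge i (24 * n) with c4 | c4
  · rw [bp4 (by omega) c3 c4, if_pos c4]
    simp only [sid, h10, h11, h12, if_false, if_pos (show -(4 * n) < 0 by omega)]
  rw [if_neg (not_lt.2 c4)]
  rcases lt_or_ge i (28 * n) with c5 | c5
  · rw [bp5 (by omega) c4 c5, if_pos c5]
    simp only [sid, if_true, if_pos (show i - 28 * n < 0 by omega)]
  · rw [bp6 (by omega) c5, if_neg (not_lt.2 c5)]
    simp only [sid, h10, h11, h12, if_false, if_neg (show ¬ (0 : ℤ) < 0 by omega)]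

lemma sid_mono {n i j : ℤ} (hn : 1 ≤ n) (h0 : 0 ≤ i) (hij : i ≤ j) (h : j < 32 * n) :
    sid (bp n i) ≤ sid (bp n j) := by
  rw [sid_bp hn h0 (by omega), sid_bp hn (by omega) h]
  have d1 : (0 : Fin 6) ≤ 0 := le_rfl
  split_ifs <;> first | decide | (exfalso; omega)

/-- one clockwise step -/
lemma bp_step {n : ℕ} (hn : 1 ≤ n) {i : ℤ} (h0 : 0 ≤ i) (h : i + 1 < 32 * n) :
    NxT (full (Lr n)).gl (some (bp n i)) (some (bp n (i + 1)))
      (lv (sid (bp n (i + 1))) - lv (sid (bp n i))) := by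
  have hn' : (1 : ℤ) ≤ n := by exact_mod_cast hn
  have hl : lv 0 = 0 ∧ lv 1 = 1 ∧ lv 2 = 2 ∧ lv 3 = 3 ∧ lv 4 = 4 ∧ lv 5 = 3 := ⟨rfl, rfl, rfl, rfl, rfl, rfl⟩
  obtain ⟨l0, l1, l2, l3, l4, l5⟩ := hl
  rw [sid_bp hn' h0 (by omega), sid_bp hn' (by omega) h]
  rcases lt_or_ge i (4 * n) with c1 | c1
  · rcases lt_or_ge (i + 1) (4 * n) with e1 | e1
    · rw [if_pos c1, if_pos e1, bp1 c1, bp1 e1, sub_self]
      have := nx_flat (A := Lr n) (t := (0, i)) (d := 0)
        (by rw [mem_Lr]; omega)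
        (by rw [z01, dir1, Prod.mk_add_mk, mem_Lr]; omega)
        (by rw [z01, dir1, dir0, Prod.mk_add_mk, Prod.mk_add_mk, mem_Lr]; omega)
      rw [z01, dir1, Prod.mk_add_mk, add_zero] at this
      exact this
    · obtain rfl : i = 4 * n - 1 := by omega
      rw [if_pos c1, if_neg (by omega), if_pos (by omega), bp1 c1, bp2 (by omega) (by omega)]
      have := nx_convex (A := Lr n) (t := (0, 4 * n - 1)) (d := 0)
        (by rw [z01, dir1, Prod.mk_add_mk, mem_Lr]; omega)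
      rw [z01] at this
      rw [l1, l0, show (4 * (n : ℤ) - 1 + 1 - 4 * n) = 0 by ring]
      exact this
  rw [if_neg (not_lt.2 c1), if_neg (show ¬ i + 1 < 4 * n by omega)]
  rcases lt_or_ge i (12 * n) with c2 | c2
  · rcases lt_or_ge (i + 1) (12 * n) with e1 | e1
    · rw [if_pos c2, if_pos e1, bp2 c1 c2, bp2 (by omega) e1, sub_self]
      have := nx_flat (A := Lr n) (t := (i - 4 * n, 4 * n - 1)) (d := 1)
        (by rw [mem_Lr]; omega)
        (by rw [z11, dir2, Prod.mk_add_mk, mem_Lr]; omega)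
        (by rw [z11, dir2, dir1, Prod.mk_add_mk, Prod.mk_add_mk, mem_Lr]; omega)
      rw [z11, dir2, Prod.mk_add_mk, add_zero] at this
      rw [show i + 1 - 4 * (n : ℤ) = i - 4 * n + 1 by ring]
      exact this
    · obtain rfl : i = 12 * n - 1 := by omega
      rw [if_pos c2, if_neg (by omega), if_pos (by omega), bp2 c1 c2, bp3 (by omega) (by omega) (by omega)]
      have := nx_convex (A := Lr n) (t := (12 * n - 1 - 4 * n, 4 * n - 1)) (d := 1)
        (by rw [z11, dir2, Prod.mk_add_mk, mem_Lr]; omega)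
      rw [z11] at this
      rw [l2, l1, show (8 * (n : ℤ) - 1) = 12 * n - 1 - 4 * n by ring,
        show (16 * (n : ℤ) - 1 - (12 * n - 1 + 1)) = 4 * n - 1 by ring]
      exact this
  rw [if_neg (not_lt.2 c2), if_neg (show ¬ i + 1 < 12 * n by omega)]
  rcases lt_or_ge i (20 * n) with c3 | c3
  · rcases lt_or_ge (i + 1) (20 * n) with e1 | e1
    · rw [if_pos c3, if_pos e1, bp3 (by omega) c2 c3, bp3 (by omega) (by omega) e1, sub_self]
      have := nx_flat (A := Lr n) (t := (8 * n - 1, 16 * n - 1 - i)) (d := 2)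
        (by rw [mem_Lr]; omega)
        (by rw [z21, dir3, Prod.mk_add_mk, mem_Lr]; omega)
        (by rw [z21, dir3, dir2, Prod.mk_add_mk, Prod.mk_add_mk, mem_Lr]; omega)
      rw [z21, dir3, Prod.mk_add_mk, add_zero] at this
      rw [show 16 * (n : ℤ) - 1 - (i + 1) = 16 * n - 1 - i + -1 by ring]
      exact this
    · obtain rfl : i = 20 * n - 1 := by omega
      rw [if_pos c3, if_neg (by omega), if_pos (by omega), bp3 (by omega) c2 c3,
        bp4 (by omega) (by omega) (by omega)]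
      have := nx_convex (A := Lr n) (t := (8 * n - 1, 16 * n - 1 - (20 * n - 1))) (d := 2)
        (by rw [z21, dir3, Prod.mk_add_mk, mem_Lr]; omega)
      rw [z21] at this
      rw [l3, l2, show (28 * (n : ℤ) - 1 - (20 * n - 1 + 1)) = 8 * n - 1 by ring,
        show (-(4 * (n : ℤ))) = 16 * n - 1 - (20 * n - 1) by ring]
      exact this
  rw [if_neg (not_lt.2 c3), if_neg (show ¬ i + 1 < 20 * n by omega)]
  rcases lt_or_ge i (24 * n) with c4 | c4
  · rcases lt_or_ge (i + 1) (24 * n) with e1 | e1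
    · rw [if_pos c4, if_pos e1, bp4 (by omega) c3 c4, bp4 (by omega) (by omega) e1, sub_self]
      have := nx_flat (A := Lr n) (t := (28 * n - 1 - i, -(4 * n))) (d := 3)
        (by rw [mem_Lr]; omega)
        (by rw [z31, dir0, Prod.mk_add_mk, mem_Lr]; omega)
        (by rw [z31, dir3, dir0, Prod.mk_add_mk, Prod.mk_add_mk, mem_Lr]; omega)
      rw [z31, dir0, Prod.mk_add_mk, add_zero] at this
      rw [show 28 * (n : ℤ) - 1 - (i + 1) = 28 * n - 1 - i + -1 by ring]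
      exact this
    · obtain rfl : i = 24 * n - 1 := by omega
      rw [if_pos c4, if_neg (by omega), if_pos (by omega), bp4 (by omega) c3 c4,
        bp5 (by omega) (by omega) (by omega)]
      have := nx_convex (A := Lr n) (t := (28 * n - 1 - (24 * n - 1), -(4 * n))) (d := 3)
        (by rw [z31, dir0, Prod.mk_add_mk, mem_Lr]; omega)
      rw [z31] at this
      rw [l4, l3, show ((24 * (n : ℤ) - 1 + 1) - 28 * n) = -(4 * n) by ring,
        show ((4 * (n : ℤ)), (-(4 * (n : ℤ)))) = (28 * (n : ℤ) - 1 - (24 * (n : ℤ) - 1), -(4 * (n : ℤ))) by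
          rw [show (28 * (n : ℤ) - 1 - (24 * n - 1)) = 4 * n by ring]]
      exact this
  rw [if_neg (not_lt.2 c4), if_neg (show ¬ i + 1 < 24 * n by omega)]
  rcases lt_or_ge i (28 * n) with c5 | c5
  · rcases lt_or_ge (i + 1) (28 * n) with e1 | e1
    · rw [if_pos c5, if_pos e1, bp5 (by omega) c4 c5, bp5 (by omega) (by omega) e1, sub_self]
      have := nx_flat (A := Lr n) (t := (4 * n, i - 28 * n)) (d := 0)
        (by rw [mem_Lr]; omega)
        (by rw [z01, dir1, Prod.mk_add_mk, mem_Lr]; omega)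
        (by rw [z01, dir1, dir0, Prod.mk_add_mk, Prod.mk_add_mk, mem_Lr]; omega)
      rw [z01, dir1, Prod.mk_add_mk, add_zero] at this
      rw [show i + 1 - 28 * (n : ℤ) = i - 28 * n + 1 by ring]
      exact this
    · obtain rfl : i = 28 * n - 1 := by omega
      rw [if_pos c5, if_neg (by omega), bp5 (by omega) c4 c5, bp6 (by omega) (by omega)]
      have := nx_reflex (A := Lr n) (t := (4 * n, 28 * n - 1 - 28 * n)) (d := 0)
        (by rw [mem_Lr]; omega)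
        (by rw [z01, dir1, Prod.mk_add_mk, mem_Lr]; omega)
        (by rw [z01, dir1, dir0, Prod.mk_add_mk, Prod.mk_add_mk, mem_Lr]; omega)
        (by rw [dir0, Prod.mk_add_mk, mem_Lr]; omega)
      rw [z01, dir1, dir0, Prod.mk_add_mk, Prod.mk_add_mk, z03] at this
      rw [l5, l4, show (32 * (n : ℤ) - 1 - (28 * n - 1 + 1)) = 4 * n + 0 + -1 by ring,
        show ((4 * (n : ℤ) + 0 + -1), (0 : ℤ)) = (4 * (n : ℤ) + 0 + -1, 28 * (n : ℤ) - 1 - 28 * n + 1 + 0) by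
          rw [show 28 * (n : ℤ) - 1 - 28 * n + 1 + 0 = 0 by ring]]
      exact this
  · rw [if_neg (not_lt.2 c5), if_neg (show ¬ i + 1 < 28 * n by omega), bp6 (by omega) c5,
      bp6 (by omega) (by omega), sub_self]
    have := nx_flat (A := Lr n) (t := (32 * n - 1 - i, 0)) (d := 3)
      (by rw [mem_Lr]; omega)
      (by rw [z31, dir0, Prod.mk_add_mk, mem_Lr]; omega)
      (by rw [z31, dir3, dir0, Prod.mk_add_mk, Prod.mk_add_mk, mem_Lr]; omega)
    rw [z31, dir0, Prod.mk_add_mk, add_zero] at this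
    rw [show 32 * (n : ℤ) - 1 - (i + 1) = 32 * n - 1 - i + -1 by ring]
    exact this

/-- chain between two numbered ports -/
lemma bp_chain {n : ℕ} (hn : 1 ≤ n) {i : ℤ} (h0 : 0 ≤ i) :
    ∀ k : ℕ, i + 1 + k < 32 * n → ∃ m, CwC (full (Lr n)).gl (bp n i) (bp n (i + 1 + k))
      (lv (sid (bp n (i + 1 + k))) - lv (sid (bp n i))) m ∧
      ∀ z ∈ m, ∃ j, i < j ∧ j < i + 1 + k ∧ z = bp n j := by
  intro k
  induction k with
  | zero =>
    intro h
    simp only [Nat.cast_zero, add_zero] at h ⊢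
    exact ⟨[], .one (bp_step hn h0 h), by simp⟩
  | succ k ih =>
    intro h
    push_cast at h ⊢
    obtain ⟨m, h1, h2⟩ := ih (by omega)
    have h3 := bp_step hn (i := i + 1 + k) (by omega) (by omega)
    rw [show i + 1 + (k : ℤ) + 1 = i + 1 + (k + 1) by ring] at h3
    refine ⟨m ++ [bp n (i + 1 + k)], (h1.snoc h3).cast (by ring), ?_⟩
    intro z hz
    rcases List.mem_append.1 hz with hz | hz
    · obtain ⟨j, h4, h5, rfl⟩ := h2 z hz
      exact ⟨j, h4, by omega, rfl⟩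
    · rw [List.mem_singleton] at hz
      exact ⟨i + 1 + k, by omega, by omega, hz⟩

/-- **(T3)** -/
theorem lr_chain {n : ℕ} (hn : 1 ≤ n) {x y : (ℤ × ℤ) × ZMod 4} (hx : RFree (full (Lr n)) x)
    (hy : RFree (full (Lr n)) y) (hxy : x ≠ y) :
    (sid x ≤ sid y ∧ ∃ m, CwC (full (Lr n)).gl x y (lv (sid y) - lv (sid x)) m ∧ x ∉ m) ∨
    (sid y ≤ sid x ∧ ∃ m, CwC (full (Lr n)).gl y x (lv (sid x) - lv (sid y)) m ∧ y ∉ m) := by
  have hn' : (1 : ℤ) ≤ n := by exact_mod_cast hn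
  have key : ∀ {x y : (ℤ × ℤ) × ZMod 4}, RFree (full (Lr n)) x → RFree (full (Lr n)) y →
      ix n x < ix n y →
      sid x ≤ sid y ∧ ∃ m, CwC (full (Lr n)).gl x y (lv (sid y) - lv (sid x)) m ∧ x ∉ m := by
    intro x y hx hy hlt
    obtain ⟨e1, e2, e3⟩ := bp_ix hn hx
    obtain ⟨f1, f2, f3⟩ := bp_ix hn hy
    have h1 := sid_mono hn' e2 hlt.le f3
    rw [e1, f1] at h1
    refine ⟨h1, ?_⟩
    obtain ⟨k, hk⟩ := Int.le.dest (show ix n x + 1 ≤ ix n y by omega)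
    obtain ⟨m, h2, h3⟩ := bp_chain hn e2 k (by omega)
    rw [hk, e1, f1] at h2
    refine ⟨m, h2, fun h4 => ?_⟩
    obtain ⟨j, h5, h6, h7⟩ := h3 x h4
    have h8 := ix_bp hn' (i := j) (by omega) (by omega)
    rw [← h7] at h8
    omega
  rcases lt_trichotomy (ix n x) (ix n y) with h | h | h
  · exact Or.inl (key hx hy h)
  · exfalso
    apply hxy
    rw [← (bp_ix hn hx).1, ← (bp_ix hn hy).1, h]
  · exact Or.inr (key hy hx h)

end Crest.Agent.R158.Da570
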