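import Crest.Agent.R158.Dn9_211

/-!
# Row 158, corner lemma (helper211), part 10: `corner_prod`

* `corner_prod` : `E[(2/√3)^{K_cv}] E[(1/√3)^{K_rf}] ≤ C n^ε`
-/

set_option autoImplicit false
set_option linter.unusedSimpArgs false

noncomputable section

open Finset

namespace Crest.Agent.R158.Dn211

open MeasureTheory ProbabilityTheory
open Crest.Agent.R158.Rs689 Crest.Agent.R158.Nm211 Crest.Agent.R158.Nz399

theorem final_arith {A P M X Y I J : ℝ} (hA : 0 < A) (hX : 0 < X) (hM : 0 ≤ M) (_hP : 0 ≤ P)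
    (h1 : A⁻¹ * (X * Y) ≤ I * M) (h2 : I ≤ J) (h3 : J ≤ A * X * P) : Y ≤ A ^ 2 * (P * M) := by
  have h4 : A⁻¹ * (X * Y) ≤ A * X * P * M :=
    h1.trans (mul_le_mul_of_nonneg_right (h2.trans h3) hM)
  have h5 : X * Y ≤ A * (A * X * P * M) := by
    have := mul_le_mul_of_nonneg_left h4 hA.le
    rwa [← mul_assoc, mul_inv_cancel₀ hA.ne', one_mul] at this
  have h6 : X * Y ≤ X * (A ^ 2 * (P * M)) := by
    refine h5.trans (le_of_eq ?_)
    ring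
  exact le_of_mul_le_mul_left h6 hX

/-- mean of a corner factor -/
def xx (τ : ℤ) (n : ℕ) (p : Fin 6) : ℝ := ∫ s, BB τ p ^ Kq n p s ∂(PB fun _ : ℤ × ℤ => hf)

theorem kq_depF (τ : ℤ) (n : ℕ) (p : Fin 6) : DepF (Tp n p) fun s => BB τ p ^ Kq n p s :=
  fun s s' hs => by
    show BB τ p ^ Kq n p s = BB τ p ^ Kq n p s'
    rw [kq_dep n p hs]

theorem xx_pos (n : ℕ) (p : Fin 6) : 0 < xx 1 n p :=
  int_pos (kq_depF 1 n p) fun _ => pow_pos (BB_pos (Or.inl rfl) p) _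

theorem xx_outer {n : ℕ} {p : Fin 6} (h3 : p ≠ 3) (h4 : p ≠ 4) : xx (-1) n p = xx 1 n p := by
  unfold xx
  rw [BB_outer h3 h4]

theorem xx_13 (n : ℕ) : xx 1 n 3 = 1 := by
  unfold xx
  rw [BB_13]
  simp

theorem xx_14 (n : ℕ) : xx 1 n 4 = 1 := by
  unfold xx
  rw [BB_14]
  simp

theorem xx_m3 {n : ℕ} (hn : 1 ≤ n) : xx (-1) n 3 = EK (2 / Real.sqrt 3) .cv n := by
  unfold xx
  rw [BB_m3, ek3 hn]

theorem xx_m4 {n : ℕ} (hn : 1 ≤ n) : xx (-1) n 4 = EK (1 / Real.sqrt 3) .rf n := by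
  unfold xx
  rw [BB_m4, ek4 hn]

/-- the four outer corners -/
def XX (n : ℕ) : ℝ := xx 1 n 0 * xx 1 n 1 * xx 1 n 2 * xx 1 n 5

theorem XX_pos (n : ℕ) : 0 < XX n := by
  have := xx_pos n 0
  have := xx_pos n 1
  have := xx_pos n 2
  have := xx_pos n 5
  unfold XX
  positivity

theorem prod_one (n : ℕ) : ∏ p, xx 1 n p = XX n := by
  rw [Fin.prod_univ_six, xx_13, xx_14]
  unfold XX
  ring

theorem prod_neg {n : ℕ} (hn : 1 ≤ n) : ∏ p, xx (-1) n p =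
    XX n * (EK (2 / Real.sqrt 3) .cv n * EK (1 / Real.sqrt 3) .rf n) := by
  have h0 : xx (-1) n 0 = xx 1 n 0 := xx_outer (by decide) (by decide)
  have h1 : xx (-1) n 1 = xx 1 n 1 := xx_outer (by decide) (by decide)
  have h2 : xx (-1) n 2 = xx 1 n 2 := xx_outer (by decide) (by decide)
  have h5 : xx (-1) n 5 = xx 1 n 5 := xx_outer (by decide) (by decide)
  rw [Fin.prod_univ_six, h0, h1, h2, h5, xx_m3 hn, xx_m4 hn]
  unfold XX
  ring

theorem upper_bd {K δ : ℝ} {n : ℕ} (hn : 1 ≤ n)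
    (htame : ∀ τ : ℤ, (τ = 1 ∨ τ = -1) → ∀ p : Fin 6,
      Tame (PB fun _ : ℤ × ℤ => hf) (2 * (n : ℝ)) K fun s => BB τ p ^ Kq n p s)
    (hδ0 : 0 < δ) (hδ1 : δ ≤ 1 / 2) :
    ∫ s, PP 1 n s ∂(PB fun _ : ℤ × ℤ => hf) ≤ (2 * (n : ℝ)) ^ (6 * (K * δ)) * XX n *
      (∫ s, ((2 / Real.sqrt 3) ^ MM n s) ^ ((1 + δ) / δ) ∂(PB fun _ : ℤ × ℤ => hf)) ^
        (δ / (1 + δ)) := by
  have h3 := sqrt3_pos
  have hn' : (1 : ℝ) ≤ n := by exact_mod_cast hn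
  have U := loc_upper (w := fun _ : ℤ × ℤ => hf) (N := 2 * (n : ℝ)) (C := K) (by linarith)
    (Finset.univ : Finset (Fin 6)) (fun p => Tp n p)
    (fun p _ q _ hpq => tp_disj hn hpq) (fun p s => BB 1 p ^ Kq n p s) (fun p _ => kq_depF 1 n p)
    (fun p _ => htame 1 (Or.inl rfl) p) (G := fun s => (2 / Real.sqrt 3) ^ MM n s)
    (depF_bm (mm_dep n _) fun s => by positivity) hδ0 hδ1
  have hcard : ((Finset.univ : Finset (Fin 6)).card : ℝ) = 6 := by simp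
  rw [hcard] at U
  rw [← prod_one]
  refine le_trans ?_ U
  have hb : ∀ s, PP 1 n s ≤ (∏ p, BB 1 p ^ Kq n p s) * (2 / Real.sqrt 3) ^ MM n s := by
    intro s
    have := (PP_bounds (τ := 1) (Or.inl rfl) hn s).2
    rw [Int.cast_one] at this
    linarith [mul_comm (∏ p, BB 1 p ^ Kq n p s) ((2 / Real.sqrt 3) ^ MM n s)]
  have hint : Integrable (fun s => (∏ p, BB 1 p ^ Kq n p s) * (2 / Real.sqrt 3) ^ MM n s)
      (PB fun _ : ℤ × ℤ => hf) :=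
    ((BM.prod _ fun p _ => (htame 1 (Or.inl rfl) p).bm).mul
      (depF_bm (mm_dep n _) fun s => by positivity)).integrable
  exact integral_mono ((PP_depF hn 1).integrable _) hint hb

theorem lower_bd {K δ : ℝ} {n : ℕ} (hn : 1 ≤ n)
    (htame : ∀ τ : ℤ, (τ = 1 ∨ τ = -1) → ∀ p : Fin 6,
      Tame (PB fun _ : ℤ × ℤ => hf) (2 * (n : ℝ)) K fun s => BB τ p ^ Kq n p s)
    (hδ0 : 0 < δ) (hδ1 : δ ≤ 1 / 2) :
    (2 * (n : ℝ)) ^ (-(6 * (K * δ))) *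
      (XX n * (EK (2 / Real.sqrt 3) .cv n * EK (1 / Real.sqrt 3) .rf n)) ≤
      (∫ s, PP (-1) n s ∂(PB fun _ : ℤ × ℤ => hf)) *
      (∫ s, ((1 / Real.sqrt 3) ^ MM n s) ^ (-((1 - δ) / δ)) ∂(PB fun _ : ℤ × ℤ => hf)) ^
        (δ / (1 - δ)) := by
  have h3 := sqrt3_pos
  obtain ⟨hs1, hs2⟩ := sqrt3_le
  have hn' : (1 : ℝ) ≤ n := by exact_mod_cast hn
  have L := loc_lower (w := fun _ : ℤ × ℤ => hf) (N := 2 * (n : ℝ)) (C := K) (by linarith)
    (Finset.univ : Finset (Fin 6)) (fun p => Tp n p)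
    (fun p _ q _ hpq => tp_disj hn hpq) (fun p s => BB (-1) p ^ Kq n p s)
    (fun p _ => kq_depF (-1) n p)
    (fun p _ => htame (-1) (Or.inr rfl) p) (G := fun s => (1 / Real.sqrt 3) ^ MM n s)
    (depF_bm (mm_dep n _) fun s => by positivity)
    (c := (1 / Real.sqrt 3) ^ (XA n).card) (by positivity)
    (fun s => pow_le_pow_of_le_one (by positivity) hs1 (mm_le n s)) hδ0 hδ1
  have hcard : ((Finset.univ : Finset (Fin 6)).card : ℝ) = 6 := by simp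
  rw [hcard] at L
  rw [← prod_neg hn]
  refine le_trans L (mul_le_mul_of_nonneg_right ?_ (Real.rpow_nonneg
    (integral_nonneg fun s => Real.rpow_nonneg (by positivity) _) _))
  have hb : ∀ s, (∏ p, BB (-1) p ^ Kq n p s) * (1 / Real.sqrt 3) ^ MM n s ≤ PP (-1) n s := by
    intro s
    have := (PP_bounds (τ := -1) (Or.inr rfl) hn s).1
    rw [Int.cast_neg, Int.cast_one] at this
    linarith [mul_comm (∏ p, BB (-1) p ^ Kq n p s) ((1 / Real.sqrt 3) ^ MM n s)]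
  have hint : Integrable (fun s => (∏ p, BB (-1) p ^ Kq n p s) * (1 / Real.sqrt 3) ^ MM n s)
      (PB fun _ : ℤ × ℤ => hf) :=
    ((BM.prod _ fun p _ => (htame (-1) (Or.inr rfl) p).bm).mul
      (depF_bm (mm_dep n _) fun s => by positivity)).integrable
  exact integral_mono hint ((PP_depF hn (-1)).integrable _) hb

/-- **the corner lemma** -/
theorem corner_prod {ε : ℝ} (hε : 0 < ε) : ∃ C : ℝ, 1 ≤ C ∧ ∀ n : ℕ, 1 ≤ n →
    EK (2 / Real.sqrt 3) .cv n * EK (1 / Real.sqrt 3) .rf n ≤ C * (n : ℝ) ^ ε := by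
  obtain ⟨K, hK, htame⟩ := kq_tame
  have h3 := sqrt3_pos
  obtain ⟨hs1, hs2⟩ := sqrt3_le
  obtain ⟨δ, hδ0, hδ1, hδε⟩ : ∃ δ : ℝ, 0 < δ ∧ δ ≤ 1 / 2 ∧ 12 * (K * δ) ≤ ε := by
    refine ⟨min (1 / 2) (ε / (12 * K + 1)), lt_min (by norm_num) (by positivity),
      min_le_left _ _, ?_⟩
    have h1 : min (1 / 2) (ε / (12 * K + 1)) ≤ ε / (12 * K + 1) := min_le_right _ _
    have h2 : 12 * (K * min (1 / 2) (ε / (12 * K + 1))) ≤ 12 * (K * (ε / (12 * K + 1))) := by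
      have := mul_le_mul_of_nonneg_left h1 hK
      linarith
    refine h2.trans ?_
    rw [show 12 * (K * (ε / (12 * K + 1))) = 12 * K * ε / (12 * K + 1) by ring,
      div_le_iff₀ (by positivity)]
    nlinarith
  have hδ2 : 0 < 1 - δ := by linarith
  have hδ3 : 0 < 1 + δ := by linarith
  have haP : 1 ≤ (2 / Real.sqrt 3) ^ ((1 + δ) / δ) := Real.one_le_rpow hs2 (by positivity)
  have haM : 1 ≤ (1 / Real.sqrt 3) ^ (-((1 - δ) / δ)) :=
    Real.one_le_rpow_of_pos_of_le_one_of_nonpos (by positivity) hs1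
      (neg_nonpos.2 (by positivity))
  obtain ⟨CP, hCP, hP⟩ := mm_moment _ haP
  obtain ⟨CM, hCM, hM⟩ := mm_moment _ haM
  refine ⟨2 ^ ε * (CP ^ (δ / (1 + δ)) * CM ^ (δ / (1 - δ))), ?_, fun n hn => ?_⟩
  · have e1 : (1 : ℝ) ≤ 2 ^ ε := Real.one_le_rpow (by norm_num) hε.le
    have e2 : (1 : ℝ) ≤ CP ^ (δ / (1 + δ)) := Real.one_le_rpow hCP (by positivity)
    have e3 : (1 : ℝ) ≤ CM ^ (δ / (1 - δ)) := Real.one_le_rpow hCM (by positivity)
    exact one_le_mul_of_one_le_of_one_le e1 (one_le_mul_of_one_le_of_one_le e2 e3)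
  have hn' : (1 : ℝ) ≤ n := by exact_mod_cast hn
  have hN : (1 : ℝ) ≤ 2 * n := by linarith
  have hN0 : (0 : ℝ) < 2 * n := by linarith
  have hGP : ∫ s, ((2 / Real.sqrt 3) ^ MM n s) ^ ((1 + δ) / δ) ∂(PB fun _ : ℤ × ℤ => hf) ≤ CP := by
    have : ∀ s : ℤ × ℤ → Bool, ((2 / Real.sqrt 3) ^ MM n s) ^ ((1 + δ) / δ) =
        ((2 / Real.sqrt 3) ^ ((1 + δ) / δ)) ^ MM n s := fun s =>
      pow_rpow_comm (by positivity) _ _
    rw [integral_congr_ae (ae_of_all _ this)]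
    exact hP n hn
  have hGM : ∫ s, ((1 / Real.sqrt 3) ^ MM n s) ^ (-((1 - δ) / δ)) ∂(PB fun _ : ℤ × ℤ => hf) ≤
      CM := by
    have : ∀ s : ℤ × ℤ → Bool, ((1 / Real.sqrt 3) ^ MM n s) ^ (-((1 - δ) / δ)) =
        ((1 / Real.sqrt 3) ^ (-((1 - δ) / δ))) ^ MM n s := fun s =>
      pow_rpow_comm (by positivity) _ _
    rw [integral_congr_ae (ae_of_all _ this)]
    exact hM n hn
  have hGP0 : 0 ≤ ∫ s, ((2 / Real.sqrt 3) ^ MM n s) ^ ((1 + δ) / δ)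
      ∂(PB fun _ : ℤ × ℤ => hf) := integral_nonneg fun s => Real.rpow_nonneg (by positivity) _
  have hGM0 : 0 ≤ ∫ s, ((1 / Real.sqrt 3) ^ MM n s) ^ (-((1 - δ) / δ))
      ∂(PB fun _ : ℤ × ℤ => hf) := integral_nonneg fun s => Real.rpow_nonneg (by positivity) _
  have U := upper_bd hn (htame n hn) hδ0 hδ1
  have L := lower_bd hn (htame n hn) hδ0 hδ1
  rw [← PP_int hn] at L
  have hP1 := Real.rpow_le_rpow hGP0 hGP (show 0 ≤ δ / (1 + δ) by positivity)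
  have hM1 := Real.rpow_le_rpow hGM0 hGM (show 0 ≤ δ / (1 - δ) by positivity)
  have hP0 := Real.rpow_nonneg hGP0 (δ / (1 + δ))
  have hM0 := Real.rpow_nonneg hGM0 (δ / (1 - δ))
  rw [Real.rpow_neg hN0.le] at L
  have hA : 0 < (2 * (n : ℝ)) ^ (6 * (K * δ)) := Real.rpow_pos_of_pos hN0 _
  have key := final_arith hA (XX_pos n) hM0 hP0 L le_rfl U
  refine key.trans ?_
  have hA2 : ((2 * (n : ℝ)) ^ (6 * (K * δ))) ^ 2 ≤ 2 ^ ε * (n : ℝ) ^ ε := by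
    rw [← Real.rpow_natCast, ← Real.rpow_mul hN0.le, ← Real.mul_rpow (by norm_num) (by linarith)]
    refine Real.rpow_le_rpow_of_exponent_le hN ?_
    push_cast
    linarith
  have hPM := mul_le_mul hP1 hM1 hM0 (Real.rpow_nonneg (by linarith) _)
  calc _ ≤ (2 ^ ε * (n : ℝ) ^ ε) * (CP ^ (δ / (1 + δ)) * CM ^ (δ / (1 - δ))) :=
        mul_le_mul hA2 hPM (mul_nonneg hP0 hM0) (by positivity)
    _ = _ := by ring

end Crest.Agent.R158.Dn211
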