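import Crest.Agent.R158.Dn10_211

/-!
# Row 158 (helper211): moments and tameness of the standard counts `Kn`

* `kn_moment` : `∫ a ^ Kn k n ≤ C n ^ q`
* `kn_tame` : `b ^ Kn k n` is tame in base `2 n`
-/

set_option autoImplicit false
set_option linter.unusedSimpArgs false

noncomputable section

open Finset

namespace Crest.Agent.R158.Dn211

open MeasureTheory ProbabilityTheory
open Crest.Agent.R158.Rs689 Crest.Agent.R158.Nm211 Crest.Agent.R158.Nz399

/-- **polynomial moments of the standard counts** -/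
theorem kn_moment (a : ℝ) (ha : 1 ≤ a) : ∃ C : ℝ, 1 ≤ C ∧ ∃ q : ℕ, ∀ n : ℕ, 1 ≤ n → ∀ k : Kind,
    ∫ s, a ^ Kn k n s ∂(PB fun _ : ℤ × ℤ => hf) ≤ C * (n : ℝ) ^ q := by
  obtain ⟨C1, hC1, q1, h1⟩ := kq_moment a ha
  obtain ⟨C2, hC2, q2, h2⟩ := corner_moment' a ha
  refine ⟨C1 + C2, by linarith, q1 + q2, fun n hn k => ?_⟩
  have hn' : (1 : ℝ) ≤ n := by exact_mod_cast hn
  have b1 : C1 * (n : ℝ) ^ q1 ≤ (C1 + C2) * (n : ℝ) ^ (q1 + q2) := by
    refine mul_le_mul (by linarith) (pow_le_pow_right₀ hn' (by omega)) (by positivity) (by linarith)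
  have b2 : C2 * (n : ℝ) ^ q2 ≤ (C1 + C2) * (n : ℝ) ^ (q1 + q2) := by
    refine mul_le_mul (by linarith) (pow_le_pow_right₀ hn' (by omega)) (by positivity) (by linarith)
  cases k with
  | cv =>
    refine le_trans (le_of_eq ?_) ((h1 n hn 3).trans b1)
    rw [ek3 hn]
    rfl
  | rf =>
    refine le_trans (le_of_eq ?_) ((h1 n hn 4).trans b1)
    rw [ek4 hn]
    rfl
  | mk =>
    refine le_trans ?_ b2
    refine h2 n hn (0, 0) (Dk .mk n) (Yk .mk) (Xk .mk n) (Nz399.Tk .mk n) (fun c hc => hc)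
      (fun c hc s h => ?_) (fun c hc => ?_) (fun c hc c' hc' => ?_)
    · obtain ⟨d, hd⟩ := nx_form s c
      rw [hd] at h
      have h' : (mv c.1 d, d) ∈ (Finset.Ico (0 : ℤ) n).image fun x => ((x, (0 : ℤ)), (0 : Dir)) := h
      obtain ⟨x, hx, hx2⟩ := Finset.mem_image.1 h'
      have e1 : d = 0 := (congrArg Prod.snd hx2).symm
      subst e1
      have e2 : c.1.2 + 1 = 0 := by
        have := congrArg (fun t : Nm211.St ℤ => t.1.2) hx2
        simp only at this
        exact this.symm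
      have h3 : c.1 ∈ Nz399.Tk .mk n := hc
      rw [mem_Tk] at h3
      have h4 : 0 ≤ c.1.2 := h3.2
      omega
    · have h' : c ∈ (Finset.Ico (0 : ℤ) n).image fun x => ((x, (0 : ℤ)), (0 : Dir)) := hc
      obtain ⟨x, hx, rfl⟩ := Finset.mem_image.1 h'
      rw [Finset.mem_Ico] at hx
      simp only [rho]
      omega
    · have h' : c ∈ (Finset.Ico (0 : ℤ) n).image fun x => ((x, (0 : ℤ)), (0 : Dir)) := hc
      obtain ⟨x, hx, rfl⟩ := Finset.mem_image.1 h'
      rw [Finset.mem_Ico] at hx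
      have h3 : c'.1.1 < 0 ∧ c'.1.2 < 0 := hc'
      unfold Far
      left
      simp only [rho, le_abs]
      push_cast
      omega

/-- **the standard factors are tame** -/
theorem kn_tame {b : ℝ} (hb : 0 < b) : ∃ C : ℝ, 0 ≤ C ∧ ∀ n : ℕ, 1 ≤ n → ∀ k : Kind,
    Tame (PB fun _ : ℤ × ℤ => hf) (2 * (n : ℝ)) C fun s => b ^ Kn k n s := by
  obtain ⟨C, hC, q, h⟩ := kn_moment (max (max 1 (b ^ 2)) (max 1 b⁻¹))
    (le_trans (le_max_left _ _) (le_max_left _ _))
  obtain ⟨r, hr⟩ := two_pow_bound (C := C) q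
  refine ⟨6 * r, by positivity, fun n hn k => ?_⟩
  have hn' : (1 : ℝ) ≤ n := by exact_mod_cast hn
  have hdep : ∀ x : ℝ, DepF (Nz399.Tk k n) fun s => x ^ Kn k n s := fun x s s' hs => by
    show x ^ Kn k n s = x ^ Kn k n s'
    rw [Kn_dep hs]
  have hle : ∀ x : ℝ, 0 ≤ x → x ≤ max (max 1 (b ^ 2)) (max 1 b⁻¹) →
      ∫ s, x ^ Kn k n s ∂(PB fun _ : ℤ × ℤ => hf) ≤ (2 * (n : ℝ)) ^ (r : ℝ) := by
    intro x hx0 hx
    refine le_trans (integral_mono ((hdep x).integrable _) ((hdep _).integrable _) fun s =>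
      pow_le_pow_left₀ hx0 hx _) ((h n hn k).trans (hr n hn))
  exact tame_pow (T := Nz399.Tk k n) (fun s s' hs => Kn_dep hs) hb (by linarith)
    (by positivity) (hle _ (by positivity) (le_max_left _ _))
    (hle _ (by positivity) (le_max_right _ _))

end Crest.Agent.R158.Dn211
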