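import Crest.Agent.R158.Dn11_211
import Crest.Agent.R158.Nz7_399

/-!
# Row 158 (helper211): the corner product in the form `Nz399.CP`
-/

set_option autoImplicit false

namespace Crest.Agent.R158.Dn211

open Crest.Agent.R158.Nz399

/-- **the corner product (DENT)** -/
theorem cp_holds : CP := fun _ε hε => by
  obtain ⟨C, -, h⟩ := corner_prod hε
  exact ⟨C, h⟩

end Crest.Agent.R158.Dn211
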