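import Crest.Agent.R158.Ad2_350
import Crest.Agent.R158.Ad3_350

/-!
# Row 158, corner lemma DENT (helper211), part 1: closed networks of a tile region, arrow reversal

* `net A s be ch` : the tiles `A` with splitting `s`, glueing involution `be`, phases `ch` of the
  outgoing arrows
* `zsum` : `∑_s (net A s be ch).z = 2^|A| ∑_B e^{i ∑ ch} ∏ w6`
* `zsum_neg` : arrow reversal `ch → -ch`
* `Ends`, `two_ends`, `z_sq` : `(z V)² = ∏ over the cut ends` when every loop has value `1`
-/

set_option autoImplicit false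
set_option linter.unusedSimpArgs false
set_option linter.unusedSectionVars false

noncomputable section

open Finset

namespace Crest.Agent.R158.Dn211

open Crest.Agent.R158.Sw300 (Port thru thru_thru thru_ne tn)
open Crest.Agent.R158.Ad350

variable {T : Type*} [DecidableEq T]

/-- partner of a port inside its tile -/
def alp (s : T → Bool) : Port T → Port T := Option.map fun y => (y.1, thru (s y.1) y.2)

/-- closed network -/
def net (A : Finset T) (s : T → Bool) (be : Port T → Port T) (ch : Port T → ℝ) :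
    Net (Port T) where
  V := ports A
  al := alp s
  be := be
  om := fun x => ch x - x.elim 0 fun y => Real.pi / 24 * tq (s y.1) y.2

/-- glueing involution of the ports of `A` -/
structure BeOk (A : Finset T) (be : Port T → Port T) : Prop where
  mem : ∀ p ∈ ports A, be p ∈ ports A
  inv : ∀ p ∈ ports A, be (be p) = p

theorem net_ok {A : Finset T} (s : T → Bool) {be : Port T → Port T} (ch : Port T → ℝ)
    (h : BeOk A be) : (net A s be ch).Ok := by
  refine ⟨?_, ?_, ?_, h.mem, h.inv⟩ <;> intro x hx <;> obtain ⟨t, d, rfl, ht⟩ := mem_ports' hx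
  · simpa [net, alp] using ht
  · simp [net, alp, thru_thru]
  · simp [net, alp, thru_ne]

/-- orientation of the ports: outgoing in `B` -/
def ori (B : Finset (Port T)) (p : Port T) : Bool := decide (p ∈ B)

/-- consistent at the glueings -/
def BG (A : Finset T) (be : Port T → Port T) (B : Finset (Port T)) : Prop :=
  ∀ p ∈ ports A, be p ≠ p → (be p ∈ B ↔ p ∉ B)

instance (A : Finset T) (be : Port T → Port T) (B : Finset (Port T)) : Decidable (BG A be B) := by
  unfold BG; infer_instance

/-- phase of an orientation -/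
def cph (A : Finset T) (ch : Port T → ℝ) (B : Finset (Port T)) : ℝ :=
  ∑ p ∈ ports A, ch p * sg (ori B p)

lemma dec_not {a b : Prop} [Decidable a] [Decidable b] : (decide a = !decide b) ↔ (a ↔ ¬ b) := by
  by_cases ha : a <;> by_cases hb : b <;> simp [ha, hb]

lemma ts_good (A : Finset T) (s : T → Bool) (B : Finset (Port T)) :
    (ts A s).good (ori B) ↔ ∀ p ∈ ports A, (alp s p ∈ B ↔ p ∉ B) := by
  unfold St.good ori
  exact forall₂_congr fun p _ => dec_not

lemma net_good (A : Finset T) (s : T → Bool) (be : Port T → Port T) (ch : Port T → ℝ)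
    (B : Finset (Port T)) :
    (net A s be ch).good (ports A) B ↔ (ts A s).good (ori B) ∧ BG A be B := by
  rw [ts_good]
  unfold Net.good BG
  constructor
  · intro h
    exact ⟨fun p hp => (h p hp).1, fun p hp => (h p hp).2⟩
  · rintro ⟨h1, h2⟩ p hp
    exact ⟨h1 p hp, h2 p hp⟩

lemma net_ph (A : Finset T) (s : T → Bool) (be : Port T → Port T) (ch : Port T → ℝ)
    (B : Finset (Port T)) (h : (ts A s).good (ori B)) :
    (net A s be ch).ph (ports A) B = cph A ch B + (ts A s).ph (ori B) / 2 := by
  unfold Net.ph cph St.ph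
  rw [Finset.sum_div, show (ts A s).L = ports A from rfl, ← Finset.sum_add_distrib]
  refine Finset.sum_congr rfl fun p hp => ?_
  have h1 := h p hp
  rw [h1, sg_not]
  obtain ⟨t, d, rfl, ht⟩ := mem_ports' hp
  simp only [net, ts, ori, Option.elim_some]
  ring

/-- the vector of the splitting seen by the network -/
theorem net_z (A : Finset T) (s : T → Bool) (be : Port T → Port T) (ch : Port T → ℝ) :
    (net A s be ch).z (ports A) = ∑ B ∈ (ports A).powerset with BG A be B,
      ei (cph A ch B) * (ts A s).vec (ori B) := by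
  unfold Net.z
  rw [Finset.sum_filter, Finset.sum_filter]
  refine Finset.sum_congr rfl fun B _ => ?_
  by_cases h1 : BG A be B
  · by_cases h2 : (ts A s).good (ori B)
    · rw [if_pos ((net_good A s be ch B).2 ⟨h2, h1⟩), if_pos h1, net_ph A s be ch B h2, ei_add,
        St.vec, if_pos h2]
    · rw [if_neg (fun h => h2 ((net_good A s be ch B).1 h).1), if_pos h1, St.vec, if_neg h2,
        mul_zero]
  · rw [if_neg (fun h => h1 ((net_good A s be ch B).1 h).2), if_neg h1]

/-- **six-vertex form** -/
theorem zsum (A : Finset T) (be : Port T → Port T) (ch : Port T → ℝ) :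
    ∑ S ∈ A.powerset, (net A (fun t => decide (t ∈ S)) be ch).z (ports A) =
      2 ^ A.card * ∑ B ∈ (ports A).powerset with BG A be B,
        ei (cph A ch B) * tilesF A (ori B) := by
  simp only [net_z]
  rw [Finset.sum_comm, Finset.mul_sum]
  refine Finset.sum_congr rfl fun B _ => ?_
  rw [← Finset.mul_sum, tiles_expand]
  have : (2 : ℂ) ^ A.card * (1 / 2) ^ A.card = 1 := by
    rw [← mul_pow]; norm_num
  calc ei (cph A ch B) * ∑ S ∈ A.powerset, (ts A fun t => decide (t ∈ S)).vec (ori B)
      = (2 ^ A.card * (1 / 2) ^ A.card) * (ei (cph A ch B) *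
        ∑ S ∈ A.powerset, (ts A fun t => decide (t ∈ S)).vec (ori B)) := by rw [this, one_mul]
    _ = _ := by ring

/-- **arrow reversal** -/
theorem zsum_neg {A : Finset T} {be : Port T → Port T} (h : BeOk A be) (ch : Port T → ℝ) :
    ∑ S ∈ A.powerset, (net A (fun t => decide (t ∈ S)) be ch).z (ports A) =
      ∑ S ∈ A.powerset, (net A (fun t => decide (t ∈ S)) be (fun p => - ch p)).z (ports A) := by
  rw [zsum, zsum]
  congr 1
  refine Finset.sum_bij' (fun B _ => ports A \ B) (fun B _ => ports A \ B) ?_ ?_ ?_ ?_ ?_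
  · intro B hB
    simp only [Finset.mem_filter, Finset.mem_powerset] at hB ⊢
    refine ⟨Finset.sdiff_subset, fun p hp hne => ?_⟩
    have h1 := hB.2 p hp hne
    have h2 := h.mem p hp
    simp only [Finset.mem_sdiff, hp, h2, true_and, h1]
  · intro B hB
    simp only [Finset.mem_filter, Finset.mem_powerset] at hB ⊢
    refine ⟨Finset.sdiff_subset, fun p hp hne => ?_⟩
    have h1 := hB.2 p hp hne
    have h2 := h.mem p hp
    simp only [Finset.mem_sdiff, hp, h2, true_and, h1]
  · intro B hB
    simp only [Finset.mem_filter, Finset.mem_powerset] at hB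
    exact Finset.sdiff_sdiff_eq_self hB.1
  · intro B hB
    simp only [Finset.mem_filter, Finset.mem_powerset] at hB
    exact Finset.sdiff_sdiff_eq_self hB.1
  · intro B hB
    simp only [Finset.mem_filter, Finset.mem_powerset] at hB
    have ho : ∀ p ∈ ports A, ori (ports A \ B) p = !ori B p := by
      intro p hp
      unfold ori
      by_cases hpB : p ∈ B <;> simp [hp, hpB]
    congr 1
    · congr 1
      unfold cph
      refine Finset.sum_congr rfl fun p hp => ?_
      rw [ho p hp, sg_not]
      ring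
    · unfold tilesF
      refine Finset.prod_congr rfl fun t ht => ?_
      rw [← w6_flip]
      congr 1
      funext d
      rw [ho _ (mem_ports.2 ht)]

/-! ### product over the cut ends -/

section Ends

variable {P : Type*} [DecidableEq P] {N : Net P}

/-- cut ends -/
def Ends (N : Net P) : Finset P := N.V.filter fun p => N.be p = p

lemma mem_Ends {p : P} : p ∈ Ends N ↔ p ∈ N.V ∧ N.be p = p := by
  simp [Ends]

/-- the cut ends of a strand between two cut ends -/
theorem arc_ends (h : N.Ok) {x : P} (hx : x ∈ N.V) {n : ℕ}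
    (hn : ∀ i < n, N.be (N.al (N.g^[i] x)) ≠ N.al (N.g^[i] x)) (h1 : N.be x = x)
    (h2 : N.be (N.al (N.g^[n] x)) = N.al (N.g^[n] x)) :
    x ≠ N.al (N.g^[n] x) ∧ ((Ends N).filter fun p => N.cls p = N.cls x) = {x, N.al (N.g^[n] x)} := by
  have hs : N.Strand x n := ⟨hn, Or.inl ⟨h1, h2⟩⟩
  have hcls := hs.cls h hx
  have hyV : N.al (N.g^[n] x) ∈ N.V := h.alV _ (Net.it_mem h hx n)
  have hycls : N.al (N.g^[n] x) ∈ N.cls x := by
    rw [hcls]
    exact Finset.mem_union_right _ (Net.mem_Ow.2 ⟨n, le_rfl, rfl⟩)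
  refine ⟨(Net.it_ne h hx hn n 0 le_rfl (Nat.zero_le _)).symm, ?_⟩
  ext p
  simp only [Finset.mem_filter, mem_Ends, Finset.mem_insert, Finset.mem_singleton]
  constructor
  · rintro ⟨⟨hp, hb⟩, hc⟩
    have hp' : p ∈ N.cls x := by rw [← hc]; exact Net.self_mem_cls hp
    rw [hcls, Finset.mem_union] at hp'
    rcases hp' with hp' | hp'
    · obtain ⟨i, hi, rfl⟩ := Net.mem_Iw.1 hp'
      cases i with
      | zero => left; rfl
      | succ i =>
        exfalso
        rw [Function.iterate_succ_apply'] at hb
        have h3 : N.be (N.g (N.g^[i] x)) = N.al (N.g^[i] x) :=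
          h.be2 _ (h.alV _ (Net.it_mem h hx i))
        rw [h3] at hb
        exact hn i (by omega) hb.symm
    · obtain ⟨i, hi, rfl⟩ := Net.mem_Ow.1 hp'
      rcases Nat.lt_or_ge i n with h3 | h3
      · exact absurd hb (hn i h3)
      · obtain rfl : i = n := by omega
        right; rfl
  · rintro (rfl | rfl)
    · exact ⟨⟨hx, h1⟩, rfl⟩
    · exact ⟨⟨hyV, h2⟩, Net.cls_eq_of_mem h hx hycls⟩

/-- the class of a port on a loop contains no cut end -/
theorem loop_ends (h : N.Ok) {x : P} (hx : x ∈ N.V) {n : ℕ} (hs : N.Strand x n)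
    (hb : N.be (N.al (N.g^[n] x)) = x) {p : P} (hp : p ∈ N.V) (hc : N.cls p = N.cls x) :
    N.be p ≠ p := by
  intro hbp
  have hcls := hs.cls h hx
  have hp' : p ∈ N.cls x := by rw [← hc]; exact Net.self_mem_cls hp
  rw [hcls, Finset.mem_union] at hp'
  have hxb : N.be x = N.al (N.g^[n] x) := by
    conv_lhs => rw [← hb]
    exact h.be2 _ (h.alV _ (Net.it_mem h hx n))
  have hne := Net.it_ne h hx hs.1 n 0 le_rfl (Nat.zero_le _)
  rcases hp' with hp' | hp'
  · obtain ⟨i, hi, rfl⟩ := Net.mem_Iw.1 hp'
    cases i with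
    | zero =>
      rw [Function.iterate_zero, id] at hbp
      rw [hbp] at hxb
      exact hne hxb.symm
    | succ i =>
      rw [Function.iterate_succ_apply'] at hbp
      have h3 : N.be (N.g (N.g^[i] x)) = N.al (N.g^[i] x) :=
        h.be2 _ (h.alV _ (Net.it_mem h hx i))
      rw [h3] at hbp
      exact hs.1 i (by omega) hbp.symm
  · obtain ⟨i, hi, rfl⟩ := Net.mem_Ow.1 hp'
    rcases Nat.lt_or_ge i n with h3 | h3
    · exact hs.1 i h3 hbp
    · obtain rfl : i = n := by omega
      rw [hb] at hbp
      exact hne hbp.symm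

/-- **`(z V)²` is the product over the cut ends** (every loop has value `1`) -/
theorem z_sq (h : N.Ok) (hl : ∀ x ∈ N.V, ∀ n, N.Strand x n → N.be (N.al (N.g^[n] x)) = x →
    N.z (N.cls x) = 1) : N.z N.V ^ 2 = ∏ x ∈ Ends N, N.z (N.cls x) := by
  classical
  rw [Net.z_classes h h.clV, ← Finset.prod_pow]
  rw [← Finset.prod_fiberwise_of_maps_to (s := Ends N) (t := N.classes N.V) (g := N.cls)
    (fun x hx => Finset.mem_image_of_mem _ (mem_Ends.1 hx).1) (fun x => N.z (N.cls x))]
  refine Finset.prod_congr rfl fun c hc => ?_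
  obtain ⟨p, hp, rfl⟩ := Finset.mem_image.1 hc
  obtain ⟨x, hx, n, hs, e⟩ := Net.exists_strand h hp
  rw [e]
  have h0 : ∏ y ∈ (Ends N).filter (fun y => N.cls y = N.cls x), N.z (N.cls y) =
      N.z (N.cls x) ^ ((Ends N).filter (fun y => N.cls y = N.cls x)).card := by
    rw [← Finset.prod_const]
    exact Finset.prod_congr rfl fun y hy => by rw [(Finset.mem_filter.1 hy).2]
  rw [h0]
  rcases hs.2 with ⟨h1, h2⟩ | ⟨h1, h2⟩
  · obtain ⟨h3, h4⟩ := arc_ends h hx hs.1 h1 h2
    rw [h4, Finset.card_pair h3]
  · rw [hl x hx n hs h1, one_pow, one_pow]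

end Ends

end Crest.Agent.R158.Dn211
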