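import Crest.Agent.R158.Pt4_266

/-!
# R158, patches (helper266), file Pt5: the patch theorem

`R : Xr249.Reg` hole-free (`R.SC`) and connected (`R.Conn`), `RG R` = its glueing relation on
`(ℤ × ℤ) × ZMod 4`.

* `RFree R x` : `x` is an unglued side of a tile of `R`
* `CwC G x y D m` : clockwise chain of consecutive free ports from `x` to `y`, `m` strictly between,
  total turning `D` (`1` convex corner, `0` flat, `-1` reflex corner)
* **`patch_end`** : the strand from a free port ends at another free port
* **`patch_turn`** : turning of a strand `x → y` with a clockwise chain `x → y` of turning `D`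
  is `D - 2`
* **`patch_nc`** : the ends between `x` and `y` are joined among themselves
* **`patch_loop`** : closed strands have turning `± 4`
-/

set_option autoImplicit false
set_option linter.unusedVariables false
set_option linter.unusedSectionVars false
set_option linter.unusedSimpArgs false

namespace Crest.Agent.R158.Pt266

open Crest.Agent.R158.Sw300
open Crest.Agent.R158.Gc748 (gl bs ts gd_wd pt)
open Crest.Agent.R158.Xr249 (rot rot_some rot_none Nx Reg)

/-- glueing relation of a region on tile ports -/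
def RG (R : Reg) (a b : (ℤ × ℤ) × ZMod 4) : Prop := R.gl (some a) (some b)

/-- free ends of the region -/
def RFree (R : Reg) (a : (ℤ × ℤ) × ZMod 4) : Prop := a.1 ∈ R.P ∧ Fr (RG R) a

lemma rg_glu (R : Reg) : Glu (RG R) :=
  ⟨fun a b h => R.gl_glue.sym _ _ h, fun a b b' h h' => Option.some.inj (R.gl_glue.fn _ _ _ h h')⟩

section

variable {T : Type*}

/-- clockwise chain of free ports, `m` = the ports strictly between, `D` = turning -/
inductive CwC (G : Port T → Port T → Prop) : T × ZMod 4 → T × ZMod 4 → ℤ → List (T × ZMod 4) → Prop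
  | one {x y : T × ZMod 4} {k : ℤ} : NxT G (some x) (some y) k → CwC G x y k []
  | cons {x z y : T × ZMod 4} {k D : ℤ} {m : List (T × ZMod 4)} : NxT G (some x) (some z) k →
      CwC G z y D m → CwC G x y (k + D) (z :: m)

lemma CwC.cast {G : Port T → Port T → Prop} {x y : T × ZMod 4} {D D' : ℤ}
    {m : List (T × ZMod 4)} (h : CwC G x y D m) (e : D = D') : CwC G x y D' m := e ▸ h

lemma CwC.snoc {G : Port T → Port T → Prop} {x z y : T × ZMod 4} {k D : ℤ}
    {m : List (T × ZMod 4)} (h : CwC G x z D m) (h1 : NxT G (some z) (some y) k) :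
    CwC G x y (D + k) (m ++ [z]) := by
  induction h with
  | one h2 => exact .cons h2 (.one h1)
  | cons h2 _ ih => exact (CwC.cons h2 (ih h1)).cast (by ring)

lemma CwC.trans {G : Port T → Port T → Prop} {x z y : T × ZMod 4} {D D' : ℤ}
    {m m' : List (T × ZMod 4)} (h : CwC G x z D m) (h' : CwC G z y D' m') :
    CwC G x y (D + D') (m ++ z :: m') := by
  induction h with
  | one h2 => exact .cons h2 h'
  | cons h2 _ ih => exact (CwC.cons h2 (ih h')).cast (by ring)

/-- a clockwise chain follows the boundary list -/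
lemma CwC.follow {G : Port T → Port T → Prop} (hG : ∀ a b c, G a b → G a c → b = c)
    {x y : T × ZMod 4} {D : ℤ} {m : List (T × ZMod 4)} (h : CwC G x y D m) :
    ∀ {i : ℤ} {K : List (Port T × ℤ)}, List.IsChain (NN G) ((some x, i) :: K) →
      (∃ K1 K2 j, K = K1 ++ (some y, j) :: K2 ∧ K1.map Prod.fst = m.map some ∧ j - i = D) ∨
      ∀ k ∈ K, ∃ z ∈ m, k.1 = some z := by
  induction h with
  | @one x y k h1 =>
    intro i K hK
    cases K with
    | nil => right; simp
    | cons a K =>
      left
      rw [List.isChain_cons_cons] at hK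
      obtain ⟨e1, e2⟩ := h1.det hG hK.1
      refine ⟨[], K, a.2, ?_, rfl, ?_⟩
      · rw [List.nil_append, e1]
      · rw [e2]
  | @cons x z y k D m h1 h2 ih =>
    intro i K hK
    cases K with
    | nil => right; simp
    | cons a K =>
      rw [List.isChain_cons_cons] at hK
      obtain ⟨e1, e2⟩ := h1.det hG hK.1
      have h3 : List.IsChain (NN G) ((some z, a.2) :: K) := by
        rw [e1]; exact hK.2
      rcases ih h3 with ⟨K1, K2, j, rfl, h4, h5⟩ | h4
      · left
        refine ⟨(some z, a.2) :: K1, K2, j, ?_, ?_, ?_⟩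
        · rw [e1]; rfl
        · rw [List.map_cons, List.map_cons, h4]
        · rw [e2] at *
          simp only at *
          linarith
      · right
        intro k hk
        rcases List.mem_cons.1 hk with rfl | hk
        · exact ⟨z, by simp, e1.symm⟩
        · obtain ⟨u, hu, hu'⟩ := h4 k hk
          exact ⟨u, by simp [hu], hu'⟩

end

/-- the word of a region, with flatness and boundary turning -/
theorem reg_word {R : Reg} (hsc : R.SC) (hc : R.Conn) (hne : R.P.Nonempty) :
    ∃ (w : Wd (ℤ × ℤ)) (l : List (Port (ℤ × ℤ))), Ok w ∧ ¬ isLeg w ∧ Flat w ∧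
      (∀ a b, Gw w a b ↔ RG R a b) ∧ (∀ a, (some a : Port (ℤ × ℤ)) ∈ L w ↔ RFree R a) ∧
      L w = none :: l ∧ none ∉ l ∧ CC R.gl (l.map fun x => (x, phi w x)) := by
  obtain ⟨⟨x0, t0⟩, hP⟩ := hne
  obtain ⟨a0, b0, -, -, hrun⟩ := Reg.exists_run hP
  obtain ⟨w, l0, hok, -, hbas, htls, -, hbe, hL, -, hmem, -⟩ := R.ok hsc hc hrun
  have hGs : Gs w = R.gl := by
    funext p q
    rw [be_iff hok, ← hbe]
  have hbs : bs w ≠ none := by
    have : ∀ w : Wd (ℤ × ℤ), bs w = Xr249.bas w := by
      intro w
      induction w with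
      | leg => rfl
      | tile t => rfl
      | att w p t d ih => exact ih
      | con w p q ih => exact ih
    rw [this, hbas]
    simp
  have hadj : ∀ p q, (p, q) ∈ gl w → LAdj p q := by
    intro p q h
    have : Gs w p q := Or.inl h
    rw [hGs] at this
    exact ladj_gl this
  obtain ⟨hF, l, hL', hn, hcc⟩ := cc_word hok hbs hadj
  rw [hGs] at hcc
  refine ⟨w, l, hok, fun h => hbs (isLeg_iff.1 h), hF, fun a b => ?_, fun a => ?_, hL', hn, hcc⟩
  · show Gs w (some a) (some b) ↔ _
    rw [hGs]
    rfl
  · have h1 : (some a : Port (ℤ × ℤ)) ∈ L w ↔ (some a : Port (ℤ × ℤ)) ∈ some ((a0, t0), 0) :: l0 := by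
      rw [hL, List.mem_cons]
      simp
    rw [h1, hmem]
    constructor
    · rintro ⟨⟨t, d, h2, h3⟩, h4⟩
      obtain rfl := Option.some.inj h2
      exact ⟨h3, fun b hb => h4 _ hb⟩
    · rintro ⟨h2, h3⟩
      refine ⟨⟨a.1, a.2, rfl, h2⟩, fun q hq => ?_⟩
      rcases q with - | b
      · have := R.gl_glue.sym _ _ hq
        exact this
      · exact h3 b hq

section

variable {R : Reg} {s : ℤ × ℤ → Bool}

/-- **every strand from a free end ends at another free end** -/
theorem patch_end (hsc : R.SC) (hc : R.Conn) (s : ℤ × ℤ → Bool) {x : (ℤ × ℤ) × ZMod 4}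
    (hx : RFree R x) : ∃ y l, Wk s (RG R) x y l ∧ RFree R y ∧ y ≠ x := by
  obtain ⟨w, l, hok, hleg, hF, hG, hfr, hL, hn, hcc⟩ := reg_word hsc hc ⟨_, hx.1⟩
  have hxL := (hfr x).2 hx
  have I := Ok.inv s w hok
  have hu : u s w = none := u_none s w hok hleg
  have hM : M s w (some x) ≠ some x := fun h => by
    have := I.fix _ hxL h
    rw [hu] at this
    cases this
  obtain ⟨a, b, k, ha, hb, hw, -⟩ := walk_word s hok hxL hM
  obtain rfl := Option.some.inj ha
  refine ⟨b, k, hw.mono fun _ _ h => (hG _ _).1 h, (hfr b).1 (hb ▸ I.mem _ hxL), ?_⟩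
  rintro rfl
  exact hM hb

/-- the word partner of a free end is the end of its strand -/
lemma word_partner {w : Wd (ℤ × ℤ)} (hok : Ok w) (hleg : ¬ isLeg w) (hF : Flat w)
    (hG : ∀ a b, Gw w a b ↔ RG R a b) (hfr : ∀ a, (some a : Port (ℤ × ℤ)) ∈ L w ↔ RFree R a)
    {x y : (ℤ × ℤ) × ZMod 4} {k : List ((ℤ × ℤ) × ZMod 4)} (hx : RFree R x) (hy : RFree R y)
    (hw : Wk s (RG R) x y k) : M s w (some x) = some y ∧ tt s k = tau s w (some x) := by
  have hxL := (hfr x).2 hx
  have I := Ok.inv s w hok
  have hu : u s w = none := u_none s w hok hleg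
  have hM : M s w (some x) ≠ some x := fun h => by
    have := I.fix _ hxL h
    rw [hu] at this
    cases this
  obtain ⟨a, b, k', ha, hb, hw', htt⟩ := walk_word s hok hxL hM
  obtain rfl := Option.some.inj ha
  have hw2 : Wk s (Gw w) x y k := hw.mono fun _ _ h => (hG _ _).2 h
  have hfb : Fr (Gw w) b := fr_of_mem hok (hb ▸ I.mem _ hxL)
  have hfy : Fr (Gw w) y := fun c hc => hy.2 c ((hG _ _).1 hc)
  obtain ⟨e1, e2⟩ := hw'.det (glu_Gw hok).fn hfb hw2 hfy
  subst e1 e2
  exact ⟨hb, htt hF⟩

/-- **turning and non-crossing**: a strand `x → y` of the region and a clockwise chain from `x`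
to `y` of turning `D` -/
theorem patch_both (hsc : R.SC) (hc : R.Conn) {x y : (ℤ × ℤ) × ZMod 4}
    {k m : List ((ℤ × ℤ) × ZMod 4)} {D : ℤ} (hx : RFree R x) (hy : RFree R y)
    (hw : Wk s (RG R) x y k) (hch : CwC R.gl x y D m) (hxy : y ≠ x) (hxm : x ∉ m) :
    tt s k = D - 2 ∧ ∀ z ∈ m, ∃ z' ∈ m, ∃ k', Wk s (RG R) z z' k' := by
  obtain ⟨w, l, hok, hleg, hF, hG, hfr, hL, hn, hcc⟩ := reg_word hsc hc ⟨_, hx.1⟩
  have hxL := (hfr x).2 hx
  have hyL := (hfr y).2 hy
  have I := Ok.inv s w hok
  have hTau := Ok.tau s w hok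
  have hu : u s w = none := u_none s w hok hleg
  obtain ⟨hMx, htt⟩ := word_partner hok hleg hF hG hfr hx hy hw
  have hxl : (some x : Port (ℤ × ℤ)) ∈ l := by
    rw [hL, List.mem_cons] at hxL
    exact hxL.resolve_left (by simp)
  obtain ⟨A, B, rfl⟩ := List.append_of_mem hxl
  -- the boundary list starting at `x`
  rw [List.map_append, List.map_cons] at hcc
  have hcc2 := CC.rotn hcc
  rw [List.map_map] at hcc2
  have hcc3 : List.IsChain (NN R.gl) ((some x, phi w (some x)) ::
      ((B.map fun x => (x, phi w x)) ++ (A.map (sh 4 ∘ fun x => (x, phi w x))) ++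
        [sh 4 (some x, phi w (some x))])) := by
    have : CC R.gl ((some x, phi w (some x)) ::
      ((B.map fun x => (x, phi w x)) ++ (A.map (sh 4 ∘ fun x => (x, phi w x))))) := by
      simpa using hcc2
    exact this
  rcases hch.follow R.gl_glue.fn hcc3 with ⟨K1, K2, j, hK, hK1, hj⟩ | hall
  swap
  · exfalso
    obtain ⟨z, hz, hz'⟩ := hall (sh 4 (some x, phi w (some x))) (by simp)
    simp only [sh, Option.some.injEq] at hz'
    exact hxm (hz' ▸ hz)
  -- remove the closing element
  obtain ⟨K3, rfl, hK3⟩ : ∃ K3, K2 = K3 ++ [sh 4 (some x, phi w (some x))] ∧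
      (B.map fun x => (x, phi w x)) ++ (A.map (sh 4 ∘ fun x => (x, phi w x))) =
        K1 ++ (some y, j) :: K3 := by
    cases K2 using List.reverseRecOn with
    | nil =>
      exfalso
      have h1 := congrArg List.getLast? hK
      simp only [List.getLast?_append, List.getLast?_singleton, Option.some_or,
        Option.some.injEq] at h1
      have h2 := congrArg Prod.fst h1
      simp only [sh, Option.some.injEq] at h2
      exact hxy h2.symm
    | append_singleton K3 c =>
      have h1 : (K1 ++ (some y, j) :: K3) ++ [c] = (K1 ++ (some y, j) :: (K3 ++ [c])) := by simp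
      rw [← h1] at hK
      obtain ⟨h2, h3⟩ := List.append_inj' hK rfl
      simp only [List.cons.injEq, and_true] at h3
      exact ⟨K3, by rw [← h3], h2⟩
  have hsort := sorted w hok
  rw [hL, List.pairwise_cons] at hsort
  obtain ⟨hs0, hs1⟩ := hsort
  rw [List.pairwise_append, List.pairwise_cons] at hs1
  obtain ⟨-, ⟨hs2, -⟩, hs3⟩ := hs1
  have hpx : pos w none < pos w (some x) := hs0 _ (by simp)
  have hgd := gd_wd s hok
  have hMinv : ∀ z, z ∈ L w → M s w z = none → z = none := by
    intro z hz h
    have h1 := I.inv _ hz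
    rw [h] at h1
    have h2 : M s w none = none := by
      have := I.uf
      rwa [hu] at this
    rw [← h1, h2]
  -- the partner of an end between
  have fin : ∀ z ∈ m, (∃ z' ∈ m, M s w (some z) = some z') →
      ∃ z' ∈ m, ∃ k', Wk s (RG R) z z' k' := by
    rintro z hz ⟨z', hz', hM⟩
    have hzL : (some z : Port (ℤ × ℤ)) ∈ L w := by
      have h1 : (some z : Port (ℤ × ℤ)) ∈ K1.map Prod.fst := by
        rw [hK1]; exact List.mem_map_of_mem hz
      have h2 : K1.map Prod.fst ++ some y :: K3.map Prod.fst = B ++ A := by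
        have := congrArg (List.map Prod.fst) hK3
        rw [List.map_append, List.map_append, List.map_cons, List.map_map, List.map_map] at this
        have e1 : ((Prod.fst : Port (ℤ × ℤ) × ℤ → Port (ℤ × ℤ)) ∘ fun x => (x, phi w x)) = id := rfl
        have e2 : ((Prod.fst : Port (ℤ × ℤ) × ℤ → Port (ℤ × ℤ)) ∘ (sh 4 ∘ fun x => (x, phi w x))) =
          id := rfl
        rw [e1, e2, List.map_id, List.map_id] at this
        exact this.symm
      have h3 : (some z : Port (ℤ × ℤ)) ∈ B ++ A := by rw [← h2]; simp [h1]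
      rw [hL]
      simp only [List.mem_append, List.mem_cons] at h3 ⊢
      tauto
    have hMz : M s w (some z) ≠ some z := fun h => by
      have := I.fix _ hzL h
      rw [hu] at this
      cases this
    obtain ⟨a, b, k', ha, hb, hw', -⟩ := walk_word s hok hzL hMz
    obtain rfl := Option.some.inj ha
    rw [hM] at hb
    obtain rfl := Option.some.inj hb
    exact ⟨z', hz', k', hw'.mono fun _ _ h => (hG _ _).1 h⟩
  rw [List.append_eq_append_iff] at hK3
  rcases hK3 with ⟨a', ha1, ha2⟩ | ⟨c', hc1, hc2⟩
  · -- `y` is in `A`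
    have hyA : (some y, j) ∈ A.map (sh 4 ∘ fun x => (x, phi w x)) := by rw [ha2]; simp
    obtain ⟨y', hy', hyj⟩ := List.mem_map.1 hyA
    simp only [Function.comp, sh, Prod.mk.injEq] at hyj
    obtain ⟨rfl, hyj⟩ := hyj
    have hpy : pos w none < pos w (some y) := hs0 _ (by simp [hy'])
    have hyx : pos w (some y) < pos w (some x) := hs3 _ hy' _ (by simp)
    have hMy : M s w (some y) = some x := by rw [← hMx, I.inv _ hxL]
    have hS : S s w (some y) = true := by
      rw [I.st _ hyL (by rw [hu]; simp), hMy, hu]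
      exact Or.inr (Or.inr ⟨hpy, hyx⟩)
    have h1 := hTau.arc _ hyL (by rw [hu]; simp) hS
    have h2 := hTau.anti _ hxL (by rw [hu]; simp)
    rw [hMx] at h2
    rw [hMy] at h1
    refine ⟨by rw [htt]; linarith, ?_⟩
    intro z hz
    refine fin z hz ?_
    -- ring starting at `x`
    have hA : A = a'.map Prod.fst ++ some y :: K3.map Prod.fst := by
      have := congrArg (List.map Prod.fst) ha2
      rw [List.map_append, List.map_cons, List.map_map] at this
      have e2 : ((Prod.fst : Port (ℤ × ℤ) × ℤ → Port (ℤ × ℤ)) ∘ (sh 4 ∘ fun x => (x, phi w x))) =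
          id := rfl
      rw [e2, List.map_id] at this
      exact this
    have hm : m.map some = B ++ a'.map Prod.fst := by
      rw [← hK1, ha1, List.map_append, List.map_map]
      have e1 : ((Prod.fst : Port (ℤ × ℤ) × ℤ → Port (ℤ × ℤ)) ∘ fun x => (x, phi w x)) = id := rfl
      rw [e1, List.map_id]
    have hrot : L w ~r some x :: ((B ++ none :: a'.map Prod.fst) ++ M s w (some x) ::
        K3.map Prod.fst) := by
      rw [hMx, hL]
      have e : none :: (A ++ some x :: B) = (none :: A) ++ (some x :: B) := by simp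
      rw [e]
      refine (List.isRotated_append).trans ?_
      rw [hA]
      simp [List.IsRotated.refl]
    have hg := hgd.rotated hrot
    have hz2 : (some z : Port (ℤ × ℤ)) ∈ B ++ a'.map Prod.fst := by
      rw [← hm]; exact List.mem_map_of_mem hz
    have hz3 : (some z : Port (ℤ × ℤ)) ∈ B ++ none :: a'.map Prod.fst := by
      simp only [List.mem_append, List.mem_cons] at hz2 ⊢
      tauto
    have h3 := Gc748.Gd.nc hg hz3
    have hzL : (some z : Port (ℤ × ℤ)) ∈ L w := by
      rw [hL, hA]
      simp only [List.mem_append, List.mem_cons] at hz2 ⊢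
      tauto
    have h4 : M s w (some z) ≠ none := fun h => by
      have := hMinv _ hzL h
      cases this
    have h5 : M s w (some z) ∈ m.map some := by
      rw [hm]
      simp only [List.mem_append, List.mem_cons] at h3 ⊢
      tauto
    obtain ⟨z', hz', he⟩ := List.mem_map.1 h5
    exact ⟨z', hz', he.symm⟩
  · -- `y` is in `B` or it is the first element of `A`
    cases c' with
    | nil =>
      simp only [List.nil_append] at hc2
      -- then `y` is the first element of `A`
      have hyA : (some y, j) ∈ A.map (sh 4 ∘ fun x => (x, phi w x)) := by rw [← hc2]; simp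
      obtain ⟨y', hy', hyj⟩ := List.mem_map.1 hyA
      simp only [Function.comp, sh, Prod.mk.injEq] at hyj
      obtain ⟨rfl, hyj⟩ := hyj
      have hpy : pos w none < pos w (some y) := hs0 _ (by simp [hy'])
      have hyx : pos w (some y) < pos w (some x) := hs3 _ hy' _ (by simp)
      have hMy : M s w (some y) = some x := by rw [← hMx, I.inv _ hxL]
      have hS : S s w (some y) = true := by
        rw [I.st _ hyL (by rw [hu]; simp), hMy, hu]
        exact Or.inr (Or.inr ⟨hpy, hyx⟩)
      have h1 := hTau.arc _ hyL (by rw [hu]; simp) hS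
      have h2 := hTau.anti _ hxL (by rw [hu]; simp)
      rw [hMx] at h2
      rw [hMy] at h1
      refine ⟨by rw [htt]; linarith, ?_⟩
      intro z hz
      refine fin z hz ?_
      have hA : A = some y :: K3.map Prod.fst := by
        have := congrArg (List.map Prod.fst) hc2
        rw [List.map_cons, List.map_map] at this
        have e2 : ((Prod.fst : Port (ℤ × ℤ) × ℤ → Port (ℤ × ℤ)) ∘
          (sh 4 ∘ fun x => (x, phi w x))) = id := rfl
        rw [e2, List.map_id] at this
        exact this.symm
      have hm : m.map some = B := by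
        rw [← hK1, ← (List.append_nil K1), ← hc1, List.map_map]
        have e1 : ((Prod.fst : Port (ℤ × ℤ) × ℤ → Port (ℤ × ℤ)) ∘ fun x => (x, phi w x)) = id := rfl
        rw [e1, List.map_id]
      have hrot : L w ~r some x :: ((B ++ [none]) ++ M s w (some x) :: K3.map Prod.fst) := by
        rw [hMx, hL]
        have e : none :: (A ++ some x :: B) = (none :: A) ++ (some x :: B) := by simp
        rw [e]
        refine (List.isRotated_append).trans ?_
        rw [hA]
        simp [List.IsRotated.refl]
      have hg := hgd.rotated hrot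
      have hz2 : (some z : Port (ℤ × ℤ)) ∈ B := by
        rw [← hm]; exact List.mem_map_of_mem hz
      have hz3 : (some z : Port (ℤ × ℤ)) ∈ B ++ [none] := by
        simp only [List.mem_append]
        exact Or.inl hz2
      have h3 := Gc748.Gd.nc hg hz3
      have hzL : (some z : Port (ℤ × ℤ)) ∈ L w := by
        rw [hL]
        simp only [List.mem_append, List.mem_cons]
        tauto
      have h4 : M s w (some z) ≠ none := fun h => by
        have := hMinv _ hzL h
        cases this
      have h5 : M s w (some z) ∈ m.map some := by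
        rw [hm]
        simp only [List.mem_append, List.mem_singleton] at h3
        tauto
      obtain ⟨z', hz', he⟩ := List.mem_map.1 h5
      exact ⟨z', hz', he.symm⟩
    | cons c0 c' =>
      simp only [List.cons_append, List.cons.injEq] at hc2
      obtain ⟨rfl, hc2⟩ := hc2
      have hyB : (some y, j) ∈ B.map (fun x => (x, phi w x)) := by rw [hc1]; simp
      obtain ⟨y', hy', hyj⟩ := List.mem_map.1 hyB
      simp only [Prod.mk.injEq] at hyj
      obtain ⟨rfl, hyj⟩ := hyj
      have hxy' : pos w (some x) < pos w (some y) := hs2 _ hy'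
      have hS : S s w (some x) = true := by
        rw [I.st _ hxL (by rw [hu]; simp), hMx, hu]
        exact Or.inr (Or.inr ⟨hpx, hxy'⟩)
      have h1 := hTau.arc _ hxL (by rw [hu]; simp) hS
      rw [hMx] at h1
      refine ⟨by rw [htt]; linarith, ?_⟩
      intro z hz
      refine fin z hz ?_
      have hB : B = m.map some ++ some y :: c'.map Prod.fst := by
        have := congrArg (List.map Prod.fst) hc1
        rw [List.map_append, List.map_cons, List.map_map, hK1] at this
        have e1 : ((Prod.fst : Port (ℤ × ℤ) × ℤ → Port (ℤ × ℤ)) ∘ fun x => (x, phi w x)) = id := rfl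
        rw [e1, List.map_id] at this
        exact this
      have hrot : L w ~r some x :: (m.map some ++ M s w (some x) ::
          (c'.map Prod.fst ++ none :: A)) := by
        rw [hMx, hL]
        have e : none :: (A ++ some x :: B) = (none :: A) ++ (some x :: B) := by simp
        rw [e]
        refine (List.isRotated_append).trans ?_
        rw [hB]
        simp [List.IsRotated.refl]
      have hg := hgd.rotated hrot
      have hz3 : (some z : Port (ℤ × ℤ)) ∈ m.map some := List.mem_map_of_mem hz
      have h3 := Gc748.Gd.nc hg hz3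
      obtain ⟨z', hz', he⟩ := List.mem_map.1 h3
      exact ⟨z', hz', he.symm⟩

/-- **turning of the strands of a region** -/
theorem patch_turn (hsc : R.SC) (hc : R.Conn) {x y : (ℤ × ℤ) × ZMod 4}
    {k m : List ((ℤ × ℤ) × ZMod 4)} {D : ℤ} (hx : RFree R x) (hy : RFree R y)
    (hw : Wk s (RG R) x y k) (hch : CwC R.gl x y D m) (hxy : y ≠ x) (hxm : x ∉ m) :
    tt s k = D - 2 := (patch_both hsc hc hx hy hw hch hxy hxm).1

/-- **non-crossing**: the ends under a strand are joined among themselves, inside the region -/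
theorem patch_nc (hsc : R.SC) (hc : R.Conn) {x y : (ℤ × ℤ) × ZMod 4}
    {k m : List ((ℤ × ℤ) × ZMod 4)} {D : ℤ} (hx : RFree R x) (hy : RFree R y)
    (hw : Wk s (RG R) x y k) (hch : CwC R.gl x y D m) (hxy : y ≠ x) (hxm : x ∉ m) :
    ∀ z ∈ m, ∃ z' ∈ m, ∃ k', Wk s (RG R) z z' k' := (patch_both hsc hc hx hy hw hch hxy hxm).2

/-- **closed strands of a region** -/
theorem patch_loop (hsc : R.SC) (hc : R.Conn) {k : List ((ℤ × ℤ) × ZMod 4)}
    (h : Cl s (RG R) k) (hP : ∀ p ∈ k, p.1 ∈ R.P) : tt s k = 4 ∨ tt s k = -4 := by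
  obtain ⟨hn, x, y, h1, h2⟩ := h
  obtain ⟨w, l, hok, hleg, hF, hG, hfr, hL, hn', hcc⟩ := reg_word hsc hc ⟨_, hP _ h1.mem_left⟩
  exact loop_word s hok hleg hF
    ⟨hn, x, y, h1.mono fun _ _ h => (hG _ _).2 h, (hG _ _).2 h2⟩

end

end Crest.Agent.R158.Pt266
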