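import Crest.Agent.R158.Dn1_211
import Crest.Agent.R158.Ad4_350
import Crest.Agent.R158.Pt5_266

/-!
# Row 158, corner lemma (helper211), part 3: the network of a plane region

* `beR R` : glueing involution of a region, `NR R s ch` : its network (`ch = 0` at the glueings)
* `wa_of_wk`, `wk_of_wa` : walks of helper350 and helper266
* `arc_value` : `z = 2 cos (π/12 (2 - D) + φ_y - φ_x)`, `loop_value` : `z = 1`
-/

set_option autoImplicit false
set_option linter.unusedSimpArgs false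
set_option linter.unusedSectionVars false

noncomputable section

open Finset

namespace Crest.Agent.R158.Dn211

open Crest.Agent.R158.Sw300 (Port thru thru_thru thru_ne tn)
open Crest.Agent.R158.Ad350
open Crest.Agent.R158.Pt266 (RG RFree Wk tt rg_glu CwC patch_turn patch_loop patch_end pass)
open Crest.Agent.R158.Xr249 (Reg)

theorem net_eq {T : Type*} [DecidableEq T] (A : Finset T) (s : T → Bool) (be : Port T → Port T)
    (ch : Port T → ℝ) : net A s be ch = tnet A s be ch := by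
  unfold net tnet
  congr 1
  funext p
  rw [ths]
  cases p with
  | none => simp
  | some y => simp only [Option.elim_some]; ring

variable {R : Reg}

open Classical in
/-- glueing involution of a region -/
def beR (R : Reg) (p : Port (ℤ × ℤ)) : Port (ℤ × ℤ) :=
  if h : ∃ q, R.gl p q then h.choose else p

theorem beR_of_gl {p q : Port (ℤ × ℤ)} (h : R.gl p q) : beR R p = q := by
  have hex : ∃ q, R.gl p q := ⟨q, h⟩
  unfold beR
  rw [dif_pos hex]
  exact R.gl_glue.fn _ _ _ hex.choose_spec h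

theorem beR_of_free {p : Port (ℤ × ℤ)} (h : ∀ q, ¬ R.gl p q) : beR R p = p := by
  unfold beR
  rw [dif_neg]
  rintro ⟨q, hq⟩
  exact h q hq

theorem gl_some {p q : Port (ℤ × ℤ)} (h : R.gl p q) :
    ∃ a b : (ℤ × ℤ) × ZMod 4, p = some a ∧ q = some b ∧ RG R a b := by
  cases p with
  | none => exact absurd h (by simp [Reg.gl])
  | some a =>
    cases q with
    | none => exact absurd (R.gl_glue.sym _ _ h) (by simp [Reg.gl])
    | some b => exact ⟨a, b, rfl, rfl, h⟩

theorem gl_mem_P {a b : (ℤ × ℤ) × ZMod 4} (h : RG R a b) : a.1 ∈ R.P := by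
  obtain ⟨⟨x, y⟩, d⟩ := a
  unfold RG Reg.gl at h
  simp only at h
  rcases h with ⟨-, h, -⟩ | ⟨-, h, -⟩ | ⟨-, h, -⟩ | ⟨-, h, -⟩
  · have := (R.hP _ _ h).2
    simpa using this
  · exact (R.vP _ _ h).1
  · exact (R.hP _ _ h).1
  · have := (R.vP _ _ h).2
    simpa using this

theorem gl_ne {p q : Port (ℤ × ℤ)} (h : R.gl p q) : p ≠ q := by
  rintro rfl
  obtain ⟨a, b, h1, h2, h3⟩ := gl_some h
  rw [h1] at h2
  obtain rfl := Option.some.inj h2
  obtain ⟨⟨x, y⟩, d⟩ := a
  unfold RG Reg.gl at h3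
  simp only [Option.some.injEq, Prod.mk.injEq] at h3
  rcases h3 with ⟨-, -, ⟨h3, -⟩, -⟩ | ⟨-, -, ⟨-, h3⟩, -⟩ | ⟨-, -, ⟨h3, -⟩, -⟩ | ⟨-, -, ⟨-, h3⟩, -⟩ <;>
    omega

theorem beR_ok (R : Reg) : BeOk R.P (beR R) := by
  have key : ∀ p ∈ ports R.P, (beR R p ∈ ports R.P) ∧ beR R (beR R p) = p := by
    intro p hp
    by_cases h : ∃ q, R.gl p q
    · obtain ⟨q, hq⟩ := h
      rw [beR_of_gl hq]
      have hq' := R.gl_glue.sym _ _ hq
      refine ⟨?_, beR_of_gl hq'⟩
      obtain ⟨a, b, rfl, rfl, h3⟩ := gl_some hq'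
      exact mem_ports.2 (gl_mem_P h3)
    · push Not at h
      rw [beR_of_free h]
      exact ⟨hp, beR_of_free h⟩
  exact ⟨fun p hp => (key p hp).1, fun p hp => (key p hp).2⟩

/-- the network of a region -/
abbrev NR (R : Reg) (s : ℤ × ℤ → Bool) (ch : Port (ℤ × ℤ) → ℝ) : Net (Port (ℤ × ℤ)) :=
  tnet R.P s (beR R) ch

theorem NR_ok (R : Reg) (s : ℤ × ℤ → Bool) (ch : Port (ℤ × ℤ) → ℝ) : (NR R s ch).Ok :=
  tnet_ok (beR_ok R).mem (beR_ok R).inv

theorem al_pass (R : Reg) (s : ℤ × ℤ → Bool) (ch : Port (ℤ × ℤ) → ℝ) (a : (ℤ × ℤ) × ZMod 4) :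
    (NR R s ch).al (some a) = some (pass s a) := rfl

theorem free_end {a : (ℤ × ℤ) × ZMod 4} (h : RFree R a) : beR R (some a) = some a := by
  refine beR_of_free fun q hq => ?_
  obtain ⟨a', b, h1, rfl, h3⟩ := gl_some hq
  obtain rfl := Option.some.inj h1
  exact h.2 _ h3

theorem end_free {p : Port (ℤ × ℤ)} (hp : p ∈ ports R.P) (h : beR R p = p) :
    ∃ a, p = some a ∧ RFree R a := by
  obtain ⟨t, d, rfl, ht⟩ := mem_ports' hp
  refine ⟨(t, d), rfl, ht, fun b hb => ?_⟩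
  have h1 : beR R (some (t, d)) = some b := beR_of_gl hb
  exact gl_ne hb (h.symm.trans h1)

theorem mem_ends {s : ℤ × ℤ → Bool} {ch : Port (ℤ × ℤ) → ℝ} {p : Port (ℤ × ℤ)} :
    p ∈ Ends (NR R s ch) ↔ ∃ a, p = some a ∧ RFree R a := by
  rw [mem_Ends]
  constructor
  · rintro ⟨h1, h2⟩
    exact end_free h1 h2
  · rintro ⟨a, rfl, h⟩
    exact ⟨mem_ports.2 h.1, free_end h⟩

theorem wa_of_wk {s : ℤ × ℤ → Bool} {ch : Port (ℤ × ℤ) → ℝ} {x y : (ℤ × ℤ) × ZMod 4}
    {l : List ((ℤ × ℤ) × ZMod 4)} (h : Wk s (RG R) x y l) :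
    (NR R s ch).Wa (some x) (some y) (l.map some) := by
  induction h with
  | one => exact Net.Wa.one (N := NR R s ch) (some x)
  | @snoc q r l h1 h2 ih =>
    have hb : (NR R s ch).be (some q) = some r := beR_of_gl h2
    have h3 := Net.Wa.snoc ih (by rw [hb]; exact (gl_ne h2).symm)
    rw [hb] at h3
    rw [List.map_append]
    exact h3

theorem wk_of_wa {s : ℤ × ℤ → Bool} {ch : Port (ℤ × ℤ) → ℝ} {x y : Port (ℤ × ℤ)}
    {l : List (Port (ℤ × ℤ))} (hx : x ∈ ports R.P) (h : (NR R s ch).Wa x y l) :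
    ∃ x' y' l', x = some x' ∧ y = some y' ∧ l = l'.map some ∧ Wk s (RG R) x' y' l' := by
  induction h with
  | one =>
    obtain ⟨t, d, rfl, ht⟩ := mem_ports' hx
    exact ⟨(t, d), pass s (t, d), [(t, d)], rfl, rfl, rfl, .one⟩
  | @snoc q l h1 h2 ih =>
    obtain ⟨x', y', l', e1, rfl, rfl, h3⟩ := ih
    have hgl : ∃ q, R.gl (some y') q := by
      by_contra hcon
      push Not at hcon
      exact h2 (beR_of_free hcon)
    obtain ⟨q, hq⟩ := hgl
    obtain ⟨a, b, h4, rfl, h5⟩ := gl_some hq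
    obtain rfl := Option.some.inj h4
    have hb : (NR R s ch).be (some y') = some b := beR_of_gl hq
    rw [hb]
    exact ⟨x', pass s b, l' ++ [b], e1, rfl, by simp, h3.snoc h5⟩

theorem tql_map (s : ℤ × ℤ → Bool) (l : List ((ℤ × ℤ) × ZMod 4)) :
    tql s (l.map some) = -(tt s l : ℝ) := by
  induction l with
  | nil => simp [tql]
  | cons a l ih =>
    have h1 : tql s ((a :: l).map some) = tq (s a.1) a.2 + tql s (l.map some) := by
      simp [tql]
    rw [h1, ih, Pt266.tt_cons, tq_eq]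
    push_cast
    ring

/-- phases vanish at the glueings -/
def Nat0 (R : Reg) (ch : Port (ℤ × ℤ) → ℝ) : Prop := ∀ p q, R.gl p q → ch p = 0

theorem seam_zero {ch : Port (ℤ × ℤ) → ℝ} (h0 : Nat0 R ch) (l : List (Port (ℤ × ℤ))) :
    seam (beR R) ch l = 0 := by
  unfold seam
  refine List.sum_eq_zero fun x hx => ?_
  obtain ⟨p, _, rfl⟩ := List.mem_map.1 hx
  by_cases h : ∃ q, R.gl p q
  · obtain ⟨q, hq⟩ := h
    rw [beR_of_gl hq, h0 _ _ hq, h0 _ _ (R.gl_glue.sym _ _ hq), sub_zero]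
  · push Not at h
    rw [beR_of_free h, sub_self]

/-- **value of an arc** -/
theorem arc_value {s : ℤ × ℤ → Bool} {ch : Port (ℤ × ℤ) → ℝ} (h0 : Nat0 R ch)
    {x y : (ℤ × ℤ) × ZMod 4} {l : List ((ℤ × ℤ) × ZMod 4)} (hx : RFree R x) (hy : RFree R y)
    (h : Wk s (RG R) x y l) : (NR R s ch).z ((NR R s ch).cls (some x)) =
      2 * Real.cos (Real.pi / 12 * (-(tt s l : ℝ)) + (ch (some y) - ch (some x))) := by
  have hxP : (some x : Port (ℤ × ℤ)) ∈ ports R.P := mem_ports.2 hx.1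
  have hw := wa_of_wk (ch := ch) h
  obtain ⟨-, -, h1⟩ := Net.z_arc (NR_ok R s ch) hxP hw (free_end hx) (free_end hy)
  obtain ⟨-, h2⟩ := Wa_wl (beR_ok R).inv (beR_ok R).mem hxP hw
  rw [h1, h2, tql_map, seam_zero h0, add_zero]

/-- the other end of an arc is in the same class -/
theorem arc_cls {s : ℤ × ℤ → Bool} {ch : Port (ℤ × ℤ) → ℝ}
    {x y : (ℤ × ℤ) × ZMod 4} {l : List ((ℤ × ℤ) × ZMod 4)} (hx : RFree R x) (hy : RFree R y)
    (h : Wk s (RG R) x y l) : some x ≠ (some y : Port (ℤ × ℤ)) ∧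
      ((Ends (NR R s ch)).filter fun p => (NR R s ch).cls p = (NR R s ch).cls (some x)) =
        {some x, some y} := by
  have hxP : (some x : Port (ℤ × ℤ)) ∈ ports R.P := mem_ports.2 hx.1
  have hw := wa_of_wk (ch := ch) h
  obtain ⟨n, -, h2, h3⟩ := hw.data
  have h4 := arc_ends (NR_ok R s ch) hxP h3 (free_end hx) (by rw [← h2]; exact free_end hy)
  rwa [← h2] at h4

theorem cos_four (k : ℤ) (h : k = 4 ∨ k = -4) : 2 * Real.cos (Real.pi / 12 * (-(k : ℝ))) = 1 := by
  have h1 : Real.cos (Real.pi / 12 * (-(k : ℝ))) = Real.cos (Real.pi / 3) := by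
    rcases h with rfl | rfl
    · rw [← Real.cos_neg]
      congr 1
      push_cast
      ring
    · congr 1
      push_cast
      ring
  rw [h1, Real.cos_pi_div_three]
  norm_num

/-- **value of a loop** -/
theorem loop_value (hsc : R.SC) (hc : R.Conn) {s : ℤ × ℤ → Bool} {ch : Port (ℤ × ℤ) → ℝ}
    (h0 : Nat0 R ch) {x : Port (ℤ × ℤ)} (hx : x ∈ ports R.P) {n : ℕ} (hs : (NR R s ch).Strand x n)
    (hb : (NR R s ch).be ((NR R s ch).al ((NR R s ch).g^[n] x)) = x) :
    (NR R s ch).z ((NR R s ch).cls x) = 1 := by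
  have hok := NR_ok R s ch
  have hw := Net.Wa.of_it (N := NR R s ch) n hs.1
  have hnd : ((List.range (n + 1)).map fun i => (NR R s ch).g^[i] x).Nodup := by
    refine List.Nodup.map_on (fun i hi j hj e => ?_) List.nodup_range
    rw [List.mem_range] at hi hj
    exact hs.inj hok hx i j (by omega) (by omega) e
  obtain ⟨-, h1⟩ := Net.z_loop hok hx hw hb hnd
  obtain ⟨hyP, h2⟩ := Wa_wl (beR_ok R).inv (beR_ok R).mem hx hw
  obtain ⟨x', y', l', e1, e2, e3, h3⟩ := wk_of_wa hx hw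
  have hne := Net.it_ne hok hx hs.1 n 0 le_rfl (Nat.zero_le _)
  have hgl : R.gl ((NR R s ch).al ((NR R s ch).g^[n] x)) x := by
    by_contra hcon
    have : ∀ q, ¬ R.gl ((NR R s ch).al ((NR R s ch).g^[n] x)) q := by
      intro q hq
      have h4 : q = x := by rw [← hb]; exact (beR_of_gl hq).symm
      exact hcon (h4 ▸ hq)
    exact hne ((beR_of_free this).symm.trans hb)
  have hcl : Pt266.Cl s (RG R) l' := by
    refine ⟨?_, x', y', h3, ?_⟩
    · rw [e3] at hnd
      exact hnd.of_map _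
    · show R.gl (some y') (some x')
      rw [← e1, ← e2]
      exact hgl
  have hP : ∀ p ∈ l', p.1 ∈ R.P := by
    intro p hp
    have h5 : (some p : Port (ℤ × ℤ)) ∈ ((List.range (n + 1)).map fun i => (NR R s ch).g^[i] x) := by
      rw [e3]; exact List.mem_map_of_mem hp
    obtain ⟨i, _, hi⟩ := List.mem_map.1 h5
    have h6 := Net.it_mem hok hx i
    rw [hi] at h6
    exact mem_ports.1 h6
  have htt := patch_loop hsc hc hcl hP
  have hcx : ch x = 0 := h0 _ _ (R.gl_glue.sym _ _ hgl)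
  have hcy : ch ((NR R s ch).al ((NR R s ch).g^[n] x)) = 0 := h0 _ _ hgl
  rw [h1, h2, seam_zero h0, hcx, hcy, e3, tql_map, sub_zero, add_zero, add_zero]
  have := cos_four _ htt
  exact_mod_cast this

end Crest.Agent.R158.Dn211
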