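import Crest.Agent.R158.Dn2_211
import Crest.Agent.R158.Nz3_399

/-!
# Row 158, corner lemma (helper211), part 4: the L-shape, local and macroscopic strands

* `Lr n` : `[0,8n) × [0,4n) ∪ [4n,8n) × [-4n,0)`
* `XA n`, `DA n` : entering states, states inside; `sE`, `sX` : side of an entering / leaving state
  (clockwise `0 … 5`: W, N, E, floor right, step wall, floor left)
* `vp`, `ip`, `jp` : the six corners; `Xp`, `Dp`, `Yp` : windows of the corner `p`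
* `dich` : a strand from the side `i` to the side `j > i` is local at a corner or macroscopic
-/

set_option autoImplicit false

noncomputable section

namespace Crest.Agent.R158.Dn211

open MeasureTheory ProbabilityTheory unitInterval
open Crest.Agent.R158.Rs689 Crest.Agent.R158.Nm211 Crest.Agent.R158.Nz399

/-- the L-shape -/
def Lr (n : ℕ) : Finset (ℤ × ℤ) :=
  (Finset.Ico 0 (8 * (n : ℤ)) ×ˢ Finset.Ico 0 (4 * (n : ℤ))) ∪
    (Finset.Ico (4 * (n : ℤ)) (8 * (n : ℤ)) ×ˢ Finset.Ico (-(4 * (n : ℤ))) 0)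

theorem mem_Lr {n : ℕ} {t : ℤ × ℤ} : t ∈ Lr n ↔
    ((0 ≤ t.1 ∧ t.1 < 8 * n) ∧ 0 ≤ t.2 ∧ t.2 < 4 * n) ∨
      ((4 * n ≤ t.1 ∧ t.1 < 8 * n) ∧ -(4 * (n : ℤ)) ≤ t.2 ∧ t.2 < 0) := by
  simp only [Lr, Finset.mem_union, Finset.mem_product, Finset.mem_Ico]

/-- entering states -/
def XA (n : ℕ) : Finset (St ℤ) :=
  ((Lr n) ×ˢ (Finset.univ : Finset Dir)).filter fun c => mv c.1 (opp c.2) ∉ Lr n

theorem mem_XA {n : ℕ} {c : St ℤ} : c ∈ XA n ↔ c.1 ∈ Lr n ∧ mv c.1 (opp c.2) ∉ Lr n := by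
  simp [XA]

/-- states inside -/
def DA (n : ℕ) : Set (St ℤ) := {c | c.1 ∈ Lr n}

theorem XA_cases {n : ℕ} {c : St ℤ} (h : c ∈ XA n) :
    (c.2 = 1 ∧ c.1.1 = 0 ∧ 0 ≤ c.1.2 ∧ c.1.2 < 4 * n) ∨
    (c.2 = 2 ∧ c.1.2 = 4 * n - 1 ∧ 0 ≤ c.1.1 ∧ c.1.1 < 8 * n) ∨
    (c.2 = 3 ∧ c.1.1 = 8 * n - 1 ∧ -(4 * (n : ℤ)) ≤ c.1.2 ∧ c.1.2 < 4 * n) ∨
    (c.2 = 0 ∧ c.1.2 = -(4 * (n : ℤ)) ∧ 4 * n ≤ c.1.1 ∧ c.1.1 < 8 * n) ∨
    (c.2 = 1 ∧ c.1.1 = 4 * n ∧ -(4 * (n : ℤ)) ≤ c.1.2 ∧ c.1.2 < 0) ∨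
    (c.2 = 0 ∧ c.1.2 = 0 ∧ 0 ≤ c.1.1 ∧ c.1.1 < 4 * n) := by
  obtain ⟨⟨x, y⟩, d⟩ := c
  rw [mem_XA, mem_Lr, mem_Lr] at h
  fin_cases d <;> simp [mv, opp, dx, dy] at h ⊢ <;> omega

/-- leaving states -/
theorem out_cases {n : ℕ} {e : St ℤ} (h1 : e.1 ∉ Lr n) (h2 : mv e.1 (opp e.2) ∈ Lr n) :
    (e.2 = 3 ∧ e.1.1 = -1 ∧ 0 ≤ e.1.2 ∧ e.1.2 < 4 * n) ∨
    (e.2 = 0 ∧ e.1.2 = 4 * n ∧ 0 ≤ e.1.1 ∧ e.1.1 < 8 * n) ∨
    (e.2 = 1 ∧ e.1.1 = 8 * n ∧ -(4 * (n : ℤ)) ≤ e.1.2 ∧ e.1.2 < 4 * n) ∨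
    (e.2 = 2 ∧ e.1.2 = -(4 * (n : ℤ)) - 1 ∧ 4 * n ≤ e.1.1 ∧ e.1.1 < 8 * n) ∨
    (e.2 = 3 ∧ e.1.1 = 4 * n - 1 ∧ -(4 * (n : ℤ)) ≤ e.1.2 ∧ e.1.2 < 0) ∨
    (e.2 = 2 ∧ e.1.2 = -1 ∧ 0 ≤ e.1.1 ∧ e.1.1 < 4 * n) := by
  obtain ⟨⟨x, y⟩, d⟩ := e
  rw [mem_Lr] at h1 h2
  fin_cases d <;> simp [mv, opp, dx, dy] at h1 h2 ⊢ <;> omega

/-- side of an entering state -/
def sE (c : St ℤ) : Fin 6 :=
  match c.2 with
  | 0 => if c.1.2 < 0 then 3 else 5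
  | 1 => if c.1.2 < 0 then 4 else 0
  | 2 => 1
  | 3 => 2

/-- side of a leaving state -/
def sX (e : St ℤ) : Fin 6 :=
  match e.2 with
  | 0 => 1
  | 1 => 2
  | 2 => if e.1.2 < -1 then 3 else 5
  | 3 => if e.1.2 < 0 then 4 else 0

/-- corners -/
def vp (n : ℕ) (p : Fin 6) : ℤ × ℤ :=
  match p with
  | 0 => (0, 4 * n)
  | 1 => (8 * n, 4 * n)
  | 2 => (8 * n, -(4 * (n : ℤ)))
  | 3 => (4 * n, -(4 * (n : ℤ)))
  | 4 => (4 * n, 0)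
  | 5 => (0, 0)

/-- first side at the corner -/
def ip (p : Fin 6) : Fin 6 :=
  match p with
  | 0 => 0
  | 1 => 1
  | 2 => 2
  | 3 => 3
  | 4 => 4
  | 5 => 0

/-- second side at the corner -/
def jp (p : Fin 6) : Fin 6 :=
  match p with
  | 0 => 1
  | 1 => 2
  | 2 => 3
  | 3 => 4
  | 4 => 5
  | 5 => 5

/-- tiles of the window of the corner `p` -/
def Tp (n : ℕ) (p : Fin 6) : Finset (ℤ × ℤ) := (Lr n).filter fun t => rho (vp n p) t ≤ n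

/-- states inside the window -/
def Dp (n : ℕ) (p : Fin 6) : Set (St ℤ) := {c | c.1 ∈ Tp n p}

/-- starting states of the window -/
def Xp (n : ℕ) (p : Fin 6) : Finset (St ℤ) :=
  (XA n).filter fun c => sE c = ip p ∧ rho (vp n p) c.1 ≤ n

/-- leaving states -/
def Yp (n : ℕ) (p : Fin 6) : Set (St ℤ) := {e | e.1 ∉ Lr n ∧ sX e = jp p}

/-- number of strands around the corner `p` inside the window -/
def Kq (n : ℕ) (p : Fin 6) (s : ℤ × ℤ → Bool) : ℕ := KK (nx6 s) (Dp n p) (Yp n p) (Xp n p)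

/-- scale of the macroscopic strands -/
def hm (n : ℕ) : ℕ := (n + 1) / 2

/-- the strand from `c` leaves the L-shape at `e` -/
def ExitA (n : ℕ) (s : ℤ × ℤ → Bool) (c e : St ℤ) : Prop :=
  ∃ m, (∀ j < m, (nx6 s)^[j] c ∈ DA n) ∧ (nx6 s)^[m] c = e ∧ e.1 ∉ Lr n

/-- the strand from `c` is macroscopic -/
def MacA (n : ℕ) (s : ℤ × ℤ → Bool) (c : St ℤ) : Prop :=
  ∃ m, (∀ j < m, (nx6 s)^[j] c ∈ DA n) ∧ Far (hm n) c ((nx6 s)^[m] c)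

theorem exit_unique {n : ℕ} {s : ℤ × ℤ → Bool} {c e e' : St ℤ} (h : ExitA n s c e)
    (h' : ExitA n s c e') : e = e' := by
  obtain ⟨m, h1, h2, h3⟩ := h
  obtain ⟨m', h1', h2', h3'⟩ := h'
  have : m = m' := by
    rcases Nat.lt_trichotomy m m' with h | h | h
    · have := h1' m h
      rw [h2] at this
      exact absurd this h3
    · exact h
    · have := h1 m' h
      rw [h2'] at this
      exact absurd this h3'
  rw [← h2, ← h2', this]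

theorem prev_mem {n : ℕ} {s : ℤ × ℤ → Bool} {c : St ℤ} {m : ℕ} (hm : 0 < m)
    (h : ∀ j < m, (nx6 s)^[j] c ∈ DA n) :
    mv ((nx6 s)^[m] c).1 (opp ((nx6 s)^[m] c).2) ∈ Lr n := by
  obtain ⟨k, rfl⟩ : ∃ k, m = k + 1 := ⟨m - 1, by omega⟩
  have h1 := h k (by omega)
  rw [Function.iterate_succ_apply']
  set c' := (nx6 s)^[k] c
  have h2 : mv (nx6 s c').1 (opp (nx6 s c').2) = c'.1 := by
    unfold nx6 mv
    simp [dx_opp, dy_opp]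
  rw [h2]
  exact h1

theorem exit_cases {n : ℕ} {s : ℤ × ℤ → Bool} {c e : St ℤ} (hc : c ∈ XA n)
    (h : ExitA n s c e) : e.1 ∉ Lr n ∧ mv e.1 (opp e.2) ∈ Lr n := by
  obtain ⟨m, h1, h2, h3⟩ := h
  refine ⟨h3, ?_⟩
  rcases Nat.eq_zero_or_pos m with h0 | h0
  · subst h0
    rw [Function.iterate_zero, id] at h2
    exact absurd (mem_XA.1 hc).1 (h2 ▸ h3)
  · rw [← h2]
    exact prev_mem h0 h1

theorem fin6_lt {i j : Fin 6} (h : i < j) : (i : ℕ) < j := h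

/-- **local or macroscopic** -/
theorem dich {n : ℕ} (hn : 1 ≤ n) {s : ℤ × ℤ → Bool} {c e : St ℤ} (hc : c ∈ XA n)
    (h : ExitA n s c e) (hij : sE c < sX e) :
    MacA n s c ∨ ∃ p, c ∈ Xp n p ∧ Hit (nx6 s) (Dp n p) (Yp n p) c ∧
      sE c = ip p ∧ sX e = jp p := by
  by_cases hmac : MacA n s c
  · exact Or.inl hmac
  right
  obtain ⟨he1, he2⟩ := exit_cases hc h
  have hco := out_cases he1 he2
  have hcc := XA_cases hc
  obtain ⟨m, h1, h2, h3⟩ := h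
  have hnear : ∀ j ≤ m, |((nx6 s)^[j] c).1.1 - c.1.1| < hm n ∧
      |((nx6 s)^[j] c).1.2 - c.1.2| < hm n := by
    intro j hj
    exact not_far' fun hf => hmac ⟨j, fun i hi => h1 i (by omega), hf⟩
  have hen := hnear m le_rfl
  rw [h2] at hen
  simp only [abs_lt] at hen hnear
  have hh : 2 * hm n ≤ n + 1 := by unfold hm; omega
  have hcA := (mem_XA.1 hc).1
  have fin : ∀ p : Fin 6, sE c = ip p → sX e = jp p → rho (vp n p) c.1 ≤ n →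
      (∀ t : ℤ × ℤ, t ∈ Lr n → (-(hm n : ℤ) < t.1 - c.1.1 ∧ t.1 - c.1.1 < hm n) →
        (-(hm n : ℤ) < t.2 - c.1.2 ∧ t.2 - c.1.2 < hm n) → rho (vp n p) t ≤ n) →
      ∃ p, c ∈ Xp n p ∧ Hit (nx6 s) (Dp n p) (Yp n p) c ∧ sE c = ip p ∧ sX e = jp p := by
    intro p hp1 hp2 hp3 hp4
    refine ⟨p, Finset.mem_filter.2 ⟨hc, hp1, hp3⟩, ⟨m, fun j hj => ?_, ?_⟩, hp1, hp2⟩
    · have h4 := h1 j hj
      have h5 := hnear j hj.le
      exact Finset.mem_filter.2 ⟨h4, hp4 _ h4 h5.1 h5.2⟩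
    · rw [h2]
      exact ⟨he1, hp2⟩
  have hij' : (sE c : ℕ) < sX e := hij
  obtain ⟨⟨cx, cy⟩, cd⟩ := c
  obtain ⟨⟨ex, ey⟩, ed⟩ := e
  simp only at hcc hco hen
  rcases hcc with ⟨rfl, a1, a2, a3⟩ | ⟨rfl, a1, a2, a3⟩ | ⟨rfl, a1, a2, a3⟩ | ⟨rfl, a1, a2, a3⟩ |
    ⟨rfl, a1, a2, a3⟩ | ⟨rfl, a1, a2, a3⟩ <;>
  rcases hco with ⟨rfl, b1, b2, b3⟩ | ⟨rfl, b1, b2, b3⟩ | ⟨rfl, b1, b2, b3⟩ | ⟨rfl, b1, b2, b3⟩ |
    ⟨rfl, b1, b2, b3⟩ | ⟨rfl, b1, b2, b3⟩ <;>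
  first
  | (exfalso; omega)
  | (exfalso
     simp only [sE, sX] at hij'
     (try split_ifs at hij') <;> simp at hij' <;> omega)
  | (refine fin 0 ?_ ?_ ?_ ?_
     · simp only [sE, ip]; split_ifs <;> first | rfl | (exfalso; omega)
     · simp only [sX, jp]
     · simp only [rho, vp]; omega
     · rintro ⟨tx, ty⟩ ht h4 h5
       rw [mem_Lr] at ht
       simp only [rho, vp] at ht h4 h5 ⊢
       omega)
  | (refine fin 1 ?_ ?_ ?_ ?_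
     · simp only [sE, ip]
     · simp only [sX, jp]
     · simp only [rho, vp]; omega
     · rintro ⟨tx, ty⟩ ht h4 h5
       rw [mem_Lr] at ht
       simp only [rho, vp] at ht h4 h5 ⊢
       omega)
  | (refine fin 2 ?_ ?_ ?_ ?_
     · simp only [sE, ip]
     · simp only [sX, jp]; split_ifs <;> first | rfl | (exfalso; omega)
     · simp only [rho, vp]; omega
     · rintro ⟨tx, ty⟩ ht h4 h5
       rw [mem_Lr] at ht
       simp only [rho, vp] at ht h4 h5 ⊢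
       omega)
  | (refine fin 3 ?_ ?_ ?_ ?_
     · simp only [sE, ip]; split_ifs <;> first | rfl | (exfalso; omega)
     · simp only [sX, jp]; split_ifs <;> first | rfl | (exfalso; omega)
     · simp only [rho, vp]; omega
     · rintro ⟨tx, ty⟩ ht h4 h5
       rw [mem_Lr] at ht
       simp only [rho, vp] at ht h4 h5 ⊢
       omega)
  | (refine fin 4 ?_ ?_ ?_ ?_
     · simp only [sE, ip]; split_ifs <;> first | rfl | (exfalso; omega)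
     · simp only [sX, jp]; split_ifs <;> first | rfl | (exfalso; omega)
     · simp only [rho, vp]; omega
     · rintro ⟨tx, ty⟩ ht h4 h5
       rw [mem_Lr] at ht
       simp only [rho, vp] at ht h4 h5 ⊢
       omega)
  | (refine fin 5 ?_ ?_ ?_ ?_
     · simp only [sE, ip]; split_ifs <;> first | rfl | (exfalso; omega)
     · simp only [sX, jp]; split_ifs <;> first | rfl | (exfalso; omega)
     · simp only [rho, vp]; omega
     · rintro ⟨tx, ty⟩ ht h4 h5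
       rw [mem_Lr] at ht
       simp only [rho, vp] at ht h4 h5 ⊢
       omega)

end Crest.Agent.R158.Dn211
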