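import Crest.Agent.R158.Nm7_211
import Crest.Agent.R158.Sw0_300

/-!
R158, leaf F1 + deterministic half of F2 (helper470), part 1: walks in charts.

A *chart* of a glued complex of tiles (ports `T × ZMod 4`, glueing relation `G`) is a map from a
finite region `R` of `ℤ × ℤ` to the tiles which respects the glueings inside `R`; tiles may be
reflected (`F v = true`, sides `N` and `S` exchanged).  A strand that starts at a free end in a chart
either reaches sup-distance `n` (counted by helper211's `Mac`) or stays in the ball of radius `n` of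
the chart and ends at a free end there.
-/

set_option autoImplicit false

namespace Crest.Agent.R158.Ka470

open Crest.Agent.R158.Nm211
open Crest.Agent.R158.Sw300 (thru)

variable {T : Type*}

/-- the strand that enters through `x` (first element of `l`), visits the tiles of `l` (entering
through the ports of `l`) and is about to leave through `y` -/
inductive Wk (s : T → Bool) (G : T × ZMod 4 → T × ZMod 4 → Prop) (x : T × ZMod 4) :
    T × ZMod 4 → List (T × ZMod 4) → Prop
  | one : Wk s G x (x.1, thru (s x.1) x.2) [x]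
  | snoc {q r : T × ZMod 4} {l : List (T × ZMod 4)} : Wk s G x q l → G q r →
      Wk s G x (r.1, thru (s r.1) r.2) (l ++ [r])

/-- entering side of a strand moving in direction `d` -/
def en (d : Dir) : ZMod 4 :=
  match d with
  | 0 => 3
  | 1 => 0
  | 2 => 1
  | 3 => 2

/-- leaving side of a strand moving in direction `d` -/
def ex (d : Dir) : ZMod 4 :=
  match d with
  | 0 => 1
  | 1 => 2
  | 2 => 3
  | 3 => 0

/-- side of a (possibly reflected) tile -/
def sg (F : Bool) (a : ZMod 4) : ZMod 4 := if F then -a else a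

theorem sg_sg (F : Bool) (a : ZMod 4) : sg F (sg F a) = a := by
  cases F <;> simp [sg]

theorem sg_inj (F : Bool) {a b : ZMod 4} (h : sg F a = sg F b) : a = b := by
  have := congrArg (sg F) h
  rwa [sg_sg, sg_sg] at this

theorem ex_en (d : Dir) : ex (opp d) = en d := by fin_cases d <;> rfl

theorem en_inj {d e : Dir} (h : en d = en e) : d = e := by
  revert d e; decide

theorem ex_inj {d e : Dir} (h : ex d = ex e) : d = e := by
  revert d e; decide

/-- `thru` and `trn` -/
theorem thru_sg (F b : Bool) (d : Dir) : thru b (sg F (en d)) = sg F (ex (trn (xor (!F) b) d)) := by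
  cases F <;> cases b <;> fin_cases d <;> rfl

/-- charts -/
structure Ch (T : Type*) (G : T × ZMod 4 → T × ZMod 4 → Prop) where
  /-- tile at a position -/
  emb : ℤ × ℤ → T
  /-- reflected tiles -/
  F : ℤ × ℤ → Bool
  /-- region -/
  R : Finset (ℤ × ℤ)
  inj : Set.InjOn emb R
  glue : ∀ v ∈ R, ∀ d : Dir, mv v d ∈ R →
    G (emb v, sg (F v) (ex d)) (emb (mv v d), sg (F (mv v d)) (en d))

namespace Ch

variable {G : T × ZMod 4 → T × ZMod 4 → Prop} (C : Ch T G)

/-- port through which the state `c` enters its tile -/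
def pe (c : St ℤ) : T × ZMod 4 := (C.emb c.1, sg (C.F c.1) (en c.2))

/-- side `a` of the tile at `v` -/
def pt (v : ℤ × ℤ) (a : ZMod 4) : T × ZMod 4 := (C.emb v, sg (C.F v) a)

/-- flips for `rd` -/
def Fn (v : ℤ × ℤ) : Bool := !(C.F v)

/-- walk in the chart -/
def f (s : T → Bool) : St ℤ → St ℤ := nx6 (rd C.emb C.Fn s)

/-- states in the region -/
def D : Set (St ℤ) := {c | c.1 ∈ C.R}

theorem f_eq (s : T → Bool) (c : St ℤ) :
    C.f s c = (mv c.1 (trn (xor (C.Fn c.1) (s (C.emb c.1))) c.2),
      trn (xor (C.Fn c.1) (s (C.emb c.1))) c.2) := rfl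

/-- exit port of the tile of a state -/
theorem exit_eq (s : T → Bool) (c : St ℤ) :
    ((C.pe c).1, thru (s (C.pe c).1) (C.pe c).2) = C.pt c.1 (ex (C.f s c).2) := by
  simp only [pe, pt, f_eq, Fn]
  rw [thru_sg]

/-- the next state enters through the glued port -/
theorem glue_next (s : T → Bool) {c : St ℤ} (hc : c.1 ∈ C.R) (hc' : (C.f s c).1 ∈ C.R) :
    G (C.pt c.1 (ex (C.f s c).2)) (C.pe (C.f s c)) := by
  have h : (C.f s c).1 = mv c.1 (C.f s c).2 := rfl
  have h2 := C.glue c.1 hc (C.f s c).2 (h ▸ hc')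
  exact h2

theorem pe_inj {c c' : St ℤ} (hc : c.1 ∈ C.R) (hc' : c'.1 ∈ C.R) (h : C.pe c = C.pe c') :
    c = c' := by
  obtain ⟨v, d⟩ := c
  obtain ⟨w, e⟩ := c'
  simp only [pe, Prod.mk.injEq] at h
  have hv : v = w := C.inj hc hc' h.1
  subst hv
  rw [en_inj (sg_inj _ h.2)]

end Ch

variable {G : T × ZMod 4 → T × ZMod 4 → Prop}

/-- the strand from `c` reaches distance `n` inside the chart -/
def MacAt (C : Ch T G) (s : T → Bool) (n : ℕ) (c : St ℤ) : Prop :=
  ∃ m, (∀ j < m, (C.f s)^[j] c ∈ C.D) ∧ Far n c ((C.f s)^[m] c)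

/-- the port is free -/
def Free (G : T × ZMod 4 → T × ZMod 4 → Prop) (p : T × ZMod 4) : Prop := ∀ r, ¬ G p r

/-- the ball of radius `n` around `v0` is completely seen by the chart -/
def Ball (C : Ch T G) (n : ℕ) (v0 : ℤ × ℤ) : Prop :=
  ∀ v ∈ C.R, |v.1 - v0.1| < n → |v.2 - v0.2| < n → ∀ d : Dir, mv v d ∉ C.R →
    Free G (C.pt v (ex d))

theorem iter_D {C : Ch T G} {s : T → Bool} {n : ℕ} {c : St ℤ} (hmac : ¬ MacAt C s n c) {m : ℕ}
    (h : ∀ j < m, (C.f s)^[j] c ∈ C.D) : ¬ Far n c ((C.f s)^[m] c) :=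
  fun hf => hmac ⟨m, h, hf⟩

theorem not_far {n : ℕ} {c c' : St ℤ} (h : ¬ Far n c c') :
    |c'.1.1 - c.1.1| < n ∧ |c'.1.2 - c.1.2| < n := by
  unfold Far at h
  push Not at h
  exact h

/-- **a strand that is not macroscopic stays in its chart.** -/
theorem walk_small {C : Ch T G} (hG : ∀ p q r, G p q → G p r → q = r) {s : T → Bool} {n : ℕ}
    {c : St ℤ} (hc : c.1 ∈ C.R) (hB : Ball C n c.1) (hmac : ¬ MacAt C s n c)
    {y : T × ZMod 4} {l : List (T × ZMod 4)} (hw : Wk s G (C.pe c) y l) :
    ∃ m, (∀ j ≤ m, ((C.f s)^[j] c).1 ∈ C.R) ∧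
      l = (List.range (m + 1)).map (fun j => C.pe ((C.f s)^[j] c)) ∧
      y = C.pt ((C.f s)^[m] c).1 (ex ((C.f s)^[m + 1] c).2) := by
  induction hw with
  | one =>
    refine ⟨0, fun j hj => ?_, ?_, ?_⟩
    · have : j = 0 := by omega
      subst this
      exact hc
    · simp
    · exact C.exit_eq s c
  | @snoc q r l hw hg ih =>
    obtain ⟨m, h1, h2, h3⟩ := ih
    have hD : ∀ j < m + 1, (C.f s)^[j] c ∈ C.D := fun j hj => h1 j (by omega)
    have hnf := not_far (iter_D hmac (m := m) fun j hj => hD j (by omega))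
    -- the next position is in the region
    have hnext : ((C.f s)^[m + 1] c).1 ∈ C.R := by
      by_contra hcon
      have h4 : ((C.f s)^[m + 1] c).1 = mv ((C.f s)^[m] c).1 ((C.f s)^[m + 1] c).2 := by
        rw [Function.iterate_succ_apply']
        rfl
      rw [h4] at hcon
      have h5 := hB _ (h1 m le_rfl) hnf.1 hnf.2 _ hcon r
      rw [← h3] at h5
      exact h5 hg
    have h6 : G (C.pt ((C.f s)^[m] c).1 (ex ((C.f s)^[m + 1] c).2)) (C.pe ((C.f s)^[m + 1] c)) := by
      rw [Function.iterate_succ_apply'] at hnext ⊢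
      exact C.glue_next s (h1 m le_rfl) hnext
    rw [← h3] at h6
    have hr : r = C.pe ((C.f s)^[m + 1] c) := hG _ _ _ hg h6
    refine ⟨m + 1, fun j hj => ?_, ?_, ?_⟩
    · rcases Nat.lt_or_ge j (m + 1) with h | h
      · exact h1 j (by omega)
      · have : j = m + 1 := by omega
        rw [this]; exact hnext
    · rw [h2, hr, List.range_succ (n := m + 1), List.map_append]
      rfl
    · rw [hr, C.exit_eq, ← Function.iterate_succ_apply' (C.f s)]

/-- strands from a free end end at a free end (finite region) -/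
theorem walk_ends {C : Ch T G} (hS : ∀ p q, G p q → G q p) {s : T → Bool} {n : ℕ}
    {c : St ℤ} (hc : c.1 ∈ C.R) (hfree : Free G (C.pe c)) (hB : Ball C n c.1)
    (hmac : ¬ MacAt C s n c) :
    ∃ m, (∀ j ≤ m, ((C.f s)^[j] c).1 ∈ C.R) ∧
      Free G (C.pt ((C.f s)^[m] c).1 (ex ((C.f s)^[m + 1] c).2)) ∧
      Wk s G (C.pe c) (C.pt ((C.f s)^[m] c).1 (ex ((C.f s)^[m + 1] c).2))
        ((List.range (m + 1)).map (fun j => C.pe ((C.f s)^[j] c))) := by
  classical
  -- the walk leaves the region
  have hex : ∃ m, ((C.f s)^[m] c).1 ∉ C.R := by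
    by_contra! hall
    -- pigeonhole
    have hfin : Set.Finite (C.D) := by
      have : C.D = (fun p : (ℤ × ℤ) × Dir => (p.1, p.2)) ''
          ((C.R : Set (ℤ × ℤ)) ×ˢ (Set.univ : Set Dir)) := by
        ext ⟨v, d⟩
        simp [Ch.D]
      rw [this]
      exact (C.R.finite_toSet.prod Set.finite_univ).image _
    obtain ⟨a, -, b, -, hab, h⟩ := Set.infinite_univ.exists_ne_map_eq_of_mapsTo
      (f := fun j : ℕ => (C.f s)^[j] c) (t := C.D) (fun j _ => hall j) hfin
    wlog hlt : a < b generalizing a b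
    · exact this b a hab.symm h.symm (by omega)
    obtain ⟨k, rfl⟩ := Nat.exists_eq_add_of_lt hlt
    have h1 : (C.f s)^[a + k + 1] c = (C.f s)^[a] ((C.f s)^[k + 1] c) := by
      rw [← Function.iterate_add_apply]; congr 1
    have h2 : (C.f s)^[k + 1] c = c := by
      have h3 : Function.Injective ((C.f s)^[a]) := (nx6_inj _).iterate a
      exact (h3 (by rw [← h1]; exact h)).symm
    -- the entering port of `c` is glued
    have h4 := C.glue_next s (c := (C.f s)^[k] c) (hall k) (by
      rw [← Function.iterate_succ_apply' (C.f s)]; exact hall (k + 1))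
    rw [← Function.iterate_succ_apply' (C.f s), h2] at h4
    exact hfree _ (hS _ _ h4)
  have hN := Nat.find_spec hex
  have hmin := fun j => Nat.find_min hex (m := j)
  set N := Nat.find hex with hNdef
  have hN0 : N ≠ 0 := by
    intro h0
    rw [h0] at hN
    exact hN hc
  obtain ⟨m, hm⟩ := Nat.exists_eq_succ_of_ne_zero hN0
  have hin : ∀ j ≤ m, ((C.f s)^[j] c).1 ∈ C.R := fun j hj => by
    have := hmin j (by omega)
    push Not at this
    exact this
  have hnf := not_far (iter_D hmac (m := m) fun j hj => hin j (by omega))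
  refine ⟨m, hin, ?_, ?_⟩
  · refine hB _ (hin m le_rfl) hnf.1 hnf.2 _ ?_
    have h4 : ((C.f s)^[m + 1] c).1 = mv ((C.f s)^[m] c).1 ((C.f s)^[m + 1] c).2 := by
      rw [Function.iterate_succ_apply']
      rfl
    rw [← h4]
    rw [hm] at hN
    exact hN
  · clear hnf hN hmin hm hN0 hNdef
    induction m with
    | zero =>
      have := Wk.one (s := s) (G := G) (x := C.pe c)
      rw [C.exit_eq] at this
      simpa using this
    | succ k ih =>
      have h1 := ih fun j hj => hin j (by omega)
      have h2 := C.glue_next s (c := (C.f s)^[k] c) (hin k (by omega)) (by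
        rw [← Function.iterate_succ_apply' (C.f s)]; exact hin (k + 1) le_rfl)
      rw [← Function.iterate_succ_apply' (C.f s)] at h2
      have h3 := Wk.snoc h1 h2
      rw [C.exit_eq, ← Function.iterate_succ_apply' (C.f s)] at h3
      rw [List.range_succ (n := k + 1), List.map_append]
      exact h3

/-- hypothesis `ent` of the moment bounds -/
theorem ent_X {C : Ch T G} (hS : ∀ p q, G p q → G q p) {X : Finset (St ℤ)}
    (hX : ∀ c ∈ X, c.1 ∈ C.R ∧ Free G (C.pe c)) (c : St ℤ) (hc : c ∈ C.D) (b : ℤ × ℤ → Bool) :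
    nx6 b c ∉ X := by
  intro h
  obtain ⟨h1, h2⟩ := hX _ h
  have h3 := C.glue c.1 hc (nx6 b c).2 h1
  exact h2 _ (hS _ _ h3)

open Classical in
/-- the number of macroscopic ends is at most the sum of the chart counts -/
theorem count_le {J : ℕ} (C : Fin J → Ch T G) (X : Fin J → Finset (St ℤ)) (s : T → Bool) (n : ℕ)
    (P : Finset (T × ZMod 4))
    (hP : ∀ x ∈ P, ∃ b, ∃ c ∈ X b, (C b).pe c = x ∧ MacAt (C b) s n c) :
    P.card ≤ ∑ b, Mac (nx6 (rd (C b).emb (C b).Fn s)) (C b).D (X b) n := by
  classical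
  have h1 : P.card ≤ (Finset.univ.sigma fun b : Fin J =>
      (X b).filter fun c => MacAt (C b) s n c).card := by
    rcases P.eq_empty_or_nonempty with rfl | ⟨x0, hx0⟩
    · simp
    haveI : Nonempty (Fin J) := ⟨(hP x0 hx0).choose⟩
    haveI : Nonempty (St ℤ) := ⟨((0, 0), 0)⟩
    choose! g hg using hP
    choose! h hh using hg
    refine Finset.card_le_card_of_injOn (fun x => ⟨g x, h x⟩) ?_ ?_
    · intro x hx
      have := hh x hx
      simp only [Finset.coe_sigma, Set.mem_sigma_iff, Finset.coe_univ, Set.mem_univ, true_and,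
        Finset.coe_filter]
      exact ⟨this.1, this.2.2⟩
    · intro x hx y hy hxy
      have e1 := (hh x hx).2.1
      have e2 := (hh y hy).2.1
      simp only [Sigma.mk.injEq] at hxy
      obtain ⟨h3, h4⟩ := hxy
      rw [← e1, ← e2]
      have : ∀ (b b' : Fin J) (c c' : St ℤ), b = b' → HEq c c' → (C b).pe c = (C b').pe c' := by
        rintro b b' c c' rfl h
        rw [eq_of_heq h]
      exact this _ _ _ _ h3 h4
  rw [Finset.card_sigma] at h1
  exact h1

end Crest.Agent.R158.Ka470
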