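import Crest.Agent.R158.Dn3_211
import Crest.Agent.R158.Dn4_211
import Crest.Agent.R158.Ad5_350
import Crest.Agent.R158.Xr8_249
import Crest.Agent.R158.Ka1_470

/-!
# Row 158, corner lemma (helper211), part 5: strands of the L-shape as walks, product formula

* `pq c` : port through which the state `c` enters its tile
* `strand` : the strand from `c` leaves at `e`, walk from `pq c` to `pq (rev e)`
* `z_prod` : `z V` as a product over the cut ends
-/

set_option autoImplicit false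
set_option linter.unusedSimpArgs false

noncomputable section

open Finset

namespace Crest.Agent.R158.Dn211

open MeasureTheory ProbabilityTheory
open Crest.Agent.R158.Rs689 Crest.Agent.R158.Nm211
open Crest.Agent.R158.Sw300 (Port thru thru_thru thru_ne tn)
open Crest.Agent.R158.Ad350
open Crest.Agent.R158.Pt266 (RG RFree Wk tt rg_glu CwC patch_turn patch_loop patch_end pass Fr tt_rv)
open Crest.Agent.R158.Xr249 (Reg full)
open Crest.Agent.R158.Ka470 (en ex ex_en thru_sg)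

/-- port through which a state enters its tile -/
def pq (c : Nm211.St ℤ) : (ℤ × ℤ) × ZMod 4 := (c.1, en c.2)

theorem pq_inj : Function.Injective pq := by
  rintro ⟨v, d⟩ ⟨w, e⟩ h
  simp only [pq, Prod.mk.injEq] at h
  rw [h.1, Ka470.en_inj h.2]

theorem en_surj (a : ZMod 4) : ∃ d : Dir, en d = a := by
  revert a; decide

theorem pq_surj (a : (ℤ × ℤ) × ZMod 4) : ∃ c, pq c = a := by
  obtain ⟨d, hd⟩ := en_surj a.2
  exact ⟨(a.1, d), by rw [pq, hd]⟩

/-- splitting convention of helper266 / helper350 -/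
def flp (s : ℤ × ℤ → Bool) (v : ℤ × ℤ) : Bool := !s v

theorem thru_en (b : Bool) (d : Dir) : thru (!b) (en d) = ex (trn b d) := by
  have := thru_sg false (!b) d
  simpa [Ka470.sg] using this

theorem pass_pq (s : ℤ × ℤ → Bool) (c : Nm211.St ℤ) :
    pass (flp s) (pq c) = (c.1, ex (nx6 s c).2) := by
  unfold Pt266.pass pq flp nx6
  simp only [thru_en]

variable {A : Finset (ℤ × ℤ)}

/-- glueings of a full region -/
theorem rg_full {t : ℤ × ℤ} {d : Dir} {b : (ℤ × ℤ) × ZMod 4} :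
    RG (full A) (t, ex d) b ↔ (t ∈ A ∧ mv t d ∈ A) ∧ b = (mv t d, en d) := by
  obtain ⟨x, y⟩ := t
  unfold RG
  have e : ∀ q : (ℤ × ℤ) × ZMod 4, (some b : Port (ℤ × ℤ)) = some q ↔ b = q := fun q =>
    Option.some_inj
  fin_cases d
  · show (full A).gl (some ((x, y), 1)) (some b) ↔ _
    rw [Reg.gl_1, Xr249.full_v, e]
    simp [mv, dx, dy, en]
  · show (full A).gl (some ((x, y), 2)) (some b) ↔ _
    rw [Reg.gl_2, Xr249.full_h, e]
    simp [mv, dx, dy, en]
  · show (full A).gl (some ((x, y), 3)) (some b) ↔ _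
    rw [Reg.gl_3, Xr249.full_v, e]
    simp [mv, dx, dy, en, ← sub_eq_add_neg, and_comm]
  · show (full A).gl (some ((x, y), 0)) (some b) ↔ _
    rw [Reg.gl_0, Xr249.full_h, e]
    simp [mv, dx, dy, en, ← sub_eq_add_neg, and_comm]

theorem rfree_pq {c : Nm211.St ℤ} :
    RFree (full A) (pq c) ↔ c.1 ∈ A ∧ mv c.1 (opp c.2) ∉ A := by
  have h1 : pq c = (c.1, ex (opp c.2)) := by unfold pq; rw [ex_en]
  unfold RFree Fr
  rw [h1]
  simp only [Xr249.full_P, rg_full]
  constructor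
  · rintro ⟨h2, h3⟩
    exact ⟨h2, fun h4 => h3 _ ⟨⟨h2, h4⟩, rfl⟩⟩
  · rintro ⟨h2, h3⟩
    exact ⟨h2, fun b hb => h3 hb.1.2⟩

theorem rfree_XA {n : ℕ} {c : Nm211.St ℤ} : RFree (full (Lr n)) (pq c) ↔ c ∈ XA n := by
  rw [rfree_pq, mem_XA]

/-- a walk is an orbit of states -/
theorem wk_iter {s : ℤ × ℤ → Bool} {c : Nm211.St ℤ} (hc : c.1 ∈ A) {y : (ℤ × ℤ) × ZMod 4}
    {l : List ((ℤ × ℤ) × ZMod 4)} (h : Wk (flp s) (RG (full A)) (pq c) y l) :
    ∃ m, (∀ j ≤ m, ((nx6 s)^[j] c).1 ∈ A) ∧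
      y = (((nx6 s)^[m] c).1, ex ((nx6 s)^[m + 1] c).2) := by
  induction h with
  | one =>
    refine ⟨0, fun j hj => ?_, ?_⟩
    · have : j = 0 := by omega
      subst this
      exact hc
    · exact pass_pq s c
  | @snoc q r l h1 h2 ih =>
    obtain ⟨m, h3, h4⟩ := ih
    rw [h4, rg_full] at h2
    have h5 : mv ((nx6 s)^[m] c).1 ((nx6 s)^[m + 1] c).2 = ((nx6 s)^[m + 1] c).1 := by
      rw [Function.iterate_succ_apply']; rfl
    rw [h5] at h2
    refine ⟨m + 1, fun j hj => ?_, ?_⟩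
    · rcases Nat.lt_or_ge j (m + 1) with h | h
      · exact h3 j (by omega)
      · have : j = m + 1 := by omega
        rw [this]; exact h2.1.2
    · rw [h2.2]
      have h6 : ((((nx6 s)^[m + 1] c).1, en ((nx6 s)^[m + 1] c).2) : (ℤ × ℤ) × ZMod 4) =
          pq ((nx6 s)^[m + 1] c) := rfl
      rw [h6, pass_pq, ← Function.iterate_succ_apply' (nx6 s)]

theorem rev_rev (c : Nm211.St ℤ) : rev (rev c) = c := by
  obtain ⟨⟨x, y⟩, d⟩ := c
  unfold rev mv
  simp [dx_opp, dy_opp]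

/-- the reversed orbit -/
theorem rev_iter (s : ℤ × ℤ → Bool) (c : Nm211.St ℤ) (m : ℕ) : ∀ k ≤ m,
    (nx6 s)^[k] (rev ((nx6 s)^[m] c)) = rev ((nx6 s)^[m - k] c) := by
  intro k
  induction k with
  | zero => intro _; rfl
  | succ k ih =>
    intro hk
    rw [Function.iterate_succ_apply', ih (by omega)]
    obtain ⟨r, hr⟩ : ∃ r, m - k = r + 1 := ⟨m - k - 1, by omega⟩
    have hr' : m - (k + 1) = r := by omega
    rw [hr, hr', Function.iterate_succ_apply', rev_nx]

theorem exit_rev {n : ℕ} {s : ℤ × ℤ → Bool} {c e : Nm211.St ℤ} (hc : c ∈ XA n)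
    (h : ExitA n s c e) : ExitA n s (rev e) (rev c) := by
  obtain ⟨m, h1, rfl, h3⟩ := h
  refine ⟨m, fun k hk => ?_, ?_, ?_⟩
  · rw [rev_iter s c m k hk.le]
    exact prev_mem (by omega) fun j hj => h1 j (by omega)
  · rw [rev_iter s c m m le_rfl, Nat.sub_self]
    rfl
  · exact (mem_XA.1 hc).2

/-- **the strand from an entering state** -/
theorem strand {n : ℕ} (hsc : (full (Lr n)).SC) (hcn : (full (Lr n)).Conn) (s : ℤ × ℤ → Bool)
    {c : Nm211.St ℤ} (hc : c ∈ XA n) : ∃ e l, ExitA n s c e ∧ rev e ∈ XA n ∧ rev e ≠ c ∧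
      Wk (flp s) (RG (full (Lr n))) (pq c) (pq (rev e)) l := by
  obtain ⟨y, l, hw, hy, hne⟩ := patch_end hsc hcn (flp s) (rfree_XA.2 hc)
  obtain ⟨m, h1, h2⟩ := wk_iter (mem_XA.1 hc).1 hw
  have h3 : pq (rev ((nx6 s)^[m + 1] c)) = y := by
    rw [h2]
    unfold pq rev
    rw [← ex_en, opp_opp]
    congr 1
    rw [Function.iterate_succ_apply']
    unfold nx6 mv
    simp [dx_opp, dy_opp]
  have h4 : rev ((nx6 s)^[m + 1] c) ∈ XA n := by
    rw [← rfree_XA, h3]
    exact hy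
  refine ⟨(nx6 s)^[m + 1] c, l, ⟨m + 1, fun j hj => h1 j (by omega), rfl, ?_⟩, h4, ?_, ?_⟩
  · have h5 := (mem_XA.1 h4).2
    have h6 : mv (rev ((nx6 s)^[m + 1] c)).1 (opp (rev ((nx6 s)^[m + 1] c)).2) =
        ((nx6 s)^[m + 1] c).1 := by
      have := congrArg Prod.fst (rev_rev ((nx6 s)^[m + 1] c))
      exact this
    rw [h6] at h5
    exact h5
  · rintro h5
    rw [h5] at h3
    exact hne h3.symm
  · rw [h3]; exact hw

/-- sides -/
theorem sE_rev (e : Nm211.St ℤ) : sE (rev e) = sX e := by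
  obtain ⟨⟨x, y⟩, d⟩ := e
  have hy0 : (y + 0 < 0) = (y < 0) := by rw [add_zero]
  have hy1 : (y + 1 < 0) = (y < -1) := propext (by omega)
  fin_cases d
  · rfl
  · rfl
  · show (if y + 1 < 0 then (3 : Fin 6) else 5) = if y < -1 then 3 else 5
    simp only [hy1]
  · show (if y + 0 < 0 then (4 : Fin 6) else 0) = if y < 0 then 4 else 0
    simp only [hy0]

theorem sX_rev (c : Nm211.St ℤ) : sX (rev c) = sE c := by
  have h3 := sE_rev (rev c)
  rw [rev_rev] at h3
  exact h3.symm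

/-! ### product over the cut ends -/

section prod

variable {P : Type*} [DecidableEq P] {N : Net P}

/-- **`z V` as a product over the cut ends** -/
theorem z_prod (h : N.Ok) (hl : ∀ x ∈ N.V, ∀ n, N.Strand x n → N.be (N.al (N.g^[n] x)) = x →
    N.z (N.cls x) = 1) (ω : P → ℂ)
    (hω : ∀ x ∈ Ends N, ∀ y ∈ Ends N, x ≠ y → N.cls y = N.cls x → ω x * ω y = N.z (N.cls x)) :
    N.z N.V = ∏ x ∈ Ends N, ω x := by
  classical
  rw [Net.z_classes h h.clV]
  rw [← Finset.prod_fiberwise_of_maps_to (s := Ends N) (t := N.classes N.V) (g := N.cls)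
    (fun x hx => Finset.mem_image_of_mem _ (mem_Ends.1 hx).1) ω]
  refine Finset.prod_congr rfl fun c hc => ?_
  obtain ⟨p, hp, rfl⟩ := Finset.mem_image.1 hc
  obtain ⟨x, hx, n, hs, e⟩ := Net.exists_strand h hp
  rw [e]
  rcases hs.2 with ⟨h1, h2⟩ | ⟨h1, h2⟩
  · obtain ⟨h3, h4⟩ := arc_ends h hx hs.1 h1 h2
    rw [h4, Finset.prod_pair h3]
    have hy : N.al (N.g^[n] x) ∈ Ends N ∧ N.cls (N.al (N.g^[n] x)) = N.cls x := by
      have : N.al (N.g^[n] x) ∈ (Ends N).filter fun p => N.cls p = N.cls x := by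
        rw [h4]; simp
      exact Finset.mem_filter.1 this
    exact (hω x (mem_Ends.2 ⟨hx, h1⟩) _ hy.1 h3 hy.2).symm
  · have hemp : ((Ends N).filter fun y => N.cls y = N.cls x) = ∅ := by
      refine Finset.filter_eq_empty_iff.2 fun {y} hy hc => ?_
      exact loop_ends h hx hs h1 (mem_Ends.1 hy).1 hc (mem_Ends.1 hy).2
    rw [hemp, Finset.prod_empty]
    exact hl x hx n hs h1

end prod

end Crest.Agent.R158.Dn211
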