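import Crest.Agent.R158.Dn5_211
import Crest.Agent.R158.Da1_570
import Crest.Agent.R158.Da2_570

/-!
# Row 158, corner lemma (helper211), part 6: value of the network of the L-shape

* `ww σ i j` : weight of a strand from the side `i` to the side `j > i`, gauge `σ = ± 1`
* `PP σ n s` : product of the weights of the strands
* `z_LR` : `z V = (3^{1/4})^{|XA|} PP`
* `PP_int` : `∫ PP 1 = ∫ PP (-1)`
-/

set_option autoImplicit false
set_option linter.unusedSimpArgs false

noncomputable section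

open Finset

namespace Crest.Agent.R158.Dn211

open MeasureTheory ProbabilityTheory
open Crest.Agent.R158.Rs689 Crest.Agent.R158.Nm211
open Crest.Agent.R158.Sw300 (Port thru thru_thru thru_ne tn)
open Crest.Agent.R158.Ad350
open Crest.Agent.R158.Pt266 (RG RFree Wk tt rg_glu CwC patch_turn patch_loop patch_end pass Fr tt_rv)
open Crest.Agent.R158.Xr249 (Reg full)
open Crest.Agent.R158.Ka470 (en ex ex_en thru_sg)

theorem Lr_eq (n : ℕ) : Da570.Lr n = Lr n := rfl

/-- gauge -/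
def gg (i : Fin 6) : ℝ := if i = 4 then 1 else 0

/-- weight of a strand from the side `i` to the side `j > i` -/
def ww (σ : ℝ) (i j : Fin 6) : ℝ :=
  2 * Real.cos (Real.pi / 12 * (2 - ((Da570.lv j - Da570.lv i : ℤ) : ℝ) + σ * (gg j - gg i))) /
    Real.sqrt 3

theorem sqrt3_pos : 0 < Real.sqrt 3 := Real.sqrt_pos.2 (by norm_num)

open Classical in
/-- exit of the strand from `c` -/
def exA (n : ℕ) (s : ℤ × ℤ → Bool) (c : Nm211.St ℤ) : Nm211.St ℤ :=
  if h : ∃ e, ExitA n s c e then h.choose else c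

theorem exA_eq {n : ℕ} {s : ℤ × ℤ → Bool} {c e : Nm211.St ℤ} (h : ExitA n s c e) :
    exA n s c = e := by
  unfold exA
  rw [dif_pos ⟨e, h⟩]
  exact exit_unique (Exists.choose_spec (⟨e, h⟩ : ∃ e, ExitA n s c e)) h

/-- weight attached to the first end of a strand -/
def Wt (σ : ℝ) (n : ℕ) (s : ℤ × ℤ → Bool) (c : Nm211.St ℤ) : ℝ :=
  if sE c < sX (exA n s c) then ww σ (sE c) (sX (exA n s c)) else 1

/-- product of the weights of the strands -/
def PP (σ : ℝ) (n : ℕ) (s : ℤ × ℤ → Bool) : ℝ := ∏ c ∈ XA n, Wt σ n s c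

open Classical in
/-- phases of the cut ends -/
def chL (n : ℕ) (σ : ℝ) : Port (ℤ × ℤ) → ℝ
  | none => 0
  | some a => if RFree (full (Lr n)) a ∧ Da570.sid a = 4 then σ * (Real.pi / 12) else 0

theorem chL_pos {n : ℕ} {σ : ℝ} {a : (ℤ × ℤ) × ZMod 4}
    (h : RFree (full (Lr n)) a ∧ Da570.sid a = 4) : chL n σ (some a) = σ * (Real.pi / 12) := by
  classical
  unfold chL
  exact if_pos h

theorem chL_zero {n : ℕ} {σ : ℝ} {a : (ℤ × ℤ) × ZMod 4}
    (h : ¬ (RFree (full (Lr n)) a ∧ Da570.sid a = 4)) : chL n σ (some a) = 0 := by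
  classical
  unfold chL
  exact if_neg h

theorem chL_nat (n : ℕ) (σ : ℝ) : Nat0 (full (Lr n)) (chL n σ) := by
  intro p q h
  obtain ⟨a, b, rfl, rfl, h3⟩ := gl_some h
  refine chL_zero ?_
  rintro ⟨h4, -⟩
  exact h4.2 _ h3

theorem sid_pq (c : Nm211.St ℤ) : Da570.sid (pq c) = sE c := by
  obtain ⟨⟨x, y⟩, d⟩ := c
  fin_cases d
  · rfl
  · rfl
  · rfl
  · rfl

theorem chL_pq {n : ℕ} {σ : ℝ} {c : Nm211.St ℤ} (hc : c ∈ XA n) :
    chL n σ (some (pq c)) = Real.pi / 12 * (σ * gg (sE c)) := by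
  unfold gg
  by_cases h : sE c = 4
  · rw [chL_pos ⟨rfree_XA.2 hc, by rw [sid_pq, h]⟩, if_pos h]; ring
  · rw [chL_zero (fun hh => h (by rw [← sid_pq]; exact hh.2)), if_neg h]; ring

theorem chL_neg (n : ℕ) (σ : ℝ) (p : Port (ℤ × ℤ)) : chL n (-σ) p = -chL n σ p := by
  cases p with
  | none => simp [chL]
  | some a =>
    by_cases h : RFree (full (Lr n)) a ∧ Da570.sid a = 4
    · rw [chL_pos h, chL_pos h]; ring
    · rw [chL_zero h, chL_zero h]; ring

theorem ww_self (σ : ℝ) (i : Fin 6) : Real.sqrt 3 = 2 * Real.cos (Real.pi / 12 *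
    (2 - ((Da570.lv i - Da570.lv i : ℤ) : ℝ) + σ * (gg i - gg i))) := by
  have : Real.pi / 12 * (2 - ((Da570.lv i - Da570.lv i : ℤ) : ℝ) + σ * (gg i - gg i)) =
      Real.pi / 6 := by
    rw [sub_self, sub_self]; push_cast; ring
  rw [this, Real.cos_pi_div_six]; ring

/-- **value of a strand** -/
theorem arc_val {n : ℕ} (hn : 1 ≤ n) {σ : ℝ} {s : ℤ × ℤ → Bool} {c e : Nm211.St ℤ}
    {l : List ((ℤ × ℤ) × ZMod 4)} (hc : c ∈ XA n) (he : ExitA n s c e) (hr : rev e ∈ XA n)
    (hne : rev e ≠ c) (hw : Wk (flp s) (RG (full (Lr n))) (pq c) (pq (rev e)) l) :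
    (NR (full (Lr n)) (flp s) (chL n σ)).z
      ((NR (full (Lr n)) (flp s) (chL n σ)).cls (some (pq c))) =
      ((Real.sqrt 3 * (Wt σ n s c * Wt σ n s (rev e)) : ℝ) : ℂ) := by
  have hx := rfree_XA.2 hc
  have hy := rfree_XA.2 hr
  rw [arc_value (chL_nat n σ) hx hy hw, chL_pq hc, chL_pq hr]
  suffices hreal : 2 * Real.cos (Real.pi / 12 * (-(tt (flp s) l : ℝ)) +
        (Real.pi / 12 * (σ * gg (sE (rev e))) - Real.pi / 12 * (σ * gg (sE c)))) =
        Real.sqrt 3 * (Wt σ n s c * Wt σ n s (rev e)) by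
    rw [← hreal]; push_cast; ring
  have hsc : (full (Lr n)).SC := Da570.lr_sc n
  have hcn : (full (Lr n)).Conn := Da570.lr_conn (n := n)
  have e1 : exA n s c = e := exA_eq he
  have e2 : exA n s (rev e) = rev c := exA_eq (exit_rev hc he)
  have e3 : sX e = sE (rev e) := (sE_rev e).symm
  have e4 : sX (rev c) = sE c := sX_rev c
  have hW1 : Wt σ n s c = if sE c < sE (rev e) then ww σ (sE c) (sE (rev e)) else 1 := by
    unfold Wt; rw [e1, e3]
  have hW2 : Wt σ n s (rev e) = if sE (rev e) < sE c then ww σ (sE (rev e)) (sE c) else 1 := by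
    unfold Wt; rw [e2, e4]
  rw [hW1, hW2]
  have h3 := sqrt3_pos
  have hxy : pq c ≠ pq (rev e) := fun h => hne (pq_inj h).symm
  generalize hi : sE c = i
  generalize hj : sE (rev e) = j
  rcases Da570.lr_chain hn hx hy hxy with ⟨h1, m, h2, h4⟩ | ⟨h1, m, h2, h4⟩
  · rw [sid_pq, sid_pq, hi, hj] at h2
    rw [sid_pq, sid_pq, hi, hj] at h1
    have ht := patch_turn hsc hcn hx hy hw h2 hxy.symm h4
    have hv : 2 * Real.cos (Real.pi / 12 * (-(tt (flp s) l : ℝ)) +
        (Real.pi / 12 * (σ * gg j) - Real.pi / 12 * (σ * gg i))) =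
        2 * Real.cos (Real.pi / 12 * (2 - ((Da570.lv j - Da570.lv i : ℤ) : ℝ) +
          σ * (gg j - gg i))) := by
      rw [ht]; push_cast; congr 2; ring
    rw [hv]
    rcases h1.lt_or_eq with h5 | h5
    · rw [if_pos h5, if_neg (not_lt.2 h1), mul_one]
      unfold ww
      field_simp
    · subst h5
      rw [if_neg (lt_irrefl _), mul_one, mul_one]
      exact_mod_cast (ww_self σ i).symm
  · rw [sid_pq, sid_pq, hi, hj] at h2
    rw [sid_pq, sid_pq, hi, hj] at h1
    have hsym : ∀ a b, RG (full (Lr n)) a b → RG (full (Lr n)) b a := fun a b h =>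
      (full (Lr n)).gl_glue.sym _ _ h
    have ht := patch_turn hsc hcn hy hx (hw.reverse hsym) h2 hxy h4
    rw [tt_rv] at ht
    have hv : 2 * Real.cos (Real.pi / 12 * (-(tt (flp s) l : ℝ)) +
        (Real.pi / 12 * (σ * gg j) - Real.pi / 12 * (σ * gg i))) =
        2 * Real.cos (Real.pi / 12 * (2 - ((Da570.lv i - Da570.lv j : ℤ) : ℝ) +
          σ * (gg i - gg j))) := by
      have ht' : (tt (flp s) l : ℝ) = -(((Da570.lv i - Da570.lv j : ℤ) : ℝ) - 2) := by
        have : tt (flp s) l = -((Da570.lv i - Da570.lv j) - 2) := by linarith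
        rw [this]; push_cast; ring
      rw [ht', ← Real.cos_neg]; push_cast; congr 2; ring
    rw [hv]
    rcases h1.lt_or_eq with h5 | h5
    · rw [if_neg (not_lt.2 h1), if_pos h5, one_mul]
      unfold ww
      field_simp
    · subst h5
      rw [if_neg (lt_irrefl _), mul_one, mul_one]
      exact_mod_cast (ww_self σ j).symm

/-- fourth root of three -/
def q3 : ℝ := Real.sqrt (Real.sqrt 3)

theorem q3_sq : q3 * q3 = Real.sqrt 3 := Real.mul_self_sqrt sqrt3_pos.le

theorem q3_pos : 0 < q3 := Real.sqrt_pos.2 sqrt3_pos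

/-- the state entering at a port -/
def pqi : (ℤ × ℤ) × ZMod 4 → Nm211.St ℤ := Function.surjInv pq_surj

theorem pqi_pq (c : Nm211.St ℤ) : pqi (pq c) = c :=
  pq_inj (Function.surjInv_eq pq_surj (pq c))

/-- **value of the network of the L-shape** -/
theorem z_LR {n : ℕ} (hn : 1 ≤ n) (σ : ℝ) (s : ℤ × ℤ → Bool) :
    (NR (full (Lr n)) (flp s) (chL n σ)).z (ports (full (Lr n)).P) =
      ((q3 ^ (XA n).card * PP σ n s : ℝ) : ℂ) := by
  classical
  have hsc : (full (Lr n)).SC := Da570.lr_sc n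
  have hcn : (full (Lr n)).Conn := Da570.lr_conn (n := n)
  set N := NR (full (Lr n)) (flp s) (chL n σ) with hN
  let ω : Port (ℤ × ℤ) → ℂ := fun p => match p with
    | none => 1
    | some a => ((q3 * Wt σ n s (pqi a) : ℝ) : ℂ)
  have hends : Ends N = (XA n).image fun c => (some (pq c) : Port (ℤ × ℤ)) := by
    ext p
    rw [hN, mem_ends, Finset.mem_image]
    constructor
    · rintro ⟨a, rfl, ha⟩
      obtain ⟨c, rfl⟩ := pq_surj a
      exact ⟨c, rfree_XA.1 ha, rfl⟩
    · rintro ⟨c, hc, rfl⟩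
      exact ⟨pq c, rfl, rfree_XA.2 hc⟩
  have key := z_prod (N := N) (NR_ok _ _ _)
    (fun x hx m hs hb => loop_value hsc hcn (chL_nat n σ) hx hs hb) ω ?_
  · have hV : N.V = ports (full (Lr n)).P := rfl
    rw [hV] at key
    rw [key, hends, Finset.prod_image]
    · unfold PP
      rw [← Finset.prod_const, ← Finset.prod_mul_distrib]
      push_cast
      refine Finset.prod_congr rfl fun c _ => ?_
      show ((q3 * Wt σ n s (pqi (pq c)) : ℝ) : ℂ) = _
      rw [pqi_pq]; push_cast; rfl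
    · intro c _ c' _ h
      exact pq_inj (Option.some.inj h)
  · intro x hx y hy hxy hcl
    rw [hends, Finset.mem_image] at hx
    obtain ⟨c, hc, rfl⟩ := hx
    obtain ⟨e, l, he, hr, hne, hw⟩ := strand hsc hcn s hc
    obtain ⟨-, h2⟩ := arc_cls (ch := chL n σ) (rfree_XA.2 hc) (rfree_XA.2 hr) hw
    have hy2 : y ∈ ({some (pq c), some (pq (rev e))} : Finset (Port (ℤ × ℤ))) := by
      rw [← h2]
      exact Finset.mem_filter.2 ⟨hy, hcl⟩
    rw [Finset.mem_insert, Finset.mem_singleton] at hy2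
    rcases hy2 with h3 | h3
    · exact absurd h3.symm hxy
    · rw [h3]
      show ((q3 * Wt σ n s (pqi (pq c)) : ℝ) : ℂ) * ((q3 * Wt σ n s (pqi (pq (rev e))) : ℝ) : ℂ) = _
      rw [pqi_pq, pqi_pq, hN, arc_val hn hc he hr hne hw]
      rw [← q3_sq]; push_cast; ring

theorem flp_flp (s : ℤ × ℤ → Bool) : flp (flp s) = s := by
  funext v
  simp [flp]

theorem PP_depF {n : ℕ} (hn : 1 ≤ n) (σ : ℝ) : DepF (Lr n) (PP σ n) := by
  intro s s' h
  have h1 := z_LR hn σ s
  have h2 := z_LR hn σ s'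
  have h3 : (NR (full (Lr n)) (flp s) (chL n σ)).z (ports (full (Lr n)).P) =
      (NR (full (Lr n)) (flp s') (chL n σ)).z (ports (full (Lr n)).P) := by
    refine tnet_congr _ _ (fun t ht => ?_) (Finset.Subset.refl _)
    rw [Xr249.full_P] at ht
    simp only [flp, h t ht]
  rw [h1, h2] at h3
  have h4 := Complex.ofReal_injective h3
  exact mul_left_cancel₀ (pow_ne_zero _ q3_pos.ne') h4

/-- **arrow reversal on the L-shape** -/
theorem PP_int {n : ℕ} (hn : 1 ≤ n) :
    ∫ s, PP 1 n s ∂(PB fun _ : ℤ × ℤ => hf) = ∫ s, PP (-1) n s ∂(PB fun _ : ℤ × ℤ => hf) := by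
  have hk : ∀ σ : ℝ, (1 / 2) ^ (full (Lr n)).P.card * ∑ S ∈ (full (Lr n)).P.powerset,
      (NR (full (Lr n)) (fun t => decide (t ∈ S)) (chL n σ)).z (ports (full (Lr n)).P) =
      ((q3 ^ (XA n).card * ∫ s, PP σ n s ∂(PB fun _ : ℤ × ℤ => hf) : ℝ) : ℂ) := by
    intro σ
    rw [pow_sum_eq_integral (full (Lr n)).P
      (fun s => (NR (full (Lr n)) s (chL n σ)).z (ports (full (Lr n)).P))
      (fun s s' h => tnet_congr _ _ h (Finset.Subset.refl _))]
    have h1 : ∀ s : ℤ × ℤ → Bool, (NR (full (Lr n)) s (chL n σ)).z (ports (full (Lr n)).P) =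
        ((q3 ^ (XA n).card * PP σ n (flp s) : ℝ) : ℂ) := by
      intro s
      rw [← z_LR hn σ (flp s), flp_flp]
    rw [integral_congr_ae (ae_of_all _ h1), integral_complex_ofReal, integral_const_mul]
    congr 2
    exact Da570.integral_not (PP_depF hn σ)
  have h1 := hk 1
  have h2 := hk (-1)
  have h3 := zsum_neg (beR_ok (full (Lr n))) (chL n 1)
  have h4 : (fun p => -chL n 1 p) = chL n (-1) := by
    funext p
    rw [← chL_neg]
  rw [h4] at h3
  simp only [net_eq] at h3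
  rw [h3, h2] at h1
  have h5 := Complex.ofReal_injective h1
  exact (mul_left_cancel₀ (pow_ne_zero _ q3_pos.ne') h5).symm

end Crest.Agent.R158.Dn211
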