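import Crest.Agent.R158.Dn6_211

/-!
# Row 158, corner lemma (helper211), part 7: pointwise bounds

* `PP_bounds` : `(1/√3)^M ∏_p B_p^{K_p} ≤ PP ≤ (2/√3)^M ∏_p B_p^{K_p}`
-/

set_option autoImplicit false
set_option linter.unusedSimpArgs false

noncomputable section

open Finset

namespace Crest.Agent.R158.Dn211

open MeasureTheory ProbabilityTheory
open Crest.Agent.R158.Rs689 Crest.Agent.R158.Nm211

/-- integral gauge -/
def gi (i : Fin 6) : ℤ := if i = 4 then 1 else 0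

theorem gg_gi (i : Fin 6) : gg i = (gi i : ℝ) := by
  unfold gg gi; split_ifs <;> simp

/-- integral exponent -/
def ui (τ : ℤ) (i j : Fin 6) : ℤ := 2 - (Da570.lv j - Da570.lv i) + τ * (gi j - gi i)

theorem ww_ui (τ : ℤ) (i j : Fin 6) :
    ww (τ : ℝ) i j = 2 * Real.cos (Real.pi / 12 * (ui τ i j : ℝ)) / Real.sqrt 3 := by
  unfold ww ui
  rw [gg_gi, gg_gi]
  push_cast
  rfl

theorem ui_bound : ∀ i j : Fin 6, i < j → (-4 ≤ ui 1 i j ∧ ui 1 i j ≤ 4) ∧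
    (-4 ≤ ui (-1) i j ∧ ui (-1) i j ≤ 4) := by decide

theorem ui_vals : (∀ p : Fin 6, p ≠ 3 → p ≠ 4 → ui 1 (ip p) (jp p) = ui (-1) (ip p) (jp p)) ∧
    ui 1 (ip 3) (jp 3) = 2 ∧ ui 1 (ip 4) (jp 4) = 2 ∧ ui (-1) (ip 3) (jp 3) = 0 ∧
    ui (-1) (ip 4) (jp 4) = 4 := by decide

theorem ip_jp : ∀ p p' : Fin 6, ip p = ip p' → jp p = jp p' → p = p' := by decide

theorem ip_lt : ∀ p : Fin 6, ip p < jp p := by decide

theorem cos_int {u : ℤ} (h1 : -4 ≤ u) (h2 : u ≤ 4) :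
    1 / 2 ≤ Real.cos (Real.pi / 12 * (u : ℝ)) := by
  have h1' : (-4 : ℝ) ≤ u := by exact_mod_cast h1
  have h2' : (u : ℝ) ≤ 4 := by exact_mod_cast h2
  have hpi := Real.pi_pos
  rw [← Real.cos_abs, ← Real.cos_pi_div_three]
  refine Real.cos_le_cos_of_nonneg_of_le_pi (abs_nonneg _) (by linarith) ?_
  rw [abs_le]
  constructor <;> nlinarith

theorem ww_bound {τ : ℤ} (hτ : τ = 1 ∨ τ = -1) {i j : Fin 6} (hij : i < j) :
    1 / Real.sqrt 3 ≤ ww (τ : ℝ) i j ∧ ww (τ : ℝ) i j ≤ 2 / Real.sqrt 3 := by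
  have h3 := sqrt3_pos
  have hb : -4 ≤ ui τ i j ∧ ui τ i j ≤ 4 := by
    rcases hτ with rfl | rfl
    · exact (ui_bound i j hij).1
    · exact (ui_bound i j hij).2
  have hc := cos_int hb.1 hb.2
  have hc2 := Real.cos_le_one (Real.pi / 12 * (ui τ i j : ℝ))
  rw [ww_ui]
  constructor
  · exact div_le_div_of_nonneg_right (by linarith) h3.le
  · exact div_le_div_of_nonneg_right (by linarith) h3.le

/-- weight at the corner `p` -/
def BB (τ : ℤ) (p : Fin 6) : ℝ := ww (τ : ℝ) (ip p) (jp p)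

theorem BB_bound {τ : ℤ} (hτ : τ = 1 ∨ τ = -1) (p : Fin 6) :
    1 / Real.sqrt 3 ≤ BB τ p ∧ BB τ p ≤ 2 / Real.sqrt 3 := ww_bound hτ (ip_lt p)

theorem BB_pos {τ : ℤ} (hτ : τ = 1 ∨ τ = -1) (p : Fin 6) : 0 < BB τ p :=
  (div_pos one_pos sqrt3_pos).trans_le (BB_bound hτ p).1

theorem BB_outer {p : Fin 6} (h3 : p ≠ 3) (h4 : p ≠ 4) : BB 1 p = BB (-1) p := by
  unfold BB
  rw [ww_ui, ww_ui, ui_vals.1 p h3 h4]

theorem cos_two : 2 * Real.cos (Real.pi / 12 * ((2 : ℤ) : ℝ)) = Real.sqrt 3 := by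
  have : Real.pi / 12 * ((2 : ℤ) : ℝ) = Real.pi / 6 := by push_cast; ring
  rw [this, Real.cos_pi_div_six]; ring

theorem BB_13 : BB 1 3 = 1 := by
  unfold BB
  rw [ww_ui, ui_vals.2.1, cos_two, div_self sqrt3_pos.ne']

theorem BB_14 : BB 1 4 = 1 := by
  unfold BB
  rw [ww_ui, ui_vals.2.2.1, cos_two, div_self sqrt3_pos.ne']

theorem BB_m3 : BB (-1) 3 = 2 / Real.sqrt 3 := by
  unfold BB
  rw [ww_ui, ui_vals.2.2.2.1]
  simp

theorem BB_m4 : BB (-1) 4 = 1 / Real.sqrt 3 := by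
  unfold BB
  rw [ww_ui, ui_vals.2.2.2.2]
  have : Real.pi / 12 * ((4 : ℤ) : ℝ) = Real.pi / 3 := by push_cast; ring
  rw [this, Real.cos_pi_div_three]
  norm_num

/-- the strand from `c` goes around the corner `p` inside the window -/
def Loc (n : ℕ) (s : ℤ × ℤ → Bool) (p : Fin 6) (c : Nm211.St ℤ) : Prop :=
  c ∈ Xp n p ∧ Hit (nx6 s) (Dp n p) (Yp n p) c

theorem loc_exit {n : ℕ} {s : ℤ × ℤ → Bool} {p : Fin 6} {c : Nm211.St ℤ} (h : Loc n s p c) :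
    ∃ e, ExitA n s c e ∧ sE c = ip p ∧ sX e = jp p := by
  obtain ⟨h1, m, h2, h3⟩ := h
  obtain ⟨h4, h5, h6⟩ := Finset.mem_filter.1 h1
  exact ⟨_, ⟨m, fun j hj => (Finset.mem_filter.1 (h2 j hj)).1, rfl, h3.1⟩, h5, h3.2⟩

theorem loc_unique {n : ℕ} {s : ℤ × ℤ → Bool} {p p' : Fin 6} {c : Nm211.St ℤ} (h : Loc n s p c)
    (h' : Loc n s p' c) : p = p' := by
  obtain ⟨e, h1, h2, h3⟩ := loc_exit h
  obtain ⟨e', h1', h2', h3'⟩ := loc_exit h'
  have := exit_unique h1 h1'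
  subst this
  exact ip_jp p p' (by rw [← h2, ← h2']) (by rw [← h3, ← h3'])

theorem loc_wt {n : ℕ} {s : ℤ × ℤ → Bool} {p : Fin 6} {c : Nm211.St ℤ} (h : Loc n s p c)
    (τ : ℤ) : Wt (τ : ℝ) n s c = BB τ p := by
  obtain ⟨e, h1, h2, h3⟩ := loc_exit h
  unfold Wt BB
  rw [exA_eq h1, h2, h3, if_pos (ip_lt p)]

theorem wt_bound {τ : ℤ} (hτ : τ = 1 ∨ τ = -1) {n : ℕ} (s : ℤ × ℤ → Bool) (c : Nm211.St ℤ) :
    1 / Real.sqrt 3 ≤ Wt (τ : ℝ) n s c ∧ Wt (τ : ℝ) n s c ≤ 2 / Real.sqrt 3 := by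
  unfold Wt
  split_ifs with h
  · exact ww_bound hτ h
  · have h3 := sqrt3_pos
    have h4 : Real.sqrt 3 ≤ 2 := by
      rw [show (2 : ℝ) = Real.sqrt 4 by rw [show (4 : ℝ) = 2 ^ 2 by norm_num, Real.sqrt_sq (by norm_num)]]
      exact Real.sqrt_le_sqrt (by norm_num)
    have h5 : 1 ≤ Real.sqrt 3 := by
      rw [show (1 : ℝ) = Real.sqrt 1 by rw [Real.sqrt_one]]
      exact Real.sqrt_le_sqrt (by norm_num)
    exact ⟨(div_le_one h3).2 h5, (one_le_div h3).2 h4⟩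

/-- **the two cases** -/
theorem wt_cases {n : ℕ} (hn : 1 ≤ n) {s : ℤ × ℤ → Bool} {c : Nm211.St ℤ} (hc : c ∈ XA n)
    (hloc : ∀ p, ¬ Loc n s p c) (hmac : ¬ MacA n s c) (τ : ℤ) : Wt (τ : ℝ) n s c = 1 := by
  obtain ⟨e, l, he, -, -, -⟩ := strand (Da570.lr_sc n) (Da570.lr_conn (n := n)) s hc
  unfold Wt
  rw [exA_eq he, if_neg]
  intro hlt
  rcases dich hn hc he hlt with h | ⟨p, h1, h2, -, -⟩
  · exact hmac h
  · exact hloc p ⟨h1, h2⟩

open Classical in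
/-- local factor -/
def lf (τ : ℤ) (n : ℕ) (s : ℤ × ℤ → Bool) (c : Nm211.St ℤ) (p : Fin 6) : ℝ :=
  if Loc n s p c then BB τ p else 1

open Classical in
/-- macroscopic factor -/
def mf (x : ℝ) (n : ℕ) (s : ℤ × ℤ → Bool) (c : Nm211.St ℤ) : ℝ := if MacA n s c then x else 1

theorem sqrt3_le : 1 / Real.sqrt 3 ≤ 1 ∧ 1 ≤ 2 / Real.sqrt 3 := by
  have h3 := sqrt3_pos
  have h4 : Real.sqrt 3 ≤ 2 := by
    rw [show (2 : ℝ) = Real.sqrt 4 by rw [show (4 : ℝ) = 2 ^ 2 by norm_num, Real.sqrt_sq (by norm_num)]]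
    exact Real.sqrt_le_sqrt (by norm_num)
  have h5 : 1 ≤ Real.sqrt 3 := by
    rw [show (1 : ℝ) = Real.sqrt 1 by rw [Real.sqrt_one]]
    exact Real.sqrt_le_sqrt (by norm_num)
  exact ⟨(div_le_one h3).2 h5, (one_le_div h3).2 h4⟩

theorem mf_bounds (n : ℕ) (s : ℤ × ℤ → Bool) (c : Nm211.St ℤ) :
    (0 < mf (1 / Real.sqrt 3) n s c ∧ mf (1 / Real.sqrt 3) n s c ≤ 1) ∧
      1 ≤ mf (2 / Real.sqrt 3) n s c := by
  unfold mf
  have h3 := sqrt3_pos
  have h4 := sqrt3_le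
  split_ifs
  · exact ⟨⟨by positivity, h4.1⟩, h4.2⟩
  · exact ⟨⟨one_pos, le_rfl⟩, le_rfl⟩

theorem wt_two {τ : ℤ} (hτ : τ = 1 ∨ τ = -1) {n : ℕ} (hn : 1 ≤ n) {s : ℤ × ℤ → Bool}
    {c : Nm211.St ℤ} (hc : c ∈ XA n) :
    mf (1 / Real.sqrt 3) n s c * ∏ p, lf τ n s c p ≤ Wt (τ : ℝ) n s c ∧
      Wt (τ : ℝ) n s c ≤ mf (2 / Real.sqrt 3) n s c * ∏ p, lf τ n s c p := by
  classical
  obtain ⟨⟨m1, m2⟩, m3⟩ := mf_bounds n s c
  by_cases h : ∃ p, Loc n s p c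
  · obtain ⟨p, hp⟩ := h
    have hprod : ∏ p, lf τ n s c p = BB τ p := by
      rw [Finset.prod_eq_single p]
      · unfold lf; rw [if_pos hp]
      · intro q _ hq
        unfold lf
        rw [if_neg]
        intro hq'
        exact hq (loc_unique hq' hp)
      · intro h; exact absurd (Finset.mem_univ p) h
    rw [hprod, loc_wt hp]
    have := BB_pos hτ p
    constructor <;> nlinarith
  · push Not at h
    have hprod : ∏ p, lf τ n s c p = 1 := by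
      refine Finset.prod_eq_one fun p _ => ?_
      unfold lf
      rw [if_neg (h p)]
    rw [hprod, mul_one, mul_one]
    by_cases hm : MacA n s c
    · unfold mf
      rw [if_pos hm, if_pos hm]
      exact wt_bound hτ s c
    · rw [wt_cases hn hc h hm]
      exact ⟨m2, m3⟩

/-- number of macroscopic strands -/
def MM (n : ℕ) (s : ℤ × ℤ → Bool) : ℕ := Mac (nx6 s) (DA n) (XA n) (hm n)

theorem prod_mf (x : ℝ) (n : ℕ) (s : ℤ × ℤ → Bool) : ∏ c ∈ XA n, mf x n s c = x ^ MM n s := by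
  classical
  have h : MM n s = ((XA n).filter fun c => MacA n s c).card := by
    unfold MM Mac MacA
    congr 1
  rw [h, ← Finset.prod_const, Finset.prod_filter]
  refine Finset.prod_congr rfl fun c _ => ?_
  unfold mf
  congr

theorem prod_lf (τ : ℤ) (n : ℕ) (s : ℤ × ℤ → Bool) (p : Fin 6) :
    ∏ c ∈ XA n, lf τ n s c p = BB τ p ^ Kq n p s := by
  classical
  have h : Kq n p s = ((XA n).filter fun c => Loc n s p c).card := by
    unfold Kq KK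
    congr 1
    ext c
    rw [Finset.mem_filter, Finset.mem_filter]
    constructor
    · rintro ⟨h1, h2⟩
      exact ⟨(Finset.mem_filter.1 h1).1, h1, h2⟩
    · rintro ⟨-, h1, h2⟩
      exact ⟨h1, h2⟩
  rw [h, ← Finset.prod_const, Finset.prod_filter]
  refine Finset.prod_congr rfl fun c _ => ?_
  unfold lf
  congr

/-- **pointwise bounds** -/
theorem PP_bounds {τ : ℤ} (hτ : τ = 1 ∨ τ = -1) {n : ℕ} (hn : 1 ≤ n) (s : ℤ × ℤ → Bool) :
    (1 / Real.sqrt 3) ^ MM n s * ∏ p, BB τ p ^ Kq n p s ≤ PP (τ : ℝ) n s ∧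
      PP (τ : ℝ) n s ≤ (2 / Real.sqrt 3) ^ MM n s * ∏ p, BB τ p ^ Kq n p s := by
  have h3 := sqrt3_pos
  have key : ∀ x : ℝ, x ^ MM n s * ∏ p, BB τ p ^ Kq n p s =
      ∏ c ∈ XA n, (mf x n s c * ∏ p, lf τ n s c p) := by
    intro x
    rw [Finset.prod_mul_distrib, prod_mf, Finset.prod_comm]
    congr 1
    exact Finset.prod_congr rfl fun p _ => (prod_lf τ n s p).symm
  have hlf : ∀ c p, 0 ≤ lf τ n s c p := by
    intro c p
    unfold lf
    split_ifs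
    · exact (BB_pos hτ p).le
    · exact zero_le_one
  rw [key, key]
  unfold PP
  constructor
  · refine Finset.prod_le_prod (fun c _ => mul_nonneg (mf_bounds n s c).1.1.le
      (Finset.prod_nonneg fun p _ => hlf c p)) fun c hc => (wt_two hτ hn hc).1
  · refine Finset.prod_le_prod (fun c _ => ?_) fun c hc => (wt_two hτ hn hc).2
    exact le_trans (by positivity) (wt_bound hτ s c).1

end Crest.Agent.R158.Dn211
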