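import Crest.Agent.R158.Dn7_211

/-!
# Row 158, corner lemma (helper211), part 8: the two inner corners are standard corners

* `ek3` : `∫ b ^ Kq n 3 = EK b .cv n`, `ek4` : `∫ b ^ Kq n 4 = EK b .rf n`
-/

set_option autoImplicit false
set_option linter.unusedSimpArgs false

noncomputable section

open Finset

namespace Crest.Agent.R158.Dn211

open MeasureTheory ProbabilityTheory
open Crest.Agent.R158.Rs689 Crest.Agent.R158.Nm211 Crest.Agent.R158.Nz399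

theorem kk_congr {D D' Y Y' : Set (Nm211.St ℤ)} {X X' : Finset (Nm211.St ℤ)} (hX : X = X')
    (hD : D = D') (hXY : ∀ c ∈ X, c ∉ Y ∧ c ∉ Y')
    (hY : ∀ c ∈ D, ∀ s : ℤ × ℤ → Bool, nx6 s c ∈ Y ↔ nx6 s c ∈ Y') (s : ℤ × ℤ → Bool) :
    KK (nx6 s) D Y X = KK (nx6 s) D' Y' X' := by
  classical
  subst hX hD
  unfold KK
  congr 1
  refine Finset.filter_congr fun c hc => ?_
  have key : ∀ m, (∀ k < m, (nx6 s)^[k] c ∈ D) → ((nx6 s)^[m] c ∈ Y ↔ (nx6 s)^[m] c ∈ Y') := by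
    intro m hm
    cases m with
    | zero =>
      rw [Function.iterate_zero, id]
      exact ⟨fun h => absurd h (hXY c hc).1, fun h => absurd h (hXY c hc).2⟩
    | succ k =>
      rw [Function.iterate_succ_apply']
      exact hY _ (hm k (by omega)) s
  constructor
  · rintro ⟨m, h1, h2⟩
    exact ⟨m, h1, (key m h1).1 h2⟩
  · rintro ⟨m, h1, h2⟩
    exact ⟨m, h1, (key m h1).2 h2⟩

theorem ps0 (a : ℤ × ℤ) (c : Nm211.St ℤ) : ps 0 a c = (c.1 + a, c.2) := rfl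

theorem mem_Tp {n : ℕ} {p : Fin 6} {t : ℤ × ℤ} : t ∈ Tp n p ↔ t ∈ Lr n ∧ rho (vp n p) t ≤ n := by
  unfold Tp; rw [Finset.mem_filter]

theorem image_ps {a : ℤ × ℤ} {S : Set (Nm211.St ℤ)} {c : Nm211.St ℤ} :
    c ∈ ps 0 a '' S ↔ ((c.1.1 - a.1, c.1.2 - a.2), c.2) ∈ S := by
  constructor
  · rintro ⟨⟨⟨x, y⟩, d⟩, h, rfl⟩
    rw [ps0]
    simpa using h
  · intro h
    refine ⟨_, h, ?_⟩
    obtain ⟨⟨x, y⟩, d⟩ := c
    obtain ⟨a1, a2⟩ := a
    rw [ps0]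
    simp

theorem nx_form (s : ℤ × ℤ → Bool) (c : Nm211.St ℤ) :
    ∃ d, nx6 s c = (mv c.1 d, d) := ⟨_, rfl⟩

theorem kq3 {n : ℕ} (hn : 1 ≤ n) (s : ℤ × ℤ → Bool) :
    Kq n 3 s = Kp .cv 0 (4 * n, -(4 * (n : ℤ))) n s := by
  classical
  unfold Kq Kp
  refine kk_congr ?_ ?_ ?_ ?_ s
  · ext c
    rw [Finset.mem_image]
    constructor
    · intro h
      obtain ⟨h1, h2, h3⟩ := Finset.mem_filter.1 h
      have h4 := XA_cases h1
      obtain ⟨⟨x, y⟩, d⟩ := c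
      simp only [rho, vp] at h3 h4
      have h5 : d = 0 ∧ y = -(4 * (n : ℤ)) ∧ 4 * (n : ℤ) ≤ x := by
        rcases h4 with ⟨rfl, _⟩ | ⟨rfl, _⟩ | ⟨rfl, _⟩ | ⟨rfl, h5, h6, _⟩ | ⟨rfl, _⟩ | ⟨rfl, h5, _⟩
        · simp only [sE, ip] at h2; split_ifs at h2 <;> simp at h2
        · simp [sE, ip] at h2
        · simp [sE, ip] at h2
        · exact ⟨rfl, h5, h6⟩
        · simp only [sE, ip] at h2; split_ifs at h2 <;> simp at h2
        · simp only [sE, ip] at h2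
          split_ifs at h2 with h6
          · omega
          · simp at h2
      obtain ⟨rfl, rfl, h5⟩ := h5
      refine ⟨((x - 4 * n, 0), 0), ?_, ?_⟩
      · show _ ∈ (Finset.Ico (0 : ℤ) n).image fun x => ((x, (0 : ℤ)), (0 : Dir))
        rw [Finset.mem_image]
        exact ⟨x - 4 * n, Finset.mem_Ico.2 (by omega), rfl⟩
      · rw [ps0]
        ext <;> simp
    · rintro ⟨c', h1, rfl⟩
      have h1' : c' ∈ (Finset.Ico (0 : ℤ) n).image fun x => ((x, (0 : ℤ)), (0 : Dir)) := h1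
      obtain ⟨x, hx, rfl⟩ := Finset.mem_image.1 h1'
      rw [Finset.mem_Ico] at hx
      refine Finset.mem_filter.2 ⟨?_, ?_, ?_⟩
      · rw [mem_XA, mem_Lr, mem_Lr, ps0]
        simp only [Prod.mk_add_mk, mv, opp, dx, dy]
        omega
      · rw [ps0]
        simp only [Prod.mk_add_mk, sE, ip]
        rw [if_pos (by omega)]
      · rw [ps0]
        simp only [Prod.mk_add_mk, rho, vp]
        omega
  · ext c
    rw [image_ps]
    show c.1 ∈ Tp n 3 ↔ (c.1.1 - 4 * (n : ℤ), c.1.2 - -(4 * (n : ℤ))) ∈ Nz399.Tk .cv n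
    rw [mem_Tp, mem_Tk, mem_Lr]
    simp only [rho, vp, qd]
    omega
  · intro c hc
    have h1 := (mem_XA.1 (Finset.mem_filter.1 hc).1).1
    have h2 := XA_cases (Finset.mem_filter.1 hc).1
    refine ⟨fun h => h.1 h1, fun h => ?_⟩
    rw [image_ps] at h
    have h3 : c.1.1 - 4 * (n : ℤ) < 0 := h
    obtain ⟨-, h5, h6⟩ := Finset.mem_filter.1 hc
    rw [mem_Lr] at h1
    simp only [rho, vp] at h6
    omega
  · intro c hc s
    obtain ⟨d, hd⟩ := nx_form s c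
    rw [hd, image_ps]
    have h1 : c.1 ∈ Tp n 3 := hc
    rw [mem_Tp, mem_Lr] at h1
    show (mv c.1 d ∉ Lr n ∧ sX (mv c.1 d, d) = 4) ↔ (mv c.1 d).1 - 4 * (n : ℤ) < 0
    rw [mem_Lr]
    obtain ⟨⟨x, y⟩, d'⟩ := c
    simp only [rho, vp] at h1
    clear hd hc
    fin_cases d
    · simp [mv, dx, dy, sX]; omega
    · simp [mv, dx, dy, sX]; omega
    · simp only [mv, dx, dy, sX]
      constructor
      · rintro ⟨-, h2⟩
        exfalso
        revert h2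
        show ¬ (if y + -1 < -1 then (3 : Fin 6) else 5) = 4
        split_ifs <;> decide
      · intro h2
        exfalso
        have h2' : x + 0 - 4 * (n : ℤ) < 0 := h2
        omega
    · constructor
      · rintro ⟨h3, h2⟩
        have h3' : ¬ (((0 ≤ x + -1 ∧ x + -1 < 8 * n) ∧ 0 ≤ y + 0 ∧ y + 0 < 4 * n) ∨
          ((4 * (n : ℤ) ≤ x + -1 ∧ x + -1 < 8 * n) ∧ -(4 * (n : ℤ)) ≤ y + 0 ∧ y + 0 < 0)) := h3
        show x + -1 - 4 * (n : ℤ) < 0
        omega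
      · intro h2
        have h2' : x + -1 - 4 * (n : ℤ) < 0 := h2
        constructor
        · show ¬ (((0 ≤ x + -1 ∧ x + -1 < 8 * n) ∧ 0 ≤ y + 0 ∧ y + 0 < 4 * n) ∨
            ((4 * (n : ℤ) ≤ x + -1 ∧ x + -1 < 8 * n) ∧ -(4 * (n : ℤ)) ≤ y + 0 ∧ y + 0 < 0))
          omega
        · show (if y + 0 < 0 then (4 : Fin 6) else 0) = 4
          rw [if_pos (by omega)]

theorem kq4 {n : ℕ} (hn : 1 ≤ n) (s : ℤ × ℤ → Bool) :
    Kq n 4 s = Kp .rf 0 (4 * n, 0) n s := by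
  classical
  unfold Kq Kp
  refine kk_congr ?_ ?_ ?_ ?_ s
  · ext c
    rw [Finset.mem_image]
    constructor
    · intro h
      obtain ⟨h1, h2, h3⟩ := Finset.mem_filter.1 h
      have h4 := XA_cases h1
      obtain ⟨⟨x, y⟩, d⟩ := c
      simp only [rho, vp] at h3 h4
      have h5 : d = 1 ∧ y < 0 ∧ x = 4 * n := by
        rcases h4 with ⟨rfl, h5, h6, _⟩ | ⟨rfl, _⟩ | ⟨rfl, _⟩ | ⟨rfl, h5, _⟩ | ⟨rfl, h5, h6, h7⟩ |
          ⟨rfl, h5, _⟩
        · simp only [sE, ip] at h2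
          split_ifs at h2 with h6
          · omega
          · simp at h2
        · simp [sE, ip] at h2
        · simp [sE, ip] at h2
        · simp only [sE, ip] at h2; split_ifs at h2 <;> simp at h2
        · exact ⟨rfl, h7, h5⟩
        · simp only [sE, ip] at h2; split_ifs at h2 <;> simp at h2
      obtain ⟨rfl, h5, rfl⟩ := h5
      refine ⟨((0, y), 1), ?_, ?_⟩
      · show _ ∈ (Finset.Ico (-(n : ℤ)) 0).image fun y => (((0 : ℤ), y), (1 : Dir))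
        rw [Finset.mem_image]
        exact ⟨y, Finset.mem_Ico.2 (by omega), rfl⟩
      · rw [ps0]
        ext <;> simp
    · rintro ⟨c', h1, rfl⟩
      have h1' : c' ∈ (Finset.Ico (-(n : ℤ)) 0).image fun y => (((0 : ℤ), y), (1 : Dir)) := h1
      obtain ⟨x, hx, rfl⟩ := Finset.mem_image.1 h1'
      rw [Finset.mem_Ico] at hx
      refine Finset.mem_filter.2 ⟨?_, ?_, ?_⟩
      · rw [mem_XA, mem_Lr, mem_Lr, ps0]
        constructor
        · simp only [Prod.mk_add_mk]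
          omega
        · show ¬ (((0 ≤ 0 + 4 * (n : ℤ) + -1 ∧ 0 + 4 * (n : ℤ) + -1 < 8 * n) ∧
            0 ≤ x + 0 + 0 ∧ x + 0 + 0 < 4 * n) ∨
            ((4 * (n : ℤ) ≤ 0 + 4 * (n : ℤ) + -1 ∧ 0 + 4 * (n : ℤ) + -1 < 8 * n) ∧
              -(4 * (n : ℤ)) ≤ x + 0 + 0 ∧ x + 0 + 0 < 0))
          omega
      · rw [ps0]
        simp only [Prod.mk_add_mk, sE, ip]
        rw [if_pos (by omega)]
      · rw [ps0]
        simp only [Prod.mk_add_mk, rho, vp]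
        omega
  · ext c
    rw [image_ps]
    show c.1 ∈ Tp n 4 ↔ (c.1.1 - 4 * (n : ℤ), c.1.2 - 0) ∈ Nz399.Tk .rf n
    rw [mem_Tp, mem_Tk, mem_Lr]
    simp only [rho, vp, qd]
    omega
  · intro c hc
    have h1 := (mem_XA.1 (Finset.mem_filter.1 hc).1).1
    refine ⟨fun h => h.1 h1, fun h => ?_⟩
    rw [image_ps] at h
    have h3 : c.1.1 - 4 * (n : ℤ) < 0 ∧ c.1.2 - 0 < 0 ∧ c.2 = 2 := h
    rw [mem_Lr] at h1
    omega
  · intro c hc s
    obtain ⟨d, hd⟩ := nx_form s c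
    rw [hd, image_ps]
    have h1 : c.1 ∈ Tp n 4 := hc
    rw [mem_Tp, mem_Lr] at h1
    show (mv c.1 d ∉ Lr n ∧ sX (mv c.1 d, d) = 5) ↔
      ((mv c.1 d).1 - 4 * (n : ℤ) < 0 ∧ (mv c.1 d).2 - 0 < 0 ∧ d = 2)
    rw [mem_Lr]
    obtain ⟨⟨x, y⟩, d'⟩ := c
    simp only [rho, vp] at h1
    clear hd hc
    fin_cases d
    · simp [mv, dx, dy, sX]
    · simp [mv, dx, dy, sX]
    · constructor
      · rintro ⟨h3, h2⟩
        have h3' : ¬ (((0 ≤ x + 0 ∧ x + 0 < 8 * n) ∧ 0 ≤ y + -1 ∧ y + -1 < 4 * n) ∨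
          ((4 * (n : ℤ) ≤ x + 0 ∧ x + 0 < 8 * n) ∧ -(4 * (n : ℤ)) ≤ y + -1 ∧ y + -1 < 0)) := h3
        refine ⟨?_, ?_, rfl⟩
        · show x + 0 - 4 * (n : ℤ) < 0
          omega
        · show y + -1 - 0 < 0
          omega
      · rintro ⟨h2, h4, -⟩
        have h2' : x + 0 - 4 * (n : ℤ) < 0 := h2
        have h4' : y + -1 - 0 < 0 := h4
        constructor
        · show ¬ (((0 ≤ x + 0 ∧ x + 0 < 8 * n) ∧ 0 ≤ y + -1 ∧ y + -1 < 4 * n) ∨
            ((4 * (n : ℤ) ≤ x + 0 ∧ x + 0 < 8 * n) ∧ -(4 * (n : ℤ)) ≤ y + -1 ∧ y + -1 < 0))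
          omega
        · show (if y + -1 < -1 then (3 : Fin 6) else 5) = 5
          rw [if_neg (by omega)]
    · constructor
      · rintro ⟨-, h2⟩
        exfalso
        have h2' : (if y + 0 < 0 then (4 : Fin 6) else 0) = 5 := h2
        revert h2'
        split_ifs <;> decide
      · rintro ⟨-, -, h2⟩
        exfalso
        revert h2
        decide

theorem rd_id (s : ℤ × ℤ → Bool) : rd (fun w : ℤ × ℤ => w) (fun _ => false) s = s := by
  funext w; simp [rd]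

theorem ek3 {n : ℕ} (hn : 1 ≤ n) (b : ℝ) :
    ∫ s, b ^ Kq n 3 s ∂(PB fun _ : ℤ × ℤ => hf) = EK b .cv n := by
  have h := Kp_int .cv 0 (4 * n, -(4 * (n : ℤ))) n (fun w : ℤ × ℤ => w) (fun _ => false)
    (fun k => b ^ k) (fun v _ w _ h => pl_inj _ _ h)
  simp only [rd_id] at h
  unfold EK
  rw [← h]
  refine integral_congr_ae (ae_of_all _ fun s => ?_)
  show b ^ Kq n 3 s = _
  rw [kq3 hn]

theorem ek4 {n : ℕ} (hn : 1 ≤ n) (b : ℝ) :
    ∫ s, b ^ Kq n 4 s ∂(PB fun _ : ℤ × ℤ => hf) = EK b .rf n := by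
  have h := Kp_int .rf 0 (4 * n, 0) n (fun w : ℤ × ℤ => w) (fun _ => false)
    (fun k => b ^ k) (fun v _ w _ h => pl_inj _ _ h)
  simp only [rd_id] at h
  unfold EK
  rw [← h]
  refine integral_congr_ae (ae_of_all _ fun s => ?_)
  show b ^ Kq n 4 s = _
  rw [kq4 hn]

end Crest.Agent.R158.Dn211
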