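import Crest.Agent.R158.Dn8_211

/-!
# Row 158, corner lemma (helper211), part 9: `corner_prod`

* `kq_moment`, `kq_tame` : the six corner counts
* `mm_moment` : macroscopic strands
* `corner_prod` : `E[(2/√3)^{K_cv}] E[(1/√3)^{K_rf}] ≤ C n^ε`
-/

set_option autoImplicit false
set_option linter.unusedSimpArgs false

noncomputable section

open Finset

namespace Crest.Agent.R158.Dn211

open MeasureTheory ProbabilityTheory
open Crest.Agent.R158.Rs689 Crest.Agent.R158.Nm211 Crest.Agent.R158.Nz399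

/-! ### the six corner counts -/

/-- leaving states, restricted -/
def Yq (n : ℕ) (p : Fin 6) : Set (Nm211.St ℤ) :=
  {e | e.1 ∉ Lr n ∧ mv e.1 (opp e.2) ∈ Lr n ∧ sX e = jp p}

theorem mv_back (v : ℤ × ℤ) (d : Dir) : mv (mv v d) (opp d) = v := by
  unfold mv
  simp [dx_opp, dy_opp]

theorem kq_eq (n : ℕ) (p : Fin 6) (s : ℤ × ℤ → Bool) :
    Kq n p s = KK (nx6 s) (Dp n p) (Yq n p) (Xp n p) := by
  unfold Kq
  refine kk_congr rfl rfl (fun c hc => ?_) (fun c hc s => ?_) s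
  · have h1 := (mem_XA.1 (Finset.mem_filter.1 hc).1).1
    exact ⟨fun h => h.1 h1, fun h => h.1 h1⟩
  · obtain ⟨d, hd⟩ := nx_form s c
    have h1 : c.1 ∈ Tp n p := hc
    rw [hd]
    constructor
    · rintro ⟨h2, h3⟩
      refine ⟨h2, ?_, h3⟩
      show mv (mv c.1 d) (opp d) ∈ Lr n
      rw [mv_back]
      exact (mem_Tp.1 h1).1
    · rintro ⟨h2, -, h3⟩
      exact ⟨h2, h3⟩

theorem kq_ent {n : ℕ} {p : Fin 6} {c : Nm211.St ℤ} (hc : c ∈ Dp n p) (s : ℤ × ℤ → Bool) :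
    nx6 s c ∉ Xp n p := by
  intro h
  obtain ⟨d, hd⟩ := nx_form s c
  have h1 := (mem_XA.1 (Finset.mem_filter.1 h).1).2
  rw [hd] at h1
  have h2 : mv (mv c.1 d) (opp d) ∉ Lr n := h1
  rw [mv_back] at h2
  have h3 : c.1 ∈ Tp n p := hc
  exact h2 (mem_Tp.1 h3).1

theorem sE_XA {n : ℕ} {c : Nm211.St ℤ} (hc : c ∈ XA n) :
    (sE c = 0 → c.1.1 = 0 ∧ 0 ≤ c.1.2 ∧ c.1.2 < 4 * n) ∧
    (sE c = 1 → c.1.2 = 4 * n - 1 ∧ 0 ≤ c.1.1 ∧ c.1.1 < 8 * n) ∧
    (sE c = 2 → c.1.1 = 8 * n - 1 ∧ -(4 * (n : ℤ)) ≤ c.1.2 ∧ c.1.2 < 4 * n) ∧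
    (sE c = 3 → c.1.2 = -(4 * (n : ℤ)) ∧ 4 * n ≤ c.1.1 ∧ c.1.1 < 8 * n) ∧
    (sE c = 4 → c.1.1 = 4 * n ∧ -(4 * (n : ℤ)) ≤ c.1.2 ∧ c.1.2 < 0) ∧
    (sE c = 5 → c.1.2 = 0 ∧ 0 ≤ c.1.1 ∧ c.1.1 < 4 * n) := by
  have h := XA_cases hc
  obtain ⟨⟨x, y⟩, d⟩ := c
  simp only at h
  rcases h with ⟨rfl, a1, a2, a3⟩ | ⟨rfl, a1, a2, a3⟩ | ⟨rfl, a1, a2, a3⟩ |
    ⟨rfl, a1, a2, a3⟩ | ⟨rfl, a1, a2, a3⟩ | ⟨rfl, a1, a2, a3⟩
  · have e : sE ((x, y), (1 : Dir)) = 0 := by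
      show (if y < 0 then (4 : Fin 6) else 0) = 0
      rw [if_neg (by omega)]
    rw [e]
    simp only [Fin.isValue, Fin.reduceEq, IsEmpty.forall_iff, and_true, forall_const]
    exact ⟨a1, a2, a3⟩
  · have e : sE ((x, y), (2 : Dir)) = 1 := rfl
    rw [e]
    simp only [Fin.isValue, Fin.reduceEq, IsEmpty.forall_iff, and_true, true_and, forall_const]
    exact ⟨a1, a2, a3⟩
  · have e : sE ((x, y), (3 : Dir)) = 2 := rfl
    rw [e]
    simp only [Fin.isValue, Fin.reduceEq, IsEmpty.forall_iff, and_true, true_and, forall_const]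
    exact ⟨a1, a2, a3⟩
  · have e : sE ((x, y), (0 : Dir)) = 3 := by
      show (if y < 0 then (3 : Fin 6) else 5) = 3
      rw [if_pos (by omega)]
    rw [e]
    simp only [Fin.isValue, Fin.reduceEq, IsEmpty.forall_iff, and_true, true_and, forall_const]
    exact ⟨a1, a2, a3⟩
  · have e : sE ((x, y), (1 : Dir)) = 4 := by
      show (if y < 0 then (4 : Fin 6) else 0) = 4
      rw [if_pos (by omega)]
    rw [e]
    simp only [Fin.isValue, Fin.reduceEq, IsEmpty.forall_iff, and_true, true_and, forall_const]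
    exact ⟨a1, a2, a3⟩
  · have e : sE ((x, y), (0 : Dir)) = 5 := by
      show (if y < 0 then (3 : Fin 6) else 5) = 5
      rw [if_neg (by omega)]
    rw [e]
    simp only [Fin.isValue, Fin.reduceEq, IsEmpty.forall_iff, and_true, true_and, forall_const]
    exact ⟨a1, a2, a3⟩

theorem sX_Y {n : ℕ} {e : Nm211.St ℤ} (h1 : e.1 ∉ Lr n) (h2 : mv e.1 (opp e.2) ∈ Lr n) :
    (sX e = 1 → e.1.2 = 4 * n) ∧ (sX e = 2 → e.1.1 = 8 * n) ∧
    (sX e = 3 → e.1.2 = -(4 * (n : ℤ)) - 1) ∧ (sX e = 4 → e.1.1 = 4 * n - 1) ∧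
    (sX e = 5 → e.1.2 = -1 ∧ e.1.1 < 4 * n) := by
  have h := out_cases h1 h2
  obtain ⟨⟨x, y⟩, d⟩ := e
  simp only at h
  clear h1 h2
  rcases h with ⟨rfl, a1, a2, a3⟩ | ⟨rfl, a1, a2, a3⟩ | ⟨rfl, a1, a2, a3⟩ |
    ⟨rfl, a1, a2, a3⟩ | ⟨rfl, a1, a2, a3⟩ | ⟨rfl, a1, a2, a3⟩
  · have e : sX ((x, y), (3 : Dir)) = 0 := by
      show (if y < 0 then (4 : Fin 6) else 0) = 0
      rw [if_neg (by omega)]
    rw [e]
    simp
  · have e : sX ((x, y), (0 : Dir)) = 1 := rfl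
    rw [e]
    simp only [Fin.isValue, Fin.reduceEq, IsEmpty.forall_iff, and_true, true_and, forall_const]
    exact a1
  · have e : sX ((x, y), (1 : Dir)) = 2 := rfl
    rw [e]
    simp only [Fin.isValue, Fin.reduceEq, IsEmpty.forall_iff, and_true, true_and, forall_const]
    exact a1
  · have e : sX ((x, y), (2 : Dir)) = 3 ∨ sX ((x, y), (2 : Dir)) = 5 ∧ y = -1 ∧ n = 0 := by
      show (if y < -1 then (3 : Fin 6) else 5) = 3 ∨ _
      by_cases hy : y < -1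
      · left; rw [if_pos hy]
      · right
        refine ⟨?_, by omega, by omega⟩
        show (if y < -1 then (3 : Fin 6) else 5) = 5
        rw [if_neg hy]
    rcases e with e | ⟨e, e1, e2⟩
    · rw [e]
      simp only [Fin.isValue, Fin.reduceEq, IsEmpty.forall_iff, and_true, true_and, forall_const]
      exact a1
    · exfalso
      subst e2
      simp at a2 a3
      omega
  · have e : sX ((x, y), (3 : Dir)) = 4 := by
      show (if y < 0 then (4 : Fin 6) else 0) = 4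
      rw [if_pos (by omega)]
    rw [e]
    simp only [Fin.isValue, Fin.reduceEq, IsEmpty.forall_iff, and_true, true_and, forall_const]
    exact a1
  · have e : sX ((x, y), (2 : Dir)) = 5 := by
      show (if y < -1 then (3 : Fin 6) else 5) = 5
      rw [if_neg (by omega)]
    rw [e]
    simp only [Fin.isValue, Fin.reduceEq, IsEmpty.forall_iff, and_true, true_and, forall_const]
    exact ⟨a1, a3⟩

theorem kq_far {n : ℕ} {p : Fin 6} {c e : Nm211.St ℤ} (hc : c ∈ Xp n p) (he : e ∈ Yq n p) :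
    Far (max 1 ((rho (vp n p) c.1).toNat - 1)) c e := by
  obtain ⟨h1, h2, h3⟩ := Finset.mem_filter.1 hc
  obtain ⟨h4, h5, h6⟩ := he
  obtain ⟨s0, s1, s2, s3, s4, s5⟩ := sE_XA h1
  obtain ⟨x1, x2, x3, x4, x5⟩ := sX_Y h4 h5
  have key : (rho (vp n p) c.1 ≤ |e.1.1 - c.1.1| ∨ rho (vp n p) c.1 ≤ |e.1.2 - c.1.2|) ∨
      ((1 ≤ |e.1.1 - c.1.1|) ∧ rho (vp n p) c.1 - 1 ≤ |e.1.2 - c.1.2|) := by
    simp only [rho, le_abs] at h3 ⊢
    fin_cases p
    · have := s0 h2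
      have := x1 h6
      simp only [vp] at h3 ⊢
      omega
    · have := s1 h2
      have := x2 h6
      simp only [vp] at h3 ⊢
      omega
    · have := s2 h2
      have := x3 h6
      simp only [vp] at h3 ⊢
      omega
    · have := s3 h2
      have := x4 h6
      simp only [vp] at h3 ⊢
      omega
    · have := s4 h2
      have := x5 h6
      simp only [vp] at h3 ⊢
      omega
    · have := s0 h2
      have := x5 h6
      simp only [vp] at h3 ⊢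
      omega
  unfold Far
  push_cast
  have := rho_pos (vp n p) c.1
  omega

theorem rho_box {v t : ℤ × ℤ} {n : ℤ} (h : rho v t ≤ n) :
    (v.1 - n ≤ t.1 ∧ t.1 < v.1 + n) ∧ v.2 - n ≤ t.2 ∧ t.2 < v.2 + n := by
  unfold rho at h
  omega

theorem tp_disj {n : ℕ} (hn : 1 ≤ n) {p q : Fin 6} (hpq : p ≠ q) : Disjoint (Tp n p) (Tp n q) := by
  rw [Finset.disjoint_left]
  intro t h1 h2
  have h3 := rho_box (mem_Tp.1 h1).2
  have h4 := rho_box (mem_Tp.1 h2).2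
  clear h1 h2
  apply hpq
  fin_cases p <;> fin_cases q <;> first | rfl | (exfalso; simp only [vp] at h3 h4; omega)

/-- **polynomial moments of the corner counts** -/
theorem kq_moment (a : ℝ) (ha : 1 ≤ a) : ∃ C : ℝ, 1 ≤ C ∧ ∃ q : ℕ, ∀ n : ℕ, 1 ≤ n → ∀ p : Fin 6,
    ∫ s, a ^ Kq n p s ∂(PB fun _ : ℤ × ℤ => hf) ≤ C * (n : ℝ) ^ q := by
  obtain ⟨C, hC, q, h⟩ := corner_moment' a ha
  refine ⟨C, hC, q, fun n hn p => ?_⟩
  have := h n hn (vp n p) (Dp n p) (Yq n p) (Xp n p) (Tp n p) (fun c hc => hc)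
    (fun c hc s => kq_ent hc s) (fun c hc => (Finset.mem_filter.1 hc).2.2)
    (fun c hc e he => kq_far hc he)
  simpa only [← kq_eq] using this

theorem kq_dep (n : ℕ) (p : Fin 6) {s s' : ℤ × ℤ → Bool} (h : ∀ v ∈ Tp n p, s v = s' v) :
    Kq n p s = Kq n p s' := plane_dep (fun _ hc => hc) h

theorem two_pow_bound {C : ℝ} (q : ℕ) : ∃ r : ℕ, ∀ n : ℕ, 1 ≤ n →
    C * (n : ℝ) ^ q ≤ (2 * (n : ℝ)) ^ (r : ℝ) := by
  obtain ⟨m, hm⟩ := exists_nat_ge C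
  refine ⟨m + q, fun n hn => ?_⟩
  have hn' : (1 : ℝ) ≤ n := by exact_mod_cast hn
  rw [Real.rpow_natCast, pow_add]
  have h1 : C ≤ (2 * (n : ℝ)) ^ m := by
    refine hm.trans ?_
    have h2 : (m : ℝ) ≤ 2 ^ m := by exact_mod_cast (Nat.lt_two_pow_self).le
    exact h2.trans (pow_le_pow_left₀ (by norm_num) (by linarith) m)
  have h3 : (n : ℝ) ^ q ≤ (2 * (n : ℝ)) ^ q := pow_le_pow_left₀ (by linarith) (by linarith) q
  exact mul_le_mul h1 h3 (by positivity) (by positivity)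

theorem BB_sq {τ : ℤ} (hτ : τ = 1 ∨ τ = -1) (p : Fin 6) :
    max 1 (BB τ p ^ 2) ≤ 2 ∧ max 1 (BB τ p)⁻¹ ≤ 2 := by
  obtain ⟨h1, h2⟩ := BB_bound hτ p
  have h3 := sqrt3_pos
  have h4 : Real.sqrt 3 ≤ 2 := by
    rw [show (2 : ℝ) = Real.sqrt 4 by rw [show (4 : ℝ) = 2 ^ 2 by norm_num, Real.sqrt_sq (by norm_num)]]
    exact Real.sqrt_le_sqrt (by norm_num)
  have h5 : Real.sqrt 3 * Real.sqrt 3 = 3 := Real.mul_self_sqrt (by norm_num)
  have hb := BB_pos hτ p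
  constructor
  · refine max_le (by norm_num) ?_
    calc BB τ p ^ 2 ≤ (2 / Real.sqrt 3) ^ 2 := pow_le_pow_left₀ hb.le h2 2
      _ = 4 / 3 := by
        rw [div_pow, sq (Real.sqrt 3), h5]; norm_num
      _ ≤ 2 := by norm_num
  · refine max_le (by norm_num) ?_
    calc (BB τ p)⁻¹ ≤ (1 / Real.sqrt 3)⁻¹ := inv_anti₀ (by positivity) h1
      _ = Real.sqrt 3 := by rw [one_div, inv_inv]
      _ ≤ 2 := h4

/-- **tameness of the corner factors** -/
theorem kq_tame : ∃ C : ℝ, 0 ≤ C ∧ ∀ n : ℕ, 1 ≤ n → ∀ τ : ℤ, (τ = 1 ∨ τ = -1) → ∀ p : Fin 6,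
    Tame (PB fun _ : ℤ × ℤ => hf) (2 * (n : ℝ)) C fun s => BB τ p ^ Kq n p s := by
  obtain ⟨C, hC, q, h⟩ := kq_moment 2 (by norm_num)
  obtain ⟨r, hr⟩ := two_pow_bound (C := C) q
  refine ⟨6 * r, by positivity, fun n hn τ hτ p => ?_⟩
  have hn' : (1 : ℝ) ≤ n := by exact_mod_cast hn
  obtain ⟨h1, h2⟩ := BB_sq hτ p
  have hdep : ∀ x : ℝ, DepF (Tp n p) fun s => x ^ Kq n p s := fun x s s' hs => by
    show x ^ Kq n p s = x ^ Kq n p s'
    rw [kq_dep n p hs]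
  have hle : ∀ x : ℝ, 0 ≤ x → x ≤ 2 →
      ∫ s, x ^ Kq n p s ∂(PB fun _ : ℤ × ℤ => hf) ≤ (2 * (n : ℝ)) ^ (r : ℝ) := by
    intro x hx0 hx
    refine le_trans (integral_mono ((hdep x).integrable _) ((hdep 2).integrable _) fun s =>
      pow_le_pow_left₀ hx0 hx _) ((h n hn p).trans (hr n hn))
  exact tame_pow (T := Tp n p) (fun s s' hs => kq_dep n p hs) (BB_pos hτ p) (by linarith)
    (by positivity) (hle _ (by positivity) h1) (hle _ (by positivity) h2)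

/-! ### macroscopic strands -/

theorem mm_moment (a : ℝ) (ha : 1 ≤ a) : ∃ C : ℝ, 1 ≤ C ∧ ∀ n : ℕ, 1 ≤ n →
    ∫ s, a ^ MM n s ∂(PB fun _ : ℤ × ℤ => hf) ≤ C := by
  obtain ⟨C, hC, h⟩ := mac_moment.{0} a ha 1 8
  refine ⟨C, hC, fun n hn => ?_⟩
  refine h (hm n) (by unfold hm; omega) (ℤ × ℤ) (fun _ w => w) (fun _ _ => false)
    (fun _ => (4 * n, 0)) (fun _ => DA n) (fun _ => XA n) (fun _ => Lr n)
    (fun _ => fun _ _ _ _ h => h) (fun _ c hc => hc) (fun _ c hc s h => ?_) (fun _ c hc => ?_)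
    (MM n) fun s => ?_
  · obtain ⟨d, hd⟩ := nx_form s c
    have h1 := (mem_XA.1 h).2
    rw [hd] at h1
    have h2 : mv (mv c.1 d) (opp d) ∉ Lr n := h1
    rw [mv_back] at h2
    exact h2 hc
  · have h1 := (mem_XA.1 hc).1
    rw [mem_Lr] at h1
    have h2 : (n : ℤ) ≤ 2 * (hm n : ℤ) := by unfold hm; omega
    simp only [abs_le]
    push_cast
    omega
  · rw [Fin.sum_univ_one, rd_id]
    rfl

theorem mm_dep (n : ℕ) (x : ℝ) : DepF (Lr n) fun s => x ^ MM n s := fun s s' hs => by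
  show x ^ MM n s = x ^ MM n s'
  congr 1
  exact mac_dep (fun c hc => hc) hs

theorem mm_le (n : ℕ) (s : ℤ × ℤ → Bool) : MM n s ≤ (XA n).card := by
  classical
  unfold MM Mac
  exact Finset.card_le_card (Finset.filter_subset _ _)

theorem pow_rpow_comm {x : ℝ} (hx : 0 ≤ x) (m : ℕ) (t : ℝ) : (x ^ m) ^ t = (x ^ t) ^ m := by
  rw [← Real.rpow_natCast, ← Real.rpow_mul hx, mul_comm, Real.rpow_mul hx, Real.rpow_natCast]

theorem depF_bm {S : Finset (ℤ × ℤ)} {f : (ℤ × ℤ → Bool) → ℝ} (hf : DepF S f)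
    (h0 : ∀ s, 0 ≤ f s) : BM f := by
  refine ⟨hf.measurable, h0, ?_⟩
  obtain ⟨B, hB⟩ := hf.bdd
  exact ⟨B, fun s => (le_abs_self _).trans (hB s)⟩

theorem int_pos {S : Finset (ℤ × ℤ)} {f : (ℤ × ℤ → Bool) → ℝ} (hf' : DepF S f)
    (h0 : ∀ s, 0 < f s) : 0 < ∫ s, f s ∂(PB fun _ : ℤ × ℤ => hf) := by
  rw [integral_pos_iff_support_of_nonneg (fun s => (h0 s).le) (hf'.integrable _)]
  have : Function.support f = Set.univ := by
    ext s
    simp [(h0 s).ne']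
  rw [this, measure_univ]
  exact one_pos

end Crest.Agent.R158.Dn211
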