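import Crest.Agent.R158.Nm7_211

/-!
# Row 158, dropped part of the slices (helper109): strands that leave a small ball are rare

* `far_prob`  : the probability that some strand runs from the ball of radius `r` to distance `R`
  is at most `C (r / R) ^ a`
* `far_exp`   : `E [b ^ KK ; KK ≠ 0] ≤ C (r / R) ^ a`, KK = number of these strands
* `far_mean`  : `E KK ≤ C (r / R) ^ a`
* `far_exp_chart`, `far_mean_chart`, `far_prob_chart` : the same in a chart of any set of tiles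
-/

set_option autoImplicit false

noncomputable section

namespace Crest.Agent.R158.Dp109

open MeasureTheory ProbabilityTheory unitInterval
open Crest.Agent.R158.Rs689 Crest.Agent.R158.Nm211
open Crest.Agent.R161.Geo729 Crest.Agent.R161.Dual374

universe u

/-- transport of a function of the plane tiles to the edges -/
theorem to_edges {T : Finset (ℤ × ℤ)} {f : (ℤ × ℤ → Bool) → ℝ} (hf : DepF T f) :
    ∫ s, f s ∂(PB fun _ : ℤ × ℤ => Rs689.hf) = ∫ z, f (spl z) ∂(PB fun _ : Edge => Rs689.hf) :=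
  (integral_transport (g := ed) (ed_inj.injOn (s := (T : Set (ℤ × ℤ)))) par hf).symm

/-- indicator of the existence of a strand -/
def I1 (D Y : Set (St ℤ)) (X : Finset (St ℤ)) (s : ℤ × ℤ → Bool) : ℝ :=
  if KK (nx6 s) D Y X = 0 then 0 else 1

theorem I1_nonneg (D Y : Set (St ℤ)) (X : Finset (St ℤ)) (s : ℤ × ℤ → Bool) : 0 ≤ I1 D Y X s := by
  unfold I1; split_ifs <;> norm_num

theorem I1_le_one (D Y : Set (St ℤ)) (X : Finset (St ℤ)) (s : ℤ × ℤ → Bool) : I1 D Y X s ≤ 1 := by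
  unfold I1; split_ifs <;> norm_num

theorem I1_dep {D Y : Set (St ℤ)} {X : Finset (St ℤ)} {T : Finset (ℤ × ℤ)}
    (hT : ∀ c ∈ D, c.1 ∈ T) : DepF T (I1 D Y X) := fun s s' hs => by
  unfold I1
  rw [plane_dep (Y := Y) (X := X) hT hs]

/-- the probability that a strand leaves the ball of radius `r` and reaches distance `R` -/
theorem far_I1 : ∃ C a : ℝ, 1 ≤ C ∧ 0 < a ∧ ∀ r R : ℕ, 1 ≤ r → r ≤ R →
    ∀ (x : ℤ × ℤ) (D Y : Set (St ℤ)) (X : Finset (St ℤ)) (T : Finset (ℤ × ℤ)),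
      (∀ c ∈ D, c.1 ∈ T) → (∀ c ∈ D, ∀ s : ℤ × ℤ → Bool, nx6 s c ∉ X) →
      (∀ c ∈ X, |c.1.1 - x.1| ≤ (r : ℤ) ∧ |c.1.2 - x.2| ≤ (r : ℤ)) →
      (∀ c ∈ Y, (R : ℤ) ≤ |c.1.1 - x.1| ∨ (R : ℤ) ≤ |c.1.2 - x.2|) →
      ∫ s, I1 D Y X s ∂(PB fun _ : ℤ × ℤ => hf) ≤ C * ((r : ℝ) / R) ^ a := by
  classical
  obtain ⟨C0, a, hC0, ha, harm⟩ := arm_half
  set K : ℝ := (128 : ℝ) ^ a with hK
  have hK1 : 1 ≤ K := Real.one_le_rpow (by norm_num) ha.le
  refine ⟨K * (C0 + 1), a, ?_, ha, fun r R hr hrR x D Y X T hT hX hXr hYR => ?_⟩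
  · nlinarith
  have hr0 : (0 : ℝ) < r := by exact_mod_cast hr
  have hR0 : (0 : ℝ) < R := by exact_mod_cast hr.trans hrR
  have hq0 : 0 < (r : ℝ) / R := by positivity
  have hle1 : ∫ s, I1 D Y X s ∂(PB fun _ : ℤ × ℤ => hf) ≤ 1 := by
    calc ∫ s, I1 D Y X s ∂(PB fun _ : ℤ × ℤ => hf) ≤ ∫ _s, (1 : ℝ) ∂(PB fun _ : ℤ × ℤ => hf) :=
          integral_mono ((I1_dep hT).integrable _) (integrable_const _) fun s => I1_le_one _ _ _ s
      _ = 1 := by simp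
  by_cases hbig : R < 64 * r
  · refine hle1.trans ?_
    have h1 : (1 : ℝ) / 128 ≤ (r : ℝ) / R := by
      rw [div_le_div_iff₀ (by norm_num) hR0]
      have : (R : ℝ) ≤ 64 * r := by exact_mod_cast hbig.le
      linarith
    have h2 : ((1 : ℝ) / 128) ^ a ≤ ((r : ℝ) / R) ^ a := Real.rpow_le_rpow (by norm_num) h1 ha.le
    have h3 : K * ((1 : ℝ) / 128) ^ a = 1 := by
      rw [hK, ← Real.mul_rpow (by norm_num) (by norm_num)]
      norm_num
    calc (1 : ℝ) = K * ((1 : ℝ) / 128) ^ a := h3.symm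
      _ ≤ K * ((r : ℝ) / R) ^ a := mul_le_mul_of_nonneg_left h2 (by linarith)
      _ ≤ K * (C0 + 1) * ((r : ℝ) / R) ^ a := by
          refine mul_le_mul_of_nonneg_right ?_ (by positivity)
          nlinarith
  · push Not at hbig
    rw [to_edges (I1_dep hT)]
    have hSS := plane_SS (D := D) (Y := Y) (X := X) (T := T) hT hX
    set s0 : ℕ := 8 * r with hs0
    set R0 : ℕ := R / 8 with hR0'
    have hsR : s0 ≤ R0 := by omega
    have hs1 : 1 ≤ s0 := by omega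
    set q : ℝ := C0 * ((s0 : ℝ) / R0) ^ a with hq
    have hq0' : 0 ≤ q := by positivity
    set A : Set P2 := {u | ∃ c ∈ X, ph6 c = u} with hA
    set B : Set P2 := {u | ∃ c ∈ Y, ph6 c = u} with hB
    set p0 : P2 := ps x with hp0
    have hp1 : |x.1 - (p0.1 + p0.2)| ≤ 1 := by
      rw [hp0]; simp only [ps]; simp only [abs_eq_max_neg]; omega
    have hp2 : |x.2 - (p0.2 - p0.1)| ≤ 1 := by
      rw [hp0]; simp only [ps]; simp only [abs_eq_max_neg]; omega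
    have hcen : ∀ c ∈ X, |(ph6 c).1 - p0.1| ≤ (r : ℤ) + 3 ∧ |(ph6 c).2 - p0.2| ≤ (r : ℤ) + 3 := by
      intro c hc
      obtain ⟨h1, h2⟩ := hXr c hc
      have h3 : |c.1.1 - (p0.1 + p0.2)| ≤ |c.1.1 - x.1| + |x.1 - (p0.1 + p0.2)| := abs_sub_le _ _ _
      have h4 : |c.1.2 - (p0.2 - p0.1)| ≤ |c.1.2 - x.2| + |x.2 - (p0.2 - p0.1)| := abs_sub_le _ _ _
      have h5 := ph6_near c p0.1 p0.2
      constructor <;> [have := h5.1; have := h5.2] <;> omega
    have hprob : (PB fun _ : Edge => hf).real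
        (CE enE ((T.image ed : Finset Edge) : Set Edge) A B) ≤ q := by
      refine block_prob (s := s0) (R := R0) (fun u hu v hv => ?_) (fun u hu v hv => ?_) hq0'
        fun y => harm y s0 R0 hs1 hsR
      · obtain ⟨c, hc, rfl⟩ := hu
        obtain ⟨c', hc', rfl⟩ := hv
        have h1 := hcen c hc
        have h2 := hcen c' hc'
        simp only [abs_le] at h1 h2 ⊢
        push_cast [hs0]
        have : (1 : ℤ) ≤ r := by exact_mod_cast hr
        constructor <;> constructor <;> omega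
      · obtain ⟨c, hc, rfl⟩ := hu
        obtain ⟨c', hc', rfl⟩ := hv
        have h1 := ph6_dist c c'
        obtain ⟨h2, h3⟩ := hXr c hc
        have h4 : |c'.1.1 - x.1| ≤ |c'.1.1 - c.1.1| + |c.1.1 - x.1| := abs_sub_le _ _ _
        have h5 : |c'.1.2 - x.2| ≤ |c'.1.2 - c.1.2| + |c.1.2 - x.2| := abs_sub_le _ _ _
        have h6 : (8 * R0 : ℕ) ≤ R := Nat.mul_div_le R 8
        have h7 : (64 * r : ℕ) ≤ R := hbig
        have h8 : (1 : ℤ) ≤ r := by exact_mod_cast hr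
        rcases hYR c' hc' with h | h
        · have := h1.1; omega
        · have := h1.2; omega
    have hsub : ∀ z : Cfz, I1 D Y X (spl z) ≤
        (CE enE ((T.image ed : Finset Edge) : Set Edge) A B).indicator (fun _ => (1 : ℝ)) z := by
      intro z
      by_cases hz : z ∈ CE enE ((T.image ed : Finset Edge) : Set Edge) A B
      · rw [Set.indicator_of_mem hz]
        exact I1_le_one _ _ _ _
      · rw [Set.indicator_of_notMem hz]
        have h0 := hSS.zero (A := A) (B := B) (fun c hc => ⟨c, hc, rfl⟩) (fun c hc => ⟨c, hc, rfl⟩) hz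
        unfold I1
        rw [if_pos h0]
    have hmeas : MeasurableSet (CE enE ((T.image ed : Finset Edge) : Set Edge) A B) :=
      (CE_dep (en := enE) (A := A) (B := B) (T.image ed)).measurableSet
    have h1 : ∫ z, I1 D Y X (spl z) ∂(PB fun _ : Edge => hf) ≤
        (PB fun _ : Edge => hf).real (CE enE ((T.image ed : Finset Edge) : Set Edge) A B) := by
      have hint : Integrable (fun z : Cfz => I1 D Y X (spl z)) (PB fun _ : Edge => hf) := by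
        refine DepF.integrable (S := T.image ed) (fun z z' hz => ?_) _
        refine I1_dep hT _ _ fun v hv => ?_
        simp only [spl, hz _ (Finset.mem_image_of_mem _ hv)]
      calc ∫ z, I1 D Y X (spl z) ∂(PB fun _ : Edge => hf)
          ≤ ∫ z, (CE enE ((T.image ed : Finset Edge) : Set Edge) A B).indicator
              (fun _ => (1 : ℝ)) z ∂(PB fun _ : Edge => hf) :=
            integral_mono hint ((integrable_const (1 : ℝ)).indicator hmeas) hsub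
        _ = _ := integral_indicator_one hmeas
    refine (h1.trans hprob).trans ?_
    rw [hq]
    have h2 : ((s0 : ℝ) / R0) ≤ 128 * ((r : ℝ) / R) := by
      have hR0pos : (0 : ℝ) < R0 := by exact_mod_cast (hs1.trans hsR)
      rw [div_le_iff₀ hR0pos]
      have h3 : (R : ℝ) ≤ 16 * R0 := by
        have : R ≤ 16 * R0 := by omega
        exact_mod_cast this
      have h4 : (s0 : ℝ) = 8 * r := by rw [hs0]; push_cast; ring
      rw [h4]
      have h5 : 128 * ((r : ℝ) / R) * R0 = 8 * r * (16 * R0 / R) := by ring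
      rw [h5]
      have h6 : (1 : ℝ) ≤ 16 * R0 / R := by rw [one_le_div hR0]; exact h3
      nlinarith
    have h7 : ((s0 : ℝ) / R0) ^ a ≤ K * ((r : ℝ) / R) ^ a := by
      rw [hK, ← Real.mul_rpow (by norm_num) hq0.le]
      exact Real.rpow_le_rpow (by positivity) h2 ha.le
    calc C0 * ((s0 : ℝ) / R0) ^ a ≤ C0 * (K * ((r : ℝ) / R) ^ a) :=
          mul_le_mul_of_nonneg_left h7 hC0.le
      _ = K * C0 * ((r : ℝ) / R) ^ a := by ring
      _ ≤ K * (C0 + 1) * ((r : ℝ) / R) ^ a := by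
          refine mul_le_mul_of_nonneg_right ?_ (by positivity)
          nlinarith

/-- **exponential moments on the event that a far strand exists** -/
theorem far_exp (b : ℝ) (hb : 1 ≤ b) : ∃ C a : ℝ, 1 ≤ C ∧ 0 < a ∧ ∀ r R : ℕ, 1 ≤ r → 2 * r ≤ R →
    ∀ (x : ℤ × ℤ) (D Y : Set (St ℤ)) (X : Finset (St ℤ)) (T : Finset (ℤ × ℤ)),
      (∀ c ∈ D, c.1 ∈ T) → (∀ c ∈ D, ∀ s : ℤ × ℤ → Bool, nx6 s c ∉ X) →
      (∀ c ∈ X, |c.1.1 - x.1| ≤ (r : ℤ) ∧ |c.1.2 - x.2| ≤ (r : ℤ)) →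
      (∀ c ∈ Y, (R : ℤ) ≤ |c.1.1 - x.1| ∨ (R : ℤ) ≤ |c.1.2 - x.2|) →
      ∫ s, I1 D Y X s * b ^ (KK (nx6 s) D Y X) ∂(PB fun _ : ℤ × ℤ => hf) ≤
        C * ((r : ℝ) / R) ^ a := by
  classical
  obtain ⟨C0, a, hC0, ha, hfar⟩ := far_I1
  obtain ⟨C1, hC1, hmom⟩ := plane_moment (b ^ 2) (one_le_pow₀ hb) 1
  have hb0 : 0 ≤ b := zero_le_one.trans hb
  refine ⟨C0 + C1, a / 2, by linarith, by positivity, fun r R hr hrR x D Y X T hT hX hXr hYR => ?_⟩
  have hr0 : (0 : ℝ) < r := by exact_mod_cast hr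
  have hR0 : (0 : ℝ) < R := by
    have : 0 < R := by omega
    exact_mod_cast this
  have h1 := hfar r R hr (by omega) x D Y X T hT hX hXr hYR
  have h2 : ∫ s, (b ^ 2) ^ (KK (nx6 s) D Y X) ∂(PB fun _ : ℤ × ℤ => hf) ≤ C1 := by
    refine hmom r hr x D Y X T hT hX (fun c hc => ?_) fun c hc c' hc' => ?_
    · have := hXr c hc
      push_cast
      simpa using this
    · obtain ⟨h3, h4⟩ := hXr c hc
      have h5 : |c'.1.1 - x.1| ≤ |c'.1.1 - c.1.1| + |c.1.1 - x.1| := abs_sub_le _ _ _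
      have h6 : |c'.1.2 - x.2| ≤ |c'.1.2 - c.1.2| + |c.1.2 - x.2| := abs_sub_le _ _ _
      rcases hYR c' hc' with h | h
      · left; omega
      · right; omega
  -- `u v ≤ (λ u² + v² / λ) / 2`, `λ = (r/R)^(-a/2)`
  set t : ℝ := ((r : ℝ) / R) ^ (a / 2) with ht
  have ht0 : 0 < t := by positivity
  have ht2 : ((r : ℝ) / R) ^ a = t * t := by
    rw [ht, ← Real.rpow_add (by positivity)]; congr 1; ring
  have hdep1 := I1_dep (Y := Y) (X := X) hT
  have hdep : ∀ c : ℝ, DepF T fun s : ℤ × ℤ → Bool => c ^ (KK (nx6 s) D Y X) := fun c s s' hs => by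
    show c ^ (KK (nx6 s) D Y X) = c ^ (KK (nx6 s') D Y X)
    rw [plane_dep (Y := Y) (X := X) hT hs]
  have hpt : ∀ s : ℤ × ℤ → Bool, I1 D Y X s * b ^ (KK (nx6 s) D Y X) ≤
      I1 D Y X s * t⁻¹ + t * (b ^ 2) ^ (KK (nx6 s) D Y X) := by
    intro s
    have e1 : (b ^ 2) ^ (KK (nx6 s) D Y X) = (b ^ (KK (nx6 s) D Y X)) ^ 2 := by
      rw [← pow_mul, ← pow_mul, mul_comm]
    rw [e1]
    set y : ℝ := b ^ (KK (nx6 s) D Y X) with hy
    have hy0 : 0 ≤ y := by positivity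
    have e2 : 0 ≤ (t⁻¹ - y) ^ 2 * t := by positivity
    have e3 : (t⁻¹ - y) ^ 2 * t = t⁻¹ - 2 * y + t * y ^ 2 := by field_simp; ring
    rw [e3] at e2
    have hti : 0 < t⁻¹ := by positivity
    unfold I1
    split_ifs
    · have : 0 ≤ t * y ^ 2 := by positivity
      linarith
    · linarith
  calc ∫ s, I1 D Y X s * b ^ (KK (nx6 s) D Y X) ∂(PB fun _ : ℤ × ℤ => hf)
      ≤ ∫ s, (I1 D Y X s * t⁻¹ + t * (b ^ 2) ^ (KK (nx6 s) D Y X)) ∂(PB fun _ : ℤ × ℤ => hf) :=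
        integral_mono ((hdep1.mul (hdep b)).integrable _)
          (((hdep1.integrable _).mul_const _).add (((hdep (b ^ 2)).integrable _).const_mul _)) hpt
    _ = (∫ s, I1 D Y X s ∂(PB fun _ : ℤ × ℤ => hf)) * t⁻¹ +
          t * ∫ s, (b ^ 2) ^ (KK (nx6 s) D Y X) ∂(PB fun _ : ℤ × ℤ => hf) := by
        rw [integral_add ((hdep1.integrable _).mul_const _)
          (((hdep (b ^ 2)).integrable _).const_mul _), integral_mul_const, integral_const_mul]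
    _ ≤ C0 * (t * t) * t⁻¹ + t * C1 := by
        rw [← ht2]
        exact add_le_add (mul_le_mul_of_nonneg_right h1 (by positivity))
          (mul_le_mul_of_nonneg_left h2 ht0.le)
    _ = (C0 + C1) * t := by field_simp

/-- **mean number of far strands** -/
theorem far_mean : ∃ C a : ℝ, 1 ≤ C ∧ 0 < a ∧ ∀ r R : ℕ, 1 ≤ r → 2 * r ≤ R →
    ∀ (x : ℤ × ℤ) (D Y : Set (St ℤ)) (X : Finset (St ℤ)) (T : Finset (ℤ × ℤ)),
      (∀ c ∈ D, c.1 ∈ T) → (∀ c ∈ D, ∀ s : ℤ × ℤ → Bool, nx6 s c ∉ X) →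
      (∀ c ∈ X, |c.1.1 - x.1| ≤ (r : ℤ) ∧ |c.1.2 - x.2| ≤ (r : ℤ)) →
      (∀ c ∈ Y, (R : ℤ) ≤ |c.1.1 - x.1| ∨ (R : ℤ) ≤ |c.1.2 - x.2|) →
      ∫ s, (KK (nx6 s) D Y X : ℝ) ∂(PB fun _ : ℤ × ℤ => hf) ≤ C * ((r : ℝ) / R) ^ a := by
  classical
  obtain ⟨C, a, hC, ha, h⟩ := far_exp 2 (by norm_num)
  refine ⟨C, a, hC, ha, fun r R hr hrR x D Y X T hT hX hXr hYR => ?_⟩
  refine le_trans ?_ (h r R hr hrR x D Y X T hT hX hXr hYR)
  have hdep1 := I1_dep (Y := Y) (X := X) hT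
  have hdep : DepF T fun s : ℤ × ℤ → Bool => (2 : ℝ) ^ (KK (nx6 s) D Y X) := fun s s' hs => by
    show (2 : ℝ) ^ (KK (nx6 s) D Y X) = 2 ^ (KK (nx6 s') D Y X)
    rw [plane_dep (Y := Y) (X := X) hT hs]
  have hdep2 : DepF T fun s : ℤ × ℤ → Bool => (KK (nx6 s) D Y X : ℝ) := fun s s' hs => by
    show (KK (nx6 s) D Y X : ℝ) = (KK (nx6 s') D Y X : ℝ)
    rw [plane_dep (Y := Y) (X := X) hT hs]
  refine integral_mono (hdep2.integrable _) ((hdep1.mul hdep).integrable _) fun s => ?_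
  show (KK (nx6 s) D Y X : ℝ) ≤ I1 D Y X s * 2 ^ (KK (nx6 s) D Y X)
  unfold I1
  split_ifs with h0
  · rw [h0]; norm_num
  · rw [one_mul]
    exact_mod_cast (Nat.lt_two_pow_self).le

/-! ### charts -/

section chart

variable {τ : Type u} {emb : ℤ × ℤ → τ} {F : ℤ × ℤ → Bool}

/-- transport to a chart -/
theorem chart_eq {T : Finset (ℤ × ℤ)} (hinj : Set.InjOn emb T) {f : (ℤ × ℤ → Bool) → ℝ}
    (hf : DepF T f) : ∫ s, f (rd emb F s) ∂(PB fun _ : τ => Rs689.hf) =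
      ∫ s, f s ∂(PB fun _ : ℤ × ℤ => Rs689.hf) :=
  integral_transport (g := emb) hinj F hf

end chart

/-- **mean number of far strands, in a chart** -/
theorem far_mean_chart : ∃ C a : ℝ, 1 ≤ C ∧ 0 < a ∧ ∀ r R : ℕ, 1 ≤ r → 2 * r ≤ R →
    ∀ (τ : Type u) (emb : ℤ × ℤ → τ) (F : ℤ × ℤ → Bool)
      (x : ℤ × ℤ) (D Y : Set (St ℤ)) (X : Finset (St ℤ)) (T : Finset (ℤ × ℤ)),
      Set.InjOn emb T →
      (∀ c ∈ D, c.1 ∈ T) → (∀ c ∈ D, ∀ s : ℤ × ℤ → Bool, nx6 s c ∉ X) →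
      (∀ c ∈ X, |c.1.1 - x.1| ≤ (r : ℤ) ∧ |c.1.2 - x.2| ≤ (r : ℤ)) →
      (∀ c ∈ Y, (R : ℤ) ≤ |c.1.1 - x.1| ∨ (R : ℤ) ≤ |c.1.2 - x.2|) →
      ∫ s, (KK (nx6 (rd emb F s)) D Y X : ℝ) ∂(PB fun _ : τ => hf) ≤ C * ((r : ℝ) / R) ^ a := by
  classical
  obtain ⟨C, a, hC, ha, h⟩ := far_mean
  refine ⟨C, a, hC, ha, fun r R hr hrR τ emb F x D Y X T hinj hT hX hXr hYR => ?_⟩
  have hdep2 : DepF T fun s : ℤ × ℤ → Bool => (KK (nx6 s) D Y X : ℝ) := fun s s' hs => by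
    show (KK (nx6 s) D Y X : ℝ) = (KK (nx6 s') D Y X : ℝ)
    rw [plane_dep (Y := Y) (X := X) hT hs]
  rw [chart_eq (F := F) hinj hdep2]
  exact h r R hr hrR x D Y X T hT hX hXr hYR

/-- **exponential moments on the event that a far strand exists, in a chart** -/
theorem far_exp_chart (b : ℝ) (hb : 1 ≤ b) : ∃ C a : ℝ, 1 ≤ C ∧ 0 < a ∧
    ∀ r R : ℕ, 1 ≤ r → 2 * r ≤ R →
    ∀ (τ : Type u) (emb : ℤ × ℤ → τ) (F : ℤ × ℤ → Bool)
      (x : ℤ × ℤ) (D Y : Set (St ℤ)) (X : Finset (St ℤ)) (T : Finset (ℤ × ℤ)),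
      Set.InjOn emb T →
      (∀ c ∈ D, c.1 ∈ T) → (∀ c ∈ D, ∀ s : ℤ × ℤ → Bool, nx6 s c ∉ X) →
      (∀ c ∈ X, |c.1.1 - x.1| ≤ (r : ℤ) ∧ |c.1.2 - x.2| ≤ (r : ℤ)) →
      (∀ c ∈ Y, (R : ℤ) ≤ |c.1.1 - x.1| ∨ (R : ℤ) ≤ |c.1.2 - x.2|) →
      ∫ s, I1 D Y X (rd emb F s) * b ^ (KK (nx6 (rd emb F s)) D Y X) ∂(PB fun _ : τ => hf) ≤
        C * ((r : ℝ) / R) ^ a := by
  classical
  obtain ⟨C, a, hC, ha, h⟩ := far_exp b hb
  refine ⟨C, a, hC, ha, fun r R hr hrR τ emb F x D Y X T hinj hT hX hXr hYR => ?_⟩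
  have hdep1 := I1_dep (Y := Y) (X := X) hT
  have hdep : DepF T fun s : ℤ × ℤ → Bool => b ^ (KK (nx6 s) D Y X) := fun s s' hs => by
    show b ^ (KK (nx6 s) D Y X) = b ^ (KK (nx6 s') D Y X)
    rw [plane_dep (Y := Y) (X := X) hT hs]
  have h1 := chart_eq (F := F) hinj (hdep1.mul hdep)
  rw [h1]
  exact h r R hr hrR x D Y X T hT hX hXr hYR

/-- the probability that some strand leaves the ball of radius `r` and reaches distance `R` -/
theorem far_prob_chart : ∃ C a : ℝ, 1 ≤ C ∧ 0 < a ∧ ∀ r R : ℕ, 1 ≤ r → r ≤ R →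
    ∀ (τ : Type u) (emb : ℤ × ℤ → τ) (F : ℤ × ℤ → Bool)
      (x : ℤ × ℤ) (D Y : Set (St ℤ)) (X : Finset (St ℤ)) (T : Finset (ℤ × ℤ)),
      Set.InjOn emb T →
      (∀ c ∈ D, c.1 ∈ T) → (∀ c ∈ D, ∀ s : ℤ × ℤ → Bool, nx6 s c ∉ X) →
      (∀ c ∈ X, |c.1.1 - x.1| ≤ (r : ℤ) ∧ |c.1.2 - x.2| ≤ (r : ℤ)) →
      (∀ c ∈ Y, (R : ℤ) ≤ |c.1.1 - x.1| ∨ (R : ℤ) ≤ |c.1.2 - x.2|) →
      (PB fun _ : τ => hf).real {s | KK (nx6 (rd emb F s)) D Y X ≠ 0} ≤ C * ((r : ℝ) / R) ^ a := by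
  classical
  obtain ⟨C, a, hC, ha, h⟩ := far_I1
  refine ⟨C, a, hC, ha, fun r R hr hrR τ emb F x D Y X T hinj hT hX hXr hYR => ?_⟩
  have hdep1 := I1_dep (Y := Y) (X := X) hT
  have h1 := chart_eq (F := F) hinj hdep1
  have hdep2 : DepF (T.image emb) fun s : τ → Bool => I1 D Y X (rd emb F s) := fun s s' hs => by
    refine hdep1 _ _ fun v hv => ?_
    simp only [rd, hs _ (Finset.mem_image_of_mem _ hv)]
  have h2 : {s : τ → Bool | KK (nx6 (rd emb F s)) D Y X ≠ 0} =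
      (fun s : τ → Bool => I1 D Y X (rd emb F s)) ⁻¹' {1} := by
    ext s
    rw [Set.mem_ofPred_eq, Set.mem_preimage, Set.mem_singleton_iff]
    unfold I1
    split_ifs with h0
    · exact ⟨fun h => absurd h0 h, fun h => absurd h (by norm_num)⟩
    · exact ⟨fun _ => rfl, fun _ => h0⟩
  have hmeas : MeasurableSet {s : τ → Bool | KK (nx6 (rd emb F s)) D Y X ≠ 0} := by
    rw [h2]
    exact hdep2.measurable (measurableSet_singleton 1)
  have h3 : ∀ s : τ → Bool, {s : τ → Bool | KK (nx6 (rd emb F s)) D Y X ≠ 0}.indicator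
      (fun _ => (1 : ℝ)) s = I1 D Y X (rd emb F s) := by
    intro s
    by_cases h0 : KK (nx6 (rd emb F s)) D Y X = 0
    · rw [Set.indicator_of_notMem (by rw [Set.mem_ofPred_eq]; exact fun h => h h0)]
      unfold I1
      rw [if_pos h0]
    · rw [Set.indicator_of_mem (by rw [Set.mem_ofPred_eq]; exact h0)]
      unfold I1
      rw [if_neg h0]
  have h4 : (PB fun _ : τ => Rs689.hf).real {s | KK (nx6 (rd emb F s)) D Y X ≠ 0} =
      ∫ s, {s : τ → Bool | KK (nx6 (rd emb F s)) D Y X ≠ 0}.indicator (fun _ => (1 : ℝ)) s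
          ∂(PB fun _ : τ => Rs689.hf) := (integral_indicator_one hmeas).symm
  rw [h4, integral_congr_ae (ae_of_all _ h3), h1]
  exact h r R hr hrR x D Y X T hT hX hXr hYR

end Crest.Agent.R158.Dp109
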