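import Crest.Agent.R158.Al5_194

/-!
# R158 (helper440), dropped part of the mark sum, 1: at most 7 ends carry a middle phase

`NCK.card_Sm` : `#{e < N : Sm e ≠ 0} ≤ 7` for every non-crossing matching.
-/

set_option autoImplicit false

namespace Crest.Agent.R158.Al194

open Crest.Agent.R158.Vt300 Finset

variable {π : ℕ → ℕ} {N k : ℕ}

lemma rot_inj {a b : ℕ} (hk : k < N) (ha : a < N) (hb : b < N) (hak : a ≠ k) (hbk : b ≠ k)
    (h : rot N k a = rot N k b) : a = b := by
  rw [← unr_rot ha hk hak, h, unr_rot hb hk hbk]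

lemma rot_succ {a : ℕ} (hk : k < N) (ha : a < N) (hak : a ≠ k) :
    rot N k (a + 1) = rot N k a + 1 := by
  unfold rot; split_ifs <;> omega

/-- two arcs over a common gap are nested -/
theorem NCK.nested (h : NCK π N k) {i j : ℕ} (hi : i < N) (hj : j < N) (hsi : st π k i)
    (hsj : st π k j) (hij : i ≠ j) {x : ℕ} (hx : x ≤ N) (hxi : ing π x i) (hxj : ing π x j) :
    (∀ e, (e = i ∨ e = π i) → ing π e j ∧ ing π (e + 1) j) ∧
      (∀ e, (e = j ∨ e = π j) → ¬ ing π e i ∧ ¬ ing π (e + 1) i) ∨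
    (∀ e, (e = j ∨ e = π j) → ing π e i ∧ ing π (e + 1) i) ∧
      (∀ e, (e = i ∨ e = π i) → ¬ ing π e j ∧ ¬ ing π (e + 1) j) := by
  have hk := h.lt
  have hik : i ≠ k := by rintro rfl; exact not_st_fix h hsi
  have hjk : j ≠ k := by rintro rfl; exact not_st_fix h hsj
  have p1 := h.mem i hi
  have p2 := h.mem j hj
  have q1 := h.ne_k hi hik
  have q2 := h.ne_k hj hjk
  have hm := h.ncm
  have a1 := (h.st_iff hi hik).1 hsi
  have a2 := (h.st_iff hj hjk).1 hsj
  have b1 : prt π N k (rot N k i) = rot N k (π i) := by unfold prt; rw [unr_rot hi hk hik]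
  have b2 : prt π N k (rot N k j) = rot N k (π j) := by unfold prt; rw [unr_rot hj hk hjk]
  have c1 : rot N k (π i) < N - 1 := rot_lt p1 hk q1
  have c2 : rot N k (π j) < N - 1 := rot_lt p2 hk q2
  have n1 : rot N k i ≠ rot N k j := fun e => hij (rot_inj hk hi hj hik hjk e)
  have n2 : rot N k i ≠ rot N k (π j) := by
    intro e
    have e1 := rot_inj hk hi p2 hik q2 e
    have e2 : rot N k (π i) = rot N k j := by rw [e1, h.inv j hj]
    omega
  have n3 : rot N k j ≠ rot N k (π i) := by
    intro e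
    have e1 := rot_inj hk hj p1 hjk q1 e
    have e2 : rot N k (π j) = rot N k i := by rw [e1, h.inv i hi]
    omega
  have n4 : rot N k (π i) ≠ rot N k (π j) := by
    intro e
    have e1 := rot_inj hk p1 p2 q1 q2 e
    apply hij
    rw [← h.inv i hi, e1, h.inv j hj]
  rw [h.ing_iff hi hsi hx] at hxi
  rw [h.ing_iff hj hsj hx] at hxj
  have t1 := hm.nc (rot N k i) (rot N k j) (Nat.zero_le _)
  have t2 := hm.nc (rot N k j) (rot N k i) (Nat.zero_le _)
  rw [b1, b2] at t1
  rw [b1, b2] at t2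
  have r1 := rot_succ hk hi hik
  have r2 := rot_succ hk hj hjk
  have r3 := rot_succ hk p1 q1
  have r4 := rot_succ hk p2 q2
  have key : ∀ (a b : ℕ), a < N → st π k a → b < N → (ing π b a ↔ ins (rot N k b) (rot N k a, rot N k (π a))) ∧
      (ing π (b + 1) a ↔ ins (rot N k (b + 1)) (rot N k a, rot N k (π a))) := by
    intro a b ha hsa hb
    exact ⟨h.ing_iff ha hsa hb.le, h.ing_iff ha hsa (Nat.succ_le_of_lt hb)⟩
  unfold ins at hxi hxj
  simp only at hxi hxj
  rcases lt_or_gt_of_ne n1 with hlt | hlt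
  · right
    have t3 := t1 hlt (by omega) (by omega)
    constructor
    · rintro e (rfl | rfl)
      · rw [(key i e hi hsi hj).1, (key i e hi hsi hj).2, r2]
        unfold ins; simp only; omega
      · rw [(key i _ hi hsi p2).1, (key i _ hi hsi p2).2, r4]
        unfold ins; simp only; omega
    · rintro e (rfl | rfl)
      · rw [(key j e hj hsj hi).1, (key j e hj hsj hi).2, r1]
        unfold ins; simp only; omega
      · rw [(key j _ hj hsj p1).1, (key j _ hj hsj p1).2, r3]
        unfold ins; simp only; omega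
  · left
    have t3 := t2 hlt (by omega) (by omega)
    constructor
    · rintro e (rfl | rfl)
      · rw [(key j e hj hsj hi).1, (key j e hj hsj hi).2, r1]
        unfold ins; simp only; omega
      · rw [(key j _ hj hsj p1).1, (key j _ hj hsj p1).2, r3]
        unfold ins; simp only; omega
    · rintro e (rfl | rfl)
      · rw [(key i e hi hsi hj).1, (key i e hi hsi hj).2, r2]
        unfold ins; simp only; omega
      · rw [(key i _ hi hsi p2).1, (key i _ hi hsi p2).2, r4]
        unfold ins; simp only; omega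

/-- start of the arc of an end -/
def ar (π : ℕ → ℕ) (k e : ℕ) : ℕ := if st π k e then e else π e

lemma NCK.ar_spec (h : NCK π N k) {e : ℕ} (he : e < N) (hek : e ≠ k) :
    ar π k e < N ∧ st π k (ar π k e) ∧ (e = ar π k e ∨ e = π (ar π k e)) := by
  unfold ar
  by_cases hse : st π k e
  · rw [if_pos hse]; exact ⟨he, hse, Or.inl rfl⟩
  · rw [if_neg hse]
    refine ⟨h.mem e he, ?_, Or.inr (h.inv e he).symm⟩
    have q1 := h.ne e he hek
    have q2 := h.ne_k he hek
    unfold st at hse ⊢
    rw [h.inv e he]; omega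

/-- type of an end that carries a middle phase -/
def ty (π : ℕ → ℕ) (k x1 x2 e : ℕ) : ℤ × ℤ × ℕ :=
  if e = k then (2, 0, 0) else (ig π x1 (ar π k e), ig π x2 (ar π k e), if st π k e then 1 else 0)

theorem NCK.ty_inj (h : NCK π N k) {x1 x2 : ℕ} (h1 : x1 ≤ N) (h2 : x2 ≤ N) {e e' : ℕ}
    (he : e < N) (he' : e' < N) (hS : Sm π N k x1 x2 e ≠ 0) (hS' : Sm π N k x1 x2 e' ≠ 0)
    (ht : ty π k x1 x2 e = ty π k x1 x2 e') : e = e' := by
  unfold ty at ht
  by_cases hek : e = k
  · by_cases hek' : e' = k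
    · rw [hek, hek']
    · rw [if_pos hek, if_neg hek'] at ht
      have := congrArg Prod.fst ht
      rcases ig_cases (π := π) x1 (ar π k e') with a | a <;> simp only [a] at this <;> omega
  by_cases hek' : e' = k
  · rw [if_neg hek, if_pos hek'] at ht
    have := congrArg Prod.fst ht
    rcases ig_cases (π := π) x1 (ar π k e) with a | a <;> simp only [a] at this <;> omega
  rw [if_neg hek, if_neg hek'] at ht
  obtain ⟨i1, i2, i3⟩ := h.ar_spec he hek
  obtain ⟨j1, j2, j3⟩ := h.ar_spec he' hek'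
  simp only [Prod.mk.injEq] at ht
  obtain ⟨t1, t2, t3⟩ := ht
  have own : ig π x1 (ar π k e) + ig π x2 (ar π k e) ≠ 0 := by
    intro hz
    apply hS
    have := h.ig_at i1 i2 (e := e) (by
      rcases i3 with r | r
      · exact Or.inl r.symm
      · exact Or.inr r.symm)
    exact h.Sm_zero h1 h2 he i1 i2 (Or.inl (by omega))
  by_cases hij : ar π k e = ar π k e'
  · -- the same arc: the same end
    have hse : st π k e ↔ st π k e' := by
      by_cases a : st π k e <;> by_cases b : st π k e' <;> simp [a, b] at t3 ⊢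
    unfold ar at hij
    by_cases a : st π k e
    · rw [if_pos a, if_pos (hse.1 a)] at hij; exact hij
    · rw [if_neg a, if_neg fun b => a (hse.2 b)] at hij
      rw [← h.inv e he, hij, h.inv e' he']
  exfalso
  -- a common gap
  have hx : ∃ x, x ≤ N ∧ ing π x (ar π k e) ∧ ing π x (ar π k e') := by
    rcases ig_cases (π := π) x1 (ar π k e) with a | a
    · have b : ig π x2 (ar π k e) = 1 := by
        rcases ig_cases (π := π) x2 (ar π k e) with b | b
        · omega
        · exact b
      refine ⟨x2, h2, ?_, ?_⟩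
      · by_contra hc; rw [ig_zero hc] at b; omega
      · by_contra hc; rw [ig_zero hc] at t2; omega
    · refine ⟨x1, h1, ?_, ?_⟩
      · by_contra hc; rw [ig_zero hc] at a; omega
      · by_contra hc; rw [ig_zero hc] at t1; omega
  obtain ⟨x, hx, hx1, hx2⟩ := hx
  have g1 := ig_cases (π := π) x1 (ar π k e)
  have g2 := ig_cases (π := π) x2 (ar π k e)
  rcases h.nested i1 j1 i2 j2 hij hx hx1 hx2 with ⟨n1, n2⟩ | ⟨n1, n2⟩
  · -- the arc of `e` is inside the arc of `e'`
    obtain ⟨u1, u2⟩ := n1 e i3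
    obtain ⟨v1, v2⟩ := n2 e' j3
    by_cases hb : ig π x1 (ar π k e) = 1 ∧ ig π x2 (ar π k e) = 1
    · apply hS'
      refine h.Sm_zero h1 h2 he' i1 i2 (Or.inr ?_)
      rw [ig_zero v1, ig_zero v2]; omega
    · apply hS
      refine h.Sm_zero h1 h2 he j1 j2 (Or.inl ?_)
      rw [ig_one u1, ig_one u2]; omega
  · obtain ⟨u1, u2⟩ := n1 e' j3
    obtain ⟨v1, v2⟩ := n2 e i3
    by_cases hb : ig π x1 (ar π k e) = 1 ∧ ig π x2 (ar π k e) = 1
    · apply hS
      refine h.Sm_zero h1 h2 he j1 j2 (Or.inr ?_)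
      rw [ig_zero v1, ig_zero v2]; omega
    · apply hS'
      refine h.Sm_zero h1 h2 he' i1 i2 (Or.inl ?_)
      rw [ig_one u1, ig_one u2]; omega

open Classical in
/-- **at most 7 ends carry a middle phase** -/
theorem NCK.card_Sm (h : NCK π N k) {x1 x2 : ℕ} (h1 : x1 ≤ N) (h2 : x2 ≤ N) (A : Finset ℕ)
    (hA : ∀ e ∈ A, e < N) : (A.filter fun e => Sm π N k x1 x2 e ≠ 0).card ≤ 7 := by
  set S : Finset (ℤ × ℤ × ℕ) := {(2, 0, 0), (0, 1, 0), (0, 1, 1), (1, 0, 0), (1, 0, 1), (1, 1, 0),
    (1, 1, 1)} with hSdef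
  have hS : S.card ≤ 7 := by rw [hSdef]; rfl
  refine le_trans (Finset.card_le_card_of_injOn (ty π k x1 x2) ?_ ?_) hS
  · intro e he
    rw [Finset.mem_coe, mem_filter] at he
    obtain ⟨he, hne⟩ := he
    rw [Finset.mem_coe]
    unfold ty
    by_cases hek : e = k
    · rw [if_pos hek, hSdef]; simp
    · rw [if_neg hek]
      obtain ⟨i1, i2, i3⟩ := h.ar_spec (hA e he) hek
      have own : ig π x1 (ar π k e) + ig π x2 (ar π k e) ≠ 0 := by
        intro hz
        apply hne
        have := h.ig_at i1 i2 (e := e) (by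
          rcases i3 with r | r
          · exact Or.inl r.symm
          · exact Or.inr r.symm)
        exact h.Sm_zero h1 h2 (hA e he) i1 i2 (Or.inl (by omega))
      rcases ig_cases (π := π) x1 (ar π k e) with a | a <;>
        rcases ig_cases (π := π) x2 (ar π k e) with b | b <;>
        by_cases c : st π k e <;> simp [a, b, c, hSdef] at own ⊢
  · intro e he e' he' ht
    rw [Finset.mem_coe, mem_filter] at he he'
    exact h.ty_inj h1 h2 (hA e he.1) (hA e' he'.1) he.2 he'.2 ht

/-- **any dropped set costs at most 7** -/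
theorem NCK.norm_drop (h : NCK π N k) {x1 x2 : ℕ} (h1 : x1 ≤ N) (h2 : x2 ≤ N) (A : Finset ℕ)
    (hA : ∀ e ∈ A, e < N) : ‖∑ e ∈ A, Sm π N k x1 x2 e‖ ≤ 7 := by
  classical
  rw [← Finset.sum_filter_ne_zero]
  refine (norm_sum_le _ _).trans ?_
  refine (Finset.sum_le_sum (g := fun _ => (1 : ℝ)) fun e he => h.norm_Sm_le h1 h2
    (hA e (mem_filter.1 he).1)).trans ?_
  rw [Finset.sum_const, nsmul_eq_mul, mul_one]
  have := h.card_Sm h1 h2 A hA
  exact_mod_cast this

end Crest.Agent.R158.Al194
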