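import Crest.Agent.R158.Cb5_771
import Crest.Agent.R158.Al4_194

/-!
# Row 158, dropped part of the slices (helper109), word form

* `Ball G A pos x R` : the glueing `G` is plane in the box of radius `R` around `x`
* `cc_far`  : a chain of corners from the box of radius `r` to distance `R` has probability
  `≤ C (r / R) ^ a`
* **`end_far`** : a strand (or the leg) from an end in the box of radius `r` to distance `R`
* `arm2`    : no arc over the near zone ⇒ the near zone is joined to the outer part (748's `Gd.arm`)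
* **`gap_far`** : the probability that no arc passes over the near zone
-/

set_option autoImplicit false

noncomputable section

namespace Crest.Agent.R158.Dp109

open MeasureTheory ProbabilityTheory unitInterval
open Crest.Agent.R161.Geo729 Crest.Agent.R158.Rs689 Crest.Agent.R158.Mr679
open Crest.Agent.R158.Gc748 Crest.Agent.R158.Cb771
open Crest.Agent.R158.Sw300 (Port)

/-! ### plane pieces -/

/-- near port or corner: its tile is within distance `r` of `x` -/
def Nr {T : Type*} (pos : T → P2) (x : P2) (r : ℤ) (p : Port T) : Prop :=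
  ∃ t d, p = some (t, d) ∧ |(pos t).1 - x.1| ≤ r ∧ |(pos t).2 - x.2| ≤ r

/-- home: the tile is in `A` at distance `< R` -/
def Hm {T : Type*} (A : Set T) (pos : T → P2) (x : P2) (R : ℤ) (p : Port T) : Prop :=
  ∃ t d, p = some (t, d) ∧ t ∈ A ∧ |(pos t).1 - x.1| < R ∧ |(pos t).2 - x.2| < R

theorem hm_rc {T : Type*} {A : Set T} {pos : T → P2} {x : P2} {R : ℤ} {p : Port T} :
    Hm A pos x R (rc p) ↔ Hm A pos x R p := by
  cases p with
  | none => exact Iff.rfl
  | some y =>
    obtain ⟨t, d⟩ := y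
    constructor
    · rintro ⟨t', d', h, h1⟩
      simp only [rc_some, Option.some.injEq, Prod.mk.injEq] at h
      exact ⟨t, d, rfl, by rw [h.1]; exact h1⟩
    · rintro ⟨t', d', h, h1⟩
      simp only [Option.some.injEq, Prod.mk.injEq] at h
      exact ⟨t, d + 1, rfl, by rw [h.1]; exact h1⟩

theorem nr_rc {T : Type*} {pos : T → P2} {x : P2} {r : ℤ} {p : Port T} :
    Nr pos x r (rc p) ↔ Nr pos x r p := by
  cases p with
  | none => exact Iff.rfl
  | some y =>
    obtain ⟨t, d⟩ := y
    constructor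
    · rintro ⟨t', d', h, h1⟩
      simp only [rc_some, Option.some.injEq, Prod.mk.injEq] at h
      exact ⟨t, d, rfl, by rw [h.1]; exact h1⟩
    · rintro ⟨t', d', h, h1⟩
      simp only [Option.some.injEq, Prod.mk.injEq] at h
      exact ⟨t, d + 1, rfl, by rw [h.1]; exact h1⟩

/-- the glueing is plane in the box of radius `R` around `x` -/
structure Ball {T : Type*} (G : Port T → Port T → Prop) (A : Set T) (pos : T → P2) (x : P2)
    (R : ℕ) : Prop where
  fin : A.Finite
  ch : Chart G A pos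
  clo : ∀ t ∈ A, |(pos t).1 - x.1| < R → |(pos t).2 - x.2| < R → ∀ d q, G (some (t, d)) q → InT A q

/-- glueing restricted to `A` -/
def Gr {T : Type*} (G : Port T → Port T → Prop) (A : Set T) (p q : Port T) : Prop :=
  G p q ∧ InT A p ∧ InT A q

theorem Ball.grc {T : Type*} {G : Port T → Port T → Prop} {A : Set T} {pos : T → P2} {x : P2}
    {R : ℕ} (h : Ball G A pos x R) : Chart (Gr G A) A pos where
  symm := fun p q hpq => ⟨h.ch.symm p q hpq.1, hpq.2.2, hpq.2.1⟩
  inj := h.ch.inj
  glue := fun t d t' d' h1 h2 h3 => h.ch.glue t d t' d' h1 h2 h3.1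

/-- one step from a home corner stays in `A`, by a restricted step -/
theorem Ball.step {T : Type*} {G : Port T → Port T → Prop} {A : Set T} {pos : T → P2} {x : P2}
    {R : ℕ} (h : Ball G A pos x R) {s : T → Bool} {c c' : Port T} (hs : CSt s G c c')
    (hc : Hm A pos x R c) : CSt s (Gr G A) c c' ∧ InT A c' := by
  cases hs with
  | diag t d h =>
    obtain ⟨t', d', he, h1, -⟩ := hc
    simp only [Option.some.injEq, Prod.mk.injEq] at he
    exact ⟨.diag t d h, by rw [he.1]; exact h1⟩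
  | gl p q hpq =>
    obtain ⟨t, d, rfl, h1, h2, h3⟩ := hm_rc.1 hc
    have h4 := h.clo _ h1 h2 h3 _ _ hpq
    exact ⟨.gl _ _ ⟨hpq, h1, h4⟩, h4⟩
  | gr p q hpq =>
    obtain ⟨t, d, rfl, h1, h2, h3⟩ : Hm A pos x R p := hc
    have h4 := h.clo _ h1 h2 h3 _ _ hpq
    exact ⟨.gr _ _ ⟨hpq, h1, h4⟩, (inT_rc q).2 h4⟩

/-- a chain from a home corner to a corner which is not home -/
theorem Ball.exit {T : Type*} {G : Port T → Port T → Prop} {A : Set T} {pos : T → P2} {x : P2}
    {R : ℕ} (h : Ball G A pos x R) {s : T → Bool} {c c' : Port T} (hs : CC s G c c')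
    (hc : Hm A pos x R c) (hc' : ¬ Hm A pos x R c') :
    ∃ c1, CC s (Gr G A) c c1 ∧ InT A c1 ∧ ¬ Hm A pos x R c1 := by
  have key : ∀ c', CC s G c c' → (CC s (Gr G A) c c' ∧ Hm A pos x R c') ∨
      ∃ c1, CC s (Gr G A) c c1 ∧ InT A c1 ∧ ¬ Hm A pos x R c1 := by
    intro c' hcc
    induction hcc with
    | refl => exact Or.inl ⟨.refl, hc⟩
    | @tail b d _ h2 ih =>
      rcases ih with ⟨h3, h4⟩ | h3
      · obtain ⟨h5, h6⟩ := h.step h2 h4
        by_cases h7 : Hm A pos x R d
        · exact Or.inl ⟨h3.tail h5, h7⟩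
        · exact Or.inr ⟨d, h3.tail h5, h6, h7⟩
      · exact Or.inr h3
  rcases key c' hs with ⟨_, h2⟩ | h2
  · exact absurd h2 hc'
  · exact h2

theorem cpos_near {T : Type*} {pos : T → P2} {x : P2} {r : ℤ} {p : Port T} (h : Nr pos x r p) :
    |(cpos pos p).1 - x.1| ≤ r + 1 ∧ |(cpos pos p).2 - x.2| ≤ r + 1 := by
  obtain ⟨t, d, rfl, h1, h2⟩ := h
  have h3 := off_le d
  simp only [cpos, Prod.fst_add, Prod.snd_add]
  rw [abs_le] at h1 h2 ⊢
  rw [abs_le]
  omega

theorem cpos_far {T : Type*} {A : Set T} {pos : T → P2} {x : P2} {R : ℤ} {p : Port T}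
    (h1 : InT A p) (h : ¬ Hm A pos x R p) :
    R - 1 ≤ |(cpos pos p).1 - x.1| ∨ R - 1 ≤ |(cpos pos p).2 - x.2| := by
  cases p with
  | none => exact absurd h1 id
  | some y =>
    obtain ⟨t, d⟩ := y
    have h2 : R ≤ |(pos t).1 - x.1| ∨ R ≤ |(pos t).2 - x.2| := by
      by_contra hcon
      rw [not_or, not_le, not_le] at hcon
      exact h ⟨t, d, rfl, h1, hcon.1, hcon.2⟩
    have h3 := off_le d
    simp only [cpos, Prod.fst_add, Prod.snd_add]
    simp only [le_abs] at h2 ⊢
    omega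

/-- event: a chain from a near corner to a corner which is not home -/
def Ex {T : Type*} (G : Port T → Port T → Prop) (A : Set T) (pos : T → P2) (x : P2) (r R : ℕ) :
    Set (T → Bool) :=
  {s | ∃ c0 c1, CC s G c0 c1 ∧ InT A c0 ∧ Nr pos x r c0 ∧ ¬ Hm A pos x R c1}

/-- **chains from the box of radius `r` to distance `R`** -/
theorem cc_far : ∃ C a : ℝ, 0 < C ∧ 0 < a ∧ ∀ {T : Type} (G : Port T → Port T → Prop)
    (A : Set T) (pos : T → P2) (x : P2) (r R : ℕ), Ball G A pos x R → 1 ≤ r → r ≤ R →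
    (PB (fun _ : T => hf)).real (Ex G A pos x r R) ≤ C * ((r : ℝ) / R) ^ a := by
  obtain ⟨C, a, hC, ha, h⟩ := chart_probF
  refine ⟨max C 1 * 2 ^ a, a, by positivity, ha, fun {T} G A pos x r R hb hr hrR => ?_⟩
  have hr0 : (0 : ℝ) < r := by exact_mod_cast hr
  have hR0 : (0 : ℝ) < R := by exact_mod_cast (hr.trans hrR)
  have hone : (1 : ℝ) ≤ 2 * ((r : ℝ) / R) → (1 : ℝ) ≤ max C 1 * 2 ^ a * ((r : ℝ) / R) ^ a := by
    intro h1
    rw [mul_assoc, ← Real.mul_rpow (by norm_num) (by positivity)]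
    have h3 : (1 : ℝ) ≤ (2 * ((r : ℝ) / R)) ^ a := Real.one_le_rpow h1 ha.le
    calc (1 : ℝ) = 1 * 1 := by ring
      _ ≤ max C 1 * (2 * ((r : ℝ) / R)) ^ a :=
          mul_le_mul (le_max_right _ _) h3 zero_le_one (by positivity)
  by_cases hR : 2 * r ≤ R
  · have h1 := h (Gr G A) A pos x r (R - 1) hb.fin hb.grc
      (fun t d q ht hq hnq => absurd hq.2.2 hnq) hr (by omega)
    refine (measureReal_mono ?_).trans (h1.trans ?_)
    · rintro s ⟨c0, c1, h2, h3, h4, h5⟩
      have h6 : Hm A pos x R c0 := by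
        obtain ⟨t, d, rfl, h7, h8⟩ := h4
        refine ⟨t, d, rfl, h3, ?_, ?_⟩ <;> omega
      obtain ⟨c2, h7, h8, h9⟩ := hb.exit h2 h6 h5
      refine ⟨c0, c2, Or.inr ?_, h7, h8, ?_⟩
      · have := cpos_near h4
        push_cast
        exact this
      · have := cpos_far h8 h9
        have e : (((R - 1 : ℕ)) : ℤ) = (R : ℤ) - 1 := by omega
        rw [e]
        exact this
    · have h2 : (r : ℝ) / ((R - 1 : ℕ) : ℝ) ≤ 2 * ((r : ℝ) / R) := by
        have hR1 : (0 : ℝ) < ((R - 1 : ℕ) : ℝ) := by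
          have : 0 < R - 1 := by omega
          exact_mod_cast this
        rw [← mul_div_assoc, div_le_div_iff₀ hR1 hR0]
        have h3 : (R : ℝ) ≤ 2 * ((R - 1 : ℕ) : ℝ) := by
          have : R ≤ 2 * (R - 1) := by omega
          exact_mod_cast this
        nlinarith
      calc C * ((r : ℝ) / ((R - 1 : ℕ) : ℝ)) ^ a ≤ max C 1 * (2 * ((r : ℝ) / R)) ^ a :=
            mul_le_mul (le_max_left _ _) (Real.rpow_le_rpow (by positivity) h2 ha.le)
              (by positivity) (by positivity)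
        _ = max C 1 * 2 ^ a * ((r : ℝ) / R) ^ a := by
            rw [Real.mul_rpow (by norm_num) (by positivity)]; ring
  · refine measureReal_le_one.trans (hone ?_)
    rw [← mul_div_assoc, le_div_iff₀ hR0]
    have h4 : (R : ℝ) ≤ 2 * r := by exact_mod_cast (by omega : R ≤ 2 * r)
    linarith

/-! ### words -/

section words

variable {T : Type} [DecidableEq T]

/-- the two ends of a strand -/
theorem cc_side {w : Sw300.Wd T} (hw : Sw300.Ok w) (hl : bs w = none) {b : Port T → Port T}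
    (hb : ∀ x, Sw300.be w x = b x) (s : T → Bool) {p : Port T} (hp : p ∈ Sw300.L w) :
    CC s (Ob664.Gl b) (rc p) (lc (Sw300.M s w p)) := by
  have h := (gd_wd s hw).side p hp
  rw [hl] at h
  exact cc_of_word hw hb h

/-- the strand of the leg -/
theorem cc_leg {w : Sw300.Wd T} (hw : Sw300.Ok w) (hl : bs w = none) {b : Port T → Port T}
    (hb : ∀ x, Sw300.be w x = b x) (s : T → Bool) {p : Port T} (hp : p ∈ Sw300.L w)
    (hm : Sw300.M s w p = p) : CC s (Ob664.Gl b) (lc p) none := by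
  have h := (gd_wd s hw).legR p hp hm
  rw [hl] at h
  exact cc_of_word hw hb h.symm

/-- the event of (P1) -/
def Far1 (w : Sw300.Wd T) (A : Set T) (pos : T → P2) (x : P2) (r R : ℕ) : Set (T → Bool) :=
  {s | ∃ p ∈ Sw300.L w, InT A p ∧ Nr pos x r p ∧
    (Sw300.M s w p = p ∨ ¬ Hm A pos x R (Sw300.M s w p))}

theorem far1_sub {w : Sw300.Wd T} (hw : Sw300.Ok w) (hl : bs w = none) {b : Port T → Port T}
    (hb : ∀ x, Sw300.be w x = b x) {A : Set T} {pos : T → P2} {x : P2} {r R : ℕ} :
    Far1 w A pos x r R ⊆ Ex (Ob664.Gl b) A pos x r R := by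
  rintro s ⟨p, hp, h1, h2, h3 | h3⟩
  · refine ⟨lc p, none, cc_leg hw hl hb s hp h3, h1, h2, ?_⟩
    rintro ⟨t, d, h, -⟩
    simp at h
  · exact ⟨rc p, lc (Sw300.M s w p), cc_side hw hl hb s hp, (inT_rc p).2 h1, nr_rc.2 h2, h3⟩

/-- **(P1)** a strand (or the leg) from the box of radius `r` to distance `R` -/
theorem end_far : ∃ C a : ℝ, 0 < C ∧ 0 < a ∧ ∀ {T : Type} [DecidableEq T] (w : Sw300.Wd T)
    (b : Port T → Port T) (A : Set T) (pos : T → P2) (x : P2) (r R : ℕ), Sw300.Ok w →
    bs w = none → (∀ x, Sw300.be w x = b x) → Ball (Ob664.Gl b) A pos x R → 1 ≤ r → r ≤ R →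
    (PB (fun _ : T => hf)).real (Far1 w A pos x r R) ≤ C * ((r : ℝ) / R) ^ a := by
  obtain ⟨C, a, hC, ha, h⟩ := cc_far
  exact ⟨C, a, hC, ha, fun w b A pos x r R hw hl hb hB hr hrR =>
    (measureReal_mono (far1_sub hw hl hb)).trans (h _ A pos x r R hB hr hrR)⟩

end words

/-! ### the near zone -/

section gap

variable {T : Type*} [DecidableEq T] {s : T → Bool} {B : Option T} {G : List (Port T × Port T)}
  {Ts : Set T} {M : Port T → Port T}

/-- last element with a property -/
theorem last_of {α : Type*} {P : α → Prop} : ∀ l : List α, (∃ y ∈ l, P y) →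
    ∃ l1 y l2, l = l1 ++ y :: l2 ∧ P y ∧ ∀ x ∈ l2, ¬ P x := by
  intro l
  induction l with
  | nil => rintro ⟨y, hy, _⟩; simp at hy
  | cons a l ih =>
    rintro ⟨y, hy, hMy⟩
    by_cases h2 : ∃ y ∈ l, P y
    · obtain ⟨l1, y, l2, e, h3, h4⟩ := ih h2
      exact ⟨a :: l1, y, l2, by rw [e]; rfl, h3, h4⟩
    · rcases List.mem_cons.1 hy with rfl | hy
      · exact ⟨[], y, l, rfl, hMy, fun x hx hMx => h2 ⟨x, hx, hMx⟩⟩
      · exact absurd ⟨y, hy, hMy⟩ h2

/-- **no arc over the near zone** `n`: a gap next to an end of `n`, or the gap between `n` and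
`m2`, is joined to a gap next to an end of the outer part `o` -/
theorem arm2 {m1 n m2 o : List (Port T)} (h : Gd s B (m1 ++ (n ++ (m2 ++ o))) G Ts M)
    (ho : o ≠ []) (hno : ∀ y ∈ m1, M y ∉ m2) :
    ∃ c, (c = lc ((m2 ++ o).headD none) ∨ ∃ y ∈ n, c = lc y) ∧
      ∃ w ∈ o, R s B G c (lc w) ∨ R s B G c (rc w) := by
  by_cases hex : ∃ y ∈ m2, M y ∈ n
  · obtain ⟨a, y, b, e, hMy, hlast⟩ := last_of m2 hex
    have hnd := h.nodup
    -- the new decomposition
    have h' : Gd s B ((m1 ++ (n ++ (a ++ [y]))) ++ (b ++ o)) G Ts M := by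
      have : (m1 ++ (n ++ (a ++ [y]))) ++ (b ++ o) = m1 ++ (n ++ (m2 ++ o)) := by
        rw [e]; simp
      rw [this]; exact h
    have hyL : y ∈ m1 ++ (n ++ (m2 ++ o)) := by rw [e]; simp
    have hMyL : M y ∈ m1 ++ (n ++ (m2 ++ o)) := by simp [hMy]
    have hinv : M (M y) = y := h.inv y hyL
    obtain ⟨n1, n2, hn⟩ := List.append_of_mem hMy
    have hnc : ∀ z ∈ n2 ++ a, M z ∈ n2 ++ a := by
      intro z hz
      have hr : m1 ++ (n ++ (m2 ++ o)) ~r M y :: ((n2 ++ a) ++ M (M y) :: (b ++ o ++ (m1 ++ n1))) := by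
        rw [hinv, hn, e]
        have := rot_app (m1 ++ n1) (M y :: (n2 ++ a) ++ (y :: (b ++ o)))
        simpa using this
      exact (h.rotated hr).nc hz
    have hdis : ∀ z ∈ n2 ++ a, z ∉ b := by
      intro z hz hzb
      have e' : m1 ++ (n ++ (m2 ++ o)) =
          (m1 ++ (n1 ++ [M y])) ++ ((n2 ++ a) ++ (y :: (b ++ o))) := by simp [hn, e]
      rw [e'] at hnd
      exact (List.nodup_append.1 (List.nodup_append.1 hnd).2.1).2.2 z hz z (by simp [hzb]) rfl
    obtain ⟨w, hw, hR⟩ := Gd.arm h' ho fun z hz hMz => by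
      rcases List.mem_append.1 hz with hz | hz
      · exact hno z hz (by rw [e]; simp [hMz])
      · rcases List.mem_append.1 hz with hz | hz
        · -- `z ∈ n`
          refine hlast (M z) hMz ?_
          have : M (M z) = z := h.inv z (by simp [hz])
          rw [this]; exact hz
        · rcases List.mem_append.1 hz with hz | hz
          · have h1 := hnc z (by simp [hz])
            exact hdis _ h1 hMz
          · rw [List.mem_singleton] at hz
            subst hz
            have hzn : M z ∈ n := hMy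
            have hnd' := h.nodup
            rw [e] at hnd'
            have : M z ∈ m1 ++ (n ++ ((a ++ z :: b) ++ o)) := by simp [hzn]
            simp only [List.nodup_append] at hnd'
            exact hnd'.2.1.2.2 _ hzn _ (by simp [hMz]) rfl
    refine ⟨lc (M y), Or.inr ⟨M y, hMy, rfl⟩, w, hw, ?_⟩
    -- `rc y ~ lc (M y)`, `rc y ~ lc (head (b ++ o))`
    have hside := h.side y hyL
    obtain ⟨z, m', hz⟩ : ∃ z m', b ++ o = z :: m' := by
      cases hm : b ++ o with
      | nil => exact absurd (List.append_eq_nil_iff.1 hm).2 ho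
      | cons z m' => exact ⟨z, m', rfl⟩
    have hadj : R s B G (rc y) (lc z) := by
      have hr : m1 ++ (n ++ (m2 ++ o)) ~r y :: z :: (m' ++ (m1 ++ (n ++ a))) := by
        have e2 : m1 ++ (n ++ (m2 ++ o)) = (m1 ++ (n ++ a)) ++ (y :: z :: m') := by
          rw [e]
          simp only [List.append_assoc, List.cons_append, ← hz]
        rw [e2]
        have := rot_app (m1 ++ (n ++ a)) (y :: z :: m')
        simpa using this
      exact Gd.adj (h.rotated hr)
    rw [hz] at hR
    have e3 : ((z :: m' : List (Port T))).headD none = z := rfl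
    rw [e3] at hR
    rcases hR with hR | hR
    · exact Or.inl ((hside.symm.trans hadj).trans hR)
    · exact Or.inr ((hside.symm.trans hadj).trans hR)
  · have h' : Gd s B ((m1 ++ n) ++ (m2 ++ o)) G Ts M := by
      rw [List.append_assoc]; exact h
    obtain ⟨w, hw, hR⟩ := Gd.arm h' ho fun z hz hMz => by
      rcases List.mem_append.1 hz with hz | hz
      · exact hno z hz hMz
      · refine hex ⟨M z, hMz, ?_⟩
        rw [h.inv z (by simp [hz])]
        exact hz
    exact ⟨_, Or.inl rfl, w, hw, hR⟩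

end gap

section words2

variable {T : Type} [DecidableEq T]

/-- no arc passes over the near zone -/
theorem gap_sub {w : Sw300.Wd T} (hw : Sw300.Ok w) (hl : bs w = none) {b : Port T → Port T}
    (hb : ∀ x, Sw300.be w x = b x) {A : Set T} {pos : T → P2} {x : P2} {r R : ℕ}
    {m1 n m2 o : List (Port T)} (hr : Sw300.L w ~r m1 ++ (n ++ (m2 ++ o))) (hn0 : n ≠ [])
    (ho : o ≠ []) (hn : ∀ y ∈ n, InT A y ∧ Nr pos x r y) (hof : ∀ y ∈ o, ¬ Hm A pos x R y) :
    {s : T → Bool | ∀ y ∈ m1, Sw300.M s w y ∉ m2} ⊆ Ex (Ob664.Gl b) A pos x r R := by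
  intro s hs
  have h := (gd_wd s hw).rotated hr
  obtain ⟨c, hc, z, hz, hR⟩ := arm2 h ho hs
  -- a near corner
  obtain ⟨y, hy, c', hc', hcc⟩ : ∃ y ∈ n, ∃ c', (c' = lc y ∨ c' = rc y) ∧
      Gc748.R s (bs w) (gl w) c' c := by
    rcases hc with hc | ⟨y, hy, hc⟩
    · obtain ⟨n', y, hny⟩ : ∃ n' y, n = n' ++ [y] :=
        ⟨n.dropLast, n.getLast hn0, (List.dropLast_append_getLast hn0).symm⟩
      obtain ⟨v, m', hv⟩ : ∃ v m', m2 ++ o = v :: m' := by
        cases hm : m2 ++ o with
        | nil => exact absurd (List.append_eq_nil_iff.1 hm).2 ho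
        | cons z m' => exact ⟨z, m', rfl⟩
      have hrr : m1 ++ (n ++ (m2 ++ o)) ~r y :: v :: (m' ++ (m1 ++ n')) := by
        have e2 : m1 ++ (n ++ (m2 ++ o)) = (m1 ++ n') ++ (y :: v :: m') := by
          rw [hny, hv]; simp
        rw [e2]
        have := rot_app (m1 ++ n') (y :: v :: m')
        simpa using this
      have hadj := Gd.adj (h.rotated hrr)
      rw [hv] at hc
      refine ⟨y, by rw [hny]; simp, rc y, Or.inr rfl, ?_⟩
      rw [hc]
      exact hadj
    · exact ⟨y, hy, lc y, Or.inl rfl, by rw [hc]; exact Gc748.R.refl _⟩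
  obtain ⟨hyA, hyr⟩ := hn y hy
  have hc'A : InT A c' := by
    rcases hc' with rfl | rfl
    · exact hyA
    · exact (inT_rc y).2 hyA
  have hc'r : Nr pos x r c' := by
    rcases hc' with rfl | rfl
    · exact hyr
    · exact nr_rc.2 hyr
  have key : ∀ c'', Gc748.R s (bs w) (gl w) c c'' → ¬ Hm A pos x R c'' →
      s ∈ Ex (Ob664.Gl b) A pos x r R := by
    intro c'' h1 h2
    have h3 := hcc.trans h1
    rw [hl] at h3
    exact ⟨c', c'', cc_of_word hw hb h3, hc'A, hc'r, h2⟩
  rcases hR with hR | hR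
  · exact key _ hR (hof z hz)
  · exact key _ hR (by rw [hm_rc]; exact hof z hz)

/-- **(P2)** no arc from `m1` to `m2` over the near zone `n` -/
theorem gap_far : ∃ C a : ℝ, 0 < C ∧ 0 < a ∧ ∀ {T : Type} [DecidableEq T] (w : Sw300.Wd T)
    (b : Port T → Port T) (A : Set T) (pos : T → P2) (x : P2) (r R : ℕ)
    (m1 n m2 o : List (Port T)), Sw300.Ok w →
    bs w = none → (∀ x, Sw300.be w x = b x) → Ball (Ob664.Gl b) A pos x R → 1 ≤ r → r ≤ R →
    Sw300.L w ~r m1 ++ (n ++ (m2 ++ o)) → n ≠ [] → o ≠ [] →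
    (∀ y ∈ n, InT A y ∧ Nr pos x r y) → (∀ y ∈ o, ¬ Hm A pos x R y) →
    (PB (fun _ : T => hf)).real {s : T → Bool | ∀ y ∈ m1, Sw300.M s w y ∉ m2} ≤
      C * ((r : ℝ) / R) ^ a := by
  obtain ⟨C, a, hC, ha, h⟩ := cc_far
  exact ⟨C, a, hC, ha, fun w b A pos x r R m1 n m2 o hw hl hb hB hr hrR h1 h2 h3 h4 h5 =>
    (measureReal_mono (gap_sub hw hl hb h1 h2 h3 h4 h5)).trans (h _ A pos x r R hB hr hrR)⟩

/-- elements of a slice -/
theorem mem_slice {α : Type*} {l : List α} {d : α} {i j : ℕ} (hj : j ≤ l.length) {y : α} :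
    y ∈ (l.drop i).take (j - i) ↔ ∃ k, i ≤ k ∧ k < j ∧ l.getD k d = y := by
  rw [List.mem_iff_getElem]
  constructor
  · rintro ⟨k, hk, rfl⟩
    rw [List.length_take, List.length_drop] at hk
    refine ⟨i + k, by omega, by omega, ?_⟩
    rw [List.getElem_take, List.getElem_drop, List.getD_eq_getElem _ _ (by omega)]
  · rintro ⟨k, h1, h2, rfl⟩
    refine ⟨k - i, ?_, ?_⟩
    · rw [List.length_take, List.length_drop]; omega
    · rw [List.getElem_take, List.getElem_drop, List.getD_eq_getElem _ _ (by omega)]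
      congr 1
      omega

/-- **(P2), index form**: `α ≤ γ < δ ≤ β`, near zone = the ends with index in `[γ, δ)` of the list
read from `m` -/
theorem gap_far_idx : ∃ C a : ℝ, 0 < C ∧ 0 < a ∧ ∀ {T : Type} [DecidableEq T] (w : Sw300.Wd T)
    (b : Port T → Port T) (A : Set T) (pos : T → P2) (x : P2) (r R : ℕ)
    (m : Port T) (α γ δ β : ℕ), Sw300.Ok w →
    bs w = none → (∀ x, Sw300.be w x = b x) → Ball (Ob664.Gl b) A pos x R → 1 ≤ r → r ≤ R →
    m ∈ Sw300.L w → α ≤ γ → γ < δ → δ ≤ β → β ≤ (Sw300.L w).length →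
    (0 < α ∨ β < (Sw300.L w).length) →
    (∀ i, γ ≤ i → i < δ → InT A (Al194.enL (Sw300.L w) m i) ∧
      Nr pos x r (Al194.enL (Sw300.L w) m i)) →
    (∀ i, i < α ∨ (β ≤ i ∧ i < (Sw300.L w).length) → ¬ Hm A pos x R (Al194.enL (Sw300.L w) m i)) →
    (PB (fun _ : T => hf)).real {s : T → Bool | ∀ i, α ≤ i → i < γ →
      ¬ (δ ≤ Al194.piL (Sw300.L w) (Sw300.M s w) m i ∧
        Al194.piL (Sw300.L w) (Sw300.M s w) m i < β)} ≤ C * ((r : ℝ) / R) ^ a := by
  classical
  obtain ⟨C, a, hC, ha, h⟩ := gap_far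
  refine ⟨C, a, hC, ha, fun {T} _ w b A pos x r R m α γ δ β hw hl hb hB hr hrR hm h1 h2 h3 h4 h5
    h6 h7 => ?_⟩
  set l := Al194.rotl (Sw300.L w) m with hl'
  have hlen : l.length = (Sw300.L w).length := Al194.rotl_length _ _
  have hnd : l.Nodup := Al194.rotl_nodup (Sw300.nodup hw)
  have hen : ∀ i, Al194.enL (Sw300.L w) m i = l.getD i none := fun i => rfl
  set n1 := (l.drop α).take (γ - α) with hn1
  set n2 := (l.drop γ).take (δ - γ) with hn2
  set n3 := (l.drop δ).take (β - δ) with hn3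
  set o := l.drop β ++ l.take α with ho
  have hsplit : l = l.take α ++ (n1 ++ (n2 ++ (n3 ++ l.drop β))) := by
    have e1 : l.drop δ = n3 ++ l.drop β := by
      have := (List.take_append_drop (β - δ) (l.drop δ)).symm
      rwa [List.drop_drop, show δ + (β - δ) = β by omega] at this
    have e2 : l.drop γ = n2 ++ l.drop δ := by
      have := (List.take_append_drop (δ - γ) (l.drop γ)).symm
      rwa [List.drop_drop, show γ + (δ - γ) = δ by omega] at this
    have e3 : l.drop α = n1 ++ l.drop γ := by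
      have := (List.take_append_drop (γ - α) (l.drop α)).symm
      rwa [List.drop_drop, show α + (γ - α) = γ by omega] at this
    rw [← e1, ← e2, ← e3, List.take_append_drop]
  have hrot : Sw300.L w ~r n1 ++ (n2 ++ (n3 ++ o)) := by
    have e1 : Sw300.L w ~r l := ⟨_, rfl⟩
    have e2 : l ~r n1 ++ (n2 ++ (n3 ++ o)) := by
      have := rot_app (l.take α) (n1 ++ (n2 ++ (n3 ++ l.drop β)))
      rw [← hsplit] at this
      simpa [ho] using this
    exact e1.trans e2
  refine le_trans (measureReal_mono ?_) (h w b A pos x r R n1 n2 n3 o hw hl hb hB hr hrR hrot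
    ?_ ?_ ?_ ?_)
  · intro s hs y hy hMy
    obtain ⟨i, hi1, hi2, rfl⟩ := (mem_slice (d := (none : Port T)) (by omega)).1 hy
    obtain ⟨j, hj1, hj2, hj3⟩ := (mem_slice (d := (none : Port T)) (by omega)).1 hMy
    refine hs i hi1 hi2 ?_
    have e1 : Al194.piL (Sw300.L w) (Sw300.M s w) m i = j := by
      unfold Al194.piL
      rw [← hl', ← hj3, List.getD_eq_getElem _ _ (by omega : j < l.length)]
      exact hnd.idxOf_getElem _ _
    rw [e1]
    exact ⟨hj1, hj2⟩
  · rw [hn2, Ne, List.take_eq_nil_iff, not_or]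
    refine ⟨by omega, fun h0 => ?_⟩
    have := congrArg List.length h0
    rw [List.length_drop, List.length_nil] at this
    omega
  · intro h0
    have := congrArg List.length h0
    rw [ho, List.length_append, List.length_drop, List.length_take, List.length_nil] at this
    omega
  · intro y hy
    obtain ⟨i, hi1, hi2, rfl⟩ := (mem_slice (d := (none : Port T)) (by omega)).1 hy
    exact h6 i hi1 hi2
  · intro y hy
    rw [ho, List.mem_append] at hy
    rcases hy with hy | hy
    · obtain ⟨k, hk, rfl⟩ := List.mem_iff_getElem.1 hy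
      rw [List.length_drop] at hk
      have := h7 (β + k) (Or.inr ⟨by omega, by omega⟩)
      rw [hen, List.getD_eq_getElem _ _ (by omega)] at this
      rwa [List.getElem_drop]
    · obtain ⟨k, hk, rfl⟩ := List.mem_iff_getElem.1 hy
      rw [List.length_take] at hk
      have := h7 k (Or.inl (by omega))
      rw [hen, List.getD_eq_getElem _ _ (by omega)] at this
      rwa [List.getElem_take]

end words2

end Crest.Agent.R158.Dp109
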