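import Crest.Agent.R158.Dp2_109

/-!
# Row 158, dropped part of the slices (helper109): balls of `beD`

* `ball_beD` : the glueing `beD A p y0 xr` is plane in every box at vertical distance `> R + 1` from
  the row `y0`
-/

set_option autoImplicit false

noncomputable section

namespace Crest.Agent.R158.Dp109

open Crest.Agent.R161.Geo729 Crest.Agent.R158.Mr679
open Crest.Agent.R158.Gc748 Crest.Agent.R158.Cb771
open Crest.Agent.R158.Sw300 (Port)
open Crest.Agent.R158.Env664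

/-- tiles of `A` in the box of radius `R` around `v` -/
def bxA (A : Finset (ℤ × ℤ)) (v : ℤ × ℤ) (R : ℕ) : Set (ℤ × ℤ) :=
  {t | t ∈ A ∧ |t.1 - v.1| ≤ R ∧ |t.2 - v.2| ≤ R}

/-- `beD` at a tile off the rows `y0 - 1`, `y0` -/
theorem beD_off {A : Finset (ℤ × ℤ)} {p y0 xr : ℤ} {t : ℤ × ℤ} {d : ZMod 4} {q : Port (ℤ × ℤ)}
    (h0 : t.2 ≠ y0) (h1 : t.2 ≠ y0 - 1) (h : Ob664.Gl (beD A p y0 xr) (some (t, d)) q) :
    ∃ t', q = some (t', d + 2) ∧ t' = t + dir d ∧ t' ∈ A := by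
  obtain ⟨h2, h3⟩ := h
  obtain ⟨x, y⟩ := t
  simp only at h0 h1
  have h4 : PortOf A (nbD p y0 xr (some ((x, y), d))) ∧
      nbD p y0 xr (some ((x, y), d)) = q := by
    unfold beD res at h2
    split_ifs at h2 with h5
    · exact ⟨h5.2, h2⟩
    · exact absurd h2 h3
  obtain ⟨h5, rfl⟩ := h4
  rcases z4 d with rfl | rfl | rfl | rfl
  · rw [nbD_W] at h5 ⊢
    refine ⟨(x - 1, y), by rfl, ?_, h5 _ rfl⟩
    simp only [dir]
    ext <;> simp
    ring
  · rw [nbD_N (by omega)] at h5 ⊢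
    refine ⟨(x, y + 1), by rfl, ?_, h5 _ rfl⟩
    simp only [dir]
    ext <;> simp [n10]
  · rw [nbD_E] at h5 ⊢
    refine ⟨(x + 1, y), by rfl, ?_, h5 _ rfl⟩
    simp only [dir]
    ext <;> simp [n20, n21]
  · rw [nbD_S (by omega)] at h5 ⊢
    refine ⟨(x, y - 1), by rfl, ?_, h5 _ rfl⟩
    simp only [dir]
    ext <;> simp [n30, n31, n32]
    ring

/-- steps have length at most one -/
theorem dir_le : ∀ d : ZMod 4,
    (-1 ≤ (dir d).1 ∧ (dir d).1 ≤ 1) ∧ (-1 ≤ (dir d).2 ∧ (dir d).2 ≤ 1) := by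
  decide

/-- **balls of `beD`** -/
theorem ball_beD {A : Finset (ℤ × ℤ)} {p y0 xr : ℤ} (hp : p ≤ xr) (hr : (xr + 1, y0) ∉ A)
    (v : ℤ × ℤ) (R : ℕ) (hfar : (R : ℤ) + 1 < |v.2 - y0|) :
    Ball (Ob664.Gl (beD A p y0 xr)) (bxA A v R) (fun t => t) v R where
  fin := by
    refine Set.Finite.subset A.finite_toSet ?_
    rintro t ⟨h, -⟩
    exact h
  ch := by
    have hrow : ∀ t ∈ bxA A v R, t.2 ≠ y0 ∧ t.2 ≠ y0 - 1 := by
      rintro t ⟨-, -, h⟩
      rw [abs_le] at h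
      rcases lt_abs.1 hfar with h1 | h1 <;> constructor <;> omega
    refine ⟨?_, fun t _ t' _ h => h, ?_⟩
    · rintro q q' ⟨h1, h2⟩
      exact ⟨by rw [← h1, beD_invol hp hr], h2.symm⟩
    · intro t d t' d' ht ht' h
      obtain ⟨t'', h1, h2, -⟩ := beD_off (hrow t ht).1 (hrow t ht).2 h
      simp only [Option.some.injEq, Prod.mk.injEq] at h1
      exact ⟨h1.2, by rw [h1.1]; exact h2⟩
  clo := by
    rintro t ⟨h0, h1, h2⟩ h3 h4 d q h
    rw [abs_le] at h1 h2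
    have hrow : t.2 ≠ y0 ∧ t.2 ≠ y0 - 1 := by
      rcases lt_abs.1 hfar with h1 | h1 <;> constructor <;> omega
    obtain ⟨t', rfl, rfl, h5⟩ := beD_off hrow.1 hrow.2 h
    refine ⟨h5, ?_⟩
    have hd := dir_le d
    rw [abs_lt] at h3 h4
    simp only [Prod.fst_add, Prod.snd_add, abs_le]
    omega

end Crest.Agent.R158.Dp109
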