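import Crest.Agent.R158.Dp1_440
import Crest.Agent.R158.Al6_194

/-!
# R158 (helper440), dropped part of the mark sum, 3: word level

`drop_word` : ends that carry no middle phase off an event `Bad` cost `≤ 7 / 2 * P(Bad)`.
-/

set_option autoImplicit false

namespace Crest.Agent.R158.Al194

open Crest.Agent.R158.Vt300 Crest.Agent.R158.Sw300 Crest.Agent.R158.Ob664 Finset MeasureTheory
open Crest.Agent.R158.Rs689 (PB hf)

variable {T : Type*} [DecidableEq T] {w : Wd T}

/-- pointwise bound of a dropped part -/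
theorem drop_pt (h : Ok w) {m1 m2 : Port T} (hm : m1 ∈ L w) (hm2 : m2 ∈ L w) (A : Finset ℕ)
    (hA : ∀ e ∈ A, e < (L w).length) (s : T → Bool) :
    ‖∑ j ∈ A, hL s w (fun x => (cM (L w) m1 m2 j x : ℝ))‖ ≤ 7 := by
  have hN := nckL s h hm
  have := hN.norm_drop (x1 := 0) (x2 := (rotl (L w) m1).idxOf m2) (Nat.zero_le _)
    (idL_lt (m1 := m1) hm2).le A hA
  rwa [sum_congr rfl fun j _ => Sm_port (s := s) h hm] at this

/-- **dropping ends**: `A` = dropped indices, off `Bad` none of them carries a middle phase -/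
theorem drop_word (h : Ok w) {m1 m2 m3 : Port T} (hM : Mk w m1 m2 m3) (A : Finset ℕ)
    (hA : A ⊆ Ico ((rotl (L w) m1).idxOf m2) ((rotl (L w) m1).idxOf m3))
    (Bad : Set (T → Bool))
    (hBad : ∀ s ∉ Bad, ∀ e ∈ A, Sm (piL (L w) (M s w) m1) (L w).length
      ((rotl (L w) m1).idxOf (u s w)) 0 ((rotl (L w) m1).idxOf m2) e = 0) :
    ‖HW w m1 m2 m3 -
      ((∑ j ∈ Ico ((rotl (L w) m1).idxOf m2) ((rotl (L w) m1).idxOf m3) \ A,
          ∫ s, hL s w (fun x => (cM (L w) m1 m2 j x : ℝ)) ∂(PB fun _ : T => hf)) / 2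
        + (∫ s, hL s w (fun x => (cS (L w) m1 m2 ((rotl (L w) m1).idxOf m2) x : ℝ))
          ∂(PB fun _ : T => hf)) / 2)‖ ≤ 7 / 2 * (PB fun _ : T => hf).real Bad := by
  have hlt := idL_lt (m1 := m1) hM.2.2.1
  unfold idL at hlt
  have hAN : ∀ e ∈ A, e < (L w).length := fun e he => by
    have := mem_Ico.1 (hA he)
    omega
  have e1 : HW w m1 m2 m3 -
      ((∑ j ∈ Ico ((rotl (L w) m1).idxOf m2) ((rotl (L w) m1).idxOf m3) \ A,
          ∫ s, hL s w (fun x => (cM (L w) m1 m2 j x : ℝ)) ∂(PB fun _ : T => hf)) / 2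
        + (∫ s, hL s w (fun x => (cS (L w) m1 m2 ((rotl (L w) m1).idxOf m2) x : ℝ))
          ∂(PB fun _ : T => hf)) / 2) =
      (∫ s, ∑ j ∈ A, hL s w (fun x => (cM (L w) m1 m2 j x : ℝ)) ∂(PB fun _ : T => hf)) / 2 := by
    rw [HW_mid h hM, ← sum_sdiff hA, integral_finset_sum _ fun j _ => integrable_hL w _]
    ring
  rw [e1, norm_div]
  set μ := PB fun _ : T => hf with hμ
  have hB := measurableSet_toMeasurable μ Bad
  have hb : ‖∫ s, ∑ j ∈ A, hL s w (fun x => (cM (L w) m1 m2 j x : ℝ)) ∂μ‖ ≤ 7 * μ.real Bad := by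
    have h1 : ∀ s, ‖∑ j ∈ A, hL s w (fun x => (cM (L w) m1 m2 j x : ℝ))‖ ≤
        (toMeasurable μ Bad).indicator (fun _ => (7 : ℝ)) s := by
      intro s
      by_cases hs : s ∈ toMeasurable μ Bad
      · rw [Set.indicator_of_mem hs]
        exact drop_pt h hM.1 hM.2.1 A hAN s
      · rw [Set.indicator_of_notMem hs]
        have hs' : s ∉ Bad := fun hh => hs (subset_toMeasurable μ Bad hh)
        rw [sum_eq_zero fun j hj => ?_, norm_zero]
        rw [← Sm_port (s := s) h hM.1]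
        exact hBad s hs' j hj
    refine (norm_integral_le_of_norm_le ?_ (Filter.Eventually.of_forall h1)).trans ?_
    · exact (integrable_const (7 : ℝ)).indicator hB
    · rw [integral_indicator hB, setIntegral_const, smul_eq_mul]
      have : μ.real (toMeasurable μ Bad) = μ.real Bad := by
        unfold Measure.real; rw [measure_toMeasurable]
      rw [this]; linarith
  have h2 : ‖(2 : ℂ)‖ = 2 := by simp
  rw [h2]
  linarith

end Crest.Agent.R158.Al194
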