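import Crest.Agent.R158.Dp3_440
import Crest.Agent.R158.Cw4_161
import Crest.Agent.R158.Mg1_949

/-!
# R158 (helper440), dropped part of the mark sum, 4: the blocks of a window

* `win_dec` : the free ends of a region with a window: far part, wall, inner part, wall
* `Sm_zero_dec` : an arc between the two walls kills the middle phases of the inner part
* `not_mid` : the inner part of a window round `m1` has no end between `m2` and `m3`
-/

set_option autoImplicit false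

namespace Crest.Agent.R158.Dp440

open Crest.Agent.R158.Sw300 (Port Wd L M u Ok tls nodup)
open Crest.Agent.R158.Al194 Crest.Agent.R158.Cw161
open Crest.Agent.R158.Sl434 (Pair Loc ChA pm Fp Ap some_Fp some_Ap)
open Crest.Agent.R158.Ob664 (GW HW Gl)
open Crest.Agent.R158.Xr249 (Nx Reg)

/-! ### blocks -/

section blocks

variable {α : Type*} [BEq α] [LawfulBEq α]

lemma idx_app_lt {P Q : List α} (h : (P ++ Q).Nodup) {x y : α} (hx : x ∈ P) (hy : y ∈ Q) :
    (P ++ Q).idxOf x < (P ++ Q).idxOf y := by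
  have hyP : y ∉ P := fun h' => (List.nodup_append.1 h).2.2 y h' y hy rfl
  rw [List.idxOf_append_of_mem hx, List.idxOf_append_of_notMem hyP]
  have := List.idxOf_lt_length_of_mem hx
  omega

end blocks

/-! ### blocks of the list of ends (any tiles) -/

section generic

variable {T : Type*} [DecidableEq T] {w : Wd T} {s : T → Bool} {A' Z1 D Z2 : List (Port T)}

/-- the list read from an element of the first block -/
theorem rotl_first (ok : Ok w) (h : L w ~r A' ++ Z1 ++ D ++ Z2) {m : Port T} (hm : m ∈ A') :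
    ∃ Q P, A' = P ++ m :: Q ∧ rotl (L w) m = (m :: Q) ++ (Z1 ++ (D ++ (Z2 ++ P))) := by
  obtain ⟨P, Q, e⟩ := List.append_of_mem hm
  refine ⟨Q, P, e, ?_⟩
  refine Mg949.rotl_of (l' := (m :: Q) ++ (Z1 ++ (D ++ (Z2 ++ P)))) ?_ (nodup ok) rfl
  refine h.trans ?_
  rw [e]
  have e1 : P ++ m :: Q ++ Z1 ++ D ++ Z2 = P ++ ((m :: Q) ++ (Z1 ++ (D ++ Z2))) := by simp
  have e2 : (m :: Q) ++ (Z1 ++ (D ++ (Z2 ++ P))) = ((m :: Q) ++ (Z1 ++ (D ++ Z2))) ++ P := by simp
  rw [e1, e2]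
  exact List.isRotated_append

/-- **an arc between the walls kills the middle phases of the inner part** -/
theorem Sm_zero_blocks (ok : Ok w) (h : L w ~r A' ++ Z1 ++ D ++ Z2) {m1 m2 : Port T}
    (h1 : m1 ∈ A') (h2 : m2 ∈ L w) {x : Port T} (hx : x ∈ Z1) (hy : M s w x ∈ Z2)
    (hu : u s w ∉ Z1 ++ D ++ Z2) {e : ℕ} (he : e < (L w).length) (heD : enL (L w) m1 e ∈ D) :
    Sm (piL (L w) (M s w) m1) (L w).length (idL (L w) m1 (u s w)) 0
      (idL (L w) m1 m2) e = 0 := by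
  obtain ⟨Q, P, e1, e2⟩ := rotl_first ok h h1
  have hm1 : m1 ∈ L w := h.mem_iff.2 (by simp [h1])
  have hN := nckL s ok hm1
  have hnd : ((m1 :: Q) ++ (Z1 ++ (D ++ (Z2 ++ P)))).Nodup := by
    rw [← e2]; exact rotl_nodup (nodup ok)
  have hxL : x ∈ L w := h.mem_iff.2 (by simp [hx])
  have hyL : M s w x ∈ L w := h.mem_iff.2 (by simp [hy])
  have hi : (rotl (L w) m1).idxOf x < (L w).length := idL_lt (m1 := m1) hxL
  have hj : (rotl (L w) m1).idxOf (M s w x) < (L w).length := idL_lt (m1 := m1) hyL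
  have hpi : piL (L w) (M s w) m1 ((rotl (L w) m1).idxOf x) = (rotl (L w) m1).idxOf (M s w x) := by
    unfold piL
    congr 2
    exact enL_idL (m1 := m1) hxL
  have hei : (rotl (L w) m1).idxOf (enL (L w) m1 e) = e := idL_enL ok he
  -- order of the indices
  have n1 := (List.nodup_append.1 hnd).2.1
  have n2 := (List.nodup_append.1 n1).2.1
  have n3 := (List.nodup_append.1 n2).2.1
  have hsh : ∀ (B C : List (Port T)) (x y : Port T), (B ++ C).Nodup → x ∈ C → y ∈ C →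
      C.idxOf x < C.idxOf y → (B ++ C).idxOf x < (B ++ C).idxOf y := by
    intro B C x y hn hx hy hxy
    have hxB : x ∉ B := fun h' => (List.nodup_append.1 hn).2.2 x h' x hx rfl
    have hyB : y ∉ B := fun h' => (List.nodup_append.1 hn).2.2 y h' y hy rfl
    rw [List.idxOf_append_of_notMem hxB, List.idxOf_append_of_notMem hyB]
    omega
  have o1 : (rotl (L w) m1).idxOf x < e := by
    conv_rhs => rw [← hei]
    rw [e2]
    exact hsh _ _ _ _ hnd (by simp [hx]) (by simp [heD]) (idx_app_lt n1 hx (by simp [heD]))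
  have o2 : e < (rotl (L w) m1).idxOf (M s w x) := by
    conv_lhs => rw [← hei]
    rw [e2]
    exact hsh _ _ _ _ hnd (by simp [heD]) (by simp [hy]) (hsh _ _ _ _ n1 (by simp [heD])
      (by simp [hy]) (idx_app_lt n2 heD (by simp [hy])))
  have o3 : (rotl (L w) m1).idxOf (u s w) < (rotl (L w) m1).idxOf x ∨
      (rotl (L w) m1).idxOf (M s w x) < (rotl (L w) m1).idxOf (u s w) := by
    have huL : u s w ∈ L w := (Sw300.Ok.inv s w ok).um
    have : u s w ∈ rotl (L w) m1 := mem_rotl.2 huL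
    rw [e2] at this
    rw [List.mem_append, List.mem_append, List.mem_append, List.mem_append] at this
    rw [List.mem_append, List.mem_append] at hu
    rcases this with h3 | h3 | h3 | h3 | h3
    · left
      rw [e2]
      exact idx_app_lt hnd h3 (by simp [hx])
    · exact absurd (Or.inl (Or.inl h3)) hu
    · exact absurd (Or.inl (Or.inr h3)) hu
    · exact absurd (Or.inr h3) hu
    · right
      rw [e2]
      exact hsh _ _ _ _ hnd (by simp [hy]) (by simp [h3]) (hsh _ _ _ _ n1 (by simp [hy])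
        (by simp [h3]) (hsh _ _ _ _ n2 (by simp [hy]) (by simp [h3]) (idx_app_lt n3 hy h3)))
  refine hN.Sm_zero_of_over (Nat.zero_le _) (idL_lt (m1 := m1) h2).le he hi ?_ ?_ ?_ ?_
  · unfold st
    rw [hpi]
    omega
  · unfold ing
    rw [hpi, if_pos (by omega)]
    omega
  · unfold ing
    rw [hpi, if_pos (by omega)]
    omega
  · unfold ing
    rw [hpi, if_pos (by omega)]
    omega

/-- **blocks round `m1` have no end between `m2` and `m3`** -/
theorem not_mid (ok : Ok w) (h : L w ~r A' ++ Z1 ++ D ++ Z2) {m1 m2 m3 : Port T}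
    (h1 : m1 ∈ Z1 ++ D ++ Z2) (h2 : m2 ∈ A') (h3 : m3 ∈ A') {e : ℕ}
    (he : idL (L w) m1 m2 ≤ e) (he' : e < idL (L w) m1 m3) :
    enL (L w) m1 e ∉ Z1 ++ D ++ Z2 := by
  intro hc
  obtain ⟨P, Q, e1⟩ := List.append_of_mem h1
  have e2 : rotl (L w) m1 = (m1 :: Q) ++ (A' ++ P) := by
    refine Mg949.rotl_of (l' := (m1 :: Q) ++ (A' ++ P)) ?_ (nodup ok) rfl
    refine h.trans ?_
    have e3 : A' ++ Z1 ++ D ++ Z2 = (A' ++ P) ++ (m1 :: Q) := by
      have e4 : A' ++ Z1 ++ D ++ Z2 = A' ++ (Z1 ++ D ++ Z2) := by simp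
      rw [e4, e1]; simp
    rw [e3]
    exact List.isRotated_append
  have hnd : ((m1 :: Q) ++ (A' ++ P)).Nodup := by
    rw [← e2]; exact rotl_nodup (nodup ok)
  have n1 := (List.nodup_append.1 hnd).2.1
  have hm3 : m3 ∈ L w := h.mem_iff.2 (by simp [h3])
  have hlt : e < (L w).length := he'.trans (idL_lt (m1 := m1) hm3)
  have hei : (rotl (L w) m1).idxOf (enL (L w) m1 e) = e := idL_enL ok hlt
  unfold idL at he he'
  rw [e1] at hc
  rcases List.mem_append.1 hc with hc | hc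
  · -- after `m3`
    have h4 : (A' ++ P).idxOf m3 < (A' ++ P).idxOf (enL (L w) m1 e) := idx_app_lt n1 h3 hc
    have k1 : m3 ∉ (m1 :: Q) := fun h' =>
      (List.nodup_append.1 hnd).2.2 m3 h' m3 (by simp [h3]) rfl
    have k2 : enL (L w) m1 e ∉ (m1 :: Q) := fun h' =>
      (List.nodup_append.1 hnd).2.2 _ h' _ (by simp [hc]) rfl
    have h5 : (rotl (L w) m1).idxOf m3 < (rotl (L w) m1).idxOf (enL (L w) m1 e) := by
      rw [e2, List.idxOf_append_of_notMem k1, List.idxOf_append_of_notMem k2]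
      omega
    omega
  · have h4 : (rotl (L w) m1).idxOf (enL (L w) m1 e) < (rotl (L w) m1).idxOf m2 := by
      rw [e2]
      exact idx_app_lt hnd hc (by simp [h2])
    omega

end generic

/-- the decomposition of a window -/
structure Dec (w : Wd (ℤ × ℤ)) (X Y : ℤ) (r n : ℕ) (A' Z1 D Z2 : List (Port (ℤ × ℤ))) : Prop where
  rot : L w ~r A' ++ Z1 ++ D ++ Z2
  far : ∀ x ∈ A', FarM X Y n x
  wall : ∀ x ∈ Z1 ++ Z2, ∃ t d, x = some (t, d) ∧ Bx X Y n t ∧ ¬ Bx X Y r t
  inn : ∀ x ∈ D, ∃ t d, x = some (t, d) ∧ Bx X Y r t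

theorem win_dec {sh : Sh} {k : ZMod 4} {X Y : ℤ} {r n : ℕ} (hr : 1 ≤ r) (hn : r + 1 ≤ n)
    {A : Finset (ℤ × ℤ)} {b : Port (ℤ × ℤ) → Port (ℤ × ℤ)} {w : Wd (ℤ × ℤ)} (hw : GW A b w)
    (h : Win sh k X Y r n A b)
    (hnp : ∀ t, Bx X Y n t → ¬ Bx X Y r t → t ∈ A → pat X Y sh k t) :
    ∃ A' Z1 D Z2, Dec w X Y r n A' Z1 D Z2 := by
  obtain ⟨K, w0, N1, Jl, N2, Jo, Ob, a0, b0, hD⟩ := annD_exists sh X Y hr hn
  have hP := pair_of_win hD (by omega) hw hw h h (fun _ _ => rfl)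
  obtain ⟨A', Di, Gi, k1, -, k3⟩ := hP.two (hth_k k) (fun _ => false)
  refine ⟨A', _, Di, _, k1, ?_, ?_, ?_⟩
  · intro x hx
    exact farM_iff.2 (k3.AF x hx)
  · intro x hx
    have : ∃ p ∈ N1 ++ N2, Sl434.pm (rk X Y (-k)) (-k) p = x := by
      rw [← List.map_append] at hx
      exact List.mem_map.1 hx
    obtain ⟨p, hp, rfl⟩ := this
    have hp' : p ∈ N1 ++ Jl ++ N2 ++ Jo := by
      simp only [List.mem_append] at hp ⊢; tauto
    obtain ⟨⟨t, d⟩, e, ht⟩ := (hP.lc.pf (hP.ch.port hp')).1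
    exact ⟨t, d, e, ht.2.1, ht.2.2⟩
  · intro x hx
    have h1 := k3.Do x hx
    have hxL : x ∈ L w := k1.mem_iff.2 (by simp [hx])
    rcases x with _ | ⟨t, d⟩
    · exact absurd (Or.inl (Sl434.none_Fp _)) h1
    · refine ⟨t, d, rfl, ?_⟩
      have hn' : Bx X Y n t := by
        by_contra hc
        exact h1 (Or.inl (some_Fp.2 hc))
      by_contra hc
      apply h1
      right
      have ht : t ∈ A := (hw.word.2.2.1 t).1 (Gc748.mem_L_tls hw.word.1 hxL)
      exact some_Ap.2 ⟨hnp t hn' hc ht, hn', hc⟩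

section dec

variable {w : Wd (ℤ × ℤ)} {X Y : ℤ} {r n : ℕ} {A' Z1 D Z2 : List (Port (ℤ × ℤ))}

lemma bx_mono {X Y : ℤ} {r n : ℕ} (h : r ≤ n) {t : ℤ × ℤ} (ht : Bx X Y r t) : Bx X Y n t := by
  unfold Bx at *; omega

theorem Dec.nd (h : Dec w X Y r n A' Z1 D Z2) (ok : Ok w) : (A' ++ Z1 ++ D ++ Z2).Nodup :=
  h.rot.nodup_iff.1 (nodup ok)

/-- inner ends -/
theorem Dec.mem_inn (h : Dec w X Y r n A' Z1 D Z2) (hrn : r ≤ n) {t : ℤ × ℤ} {d : ZMod 4}
    (hx : some (t, d) ∈ L w) (ht : Bx X Y r t) : some (t, d) ∈ D := by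
  have := h.rot.mem_iff.1 hx
  simp only [List.mem_append] at this
  rcases this with ((h1 | h1) | h1) | h1
  · exact absurd (bx_mono hrn ht) (h.far _ h1 t d rfl)
  · obtain ⟨t', d', e, -, h3⟩ := h.wall _ (List.mem_append_left _ h1)
    obtain ⟨rfl, rfl⟩ := Gc748.pt_inj.1 e
    exact absurd ht h3
  · exact h1
  · obtain ⟨t', d', e, -, h3⟩ := h.wall _ (List.mem_append_right _ h1)
    obtain ⟨rfl, rfl⟩ := Gc748.pt_inj.1 e
    exact absurd ht h3

/-- ends of the window -/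
theorem Dec.near (h : Dec w X Y r n A' Z1 D Z2) (hrn : r ≤ n) {x : Port (ℤ × ℤ)}
    (hx : x ∈ Z1 ++ D ++ Z2) : ∃ t d, x = some (t, d) ∧ Bx X Y n t := by
  simp only [List.mem_append] at hx
  rcases hx with (h1 | h1) | h1
  · obtain ⟨t', d', e, h2, -⟩ := h.wall _ (List.mem_append_left _ h1)
    exact ⟨t', d', e, h2⟩
  · obtain ⟨t', d', e, h2⟩ := h.inn _ h1
    exact ⟨t', d', e, bx_mono hrn h2⟩
  · obtain ⟨t', d', e, h2, -⟩ := h.wall _ (List.mem_append_right _ h1)
    exact ⟨t', d', e, h2⟩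

theorem Dec.mem_far (h : Dec w X Y r n A' Z1 D Z2) (hrn : r ≤ n) {m : Port (ℤ × ℤ)}
    (hm : m ∈ L w) (hf : FarM X Y n m) : m ∈ A' := by
  have := h.rot.mem_iff.1 hm
  rw [List.append_assoc, List.append_assoc] at this
  rcases List.mem_append.1 this with h1 | h1
  · exact h1
  · obtain ⟨t, d, rfl, h2⟩ := h.near hrn (by rwa [← List.append_assoc] at h1)
    exact absurd h2 (hf t d rfl)

end dec

end Crest.Agent.R158.Dp440
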