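import Crest.Agent.R158.Xr10_249
import Crest.Agent.R158.Psi_664

/-!
# R158, block XR (helper249), file Xr14: lifted direction of a plain word

For a word `w` of the plain region `A` with base tile `(xl, t0)` (marker before its side `W`):

* `phi_base` : `phi w (some (base, d)) = d.val`
* `Wrd.gs` : the glued pairs of the word are `gb b`
* **`Wrd.step`** : local rule, `phi w y - phi w x = k` along the boundary (`k - 4` at the base)
* `phi_left` : the left wall (`0` above the base, `4` below)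
* **`phi_right`** : the right wall of the runs of the base row: `phi w (some ((xr, y), 2)) = 2`
-/

set_option autoImplicit false
set_option linter.unusedVariables false
set_option linter.unusedSectionVars false

noncomputable section

namespace Crest.Agent.R158.Xr249

open Env664 (Run PortOf portOf_some portOf_none res nbP beP)
open Pt266 (Gw Gs Wk Glu Fr tt tt_nil tt_cons tt_append pass NxT CC NN Flat be_iff cc_word glu_Gw
  walk_word fr_of_mem LAdj ladj_gl isLeg_iff)

section gen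

variable {T : Type*} [DecidableEq T]

lemma bs_bas : ∀ w : Sw300.Wd T, Gc748.bs w = bas w
  | .leg => rfl
  | .tile _ => rfl
  | .att w _ _ _ => bs_bas w
  | .con w _ _ => bs_bas w

lemma bas_mem : ∀ {w : Sw300.Wd T} {t : T}, bas w = some t → t ∈ Sw300.tls w
  | .leg, t, h => by cases h
  | .tile t', t, h => by
    have h' : some t' = some t := h
    cases h'
    simp [Sw300.tls]
  | .att w p t' d, t, h => List.mem_cons_of_mem _ (bas_mem (w := w) h)
  | .con w p q, t, h => bas_mem (w := w) h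

/-- the directions of the base tile -/
lemma phi_base : ∀ {w : Sw300.Wd T}, Sw300.Ok w → ∀ {t : T}, bas w = some t → ∀ d : ZMod 4,
    Sw300.phi w (some (t, d)) = (d.val : ℤ)
  | .leg, _, t, h, d => by cases h
  | .tile t', _, t, h, d => rfl
  | .att w p t' e, hok, t, h, d => by
    have h1 : t ∈ Sw300.tls w := bas_mem (w := w) h
    have h2 : t ≠ t' := fun h3 => hok.2.2.1 (h3 ▸ h1)
    have ih := phi_base (w := w) hok.1 h d
    simp only [Sw300.phi]
    rw [if_neg (by simp [h2]), if_neg (by simp [h2]), if_neg (by simp [h2]), ih]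
  | .con w p q, hok, t, h, d => phi_base (w := w) hok.1 h d

/-- the glued pairs of a word -/
lemma Wrd.gs {w : Sw300.Wd T} {l : List (Port T)} {A : Finset T} {b : Port T → Port T}
    (h : Wrd w l A b) : Gs w = gb b := by
  funext x y
  refine propext ?_
  rw [be_iff h.ok, gb, h.isWord.2.2.2]

lemma Wrd.gw_iff {w : Sw300.Wd T} {l : List (Port T)} {A : Finset T} {b : Port T → Port T}
    (h : Wrd w l A b) (x y : T × ZMod 4) : Gw w x y ↔ gb b (some x) (some y) := by
  have e := h.gs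
  have h1 : Gs w (some x) (some y) ↔ gb b (some x) (some y) := by rw [e]
  exact h1

end gen

section plainword

variable {A : Finset (ℤ × ℤ)} {w : Sw300.Wd (ℤ × ℤ)} {b0 : ℤ × ℤ} {l : List (Port (ℤ × ℤ))}

lemma gbN {x y : ℤ} (h1 : (x, y) ∈ A) (h2 : (x, y + 1) ∈ A) :
    gb (beP A) (some ((x, y), 1)) (some ((x, y + 1), 3)) := by
  rw [gb_beP]; exact Reg.gl_1.2 ⟨⟨h1, h2⟩, rfl⟩

lemma gbE {x y : ℤ} (h1 : (x, y) ∈ A) (h2 : (x + 1, y) ∈ A) :
    gb (beP A) (some ((x, y), 2)) (some ((x + 1, y), 0)) := by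
  rw [gb_beP]; exact Reg.gl_2.2 ⟨⟨h1, h2⟩, rfl⟩

lemma gb_symm {a b : Port (ℤ × ℤ)} (h : gb (beP A) a b) : gb (beP A) b a := by
  rw [gb_beP] at h ⊢
  exact (full A).gl_glue.sym _ _ h

lemma gb_fn (a b c : Port (ℤ × ℤ)) (h : gb (beP A) a b) (h' : gb (beP A) a c) : b = c :=
  h.1.symm.trans h'.1

/-- flatness and the boundary cycle with its directions -/
theorem Wrd.cc (h : Wrd w l A (beP A)) (hb : bas w = some b0) :
    Flat w ∧ CC (gb (beP A)) (l.map fun x => (x, Sw300.phi w x)) := by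
  have hbs : Gc748.bs w ≠ none := by rw [bs_bas, hb]; simp
  have hadj : ∀ p q, (p, q) ∈ Gc748.gl w → LAdj p q := by
    intro p q h1
    have h2 : Gs w p q := Or.inl h1
    rw [h.gs, gb_beP] at h2
    exact ladj_gl h2
  obtain ⟨hF, l', hL, -, hcc⟩ := cc_word h.ok hbs hadj
  have e := h.L
  rw [hb] at e
  have e2 : none :: l' = none :: l := hL.symm.trans e
  obtain rfl : l' = l := (List.cons.inj e2).2
  rw [h.gs] at hcc
  exact ⟨hF, hcc⟩

/-- **local rule for the lifted direction** -/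
theorem Wrd.step {h0 : Port (ℤ × ℤ)} (h : Wrd w (h0 :: l) A (beP A)) (hb : bas w = some b0)
    {x y : Port (ℤ × ℤ)} {k : ℤ} (hx : x ∈ h0 :: l) (hn : NxT (gb (beP A)) x y k) :
    y ∈ h0 :: l ∧ Sw300.phi w y - Sw300.phi w x = if y = h0 then k - 4 else k := by
  obtain ⟨hF, hcc⟩ := h.cc hb
  obtain ⟨l1, l2, e⟩ := List.append_of_mem hx
  have hnd := h.nd
  rw [e] at hcc
  cases l2 with
  | cons q l3 =>
    rw [List.map_append, List.map_cons, List.map_cons] at hcc
    have h1 := CC.mid hcc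
    obtain ⟨rfl, h2⟩ := h1.det gb_fn hn
    refine ⟨by rw [e]; simp, ?_⟩
    rw [if_neg, h2]
    rintro rfl
    cases l1 with
    | nil =>
      have e1 := List.cons.inj e
      rw [e] at hnd
      have h3 := (List.nodup_cons.1 hnd).1
      rw [e1.1] at h3
      exact h3 (by simp)
    | cons a l1 =>
      have e1 := List.cons.inj e
      rw [e] at hnd
      have h3 := (List.nodup_cons.1 hnd).1
      rw [← e1.1] at h3
      exact h3 (by simp)
  | nil =>
    rw [List.map_append, List.map_cons, List.map_nil] at hcc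
    have h1 : CC (gb (beP A)) ([(x, Sw300.phi w x)] ++
        ((l1.map fun x => (x, Sw300.phi w x)).map (Pt266.sh 4))) := CC.rotn hcc
    have h2 : NxT (gb (beP A)) x h0 (Sw300.phi w h0 + 4 - Sw300.phi w x) := by
      cases l1 with
      | nil =>
        have e1 := List.cons.inj e
        have h3 : List.IsChain (NN (gb (beP A))) ((x, Sw300.phi w x) ::
          ([] ++ [Pt266.sh 4 (x, Sw300.phi w x)])) := h1
        simp only [List.nil_append, List.isChain_cons_cons] at h3
        rw [e1.1]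
        exact h3.1
      | cons a l1 =>
        have e1 := List.cons.inj e
        have h3 : List.IsChain (NN (gb (beP A))) ((x, Sw300.phi w x) ::
          ((((a :: l1).map fun x => (x, Sw300.phi w x)).map (Pt266.sh 4)) ++
            [Pt266.sh 4 (x, Sw300.phi w x)])) := h1
        simp only [List.map_cons, List.cons_append, List.isChain_cons_cons] at h3
        rw [e1.1]
        exact h3.1
    obtain ⟨rfl, h3⟩ := h2.det gb_fn hn
    refine ⟨by simp, ?_⟩
    rw [if_pos rfl, ← h3]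
    ring

/-- ports of the left / right ends of a run are free -/
lemma Wrd.mem_W (h : Wrd w l A (beP A)) {x y : ℤ} (h1 : (x, y) ∈ A) (h2 : (x - 1, y) ∉ A) :
    (some ((x, y), 0) : Port (ℤ × ℤ)) ∈ l := by
  rw [h.mem]
  refine ⟨⟨by simp, portOf_some.2 h1⟩, ?_⟩
  by_contra h3
  have h4 : gb (beP A) (some ((x, y), 0)) (beP A (some ((x, y), 0))) := ⟨rfl, fun h => h3 h.symm⟩
  rw [gb_beP, Reg.gl_0] at h4
  exact h2 h4.1.1

lemma Wrd.mem_E (h : Wrd w l A (beP A)) {x y : ℤ} (h1 : (x, y) ∈ A) (h2 : (x + 1, y) ∉ A) :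
    (some ((x, y), 2) : Port (ℤ × ℤ)) ∈ l := by
  rw [h.mem]
  refine ⟨⟨by simp, portOf_some.2 h1⟩, ?_⟩
  by_contra h3
  have h4 : gb (beP A) (some ((x, y), 2)) (beP A (some ((x, y), 2))) := ⟨rfl, fun h => h3 h.symm⟩
  rw [gb_beP, Reg.gl_2] at h4
  exact h2 h4.1.2

/-- flat step upwards along a left wall -/
lemma nxt_W {x y : ℤ} (h1 : (x, y) ∈ A) (h2 : (x, y + 1) ∈ A) (h3 : (x - 1, y + 1) ∉ A) :
    NxT (gb (beP A)) (some ((x, y), 0)) (some ((x, y + 1), 0)) 0 := by
  have e0 : rot (some ((x, y), 0) : Port (ℤ × ℤ)) = some ((x, y), 1) := by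
    rw [rot_some]; rfl
  have e1 : rot (some ((x, y + 1), 3) : Port (ℤ × ℤ)) = some ((x, y + 1), 0) := by
    rw [rot_some]; rfl
  have h4 : NxT (gb (beP A)) (some ((x, y + 1), 3)) (some ((x, y + 1), 0)) 1 := by
    have := NxT.stop (G := gb (beP A)) (p := some ((x, y + 1), 3)) (by
      intro q hq
      rw [e1, gb_beP, Reg.gl_0] at hq
      exact h3 hq.1.1)
    rwa [e1] at this
  exact (NxT.go (by rw [e0]; exact gbN h1 h2) h4).cast (by norm_num)

/-- flat step downwards along a right wall -/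
lemma nxt_E {x y : ℤ} (h1 : (x, y) ∈ A) (h2 : (x, y + 1) ∈ A) (h3 : (x + 1, y) ∉ A) :
    NxT (gb (beP A)) (some ((x, y + 1), 2)) (some ((x, y), 2)) 0 := by
  have e0 : rot (some ((x, y + 1), 2) : Port (ℤ × ℤ)) = some ((x, y + 1), 3) := by
    rw [rot_some]; rfl
  have e1 : rot (some ((x, y), 1) : Port (ℤ × ℤ)) = some ((x, y), 2) := by
    rw [rot_some]; rfl
  have h4 : NxT (gb (beP A)) (some ((x, y), 1)) (some ((x, y), 2)) 1 := by
    have := NxT.stop (G := gb (beP A)) (p := some ((x, y), 1)) (by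
      intro q hq
      rw [e1, gb_beP, Reg.gl_2] at hq
      exact h3 hq.1.2)
    rwa [e1] at this
  exact (NxT.go (by rw [e0]; exact gb_symm (gbN h1 h2)) h4).cast (by norm_num)

/-- **left wall**: `0` from the base upwards -/
theorem phi_left_up {xl t0 t1 : ℤ} (h : Wrd w (some ((xl, t0), 0) :: l) A (beP A))
    (hb : bas w = some (xl, t0)) (hr : ∀ y, t0 ≤ y → y < t1 → (xl, y) ∈ A ∧ (xl - 1, y) ∉ A) :
    ∀ y, t0 ≤ y → y < t1 → Sw300.phi w (some ((xl, y), 0)) = 0 := by
  intro y h1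
  induction y, h1 using Int.leInduction with
  | base =>
    intro _
    have := phi_base h.ok hb 0
    rw [this]; rfl
  | succ y h1 ih =>
    intro h2
    have h3 := ih (by omega)
    obtain ⟨a1, a2⟩ := hr y h1 (by omega)
    obtain ⟨b1, b2⟩ := hr (y + 1) (by omega) h2
    have h4 := (h.step hb (h.mem_W a1 a2) (nxt_W a1 b1 b2)).2
    rw [if_neg (by simp; omega)] at h4
    omega

/-- **left wall**: `4` below the base -/
theorem phi_left_down {xl t0 t1 : ℤ} (h : Wrd w (some ((xl, t0), 0) :: l) A (beP A))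
    (hb : bas w = some (xl, t0)) (hr : ∀ y, t1 ≤ y → y ≤ t0 → (xl, y) ∈ A ∧ (xl - 1, y) ∉ A) :
    ∀ y, y < t0 → t1 ≤ y → Sw300.phi w (some ((xl, y), 0)) = 4 := by
  have hbase : Sw300.phi w (some ((xl, t0), 0)) = 0 := by
    have := phi_base h.ok hb 0
    rw [this]; rfl
  have key : ∀ n : ℕ, t1 ≤ t0 - 1 - n → Sw300.phi w (some ((xl, t0 - 1 - n), 0)) = 4 := by
    intro n
    induction n with
    | zero =>
      intro h2
      simp only [Nat.cast_zero, sub_zero] at h2 ⊢
      obtain ⟨a1, a2⟩ := hr (t0 - 1) h2 (by omega)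
      obtain ⟨b1, b2⟩ := hr t0 (by omega) (le_refl _)
      have h3 : NxT (gb (beP A)) (some ((xl, t0 - 1), 0)) (some ((xl, t0), 0)) 0 := by
        have := nxt_W (x := xl) (y := t0 - 1) a1 (by rwa [sub_add_cancel])
          (by rwa [sub_add_cancel])
        rwa [sub_add_cancel] at this
      have h4 := (h.step hb (h.mem_W a1 a2) h3).2
      rw [if_pos rfl] at h4
      omega
    | succ n ih =>
      intro h2
      push_cast at h2 ⊢
      have h3 := ih (by omega)
      have e : t0 - 1 - (n : ℤ) = t0 - 1 - ((n : ℤ) + 1) + 1 := by ring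
      obtain ⟨a1, a2⟩ := hr (t0 - 1 - ((n : ℤ) + 1)) (by omega) (by omega)
      obtain ⟨b1, b2⟩ := hr (t0 - 1 - (n : ℤ)) (by omega) (by omega)
      rw [e] at b1 b2 h3
      have h4 := (h.step hb (h.mem_W a1 a2) (nxt_W a1 b1 b2)).2
      rw [if_neg (by simp; omega)] at h4
      omega
  intro y h1 h2
  have h3 := key (t0 - 1 - y).toNat (by omega)
  have e : t0 - 1 - (((t0 - 1 - y).toNat : ℕ) : ℤ) = y := by omega
  rwa [e] at h3

/-- the splitting of the zigzag -/
def zs (xl : ℤ) : ℤ × ℤ → Bool := fun t => decide ((t.1 - xl) % 2 = 0)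

/-- the zigzag through the rows `t0`, `t0 + 1` -/
lemma zig {xl xr t0 : ℤ} (hG : ∀ a b, gb (beP A) (some a) (some b) → Gw w a b)
    (hr : ∀ x, xl ≤ x → x ≤ xr → (x, t0) ∈ A ∧ (x, t0 + 1) ∈ A) : ∀ n : ℕ, xl + n ≤ xr →
    ∃ k, Wk (zs xl) (Gw w) ((xl, t0), 0) ((xl + n, if n % 2 = 0 then t0 + 1 else t0), 2) k ∧
      tt (zs xl) k = 0 := by
  have se : ∀ x y : ℤ, (x - xl) % 2 = 0 → zs xl (x, y) = true := fun x y h => by simp [zs, h]
  have so : ∀ x y : ℤ, (x - xl) % 2 ≠ 0 → zs xl (x, y) = false := fun x y h => by simp [zs, h]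
  have pt : ∀ (x y : ℤ) (d e : ZMod 4) (b : Bool), zs xl (x, y) = b → Sw300.thru b d = e →
      pass (zs xl) ((x, y), d) = ((x, y), e) := by
    intro x y d e b h1 h2
    unfold Pt266.pass
    simp only [h1, h2]
  have t0' : ∀ (x y : ℤ) (d : ZMod 4) (b : Bool) (v : ℤ), zs xl (x, y) = b → Sw300.tn b d = v →
      Sw300.tn (zs xl (((x, y), d) : (ℤ × ℤ) × ZMod 4).1) (((x, y), d) : (ℤ × ℤ) × ZMod 4).2 = v := by
    intro x y d b v h1 h2
    simp only [h1, h2]
  intro n
  induction n with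
  | zero =>
    intro h1
    simp only [Nat.cast_zero, add_zero] at h1 ⊢
    have s0 := se xl t0 (by simp)
    have s1 := se xl (t0 + 1) (by simp)
    obtain ⟨a1, a2⟩ := hr xl (le_refl _) h1
    have w1 : Wk (zs xl) (Gw w) ((xl, t0), 0) ((xl, t0), 1) [((xl, t0), 0)] := by
      have := Wk.one (s := zs xl) (G := Gw w) (x := ((xl, t0), 0))
      rwa [pt xl t0 0 1 true s0 rfl] at this
    have w2 := w1.snoc (r := ((xl, t0 + 1), 3)) (hG _ _ (gbN a1 a2))
    rw [pt xl (t0 + 1) 3 2 true s1 rfl] at w2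
    refine ⟨_, w2, ?_⟩
    rw [tt_append, tt_cons, tt_cons, tt_nil, t0' xl t0 0 true (-1) s0 rfl,
      t0' xl (t0 + 1) 3 true 1 s1 rfl]
    norm_num
  | succ n ih =>
    intro h1
    push_cast at h1 ⊢
    obtain ⟨k, hk, hk0⟩ := ih (by omega)
    obtain ⟨a1, a2⟩ := hr (xl + n) (by omega) (by omega)
    obtain ⟨b1, b2⟩ := hr (xl + n + 1) (by omega) (by omega)
    have ex : xl + ((n : ℤ) + 1) = xl + n + 1 := by ring
    rw [ex]
    by_cases hn : n % 2 = 0
    · rw [if_pos hn] at hk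
      rw [if_neg (by omega)]
      have s0 := so (xl + n + 1) (t0 + 1) (by omega)
      have s1 := so (xl + n + 1) t0 (by omega)
      have w1 := hk.snoc (r := ((xl + n + 1, t0 + 1), 0)) (hG _ _ (gbE a2 b2))
      rw [pt _ _ 0 3 false s0 rfl] at w1
      have w2 := w1.snoc (r := ((xl + n + 1, t0), 1)) (hG _ _ (gb_symm (gbN b1 b2)))
      rw [pt _ _ 1 2 false s1 rfl] at w2
      refine ⟨_, w2, ?_⟩
      rw [tt_append, tt_append, tt_cons, tt_cons, tt_nil, hk0, t0' _ _ 0 false 1 s0 rfl,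
        t0' _ _ 1 false (-1) s1 rfl]
      norm_num
    · rw [if_neg hn] at hk
      rw [if_pos (by omega)]
      have s0 := se (xl + n + 1) t0 (by omega)
      have s1 := se (xl + n + 1) (t0 + 1) (by omega)
      have w1 := hk.snoc (r := ((xl + n + 1, t0), 0)) (hG _ _ (gbE a1 b1))
      rw [pt _ _ 0 1 true s0 rfl] at w1
      have w2 := w1.snoc (r := ((xl + n + 1, t0 + 1), 3)) (hG _ _ (gbN b1 b2))
      rw [pt _ _ 3 2 true s1 rfl] at w2
      refine ⟨_, w2, ?_⟩
      rw [tt_append, tt_append, tt_cons, tt_cons, tt_nil, hk0, t0' _ _ 0 true (-1) s0 rfl,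
        t0' _ _ 3 true 1 s1 rfl]
      norm_num

/-- a strand from the base port: the partner is at the direction `2 + turning` -/
theorem Wrd.phi_of_walk {s : ℤ × ℤ → Bool} {a e : (ℤ × ℤ) × ZMod 4}
    {k : List ((ℤ × ℤ) × ZMod 4)} (h : Wrd w (some a :: l) A (beP A)) (hb : bas w = some b0)
    (hk : Wk s (Gw w) a e k) (he : some e ∈ some a :: l) :
    Sw300.phi w (some e) = Sw300.phi w (some a) + 2 + tt s k := by
  have hok := h.ok
  have hL : Sw300.L w = none :: some a :: l := by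
    have := h.L
    rw [hb] at this
    exact this
  have hleg : ¬ Sw300.isLeg w := fun h1 => by
    have := isLeg_iff.1 h1
    rw [bs_bas, hb] at this
    cases this
  have hu : Sw300.u s w = none := Sw300.u_none s w hok hleg
  have I := Sw300.Ok.inv s w hok
  have hxL : (some a : Port (ℤ × ℤ)) ∈ Sw300.L w := by rw [hL]; simp
  have heL : (some e : Port (ℤ × ℤ)) ∈ Sw300.L w := by rw [hL]; exact List.mem_cons_of_mem _ he
  have hM : Sw300.M s w (some a) ≠ some a := fun h => by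
    have := I.fix _ hxL h
    rw [hu] at this
    cases this
  obtain ⟨a', e', k', ha, hb', hw', htt⟩ := walk_word s hok hxL hM
  obtain rfl := Option.some.inj ha
  have hfb : Fr (Gw w) e' := fr_of_mem hok (hb' ▸ I.mem _ hxL)
  have hfy : Fr (Gw w) e := fr_of_mem hok heL
  obtain ⟨e1, e2⟩ := hw'.det (glu_Gw hok).fn hfb hk hfy
  subst e1 e2
  have hF := (h.cc hb).1
  have hne : e' ≠ a := fun h => hM (by rw [hb', h])
  have hsort := Sw300.sorted w hok
  rw [hL, List.pairwise_cons, List.pairwise_cons] at hsort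
  have hel : (some e' : Port (ℤ × ℤ)) ∈ l := by
    rcases List.mem_cons.1 he with h1 | h1
    · exact absurd (Option.some.inj h1) hne
    · exact h1
  have p1 := hsort.1 (some a) (by simp)
  have p2 := hsort.2.1 _ hel
  have hS : Sw300.S s w (some a) = true := by
    rw [I.st _ hxL (by rw [hu]; simp), hb', hu]
    exact Or.inr (Or.inr ⟨p1, p2⟩)
  have h1 := (Sw300.Ok.tau s w hok).arc _ hxL (by rw [hu]; simp) hS
  rw [hb', ← htt hF] at h1
  omega

/-- **right wall** of the rows of the base run: direction `2` -/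
theorem phi_right {xl xr t0 y1 y2 : ℤ} (h : Wrd w (some ((xl, t0), 0) :: l) A (beP A))
    (hb : bas w = some (xl, t0)) (hr : ∀ y, y1 ≤ y → y < y2 → Run A xl xr y) (ht1 : y1 ≤ t0)
    (ht2 : t0 + 1 < y2) : ∀ y, y1 ≤ y → y < y2 → Sw300.phi w (some ((xr, y), 2)) = 2 := by
  have hle := (hr t0 ht1 (by omega)).le
  have hbase : Sw300.phi w (some ((xl, t0), 0)) = 0 := by
    have := phi_base h.ok hb 0
    rw [this]; rfl
  have hmE : ∀ y, y1 ≤ y → y < y2 → (xr, y) ∈ A ∧ (xr + 1, y) ∉ A := fun y h1 h2 =>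
    ⟨(hr y h1 h2).mem _ (hr y h1 h2).le (le_refl _), (hr y h1 h2).right⟩
  -- all the rows have the same direction
  have hall : ∀ y, y1 ≤ y → y < y2 →
      Sw300.phi w (some ((xr, y), 2)) = Sw300.phi w (some ((xr, y1), 2)) := by
    intro y h1
    induction y, h1 using Int.leInduction with
    | base => intro _; rfl
    | succ y h1 ih =>
      intro h2
      rw [← ih (by omega)]
      obtain ⟨a1, a2⟩ := hmE y h1 (by omega)
      obtain ⟨b1, b2⟩ := hmE (y + 1) (by omega) h2
      have h4 := (h.step hb (h.mem_E b1 b2) (nxt_E a1 b1 a2)).2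
      have n20 : (2 : ZMod 4) ≠ 0 := by decide
      rw [if_neg (by simp [n20])] at h4
      omega
  obtain ⟨k, hk, hk0⟩ := zig (w := w) (xl := xl) (xr := xr) (t0 := t0)
    (fun a b hab => (h.gw_iff a b).2 hab)
    (fun x h1 h2 => ⟨(hr t0 ht1 (by omega)).mem x h1 h2,
      (hr (t0 + 1) (by omega) (by omega)).mem x h1 h2⟩) (xr - xl).toNat (by omega)
  have e : xl + (((xr - xl).toNat : ℕ) : ℤ) = xr := by omega
  rw [e] at hk
  have h5 : Sw300.phi w (some ((xr, y1), 2)) = 2 := by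
    by_cases hn : (xr - xl).toNat % 2 = 0
    · rw [if_pos hn] at hk
      obtain ⟨b1, b2⟩ := hmE (t0 + 1) (by omega) ht2
      have h6 := h.phi_of_walk hb hk (h.mem_E b1 b2)
      rw [hall (t0 + 1) (by omega) ht2, hbase, hk0] at h6
      simpa using h6
    · rw [if_neg hn] at hk
      obtain ⟨b1, b2⟩ := hmE t0 ht1 (by omega)
      have h6 := h.phi_of_walk hb hk (h.mem_E b1 b2)
      rw [hall t0 ht1 (by omega), hbase, hk0] at h6
      simpa using h6
  intro y h1 h2
  rw [hall y h1 h2, h5]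

/-! ### the same for `Psi664.psi` -/

/-- `Wrd` words are `BW` words -/
theorem Wrd.bw {xl t0 : ℤ} (h : Wrd w (some ((xl, t0), 0) :: l) A (beP A))
    (hb : bas w = some (xl, t0)) : Psi664.BW (full A) xl t0 w l := by
  have hL : Sw300.L w = none :: some ((xl, t0), 0) :: l := by
    have := h.L
    rw [hb] at this
    exact this
  obtain ⟨hF, hcc⟩ := h.cc hb
  have hm : ∀ x, x ∈ some ((xl, t0), (0 : ZMod 4)) :: l →
      (x ≠ none ∧ PortOf A x) ∧ beP A x = x := fun x hx => (h.mem x).1 hx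
  refine ⟨h.ok, fun h1 => ?_, hF, ?_, hL, h.nd, fun h1 => (hm _ h1).1.1 rfl, fun x => ?_, ?_, ?_⟩
  · have := isLeg_iff.1 h1
    rw [bs_bas, hb] at this
    cases this
  · rw [h.gs, gb_beP]
  · rw [h.mem]
    constructor
    · rintro ⟨⟨h1, h2⟩, h3⟩
      rcases x with ⟨t, d⟩
      refine ⟨portOf_some.1 h2, fun b hb => ?_⟩
      have h4 : gb (beP A) (some (t, d)) (some b) := by rw [gb_beP]; exact hb
      exact h4.2 (by rw [← h4.1, h3])
    · rintro ⟨h1, h2⟩
      rcases x with ⟨t, d⟩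
      refine ⟨⟨by simp, portOf_some.2 h1⟩, ?_⟩
      by_contra h3
      have h4 : gb (beP A) (some (t, d)) (beP A (some (t, d))) := ⟨rfl, fun h => h3 h.symm⟩
      rw [gb_beP] at h4
      rcases hq : beP A (some (t, d)) with - | b
      · rw [hq] at h4
        exact absurd ((full A).gl_glue.sym _ _ h4) (by intro h; exact h)
      · rw [hq] at h4
        exact h2 b h4
  · rw [← gb_beP]; exact hcc
  · have := phi_base h.ok hb 0
    rw [this]; rfl

theorem exists_BW (hsc : (full A).SC) (hc : (full A).Conn) {a0 t0 : ℤ} (h1 : (a0, t0) ∈ A)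
    (h2 : (a0 - 1, t0) ∉ A) : ∃ w l, Wrd w (some ((a0, t0), 0) :: l) A (beP A) ∧
      bas w = some (a0, t0) ∧ Psi664.BW (full A) a0 t0 w l := by
  obtain ⟨w, l, h3, h4⟩ := wordP hsc hc h1 h2
  exact ⟨w, l, h3, h4, h3.bw h4⟩

lemma rfree_W {x y : ℤ} (h1 : (x, y) ∈ A) (h2 : (x - 1, y) ∉ A) :
    Pt266.RFree (full A) ((x, y), 0) :=
  Psi664.free_left (by exact_mod_cast h1) (fun h => h2 h.1)

lemma rfree_E {x y : ℤ} (h1 : (x, y) ∈ A) (h2 : (x + 1, y) ∉ A) :
    Pt266.RFree (full A) ((x, y), 2) :=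
  Psi664.free_right (by exact_mod_cast h1) (fun h => h2 h.2)

/-- **right wall of the run rectangle**: `psi = 2` -/
theorem psi_right (hsc : (full A).SC) (hc : (full A).Conn) {xl xr t0 y1 y2 : ℤ}
    (hr : ∀ y, y1 ≤ y → y < y2 → Run A xl xr y) (ht1 : y1 ≤ t0) (ht2 : t0 + 1 < y2) {y : ℤ}
    (h1 : y1 ≤ y) (h2 : y < y2) :
    Psi664.psi (full A) xl t0 ((xr, y), 2) = 2 ∧ Pt266.RFree (full A) ((xr, y), 2) := by
  have h0 := hr t0 ht1 (by omega)
  obtain ⟨w, l, hw, hb, hB⟩ := exists_BW hsc hc (h0.mem _ (le_refl _) h0.le) h0.left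
  have h3 := hr y h1 h2
  have hf := rfree_E (h3.mem _ h3.le (le_refl _)) h3.right
  exact ⟨by rw [Psi664.psi_eq hB hf]; exact phi_right hw hb hr ht1 ht2 y h1 h2, hf⟩

/-- **left wall of the run rectangle**: `psi = 0` from the base upwards, `4` below -/
theorem psi_left (hsc : (full A).SC) (hc : (full A).Conn) {xl xr t0 y1 y2 : ℤ}
    (hr : ∀ y, y1 ≤ y → y < y2 → Run A xl xr y) (ht1 : y1 ≤ t0) (ht2 : t0 < y2) {y : ℤ}
    (h1 : y1 ≤ y) (h2 : y < y2) :
    Psi664.psi (full A) xl t0 ((xl, y), 0) = (if t0 ≤ y then 0 else 4) ∧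
      Pt266.RFree (full A) ((xl, y), 0) := by
  have h0 := hr t0 ht1 ht2
  obtain ⟨w, l, hw, hb, hB⟩ := exists_BW hsc hc (h0.mem _ (le_refl _) h0.le) h0.left
  have h3 := hr y h1 h2
  have hf := rfree_W (h3.mem _ (le_refl _) h3.le) h3.left
  refine ⟨?_, hf⟩
  rw [Psi664.psi_eq hB hf]
  split_ifs with h4
  · exact phi_left_up hw hb (t1 := y2) (fun z a1 a2 =>
      ⟨(hr z (by omega) a2).mem _ (le_refl _) (hr z (by omega) a2).le, (hr z (by omega) a2).left⟩)
      y h4 h2
  · exact phi_left_down hw hb (t1 := y1) (fun z a1 a2 =>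
      ⟨(hr z a1 (by omega)).mem _ (le_refl _) (hr z a1 (by omega)).le, (hr z a1 (by omega)).left⟩)
      y (by omega) h1

end plainword

end Crest.Agent.R158.Xr249
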