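import Crest.Agent.R158.Dp4_440
import Crest.Agent.R158.Dp3_109
import Crest.Agent.R158.Xr14_249

/-!
# R158 (helper440), dropped part of the mark sum, 5: one window

**`ball_drop`** : off an event of probability `≤ C ((r / R1) ^ a + (R1 / R2) ^ a)` no end of the inner
part of a window between `m2` and `m3` carries a middle phase.
-/

set_option autoImplicit false

namespace Crest.Agent.R158.Dp440

open MeasureTheory
open Crest.Agent.R158.Sw300 (Port Wd L M u Ok tls nodup)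
open Crest.Agent.R158.Al194 Crest.Agent.R158.Cw161
open Crest.Agent.R158.Ob664 (GW HW Gl)
open Crest.Agent.R158.Dp109
open Crest.Agent.R158.Rs689 (PB hf)
open Crest.Agent.R158.Env664 (beD)

/-- no end of `[m2, m3)` with tile in the box of radius `r` carries a middle phase -/
def Quiet (w : Wd (ℤ × ℤ)) (m1 m2 m3 : Port (ℤ × ℤ)) (P : ℤ × ℤ → Prop) (s : ℤ × ℤ → Bool) : Prop :=
  ∀ e, idL (L w) m1 m2 ≤ e → e < idL (L w) m1 m3 →
    (∃ t d, enL (L w) m1 e = some (t, d) ∧ P t) →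
    Sm (piL (L w) (M s w) m1) (L w).length (idL (L w) m1 (u s w)) 0 (idL (L w) m1 m2) e = 0

lemma bx_abs {X Y : ℤ} {n : ℕ} {t : ℤ × ℤ} (h : Bx X Y n t) : |t.1 - X| ≤ n ∧ |t.2 - Y| ≤ n := by
  unfold Bx at h
  rw [abs_le, abs_le]
  omega

lemma not_hm_far {A : Set (ℤ × ℤ)} {X Y : ℤ} {n : ℕ} {x : Port (ℤ × ℤ)} (h : FarM X Y n x) :
    ¬ Hm A (fun t => t) (X, Y) n x := by
  rintro ⟨t, d, rfl, -, h1, h2⟩
  apply h t d rfl
  unfold Bx
  rw [abs_lt] at h1 h2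
  simp only at h1 h2
  omega

/-- **one window** -/
theorem ball_drop : ∃ C a : ℝ, 0 < C ∧ 0 < a ∧ ∀ {A : Finset (ℤ × ℤ)} {p y0 xr : ℤ}
    {w : Wd (ℤ × ℤ)}, p ≤ xr → (xr + 1, y0) ∉ A → GW A (beD A p y0 xr) w →
    ∀ {sh : Sh} {k : ZMod 4} {X Y : ℤ} {r R1 R2 : ℕ}, 1 ≤ r → r + 1 ≤ R1 → R1 ≤ R2 →
    (R2 : ℤ) + 1 < |Y - y0| → Win sh k X Y r R1 A (beD A p y0 xr) →
    (∀ t, Bx X Y R1 t → ¬ Bx X Y r t → t ∈ A → pat X Y sh k t) →
    ∀ {m1 m2 m3 : Port (ℤ × ℤ)}, m1 ∈ L w → m2 ∈ L w → m3 ∈ L w →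
    (FarM X Y R1 m1 ∨ (FarM X Y R1 m2 ∧ FarM X Y R1 m3)) →
    ∃ Bad : Set (ℤ × ℤ → Bool), (PB fun _ : ℤ × ℤ => hf).real Bad ≤
        C * (((r : ℝ) / R1) ^ a + ((R1 : ℝ) / R2) ^ a) ∧
      ∀ s ∉ Bad, Quiet w m1 m2 m3 (Bx X Y r) s := by
  obtain ⟨C1, a1, hC1, ha1, h1⟩ := gap_far
  obtain ⟨C2, a2, hC2, ha2, h2⟩ := end_far
  refine ⟨max C1 C2, min a1 a2, lt_max_of_lt_left hC1, lt_min ha1 ha2, ?_⟩
  intro A p y0 xr w hp hxr hw sh k X Y r R1 R2 hr hrR hR hsl hwin hnp m1 m2 m3 k1 k2 k3 hfar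
  obtain ⟨A', Z1, D, Z2, hD⟩ := win_dec hr hrR hw hwin hnp
  have ok := hw.word.1
  have hrR' : r ≤ R1 := by omega
  have r0 : (0 : ℝ) < r := by exact_mod_cast hr
  have r1 : (0 : ℝ) < R1 := by exact_mod_cast (by omega : 0 < R1)
  have r2 : (0 : ℝ) < R2 := by exact_mod_cast (by omega : 0 < R2)
  have q1 : (r : ℝ) / R1 ≤ 1 := by rw [div_le_one r1]; exact_mod_cast hrR'
  have q2 : (R1 : ℝ) / R2 ≤ 1 := by rw [div_le_one r2]; exact_mod_cast hR
  have hpw : ∀ {q : ℝ} {C0 a0 : ℝ}, 0 < q → q ≤ 1 → C0 ≤ max C1 C2 → min a1 a2 ≤ a0 → 0 < C0 →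
      C0 * q ^ a0 ≤ max C1 C2 * q ^ (min a1 a2) := by
    intro q C0 a0 hq hq1 hC0 ha0 hC0'
    exact mul_le_mul hC0 (Real.rpow_le_rpow_of_exponent_ge hq hq1 ha0) (by positivity)
      (hC0'.le.trans hC0)
  by_cases hD0 : D = []
  · -- no inner ends
    refine ⟨∅, ?_, ?_⟩
    · rw [measureReal_empty]
      have : 0 < max C1 C2 := lt_max_of_lt_left hC1
      positivity
    · intro s _ e he he' ⟨t, d, he2, ht⟩
      exfalso
      have hlt : e < (L w).length := he'.trans (idL_lt (m1 := m1) k3)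
      have h3 := hD.mem_inn hrR' (by rw [← he2]; exact enL_mem hlt) ht
      rw [hD0] at h3
      simp at h3
  -- a far mark
  have hA0 : A' ≠ [] := by
    rcases hfar with h3 | ⟨h3, -⟩
    · exact List.ne_nil_of_mem (hD.mem_far hrR' k1 h3)
    · exact List.ne_nil_of_mem (hD.mem_far hrR' k2 h3)
  have hbs : Gc748.bs w = none := by rw [Xr249.bs_bas]; exact hw.leg
  have hrot : L w ~r Z1 ++ (D ++ (Z2 ++ A')) := by
    refine hD.rot.trans ?_
    have e1 : A' ++ Z1 ++ D ++ Z2 = A' ++ (Z1 ++ (D ++ Z2)) := by simp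
    have e2 : Z1 ++ (D ++ (Z2 ++ A')) = (Z1 ++ (D ++ Z2)) ++ A' := by simp
    rw [e1, e2]
    exact List.isRotated_append
  have hmemA : ∀ {t : ℤ × ℤ} {d : ZMod 4}, some (t, d) ∈ L w → t ∈ A := fun h3 =>
    (hw.word.2.2.1 _).1 (Gc748.mem_L_tls ok h3)
  have sl1 : (R1 : ℤ) + 1 < |Y - y0| := by
    have : (R1 : ℤ) ≤ R2 := by exact_mod_cast hR
    omega
  set B1 : Set (ℤ × ℤ → Bool) := {s | ∀ y ∈ Z1, M s w y ∉ Z2} with hB1
  set B2 : Set (ℤ × ℤ → Bool) := Far1 w (bxA A (X, Y) R2) (fun t => t) (X, Y) R1 R2 with hB2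
  refine ⟨B1 ∪ B2, ?_, ?_⟩
  · have g1 : (PB fun _ : ℤ × ℤ => hf).real B1 ≤ C1 * ((r : ℝ) / R1) ^ a1 := by
      refine h1 w (beD A p y0 xr) (bxA A (X, Y) R1) (fun t => t) (X, Y) r R1 Z1 D Z2 A' ok hbs
        hw.word.2.2.2 (ball_beD hp hxr (X, Y) R1 sl1) hr hrR' hrot hD0 hA0 ?_ ?_
      · intro y hy
        obtain ⟨t, d, rfl, ht⟩ := hD.inn y hy
        have hyL : some (t, d) ∈ L w := hD.rot.mem_iff.2 (by simp [hy])
        have hb := bx_abs ht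
        have hb' := bx_abs (bx_mono hrR' ht)
        exact ⟨⟨hmemA hyL, hb'.1, hb'.2⟩, t, d, rfl, hb.1, hb.2⟩
      · intro y hy
        exact not_hm_far (hD.far y hy)
    have g2 : (PB fun _ : ℤ × ℤ => hf).real B2 ≤ C2 * ((R1 : ℝ) / R2) ^ a2 :=
      h2 w (beD A p y0 xr) (bxA A (X, Y) R2) (fun t => t) (X, Y) R1 R2 ok hbs
        hw.word.2.2.2 (ball_beD hp hxr (X, Y) R2 hsl) (by omega) hR
    have g3 := measureReal_union_le (μ := PB fun _ : ℤ × ℤ => hf) B1 B2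
    have g4 := hpw (q := (r : ℝ) / R1) (by positivity) q1 (le_max_left C1 C2) (min_le_left a1 a2) hC1
    have g5 := hpw (q := (R1 : ℝ) / R2) (by positivity) q2 (le_max_right C1 C2) (min_le_right a1 a2)
      hC2
    rw [mul_add]
    linarith
  · intro s hs e he he' ⟨t, d, he2, ht⟩
    have hlt : e < (L w).length := he'.trans (idL_lt (m1 := m1) k3)
    have heD : enL (L w) m1 e ∈ D := by
      rw [he2]
      exact hD.mem_inn hrR' (by rw [← he2]; exact enL_mem hlt) ht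
    rw [Set.mem_union, not_or] at hs
    obtain ⟨hs1, hs2⟩ := hs
    have huL : u s w ∈ L w := (Sw300.Ok.inv s w ok).um
    have hu : u s w ∉ Z1 ++ D ++ Z2 := by
      intro hc
      obtain ⟨t', d', e1, e2⟩ := hD.near hrR' hc
      apply hs2
      have hb := bx_abs e2
      have hb' := bx_abs (bx_mono hR e2)
      refine ⟨u s w, huL, ?_, ⟨t', d', e1, hb.1, hb.2⟩, Or.inl (Sw300.Ok.inv s w ok).uf⟩
      rw [e1]
      exact ⟨hmemA (by rw [← e1]; exact huL), hb'.1, hb'.2⟩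
    have hx : ∃ x ∈ Z1, M s w x ∈ Z2 := by
      by_contra hc
      apply hs1
      intro y hy hy2
      exact hc ⟨y, hy, hy2⟩
    obtain ⟨x, hx1, hx2⟩ := hx
    have hcase : m1 ∈ A' ∨ (m1 ∈ Z1 ++ D ++ Z2 ∧ m2 ∈ A' ∧ m3 ∈ A') := by
      rcases hfar with h3 | ⟨h3, h4⟩
      · exact Or.inl (hD.mem_far hrR' k1 h3)
      · have := hD.rot.mem_iff.1 k1
        rw [List.append_assoc, List.append_assoc] at this
        rcases List.mem_append.1 this with h5 | h5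
        · exact Or.inl h5
        · exact Or.inr ⟨by rwa [← List.append_assoc] at h5, hD.mem_far hrR' k2 h3,
            hD.mem_far hrR' k3 h4⟩
    rcases hcase with h3 | ⟨h3, h4, h5⟩
    · exact Sm_zero_blocks ok hD.rot h3 k2 hx1 hx2 hu hlt heD
    · exfalso
      have h6 := not_mid ok hD.rot h3 h4 h5 he he'
      apply h6
      simp [heD]

end Crest.Agent.R158.Dp440
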