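import Crest.Agent.R158.Dp5_440

/-!
# R158 (helper440), dropped part of the mark sum, 6: windows from four quadrants

* `Quad A X Y n f00 f10 f01 f11` : in the box of radius `n` round the face `(X, Y)` the region `A`
  is the union of the quadrants `f..`
* **`quad_drop`** : `ball_drop` for every non-diagonal pattern
-/

set_option autoImplicit false

namespace Crest.Agent.R158.Dp440

open MeasureTheory
open Crest.Agent.R158.Sw300 (Port Wd L M u Ok tls nodup)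
open Crest.Agent.R158.Al194 Crest.Agent.R158.Cw161
open Crest.Agent.R158.Ob664 (GW HW Gl)
open Crest.Agent.R158.Rs689 (PB hf)
open Crest.Agent.R158.Env664 (beD nbD nbP beP res PortOf nbD_W nbD_N nbD_E nbD_S nbP_W nbP_N nbP_E
  nbP_S z4)
open Crest.Agent.R158.Cb771 (dir)

/-- in the box of radius `n` round the face `(X, Y)` the region is a union of quadrants -/
def Quad (A : Finset (ℤ × ℤ)) (X Y : ℤ) (n : ℕ) (f00 f10 f01 f11 : Prop) : Prop :=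
  ∀ t, Bx X Y n t → (t ∈ A ↔ (t.1 ≤ X ∧ t.2 ≤ Y ∧ f00) ∨ (X < t.1 ∧ t.2 ≤ Y ∧ f10) ∨
    (t.1 ≤ X ∧ Y < t.2 ∧ f01) ∨ (X < t.1 ∧ Y < t.2 ∧ f11))

theorem quad_cases {A : Finset (ℤ × ℤ)} {X Y : ℤ} {n : ℕ} {f00 f10 f01 f11 : Prop}
    (h : Quad A X Y n f00 f10 f01 f11) (h1 : ¬ (f00 ∧ f11 ∧ ¬ f10 ∧ ¬ f01))
    (h2 : ¬ (f10 ∧ f01 ∧ ¬ f00 ∧ ¬ f11)) :
    (∀ t, Bx X Y n t → t ∈ A) ∨ (∀ t, Bx X Y n t → t ∉ A) ∨
      ∃ sh k, ∀ t, Bx X Y n t → (t ∈ A ↔ pat X Y sh k t) := by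
  have key : ∀ (sh : Sh) (k : ZMod 4), (∀ t : ℤ × ℤ, ((t.1 ≤ X ∧ t.2 ≤ Y ∧ f00) ∨
      (X < t.1 ∧ t.2 ≤ Y ∧ f10) ∨ (t.1 ≤ X ∧ Y < t.2 ∧ f01) ∨ (X < t.1 ∧ Y < t.2 ∧ f11)) ↔
      pat X Y sh k t) → (∀ t, Bx X Y n t → t ∈ A) ∨ (∀ t, Bx X Y n t → t ∉ A) ∨
      ∃ sh k, ∀ t, Bx X Y n t → (t ∈ A ↔ pat X Y sh k t) := fun sh k hk =>
    Or.inr (Or.inr ⟨sh, k, fun t ht => (h t ht).trans (hk t)⟩)
  by_cases a : f00 <;> by_cases b : f10 <;> by_cases c : f01 <;> by_cases d : f11 <;>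
    simp only [a, b, c, d, and_true, and_false, or_false, false_or, not_true_eq_false,
      not_false_eq_true, and_self] at h h1 h2 key
  · left; intro t ht; rw [h t ht]; simp only [and_true]; omega
  · refine key .t 0 fun t => ?_
    rw [pat_t0]; omega
  · refine key .t 1 fun t => ?_
    rw [pat_t1]; omega
  · refine key .h0 1 fun t => ?_
    rw [pat_h1]; omega
  · refine key .t 3 fun t => ?_
    rw [pat_t3]; omega
  · refine key .h0 0 fun t => ?_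
    rw [pat_h0]; omega
  · refine key .q 2 fun t => ?_
    rw [pat_q2]
  · refine key .t 2 fun t => ?_
    rw [pat_t2]; omega
  · refine key .h0 2 fun t => ?_
    rw [pat_h2]; omega
  · refine key .q 3 fun t => ?_
    rw [pat_q3]
  · refine key .h0 3 fun t => ?_
    rw [pat_h3]; omega
  · refine key .q 1 fun t => ?_
    rw [pat_q1]
  · refine key .q 0 fun t => ?_
    rw [pat_q0]
  · right; left; intro t ht; rw [h t ht]; simp

/-- off the rows `y0 - 1`, `y0` the glueing is plain -/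
theorem beD_plain {A : Finset (ℤ × ℤ)} {p y0 xr : ℤ} {t : ℤ × ℤ} (h0 : t.2 ≠ y0)
    (h1 : t.2 ≠ y0 - 1) (d : ZMod 4) : beD A p y0 xr (some (t, d)) = beP A (some (t, d)) := by
  obtain ⟨x, y⟩ := t
  simp only at h0 h1
  have e : nbD p y0 xr (some ((x, y), d)) = nbP (some ((x, y), d)) := by
    rcases z4 d with rfl | rfl | rfl | rfl
    · rw [nbD_W, nbP_W]
    · rw [nbD_N (by omega), nbP_N]
    · rw [nbD_E, nbP_E]
    · rw [nbD_S (by omega), nbP_S]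
  unfold beD beP res
  rw [e]

/-- a free end in a completely filled box does not exist -/
theorem no_end_full {A : Finset (ℤ × ℤ)} {p y0 xr : ℤ} {w : Wd (ℤ × ℤ)}
    (hw : GW A (beD A p y0 xr) w) {X Y : ℤ} {n : ℕ} (h : ∀ t, Bx X Y (n + 1) t → t ∈ A)
    (hy : ∀ t, Bx X Y n t → t.2 ≠ y0 ∧ t.2 ≠ y0 - 1) {t : ℤ × ℤ} {d : ZMod 4}
    (ht : Bx X Y n t) : some (t, d) ∉ L w := by
  intro hL
  have hf := (Gc748.be_state hw.word.1).free _ hL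
  rw [hw.word.2.2.2, beD_plain (hy t ht).1 (hy t ht).2,
    beP_in (h t (bx_mono (by omega) ht)) (h _ (bx_dir d ht))] at hf
  have key : ∀ d : ZMod 4, d + 2 ≠ d := by decide
  exact key d (Gc748.pt_inj.1 hf).2

/-- **windows from quadrants** -/
theorem quad_drop : ∃ C a : ℝ, 0 < C ∧ 0 < a ∧ ∀ {A : Finset (ℤ × ℤ)} {p y0 xr : ℤ}
    {w : Wd (ℤ × ℤ)}, p ≤ xr → (xr + 1, y0) ∉ A → GW A (beD A p y0 xr) w →
    ∀ {X Y : ℤ} {r R1 R2 : ℕ}, 1 ≤ r → r + 1 ≤ R1 → R1 ≤ R2 →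
    (R2 : ℤ) + 1 < |Y - y0| → ∀ {f00 f10 f01 f11 : Prop}, Quad A X Y (R1 + 1) f00 f10 f01 f11 →
    ¬ (f00 ∧ f11 ∧ ¬ f10 ∧ ¬ f01) → ¬ (f10 ∧ f01 ∧ ¬ f00 ∧ ¬ f11) →
    ∀ {m1 m2 m3 : Port (ℤ × ℤ)}, m1 ∈ L w → m2 ∈ L w → m3 ∈ L w →
    (FarM X Y R1 m1 ∨ (FarM X Y R1 m2 ∧ FarM X Y R1 m3)) →
    ∃ Bad : Set (ℤ × ℤ → Bool), (PB fun _ : ℤ × ℤ => hf).real Bad ≤
        C * (((r : ℝ) / R1) ^ a + ((R1 : ℝ) / R2) ^ a) ∧
      ∀ s ∉ Bad, Quiet w m1 m2 m3 (Bx X Y r) s := by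
  obtain ⟨C, a, hC, ha, hB⟩ := ball_drop
  refine ⟨C, a, hC, ha, ?_⟩
  intro A p y0 xr w hp hxr hw X Y r R1 R2 hr hrR hR hsl f00 f10 f01 f11 hq d1 d2 m1 m2 m3 k1 k2 k3
    hfar
  have hRR : (R1 : ℤ) ≤ R2 := by exact_mod_cast hR
  have hy : ∀ t, Bx X Y R1 t → t.2 ≠ y0 ∧ t.2 ≠ y0 - 1 := by
    intro t ht
    unfold Bx at ht
    rcases lt_abs.1 hsl with h1 | h1 <;> constructor <;> omega
  have triv : (∀ t d, Bx X Y r t → some (t, d) ∉ L w) → ∃ Bad : Set (ℤ × ℤ → Bool),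
      (PB fun _ : ℤ × ℤ => hf).real Bad ≤ C * (((r : ℝ) / R1) ^ a + ((R1 : ℝ) / R2) ^ a) ∧
      ∀ s ∉ Bad, Quiet w m1 m2 m3 (Bx X Y r) s := by
    intro hno
    refine ⟨∅, ?_, ?_⟩
    · rw [measureReal_empty]; positivity
    · intro s _ e he he' ⟨t, d, he2, ht⟩
      exfalso
      have hlt : e < (L w).length := he'.trans (idL_lt (m1 := m1) k3)
      exact hno t d ht (by rw [← he2]; exact enL_mem hlt)
  rcases quad_cases hq d1 d2 with h1 | h1 | ⟨sh, k, h1⟩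
  · refine triv fun t d ht => ?_
    exact no_end_full hw h1 hy (bx_mono (by omega) ht)
  · refine triv fun t d ht hL => ?_
    exact h1 t (bx_mono (by omega) ht) ((hw.word.2.2.1 t).1 (Gc748.mem_L_tls hw.word.1 hL))
  · have hA : ∀ t, Bx X Y (R1 + 1) t → ¬ Bx X Y (r - 1) t → (t ∈ A ↔ pat X Y sh k t) :=
      fun t ht _ => h1 t ht
    exact hB hp hxr hw hr hrR hR hsl (win_plain hr hrR hA fun t d ht =>
      beD_plain (hy t ht).1 (hy t ht).2 d) (np_plain hA) k1 k2 k3 hfar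

end Crest.Agent.R158.Dp440
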