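import Crest.Agent.R158.Fm1_857
import Crest.Agent.R158.Zc6_180
import Crest.Agent.R158.Tj2_656
import Crest.Agent.R158.Qc1_405

/-!
# Row 158: the literal family for a marked polygon (helper857)

For `P : P4`, scale `L`, cut `δ`, band `B` of `D P.F L`:
* `mkP P L j` : the marks, `mkG` : the same as ports of `G^(z)`
* `SpP` : special tiles (macro vertices, marks, mouth corners), `DelP δ L = ⌈δ L⌉`
* `JP` : the ends of the family (far gap `b = L / 2`, strip ends with column in `[Δ, L / 16]` or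
  `(L - 1 - L / 16, L - Δ)`), stubs of `D+` : `L / 8` columns
* `ZP` : normalisation
-/

set_option autoImplicit false

noncomputable section

open Finset Matrix

namespace Crest.Agent.R158.Fm857

open Crest.Agent.R158.Ad350
open Crest.Agent.R158.Ao857
open Crest.Agent.R158.Sw300 (Port)
open Crest.Agent.R158.Env664 (TG Band Run D mark)
open Crest.Agent.R158.Tj656 (P4)

/-- the marks, as ports of the domain -/
def mkP (P : P4) (L : ℤ) (j : Fin 3) : Port (ℤ × ℤ) := (mark L (P.cc j).1 (P.cc j).2).2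

/-- the marks, as ports of `G^(z)` -/
def mkG (P : P4) (L : ℤ) (j : Fin 3) : Port TG := tpm inlE (mkP P L j)

/-- tile of a port -/
def tlP : Port (ℤ × ℤ) → ℤ × ℤ
  | none => 0
  | some (t, _) => t

/-- vertices of the macroscopic cells, scale `L` -/
def vertP (F : Finset (ℤ × ℤ)) (L : ℤ) : Finset (ℤ × ℤ) :=
  F.biUnion fun c => {(c.1 * L, c.2 * L), ((c.1 + 1) * L, c.2 * L), (c.1 * L, (c.2 + 1) * L),
    ((c.1 + 1) * L, (c.2 + 1) * L)}

/-- the mouth corners -/
def mouthC {A : Finset (ℤ × ℤ)} (B : Band A) : Finset (ℤ × ℤ) :=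
  {(B.xl, B.y1), (B.xl, B.y2 - 1), (B.xr, B.y1), (B.xr, B.y2 - 1)}

/-- **special tiles** -/
def SpP (P : P4) (L : ℤ) (B : Band (D P.F L)) : Finset (ℤ × ℤ) :=
  vertP P.F L ∪ univ.image (fun j => tlP (mkP P L j)) ∪ mouthC B

/-- the cut of the family -/
def DelP (L : ℤ) (δ : ℝ) : ℤ := ⌈δ * L⌉

/-- **the ends of the family** -/
def JP (P : P4) (L : ℤ) (δ : ℝ) (B : Band (D P.F L)) : Finset (Port TG) :=
  Jd B (L / 2) (SpP P L B) (DelP L δ) (L / 16) (L - 1 - L / 16) (mkG P L 1) (mkG P L 2)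

/-- **normalisation** -/
def ZP (P : P4) (L : ℤ) (B : Band (D P.F L)) : ℂ :=
  star (Complex.exp (Complex.I * (Real.pi / 12))) *
    ((((3 : ℝ) ^ ((((freeG B).card : ℝ) - 1) / 4) *
      Zc180.Zs B (L / 8) (L / 2) (B.y2 - B.y1).toNat : ℝ)) : ℂ)

lemma mem_mouthC {A : Finset (ℤ × ℤ)} {B : Band A} {v : ℤ × ℤ} :
    v ∈ mouthC B ↔ v = (B.xl, B.y1) ∨ v = (B.xl, B.y2 - 1) ∨ v = (B.xr, B.y1) ∨
      v = (B.xr, B.y2 - 1) := by
  simp [mouthC]

lemma mem_vertP {F : Finset (ℤ × ℤ)} {L : ℤ} {v : ℤ × ℤ} :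
    v ∈ vertP F L ↔ ∃ c ∈ F, v = (c.1 * L, c.2 * L) ∨ v = ((c.1 + 1) * L, c.2 * L) ∨
      v = (c.1 * L, (c.2 + 1) * L) ∨ v = ((c.1 + 1) * L, (c.2 + 1) * L) := by
  simp [vertP]

lemma mem_SpP {P : P4} {L : ℤ} {B : Band (D P.F L)} {v : ℤ × ℤ} :
    v ∈ SpP P L B ↔ v ∈ vertP P.F L ∨ (∃ j, v = tlP (mkP P L j)) ∨ v ∈ mouthC B := by
  unfold SpP
  rw [mem_union, mem_union, mem_image]
  simp only [mem_univ, true_and, or_assoc, eq_comm]

/-- number of special tiles -/
theorem card_SpP (P : P4) (L : ℤ) (B : Band (D P.F L)) :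
    (SpP P L B).card ≤ 4 * P.F.card + 7 := by
  have h1 : (vertP P.F L).card ≤ 4 * P.F.card := by
    unfold vertP
    refine (card_biUnion_le).trans ?_
    rw [mul_comm, ← smul_eq_mul]
    refine sum_le_card_nsmul _ _ _ fun c _ => ?_
    refine (card_insert_le _ _).trans ?_
    have := card_le_three (a := ((c.1 + 1) * L, c.2 * L)) (b := (c.1 * L, (c.2 + 1) * L))
      (c := ((c.1 + 1) * L, (c.2 + 1) * L))
    omega
  have h2 : (univ.image (fun j => tlP (mkP P L j)) : Finset (ℤ × ℤ)).card ≤ 3 :=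
    card_image_le.trans (by simp)
  have h3 : (mouthC B).card ≤ 4 := by
    unfold mouthC
    refine (card_insert_le _ _).trans ?_
    have := card_le_three (a := (B.xl, B.y2 - 1)) (b := (B.xr, B.y1)) (c := (B.xr, B.y2 - 1))
    omega
  unfold SpP
  refine (card_union_le _ _).trans ?_
  have := card_union_le (vertP P.F L) (univ.image (fun j => tlP (mkP P L j)))
  omega

end Crest.Agent.R158.Fm857
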