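import Crest.Agent.R158.Mg2_949
import Crest.Agent.R158.Hb0_656

/-!
# Row 158 (helper949), BLOCK BL: words and marks of a polygon, 1

* `np` : the polyomino of a polygon has no pinch
* `mtl L c d` : the mark (tile, side) of the side `d` of the macroscopic cell `c`; `mark_snd`
* `P4.mt P L i` : the three marks of the observable
* `ci_spec`, `ci_inj` : the marked sides are boundary sides, pairwise different
* **`mtl_dist`, `mt_dist`** : distance of the marks
-/

set_option autoImplicit false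
set_option linter.unusedVariables false

noncomputable section

namespace Crest.Agent.R158.Hw949

open Crest.Agent.R158.Sw300 (Port Wd L Ok pos cyc)
open Crest.Agent.R158.Env664
open Crest.Agent.R158.Ob664 (Gl GW HW HG)
open Crest.Agent.R158.Sp896 (V Adj Cyc Con lc rc)
open Crest.Agent.R158.Tj656
open Crest.Agent.R158.Hb656

/-! ### no pinch -/

theorem cyc_in {F : Set V} {N : ℕ} {v : ℕ → V} (h : Cyc F N v) {i j : ℕ} (hi : i < N) (hj : j < N)
    (e : v (i + 1) = v (j + 1)) : i = j :=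
  (Bl802.cyc_shift h 1).inj i hi j hj e

theorem lcW (x y : ℤ) : lc (x, y) (x, y + 1) = (x - 1, y) := by
  simp only [lc]; ext <;> simp only <;> omega
theorem rcW (x y : ℤ) : rc (x, y) (x, y + 1) = (x, y) := by
  simp only [rc]; ext <;> simp only <;> omega
theorem lcS (x y : ℤ) : lc (x, y + 1) (x, y) = (x, y) := by
  simp only [lc]; ext <;> simp only <;> omega
theorem rcS (x y : ℤ) : rc (x, y + 1) (x, y) = (x - 1, y) := by
  simp only [rc]; ext <;> simp only <;> omega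

/-- **no pinch** (first diagonal) -/
theorem np1 (P : P4) (a b : ℤ) (h1 : (a, b) ∈ P.F) (h2 : (a + 1, b + 1) ∈ P.F) :
    (a + 1, b) ∈ P.F ∨ (a, b + 1) ∈ P.F := by
  by_contra hc
  push Not at hc
  obtain ⟨h3, h4⟩ := hc
  obtain ⟨i, hi, e1, e2⟩ := P.cyc.all (a + 1, b) (a + 1, b + 1) (by unfold Adj; simp)
    (by rw [lcW, add_sub_cancel_right]; exact h1) (by rw [rcW]; exact h3)
  obtain ⟨j, hj, e3, e4⟩ := P.cyc.all (a + 1, b + 1 + 1) (a + 1, b + 1)
    (by unfold Adj; simp) (by rw [lcS]; exact h2)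
    (by rw [rcS, add_sub_cancel_right]; exact h4)
  have := cyc_in P.cyc hi hj (e2.trans e4.symm)
  subst this
  rw [e1] at e3
  simp only [Prod.mk.injEq] at e3
  omega

/-- **no pinch** (second diagonal) -/
theorem np2 (P : P4) (a b : ℤ) (h1 : (a + 1, b) ∈ P.F) (h2 : (a, b + 1) ∈ P.F) :
    (a, b) ∈ P.F ∨ (a + 1, b + 1) ∈ P.F := by
  by_contra hc
  push Not at hc
  obtain ⟨h3, h4⟩ := hc
  obtain ⟨i, hi, e1, e2⟩ := P.cyc.all (a + 1, b + 1) (a + 1, b) (by unfold Adj; simp)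
    (by rw [lcS]; exact h1) (by rw [rcS, add_sub_cancel_right]; exact h3)
  obtain ⟨j, hj, e3, e4⟩ := P.cyc.all (a + 1, b + 1) (a + 1, b + 1 + 1)
    (by unfold Adj; simp) (by rw [lcW, add_sub_cancel_right]; exact h2)
    (by rw [rcW]; exact h4)
  have := P.cyc.inj i hi j hj (e1.trans e3.symm)
  subst this
  rw [e2] at e4
  simp only [Prod.mk.injEq] at e4
  omega

/-- **no pinch** -/
theorem np (P : P4) : (∀ a b : ℤ, (a, b) ∈ P.F → (a + 1, b + 1) ∈ P.F →
      (a + 1, b) ∈ P.F ∨ (a, b + 1) ∈ P.F) ∧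
    (∀ a b : ℤ, (a + 1, b) ∈ P.F → (a, b + 1) ∈ P.F → (a, b) ∈ P.F ∨ (a + 1, b + 1) ∈ P.F) :=
  ⟨np1 P, np2 P⟩

/-! ### marks -/

/-- the mark (tile, side) of the side `d` of the cell `c`: the end after the middle gap -/
def mtl (L : ℤ) (c : V) (d : ZMod 4) : V × ZMod 4 :=
  if d = 0 then ((c.1 * L, c.2 * L + L / 2), 0)
  else if d = 1 then ((c.1 * L + L / 2, c.2 * L + L - 1), 1)
  else if d = 2 then ((c.1 * L + L - 1, c.2 * L + L / 2 - 1), 2)
  else ((c.1 * L + L / 2 - 1, c.2 * L), 3)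

theorem mtl_0 (L : ℤ) (c : V) : mtl L c 0 = ((c.1 * L, c.2 * L + L / 2), 0) := rfl
theorem mtl_1 (L : ℤ) (c : V) : mtl L c 1 = ((c.1 * L + L / 2, c.2 * L + L - 1), 1) := by
  unfold mtl; rw [if_neg n10, if_pos rfl]
theorem mtl_2 (L : ℤ) (c : V) : mtl L c 2 = ((c.1 * L + L - 1, c.2 * L + L / 2 - 1), 2) := by
  unfold mtl; rw [if_neg n20, if_neg n21, if_pos rfl]
theorem mtl_3 (L : ℤ) (c : V) : mtl L c 3 = ((c.1 * L + L / 2 - 1, c.2 * L), 3) := by
  unfold mtl; rw [if_neg n30, if_neg n31, if_neg n32]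

theorem mark_snd (L : ℤ) (c : V) (d : ZMod 4) : (mark L c d).2 = some (mtl L c d) := by
  unfold mark mtl
  split_ifs <;> rfl

theorem mtl_snd (L : ℤ) (c : V) (d : ZMod 4) : (mtl L c d).2 = d := by
  rcases z4 d with rfl | rfl | rfl | rfl
  · rw [mtl_0]
  · rw [mtl_1]
  · rw [mtl_2]
  · rw [mtl_3]

/-- the three marks of the observable -/
def mt (P : P4) (L : ℤ) (i : Fin 3) : V × ZMod 4 := mtl L (P.cc i).1 (P.cc i).2

theorem HD_eq (P : P4) (L x y : ℤ) : P.HD L x y =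
    HG (D P.F L) (beD (D P.F L) x y (Ob664.rgt (D P.F L) x y)) (some (mt P L 0)) (some (mt P L 1))
      (some (mt P L 2)) := by
  unfold P4.HD Ob664.HD Ob664.HA mt
  rw [← mark_snd, ← mark_snd, ← mark_snd]

/-- the marked edges -/
def ei (P : P4) : Fin 3 → ℕ := ![0, P.md, P.mc]

theorem cc_ei (P : P4) (i : Fin 3) : P.cc i = esd (P.v (ei P i)) (P.v (ei P i + 1)) := by
  fin_cases i <;> rfl

theorem ei_lt (P : P4) (i : Fin 3) : ei P i < P.N := by
  have := P.h1; have := P.h2; have := P.h3; have := P.h4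
  fin_cases i
  · show 0 < P.N; omega
  · show P.md < P.N; omega
  · show P.mc < P.N; omega

theorem ei_inj (P : P4) {i j : Fin 3} (h : i ≠ j) : ei P i ≠ ei P j := by
  have := P.h1; have := P.h2; have := P.h3; have := P.h4
  have e0 : ei P 0 = 0 := rfl
  have e1 : ei P 1 = P.md := rfl
  have e2 : ei P 2 = P.mc := rfl
  fin_cases i <;> fin_cases j <;>
    simp only [Fin.zero_eta, Fin.mk_one, Fin.reduceFinMk, e0, e1, e2, ne_eq] at h ⊢ <;>
    first
      | exact absurd rfl h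
      | omega

theorem nbc_esd {a b : V} (h : Adj a b) : nbc (esd a b).1 (esd a b).2 = rc a b := by
  obtain ⟨a1, a2⟩ := a
  obtain ⟨b1, b2⟩ := b
  unfold Adj at h
  simp only at h
  rcases h with ⟨h1, h2⟩ | ⟨h1, h2⟩ | ⟨h1, h2⟩ | ⟨h1, h2⟩ <;> subst h1 h2
  · simp only [esd, if_true, nbc, if_neg n30, if_neg n31, if_neg n32, lc, rc]
    ext <;> simp only <;> omega
  · have x1 : ¬ (a1 - 1 = a1 + 1) := by omega
    have x2 : ¬ (b2 = b2 + 1) := by omega
    simp only [esd, if_neg x1, if_neg x2, if_true, nbc, if_neg n10, lc, rc]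
    ext <;> simp only <;> omega
  · have x1 : ¬ (b1 = b1 + 1) := by omega
    simp only [esd, if_neg x1, if_true, nbc, if_neg n20, if_neg n21, lc, rc]
    ext <;> simp only <;> omega
  · have x1 : ¬ (b1 = b1 + 1) := by omega
    have x2 : ¬ (a2 - 1 = a2 + 1) := by omega
    have x3 : ¬ (b1 = b1 - 1) := by omega
    simp only [esd, if_neg x1, if_neg x2, if_neg x3, if_true, nbc, lc, rc]
    ext <;> simp only <;> omega

/-- the marked sides are boundary sides -/
theorem ci_spec (P : P4) (i : Fin 3) : (P.cc i).1 ∈ P.F ∧ nbc (P.cc i).1 (P.cc i).2 ∉ P.F := by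
  rw [cc_ei, nbc_esd (P.cyc.step _)]
  exact ⟨P.cyc.left _, P.cyc.right _⟩

theorem lc_rc_inj {a b a' b' : V} (h : Adj a b) (h' : Adj a' b') (e1 : lc a b = lc a' b')
    (e2 : rc a b = rc a' b') : a = a' := by
  obtain ⟨a1, a2⟩ := a
  obtain ⟨b1, b2⟩ := b
  obtain ⟨c1, c2⟩ := a'
  obtain ⟨d1, d2⟩ := b'
  unfold Adj at h h'
  unfold lc at e1
  unfold rc at e2
  simp only [Prod.mk.injEq] at h h' e1 e2 ⊢
  omega

/-- the marked sides are different -/
theorem ci_inj (P : P4) {i j : Fin 3} (h : i ≠ j) : P.cc i ≠ P.cc j := by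
  intro e
  apply ei_inj P h
  apply P.cyc.inj _ (ei_lt P i) _ (ei_lt P j)
  refine lc_rc_inj (P.cyc.step _) (P.cyc.step _) ?_ ?_
  · have := congrArg Prod.fst e
    rw [cc_ei, cc_ei] at this
    exact this
  · rw [← nbc_esd (P.cyc.step (ei P i)), ← nbc_esd (P.cyc.step (ei P j)), ← cc_ei, ← cc_ei, e]

/-- multiples of `L` -/
theorem mulc {L : ℤ} (hL : 0 < L) (a a' : ℤ) : (a = a' ∧ a * L = a' * L) ∨
    (a' = a + 1 ∧ a' * L = a * L + L) ∨ (a = a' + 1 ∧ a * L = a' * L + L) ∨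
    (a + 2 ≤ a' ∧ a * L + 2 * L ≤ a' * L) ∨ (a' + 2 ≤ a ∧ a' * L + 2 * L ≤ a * L) := by
  rcases lt_trichotomy a a' with h | h | h
  · rcases eq_or_lt_of_le (Int.add_one_le_iff.2 h) with h1 | h1
    · right; left; exact ⟨h1.symm, by rw [← h1]; ring⟩
    · right; right; right; left
      exact ⟨by omega, by nlinarith⟩
  · left; exact ⟨h, by rw [h]⟩
  · rcases eq_or_lt_of_le (Int.add_one_le_iff.2 h) with h1 | h1
    · right; right; left; exact ⟨h1.symm, by rw [← h1]; ring⟩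
    · right; right; right; right
      exact ⟨by omega, by nlinarith⟩

/-- **distance of two marks** -/
theorem mtl_dist {L : ℤ} (hL : 2 ≤ L) (hev : Even L) {c c' : V} {d d' : ZMod 4}
    (h : (c, d) ≠ (c', d')) (h' : c' ≠ nbc c d) :
    L / 2 ≤ |(mtl L c d).1.1 - (mtl L c' d').1.1| ∨
      L / 2 ≤ |(mtl L c d).1.2 - (mtl L c' d').1.2| := by
  obtain ⟨a1, a2⟩ := c
  obtain ⟨b1, b2⟩ := c'
  obtain ⟨m, rfl⟩ := hev
  have e : (m + m) / 2 = m := by omega
  rw [e]
  have hx := mulc (by omega : 0 < m + m) a1 b1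
  have hy := mulc (by omega : 0 < m + m) a2 b2
  generalize hA1 : a1 * (m + m) = A1 at *
  generalize hB1 : b1 * (m + m) = B1 at *
  generalize hA2 : a2 * (m + m) = A2 at *
  generalize hB2 : b2 * (m + m) = B2 at *
  rw [le_abs, le_abs]
  simp only [ne_eq, Prod.mk.injEq, not_and] at h
  rcases z4 d with rfl | rfl | rfl | rfl <;> rcases z4 d' with rfl | rfl | rfl | rfl <;>
    simp only [mtl_0, mtl_1, mtl_2, mtl_3, e, hA1, hB1, hA2, hB2, nbc, if_true, if_neg n10,
      if_neg n20, if_neg n21, if_neg n30, if_neg n31, if_neg n32, ne_eq, Prod.mk.injEq, not_and,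
      not_true_eq_false, imp_false] at h h' ⊢ <;>
    omega

/-- **distance of the three marks** -/
theorem mt_dist (P : P4) {L : ℤ} (hL : 2 ≤ L) (hev : Even L) {i j : Fin 3} (h : i ≠ j) :
    L / 2 ≤ |(mt P L i).1.1 - (mt P L j).1.1| ∨ L / 2 ≤ |(mt P L i).1.2 - (mt P L j).1.2| := by
  refine mtl_dist hL hev (fun e => ci_inj P h ?_) (fun e => (ci_spec P i).2 ?_)
  · simpa only [Prod.mk.eta] using e
  · rw [← e]; exact (ci_spec P j).1

end Crest.Agent.R158.Hw949
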