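import Crest.Agent.R158.Dp6_440
import Crest.Agent.R158.Hw1_949
import Crest.Agent.R158.Fm2_857
import Crest.Agent.R158.Xr12_249

/-!
# R158 (helper440), dropped part of the mark sum, 7: the special tiles of `D+`

* `PD` : polygon, scale, band, radii
* **`PD.drop`** : off an event of probability `≤ #Sp C (((Δ + 1) / R1) ^ a + (R1 / R2) ^ a)` no end of
  `D+` between `m2` and `m3` within distance `Δ` of a special tile carries a middle phase
-/

set_option autoImplicit false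

namespace Crest.Agent.R158.Dp440

open MeasureTheory
open Crest.Agent.R158.Sw300 (Port Wd L M u Ok tls nodup)
open Crest.Agent.R158.Al194 Crest.Agent.R158.Cw161
open Crest.Agent.R158.Ob664 (GW HW Gl)
open Crest.Agent.R158.Rs689 (PB hf)
open Crest.Agent.R158.Env664
open Crest.Agent.R158.Tj656 (P4)
open Crest.Agent.R158.Xr249 (Dp mem_Dp free_mac)
open Crest.Agent.R158.Fm857
open Crest.Agent.R158.Hw949

/-- membership in the macroscopic region -/
theorem memD_iff {F : Finset (ℤ × ℤ)} {L : ℤ} (hL : 0 < L) {t : ℤ × ℤ} {a b : ℤ}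
    (h1 : a * L ≤ t.1) (h2 : t.1 < a * L + L) (h3 : b * L ≤ t.2) (h4 : t.2 < b * L + L) :
    t ∈ D F L ↔ (a, b) ∈ F := by
  rw [mem_D hL, (div_iff hL _ _).2 ⟨h1, h2⟩, (div_iff hL _ _).2 ⟨h3, h4⟩]

/-- quadrants of the macroscopic region -/
theorem quadD {F : Finset (ℤ × ℤ)} {L : ℤ} (hL : 0 < L) {X Y : ℤ} {n : ℕ} {i0 i1 j0 j1 : ℤ}
    (x0 : i0 * L ≤ X - n + 1) (x0' : X < i0 * L + L) (x1 : i1 * L ≤ X + 1)
    (x1' : X + n < i1 * L + L) (y0 : j0 * L ≤ Y - n + 1) (y0' : Y < j0 * L + L)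
    (y1 : j1 * L ≤ Y + 1) (y1' : Y + n < j1 * L + L) :
    Quad (D F L) X Y n ((i0, j0) ∈ F) ((i1, j0) ∈ F) ((i0, j1) ∈ F) ((i1, j1) ∈ F) := by
  intro t ht
  unfold Bx at ht
  rcases le_or_gt t.1 X with hx | hx <;> rcases le_or_gt t.2 Y with hy | hy
  · rw [memD_iff hL (a := i0) (b := j0) (by omega) (by omega) (by omega) (by omega)]
    constructor
    · intro h; exact Or.inl ⟨hx, hy, h⟩
    · rintro (h | h | h | h)
      · exact h.2.2
      all_goals exfalso; omega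
  · rw [memD_iff hL (a := i0) (b := j1) (by omega) (by omega) (by omega) (by omega)]
    constructor
    · intro h; exact Or.inr (Or.inr (Or.inl ⟨hx, hy, h⟩))
    · rintro (h | h | h | h)
      · exfalso; omega
      · exfalso; omega
      · exact h.2.2
      · exfalso; omega
  · rw [memD_iff hL (a := i1) (b := j0) (by omega) (by omega) (by omega) (by omega)]
    constructor
    · intro h; exact Or.inr (Or.inl ⟨hx, hy, h⟩)
    · rintro (h | h | h | h)
      · exfalso; omega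
      · exact h.2.2
      · exfalso; omega
      · exfalso; omega
  · rw [memD_iff hL (a := i1) (b := j1) (by omega) (by omega) (by omega) (by omega)]
    constructor
    · intro h; exact Or.inr (Or.inr (Or.inr ⟨hx, hy, h⟩))
    · rintro (h | h | h | h)
      · exfalso; omega
      · exfalso; omega
      · exfalso; omega
      · exact h.2.2

/-- a non-diagonal pattern -/
def Good (A : Finset (ℤ × ℤ)) (X Y : ℤ) (n : ℕ) : Prop :=
  ∃ f00 f10 f01 f11 : Prop, Quad A X Y n f00 f10 f01 f11 ∧ ¬ (f00 ∧ f11 ∧ ¬ f10 ∧ ¬ f01) ∧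
    ¬ (f10 ∧ f01 ∧ ¬ f00 ∧ ¬ f11)

theorem Good.congr {A A' : Finset (ℤ × ℤ)} {X Y : ℤ} {n : ℕ} (h : Good A X Y n)
    (he : ∀ t, Bx X Y n t → (t ∈ A' ↔ t ∈ A)) : Good A' X Y n := by
  obtain ⟨f00, f10, f01, f11, h1, h2, h3⟩ := h
  exact ⟨f00, f10, f01, f11, fun t ht => (he t ht).trans (h1 t ht), h2, h3⟩

/-- polygon, scale, band and radii -/
structure PD (P : P4) (L : ℤ) (B : Band (D P.F L)) (a b c k p y0 : ℤ) (Δ R1 R2 : ℕ) : Prop where
  hL : 8 ≤ L
  hev : Even L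
  run : Run P.F a b c
  xl : B.xl = a * L
  xr : B.xr = b * L + L - 1
  h1 : c * L < B.y1
  h2 : B.y2 < c * L + L
  hp : p ≤ B.xr
  hk : k < L
  hk1 : (R1 : ℤ) + 3 ≤ k
  hD : Δ + 2 ≤ R1
  hR : R1 ≤ R2
  hRL : 4 * (R1 : ℤ) + 8 ≤ L
  hz1 : B.y1 + R2 + 3 ≤ y0
  hz2 : y0 + R2 + 3 ≤ B.y2
  hb : ∀ j : ℤ, j * (L / 2) + R2 + 3 ≤ B.y1 ∨ B.y2 + R2 + 3 ≤ j * (L / 2)

/-- within distance `Δ` of a tile of `S` -/
def NearS (S : Finset (ℤ × ℤ)) (Δ : ℕ) (t : ℤ × ℤ) : Prop :=
  ∃ v ∈ S, |t.1 - v.1| ≤ Δ ∧ |t.2 - v.2| ≤ Δ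

section

variable {P : P4} {L : ℤ} {B : Band (D P.F L)} {a b c k p y0 : ℤ} {Δ R1 R2 : ℕ}

theorem PD.k0 (h : PD P L B a b c k p y0 Δ R1 R2) : 0 < k := by
  have := h.hk1; omega

theorem PD.hRi (h : PD P L B a b c k p y0 Δ R1 R2) : (R1 : ℤ) ≤ R2 := by exact_mod_cast h.hR

theorem PD.free (h : PD P L B a b c k p y0 Δ R1 R2) :
    Xr249.Free (D P.F L) B.xl B.xr B.y1 B.y2 k := by
  rw [h.xl, h.xr]
  exact free_mac (Mg949.mac P) h.run h.h1 h.h2 h.k0.le h.hk

theorem PD.hb0 (h : PD P L B a b c k p y0 Δ R1 R2) (j : ℤ) :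
    j * L + R2 + 3 ≤ B.y1 ∨ B.y2 + R2 + 3 ≤ j * L := by
  obtain ⟨m, hm⟩ := h.hev
  have h1 := h.hb (2 * j)
  have e : 2 * j * (L / 2) = j * L := by
    rw [show L / 2 = m by omega, hm]; ring
  rwa [e] at h1

theorem PD.hb1 (h : PD P L B a b c k p y0 Δ R1 R2) (j : ℤ) :
    j * L + L / 2 + R2 + 3 ≤ B.y1 ∨ B.y2 + R2 + 3 ≤ j * L + L / 2 := by
  obtain ⟨m, hm⟩ := h.hev
  have h1 := h.hb (2 * j + 1)
  have e : (2 * j + 1) * (L / 2) = j * L + L / 2 := by
    rw [show L / 2 = m by omega, hm]; ring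
  rwa [e] at h1

/-- off the rows of the band the stubs are not there -/
theorem mem_Dp_off {t : ℤ × ℤ} (h : t.2 < B.y1 ∨ B.y2 ≤ t.2) :
    t ∈ Dp (D P.F L) B.xl B.xr B.y1 B.y2 k ↔ t ∈ D P.F L := by
  obtain ⟨x, y⟩ := t
  rw [mem_Dp]
  simp only at h
  constructor
  · rintro (h1 | h1 | h1)
    · exact h1
    all_goals exfalso; omega
  · exact Or.inl

/-- a centre for a special tile -/
def Ctr (A : Finset (ℤ × ℤ)) (y0 : ℤ) (R1 R2 : ℕ) (v : ℤ × ℤ) : Prop :=
  ∃ X Y, (X = v.1 - 1 ∨ X = v.1) ∧ (Y = v.2 - 1 ∨ Y = v.2) ∧ Good A X Y (R1 + 1) ∧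
    (R2 : ℤ) + 1 < |Y - y0|

theorem PD.vert (h : PD P L B a b c k p y0 Δ R1 R2) (i j : ℤ) :
    Ctr (Dp (D P.F L) B.xl B.xr B.y1 B.y2 k) y0 R1 R2 (i * L, j * L) := by
  have hL := h.hL
  have hRL := h.hRL
  have hR := h.hRi
  have hz1 := h.hz1
  have hz2 := h.hz2
  have hb := h.hb0 j
  refine ⟨i * L - 1, j * L - 1, Or.inl rfl, Or.inl rfl, ?_, ?_⟩
  · refine Good.congr (A := D P.F L) ⟨(i - 1, j - 1) ∈ P.F, (i, j - 1) ∈ P.F, (i - 1, j) ∈ P.F,
      (i, j) ∈ P.F, ?_, ?_, ?_⟩ ?_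
    · have e1 : (i - 1) * L = i * L - L := by ring
      have e2 : (j - 1) * L = j * L - L := by ring
      exact quadD (by omega) (by push_cast; omega) (by omega) (by omega) (by push_cast; omega)
        (by push_cast; omega) (by omega) (by omega) (by push_cast; omega)
    · rintro ⟨g1, g2, g3, g4⟩
      have := np1 P (i - 1) (j - 1) g1 (by rwa [sub_add_cancel, sub_add_cancel])
      rw [sub_add_cancel, sub_add_cancel] at this
      tauto
    · rintro ⟨g1, g2, g3, g4⟩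
      have := np2 P (i - 1) (j - 1) (by rwa [sub_add_cancel]) (by rwa [sub_add_cancel])
      rw [sub_add_cancel, sub_add_cancel] at this
      tauto
    · intro t ht
      unfold Bx at ht
      push_cast at ht
      exact mem_Dp_off (by omega)
  · rw [lt_abs]; omega

theorem PD.markC (h : PD P L B a b c k p y0 Δ R1 R2) (C : ℤ × ℤ) (d : ZMod 4) :
    Ctr (Dp (D P.F L) B.xl B.xr B.y1 B.y2 k) y0 R1 R2 (mtl L C d).1 := by
  obtain ⟨m, hm⟩ := h.hev
  have hm2 : L / 2 = m := by omega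
  have hL := h.hL
  have hRL := h.hRL
  have hR := h.hRi
  have hz1 := h.hz1
  have hz2 := h.hz2
  have hb0 := h.hb0 C.2
  have hb1 := h.hb1 C.2
  have hb2 := h.hb0 (C.2 + 1)
  have e1 : (C.1 - 1) * L = C.1 * L - L := by ring
  have e2 : (C.2 - 1) * L = C.2 * L - L := by ring
  have e3 : (C.1 + 1) * L = C.1 * L + L := by ring
  have e4 : (C.2 + 1) * L = C.2 * L + L := by ring
  rw [e4] at hb2
  rw [hm2] at hb1
  rcases z4 d with rfl | rfl | rfl | rfl
  · rw [mtl_0, hm2]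
    refine ⟨C.1 * L - 1, C.2 * L + m, Or.inl rfl, Or.inr rfl, ?_, by rw [lt_abs]; omega⟩
    refine Good.congr (A := D P.F L) ⟨(C.1 - 1, C.2) ∈ P.F, (C.1, C.2) ∈ P.F, (C.1 - 1, C.2) ∈ P.F,
      (C.1, C.2) ∈ P.F, ?_, by tauto, by tauto⟩ ?_
    · exact quadD (by omega) (by push_cast; omega) (by omega) (by omega) (by push_cast; omega)
        (by push_cast; omega) (by omega) (by omega) (by push_cast; omega)
    · intro t ht
      unfold Bx at ht
      push_cast at ht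
      exact mem_Dp_off (by omega)
  · rw [mtl_1, hm2]
    refine ⟨C.1 * L + m, C.2 * L + L - 1, Or.inr rfl, Or.inr rfl, ?_, by rw [lt_abs]; omega⟩
    refine Good.congr (A := D P.F L) ⟨(C.1, C.2) ∈ P.F, (C.1, C.2) ∈ P.F, (C.1, C.2 + 1) ∈ P.F,
      (C.1, C.2 + 1) ∈ P.F, ?_, by tauto, by tauto⟩ ?_
    · exact quadD (by omega) (by push_cast; omega) (by omega) (by omega) (by push_cast; omega)
        (by push_cast; omega) (by omega) (by omega) (by push_cast; omega)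
    · intro t ht
      unfold Bx at ht
      push_cast at ht
      exact mem_Dp_off (by omega)
  · rw [mtl_2, hm2]
    refine ⟨C.1 * L + L - 1, C.2 * L + m - 1, Or.inr rfl, Or.inr rfl, ?_, by rw [lt_abs]; omega⟩
    refine Good.congr (A := D P.F L) ⟨(C.1, C.2) ∈ P.F, (C.1 + 1, C.2) ∈ P.F, (C.1, C.2) ∈ P.F,
      (C.1 + 1, C.2) ∈ P.F, ?_, by tauto, by tauto⟩ ?_
    · exact quadD (by omega) (by push_cast; omega) (by omega) (by omega) (by push_cast; omega)
        (by push_cast; omega) (by omega) (by omega) (by push_cast; omega)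
    · intro t ht
      unfold Bx at ht
      push_cast at ht
      exact mem_Dp_off (by omega)
  · rw [mtl_3, hm2]
    refine ⟨C.1 * L + m - 1, C.2 * L - 1, Or.inr rfl, Or.inl rfl, ?_, by rw [lt_abs]; omega⟩
    refine Good.congr (A := D P.F L) ⟨(C.1, C.2 - 1) ∈ P.F, (C.1, C.2 - 1) ∈ P.F, (C.1, C.2) ∈ P.F,
      (C.1, C.2) ∈ P.F, ?_, by tauto, by tauto⟩ ?_
    · exact quadD (by omega) (by push_cast; omega) (by omega) (by omega) (by push_cast; omega)
        (by push_cast; omega) (by omega) (by omega) (by push_cast; omega)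
    · intro t ht
      unfold Bx at ht
      push_cast at ht
      exact mem_Dp_off (by omega)

/-- near the left end of the run -/
theorem PD.memL (h : PD P L B a b c k p y0 Δ R1 R2) {t : ℤ × ℤ} (h1 : B.xl - (R1 + 1) ≤ t.1)
    (h2 : t.1 ≤ B.xl + R1) (h3 : B.y1 - (R1 + 2) ≤ t.2) (h4 : t.2 ≤ B.y2 + R1) :
    t ∈ Dp (D P.F L) B.xl B.xr B.y1 B.y2 k ↔ B.xl ≤ t.1 ∨ (B.y1 ≤ t.2 ∧ t.2 < B.y2) := by
  have hL := h.hL
  have hRL := h.hRL
  have hR := h.hRi
  have hk := h.hk1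
  have g1 := h.h1
  have g2 := h.h2
  have hz1 := h.hz1
  have hz2 := h.hz2
  have hb0 := h.hb0 c
  have hb2 := h.hb0 (c + 1)
  have e4 : (c + 1) * L = c * L + L := by ring
  rw [e4] at hb2
  have hxl := h.xl
  have hxr := h.xr
  have hab := h.run.le
  have hab' : a * L ≤ b * L := by nlinarith
  obtain ⟨x, y⟩ := t
  simp only at h1 h2 h3 h4 ⊢
  have hD : (x, y) ∈ D P.F L ↔ B.xl ≤ x := by
    rcases le_or_gt B.xl x with hx | hx
    · rw [memD_iff (by omega) (a := a) (b := c) (by simp only; omega) (by simp only; omega)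
        (by simp only; omega) (by simp only; omega)]
      exact ⟨fun _ => hx, fun _ => h.run.mem a le_rfl hab⟩
    · have e1 : (a - 1) * L = a * L - L := by ring
      rw [memD_iff (by omega) (a := a - 1) (b := c) (by simp only; omega) (by simp only; omega)
        (by simp only; omega) (by simp only; omega)]
      exact ⟨fun h' => absurd h' h.run.left, fun h' => absurd h' (by omega)⟩
  rw [mem_Dp, hD]
  omega

/-- near the right end of the run -/
theorem PD.memR (h : PD P L B a b c k p y0 Δ R1 R2) {t : ℤ × ℤ} (h1 : B.xr - R1 ≤ t.1)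
    (h2 : t.1 ≤ B.xr + R1 + 1) (h3 : B.y1 - (R1 + 2) ≤ t.2) (h4 : t.2 ≤ B.y2 + R1) :
    t ∈ Dp (D P.F L) B.xl B.xr B.y1 B.y2 k ↔ t.1 ≤ B.xr ∨ (B.y1 ≤ t.2 ∧ t.2 < B.y2) := by
  have hL := h.hL
  have hRL := h.hRL
  have hR := h.hRi
  have hk := h.hk1
  have g1 := h.h1
  have g2 := h.h2
  have hz1 := h.hz1
  have hz2 := h.hz2
  have hb0 := h.hb0 c
  have hb2 := h.hb0 (c + 1)
  have e4 : (c + 1) * L = c * L + L := by ring
  rw [e4] at hb2
  have hxl := h.xl
  have hxr := h.xr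
  have hab := h.run.le
  have hab' : a * L ≤ b * L := by nlinarith
  obtain ⟨x, y⟩ := t
  simp only at h1 h2 h3 h4 ⊢
  have hD : (x, y) ∈ D P.F L ↔ x ≤ B.xr := by
    rcases le_or_gt x B.xr with hx | hx
    · rw [memD_iff (by omega) (a := b) (b := c) (by simp only; omega) (by simp only; omega)
        (by simp only; omega) (by simp only; omega)]
      exact ⟨fun _ => hx, fun _ => h.run.mem b hab le_rfl⟩
    · have e1 : (b + 1) * L = b * L + L := by ring
      rw [memD_iff (by omega) (a := b + 1) (b := c) (by simp only; omega) (by simp only; omega)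
        (by simp only; omega) (by simp only; omega)]
      exact ⟨fun h' => absurd h' h.run.right, fun h' => absurd h' (by omega)⟩
  rw [mem_Dp, hD]
  omega

theorem PD.mouth (h : PD P L B a b c k p y0 Δ R1 R2) {v : ℤ × ℤ} (hv : v ∈ mouthC B) :
    Ctr (Dp (D P.F L) B.xl B.xr B.y1 B.y2 k) y0 R1 R2 v := by
  have hL := h.hL
  have hRL := h.hRL
  have hR := h.hRi
  have hk := h.hk1
  have hz1 := h.hz1
  have hz2 := h.hz2
  rcases mem_mouthC.1 hv with rfl | rfl | rfl | rfl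
  · refine ⟨B.xl - 1, B.y1 - 1, Or.inl rfl, Or.inl rfl, ⟨False, True, True, True, ?_, by tauto,
      by tauto⟩, by rw [lt_abs]; omega⟩
    intro t ht
    unfold Bx at ht
    push_cast at ht
    rw [h.memL (by omega) (by omega) (by omega) (by omega)]
    simp only [and_false, and_true, false_or]
    omega
  · refine ⟨B.xl - 1, B.y2 - 1, Or.inl rfl, Or.inr rfl, ⟨True, True, False, True, ?_, by tauto,
      by tauto⟩, by rw [lt_abs]; omega⟩
    intro t ht
    unfold Bx at ht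
    push_cast at ht
    rw [h.memL (by omega) (by omega) (by omega) (by omega)]
    simp only [and_false, and_true, false_or]
    omega
  · refine ⟨B.xr, B.y1 - 1, Or.inr rfl, Or.inl rfl, ⟨True, False, True, True, ?_, by tauto,
      by tauto⟩, by rw [lt_abs]; omega⟩
    intro t ht
    unfold Bx at ht
    push_cast at ht
    rw [h.memR (by omega) (by omega) (by omega) (by omega)]
    simp only [and_false, and_true, false_or]
    omega
  · refine ⟨B.xr, B.y2 - 1, Or.inr rfl, Or.inr rfl, ⟨True, True, True, False, ?_, by tauto,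
      by tauto⟩, by rw [lt_abs]; omega⟩
    intro t ht
    unfold Bx at ht
    push_cast at ht
    rw [h.memR (by omega) (by omega) (by omega) (by omega)]
    simp only [and_false, and_true, or_false]
    omega

theorem mkP_eq (P : P4) (L : ℤ) (j : Fin 3) : mkP P L j = some (mt P L j) := mark_snd _ _ _

theorem PD.ctr (h : PD P L B a b c k p y0 Δ R1 R2) {v : ℤ × ℤ} (hv : v ∈ SpP P L B) :
    Ctr (Dp (D P.F L) B.xl B.xr B.y1 B.y2 k) y0 R1 R2 v := by
  rcases mem_SpP.1 hv with h1 | ⟨j, h1⟩ | h1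
  · obtain ⟨C, -, h2⟩ := mem_vertP.1 h1
    rcases h2 with rfl | rfl | rfl | rfl
    · exact h.vert _ _
    · exact h.vert _ _
    · exact h.vert _ _
    · exact h.vert _ _
  · rw [h1, mkP_eq]
    exact h.markC _ _
  · exact h.mouth h1

/-- two marks are not in the same box -/
theorem PD.marks (h : PD P L B a b c k p y0 Δ R1 R2) (X Y : ℤ) {i j : Fin 3} (hij : i ≠ j) :
    FarM X Y R1 (mkP P L i) ∨ FarM X Y R1 (mkP P L j) := by
  by_contra hc
  rw [not_or] at hc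
  have hL := h.hL
  have hRL := h.hRL
  have g : ∀ l : Fin 3, ¬ FarM X Y R1 (mkP P L l) → Bx X Y R1 (mt P L l).1 := by
    intro l hl
    by_contra hcc
    apply hl
    intro t d e
    rw [mkP_eq] at e
    have : mt P L l = (t, d) := by simpa using e
    rw [this] at hcc
    exact hcc
  have g1 := g i hc.1
  have g2 := g j hc.2
  have g3 := mt_dist P (by omega) h.hev hij
  unfold Bx at g1 g2
  rw [le_abs, le_abs] at g3
  obtain ⟨m, hm⟩ := h.hev
  omega

theorem PD.far (h : PD P L B a b c k p y0 Δ R1 R2) (X Y : ℤ) :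
    FarM X Y R1 (mkP P L 0) ∨ (FarM X Y R1 (mkP P L 1) ∧ FarM X Y R1 (mkP P L 2)) := by
  have h1 := h.marks X Y (i := 0) (j := 1) (by decide)
  have h2 := h.marks X Y (i := 0) (j := 2) (by decide)
  tauto

end

open Classical in
/-- **the dropped ends of `D+`** -/
theorem PD_drop : ∃ C a' : ℝ, 0 < C ∧ 0 < a' ∧ ∀ {P : P4} {L : ℤ} {B : Band (D P.F L)}
    {a b c k p y0 : ℤ} {Δ R1 R2 : ℕ}, PD P L B a b c k p y0 Δ R1 R2 → ∀ {w : Wd (ℤ × ℤ)},
    GW (Dp (D P.F L) B.xl B.xr B.y1 B.y2 k)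
      (beD (Dp (D P.F L) B.xl B.xr B.y1 B.y2 k) p y0 (B.xr + k)) w →
    (∀ j, mkP P L j ∈ Sw300.L w) →
    ∃ Bad : Set (ℤ × ℤ → Bool), (PB fun _ : ℤ × ℤ => hf).real Bad ≤
        (SpP P L B).card * (C * ((((Δ + 1 : ℕ) : ℝ) / R1) ^ a' + ((R1 : ℝ) / R2) ^ a')) ∧
      ∀ s ∉ Bad, Quiet w (mkP P L 0) (mkP P L 1) (mkP P L 2) (NearS (SpP P L B) Δ) s := by
  obtain ⟨C, a', hC, ha', hq⟩ := quad_drop
  refine ⟨C, a', hC, ha', ?_⟩
  intro P L B a b c k p y0 Δ R1 R2 h w hw hm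
  have hD := h.hD
  have hk := h.k0
  have hz1 := h.hz1
  have hz2 := h.hz2
  have hxr : (B.xr + k + 1, y0) ∉ Dp (D P.F L) B.xl B.xr B.y1 B.y2 k := by
    rw [mem_Dp]
    have := h.free.le
    rintro (h1 | h1 | h1)
    · exact h.free.right _ _ (by omega) le_rfl (by omega) (by omega) h1
    · omega
    · omega
  have key : ∀ v ∈ SpP P L B, ∃ Bad : Set (ℤ × ℤ → Bool), (PB fun _ : ℤ × ℤ => hf).real Bad ≤
      C * ((((Δ + 1 : ℕ) : ℝ) / R1) ^ a' + ((R1 : ℝ) / R2) ^ a') ∧ ∀ s ∉ Bad,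
        Quiet w (mkP P L 0) (mkP P L 1) (mkP P L 2)
          (fun t => |t.1 - v.1| ≤ Δ ∧ |t.2 - v.2| ≤ Δ) s := by
    intro v hv
    obtain ⟨X, Y, hX, hY, ⟨f00, f10, f01, f11, g1, g2, g3⟩, g4⟩ := h.ctr hv
    obtain ⟨Bad, h1, h2⟩ := hq (by have := h.hp; omega) hxr hw (X := X) (Y := Y) (r := Δ + 1)
      (by omega) (by omega) h.hR g4 g1 g2 g3 (hm 0) (hm 1) (hm 2) (h.far X Y)
    refine ⟨Bad, h1, fun s hs e he he' ⟨t, d, e1, e2, e3⟩ => h2 s hs e he he' ⟨t, d, e1, ?_⟩⟩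
    rw [abs_le] at e2 e3
    unfold Bx
    push_cast
    omega
  choose! Bd hB1 hB2 using key
  refine ⟨⋃ v ∈ SpP P L B, Bd v, ?_, ?_⟩
  · refine (measureReal_biUnion_finset_le _ _).trans ?_
    refine (Finset.sum_le_card_nsmul _ _ _ fun v hv => hB1 v hv).trans ?_
    rw [nsmul_eq_mul]
  · intro s hs e he he' ⟨t, d, e1, v, hv, e2⟩
    have hs' : s ∉ Bd v := by
      intro hc
      apply hs
      simp only [Set.mem_iUnion]
      exact ⟨v, hv, hc⟩
    exact hB2 v hv s hs' e he he' ⟨t, d, e1, e2⟩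

end Crest.Agent.R158.Dp440
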