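import Crest.Agent.R158.Dp7_440
import Crest.Agent.R158.Csh_410

/-!
# R158 (helper440), dropped part of the mark sum, 8: the slices

**`drop_slice`** : `PD_drop` in the quantifiers of `EvalP` (410).
-/

set_option autoImplicit false

namespace Crest.Agent.R158.Dp440

open MeasureTheory
open Crest.Agent.R158.Sw300 (Port Wd)
open Crest.Agent.R158.Ob664 (GW)
open Crest.Agent.R158.Rs689 (PB hf)
open Crest.Agent.R158.Env664
open Crest.Agent.R158.Tj656 (P4)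
open Crest.Agent.R158.Xr249 (Dp)
open Crest.Agent.R158.Fm857
open Crest.Agent.R158.Cs410

theorem inHalf_j {r : ℤ} {c e : ℝ} (h : InHalf r c e) : ∃ j : ℤ, (j : ℝ) / 2 < c ∧
    e < ((j : ℝ) + 1) / 2 ∧ 2 * r ≤ j ∧ j + 1 ≤ 2 * r + 2 := by
  rcases h with ⟨h1, h2⟩ | ⟨h1, h2⟩
  · exact ⟨2 * r, by push_cast; linarith, by push_cast; linarith, le_rfl, by omega⟩
  · exact ⟨2 * r + 1, by push_cast; linarith, by push_cast; linarith, by omega, by omega⟩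

/-- the radii of a slice -/
theorem exists_PD {P : P4} {A B' r : ℤ} (hrun : Run P.F A B' r) {c e : ℝ} (hI : InHalf r c e) :
    ∃ h0 : ℝ, 0 < h0 ∧ ∀ h y : ℝ, 0 < h → h < h0 → c ≤ y → y ≤ e → ∀ q : ℝ, 0 < q → q ≤ 1 / 2 →
      ∀ δ : ℝ, 0 < δ → δ ≤ q ^ 2 * h / 8 → ∃ L0 : ℤ, ∀ L : ℤ, L0 ≤ L → Even L →
      ∀ B : Band (D P.F L), OnB A B' L h y B → ∀ p y0 : ℤ, p ≤ B.xr → y - h ≤ (y0 : ℝ) / L →
      (y0 : ℝ) / L ≤ y + h → ∃ R1 R2 : ℕ, PD P L B A B' r (L / 8) p y0 (DelP L δ).toNat R1 R2 ∧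
        ((((DelP L δ).toNat + 1 : ℕ) : ℝ) / R1 ≤ q) ∧ (R1 : ℝ) / R2 ≤ q := by
  obtain ⟨j0, hj1, hj2, hj3, hj4⟩ := inHalf_j hI
  set η := min (c - (j0 : ℝ) / 2) (((j0 : ℝ) + 1) / 2 - e) with hη
  have hη0 : 0 < η := lt_min (by linarith) (by linarith)
  refine ⟨min (η / 8) (1 / 32), lt_min (by positivity) (by norm_num), ?_⟩
  intro h y hh hh0 hcy hye q hq hq2 δ hδ hδ2
  have hhη : 8 * h < η := by
    have := hh0.trans_le (min_le_left _ _); linarith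
  have hh32 : h < 1 / 32 := hh0.trans_le (min_le_right _ _)
  have hη1 : η ≤ c - (j0 : ℝ) / 2 := min_le_left _ _
  have hη2 : η ≤ ((j0 : ℝ) + 1) / 2 - e := min_le_right _ _
  refine ⟨⌈max (100 / (q ^ 2 * h)) 100⌉, ?_⟩
  intro L hL0 hev B hB p y0 hp hy1 hy2
  have hLm : max (100 / (q ^ 2 * h)) 100 ≤ (L : ℝ) := (Int.le_ceil _).trans (by exact_mod_cast hL0)
  have hL100 : (100 : ℝ) ≤ L := (le_max_right _ _).trans hLm
  have hLi : (100 : ℤ) ≤ L := by exact_mod_cast hL100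
  have hqh : 0 < q ^ 2 * h := by positivity
  have hqhL : 100 ≤ q ^ 2 * h * L := by
    have := (le_max_left _ _).trans hLm
    rw [div_le_iff₀ hqh] at this
    linarith
  have hLp : (0 : ℝ) < L := by linarith
  have hqq : q ^ 2 ≤ q := by nlinarith
  have hqhL1 : q ^ 2 * h * L ≤ q * h * L := by
    have h1 : q ^ 2 * (h * L) ≤ q * (h * L) := mul_le_mul_of_nonneg_right hqq (by positivity)
    linarith
  have hqhL2 : q * h * L ≤ h * L / 2 := by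
    have h1 : q * (h * L) ≤ 1 / 2 * (h * L) := mul_le_mul_of_nonneg_right hq2 (by positivity)
    linarith
  have hhL : 200 ≤ h * L := by linarith
  rw [le_div_iff₀ hLp] at hy1
  rw [div_le_iff₀ hLp] at hy2
  -- radii
  have n1 : 0 ≤ q / 2 * h * L := by positivity
  have n2 : 0 ≤ h * L := by positivity
  set R1 : ℕ := ⌊q / 2 * h * L⌋₊ with hR1
  set R2 : ℕ := ⌊h * L⌋₊ with hR2
  have a1 : (R1 : ℝ) ≤ q / 2 * h * L := Nat.floor_le n1
  have a2 : q / 2 * h * L < R1 + 1 := Nat.lt_floor_add_one _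
  have a3 : (R2 : ℝ) ≤ h * L := Nat.floor_le n2
  have a4 : h * L < R2 + 1 := Nat.lt_floor_add_one _
  have e1 : q / 2 * h * L = q * h * L / 2 := by ring
  rw [e1] at a1 a2
  -- the cut
  have d0 : 0 ≤ δ * L := by positivity
  have dc : 0 ≤ DelP L δ := by unfold DelP; exact Int.ceil_nonneg d0
  have d1 : (((DelP L δ).toNat : ℕ) : ℝ) ≤ δ * L + 1 := by
    have h1 : (((DelP L δ).toNat : ℕ) : ℤ) = DelP L δ := Int.toNat_of_nonneg dc
    have h2 : (((DelP L δ).toNat : ℕ) : ℝ) = ((DelP L δ : ℤ) : ℝ) := by exact_mod_cast h1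
    rw [h2]
    unfold DelP
    exact (Int.ceil_lt_add_one _).le
  have d2 : δ * L ≤ q ^ 2 * h * L / 8 := by
    have := mul_le_mul_of_nonneg_right hδ2 hLp.le
    linarith
  have R1p : (0 : ℝ) < R1 := by linarith
  have R2p : (0 : ℝ) < R2 := by linarith
  -- the floors
  have hB1 := hB.y1
  have hB2 := hB.y2
  obtain ⟨m, hm⟩ := hev
  have hm2 : L / 2 = m := by omega
  have hmr : (L : ℝ) = 2 * m := by rw [hm]; push_cast; ring
  have hmp : (0 : ℝ) < m := by linarith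
  have F1 : (j0 : ℝ) * m + 8 * (h * L) ≤ y * L := by
    have t1 : ((j0 : ℝ) / 2 + 8 * h) * L ≤ y * L :=
      mul_le_mul_of_nonneg_right (by linarith) hLp.le
    have t2 : (j0 : ℝ) / 2 * L = j0 * m := by rw [hmr]; ring
    linarith
  have F2 : y * L + 8 * (h * L) ≤ ((j0 : ℝ) + 1) * m := by
    have t1 : (y + 8 * h) * L ≤ ((j0 : ℝ) + 1) / 2 * L :=
      mul_le_mul_of_nonneg_right (by linarith) hLp.le
    have t2 : ((j0 : ℝ) + 1) / 2 * L = (j0 + 1) * m := by rw [hmr]; ring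
    linarith
  have G1 : ((B.y1 : ℤ) : ℝ) ≤ y * L - 3 * (h * L) := by
    have : ((B.y1 : ℤ) : ℝ) ≤ (y - 3 * h) * L := by rw [hB1]; exact Int.floor_le _
    linarith
  have G1' : y * L - 3 * (h * L) - 1 < ((B.y1 : ℤ) : ℝ) := by
    have : (y - 3 * h) * L - 1 < ((B.y1 : ℤ) : ℝ) := by rw [hB1]; exact Int.sub_one_lt_floor _
    linarith
  have G2 : ((B.y2 : ℤ) : ℝ) ≤ y * L + 3 * (h * L) := by
    have : ((B.y2 : ℤ) : ℝ) ≤ (y + 3 * h) * L := by rw [hB2]; exact Int.floor_le _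
    linarith
  have G2' : y * L + 3 * (h * L) - 1 < ((B.y2 : ℤ) : ℝ) := by
    have : (y + 3 * h) * L - 1 < ((B.y2 : ℤ) : ℝ) := by rw [hB2]; exact Int.sub_one_lt_floor _
    linarith
  have Y1 : y * L - h * L ≤ y0 := by linarith
  have Y2 : (y0 : ℝ) ≤ y * L + h * L := by linarith
  clear hy1 hy2
  have low : ∀ j : ℤ, j ≤ j0 → j * m + R2 + 3 ≤ B.y1 := by
    intro j hj
    have hjr : (j : ℝ) * m ≤ j0 * m := mul_le_mul_of_nonneg_right (by exact_mod_cast hj) hmp.le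
    have : ((j * m + R2 + 3 : ℤ) : ℝ) ≤ ((B.y1 : ℤ) : ℝ) := by push_cast; linarith
    exact_mod_cast this
  have upp : ∀ j : ℤ, j0 + 1 ≤ j → B.y2 + R2 + 3 ≤ j * m := by
    intro j hj
    have hjr : ((j0 : ℝ) + 1) * m ≤ j * m :=
      mul_le_mul_of_nonneg_right (by exact_mod_cast hj) hmp.le
    have : ((B.y2 + R2 + 3 : ℤ) : ℝ) ≤ ((j * m : ℤ) : ℝ) := by push_cast; linarith
    exact_mod_cast this
  have hb : ∀ j : ℤ, j * (L / 2) + R2 + 3 ≤ B.y1 ∨ B.y2 + R2 + 3 ≤ j * (L / 2) := by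
    intro j
    rw [hm2]
    rcases le_or_gt j j0 with hj | hj
    · exact Or.inl (low j hj)
    · exact Or.inr (upp j hj)
  have hz1 : B.y1 + R2 + 3 ≤ y0 := by
    have h4 : ((B.y1 + R2 + 3 : ℤ) : ℝ) ≤ (y0 : ℝ) := by push_cast; linarith
    exact_mod_cast h4
  have hz2 : y0 + R2 + 3 ≤ B.y2 := by
    have h4 : ((y0 + R2 + 3 : ℤ) : ℝ) ≤ ((B.y2 : ℤ) : ℝ) := by push_cast; linarith
    exact_mod_cast h4
  have hL8 : (L : ℝ) / 8 - 1 < ((L / 8 : ℤ) : ℝ) := by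
    have : L < 8 * (L / 8) + 8 := by omega
    have : (L : ℝ) < 8 * ((L / 8 : ℤ) : ℝ) + 8 := by exact_mod_cast this
    linarith
  have hqL : q * h * L ≤ L / 64 := by
    have h3 : q * h ≤ 1 / 2 * (1 / 32) := mul_le_mul hq2 hh32.le hh.le (by norm_num)
    have := mul_le_mul_of_nonneg_right h3 hLp.le
    linarith
  refine ⟨R1, R2, ⟨by omega, ⟨m, hm⟩, hrun, hB.xl, hB.xr, ?_, ?_, hp, by omega, ?_, ?_, ?_, ?_, hz1,
    hz2, hb⟩, ?_, ?_⟩
  · have h1 := low (2 * r) hj3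
    have : 2 * r * m = r * L := by rw [hm]; ring
    omega
  · have h1 := upp (2 * r + 2) hj4
    have : (2 * r + 2) * m = r * L + L := by rw [hm]; ring
    omega
  · have : ((R1 + 3 : ℤ) : ℝ) < ((L / 8 : ℤ) : ℝ) := by push_cast at hL8 ⊢; linarith
    have := Int.cast_lt.1 this
    omega
  · have : (((DelP L δ).toNat + 2 : ℕ) : ℝ) < ((R1 + 1 : ℕ) : ℝ) := by
      push_cast
      linarith
    have := Nat.cast_lt.1 this
    omega
  · have : (R1 : ℝ) ≤ (R2 : ℝ) := by linarith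
    exact_mod_cast this
  · have : ((4 * (R1 : ℤ) + 8 : ℤ) : ℝ) ≤ (L : ℝ) := by push_cast; linarith
    exact_mod_cast this
  · rw [div_le_iff₀ R1p]
    push_cast
    have h3 : q * (q * h * L / 2 - 1) ≤ q * R1 := mul_le_mul_of_nonneg_left (by linarith) hq.le
    have e2 : q * (q * h * L / 2 - 1) = q ^ 2 * h * L / 2 - q := by ring
    linarith
  · rw [div_le_iff₀ R2p]
    have h3 : q * (h * L - 1) ≤ q * R2 := mul_le_mul_of_nonneg_left (by linarith) hq.le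
    have e2 : q * (h * L - 1) = q * h * L - q := by ring
    linarith

/-- **the dropped part in the quantifiers of `EvalP`** -/
theorem drop_slice (P : P4) {A B' r : ℤ} (hrun : Run P.F A B' r) {c e : ℝ} (hI : InHalf r c e) :
    ∃ h0 : ℝ, 0 < h0 ∧ ∀ h y : ℝ, 0 < h → h < h0 → c ≤ y → y ≤ e → ∀ ε : ℝ, 0 < ε →
      ∃ δ0 : ℝ, 0 < δ0 ∧ δ0 ≤ h / 100 ∧ ∀ δ : ℝ, 0 < δ → δ ≤ δ0 → ∃ L0 : ℤ, ∀ L : ℤ, L0 ≤ L →
      Even L → ∀ B : Band (D P.F L), OnB A B' L h y B → ∀ p y0 : ℤ, p ≤ B.xr →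
      y - h ≤ (y0 : ℝ) / L → (y0 : ℝ) / L ≤ y + h → ∀ {w : Wd (ℤ × ℤ)},
      GW (Dp (D P.F L) B.xl B.xr B.y1 B.y2 (L / 8))
        (beD (Dp (D P.F L) B.xl B.xr B.y1 B.y2 (L / 8)) p y0 (B.xr + L / 8)) w →
      (∀ j, mkP P L j ∈ Sw300.L w) →
      ∃ Bad : Set (ℤ × ℤ → Bool), (PB fun _ : ℤ × ℤ => hf).real Bad ≤ ε ∧
        ∀ s ∉ Bad, Quiet w (mkP P L 0) (mkP P L 1) (mkP P L 2)
          (NearS (SpP P L B) (DelP L δ).toNat) s := by
  obtain ⟨C, a, hC, ha, hd⟩ := PD_drop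
  obtain ⟨h0, hh0, H⟩ := exists_PD hrun hI
  refine ⟨h0, hh0, fun h y hh hlt hcy hye ε hε => ?_⟩
  set K : ℝ := (4 * (P.F.card : ℝ) + 7) * C with hK
  have hKp : 0 < K := by positivity
  set q : ℝ := min (1 / 2) ((ε / (2 * K)) ^ (1 / a)) with hq
  have hq0 : 0 < q := lt_min (by norm_num) (Real.rpow_pos_of_pos (by positivity) _)
  have hqe : q ^ a ≤ ε / (2 * K) := by
    refine (Real.rpow_le_rpow hq0.le (min_le_right _ _) ha.le).trans ?_
    rw [← Real.rpow_mul (by positivity), one_div_mul_cancel ha.ne', Real.rpow_one]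
  refine ⟨min (q ^ 2 * h / 8) (h / 100), lt_min (by positivity) (by positivity), min_le_right _ _,
    fun δ hδ hδ0 => ?_⟩
  obtain ⟨L0, hL⟩ := H h y hh hlt hcy hye q hq0 (min_le_left _ _) δ hδ
    (hδ0.trans (min_le_left _ _))
  refine ⟨L0, fun L hL0 hev B hB p y0 hp hy1 hy2 w hw hm => ?_⟩
  obtain ⟨R1, R2, hPD, g1, g2⟩ := hL L hL0 hev B hB p y0 hp hy1 hy2
  obtain ⟨Bad, b1, b2⟩ := hd hPD hw hm
  refine ⟨Bad, b1.trans ?_, b2⟩
  have c1 : ((((DelP L δ).toNat + 1 : ℕ) : ℝ) / R1) ^ a ≤ q ^ a :=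
    Real.rpow_le_rpow (by positivity) g1 ha.le
  have c2 : ((R1 : ℝ) / R2) ^ a ≤ q ^ a := Real.rpow_le_rpow (by positivity) g2 ha.le
  have c3 : ((SpP P L B).card : ℝ) ≤ 4 * (P.F.card : ℝ) + 7 := by
    exact_mod_cast card_SpP P L B
  calc ((SpP P L B).card : ℝ) * (C * (((((DelP L δ).toNat + 1 : ℕ) : ℝ) / R1) ^ a +
        ((R1 : ℝ) / R2) ^ a)) ≤ (4 * (P.F.card : ℝ) + 7) * (C * (ε / (2 * K) + ε / (2 * K))) := by
        refine mul_le_mul c3 (mul_le_mul_of_nonneg_left (by linarith) hC.le) ?_ (by positivity)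
        positivity
    _ = K * (ε / (2 * K) + ε / (2 * K)) := by rw [hK]; ring
    _ = ε := by field_simp; norm_num

end Crest.Agent.R158.Dp440
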