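import Crest.Agent.R158.Dr9_945
import Crest.Agent.R158.Hb0_656

/-!
# Row 158, BLOCK DR (helper945), part 10: the plugs UP, DN, SR of the block BL (blueprint of 656, B8)

* `mkE`, `dr_HG` : `dr_vert` for `HG` and marks of the first region
* `ntc`, `Sb` : notches and slab
* `dr_up`, `dr_dn`, `dr_sr`
-/

set_option autoImplicit false
set_option linter.unusedSectionVars false
set_option linter.unusedSimpArgs false

noncomputable section

namespace Crest.Agent.R158.Dr945

open MeasureTheory ProbabilityTheory unitInterval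
open Crest.Agent.R161.Geo729
open Crest.Agent.R158.Sw300 (Port Wd thru tls)
open Crest.Agent.R158.Ob664 (HV HW HG GW Gl)
open Env664 (beD nbD portOf_some portOf_none D Run mem_D div_iff)
open Hb656 (Hang shD mem_shD)

/-! ### `dr_vert` for `HG` -/

/-- the mark moved with its tile -/
def mkE (E : Finset P2) (m : P2 × ZMod 4) : P2 × ZMod 4 :=
  if m.1 ∈ E then ((m.1.1 - 1, m.1.2), m.2) else m

section HG

variable {A E A' : Finset P2} {p y0 k xr xr' : ℤ} {R : ℕ}

/-- ports of the interior of the box are glued -/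
theorem box_glued (hB : Bxz A p y0 xr R) {v : P2} (hv : v ∈ Bx R) {d : ZMod 4} {r : ℕ}
    (hn : Near r (pd v d)) (hr : r < R) :
    beD A p y0 xr (some (ch p y0 v, d)) ≠ some (ch p y0 v, d) := by
  have hr' : (r : ℤ) < R := by exact_mod_cast hr
  rcases be_box hB hv d with h | ⟨h, -⟩ | ⟨v', -, d', h, -, h2⟩
  · unfold Far at h
    unfold Near at hn
    omega
  · rw [h]; simp
  · rw [h]
    simp only [ne_eq, Option.some.injEq, Prod.mk.injEq, not_and]
    exact fun _ e => h2 e.symm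

theorem mark_data (h : Slab A E A' p y0 k xr xr') (hB : BoxV A p y0 k xr xr' R)
    {m : P2 × ZMod 4} (h1 : m.1 ∈ A) (h2 : beD A p y0 xr (some m) = some m) :
    fp (gE E) (some (mkE E m)) = some m ∧ (mkE E m).1 ∈ A' ∧
      beD A' p (y0 + k) xr' (some (mkE E m)) = some (mkE E m) := by
  obtain ⟨⟨x, y⟩, d⟩ := m
  have hC := h.cmp hB
  have kpos := h.kpos
  have kR := hB.kR
  have hk : k.toNat < R := by omega
  have hxr := hB.box.xr
  -- not on the column
  have hK : ¬ (x = p ∧ y0 ≤ y ∧ y < y0 + k) := by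
    rintro ⟨rfl, e1, e2⟩
    have hv : (((0 : ℤ), y - y0 + 1) : P2) ∈ Bx (R : ℤ) := by
      simp only [Bx, Set.mem_ofPred_eq]; omega
    have e3 : ch x y0 (0, y - y0 + 1) = (x, y) := by
      unfold ch; simp only [Prod.mk.injEq]; omega
    have := box_glued hB.box hv (d := d) (r := k.toNat) (by
      unfold Near
      rcases Env664.z4 d with rfl | rfl | rfl | rfl
      · simp only [pd0, eW]; omega
      · simp only [pd1, eN]; rw [if_neg (by omega)]; dsimp only; omega
      · simp only [pd2, eE]; omega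
      · simp only [pd3, eS]; omega) hk
    rw [e3] at this
    exact this h2
  have hx : fp (gE E) (some (mkE E ((x, y), d))) = some ((x, y), d) ∧
      (mkE E ((x, y), d)).1 ∈ A' := by
    unfold mkE
    dsimp only
    by_cases hE : (x, y) ∈ E
    · rw [if_pos hE, fp_some, gE_pos (by rw [sub_add_cancel]; exact hE), sub_add_cancel]
      exact ⟨rfl, (h.mem' _ _).2 (Or.inr (by rw [sub_add_cancel]; exact hE))⟩
    · rw [if_neg hE, fp_some]
      have : (x + 1, y) ∉ E := by
        intro h3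
        rcases h.left _ _ h3 (by rw [add_sub_cancel_right]; exact h1) with h4 | ⟨h4, h5, h6⟩
        · rw [add_sub_cancel_right] at h4; exact hE h4
        · exact hK ⟨by omega, h5, h6⟩
      rw [gE_neg this]
      exact ⟨rfl, (h.mem' _ _).2 (Or.inl ⟨h1, hE, hK⟩)⟩
  obtain ⟨hx1, hx2⟩ := hx
  refine ⟨hx1, hx2, ?_⟩
  set x' : P2 × ZMod 4 := mkE E ((x, y), d) with hx'
  have hT : TP A' (some x' : Port P2) := ⟨x'.1, hx2, x'.2, rfl⟩
  have hJ : (some x' : Port P2) ∉ Jv p y0 k := by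
    intro hJ
    obtain ⟨v, hv, hv1, hv2⟩ := hC.near x'.1 x'.2 hJ hx2
    have h3 := box_glued hB.box hv hv2 hk
    rw [← hv1] at h3
    have h4 : (some (gE E x'.1, x'.2) : Port P2) = some ((x, y), d) := hx1
    rw [h4] at h3
    exact h3 h2
  obtain ⟨h3, h4⟩ := h.agr (by omega) (by have := hB.xr'; omega) _ hT hJ
  rw [hx1, h2, ← hx1] at h4
  exact fp_inj h.inj h3 hT h4

/-- **`dr_vert` for `HG`** -/
theorem dr_HG : ∃ C a : ℝ, 0 < C ∧ 0 < a ∧ ∀ {A E A' : Finset P2} {p y0 k xr xr' : ℤ} {R : ℕ},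
    Slab A E A' p y0 k xr xr' → BoxV A p y0 k xr xr' R →
    (∃ w, GW A (beD A p y0 xr) w) → (∃ w, GW A' (beD A' p (y0 + k) xr') w) →
    ∀ m : Fin 3 → P2 × ZMod 4, Function.Injective m →
      (∀ i, (m i).1 ∈ A ∧ beD A p y0 xr (some (m i)) = some (m i)) →
      ‖HG A (beD A p y0 xr) (some (m 0)) (some (m 1)) (some (m 2)) -
        HG A' (beD A' p (y0 + k) xr') (some (mkE E (m 0))) (some (mkE E (m 1)))
          (some (mkE E (m 2)))‖ ≤ C * ((k : ℝ) / R) ^ a := by
  obtain ⟨C, a, hC, ha, h⟩ := dr_vert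
  refine ⟨C, a, hC, ha, ?_⟩
  rintro A E A' p y0 k xr xr' R hS hB ⟨w, hw⟩ ⟨w', hw'⟩ m hm hf
  have hd := fun i => mark_data hS hB (hf i).1 (hf i).2
  have hL : ∀ i, some (m i) ∈ Sw300.L w := fun i => (gw_mem_iff hw (m i).1 (m i).2).2 (hf i)
  have hL' : ∀ i, some (mkE E (m i)) ∈ Sw300.L w' := fun i =>
    (gw_mem_iff hw' _ _).2 (hd i).2
  have hne : ∀ i j, i ≠ j → mkE E (m i) ≠ mkE E (m j) := by
    intro i j hij e
    have e1 := (hd i).1
    rw [e, (hd j).1] at e1
    exact hij (hm (by simpa using e1.symm))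
  have hne' : ∀ i j, i ≠ j → m i ≠ m j := fun i j hij e => hij (hm e)
  rw [HG_eq hw (hL 0) (hL 1) (hL 2) (hne' 0 1 (by decide)) (hne' 0 2 (by decide))
      (hne' 1 2 (by decide)),
    HG_eq hw' (hL' 0) (hL' 1) (hL' 2) (hne 0 1 (by decide)) (hne 0 2 (by decide))
      (hne 1 2 (by decide))]
  have hn2 : ∀ i j, i ≠ j → (some (mkE E (m i)) : Port P2) ≠ some (mkE E (m j)) := by
    intro i j hij e
    exact hne i j hij (by simpa using e)
  have := h hS hB hw hw' (hL' 0) (hL' 1) (hL' 2) (hn2 0 1 (by decide)) (hn2 0 2 (by decide))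
    (hn2 1 2 (by decide)) (by rw [(hd 0).1]; exact hL 0)
  rw [(hd 0).1, (hd 1).1, (hd 2).1] at this
  exact this

end HG

end Crest.Agent.R158.Dr945
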