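import Crest.Agent.R158.Dr10_945
import Crest.Agent.R158.Hb2_656

/-!
# Row 158, BLOCK DR (helper945), part 11: the leaf `DRone` of the block BL (blueprint of 656, B8)

* `slab_rect` : `Slab` for a rectangle whose left sides are free
* `mark_E` : a free port of a tile of the rectangle sits on its last column
* `dr_Nk` : `dr_HG` for two regions with marks (`Hb656.Rg`, `Nk`)
* **`dRone : DRone`**
-/

set_option autoImplicit false
set_option linter.unusedSectionVars false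
set_option linter.unusedSimpArgs false

noncomputable section

namespace Crest.Agent.R158.Dr945

open MeasureTheory ProbabilityTheory unitInterval
open Crest.Agent.R161.Geo729
open Crest.Agent.R158.Sw300 (Port Wd thru tls)
open Crest.Agent.R158.Ob664 (HV HW HG GW Gl)
open Env664 (beD nbD portOf_some portOf_none nbD_leg nbD_W nbD_E nbD_N1 nbD_N nbD_Sleg nbD_S1
  nbD_S D Run mem_D div_iff)
open Hb656 (Hang shD mem_shD GH mt N1 nmk mem_N1 DRone Sm1 Cr1 Rg Nk)
open Tj656 (P4)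

variable {A : Finset P2} {p y0 k xr : ℤ} {R : ℕ}

theorem slab_rect (hk : 0 < k) (hp' : p < xr)
    (hr : ∀ x y : ℤ, p ≤ x → x ≤ xr → y0 ≤ y → y ≤ y0 + k → (x, y) ∈ A)
    (ho : ∀ y : ℤ, y0 ≤ y → y ≤ y0 + k → (xr + 1, y) ∉ A) :
    Slab A (slabE p y0 k xr) (notch A xr y0 k) p y0 k xr xr where
  kpos := hk
  sub x y h := by
    rw [mem_slabE] at h
    exact hr x y (by omega) (by omega) (by omega) (by omega)
  colE y h1 h2 := by rw [mem_slabE]; omega
  start y h1 h2 := by rw [mem_slabE]; omega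
  right x y h h' := by
    rw [mem_slabE] at h ⊢
    by_contra hc
    have : x = xr := by omega
    rw [this] at h'
    exact ho y h.2.1 (by omega) h'
  left x y h _ := by rw [mem_slabE] at h ⊢; omega
  up x y h _ := by rw [mem_slabE] at h ⊢; omega
  down x y h _ := by rw [mem_slabE] at h ⊢; omega
  low x h1 h2 := by rw [mem_slabE]; omega
  low1 x h1 h2 := by rw [mem_slabE]; omega
  lowr := ho y0 le_rfl (by omega)
  hi x h1 h2 := ⟨hr x (y0 + k) (by omega) (by omega) (by omega) le_rfl, by rw [mem_slabE]; omega⟩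
  hi1 x h1 h2 _ := by rw [mem_slabE]; omega
  hir := ho (y0 + k) (by omega) le_rfl
  gap x y h h' := by
    rw [mem_slabE] at h
    exact absurd (hr (x - 1) y (by omega) (by omega) (by omega) (by omega)) h'
  pinch1 x y h _ := by
    rw [mem_slabE] at h
    exact Or.inl (hr (x - 1) y (by omega) (by omega) (by omega) (by omega))
  pinch2 x y h _ := by
    rw [mem_slabE] at h
    exact Or.inl (hr (x - 1) y (by omega) (by omega) (by omega) (by omega))
  mem' x y := by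
    rw [mem_notch, mem_slabE, mem_slabE]
    by_cases hy : y0 ≤ y ∧ y < y0 + k
    · constructor
      · rintro ⟨h1, h2⟩
        by_cases h3 : p ≤ x ∧ x < xr
        · right; omega
        · left
          exact ⟨h1, by omega, by omega⟩
      · rintro (⟨h1, h2, h3⟩ | h1)
        · exact ⟨h1, by omega⟩
        · exact ⟨hr x y (by omega) (by omega) (by omega) (by omega), by omega⟩
    · constructor
      · rintro ⟨h1, h2⟩
        exact Or.inl ⟨h1, by omega, by omega⟩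
      · rintro (⟨h1, h2, h3⟩ | h1)
        · exact ⟨h1, by omega⟩
        · omega

/-- a free port of a tile of the rectangle sits on its last column -/
theorem mark_E
    (hr : ∀ x y : ℤ, p ≤ x → x ≤ xr → y0 - 1 ≤ y → y ≤ y0 + k → (x, y) ∈ A)
    {m : P2 × ZMod 4} (hm : m.1 ∈ slabE p y0 k xr) (hf : beD A p y0 xr (some m) = some m) :
    m.1.1 = xr := by
  obtain ⟨⟨x, y⟩, d⟩ := m
  rw [mem_slabE] at hm
  obtain ⟨⟨h1, h2⟩, h3, h4⟩ := hm
  dsimp only
  by_contra hx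
  have hA := hr x y (by omega) (by omega) (by omega) (by omega)
  have key : ∀ (n : P2) (c : ZMod 4), nbD p y0 xr (some ((x, y), d)) = some (n, c) → n ∈ A →
      n ≠ (x, y) → False := by
    intro n c e hn hne
    have := be_of (portOf_some.2 hA) (portOf_some.2 hn) e
    rw [hf] at this
    simp only [Option.some.injEq, Prod.mk.injEq] at this
    exact hne this.1.symm
  rcases Env664.z4 d with rfl | rfl | rfl | rfl
  · refine key _ _ nbD_W (hr _ _ (by omega) (by omega) (by omega) (by omega)) ?_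
    simp only [ne_eq, Prod.mk.injEq]; omega
  · refine key _ _ (nbD_N (by omega)) (hr _ _ (by omega) (by omega) (by omega) (by omega)) ?_
    simp only [ne_eq, Prod.mk.injEq]; omega
  · refine key _ _ nbD_E (hr _ _ (by omega) (by omega) (by omega) (by omega)) ?_
    simp only [ne_eq, Prod.mk.injEq]; omega
  · by_cases hy : y = y0
    · refine key _ _ (nbD_S1 ⟨hy, by omega, by omega⟩)
        (hr _ _ (by omega) (by omega) (by omega) (by omega)) ?_
      simp only [ne_eq, Prod.mk.injEq]; omega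
    · refine key _ _ (nbD_S ⟨by omega, by omega⟩)
        (hr _ _ (by omega) (by omega) (by omega) (by omega)) ?_
      simp only [ne_eq, Prod.mk.injEq]; omega

/-- the marks: `mkE` of the rectangle is `nmk` on free ports -/
theorem mkE_nmk {L b y1 : ℤ} (hx : xr = b * L + L - 1) (hy : y1 = y0 + k) (hp' : p < xr)
    (hr : ∀ x y : ℤ, p ≤ x → x ≤ xr → y0 - 1 ≤ y → y ≤ y0 + k → (x, y) ∈ A)
    {m : P2 × ZMod 4} (hf : beD A p y0 xr (some m) = some m) :
    mkE (slabE p y0 k xr) m = nmk L b y0 y1 m := by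
  unfold mkE nmk
  have : m.1 ∈ slabE p y0 k xr ↔ m.1 ∈ N1 L b y0 y1 := by
    rw [mem_N1, ← hx]
    constructor
    · intro h
      have h1 := mark_E hr h hf
      obtain ⟨⟨x, y⟩, d⟩ := m
      rw [mem_slabE] at h
      exact ⟨h1, h.2.1, by dsimp only; omega⟩
    · obtain ⟨⟨x, y⟩, d⟩ := m
      rw [mem_slabE]
      rintro ⟨h1, h2, h3⟩
      dsimp only at h1 h2 h3
      exact ⟨⟨by omega, by omega⟩, h2, by omega⟩
  by_cases h : m.1 ∈ slabE p y0 k xr
  · rw [if_pos h, if_pos (this.1 h)]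
  · rw [if_neg h, if_neg fun g => h (this.2 g)]

theorem notch_N1 {L b y1 : ℤ} (hx : xr = b * L + L - 1) (hy : y1 = y0 + k) :
    notch A xr y0 k = A \ N1 L b y0 y1 := by
  ext ⟨x, y⟩
  rw [mem_notch, Finset.mem_sdiff, mem_N1, ← hx, ← hy]

/-- **`dr_HG` for regions with marks** -/
theorem dr_Nk : ∃ C a : ℝ, 0 < C ∧ 0 < a ∧ ∀ {A E A' : Finset P2} {p y0 k xr xr' : ℤ} {R : ℕ},
    Slab A E A' p y0 k xr xr' → BoxV A p y0 k xr xr' R → ∀ m m' : Fin 3 → P2 × ZMod 4,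
      ((∀ i, (m i).1 ∈ A → beD A p y0 xr (some (m i)) = some (m i) → m' i = mkE E (m i))) →
      Nk ⟨A, p, y0, xr, m⟩ ⟨A', p, y0 + k, xr', m'⟩ (C * ((k : ℝ) / R) ^ a) := by
  obtain ⟨C, a, hC, ha, hH⟩ := dr_HG
  refine ⟨C, a, hC, ha, ?_⟩
  intro A E A' p y0 k xr xr' R hS hB m m' hm h1 h2
  unfold Rg.ok at h1 h2
  dsimp only at h1 h2
  obtain ⟨w, hw, l0, l1, l2, hc⟩ := h1
  obtain ⟨w', hw', -⟩ := h2
  have hf : ∀ i, (m i).1 ∈ A ∧ beD A p y0 xr (some (m i)) = some (m i) := by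
    intro i
    fin_cases i
    · exact (gw_mem_iff hw (m 0).1 (m 0).2).1 l0
    · exact (gw_mem_iff hw (m 1).1 (m 1).2).1 l1
    · exact (gw_mem_iff hw (m 2).1 (m 2).2).1 l2
  have hinj : Function.Injective m := by
    have n01 : m 0 ≠ m 1 := fun e => by
      rw [e] at hc; unfold Sw300.cyc at hc; omega
    have n12 : m 1 ≠ m 2 := fun e => by
      rw [e] at hc; unfold Sw300.cyc at hc; omega
    have n02 : m 0 ≠ m 2 := fun e => by
      rw [e] at hc; unfold Sw300.cyc at hc; omega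
    intro i j hij
    by_contra hne
    fin_cases i <;> fin_cases j
    exacts [hne rfl, n01 hij, n02 hij, n01 hij.symm, hne rfl, n12 hij, n02 hij.symm, n12 hij.symm,
      hne rfl]
  have := hH hS hB ⟨w, hw⟩ ⟨w', hw'⟩ m hinj hf
  unfold Rg.val GH
  dsimp only
  rw [hm 0 (hf 0).1 (hf 0).2, hm 1 (hf 1).1 (hf 1).2, hm 2 (hf 2).1 (hf 2).2]
  exact this

/-- the choice of `h` and `L0` -/
theorem dr_num {C a r ε : ℝ} (hC : 0 < C) (ha : 0 < a) (hr : 0 < r) (hε : 0 < ε) :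
    ∃ h : ℝ, 0 < h ∧ h ≤ r / 16 ∧ ∃ L0 : ℤ, 8 ≤ L0 ∧ ∀ L : ℤ, L0 ≤ L → ∃ R : ℕ, 14 ≤ R ∧ (R : ℝ) ≤ r * L - 2 ∧
      ∀ k : ℤ, 0 < k → (k : ℝ) ≤ 2 * h * L → k + 1 ≤ R ∧ C * ((k : ℝ) / R) ^ a ≤ ε := by
  obtain ⟨h1, h10, h1s⟩ : ∃ h1 : ℝ, 0 < h1 ∧ C * h1 ^ a ≤ ε := by
    refine ⟨(ε / C) ^ (1 / a), by positivity, ?_⟩
    rw [← Real.rpow_mul (by positivity), one_div_mul_cancel ha.ne', Real.rpow_one]
    rw [mul_div_cancel₀ _ hC.ne']
  refine ⟨min (r / 16) (r * h1 / 4), by positivity, min_le_left _ _, max 8 ⌈16 / r⌉, le_max_left _ _, ?_⟩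
  intro L hL
  have hL8 : 8 ≤ L := le_trans (le_max_left _ _) hL
  have hLr : 16 ≤ r * L := by
    have h2 : 16 / r ≤ L := by
      have := Int.le_ceil (16 / r : ℝ)
      have h3 : ((⌈16 / r⌉ : ℤ) : ℝ) ≤ L := by exact_mod_cast le_trans (le_max_right _ _) hL
      linarith
    rw [div_le_iff₀ hr] at h2
    linarith
  have hL0 : (0 : ℝ) < L := by exact_mod_cast (by omega : (0 : ℤ) < L)
  have hR1 : (⌊r * L⌋₊ : ℝ) ≤ r * L := Nat.floor_le (by positivity)
  have hR2 : r * L < ⌊r * L⌋₊ + 1 := Nat.lt_floor_add_one _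
  have hfl : 16 ≤ ⌊r * L⌋₊ := Nat.le_floor (by exact_mod_cast hLr)
  obtain ⟨R, hRd⟩ : ∃ R : ℕ, R = ⌊r * L⌋₊ - 2 := ⟨_, rfl⟩
  have hRr : (R : ℝ) = (⌊r * L⌋₊ : ℝ) - 2 := by
    rw [hRd, Nat.cast_sub (by omega)]; norm_num
  have hRle : (R : ℝ) ≤ r * L - 2 := by rw [hRr]; linarith
  have hRge : r * L / 2 ≤ R := by rw [hRr]; linarith
  refine ⟨R, by omega, hRle, ?_⟩
  intro k hk0 hkr
  have hk1 : (k : ℝ) ≤ r * L / 8 := by
    have := min_le_left (r / 16) (r * h1 / 4)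
    nlinarith
  have hk2 : (k : ℝ) ≤ h1 * (r * L / 2) := by
    have := min_le_right (r / 16) (r * h1 / 4)
    nlinarith
  have hRpos : (0 : ℝ) < R := by
    have : 14 ≤ R := by omega
    exact_mod_cast (by omega : 0 < R)
  refine ⟨by exact_mod_cast (by linarith : (k : ℝ) + 1 ≤ R), le_trans ?_ h1s⟩
  refine mul_le_mul_of_nonneg_left (Real.rpow_le_rpow (by positivity) ?_ ha.le) hC.le
  rw [div_le_iff₀ hRpos]
  nlinarith

/-- the box of `dr_vert` -/
theorem boxV_of {r L : ℝ} {xr' : ℤ} (hR : 1 ≤ R) (hRL : (R : ℝ) ≤ r * L - 2)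
    (hb : ∀ x1 y : ℤ, |(x1 : ℝ) - p| ≤ r * L → |(y : ℝ) - y0| ≤ r * L → (x1, y) ∈ A)
    (hk : k + 1 ≤ R) (hx : p + R ≤ xr) (hx' : p + 1 < xr') : BoxV A p y0 k xr xr' R := by
  refine ⟨⟨hR, ?_, hx⟩, hk, hx'⟩
  rintro ⟨v1, v2⟩ hv
  simp only [Bx, Set.mem_ofPred_eq] at hv
  unfold ch
  dsimp only
  refine hb _ _ ?_ ?_
  · have h3 : |v1| ≤ (R : ℤ) := by rw [abs_le]; omega
    have h4 : |(v1 : ℝ)| ≤ R := by exact_mod_cast h3
    push_cast
    rw [show (p : ℝ) + v1 - p = v1 by ring]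
    linarith
  · have h3 : |v2 - 1| ≤ (R : ℤ) + 1 := by
      rw [abs_le]; omega
    have h4 : |(v2 : ℝ) - 1| ≤ R + 1 := by exact_mod_cast h3
    push_cast
    rw [show (y0 : ℝ) - 1 + v2 - y0 = v2 - 1 by ring]
    linarith

/-- **The leaf `DRone`** -/
theorem dRone : DRone := by
  obtain ⟨C, a, hC, ha, hH⟩ := dr_Nk
  intro P q b r hr hr2 ε hε
  obtain ⟨h, h0, hr16, L0, hL0, hN⟩ := dr_num hC ha hr hε
  refine ⟨h, h0, L0, ?_⟩
  intro L hL hev x y0 y1 hc
  obtain ⟨R, hR14, hRL, hk⟩ := hN L hL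
  have hlt := hc.lt
  obtain ⟨k, hkd⟩ : ∃ k, k = y1 - y0 := ⟨_, rfl⟩
  have hk0 : 0 < k := by omega
  have hkr : (k : ℝ) ≤ 2 * h * L := by
    have e0 := abs_le.1 hc.c0
    have e1 := abs_le.1 hc.c1
    rw [hkd]; push_cast
    linarith [e0.1, e1.2]
  obtain ⟨hkR, hkε⟩ := hk k hk0 hkr
  obtain ⟨xr, hxr⟩ : ∃ xr, xr = b * L + L - 1 := ⟨_, rfl⟩
  have hxR : x + R ≤ xr := by
    have := hc.xr
    have h3 : (x : ℝ) + R ≤ xr := by
      rw [hxr]; push_cast; linarith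
    exact_mod_cast h3
  have hy1 : y1 = y0 + k := by omega
  have hrow : ∀ x1 y : ℤ, x ≤ x1 → x1 ≤ xr → y0 - 1 ≤ y → y ≤ y0 + k →
      (x1, y) ∈ D P.F L := by
    intro x1 y g1 g2 g3 g4
    refine hc.row x1 y ?_ (by omega) g3 (by omega)
    have h1 : (x : ℝ) ≤ x1 := by exact_mod_cast g1
    have h2 : (0 : ℝ) ≤ (R : ℝ) := by positivity
    linarith
  have hout : ∀ y : ℤ, y0 ≤ y → y ≤ y0 + k → (xr + 1, y) ∉ D P.F L := by
    intro y g1 g2
    rw [hxr, sub_add_cancel]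
    exact hc.out y (by omega) (by omega)
  have hS := slab_rect (A := D P.F L) (p := x) (y0 := y0) hk0 (by omega : x < xr)
    (fun x1 y g1 g2 g3 g4 => hrow x1 y g1 g2 (by omega) g4) hout
  have hB : BoxV (D P.F L) x y0 k xr xr R :=
    boxV_of (by omega) hRL hc.box (by exact_mod_cast hkR) hxR (by omega)
  have := hH hS hB (mt P L) (fun i => nmk L b y0 y1 (mt P L i)) fun i _ hf =>
    (mkE_nmk hxr hy1 (by omega) hrow hf).symm
  rw [notch_N1 hxr hy1, ← hy1, hxr] at this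
  intro h1 h2
  exact le_trans (this h1 h2) hkε

end Crest.Agent.R158.Dr945
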