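import Crest.Agent.R158.Dr11_945

/-!
# Row 158, BLOCK DR (helper945), part 12: `dr_Nk` with the marks given in the second region

* `mkE_pkE` : a mark of the second region comes back
* `dr_Nk'`
-/

set_option autoImplicit false

noncomputable section

namespace Crest.Agent.R158.Dr945

open Crest.Agent.R161.Geo729
open Crest.Agent.R158.Sw300 (Port Wd thru tls)
open Crest.Agent.R158.Ob664 (HV HW HG GW Gl)
open Env664 (beD)
open Hb656 (Rg Nk pkE GH)

variable {A E A' : Finset P2} {p y0 k xr xr' : ℤ} {R : ℕ}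

/-- a mark of the second region comes back -/
theorem mkE_pkE (h : Slab A E A' p y0 k xr xr') {m : P2 × ZMod 4} (hm : m.1 ∈ A') :
    mkE E (pkE E m) = m := by
  obtain ⟨⟨x, y⟩, d⟩ := m
  unfold pkE mkE
  dsimp only
  by_cases h1 : (x + 1, y) ∈ E
  · rw [if_pos h1]
    dsimp only
    rw [if_pos h1, add_sub_cancel_right]
  · rw [if_neg h1]
    dsimp only
    rw [if_neg (((h.mem' x y).1 hm).resolve_right h1).2.1]

/-- **`dr_Nk` with the marks given in the second region** -/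
theorem dr_Nk' : ∃ C a : ℝ, 0 < C ∧ 0 < a ∧ ∀ {A E A' : Finset P2} {p y0 k xr xr' : ℤ} {R : ℕ},
    Slab A E A' p y0 k xr xr' → BoxV A p y0 k xr xr' R → ∀ m m' : Fin 3 → P2 × ZMod 4,
      (∀ i, (m' i).1 ∈ A' → m i = pkE E (m' i)) →
      Nk ⟨A, p, y0, xr, m⟩ ⟨A', p, y0 + k, xr', m'⟩ (C * ((k : ℝ) / R) ^ a) := by
  obtain ⟨C, a, hC, ha, hH⟩ := dr_Nk
  refine ⟨C, a, hC, ha, ?_⟩
  intro A E A' p y0 k xr xr' R hS hB m m' hm h1 h2
  refine hH hS hB m m' ?_ h1 h2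
  have h2' := h2
  unfold Rg.ok at h2'
  dsimp only at h2'
  obtain ⟨w', hw', l0, l1, l2, -⟩ := h2'
  have hf : ∀ i, (m' i).1 ∈ A' := by
    intro i
    fin_cases i
    · exact ((gw_mem_iff hw' (m' 0).1 (m' 0).2).1 l0).1
    · exact ((gw_mem_iff hw' (m' 1).1 (m' 1).2).1 l1).1
    · exact ((gw_mem_iff hw' (m' 2).1 (m' 2).2).1 l2).1
  intro i _ _
  rw [hm i (hf i), mkE_pkE hS (hf i)]

end Crest.Agent.R158.Dr945
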