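import Crest.Agent.R158.Rs6_689

/-!
# Row 158, BLOCK DR (helper945), part 1: diagonal steps

Faces of the medial lattice `ℤ²` are coded by their lower-left corner, vertices (tiles) by `ℤ × ℤ`.
A diagonal step goes from a face to a diagonal neighbour through the common vertex `mid`; it uses the
value of a configuration `Y : ℤ × ℤ → Bool` at that vertex.

* `dcross` : a path of one face parity using the value `b` and a path of the other parity using the value
  `!b` cannot cross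
* `tau`, `Fc` : dictionary with bond percolation on `ℤ²` (both sublattices of faces)
* `oc_diag` : an open connection gives a path of diagonal steps with value `true`
-/

set_option autoImplicit false

namespace Crest.Agent.R158.Dr945

open Crest.Agent.R161.Geo729 Crest.Agent.R161.Topo374 Crest.Agent.R161.Dual374
open Crest.Agent.R161.Tas682
open Crest.Agent.R158.Rs689

/-- the common vertex of two diagonal neighbours -/
def mid (f g : P2) : P2 := (max f.1 g.1, max f.2 g.2)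

/-- diagonal neighbours -/
def Dg (f g : P2) : Prop :=
  (g.1 = f.1 + 1 ∨ f.1 = g.1 + 1) ∧ (g.2 = f.2 + 1 ∨ f.2 = g.2 + 1)

theorem Dg.symm {f g : P2} (h : Dg f g) : Dg g f := by unfold Dg at *; omega

theorem mid_comm (f g : P2) : mid f g = mid g f := by
  unfold mid; rw [max_comm, max_comm f.2]

/-- diagonal step with the value `b` at the common vertex -/
def DSt (Y : P2 → Bool) (b : Bool) (f g : P2) : Prop := Dg f g ∧ Y (mid f g) = b

theorem DSt.symm {Y : P2 → Bool} {b : Bool} {f g : P2} (h : DSt Y b f g) : DSt Y b g f :=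
  ⟨h.1.symm, by rw [mid_comm]; exact h.2⟩

/-- diagonal connection inside `S` -/
def DC (Y : P2 → Bool) (b : Bool) (S : Set P2) (f g : P2) : Prop :=
  f ∈ S ∧ Relation.ReflTransGen (fun u v => DSt Y b u v ∧ u ∈ S ∧ v ∈ S) f g

theorem DC.left {Y : P2 → Bool} {b : Bool} {S : Set P2} {f g : P2} (h : DC Y b S f g) : f ∈ S := h.1

theorem DC.right {Y : P2 → Bool} {b : Bool} {S : Set P2} {f g : P2} (h : DC Y b S f g) : g ∈ S := by
  obtain ⟨hf, h⟩ := h
  induction h with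
  | refl => exact hf
  | tail _ h _ => exact h.2.2

theorem DC.par {Y : P2 → Bool} {b : Bool} {S : Set P2} {f g : P2} (h : DC Y b S f g) :
    (g.1 + g.2) % 2 = (f.1 + f.2) % 2 := by
  obtain ⟨_, h⟩ := h
  induction h with
  | refl => rfl
  | tail _ h ih =>
    obtain ⟨⟨⟨h1, h2⟩, _⟩, _⟩ := h
    omega

/-- doubled image of a path of parity `s` using the points (odd, even) -/
def TA (Y : P2 → Bool) (b : Bool) (S : Set P2) (s : ℤ) : Set P2 :=
  {w | (∃ u ∈ S, (u.1 + u.2) % 2 = s ∧ w = (2 * u.1 + 1, 2 * u.2 + 1)) ∨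
    ∃ u ∈ S, ∃ v ∈ S, DSt Y b u v ∧
      (w = (2 * u.1 + 1, 2 * (mid u v).2) ∨ w = (2 * (mid u v).1, 2 * (mid u v).2))}

/-- doubled image of a path of parity `s` using the points (even, odd) -/
def TB (Y : P2 → Bool) (b : Bool) (S : Set P2) (s : ℤ) : Set P2 :=
  {w | (∃ u ∈ S, (u.1 + u.2) % 2 = s ∧ w = (2 * u.1 + 1, 2 * u.2 + 1)) ∨
    ∃ u ∈ S, ∃ v ∈ S, DSt Y b u v ∧
      (w = (2 * (mid u v).1, 2 * u.2 + 1) ∨ w = (2 * (mid u v).1, 2 * (mid u v).2))}

theorem mid_fst {f g : P2} (h : Dg f g) :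
    ((mid f g).1 = f.1 ∨ (mid f g).1 = f.1 + 1) ∧ ((mid f g).1 = g.1 ∨ (mid f g).1 = g.1 + 1) := by
  obtain ⟨h1, _⟩ := h
  simp only [mid]
  omega

theorem mid_snd {f g : P2} (h : Dg f g) :
    ((mid f g).2 = f.2 ∨ (mid f g).2 = f.2 + 1) ∧ ((mid f g).2 = g.2 ∨ (mid f g).2 = g.2 + 1) := by
  obtain ⟨_, h2⟩ := h
  simp only [mid]
  omega

theorem nb1 {f g : P2} (h : Dg f g) : Nbr (2 * f.1 + 1, 2 * f.2 + 1) (2 * f.1 + 1, 2 * (mid f g).2) := by
  have h2 := mid_snd h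
  simp only [Nbr, true_and]
  omega

theorem nb2 {f g : P2} (h : Dg f g) :
    Nbr (2 * f.1 + 1, 2 * (mid f g).2) (2 * (mid f g).1, 2 * (mid f g).2) := by
  have h2 := mid_fst h
  simp only [Nbr, true_and]
  omega

theorem nb3 {f g : P2} (h : Dg f g) : Nbr (2 * f.1 + 1, 2 * f.2 + 1) (2 * (mid f g).1, 2 * f.2 + 1) := by
  have h2 := mid_fst h
  simp only [Nbr, true_and]
  omega

theorem nb4 {f g : P2} (h : Dg f g) :
    Nbr (2 * (mid f g).1, 2 * f.2 + 1) (2 * (mid f g).1, 2 * (mid f g).2) := by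
  have h2 := mid_snd h
  simp only [Nbr, true_and]
  omega

theorem dc_walkA {Y : P2 → Bool} {b : Bool} {S : Set P2} {f g : P2} (h : DC Y b S f g) :
    Walk (TA Y b S ((f.1 + f.2) % 2)) (2 * f.1 + 1, 2 * f.2 + 1) (2 * g.1 + 1, 2 * g.2 + 1) := by
  obtain ⟨hf, h⟩ := h
  induction h with
  | refl => exact Walk.refl (Or.inl ⟨f, hf, rfl, rfl⟩)
  | @tail u v h1 h2 ih =>
    refine ih.trans ?_
    obtain ⟨hd, hu, hv⟩ := h2
    have hp := (DC.par (Y := Y) (b := b) ⟨hf, h1⟩)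
    have hpv := (DC.par (Y := Y) (b := b) ⟨hf, h1.tail ⟨hd, hu, hv⟩⟩)
    have e0 : ((2 * u.1 + 1, 2 * u.2 + 1) : P2) ∈ TA Y b S ((f.1 + f.2) % 2) := Or.inl ⟨u, hu, hp, rfl⟩
    have e1 : ((2 * u.1 + 1, 2 * (mid u v).2) : P2) ∈ TA Y b S ((f.1 + f.2) % 2) :=
      Or.inr ⟨u, hu, v, hv, hd, Or.inl rfl⟩
    have e2 : ((2 * (mid u v).1, 2 * (mid u v).2) : P2) ∈ TA Y b S ((f.1 + f.2) % 2) :=
      Or.inr ⟨u, hu, v, hv, hd, Or.inr rfl⟩
    have e3 : ((2 * v.1 + 1, 2 * (mid u v).2) : P2) ∈ TA Y b S ((f.1 + f.2) % 2) :=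
      Or.inr ⟨v, hv, u, hu, hd.symm, Or.inl (by rw [mid_comm])⟩
    have e4 : ((2 * v.1 + 1, 2 * v.2 + 1) : P2) ∈ TA Y b S ((f.1 + f.2) % 2) :=
      Or.inl ⟨v, hv, hpv, rfl⟩
    have hs := hd.1.symm
    exact (Walk.step e0 e1 (nb1 hd.1)).trans ((Walk.step e1 e2 (nb2 hd.1)).trans
      ((Walk.step e2 e3 (by rw [mid_comm]; exact (nb2 hs).symm)).trans
        (Walk.step e3 e4 (by rw [mid_comm]; exact (nb1 hs).symm))))

theorem dc_walkB {Y : P2 → Bool} {b : Bool} {S : Set P2} {f g : P2} (h : DC Y b S f g) :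
    Walk (TB Y b S ((f.1 + f.2) % 2)) (2 * f.1 + 1, 2 * f.2 + 1) (2 * g.1 + 1, 2 * g.2 + 1) := by
  obtain ⟨hf, h⟩ := h
  induction h with
  | refl => exact Walk.refl (Or.inl ⟨f, hf, rfl, rfl⟩)
  | @tail u v h1 h2 ih =>
    refine ih.trans ?_
    obtain ⟨hd, hu, hv⟩ := h2
    have hp := (DC.par (Y := Y) (b := b) ⟨hf, h1⟩)
    have hpv := (DC.par (Y := Y) (b := b) ⟨hf, h1.tail ⟨hd, hu, hv⟩⟩)
    have e0 : ((2 * u.1 + 1, 2 * u.2 + 1) : P2) ∈ TB Y b S ((f.1 + f.2) % 2) := Or.inl ⟨u, hu, hp, rfl⟩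
    have e1 : ((2 * (mid u v).1, 2 * u.2 + 1) : P2) ∈ TB Y b S ((f.1 + f.2) % 2) :=
      Or.inr ⟨u, hu, v, hv, hd, Or.inl rfl⟩
    have e2 : ((2 * (mid u v).1, 2 * (mid u v).2) : P2) ∈ TB Y b S ((f.1 + f.2) % 2) :=
      Or.inr ⟨u, hu, v, hv, hd, Or.inr rfl⟩
    have e3 : ((2 * (mid u v).1, 2 * v.2 + 1) : P2) ∈ TB Y b S ((f.1 + f.2) % 2) :=
      Or.inr ⟨v, hv, u, hu, hd.symm, Or.inl (by rw [mid_comm])⟩
    have e4 : ((2 * v.1 + 1, 2 * v.2 + 1) : P2) ∈ TB Y b S ((f.1 + f.2) % 2) :=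
      Or.inl ⟨v, hv, hpv, rfl⟩
    have hs := hd.1.symm
    exact (Walk.step e0 e1 (nb3 hd.1)).trans ((Walk.step e1 e2 (nb4 hd.1)).trans
      ((Walk.step e2 e3 (by rw [mid_comm]; exact (nb4 hs).symm)).trans
        (Walk.step e3 e4 (by rw [mid_comm]; exact (nb3 hs).symm))))

/-- **Crossing lemma for diagonal paths.** -/
theorem dcross {Y : P2 → Bool} {c : Bool} {S S' : Set P2} {a b p q : P2} (h1 : DC Y c S a b)
    (h2 : DC Y (!c) S' p q) (hpar : (a.1 + a.2) % 2 ≠ (p.1 + p.2) % 2)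
    (hy : ∀ w ∈ S, p.2 ≤ w.2 ∧ w.2 ≤ q.2) (hx : ∀ w ∈ S', a.1 ≤ w.1 ∧ w.1 ≤ b.1) : False := by
  have k1 := dc_walkA h1
  have k2 := dc_walkB h2
  obtain ⟨w, hw1, hw2⟩ := cross k1 k2 (by
      rintro w (⟨u, hu, _, rfl⟩ | ⟨u, hu, v, hv, hd, rfl | rfl⟩)
      · have := hy u hu
        simp only
        omega
      · have h3 := hy u hu
        have h4 := hy v hv
        have h5 := hd.1.2
        simp only [mid]
        omega
      · have h3 := hy u hu
        have h4 := hy v hv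
        have h5 := hd.1.2
        simp only [mid]
        omega) (by
      rintro w (⟨u, hu, _, rfl⟩ | ⟨u, hu, v, hv, hd, rfl | rfl⟩)
      · have := hx u hu
        simp only
        omega
      · have h3 := hx u hu
        have h4 := hx v hv
        have h5 := hd.1.1
        simp only [mid]
        omega
      · have h3 := hx u hu
        have h4 := hx v hv
        have h5 := hd.1.1
        simp only [mid]
        omega)
  rcases hw1 with ⟨u, _, hu2, hw1⟩ | ⟨u, _, v, _, hd, hw1 | hw1⟩ <;>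
    rcases hw2 with ⟨u', _, hu2', hw2⟩ | ⟨u', _, v', _, hd', hw2 | hw2⟩ <;>
    rw [hw1] at hw2 <;> simp only [Prod.mk.injEq] at hw2 <;> try omega
  have e : mid u v = mid u' v' := Prod.ext (by omega) (by omega)
  have h3 := hd.2
  have h4 := hd'.2
  rw [e, h4] at h3
  cases c <;> simp at h3

/-! ### dictionary with bond percolation -/

/-- the vertex of the medial lattice on the edge `e`, shifted by `s` -/
def tau (s : ℤ) (e : Edge) : P2 :=
  (e.1.1 + e.1.2 + 1 + s, e.1.2 - e.1.1 + (if e.2 then 1 else 0))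

/-- the face of the point `u`, shifted by `s` -/
def Fc (s : ℤ) (u : P2) : P2 := (u.1 + u.2 + s, u.2 - u.1)

theorem tau_inj (s : ℤ) : Function.Injective (tau s) := by
  rintro ⟨⟨a, b⟩, c⟩ ⟨⟨a', b'⟩, c'⟩ h
  simp only [tau, Prod.mk.injEq] at h
  cases c <;> cases c' <;> simp at h ⊢ <;> omega

theorem fc_step {s : ℤ} {Y : P2 → Bool} {u v : P2}
    (h : PStep (fun e => (fun e => Y (tau s e)) e = true) u v) : DSt Y true (Fc s u) (Fc s v) := by
  obtain ⟨⟨⟨a, b⟩, c⟩, he, h⟩ := h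
  have key : DSt Y true (Fc s (src ((a, b), c))) (Fc s (tgt ((a, b), c))) := by
    cases c
    · have e : mid (Fc s (src ((a, b), false))) (Fc s (tgt ((a, b), false))) = tau s ((a, b), false) := by
        simp [mid, Fc, tau, src, tgt]
        omega
      refine ⟨?_, by rw [e]; exact he⟩
      simp [Dg, Fc, src, tgt]
      omega
    · have e : mid (Fc s (src ((a, b), true))) (Fc s (tgt ((a, b), true))) = tau s ((a, b), true) := by
        simp [mid, Fc, tau, src, tgt]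
        omega
      refine ⟨?_, by rw [e]; exact he⟩
      simp [Dg, Fc, src, tgt]
      omega
  rcases h with ⟨rfl, rfl⟩ | ⟨rfl, rfl⟩
  · exact key
  · exact key.symm

/-- an open connection gives a diagonal connection -/
theorem oc_diag {s : ℤ} {Y : P2 → Bool} {S T : Set P2} (hST : ∀ u ∈ S, Fc s u ∈ T) {u v : P2}
    (h : OC (fun e => Y (tau s e)) S u v) : DC Y true T (Fc s u) (Fc s v) := by
  obtain ⟨hu, h⟩ := h
  refine ⟨hST u hu, ?_⟩
  induction h with
  | refl => exact .refl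
  | @tail b c _ h2 ih => exact ih.tail ⟨fc_step h2.1, hST b h2.2.1, hST c h2.2.2⟩

theorem fc_par (s : ℤ) (u : P2) : ((Fc s u).1 + (Fc s u).2) % 2 = s % 2 := by
  simp only [Fc]
  omega

end Crest.Agent.R158.Dr945
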