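import Crest.Agent.R158.Dr1_945

/-!
# Row 158, BLOCK DR (helper945), part 2: staircases of cells, webs, their probability

* `EvH s m d a b`, `EvV s m d a b` : increasing events for a configuration `Y : ℤ × ℤ → Bool` of the medial
  vertices: a tube of plus events along a diagonal staircase
* `evH_path`, `evV_path` : they give long diagonal paths (value `true`) of the faces of parity `s`
* `Web m` : in each of the four long rectangles around the square annulus of scale `m` both sublattices are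
  crossed the long way; `web_prob`, `web_dep`, `web_inc`
* `noweb_le` : probability that all webs of the scales `8 ^ k * m` fail
-/

set_option autoImplicit false

noncomputable section

namespace Crest.Agent.R158.Dr945

open MeasureTheory ProbabilityTheory unitInterval
open Crest.Agent.R161.Geo729 Crest.Agent.R161.Topo374 Crest.Agent.R161.Dual374
open Crest.Agent.R161.Tas682
open Crest.Agent.R158.Rs689

/-! ### staircases -/

/-- staircase in the direction `(1,1)` -/
def Kh (d a b : ℤ) : Finset P2 :=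
  ((Finset.Icc a b).image fun t => ((t, t + d) : P2)) ∪
    (Finset.Icc a b).image fun t => ((t, t + d + 1) : P2)

/-- staircase in the direction `(-1,1)` -/
def Kv (d a b : ℤ) : Finset P2 :=
  ((Finset.Icc a b).image fun t => ((-t, t + d) : P2)) ∪
    (Finset.Icc a b).image fun t => ((-t, t + d + 1) : P2)

theorem mem_Kh {d a b : ℤ} {k : P2} :
    k ∈ Kh d a b ↔ (a ≤ k.1 ∧ k.1 ≤ b) ∧ (k.2 = k.1 + d ∨ k.2 = k.1 + d + 1) := by
  obtain ⟨x, y⟩ := k
  simp only [Kh, Finset.mem_union, Finset.mem_image, Finset.mem_Icc, Prod.mk.injEq]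
  constructor
  · rintro (⟨t, ht, h1, h2⟩ | ⟨t, ht, h1, h2⟩) <;> omega
  · rintro ⟨h1, h2 | h2⟩
    · exact Or.inl ⟨x, h1, rfl, h2.symm⟩
    · exact Or.inr ⟨x, h1, rfl, h2.symm⟩

theorem mem_Kv {d a b : ℤ} {k : P2} :
    k ∈ Kv d a b ↔ (a ≤ -k.1 ∧ -k.1 ≤ b) ∧ (k.2 = -k.1 + d ∨ k.2 = -k.1 + d + 1) := by
  obtain ⟨x, y⟩ := k
  simp only [Kv, Finset.mem_union, Finset.mem_image, Finset.mem_Icc, Prod.mk.injEq]
  constructor
  · rintro (⟨t, ht, h1, h2⟩ | ⟨t, ht, h1, h2⟩) <;> omega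
  · rintro ⟨h1, h2 | h2⟩
    · exact Or.inl ⟨-x, h1, by omega, by omega⟩
    · exact Or.inr ⟨-x, h1, by omega, by omega⟩

theorem Kh_card (d a b : ℤ) : (Kh d a b).card ≤ 2 * (b + 1 - a).toNat := by
  unfold Kh
  refine (Finset.card_union_le _ _).trans ?_
  have h1 := Finset.card_image_le (s := Finset.Icc a b) (f := fun t => ((t, t + d) : P2))
  have h2 := Finset.card_image_le (s := Finset.Icc a b) (f := fun t => ((t, t + d + 1) : P2))
  rw [Int.card_Icc] at h1 h2
  omega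

theorem Kv_card (d a b : ℤ) : (Kv d a b).card ≤ 2 * (b + 1 - a).toNat := by
  unfold Kv
  refine (Finset.card_union_le _ _).trans ?_
  have h1 := Finset.card_image_le (s := Finset.Icc a b) (f := fun t => ((-t, t + d) : P2))
  have h2 := Finset.card_image_le (s := Finset.Icc a b) (f := fun t => ((-t, t + d + 1) : P2))
  rw [Int.card_Icc] at h1 h2
  omega

theorem Kh_conn (d a : ℤ) (n : ℕ) : CConn (Kh d a (a + n) : Set P2) (a, a + d) (a + n, a + n + d) := by
  have key : ∀ k : ℕ, k ≤ n →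
      CConn (Kh d a (a + n) : Set P2) (a, a + d) (a + k, a + k + d) := by
    intro k
    induction k with
    | zero =>
      intro _
      simp only [Nat.cast_zero, add_zero]
      exact .refl
    | succ k ih =>
      intro hk
      refine ((ih (by omega)).tail (b := (a + k, a + k + d)) (c := (a + k, a + k + d + 1)) ?_).tail ?_
      · refine ⟨Or.inr ⟨rfl, Or.inl rfl⟩, ?_, ?_⟩
        · exact mem_Kh.2 ⟨⟨by simp only; omega, by simp only; omega⟩, Or.inl rfl⟩
        · exact mem_Kh.2 ⟨⟨by simp only; omega, by simp only; omega⟩, Or.inr rfl⟩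
      · refine ⟨Or.inl ⟨?_, Or.inl ?_⟩, ?_, ?_⟩
        · simp only; push_cast; ring
        · simp only; push_cast; ring
        · exact mem_Kh.2 ⟨⟨by simp only; omega, by simp only; omega⟩, Or.inr rfl⟩
        · exact mem_Kh.2 ⟨⟨by simp only; omega, by simp only; omega⟩, Or.inl rfl⟩
  exact key n le_rfl

theorem Kv_conn (d a : ℤ) (n : ℕ) :
    CConn (Kv d a (a + n) : Set P2) (-a, a + d) (-(a + n), a + n + d) := by
  have key : ∀ k : ℕ, k ≤ n →
      CConn (Kv d a (a + n) : Set P2) (-a, a + d) (-(a + k), a + k + d) := by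
    intro k
    induction k with
    | zero =>
      intro _
      simp only [Nat.cast_zero, add_zero]
      exact .refl
    | succ k ih =>
      intro hk
      refine ((ih (by omega)).tail (b := (-(a + k), a + k + d))
        (c := (-(a + k), a + k + d + 1)) ?_).tail ?_
      · refine ⟨Or.inr ⟨rfl, Or.inl rfl⟩, ?_, ?_⟩
        · exact mem_Kv.2 ⟨⟨by simp only; omega, by simp only; omega⟩, Or.inl (by simp only; omega)⟩
        · exact mem_Kv.2 ⟨⟨by simp only; omega, by simp only; omega⟩, Or.inr (by simp only; omega)⟩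
      · refine ⟨Or.inl ⟨?_, Or.inr ?_⟩, ?_, ?_⟩
        · simp only; push_cast; ring
        · simp only; push_cast; ring
        · exact mem_Kv.2 ⟨⟨by simp only; omega, by simp only; omega⟩, Or.inr (by simp only; omega)⟩
        · exact mem_Kv.2 ⟨⟨by simp only; omega, by simp only; omega⟩, Or.inl (by simp only; omega)⟩
  exact key n le_rfl

/-- tube along a staircase of direction `(1,1)`, for the faces of parity `s` -/
def EvH (s : ℤ) (m : ℕ) (d a b : ℤ) : Set (P2 → Bool) :=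
  {Y | (fun e => Y (tau s e)) ∈ tubeX m (Kh d a b)}

/-- tube along a staircase of direction `(-1,1)`, for the faces of parity `s` -/
def EvV (s : ℤ) (m : ℕ) (d a b : ℤ) : Set (P2 → Bool) :=
  {Y | (fun e => Y (tau s e)) ∈ tubeX m (Kv d a b)}

theorem mem_plusR {m : ℕ} {k u : P2} (h : u ∈ plusR m k) :
    (k.2 * m - k.1 * m - 2 * m ≤ u.2 - u.1 ∧ u.2 - u.1 ≤ k.2 * m - k.1 * m + 2 * m) ∧
    (k.1 * m + k.2 * m - m ≤ u.1 + u.2 ∧ u.1 + u.2 ≤ k.1 * m + k.2 * m + 3 * m) := by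
  rcases h with h | h <;> simp only [hR, vR, mem_rect] at h <;> omega

theorem evH_path {s : ℤ} {m : ℕ} {d a : ℤ} {n : ℕ} {Y : P2 → Bool} (h : Y ∈ EvH s m d a (a + n)) :
    ∃ f g : P2, DC Y true {w | d * m - 2 * m ≤ w.2 ∧ w.2 ≤ d * m + 3 * m} f g ∧
      f.1 ≤ 2 * (a * m) + d * m + 3 * m + s ∧
      2 * (a * m) + 2 * (n * m) + d * m - m + s ≤ g.1 ∧ (f.1 + f.2) % 2 = s % 2 := by
  have hz : ∀ k ∈ Kh d a (a + n), (fun e => Y (tau s e)) ∈ cellX m k := by
    have h' := h
    simp only [EvH, Set.mem_ofPred_eq, tubeX, Set.mem_iInter] at h'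
    exact h'
  have k1 : ((a, a + d) : P2) ∈ Kh d a (a + n) :=
    mem_Kh.2 ⟨⟨le_rfl, by simp only; omega⟩, Or.inl rfl⟩
  have k2 : ((a + n, a + n + d) : P2) ∈ Kh d a (a + n) :=
    mem_Kh.2 ⟨⟨by simp only; omega, le_rfl⟩, Or.inl rfl⟩
  obtain ⟨u, hu⟩ := exists_hubH (hz _ k1)
  obtain ⟨v, hv⟩ := exists_hubH (hz _ k2)
  have ho := tube h k1 (Kh_conn d a n) hu hv
  have hd := oc_diag (s := s) (T := {w | d * m - 2 * m ≤ w.2 ∧ w.2 ≤ d * m + 3 * m}) (by
    intro w hw
    simp only [tubeR, Set.mem_iUnion] at hw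
    obtain ⟨k, hk, hw⟩ := hw
    have h1 := mem_plusR hw
    rw [mem_Kh] at hk
    have h2 : k.2 * (m : ℤ) = k.1 * m + d * m ∨ k.2 * (m : ℤ) = k.1 * m + d * m + m := by
      rcases hk.2 with h | h
      · left; rw [h]; ring
      · right; rw [h]; ring
    simp only [Fc, Set.mem_ofPred_eq]
    omega) ho
  refine ⟨Fc s u, Fc s v, hd, ?_, ?_, fc_par s u⟩
  · obtain ⟨_, _, _, _, h1, _⟩ := hu
    have h2 := mem_plusR (Or.inl h1.left)
    simp only [Fc]
    have h3 : (a + d) * (m : ℤ) = a * m + d * m := by ring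
    simp only at h2
    omega
  · obtain ⟨_, _, _, _, h1, _⟩ := hv
    have h2 := mem_plusR (Or.inl h1.left)
    simp only [Fc]
    have h3 : (a + n + d) * (m : ℤ) = a * m + n * m + d * m := by ring
    have h4 : (a + n) * (m : ℤ) = a * m + n * m := by ring
    simp only at h2
    omega

theorem evV_path {s : ℤ} {m : ℕ} {d a : ℤ} {n : ℕ} {Y : P2 → Bool} (h : Y ∈ EvV s m d a (a + n)) :
    ∃ f g : P2, DC Y true {w | d * m - m + s ≤ w.1 ∧ w.1 ≤ d * m + 4 * m + s} f g ∧
      f.2 ≤ 2 * (a * m) + d * m + 2 * m ∧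
      2 * (a * m) + 2 * (n * m) + d * m - 2 * m ≤ g.2 ∧ (f.1 + f.2) % 2 = s % 2 := by
  have hz : ∀ k ∈ Kv d a (a + n), (fun e => Y (tau s e)) ∈ cellX m k := by
    have h' := h
    simp only [EvV, Set.mem_ofPred_eq, tubeX, Set.mem_iInter] at h'
    exact h'
  have k1 : ((-a, a + d) : P2) ∈ Kv d a (a + n) :=
    mem_Kv.2 ⟨⟨by simp only; omega, by simp only; omega⟩, Or.inl (by simp only; omega)⟩
  have k2 : ((-(a + n), a + n + d) : P2) ∈ Kv d a (a + n) :=
    mem_Kv.2 ⟨⟨by simp only; omega, by simp only; omega⟩, Or.inl (by simp only; omega)⟩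
  obtain ⟨u, hu⟩ := exists_hubH (hz _ k1)
  obtain ⟨v, hv⟩ := exists_hubH (hz _ k2)
  have ho := tube h k1 (Kv_conn d a n) hu hv
  have hd := oc_diag (s := s) (T := {w | d * m - m + s ≤ w.1 ∧ w.1 ≤ d * m + 4 * m + s}) (by
    intro w hw
    simp only [tubeR, Set.mem_iUnion] at hw
    obtain ⟨k, hk, hw⟩ := hw
    have h1 := mem_plusR hw
    rw [mem_Kv] at hk
    have h2 : k.2 * (m : ℤ) = -(k.1 * m) + d * m ∨ k.2 * (m : ℤ) = -(k.1 * m) + d * m + m := by
      rcases hk.2 with h | h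
      · left; rw [h]; ring
      · right; rw [h]; ring
    simp only [Fc, Set.mem_ofPred_eq]
    omega) ho
  refine ⟨Fc s u, Fc s v, hd, ?_, ?_, fc_par s u⟩
  · obtain ⟨_, _, _, _, h1, _⟩ := hu
    have h2 := mem_plusR (Or.inl h1.left)
    simp only [Fc]
    have h3 : (a + d) * (m : ℤ) = a * m + d * m := by ring
    have h4 : (-a) * (m : ℤ) = -(a * m) := by ring
    simp only at h2
    omega
  · obtain ⟨_, _, _, _, h1, _⟩ := hv
    have h2 := mem_plusR (Or.inl h1.left)
    simp only [Fc]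
    have h3 : (a + n + d) * (m : ℤ) = a * m + n * m + d * m := by ring
    have h4 : (-(a + n)) * (m : ℤ) = -(a * m) - n * m := by ring
    simp only at h2
    omega

/-! ### supports -/

theorem evH_inc (s : ℤ) (m : ℕ) (d a b : ℤ) : Inc (EvH s m d a b) := by
  intro z z' h hz
  exact tubeX_inc m (Kh d a b) _ _ (fun e he => h _ he) hz

theorem evV_inc (s : ℤ) (m : ℕ) (d a b : ℤ) : Inc (EvV s m d a b) := by
  intro z z' h hz
  exact tubeX_inc m (Kv d a b) _ _ (fun e he => h _ he) hz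

theorem ev_dep_of {m : ℕ} {K : Finset P2} {s : ℤ} {ch : P2 → P2} {T : Finset P2}
    (hT : ∀ k ∈ K, ∀ e : Edge,
      k.1 * m - m ≤ e.1.1 ∧ k.2 * m - m ≤ e.1.2 ∧ (tgt e).1 ≤ k.1 * m + 2 * m ∧
        (tgt e).2 ≤ k.2 * m + 2 * m → ch (tau s e) ∈ T) :
    Dep T {Y : P2 → Bool | (fun e => Y (ch (tau s e))) ∈ tubeX m K} := by
  intro z z' h
  refine tubeX_dep m K _ _ fun e he => h _ ?_
  unfold tubeE at he
  rw [Finset.mem_biUnion] at he
  obtain ⟨k, hk, he⟩ := he
  refine hT k hk e ?_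
  rw [cellE, mem_rectE, mem_rect, mem_rect] at he
  simp only [src] at he
  exact ⟨by omega, by omega, by omega, by omega⟩

/-! ### webs -/

/-- chart of the part to the right of the dislocation: the lower rows are shifted by one -/
def chR (v : P2) : P2 := if 1 ≤ v.2 then v else (v.1 - 1, v.2)

theorem chR_inj : Function.Injective chR := by
  rintro ⟨a, b⟩ ⟨c, d⟩ h
  simp only [chR] at h
  split_ifs at h with h1 h2 h2 <;> simp only [Prod.mk.injEq] at h ⊢ <;> omega

/-- probability of a tube event pulled back along an injection -/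
theorem pull_prob {ch : P2 → P2} (hch : Function.Injective ch) (s : ℤ) (m : ℕ) (K : Finset P2) :
    xpr hf (3 * m) m ^ (2 * K.card) ≤
      (PB fun _ : P2 => hf).real {Y : P2 → Bool | (fun e => Y (ch (tau s e))) ∈ tubeX m K} := by
  have h := PB_map_inj (hch.comp (tau_inj s)) (fun _ : P2 => hf)
  have hm : Measurable (fun (z : P2 → Bool) (e : Edge) => z ((ch ∘ tau s) e)) :=
    measurable_pi_lambda _ fun k => measurable_pi_apply _
  have h2 := tube_prob hf m K
  unfold nu at h2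
  rw [← h, measureReal_def, Measure.map_apply hm (tubeX_dep m K).measurableSet] at h2
  exact h2

/-- charts of the four rectangles -/
def wch : Fin 4 → P2 → P2 := ![id, id, id, chR]

theorem wch_inj (i : Fin 4) : Function.Injective (wch i) := by
  fin_cases i
  · exact Function.injective_id
  · exact Function.injective_id
  · exact Function.injective_id
  · exact chR_inj

/-- staircases of the four rectangles (top, bottom, left, right) -/
def wK : Fin 4 → Finset P2 := ![Kh 7 (-12) 4, Kh (-8) (-5) 12, Kv (-9) (-4) 13, Kv 6 (-11) 5]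

theorem wK_card (i : Fin 4) : (wK i).card ≤ 36 := by
  fin_cases i
  · exact (Kh_card _ _ _).trans (by decide)
  · exact (Kh_card _ _ _).trans (by decide)
  · exact (Kv_card _ _ _).trans (by decide)
  · exact (Kv_card _ _ _).trans (by decide)

/-- the crossing event of the rectangle `i` on the faces of parity `s` -/
def wev (m : ℕ) (i : Fin 4) (s : Fin 2) : Set (P2 → Bool) :=
  {Y | (fun e => Y (wch i (tau (s : ℕ) e))) ∈ tubeX m (wK i)}

/-- the web of scale `m` -/
def Web (m : ℕ) : Set (P2 → Bool) := ⋂ k ∈ (Finset.univ : Finset (Fin 4 × Fin 2)), wev m k.1 k.2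

/-- the square annulus of scale `m` -/
def Ann (m : ℕ) : Finset P2 :=
  (Finset.Icc (-(22 * (m : ℤ))) (22 * m) ×ˢ Finset.Icc (-(22 * (m : ℤ))) (22 * m)).filter
    fun v => v.1 ≤ -(3 * (m : ℤ)) ∨ 3 * (m : ℤ) ≤ v.1 ∨ v.2 ≤ -(3 * (m : ℤ)) ∨ 3 * (m : ℤ) ≤ v.2

theorem mem_Ann {m : ℕ} {v : P2} : v ∈ Ann m ↔
    ((-(22 * (m : ℤ)) ≤ v.1 ∧ v.1 ≤ 22 * m) ∧ (-(22 * (m : ℤ)) ≤ v.2 ∧ v.2 ≤ 22 * m)) ∧
    (v.1 ≤ -(3 * (m : ℤ)) ∨ 3 * (m : ℤ) ≤ v.1 ∨ v.2 ≤ -(3 * (m : ℤ)) ∨ 3 * (m : ℤ) ≤ v.2) := by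
  simp only [Ann, Finset.mem_filter, Finset.mem_product, Finset.mem_Icc]

theorem ann_disj {m m' : ℕ} (hm : 1 ≤ m) (h : 8 * m ≤ m') : Disjoint (Ann m) (Ann m') := by
  rw [Finset.disjoint_left]
  intro v hv hv'
  rw [mem_Ann] at hv hv'
  omega

theorem wev_inc (m : ℕ) (i : Fin 4) (s : Fin 2) : Inc (wev m i s) := by
  intro z z' h hz
  exact tubeX_inc m (wK i) _ _ (fun e he => h _ he) hz

theorem Kh_mul {d a b : ℤ} {k : P2} (m : ℕ) (hk : k ∈ Kh d a b) :
    a * m ≤ k.1 * m ∧ k.1 * m ≤ b * m ∧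
      (k.2 * (m : ℤ) = k.1 * m + d * m ∨ k.2 * (m : ℤ) = k.1 * m + d * m + m) := by
  rw [mem_Kh] at hk
  refine ⟨mul_le_mul_of_nonneg_right hk.1.1 (by positivity),
    mul_le_mul_of_nonneg_right hk.1.2 (by positivity), ?_⟩
  rcases hk.2 with h | h
  · left; rw [h]; ring
  · right; rw [h]; ring

theorem Kv_mul {d a b : ℤ} {k : P2} (m : ℕ) (hk : k ∈ Kv d a b) :
    a * m ≤ -(k.1 * m) ∧ -(k.1 * m) ≤ b * m ∧
      (k.2 * (m : ℤ) = -(k.1 * m) + d * m ∨ k.2 * (m : ℤ) = -(k.1 * m) + d * m + m) := by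
  rw [mem_Kv] at hk
  have h1 := mul_le_mul_of_nonneg_right hk.1.1 (show (0 : ℤ) ≤ m by positivity)
  have h2 := mul_le_mul_of_nonneg_right hk.1.2 (show (0 : ℤ) ≤ m by positivity)
  rw [neg_mul] at h1 h2
  refine ⟨h1, h2, ?_⟩
  rcases hk.2 with h | h
  · left; rw [h]; ring
  · right; rw [h]; ring

theorem wev_dep {m : ℕ} (hm : 1 ≤ m) (i : Fin 4) (s : Fin 2) : Dep (Ann m) (wev m i s) := by
  have hs : ((s : ℕ) : ℤ) = 0 ∨ ((s : ℕ) : ℤ) = 1 := by omega
  refine ev_dep_of fun k hk e he => ?_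
  obtain ⟨⟨x, y⟩, c⟩ := e
  rw [mem_Ann]
  generalize ((s : ℕ) : ℤ) = s' at *
  have key : (tau s' ((x, y), c)).1 = x + y + 1 + s' ∧
      ((tau s' ((x, y), c)).2 = y - x ∧ (tgt ((x, y), c)).1 = x + 1 ∧ (tgt ((x, y), c)).2 = y ∨
        (tau s' ((x, y), c)).2 = y - x + 1 ∧ (tgt ((x, y), c)).1 = x ∧
          (tgt ((x, y), c)).2 = y + 1) := by
    cases c <;> simp [tau, tgt]
  simp only at he
  obtain ⟨key1, key2⟩ := key
  have hi : i = 0 ∨ i = 1 ∨ i = 2 ∨ i = 3 := by omega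
  rcases hi with rfl | rfl | rfl | rfl
  · have h1 := Kh_mul m (show k ∈ Kh 7 (-12) 4 from hk)
    rw [show wch 0 = id from rfl]
    simp only [id]
    omega
  · have h1 := Kh_mul m (show k ∈ Kh (-8) (-5) 12 from hk)
    rw [show wch 1 = id from rfl]
    simp only [id]
    omega
  · have h1 := Kv_mul m (show k ∈ Kv (-9) (-4) 13 from hk)
    rw [show wch 2 = id from rfl]
    simp only [id]
    omega
  · have h1 := Kv_mul m (show k ∈ Kv 6 (-11) 5 from hk)
    rw [show wch 3 = chR from rfl]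
    simp only [chR]
    split_ifs <;> omega

theorem web_dep {m : ℕ} (hm : 1 ≤ m) : Dep (Ann m) (Web m) :=
  Dep.iInter fun _ => Dep.iInter fun _ => wev_dep hm _ _

/-- **Webs have probability bounded below.** -/
theorem web_prob : ∃ c : ℝ, 0 < c ∧ c < 1 ∧ ∀ m : ℕ, 1 ≤ m → c ≤ (PB fun _ : P2 => hf).real (Web m) := by
  obtain ⟨c, hc, h⟩ := rsw_long 3
  have hc1 : min c (1 / 2) < 1 := lt_of_le_of_lt (min_le_right _ _) (by norm_num)
  have hc0 : 0 < min c (1 / 2) := lt_min hc (by norm_num)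
  refine ⟨((min c (1 / 2)) ^ 72) ^ 8, by positivity, ?_, fun m hm => ?_⟩
  · exact pow_lt_one₀ (by positivity) (pow_lt_one₀ hc0.le hc1 (by norm_num)) (by norm_num)
  have h1 := harris_prod (fun _ : P2 => hf) (Finset.univ : Finset (Fin 4 × Fin 2)) (S := Ann m)
    (A := fun k => wev m k.1 k.2) (fun k _ => wev_dep hm _ _) (fun k _ => wev_inc _ _ _)
  refine le_trans ?_ h1
  have h2 : ∀ k ∈ (Finset.univ : Finset (Fin 4 × Fin 2)),
      (min c (1 / 2)) ^ 72 ≤ (PB fun _ : P2 => hf).real (wev m k.1 k.2) := by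
    intro k _
    refine le_trans ?_ (pull_prob (wch_inj k.1) (k.2 : ℕ) m (wK k.1))
    have h3 := h m hm
    push_cast at h3
    refine le_trans ?_ (pow_le_pow_left₀ hc0.le ((min_le_left _ _).trans h3) _)
    refine pow_le_pow_of_le_one hc0.le hc1.le ?_
    have := wK_card k.1
    omega
  have h3 := Finset.prod_le_prod (s := (Finset.univ : Finset (Fin 4 × Fin 2)))
    (f := fun _ => (min c (1 / 2)) ^ 72) (fun _ _ => by positivity) h2
  rw [Finset.prod_const] at h3
  refine le_trans (le_of_eq ?_) h3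
  congr 1

/-- all webs of the scales `8 ^ k * m`, `k < J`, fail -/
def NoWeb (m J : ℕ) : Set (P2 → Bool) := ⋂ k ∈ Finset.range J, (Web (8 ^ k * m))ᶜ

/-- support of `NoWeb` -/
theorem noweb_dep {m J : ℕ} (hm : 1 ≤ m) {T : Finset P2}
    (hT : ∀ k < J, Ann (8 ^ k * m) ⊆ T) : Dep T (NoWeb m J) := by
  refine Dep.iInter fun k => Dep.iInter fun hk => ?_
  have h1 : 1 ≤ 8 ^ k * m := Nat.one_le_iff_ne_zero.2 (by positivity)
  exact ((web_dep h1).compl).mono (hT k (Finset.mem_range.1 hk))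

theorem noweb_prob : ∃ c : ℝ, 0 < c ∧ c < 1 ∧ ∀ m J : ℕ, 1 ≤ m →
    (PB fun _ : P2 => hf).real (NoWeb m J) ≤ c ^ J := by
  obtain ⟨c, hc0, hc1, h⟩ := web_prob
  refine ⟨1 - c, by linarith, by linarith, fun m J hm => ?_⟩
  have hm' : ∀ k : ℕ, 1 ≤ 8 ^ k * m := fun k => Nat.one_le_iff_ne_zero.2 (by positivity)
  have h1 := PB_indep_prod (fun _ : P2 => hf) (Finset.range J) (fun k => Ann (8 ^ k * m)) (by
    intro i _ j _ hij
    rcases lt_or_gt_of_ne hij with h | h
    · refine ann_disj (hm' i) ?_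
      have : 8 ^ (i + 1) ≤ 8 ^ j := Nat.pow_le_pow_right (by norm_num) h
      calc 8 * (8 ^ i * m) = 8 ^ (i + 1) * m := by ring
        _ ≤ 8 ^ j * m := Nat.mul_le_mul_right _ this
    · refine (ann_disj (hm' j) ?_).symm
      have : 8 ^ (j + 1) ≤ 8 ^ i := Nat.pow_le_pow_right (by norm_num) h
      calc 8 * (8 ^ j * m) = 8 ^ (j + 1) * m := by ring
        _ ≤ 8 ^ i * m := Nat.mul_le_mul_right _ this)
    (fun k => (Web (8 ^ k * m))ᶜ) (fun k _ => (web_dep (hm' k)).compl)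
  unfold NoWeb
  rw [h1]
  calc ∏ k ∈ Finset.range J, (PB fun _ : P2 => hf).real (Web (8 ^ k * m))ᶜ
      ≤ ∏ _k ∈ Finset.range J, (1 - c) := by
        refine Finset.prod_le_prod (fun _ _ => measureReal_nonneg) fun k _ => ?_
        rw [measureReal_compl (web_dep (hm' k)).measurableSet]
        have := h _ (hm' k)
        simp only [probReal_univ]
        linarith
    _ = (1 - c) ^ J := by rw [Finset.prod_const, Finset.card_range]

end Crest.Agent.R158.Dr945
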