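import Mathlib

/-!
# Row 158, BLOCK DR (helper945), part 3: the dislocated lattice, the leg, colours

Rows of index `j ≥ 1` (upper) and `j ≤ 0` (lower); a tile is `v = (i, j)`.  The lower column `i` is glued to
the upper column `phi i` (`phi i = i` for `i < 0`, `i + 1` for `i ≥ 0`); the upper column `0` starts at the
point `z` between the rows `0` and `1`: its lowest medial edge `leg0 = ((0,0),true)` ends at `z`.

* medial edges: `(v, false)` to the right of the tile `v`; `(v, true)` above the tile `v` for `v.2 ≠ 0`; the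
  edges `((i,0), true)` between the rows `0` and `1` are indexed by the upper column.
* faces: `v = (i,j)` is the face to the upper right of the tile `v` for `j ≠ 0`; the faces `(i,0)` between
  the rows `0` and `1` are indexed by the upper columns (`(i,0)` to the right of `((i,0),true)`); `(-1,0)`
  and `(0,0)` are the two sides of `leg0` (same face `z`).
* splitting `s v = false` joins the faces NE, SW of `v` (pairs W–N, S–E), `true` joins NW, SE (pairs W–S,
  N–E).
* `Leg B s` : the strand of `leg0` through tiles of `B`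
* `exists_col` : the colouring of the faces which changes exactly across the medial edges not in the leg
* `good` : both sides of the leg have colour `true`
* `delta_path` : another strand gives a path of faces of colour `false` through unvisited tiles whose
  splitting joins faces of colour `false`
-/

set_option autoImplicit false

namespace Crest.Agent.R158.Dr945

/-- upper index of the lower column `i` -/
def phi (i : ℤ) : ℤ := if i < 0 then i else i + 1

def eN (v : ℤ × ℤ) : (ℤ × ℤ) × Bool := if v.2 = 0 then ((phi v.1, 0), true) else (v, true)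
def eS (v : ℤ × ℤ) : (ℤ × ℤ) × Bool := ((v.1, v.2 - 1), true)
def eE (v : ℤ × ℤ) : (ℤ × ℤ) × Bool := (v, false)
def eW (v : ℤ × ℤ) : (ℤ × ℤ) × Bool := ((v.1 - 1, v.2), false)

def fNE (v : ℤ × ℤ) : ℤ × ℤ := if v.2 = 0 then (phi v.1, 0) else v
def fNW (v : ℤ × ℤ) : ℤ × ℤ := if v.2 = 0 then (phi v.1 - 1, 0) else (v.1 - 1, v.2)
def fSW (v : ℤ × ℤ) : ℤ × ℤ := (v.1 - 1, v.2 - 1)
def fSE (v : ℤ × ℤ) : ℤ × ℤ := (v.1, v.2 - 1)

/-- the medial edge at `z` -/
def leg0 : (ℤ × ℤ) × Bool := ((0, 0), true)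

/-- the edges `e`, `e'` are paired at the tile `v` by the splitting `s` -/
def Pr (s : ℤ × ℤ → Bool) (v : ℤ × ℤ) (e e' : (ℤ × ℤ) × Bool) : Prop :=
  (s v = false ∧ ((e = eW v ∧ e' = eN v) ∨ (e = eN v ∧ e' = eW v) ∨ (e = eS v ∧ e' = eE v) ∨
    (e = eE v ∧ e' = eS v))) ∨
  (s v = true ∧ ((e = eW v ∧ e' = eS v) ∨ (e = eS v ∧ e' = eW v) ∨ (e = eN v ∧ e' = eE v) ∨
    (e = eE v ∧ e' = eN v)))

theorem Pr.symm {s : ℤ × ℤ → Bool} {v : ℤ × ℤ} {e e' : (ℤ × ℤ) × Bool} (h : Pr s v e e') :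
    Pr s v e' e := by
  unfold Pr at *; tauto

/-- one step of a strand through a tile of `B` -/
def St (B : Set (ℤ × ℤ)) (s : ℤ × ℤ → Bool) (e e' : (ℤ × ℤ) × Bool) : Prop :=
  ∃ v ∈ B, Pr s v e e'

theorem St.symm {B : Set (ℤ × ℤ)} {s : ℤ × ℤ → Bool} {e e' : (ℤ × ℤ) × Bool} (h : St B s e e') :
    St B s e' e := by
  obtain ⟨v, hv, h⟩ := h
  exact ⟨v, hv, h.symm⟩

/-- the leg inside `B` -/
def Leg (B : Set (ℤ × ℤ)) (s : ℤ × ℤ → Bool) : Set ((ℤ × ℤ) × Bool) :=
  {e | Relation.ReflTransGen (St B s) leg0 e}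

theorem leg0_mem (B : Set (ℤ × ℤ)) (s : ℤ × ℤ → Bool) : leg0 ∈ Leg B s := Relation.ReflTransGen.refl

theorem leg_iff {B : Set (ℤ × ℤ)} {s : ℤ × ℤ → Bool} {v : ℤ × ℤ} (hv : v ∈ B)
    {e e' : (ℤ × ℤ) × Bool} (h : Pr s v e e') : e ∈ Leg B s ↔ e' ∈ Leg B s :=
  ⟨fun h1 => Relation.ReflTransGen.tail h1 ⟨v, hv, h⟩,
    fun h1 => Relation.ReflTransGen.tail h1 ⟨v, hv, h.symm⟩⟩

/-- `G` is a union of strands at the tiles of `B` -/
def Cl (B : Set (ℤ × ℤ)) (s : ℤ × ℤ → Bool) (G : Set ((ℤ × ℤ) × Bool)) : Prop :=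
  ∀ v ∈ B, ∀ e e', Pr s v e e' → (e ∈ G ↔ e' ∈ G)

theorem leg_cl (B : Set (ℤ × ℤ)) (s : ℤ × ℤ → Bool) : Cl B s (Leg B s) :=
  fun _ hv _ _ h => leg_iff hv h

/-- colouring which changes exactly across the edges not in `G` -/
structure Col (G : Set ((ℤ × ℤ) × Bool)) (B : Set (ℤ × ℤ)) (c : ℤ × ℤ → Bool) : Prop where
  z0 : c (0, 0) = true
  z1 : c (-1, 0) = true
  N : ∀ v ∈ B, (c (fNW v) = c (fNE v) ↔ eN v ∈ G)
  S : ∀ v ∈ B, (c (fSW v) = c (fSE v) ↔ eS v ∈ G)
  E : ∀ v ∈ B, (c (fNE v) = c (fSE v) ↔ eE v ∈ G)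
  W : ∀ v ∈ B, (c (fNW v) = c (fSW v) ↔ eW v ∈ G)

/-- the box of radius `R` -/
def Bx (R : ℤ) : Set (ℤ × ℤ) := {v | (-R ≤ v.1 ∧ v.1 ≤ R) ∧ (-R ≤ v.2 ∧ v.2 ≤ R)}

/-- primitive on `ℤ` -/
theorem exists_prim (d : ℤ → Bool) (b : Bool) :
    ∃ r : ℤ → Bool, r 0 = b ∧ ∀ i, r i = xor (r (i - 1)) (d i) := by
  let u : ℕ → Bool := fun n => Nat.rec b (fun k x => xor x (d (k + 1))) n
  let w : ℕ → Bool := fun n => Nat.rec (xor b (d 0)) (fun k x => xor x (d (-(k + 1)))) n
  refine ⟨fun i => if 0 ≤ i then u i.toNat else w (-i - 1).toNat, by simp [u], fun i => ?_⟩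
  rcases lt_trichotomy i 0 with h | rfl | h
  · have h1 : ¬ (0 ≤ i) := by omega
    have h2 : ¬ (0 ≤ i - 1) := by omega
    simp only [h1, h2, if_false]
    obtain ⟨k, hk⟩ : ∃ k : ℕ, (-i - 1).toNat = k := ⟨_, rfl⟩
    have e1 : (-(i - 1) - 1).toNat = k + 1 := by omega
    have e2 : i = -((k : ℤ) + 1) := by omega
    rw [e1, hk]
    show w k = xor (xor (w k) (d (-(k + 1)))) (d i)
    rw [e2]
    cases w k <;> cases d (-((k : ℤ) + 1)) <;> rfl
  · simp only [le_refl, if_true, Int.toNat_zero]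
    have h2 : ¬ ((0 : ℤ) ≤ 0 - 1) := by omega
    simp only [h2, if_false]
    show b = xor (xor b (d 0)) (d 0)
    cases b <;> cases d 0 <;> rfl
  · have h1 : 0 ≤ i := by omega
    have h2 : 0 ≤ i - 1 := by omega
    simp only [h1, h2, if_true]
    obtain ⟨k, hk⟩ : ∃ k : ℕ, (i - 1).toNat = k := ⟨_, rfl⟩
    have e1 : i.toNat = k + 1 := by omega
    have e2 : i = (k : ℤ) + 1 := by omega
    rw [e1, hk]
    show xor (u k) (d (k + 1)) = xor (u k) (d i)
    rw [e2]

open Classical in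
/-- **The colouring exists.** -/
theorem exists_col {R : ℤ} {s : ℤ × ℤ → Bool} {G : Set ((ℤ × ℤ) × Bool)} (hG : Cl (Bx R) s G)
    (h0 : leg0 ∈ G) : ∃ c, Col G (Bx R) c := by
  let h : (ℤ × ℤ) × Bool → Bool := fun e => decide (e ∉ G)
  obtain ⟨r, hr0, hr⟩ := exists_prim (fun i => h ((i, 0), true)) true
  have hl : h ((0, 0), true) = false := by simp [h]; exact h0
  let U : ℤ → ℕ → Bool := fun i n => Nat.rec (r i) (fun k x => xor x (h ((i, k + 1), false))) n
  let L : ℤ → ℕ → Bool := fun i n =>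
    Nat.rec (xor (r (phi i)) (h ((i, 0), false))) (fun k x => xor x (h ((i, -(k + 1)), false))) n
  let c : ℤ × ℤ → Bool := fun f => if 0 ≤ f.2 then U f.1 f.2.toNat else L f.1 (-f.2 - 1).toNat
  have c0 : ∀ i, c (i, 0) = r i := fun i => by simp [c, U]
  -- relation across horizontal edges
  have hE : ∀ v : ℤ × ℤ, c (fNE v) = xor (c (fSE v)) (h (eE v)) := by
    rintro ⟨i, j⟩
    rcases lt_trichotomy j 0 with hj | rfl | hj
    · have h1 : ¬ (0 ≤ j) := by omega
      have h2 : ¬ (0 ≤ j - 1) := by omega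
      have h3 : j ≠ 0 := by omega
      simp only [fNE, fSE, eE, h3, if_false]
      show (if 0 ≤ j then U i j.toNat else L i (-j - 1).toNat) =
        xor (if 0 ≤ j - 1 then U i (j - 1).toNat else L i (-(j - 1) - 1).toNat) (h ((i, j), false))
      rw [if_neg h1, if_neg h2]
      obtain ⟨k, hk⟩ : ∃ k : ℕ, (-j - 1).toNat = k := ⟨_, rfl⟩
      have e1 : (-(j - 1) - 1).toNat = k + 1 := by omega
      have e2 : j = -((k : ℤ) + 1) := by omega
      rw [e1, hk]
      show L i k = xor (xor (L i k) (h ((i, -(k + 1)), false))) (h ((i, j), false))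
      rw [e2]
      cases L i k <;> cases h ((i, -((k : ℤ) + 1)), false) <;> rfl
    · simp only [fNE, fSE, eE, if_true]
      show c (phi i, 0) = xor (xor (r (phi i)) (h ((i, 0), false))) (h ((i, 0), false))
      rw [c0]
      cases r (phi i) <;> cases h ((i, 0), false) <;> rfl
    · have h1 : 0 ≤ j := by omega
      have h2 : 0 ≤ j - 1 := by omega
      have h3 : j ≠ 0 := by omega
      simp only [fNE, fSE, eE, h3, if_false]
      show (if 0 ≤ j then U i j.toNat else L i (-j - 1).toNat) =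
        xor (if 0 ≤ j - 1 then U i (j - 1).toNat else L i (-(j - 1) - 1).toNat) (h ((i, j), false))
      rw [if_pos h1, if_pos h2]
      obtain ⟨k, hk⟩ : ∃ k : ℕ, (j - 1).toNat = k := ⟨_, rfl⟩
      have e1 : j.toNat = k + 1 := by omega
      have e2 : j = (k : ℤ) + 1 := by omega
      rw [e1, hk]
      show xor (U i k) (h ((i, k + 1), false)) = xor (U i k) (h ((i, j), false))
      rw [e2]
  have hW : ∀ v : ℤ × ℤ, c (fNW v) = xor (c (fSW v)) (h (eW v)) := by
    rintro ⟨i, j⟩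
    have h1 := hE (i - 1, j)
    by_cases hj : j = 0
    · subst hj
      simp only [fNE, fSE, eE, if_true] at h1
      simp only [fNW, fSW, eW, if_true]
      rw [← h1, c0, c0]
      by_cases hi : i = 0
      · subst hi
        have := hr 0
        simp only [phi]
        norm_num
        rw [hl] at this
        simpa using this
      · have : phi i - 1 = phi (i - 1) := by
          simp only [phi]; split_ifs <;> omega
        rw [this]
    · simp only [fNE, fSE, eE, hj, if_false] at h1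
      simp only [fNW, fSW, eW, hj, if_false]
      exact h1
  -- parity at the tiles of the box
  have hp : ∀ v ∈ Bx R, xor (xor (h (eN v)) (h (eS v))) (xor (h (eE v)) (h (eW v))) = false := by
    intro v hv
    have key : ∀ e e', Pr s v e e' → h e = h e' := by
      intro e e' hee
      have := hG v hv e e' hee
      simp only [h, this]
    cases hs : s v
    · have k1 := key (eW v) (eN v) (Or.inl ⟨hs, Or.inl ⟨rfl, rfl⟩⟩)
      have k2 := key (eS v) (eE v) (Or.inl ⟨hs, Or.inr (Or.inr (Or.inl ⟨rfl, rfl⟩))⟩)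
      rw [k1, k2]
      cases h (eN v) <;> cases h (eE v) <;> rfl
    · have k1 := key (eW v) (eS v) (Or.inr ⟨hs, Or.inl ⟨rfl, rfl⟩⟩)
      have k2 := key (eN v) (eE v) (Or.inr ⟨hs, Or.inr (Or.inr (Or.inl ⟨rfl, rfl⟩))⟩)
      rw [k1, k2]
      cases h (eS v) <;> cases h (eE v) <;> rfl
  -- north relation from south relation and conversely
  have ns : ∀ v ∈ Bx R, (c (fSE v) = xor (c (fSW v)) (h (eS v)) ↔
      c (fNE v) = xor (c (fNW v)) (h (eN v))) := by
    intro v hv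
    have h1 := hE v
    have h2 := hW v
    have h3 := hp v hv
    rw [h1, h2]
    revert h3
    cases c (fSE v) <;> cases c (fSW v) <;> cases h (eS v) <;> cases h (eN v) <;>
      cases h (eE v) <;> cases h (eW v) <;> decide
  have up : ∀ i j : ℤ, j ≠ 0 → fNE (i, j) = (i, j) ∧ fNW (i, j) = (i - 1, j) ∧
      eN (i, j) = ((i, j), true) := by
    intro i j hj
    simp [fNE, fNW, eN, hj]
  have hrow0 : ∀ i : ℤ, c (i, 0) = xor (c (i - 1, 0)) (h ((i, 0), true)) := by
    intro i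
    rw [c0, c0]
    exact hr i
  -- north relation in the upper rows
  have hNup : ∀ n : ℕ, ∀ i : ℤ, -R ≤ i → i ≤ R → (n : ℤ) ≤ R →
      c (i, (n : ℤ)) = xor (c (i - 1, (n : ℤ))) (h ((i, (n : ℤ)), true)) := by
    intro n
    induction n with
    | zero =>
      intro i _ _ _
      exact_mod_cast hrow0 i
    | succ n ih =>
      intro i h1 h2 h3
      push_cast at h3 ⊢
      have hv : ((i, (n : ℤ) + 1) : ℤ × ℤ) ∈ Bx R := ⟨⟨h1, h2⟩, by simp only; omega, h3⟩
      have k := (ns _ hv).1 (by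
        have := ih i h1 h2 (by omega)
        simp only [fSE, fSW, eS, add_sub_cancel_right]
        exact this)
      obtain ⟨u1, u2, u3⟩ := up i ((n : ℤ) + 1) (by omega)
      rw [u1, u2, u3] at k
      exact k
  have hN : ∀ v ∈ Bx R, c (fNE v) = xor (c (fNW v)) (h (eN v)) := by
    have low : ∀ n : ℕ, ∀ i : ℤ, -R ≤ i → i ≤ R → -R ≤ -(n : ℤ) →
        c (fNE (i, -(n : ℤ))) = xor (c (fNW (i, -(n : ℤ)))) (h (eN (i, -(n : ℤ)))) := by
      intro n
      induction n with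
      | zero =>
        intro i _ _ _
        simp only [Nat.cast_zero, neg_zero, fNE, fNW, eN, if_true]
        exact hrow0 (phi i)
      | succ n ih =>
        intro i h1 h2 h3
        have hv : ((i, -(n : ℤ)) : ℤ × ℤ) ∈ Bx R :=
          ⟨⟨h1, h2⟩, by simp only; push_cast at h3; omega, by simp only; push_cast at h3; omega⟩
        have k := (ns _ hv).2 (ih i h1 h2 (by push_cast at h3; omega))
        obtain ⟨u1, u2, u3⟩ := up i (-((n + 1 : ℕ) : ℤ)) (by push_cast; omega)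
        rw [u1, u2, u3]
        simp only [fSE, fSW, eS] at k
        have e : -(n : ℤ) - 1 = -((n + 1 : ℕ) : ℤ) := by push_cast; ring
        rw [e] at k
        exact k
    rintro ⟨i, j⟩ hv
    obtain ⟨⟨h1, h2⟩, h3, h4⟩ := hv
    simp only at h1 h2 h3 h4
    rcases le_or_gt j 0 with hj | hj
    · obtain ⟨n, hn⟩ : ∃ n : ℕ, j = -(n : ℤ) := ⟨(-j).toNat, by omega⟩
      subst hn
      exact low n i h1 h2 h3
    · obtain ⟨n, hn⟩ : ∃ n : ℕ, j = (n : ℤ) := ⟨j.toNat, by omega⟩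
      subst hn
      obtain ⟨u1, u2, u3⟩ := up i (n : ℤ) (by omega)
      rw [u1, u2, u3]
      exact hNup n i h1 h2 h4
  have hS : ∀ v ∈ Bx R, c (fSE v) = xor (c (fSW v)) (h (eS v)) := fun v hv => (ns v hv).2 (hN v hv)
  have conv : ∀ (a b : Bool) (e : (ℤ × ℤ) × Bool), a = xor b (h e) → ((b = a) ↔ e ∈ G) := by
    intro a b e hab
    by_cases he : e ∈ G
    · have : h e = false := by simp [h, he]
      rw [this] at hab
      simp [hab, he]
    · have : h e = true := by simp [h, he]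
      rw [this] at hab
      simp [hab, he]
  refine ⟨c, ⟨?_, ?_, fun v hv => conv _ _ _ (hN v hv), fun v hv => conv _ _ _ (hS v hv),
    fun v hv => ?_, fun v hv => ?_⟩⟩
  · rw [c0, hr0]
  · rw [c0]
    have := hr 0
    rw [hl, hr0] at this
    simpa using this.symm
  · have := conv _ _ _ (hE v)
    rw [eq_comm]
    exact this
  · have := conv _ _ _ (hW v)
    rw [eq_comm]
    exact this

/-! ### sides -/

/-- left / lower side of a medial edge -/
def sd1 (e : (ℤ × ℤ) × Bool) : ℤ × ℤ := if e.2 then (e.1.1 - 1, e.1.2) else (e.1.1, e.1.2 - 1)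

/-- right / upper side of a medial edge -/
def sd2 (e : (ℤ × ℤ) × Bool) : ℤ × ℤ :=
  if e.2 then e.1 else (if e.1.2 = 0 then (phi e.1.1, 0) else e.1)

/-- the side of colour `false` of an edge not in the leg -/
def zs (c : ℤ × ℤ → Bool) (e : (ℤ × ℤ) × Bool) : ℤ × ℤ := if c (sd1 e) = false then sd1 e else sd2 e

/-- both sides have colour `true` -/
def Good (c : ℤ × ℤ → Bool) (e : (ℤ × ℤ) × Bool) : Prop := c (sd1 e) = true ∧ c (sd2 e) = true

theorem sdN (v : ℤ × ℤ) : sd1 (eN v) = fNW v ∧ sd2 (eN v) = fNE v := by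
  by_cases h : v.2 = 0 <;> simp [sd1, sd2, eN, fNW, fNE, h]

theorem sdS (v : ℤ × ℤ) : sd1 (eS v) = fSW v ∧ sd2 (eS v) = fSE v := by
  simp [sd1, sd2, eS, fSW, fSE]

theorem sdE (v : ℤ × ℤ) : sd1 (eE v) = fSE v ∧ sd2 (eE v) = fNE v := by
  by_cases h : v.2 = 0 <;> simp [sd1, sd2, eE, fSE, fNE, h]

section Colour

variable {G : Set ((ℤ × ℤ) × Bool)} {B : Set (ℤ × ℤ)} {c : ℤ × ℤ → Bool}

theorem sdW (hc : Col G B c) (v : ℤ × ℤ) : sd1 (eW v) = fSW v ∧
    (sd2 (eW v) = fNW v ∨ (c (sd2 (eW v)) = true ∧ c (fNW v) = true)) := by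
  refine ⟨by simp [sd1, eW, fSW], ?_⟩
  obtain ⟨i, j⟩ := v
  by_cases h : j = 0
  · subst h
    by_cases hi : i = 0
    · subst hi
      right
      simp only [sd2, eW, fNW, phi]
      norm_num
      exact ⟨hc.z1, hc.z0⟩
    · left
      simp only [sd2, eW, fNW, phi, if_true, Bool.false_eq_true, if_false, Prod.mk.injEq, and_true]
      split_ifs <;> omega
  · left
    simp [sd2, eW, fNW, h]

theorem goodN (v : ℤ × ℤ) : Good c (eN v) ↔ c (fNW v) = true ∧ c (fNE v) = true := by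
  unfold Good; rw [(sdN v).1, (sdN v).2]
theorem goodS (v : ℤ × ℤ) : Good c (eS v) ↔ c (fSW v) = true ∧ c (fSE v) = true := by
  unfold Good; rw [(sdS v).1, (sdS v).2]
theorem goodE (v : ℤ × ℤ) : Good c (eE v) ↔ c (fSE v) = true ∧ c (fNE v) = true := by
  unfold Good; rw [(sdE v).1, (sdE v).2]
theorem goodW (hc : Col G B c) (v : ℤ × ℤ) : Good c (eW v) ↔ c (fSW v) = true ∧ c (fNW v) = true := by
  unfold Good
  rw [(sdW hc v).1]
  rcases (sdW hc v).2 with h | ⟨h1, h2⟩
  · rw [h]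
  · rw [h1, h2]

/-- both sides of the leg have colour `true` -/
theorem good {s : ℤ × ℤ → Bool} (hc : Col (Leg B s) B c) {e : (ℤ × ℤ) × Bool}
    (he : e ∈ Leg B s) : Good c e := by
  have h0 := he
  unfold Leg at h0
  simp only [Set.mem_ofPred_eq] at h0
  clear he
  induction h0 with
  | refl => exact ⟨hc.z1, hc.z0⟩
  | @tail e e' h1 h2 ih =>
    obtain ⟨v, hv, hp⟩ := h2
    have hG : e ∈ Leg B s := h1
    have hG' : e' ∈ Leg B s := (leg_iff hv hp).1 hG
    rcases hp with ⟨_, ⟨rfl, rfl⟩ | ⟨rfl, rfl⟩ | ⟨rfl, rfl⟩ | ⟨rfl, rfl⟩⟩ |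
      ⟨_, ⟨rfl, rfl⟩ | ⟨rfl, rfl⟩ | ⟨rfl, rfl⟩ | ⟨rfl, rfl⟩⟩
    · have k := (hc.N v hv).2 hG'
      rw [goodW hc] at ih
      rw [goodN]
      exact ⟨ih.2, k ▸ ih.2⟩
    · have k := (hc.W v hv).2 hG'
      rw [goodN] at ih
      rw [goodW hc]
      exact ⟨k ▸ ih.1, ih.1⟩
    · have k := (hc.E v hv).2 hG'
      rw [goodS] at ih
      rw [goodE]
      exact ⟨ih.2, k.trans ih.2⟩
    · have k := (hc.S v hv).2 hG'
      rw [goodE] at ih
      rw [goodS]
      exact ⟨k.trans ih.1, ih.1⟩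
    · have k := (hc.S v hv).2 hG'
      rw [goodW hc] at ih
      rw [goodS]
      exact ⟨ih.1, k ▸ ih.1⟩
    · have k := (hc.W v hv).2 hG'
      rw [goodS] at ih
      rw [goodW hc]
      exact ⟨ih.1, k.trans ih.1⟩
    · have k := (hc.E v hv).2 hG'
      rw [goodN] at ih
      rw [goodE]
      exact ⟨k ▸ ih.2, ih.2⟩
    · have k := (hc.N v hv).2 hG'
      rw [goodE] at ih
      rw [goodN]
      exact ⟨k.trans ih.2, ih.2⟩

/-- diagonal neighbours across the tile `v` -/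
def Dv (v f f' : ℤ × ℤ) : Prop :=
  (f = fNE v ∧ f' = fSW v) ∨ (f = fSW v ∧ f' = fNE v) ∨ (f = fNW v ∧ f' = fSE v) ∨
    (f = fSE v ∧ f' = fNW v)

/-- the tile `v` is visited by `G` -/
def Vis (G : Set ((ℤ × ℤ) × Bool)) (v : ℤ × ℤ) : Prop := eN v ∈ G ∨ eS v ∈ G ∨ eE v ∈ G ∨ eW v ∈ G

theorem zsN (v : ℤ × ℤ) (hv : c (fNW v) ≠ c (fNE v)) :
    (c (fNW v) = false → zs c (eN v) = fNW v) ∧ (c (fNE v) = false → zs c (eN v) = fNE v) := by
  unfold zs
  rw [(sdN v).1, (sdN v).2]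
  constructor
  · intro h; rw [if_pos h]
  · intro h
    rw [h] at hv
    rw [if_neg hv]

theorem zsS (v : ℤ × ℤ) (hv : c (fSW v) ≠ c (fSE v)) :
    (c (fSW v) = false → zs c (eS v) = fSW v) ∧ (c (fSE v) = false → zs c (eS v) = fSE v) := by
  unfold zs
  rw [(sdS v).1, (sdS v).2]
  constructor
  · intro h; rw [if_pos h]
  · intro h
    rw [h] at hv
    rw [if_neg hv]

theorem zsE (v : ℤ × ℤ) (hv : c (fNE v) ≠ c (fSE v)) :
    (c (fSE v) = false → zs c (eE v) = fSE v) ∧ (c (fNE v) = false → zs c (eE v) = fNE v) := by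
  unfold zs
  rw [(sdE v).1, (sdE v).2]
  constructor
  · intro h; rw [if_pos h]
  · intro h
    rw [h] at hv
    rw [if_neg hv.symm]

theorem zsW (hc : Col G B c) (v : ℤ × ℤ) (hv : c (fNW v) ≠ c (fSW v)) :
    (c (fSW v) = false → zs c (eW v) = fSW v) ∧ (c (fNW v) = false → zs c (eW v) = fNW v) := by
  unfold zs
  rw [(sdW hc v).1]
  constructor
  · intro h; rw [if_pos h]
  · intro h
    rw [h] at hv
    rw [if_neg hv.symm]
    rcases (sdW hc v).2 with h1 | ⟨_, h2⟩
    · exact h1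
    · rw [h] at h2; exact absurd h2 (by decide)

/-- one step of another strand: its side of colour `false` does not move, or moves across an unvisited
tile whose splitting joins faces of colour `false` -/
theorem delta_step {s : ℤ × ℤ → Bool} (hc : Col (Leg B s) B c) {v : ℤ × ℤ} (hv : v ∈ B)
    {e e' : (ℤ × ℤ) × Bool} (hp : Pr s v e e') (he : e ∉ Leg B s) :
    zs c e = zs c e' ∨
      (Dv v (zs c e) (zs c e') ∧ ¬ Vis (Leg B s) v ∧ xor (s v) (c (fNE v)) = false) := by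
  have he' : e' ∉ Leg B s := fun h => he ((leg_iff hv hp).2 h)
  -- if a face around `v` has colour `false` then the edges at it are not in the leg
  have hN : eN v ∈ Leg B s → c (fNW v) = true ∧ c (fNE v) = true := fun h => (goodN v).1 (good hc h)
  have hS : eS v ∈ Leg B s → c (fSW v) = true ∧ c (fSE v) = true := fun h => (goodS v).1 (good hc h)
  have hE : eE v ∈ Leg B s → c (fSE v) = true ∧ c (fNE v) = true := fun h => (goodE v).1 (good hc h)
  have hW : eW v ∈ Leg B s → c (fSW v) = true ∧ c (fNW v) = true :=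
    fun h => (goodW hc v).1 (good hc h)
  have kN := hc.N v hv
  have kS := hc.S v hv
  have kE := hc.E v hv
  have kW := hc.W v hv
  have zN := zsN (c := c) v
  have zS := zsS (c := c) v
  have zE := zsE (c := c) v
  have zW := zsW hc v
  unfold Vis Dv
  rcases hp with ⟨hs, ⟨rfl, rfl⟩ | ⟨rfl, rfl⟩ | ⟨rfl, rfl⟩ | ⟨rfl, rfl⟩⟩ |
      ⟨hs, ⟨rfl, rfl⟩ | ⟨rfl, rfl⟩ | ⟨rfl, rfl⟩ | ⟨rfl, rfl⟩⟩ <;>
    rw [hs] <;> cases h1 : c (fNE v) <;> cases h2 : c (fNW v) <;> cases h3 : c (fSE v) <;>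
      cases h4 : c (fSW v) <;>
      simp_all

/-- steps of faces across tiles with `X v = false` -/
def DX (X : ℤ × ℤ → Bool) (f f' : ℤ × ℤ) : Prop := ∃ v, Dv v f f' ∧ X v = false

/-- **Another strand gives a `false`-path of faces.** -/
theorem delta_path {s X : ℤ × ℤ → Bool} (hc : Col (Leg B s) B c)
    (hX : ∀ v ∈ B, ¬ Vis (Leg B s) v → X v = xor (s v) (c (fNE v)))
    {e e' : (ℤ × ℤ) × Bool} (h : Relation.ReflTransGen (St B s) e e') (he : e ∉ Leg B s) :
    e' ∉ Leg B s ∧ Relation.ReflTransGen (DX X) (zs c e) (zs c e') := by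
  induction h with
  | refl => exact ⟨he, .refl⟩
  | @tail b d _ h2 ih =>
    obtain ⟨v, hv, hp⟩ := h2
    refine ⟨fun h => ih.1 ((leg_iff hv hp).2 h), ?_⟩
    rcases delta_step hc hv hp ih.1 with h3 | ⟨h3, h4, h5⟩
    · rw [← h3]; exact ih.2
    · exact ih.2.tail ⟨v, h3, by rw [hX v hv h4]; exact h5⟩

end Colour

end Crest.Agent.R158.Dr945
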