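import Crest.Agent.R158.Dr2_945
import Crest.Agent.R158.Dr3_945

/-!
# Row 158, BLOCK DR (helper945), part 4: a `false`-path of the dislocated lattice cannot cross a web

`no_delta` : if `X ∈ Web m` then no path of faces across tiles with `X = false` goes from the box of
radius `3 m` around `z` to the outside of the box of radius `12 m`.
-/

set_option autoImplicit false

namespace Crest.Agent.R158.Dr945

open Crest.Agent.R161.Geo729 Crest.Agent.R161.Topo374 Crest.Agent.R161.Dual374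
open Crest.Agent.R161.Tas682
open Crest.Agent.R158.Rs689

/-! ### sequences -/

theorem seq_of {α : Type*} {r : α → α → Prop} {a b : α} (h : Relation.ReflTransGen r a b) :
    ∃ (n : ℕ) (p : ℕ → α), p 0 = a ∧ p n = b ∧ ∀ k < n, r (p k) (p (k + 1)) := by
  induction h with
  | refl => exact ⟨0, fun _ => a, rfl, rfl, fun k hk => absurd hk (by omega)⟩
  | @tail b c _ h2 ih =>
    obtain ⟨n, p, h0, hn, hp⟩ := ih
    refine ⟨n + 1, fun k => if k ≤ n then p k else c, ?_, ?_, ?_⟩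
    · simp [h0]
    · simp
    · intro k hk
      by_cases hkn : k < n
      · have h1 : k ≤ n := by omega
        have h3 : k + 1 ≤ n := by omega
        simp only [h1, h3, if_true]
        exact hp k hkn
      · have h1 : k = n := by omega
        subst h1
        simp only [le_refl, if_true]
        have h3 : ¬ (k + 1 ≤ k) := by omega
        simp only [h3, if_false]
        rw [hn]
        exact h2

/-- a segment of a sequence as a diagonal connection -/
theorem dc_seg {Y : P2 → Bool} {b : Bool} {S : Set P2} {q : ℕ → P2} {i j : ℕ} (hij : i ≤ j)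
    (hS : ∀ k, i ≤ k → k ≤ j → q k ∈ S) (hq : ∀ k, i ≤ k → k < j → DSt Y b (q k) (q (k + 1))) :
    DC Y b S (q i) (q j) := by
  refine ⟨hS i le_rfl hij, ?_⟩
  obtain ⟨n, rfl⟩ := Nat.exists_eq_add_of_le hij
  clear hij
  induction n with
  | zero => exact .refl
  | succ n ih =>
    refine (ih (fun k h1 h2 => hS k h1 (by omega)) (fun k h1 h2 => hq k h1 (by omega))).tail
      ⟨?_, hS _ (by omega) (by omega), hS _ (by omega) (by omega)⟩
    exact hq (i + n) (by omega) (by omega)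

theorem DC.symm {Y : P2 → Bool} {b : Bool} {S : Set P2} {f g : P2} (h : DC Y b S f g) :
    DC Y b S g f := by
  have hr := h.right
  obtain ⟨hf, h⟩ := h
  refine ⟨hr, ?_⟩
  induction h with
  | refl => exact .refl
  | @tail u v h1 h2 ih =>
    exact Relation.ReflTransGen.head ⟨h2.1.symm, h2.2.2, h2.2.1⟩
      (ih (DC.right (Y := Y) (b := b) ⟨hf, h1⟩))

/-- last index before `n` with `In`, first index with `Out` -/
theorem window {In Out : ℕ → Prop} {n : ℕ} (hn : Out n) (h0 : In 0) :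
    ∃ j ≤ n, Out j ∧ (∀ k < j, ¬ Out k) ∧ (Out 0 ∨ ∃ i < j, In i ∧ ∀ k, i < k → k < j → ¬ In k) := by
  classical
  have hex : ∃ j, Out j := ⟨n, hn⟩
  refine ⟨Nat.find hex, Nat.find_min' hex hn, Nat.find_spec hex, fun k hk => Nat.find_min hex hk, ?_⟩
  rcases Nat.eq_zero_or_pos (Nat.find hex) with h | h
  · left
    have := Nat.find_spec hex
    rwa [h] at this
  · right
    obtain ⟨i, hi, hmax⟩ : ∃ i, (i < Nat.find hex ∧ In i) ∧ ∀ k, (k < Nat.find hex ∧ In k) → k ≤ i := by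
      have hfin : Set.Finite {k | k < Nat.find hex ∧ In k} :=
        (Set.finite_lt_nat (Nat.find hex)).subset fun k hk => hk.1
      obtain ⟨i, hi, hmax⟩ := hfin.toFinset.exists_max_image id
        ⟨0, by rw [Set.Finite.mem_toFinset]; exact ⟨h, h0⟩⟩
      rw [Set.Finite.mem_toFinset] at hi
      refine ⟨i, hi, fun k hk => ?_⟩
      exact hmax k (by rw [Set.Finite.mem_toFinset]; exact hk)
    refine ⟨i, hi.1, hi.2, fun k h1 h2 h3 => ?_⟩
    have := hmax k ⟨h2, h3⟩
    omega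

/-! ### positions and charts -/

/-- upper position of a face -/
def xu (f : P2) : ℤ := if 0 ≤ f.2 then f.1 else phi f.1

theorem dx_step {X : P2 → Bool} {f f' : P2} (h : DX X f f') :
    (f'.2 = f.2 + 1 ∨ f.2 = f'.2 + 1) ∧ (xu f - 2 ≤ xu f' ∧ xu f' ≤ xu f + 2) := by
  obtain ⟨⟨i, j⟩, h, _⟩ := h
  unfold Dv fNE fNW fSW fSE at h
  simp only [xu, phi]
  by_cases hj : j = 0
  · subst hj
    simp only [if_true, phi] at h
    rcases h with ⟨rfl, rfl⟩ | ⟨rfl, rfl⟩ | ⟨rfl, rfl⟩ | ⟨rfl, rfl⟩ <;>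
      simp only <;> split_ifs <;> omega
  · simp only [hj, if_false] at h
    rcases h with ⟨rfl, rfl⟩ | ⟨rfl, rfl⟩ | ⟨rfl, rfl⟩ | ⟨rfl, rfl⟩ <;>
      simp only <;> split_ifs <;> omega

theorem step_id {X : P2 → Bool} {f f' : P2} (h : DX X f f')
    (hc : (xu f ≤ -1 ∧ xu f' ≤ -1) ∨ (1 ≤ f.2 ∧ 1 ≤ f'.2) ∨ (f.2 ≤ -1 ∧ f'.2 ≤ -1)) :
    DSt X false f f' := by
  obtain ⟨⟨i, j⟩, h, hX⟩ := h
  have key : Dg f f' ∧ mid f f' = (i, j) := by
    unfold Dv fNE fNW fSW fSE at h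
    simp only [xu, phi] at hc
    simp only [Dg, mid, Prod.mk.injEq]
    by_cases hj : j = 0
    · subst hj
      simp only [if_true, phi] at h
      rcases h with ⟨rfl, rfl⟩ | ⟨rfl, rfl⟩ | ⟨rfl, rfl⟩ | ⟨rfl, rfl⟩ <;>
        simp only at hc ⊢ <;> split_ifs at * <;> omega
    · simp only [hj, if_false] at h
      rcases h with ⟨rfl, rfl⟩ | ⟨rfl, rfl⟩ | ⟨rfl, rfl⟩ | ⟨rfl, rfl⟩ <;>
        simp only at hc ⊢ <;> split_ifs at * <;> omega
  exact ⟨key.1, by rw [key.2]; exact hX⟩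

theorem step_R {X : P2 → Bool} {f f' : P2} (h : DX X f f') (h1 : 1 ≤ xu f) (h2 : 1 ≤ xu f') :
    DSt (fun v => X (chR v)) false (xu f, f.2) (xu f', f'.2) := by
  obtain ⟨⟨i, j⟩, h, hX⟩ := h
  have key : Dg (xu f, f.2) (xu f', f'.2) ∧ chR (mid (xu f, f.2) (xu f', f'.2)) = (i, j) := by
    unfold Dv fNE fNW fSW fSE at h
    simp only [xu, phi] at h1 h2
    simp only [Dg, mid, xu, phi, chR]
    by_cases hj : j = 0
    · subst hj
      simp only [if_true, phi] at h
      rcases h with ⟨rfl, rfl⟩ | ⟨rfl, rfl⟩ | ⟨rfl, rfl⟩ | ⟨rfl, rfl⟩ <;>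
        simp only at h1 h2 ⊢ <;> split_ifs at * <;> simp only [Prod.mk.injEq] <;> omega
    · simp only [hj, if_false] at h
      rcases h with ⟨rfl, rfl⟩ | ⟨rfl, rfl⟩ | ⟨rfl, rfl⟩ | ⟨rfl, rfl⟩ <;>
        simp only at h1 h2 ⊢ <;> split_ifs at * <;> simp only [Prod.mk.injEq] <;> omega
  refine ⟨key.1, ?_⟩
  show X (chR (mid _ _)) = false
  rw [key.2]
  exact hX

theorem xu_fst (f : P2) : f.1 = xu f ∨ (f.1 = xu f - 1 ∧ f.2 < 0) := by
  simp only [xu, phi]
  split_ifs <;> omega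

/-! ### the contradiction -/

theorem last_before {In : ℕ → Prop} {j : ℕ} (h0 : In 0) (hj : 0 < j) :
    ∃ i < j, In i ∧ ∀ k, i < k → k < j → ¬ In k := by
  obtain ⟨j', _, h1, _, h3⟩ := window (In := In) (Out := fun k => k = j) (n := j) rfl h0
  rcases h3 with h3 | ⟨i, hi, h4, h5⟩
  · omega
  · subst h1
    exact ⟨i, hi, h4, h5⟩

theorem web_ev {X : P2 → Bool} {m : ℕ} (hW : X ∈ Web m) (i : Fin 4) (s : Fin 2) : X ∈ wev m i s := by
  unfold Web at hW
  simp only [Set.mem_iInter] at hW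
  exact hW (i, s) (Finset.mem_univ _)

theorem pick (t : ℤ) : ∃ s : Fin 2, ((s : ℕ) : ℤ) % 2 ≠ t % 2 ∧
    (((s : ℕ) : ℤ) = 0 ∨ ((s : ℕ) : ℤ) = 1) := by
  by_cases h : t % 2 = 0
  · exact ⟨1, by rw [h]; decide, Or.inr rfl⟩
  · refine ⟨0, fun h' => h ?_, Or.inl rfl⟩
    rw [← h']; rfl

theorem no_delta {X : P2 → Bool} {m : ℕ} (hm : 2 ≤ m) (hW : X ∈ Web m) {f g : P2}
    (h : Relation.ReflTransGen (DX X) f g)
    (hf : (-(3 * (m : ℤ)) ≤ xu f ∧ xu f ≤ 3 * m) ∧ (-(3 * (m : ℤ)) ≤ f.2 ∧ f.2 ≤ 3 * m))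
    (hg : 12 * (m : ℤ) ≤ xu g ∨ xu g ≤ -(12 * (m : ℤ)) ∨ 12 * (m : ℤ) ≤ g.2 ∨
      g.2 ≤ -(12 * (m : ℤ))) : False := by
  obtain ⟨n, p, p0, pn, hp⟩ := seq_of h
  -- first exit
  let Out : ℕ → Prop := fun k => 12 * (m : ℤ) ≤ xu (p k) ∨ xu (p k) ≤ -(12 * (m : ℤ)) ∨
    12 * (m : ℤ) ≤ (p k).2 ∨ (p k).2 ≤ -(12 * (m : ℤ))
  obtain ⟨j, hjn, hj, hjmin, -⟩ := window (In := fun _ => True) (Out := Out) (n := n)
    (by show _ ∨ _; rw [pn]; exact hg) trivial
  have hj0 : 0 < j := by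
    rcases Nat.eq_zero_or_pos j with h0 | h0
    · exfalso
      subst h0
      have hj' : 12 * (m : ℤ) ≤ xu (p 0) ∨ xu (p 0) ≤ -(12 * (m : ℤ)) ∨
        12 * (m : ℤ) ≤ (p 0).2 ∨ (p 0).2 ≤ -(12 * (m : ℤ)) := hj
      rw [p0] at hj'
      omega
    · exact h0
  have hin : ∀ k < j, ¬ (12 * (m : ℤ) ≤ xu (p k) ∨ xu (p k) ≤ -(12 * (m : ℤ)) ∨
    12 * (m : ℤ) ≤ (p k).2 ∨ (p k).2 ≤ -(12 * (m : ℤ))) := hjmin
  have hst : ∀ k < j, DX X (p k) (p (k + 1)) := fun k hk => hp k (by omega)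
  have hbd : ∀ k ≤ j, (-(12 * (m : ℤ)) ≤ (p k).2 ∧ (p k).2 ≤ 12 * m) ∧
      (-(12 * (m : ℤ)) - 1 ≤ xu (p k) ∧ xu (p k) ≤ 12 * m + 1) := by
    intro k hk
    rcases Nat.lt_or_ge k j with h1 | h1
    · have := hin k h1
      omega
    · have h2 : k = (j - 1) + 1 := by omega
      have h3 := hin (j - 1) (by omega)
      have h4 := dx_step (hst (j - 1) (by omega))
      rw [← h2] at h4
      omega
  have hj' : 12 * (m : ℤ) ≤ xu (p j) ∨ xu (p j) ≤ -(12 * (m : ℤ)) ∨
    12 * (m : ℤ) ≤ (p j).2 ∨ (p j).2 ≤ -(12 * (m : ℤ)) := hj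
  rcases hj' with hj' | hj' | hj' | hj'
  · -- right
    obtain ⟨i, hij, hi, hlast⟩ := last_before (In := fun k => xu (p k) ≤ 3 * (m : ℤ)) (j := j)
      (by show xu (p 0) ≤ _; rw [p0]; exact hf.1.2) hj0
    have hi' : xu (p i) ≤ 3 * (m : ℤ) := hi
    have hgt : ∀ k, i < k → k ≤ j → 3 * (m : ℤ) < xu (p k) := by
      intro k h1 h2
      rcases Nat.lt_or_ge k j with h3 | h3
      · have := hlast k h1 h3
        simpa using this
      · have : k = j := by omega
        rw [this]; omega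
    have h4 := dx_step (hst i hij)
    have hseg := dc_seg (Y := fun v => X (chR v)) (b := false)
      (S := {w | -(12 * (m : ℤ)) ≤ w.2 ∧ w.2 ≤ 12 * m})
      (q := fun k => (xu (p k), (p k).2)) (i := i + 1) (j := j) (by omega)
      (fun k _ h2 => (hbd k h2).1)
      (fun k h1 h2 => step_R (hst k h2) (by have := hgt k (by omega) (by omega); omega)
        (by have := hgt (k + 1) (by omega) (by omega); omega))
    obtain ⟨s, hs, hs01⟩ := pick (xu (p (i + 1)) + (p (i + 1)).2)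
    have hw := web_ev hW 3 s
    obtain ⟨a, b, hab, ha, hb, hpar⟩ := evV_path (s := (s : ℕ)) (m := m) (d := 6) (a := -11)
      (n := 16) (Y := fun v => X (chR v)) hw
    refine dcross hseg hab ?_ ?_ ?_
    · rw [hpar]; exact hs.symm
    · intro w hw
      have h5 : -(12 * (m : ℤ)) ≤ w.2 ∧ w.2 ≤ 12 * m := hw
      push_cast at hb
      omega
    · intro w hw
      have h5 : 6 * (m : ℤ) - m + (s : ℕ) ≤ w.1 ∧ w.1 ≤ 6 * m + 4 * m + (s : ℕ) := hw
      simp only
      omega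
  · -- left
    obtain ⟨i, hij, hi, hlast⟩ := last_before (In := fun k => -(3 * (m : ℤ)) ≤ xu (p k)) (j := j)
      (by show _ ≤ xu (p 0); rw [p0]; exact hf.1.1) hj0
    have hi' : -(3 * (m : ℤ)) ≤ xu (p i) := hi
    have hlt : ∀ k, i < k → k ≤ j → xu (p k) < -(3 * (m : ℤ)) := by
      intro k h1 h2
      rcases Nat.lt_or_ge k j with h3 | h3
      · have := hlast k h1 h3
        simpa using this
      · have : k = j := by omega
        rw [this]; omega
    have h4 := dx_step (hst i hij)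
    have hseg := dc_seg (Y := X) (b := false)
      (S := {w | -(12 * (m : ℤ)) ≤ w.2 ∧ w.2 ≤ 12 * m})
      (q := p) (i := i + 1) (j := j) (by omega)
      (fun k _ h2 => (hbd k h2).1)
      (fun k h1 h2 => step_id (hst k h2) (Or.inl ⟨by have := hlt k (by omega) (by omega); omega,
        by have := hlt (k + 1) (by omega) (by omega); omega⟩))
    obtain ⟨s, hs, hs01⟩ := pick ((p j).1 + (p j).2)
    have hw := web_ev hW 2 s
    obtain ⟨a, b, hab, ha, hb, hpar⟩ := evV_path (s := (s : ℕ)) (m := m) (d := -9) (a := -4)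
      (n := 17) (Y := X) hw
    have hx1 := xu_fst (p (i + 1))
    have hxj := xu_fst (p j)
    have hl1 := hlt (i + 1) (by omega) (by omega)
    refine dcross hseg.symm hab ?_ ?_ ?_
    · rw [hpar]; exact hs.symm
    · intro w hw
      have h5 : -(12 * (m : ℤ)) ≤ w.2 ∧ w.2 ≤ 12 * m := hw
      push_cast at hb
      omega
    · intro w hw
      have h5 : -9 * (m : ℤ) - m + (s : ℕ) ≤ w.1 ∧ w.1 ≤ -9 * m + 4 * m + (s : ℕ) := hw
      have e1 : (p (i + 1)).1 = xu (p (i + 1)) := by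
        simp only [xu, phi] at hl1 ⊢
        split_ifs at * <;> omega
      omega
  · -- top
    obtain ⟨i, hij, hi, hlast⟩ := last_before (In := fun k => (p k).2 ≤ 3 * (m : ℤ)) (j := j)
      (by show (p 0).2 ≤ _; rw [p0]; exact hf.2.2) hj0
    have hi' : (p i).2 ≤ 3 * (m : ℤ) := hi
    have hgt : ∀ k, i < k → k ≤ j → 3 * (m : ℤ) < (p k).2 := by
      intro k h1 h2
      rcases Nat.lt_or_ge k j with h3 | h3
      · have := hlast k h1 h3
        simpa using this
      · have : k = j := by omega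
        rw [this]; omega
    have h4 := dx_step (hst i hij)
    have hseg := dc_seg (Y := X) (b := false)
      (S := {w | -(12 * (m : ℤ)) - 1 ≤ w.1 ∧ w.1 ≤ 12 * m + 1})
      (q := p) (i := i + 1) (j := j) (by omega)
      (fun k h1 h2 => by
        have h5 := (hbd k h2).2
        have h6 := hgt k (by omega) h2
        have h7 := xu_fst (p k)
        show _ ≤ (p k).1 ∧ (p k).1 ≤ _
        omega)
      (fun k h1 h2 => step_id (hst k h2) (Or.inr (Or.inl
        ⟨by have := hgt k (by omega) (by omega); omega,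
          by have := hgt (k + 1) (by omega) (by omega); omega⟩)))
    obtain ⟨s, hs, hs01⟩ := pick ((p (i + 1)).1 + (p (i + 1)).2)
    have hw := web_ev hW 0 s
    obtain ⟨a, b, hab, ha, hb, hpar⟩ := evH_path (s := (s : ℕ)) (m := m) (d := 7) (a := -12)
      (n := 16) (Y := X) hw
    refine dcross hab hseg ?_ ?_ ?_
    · rw [hpar]; exact hs
    · intro w hw
      have h5 : 7 * (m : ℤ) - 2 * m ≤ w.2 ∧ w.2 ≤ 7 * m + 3 * m := hw
      omega
    · intro w hw
      have h5 : -(12 * (m : ℤ)) - 1 ≤ w.1 ∧ w.1 ≤ 12 * m + 1 := hw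
      push_cast at hb
      omega
  · -- bottom
    obtain ⟨i, hij, hi, hlast⟩ := last_before (In := fun k => -(3 * (m : ℤ)) ≤ (p k).2) (j := j)
      (by show _ ≤ (p 0).2; rw [p0]; exact hf.2.1) hj0
    have hi' : -(3 * (m : ℤ)) ≤ (p i).2 := hi
    have hlt : ∀ k, i < k → k ≤ j → (p k).2 < -(3 * (m : ℤ)) := by
      intro k h1 h2
      rcases Nat.lt_or_ge k j with h3 | h3
      · have := hlast k h1 h3
        simpa using this
      · have : k = j := by omega
        rw [this]; omega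
    have h4 := dx_step (hst i hij)
    have hseg := dc_seg (Y := X) (b := false)
      (S := {w | -(12 * (m : ℤ)) - 2 ≤ w.1 ∧ w.1 ≤ 12 * m + 1})
      (q := p) (i := i + 1) (j := j) (by omega)
      (fun k h1 h2 => by
        have h5 := (hbd k h2).2
        have h7 := xu_fst (p k)
        show _ ≤ (p k).1 ∧ (p k).1 ≤ _
        omega)
      (fun k h1 h2 => step_id (hst k h2) (Or.inr (Or.inr
        ⟨by have := hlt k (by omega) (by omega); omega,
          by have := hlt (k + 1) (by omega) (by omega); omega⟩)))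
    obtain ⟨s, hs, hs01⟩ := pick ((p j).1 + (p j).2)
    have hw := web_ev hW 1 s
    obtain ⟨a, b, hab, ha, hb, hpar⟩ := evH_path (s := (s : ℕ)) (m := m) (d := -8) (a := -5)
      (n := 17) (Y := X) hw
    refine dcross hab hseg.symm ?_ ?_ ?_
    · rw [hpar]; exact hs
    · intro w hw
      have h5 : -8 * (m : ℤ) - 2 * m ≤ w.2 ∧ w.2 ≤ -8 * m + 3 * m := hw
      omega
    · intro w hw
      have h5 : -(12 * (m : ℤ)) - 2 ≤ w.1 ∧ w.1 ≤ 12 * m + 1 := hw
      push_cast at hb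
      omega

end Crest.Agent.R158.Dr945
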