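import Crest.Agent.R158.Rz1_808

/-!
# Row 158 (helper808), resampling, part 2: the fresh field is independent of the revealed
configuration; symmetric flips off the revealed set

* `Ex.fresh` : `P⊗P (z ∈ A, glue (E z) z' z ∈ F) = P(A) P(F)` for `A` depending on the revealed
  configuration only
* `Ex.fresh_xor` : at `p = 1/2` the same for `z' on E z`, `z xor K z` off `E z`, where the flips `K z`
  depend on the revealed configuration only
* `Ex.xor_eq` : one space form
-/

set_option autoImplicit false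

noncomputable section

namespace Crest.Agent.R158.Rz808

open MeasureTheory unitInterval Rs689

variable {ι : Type*} {S : Finset ι} {E : (ι → Bool) → Finset ι}

/-- the fresh field (`z'` on the revealed set, `z` off it) has law `PB w` and is independent of the
revealed configuration -/
theorem Ex.fresh (h : Ex S E) (w : ι → I) {A F : Set (ι → Bool)} (hA : Ad E A)
    (hF : MeasurableSet F) :
    ((PB w).prod (PB w)) {q | q.1 ∈ A ∧ Rz808.glue (E q.1) q.2 q.1 ∈ F} = PB w A * PB w F := by
  have hAm : MeasurableSet A := (h.dep hA).measurableSet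
  have h1 : {q : (ι → Bool) × (ι → Bool) | q.1 ∈ A ∧ Rz808.glue (E q.1) q.2 q.1 ∈ F} =
      (fun q : (ι → Bool) × (ι → Bool) => sw (E q.1) q) ⁻¹' (A ×ˢ F) := by
    ext q
    simp only [Set.mem_ofPred_eq, Set.mem_preimage, Set.mem_prod, sw]
    have h2 : q.1 ∈ A ↔ Rz808.glue (E q.1) q.1 q.2 ∈ A :=
      hA _ _ fun e he => (glue_in he).symm
    rw [h2]
  rw [h1, ← Measure.map_apply h.meas_sw (hAm.prod hF), h.map_swap, Measure.prod_prod]

theorem Ex.fresh_real (h : Ex S E) (w : ι → I) {A F : Set (ι → Bool)} (hA : Ad E A)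
    (hF : MeasurableSet F) :
    ((PB w).prod (PB w)).real {q | q.1 ∈ A ∧ Rz808.glue (E q.1) q.2 q.1 ∈ F} =
      (PB w).real A * (PB w).real F := by
  rw [measureReal_def, h.fresh w hA hF, ENNReal.toReal_mul]
  rfl

/-- the law of the fresh field -/
theorem Ex.map_fresh (h : Ex S E) (w : ι → I) :
    ((PB w).prod (PB w)).map (fun q => Rz808.glue (E q.1) q.2 q.1) = PB w := by
  have hm : Measurable fun q : (ι → Bool) × (ι → Bool) => Rz808.glue (E q.1) q.2 q.1 :=
    measurable_snd.comp h.meas_sw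
  ext F hF
  rw [Measure.map_apply hm hF]
  have h1 := h.fresh w (A := Set.univ) (F := F) (fun _ _ _ => by simp) hF
  rw [measure_univ, one_mul] at h1
  rw [← h1]
  congr 1
  ext q
  simp

/-! ### flips -/

/-- flip by `k` -/
def flp (k z : ι → Bool) : ι → Bool := fun e => xor (z e) (k e)

@[simp] theorem flp_flp (k z : ι → Bool) : flp k (flp k z) = z := by
  funext e; simp [flp]

theorem meas_flp (k : ι → Bool) : Measurable (flp k) := by
  refine measurable_pi_lambda _ fun e => ?_
  exact (Measurable.of_discrete (f := fun b : Bool => xor b (k e))).comp (measurable_pi_apply e)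

/-- symmetric parameters (`w e = 1/2` for every `e`) -/
def Sym (w : ι → I) : Prop := ∀ e, σ (w e) = w e

theorem bern_map_xor {p : I} (hp : σ p = p) (b : Bool) :
    (bern p).map (fun x => xor x b) = bern p := by
  cases b
  · simp
  · have h := bern_map_not p
    rw [hp] at h
    simpa using h

/-- flips preserve the fair product law -/
theorem map_flp {w : ι → I} (hw : Sym w) (k : ι → Bool) : (PB w).map (flp k) = PB w := by
  unfold PB
  have h := Measure.infinitePi_map_pi (μ := fun e : ι => bern (w e))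
    (f := fun e (x : Bool) => xor x (k e)) fun e => Measurable.of_discrete
  refine Eq.trans h ?_
  congr 1
  funext e
  exact bern_map_xor (hw e) (k e)

theorem PB_flp {w : ι → I} (hw : Sym w) (k : ι → Bool) {F : Set (ι → Bool)}
    (hF : MeasurableSet F) : PB w (flp k ⁻¹' F) = PB w F := by
  rw [← Measure.map_apply (meas_flp k) hF, map_flp hw]

/-- functions of the revealed configuration -/
def AdF {α : Type*} (E : (ι → Bool) → Finset ι) (K : (ι → Bool) → α) : Prop :=
  ∀ z z', (∀ e ∈ E z, z e = z' e) → K z' = K z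

theorem AdF.ad {α : Type*} {K : (ι → Bool) → α} (hK : AdF E K) (k : α) : Ad E {z | K z = k} := by
  intro z z' h
  simp only [Set.mem_ofPred_eq]
  rw [hK z z' h]

theorem AdF.ad_pred {α : Type*} {K : (ι → Bool) → α} (hK : AdF E K) (p : α → Prop) :
    Ad E {z | p (K z)} := by
  intro z z' h
  simp only [Set.mem_ofPred_eq]
  rw [hK z z' h]

/-- finite range -/
theorem Ex.range_finite {α : Type*} (h : Ex S E) {K : (ι → Bool) → α} (hK : AdF E K) :
    (Set.range K).Finite := by
  classical
  let g : (S → Bool) → α := fun y => K fun e => if he : e ∈ S then y ⟨e, he⟩ else false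
  refine (Set.finite_range g).subset ?_
  rintro _ ⟨z, rfl⟩
  refine ⟨fun e => z e, ?_⟩
  refine hK z _ fun e he => ?_
  rw [dif_pos (h.sub z he)]

/-- partition by the value of a function of the revealed configuration -/
theorem Ex.sum_range {α : Type*} (h : Ex S E) {K : (ι → Bool) → α} (hK : AdF E K)
    {β : Type*} [MeasurableSpace β] (μ : Measure β) (f : β → (ι → Bool)) (hf : Measurable f)
    {G : Set β} (hG : MeasurableSet G) :
    μ G = ∑ k ∈ (h.range_finite hK).toFinset, μ (G ∩ {b | K (f b) = k}) := by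
  classical
  have h1 : G = ⋃ k ∈ (h.range_finite hK).toFinset, (G ∩ {b | K (f b) = k}) := by
    ext b
    simp only [Set.mem_iUnion, Set.mem_inter_iff, Set.mem_ofPred_eq, exists_prop,
      Set.Finite.mem_toFinset, Set.mem_range]
    exact ⟨fun hb => ⟨K (f b), ⟨f b, rfl⟩, hb, rfl⟩, fun ⟨_, _, hb, _⟩ => hb⟩
  conv_lhs => rw [h1]
  refine measure_biUnion_finset ?_ fun k _ => hG.inter (hf (h.dep (hK.ad k)).measurableSet)
  intro k _ k' _ hne
  refine Set.disjoint_left.2 fun b h2 h3 => hne ?_
  exact h2.2.symm.trans h3.2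

/-- measurability of glued flipped configurations -/
theorem Ex.meas_gflp (h : Ex S E) {K : (ι → Bool) → (ι → Bool)} (hK : AdF E K)
    {F : Set (ι → Bool)} (hF : MeasurableSet F) :
    MeasurableSet {q : (ι → Bool) × (ι → Bool) | Rz808.glue (E q.1) q.2 (flp (K q.1) q.1) ∈ F} := by
  classical
  have h1 : {q : (ι → Bool) × (ι → Bool) | Rz808.glue (E q.1) q.2 (flp (K q.1) q.1) ∈ F} =
      ⋃ D ∈ S.powerset, ⋃ k ∈ (h.range_finite hK).toFinset,
        ((Prod.fst ⁻¹' {z | E z = D}) ∩ (Prod.fst ⁻¹' {z | K z = k}) ∩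
        ((fun q : (ι → Bool) × (ι → Bool) => Rz808.glue D q.2 (flp k q.1)) ⁻¹' F)) := by
    ext q
    simp only [Set.mem_iUnion, Set.mem_inter_iff, Set.mem_preimage, Set.mem_ofPred_eq, exists_prop,
      Finset.mem_powerset, Set.Finite.mem_toFinset, Set.mem_range]
    constructor
    · intro hq
      exact ⟨E q.1, h.sub _, K q.1, ⟨q.1, rfl⟩, ⟨rfl, rfl⟩, hq⟩
    · rintro ⟨D, _, k, _, ⟨h1, h2⟩, hq⟩
      rw [h1, h2]
      exact hq
  rw [h1]
  refine Finset.measurableSet_biUnion _ fun D _ => Finset.measurableSet_biUnion _ fun k _ => ?_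
  refine ((measurable_fst (h.meas_eq D)).inter
    (measurable_fst (h.dep (hK.ad k)).measurableSet)).inter ?_
  exact ((Rz808.meas_glue D).comp
    (measurable_snd.prodMk ((meas_flp k).comp measurable_fst))) hF

/-- **XOR resampling** at `p = 1/2`: fresh bits on the revealed set, flipped configuration off it;
the flips depend on the revealed configuration only.  The resulting field is fair and independent of the
revealed configuration. -/
theorem Ex.fresh_xor (h : Ex S E) {w : ι → I} (hw : Sym w) {K : (ι → Bool) → (ι → Bool)}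
    (hK : AdF E K) {A F : Set (ι → Bool)} (hA : Ad E A) (hF : MeasurableSet F) :
    ((PB w).prod (PB w)) {q | q.1 ∈ A ∧ Rz808.glue (E q.1) q.2 (flp (K q.1) q.1) ∈ F} =
      PB w A * PB w F := by
  classical
  have hAm : MeasurableSet A := (h.dep hA).measurableSet
  have hG : MeasurableSet
      {q : (ι → Bool) × (ι → Bool) | q.1 ∈ A ∧ Rz808.glue (E q.1) q.2 (flp (K q.1) q.1) ∈ F} :=
    (measurable_fst hAm).inter (h.meas_gflp hK hF)
  rw [h.sum_range hK ((PB w).prod (PB w)) Prod.fst measurable_fst hG]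
  have h2 : PB w A = ∑ k ∈ (h.range_finite hK).toFinset, PB w (A ∩ {z | K z = k}) := by
    simpa using h.sum_range hK (PB w) (fun z => z) measurable_id hAm
  rw [h2, Finset.sum_mul]
  refine Finset.sum_congr rfl fun k _ => ?_
  have hAk : Ad E (A ∩ {z | K z = k}) := hA.inter (hK.ad k)
  have h3 : {q : (ι → Bool) × (ι → Bool) | q.1 ∈ A ∧
      Rz808.glue (E q.1) q.2 (flp (K q.1) q.1) ∈ F} ∩ {q | K q.1 = k} =
      (Prod.map id (flp k)) ⁻¹' {q : (ι → Bool) × (ι → Bool) | q.1 ∈ A ∩ {z | K z = k} ∧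
        Rz808.glue (E q.1) q.2 q.1 ∈ flp k ⁻¹' F} := by
    ext q
    simp only [Set.mem_inter_iff, Set.mem_ofPred_eq, Set.mem_preimage, Prod.map_fst, id_eq,
      Prod.map_snd]
    have h4 : flp k (Rz808.glue (E q.1) (flp k q.2) q.1) =
        Rz808.glue (E q.1) q.2 (flp k q.1) := by
      funext e
      by_cases he : e ∈ E q.1
      · simp [flp, Rz808.glue, he]
      · simp [flp, Rz808.glue, he]
    rw [h4]
    constructor
    · rintro ⟨⟨h5, h6⟩, rfl⟩
      exact ⟨⟨h5, rfl⟩, h6⟩
    · rintro ⟨⟨h5, rfl⟩, h6⟩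
      exact ⟨⟨h5, h6⟩, rfl⟩
  have h5 : ((PB w).prod (PB w)).map (Prod.map id (flp k)) = (PB w).prod (PB w) := by
    rw [← Measure.map_prod_map _ _ measurable_id (meas_flp k), map_flp hw, Measure.map_id]
  have h6 : MeasurableSet {q : (ι → Bool) × (ι → Bool) | q.1 ∈ A ∩ {z | K z = k} ∧
        Rz808.glue (E q.1) q.2 q.1 ∈ flp k ⁻¹' F} :=
    (measurable_fst (h.dep hAk).measurableSet).inter
      ((measurable_snd.comp h.meas_sw) (meas_flp k hF))
  rw [h3, ← Measure.map_apply (measurable_id.prodMap (meas_flp k)) h6, h5,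
    h.fresh w hAk (meas_flp k hF), PB_flp hw k hF]

theorem Ex.fresh_xor_real (h : Ex S E) {w : ι → I} (hw : Sym w) {K : (ι → Bool) → (ι → Bool)}
    (hK : AdF E K) {A F : Set (ι → Bool)} (hA : Ad E A) (hF : MeasurableSet F) :
    ((PB w).prod (PB w)).real {q | q.1 ∈ A ∧ Rz808.glue (E q.1) q.2 (flp (K q.1) q.1) ∈ F} =
      (PB w).real A * (PB w).real F := by
  rw [measureReal_def, h.fresh_xor hw hK hA hF, ENNReal.toReal_mul]
  rfl

/-- one space form: the event `B (E z)` of the flipped configuration does not look at `E z` -/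
theorem Ex.xor_eq (h : Ex S E) {w : ι → I} (hw : Sym w) {K : (ι → Bool) → (ι → Bool)}
    (hK : AdF E K) {A : Set (ι → Bool)} (hA : Ad E A) {B : Finset ι → Set (ι → Bool)}
    {T : Finset ι → Finset ι} (hT : ∀ D, Disjoint D (T D)) (hB : ∀ D, Dep (T D) (B D)) :
    (PB w).real {z | z ∈ A ∧ flp (K z) z ∈ B (E z)} =
      ∑ D ∈ S.powerset, (PB w).real (A ∩ {z | E z = D}) * (PB w).real (B D) := by
  classical
  have key : ∀ D, ((PB w).prod (PB w)).real
      {q | q.1 ∈ A ∩ {z | E z = D} ∧ Rz808.glue (E q.1) q.2 (flp (K q.1) q.1) ∈ B D} =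
      (PB w).real {z | z ∈ A ∩ {z | E z = D} ∧ flp (K z) z ∈ B D} := by
    intro D
    have h1 : {q : (ι → Bool) × (ι → Bool) | q.1 ∈ A ∩ {z | E z = D} ∧
        Rz808.glue (E q.1) q.2 (flp (K q.1) q.1) ∈ B D} =
        {z | z ∈ A ∩ {z | E z = D} ∧ flp (K z) z ∈ B D} ×ˢ Set.univ := by
      ext q
      simp only [Set.mem_ofPred_eq, Set.mem_prod, Set.mem_univ, and_true]
      refine and_congr_right fun h2 => ?_
      refine hB D _ _ fun e he => ?_
      have h3 : e ∉ E q.1 := by
        rw [h2.2]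
        exact fun h4 => Finset.disjoint_left.1 (hT D) h4 he
      exact glue_out h3
    rw [h1, measureReal_def, Measure.prod_prod, measure_univ, mul_one]
    rfl
  have hmeas : ∀ D, MeasurableSet {z | z ∈ A ∩ {z | E z = D} ∧ flp (K z) z ∈ B D} := by
    intro D
    have h1 : {z | z ∈ A ∩ {z | E z = D} ∧ flp (K z) z ∈ B D} =
        ⋃ k ∈ (h.range_finite hK).toFinset,
          ((A ∩ {z | E z = D}) ∩ {z | K z = k}) ∩ (flp k ⁻¹' B D) := by
      ext z
      simp only [Set.mem_iUnion, Set.mem_inter_iff, Set.mem_preimage, Set.mem_ofPred_eq,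
        exists_prop, Set.Finite.mem_toFinset, Set.mem_range]
      constructor
      · rintro ⟨h1, h2⟩
        exact ⟨K z, ⟨z, rfl⟩, ⟨h1, rfl⟩, h2⟩
      · rintro ⟨k, _, ⟨h1, h3⟩, h2⟩
        rw [h3]
        exact ⟨h1, h2⟩
    rw [h1]
    exact Finset.measurableSet_biUnion _ fun k _ =>
      (((h.dep_ad hA D).measurableSet).inter (h.dep (hK.ad k)).measurableSet).inter
        (meas_flp k (hB D).measurableSet)
  have h1 : {z | z ∈ A ∧ flp (K z) z ∈ B (E z)} =
      ⋃ D ∈ S.powerset, {z | z ∈ A ∩ {z | E z = D} ∧ flp (K z) z ∈ B D} := by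
    ext z
    simp only [Set.mem_iUnion, Set.mem_inter_iff, Set.mem_ofPred_eq, exists_prop,
      Finset.mem_powerset]
    constructor
    · rintro ⟨h2, h3⟩
      exact ⟨E z, h.sub z, ⟨h2, rfl⟩, h3⟩
    · rintro ⟨D, _, ⟨h2, rfl⟩, h3⟩
      exact ⟨h2, h3⟩
  rw [h1, measureReal_biUnion_finset]
  · refine Finset.sum_congr rfl fun D _ => ?_
    rw [← key D]
    exact h.fresh_xor_real hw hK (hA.inter (h.ad_eq D)) (hB D).measurableSet
  · intro D _ D' _ hne
    refine Set.disjoint_left.2 fun z h2 h3 => hne ?_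
    exact (h2.1.2 : E z = D).symm.trans h3.1.2
  · intro D _
    exact hmeas D

end Crest.Agent.R158.Rz808
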