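import Crest.Agent.R158.Dr4_945
import Crest.Agent.R158.Rz2_808

/-!
# Row 158, BLOCK DR (helper945), part 5: no second strand at a dislocation

`T R r ρ` : a strand other than the leg of `z`, inside the box of radius `R`, joins a medial edge at
distance at most `r` from `z` to a medial edge at distance at least `ρ`.

* `T_dep` : finite support
* `T_le_pow` : `P (T R r ρ) ≤ c ^ J` if `12 * 8 ^ (J-1) * (r + 1) < ρ`
* `T_le` : `P (T R r ρ) ≤ C (r / ρ) ^ a`, uniformly in `R`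
-/

set_option autoImplicit false

noncomputable section

namespace Crest.Agent.R158.Dr945

open MeasureTheory ProbabilityTheory unitInterval
open Crest.Agent.R161.Geo729
open Crest.Agent.R158.Rs689
open Crest.Agent.R158.Rz808

/-- the law of the tiles -/
abbrev muT : Measure (P2 → Bool) := PB fun _ : P2 => hf

/-- the box as a finite set -/
def BxF (R : ℤ) : Finset P2 := Finset.Icc (-R) R ×ˢ Finset.Icc (-R) R

theorem mem_BxF {R : ℤ} {v : P2} : v ∈ BxF R ↔ v ∈ Bx R := by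
  simp only [BxF, Bx, Finset.mem_product, Finset.mem_Icc, Set.mem_ofPred_eq]

theorem pr_inc {s : P2 → Bool} {v : P2} {e e' : P2 × Bool} (h : Pr s v e e') :
    e = eN v ∨ e = eS v ∨ e = eE v ∨ e = eW v := by
  unfold Pr at h; tauto

theorem pr_congr {s s' : P2 → Bool} {v : P2} {e e' : P2 × Bool} (hs : s v = s' v)
    (h : Pr s v e e') : Pr s' v e e' := by
  unfold Pr at *; rw [← hs]; exact h

theorem pr_vis {s : P2 → Bool} {v : P2} {e e' : P2 × Bool} {G : Set (P2 × Bool)}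
    (h : Pr s v e e') (he : e ∈ G) : Vis G v := by
  unfold Vis
  rcases pr_inc h with rfl | rfl | rfl | rfl
  · exact Or.inl he
  · exact Or.inr (Or.inl he)
  · exact Or.inr (Or.inr (Or.inl he))
  · exact Or.inr (Or.inr (Or.inr he))

/-- the leg is determined by the tiles it visits -/
theorem leg_self {B : Set P2} {s s' : P2 → Bool} (h : ∀ v ∈ B, Vis (Leg B s) v → s v = s' v) :
    Leg B s' = Leg B s := by
  apply Set.Subset.antisymm
  · intro e he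
    unfold Leg at he
    simp only [Set.mem_ofPred_eq] at he
    induction he with
    | refl => exact leg0_mem B s
    | @tail b d _ h2 ih =>
      obtain ⟨v, hv, hp⟩ := h2
      exact (leg_iff hv (pr_congr (h v hv (pr_vis hp ih)).symm hp)).1 ih
  · intro e he
    have he' := he
    unfold Leg at he'
    simp only [Set.mem_ofPred_eq] at he'
    induction he' with
    | refl => exact leg0_mem B s'
    | @tail b d h1 h2 ih =>
      obtain ⟨v, hv, hp⟩ := h2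
      have hb : b ∈ Leg B s := h1
      exact (leg_iff hv (pr_congr (h v hv (pr_vis hp hb)) hp)).1 (ih hb)

open Classical in
/-- the tiles visited by the leg -/
def EV (R : ℤ) (s : P2 → Bool) : Finset P2 := (BxF R).filter fun v => Vis (Leg (Bx R) s) v

theorem mem_EV {R : ℤ} {s : P2 → Bool} {v : P2} : v ∈ EV R s ↔ v ∈ Bx R ∧ Vis (Leg (Bx R) s) v := by
  simp only [EV, Finset.mem_filter, mem_BxF]

theorem EV_leg {R : ℤ} {s s' : P2 → Bool} (h : ∀ v ∈ EV R s, s v = s' v) :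
    Leg (Bx R) s' = Leg (Bx R) s := leg_self fun v hv hV => h v (mem_EV.2 ⟨hv, hV⟩)

theorem ex_EV (R : ℤ) : Ex (BxF R) (EV R) where
  sub := fun s v hv => mem_BxF.2 (mem_EV.1 hv).1
  self := fun s s' h => by
    ext v
    rw [mem_EV, mem_EV, EV_leg h]

open Classical in
/-- the colouring given by the leg -/
def colOf (R : ℤ) (G : Set (P2 × Bool)) : P2 → Bool :=
  if h : ∃ c, Col G (Bx R) c then h.choose else fun _ => false

theorem col_of (R : ℤ) (s : P2 → Bool) : Col (Leg (Bx R) s) (Bx R) (colOf R (Leg (Bx R) s)) := by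
  have h : ∃ c, Col (Leg (Bx R) s) (Bx R) c := exists_col (leg_cl _ _) (leg0_mem _ _)
  unfold colOf
  rw [dif_pos h]
  exact h.choose_spec

/-- the flips -/
def KV (R : ℤ) (s : P2 → Bool) : P2 → Bool := fun v => colOf R (Leg (Bx R) s) (fNE v)

theorem adF_KV (R : ℤ) : AdF (EV R) (KV R) := fun s s' h => by
  unfold KV
  rw [EV_leg h]

/-- a second strand from distance `r` to distance `ρ` -/
def T (R : ℤ) (r ρ : ℕ) : Set (P2 → Bool) :=
  {s | ∃ e e' : P2 × Bool, Relation.ReflTransGen (St (Bx R) s) e e' ∧ e ∉ Leg (Bx R) s ∧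
    ((-(r : ℤ) ≤ e.1.1 ∧ e.1.1 ≤ r) ∧ (-(r : ℤ) ≤ e.1.2 ∧ e.1.2 ≤ r)) ∧
    ((ρ : ℤ) ≤ e'.1.1 ∨ e'.1.1 ≤ -(ρ : ℤ) ∨ (ρ : ℤ) ≤ e'.1.2 ∨ e'.1.2 ≤ -(ρ : ℤ))}

theorem st_congr {R : ℤ} {s s' : P2 → Bool} (h : ∀ v ∈ BxF R, s v = s' v) {e e' : P2 × Bool} :
    St (Bx R) s e e' ↔ St (Bx R) s' e e' := by
  constructor
  · rintro ⟨v, hv, hp⟩
    exact ⟨v, hv, pr_congr (h v (mem_BxF.2 hv)) hp⟩
  · rintro ⟨v, hv, hp⟩
    exact ⟨v, hv, pr_congr (h v (mem_BxF.2 hv)).symm hp⟩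

theorem T_dep (R : ℤ) (r ρ : ℕ) : Dep (BxF R) (T R r ρ) := by
  intro s s' h
  have h1 : St (Bx R) s = St (Bx R) s' := by
    funext e e'
    exact propext (st_congr h)
  have h2 : Leg (Bx R) s = Leg (Bx R) s' := by
    unfold Leg
    rw [h1]
  unfold T
  simp only [Set.mem_ofPred_eq, h1, h2]

theorem zs_cases (c : P2 → Bool) (e : P2 × Bool) : zs c e = sd1 e ∨ zs c e = sd2 e := by
  unfold zs
  split_ifs
  · exact Or.inl rfl
  · exact Or.inr rfl

theorem zs_near {c : P2 → Bool} {e : P2 × Bool} {r : ℤ}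
    (h : (-r ≤ e.1.1 ∧ e.1.1 ≤ r) ∧ (-r ≤ e.1.2 ∧ e.1.2 ≤ r)) :
    (-(r + 2) ≤ xu (zs c e) ∧ xu (zs c e) ≤ r + 2) ∧
      (-(r + 2) ≤ (zs c e).2 ∧ (zs c e).2 ≤ r + 2) := by
  obtain ⟨⟨i, j⟩, b⟩ := e
  simp only at h
  rcases zs_cases c ((i, j), b) with h1 | h1 <;> rw [h1] <;> cases b <;>
    simp only [sd1, sd2, xu, phi, if_true, Bool.false_eq_true, if_false] <;> split_ifs at * <;>
    omega

theorem zs_far {c : P2 → Bool} {e : P2 × Bool} {ρ : ℤ} (hρ : 2 ≤ ρ)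
    (h : ρ ≤ e.1.1 ∨ e.1.1 ≤ -ρ ∨ ρ ≤ e.1.2 ∨ e.1.2 ≤ -ρ) :
    ρ - 1 ≤ xu (zs c e) ∨ xu (zs c e) ≤ -(ρ - 1) ∨ ρ - 1 ≤ (zs c e).2 ∨ (zs c e).2 ≤ -(ρ - 1) := by
  obtain ⟨⟨i, j⟩, b⟩ := e
  simp only at h
  rcases zs_cases c ((i, j), b) with h1 | h1 <;> rw [h1] <;> cases b <;>
    simp only [sd1, sd2, xu, phi, if_true, Bool.false_eq_true, if_false] <;> split_ifs at * <;>
    omega

/-- a second strand is incompatible with the webs of the field `X` -/
theorem T_noweb {R : ℤ} {r ρ J : ℕ} (hr : 1 ≤ r) (hJ : ∀ k < J, 12 * (8 ^ k * (r + 1)) + 1 ≤ ρ)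
    {s s' : P2 → Bool} (h : s ∈ T R r ρ) :
    Rz808.glue (EV R s) s' (flp (KV R s) s) ∈ NoWeb (r + 1) J := by
  set X := Rz808.glue (EV R s) s' (flp (KV R s) s) with hX
  unfold NoWeb
  simp only [Set.mem_iInter, Set.mem_compl_iff]
  intro k hk hW
  rw [Finset.mem_range] at hk
  have hJk := hJ k hk
  obtain ⟨e, e', h1, h2, h3, h4⟩ := h
  have hc := col_of R s
  have hXv : ∀ v ∈ Bx R, ¬ Vis (Leg (Bx R) s) v →
      X v = xor (s v) (colOf R (Leg (Bx R) s) (fNE v)) := by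
    intro v hv hV
    have : v ∉ EV R s := fun h => hV (mem_EV.1 h).2
    rw [hX, glue_out this]
    rfl
  obtain ⟨_, hd⟩ := delta_path hc hXv h1 h2
  have h8 : 1 ≤ 8 ^ k := Nat.one_le_pow _ _ (by norm_num)
  have hm : r + 1 ≤ 8 ^ k * (r + 1) := by nlinarith
  refine no_delta (m := 8 ^ k * (r + 1)) (by omega) hW hd ?_ ?_
  · have := zs_near (c := colOf R (Leg (Bx R) s)) h3
    have e1 : ((r + 1 : ℕ) : ℤ) ≤ ((8 ^ k * (r + 1) : ℕ) : ℤ) := by exact_mod_cast hm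
    push_cast at e1 this ⊢
    omega
  · have hρ : (2 : ℤ) ≤ (ρ : ℤ) := by omega
    have := zs_far (c := colOf R (Leg (Bx R) s)) hρ h4
    have e1 : 12 * ((8 ^ k * (r + 1) : ℕ) : ℤ) + 1 ≤ (ρ : ℤ) := by exact_mod_cast hJk
    omega

theorem sym_hf : Sym (fun _ : P2 => hf) := fun _ => sigma_hf

/-- **Decay.** -/
theorem T_le_pow : ∃ c : ℝ, 0 < c ∧ c < 1 ∧ ∀ (R : ℤ) (r ρ J : ℕ), 1 ≤ r →
    (∀ k < J, 12 * (8 ^ k * (r + 1)) + 1 ≤ ρ) → muT.real (T R r ρ) ≤ c ^ J := by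
  obtain ⟨c, hc0, hc1, h⟩ := noweb_prob
  refine ⟨c, hc0, hc1, fun R r ρ J hr hJ => ?_⟩
  refine le_trans ?_ (h (r + 1) J (by omega))
  have hm : MeasurableSet (NoWeb (r + 1) J) :=
    (noweb_dep (T := (Finset.range J).biUnion fun k => Ann (8 ^ k * (r + 1))) (by omega)
      (fun k hk => Finset.subset_biUnion_of_mem (fun k => Ann (8 ^ k * (r + 1)))
        (Finset.mem_range.2 hk))).measurableSet
  have h1 := (ex_EV R).fresh_xor_real sym_hf (adF_KV R) (A := Set.univ) (F := NoWeb (r + 1) J)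
    (fun _ _ _ => by simp) hm
  rw [probReal_univ, one_mul] at h1
  rw [← h1]
  have h2 : muT.real (T R r ρ) = (muT.prod muT).real (T R r ρ ×ˢ Set.univ) := by
    rw [measureReal_def, measureReal_def, Measure.prod_prod, measure_univ, mul_one]
  rw [h2]
  refine measureReal_mono ?_
  rintro ⟨s, s'⟩ ⟨hs, -⟩
  exact ⟨Set.mem_univ _, T_noweb hr hJ hs⟩

/-- **No second strand at a dislocation.** -/
theorem T_le : ∃ C a : ℝ, 0 < C ∧ 0 < a ∧ ∀ (R : ℤ) (r ρ : ℕ), 1 ≤ r → 1 ≤ ρ →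
    muT.real (T R r ρ) ≤ C * ((r : ℝ) / ρ) ^ a := by
  obtain ⟨q, hq, hq1, h⟩ := T_le_pow
  set a := -Real.log q / Real.log 8 with ha
  have hl8 : 0 < Real.log 8 := Real.log_pos (by norm_num)
  have ha0 : 0 < a := div_pos (neg_pos.2 (Real.log_neg hq hq1)) hl8
  refine ⟨(256 : ℝ) ^ a, a, by positivity, ha0, fun R r ρ hr hρ => ?_⟩
  have hr0 : (0 : ℝ) < r := by exact_mod_cast hr
  have hρ0 : (0 : ℝ) < ρ := by exact_mod_cast hρ
  -- smallest `J` with `ρ < 12 * 8 ^ J * (r + 1) + 1`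
  have hex : ∃ J : ℕ, (∀ k < J, 12 * (8 ^ k * (r + 1)) + 1 ≤ ρ) ∧ ρ < 12 * (8 ^ J * (r + 1)) + 1 := by
    have hlt : ∃ J : ℕ, ρ < 12 * (8 ^ J * (r + 1)) + 1 := by
      refine ⟨ρ, ?_⟩
      have h2 : ρ < 8 ^ ρ := Nat.lt_pow_self (by norm_num)
      nlinarith
    classical
    refine ⟨Nat.find hlt, fun k hk => ?_, Nat.find_spec hlt⟩
    have := Nat.find_min hlt hk
    omega
  obtain ⟨J, hJ1, hJ2⟩ := hex
  refine (h R r ρ J hr hJ1).trans ?_
  have h3 : q ^ J = ((8 : ℝ) ^ J)⁻¹ ^ a := by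
    rw [← Real.rpow_natCast 8 J, ← Real.rpow_neg (by norm_num), ← Real.rpow_mul (by norm_num),
      ← Real.rpow_natCast q J]
    rw [Real.rpow_def_of_pos hq, Real.rpow_def_of_pos (by norm_num : (0 : ℝ) < 8)]
    congr 1
    rw [ha]
    field_simp
  rw [h3, ← Real.mul_rpow (by norm_num) (by positivity)]
  refine Real.rpow_le_rpow (by positivity) ?_ ha0.le
  have h4 : (ρ : ℝ) < 12 * (8 ^ J * (r + 1)) + 1 := by exact_mod_cast hJ2
  have h5 : (1 : ℝ) ≤ 8 ^ J := one_le_pow₀ (by norm_num)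
  have h6 : (1 : ℝ) ≤ r := by exact_mod_cast hr
  have h7 : (ρ : ℝ) ≤ 25 * (8 ^ J * r) := by nlinarith
  rw [inv_le_iff_one_le_mul₀ (by positivity)]
  rw [← mul_div_assoc, div_mul_eq_mul_div, le_div_iff₀ hρ0]
  nlinarith

end Crest.Agent.R158.Dr945
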