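import Crest.Agent.R158.Dr5_945
import Crest.Agent.R158.Sl4_434
import Crest.Agent.R158.Ob1_664
import Crest.Agent.R158.Gc4_748
import Crest.Agent.R158.Mr4_679

/-!
# Row 158, BLOCK DR (helper945), part 6: comparison of the observable of two regions with different `z`

* `hv_map` : the observable of a word does not change under a relabelling of the tiles
* `rot_of_nx` : two clockwise lists with the same `Nx` are rotations of each other
* `near_T` : in `D^(z)` a strand of a free end, other than the leg, which comes near `z` is a second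
  strand, i.e. the event `T` of part 5
* `dr_core` : the observables of two regions which differ only near `z`
-/

set_option autoImplicit false
set_option linter.unusedSectionVars false
set_option linter.unusedSimpArgs false

noncomputable section

namespace Crest.Agent.R158.Dr945

open MeasureTheory ProbabilityTheory unitInterval
open Crest.Agent.R161.Geo729
open Crest.Agent.R158.Rs689
open Crest.Agent.R158.Sw300 (Port Wd thru tls)
open Crest.Agent.R158.Ob664 (HV HW GW Gl)
open Crest.Agent.R158.Sl434 (Sp Rl Rf al Sys rf_al rf_be sys_of_word)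

/-! ### the observable under a relabelling -/

theorem sep_congr {π π' : ℕ → ℕ} {N k x y z : ℕ} (h : ∀ i, i < N → π i = π' i) :
    Al194.Sep π N k x y z ↔ Al194.Sep π' N k x y z := by
  unfold Al194.Sep Al194.st Al194.ing
  refine exists_congr fun i => ?_
  by_cases hi : i < N
  · rw [h i hi]
  · simp only [hi, false_and]

theorem vc_congr {π π' : ℕ → ℕ} {N k x y z : ℕ} (h : ∀ i, i < N → π i = π' i) :
    Al194.Vc π N k x y z = Al194.Vc π' N k x y z := by
  unfold Al194.Vc
  rw [sep_congr (x := y) (y := z) (z := x) h, sep_congr (x := x) (y := y) (z := z) h,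
    sep_congr (x := z) (y := x) (z := y) h]

theorem rotate_eq_of_head {α : Type*} {l : List α} (hn : l.Nodup) {i j : ℕ}
    (h : (l.rotate i)[0]? = (l.rotate j)[0]?) : l.rotate i = l.rotate j := by
  rcases Nat.eq_zero_or_pos l.length with hl | hl
  · rw [List.length_eq_zero_iff.1 hl]; simp
  rw [List.getElem?_rotate hl, List.getElem?_rotate hl, Nat.zero_add, Nat.zero_add] at h
  have hi : i % l.length < l.length := Nat.mod_lt _ hl
  have hj : j % l.length < l.length := Nat.mod_lt _ hl
  rw [List.getElem?_eq_getElem hi, List.getElem?_eq_getElem hj, Option.some_inj] at h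
  have h2 := (List.Nodup.getElem_inj_iff hn).1 h
  rw [← List.rotate_mod l i, ← List.rotate_mod l j, h2]

theorem rotl_eq {α : Type*} [BEq α] [LawfulBEq α] {l l' : List α} (hn : l.Nodup) (hr : l ~r l') {m : α}
    (hm : m ∈ l) (h : l'[0]? = some m) : Al194.rotl l m = l' := by
  obtain ⟨n, rfl⟩ := hr
  unfold Al194.rotl
  refine rotate_eq_of_head hn ?_
  have hl : 0 < l.length := List.length_pos_of_mem hm
  have hi := List.idxOf_lt_length_of_mem hm
  rw [h, List.getElem?_rotate hl, Nat.zero_add, Nat.mod_eq_of_lt hi,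
    List.getElem?_eq_getElem hi, List.getElem_idxOf hi]

theorem rotl_head {α : Type*} [BEq α] [LawfulBEq α] {l : List α} {m : α} (hm : m ∈ l) :
    (Al194.rotl l m)[0]? = some m := by
  unfold Al194.rotl
  have hl : 0 < l.length := List.length_pos_of_mem hm
  have hi := List.idxOf_lt_length_of_mem hm
  rw [List.getElem?_rotate hl, Nat.zero_add, Nat.mod_eq_of_lt hi,
    List.getElem?_eq_getElem hi, List.getElem_idxOf hi]

theorem idx_map' {α β : Type*} [BEq α] [LawfulBEq α] [BEq β] [LawfulBEq β] {f : α → β} {l : List α}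
    (hinj : ∀ x ∈ l, ∀ y ∈ l, f x = f y → x = y) {a : α} (ha : a ∈ l) :
    (l.map f).idxOf (f a) = l.idxOf a := by
  induction l with
  | nil => simp at ha
  | cons x L ih =>
    rw [List.map_cons]
    by_cases hxa : x = a
    · subst hxa
      rw [List.idxOf_cons_self, List.idxOf_cons_self]
    · have h1 : f x ≠ f a := fun e => hxa (hinj x (by simp) a ha e)
      rw [List.idxOf_cons_ne _ h1, List.idxOf_cons_ne _ hxa]
      have ha' : a ∈ L := (List.mem_cons.1 ha).resolve_left (fun e => hxa e.symm)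
      rw [ih (fun x hx y hy => hinj x (by simp [hx]) y (by simp [hy])) ha']

section map

variable {T T' : Type*} [DecidableEq T] [DecidableEq T']

/-- **relabelling of the ports** -/
theorem hv_map {w : Wd T} {w' : Wd T'} (h : Sw300.Ok w) (h' : Sw300.Ok w')
    {f : Port T' → Port T} (hf : ∀ x ∈ Sw300.L w', ∀ y ∈ Sw300.L w', f x = f y → x = y)
    (hL : (Sw300.L w').map f ~r Sw300.L w) {s : T → Bool} {s' : T' → Bool}
    (hM : ∀ a ∈ Sw300.L w', Sw300.M s w (f a) = f (Sw300.M s' w' a))
    (hu : Sw300.u s w = f (Sw300.u s' w')) {m1 m2 m3 : Port T'} (h1 : m1 ∈ Sw300.L w')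
    (h2 : m2 ∈ Sw300.L w') (h3 : m3 ∈ Sw300.L w') (h12 : m1 ≠ m2) (h13 : m1 ≠ m3)
    (h23 : m2 ≠ m3) : HV w (f m1) (f m2) (f m3) s = HV w' m1 m2 m3 s' := by
  have hmem : ∀ a ∈ Sw300.L w', f a ∈ Sw300.L w := fun a ha =>
    hL.mem_iff.1 (List.mem_map_of_mem ha)
  have nd := Sw300.nodup h
  have nd' := Sw300.nodup h'
  have I' := Sw300.Ok.inv s' w' h'
  rw [Ob664.HV_eq_VL h (hmem _ h1) (hmem _ h2) (hmem _ h3) (fun e => h12 (hf _ h1 _ h2 e))
    (fun e => h13 (hf _ h1 _ h3 e)) (fun e => h23 (hf _ h2 _ h3 e)),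
    Ob664.HV_eq_VL h' h1 h2 h3 h12 h13 h23]
  set l' := Al194.rotl (Sw300.L w') m1 with hl'
  have hml : ∀ x, x ∈ l' ↔ x ∈ Sw300.L w' := fun x => Al194.mem_rotl
  have e1 : Al194.rotl (Sw300.L w) (f m1) = l'.map f := by
    refine rotl_eq nd ?_ (hmem _ h1) ?_
    · refine hL.symm.trans ?_
      refine ⟨(Sw300.L w').idxOf m1, ?_⟩
      rw [← List.map_rotate]; rfl
    · rw [List.getElem?_map, rotl_head h1]; rfl
  have hlen : (Sw300.L w).length = (Sw300.L w').length := by
    have := hL.perm.length_eq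
    rw [List.length_map] at this
    exact this.symm
  have hinj : ∀ x ∈ l', ∀ y ∈ l', f x = f y → x = y := fun x hx y hy =>
    hf x ((hml x).1 hx) y ((hml y).1 hy)
  have idx : ∀ x ∈ l', (l'.map f).idxOf (f x) = l'.idxOf x := fun x hx =>
    idx_map' hinj hx
  unfold Al194.VL
  rw [e1, hlen, hu, idx _ ((hml _).2 I'.um), idx _ ((hml _).2 h2), idx _ ((hml _).2 h3)]
  refine vc_congr fun i hi => ?_
  unfold Al194.piL
  rw [e1]
  have hi' : i < l'.length := by rw [hl', Al194.rotl_length]; exact hi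
  have e2 : (l'.map f).getD i none = f (l'.getD i none) := by
    rw [List.getD_eq_getElem _ _ (by rw [List.length_map]; exact hi'),
      List.getD_eq_getElem _ _ hi', List.getElem_map]
  have hmi : l'.getD i none ∈ l' := by
    rw [List.getD_eq_getElem _ _ hi']; exact List.getElem_mem _
  rw [e2, hM _ ((hml _).1 hmi), idx _ ((hml _).2 (I'.mem _ ((hml _).1 hmi)))]

/-! ### the clockwise order -/

/-- port map of a tile map -/
def fp {T T' : Type*} (g : T' → T) : Port T' → Port T := Option.map (Prod.map g id)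

@[simp] theorem fp_none {T T' : Type*} (g : T' → T) : fp g none = none := rfl
@[simp] theorem fp_some {T T' : Type*} (g : T' → T) (t : T') (d : ZMod 4) :
    fp g (some (t, d)) = some (g t, d) := rfl

theorem fp_rot {T T' : Type*} (g : T' → T) (x : Port T') :
    fp g (Xr249.rot x) = Xr249.rot (fp g x) := by
  rcases x with _ | ⟨t, d⟩ <;> rfl

theorem nx_map {T T' : Type*} {b : Port T → Port T} {b' : Port T' → Port T'}
    {f : Port T' → Port T} {Bad : Set (Port T')} (P : Port T' → Prop)
    (hf : ∀ x y, P x → P y → f x = f y → x = y)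
    (hfr : ∀ x, f (Xr249.rot x) = Xr249.rot (f x)) (hPr : ∀ x, P x → P (Xr249.rot x))
    (hPb : ∀ x, P x → x ∉ Bad → P (b' (Xr249.rot x)))
    (hb : ∀ x, P x → x ∉ Bad → f (b' (Xr249.rot x)) = b (f (Xr249.rot x)))
    (hbad : ∀ x, P x → b' (Xr249.rot x) ∈ Bad → x ∈ Bad) {p r : Port T'}
    (h : Xr249.Nx (Gl b') p r) (hp : P p) (hpb : p ∉ Bad) : Xr249.Nx (Gl b) (f p) (f r) := by
  induction h with
  | @stop p h =>
    have e : b' (Xr249.rot p) = Xr249.rot p := by
      by_contra hne
      exact h _ ⟨rfl, fun e => hne e.symm⟩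
    have e2 := hb p hp hpb
    rw [e] at e2
    rw [hfr]
    refine .stop fun q hq => ?_
    rw [← hfr] at hq
    exact hq.2 (e2.trans hq.1)
  | @go p q r hg _ ih =>
    have hq : P q := by rw [← hg.1]; exact hPb _ hp hpb
    have hqb : q ∉ Bad := fun h => hpb (hbad p hp (by rw [hg.1]; exact h))
    refine .go (q := f q) ⟨?_, ?_⟩ (ih hq hqb)
    · rw [← hfr, ← hb p hp hpb, hg.1]
    · rw [← hfr]
      intro e
      exact hg.2 (hf _ _ (hPr _ hp) hq e)

theorem chain_map_mem {α β : Type*} {R : α → α → Prop} {S : β → β → Prop} {f : α → β} :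
    ∀ {l : List α}, List.IsChain R l → (∀ x ∈ l, ∀ y, R x y → S (f x) (f y)) →
      List.IsChain S (l.map f)
  | [], _, _ => by simp
  | [x], _, _ => by simp
  | x :: y :: l, h, h1 => by
    simp only [List.map_cons, List.isChain_cons_cons] at h ⊢
    have := chain_map_mem (l := y :: l) h.2 fun z hz => h1 z (by simp [hz])
    rw [List.map_cons] at this
    exact ⟨h1 x (by simp) y h.1, this⟩

theorem rot_of_chain {α : Type*} [BEq α] [LawfulBEq α] {r : α → α → Prop}
    (hr : ∀ a b c, r a b → r a c → b = c) {l l' : List α} (h : Cycle.Chain r (l : Cycle α))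
    (h' : Cycle.Chain r (l' : Cycle α)) (nd : l.Nodup) (nd' : l'.Nodup) {y : α} (hy : y ∈ l)
    (hy' : y ∈ l') : l' ~r l := by
  have key : ∀ {l : List α}, Cycle.Chain r (l : Cycle α) → l.Nodup → y ∈ l →
      ∃ t, l ~r y :: t ∧ List.IsChain r (y :: (t ++ [y])) ∧ y ∉ t := by
    intro l h nd hy
    have h0 := rotl_head hy
    obtain ⟨t, ht⟩ : ∃ t, Al194.rotl l y = y :: t := by
      cases hx : Al194.rotl l y with
      | nil => rw [hx] at h0; simp at h0
      | cons a t => rw [hx] at h0; simp at h0; exact ⟨t, by rw [h0]⟩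
    have hr : l ~r y :: t := ⟨l.idxOf y, ht⟩
    have hc : ((y :: t : List α) : Cycle α) = (l : Cycle α) := (Cycle.coe_eq_coe.2 hr).symm
    rw [← hc, Cycle.chain_coe_cons] at h
    exact ⟨t, hr, h, (List.nodup_cons.1 (hr.nodup_iff.1 nd)).1⟩
  obtain ⟨t, h1, h2, h3⟩ := key h nd hy
  obtain ⟨t', h1', h2', h3'⟩ := key h' nd' hy'
  have e := Gc748.chain_det hr h2 h2' h3 h3'
  subst e
  exact h1'.trans h1.symm

theorem gl_det {b : Port T → Port T} (a c d : Port T) (h : Gl b a c) (h' : Gl b a d) : c = d :=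
  h.1.symm.trans h'.1

theorem gw_chain {A : Finset T} {b : Port T → Port T} {w : Wd T} (h : GW A b w) :
    Cycle.Chain (Xr249.Nx (Gl b)) (Sw300.L w : Cycle (Port T)) := by
  obtain ⟨x, l, h1, h2⟩ := h.nx
  rw [h1, Cycle.chain_coe_cons]
  exact h2

/-! ### the partner maps -/

/-- the port is a port of a tile of `A` -/
def TP (A : Finset T) (x : Port T) : Prop := ∃ t ∈ A, ∃ d, x = some (t, d)

theorem TP.portOf {A : Finset T} {x : Port T} (h : TP A x) : Env664.PortOf A x := by
  obtain ⟨t, ht, d, rfl⟩ := h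
  exact Env664.portOf_some.2 ht

theorem al_TP {A : Finset T'} {s : T → Bool} {g : T' → T} {x : Port T'} (h : TP A x) :
    TP A (al (s ∘ g) x) ∧ fp g (al (s ∘ g) x) = al s (fp g x) := by
  obtain ⟨t, ht, d, rfl⟩ := h
  exact ⟨⟨t, ht, _, rfl⟩, rfl⟩

/-- walks of the first region, lifted to the second one -/
theorem walk_lift {A : Finset T'} {b : Port T → Port T} {b' : Port T' → Port T'} {g : T' → T}
    {J : Set (Port T')} {s : T → Bool}
    (hb : ∀ x, TP A x → x ∉ J → TP A (b' x) ∧ fp g (b' x) = b (fp g x)) {a' : Port T'}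
    (ha' : TP A a') (hJ : ∀ j ∈ J, TP A j → ¬ Rf (al s) b (fp g a') (fp g j)) {y : Port T}
    (h : Rf (al s) b (fp g a') y) : ∃ y', TP A y' ∧ fp g y' = y ∧ Rf (al (s ∘ g)) b' a' y' := by
  obtain ⟨-, h⟩ := h
  induction h with
  | refl => exact ⟨a', ha', rfl, .refl trivial⟩
  | @tail x z hx hxz ih =>
    obtain ⟨x', h1, h2, h3⟩ := ih
    obtain ⟨-, -, hxz⟩ := hxz
    rcases hxz with rfl | ⟨rfl, -, -⟩
    · obtain ⟨h4, h5⟩ := al_TP (s := s) (g := g) h1
      exact ⟨_, h4, by rw [h5, h2], h3.trans (rf_al x')⟩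
    · have hxJ : x' ∉ J := by
        intro hj
        refine hJ x' hj h1 ?_
        rw [h2]
        exact ⟨trivial, hx⟩
      obtain ⟨h4, h5⟩ := hb x' h1 hxJ
      exact ⟨_, h4, by rw [h5, h2], h3.trans (rf_be x')⟩

/-- the partner maps agree -/
theorem state_same {A : Finset T'} {b : Port T → Port T} {b' : Port T' → Port T'} {g : T' → T}
    {J : Set (Port T')} {s : T → Bool} {l : List (Port T)} {l' : List (Port T')}
    {M : Port T → Port T} {M' : Port T' → Port T'} {u : Port T} {u' : Port T'}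
    (D : Sys (al s) b none l M u) (G : Sys (al (s ∘ g)) b' none l' M' u')
    (hb : ∀ x, TP A x → x ∉ J → TP A (b' x) ∧ fp g (b' x) = b (fp g x))
    (hinj : ∀ x y, TP A x → TP A y → fp g x = fp g y → x = y) (hl : ∀ a ∈ l', TP A a)
    (hll : (l'.map (fp g)) ~r l)
    (hJ : ∀ a ∈ l, a ≠ u → ∀ j ∈ J, TP A j → ¬ Rf (al s) b a (fp g j)) :
    (∀ a ∈ l', M (fp g a) = fp g (M' a)) ∧ u = fp g u' := by
  have hmem : ∀ a ∈ l', fp g a ∈ l := fun a ha => hll.mem_iff.1 (List.mem_map_of_mem ha)
  have hsur : ∀ a ∈ l, ∃ a' ∈ l', fp g a' = a := fun a ha => by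
    have := hll.mem_iff.2 ha
    rwa [List.mem_map] at this
  have hout : ∀ x, TP A x → fp g x ∈ l → x ∈ l' := by
    intro x hx hxl
    obtain ⟨y, hy, hyx⟩ := hsur _ hxl
    rw [hinj x y hx (hl y hy) hyx.symm]
    exact hy
  have key : ∀ a ∈ l', fp g a ≠ u → M (fp g a) = fp g (M' a) := by
    intro a ha hau
    have h1 := D.str _ (hmem a ha)
    obtain ⟨y', h2, h3, h4⟩ := walk_lift hb (hl a ha) (hJ _ (hmem a ha) hau) h1
    have h5 : y' ∈ l' := hout y' h2 (by rw [h3]; exact D.mem _ (hmem a ha))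
    rcases G.uni a ha y' h5 h4 with h6 | h6
    · exfalso
      rw [h6] at h3
      exact hau ((D.fix _ (hmem a ha)).1 h3.symm)
    · rw [← h3, h6]
  have hu : u = fp g u' := by
    obtain ⟨c, hc, hcu⟩ := hsur u D.uL
    by_contra hne
    have h1 : fp g u' ≠ u := fun e => hne e.symm
    have h2 := key u' G.uL h1
    have h3 : M' u' = u' := (G.fix u' G.uL).2 rfl
    rw [h3] at h2
    exact h1 ((D.fix _ (hmem _ G.uL)).1 h2)
  refine ⟨fun a ha => ?_, hu⟩
  by_cases hau : fp g a = u
  · have h1 : a = u' := hinj a u' (hl a ha) (hl u' G.uL) (hau.trans hu)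
    rw [h1, (G.fix u' G.uL).2 rfl, ← hu]
    exact (D.fix u D.uL).2 rfl
  · exact key a ha hau

end map

/-! ### the law of the tiles read through a map -/

section law

variable {κ ι : Type*} [DecidableEq κ]

theorem hv_comp (w : Wd κ) (m1 m2 m3 : Port κ) {g : κ → ι} (hg : Set.InjOn g {t | t ∈ tls w}) :
    Integrable (fun s : ι → Bool => HV w m1 m2 m3 (s ∘ g)) (PB fun _ : ι => hf) ∧
      ∫ s, HV w m1 m2 m3 (s ∘ g) ∂(PB fun _ : ι => hf) = Ob664.HW w m1 m2 m3 := by
  classical
  let S0 : Finset κ := (tls w).toFinset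
  let e : (S0 → Bool) → (κ → Bool) := fun z t => if h : t ∈ S0 then z ⟨t, h⟩ else false
  let G : (S0 → Bool) → ℂ := fun z => HV w m1 m2 m3 (e z)
  have hG : ∀ s' : κ → Bool, HV w m1 m2 m3 s' = G (fun t => s' t) := by
    intro s'
    refine Ob664.HV_congr fun t ht => ?_
    have : t ∈ S0 := List.mem_toFinset.2 ht
    simp only [e, dif_pos this]
  have hGm : ∀ {μ : Measure (S0 → Bool)}, AEStronglyMeasurable G μ := fun {μ} =>
    (measurable_of_finite G).aestronglyMeasurable
  have j1 : Function.Injective (fun t : S0 => g t) := fun a c hac =>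
    Subtype.ext (hg (List.mem_toFinset.1 a.2) (List.mem_toFinset.1 c.2) hac)
  have h1 := PB_map_inj (ι := ι) (κ := S0) j1 (fun _ => hf)
  have h2 := PB_map_inj (ι := κ) (κ := S0) (j := fun t : S0 => (t : κ)) Subtype.val_injective
    (fun _ => hf)
  have m1' : Measurable (fun (z : ι → Bool) (k : S0) => z (g k)) :=
    measurable_pi_lambda _ fun k => measurable_pi_apply _
  have m2' : Measurable (fun (z : κ → Bool) (k : S0) => z k) :=
    measurable_pi_lambda _ fun k => measurable_pi_apply _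
  have e1 : (fun s : ι → Bool => HV w m1 m2 m3 (s ∘ g)) = G ∘ fun (z : ι → Bool) (k : S0) => z (g k) := by
    funext s
    exact hG _
  have e2 : HV w m1 m2 m3 = G ∘ fun (z : κ → Bool) (k : S0) => z k := by
    funext s
    exact hG _
  constructor
  · refine Integrable.of_bound ?_ 1 (Filter.Eventually.of_forall fun _ =>
      Ob664.norm_le_of_Tri Ob664.HV_mem)
    rw [e1]
    exact ((measurable_of_finite G).comp m1').aestronglyMeasurable
  · unfold Ob664.HW
    rw [e1, e2]
    have i1 := integral_map (μ := PB fun _ : ι => hf) m1'.aemeasurable (f := G) hGm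
    have i2 := integral_map (μ := PB fun _ : κ => hf) m2'.aemeasurable (f := G) hGm
    rw [h1] at i1
    rw [h2] at i2
    exact i1.symm.trans i2

end law

/-! ### the chart at `z` -/

/-- Env tile of the tile `v` of the dislocated lattice -/
def ch (p y0 : ℤ) (v : P2) : P2 := (p + v.1, y0 - 1 + v.2)

/-- splitting in the chart (opposite convention) -/
def cs (p y0 : ℤ) (s : P2 → Bool) : P2 → Bool := fun v => !(s (ch p y0 v))

/-- medial edge of a port -/
def pd (v : P2) (d : ZMod 4) : P2 × Bool :=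
  if d = 0 then eW v else if d = 1 then eN v else if d = 2 then eE v else eS v

@[simp] theorem pd0 (v : P2) : pd v 0 = eW v := rfl
@[simp] theorem pd1 (v : P2) : pd v 1 = eN v := rfl
@[simp] theorem pd2 (v : P2) : pd v 2 = eE v := rfl
@[simp] theorem pd3 (v : P2) : pd v 3 = eS v := rfl

/-- the edge is near the center -/
def Near (r : ℕ) (e : P2 × Bool) : Prop :=
  (-(r : ℤ) ≤ e.1.1 ∧ e.1.1 ≤ r) ∧ (-(r : ℤ) ≤ e.1.2 ∧ e.1.2 ≤ r)

/-- the edge is far from the center -/
def Far (ρ : ℕ) (e : P2 × Bool) : Prop :=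
  (ρ : ℤ) ≤ e.1.1 ∨ e.1.1 ≤ -(ρ : ℤ) ∨ (ρ : ℤ) ≤ e.1.2 ∨ e.1.2 ≤ -(ρ : ℤ)

theorem ch_inj (p y0 : ℤ) : Function.Injective (ch p y0) := by
  rintro ⟨a, b⟩ ⟨c, d⟩ h
  simp only [ch, Prod.mk.injEq] at h ⊢
  omega

theorem pr_al {p y0 : ℤ} (s : P2 → Bool) (v : P2) (d : ZMod 4) :
    Pr (cs p y0 s) v (pd v d) (pd v (thru (s (ch p y0 v)) d)) := by
  have h : s (ch p y0 v) = true ∨ s (ch p y0 v) = false := by
    cases s (ch p y0 v) <;> simp
  unfold Pr cs
  rcases h with h | h <;> rcases Env664.z4 d with rfl | rfl | rfl | rfl <;> rw [h]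
  · left; exact ⟨rfl, Or.inl ⟨rfl, rfl⟩⟩
  · left; exact ⟨rfl, Or.inr (Or.inl ⟨rfl, rfl⟩)⟩
  · left; exact ⟨rfl, Or.inr (Or.inr (Or.inr ⟨rfl, rfl⟩))⟩
  · left; exact ⟨rfl, Or.inr (Or.inr (Or.inl ⟨rfl, rfl⟩))⟩
  · right; exact ⟨rfl, Or.inl ⟨rfl, rfl⟩⟩
  · right; exact ⟨rfl, Or.inr (Or.inr (Or.inl ⟨rfl, rfl⟩))⟩
  · right; exact ⟨rfl, Or.inr (Or.inr (Or.inr ⟨rfl, rfl⟩))⟩
  · right; exact ⟨rfl, Or.inr (Or.inl ⟨rfl, rfl⟩)⟩

theorem pr_port {p y0 : ℤ} {s : P2 → Bool} {v : P2} {e e' : P2 × Bool}
    (h : Pr (cs p y0 s) v e e') : ∃ d, e = pd v d ∧ e' = pd v (thru (s (ch p y0 v)) d) := by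
  unfold Pr cs at h
  rcases h with ⟨h0, h⟩ | ⟨h0, h⟩
  · have h1 : s (ch p y0 v) = true := by simpa using h0
    rw [h1]
    rcases h with ⟨rfl, rfl⟩ | ⟨rfl, rfl⟩ | ⟨rfl, rfl⟩ | ⟨rfl, rfl⟩
    · exact ⟨0, rfl, rfl⟩
    · exact ⟨1, rfl, rfl⟩
    · exact ⟨3, rfl, rfl⟩
    · exact ⟨2, rfl, rfl⟩
  · have h1 : s (ch p y0 v) = false := by simpa using h0
    rw [h1]
    rcases h with ⟨rfl, rfl⟩ | ⟨rfl, rfl⟩ | ⟨rfl, rfl⟩ | ⟨rfl, rfl⟩
    · exact ⟨0, rfl, rfl⟩
    · exact ⟨3, rfl, rfl⟩
    · exact ⟨1, rfl, rfl⟩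
    · exact ⟨2, rfl, rfl⟩

section box

open Env664 (beD nbD res_of portOf_some portOf_none nbD_leg nbD_W nbD_E nbD_N1 nbD_N nbD_Sleg nbD_S1
  nbD_S)

variable {A : Finset P2} {p y0 xr : ℤ} {R : ℕ}

/-- the box of radius `R` at `z` is in the region -/
structure Bxz (A : Finset P2) (p y0 xr : ℤ) (R : ℕ) : Prop where
  pos : 1 ≤ R
  mem : ∀ v ∈ Bx R, ch p y0 v ∈ A
  xr : p + R ≤ xr

theorem be_of {x y : Port P2} (hx : Env664.PortOf A x) (hy : Env664.PortOf A y)
    (h : nbD p y0 xr x = y) : beD A p y0 xr x = y := by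
  subst h
  exact res_of hx hy

/-- glueing of a port of the box -/
theorem be_box (hB : Bxz A p y0 xr R) {v : P2} (hv : v ∈ Bx R) (d : ZMod 4) :
    Far R (pd v d) ∨ (beD A p y0 xr (some (ch p y0 v, d)) = none ∧ pd v d = leg0) ∨
      (∃ v' ∈ Bx R, ∃ d', beD A p y0 xr (some (ch p y0 v, d)) = some (ch p y0 v', d') ∧
        pd v' d' = pd v d ∧ d ≠ d') := by
  obtain ⟨i, j⟩ := v
  have hvA := hB.mem _ hv
  have hR := hB.pos
  have hxr := hB.xr
  have pv : Env664.PortOf A (some (ch p y0 (i, j), d) : Port P2) := portOf_some.2 hvA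
  simp only [Bx, Set.mem_ofPred_eq] at hv
  rcases Env664.z4 d with rfl | rfl | rfl | rfl
  · by_cases h1 : i = -R
    · left; unfold Far; simp only [pd0, eW]; omega
    · right; right
      have hm : ((i - 1, j) : P2) ∈ Bx R := by simp only [Bx, Set.mem_ofPred_eq]; omega
      refine ⟨(i - 1, j), hm, 2, ?_, rfl, by decide⟩
      refine be_of pv (portOf_some.2 (hB.mem _ hm)) ?_
      unfold ch; rw [nbD_W]
      simp only [Option.some.injEq, Prod.mk.injEq, and_true, true_and]; omega
  · by_cases h1 : j = R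
    · left; unfold Far; simp only [pd1, eN]
      rw [if_neg (by omega)]; dsimp only; omega
    · by_cases h0 : j = 0
      · by_cases hi : i < 0
        · right; right
          have hm : ((i, 1) : P2) ∈ Bx R := by simp only [Bx, Set.mem_ofPred_eq]; omega
          refine ⟨(i, 1), hm, 3, ?_, ?_, by decide⟩
          · refine be_of pv (portOf_some.2 (hB.mem _ hm)) ?_
            unfold ch; rw [nbD_N (by omega)]
            simp only [Option.some.injEq, Prod.mk.injEq, and_true, true_and]; omega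
          · simp only [pd3, pd1, eS, eN, phi, if_pos h0, if_pos hi]; rfl
        · by_cases h2 : i = R
          · left; unfold Far; simp only [pd1, eN, phi, if_pos h0, if_neg hi]; omega
          · right; right
            have hm : ((i + 1, 1) : P2) ∈ Bx R := by simp only [Bx, Set.mem_ofPred_eq]; omega
            refine ⟨(i + 1, 1), hm, 3, ?_, ?_, by decide⟩
            · refine be_of pv (portOf_some.2 (hB.mem _ hm)) ?_
              unfold ch; rw [nbD_N1 (by omega)]
              simp only [Option.some.injEq, Prod.mk.injEq, and_true, true_and]; omega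
            · simp only [pd3, pd1, eS, eN, phi, if_pos h0, if_neg hi]; rfl
      · right; right
        have hm : ((i, j + 1) : P2) ∈ Bx R := by simp only [Bx, Set.mem_ofPred_eq]; omega
        refine ⟨(i, j + 1), hm, 3, ?_, ?_, by decide⟩
        · refine be_of pv (portOf_some.2 (hB.mem _ hm)) ?_
          unfold ch; rw [nbD_N (by omega)]
          simp only [Option.some.injEq, Prod.mk.injEq, and_true, true_and]; omega
        · simp only [pd3, pd1, eS, eN, if_neg h0]
          simp
  · by_cases h1 : i = R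
    · left; unfold Far; simp only [pd2, eE]; omega
    · right; right
      have hm : ((i + 1, j) : P2) ∈ Bx R := by simp only [Bx, Set.mem_ofPred_eq]; omega
      refine ⟨(i + 1, j), hm, 0, ?_, ?_, by decide⟩
      · refine be_of pv (portOf_some.2 (hB.mem _ hm)) ?_
        unfold ch; rw [nbD_E]
        simp only [Option.some.injEq, Prod.mk.injEq, and_true, true_and]; omega
      · simp only [pd0, pd2, eW, eE]; simp
  · by_cases h1 : j = -R
    · left; unfold Far; simp only [pd3, eS]; omega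
    · by_cases h0 : j = 1
      · subst h0
        by_cases hi : i = 0
        · right; left
          subst hi
          constructor
          · refine be_of pv (portOf_none A) ?_
            unfold ch; rw [nbD_Sleg (by omega)]
          · rfl
        · by_cases hi' : i < 0
          · right; right
            have hm : ((i, 0) : P2) ∈ Bx R := by simp only [Bx, Set.mem_ofPred_eq]; omega
            refine ⟨(i, 0), hm, 1, ?_, ?_, by decide⟩
            · refine be_of pv (portOf_some.2 (hB.mem _ hm)) ?_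
              unfold ch; rw [nbD_S (by omega)]
              simp only [Option.some.injEq, Prod.mk.injEq, and_true, true_and]; omega
            · simp only [pd3, pd1, eS, eN, phi, if_pos hi', if_true]; rfl
          · right; right
            have hm : ((i - 1, 0) : P2) ∈ Bx R := by simp only [Bx, Set.mem_ofPred_eq]; omega
            refine ⟨(i - 1, 0), hm, 1, ?_, ?_, by decide⟩
            · refine be_of pv (portOf_some.2 (hB.mem _ hm)) ?_
              unfold ch; rw [nbD_S1 (by omega)]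
              simp only [Option.some.injEq, Prod.mk.injEq, and_true, true_and]; omega
            · simp only [pd3, pd1, eS, eN, phi, if_true]
              rw [if_neg (by omega)]; simp
      · right; right
        have hm : ((i, j - 1) : P2) ∈ Bx R := by simp only [Bx, Set.mem_ofPred_eq]; omega
        refine ⟨(i, j - 1), hm, 1, ?_, ?_, by decide⟩
        · refine be_of pv (portOf_some.2 (hB.mem _ hm)) ?_
          unfold ch; rw [nbD_S (by omega)]
          simp only [Option.some.injEq, Prod.mk.injEq, and_true, true_and]; omega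
        · simp only [pd3, pd1, eS, eN]
          rw [if_neg (by omega)]

/-- two ports of the box with the same medial edge are equal or glued -/
theorem same_edge (hB : Bxz A p y0 xr R) {v v' : P2} (hv : v ∈ Bx R) (hv' : v' ∈ Bx R)
    {d d' : ZMod 4} (h : pd v d = pd v' d') :
    (v = v' ∧ d = d') ∨ beD A p y0 xr (some (ch p y0 v, d)) = some (ch p y0 v', d') := by
  obtain ⟨i, j⟩ := v
  obtain ⟨i', j'⟩ := v'
  have pv : Env664.PortOf A (some (ch p y0 (i, j), d) : Port P2) := portOf_some.2 (hB.mem _ hv)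
  have pv' : Env664.PortOf A (some (ch p y0 (i', j'), d') : Port P2) :=
    portOf_some.2 (hB.mem _ hv')
  have hR := hB.pos
  have hxr := hB.xr
  simp only [Bx, Set.mem_ofPred_eq] at hv hv'
  rcases Env664.z4 d with rfl | rfl | rfl | rfl <;>
    rcases Env664.z4 d' with rfl | rfl | rfl | rfl <;>
    simp only [pd0, pd1, pd2, pd3, eW, eE, eS, eN, phi] at h
  · left; simp only [Prod.mk.injEq, and_true, true_and] at h ⊢; omega
  · exfalso; split_ifs at h <;> simp at h
  · right
    simp only [Prod.mk.injEq, and_true, true_and] at h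
    refine be_of pv pv' ?_
    unfold ch; rw [nbD_W]
    simp only [Option.some.injEq, Prod.mk.injEq, and_true, true_and]; omega
  · exfalso; simp at h
  · exfalso; split_ifs at h <;> simp at h
  · left
    refine ⟨?_, rfl⟩
    split_ifs at h <;> simp only [Prod.mk.injEq, and_true, true_and] at h ⊢ <;> omega
  · exfalso; split_ifs at h <;> simp at h
  · right
    refine be_of pv pv' ?_
    unfold ch
    by_cases hj : j = 0
    · by_cases hi : i < 0
      · rw [if_pos hj, if_pos hi] at h
        simp only [Prod.mk.injEq, and_true, true_and] at h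
        rw [nbD_N (by omega)]
        simp only [Option.some.injEq, Prod.mk.injEq, and_true, true_and]; omega
      · rw [if_pos hj, if_neg hi] at h
        simp only [Prod.mk.injEq, and_true, true_and] at h
        rw [nbD_N1 (by omega)]
        simp only [Option.some.injEq, Prod.mk.injEq, and_true, true_and]; omega
    · rw [if_neg hj] at h
      simp only [Prod.mk.injEq, and_true, true_and] at h
      rw [nbD_N (by omega)]
      simp only [Option.some.injEq, Prod.mk.injEq, and_true, true_and]; omega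
  · right
    simp only [Prod.mk.injEq, and_true, true_and] at h
    refine be_of pv pv' ?_
    unfold ch; rw [nbD_E]
    simp only [Option.some.injEq, Prod.mk.injEq, and_true, true_and]; omega
  · exfalso; split_ifs at h <;> simp at h
  · left; simp only [Prod.mk.injEq, and_true, true_and] at h ⊢; omega
  · exfalso; simp at h
  · exfalso; simp at h
  · right
    refine be_of pv pv' ?_
    unfold ch
    by_cases hj : j' = 0
    · by_cases hi : i' < 0
      · rw [if_pos hj, if_pos hi] at h
        simp only [Prod.mk.injEq, and_true, true_and] at h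
        rw [nbD_S (by omega)]
        simp only [Option.some.injEq, Prod.mk.injEq, and_true, true_and]; omega
      · rw [if_pos hj, if_neg hi] at h
        simp only [Prod.mk.injEq, and_true, true_and] at h
        rw [nbD_S1 (by omega)]
        simp only [Option.some.injEq, Prod.mk.injEq, and_true, true_and]; omega
    · rw [if_neg hj] at h
      simp only [Prod.mk.injEq, and_true, true_and] at h
      rw [nbD_S (by omega)]
      simp only [Option.some.injEq, Prod.mk.injEq, and_true, true_and]; omega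
  · exfalso; simp at h
  · left; simp only [Prod.mk.injEq, and_true, true_and] at h ⊢; omega

/-- the port of the box with the medial edge `leg0` -/
theorem leg_port (hB : Bxz A p y0 xr R) {v : P2} (hv : v ∈ Bx R) {d : ZMod 4}
    (h : pd v d = leg0) : beD A p y0 xr none = some (ch p y0 v, d) := by
  obtain ⟨i, j⟩ := v
  have pv : Env664.PortOf A (some (ch p y0 (i, j), d) : Port P2) := portOf_some.2 (hB.mem _ hv)
  refine be_of (portOf_none A) pv ?_
  rw [nbD_leg]
  unfold leg0 at h
  rcases Env664.z4 d with rfl | rfl | rfl | rfl <;>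
    simp only [pd0, pd1, pd2, pd3, eW, eE, eS, eN, phi] at h
  · simp at h
  · exfalso; split_ifs at h <;> simp only [Prod.mk.injEq, and_true, true_and] at h <;> omega
  · simp at h
  · simp only [Prod.mk.injEq, and_true, true_and] at h
    unfold ch
    simp only [Option.some.injEq, Prod.mk.injEq, and_true, true_and]; omega

/-- a medial edge of the leg inside the box is on the strand of the leg -/
theorem leg_rf (hB : Bxz A p y0 xr R) {s : P2 → Bool} {e : P2 × Bool}
    (he : e ∈ Leg (Bx R) (cs p y0 s)) : ∀ v ∈ Bx R, ∀ d, pd v d = e →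
      Rf (al s) (beD A p y0 xr) none (some (ch p y0 v, d)) := by
  induction he with
  | refl =>
    intro v hv d hd
    rw [← leg_port hB hv hd]
    exact rf_be none
  | @tail e e' _ hst ih =>
    intro v' hv' d' hd'
    obtain ⟨v, hv, hp⟩ := hst
    obtain ⟨d, rfl, h2⟩ := pr_port hp
    have h1 := ih v hv d rfl
    have h3 : Rf (al s) (beD A p y0 xr) none (some (ch p y0 v, thru (s (ch p y0 v)) d)) :=
      h1.trans (rf_al _)
    rcases same_edge hB hv hv' (h2.symm.trans hd'.symm) with ⟨rfl, rfl⟩ | h4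
    · exact h3
    · refine h3.trans ?_
      rw [← h4]
      exact rf_be _

/-- **a strand of a free end which comes near `z` is a second strand** -/
theorem near_T (hB : Bxz A p y0 xr R) {s : P2 → Bool} {a : Port P2} {r : ℕ}
    (hfree : beD A p y0 xr a = a) (ha : a ≠ none) (hal : Function.Involutive (al s))
    (hbe : Function.Involutive (beD A p y0 xr)) (hno : ¬ Rf (al s) (beD A p y0 xr) none a)
    {v0 : P2} (hv0 : v0 ∈ Bx R) {d0 : ZMod 4} (hn : Near r (pd v0 d0))
    (h : Rf (al s) (beD A p y0 xr) a (some (ch p y0 v0, d0))) :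
    cs p y0 s ∈ T R r R := by
  have hleg : ∀ {e : P2 × Bool}, e = pd v0 d0 → e ∉ Leg (Bx R) (cs p y0 s) := by
    rintro e rfl he
    exact hno ((leg_rf hB he v0 hv0 d0 rfl).trans (h.symm hal hbe))
  have hsy : ∀ {e e' : P2 × Bool}, Relation.ReflTransGen (St (Bx R) (cs p y0 s)) e e' →
      Relation.ReflTransGen (St (Bx R) (cs p y0 s)) e' e := by
    intro e e' h
    induction h with
    | refl => exact .refl
    | tail _ h ih => exact .head h.symm ih
  have key : ∀ y, Rf (al s) (beD A p y0 xr) (some (ch p y0 v0, d0)) y →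
      (∃ e', Relation.ReflTransGen (St (Bx R) (cs p y0 s)) (pd v0 d0) e' ∧ Far R e') ∨
      (∃ v ∈ Bx R, ∃ d, y = some (ch p y0 v, d) ∧
        Relation.ReflTransGen (St (Bx R) (cs p y0 s)) (pd v0 d0) (pd v d)) := by
    rintro y ⟨-, hy⟩
    induction hy with
    | refl => exact Or.inr ⟨v0, hv0, d0, rfl, .refl⟩
    | @tail x z _ hxz ih =>
      rcases ih with ih | ⟨v, hv, d, rfl, ih⟩
      · exact Or.inl ih
      obtain ⟨-, -, hxz⟩ := hxz
      rcases hxz with rfl | ⟨rfl, -, -⟩
      · exact Or.inr ⟨v, hv, _, rfl, ih.tail ⟨v, hv, pr_al s v d⟩⟩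
      · rcases be_box hB hv d with h1 | ⟨-, h1⟩ | ⟨v', hv', d', h1, h2, -⟩
        · exact Or.inl ⟨_, ih, h1⟩
        · exfalso
          rw [h1] at ih
          exact hleg rfl (hsy ih)
        · refine Or.inr ⟨v', hv', d', h1, ?_⟩
          rw [h2]; exact ih
  have hfin : ∃ e', Relation.ReflTransGen (St (Bx R) (cs p y0 s)) (pd v0 d0) e' ∧ Far R e' := by
    rcases key a (h.symm hal hbe) with h1 | ⟨v, hv, d, rfl, h1⟩
    · exact h1
    rcases be_box hB hv d with h2 | ⟨h2, -⟩ | ⟨v', hv', d', h2, -, h4⟩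
    · exact ⟨_, h1, h2⟩
    · rw [hfree] at h2; exact absurd h2 ha
    · rw [hfree] at h2
      simp only [Option.some.injEq, Prod.mk.injEq] at h2
      exact absurd h2.2 h4
  obtain ⟨e', h1, h2⟩ := hfin
  exact ⟨pd v0 d0, e', h1, hleg rfl, hn, h2⟩

end box

/-! ### the probability of the event in the chart -/

theorem cs_map (p y0 : ℤ) : (muT).map (cs p y0) = muT := by
  have h1 := PB_map_inj (ι := P2) (κ := P2) (ch_inj p y0) (fun _ => hf)
  have h2 := PB_map_not (fun _ : P2 => hf)
  have m1 : Measurable (fun (z : P2 → Bool) (k : P2) => z (ch p y0 k)) :=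
    measurable_pi_lambda _ fun k => measurable_pi_apply _
  have m2 : Measurable (fun (z : P2 → Bool) (k : P2) => !z k) :=
    measurable_pi_lambda _ fun k => (measurable_of_finite not).comp (measurable_pi_apply k)
  have e : cs p y0 = (fun (z : P2 → Bool) (k : P2) => !z k) ∘
      fun (z : P2 → Bool) (k : P2) => z (ch p y0 k) := rfl
  rw [e, ← Measure.map_map m2 m1, h1, h2]
  simp only [sigma_hf]

theorem cs_meas (p y0 : ℤ) : Measurable (cs p y0) :=
  measurable_pi_lambda _ fun k => (measurable_of_finite not).comp (measurable_pi_apply (ch p y0 k))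

theorem cs_real (p y0 : ℤ) (R : ℤ) (r ρ : ℕ) :
    (muT).real {s | cs p y0 s ∈ T R r ρ} = (muT).real (T R r ρ) := by
  have hm := (T_dep R r ρ).measurableSet
  have h : (Measure.map (cs p y0) muT).real (T R r ρ) = (muT).real {s | cs p y0 s ∈ T R r ρ} := by
    rw [measureReal_def, measureReal_def, Measure.map_apply (cs_meas p y0) hm]
    rfl
  rw [← h, cs_map]

/-! ### comparison of two regions -/

section core

open Env664 (beD)

/-- Two regions which differ only near `z = (p, y0)`: `(A, beD A p y0 xr)` and `(A', b')`.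
`g` relabels the tiles of `A'`; `J` = ports of `A'` near `z` where the glueings may differ;
`Bad` = vertex states (port and next port, clockwise) around `J`. -/
structure Cmp (A A' : Finset P2) (p y0 xr : ℤ) (b' : Port P2 → Port P2) (g : P2 → P2)
    (J Bad : Set (Port P2)) (r R : ℕ) : Prop where
  box : Bxz A p y0 xr R
  inj : Set.InjOn g A'
  leg : b' none ≠ none
  near : ∀ t d, some (t, d) ∈ J → t ∈ A' → ∃ v ∈ Bx R, g t = ch p y0 v ∧ Near r (pd v d)
  agr : ∀ x, TP A' x → x ∉ J → TP A' (b' x) ∧ fp g (b' x) = beD A p y0 xr (fp g x)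
  badJ : ∀ x, TP A' x → Xr249.rot x ∈ J → x ∈ Bad
  back : ∀ x, TP A' x → b' (Xr249.rot x) ∈ Bad → x ∈ Bad
  free : ∀ x, TP A' x → b' x = x → x ∉ Bad

variable {A A' : Finset P2} {p y0 xr : ℤ} {b' : Port P2 → Port P2} {g : P2 → P2}
  {J Bad : Set (Port P2)} {r R : ℕ} {w w' : Wd P2}

theorem TP.rot {A : Finset P2} {x : Port P2} (h : TP A x) : TP A (Xr249.rot x) := by
  obtain ⟨t, ht, d, rfl⟩ := h
  exact ⟨t, ht, _, rfl⟩

theorem fp_inj (hg : Set.InjOn g A') {x y : Port P2} (hx : TP A' x) (hy : TP A' y)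
    (h : fp g x = fp g y) : x = y := by
  obtain ⟨t, ht, d, rfl⟩ := hx
  obtain ⟨t', ht', d', rfl⟩ := hy
  simp only [fp_some, Option.some.injEq, Prod.mk.injEq] at h
  rw [hg ht ht' h.1, h.2]

/-- members of the list of a good word -/
theorem gw_mem {A : Finset P2} {b : Port P2 → Port P2} {w : Wd P2} (h : GW A b w)
    (hl : b none ≠ none) {x : Port P2} (hx : x ∈ Sw300.L w) : TP A x ∧ b x = x := by
  have hb := (Gc748.be_state h.word.1).free x hx
  rw [h.word.2.2.2 x] at hb
  rcases x with _ | ⟨t, d⟩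
  · exact absurd hb hl
  · exact ⟨⟨t, (h.word.2.2.1 t).1 (Gc748.mem_L_tls h.word.1 hx), d, rfl⟩, hb⟩

theorem gw_be {A : Finset P2} {b : Port P2 → Port P2} {w : Wd P2} (h : GW A b w) :
    Sw300.be w = b := funext h.word.2.2.2

theorem Cmp.legA (hC : Cmp A A' p y0 xr b' g J Bad r R) : beD A p y0 xr none ≠ none := by
  have h1 : (((0 : ℤ), (1 : ℤ)) : P2) ∈ Bx (R : ℤ) := by
    have := hC.box.pos
    simp only [Bx, Set.mem_ofPred_eq]; omega
  rw [leg_port hC.box h1 (d := 3) rfl]
  simp

/-- the clockwise lists agree -/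
theorem Cmp.list (hC : Cmp A A' p y0 xr b' g J Bad r R) (hw : GW A (beD A p y0 xr) w)
    (hw' : GW A' b' w') {m : Port P2} (hm : m ∈ Sw300.L w') (hm' : fp g m ∈ Sw300.L w) :
    (Sw300.L w').map (fp g) ~r Sw300.L w := by
  have hmem : ∀ x ∈ Sw300.L w', TP A' x ∧ b' x = x := fun x hx => gw_mem hw' hC.leg hx
  have hnx : ∀ x ∈ Sw300.L w', ∀ y, Xr249.Nx (Gl b') x y →
      Xr249.Nx (Gl (beD A p y0 xr)) (fp g x) (fp g y) := by
    intro x hx y hxy
    obtain ⟨h1, h2⟩ := hmem x hx
    refine nx_map (Bad := Bad) (TP A') (fun x y hx hy h => fp_inj hC.inj hx hy h) (fp_rot g)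
      (fun x h => h.rot) ?_ ?_ hC.back hxy h1 (hC.free x h1 h2)
    · intro x hx hxb
      exact (hC.agr _ hx.rot fun h => hxb (hC.badJ x hx h)).1
    · intro x hx hxb
      exact (hC.agr _ hx.rot fun h => hxb (hC.badJ x hx h)).2
  have c' : Cycle.Chain (Xr249.Nx (Gl (beD A p y0 xr)))
      (((Sw300.L w').map (fp g) : List (Port P2)) : Cycle (Port P2)) := by
    obtain ⟨x, l, h1, h2⟩ := hw'.nx
    rw [h1] at hnx
    rw [h1, List.map_cons, Cycle.chain_coe_cons]
    have h3 := chain_map_mem (f := fp g) (l := x :: (l ++ [x])) h2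
      (S := Xr249.Nx (Gl (beD A p y0 xr))) fun z hz y => by
        refine hnx z ?_ y
        simp only [List.mem_cons, List.mem_append, List.mem_nil_iff, or_false] at hz ⊢
        tauto
    rw [List.map_cons, List.map_append, List.map_cons, List.map_nil] at h3
    exact h3
  have nd' : ((Sw300.L w').map (fp g)).Nodup := by
    refine List.Nodup.map_on ?_ (Sw300.nodup hw'.word.1)
    intro x hx y hy h
    exact fp_inj hC.inj (hmem x hx).1 (hmem y hy).1 h
  exact rot_of_chain (r := Xr249.Nx (Gl (beD A p y0 xr)))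
    (fun a b c => Xr249.Nx.det (fun a c d => gl_det a c d)) (gw_chain hw) c'
    (Sw300.nodup hw.word.1) nd' hm' (List.mem_map_of_mem hm)

/-- the observables agree off the event -/
theorem Cmp.hv (hC : Cmp A A' p y0 xr b' g J Bad r R) (hw : GW A (beD A p y0 xr) w)
    (hw' : GW A' b' w') {m1 m2 m3 : Port P2} (h1 : m1 ∈ Sw300.L w') (h2 : m2 ∈ Sw300.L w')
    (h3 : m3 ∈ Sw300.L w') (h12 : m1 ≠ m2) (h13 : m1 ≠ m3) (h23 : m2 ≠ m3)
    (h1' : fp g m1 ∈ Sw300.L w) {s : P2 → Bool} (hs : cs p y0 s ∉ T R r R) :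
    HV w (fp g m1) (fp g m2) (fp g m3) s = HV w' m1 m2 m3 (s ∘ g) := by
  have hmem : ∀ x ∈ Sw300.L w', TP A' x ∧ b' x = x := fun x hx => gw_mem hw' hC.leg hx
  have hL := hC.list hw hw' h1 h1'
  have D := sys_of_word hw.word.1 s
  rw [gw_be hw] at D
  have G := sys_of_word hw'.word.1 (s ∘ g)
  rw [gw_be hw'] at G
  obtain ⟨hM, hu⟩ := state_same (A := A') (J := J) D G hC.agr
    (fun x y hx hy h => fp_inj hC.inj hx hy h) (fun a ha => (hmem a ha).1) hL (by
      intro a ha hau j hj hjT hR
      obtain ⟨t, ht, d, rfl⟩ := hjT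
      obtain ⟨v, hv, hv1, hv2⟩ := hC.near t d hj ht
      rw [fp_some, hv1] at hR
      obtain ⟨ha1, ha2⟩ := gw_mem hw hC.legA ha
      refine hs (near_T hC.box ha2 ?_ D.ali D.bei ?_ hv hv2 hR)
      · rintro rfl
        obtain ⟨t, -, d, h⟩ := ha1
        simp at h
      · intro h
        exact hau ((D.leg a ha).1 h))
  exact hv_map hw.word.1 hw'.word.1
    (fun x hx y hy h => fp_inj hC.inj (hmem x hx).1 (hmem y hy).1 h) hL hM hu h1 h2 h3 h12 h13 h23

/-- **comparison of the observables of two regions which differ only near `z`** -/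
theorem dr_core (hC : Cmp A A' p y0 xr b' g J Bad r R) (hw : GW A (beD A p y0 xr) w)
    (hw' : GW A' b' w') {m1 m2 m3 : Port P2} (h1 : m1 ∈ Sw300.L w') (h2 : m2 ∈ Sw300.L w')
    (h3 : m3 ∈ Sw300.L w') (h12 : m1 ≠ m2) (h13 : m1 ≠ m3) (h23 : m2 ≠ m3)
    (h1' : fp g m1 ∈ Sw300.L w) :
    ‖Ob664.HW w (fp g m1) (fp g m2) (fp g m3) - Ob664.HW w' m1 m2 m3‖ ≤
      2 * (muT).real (T R r R) := by
  classical
  have hg : Set.InjOn g {t | t ∈ tls w'} := fun t ht t' ht' h =>
    hC.inj ((hw'.word.2.2.1 t).1 ht) ((hw'.word.2.2.1 t').1 ht') h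
  obtain ⟨i2, e2⟩ := hv_comp w' m1 m2 m3 hg
  have i1 := Ob664.integrable_HV w (fp g m1) (fp g m2) (fp g m3)
  set Ev : Set (P2 → Bool) := {s | cs p y0 s ∈ T R r R} with hEv
  have hEm : MeasurableSet Ev := cs_meas p y0 (T_dep R r R).measurableSet
  have e1 : Ob664.HW w (fp g m1) (fp g m2) (fp g m3) - Ob664.HW w' m1 m2 m3 =
      ∫ s, (HV w (fp g m1) (fp g m2) (fp g m3) s - HV w' m1 m2 m3 (s ∘ g)) ∂muT := by
    rw [integral_sub i1 i2, e2]
    rfl
  rw [e1]
  refine (norm_integral_le_integral_norm _).trans ?_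
  have hle : ∀ s, ‖HV w (fp g m1) (fp g m2) (fp g m3) s - HV w' m1 m2 m3 (s ∘ g)‖ ≤
      Ev.indicator (fun _ => (2 : ℝ)) s := by
    intro s
    by_cases hs : s ∈ Ev
    · rw [Set.indicator_of_mem hs]
      refine (norm_sub_le _ _).trans ?_
      have a1 : ‖HV w (fp g m1) (fp g m2) (fp g m3) s‖ ≤ 1 := Ob664.norm_le_of_Tri Ob664.HV_mem
      have a2 : ‖HV w' m1 m2 m3 (s ∘ g)‖ ≤ 1 := Ob664.norm_le_of_Tri Ob664.HV_mem
      linarith
    · rw [Set.indicator_of_notMem hs, hC.hv hw hw' h1 h2 h3 h12 h13 h23 h1' hs, sub_self,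
        norm_zero]
  have hint : Integrable (Ev.indicator fun _ => (2 : ℝ)) muT :=
    (integrable_const _).indicator hEm
  refine (integral_mono_of_nonneg (Filter.Eventually.of_forall fun _ => norm_nonneg _) hint
    (Filter.Eventually.of_forall hle)).trans ?_
  rw [integral_indicator hEm, setIntegral_const, smul_eq_mul, hEv, cs_real]
  linarith

/-- the same with the decay -/
theorem dr_core_le : ∃ C a : ℝ, 0 < C ∧ 0 < a ∧ ∀ {A A' : Finset P2} {p y0 xr : ℤ}
    {b' : Port P2 → Port P2} {g : P2 → P2} {J Bad : Set (Port P2)} {r R : ℕ} {w w' : Wd P2},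
    1 ≤ r → Cmp A A' p y0 xr b' g J Bad r R → GW A (beD A p y0 xr) w → GW A' b' w' →
    ∀ {m1 m2 m3 : Port P2}, m1 ∈ Sw300.L w' → m2 ∈ Sw300.L w' → m3 ∈ Sw300.L w' → m1 ≠ m2 →
      m1 ≠ m3 → m2 ≠ m3 → fp g m1 ∈ Sw300.L w →
      ‖Ob664.HW w (fp g m1) (fp g m2) (fp g m3) - Ob664.HW w' m1 m2 m3‖ ≤
        C * ((r : ℝ) / R) ^ a := by
  obtain ⟨C, a, hC0, ha0, h⟩ := T_le
  refine ⟨2 * C, a, by positivity, ha0, ?_⟩
  intro A A' p y0 xr b' g J Bad r R w w' hr hC hw hw' m1 m2 m3 h1 h2 h3 h12 h13 h23 h1'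
  refine (dr_core hC hw hw' h1 h2 h3 h12 h13 h23 h1').trans ?_
  have := h R r R hr hC.box.pos
  nlinarith

end core

end Crest.Agent.R158.Dr945
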