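import Crest.Agent.R158.Dr7_945

/-!
# Row 158, BLOCK DR (helper945), part 8: horizontal displacement of `z`

* `dr_hor` : `z = (p, y0)` against `z' = (p + k, y0)` in the same region
-/

set_option autoImplicit false
set_option linter.unusedSectionVars false
set_option linter.unusedSimpArgs false

noncomputable section

namespace Crest.Agent.R158.Dr945

open MeasureTheory ProbabilityTheory unitInterval
open Crest.Agent.R161.Geo729
open Crest.Agent.R158.Rs689
open Crest.Agent.R158.Sw300 (Port Wd thru tls)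
open Crest.Agent.R158.Ob664 (HV HW GW Gl)
open Env664 (beD nbD res_of portOf_some portOf_none nbD_leg nbD_W nbD_E nbD_N1 nbD_N nbD_Sleg nbD_S1
  nbD_S)

variable {A : Finset P2} {p y0 k xr : ℤ} {R : ℕ}

/-- the ports near `z'` where the glueings differ -/
def Jh (p y0 k : ℤ) : Set (Port P2) :=
  {x | x = none ∨ ∃ c, p ≤ c ∧ c ≤ p + k ∧ (x = some ((c, y0), 3) ∨
    (c < p + k ∧ x = some ((c, y0 - 1), 1)))}

/-- the vertex states around them -/
def Bh (p y0 k : ℤ) : Set (Port P2) :=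
  {x | x = none ∨ x = some ((p + k + 1, y0), 3) ∨ x = some ((p + k, y0), 2) ∨
    ∃ c, p ≤ c ∧ c ≤ p + k ∧ (x = some ((c, y0), 3) ∨ x = some ((c - 1, y0), 2) ∨
      x = some ((c - 1, y0 - 1), 1) ∨ x = some ((c, y0 - 1), 0))}

theorem fp_id (x : Port P2) : fp (fun t : P2 => t) x = x := by
  rcases x with _ | ⟨t, d⟩ <;> rfl

theorem hor_cmp (hB : Bxz A p y0 xr R) (hk : 0 < k) (kR : k + 1 ≤ R) (hx : p + k + 1 ≤ xr)
    (hr : (xr + 1, y0) ∉ A) :
    Cmp A A p y0 xr (beD A (p + k) y0 xr) (fun t => t) (Jh p y0 k) (Bh p y0 k) k.toNat R := by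
  have hR := hB.pos
  have hbox : ∀ x y, p - R ≤ x → x ≤ p + R → y0 - 1 - R ≤ y → y ≤ y0 - 1 + R → (x, y) ∈ A := by
    intro x y h1 h2 h3 h4
    have := hB.mem (x - p, y - y0 + 1) (by simp only [Bx, Set.mem_ofPred_eq]; omega)
    unfold ch at this
    dsimp only at this
    rwa [show p + (x - p) = x by ring, show y0 - 1 + (y - y0 + 1) = y by ring] at this
  have hinv := Env664.beD_invol (A := A) (p := p + k) (y0 := y0) (xr := xr) (by omega) hr
  have hbx : ∀ x y, p - 1 ≤ x → x ≤ p + k + 1 → y0 - 1 ≤ y → y ≤ y0 → (x, y) ∈ A :=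
    fun x y h1 h2 h3 h4 => hbox x y (by omega) (by omega) (by omega) (by omega)
  have b3 : ∀ c, p ≤ c → c < p + k →
      beD A (p + k) y0 xr (some ((c, y0), 3)) = some ((c, y0 - 1), 1) := by
    intro c h1 h2
    exact be_of (portOf_some.2 (hbx _ _ (by omega) (by omega) (by omega) (by omega)))
      (portOf_some.2 (hbx _ _ (by omega) (by omega) (by omega) (by omega))) (nbD_S (by omega))
  have b3' : beD A (p + k) y0 xr (some ((p + k, y0), 3)) = none :=
    be_of (portOf_some.2 (hbx _ _ (by omega) (by omega) (by omega) (by omega))) (portOf_none _)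
      (nbD_Sleg ⟨rfl, rfl⟩)
  have b2 : ∀ c, p ≤ c → c ≤ p + k →
      beD A (p + k) y0 xr (some ((c - 1, y0), 2)) = some ((c, y0), 0) := by
    intro c h1 h2
    refine be_of (portOf_some.2 (hbx _ _ (by omega) (by omega) (by omega) (by omega)))
      (portOf_some.2 (hbx _ _ (by omega) (by omega) (by omega) (by omega))) ?_
    rw [nbD_E, sub_add_cancel]
  have b1 : ∀ c, p ≤ c → c ≤ p + k →
      beD A (p + k) y0 xr (some ((c - 1, y0 - 1), 1)) = some ((c - 1, y0), 3) := by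
    intro c h1 h2
    refine be_of (portOf_some.2 (hbx _ _ (by omega) (by omega) (by omega) (by omega)))
      (portOf_some.2 (hbx _ _ (by omega) (by omega) (by omega) (by omega))) ?_
    rw [nbD_N (by omega), sub_add_cancel]
  have b0 : ∀ c, p ≤ c → c ≤ p + k →
      beD A (p + k) y0 xr (some ((c, y0 - 1), 0)) = some ((c - 1, y0 - 1), 2) := by
    intro c h1 h2
    exact be_of (portOf_some.2 (hbx _ _ (by omega) (by omega) (by omega) (by omega)))
      (portOf_some.2 (hbx _ _ (by omega) (by omega) (by omega) (by omega))) nbD_W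
  have b4 : beD A (p + k) y0 xr (some ((p + k + 1, y0), 3)) = some ((p + k, y0 - 1), 1) := by
    refine be_of (portOf_some.2 (hbx _ _ (by omega) (by omega) (by omega) (by omega)))
      (portOf_some.2 (hbx _ _ (by omega) (by omega) (by omega) (by omega))) ?_
    rw [nbD_S1 (by omega), add_sub_cancel_right]
  have b5 : beD A (p + k) y0 xr (some ((p + k, y0), 2)) = some ((p + k + 1, y0), 0) :=
    be_of (portOf_some.2 (hbx _ _ (by omega) (by omega) (by omega) (by omega)))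
      (portOf_some.2 (hbx _ _ (by omega) (by omega) (by omega) (by omega))) nbD_E
  have b6 : beD A (p + k) y0 xr none = some ((p + k, y0), 3) :=
    be_of (portOf_none _) (portOf_some.2 (hbx _ _ (by omega) (by omega) (by omega) (by omega)))
      nbD_leg
  refine ⟨hB, fun _ _ _ _ h => h, by rw [b6]; simp, ?_, ?_, ?_, ?_, ?_⟩
  · -- near
    rintro ⟨x, y⟩ d hj ht
    simp only [Jh, Set.mem_ofPred_eq, reduceCtorEq, false_or, Option.some.injEq,
      Prod.mk.injEq] at hj
    obtain ⟨c, h1, h2, ⟨⟨rfl, rfl⟩, rfl⟩ | ⟨h3, ⟨rfl, rfl⟩, rfl⟩⟩ := hj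
    · refine ⟨(x - p, 1), by simp only [Bx, Set.mem_ofPred_eq]; omega, ?_, ?_⟩
      · unfold ch; simp only [Prod.mk.injEq, true_and, and_true]; omega
      · unfold Near; simp only [pd3, eS]; omega
    · refine ⟨(x - p, 0), by simp only [Bx, Set.mem_ofPred_eq]; omega, ?_, ?_⟩
      · unfold ch; simp only [Prod.mk.injEq, true_and, and_true]; omega
      · unfold Near; simp only [pd1, eN, phi, if_true]
        rw [if_neg (by omega)]; omega
  · -- agr
    rintro _ ⟨⟨x, y⟩, ht, d, rfl⟩ hJ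
    simp only [Jh, Set.mem_ofPred_eq, reduceCtorEq, false_or, Option.some.injEq,
      Prod.mk.injEq, not_exists, not_and, not_or] at hJ
    have hJ1 := hJ x
    rcases Env664.z4 d with rfl | rfl | rfl | rfl
    · exact agr_of (g := fun t => t) ht ht nbD_W nbD_W Iff.rfl fun _ => rfl
    · by_cases hs : y = y0 - 1 ∧ p ≤ x ∧ x ≤ xr
      · have hx' : p + k ≤ x := by
          by_contra hc
          exact (hJ1 hs.2.1 (by omega)).2 (by omega) ⟨rfl, hs.1⟩ rfl
        exact agr_of (g := fun t => t) ht ht (nbD_N1 ⟨hs.1, hx', hs.2.2⟩) (nbD_N1 hs) Iff.rfl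
          fun _ => rfl
      · exact agr_of (g := fun t => t) ht ht (nbD_N (by omega)) (nbD_N hs) Iff.rfl fun _ => rfl
    · exact agr_of (g := fun t => t) ht ht nbD_E nbD_E Iff.rfl fun _ => rfl
    · by_cases hs : y = y0 ∧ p ≤ x ∧ x ≤ xr
      · have hx' : p + k < x := by
          by_contra hc
          exact (hJ1 hs.2.1 (by omega)).1 ⟨rfl, hs.1⟩ rfl
        exact agr_of (g := fun t => t) ht ht (nbD_S1 ⟨hs.1, hx', hs.2.2⟩)
          (nbD_S1 ⟨hs.1, by omega, hs.2.2⟩) Iff.rfl fun _ => rfl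
      · exact agr_of (g := fun t => t) ht ht (nbD_S (by omega)) (nbD_S (by omega)) Iff.rfl
          fun _ => rfl
  · -- badJ
    rintro x ⟨⟨x1, y1⟩, -, d, rfl⟩ hj
    simp only [Jh, Set.mem_ofPred_eq, reduceCtorEq, false_or, Option.some.injEq,
      Prod.mk.injEq, Xr249.rot_some] at hj
    have hd : ∀ c : ZMod 4, d + 1 = c → d = c - 1 := fun c h => by rw [← h]; ring
    simp only [Bh, Set.mem_ofPred_eq, reduceCtorEq, false_or, Option.some.injEq, Prod.mk.injEq]
    obtain ⟨c, h1, h2, ⟨⟨rfl, rfl⟩, h0⟩ | ⟨h3, ⟨rfl, rfl⟩, h0⟩⟩ := hj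
    · by_cases hc : x1 = p + k
      · right; left
        exact ⟨⟨hc, rfl⟩, hd _ h0⟩
      · right; right
        exact ⟨x1 + 1, by omega, by omega, Or.inr (Or.inl ⟨⟨by ring, rfl⟩, hd _ h0⟩)⟩
    · right; right
      exact ⟨x1, h1, h2, Or.inr (Or.inr (Or.inr ⟨⟨rfl, rfl⟩, hd _ h0⟩))⟩
  · -- back
    rintro x ⟨⟨x1, y1⟩, -, d, rfl⟩ hj
    have hd : ∀ c : ZMod 4, d + 1 = c → d = c - 1 := fun c h => by rw [← h]; ring
    have hq : ∀ q, beD A (p + k) y0 xr (Xr249.rot (some ((x1, y1), d))) = q →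
        beD A (p + k) y0 xr q = some ((x1, y1), d + 1) := by
      rintro q rfl
      rw [hinv]; rfl
    simp only [Bh, Set.mem_ofPred_eq] at hj
    simp only [Bh, Set.mem_ofPred_eq, reduceCtorEq, false_or, Option.some.injEq, Prod.mk.injEq]
    rcases hj with hj | hj | hj | ⟨c, h1, h2, hj | hj | hj | hj⟩
    · have h0 := hq _ hj
      rw [b6] at h0
      simp only [Option.some.injEq, Prod.mk.injEq] at h0
      obtain ⟨⟨rfl, rfl⟩, h0⟩ := h0
      right; left
      exact ⟨⟨rfl, rfl⟩, hd _ h0.symm⟩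
    · have h0 := hq _ hj
      rw [b4] at h0
      simp only [Option.some.injEq, Prod.mk.injEq] at h0
      obtain ⟨⟨rfl, rfl⟩, h0⟩ := h0
      right; right
      exact ⟨p + k, by omega, le_rfl, Or.inr (Or.inr (Or.inr ⟨⟨rfl, rfl⟩, hd _ h0.symm⟩))⟩
    · have h0 := hq _ hj
      rw [b5] at h0
      simp only [Option.some.injEq, Prod.mk.injEq] at h0
      obtain ⟨⟨rfl, rfl⟩, h0⟩ := h0
      left
      exact ⟨⟨rfl, rfl⟩, hd _ h0.symm⟩
    · have h0 := hq _ hj
      by_cases hc : c = p + k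
      · rw [hc, b3'] at h0
        simp at h0
      · rw [b3 c h1 (by omega)] at h0
        simp only [Option.some.injEq, Prod.mk.injEq] at h0
        obtain ⟨⟨rfl, rfl⟩, h0⟩ := h0
        right; right
        exact ⟨c, h1, h2, Or.inr (Or.inr (Or.inr ⟨⟨rfl, rfl⟩, hd _ h0.symm⟩))⟩
    · have h0 := hq _ hj
      rw [b2 c h1 h2] at h0
      simp only [Option.some.injEq, Prod.mk.injEq] at h0
      obtain ⟨⟨rfl, rfl⟩, h0⟩ := h0
      right; right
      exact ⟨c, h1, h2, Or.inl ⟨⟨rfl, rfl⟩, hd _ h0.symm⟩⟩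
    · have h0 := hq _ hj
      rw [b1 c h1 h2] at h0
      simp only [Option.some.injEq, Prod.mk.injEq] at h0
      obtain ⟨⟨rfl, rfl⟩, h0⟩ := h0
      right; right
      exact ⟨c, h1, h2, Or.inr (Or.inl ⟨⟨rfl, rfl⟩, hd _ h0.symm⟩)⟩
    · have h0 := hq _ hj
      rw [b0 c h1 h2] at h0
      simp only [Option.some.injEq, Prod.mk.injEq] at h0
      obtain ⟨⟨rfl, rfl⟩, h0⟩ := h0
      right; right
      exact ⟨c, h1, h2, Or.inr (Or.inr (Or.inl ⟨⟨rfl, rfl⟩, hd _ h0.symm⟩))⟩
  · -- free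
    intro x _ hx hj
    simp only [Bh, Set.mem_ofPred_eq] at hj
    rcases hj with rfl | rfl | rfl | ⟨c, h1, h2, rfl | rfl | rfl | rfl⟩
    · rw [b6] at hx; simp at hx
    · rw [b4] at hx
      simp only [Option.some.injEq, Prod.mk.injEq] at hx
      omega
    · rw [b5] at hx
      simp only [Option.some.injEq, Prod.mk.injEq] at hx
      omega
    · by_cases hc : c = p + k
      · rw [hc, b3'] at hx; simp at hx
      · rw [b3 c h1 (by omega)] at hx
        simp only [Option.some.injEq, Prod.mk.injEq] at hx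
        omega
    · rw [b2 c h1 h2] at hx
      simp only [Option.some.injEq, Prod.mk.injEq] at hx
      omega
    · rw [b1 c h1 h2] at hx
      simp only [Option.some.injEq, Prod.mk.injEq] at hx
      omega
    · rw [b0 c h1 h2] at hx
      simp only [Option.some.injEq, Prod.mk.injEq] at hx
      omega

/-- **Horizontal displacement of `z`**: `z = (p, y0)` against `z' = (p + k, y0)` in `A`. -/
theorem dr_hor : ∃ C a : ℝ, 0 < C ∧ 0 < a ∧ ∀ {A : Finset P2} {p y0 k xr : ℤ} {R : ℕ}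
    {w w' : Wd P2}, Bxz A p y0 xr R → 0 < k → k + 1 ≤ R → p + k + 1 ≤ xr → (xr + 1, y0) ∉ A →
    GW A (beD A p y0 xr) w → GW A (beD A (p + k) y0 xr) w' →
    ∀ {m1 m2 m3 : Port P2}, m1 ∈ Sw300.L w' → m2 ∈ Sw300.L w' → m3 ∈ Sw300.L w' → m1 ≠ m2 →
      m1 ≠ m3 → m2 ≠ m3 → m1 ∈ Sw300.L w →
      ‖HW w m1 m2 m3 - HW w' m1 m2 m3‖ ≤ C * ((k : ℝ) / R) ^ a := by
  obtain ⟨C, a, hC, ha, h⟩ := dr_core_le
  refine ⟨C, a, hC, ha, ?_⟩
  intro A p y0 k xr R w w' hB hk kR hx hr hw hw' m1 m2 m3 h1 h2 h3 h12 h13 h23 h1'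
  have := h (by omega) (hor_cmp hB hk kR hx hr) hw hw' h1 h2 h3 h12 h13 h23
    (by rw [fp_id]; exact h1')
  have e : ((k.toNat : ℕ) : ℝ) = (k : ℝ) := by
    exact_mod_cast congrArg (Int.cast (R := ℝ)) (Int.toNat_of_nonneg hk.le)
  rw [e, fp_id, fp_id, fp_id] at this
  exact this

end Crest.Agent.R158.Dr945
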