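import Crest.Agent.R158.Dr8_945

/-!
# Row 158, BLOCK DR (helper945), part 9: the hypotheses of `dr_vert` for a hanging part

* `TH` : the facts used on a region `G` with a hanging part `Hh`, tile level
* `slab_up` : `z` below, `z'` above the line, `Hh` above the line to the right of the upper run
* `slab_dn` : `Hh` below the line to the right of the lower run, moved by one column
-/

set_option autoImplicit false
set_option linter.unusedSectionVars false
set_option linter.unusedSimpArgs false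

noncomputable section

namespace Crest.Agent.R158.Dr945

open Crest.Agent.R161.Geo729

/-- a region `G` with a hanging part `Hh` : column `p`, rows `y0 < Y < y1`, lower run up to `Xl - 1`,
upper run up to `Xu - 1`, crosscut in the columns `c0 ≤ x < c1` of the line `Y` -/
structure TH (G Hh : Finset P2) (p y0 Y y1 Xl Xu c0 c1 : ℤ) : Prop where
  h01 : y0 < Y
  h1 : Y < y1
  pl : p + 1 < Xl
  pu : p + 1 < Xu
  sub : ∀ x y, (x, y) ∈ Hh → (x, y) ∈ G
  hor1 : ∀ x y, (x, y) ∈ Hh → (x + 1, y) ∈ G → (x + 1, y) ∈ Hh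
  hor2 : ∀ x y, (x + 1, y) ∈ Hh → (x, y) ∈ G → (x, y) ∈ Hh
  ver : ∀ x y, (x, y) ∈ G → (x, y + 1) ∈ G → ((x, y) ∈ Hh ↔ (x, y + 1) ∈ Hh) ∨
    (y + 1 = Y ∧ c0 ≤ x ∧ x < c1)
  gap1 : ∀ x y, (x, y) ∈ G → (x + 1, y) ∉ G → (x + 2, y) ∉ G
  np1 : ∀ x y, (x + 1, y + 1) ∈ G → (x, y) ∈ G → (x, y + 1) ∈ G ∨ (x + 1, y) ∈ G
  np2 : ∀ x y, (x + 1, y) ∈ G → (x, y + 1) ∈ G → (x, y) ∈ G ∨ (x + 1, y + 1) ∈ G
  low : ∀ x y, y0 - 1 ≤ y → y < Y → p - 1 ≤ x → x < Xl → (x, y) ∈ G ∧ (x, y) ∉ Hh
  lowr : ∀ y, y0 - 1 ≤ y → y < Y → (Xl, y) ∉ G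
  hi : ∀ x y, Y ≤ y → y ≤ y1 → p - 1 ≤ x → x < Xu → (x, y) ∈ G ∧ (x, y) ∉ Hh
  hir : ∀ y, Y ≤ y → y ≤ y1 → (Xu, y) ∉ G
  al : ∀ y, (Xu - 1, y) ∈ G → (Xu - 2, y) ∈ G

/-- the slab to the right of the column -/
def InS (p y0 Y y1 Xl Xu x y : ℤ) : Prop :=
  p < x ∧ ((y0 ≤ y ∧ y < Y ∧ x < Xl) ∨ (Y ≤ y ∧ y < y1 ∧ x < Xu))

/-- the notches -/
def InN (y0 Y y1 Xl Xu x y : ℤ) : Prop :=
  (x = Xl - 1 ∧ y0 ≤ y ∧ y < Y) ∨ (x = Xu - 1 ∧ Y ≤ y ∧ y < y1)

variable {G Hh E A' : Finset P2} {p y0 Y y1 Xl Xu c0 c1 : ℤ}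

theorem slab_up (h : TH G Hh p y0 Y y1 Xl Xu Xu Xl) (hX : Xu ≤ Xl)
    (cut : ∀ x, Xu ≤ x → x < Xl → (x, Y) ∈ G → (x, Y) ∈ Hh)
    (mE : ∀ x y, (x, y) ∈ E ↔ InS p y0 Y y1 Xl Xu x y ∨ (x, y) ∈ Hh)
    (mA : ∀ x y, (x, y) ∈ A' ↔ (((x, y) ∈ G ∧ (x, y) ∉ Hh) ∨ (x + 1, y) ∈ Hh) ∧
      ¬ InN y0 Y y1 Xl Xu x y) :
    Slab G E A' p y0 (y1 - y0) (Xl - 1) (Xu - 1) := by
  have e1 := h.h01
  have e2 := h.h1
  have e3 := h.pl
  have e4 := h.pu
  have hy : y0 + (y1 - y0) = y1 := by ring
  constructor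
  · omega
  · intro x y hE
    rcases (mE x y).1 hE with ⟨h1, h2 | h2⟩ | h1
    · exact (h.low x y (by omega) (by omega) (by omega) (by omega)).1
    · exact (h.hi x y (by omega) (by omega) (by omega) (by omega)).1
    · exact h.sub x y h1
  · intro y h1 h2
    rw [hy] at h2
    rw [mE, InS]
    have l := h.low p y
    have u := h.hi p y
    rintro (h3 | h3)
    · omega
    · by_cases h4 : y < Y
      · exact (l (by omega) h4 (by omega) (by omega)).2 h3
      · exact (u (by omega) (by omega) (by omega) (by omega)).2 h3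
  · intro y h1 h2
    rw [mE, InS]; left; omega
  · intro x y hE hA
    rw [mE, InS] at hE ⊢
    have := h.lowr y
    have := h.hir y
    have := h.hor1 x y
    grind
  · intro x y hE hA
    rw [mE, InS] at hE ⊢
    have := h.hor2 (x - 1) y
    grind
  · intro x y hE hA
    rw [mE, InS] at hE ⊢
    have := h.ver x y
    have := cut x
    have := h.low x y
    have := h.sub x y
    grind
  · intro x y hE hA
    rw [mE, InS] at hE ⊢
    have := h.ver x (y - 1)
    have := h.sub x y
    grind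
  · intro x h1 h2
    rw [mE, InS]; left; omega
  · intro x h1 h2
    rw [mE, InS]
    have := h.low x (y0 - 1)
    grind
  · have := h.lowr y0
    grind
  · intro x h1 h2
    rw [hy, mE, InS]
    have := h.hi x y1
    grind
  · intro x h1 h2 h3
    rw [mE, InS]; left; omega
  · have := h.hir y1
    grind
  · intro x y hE hA hA2
    rw [mE, InS] at hE
    have := h.gap1 (x - 2) y
    have := h.sub x y
    have := h.low (x - 1) y
    have := h.hi (x - 1) y
    grind
  · intro x y hE hA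
    rw [mE, InS] at hE
    have := h.np1 (x - 1) (y - 1)
    have := h.sub x y
    have := h.low (x - 1) y
    have := h.hi (x - 1) y
    grind
  · intro x y hE hA
    rw [mE, InS] at hE
    have := h.np2 (x - 1) y
    have := h.sub x y
    have := h.low (x - 1) y
    have := h.hi (x - 1) y
    grind
  · intro x y
    rw [mA, mE, mE, InS, InS, InN, hy]
    have := h.low x y
    have := h.hi x y
    have := h.lowr y
    have := h.hir y
    have := h.sub (x + 1) y
    have := h.hor1 x y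
    have := h.hor2 x y
    clear mE mA cut h
    grind

theorem slab_dn (h : TH G Hh p y0 Y y1 Xl Xu Xl Xu) (hX : Xl ≤ Xu)
    (cut : ∀ x, Xl ≤ x → x < Xu → (x, Y - 1) ∈ G → (x, Y - 1) ∈ Hh) {A : Finset P2}
    (mG : ∀ x y, (x, y) ∈ A ↔ ((x, y) ∈ G ∧ (x, y) ∉ Hh) ∨ (x - 1, y) ∈ Hh)
    (mE : ∀ x y, (x, y) ∈ E ↔ InS p y0 Y y1 Xl Xu x y ∨ (x - 1, y) ∈ Hh)
    (mA : ∀ x y, (x, y) ∈ A' ↔ (x, y) ∈ G ∧ ¬ InN y0 Y y1 Xl Xu x y) :
    Slab A E A' p y0 (y1 - y0) (Xl - 1) (Xu - 1) := by
  have e1 := h.h01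
  have e2 := h.h1
  have e3 := h.pl
  have e4 := h.pu
  have hy : y0 + (y1 - y0) = y1 := by ring
  constructor
  · omega
  · intro x y hE
    rw [mE, InS] at hE
    rw [mG]
    have := h.low x y
    have := h.hi x y
    grind
  · intro y h1 h2
    rw [hy] at h2
    rw [mE, InS]
    have l := h.low (p - 1) y
    have u := h.hi (p - 1) y
    grind
  · intro y h1 h2
    rw [mE, InS]; left; omega
  · intro x y hE hA
    rw [mE, InS] at hE ⊢
    rw [mG] at hA
    have := h.lowr y
    have := h.hir y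
    have := h.low x y
    have := h.hi x y
    have := h.hor1 (x - 1) y
    have := h.hor1 x y
    have := h.gap1 (x - 1) y
    have := h.sub (x - 1) y
    grind
  · intro x y hE hA
    rw [mE, InS] at hE ⊢
    rw [mG] at hA
    grind
  · intro x y hE hA
    rw [mE, InS] at hE ⊢
    rw [mG] at hA
    have := h.low x y
    have := h.hi x y
    have := h.hir (y + 1)
    have := h.ver (x - 1) y
    have := h.ver x y
    have := h.hor1 (x - 1) y
    have := h.hor1 (x - 1) (y + 1)
    have := h.np1 (x - 1) y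
    have := h.sub (x - 1) y
    clear mE mA mG cut h
    grind
  · intro x y hE hA
    rw [mE, InS] at hE ⊢
    rw [mG] at hA
    have := h.hi x y
    have := h.hi (x - 1) y
    have := h.ver (x - 1) (y - 1)
    have := h.ver x (y - 1)
    have := h.hor1 (x - 1) y
    have := h.hor1 (x - 1) (y - 1)
    have := h.np2 (x - 1) (y - 1)
    have := h.sub (x - 1) y
    have := cut x
    clear mE mA mG cut h
    grind
  · intro x h1 h2
    rw [mE, InS]; left; omega
  · intro x h1 h2
    rw [mE, InS]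
    have := h.low (x - 1) (y0 - 1)
    grind
  · rw [mG]
    have := h.lowr y0
    have := h.low (Xl - 1) y0
    grind
  · intro x h1 h2
    rw [hy, mG, mE, InS]
    have := h.hi x y1
    have := h.hi (x - 1) y1
    grind
  · intro x h1 h2 h3
    rw [mE, InS]; left; omega
  · rw [mG]
    have := h.hir y1
    have := h.hi (Xu - 1) y1
    grind
  · intro x y hE hA hA2
    rw [mE, InS] at hE
    rw [mG] at hA hA2
    have := h.gap1 (x - 3) y
    have := h.hor2 (x - 2) y
    have := h.hor1 (x - 3) y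
    have := h.sub (x - 3) y
    have := h.sub (x - 1) y
    have := h.low (x - 1) y
    have := h.hi (x - 1) y
    clear mE mA mG cut h
    grind
  · intro x y hE hA
    rw [mE, InS] at hE
    rw [mG] at hA
    rw [mG, mG]
    have := h.low (x - 1) y
    have := h.hi (x - 1) y
    have := h.low (x - 2) y
    have := h.hi (x - 2) y
    have := h.ver (x - 1) (y - 1)
    have := h.hor2 (x - 2) y
    have := h.hor1 (x - 2) (y - 1)
    have := h.np1 (x - 2) (y - 1)
    have := h.sub (x - 1) y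
    have := h.sub (x - 2) (y - 1)
    clear mE mA mG cut h
    grind
  · intro x y hE hA
    rw [mE, InS] at hE
    rw [mG] at hA
    rw [mG, mG]
    have := h.low (x - 1) y
    have := h.hi (x - 1) y
    have := h.hi x (y + 1)
    have := h.ver (x - 1) y
    have := h.hor2 (x - 2) y
    have := h.hor1 (x - 2) (y + 1)
    have := h.np2 (x - 2) y
    have := h.sub (x - 1) y
    have := h.sub (x - 2) (y + 1)
    have := h.hir (y + 1)
    have := h.al y
    clear mE mA mG cut h
    grind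
  · intro x y
    rw [mA, mE, mE, mG, InS, InS, InN, hy]
    have := h.low x y
    have := h.hi x y
    have := h.lowr y
    have := h.hir y
    have := h.sub x y
    have := h.hor1 (x - 1) y
    have := h.hor2 x y
    clear mE mA mG cut h
    grind

end Crest.Agent.R158.Dr945
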