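import Mathlib

/-!
# Row 158, Block R (helper689): product Bernoulli laws

* `bern p` : Bernoulli law on `Bool`
* `PB w` : product law on `ι → Bool` with parameters `w : ι → I`
* `Dep S A` : the event `A` depends only on the coordinates in the finite set `S`
* `PB_real_eq` : finite formula; `PB_indep` : independence over disjoint sets;
  `harris` : Harris' inequality for increasing events depending on finitely many coordinates;
  `PB_mono` : monotonicity in the parameters; `PB_map_equiv` : reindexing; `PB_half_not`
-/

set_option autoImplicit false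

noncomputable section

namespace Crest.Agent.R158.Rs689

open MeasureTheory ProbabilityTheory unitInterval
open scoped ENNReal

variable {ι : Type*}

/-- Bernoulli law on `Bool` -/
def bern (p : I) : Measure Bool :=
  (toNNReal p : ℝ≥0∞) • Measure.dirac true + (toNNReal (σ p) : ℝ≥0∞) • Measure.dirac false

theorem nnreal_add (p : I) : (toNNReal p : ℝ≥0∞) + (toNNReal (σ p) : ℝ≥0∞) = 1 := by
  rw [← ENNReal.coe_add, ENNReal.coe_eq_one]
  ext
  simp

instance (p : I) : IsProbabilityMeasure (bern p) := ⟨by
  simp only [bern, Measure.add_apply, Measure.smul_apply, measure_univ, smul_eq_mul, mul_one]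
  exact nnreal_add p⟩

@[simp] theorem bern_true (p : I) : bern p {true} = (toNNReal p : ℝ≥0∞) := by
  simp [bern]

@[simp] theorem bern_false (p : I) : bern p {false} = (toNNReal (σ p) : ℝ≥0∞) := by
  simp [bern]

theorem bern_real_true (p : I) : (bern p).real {true} = p := by
  simp [measureReal_def]

theorem bern_real_false (p : I) : (bern p).real {false} = 1 - p := by
  simp [measureReal_def]

/-- product Bernoulli law -/
def PB (w : ι → I) : Measure (ι → Bool) := Measure.infinitePi fun e => bern (w e)

instance (w : ι → I) : IsProbabilityMeasure (PB w) := by unfold PB; infer_instance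

/-- the event depends only on the coordinates in `S` -/
def Dep (S : Finset ι) (A : Set (ι → Bool)) : Prop :=
  ∀ z z' : ι → Bool, (∀ e ∈ S, z e = z' e) → (z ∈ A ↔ z' ∈ A)

/-- increasing event -/
def Inc (A : Set (ι → Bool)) : Prop :=
  ∀ z z' : ι → Bool, (∀ e, z e = true → z' e = true) → z ∈ A → z' ∈ A

/-- trace of an event on the coordinates `S` -/
def trc (S : Finset ι) (A : Set (ι → Bool)) : Set (S → Bool) :=
  {y | ∃ z ∈ A, ∀ e : S, z e = y e}

theorem Dep.mono {S T : Finset ι} (h : S ⊆ T) {A : Set (ι → Bool)} (hA : Dep S A) : Dep T A :=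
  fun z z' hz => hA z z' fun e he => hz e (h he)

theorem Dep.preim {S : Finset ι} {A : Set (ι → Bool)} (hA : Dep S A) :
    A = S.restrict ⁻¹' (trc S A) := by
  ext z
  constructor
  · intro hz
    exact ⟨z, hz, fun _ => rfl⟩
  · rintro ⟨z', hz', h⟩
    exact (hA z' z fun e he => h ⟨e, he⟩).1 hz'

theorem Dep.measurableSet {S : Finset ι} {A : Set (ι → Bool)} (hA : Dep S A) :
    MeasurableSet A := by
  rw [hA.preim]
  exact (Finset.measurable_restrict S) (Set.toFinite _).measurableSet

theorem Dep.compl {S : Finset ι} {A : Set (ι → Bool)} (hA : Dep S A) : Dep S Aᶜ :=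
  fun z z' h => not_congr (hA z z' h)

theorem Dep.inter {S : Finset ι} {A B : Set (ι → Bool)} (hA : Dep S A) (hB : Dep S B) :
    Dep S (A ∩ B) := fun z z' h => and_congr (hA z z' h) (hB z z' h)

theorem Dep.union {S : Finset ι} {A B : Set (ι → Bool)} (hA : Dep S A) (hB : Dep S B) :
    Dep S (A ∪ B) := fun z z' h => or_congr (hA z z' h) (hB z z' h)

theorem Dep.iInter {κ : Sort*} {S : Finset ι} {A : κ → Set (ι → Bool)} (hA : ∀ k, Dep S (A k)) :
    Dep S (⋂ k, A k) := fun z z' h => by
  simp only [Set.mem_iInter]
  exact forall_congr' fun k => hA k z z' h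

theorem Dep.iUnion {κ : Sort*} {S : Finset ι} {A : κ → Set (ι → Bool)} (hA : ∀ k, Dep S (A k)) :
    Dep S (⋃ k, A k) := fun z z' h => by
  simp only [Set.mem_iUnion]
  exact exists_congr fun k => hA k z z' h

theorem Dep.univ (S : Finset ι) : Dep S (Set.univ : Set (ι → Bool)) := fun _ _ _ => by simp

theorem Inc.inter {A B : Set (ι → Bool)} (hA : Inc A) (hB : Inc B) : Inc (A ∩ B) :=
  fun z z' h hz => ⟨hA z z' h hz.1, hB z z' h hz.2⟩

theorem Inc.union {A B : Set (ι → Bool)} (hA : Inc A) (hB : Inc B) : Inc (A ∪ B) :=
  fun z z' h hz => hz.imp (hA z z' h) (hB z z' h)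

/-! ### finite formulas -/

/-- weight of a finite configuration -/
def wt (w : ι → I) (S : Finset ι) (y : S → Bool) : ℝ := ∏ e : S, (bern (w e)).real {y e}

theorem wt_nonneg (w : ι → I) (S : Finset ι) (y : S → Bool) : 0 ≤ wt w S y :=
  Finset.prod_nonneg fun _ _ => measureReal_nonneg

theorem pi_real_singleton (w : ι → I) (S : Finset ι) (y : S → Bool) :
    (Measure.pi fun e : S => bern (w e)).real {y} = wt w S y := by
  rw [measureReal_def, Measure.pi_singleton, ENNReal.toReal_prod]
  rfl

open Classical in
/-- finite formula for expectations -/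
theorem integral_restrict (w : ι → I) (S : Finset ι) (f : (S → Bool) → ℝ) :
    ∫ z, f (S.restrict z) ∂(PB w) = ∑ y, wt w S y * f y := by
  have h : (PB w).map S.restrict = Measure.pi fun e : S => bern (w e) :=
    Measure.infinitePi_map_restrict _
  rw [← integral_map (φ := S.restrict) (Finset.measurable_restrict S).aemeasurable
    (Measurable.of_discrete).aestronglyMeasurable, h, integral_fintype Integrable.of_finite]
  refine Finset.sum_congr rfl fun y _ => ?_
  rw [pi_real_singleton, smul_eq_mul]

open Classical in
theorem sum_wt (w : ι → I) (S : Finset ι) : ∑ y, wt w S y = 1 := by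
  have h := integral_restrict w S (fun _ => 1)
  simpa using h.symm

open Classical in
/-- finite formula for probabilities -/
theorem PB_real_eq (w : ι → I) {S : Finset ι} {A : Set (ι → Bool)} (hA : Dep S A) :
    (PB w).real A = ∑ y, wt w S y * (if y ∈ trc S A then 1 else 0) := by
  rw [← integral_restrict w S (fun y => if y ∈ trc S A then 1 else 0)]
  have h : (fun z : ι → Bool => (if S.restrict z ∈ trc S A then (1 : ℝ) else 0)) =
      A.indicator fun _ => 1 := by
    funext z
    conv_rhs => rw [hA.preim]
    rfl
  rw [h, integral_indicator_const _ hA.measurableSet]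
  simp

/-! ### independence -/

theorem PB_indep (w : ι → I) {S T : Finset ι} (hST : Disjoint S T) {A B : Set (ι → Bool)}
    (hA : Dep S A) (hB : Dep T B) : PB w (A ∩ B) = PB w A * PB w B := by
  have h1 : iIndepFun (fun (e : ι) (z : ι → Bool) => z e) (PB w) := by
    have := iIndepFun_infinitePi (P := fun e => bern (w e)) (X := fun _ b => b)
      (fun _ => measurable_id)
    exact this
  have h2 := h1.indepFun_finset S T hST (fun e => measurable_pi_apply e)
  have h3 := h2.measure_inter_preimage_eq_mul (trc S A) (trc T B)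
    (Set.toFinite _).measurableSet (Set.toFinite _).measurableSet
  rw [hA.preim, hB.preim]
  exact h3

theorem PB_indep_real (w : ι → I) {S T : Finset ι} (hST : Disjoint S T) {A B : Set (ι → Bool)}
    (hA : Dep S A) (hB : Dep T B) : (PB w).real (A ∩ B) = (PB w).real A * (PB w).real B := by
  rw [measureReal_def, PB_indep w hST hA hB, ENNReal.toReal_mul]
  rfl

/-- independence of a finite family -/
theorem PB_indep_prod (w : ι → I) {κ : Type*} (s : Finset κ) (S : κ → Finset ι)
    (hS : ∀ i ∈ s, ∀ j ∈ s, i ≠ j → Disjoint (S i) (S j)) (A : κ → Set (ι → Bool))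
    (hA : ∀ i ∈ s, Dep (S i) (A i)) :
    (PB w).real (⋂ i ∈ s, A i) = ∏ i ∈ s, (PB w).real (A i) := by
  classical
  induction s using Finset.induction_on with
  | empty => simp
  | insert a s ha ih =>
    rw [Finset.set_biInter_insert, Finset.prod_insert ha]
    have hd : Disjoint (S a) (s.biUnion S) := by
      rw [Finset.disjoint_biUnion_right]
      intro j hj
      exact hS a (Finset.mem_insert_self _ _) j (Finset.mem_insert_of_mem hj)
        (fun h => ha (h ▸ hj))
    have hD : Dep (s.biUnion S) (⋂ i ∈ s, A i) := by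
      intro z z' h
      simp only [Set.mem_iInter]
      refine forall_congr' fun i => forall_congr' fun hi => ?_
      exact hA i (Finset.mem_insert_of_mem hi) z z' fun e he =>
        h e (Finset.mem_biUnion.2 ⟨i, hi, he⟩)
    rw [PB_indep_real w hd (hA a (Finset.mem_insert_self _ _)) hD,
      ih (fun i hi j hj => hS i (Finset.mem_insert_of_mem hi) j (Finset.mem_insert_of_mem hj))
        fun i hi => hA i (Finset.mem_insert_of_mem hi)]

/-! ### Harris' inequality -/

theorem wt_fkg (w : ι → I) (S : Finset ι) (a b : S → Bool) :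
    wt w S a * wt w S b ≤ wt w S (a ⊓ b) * wt w S (a ⊔ b) := by
  unfold wt
  rw [← Finset.prod_mul_distrib, ← Finset.prod_mul_distrib]
  refine le_of_eq (Finset.prod_congr rfl fun e _ => ?_)
  simp only [Pi.inf_apply, Pi.sup_apply]
  cases a e <;> cases b e <;> simp [mul_comm]

/-- Harris' inequality -/
theorem harris (w : ι → I) {S T : Finset ι} {A B : Set (ι → Bool)} (hA : Dep S A) (hB : Dep T B)
    (iA : Inc A) (iB : Inc B) : (PB w).real A * (PB w).real B ≤ (PB w).real (A ∩ B) := by
  classical
  have hA' : Dep (S ∪ T) A := hA.mono Finset.subset_union_left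
  have hB' : Dep (S ∪ T) B := hB.mono Finset.subset_union_right
  set U := S ∪ T
  rw [PB_real_eq w hA', PB_real_eq w hB', PB_real_eq w (hA'.inter hB')]
  have mon : ∀ {C : Set (ι → Bool)}, Inc C → Dep U C →
      Monotone fun y : U → Bool => (if y ∈ trc U C then (1 : ℝ) else 0) := by
    intro C iC dC y y' hyy
    show (if y ∈ trc U C then (1 : ℝ) else 0) ≤ if y' ∈ trc U C then (1 : ℝ) else 0
    by_cases h1 : y ∈ trc U C
    · have h2 : y' ∈ trc U C := by
        obtain ⟨z, hz, hzy⟩ := h1
        refine ⟨fun e => if h : e ∈ U then y' ⟨e, h⟩ else z e, ?_, fun e => by simp⟩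
        refine iC z _ (fun e he => ?_) hz
        by_cases heU : e ∈ U
        · have h3 := hyy ⟨e, heU⟩
          rw [← hzy ⟨e, heU⟩, he] at h3
          simp only [heU, dite_true]
          exact top_le_iff.1 h3
        · simp only [heU, dite_false, he]
      rw [if_pos h1, if_pos h2]
    · rw [if_neg h1]
      split_ifs <;> norm_num
  have h := fkg (μ := wt w U) (f := fun y => if y ∈ trc U A then (1 : ℝ) else 0)
    (g := fun y => if y ∈ trc U B then (1 : ℝ) else 0) (fun y => wt_nonneg w U y)
    (fun y => by simp only [Pi.zero_apply]; split_ifs <;> norm_num)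
    (fun y => by simp only [Pi.zero_apply]; split_ifs <;> norm_num) (mon iA hA') (mon iB hB')
    (wt_fkg w U)
  rw [sum_wt, one_mul] at h
  refine h.trans (le_of_eq ?_)
  refine Finset.sum_congr rfl fun y _ => ?_
  congr 1
  have h4 : y ∈ trc U (A ∩ B) ↔ y ∈ trc U A ∧ y ∈ trc U B := by
    constructor
    · rintro ⟨z, hz, h5⟩
      exact ⟨⟨z, hz.1, h5⟩, ⟨z, hz.2, h5⟩⟩
    · rintro ⟨⟨z, hz, h5⟩, ⟨z', hz', h6⟩⟩
      refine ⟨z, ⟨hz, (hB' z z' fun e he => ?_).2 hz'⟩, h5⟩
      rw [h5 ⟨e, he⟩, h6 ⟨e, he⟩]
  by_cases h5 : y ∈ trc U A <;> by_cases h6 : y ∈ trc U B <;> simp [h4, h5, h6]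

/-! ### monotonicity in the parameters -/

theorem vol_le (p : I) : (volume : Measure I).map (fun x => decide (x ≤ p)) = bern p := by
  have hm : Measurable (fun x : I => decide (x ≤ p)) := by
    refine measurable_to_countable' fun b => ?_
    cases b
    · have h1 : (fun x : I => decide (x ≤ p)) ⁻¹' {false} = Set.Ioi p := by
        ext x; simp
      rw [h1]; exact measurableSet_Ioi
    · have h1 : (fun x : I => decide (x ≤ p)) ⁻¹' {true} = Set.Iic p := by
        ext x; simp
      rw [h1]; exact measurableSet_Iic
  refine Measure.ext_of_singleton fun b => ?_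
  rw [Measure.map_apply hm (measurableSet_singleton b)]
  cases b
  · have h1 : (fun x : I => decide (x ≤ p)) ⁻¹' {false} = Set.Ioi p := by
      ext x; simp
    rw [h1, bern_false, unitInterval.volume_Ioi]
    rw [ENNReal.ofReal, ENNReal.coe_inj]
    ext
    simp [p.2.2]
  · have h1 : (fun x : I => decide (x ≤ p)) ⁻¹' {true} = Set.Iic p := by
      ext x; simp
    rw [h1, bern_true, unitInterval.volume_Iic]
    rw [ENNReal.ofReal, ENNReal.coe_inj]
    ext
    simp [p.2.1]

theorem meas_le (p : I) : Measurable (fun x : I => decide (x ≤ p)) := by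
  refine measurable_to_countable' fun b => ?_
  cases b
  · have h1 : (fun x : I => decide (x ≤ p)) ⁻¹' {false} = Set.Ioi p := by
      ext x; simp
    rw [h1]; exact measurableSet_Ioi
  · have h1 : (fun x : I => decide (x ≤ p)) ⁻¹' {true} = Set.Iic p := by
      ext x; simp
    rw [h1]; exact measurableSet_Iic

/-- monotone coupling through uniform labels -/
theorem PB_eq_map (w : ι → I) :
    PB w = (Measure.infinitePi fun _ : ι => (volume : Measure I)).map
      (fun x e => decide (x e ≤ w e)) := by
  rw [Measure.infinitePi_map_pi (f := fun e (x : I) => decide (x ≤ w e))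
    (μ := fun _ : ι => (volume : Measure I)) fun e => meas_le (w e)]
  unfold PB
  congr 1
  funext e
  exact (vol_le (w e)).symm

theorem PB_mono {w w' : ι → I} (h : ∀ e, w e ≤ w' e) {A : Set (ι → Bool)}
    (hA : MeasurableSet A) (iA : Inc A) : (PB w).real A ≤ (PB w').real A := by
  have hm : ∀ w : ι → I, Measurable (fun (x : ι → I) e => decide (x e ≤ w e)) := fun w =>
    measurable_pi_lambda _ fun e => (meas_le (w e)).comp (measurable_pi_apply e)
  rw [PB_eq_map w, PB_eq_map w', measureReal_def, measureReal_def,
    Measure.map_apply (hm w) hA, Measure.map_apply (hm w') hA]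
  refine ENNReal.toReal_mono (measure_ne_top _ _) (measure_mono fun x hx => ?_)
  refine iA _ _ (fun e he => ?_) hx
  rw [decide_eq_true_iff] at he ⊢
  exact he.trans (h e)

/-! ### reindexing and complement -/

/-- reindexing by an equivalence -/
theorem PB_map_equiv {κ : Type*} (e : ι ≃ κ) (w : κ → I) :
    (PB fun i => w (e i)).map (fun z k => z (e.symm k)) = PB w := by
  have h := Measure.infinitePi_map_piCongrLeft (X := fun _ : κ => Bool)
    (μ := fun k => bern (w k)) e
  unfold PB
  rw [← h]
  congr 1
  funext z k
  simp only [MeasurableEquiv.coe_piCongrLeft]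
  obtain ⟨i, rfl⟩ := e.surjective k
  rw [Equiv.piCongrLeft_apply_apply, Equiv.symm_apply_apply]

theorem bern_map_not (p : I) : (bern p).map (fun b => !b) = bern (σ p) := by
  refine Measure.ext_of_singleton fun b => ?_
  rw [Measure.map_apply Measurable.of_discrete (measurableSet_singleton b)]
  cases b
  · have h1 : (fun b : Bool => !b) ⁻¹' {false} = {true} := by ext b; simp
    rw [h1, bern_true, bern_false]
    simp
  · have h1 : (fun b : Bool => !b) ⁻¹' {true} = {false} := by ext b; simp
    rw [h1, bern_true, bern_false]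

/-- complement of the configuration -/
theorem PB_map_not (w : ι → I) : (PB w).map (fun z e => !z e) = PB fun e => σ (w e) := by
  unfold PB
  rw [Measure.infinitePi_map_pi (μ := fun e => bern (w e)) (f := fun _ (b : Bool) => !b)
    fun e => Measurable.of_discrete]
  congr 1
  funext e
  exact bern_map_not (w e)

/-- restriction to a subtype / pull back along an injection -/
theorem PB_map_inj {κ : Type*} {j : κ → ι} (hj : Function.Injective j) (w : ι → I) :
    (PB w).map (fun z k => z (j k)) = PB fun k => w (j k) := by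
  classical
  refine Measure.eq_infinitePi _ fun s t ht => ?_
  have hm : Measurable (fun (z : ι → Bool) (k : κ) => z (j k)) :=
    measurable_pi_lambda _ fun k => measurable_pi_apply _
  rw [Measure.map_apply hm (.pi s.countable_toSet fun _ _ => ht _)]
  by_cases hκ : IsEmpty κ
  · have hs : s = ∅ := Finset.eq_empty_of_isEmpty s
    subst hs
    simp
  rw [not_isEmpty_iff] at hκ
  let t' : ι → Set Bool := fun i => if h : ∃ k, j k = i then t h.choose else Set.univ
  have ht' : ∀ k, t' (j k) = t k := by
    intro k
    have h : ∃ k', j k' = j k := ⟨k, rfl⟩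
    simp only [t', h, dite_true]
    rw [hj h.choose_spec]
  have h1 : (fun (z : ι → Bool) (k : κ) => z (j k)) ⁻¹' ((s : Set κ).pi t) =
      ((s.image j : Finset ι) : Set ι).pi t' := by
    ext z
    simp only [Set.mem_preimage, Set.mem_pi, Finset.mem_coe, Finset.mem_image]
    constructor
    · rintro h _ ⟨k, hk, rfl⟩
      rw [ht']
      exact h k hk
    · intro h k hk
      have := h (j k) ⟨k, hk, rfl⟩
      rwa [ht'] at this
  rw [h1, PB, Measure.infinitePi_pi _ (fun _ _ => MeasurableSet.of_discrete),
    Finset.prod_image (fun a _ b _ hab => hj hab)]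
  exact Finset.prod_congr rfl fun k _ => by rw [ht']

end Crest.Agent.R158.Rs689
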