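import Crest.Agent.R158.Em1_522
import Crest.Agent.R158.Rs5_689

/-!
# Row 158 (helper522): exponential moments of numbers of disjoint open pieces at `p = 1/2`

`exp_pieces` : for all `a` and `K` there is `C` such that for every centre `x`, every scale `n ≥ 1`
and every number `N z` of pairwise edge-disjoint sets of open edges, each containing a path from
the ball `{sd x ≤ K n}` which travels a sup-distance at least `n`, one has `∫ a^N ≤ C`.
`exp_pieces_dual` : the same for dual paths.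
`tail_pieces` : `P(N ≥ k) ≤ C a^(-k)`.
-/

set_option autoImplicit false

noncomputable section

namespace Crest.Agent.R158.Em522

open Finset MeasureTheory unitInterval
open Crest.Agent.R161.Geo729 Crest.Agent.R161.Topo374 Crest.Agent.R161.Dual374
open Crest.Agent.R161.Tas682
open Crest.Agent.R158.Rs689

/-- `T` contains a path from `Bl c b` to sup-distance at least `R` of `c` -/
def ArmIn (c : P2) (b R : ℕ) (T : Finset Edge) : Prop :=
  ∃ u v : P2, sd c u ≤ b ∧ (R : ℤ) ≤ sd c v ∧ Relation.ReflTransGen (PStep (fun e => e ∈ T)) u v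

theorem armIn_mono (c : P2) (b R : ℕ) : Monotone (ArmIn c b R) := by
  rintro T T' hTT ⟨u, v, h1, h2, h3⟩
  exact ⟨u, v, h1, h2, Relation.ReflTransGen.mono (fun _ _ h => pstep_mono (fun e he => hTT he) h) _ _ h3⟩

theorem le_sd {x v : P2} {R : ℤ} : R ≤ sd x v ↔ R ≤ |v.1 - x.1| ∨ R ≤ |v.2 - x.2| := by
  unfold sd; exact le_max_iff

theorem armIn_armX {c : P2} {b R : ℕ} {E : Finset Edge} {z : Cfz} (h : ArmIn c b R (op E z)) :
    z ∈ ArmX c b R := by
  classical
  obtain ⟨u, v, h1, h2, h3⟩ := h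
  refine ⟨u, v, ?_, ?_, le_sd.1 h2, ?_⟩
  · exact (le_max_left _ _).trans h1
  · exact (le_max_right _ _).trans h1
  · refine Relation.ReflTransGen.mono (fun _ _ h => pstep_mono (fun e he => ?_) h) _ _ h3
    rw [op, mem_filter] at he
    exact he.2

/-- a travelling piece: contains a path from `{sd x ≤ r}` travelling a distance at least `n` -/
def Piece (x : P2) (r n : ℤ) (T : Finset Edge) : Prop :=
  ∃ u v : P2, sd x u ≤ r ∧ n ≤ sd u v ∧ Relation.ReflTransGen (PStep (fun e => e ∈ T)) u v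

theorem sd_triangle (a b c : P2) : sd b c ≤ sd b a + sd a c := by
  unfold sd
  have h1 := abs_sub_le c.1 a.1 b.1
  have h2 := abs_sub_le c.2 a.2 b.2
  have h3 := le_max_left |a.1 - b.1| |a.2 - b.2|
  have h4 := le_max_right |a.1 - b.1| |a.2 - b.2|
  have h5 := le_max_left |c.1 - a.1| |c.2 - a.2|
  have h6 := le_max_right |c.1 - a.1| |c.2 - a.2|
  exact max_le (by linarith) (by linarith)

theorem sd_symm (a b : P2) : sd a b = sd b a := by
  unfold sd
  rw [abs_sub_comm, abs_sub_comm b.2]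

/-- grid centres -/
def ctr (x : P2) (b J : ℕ) (k : Fin (2 * J + 1) × Fin (2 * J + 1)) : P2 :=
  (x.1 + b * ((k.1 : ℕ) - J : ℤ), x.2 + b * ((k.2 : ℕ) - J : ℤ))

theorem coord_ctr {b J : ℕ} {t r : ℤ} (hb : 1 ≤ b) (hr : r ≤ b * J) (h : |t| ≤ r) :
    ∃ i : Fin (2 * J + 1), |t - b * ((i : ℕ) - J : ℤ)| ≤ b := by
  have hb' : (0 : ℤ) < b := by exact_mod_cast hb
  rw [abs_le] at h
  have h1 : -(J : ℤ) ≤ t / b := by
    rw [Int.le_ediv_iff_mul_le hb']
    nlinarith [h.1]
  have h2 : t / b ≤ J := by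
    have : t / b ≤ (b * J : ℤ) / b := Int.ediv_le_ediv hb' (h.2.trans hr)
    rwa [Int.mul_ediv_cancel_left _ hb'.ne'] at this
  refine ⟨⟨(t / b + J).toNat, by omega⟩, ?_⟩
  have h3 : (((t / b + J).toNat : ℕ) : ℤ) - J = t / b := by
    rw [Int.toNat_of_nonneg (by omega)]; ring
  simp only
  rw [h3]
  have h4 := Int.emod_add_mul_ediv t b
  have h5 := Int.emod_nonneg t hb'.ne'
  have h6 := Int.emod_lt_of_pos t hb'
  have h7 : t - b * (t / b) = t % b := by linarith
  rw [h7, abs_of_nonneg h5]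
  exact h6.le

theorem exists_ctr {x u : P2} {b J : ℕ} {r : ℤ} (hb : 1 ≤ b) (hr : r ≤ b * J) (h : sd x u ≤ r) :
    ∃ k, sd (ctr x b J k) u ≤ b := by
  obtain ⟨i, hi⟩ := coord_ctr hb hr ((le_max_left _ _).trans h)
  obtain ⟨j, hj⟩ := coord_ctr hb hr ((le_max_right _ _).trans h)
  refine ⟨(i, j), max_le ?_ ?_⟩
  · have e : u.1 - (ctr x b J (i, j)).1 = u.1 - x.1 - b * ((i : ℕ) - J : ℤ) := by
      simp only [ctr]; ring
    rw [e]
    exact hi
  · have e : u.2 - (ctr x b J (i, j)).2 = u.2 - x.2 - b * ((j : ℕ) - J : ℤ) := by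
      simp only [ctr]; ring
    rw [e]
    exact hj

theorem piece_arm {x : P2} {b J n : ℕ} {r : ℤ} {T : Finset Edge} (hb : 1 ≤ b) (hr : r ≤ b * J)
    (hbn : b ≤ n) (h : Piece x r n T) : ∃ k, ArmIn (ctr x b J k) b (n - b) T := by
  obtain ⟨u, v, h1, h2, h3⟩ := h
  obtain ⟨k, hk⟩ := exists_ctr hb hr h1
  refine ⟨k, u, v, hk, ?_, h3⟩
  have := sd_triangle (ctr x b J k) u v
  rw [sd_symm u (ctr x b J k)] at this
  push_cast [Nat.cast_sub hbn]
  linarith

/-- the edges at the ball `{sd x ≤ r}` -/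
def starE (x : P2) (r : ℕ) : Finset Edge :=
  (Finset.Icc (x.1 - r - 1) (x.1 + r) ×ˢ Finset.Icc (x.2 - r - 1) (x.2 + r)) ×ˢ Finset.univ

theorem card_starE (x : P2) (r : ℕ) : (starE x r).card = (2 * r + 2) * (2 * r + 2) * 2 := by
  unfold starE
  rw [card_product, card_product, Int.card_Icc, Int.card_Icc, card_univ, Fintype.card_bool]
  congr 2 <;> omega

theorem piece_star {x : P2} {r n : ℕ} {T : Finset Edge} (hn : 1 ≤ n) (h : Piece x r n T) :
    ∃ e ∈ T, e ∈ starE x r := by
  obtain ⟨u, v, h1, h2, h3⟩ := h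
  rcases Relation.ReflTransGen.cases_head h3 with h4 | ⟨w, ⟨e, he, h5⟩, _⟩
  · subst h4
    have : sd u u = 0 := by unfold sd; simp
    omega
  · refine ⟨e, he, ?_⟩
    rw [sd_le] at h1
    unfold starE
    rw [mem_product, mem_product, mem_Icc, mem_Icc]
    obtain ⟨⟨i, j⟩, k⟩ := e
    cases k
    · rw [src_mk, tgt_h] at h5
      rcases h5 with ⟨h6, _⟩ | ⟨h6, _⟩ <;> rw [h6] at h1 <;> simp only at h1 ⊢ <;>
        refine ⟨⟨⟨?_, ?_⟩, ?_, ?_⟩, mem_univ _⟩ <;> omega
    · rw [src_mk, tgt_v] at h5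
      rcases h5 with ⟨h6, _⟩ | ⟨h6, _⟩ <;> rw [h6] at h1 <;> simp only at h1 ⊢ <;>
        refine ⟨⟨⟨?_, ?_⟩, ?_, ?_⟩, mem_univ _⟩ <;> omega

theorem card_pieces {x : P2} {r n N : ℕ} (hn : 1 ≤ n) (f : Fin N → Finset Edge)
    (hd : ∀ i j, i ≠ j → Disjoint (f i) (f j)) (hf : ∀ i, Piece x r n (f i)) :
    N ≤ (2 * r + 2) * (2 * r + 2) * 2 := by
  choose g hg hg' using fun i => piece_star hn (hf i)
  rw [← card_starE x r]
  have hinj : Function.Injective g := by
    intro i j hij
    by_contra hne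
    exact Finset.disjoint_left.1 (hd i j hne) (hg i) (hij ▸ hg j)
  calc N = (univ : Finset (Fin N)).card := by simp
    _ = (univ.image g).card := (card_image_of_injective _ hinj).symm
    _ ≤ (starE x r).card := card_le_card fun e he => by
        obtain ⟨i, _, rfl⟩ := mem_image.1 he
        exact hg' i

open Classical in
/-- **exponential moments of the number of disjoint open pieces.** -/
theorem exp_pieces (a : ℝ) (ha : 1 ≤ a) (K : ℕ) : ∃ C : ℝ, 1 ≤ C ∧
    ∀ (x : P2) (n : ℕ), 1 ≤ n → ∀ (E : Finset Edge) (N : Cfz → ℕ),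
      (∀ z z' : Cfz, (∀ e ∈ E, z e = z' e) → N z = N z') →
      (∀ z : Cfz, ∃ f : Fin (N z) → Finset Edge, (∀ i, ∀ e ∈ f i, e ∈ E ∧ z e = true) ∧
        (∀ i j, i ≠ j → Disjoint (f i) (f j)) ∧ ∀ i, Piece x ((K * n : ℕ) : ℤ) n (f i)) →
      ∫ z, a ^ N z ∂(nu hf) ≤ C := by
  obtain ⟨C0, a0, hC0, ha0, harm⟩ := arm_half
  -- choice of the number of blocks
  obtain ⟨M, hM2, hM⟩ : ∃ M : ℕ, 2 ≤ M ∧ a * (C0 * (2 / (M : ℝ)) ^ a0) ≤ 1 / 2 := by
    have h1 : Filter.Tendsto (fun M : ℕ => a * (C0 * (2 / (M : ℝ)) ^ a0)) Filter.atTop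
        (nhds (a * (C0 * (0 : ℝ) ^ a0))) := by
      refine Filter.Tendsto.const_mul _ (Filter.Tendsto.const_mul _ ?_)
      refine Filter.Tendsto.rpow_const ?_ (Or.inr ha0.le)
      exact tendsto_const_div_atTop_nhds_zero_nat 2
    rw [Real.zero_rpow ha0.ne', mul_zero, mul_zero] at h1
    have h2 := (h1.eventually (ge_mem_nhds (show (0 : ℝ) < 1 / 2 by norm_num))).and
      (Filter.eventually_ge_atTop 2)
    obtain ⟨M, h3, h4⟩ := h2.exists
    exact ⟨M, h4, h3⟩
  set J : ℕ := 2 * (K * M) with hJ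
  set D : ℕ := (2 * (K * M) + 2) * (2 * (K * M) + 2) * 2 with hD
  refine ⟨max (2 ^ ((2 * J + 1) * (2 * J + 1))) (a ^ D), ?_, ?_⟩
  · exact le_max_of_le_left (one_le_pow₀ (by norm_num))
  intro x n hn E N hdep hN
  have ha' : 0 ≤ a := by linarith
  by_cases hnM : n < M
  · -- small scales
    refine le_trans ?_ (le_max_right _ _)
    have h1 : ∀ z, a ^ N z ≤ a ^ D := by
      intro z
      obtain ⟨f, _, hd, hf⟩ := hN z
      refine pow_le_pow_right₀ ha ((card_pieces hn f hd hf).trans ?_)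
      rw [hD]
      have : K * n ≤ K * M := Nat.mul_le_mul_left _ hnM.le
      gcongr
    calc ∫ z, a ^ N z ∂(nu hf) ≤ ∫ _z, a ^ D ∂(nu hf) := by
          refine integral_mono_of_nonneg (Filter.Eventually.of_forall fun z => by positivity)
            (integrable_const _) (Filter.Eventually.of_forall h1)
      _ = a ^ D := by simp [nu]
  · push Not at hnM
    refine le_trans ?_ (le_max_left _ _)
    set b : ℕ := n / M with hb
    have hb1 : 1 ≤ b := (Nat.one_le_div_iff (by omega)).2 hnM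
    have hbn : b * M ≤ n := Nat.div_mul_le_self n M
    have hbn2 : n < (b + 1) * M := by
      have := Nat.lt_mul_div_succ n (show 0 < M by omega)
      rw [hb]; linarith
    have hbn3 : 2 * b ≤ n := by nlinarith
    have hbn' : b ≤ n := by omega
    have hr : ((K * n : ℕ) : ℤ) ≤ b * J := by
      have : K * n ≤ b * J := by
        rw [hJ]
        have h2 : n ≤ 2 * b * M := by nlinarith
        calc K * n ≤ K * (2 * b * M) := Nat.mul_le_mul_left _ h2
          _ = b * (2 * (K * M)) := by ring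
      exact_mod_cast this
    set q : ℝ := C0 * (2 / (M : ℝ)) ^ a0 with hq
    have hq1 : a * q < 1 := by linarith
    have hprob : ∀ k, (PB fun _ : Edge => hf).real
        {z | ArmIn (ctr x b J k) b (n - b) (op E z)} ≤ q := by
      intro k
      have h1 : (nu hf).real {z | ArmIn (ctr x b J k) b (n - b) (op E z)} ≤
          (nu hf).real (ArmX (ctr x b J k) b (n - b)) :=
        measureReal_mono fun z hz => armIn_armX hz
      refine h1.trans ((harm _ b (n - b) hb1 (by omega)).trans ?_)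
      rw [hq]
      refine mul_le_mul_of_nonneg_left (Real.rpow_le_rpow (by positivity) ?_ ha0.le) hC0.le
      have h2 : (0 : ℝ) < ((n - b : ℕ) : ℝ) := by
        have : 0 < n - b := by omega
        exact_mod_cast this
      have h3 : (0 : ℝ) < M := by
        have : 0 < M := by omega
        exact_mod_cast this
      rw [div_le_div_iff₀ h2 h3]
      have h4 : b * M ≤ 2 * (n - b) := by
        have : b * M ≤ n := hbn
        omega
      exact_mod_cast h4
    have hmain := pb_pow_le (κ := Fin (2 * J + 1) × Fin (2 * J + 1)) (fun _ : Edge => hf) E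
      (fun k => ArmIn (ctr x b J k) b (n - b)) (fun k => armIn_mono _ _ _) N hdep
      (fun z => by
        obtain ⟨f, hf1, hf2, hf3⟩ := hN z
        exact ⟨f, hf1, hf2, fun i => piece_arm hb1 hr hbn' (hf3 i)⟩)
      ha' (q := fun _ => q) hprob (fun _ => hq1)
    refine hmain.trans ?_
    rw [prod_const, card_univ, Fintype.card_prod, Fintype.card_fin]
    refine pow_le_pow_left₀ (inv_nonneg.2 (by linarith)) ?_ _
    rw [inv_le_comm₀ (by linarith) (by norm_num)]
    linarith

open Classical in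
/-- dual form -/
theorem exp_pieces_dual (a : ℝ) (ha : 1 ≤ a) (K : ℕ) : ∃ C : ℝ, 1 ≤ C ∧
    ∀ (x : P2) (n : ℕ), 1 ≤ n → ∀ (E : Finset Edge) (N : Cfz → ℕ),
      (∀ z z' : Cfz, (∀ e ∈ E, z e = z' e) → N z = N z') →
      (∀ z : Cfz, ∃ f : Fin (N z) → Finset Edge, (∀ i, ∀ e ∈ f i, e ∈ E ∧ z e = true) ∧
        (∀ i j, i ≠ j → Disjoint (f i) (f j)) ∧ ∀ i, Piece x ((K * n : ℕ) : ℤ) n (f i)) →
      ∫ z, a ^ N (dual z) ∂(nu hf) ≤ C := by
  obtain ⟨C, hC, h⟩ := exp_pieces a ha K
  refine ⟨C, hC, fun x n hn E N hdep hN => ?_⟩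
  have h1 := h x n hn E N hdep hN
  have h2 : (nu hf).map dual = nu hf := by
    have := map_dual hf
    rw [sigma_hf] at this
    exact this
  rw [← h2, integral_map measurable_dual.aemeasurable] at h1
  · exact h1
  · rw [h2]
    -- `a ^ N z` is a function of finitely many coordinates
    have h3 : (fun z : Cfz => a ^ N z) = (fun y : E → Bool =>
        a ^ N (fun e => if he : e ∈ E then y ⟨e, he⟩ else false)) ∘ E.restrict := by
      funext z
      simp only [Function.comp_apply, Finset.restrict]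
      congr 1
      refine hdep _ _ fun e he => ?_
      rw [dif_pos he]
    rw [h3]
    exact (Measurable.comp (Measurable.of_discrete) (Finset.measurable_restrict E)).aestronglyMeasurable

/-- Markov -/
theorem tail_of_exp {a C : ℝ} (ha : 1 ≤ a) {N : Cfz → ℕ} {E : Finset Edge}
    (hdep : ∀ z z' : Cfz, (∀ e ∈ E, z e = z' e) → N z = N z')
    (h : ∫ z, a ^ N z ∂(nu hf) ≤ C) (k : ℕ) :
    (nu hf).real {z | k ≤ N z} ≤ C * (a⁻¹) ^ k := by
  classical
  have ha0 : 0 < a := by linarith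
  have hm : Measurable fun z : Cfz => a ^ N z := by
    have h3 : (fun z : Cfz => a ^ N z) = (fun y : E → Bool =>
        a ^ N (fun e => if he : e ∈ E then y ⟨e, he⟩ else false)) ∘ E.restrict := by
      funext z
      simp only [Function.comp_apply, Finset.restrict]
      congr 1
      refine hdep _ _ fun e he => ?_
      rw [dif_pos he]
    rw [h3]
    exact Measurable.comp (Measurable.of_discrete) (Finset.measurable_restrict E)
  have hint : Integrable (fun z : Cfz => a ^ N z) (nu hf) := by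
    have hfin : (Set.range fun y : E → Bool =>
        N (fun e => if he : e ∈ E then y ⟨e, he⟩ else false)).Finite := Set.finite_range _
    obtain ⟨B, hB⟩ := hfin.bddAbove
    refine Integrable.of_bound hm.aestronglyMeasurable (a ^ B) (Filter.Eventually.of_forall fun z => ?_)
    rw [Real.norm_of_nonneg (by positivity)]
    refine pow_le_pow_right₀ ha ?_
    have : N z = N (fun e => if he : e ∈ E then z e else false) :=
      hdep _ _ fun e he => by rw [dif_pos he]
    rw [this]
    exact hB ⟨fun e => z e, rfl⟩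
  have h1 := mul_meas_ge_le_integral_of_nonneg (μ := nu hf)
    (Filter.Eventually.of_forall fun z => by positivity) hint (a ^ k)
  have h2 : (nu hf).real {z | k ≤ N z} ≤ (nu hf).real {z | a ^ k ≤ a ^ N z} :=
    measureReal_mono fun z hz => pow_le_pow_right₀ ha hz
  rw [inv_pow, ← div_eq_mul_inv, le_div_iff₀ (by positivity)]
  calc (nu hf).real {z | k ≤ N z} * a ^ k ≤ (nu hf).real {z | a ^ k ≤ a ^ N z} * a ^ k :=
        mul_le_mul_of_nonneg_right h2 (by positivity)
    _ = a ^ k * (nu hf).real {z | a ^ k ≤ a ^ N z} := mul_comm _ _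
    _ ≤ ∫ z, a ^ N z ∂(nu hf) := h1
    _ ≤ C := h

end Crest.Agent.R158.Em522
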