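import Mathlib
import Crest.Prelude.Def_SixVertex

/-!
# Row 158, block EN (helper510), part 1: signed measures with a density

* `nm v` : Euclidean norm on `ℝ × ℝ`, `euclidDist x y = nm (x - y)`
* `sd f` : the signed measure `f(x) dx`
* `vint_sd` : `∫ᵛ g d(sd f) = ∫ g f`
* `Pf f R C` : `f` measurable, `|f| ≤ C`, `f = 0` off the ball of radius `R`
* `En f g` : the double integral of the Green kernel
* `fin_sd`, `carrier_sd`, `mass_sd`, `energy_sd`
-/

set_option autoImplicit false

noncomputable section

open MeasureTheory Filter Topology Set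
open scoped ENNReal NNReal
open Crest.ProbabilityR.SixVertex

namespace Crest.Agent.R158.En510

/-- the plane -/
abbrev P2r : Type := ℝ × ℝ

/-- Euclidean norm -/
def nm (v : P2r) : ℝ := Real.sqrt (v.1 ^ 2 + v.2 ^ 2)

lemma euclidDist_eq (x y : P2r) : euclidDist x y = nm (x - y) := rfl

lemma nm_nonneg (v : P2r) : 0 ≤ nm v := Real.sqrt_nonneg _

lemma nm_sq (v : P2r) : nm v ^ 2 = v.1 ^ 2 + v.2 ^ 2 := Real.sq_sqrt (by positivity)

lemma nm_zero : nm 0 = 0 := by simp [nm]

lemma nm_neg (v : P2r) : nm (-v) = nm v := by simp [nm]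

lemma nm_sub_comm (x y : P2r) : nm (x - y) = nm (y - x) := by
  rw [← nm_neg, neg_sub]

lemma nm_smul (t : ℝ) (v : P2r) : nm (t • v) = |t| * nm v := by
  have h : (t • v).1 ^ 2 + (t • v).2 ^ 2 = t ^ 2 * (v.1 ^ 2 + v.2 ^ 2) := by
    simp only [Prod.smul_fst, Prod.smul_snd, smul_eq_mul]; ring
  rw [nm, nm, h, Real.sqrt_mul (by positivity), Real.sqrt_sq_eq_abs]

lemma abs_fst_le (v : P2r) : |v.1| ≤ nm v := by
  rw [← Real.sqrt_sq_eq_abs]
  exact Real.sqrt_le_sqrt (by nlinarith [sq_nonneg v.2])

lemma abs_snd_le (v : P2r) : |v.2| ≤ nm v := by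
  rw [← Real.sqrt_sq_eq_abs]
  exact Real.sqrt_le_sqrt (by nlinarith [sq_nonneg v.1])

lemma nm_le_add (v : P2r) : nm v ≤ |v.1| + |v.2| := by
  rw [nm]
  refine Real.sqrt_le_iff.2 ⟨by positivity, ?_⟩
  have := mul_nonneg (abs_nonneg v.1) (abs_nonneg v.2)
  nlinarith [sq_abs v.1, sq_abs v.2]

lemma nm_add_le (u v : P2r) : nm (u + v) ≤ nm u + nm v := by
  rw [nm]
  refine Real.sqrt_le_iff.2 ⟨add_nonneg (nm_nonneg _) (nm_nonneg _), ?_⟩
  have h1 := nm_sq u
  have h2 := nm_sq v
  have h3 : u.1 * v.1 + u.2 * v.2 ≤ nm u * nm v := by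
    have h : (u.1 * v.1 + u.2 * v.2) ^ 2 ≤ (nm u * nm v) ^ 2 := by
      rw [mul_pow, h1, h2]; nlinarith [sq_nonneg (u.1 * v.2 - u.2 * v.1)]
    exact (le_abs_self _).trans (abs_le_of_sq_le_sq h (mul_nonneg (nm_nonneg _) (nm_nonneg _)))
  have h4 : (u + v).1 ^ 2 + (u + v).2 ^ 2 = nm u ^ 2 + nm v ^ 2 + 2 * (u.1 * v.1 + u.2 * v.2) := by
    rw [h1, h2]; simp only [Prod.fst_add, Prod.snd_add]; ring
  rw [h4]; nlinarith

lemma nm_sub_le (u v w : P2r) : nm (u - w) ≤ nm (u - v) + nm (v - w) := by
  have := nm_add_le (u - v) (v - w)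
  simpa using this

lemma nm_pos {v : P2r} (h : v ≠ 0) : 0 < nm v := by
  rcases (nm_nonneg v).lt_or_eq with h0 | h0
  · exact h0
  · exfalso
    apply h
    have h1 := nm_sq v
    rw [← h0] at h1
    have h2 : v.1 = 0 := by nlinarith [sq_nonneg v.1, sq_nonneg v.2]
    have h3 : v.2 = 0 := by nlinarith [sq_nonneg v.1, sq_nonneg v.2]
    exact Prod.ext h2 h3

lemma nm_sub_pos {x y : P2r} (h : x ≠ y) : 0 < nm (x - y) := nm_pos (sub_ne_zero.2 h)

lemma continuous_nm : Continuous nm := by unfold nm; fun_prop

lemma abs_nm_sub_nm_le (u v : P2r) : |nm u - nm v| ≤ nm (u - v) := by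
  rw [abs_le]
  constructor
  · have := nm_add_le (v - u) u
    rw [sub_add_cancel, ← nm_neg (v - u), neg_sub] at this
    linarith
  · have := nm_add_le (u - v) v
    rw [sub_add_cancel] at this
    linarith

/-! ### the signed measure `f dx` -/

/-- the signed measure with density `f` -/
def sd (f : P2r → ℝ) : SignedMeasure P2r := (volume : Measure P2r).withDensityᵥ f

lemma variation_sd {f : P2r → ℝ} (hf : Integrable f) :
    (sd f).variation = (volume : Measure P2r).withDensity (fun x => ‖f x‖ₑ) :=
  Measure.variation_withDensityᵥ hf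

lemma integrable_variation_sd {f g : P2r → ℝ} (hf : Integrable f) (hfm : Measurable f)
    (h : Integrable (fun x => g x * f x)) : Integrable g (sd f).variation := by
  rw [variation_sd hf]
  have e : (fun x => ‖f x‖ₑ) = fun x => ((‖f x‖₊ : ℝ≥0) : ℝ≥0∞) := by
    funext x; exact enorm_eq_nnnorm _
  rw [e, integrable_withDensity_iff_integrable_smul (hfm.nnnorm)]
  have hs : Measurable fun x => if 0 ≤ f x then (1 : ℝ) else -1 :=
    Measurable.ite (measurableSet_le measurable_const hfm) measurable_const measurable_const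
  have h2 : Integrable fun x => (g x * f x) * (if 0 ≤ f x then (1 : ℝ) else -1) :=
    h.mul_bdd (c := 1) hs.aestronglyMeasurable (Eventually.of_forall fun x => by
      split_ifs <;> simp)
  refine h2.congr (Eventually.of_forall fun x => ?_)
  simp only [NNReal.smul_def, coe_nnnorm, Real.norm_eq_abs, smul_eq_mul]
  split_ifs with h0
  · rw [abs_of_nonneg h0]; ring
  · rw [abs_of_neg (not_le.1 h0)]; ring

/-- integral against `f dx` -/
theorem vint_sd {f g : P2r → ℝ} (hf : Integrable f) (hfm : Measurable f)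
    (h : Integrable (fun x => g x * f x)) : ∫ᵛ x, g x ∂<•(sd f) = ∫ x, g x * f x := by
  have hp := isFiniteMeasure_withDensity_ofReal hf.2
  have hn := isFiniteMeasure_withDensity_ofReal hf.neg.2
  have e := withDensityᵥ_eq_withDensity_pos_part_sub_withDensity_neg_part hf
  have mp : Measurable fun x => ENNReal.ofReal (f x) := hfm.ennreal_ofReal
  have mn : Measurable fun x => ENNReal.ofReal (-f x) := hfm.neg.ennreal_ofReal
  have tp : ∀ x, (ENNReal.ofReal (f x)).toReal = max (f x) 0 := fun x => ENNReal.toReal_ofReal' 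
  have tn : ∀ x, (ENNReal.ofReal (-f x)).toReal = max (-f x) 0 := fun x => ENNReal.toReal_ofReal'
  have ip : Integrable (fun x => max (f x) 0 * g x) := by
    have hs : Measurable fun x => if 0 ≤ f x then (1 : ℝ) else 0 :=
      Measurable.ite (measurableSet_le measurable_const hfm) measurable_const measurable_const
    refine (h.mul_bdd (c := 1) hs.aestronglyMeasurable (Eventually.of_forall fun x => by
      split_ifs <;> simp)).congr (Eventually.of_forall fun x => ?_)
    simp only
    split_ifs with h0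
    · rw [max_eq_left h0]; ring
    · rw [max_eq_right (not_le.1 h0).le]; ring
  have im : Integrable (fun x => max (-f x) 0 * g x) := by
    have hs : Measurable fun x => if 0 ≤ f x then (0 : ℝ) else -1 :=
      Measurable.ite (measurableSet_le measurable_const hfm) measurable_const measurable_const
    refine (h.mul_bdd (c := 1) hs.aestronglyMeasurable (Eventually.of_forall fun x => by
      split_ifs <;> simp)).congr (Eventually.of_forall fun x => ?_)
    simp only
    split_ifs with h0
    · rw [max_eq_right (by linarith)]; ring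
    · rw [max_eq_left (by linarith [not_le.1 h0])]; ring
  have gp : Integrable g (volume.withDensity fun x => ENNReal.ofReal (f x)) := by
    rw [integrable_withDensity_iff_integrable_smul' mp (Eventually.of_forall fun x =>
      ENNReal.ofReal_lt_top)]
    simpa only [tp, smul_eq_mul] using ip
  have gn : Integrable g (volume.withDensity fun x => ENNReal.ofReal (-f x)) := by
    rw [integrable_withDensity_iff_integrable_smul' mn (Eventually.of_forall fun x =>
      ENNReal.ofReal_lt_top)]
    simpa only [tn, smul_eq_mul] using im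
  rw [sd, e, VectorMeasure.integral_sub_vectorMeasure, VectorMeasure.integral_toSignedMeasure,
    VectorMeasure.integral_toSignedMeasure,
    integral_withDensity_eq_integral_toReal_smul mp (Eventually.of_forall fun x =>
      ENNReal.ofReal_lt_top),
    integral_withDensity_eq_integral_toReal_smul mn (Eventually.of_forall fun x =>
      ENNReal.ofReal_lt_top)]
  · simp only [tp, tn, smul_eq_mul]
    rw [← integral_sub ip im]
    congr 1; funext x
    rcases le_total 0 (f x) with h0 | h0
    · rw [max_eq_left h0, max_eq_right (by linarith)]; ring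
    · rw [max_eq_right h0, max_eq_left (by linarith)]; ring
  · simpa [VectorMeasure.Integrable, Measure.variation_toSignedMeasure] using gp
  · simpa [VectorMeasure.Integrable, Measure.variation_toSignedMeasure] using gn

/-! ### profiles -/

/-- bounded measurable function carried by the ball of radius `R` -/
structure Pf (f : P2r → ℝ) (R C : ℝ) : Prop where
  meas : Measurable f
  bdd : ∀ x, |f x| ≤ C
  supp : ∀ x, R < nm x → f x = 0

lemma Pf.nonneg {f : P2r → ℝ} {R C : ℝ} (h : Pf f R C) : 0 ≤ C := (abs_nonneg _).trans (h.bdd 0)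

/-- the square of half side `R` -/
def Sq (R : ℝ) : Set P2r := Icc (-R) R ×ˢ Icc (-R) R

lemma measurableSet_Sq (R : ℝ) : MeasurableSet (Sq R) := measurableSet_Icc.prod measurableSet_Icc

lemma isCompact_Sq (R : ℝ) : IsCompact (Sq R) := isCompact_Icc.prod isCompact_Icc

lemma mem_Sq_of_nm_le {R : ℝ} {x : P2r} (h : nm x ≤ R) : x ∈ Sq R := by
  refine ⟨?_, ?_⟩
  · exact abs_le.1 ((abs_fst_le x).trans h)
  · exact abs_le.1 ((abs_snd_le x).trans h)

lemma Pf.zero_off {f : P2r → ℝ} {R C : ℝ} (h : Pf f R C) {x : P2r} (hx : x ∉ Sq R) : f x = 0 := by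
  apply h.supp
  by_contra h2
  exact hx (mem_Sq_of_nm_le (not_lt.1 h2))

lemma volume_Sq_lt_top (R : ℝ) : volume (Sq R) < ⊤ := (isCompact_Sq R).measure_lt_top

lemma Pf.integrable {f : P2r → ℝ} {R C : ℝ} (h : Pf f R C) : Integrable f := by
  have : Integrable ((Sq R).indicator fun _ => C) :=
    (integrable_indicator_iff (measurableSet_Sq R)).2
      (integrableOn_const (volume_Sq_lt_top R).ne)
  refine this.mono' h.meas.aestronglyMeasurable (Eventually.of_forall fun x => ?_)
  by_cases hx : x ∈ Sq R
  · rw [indicator_of_mem hx]; exact h.bdd x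
  · rw [indicator_of_notMem hx, h.zero_off hx]; simp

/-- the Euclidean norm of the difference is measurable -/
lemma measurable_logDist : Measurable fun p : P2r × P2r => Real.log (nm (p.1 - p.2)) :=
  Real.measurable_log.comp (continuous_nm.measurable.comp (measurable_fst.sub measurable_snd))

/-- pointwise bound of the logarithm by a one-dimensional one -/
lemma abs_log_nm_le {K : ℝ} (hK : 1 ≤ K) {v : P2r} (h1 : v.1 ≠ 0) (h : nm v ≤ K) :
    |Real.log (nm v)| ≤ |Real.log v.1| + Real.log K := by
  have hv : v ≠ 0 := fun h0 => h1 (by rw [h0]; rfl)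
  have hp := nm_pos hv
  have h2 : Real.log |v.1| ≤ Real.log (nm v) :=
    Real.log_le_log (abs_pos.2 h1) (abs_fst_le v)
  rw [Real.log_abs] at h2
  have h3 : Real.log (nm v) ≤ Real.log K := Real.log_le_log hp h
  have h4 := Real.log_nonneg hK
  rw [abs_le]
  constructor
  · linarith [neg_abs_le (Real.log v.1)]
  · linarith [abs_nonneg (Real.log v.1)]

/-! ### local integrability of the logarithm -/

/-- dominating function -/
def Wd (R K : ℝ) (v : P2r) : ℝ := (Sq R).indicator (fun v => |Real.log v.1| + Real.log K) v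

lemma Wd_nonneg {R K : ℝ} (hK : 1 ≤ K) (v : P2r) : 0 ≤ Wd R K v := by
  unfold Wd
  by_cases h : v ∈ Sq R
  · rw [indicator_of_mem h]
    have := Real.log_nonneg hK
    positivity
  · rw [indicator_of_notMem h]

lemma integrable_Wd (R K : ℝ) : Integrable (Wd R K) := by
  unfold Wd
  rw [integrable_indicator_iff (measurableSet_Sq R)]
  refine Integrable.add ?_ (integrableOn_const (volume_Sq_lt_top R).ne)
  have e : (volume : Measure P2r).restrict (Sq R) =
      ((volume : Measure ℝ).restrict (Icc (-R) R)).prod ((volume : Measure ℝ).restrict (Icc (-R) R)) := by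
    rw [Measure.prod_restrict]; rfl
  rw [e]
  have hfin : IsFiniteMeasure ((volume : Measure ℝ).restrict (Icc (-R) R)) := by
    refine ⟨?_⟩
    rw [Measure.restrict_apply_univ]
    exact isCompact_Icc.measure_lt_top
  have h1 : Integrable (fun t : ℝ => |Real.log t|) ((volume : Measure ℝ).restrict (Icc (-R) R)) := by
    rcases le_or_gt (-R) R with hR | hR
    · have h0 : IntervalIntegrable Real.log volume (-R) R := intervalIntegral.intervalIntegrable_log'
      rw [intervalIntegrable_iff_integrableOn_Icc_of_le hR] at h0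
      exact h0.abs
    · rw [Icc_eq_empty (not_le.2 hR), Measure.restrict_empty]
      exact integrable_zero_measure
  exact h1.comp_fst ((volume : Measure ℝ).restrict (Icc (-R) R))

lemma ae_fst_ne (a : ℝ) : ∀ᵐ v : P2r, v.1 ≠ a := by
  have h : ∀ᵐ t : ℝ, t ≠ a := by
    simp [ae_iff]
  exact (Measure.quasiMeasurePreserving_fst (μ := (volume : Measure ℝ))
    (ν := (volume : Measure ℝ))).ae h

lemma ae_sub_fst_ne (x : P2r) : ∀ᵐ y : P2r, (x - y).1 ≠ 0 := by
  filter_upwards [ae_fst_ne x.1] with y hy h
  apply hy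
  have : (x - y).1 = x.1 - y.1 := rfl
  rw [this] at h
  linarith

lemma ae_pair_fst_ne : ∀ᵐ p : P2r × P2r, (p.1 - p.2).1 ≠ 0 := by
  have hm : MeasurableSet {p : P2r × P2r | (p.1 - p.2).1 ≠ 0} := by
    have : Measurable fun p : P2r × P2r => (p.1 - p.2).1 :=
      measurable_fst.comp (measurable_fst.sub measurable_snd)
    exact this (measurableSet_singleton (0:ℝ)).compl
  have h := (Measure.ae_prod_iff_ae_ae (μ := (volume : Measure P2r)) (ν := (volume : Measure P2r))
    hm).2 (Eventually.of_forall fun x => ae_sub_fst_ne x)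
  exact h

lemma ae_pair_ne : ∀ᵐ p : P2r × P2r, p.1 ≠ p.2 := by
  filter_upwards [ae_pair_fst_ne] with p hp h
  rw [h] at hp
  simp at hp

lemma greenKernel_eq (x y : P2r) :
    greenKernel x y = -(2 * Real.pi)⁻¹ * Real.log (nm (x - y)) := rfl

lemma greenKernel_comm (x y : P2r) : greenKernel x y = greenKernel y x := by
  rw [greenKernel_eq, greenKernel_eq, nm_sub_comm]

lemma measurable_greenKernel : Measurable fun p : P2r × P2r => greenKernel p.1 p.2 :=
  measurable_logDist.const_mul _

lemma greenKernel_bound {R R' : ℝ} {x y : P2r} (hR : 0 ≤ R) (hR' : 0 ≤ R') (hx : nm x ≤ R)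
    (hy : nm y ≤ R') (h : (x - y).1 ≠ 0) :
    |greenKernel x y| ≤ (2 * Real.pi)⁻¹ * Wd (R + R') (1 + R + R') (x - y) := by
  rw [greenKernel_eq, abs_mul, abs_neg, abs_of_nonneg (by positivity)]
  refine mul_le_mul_of_nonneg_left ?_ (by positivity)
  have h1 : nm (x - y) ≤ R + R' := by
    have := nm_add_le x (-y)
    rw [nm_neg, ← sub_eq_add_neg] at this
    linarith
  have h2 := abs_log_nm_le (K := 1 + R + R') (by linarith) h (by linarith)
  rw [Wd, indicator_of_mem (mem_Sq_of_nm_le h1)]
  exact h2

/-- integrability in one variable -/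
lemma integrable_green_right {g : P2r → ℝ} {R C : ℝ} (hg : Pf g R C) (x : P2r) :
    Integrable fun y => greenKernel x y * g y := by
  set R' := max R 0 with hR'
  have hW : Integrable fun y => (2 * Real.pi)⁻¹ * Wd (nm x + R') (1 + nm x + R') (x - y) * C :=
    (((integrable_Wd _ _).comp_sub_left x).const_mul _).mul_const _
  refine hW.mono' ?_ ?_
  · exact ((measurable_greenKernel.comp (measurable_const.prodMk measurable_id)).mul
      hg.meas).aestronglyMeasurable
  · filter_upwards [ae_sub_fst_ne x] with y hy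
    rw [Real.norm_eq_abs, abs_mul]
    rcases le_or_gt (nm y) R with h | h
    · exact mul_le_mul (greenKernel_bound (nm_nonneg x) (le_max_right _ _) le_rfl
        (h.trans (le_max_left _ _)) hy) (hg.bdd y) (abs_nonneg _)
        (mul_nonneg (by positivity) (Wd_nonneg (by
          have := nm_nonneg x; have := le_max_right R 0; linarith) _))
    · rw [hg.supp y h, abs_zero, mul_zero]
      exact mul_nonneg (mul_nonneg (by positivity) (Wd_nonneg (by
          have := nm_nonneg x; have := le_max_right R 0; linarith) _)) hg.nonneg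

/-- integrability of the kernel against a product of profiles -/
lemma integrable_green {f g : P2r → ℝ} {R C R' C' : ℝ} (hf : Pf f R C) (hg : Pf g R' C') :
    Integrable fun p : P2r × P2r => greenKernel p.1 p.2 * (f p.1 * g p.2) := by
  set A := max R 0 with hA
  set B := max R' 0 with hB
  have hA0 : 0 ≤ A := le_max_right _ _
  have hB0 : 0 ≤ B := le_max_right _ _
  have h1 : Integrable ((Sq B).indicator fun _ : P2r => (1:ℝ)) :=
    (integrable_indicator_iff (measurableSet_Sq B)).2
      (integrableOn_const (volume_Sq_lt_top B).ne)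
  have hc := MeasureTheory.Integrable.convolution_integrand (ContinuousLinearMap.mul ℝ ℝ) h1
    (integrable_Wd (A + B) (1 + A + B))
  have hW : Integrable fun p : P2r × P2r =>
      ((2 * Real.pi)⁻¹ * (C * C')) * ((Sq B).indicator (fun _ => (1:ℝ)) p.2 *
        Wd (A + B) (1 + A + B) (p.1 - p.2)) := by
    exact Integrable.const_mul hc _
  refine hW.mono' ?_ ?_
  · exact (measurable_greenKernel.mul ((hf.meas.comp measurable_fst).mul
      (hg.meas.comp measurable_snd))).aestronglyMeasurable
  · filter_upwards [ae_pair_fst_ne] with p hp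
    have hW0 := Wd_nonneg (R := A + B) (K := 1 + A + B) (by linarith) (p.1 - p.2)
    have hi0 : 0 ≤ (Sq B).indicator (fun _ => (1:ℝ)) p.2 := indicator_nonneg (fun _ _ => zero_le_one) _
    have hC := hf.nonneg
    have hC' := hg.nonneg
    rw [Real.norm_eq_abs, abs_mul, abs_mul]
    rcases le_or_gt (nm p.1) R with h | h
    · rcases le_or_gt (nm p.2) R' with h' | h'
      · have hk := greenKernel_bound hA0 hB0 (h.trans (le_max_left _ _))
          (h'.trans (le_max_left _ _)) hp
        rw [indicator_of_mem (mem_Sq_of_nm_le (h'.trans (le_max_left _ _)))]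
        calc |greenKernel p.1 p.2| * (|f p.1| * |g p.2|)
            ≤ ((2 * Real.pi)⁻¹ * Wd (A + B) (1 + A + B) (p.1 - p.2)) * (C * C') :=
              mul_le_mul hk (mul_le_mul (hf.bdd _) (hg.bdd _) (abs_nonneg _) hC)
                (by positivity) (by positivity)
          _ = _ := by ring
      · rw [hg.supp _ h', abs_zero, mul_zero, mul_zero]
        positivity
    · rw [hf.supp _ h, abs_zero, zero_mul, mul_zero]
      positivity

/-! ### energy -/

/-- mutual energy -/
def En (f g : P2r → ℝ) : ℝ := ∫ p : P2r × P2r, greenKernel p.1 p.2 * (f p.1 * g p.2)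

lemma En_symm (f g : P2r → ℝ) : En f g = En g f := by
  have h := integral_prod_swap (μ := (volume : Measure P2r)) (ν := (volume : Measure P2r))
    (fun p : P2r × P2r => greenKernel p.1 p.2 * (f p.1 * g p.2))
  unfold En
  refine Eq.trans h.symm (integral_congr_ae (Eventually.of_forall fun p => ?_))
  simp only [Prod.swap]
  rw [greenKernel_comm, mul_comm (f _)]

theorem energy_sd {f : P2r → ℝ} {R C : ℝ} (hf : Pf f R C) : energy (sd f) = En f f := by
  have h1 : ∀ x, ∫ᵛ y, greenKernel x y ∂<•(sd f) = ∫ y, greenKernel x y * f y := fun x =>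
    vint_sd hf.integrable hf.meas (integrable_green_right hf x)
  have hi := integrable_green hf hf
  have e : ∀ x, (∫ y, greenKernel x y * f y) * f x = ∫ y, greenKernel x y * (f x * f y) := by
    intro x
    rw [← integral_mul_const]
    congr 1; funext y; ring
  have h2 : Integrable fun x => (∫ y, greenKernel x y * f y) * f x := by
    simp only [e]
    exact hi.integral_prod_left
  rw [energy]
  simp only [h1]
  rw [vint_sd hf.integrable hf.meas h2]
  simp only [e]
  rw [En]
  exact (integral_prod _ hi).symm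

theorem carrier_sd {f : P2r → ℝ} {R C : ℝ} (hf : Pf f R C) :
    ∃ K : Set P2r, IsCompact K ∧ (sd f).variation Kᶜ = 0 := by
  refine ⟨Sq R, isCompact_Sq R, ?_⟩
  rw [variation_sd hf.integrable, withDensity_apply _ (measurableSet_Sq R).compl]
  rw [setLIntegral_congr_fun (g := fun _ => 0) (measurableSet_Sq R).compl]
  · simp
  · intro x hx
    simp only [hf.zero_off hx, enorm_zero]

theorem mass_sd {f : P2r → ℝ} (hf : Integrable f) : sd f univ = ∫ x, f x := by
  rw [sd, withDensityᵥ_apply hf MeasurableSet.univ, setIntegral_univ]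

lemma sd_apply {f : P2r → ℝ} (hf : Integrable f) {s : Set P2r} (hs : MeasurableSet s) :
    sd f s = ∫ x in s, f x := withDensityᵥ_apply hf hs

theorem fin_sd {f : P2r → ℝ} {R C : ℝ} (hf : Pf f R C) : HasFiniteEnergy (sd f) := by
  have hi := (integrable_green hf hf).2
  have hfe : Measurable fun x => ‖f x‖ₑ := hf.meas.enorm
  rw [HasFiniteEnergy, variation_sd hf.integrable, prod_withDensity hfe hfe]
  have hmp : Measurable fun p : P2r × P2r => ‖f p.1‖ₑ * ‖f p.2‖ₑ :=
    (hfe.comp measurable_fst).mul (hfe.comp measurable_snd)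
  have hlog : Measurable fun p : P2r × P2r => logPlusInvDist p.1 p.2 := by
    have : (fun p : P2r × P2r => logPlusInvDist p.1 p.2) = fun p => if p.1 = p.2 then ⊤ else
      ENNReal.ofReal (-Real.log (nm (p.1 - p.2))) := rfl
    rw [this]
    exact Measurable.ite (measurableSet_eq_fun measurable_fst measurable_snd) measurable_const
      measurable_logDist.neg.ennreal_ofReal
  rw [lintegral_withDensity_eq_lintegral_mul _ hmp hlog]
  have key : ∫⁻ p : P2r × P2r, ((fun p : P2r × P2r => ‖f p.1‖ₑ * ‖f p.2‖ₑ) *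
      fun p : P2r × P2r => logPlusInvDist p.1 p.2) p
      ∂((volume : Measure P2r).prod volume) ≤
      ∫⁻ p : P2r × P2r, ENNReal.ofReal (2 * Real.pi) *
        ‖greenKernel p.1 p.2 * (f p.1 * f p.2)‖ₑ ∂((volume : Measure P2r).prod volume) := by
    refine lintegral_mono_ae ?_
    have hne : ∀ᵐ p : P2r × P2r ∂((volume : Measure P2r).prod volume), p.1 ≠ p.2 := ae_pair_ne
    filter_upwards [hne] with p hp
    simp only [Pi.mul_apply]
    rw [logPlusInvDist, if_neg hp, enorm_mul, enorm_mul, greenKernel_eq, euclidDist_eq, enorm_mul,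
      enorm_neg]
    have h2 : ENNReal.ofReal (2 * Real.pi) * ‖(2 * Real.pi)⁻¹‖ₑ = 1 := by
      rw [Real.enorm_eq_ofReal (by positivity), ← ENNReal.ofReal_mul (by positivity),
        mul_inv_cancel₀ (by positivity), ENNReal.ofReal_one]
    calc ‖f p.1‖ₑ * ‖f p.2‖ₑ * ENNReal.ofReal (-Real.log (nm (p.1 - p.2)))
        ≤ ‖f p.1‖ₑ * ‖f p.2‖ₑ * ‖Real.log (nm (p.1 - p.2))‖ₑ := by
          gcongr
          rw [Real.enorm_eq_ofReal_abs]
          exact ENNReal.ofReal_le_ofReal (neg_le_abs _)
      _ = (ENNReal.ofReal (2 * Real.pi) * ‖(2 * Real.pi)⁻¹‖ₑ) *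
          (‖Real.log (nm (p.1 - p.2))‖ₑ * (‖f p.1‖ₑ * ‖f p.2‖ₑ)) := by rw [h2, one_mul, mul_comm]
      _ = _ := by ring
  refine lt_of_le_of_lt key ?_
  rw [lintegral_const_mul' _ _ ENNReal.ofReal_ne_top]
  exact ENNReal.mul_lt_top ENNReal.ofReal_lt_top hi

end Crest.Agent.R158.En510
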