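import Crest.Agent.R158.En1_510

/-!
# Row 158, block EN (helper510), part 2: bilinearity, scaling, far field
-/

set_option autoImplicit false

noncomputable section

open MeasureTheory Filter Topology Set
open scoped ENNReal NNReal
open Crest.ProbabilityR.SixVertex

namespace Crest.Agent.R158.En510

/-! ### algebra of profiles -/

lemma Pf.mono {f : P2r → ℝ} {R C R' C' : ℝ} (h : Pf f R C) (hR : R ≤ R') (hC : C ≤ C') :
    Pf f R' C' :=
  ⟨h.meas, fun x => (h.bdd x).trans hC, fun x hx => h.supp x (hR.trans_lt hx)⟩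

lemma Pf.zero {R : ℝ} : Pf (fun _ => 0) R 0 :=
  ⟨measurable_const, fun _ => by simp, fun _ _ => rfl⟩

lemma Pf.add {f g : P2r → ℝ} {R C R' C' : ℝ} (hf : Pf f R C) (hg : Pf g R' C') :
    Pf (fun x => f x + g x) (max R R') (C + C') :=
  ⟨hf.meas.add hg.meas, fun x => (abs_add_le _ _).trans (add_le_add (hf.bdd x) (hg.bdd x)),
    fun x hx => by rw [hf.supp x ((le_max_left _ _).trans_lt hx),
      hg.supp x ((le_max_right _ _).trans_lt hx), add_zero]⟩

lemma Pf.const_mul {f : P2r → ℝ} {R C : ℝ} (hf : Pf f R C) (a : ℝ) :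
    Pf (fun x => a * f x) R (|a| * C) :=
  ⟨hf.meas.const_mul a, fun x => by rw [abs_mul]; exact mul_le_mul_of_nonneg_left (hf.bdd x) (abs_nonneg a),
    fun x hx => by rw [hf.supp x hx, mul_zero]⟩

lemma Pf.sum {ι : Type*} (s : Finset ι) {f : ι → P2r → ℝ} {R : ι → ℝ} {C : ι → ℝ} {R0 : ℝ}
    (hR : ∀ i ∈ s, R i ≤ R0) (hf : ∀ i ∈ s, Pf (f i) (R i) (C i)) :
    Pf (fun x => ∑ i ∈ s, f i x) R0 (∑ i ∈ s, C i) := by
  refine ⟨Finset.measurable_sum _ fun i hi => (hf i hi).meas, fun x => ?_, fun x hx => ?_⟩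
  · exact (Finset.abs_sum_le_sum_abs _ _).trans (Finset.sum_le_sum fun i hi => (hf i hi).bdd x)
  · exact Finset.sum_eq_zero fun i hi => (hf i hi).supp x ((hR i hi).trans_lt hx)

lemma Pf.abs {f : P2r → ℝ} {R C : ℝ} (hf : Pf f R C) : Pf (fun x => |f x|) R C :=
  ⟨hf.meas.abs, fun x => by rw [abs_abs]; exact hf.bdd x, fun x hx => by rw [hf.supp x hx, abs_zero]⟩

/-- `En` is additive -/
lemma En_add_left {f g h : P2r → ℝ} {R C R' C' R'' C'' : ℝ} (hf : Pf f R C) (hg : Pf g R' C')
    (hh : Pf h R'' C'') : En (fun x => f x + g x) h = En f h + En g h := by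
  unfold En
  rw [← integral_add (integrable_green hf hh) (integrable_green hg hh)]
  congr 1; funext p; ring

lemma En_const_mul_left (f h : P2r → ℝ) (a : ℝ) : En (fun x => a * f x) h = a * En f h := by
  unfold En
  rw [← integral_const_mul]
  congr 1; funext p; ring

lemma En_const_mul_right (f h : P2r → ℝ) (a : ℝ) : En f (fun x => a * h x) = a * En f h := by
  rw [En_symm, En_const_mul_left, En_symm]

lemma En_sum_left {ι : Type*} (s : Finset ι) {f : ι → P2r → ℝ} {R : ι → ℝ} {C : ι → ℝ}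
    {h : P2r → ℝ} {R' C' : ℝ} (hf : ∀ i ∈ s, Pf (f i) (R i) (C i)) (hh : Pf h R' C') :
    En (fun x => ∑ i ∈ s, f i x) h = ∑ i ∈ s, En (f i) h := by
  unfold En
  rw [← integral_finsetSum s fun i hi => integrable_green (hf i hi) hh]
  congr 1; funext p
  rw [Finset.sum_mul, Finset.mul_sum]

lemma En_sum_right {ι : Type*} (s : Finset ι) {f : ι → P2r → ℝ} {R : ι → ℝ} {C : ι → ℝ}
    {h : P2r → ℝ} {R' C' : ℝ} (hf : ∀ i ∈ s, Pf (f i) (R i) (C i)) (hh : Pf h R' C') :
    En h (fun x => ∑ i ∈ s, f i x) = ∑ i ∈ s, En h (f i) := by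
  rw [En_symm, En_sum_left s hf hh]
  exact Finset.sum_congr rfl fun i _ => En_symm _ _

/-! ### rescaling -/

/-- the profile `f` moved to `x` and shrunk by `r` -/
def pr (f : P2r → ℝ) (x : P2r) (r : ℝ) (y : P2r) : ℝ := (r⁻¹ ^ 2) * f (r⁻¹ • (y - x))

lemma measurable_scl (x : P2r) (r : ℝ) : Measurable fun y : P2r => r⁻¹ • (y - x) :=
  (measurable_id.sub_const x).const_smul r⁻¹

lemma pr_eq_zero {f : P2r → ℝ} {R C : ℝ} (hf : Pf f R C) {x : P2r} {r : ℝ} (hr : 0 < r) {y : P2r}
    (h : r * R < nm (y - x)) : pr f x r y = 0 := by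
  unfold pr
  rw [hf.supp, mul_zero]
  rw [nm_smul, abs_of_pos (inv_pos.2 hr), ← div_eq_inv_mul, lt_div_iff₀ hr]
  linarith

lemma Pf.pr {f : P2r → ℝ} {R C : ℝ} (hf : Pf f R C) (x : P2r) {r : ℝ} (hr : 0 < r) :
    Pf (pr f x r) (nm x + r * R) (r⁻¹ ^ 2 * C) := by
  refine ⟨(hf.meas.comp (measurable_scl x r)).const_mul _, fun y => ?_, fun y hy => ?_⟩
  · unfold En510.pr
    rw [abs_mul, abs_of_nonneg (by positivity)]
    exact mul_le_mul_of_nonneg_left (hf.bdd _) (by positivity)
  · apply pr_eq_zero hf hr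
    have h1 := nm_add_le (y - x) x
    rw [sub_add_cancel] at h1
    linarith

lemma abs_pr (f : P2r → ℝ) (x : P2r) (r : ℝ) (y : P2r) :
    |pr f x r y| = pr (fun z => |f z|) x r y := by
  unfold pr
  rw [abs_mul, abs_of_nonneg (by positivity)]

lemma finrank_P2r : Module.finrank ℝ P2r = 2 := by simp

lemma integral_pr (f : P2r → ℝ) (x : P2r) {r : ℝ} (hr : 0 < r) : ∫ y, pr f x r y = ∫ y, f y := by
  unfold pr
  rw [integral_const_mul, integral_sub_right_eq_self (fun y : P2r => f (r⁻¹ • y)) x,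
    Measure.integral_comp_inv_smul_of_nonneg volume f hr.le, finrank_P2r, smul_eq_mul, ← mul_assoc,
    ← mul_pow, inv_mul_cancel₀ hr.ne', one_pow, one_mul]

instance instHaar4 : Measure.IsAddHaarMeasure (volume : Measure (P2r × P2r)) :=
  Measure.prod.instIsAddHaarMeasure _ _

lemma finrank_P4 : Module.finrank ℝ (P2r × P2r) = 4 := by simp

lemma greenKernel_scale {r : ℝ} (hr : 0 < r) (x : P2r) {u v : P2r} (h : u ≠ v) :
    greenKernel u v = greenKernel (r⁻¹ • (u - x)) (r⁻¹ • (v - x)) - (2 * Real.pi)⁻¹ * Real.log r := by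
  rw [greenKernel_eq, greenKernel_eq]
  have e : r⁻¹ • (u - x) - r⁻¹ • (v - x) = r⁻¹ • (u - v) := by
    rw [← smul_sub]; congr 1; abel
  rw [e, nm_smul, abs_of_pos (inv_pos.2 hr), Real.log_mul (inv_pos.2 hr).ne' (nm_sub_pos h).ne',
    Real.log_inv]
  ring

/-- **scaling of the mutual energy** -/
theorem En_pr {f g : P2r → ℝ} {R C R' C' : ℝ} (hf : Pf f R C) (hg : Pf g R' C') (x : P2r) {r : ℝ}
    (hr : 0 < r) :
    En (pr f x r) (pr g x r) = En f g - (2 * Real.pi)⁻¹ * ((∫ y, f y) * ∫ y, g y) * Real.log r := by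
  set H : P2r × P2r → ℝ := fun q => greenKernel q.1 q.2 * (f q.1 * g q.2) -
    (2 * Real.pi)⁻¹ * Real.log r * (f q.1 * g q.2) with hH
  have h1 : En (pr f x r) (pr g x r) =
      ∫ p : P2r × P2r, (r⁻¹ ^ 4) * H (r⁻¹ • (p - (x, x))) := by
    unfold En
    refine integral_congr_ae ?_
    filter_upwards [ae_pair_ne] with p hp
    rw [greenKernel_scale hr x hp]
    simp only [hH, pr, Prod.smul_fst, Prod.smul_snd, Prod.fst_sub, Prod.snd_sub]
    ring
  rw [h1, integral_const_mul, integral_sub_right_eq_self (fun y : P2r × P2r => H (r⁻¹ • y)) (x, x),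
    Measure.integral_comp_inv_smul_of_nonneg volume H hr.le, finrank_P4, smul_eq_mul, ← mul_assoc,
    ← mul_pow, inv_mul_cancel₀ hr.ne', one_pow, one_mul]
  have i1 := integrable_green hf hg
  have i2 : Integrable fun q : P2r × P2r => f q.1 * g q.2 := hf.integrable.mul_prod hg.integrable
  rw [hH, integral_sub i1 (i2.const_mul _), integral_const_mul]
  have h3 : ∫ q : P2r × P2r, f q.1 * g q.2 = (∫ y, f y) * ∫ y, g y := integral_prod_mul f g
  rw [h3, En]
  ring

/-- **far field** -/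
theorem En_far {f g : P2r → ℝ} {R C C' : ℝ} (hf : Pf f R C) (hg : Pf g R C') (x y : P2r)
    {r r' : ℝ} (hr : 0 < r) (hr' : 0 < r') (hxy : x ≠ y) (hR : 0 ≤ R)
    (hd : 2 * (r + r') * R ≤ nm (x - y)) :
    |En (pr f x r) (pr g y r') + (2 * Real.pi)⁻¹ * ((∫ z, f z) * ∫ z, g z) *
      Real.log (nm (x - y))| ≤
      (2 * Real.pi)⁻¹ * ((∫ z, |f z|) * ∫ z, |g z|) * (2 * (r + r') * R / nm (x - y)) := by
  have hD := nm_sub_pos hxy
  have pf := hf.pr x hr
  have pg := hg.pr y hr'
  have i1 := integrable_green pf pg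
  have i2 : Integrable fun q : P2r × P2r => pr f x r q.1 * pr g y r' q.2 :=
    pf.integrable.mul_prod pg.integrable
  have e3 : ∫ q : P2r × P2r, pr f x r q.1 * pr g y r' q.2 = (∫ y, f y) * ∫ y, g y := by
    have := integral_prod_mul (μ := (volume : Measure P2r)) (ν := (volume : Measure P2r))
      (pr f x r) (pr g y r')
    rw [integral_pr f x hr, integral_pr g y hr'] at this
    exact this
  have e4 : ∫ q : P2r × P2r, |pr f x r q.1| * |pr g y r' q.2| = (∫ y, |f y|) * ∫ y, |g y| := by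
    have := integral_prod_mul (μ := (volume : Measure P2r)) (ν := (volume : Measure P2r))
      (pr (fun z => |f z|) x r) (pr (fun z => |g z|) y r')
    rw [integral_pr _ x hr, integral_pr _ y hr'] at this
    simp only [abs_pr]
    exact this
  have i5 : Integrable fun q : P2r × P2r => |pr f x r q.1| * |pr g y r' q.2| :=
    pf.integrable.abs.mul_prod pg.integrable.abs
  have e1 : En (pr f x r) (pr g y r') + (2 * Real.pi)⁻¹ * ((∫ z, f z) * ∫ z, g z) *
      Real.log (nm (x - y)) = ∫ q : P2r × P2r, (greenKernel q.1 q.2 +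
        (2 * Real.pi)⁻¹ * Real.log (nm (x - y))) * (pr f x r q.1 * pr g y r' q.2) := by
    rw [← e3, En]
    have : (2 * Real.pi)⁻¹ * (∫ q : P2r × P2r, pr f x r q.1 * pr g y r' q.2) *
        Real.log (nm (x - y)) = ∫ q : P2r × P2r, ((2 * Real.pi)⁻¹ * Real.log (nm (x - y))) *
          (pr f x r q.1 * pr g y r' q.2) := by
      rw [integral_const_mul]; ring
    rw [this, ← integral_add i1 (i2.const_mul _)]
    congr 1; funext q; ring
  rw [e1]
  have hbd : ∀ q : P2r × P2r, ‖(greenKernel q.1 q.2 +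
        (2 * Real.pi)⁻¹ * Real.log (nm (x - y))) * (pr f x r q.1 * pr g y r' q.2)‖ ≤
      (2 * Real.pi)⁻¹ * (2 * (r + r') * R / nm (x - y)) * (|pr f x r q.1| * |pr g y r' q.2|) := by
    intro q
    rw [Real.norm_eq_abs, abs_mul, abs_mul (pr f x r q.1)]
    rcases lt_or_ge (r * R) (nm (q.1 - x)) with h1 | h1
    · rw [pr_eq_zero hf hr h1]; simp
    rcases lt_or_ge (r' * R) (nm (q.2 - y)) with h2 | h2
    · rw [pr_eq_zero hg hr' h2]; simp
    refine mul_le_mul_of_nonneg_right ?_ (by positivity)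
    have h3 : |nm (q.1 - q.2) - nm (x - y)| ≤ (r + r') * R := by
      refine (abs_nm_sub_nm_le _ _).trans ?_
      have e : q.1 - q.2 - (x - y) = (q.1 - x) + -(q.2 - y) := by abel
      rw [e]
      have := nm_add_le (q.1 - x) (-(q.2 - y))
      rw [nm_neg] at this
      linarith
    have h4 : nm (x - y) / 2 ≤ nm (q.1 - q.2) := by
      have := abs_le.1 h3
      linarith
    have h5 : 0 < nm (q.1 - q.2) := by linarith
    have h6 : greenKernel q.1 q.2 + (2 * Real.pi)⁻¹ * Real.log (nm (x - y)) =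
        (2 * Real.pi)⁻¹ * (Real.log (nm (x - y)) - Real.log (nm (q.1 - q.2))) := by
      rw [greenKernel_eq]; ring
    rw [h6, abs_mul, abs_of_nonneg (by positivity : (0:ℝ) ≤ (2 * Real.pi)⁻¹)]
    refine mul_le_mul_of_nonneg_left ?_ (by positivity)
    -- |log a - log b| ≤ |a-b| / min a b
    have hlog : ∀ a b : ℝ, 0 < a → 0 < b → Real.log a - Real.log b ≤ (a - b) / b := by
      intro a b ha hb
      rw [← Real.log_div ha.ne' hb.ne']
      have := Real.log_le_sub_one_of_pos (div_pos ha hb)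
      have e : (a - b) / b = a / b - 1 := by field_simp
      rw [e]; exact this
    have k := abs_le.1 h3
    have hrr : 0 ≤ (r + r') * R := by positivity
    rw [abs_le]
    constructor
    · have h7 := hlog (nm (q.1 - q.2)) (nm (x - y)) h5 hD
      have h8 : (nm (q.1 - q.2) - nm (x - y)) / nm (x - y) ≤ 2 * (r + r') * R / nm (x - y) := by
        refine div_le_div_of_nonneg_right ?_ hD.le
        linarith [k.2]
      linarith
    · have h7 := hlog (nm (x - y)) (nm (q.1 - q.2)) hD h5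
      have h8 : (nm (x - y) - nm (q.1 - q.2)) / nm (q.1 - q.2) ≤ 2 * (r + r') * R / nm (x - y) := by
        rw [div_le_div_iff₀ h5 hD]
        have a1 : nm (x - y) - nm (q.1 - q.2) ≤ (r + r') * R := by linarith [k.1]
        calc (nm (x - y) - nm (q.1 - q.2)) * nm (x - y) ≤ ((r + r') * R) * nm (x - y) :=
              mul_le_mul_of_nonneg_right a1 hD.le
          _ ≤ ((r + r') * R) * (2 * nm (q.1 - q.2)) := mul_le_mul_of_nonneg_left (by linarith) hrr
          _ = _ := by ring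
      linarith
  have h9 := norm_integral_le_of_norm_le (i5.const_mul _) (Eventually.of_forall hbd)
  rw [integral_const_mul, e4] at h9
  rw [← Real.norm_eq_abs]
  refine h9.trans (le_of_eq ?_)
  ring

end Crest.Agent.R158.En510
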