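import Crest.Agent.R158.En2_510

/-!
# Row 158, block EN (helper510), part 3: concentric squares

* `Uq s` : uniform density of the square `[-s, s)²`
* `En_Uq` : `|En (Uq s) (Uq s') + (2π)⁻¹ log (max s s')| ≤ C`
* `fq a s` : the density `∑ i, a i • Uq (s i)`, `i < 3`
* `energy_fq` : energy of the concentric charges
-/

set_option autoImplicit false

noncomputable section

open MeasureTheory Filter Topology Set
open scoped ENNReal NNReal
open Crest.ProbabilityR.SixVertex

namespace Crest.Agent.R158.En510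

/-- the half open square -/
def Hq (s : ℝ) : Set P2r := Ico (-s) s ×ˢ Ico (-s) s

lemma measurableSet_Hq (s : ℝ) : MeasurableSet (Hq s) := measurableSet_Ico.prod measurableSet_Ico

/-- uniform density of the square `[-s, s)²` -/
def Uq (s : ℝ) : P2r → ℝ := (Hq s).indicator fun _ => (4 * s ^ 2)⁻¹

lemma Uq_nonneg (s : ℝ) (x : P2r) : 0 ≤ Uq s x := indicator_nonneg (fun _ _ => by positivity) _

lemma pf_Uq {s S : ℝ} (hS : s ≤ S) : Pf (Uq s) (2 * S) (4 * s ^ 2)⁻¹ := by
  refine ⟨measurable_const.indicator (measurableSet_Hq s), fun x => ?_, fun x hx => ?_⟩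
  · unfold Uq
    by_cases h : x ∈ Hq s
    · rw [indicator_of_mem h, abs_of_nonneg (by positivity)]
    · rw [indicator_of_notMem h, abs_zero]; positivity
  · unfold Uq
    rw [indicator_of_notMem]
    intro h
    obtain ⟨⟨h1, h2⟩, ⟨h3, h4⟩⟩ := h
    have a1 : |x.1| ≤ s := abs_le.2 ⟨h1, h2.le⟩
    have a2 : |x.2| ≤ s := abs_le.2 ⟨h3, h4.le⟩
    have := nm_le_add x
    linarith

lemma volume_Hq {s : ℝ} (hs : 0 ≤ s) : (volume : Measure P2r).real (Hq s) = 4 * s ^ 2 := by
  have h : (volume : Measure P2r) (Hq s) = ENNReal.ofReal (2 * s) * ENNReal.ofReal (2 * s) := by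
    rw [Hq, Measure.volume_eq_prod, Measure.prod_prod, Real.volume_Ico]
    congr 2 <;> ring
  rw [Measure.real, h, ENNReal.toReal_mul, ENNReal.toReal_ofReal (by positivity)]
  ring

lemma integral_Uq {s : ℝ} (hs : 0 < s) : ∫ x, Uq s x = 1 := by
  unfold Uq
  rw [integral_indicator (measurableSet_Hq s), setIntegral_const, volume_Hq hs.le, smul_eq_mul]
  field_simp

lemma integral_abs_Uq {s : ℝ} (hs : 0 < s) : ∫ x, |Uq s x| = 1 := by
  simp only [abs_of_nonneg (Uq_nonneg s _)]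
  exact integral_Uq hs

lemma Uq_scale {s t : ℝ} (ht : 0 < t) : Uq (t * s) = pr (Uq s) 0 t := by
  funext x
  unfold pr Uq
  have hiff : x ∈ Hq (t * s) ↔ t⁻¹ • (x - 0) ∈ Hq s := by
    rw [sub_zero]
    simp only [Hq, mem_prod, mem_Ico, Prod.smul_fst, Prod.smul_snd, smul_eq_mul]
    have e1 : ∀ a : ℝ, (-(t * s) ≤ a ↔ -s ≤ t⁻¹ * a) := fun a => by
      rw [← div_eq_inv_mul, le_div_iff₀ ht]; constructor <;> intro h <;> linarith
    have e2 : ∀ a : ℝ, (a < t * s ↔ t⁻¹ * a < s) := fun a => by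
      rw [← div_eq_inv_mul, div_lt_iff₀ ht]; constructor <;> intro h <;> linarith
    rw [e1, e2, e1, e2]
  by_cases h : x ∈ Hq (t * s)
  · rw [indicator_of_mem h, indicator_of_mem (hiff.1 h)]
    rw [mul_pow, inv_pow, ← mul_inv]
    congr 1; ring
  · rw [indicator_of_notMem h, indicator_of_notMem (fun h' => h (hiff.2 h')), mul_zero]

/-- crude bound of the mutual energy -/
theorem En_abs_le {f g : P2r → ℝ} {R C R' C' : ℝ} (hf : Pf f R C) (hg : Pf g R' C') (hR : 0 ≤ R)
    (hR' : 0 ≤ R') : |En f g| ≤ (∫ x, |f x|) * (C' * ((2 * Real.pi)⁻¹ *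
      ∫ v, Wd (R + R') (1 + R + R') v)) := by
  have hC' := hg.nonneg
  have hi := integrable_green hf hg
  have e : En f g = ∫ x, f x * ∫ y, greenKernel x y * g y := by
    rw [En]
    have h1 := integral_prod (μ := (volume : Measure P2r)) (ν := (volume : Measure P2r))
      (fun p : P2r × P2r => greenKernel p.1 p.2 * (f p.1 * g p.2)) hi
    refine Eq.trans h1 ?_
    congr 1; funext x
    rw [← integral_const_mul]
    congr 1; funext y; ring
  have hb : ∀ x, nm x ≤ R → |∫ y, greenKernel x y * g y| ≤ C' * ((2 * Real.pi)⁻¹ *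
      ∫ v, Wd (R + R') (1 + R + R') v) := by
    intro x hx
    have hW : Integrable fun y => C' * ((2 * Real.pi)⁻¹ * Wd (R + R') (1 + R + R') (x - y)) :=
      (((integrable_Wd _ _).comp_sub_left x).const_mul _).const_mul _
    have h1 := norm_integral_le_of_norm_le (f := fun y => greenKernel x y * g y) hW (by
      filter_upwards [ae_sub_fst_ne x] with y hy
      rw [Real.norm_eq_abs, abs_mul]
      have hW0 := Wd_nonneg (R := R + R') (K := 1 + R + R') (by linarith) (x - y)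
      rcases le_or_gt (nm y) R' with h | h
      · rw [mul_comm C']
        exact mul_le_mul (greenKernel_bound hR hR' hx h hy) (hg.bdd y) (abs_nonneg _)
          (by positivity)
      · rw [hg.supp y h, abs_zero, mul_zero]
        positivity)
    rw [integral_const_mul, integral_const_mul, integral_sub_left_eq_self
      (fun y => Wd (R + R') (1 + R + R') y)] at h1
    rw [← Real.norm_eq_abs]
    exact h1
  rw [e, ← Real.norm_eq_abs]
  have hI : Integrable fun x => |f x| * (C' * ((2 * Real.pi)⁻¹ *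
      ∫ v, Wd (R + R') (1 + R + R') v)) := hf.integrable.abs.mul_const _
  refine (norm_integral_le_of_norm_le hI (Eventually.of_forall fun x => ?_)).trans
    (le_of_eq (integral_mul_const _ _))
  rw [Real.norm_eq_abs, abs_mul]
  rcases le_or_gt (nm x) R with h | h
  · exact mul_le_mul_of_nonneg_left (hb x h) (abs_nonneg _)
  · rw [hf.supp x h]; simp

/-- constant of the concentric squares -/
def cq : ℝ := (1 / 4) * ((2 * Real.pi)⁻¹ * ∫ v, Wd (2 + 2) (1 + 2 + 2) v)

lemma cq_nonneg : 0 ≤ cq := by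
  unfold cq
  have : 0 ≤ ∫ v, Wd (2 + 2) (1 + 2 + 2) v :=
    integral_nonneg fun v => Wd_nonneg (by norm_num) v
  positivity

lemma En_Uq_one {t : ℝ} (ht : 0 < t) (ht1 : t ≤ 1) : |En (Uq t) (Uq 1)| ≤ cq := by
  have h1 : Pf (Uq t) 2 (4 * t ^ 2)⁻¹ := by simpa using pf_Uq ht1
  have h2 : Pf (Uq 1) 2 (1 / 4) := by
    have := pf_Uq (le_refl (1:ℝ))
    norm_num at this
    simpa using this
  have h := En_abs_le h1 h2 (by norm_num) (by norm_num)
  rw [integral_abs_Uq ht, one_mul] at h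
  exact h

/-- **mutual energy of concentric squares** -/
theorem En_Uq {s s' : ℝ} (hs : 0 < s) (hs' : 0 < s') :
    |En (Uq s) (Uq s') + (2 * Real.pi)⁻¹ * Real.log (max s s')| ≤ cq := by
  have main : ∀ {s s' : ℝ}, 0 < s → s ≤ s' →
      |En (Uq s) (Uq s') + (2 * Real.pi)⁻¹ * Real.log s'| ≤ cq := by
    intro s s' hs hss
    have hs' : 0 < s' := hs.trans_le hss
    have e1 : Uq s = pr (Uq (s / s')) 0 s' := by
      rw [← Uq_scale hs']; congr 1; field_simp
    have e2 : Uq s' = pr (Uq 1) 0 s' := by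
      rw [← Uq_scale hs', mul_one]
    have ht : 0 < s / s' := div_pos hs hs'
    have ht1 : s / s' ≤ 1 := (div_le_one hs').2 hss
    rw [e1, e2, En_pr (pf_Uq ht1) (pf_Uq (le_refl (1:ℝ))) 0 hs', integral_Uq ht,
      integral_Uq one_pos]
    have := En_Uq_one ht ht1
    have e3 : En (Uq (s / s')) (Uq 1) - (2 * Real.pi)⁻¹ * (1 * 1) * Real.log s' +
        (2 * Real.pi)⁻¹ * Real.log s' = En (Uq (s / s')) (Uq 1) := by ring
    rw [e3]
    exact this
  rcases le_total s s' with h | h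
  · rw [max_eq_right h]; exact main hs h
  · rw [max_eq_left h, En_symm]; exact main hs' h

/-! ### three concentric charges -/

/-- density of three concentric charges -/
def fq (a s : Fin 3 → ℝ) (x : P2r) : ℝ := ∑ i, a i * Uq (s i) x

lemma pf_fq (a : Fin 3 → ℝ) {s : Fin 3 → ℝ} {S : ℝ} (hS : ∀ i, s i ≤ S) :
    Pf (fq a s) (2 * S) (∑ i, |a i| * (4 * s i ^ 2)⁻¹) :=
  Pf.sum Finset.univ (fun _ _ => le_rfl) fun i _ => (pf_Uq (hS i)).const_mul (a i)

lemma integral_fq (a : Fin 3 → ℝ) {s : Fin 3 → ℝ} (hs : ∀ i, 0 < s i) :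
    ∫ x, fq a s x = ∑ i, a i := by
  unfold fq
  rw [integral_finsetSum]
  · refine Finset.sum_congr rfl fun i _ => ?_
    rw [integral_const_mul, integral_Uq (hs i), mul_one]
  · exact fun i _ => ((pf_Uq (le_refl (s i))).integrable).const_mul _

lemma En_fq (a : Fin 3 → ℝ) (s : Fin 3 → ℝ) :
    En (fq a s) (fq a s) = ∑ i, ∑ j, a i * a j * En (Uq (s i)) (Uq (s j)) := by
  have hS : ∀ i, s i ≤ ∑ j, |s j| := fun i =>
    (le_abs_self _).trans (Finset.single_le_sum (f := fun j => |s j|) (fun j _ => abs_nonneg _)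
      (Finset.mem_univ i))
  have h1 := En_sum_left Finset.univ (f := fun i x => a i * Uq (s i) x)
    (fun i _ => (pf_Uq (hS i)).const_mul (a i)) (pf_fq a hS)
  have h2 : ∀ i, En (fun x => a i * Uq (s i) x) (fq a s) =
      ∑ j, a i * a j * En (Uq (s i)) (Uq (s j)) := by
    intro i
    rw [En_const_mul_left]
    have h3 := En_sum_right Finset.univ (f := fun j x => a j * Uq (s j) x)
      (fun j _ => (pf_Uq (hS j)).const_mul (a j)) (pf_Uq (hS i))
    have h4 : En (Uq (s i)) (fq a s) = ∑ j, a j * En (Uq (s i)) (Uq (s j)) := by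
      refine Eq.trans h3 (Finset.sum_congr rfl fun j _ => En_const_mul_right _ _ _)
    rw [h4, Finset.mul_sum]
    exact Finset.sum_congr rfl fun j _ => by ring
  exact h1.trans (Finset.sum_congr rfl fun i _ => h2 i)

/-- the three sizes -/
def sz (K L : ℝ) : Fin 3 → ℝ := ![1, K, K * L]

lemma sz_pos {K L : ℝ} (hK : 0 < K) (hL : 0 < L) (i : Fin 3) : 0 < sz K L i := by
  fin_cases i
  · exact one_pos
  · exact hK
  · exact mul_pos hK hL

/-- **energy of three concentric neutral charges** -/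
theorem En_fq_sz (a : Fin 3 → ℝ) (ha : ∑ i, a i = 0) {K L : ℝ} (hK : 1 ≤ K) (hL : 1 ≤ L) :
    |En (fq a (sz K L)) (fq a (sz K L)) -
      (2 * Real.pi)⁻¹ * (a 0 ^ 2 * Real.log K + a 2 ^ 2 * Real.log L)| ≤
      cq * (∑ i, |a i|) ^ 2 := by
  have hK0 : 0 < K := one_pos.trans_le hK
  have hL0 : 0 < L := one_pos.trans_le hL
  have hKL : K ≤ K * L := le_mul_of_one_le_right hK0.le hL
  have hKL1 : 1 ≤ K * L := hK.trans hKL
  rw [En_fq]
  have e1 : (2 * Real.pi)⁻¹ * (a 0 ^ 2 * Real.log K + a 2 ^ 2 * Real.log L) =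
      -∑ i, ∑ j, a i * a j * ((2 * Real.pi)⁻¹ * Real.log (max (sz K L i) (sz K L j))) := by
    have ha1 : a 1 = -a 0 - a 2 := by
      rw [Fin.sum_univ_three] at ha; linarith
    simp only [Fin.sum_univ_three, sz, Matrix.cons_val_zero, Matrix.cons_val_one,
      Matrix.cons_val]
    rw [max_self, max_eq_right hK, max_eq_right hKL1, max_eq_left hK, max_self, max_eq_right hKL,
      max_eq_left hKL1, max_eq_left hKL, max_self, Real.log_one,
      Real.log_mul hK0.ne' hL0.ne', ha1]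
    ring
  rw [e1, sub_neg_eq_add, ← Finset.sum_add_distrib]
  have e2 : ∀ i, (∑ j, a i * a j * En (Uq (sz K L i)) (Uq (sz K L j))) +
      ∑ j, a i * a j * ((2 * Real.pi)⁻¹ * Real.log (max (sz K L i) (sz K L j))) =
      ∑ j, a i * a j * (En (Uq (sz K L i)) (Uq (sz K L j)) +
        (2 * Real.pi)⁻¹ * Real.log (max (sz K L i) (sz K L j))) := by
    intro i
    rw [← Finset.sum_add_distrib]
    exact Finset.sum_congr rfl fun j _ => by ring
  simp only [e2]
  calc |∑ i, ∑ j, a i * a j * (En (Uq (sz K L i)) (Uq (sz K L j)) +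
        (2 * Real.pi)⁻¹ * Real.log (max (sz K L i) (sz K L j)))|
      ≤ ∑ i, ∑ j, |a i| * |a j| * cq := by
        refine (Finset.abs_sum_le_sum_abs _ _).trans (Finset.sum_le_sum fun i _ => ?_)
        refine (Finset.abs_sum_le_sum_abs _ _).trans (Finset.sum_le_sum fun j _ => ?_)
        rw [abs_mul, abs_mul]
        exact mul_le_mul_of_nonneg_left (En_Uq (sz_pos hK0 hL0 i) (sz_pos hK0 hL0 j))
          (by positivity)
    _ = cq * (∑ i, |a i|) ^ 2 := by
        rw [pow_two, Finset.sum_mul_sum, Finset.mul_sum]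
        refine Finset.sum_congr rfl fun i _ => ?_
        rw [Finset.mul_sum]
        exact Finset.sum_congr rfl fun j _ => by ring

/-- the literal signed measure of three concentric charges -/
def muq (a : Fin 3 → ℝ) (K L : ℝ) : SignedMeasure P2r := sd (fq a (sz K L))

lemma sz_le {K L : ℝ} (hK : 1 ≤ K) (hL : 1 ≤ L) (i : Fin 3) : sz K L i ≤ K * L := by
  have hK0 : 0 < K := one_pos.trans_le hK
  have hKL : K ≤ K * L := le_mul_of_one_le_right hK0.le hL
  fin_cases i
  · exact hK.trans hKL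
  · exact hKL
  · exact le_rfl

lemma pf_muq (a : Fin 3 → ℝ) {K L : ℝ} (hK : 1 ≤ K) (hL : 1 ≤ L) :
    Pf (fq a (sz K L)) (2 * (K * L)) (∑ i, |a i| * (4 * sz K L i ^ 2)⁻¹) :=
  pf_fq a (sz_le hK hL)

theorem carrier_muq (a : Fin 3 → ℝ) {K L : ℝ} (hK : 1 ≤ K) (hL : 1 ≤ L) :
    ∃ Z : Set P2r, IsCompact Z ∧ (muq a K L).variation Zᶜ = 0 := carrier_sd (pf_muq a hK hL)

theorem mass_muq {a : Fin 3 → ℝ} (ha : ∑ i, a i = 0) {K L : ℝ} (hK : 1 ≤ K) (hL : 1 ≤ L) :
    muq a K L univ = 0 := by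
  rw [muq, mass_sd (pf_muq a hK hL).integrable,
    integral_fq a (sz_pos (one_pos.trans_le hK) (one_pos.trans_le hL)), ha]

theorem fin_muq (a : Fin 3 → ℝ) {K L : ℝ} (hK : 1 ≤ K) (hL : 1 ≤ L) :
    HasFiniteEnergy (muq a K L) := fin_sd (pf_muq a hK hL)

theorem energy_muq (a : Fin 3 → ℝ) (ha : ∑ i, a i = 0) {K L : ℝ} (hK : 1 ≤ K) (hL : 1 ≤ L) :
    |energy (muq a K L) -
      (2 * Real.pi)⁻¹ * (a 0 ^ 2 * Real.log K + a 2 ^ 2 * Real.log L)| ≤
      cq * (∑ i, |a i|) ^ 2 := by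
  rw [muq, energy_sd (pf_muq a hK hL)]
  exact En_fq_sz a ha hK hL

end Crest.Agent.R158.En510
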