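import Crest.Agent.R158.En3_510

/-!
# Row 158, block EN (helper510), part 4: literal cell masses of the concentric charges

* `cellS δ p q` : the points of the plane read at the face `(p, q)` at mesh `δ`
* `uq R p q` : the uniform law of the discrete square `[-R, R)²`
* `muq_cell` : `muq a K L (cellS r⁻¹ p q) = ∑ i, a i * uq (rz r K L i) p q`
-/

set_option autoImplicit false

noncomputable section

open MeasureTheory Filter Topology Set
open scoped ENNReal NNReal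
open Crest.ProbabilityR.SixVertex

namespace Crest.Agent.R158.En510

/-- the points read at the face `(p, q)` -/
def cellS (δ : ℝ) (p q : ℤ) : Set P2r := {x | ⌊x.1 / δ⌋ = p ∧ ⌊x.2 / δ⌋ = q}

/-- uniform law of the discrete square `[-R, R)²` -/
def uq (R : ℕ) (p q : ℤ) : ℝ :=
  if (-(R : ℤ) ≤ p ∧ p < R) ∧ (-(R : ℤ) ≤ q ∧ q < R) then (4 * (R : ℝ) ^ 2)⁻¹ else 0

/-- the three discrete sizes -/
def rz (r K L : ℕ) : Fin 3 → ℕ := ![r, K * r, K * L * r]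

lemma rz_div {r : ℕ} (hr : 1 ≤ r) (K L : ℕ) (i : Fin 3) :
    ((rz r K L i : ℕ) : ℝ) / r = sz K L i := by
  have hr0 : (r : ℝ) ≠ 0 := by positivity
  fin_cases i
  · simp [rz, sz, hr0]
  · simp [rz, sz, hr0]
  · simp [rz, sz, hr0]

lemma mem_floor_iff {r : ℕ} (hr : 1 ≤ r) (t : ℝ) (p : ℤ) :
    ⌊t / (r : ℝ)⁻¹⌋ = p ↔ (p : ℝ) / r ≤ t ∧ t < ((p : ℝ) + 1) / r := by
  have hr0 : (0 : ℝ) < r := by exact_mod_cast hr
  rw [div_inv_eq_mul, Int.floor_eq_iff, div_le_iff₀ hr0, lt_div_iff₀ hr0]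

lemma cellS_eq {r : ℕ} (hr : 1 ≤ r) (p q : ℤ) : cellS (r : ℝ)⁻¹ p q =
    Ico ((p : ℝ) / r) (((p : ℝ) + 1) / r) ×ˢ Ico ((q : ℝ) / r) (((q : ℝ) + 1) / r) := by
  ext x
  simp only [cellS, Set.mem_ofPred_eq, mem_prod, mem_Ico, mem_floor_iff hr]

lemma measurableSet_cellS {δ : ℝ} (p q : ℤ) : MeasurableSet (cellS δ p q) := by
  have h1 : Measurable fun x : P2r => ⌊x.1 / δ⌋ := Int.measurable_floor.comp (measurable_fst.div_const δ)
  have h2 : Measurable fun x : P2r => ⌊x.2 / δ⌋ := Int.measurable_floor.comp (measurable_snd.div_const δ)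
  exact (h1 (measurableSet_singleton p)).inter (h2 (measurableSet_singleton q))

lemma volume_cellS {r : ℕ} (hr : 1 ≤ r) (p q : ℤ) :
    (volume : Measure P2r).real (cellS (r : ℝ)⁻¹ p q) = ((r : ℝ) ^ 2)⁻¹ := by
  have hr0 : (0 : ℝ) < r := by exact_mod_cast hr
  have h : (volume : Measure P2r) (cellS (r : ℝ)⁻¹ p q) =
      ENNReal.ofReal ((r : ℝ)⁻¹) * ENNReal.ofReal ((r : ℝ)⁻¹) := by
    rw [cellS_eq hr, Measure.volume_eq_prod, Measure.prod_prod, Real.volume_Ico, Real.volume_Ico]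
    congr 2 <;> · field_simp; ring
  rw [Measure.real, h, ENNReal.toReal_mul, ENNReal.toReal_ofReal (by positivity)]
  field_simp

/-- one coordinate: a lattice cell is inside or outside `[-R/r, R/r)` -/
lemma cell_coord {r : ℕ} (hr : 1 ≤ r) (R : ℕ) {p : ℤ} {t : ℝ} (h : (p : ℝ) / r ≤ t)
    (h' : t < ((p : ℝ) + 1) / r) : (-((R : ℝ) / r) ≤ t ∧ t < (R : ℝ) / r) ↔
      (-(R : ℤ) ≤ p ∧ p < (R : ℤ)) := by
  have hr0 : (0 : ℝ) < r := by exact_mod_cast hr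
  rw [div_le_iff₀ hr0] at h
  rw [lt_div_iff₀ hr0] at h'
  rw [← neg_div, div_le_iff₀ hr0, lt_div_iff₀ hr0]
  constructor
  · rintro ⟨h1, h2⟩
    constructor
    · have h3 : (-(R : ℝ)) < (p : ℝ) + 1 := by linarith
      have h4 : (-(R : ℤ)) < p + 1 := by exact_mod_cast h3
      omega
    · have h3 : (p : ℝ) < (R : ℝ) := by linarith
      exact_mod_cast h3
  · rintro ⟨h1, h2⟩
    have h1' : (-(R : ℝ)) ≤ (p : ℝ) := by exact_mod_cast h1
    have h2' : (p : ℝ) + 1 ≤ (R : ℝ) := by exact_mod_cast h2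
    constructor <;> linarith

lemma cell_inside {r : ℕ} (hr : 1 ≤ r) (R : ℕ) {p q : ℤ} {x : P2r}
    (hx : x ∈ cellS (r : ℝ)⁻¹ p q) : x ∈ Hq ((R : ℝ) / r) ↔
      ((-(R : ℤ) ≤ p ∧ p < R) ∧ (-(R : ℤ) ≤ q ∧ q < R)) := by
  rw [cellS_eq hr] at hx
  obtain ⟨⟨h1, h2⟩, ⟨h3, h4⟩⟩ := hx
  have a := cell_coord hr R h1 h2
  have b := cell_coord hr R h3 h4
  simp only [Hq, mem_prod, mem_Ico]
  rw [a, b]

lemma setIntegral_Uq_cell {r : ℕ} (hr : 1 ≤ r) {R : ℕ} (hR : 1 ≤ R) (p q : ℤ) :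
    ∫ x in cellS (r : ℝ)⁻¹ p q, Uq ((R : ℝ) / r) x = uq R p q := by
  have hr0 : (0 : ℝ) < r := by exact_mod_cast hr
  have hR0 : (0 : ℝ) < R := by exact_mod_cast hR
  by_cases h : (-(R : ℤ) ≤ p ∧ p < R) ∧ (-(R : ℤ) ≤ q ∧ q < R)
  · have e : ∀ x ∈ cellS (r : ℝ)⁻¹ p q, Uq ((R : ℝ) / r) x = (4 * ((R : ℝ) / r) ^ 2)⁻¹ := by
      intro x hx
      unfold Uq
      rw [indicator_of_mem ((cell_inside hr R hx).2 h)]
    rw [setIntegral_congr_fun (measurableSet_cellS p q) e, setIntegral_const, volume_cellS hr,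
      smul_eq_mul, uq, if_pos h]
    field_simp
  · have e : ∀ x ∈ cellS (r : ℝ)⁻¹ p q, Uq ((R : ℝ) / r) x = 0 := by
      intro x hx
      unfold Uq
      rw [indicator_of_notMem (fun h' => h ((cell_inside hr R hx).1 h'))]
    rw [setIntegral_congr_fun (measurableSet_cellS p q) e, uq, if_neg h]
    simp

lemma rz_pos {r K L : ℕ} (hr : 1 ≤ r) (hK : 1 ≤ K) (hL : 1 ≤ L) (i : Fin 3) : 1 ≤ rz r K L i := by
  fin_cases i
  · exact hr
  · exact Nat.mul_pos hK hr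
  · exact Nat.mul_pos (Nat.mul_pos hK hL) hr

/-- **literal cell masses** -/
theorem muq_cell (a : Fin 3 → ℝ) {r K L : ℕ} (hr : 1 ≤ r) (hK : 1 ≤ K) (hL : 1 ≤ L) (p q : ℤ) :
    muq a K L (cellS (r : ℝ)⁻¹ p q) = ∑ i, a i * uq (rz r K L i) p q := by
  have hK' : (1 : ℝ) ≤ K := by exact_mod_cast hK
  have hL' : (1 : ℝ) ≤ L := by exact_mod_cast hL
  rw [muq, sd_apply (pf_muq a hK' hL').integrable (measurableSet_cellS p q)]
  unfold fq
  rw [integral_finsetSum]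
  · refine Finset.sum_congr rfl fun i _ => ?_
    rw [integral_const_mul, ← rz_div hr K L i, setIntegral_Uq_cell hr (rz_pos hr hK hL i)]
  · exact fun i _ => (((pf_Uq (le_refl (sz K L i))).integrable).const_mul _).integrableOn

end Crest.Agent.R158.En510
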