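import Crest.Agent.R158.En4_510
import Crest.Agent.R158.Bs_410

/-!
# Row 158, block EN (helper510), part 5: the identity (STAR) for concentric squares

* `sqc R : ℤ × ℤ →₀ ℝ` : the uniform law of the discrete square `[-R, R)²`
* `chg_muq` : the lattice charge of `muq a K L` at mesh `1/r` is `∑ i, a i • sqc (rz r K L i)`
* `star` : limit of the percolation functional, with two sided bounds of its logarithm
-/

set_option autoImplicit false

noncomputable section

open MeasureTheory Filter Topology Set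
open scoped ENNReal NNReal
open Crest.ProbabilityR.SixVertex

namespace Crest.Agent.R158.En510

open Crest.Agent.R158.Bs410 (CC chg chg_apply mass StarLat Law3 plane_char)

/-- the uniform law of the discrete square as a finitely supported charge -/
def sqc (R : ℕ) : ℤ × ℤ →₀ ℝ :=
  Finsupp.onFinset (Finset.Ico (-(R : ℤ)) R ×ˢ Finset.Ico (-(R : ℤ)) R)
    (fun p => uq R p.1 p.2) (by
      intro p hp
      unfold uq at hp
      split_ifs at hp with h
      · simp only [Finset.mem_product, Finset.mem_Ico]; exact h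
      · exact absurd rfl hp)

lemma sqc_apply (R : ℕ) (p : ℤ × ℤ) : sqc R p = uq R p.1 p.2 := rfl

/-- the three concentric charges on the lattice -/
def chq (a : Fin 3 → ℝ) (r K L : ℕ) : ℤ × ℤ →₀ ℝ := ∑ i, a i • sqc (rz r K L i)

lemma chq_apply (a : Fin 3 → ℝ) (r K L : ℕ) (p : ℤ × ℤ) :
    chq a r K L p = ∑ i, a i * uq (rz r K L i) p.1 p.2 := by
  simp [chq, Finsupp.finsetSum_apply, sqc_apply]

theorem chg_muq (a : Fin 3 → ℝ) {r K L : ℕ} (hr : 1 ≤ r) (hK : 1 ≤ K) (hL : 1 ≤ L) :
    chg (muq a K L) (r : ℝ)⁻¹ = chq a r K L := by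
  have hK' : (1 : ℝ) ≤ K := by exact_mod_cast hK
  have hL' : (1 : ℝ) ≤ L := by exact_mod_cast hL
  ext p
  rw [chg_apply (carrier_muq a hK' hL'), chq_apply]
  exact muq_cell a hr hK hL p.1 p.2

/-- **(STAR)** for three concentric squares -/
theorem star (hLaw : Law3) {Pi : (ℤ × ℤ →₀ ℝ) → ℝ} (hPi : StarLat Pi) (a : Fin 3 → ℝ)
    (ha : ∑ i, a i = 0) : ∃ C : ℝ, 0 ≤ C ∧ ∀ K L : ℕ, 1 ≤ K → 1 ≤ L → ∃ Lam : ℝ, 0 < Lam ∧
      |Real.log Lam + 3 / (4 * Real.pi ^ 2) *
        (a 0 ^ 2 * Real.log K + a 2 ^ 2 * Real.log L)| ≤ C ∧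
      Tendsto (fun r : ℕ => Pi (chq a r K L)) atTop (𝓝 Lam) := by
  have hpi := Real.pi_pos
  refine ⟨3 / (2 * Real.pi) * (cq * (∑ i, |a i|) ^ 2), by
    have := cq_nonneg; positivity, fun K L hK hL => ?_⟩
  have hK' : (1 : ℝ) ≤ K := by exact_mod_cast hK
  have hL' : (1 : ℝ) ≤ L := by exact_mod_cast hL
  refine ⟨Real.exp (-(3 / (2 * Real.pi)) * max (energy (muq a K L)) 0), Real.exp_pos _, ?_, ?_⟩
  · rw [Real.log_exp]
    have h1 := energy_muq a ha hK' hL'
    set E := energy (muq a K L) with hE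
    set Q := a 0 ^ 2 * Real.log K + a 2 ^ 2 * Real.log L with hQ
    have hQ0 : 0 ≤ Q := by
      have := Real.log_nonneg hK'
      have := Real.log_nonneg hL'
      positivity
    have e1 : -(3 / (2 * Real.pi)) * max E 0 + 3 / (4 * Real.pi ^ 2) * Q =
        -(3 / (2 * Real.pi) * (max E 0 - (2 * Real.pi)⁻¹ * Q)) := by
      field_simp; ring
    rw [e1, abs_neg, abs_mul, abs_of_nonneg (by positivity : (0:ℝ) ≤ 3 / (2 * Real.pi))]
    refine mul_le_mul_of_nonneg_left ?_ (by positivity)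
    have hq : 0 ≤ (2 * Real.pi)⁻¹ * Q := by positivity
    refine le_trans ?_ h1
    rcases le_total 0 E with h | h
    · rw [max_eq_left h]
    · rw [max_eq_right h, zero_sub, abs_neg, abs_of_nonneg hq, abs_sub_comm,
        abs_of_nonneg (by linarith)]
      linarith
  · have h2 := plane_char hLaw hPi (carrier_muq a hK' hL') (mass_muq ha hK' hL') (fin_muq a hK' hL')
    have h3 : Tendsto (fun r : ℕ => ((r : ℝ))⁻¹) atTop (𝓝[>] 0) :=
      tendsto_inv_atTop_nhdsGT_zero.comp tendsto_natCast_atTop_atTop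
    refine (h2.comp h3).congr' ?_
    filter_upwards [eventually_ge_atTop 1] with r hr
    rw [Function.comp_apply, chg_muq a hr hK hL]

end Crest.Agent.R158.En510
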