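import Crest.Agent.R158.Sp3_580

/-!
# Row 158, Block SEP (helper580): the boundary is good

* `exists_scales` : choice of the three ratios
* `bad_bound`, `bad_small` : `P (¬ GoodB) ≤ δ`
* `a4_bad` : `P (A4 e R ∩ bad) ≤ P (A4 e ρ) P (bad)`, `ρ + b + 4 ≤ R`
-/

set_option autoImplicit false
set_option linter.constructorNameAsVariable false

noncomputable section

namespace Crest.Agent.R158.Sp580

open MeasureTheory ProbabilityTheory unitInterval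
open Crest.Agent.R161.Geo729 Crest.Agent.R161.Topo374 Crest.Agent.R161.Dual374
open Crest.Agent.R161.Tas682 Crest.Agent.R158.Rs689
open Crest.Agent.R158.Ru874 hiding An
open Crest.Agent.R158.Cpl963 (An)
open Crest.Agent.R158.Kd458 (cl op GoodB Gd core_edge gd_congr)
open Crest.Agent.R158.Sp874 (nr FarN)
open Crest.Agent.R158.Sq200 (InE BdV)
open Crest.Agent.R158.Sg158 (LocD)
open Crest.Agent.R158.Hp814 (CL bL CL_pos bL_pos)

/-! ### choice of scales -/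

theorem exists_pow_small {M β δ : ℝ} (hM : 0 < M) (hβ : 0 < β) (hδ : 0 < δ) (A0 : ℕ) :
    ∃ A : ℕ, A0 ≤ A ∧ M * ((1 / 2 : ℝ) ^ A) ^ β ≤ δ := by
  have h1 : (0 : ℝ) < (1 / 2 : ℝ) ^ β := by positivity
  have h2 : (1 / 2 : ℝ) ^ β < 1 := Real.rpow_lt_one (by norm_num) (by norm_num) hβ
  obtain ⟨A, hA⟩ := exists_pow_lt_of_lt_one (show 0 < δ / M by positivity) h2
  refine ⟨max A A0, le_max_right _ _, ?_⟩
  have h3 : ((1 / 2 : ℝ) ^ (max A A0)) ^ β = ((1 / 2 : ℝ) ^ β) ^ (max A A0) := by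
    rw [← Real.rpow_natCast, ← Real.rpow_mul (by norm_num), mul_comm, Real.rpow_mul (by norm_num),
      Real.rpow_natCast]
  rw [h3]
  have h4 : ((1 / 2 : ℝ) ^ β) ^ (max A A0) ≤ ((1 / 2 : ℝ) ^ β) ^ A :=
    pow_le_pow_of_le_one h1.le h2.le (le_max_left _ _)
  calc M * ((1 / 2 : ℝ) ^ β) ^ (max A A0) ≤ M * (δ / M) :=
        mul_le_mul_of_nonneg_left (h4.trans hA.le) hM.le
    _ = δ := by field_simp

theorem exists_scales {C β δ : ℝ} (hC : 0 < C) (hβ : 0 < β) (hδ : 0 < δ) :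
    ∃ A1 A2 A3 : ℕ, 4 ≤ A3 ∧
      C * (8 * ((1 / 2 : ℝ) ^ A1) ^ β) + C * (16 * 2 ^ A1 * ((1 / 2 : ℝ) ^ A2) ^ β) +
        C * (32 * 2 ^ A1 * 2 ^ A2 * ((1 / 2 : ℝ) ^ A3) ^ β) +
        C * (8 * ((1 / 2 : ℝ) ^ A1) ^ β) ≤ δ := by
  obtain ⟨A1, -, h1⟩ := exists_pow_small (M := C * 8) (δ := δ / 4) (by positivity) hβ
    (by positivity) 0
  obtain ⟨A2, -, h2⟩ := exists_pow_small (M := C * (16 * 2 ^ A1)) (δ := δ / 4) (by positivity) hβ
    (by positivity) 0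
  obtain ⟨A3, h30, h3⟩ := exists_pow_small (M := C * (32 * 2 ^ A1 * 2 ^ A2)) (δ := δ / 4)
    (by positivity) hβ (by positivity) 4
  refine ⟨A1, A2, A3, h30, ?_⟩
  have e1 : C * (8 * ((1 / 2 : ℝ) ^ A1) ^ β) = C * 8 * ((1 / 2 : ℝ) ^ A1) ^ β := by ring
  have e2 : C * (16 * 2 ^ A1 * ((1 / 2 : ℝ) ^ A2) ^ β) =
    C * (16 * 2 ^ A1) * ((1 / 2 : ℝ) ^ A2) ^ β := by ring
  have e3 : C * (32 * 2 ^ A1 * 2 ^ A2 * ((1 / 2 : ℝ) ^ A3) ^ β) =
    C * (32 * 2 ^ A1 * 2 ^ A2) * ((1 / 2 : ℝ) ^ A3) ^ β := by ring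
  rw [e1, e2, e3]
  linarith

/-! ### probability of a bad boundary -/

/-- the boundary of `Sq R` is good at the radii -/
def GoodS (R t r t1 s c s1 b : ℤ) : Set Cf := {z | GoodB z (-R) R (-R) R t r t1 s c s1 b}

theorem sq_rect (R : ℤ) : Rect (-R) R (-R) R = {v : P2 | sd (0, 0) v ≤ R} := by
  ext v
  rw [mem_rect, Set.mem_setOf_eq, sd_le]
  simp

theorem bad_sub {R t r t1 s c s1 b : ℤ} (hR : 1 ≤ R) : (GoodS R t r t1 s c s1 b)ᶜ ⊆
    (({z | ∃ w, sd (0, 0) w = R ∧ ¬ Gd z {v | sd (0, 0) v ≤ R} w s1 b} ∪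
      {z | ∃ w, sd (0, 0) w = R ∧ ¬ Gd z {v | sd (0, 0) v ≤ R} w s c}) ∪
      {z | ∃ w, sd (0, 0) w = R ∧ ¬ Gd z {v | sd (0, 0) v ≤ R} w t r}) ∪
      {z | ∃ f ∈ Hp814.FInB (0, 0) R, ¬ Gd (dual z) (Hp814.FIn (0, 0) R) f t1 b} := by
  intro z hz
  by_contra hcon
  simp only [Set.mem_union, not_or] at hcon
  obtain ⟨⟨⟨h1, h2⟩, h3⟩, h4⟩ := hcon
  apply hz
  have hb : ∀ w ∈ Rect (-R) R (-R) R, BdV (-R) R (-R) R w → sd (0, 0) w = R := by
    intro w hw hb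
    rw [mem_rect] at hw
    have a1 : sd (0, 0) w ≤ R := by rw [sd_le]; simp; omega
    have a2 : ¬ sd (0, 0) w ≤ R - 1 := by
      rw [sd_le]
      simp only [zero_sub, zero_add]
      rcases hb with hb | hb | hb | hb <;> omega
    omega
  have key : ∀ {a c : ℤ}, ¬ (∃ w, sd (0, 0) w = R ∧ ¬ Gd z {v | sd (0, 0) v ≤ R} w a c) →
      ∀ w ∈ Rect (-R) R (-R) R, BdV (-R) R (-R) R w → Gd z (Rect (-R) R (-R) R) w a c := by
    intro a c h w hw hbw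
    rw [sq_rect]
    by_contra h5
    exact h ⟨w, hb w hw hbw, h5⟩
  refine ⟨key h1, key h2, key h3, ?_⟩
  intro f hf hfb
  have e1 : Rect (-R) (R - 1) (-R) (R - 1) = Hp814.FIn (0, 0) R := by
    unfold Hp814.FIn
    simp
  rw [e1]
  by_contra h5
  refine h4 ⟨f, ?_, h5⟩
  unfold Hp814.FInB Hp814.bdS Hp814.SqI
  rw [mem_rect] at hf
  rcases hfb with h | h | h | h
  all_goals
    refine ⟨?_, ?_⟩
    · rw [mem_rect]; simp only [zero_sub]; omega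
    · simp only [zero_sub]; omega

theorem bad_bound {c0 : ℝ} {p : I} {M : ℕ} (h : RSp c0 p M) {R t r t1 s c s1 b : ℤ}
    (ht : 1 ≤ t) (htr : t ≤ r) (ht1 : 1 ≤ t1) (ht1b : t1 ≤ b) (hs : 1 ≤ s) (hsc : s ≤ c)
    (hs1 : 1 ≤ s1) (hs1b : s1 ≤ b) (hcR : c ≤ b) (hrR : r ≤ b) (hbR : b ≤ R)
    (hM1 : 2 * b + 1 ≤ M) :
    (nu p).real (GoodS R t r t1 s c s1 b)ᶜ ≤
      CL c0 * (((R : ℝ) / b) * ((s1 : ℝ) / b) ^ bL c0) +
      CL c0 * (((R : ℝ) / c) * ((s : ℝ) / c) ^ bL c0) +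
      CL c0 * (((R : ℝ) / r) * ((t : ℝ) / r) ^ bL c0) +
      CL c0 * (((R : ℝ) / b) * ((t1 : ℝ) / b) ^ bL c0) := by
  have a1 := Hp814.ball_in h (0, 0) (R := R) hs1 hs1b (by omega) (by omega) (by omega)
  have a2 := Hp814.ball_in h (0, 0) (R := R) hs hsc (by omega) (by omega) (by omega)
  have a3 := Hp814.ball_in h (0, 0) (R := R) ht htr (by omega) (by omega) (by omega)
  have a4 := Hp814.ball_in_dual h (0, 0) (R := R) ht1 ht1b (by omega) (by omega) (by omega)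
  refine (measureReal_mono (bad_sub (by omega))).trans ?_
  refine (measureReal_union_le _ _).trans (add_le_add ?_ a4)
  refine (measureReal_union_le _ _).trans (add_le_add ?_ a3)
  exact (measureReal_union_le _ _).trans (add_le_add a1 a2)

/-- the radii -/
def rT (n : ℕ) : ℤ := 16 * n
def rR (A3 n : ℕ) : ℤ := 16 * 2 ^ A3 * n
def rT1 (A3 n : ℕ) : ℤ := 32 * 2 ^ A3 * n
def rS (A3 n : ℕ) : ℤ := 32 * 2 ^ A3 * n
def rC (A2 A3 n : ℕ) : ℤ := 32 * 2 ^ A3 * 2 ^ A2 * n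
def rS1 (A2 A3 n : ℕ) : ℤ := 64 * 2 ^ A3 * 2 ^ A2 * n
def rB (A1 A2 A3 n : ℕ) : ℤ := 64 * 2 ^ A3 * 2 ^ A2 * 2 ^ A1 * n

/-- the number of cells -/
def NN (A1 A2 A3 : ℕ) : ℕ := 2 ^ (9 + A1 + A2 + A3)

theorem NN_mul (A1 A2 A3 n : ℕ) : ((NN A1 A2 A3 : ℕ) : ℤ) * n = 8 * rB A1 A2 A3 n := by
  unfold NN rB
  push_cast
  rw [pow_add, pow_add, pow_add]
  ring

theorem bad_small {c0 δ : ℝ} (hc0 : 0 < c0) (hc1 : c0 ≤ 1) (hδ : 0 < δ) :
    ∃ A1 A2 A3 : ℕ, 4 ≤ A3 ∧ ∀ (p : I) (n : ℕ), 1 ≤ n →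
      RSp c0 p (NN A1 A2 A3 * n) →
      (nu p).real (GoodS (NN A1 A2 A3 * n) (rT n) (rR A3 n) (rT1 A3 n) (rS A3 n) (rC A2 A3 n)
        (rS1 A2 A3 n) (rB A1 A2 A3 n))ᶜ ≤ δ := by
  obtain ⟨A1, A2, A3, h3, h⟩ := exists_scales (CL_pos hc0) (bL_pos hc0 hc1) hδ
  refine ⟨A1, A2, A3, h3, fun p n hn hp => ?_⟩
  have hn0 : (1 : ℤ) ≤ n := by exact_mod_cast hn
  have hn1 : (0 : ℝ) < n := by exact_mod_cast (by omega : 0 < n)
  have p1 : (1 : ℤ) ≤ 2 ^ A1 := one_le_pow₀ (by norm_num)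
  have p2 : (1 : ℤ) ≤ 2 ^ A2 := one_le_pow₀ (by norm_num)
  have p3 : (1 : ℤ) ≤ 2 ^ A3 := one_le_pow₀ (by norm_num)
  have x3 : (n : ℤ) ≤ 2 ^ A3 * n := by nlinarith
  have x2 : 2 ^ A3 * (n : ℤ) ≤ 2 ^ A3 * 2 ^ A2 * n := by
    have : 2 ^ A3 * (n : ℤ) * 1 ≤ 2 ^ A3 * n * 2 ^ A2 :=
      mul_le_mul_of_nonneg_left p2 (by positivity)
    linarith
  have x1 : 2 ^ A3 * 2 ^ A2 * (n : ℤ) ≤ 2 ^ A3 * 2 ^ A2 * 2 ^ A1 * n := by
    have : 2 ^ A3 * 2 ^ A2 * (n : ℤ) * 1 ≤ 2 ^ A3 * 2 ^ A2 * n * 2 ^ A1 :=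
      mul_le_mul_of_nonneg_left p1 (by positivity)
    linarith
  have eR := NN_mul A1 A2 A3 n
  have eT : rT n = 16 * n := rfl
  have eRr : rR A3 n = 16 * (2 ^ A3 * n) := by unfold rR; ring
  have eT1 : rT1 A3 n = 32 * (2 ^ A3 * n) := by unfold rT1; ring
  have eS : rS A3 n = 32 * (2 ^ A3 * n) := by unfold rS; ring
  have eC : rC A2 A3 n = 32 * (2 ^ A3 * 2 ^ A2 * n) := by unfold rC; ring
  have eS1 : rS1 A2 A3 n = 64 * (2 ^ A3 * 2 ^ A2 * n) := by unfold rS1; ring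
  have eB : rB A1 A2 A3 n = 64 * (2 ^ A3 * 2 ^ A2 * 2 ^ A1 * n) := by unfold rB; ring
  have hb := bad_bound hp (R := (NN A1 A2 A3 : ℤ) * n) (t := rT n) (r := rR A3 n)
    (t1 := rT1 A3 n) (s := rS A3 n) (c := rC A2 A3 n) (s1 := rS1 A2 A3 n) (b := rB A1 A2 A3 n)
    (by omega) (by omega) (by omega) (by omega) (by omega) (by omega) (by omega) (by omega)
    (by omega) (by omega) (by omega) (by push_cast; omega)
  refine hb.trans (le_trans ?_ h)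
  -- the ratios
  have q1 : ((((NN A1 A2 A3 : ℤ) * n : ℤ)) : ℝ) / ((rB A1 A2 A3 n : ℤ) : ℝ) = 8 := by
    rw [eR]
    have : ((rB A1 A2 A3 n : ℤ) : ℝ) ≠ 0 := by
      unfold rB; push_cast; positivity
    push_cast
    field_simp
  have q2 : ((rS1 A2 A3 n : ℤ) : ℝ) / ((rB A1 A2 A3 n : ℤ) : ℝ) = (1 / 2) ^ A1 := by
    unfold rS1 rB; push_cast
    rw [one_div, inv_pow]
    field_simp
  have q3 : ((((NN A1 A2 A3 : ℤ) * n : ℤ)) : ℝ) / ((rC A2 A3 n : ℤ) : ℝ) = 16 * 2 ^ A1 := by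
    rw [eR]
    unfold rB rC; push_cast
    field_simp
    ring
  have q4 : ((rS A3 n : ℤ) : ℝ) / ((rC A2 A3 n : ℤ) : ℝ) = (1 / 2) ^ A2 := by
    unfold rS rC; push_cast
    rw [one_div, inv_pow]
    field_simp
  have q5 : ((((NN A1 A2 A3 : ℤ) * n : ℤ)) : ℝ) / ((rR A3 n : ℤ) : ℝ) = 32 * 2 ^ A1 * 2 ^ A2 := by
    rw [eR]
    unfold rB rR; push_cast
    field_simp
    ring
  have q6 : ((rT n : ℤ) : ℝ) / ((rR A3 n : ℤ) : ℝ) = (1 / 2) ^ A3 := by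
    unfold rT rR; push_cast
    rw [one_div, inv_pow]
    field_simp
  have q7 : ((rT1 A3 n : ℤ) : ℝ) / ((rB A1 A2 A3 n : ℤ) : ℝ) ≤ (1 / 2) ^ A1 := by
    rw [← q2]
    refine div_le_div_of_nonneg_right ?_ ?_
    · exact_mod_cast (by omega : rT1 A3 n ≤ rS1 A2 A3 n)
    · exact_mod_cast (by omega : 0 ≤ rB A1 A2 A3 n)
  have q8 : (0 : ℝ) ≤ ((rT1 A3 n : ℤ) : ℝ) / ((rB A1 A2 A3 n : ℤ) : ℝ) := by
    refine div_nonneg ?_ ?_
    · exact_mod_cast (by omega : 0 ≤ rT1 A3 n)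
    · exact_mod_cast (by omega : 0 ≤ rB A1 A2 A3 n)
  rw [q1, q2, q3, q4, q5, q6]
  have q9 := Real.rpow_le_rpow q8 q7 (bL_pos hc0 hc1).le
  have hCL := (CL_pos hc0).le
  have q10 : CL c0 * (8 * (((rT1 A3 n : ℤ) : ℝ) / ((rB A1 A2 A3 n : ℤ) : ℝ)) ^ bL c0) ≤
      CL c0 * (8 * ((1 / 2) ^ A1) ^ bL c0) := by
    refine mul_le_mul_of_nonneg_left ?_ hCL
    linarith
  linarith

/-! ### locality -/

theorem locD_good {R t r t1 s c s1 b ρ : ℤ} (h1 : s1 ≤ b) (h2 : c ≤ b) (h3 : r ≤ b)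
    (hρ : ρ + b + 4 ≤ R) :
    LocD {v | ρ < sd (0, 0) v} (GoodS R t r t1 s c s1 b) := by
  classical
  -- the two supports
  set DP : Set P2 := Sq R ∩ {v | ρ < sd (0, 0) v} with hDP
  set DD : Set P2 := Sq R ∩ {v | ρ + 2 < sd (0, 0) v} with hDD
  have fP : DP.Finite := (Sq_finite R).subset Set.inter_subset_left
  have fD : DD.Finite := (Sq_finite R).subset Set.inter_subset_left
  have low : ∀ w v : P2, R - 1 ≤ sd (0, 0) w → sd w v ≤ b → ρ + 2 < sd (0, 0) v := by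
    intro w v hw hv
    have := Kd458.sd_tri (0, 0) v w
    rw [Kd458.sd_symm v w] at this
    omega
  have bdR : ∀ w : P2, BdV (-R) R (-R) R w → R - 1 ≤ sd (0, 0) w := by
    intro w hw
    by_contra hcon
    have : sd (0, 0) w ≤ R - 2 := by omega
    rw [sd_le] at this
    simp only [zero_sub, zero_add] at this
    rcases hw with hw | hw | hw | hw <;> omega
  have bdR' : ∀ w : P2, BdV (-R) (R - 1) (-R) (R - 1) w → R - 1 ≤ sd (0, 0) w := by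
    intro w hw
    by_contra hcon
    have : sd (0, 0) w ≤ R - 2 := by omega
    rw [sd_le] at this
    simp only [zero_sub, zero_add] at this
    rcases hw with hw | hw | hw | hw <;> omega
  have hGP : ∀ (w : P2) (a d : ℤ), BdV (-R) R (-R) R w → d ≤ b →
      Dep (edF DP) {z : Cf | Gd z (Rect (-R) R (-R) R) w a d} := by
    intro w a d hw hd
    have hsub : Rect (-R) R (-R) R ∩ An w a d ⊆ DP := by
      rintro v ⟨hv, hv2⟩
      exact ⟨hv, by have := low w v (bdR w hw) (hv2.2.trans hd); show ρ < sd (0, 0) v; omega⟩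
    refine Dep.mono (edF_mono fP hsub) ?_
    exact (dep_TT (fP.subset hsub) _ _).compl
  have hGD : ∀ (f : P2) (a d : ℤ), BdV (-R) (R - 1) (-R) (R - 1) f → d ≤ b →
      Dep ((edF DD).map dE.symm.toEmbedding)
        {z : Cf | Gd (dual z) (Rect (-R) (R - 1) (-R) (R - 1)) f a d} := by
    intro w a d hw hd
    have hsub : Rect (-R) (R - 1) (-R) (R - 1) ∩ An w a d ⊆ DD := by
      rintro v ⟨hv, hv2⟩
      refine ⟨?_, low w v (bdR' w hw) (hv2.2.trans hd)⟩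
      rw [mem_rect] at hv
      rw [mem_Sq]
      omega
    refine Dep.mono (Finset.map_subset_map.2 (edF_mono fD hsub)) ?_
    exact (dep_TT (fD.subset hsub) _ _).compl.dual
  refine ⟨edF DP ∪ (edF DD).map dE.symm.toEmbedding, ?_, ?_⟩
  · intro z z' h
    have hP : ∀ (w : P2) (a d : ℤ), BdV (-R) R (-R) R w → d ≤ b →
        (Gd z (Rect (-R) R (-R) R) w a d ↔ Gd z' (Rect (-R) R (-R) R) w a d) :=
      fun w a d hw hd => hGP w a d hw hd z z' fun e he => h e (Finset.mem_union_left _ he)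
    have hD : ∀ (w : P2) (a d : ℤ), BdV (-R) (R - 1) (-R) (R - 1) w → d ≤ b →
        (Gd (dual z) (Rect (-R) (R - 1) (-R) (R - 1)) w a d ↔
          Gd (dual z') (Rect (-R) (R - 1) (-R) (R - 1)) w a d) :=
      fun w a d hw hd => hGD w a d hw hd z z' fun e he => h e (Finset.mem_union_right _ he)
    constructor
    · rintro ⟨g1, g2, g3, g4⟩
      exact ⟨fun w hw hb => (hP w _ _ hb le_rfl).1 (g1 w hw hb),
        fun w hw hb => (hP w _ _ hb h2).1 (g2 w hw hb),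
        fun w hw hb => (hP w _ _ hb h3).1 (g3 w hw hb),
        fun w hw hb => (hD w _ _ hb le_rfl).1 (g4 w hw hb)⟩
    · rintro ⟨g1, g2, g3, g4⟩
      exact ⟨fun w hw hb => (hP w _ _ hb le_rfl).2 (g1 w hw hb),
        fun w hw hb => (hP w _ _ hb h2).2 (g2 w hw hb),
        fun w hw hb => (hP w _ _ hb h3).2 (g3 w hw hb),
        fun w hw hb => (hD w _ _ hb le_rfl).2 (g4 w hw hb)⟩
  · intro e he
    rcases Finset.mem_union.1 he with he | he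
    · exact (of_mem_edF he).1.2
    · rw [Finset.mem_map] at he
      obtain ⟨e', he', rfl⟩ := he
      have h4 := (of_mem_edF he').1.2
      have h5 := dual_loc e'
      simp only [Equiv.coe_toEmbedding]
      have h6 : sd (src e') (src (dE.symm e')) ≤ 1 := by
        rw [sd_le]; omega
      have h7 := Kd458.sd_tri (0, 0) (src (dE.symm e')) (src e')
      rw [Kd458.sd_symm (src (dE.symm e')) (src e')] at h7
      have h8 : ρ + 2 < sd (0, 0) (src e') := h4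
      show ρ < sd (0, 0) (src (dE.symm e'))
      omega

theorem locD_compl {D : Set P2} {A : Set Cf} (h : LocD D A) : LocD D Aᶜ := by
  obtain ⟨T, h1, h2⟩ := h
  exact ⟨T, h1.compl, h2⟩

theorem locD_A4 {e : Edge} (he : src e = (0, 0)) (ρ : ℤ) : LocD {v | sd (0, 0) v ≤ ρ} (A4 e ρ) := by
  have hfin : {v : P2 | sd (0, 0) v ≤ ρ}.Finite := by rw [ball_eq]; exact Sq_finite ρ
  refine ⟨edF {v : P2 | sd (0, 0) v ≤ ρ}, ?_, fun e he => (of_mem_edF he).1⟩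
  have h := dep_frc_oc hfin e false fun f =>
    (∃ a ∈ {v : P2 | sd (0, 0) v = ρ}, f (0, 0) a) ∧ (∃ a ∈ {v : P2 | sd (0, 0) v = ρ}, f (tgt e) a) ∧
      ¬ f (0, 0) (tgt e)
  have h2 : A4 e ρ = {z : Cf | (∃ a ∈ {v : P2 | sd (0, 0) v = ρ},
      OC (frc e false z) {v : P2 | sd (0, 0) v ≤ ρ} (0, 0) a) ∧
      (∃ a ∈ {v : P2 | sd (0, 0) v = ρ}, OC (frc e false z) {v : P2 | sd (0, 0) v ≤ ρ} (tgt e) a) ∧
      ¬ OC (frc e false z) {v : P2 | sd (0, 0) v ≤ ρ} (0, 0) (tgt e)} := by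
    unfold A4 Arm
    rw [he]
  rw [h2]
  exact h

/-- the four-arm event is decreasing in the radius -/
theorem A4_anti {e : Edge} {ρ R : ℤ} (h1 : 1 ≤ ρ) (h : ρ ≤ R) : A4 e R ⊆ A4 e ρ := by
  have s0 : sd (src e) (src e) = 0 := Kd458.sd_self _
  have s1 : sd (src e) (tgt e) ≤ 1 := by
    rw [sd_le]
    obtain ⟨⟨i, j⟩, b⟩ := e
    cases b <;> simp <;> omega
  have key : ∀ {z : Cf} {u : P2}, sd (src e) u ≤ ρ →
      Arm z {v | sd (src e) v ≤ R} {v | sd (src e) v = R} u →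
      Arm z {v | sd (src e) v ≤ ρ} {v | sd (src e) v = ρ} u := by
    rintro z u hu ⟨a, ha, h2⟩
    have ha' : sd (src e) a = R := ha
    obtain ⟨w, hw, h3⟩ := first_hit (sd (src e)) (sd_nbr (src e)) ρ h2 hu (by omega)
    exact ⟨w, hw, h3.monoS fun v hv => hv.2⟩
  rintro z ⟨h2, h3, h4⟩
  refine ⟨key (by omega) h2, key (by omega) h3, fun h5 => h4 (h5.monoS fun v hv => ?_)⟩
  exact le_trans hv h

theorem a4_bad {p : I} {e : Edge} (he : src e = (0, 0)) {R t r t1 s c s1 b ρ : ℤ} (h1 : s1 ≤ b)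
    (h2 : c ≤ b) (h3 : r ≤ b) (hρ1 : 1 ≤ ρ) (hb0 : 0 ≤ b) (hρ : ρ + b + 4 ≤ R) :
    (nu p).real (A4 e R ∩ (GoodS R t r t1 s c s1 b)ᶜ) ≤
      (nu p).real (A4 e ρ) * (nu p).real (GoodS R t r t1 s c s1 b)ᶜ := by
  rw [← LocD.indep p (D := {v | sd (0, 0) v ≤ ρ}) (D' := {v | ρ < sd (0, 0) v}) ?_
    (locD_A4 he ρ) (locD_compl (locD_good h1 h2 h3 hρ))]
  · exact measureReal_mono (Set.inter_subset_inter_left _ (A4_anti hρ1 (by omega)))
  · rw [Set.disjoint_left]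
    intro v hv hv'
    have a1 : sd (0, 0) v ≤ ρ := hv
    have a2 : ρ < sd (0, 0) v := hv'
    omega

end Crest.Agent.R158.Sp580
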