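import Crest.Agent.R158.Kd2_458
import Crest.Agent.R158.Cpl3_963

/-!
# Row 158 (helper808), QM4, part 2: planar facts

* `sep_of_dual` : if both faces of the edge `e0` of a box are joined to the ring of outside faces by dual
  paths off the open edges (and off `e0`), then the end points of `e0` are not joined in the box off `e0`
-/

set_option autoImplicit false

noncomputable section

namespace Crest.Agent.R158.Qf808

open Crest.Agent.R161.Geo729 Crest.Agent.R161.Topo374 Crest.Agent.R161.Dual374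
open Crest.Agent.R161.Tas682
open Crest.Agent.R158.Kd458 Crest.Agent.R158.Rs689 Crest.Agent.R158.Cpl963

section box

variable {x0 x1 y0 y1 : ℤ}

theorem out_not_ib {e : Edge} {x : P2} (h : Out x0 x1 y0 y1 e x) : ¬ IB x0 x1 y0 y1 e := by
  obtain ⟨a, b⟩ := x
  intro hI
  unfold Out at h
  simp only at h
  rcases h with ⟨h1, h2, ⟨rfl, h3⟩ | ⟨rfl, h3⟩⟩ | ⟨h1, h2, ⟨rfl, h3⟩ | ⟨rfl, h3⟩⟩ <;>
    simp only [IB, src_mk, tgt_h, tgt_v] at hI <;> omega

theorem out_tb (hx : x0 ≤ x1) (hy : y0 ≤ y1) {e : Edge} {x : P2} (h : Out x0 x1 y0 y1 e x) :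
    TB x0 x1 y0 y1 e := by
  obtain ⟨a, b⟩ := x
  unfold Out at h
  simp only at h
  rcases h with ⟨h1, h2, ⟨rfl, h3⟩ | ⟨rfl, h3⟩⟩ | ⟨h1, h2, ⟨rfl, h3⟩ | ⟨rfl, h3⟩⟩ <;>
    simp only [TB, src_mk, tgt_h, tgt_v] <;> omega

/-- two dual arms separate the end points of an edge -/
theorem sep_of_dual (hx : x0 ≤ x1) (hy : y0 ≤ y1) {O C : Edge → Prop}
    (hOC : ∀ e, IB x0 x1 y0 y1 e → O e → C e → False) {e0 : Edge} (he0 : IB x0 x1 y0 y1 e0)
    (hO : ¬ O e0) (hC : ¬ C e0) {f g : P2} (hf : RingF x0 x1 y0 y1 f) (hg : RingF x0 x1 y0 y1 g)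
    (h1 : Relation.ReflTransGen (DStep (fun e => C e ∧ IB x0 x1 y0 y1 e)) (fA e0) f)
    (h2 : Relation.ReflTransGen (DStep (fun e => C e ∧ IB x0 x1 y0 y1 e)) (fB e0) g) :
    ¬ Relation.ReflTransGen (PStep (fun e => O e ∧ IB x0 x1 y0 y1 e)) (src e0) (tgt e0) := by
  intro hP
  obtain ⟨N, hN, hs⟩ := walk_parity hP
  obtain ⟨k, hk⟩ := face_pot (x0 := x0) (x1 := x1) (y0 := y0) (y1 := y1)
    (fun e => N e + dl e0 e) (by
      intro v _ _ _ _
      rw [star_add, hs, star_dl]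
      exact zmod2_add_self _)
  have hN0 : N e0 = 0 := by
    by_contra h0
    exact hO (hN e0 h0).1
  have hring : ∀ e x, Out x0 x1 y0 y1 e x →
      k (fA e) + k (fB e) = (fun _ : P2 => (0 : ZMod 2)) (fA e) + (fun _ : P2 => (0 : ZMod 2)) (fB e) := by
    intro e x he
    rw [hk e (out_tb hx hy he)]
    have q1 : N e = 0 := by
      by_contra h0
      exact out_not_ib he (hN e h0).2
    have q2 : dl e0 e = 0 := ind_false (fun h => out_not_ib he (h ▸ he0))
    rw [q1, q2]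
  have hr := ring_unique (F := k) (G := fun _ => 0) hx hy hring
  have hfg : k f = k g := by
    have a1 := hr f hf
    have a2 := hr g hg
    simp only [add_zero] at a1 a2
    rw [a1, a2]
  have hconst : ∀ e, (C e ∧ IB x0 x1 y0 y1 e) → k (fA e) + k (fB e) = 0 := by
    rintro e ⟨hCe, hI⟩
    rw [hk e (Or.inl hI.1)]
    have q1 : N e = 0 := by
      by_contra h0
      exact hOC e hI (hN e h0).1 hCe
    have q2 : dl e0 e = 0 := ind_false (fun h => hC (h ▸ hCe))
    rw [q1, q2]; rfl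
  have c1 := dual_const hconst h1
  have c2 := dual_const hconst h2
  have h3 := hk e0 (Or.inl he0.1)
  rw [hN0, zero_add, c1, c2, hfg, zmod2_add_self] at h3
  have h4 : dl e0 e0 = 1 := ind_true rfl
  rw [h4] at h3
  exact absurd h3 (by decide)

end box

end Crest.Agent.R158.Qf808
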