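import Crest.Agent.R158.Vx6_107
import Crest.Agent.R158.Qf2_808
import Crest.Agent.R158.Sp0_580
import Crest.Agent.R158.Cpl8_963

/-!
# R158, Block V (helper107), file 7: `nab m e ≠ 0` forces four arms

* `open_arm`, `dual_ring` : cut a connection at the first exit of a box
* `four_of_far` : both loops at `e` have a far face inside ==> four arms (`Sp580.A4`)
* `nab_ne`      : charges at distance `≥ N + 2` from `src e`, `nab m e z ≠ 0` ==> `z ∈ A4 e N`
-/

set_option autoImplicit false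

noncomputable section

namespace Crest.Agent.R158.Vx107

open Crest.Agent.R161.Geo729 Crest.Agent.R161.Dual374 Crest.Agent.R161.Topo374
open Crest.Agent.R161.Tas682 (sd OC OStep Cf)
open Crest.Agent.R158.It200 Crest.Agent.R158.Wf850
open Crest.Agent.R158.Rs689 (nu)
open Crest.Agent.R158.Kd458 (IB RingF)
open Crest.Agent.R158.Ru874 (frc frc_self frc_ne)
open Crest.Agent.R158.Vn841 (In In_spec)
open Function Real

/-! ### distances -/

theorem sd_step {x u v : P2} {Z : Edge → Prop} (h : PStep Z u v) : sd x v ≤ sd x u + 1 := by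
  obtain ⟨⟨⟨a, b⟩, s⟩, _, ⟨rfl, rfl⟩ | ⟨rfl, rfl⟩⟩ := h <;>
    refine sd_near ?_ ?_ <;> cases s <;> simp [src, tgt]

theorem sd_st (e : Edge) : sd (src e) (tgt e) ≤ 1 := by
  obtain ⟨⟨a, b⟩, s⟩ := e
  cases s <;> simp [src, tgt, sd]

theorem sd_ss (x : P2) : sd x x = 0 := by simp [sd]

/-- **open arm** -/
theorem open_arm {z : Cfz} {x u v : P2} {N : ℤ} (hu : sd x u ≤ N) (hv : N < sd x v)
    (h : v ∈ OCl z u) : ∃ a, sd x a = N ∧ OC z {w | sd x w ≤ N} u a := by
  have key : (sd x v ≤ N ∧ OC z {w | sd x w ≤ N} u v) ∨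
      ∃ a, sd x a = N ∧ OC z {w | sd x w ≤ N} u a := by
    have h' : Relation.ReflTransGen (PStep (fun e => z e = true)) u v := h
    clear hv h
    induction h' with
    | refl => exact Or.inl ⟨hu, hu, .refl⟩
    | @tail b c _ h2 ih =>
        rcases ih with ⟨h3, h4⟩ | h3
        · by_cases hc : sd x c ≤ N
          · exact Or.inl ⟨hc, hu, h4.2.tail ⟨h2, h3, hc⟩⟩
          · have h5 := sd_step (x := x) h2
            exact Or.inr ⟨b, by omega, h4⟩
        · exact Or.inr h3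
  rcases key with ⟨h1, -⟩ | h1
  · omega
  · exact h1

/-- inner faces of the box -/
def InF (x : P2) (N : ℤ) (f : P2) : Prop :=
  x.1 - N ≤ f.1 ∧ f.1 < x.1 + N ∧ x.2 - N ≤ f.2 ∧ f.2 < x.2 + N

theorem inF_sd {x f : P2} {N : ℤ} (h : InF x N f) : sd x f ≤ N := by
  obtain ⟨h1, h2, h3, h4⟩ := h
  rw [← Crest.Agent.R158.Fr158.mem_bx_sd, Crest.Agent.R158.Fr158.mem_bx]
  omega

/-- a dual step from an inner face crosses an edge of the box and ends at an inner face or at the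
ring -/
theorem dstep_in {Z : Edge → Prop} {x f g : P2} {N : ℤ} (hf : InF x N f) (h : DStep Z f g) :
    DStep (fun e => Z e ∧ IB (x.1 - N) (x.1 + N) (x.2 - N) (x.2 + N) e) f g ∧
      (InF x N g ∨ RingF (x.1 - N) (x.1 + N) (x.2 - N) (x.2 + N) g) := by
  obtain ⟨x1, x2⟩ := x
  obtain ⟨⟨⟨a, b⟩, s⟩, hZ, h⟩ := h
  obtain ⟨h1, h2, h3, h4⟩ := hf
  have hb : IB (x1 - N) (x1 + N) (x2 - N) (x2 + N) ((a, b), s) := by
    rcases h with ⟨rfl, rfl⟩ | ⟨rfl, rfl⟩ <;> cases s <;>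
      simp only [fA, fB, IB, src, tgt, Bool.false_eq_true, if_false, if_true] at * <;> omega
  refine ⟨⟨_, ⟨hZ, hb⟩, h⟩, ?_⟩
  rcases h with ⟨rfl, rfl⟩ | ⟨rfl, rfl⟩ <;> cases s <;>
    simp only [fA, fB, InF, RingF, Bool.false_eq_true, if_false, if_true] at * <;> omega

/-- **dual arm** -/
theorem dual_ring {Z : Edge → Prop} {x f g : P2} {N : ℤ} (hf : InF x N f) (hg : N < sd x g)
    (h : Relation.ReflTransGen (DStep Z) f g) :
    ∃ k, RingF (x.1 - N) (x.1 + N) (x.2 - N) (x.2 + N) k ∧ Relation.ReflTransGen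
      (DStep (fun e => Z e ∧ IB (x.1 - N) (x.1 + N) (x.2 - N) (x.2 + N) e)) f k := by
  have key : (InF x N g ∧ Relation.ReflTransGen
      (DStep (fun e => Z e ∧ IB (x.1 - N) (x.1 + N) (x.2 - N) (x.2 + N) e)) f g) ∨
      ∃ k, RingF (x.1 - N) (x.1 + N) (x.2 - N) (x.2 + N) k ∧ Relation.ReflTransGen
        (DStep (fun e => Z e ∧ IB (x.1 - N) (x.1 + N) (x.2 - N) (x.2 + N) e)) f k := by
    clear hg
    induction h with
    | refl => exact Or.inl ⟨hf, .refl⟩
    | @tail b c _ h2 ih =>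
        rcases ih with ⟨h3, h4⟩ | h3
        · obtain ⟨h5, h6⟩ := dstep_in h3 h2
          rcases h6 with h6 | h6
          · exact Or.inl ⟨h6, h4.tail h5⟩
          · exact Or.inr ⟨c, h6, h4.tail h5⟩
        · exact Or.inr h3
  rcases key with ⟨h1, -⟩ | h1
  · have := inF_sd h1
    omega
  · exact h1

theorem inF_fA (e : Edge) {N : ℤ} (hN : 1 ≤ N) : InF (src e) N (fA e) := by
  obtain ⟨⟨a, b⟩, s⟩ := e
  simp only [InF, src, fA]
  omega

theorem inF_fB (e : Edge) {N : ℤ} (hN : 1 ≤ N) : InF (src e) N (fB e) := by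
  obtain ⟨⟨a, b⟩, s⟩ := e
  cases s <;> simp only [InF, src, fB, Bool.false_eq_true, if_false, if_true] <;> omega

/-- the two dual faces of the edge -/
theorem faces_eq (e : Edge) : (fc (i1 e) = fA e ∧ fc (i2 e) = fB e) ∨
    (fc (i1 e) = fB e ∧ fc (i2 e) = fA e) := by
  rcases fA_or_fB e with ⟨h1, h2⟩ | ⟨h1, h2⟩ <;> rw [fc_o1] at h2
  · exact Or.inl ⟨h1, h2⟩
  · exact Or.inr ⟨h1, h2⟩

/-- far corners ==> four arms -/
theorem four_of_corners {z z0 z1 : Cfz} {e : Edge} {N : ℕ} (hN : 1 ≤ N)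
    (h0 : z0 = Function.update z e false) (h1 : z1 = Function.update z e true)
    (a1 : ∃ d ∈ Lp z0 (i1 e), (N : ℤ) + 2 ≤ sd (src e) d.1)
    (a2 : ∃ d ∈ Lp z0 (i2 e), (N : ℤ) + 2 ≤ sd (src e) d.1)
    (b1 : ∃ d ∈ Lp z1 (i1 e), (N : ℤ) + 2 ≤ sd (src e) d.1)
    (b2 : ∃ d ∈ Lp z1 (i2 e), (N : ℤ) + 2 ≤ sd (src e) d.1) : z ∈ Sp580.A4 e N := by
  have hN' : (1 : ℤ) ≤ N := by exact_mod_cast hN
  have hz0 : frc e false z = z0 := by rw [h0, Crest.Agent.R158.Cpl963.frc_eq]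
  -- open arms
  have arm : ∀ c u, c.1 = u → sd (src e) u ≤ N →
      (∃ d ∈ Lp z0 c, (N : ℤ) + 2 ≤ sd (src e) d.1) →
      ∃ a, sd (src e) a = N ∧ OC z0 {w | sd (src e) w ≤ (N : ℤ)} u a := by
    rintro c u hc hu ⟨d, hd, hd'⟩
    have := Lp_v d hd
    rw [hc] at this
    exact open_arm hu (by omega) this
  obtain ⟨a, ha, ha'⟩ := arm (i1 e) (src e) (fst_i1 e) (by rw [sd_ss]; omega) a1
  obtain ⟨b, hb, hb'⟩ := arm (i2 e) (tgt e) (fst_i2 e) ((sd_st e).trans hN') a2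
  unfold Sp580.A4
  rw [Set.mem_ofPred_eq, hz0]
  refine ⟨⟨a, ha, ha'⟩, ⟨b, hb, hb'⟩, ?_⟩
  -- dual arms off `e`
  set O : Edge → Prop := fun e' => z e' = true ∧ e' ≠ e with hO
  set C : Edge → Prop := fun e' => z e' = false ∧ e' ≠ e with hC
  have dual : ∀ c f, fc c = f → InF (src e) N f →
      (∃ d ∈ Lp z1 c, (N : ℤ) + 2 ≤ sd (src e) d.1) →
      ∃ k, RingF ((src e).1 - N) ((src e).1 + N) ((src e).2 - N) ((src e).2 + N) k ∧
        Relation.ReflTransGen (DStep (fun e' => C e' ∧ IB ((src e).1 - N) ((src e).1 + N)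
          ((src e).2 - N) ((src e).2 + N) e')) f k := by
    rintro c f hc hf ⟨d, hd, hd'⟩
    have h3 := Lp_f d hd
    rw [hc] at h3
    have h4 : Relation.ReflTransGen (DStep (fun e' => z1 e' = false)) f (fc d) := h3
    have h5 : Relation.ReflTransGen (DStep C) f (fc d) := by
      refine Relation.ReflTransGen.mono (r := DStep (fun e' => z1 e' = false)) ?_ _ _ h4
      rintro p q ⟨e', he', h6⟩
      refine ⟨e', ?_, h6⟩
      have hne : e' ≠ e := by
        rintro rfl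
        rw [h1, Function.update_self] at he'
        exact absurd he' (by simp)
      refine ⟨?_, hne⟩
      rw [h1, Function.update_of_ne hne] at he'
      exact he'
    have h6 := (sd_corner (src e) d).1
    exact dual_ring hf (by omega) h5
  have dA : ∃ k, RingF ((src e).1 - N) ((src e).1 + N) ((src e).2 - N) ((src e).2 + N) k ∧
        Relation.ReflTransGen (DStep (fun e' => C e' ∧ IB ((src e).1 - N) ((src e).1 + N)
          ((src e).2 - N) ((src e).2 + N) e')) (fA e) k := by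
    rcases faces_eq e with ⟨h5, -⟩ | ⟨-, h5⟩
    · exact dual (i1 e) (fA e) h5 (inF_fA e hN') b1
    · exact dual (i2 e) (fA e) h5 (inF_fA e hN') b2
  have dB : ∃ k, RingF ((src e).1 - N) ((src e).1 + N) ((src e).2 - N) ((src e).2 + N) k ∧
        Relation.ReflTransGen (DStep (fun e' => C e' ∧ IB ((src e).1 - N) ((src e).1 + N)
          ((src e).2 - N) ((src e).2 + N) e')) (fB e) k := by
    rcases faces_eq e with ⟨-, h5⟩ | ⟨h5, -⟩
    · exact dual (i2 e) (fB e) h5 (inF_fB e hN') b2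
    · exact dual (i1 e) (fB e) h5 (inF_fB e hN') b1
  obtain ⟨k, hk, hk'⟩ := dA
  obtain ⟨l, hl, hl'⟩ := dB
  have he0 : IB ((src e).1 - N) ((src e).1 + N) ((src e).2 - N) ((src e).2 + N) e := by
    obtain ⟨⟨p, q⟩, s⟩ := e
    cases s <;> simp only [IB, src, tgt, Bool.false_eq_true, if_false, if_true] <;> omega
  have hsep := Crest.Agent.R158.Qf808.sep_of_dual (x0 := (src e).1 - N) (x1 := (src e).1 + N)
    (y0 := (src e).2 - N) (y1 := (src e).2 + N) (by omega) (by omega) (O := O) (C := C)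
    (fun e' _ h5 h6 => by
      have a5 : z e' = true := h5.1
      have a6 : z e' = false := h6.1
      rw [a5] at a6; exact absurd a6 (by simp)) he0
    (fun h => h.2 rfl) (fun h => h.2 rfl) hk hl hk' hl'
  intro hoc
  apply hsep
  refine Relation.ReflTransGen.mono ?_ _ _ hoc.2
  rintro p q ⟨⟨e', he', h5⟩, hp, hq⟩
  have hne : e' ≠ e := by
    rintro rfl
    rw [h0, Function.update_self] at he'
    exact absurd he' (by simp)
  rw [h0, Function.update_of_ne hne] at he'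
  refine ⟨e', ⟨⟨he', hne⟩, ?_⟩, h5⟩
  have hp' : sd (src e) p ≤ N := hp
  have hq' : sd (src e) q ≤ N := hq
  rw [← Crest.Agent.R158.Fr158.mem_bx_sd, Crest.Agent.R158.Fr158.mem_bx] at hp' hq'
  unfold IB
  rcases h5 with ⟨rfl, rfl⟩ | ⟨rfl, rfl⟩
  · omega
  · omega

/-- a loop with a far face inside has a far corner -/
theorem far_corner {z : Cfz} {c : Corner} (hfin : (Lp z c).Finite) {x : P2} {m : ℤ}
    (h : ∃ f ∈ In z c, m < sd x f.1) : ∃ d ∈ Lp z c, m + 1 ≤ sd x d.1 := by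
  by_contra hcon
  push Not at hcon
  obtain ⟨f, hf, hf'⟩ := h
  exact ((In_spec hfin).2 f).1 hf (ht_out hfin (fun d hd => by have := hcon d hd; omega) hf')

/-- **H4** : both loops at `e` have a far face inside ==> four arms -/
theorem four_of_far {z : Cfz} {e : Edge} (hz : AllFin z) {z' : Cfz}
    (hz' : z' = z ∨ z' = It200.flip z e) (hne : i2 e ∉ Lp z' (i1 e)) {N : ℕ} (hN : 1 ≤ N)
    (h1 : ∃ f ∈ In z' (i1 e), (N : ℤ) + 2 ≤ sd (src e) f.1)
    (h2 : ∃ f ∈ In z' (i2 e), (N : ℤ) + 2 ≤ sd (src e) f.1) : z ∈ Sp580.A4 e N := by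
  have hz'f : AllFin z' := by
    rcases hz' with rfl | rfl
    · exact hz
    · exact hz.flip e
  have hup : ∀ b, Function.update z' e b = Function.update z e b := by
    intro b
    rcases hz' with rfl | rfl
    · rfl
    · unfold It200.flip; rw [Function.update_idem]
  obtain ⟨d1, hd1, k1⟩ := far_corner (hz'f _) (x := src e) (m := (N : ℤ) + 1)
    (by obtain ⟨f, hf, h⟩ := h1; exact ⟨f, hf, by omega⟩)
  obtain ⟨d2, hd2, k2⟩ := far_corner (hz'f _) (x := src e) (m := (N : ℤ) + 1)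
    (by obtain ⟨f, hf, h⟩ := h2; exact ⟨f, hf, by omega⟩)
  have hm := flip_merge (hz'f (i2 e)) hne
  have hU := flip_union z' e
  have m1 : d1 ∈ Lp (It200.flip z' e) (i1 e) := by
    have : d1 ∈ Lp (It200.flip z' e) (i1 e) ∪ Lp (It200.flip z' e) (i2 e) := by
      rw [hU]; exact Or.inl hd1
    rcases this with h | h
    · exact h
    · rwa [Lp_eq hm] at h
  have m2 : d1 ∈ Lp (It200.flip z' e) (i2 e) := by rw [Lp_eq hm]; exact m1
  have A1 : ∃ d ∈ Lp z' (i1 e), (N : ℤ) + 2 ≤ sd (src e) d.1 := ⟨d1, hd1, by omega⟩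
  have A2 : ∃ d ∈ Lp z' (i2 e), (N : ℤ) + 2 ≤ sd (src e) d.1 := ⟨d2, hd2, by omega⟩
  have B1 : ∃ d ∈ Lp (It200.flip z' e) (i1 e), (N : ℤ) + 2 ≤ sd (src e) d.1 :=
    ⟨d1, m1, by omega⟩
  have B2 : ∃ d ∈ Lp (It200.flip z' e) (i2 e), (N : ℤ) + 2 ≤ sd (src e) d.1 :=
    ⟨d1, m2, by omega⟩
  cases hc : z' e with
  | false =>
      have e0 : z' = Function.update z e false := by
        rw [← hup, ← hc, Function.update_eq_self]
      have e1 : It200.flip z' e = Function.update z e true := by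
        rw [← hup]; unfold It200.flip; rw [hc]; rfl
      exact four_of_corners hN e0 e1 A1 A2 B1 B2
  | true =>
      have e0 : z' = Function.update z e true := by
        rw [← hup, ← hc, Function.update_eq_self]
      have e1 : It200.flip z' e = Function.update z e false := by
        rw [← hup]; unfold It200.flip; rw [hc]; rfl
      exact four_of_corners hN e1 e0 B1 B2 A1 A2

/-- the charges do not see a set without far faces -/
theorem mass_near {m : Face →₀ ℝ} {x : P2} {N : ℤ} (hfar : ∀ f, m f ≠ 0 → N ≤ sd x f.1)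
    {A : Finset Face} (hA : ¬ ∃ f ∈ A, N ≤ sd x f.1) : mass m A = 0 := by
  unfold mass
  refine Finset.sum_eq_zero fun f hf => ?_
  by_contra h
  exact hA ⟨f, hf, hfar f h⟩

/-- **charges far from `e`: `nab m e z ≠ 0` forces four arms** -/
theorem nab_ne {z : Cfz} {e : Edge} (hz : AllFin z) {m : Face →₀ ℝ} (hm : Ntr m) {N : ℕ}
    (hN : 1 ≤ N) (hfar : ∀ f, m f ≠ 0 → (N : ℤ) + 2 ≤ sd (src e) f.1) (h : nab m e z ≠ 0) :
    z ∈ Sp580.A4 e N := by
  by_contra hcon
  apply h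
  obtain ⟨z', hz', f1, f2, hne⟩ := Crest.Agent.R158.Vn841.exists_two (hz (i1 e)) (hz (i2 e))
  have e1 : nab m e z = nab m e z' := by
    rcases hz' with rfl | rfl
    · rfl
    · exact (Crest.Agent.R158.Vn841.nab_flip m z e).symm
  have key : W m (It200.flip z' e) = W m z' := by
    have hW2 := Crest.Agent.R158.Vn841.W_two' f1 f2 hne hm
    have hW1 := Crest.Agent.R158.Vn841.W_merged f1 f2 hne hm
    have hor : (¬ ∃ f ∈ In z' (i1 e), (N : ℤ) + 2 ≤ sd (src e) f.1) ∨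
        ¬ ∃ f ∈ In z' (i2 e), (N : ℤ) + 2 ≤ sd (src e) f.1 := by
      by_contra hno
      push Not at hno
      exact hcon (four_of_far hz hz' hne hN (by obtain ⟨f, a, b⟩ := hno.1; exact ⟨f, a, b⟩)
        (by obtain ⟨f, a, b⟩ := hno.2; exact ⟨f, a, b⟩))
    rw [hW1, hW2]
    have hsub : ∀ {Ai Ao : Finset Face}, Ai ⊆ Ao → (¬ ∃ f ∈ Ao, (N : ℤ) + 2 ≤ sd (src e) f.1) →
        ¬ ∃ f ∈ Ai, (N : ℤ) + 2 ≤ sd (src e) f.1 := by
      rintro Ai Ao hs h1 ⟨f, hf, h2⟩
      exact h1 ⟨f, hs hf, h2⟩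
    rcases Crest.Agent.R158.Vn841.surg f1 f2 hne with hs | hs | hs
    · rw [Crest.Agent.R158.Vn841.mass_union hs.dis hs.mem]
      rcases hor with h1 | h1
      · rw [mass_near hfar h1, zero_add, Fw_zero, one_mul]
      · rw [mass_near hfar h1, add_zero, Fw_zero, mul_one]
    · rw [Crest.Agent.R158.Vn841.mass_sdiff hs.sub hs.mem]
      rcases hor with h1 | h1
      · simp only [mass_near hfar h1, mass_near hfar (hsub hs.sub h1), sub_zero, Fw_zero, one_mul]
      · rw [mass_near hfar h1, sub_zero, Fw_zero, mul_one]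
    · rw [Crest.Agent.R158.Vn841.mass_sdiff hs.sub hs.mem]
      rcases hor with h1 | h1
      · rw [mass_near hfar h1, sub_zero, Fw_zero, one_mul]
      · simp only [mass_near hfar h1, mass_near hfar (hsub hs.sub h1), sub_zero, Fw_zero, one_mul]
  rw [e1]
  unfold nab
  cases hc : z' e with
  | false => rw [cl_of hc, op_of' hc, key, sub_self]
  | true => rw [cl_of' hc, op_of hc, key, sub_self]

/-- the same with a base charge `± π` at `e` -/
theorem nab_ne_base {z : Cfz} {e : Edge} (hz : AllFin z) {μ : Face →₀ ℝ} {u : Face} {r : ℝ}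
    (hr : Crest.Agent.R158.Vn841.Bs r) (hm : Ntr (μ + Finsupp.single u r))
    (hu : u = cv (i1 e) ∨ u = cv (i2 e)) {N : ℕ} (hN : 1 ≤ N)
    (hfar : ∀ f, μ f ≠ 0 → (N : ℤ) + 2 ≤ sd (src e) f.1)
    (h : nab (μ + Finsupp.single u r) e z ≠ 0) : z ∈ Sp580.A4 e N := by
  obtain ⟨z', hz', -, -, hne, hcase⟩ :=
    Crest.Agent.R158.Vn841.nab_cases (hz (i1 e)) (hz (i2 e)) hr hm hu
  have hM : ∀ A : Finset Face, mass μ A ≠ 0 → ∃ f ∈ A, (N : ℤ) + 2 ≤ sd (src e) f.1 := by
    intro A hA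
    by_contra hno
    exact hA (mass_near hfar hno)
  have h' : Crest.Agent.R158.Vn841.nab (μ + Finsupp.single u r) z e ≠ 0 := h
  have hup : ∀ {Ai Ao : Finset Face}, Ai ⊆ Ao → (∃ f ∈ Ai, (N : ℤ) + 2 ≤ sd (src e) f.1) →
      ∃ f ∈ Ao, (N : ℤ) + 2 ≤ sd (src e) f.1 := fun hs ⟨f, a, b⟩ => ⟨f, hs a, b⟩
  rcases hcase with ⟨hs, h1⟩ | ⟨hs, h1⟩ | ⟨hs, h1⟩
  · rw [h1] at h'
    refine four_of_far hz hz' hne hN (hM _ ?_) (hM _ ?_)
    · intro h0; apply h'; rw [h0]; simp
    · intro h0; apply h'; rw [h0]; simp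
  · rw [h1] at h'
    have hi : mass μ (In z' (i2 e)) ≠ 0 := by
      intro h0; apply h'; rw [h0]; simp
    exact four_of_far hz hz' hne hN (hup hs.sub (hM _ hi)) (hM _ hi)
  · rw [h1] at h'
    have hi : mass μ (In z' (i1 e)) ≠ 0 := by
      intro h0; apply h'; rw [h0]; simp
    exact four_of_far hz hz' hne hN (hM _ hi) (hup hs.sub (hM _ hi))

end Crest.Agent.R158.Vx107
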