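import Crest.Agent.R158.Uc3_31
import Crest.Agent.R158.Vx7_107

/-!
# Row 158, Block A4 (helper31), C upper bounds, file 4: UB3a

* `nab_pt` : `|nab (s • mu + single u (-sπ)) z e| ≤ 4 exp (-s √3 π VV (log2 n)) exp (L z)` and
  `nab ≠ 0 → z ∈ A4 e (n / 4)`
* `nab_ind` : the integral on any event
* `UB3a`   : `|∫ nab| ≤ C (R / r) ^ C exp (-s √3 π VV (log2 n)) P(A4 e (n / 4)) ^ (1 - δ)`
-/

set_option autoImplicit false

noncomputable section

namespace Crest.Agent.R158.Uc31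

open Real Function MeasureTheory
open Crest.Agent.R161.Tas682 (sd)
open Crest.Agent.R161.Geo729 Crest.Agent.R161.Dual374
open Crest.Agent.R158.It200 (Cfz Corner fc i1 i2 fst_i1 fst_i2)
open Crest.Agent.R158.Wf850 (Lps Face BF mem_BF cv sd_self)
open Crest.Agent.R158.Vx107 (Rest rest_sub AllFin Ntr tot_add tot_single)
open Crest.Agent.R158.Vn841 (fx Bs nab RX nab_cases)
open Crest.Agent.R158.Cn109 (VV DepF)
open Crest.Agent.R158.Rs689 (nu hf)
open Crest.Agent.R158.Gx31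

/-- the charge of the identity C: `s (mu - π δ_u)` -/
def mC (n r R : ℕ) (s : ℝ) (u : P2) : Face →₀ ℝ :=
  s • mu n r R + Finsupp.single (u, false) (-(s * π))

theorem ntr_mC {n r R : ℕ} (h : Geo n r R) (s : ℝ) (u : P2) : Ntr (mC n r R s u) := by
  unfold Ntr mC
  rw [tot_add, tot_smu h, tot_single]
  ring

theorem bs_of {s : ℝ} (hs : s = 1 ∨ s = -1) : Bs (-(s * π)) := by
  rcases hs with rfl | rfl
  · right; ring
  · left; ring

theorem mu_far {n r R : ℕ} (h : Geo n r R) {f : Face} (hf : mu n r R f ≠ 0) :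
    (n : ℤ) - 4 * r ≤ sd (0, 0) f.1 := by
  obtain ⟨i1, i2, i3⟩ := h.ints
  by_contra hcon
  push Not at hcon
  apply hf
  have h1 : f ∉ Vb n r := fun h' => by
    have := (h.box_far h').1
    linarith
  have h2 : f ∉ rg (0, 0) R := fun h' => by
    rw [mem_rg] at h'
    linarith [h'.1]
  unfold mu
  simp only [Finsupp.add_apply, Finsupp.smul_apply, ud_not_mem h1, ud_not_mem h2, smul_zero,
    add_zero]

section

variable {n r R : ℕ} {s : ℝ} {e : Edge} {u : P2} {z : Cfz}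

theorem Geo.loc_Rest (h : Geo n r R) (he : src e = (0, 0)) {A : Finset Face}
    (hA : A ∈ Loc (kC r R) (VC n r R) z) : A ∈ Rest z e := by
  refine ⟨Loc_sub hA, h.loc_sep hA ?_, h.loc_sep hA ?_⟩
  · rw [fst_i1, he, sd_self]; norm_num
  · rw [fst_i2, ← he]; exact Cpl963.sd_src_tgt e

theorem nab_pt (h : Geo n r R) (hs : s = 1 ∨ s = -1) {L : Cfz → ℝ}
    (hL : ∀ (z : Cfz) (u : Face) (S : Set (Finset Face)), sd (0, 0) u.1 ≤ 2 → S ⊆ Lps z →
        (∀ A ∈ Loc (kC r R) (VC n r R) z, A ∈ S) →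
        |∏ᶠ A ∈ S, fx (s • mu n r R) u A| ≤
          exp (-(s * (√3 * π * VV (Nat.log 2 n)))) * exp (L z))
    (he : src e = (0, 0)) (hu : u = src e ∨ u = tgt e) (hz : AllFin z) :
    |nab (mC n r R s u) z e| ≤ 4 * WC n s * exp (L z) := by
  have hu' : ((u, false) : Face) = cv (i1 e) ∨ ((u, false) : Face) = cv (i2 e) := by
    rcases hu with rfl | rfl
    · left; unfold cv; rw [fst_i1]
    · right; unfold cv; rw [fst_i2]
  have hu2 : sd (0, 0) ((u, false) : Face).1 ≤ 2 := by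
    show sd (0, 0) u ≤ 2
    rcases hu with rfl | rfl
    · rw [he, sd_self]; norm_num
    · have := Cpl963.sd_src_tgt e
      rw [he] at this
      linarith
  have hRX : |RX (s • mu n r R) (u, false) z e| ≤ WC n s * exp (L z) := by
    unfold RX WC
    exact hL z (u, false) (Rest z e) hu2 (rest_sub z e) fun A hA => h.loc_Rest he hA
  have hW := WC_pos n s
  have key : ∀ a b x : ℝ, |a| ≤ 4 → |b| ≤ 1 → |x| ≤ WC n s * exp (L z) →
      |a * b * x| ≤ 4 * WC n s * exp (L z) := by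
    intro a b x ha hb hx
    rw [abs_mul, abs_mul]
    have h1 : |a| * |b| ≤ 4 * 1 := mul_le_mul ha hb (abs_nonneg _) (by norm_num)
    calc |a| * |b| * |x| ≤ 4 * 1 * (WC n s * exp (L z)) :=
          mul_le_mul h1 hx (abs_nonneg _) (by norm_num)
      _ = _ := by ring
  have h4 : ∀ t : ℝ, |4 * sin t| ≤ 4 := fun t => by
    rw [abs_mul, abs_of_pos (by norm_num : (0 : ℝ) < 4)]
    linarith [abs_sin_le_one t]
  have h4' : ∀ t : ℝ, |-4 * sin t| ≤ 4 := fun t => by
    rw [abs_mul, abs_neg, abs_of_pos (by norm_num : (0 : ℝ) < 4)]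
    linarith [abs_sin_le_one t]
  obtain ⟨z', -, -, -, -, hc⟩ := nab_cases (hz (i1 e)) (hz (i2 e)) (bs_of hs)
    (ntr_mC h s u) hu'
  unfold mC
  rcases hc with ⟨-, hc⟩ | ⟨-, hc⟩ | ⟨-, hc⟩
  · rw [hc]; exact key _ _ _ (h4 _) (abs_sin_le_one _) hRX
  · rw [hc]; exact key _ _ _ (h4' _) (abs_sin_le_one _) hRX
  · rw [hc]; exact key _ _ _ (h4' _) (abs_sin_le_one _) hRX

theorem nab_A4 (h : Geo n r R) (hs : s = 1 ∨ s = -1) (he : src e = (0, 0))
    (hu : u = src e ∨ u = tgt e) (hz : AllFin z) (hne : nab (mC n r R s u) z e ≠ 0) :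
    z ∈ Sp580.A4 e (n / 4 : ℕ) := by
  have hu' : ((u, false) : Face) = cv (i1 e) ∨ ((u, false) : Face) = cv (i2 e) := by
    rcases hu with rfl | rfl
    · left; unfold cv; rw [fst_i1]
    · right; unfold cv; rw [fst_i2]
  have g1 := h.r3
  have g2 := h.rn
  refine Vx107.nab_ne_base hz (bs_of hs) (ntr_mC h s u) hu' (N := n / 4) (by omega)
    (fun f hf => ?_) hne
  have hf' : mu n r R f ≠ 0 := by
    intro h0
    apply hf
    rw [Finsupp.smul_apply, h0, smul_zero]
  have h1 := mu_far h hf'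
  rw [he]
  have h2 : ((n / 4 : ℕ) : ℤ) + 2 ≤ (n : ℤ) - 4 * r := by omega
  exact h2.trans h1

theorem nab_int (h : Geo n r R) (s : ℝ) (u : P2) (e : Edge) :
    Integrable (fun z => nab (mC n r R s u) z e) (nu hf) :=
  Vx107.integrable_nab (ntr_mC h s u) e

end

theorem A4_meas (e : Edge) (R : ℤ) : MeasurableSet (Sp580.A4 e R) := by
  rw [Cpl963.A4_eq]
  exact (Cpl963.A4_dep e R).measurableSet

/-- **`nab` on an event** -/
theorem nab_ind {δ : ℝ} (h0 : 0 < δ) (h1 : δ < 1) : ∃ C : ℝ, 1 ≤ C ∧ ∀ n r R : ℕ, Geo n r R →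
    ∀ s : ℝ, (s = 1 ∨ s = -1) → ∀ (e : Edge) (u : P2), src e = (0, 0) → (u = src e ∨ u = tgt e) →
      ∀ A : Set Cfz, MeasurableSet A →
      ∫ z, A.indicator (fun z => |nab (mC n r R s u) z e|) z ∂(nu hf) ≤
        C * ((R : ℝ) / r) ^ C * WC n s * (nu hf).real A ^ (1 - δ) := by
  obtain ⟨C, hC, h⟩ := env_ind h0 h1
  refine ⟨4 * C, by linarith, fun n r R hg s hs e u he hu A hA => ?_⟩
  obtain ⟨L, T, hd, hm, hb⟩ := h n r R hg s hs
  have hW := WC_pos n s
  have hi : Integrable (fun z => 4 * WC n s * A.indicator (fun z => exp (L z)) z) (nu hf) :=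
    (((hd.comp fun x => exp x).integrable (fun _ => hf)).indicator hA).const_mul _
  have hRr := hg.ratio
  calc ∫ z, A.indicator (fun z => |nab (mC n r R s u) z e|) z ∂(nu hf)
      ≤ ∫ z, 4 * WC n s * A.indicator (fun z => exp (L z)) z ∂(nu hf) := by
        refine integral_mono_ae ((nab_int hg s u e).abs.indicator hA) hi
          (Vx107.ae_fin.mono fun z hz => ?_)
        by_cases hzA : z ∈ A
        · simp only [Set.indicator_of_mem hzA]; exact nab_pt hg hs hb he hu hz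
        · simp only [Set.indicator_of_notMem hzA]; simp
    _ = 4 * WC n s * ∫ z, A.indicator (fun z => exp (L z)) z ∂(nu hf) := integral_const_mul _ _
    _ ≤ 4 * WC n s * (C * ((R : ℝ) / r) ^ C * (nu hf).real A ^ (1 - δ)) :=
        mul_le_mul_of_nonneg_left (hm A hA) (by positivity)
    _ ≤ 4 * WC n s * (C * ((R : ℝ) / r) ^ (4 * C) * (nu hf).real A ^ (1 - δ)) := by
        refine mul_le_mul_of_nonneg_left ?_ (by positivity)
        refine mul_le_mul_of_nonneg_right ?_ (rpow_nonneg measureReal_nonneg _)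
        exact mul_le_mul_of_nonneg_left (rpow_le_rpow_of_exponent_le hRr (by linarith))
          (by linarith)
    _ = _ := by ring

/-- **UB3a** -/
theorem UB3a {δ : ℝ} (h0 : 0 < δ) (h1 : δ < 1) : ∃ C : ℝ, 1 ≤ C ∧ ∀ n r R : ℕ, Geo n r R →
    ∀ s : ℝ, (s = 1 ∨ s = -1) → ∀ (e : Edge) (u : P2), src e = (0, 0) → (u = src e ∨ u = tgt e) →
      |∫ z, nab (mC n r R s u) z e ∂(nu hf)| ≤
        C * ((R : ℝ) / r) ^ C * WC n s * (nu hf).real (Sp580.A4 e (n / 4 : ℕ)) ^ (1 - δ) := by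
  obtain ⟨C, hC, h⟩ := nab_ind h0 h1
  refine ⟨C, hC, fun n r R hg s hs e u he hu => ?_⟩
  refine le_trans ?_ (h n r R hg s hs e u he hu _ (A4_meas e (n / 4 : ℕ)))
  refine abs_integral_le_integral_abs.trans ?_
  refine integral_mono_ae (nab_int hg s u e).abs ((nab_int hg s u e).abs.indicator (A4_meas e _))
    (Vx107.ae_fin.mono fun z hz => ?_)
  by_cases hzA : z ∈ Sp580.A4 e (n / 4 : ℕ)
  · simp only [Set.indicator_of_mem hzA]; exact le_rfl
  · simp only [Set.indicator_of_notMem hzA]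
    have : nab (mC n r R s u) z e = 0 := by
      by_contra hne
      exact hzA (nab_A4 hg hs he hu hz hne)
    rw [this, abs_zero]

end Crest.Agent.R158.Uc31
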