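import Crest.Agent.R158.Zs4_110
import Crest.Agent.R158.Uc4_31
import Crest.Agent.R158.Vg1_109
import Crest.Agent.R158.Bk10_430
import Crest.Agent.R158.Ax2_107
import Crest.Agent.R158.Wf9_850
import Crest.Agent.R158.Sp4_580

/-!
# Row 158, Block A4 (helper31), closing of `SC` (upper bound of four arms by two arms)

* `LB3P`  : the operator lower bound (841 / 468), as a `Prop`
* `core`  : the real-variable argument
* `sc_of` : `LB3P → Vg109.HD → QM2 → SB p2 → SC p2 p4`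
* `sc_law` : `LB3P → Bs410.Law3 → QM2 → SB p2 → SC p2 p4`
-/

set_option autoImplicit false

noncomputable section

namespace Crest.Agent.R158.Uc31

open Real Function MeasureTheory Filter Topology
open Crest.Agent.R161.Tas682 (sd)
open Crest.Agent.R161.Geo729
open Crest.Agent.R158.It200 (Cfz Corner fc i1 i2 o1 o2)
open Crest.Agent.R158.Vn841 (Xs nab)
open Crest.Agent.R158.Cn109 (VV)
open Crest.Agent.R158.Rs689 (nu hf)
open Crest.Agent.R158.Ax107 (p2 p4 SB SC p2_nonneg p2_le_one p2_anti p4_nonneg p4_le_one A4_prob)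
open Crest.Agent.R158.Zs110 (QM2 UB3b p2_pos)

/-- the standard edge -/
def e00 : Edge := ((0, 0), false)

/-- **the operator lower bound** -/
def LB3P : Prop := ∀ ε : ℝ, 0 < ε → ∀ κ : ℝ, 0 < κ → ∀ᶠ j : ℕ in atTop, ∃ r R : ℕ,
  Geo (256 * 2 ^ j) r R ∧ (R : ℝ) ≤ ((256 * 2 ^ j : ℕ) : ℝ) ^ κ * r ∧
  ((256 * 2 ^ j : ℕ) : ℝ) ^ (-ε) * WC (256 * 2 ^ j) (-1) *
      (nu hf).real (Sp580.A4 e00 ((4 * 2 ^ j : ℕ) : ℤ)) ≤
    ∫ z, nab (mC (256 * 2 ^ j) r R (-1) (0, 0)) z e00 ∂(nu hf)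

/-- the real-variable argument -/
theorem core {ε C D N x y w u : ℝ} (he : 0 < ε) (he1 : ε ≤ 1 / 20) (hC : 1 ≤ C) (hD : 1 ≤ D)
    (hN : 1 ≤ N) (hx0 : 0 ≤ x) (hw : 0 < w)
    (hy0 : 0 < y) (hy : N ^ (-1 : ℝ) ≤ y)
    (hw2 : w ^ 2 ≤ D * N ^ (-1 + ε)) (huC : u ^ C ≤ N ^ ε)
    (hbig : 20 * C * D ≤ N ^ ε)
    (h : N ^ (-ε) * w⁻¹ * x ≤ C * u ^ C * w * x ^ (1 - ε) +
      4 * (C * u ^ C * w * N ^ ε * y ^ (1 - ε))) :
    x ≤ N ^ (-1 + 10 * ε) * y := by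
  have hN0 : 0 < N := by linarith
  have hpow : ∀ a b : ℝ, a ≤ b → N ^ a ≤ N ^ b := fun a b hab =>
    Real.rpow_le_rpow_of_exponent_le hN hab
  by_cases hc : x ≤ N ^ (-2 : ℝ)
  · calc x ≤ N ^ (-2 : ℝ) := hc
      _ ≤ N ^ (-1 + 10 * ε) * N ^ (-1 : ℝ) := by
          rw [← Real.rpow_add hN0]
          exact hpow _ _ (by linarith)
      _ ≤ N ^ (-1 + 10 * ε) * y :=
          mul_le_mul_of_nonneg_left hy (Real.rpow_nonneg hN0.le _)
  · push Not at hc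
    have hx : 0 < x := lt_of_lt_of_le (Real.rpow_pos_of_pos hN0 _) hc.le
    have gen : ∀ t a : ℝ, 0 < t → N ^ (-a) ≤ t → t ^ (1 - ε) ≤ t * N ^ (a * ε) := by
      intro t a ht h1
      rw [sub_eq_add_neg, Real.rpow_add ht, Real.rpow_one]
      refine mul_le_mul_of_nonneg_left ?_ ht.le
      calc t ^ (-ε) ≤ (N ^ (-a)) ^ (-ε) :=
            Real.rpow_le_rpow_of_nonpos (Real.rpow_pos_of_pos hN0 _) h1 (by linarith)
        _ = N ^ (a * ε) := by rw [← Real.rpow_mul hN0.le]; congr 1; ring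
    have hx1 := gen x 2 hx hc.le
    have hy1 := gen y 1 hy0 hy
    have hCu : C * u ^ C ≤ C * N ^ ε := mul_le_mul_of_nonneg_left huC (by linarith)
    have hCN : 0 ≤ C * N ^ ε := by positivity
    -- multiply by `N ^ ε * w`
    have h2 : x ≤ N ^ ε * w ^ 2 * (C * N ^ ε * (x * N ^ (2 * ε)) +
        4 * (C * N ^ ε * N ^ ε * (y * N ^ (1 * ε)))) := by
      have h3 : x = N ^ ε * w * (N ^ (-ε) * w⁻¹ * x) := by
        rw [Real.rpow_neg hN0.le]
        field_simp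
      have h4 : C * u ^ C * w * x ^ (1 - ε) ≤ w * (C * N ^ ε * (x * N ^ (2 * ε))) := by
        calc C * u ^ C * w * x ^ (1 - ε) = w * (C * u ^ C * x ^ (1 - ε)) := by ring
          _ ≤ w * (C * N ^ ε * (x * N ^ (2 * ε))) :=
              mul_le_mul_of_nonneg_left (mul_le_mul hCu hx1 (Real.rpow_nonneg hx.le _) hCN) hw.le
      have h5 : C * u ^ C * w * N ^ ε * y ^ (1 - ε) ≤
          w * (C * N ^ ε * N ^ ε * (y * N ^ (1 * ε))) := by
        calc C * u ^ C * w * N ^ ε * y ^ (1 - ε) = w * (C * u ^ C * N ^ ε * y ^ (1 - ε)) := by ring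
          _ ≤ w * (C * N ^ ε * N ^ ε * (y * N ^ (1 * ε))) := by
              refine mul_le_mul_of_nonneg_left ?_ hw.le
              exact mul_le_mul (mul_le_mul_of_nonneg_right hCu (Real.rpow_nonneg hN0.le _)) hy1
                (Real.rpow_nonneg hy0.le _) (mul_nonneg hCN (Real.rpow_nonneg hN0.le _))
      have hm : 0 ≤ N ^ ε * w := mul_nonneg (Real.rpow_nonneg hN0.le _) hw.le
      calc x = N ^ ε * w * (N ^ (-ε) * w⁻¹ * x) := h3
        _ ≤ N ^ ε * w * (w * (C * N ^ ε * (x * N ^ (2 * ε))) +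
            4 * (w * (C * N ^ ε * N ^ ε * (y * N ^ (1 * ε))))) :=
            mul_le_mul_of_nonneg_left (h.trans (add_le_add h4
              (mul_le_mul_of_nonneg_left h5 (by norm_num)))) hm
        _ = _ := by ring
    have h6 : x ≤ C * D * N ^ (-1 + 5 * ε) * x + 4 * (C * D * N ^ (-1 + 5 * ε) * y) := by
      have h7 : 0 ≤ C * N ^ ε * (x * N ^ (2 * ε)) +
          4 * (C * N ^ ε * N ^ ε * (y * N ^ (1 * ε))) := by
        have a1 : 0 ≤ N ^ ε := Real.rpow_nonneg hN0.le _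
        have a2 : 0 ≤ N ^ (2 * ε) := Real.rpow_nonneg hN0.le _
        have a3 : 0 ≤ N ^ (1 * ε) := Real.rpow_nonneg hN0.le _
        have a4 : 0 ≤ C := by linarith
        positivity
      have h8 : x ≤ N ^ ε * (D * N ^ (-1 + ε)) * (C * N ^ ε * (x * N ^ (2 * ε)) +
          4 * (C * N ^ ε * N ^ ε * (y * N ^ (1 * ε)))) :=
        h2.trans (mul_le_mul_of_nonneg_right
          (mul_le_mul_of_nonneg_left hw2 (Real.rpow_nonneg hN0.le _)) h7)
      refine h8.trans (le_of_eq ?_)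
      have e1 : N ^ ε * N ^ (-1 + ε) * (N ^ ε * N ^ (2 * ε)) = N ^ (-1 + 5 * ε) := by
        rw [← Real.rpow_add hN0, ← Real.rpow_add hN0, ← Real.rpow_add hN0]; congr 1; ring
      have e2 : N ^ ε * N ^ (-1 + ε) * (N ^ ε * N ^ ε * N ^ (1 * ε)) = N ^ (-1 + 5 * ε) := by
        rw [← Real.rpow_add hN0, ← Real.rpow_add hN0, ← Real.rpow_add hN0, ← Real.rpow_add hN0]
        congr 1; ring
      calc N ^ ε * (D * N ^ (-1 + ε)) * (C * N ^ ε * (x * N ^ (2 * ε)) +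
            4 * (C * N ^ ε * N ^ ε * (y * N ^ (1 * ε))))
          = C * D * (N ^ ε * N ^ (-1 + ε) * (N ^ ε * N ^ (2 * ε))) * x +
            4 * (C * D * (N ^ ε * N ^ (-1 + ε) * (N ^ ε * N ^ ε * N ^ (1 * ε))) * y) := by ring
        _ = _ := by rw [e1, e2]
    have hCD : 0 ≤ C * D := by positivity
    have h9 : C * D * N ^ (-1 + 5 * ε) ≤ 1 / 2 := by
      have b1 : N ^ ε * N ^ (-1 + 5 * ε) ≤ 1 := by
        rw [← Real.rpow_add hN0]
        calc N ^ (ε + (-1 + 5 * ε)) ≤ N ^ (0 : ℝ) := hpow _ _ (by linarith)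
          _ = 1 := Real.rpow_zero _
      have b2 : 0 ≤ N ^ (-1 + 5 * ε) := Real.rpow_nonneg hN0.le _
      nlinarith
    have h10 : x ≤ 8 * (C * D * N ^ (-1 + 5 * ε) * y) := by nlinarith
    calc x ≤ 8 * (C * D * N ^ (-1 + 5 * ε) * y) := h10
      _ = 8 * (C * D) * (N ^ (-1 + 5 * ε) * y) := by ring
      _ ≤ N ^ ε * (N ^ (-1 + 5 * ε) * y) := by
          refine mul_le_mul_of_nonneg_right (by nlinarith) ?_
          exact mul_nonneg (Real.rpow_nonneg hN0.le _) hy0.le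
      _ = N ^ (-1 + 6 * ε) * y := by
          rw [← mul_assoc, ← Real.rpow_add hN0]; congr 2; ring
      _ ≤ N ^ (-1 + 10 * ε) * y := by
          refine mul_le_mul_of_nonneg_right (hpow _ _ (by linarith)) hy0.le


/-- the order of magnitude is `n ^ (-1/2)` -/
theorem WC_sq (hD : Vg109.HD) {e : ℝ} (he : 0 < e) : ∃ D : ℝ, 1 ≤ D ∧ ∀ n : ℕ, 1 ≤ n →
    WC n 1 ^ 2 ≤ D * (n : ℝ) ^ (-1 + e) := by
  have h3 : 0 < √(3 : ℝ) := Real.sqrt_pos.2 (by norm_num)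
  have h3p : 0 < 2 * √3 * π := by have := pi_pos; positivity
  obtain ⟨K, hK, hV⟩ := Vg109.VV_log hD (e := e / (2 * √3 * π)) (div_pos he h3p)
  refine ⟨exp (2 * √3 * π * K), ?_, fun n hn => ?_⟩
  · exact Real.one_le_exp (mul_nonneg h3p.le hK)
  · have hn0 : (0 : ℝ) < n := by exact_mod_cast hn
    have h1 := (abs_le.1 (hV n hn)).1
    have h2 : Vg109.den * log n - (e / (2 * √3 * π) * log n + K) ≤ VV (Nat.log 2 n) := by
      linarith
    have h4 : 2 * √3 * π * (Vg109.den * log n - (e / (2 * √3 * π) * log n + K)) =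
        log n - e * log n - 2 * √3 * π * K := by
      unfold Vg109.den
      field_simp
      ring
    have h5 := mul_le_mul_of_nonneg_left h2 h3p.le
    rw [h4] at h5
    unfold WC
    rw [← Real.exp_nat_mul, Real.rpow_def_of_pos hn0, ← Real.exp_add]
    refine Real.exp_le_exp.2 ?_
    push_cast
    nlinarith

theorem WC_neg (n : ℕ) : WC n (-1) = (WC n 1)⁻¹ := by
  unfold WC
  rw [← Real.exp_neg]
  congr 1
  ring

theorem sd_corners {c : Corner} (h : c = i1 e00 ∨ c = i2 e00 ∨ c = o1 e00 ∨ c = o2 e00) :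
    sd (0, 0) c.1 ≤ 1 := by
  rcases h with rfl | rfl | rfl | rfl <;> simp [i1, i2, o1, o2, e00, sd]

/-- the identity `(X1)` at the standard edge -/
theorem x1_e00 {n r R : ℕ} (h : Geo n r R) :
    ∫ z, nab (mC n r R (-1) (0, 0)) z e00 ∂(nu hf) ≤
      |∫ z, nab (mC n r R 1 (0, 0)) z e00 ∂(nu hf)| +
        (|∫ z, Xs (mu n r R) (i1 e00) z ∂(nu hf)| + |∫ z, Xs (mu n r R) (i2 e00) z ∂(nu hf)| +
          |∫ z, Xs (mu n r R) (o1 e00) z ∂(nu hf)| + |∫ z, Xs (mu n r R) (o2 e00) z ∂(nu hf)|) := by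
  have ht : Vx107.tot (mu n r R) = π := tot_mu h.R1
  have h1 := Vx107.X1v Bk430.even_main ht e00 (0, 0) (0, 0)
  have e1 : mC n r R (-1) (0, 0) = -mu n r R + Finsupp.single (((0, 0) : P2), false) π := by
    unfold mC
    rw [neg_one_smul, neg_one_mul, neg_neg]
  have e2 : mC n r R 1 (0, 0) = mu n r R + Finsupp.single (((0, 0) : P2), false) (-π) := by
    unfold mC
    rw [one_smul, one_mul]
  rw [e1, e2]
  have ht1 : 0 ≤ tan (π / 6) := by rw [Real.tan_pi_div_six]; positivity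
  have ht2 : tan (π / 6) ≤ 1 := by
    rw [Real.tan_pi_div_six, div_le_one (Real.sqrt_pos.2 (by norm_num))]
    exact Real.one_le_sqrt.2 (by norm_num)
  have k0 := le_abs_self
    (∫ z, nab (mu n r R + Finsupp.single (((0, 0) : P2), false) (-π)) z e00 ∂(nu hf))
  have k1 := le_abs_self (∫ z, Xs (mu n r R) (i1 e00) z ∂(nu hf))
  have k2 := le_abs_self (∫ z, Xs (mu n r R) (i2 e00) z ∂(nu hf))
  have k3 := le_abs_self (∫ z, Xs (mu n r R) (o1 e00) z ∂(nu hf))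
  have k4 := le_abs_self (∫ z, Xs (mu n r R) (o2 e00) z ∂(nu hf))
  have p1 := abs_nonneg (∫ z, Xs (mu n r R) (i1 e00) z ∂(nu hf))
  have p2 := abs_nonneg (∫ z, Xs (mu n r R) (i2 e00) z ∂(nu hf))
  have p3 := abs_nonneg (∫ z, Xs (mu n r R) (o1 e00) z ∂(nu hf))
  have p4 := abs_nonneg (∫ z, Xs (mu n r R) (o2 e00) z ∂(nu hf))
  have key : tan (π / 6) * (∫ z, Xs (mu n r R) (i1 e00) z ∂(nu hf) +
        ∫ z, Xs (mu n r R) (i2 e00) z ∂(nu hf) + ∫ z, Xs (mu n r R) (o1 e00) z ∂(nu hf) +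
        ∫ z, Xs (mu n r R) (o2 e00) z ∂(nu hf)) ≤
      1 * (|∫ z, Xs (mu n r R) (i1 e00) z ∂(nu hf)| + |∫ z, Xs (mu n r R) (i2 e00) z ∂(nu hf)| +
        |∫ z, Xs (mu n r R) (o1 e00) z ∂(nu hf)| + |∫ z, Xs (mu n r R) (o2 e00) z ∂(nu hf)|) := by
    refine (mul_le_mul_of_nonneg_left (c := |∫ z, Xs (mu n r R) (i1 e00) z ∂(nu hf)| +
      |∫ z, Xs (mu n r R) (i2 e00) z ∂(nu hf)| +
      |∫ z, Xs (mu n r R) (o1 e00) z ∂(nu hf)| + |∫ z, Xs (mu n r R) (o2 e00) z ∂(nu hf)|)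
      (by linarith) ht1).trans ?_
    exact mul_le_mul_of_nonneg_right ht2 (by linarith)
  linarith

/-- one dyadic scale -/
theorem sc_dyadic (hX : LB3P) (hD : Vg109.HD) (hQ : QM2) (hB : SB p2) {ε : ℝ} (he : 0 < ε)
    (he1 : ε ≤ 1 / 20) : ∃ K : ℕ, 1 ≤ K ∧ ∀ᶠ j : ℕ in atTop,
      p4 (4 * 2 ^ j) ≤ ((256 * 2 ^ j : ℕ) : ℝ) ^ (-1 + 10 * ε) * p2 (256 * 2 ^ j / K) := by
  obtain ⟨C1, hC1, h3a⟩ := UB3a he (by linarith : ε < 1)
  obtain ⟨C2, hC2, K, hK, h3b⟩ := UB3b hQ he (by linarith : ε < 1)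
  obtain ⟨D, hD1, hW⟩ := WC_sq hD he
  set C : ℝ := max C1 C2 with hC
  have hC1' : C1 ≤ C := le_max_left _ _
  have hC2' : C2 ≤ C := le_max_right _ _
  have hC0 : 1 ≤ C := hC1.trans hC1'
  have hj : Tendsto (fun j : ℕ => 256 * 2 ^ j) atTop atTop :=
    Tendsto.const_mul_atTop' (by norm_num) (tendsto_pow_atTop_atTop_of_one_lt (by norm_num))
  refine ⟨K, hK, ?_⟩
  filter_upwards [hX ε he (ε / C) (by positivity), hj.eventually h3b,
    hj.eventually (hB (3 / 4) (by norm_num)),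
    hj.eventually (Ax107.ev_pow ε he (20 * C * D))] with j h1 h2 h3 h4
  obtain ⟨r, R, hg, hRr, hL⟩ := h1
  set n : ℕ := 256 * 2 ^ j with hn
  have hn1 : 1 ≤ n := by rw [hn]; have := Nat.one_le_two_pow (n := j); omega
  have hN : (1 : ℝ) ≤ n := by exact_mod_cast hn1
  have hr0 : (0 : ℝ) < r := by exact_mod_cast (by have := hg.r3; omega : 0 < r)
  have hu : 1 ≤ (R : ℝ) / r := by
    rw [le_div_iff₀ hr0, one_mul]
    exact_mod_cast (by have := hg.rn; have := hg.nR; omega : r ≤ R)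
  have hu2 : (R : ℝ) / r ≤ (n : ℝ) ^ (ε / C) := by rwa [div_le_iff₀ hr0]
  have huC : ((R : ℝ) / r) ^ C ≤ (n : ℝ) ^ ε := by
    calc ((R : ℝ) / r) ^ C ≤ ((n : ℝ) ^ (ε / C)) ^ C :=
          Real.rpow_le_rpow (by linarith) hu2 (by linarith)
      _ = (n : ℝ) ^ ε := by
          rw [← Real.rpow_mul (by linarith), div_mul_cancel₀ _ (by positivity)]
  -- the two-arm lower bound
  have hy : (n : ℝ) ^ (-1 : ℝ) ≤ p2 (n / K) := by
    refine le_trans ?_ (p2_anti (Nat.div_le_self n K))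
    have := h3
    rwa [show (-(1 / 4 : ℝ) - 3 / 4) = -1 by norm_num] at this
  -- the bounds
  have hw : 0 < WC n 1 := WC_pos _ _
  have hCu : ∀ c : ℝ, 1 ≤ c → c ≤ C → c * ((R : ℝ) / r) ^ c ≤ C * ((R : ℝ) / r) ^ C := by
    intro c hc hcC
    exact mul_le_mul hcC (Real.rpow_le_rpow_of_exponent_le hu hcC)
      (Real.rpow_nonneg (by linarith) _) (by linarith)
  have hp4 : (nu hf).real (Sp580.A4 e00 ((4 * 2 ^ j : ℕ) : ℤ)) = p4 (4 * 2 ^ j) := rfl
  have hA : (nu hf).real (Sp580.A4 e00 (n / 4 : ℕ)) ≤ p4 (4 * 2 ^ j) := by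
    rw [← hp4]
    refine measureReal_mono (Sp580.A4_anti ?_ ?_)
    · exact_mod_cast (by have := Nat.one_le_two_pow (n := j); omega : 1 ≤ 4 * 2 ^ j)
    · exact_mod_cast (by omega : 4 * 2 ^ j ≤ n / 4)
  have g1 : |∫ z, nab (mC n r R 1 (0, 0)) z e00 ∂(nu hf)| ≤
      C * ((R : ℝ) / r) ^ C * WC n 1 * p4 (4 * 2 ^ j) ^ (1 - ε) := by
    refine (h3a n r R hg 1 (Or.inl rfl) e00 (0, 0) rfl (Or.inl rfl)).trans ?_
    refine mul_le_mul (mul_le_mul_of_nonneg_right (hCu C1 hC1 hC1') hw.le)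
      (Real.rpow_le_rpow measureReal_nonneg hA (by linarith))
      (Real.rpow_nonneg measureReal_nonneg _) ?_
    exact mul_nonneg (mul_nonneg (by linarith) (Real.rpow_nonneg (by linarith) _)) hw.le
  have g2 : ∀ c : Corner, (c = i1 e00 ∨ c = i2 e00 ∨ c = o1 e00 ∨ c = o2 e00) →
      |∫ z, Xs (mu n r R) c z ∂(nu hf)| ≤
        C * ((R : ℝ) / r) ^ C * WC n 1 * (n : ℝ) ^ ε * p2 (n / K) ^ (1 - ε) := by
    intro c hc
    refine (h2 r R hg c (sd_corners hc)).trans ?_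
    refine mul_le_mul_of_nonneg_right (mul_le_mul_of_nonneg_right
      (mul_le_mul_of_nonneg_right (hCu C2 hC2 hC2') hw.le) (Real.rpow_nonneg (by linarith) _))
      (Real.rpow_nonneg (p2_nonneg _) _)
  have g3 := x1_e00 hg
  have i1' := g2 (i1 e00) (Or.inl rfl)
  have i2' := g2 (i2 e00) (Or.inr (Or.inl rfl))
  have o1' := g2 (o1 e00) (Or.inr (Or.inr (Or.inl rfl)))
  have o2' := g2 (o2 e00) (Or.inr (Or.inr (Or.inr rfl)))
  have hfin : (n : ℝ) ^ (-ε) * (WC n 1)⁻¹ * p4 (4 * 2 ^ j) ≤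
      C * ((R : ℝ) / r) ^ C * WC n 1 * p4 (4 * 2 ^ j) ^ (1 - ε) +
      4 * (C * ((R : ℝ) / r) ^ C * WC n 1 * (n : ℝ) ^ ε * p2 (n / K) ^ (1 - ε)) := by
    rw [hp4, WC_neg] at hL
    linarith
  exact core he he1 hC0 hD1 hN (p4_nonneg _) hw (p2_pos _) hy (hW n hn1) huC h4 hfin

/-- **closing of `SC`** -/
theorem sc_of (hX : LB3P) (hD : Vg109.HD) (hQ : QM2) (hB : SB p2) : SC p2 p4 := by
  intro ε hε
  set η : ℝ := min (1 / 20) (ε / 10) with hη
  have hη0 : 0 < η := by positivity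
  have hη1 : η ≤ 1 / 20 := min_le_left _ _
  have hη2 : 10 * η ≤ ε := by have := min_le_right (1 / 20 : ℝ) (ε / 10); linarith
  obtain ⟨K, hK, hj⟩ := sc_dyadic hX hD hQ hB hη0 hη1
  obtain ⟨J, hJ⟩ := eventually_atTop.1 hj
  have hfl := Ax107.fl_tendsto (b := 1 + ε) (by linarith)
  filter_upwards [hfl.eventually (eventually_ge_atTop (4 * 2 ^ J)),
    Ax107.ev_pow ε hε (K + 4 : ℝ), eventually_ge_atTop 1] with n h1 h2 hn1 m hm
  set M : ℕ := ⌊(n : ℝ) ^ (1 + ε)⌋₊ with hM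
  have hn0 : (0 : ℝ) < n := by exact_mod_cast hn1
  have hn1' : (1 : ℝ) ≤ n := by exact_mod_cast hn1
  have hM1 : (M : ℝ) ≤ (n : ℝ) ^ (1 + ε) := Nat.floor_le (Real.rpow_nonneg hn0.le _)
  have hM2 : (n : ℝ) ^ (1 + ε) < M + 1 := Nat.lt_floor_add_one _
  have hMm : M ≤ m := by
    have : (M : ℝ) ≤ m := hM1.trans hm
    exact_mod_cast this
  have h4 : 2 ^ J ≤ M / 4 := by omega
  set j : ℕ := Nat.log 2 (M / 4) with hjdef
  have hM4 : M / 4 ≠ 0 := by have := Nat.one_le_two_pow (n := J); omega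
  have hjJ : J ≤ j := Nat.le_log_of_pow_le (by norm_num) h4
  have k1 : 2 ^ j ≤ M / 4 := Nat.pow_log_le_self 2 hM4
  have k2 : M / 4 < 2 ^ (j + 1) := Nat.lt_pow_succ_log_self (by norm_num) _
  have k3 : 4 * 2 ^ j ≤ m := by omega
  have k4 : K * n ≤ 256 * 2 ^ j := by
    have e1 : (n : ℝ) ^ (1 + ε) = n * (n : ℝ) ^ ε := by
      rw [Real.rpow_add hn0, Real.rpow_one]
    have e2 : (K : ℝ) * n + 4 ≤ (n : ℝ) ^ (1 + ε) := by
      rw [e1]
      nlinarith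
    have e3 : (K : ℝ) * n + 3 < M := by linarith
    have e4 : K * n + 3 < M := by exact_mod_cast e3
    rw [pow_succ] at k2
    omega
  have k5 : n ≤ 256 * 2 ^ j / K := by
    rw [Nat.le_div_iff_mul_le (by omega), mul_comm]
    exact k4
  have k6 := hJ j hjJ
  have k7 : p4 m ≤ p4 (4 * 2 ^ j) := by
    refine measureReal_mono (Sp580.A4_anti ?_ ?_)
    · exact_mod_cast (by have := Nat.one_le_two_pow (n := j); omega : 1 ≤ 4 * 2 ^ j)
    · exact_mod_cast k3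
  have k8 : (n : ℝ) ≤ ((256 * 2 ^ j : ℕ) : ℝ) := by
    have : n ≤ 256 * 2 ^ j := by
      refine le_trans ?_ k4
      exact Nat.le_mul_of_pos_left n (by omega)
    exact_mod_cast this
  calc p4 m ≤ p4 (4 * 2 ^ j) := k7
    _ ≤ ((256 * 2 ^ j : ℕ) : ℝ) ^ (-1 + 10 * η) * p2 (256 * 2 ^ j / K) := k6
    _ ≤ (n : ℝ) ^ (-1 + 10 * η) * p2 n := by
        refine mul_le_mul ?_ (p2_anti k5) (p2_nonneg _) (Real.rpow_nonneg hn0.le _)
        exact Real.rpow_le_rpow_of_nonpos hn0 k8 (by linarith)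
    _ ≤ (n : ℝ) ^ (-1 + ε) * p2 n :=
        mul_le_mul_of_nonneg_right (Real.rpow_le_rpow_of_exponent_le hn1' (by linarith))
          (p2_nonneg _)

/-- the density from the law of the crossing clusters -/
theorem hd_law (hLaw : Bs410.Law3) : Vg109.HD := Vg109.HD_of_hyp (Wf850.hyp_main hLaw)

/-- **`SC` from the law, the operator lower bound, quasi-multiplicativity and `SB`** -/
theorem sc_law (hLaw : Bs410.Law3) (hX : LB3P) (hQ : QM2) (hB : SB p2) : SC p2 p4 :=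
  sc_of hX (hd_law hLaw) hQ hB

end Crest.Agent.R158.Uc31
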