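import Crest.Agent.R158.Kd3_458

/-!
# Row 158 (helper458), SEP: the deterministic core, edge version

`core_edge` : on "four arms at `e` up to the boundary of the rectangle `B`" and "good boundary", for ANY landing
points `x`, `x'` of the two open arms there are boundary faces `f`, `f'` such that
* `e` has two open arms to `x`, `x'` off the boxes of radius `t` around (boundary vertices next to) `f`, `f'`;
* `e` has two dual arms to `f`, `f'` off the boxes of radius `s` around `x`, `x'`;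
* all landing points are separated.
-/

set_option autoImplicit false

noncomputable section

namespace Crest.Agent.R158.Kd458

open Crest.Agent.R161.Geo729 Crest.Agent.R161.Topo374 Crest.Agent.R161.Dual374
open Crest.Agent.R161.Tas682
open Crest.Agent.R158.Rs689
open Crest.Agent.R158.Ru874 hiding An
open Crest.Agent.R158.Cpl963 Crest.Agent.R158.Sq200

/-- close the edge `e` -/
def cl (z : Cf) (e : Edge) : Cf := fun e' => z e' && decide (e' ≠ e)

/-- open the edge `e` -/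
def op (z : Cf) (e : Edge) : Cf := fun e' => z e' || decide (e' = e)

theorem cl_true {z : Cf} {e e' : Edge} : cl z e e' = true ↔ z e' = true ∧ e' ≠ e := by
  simp [cl]

theorem op_false {z : Cf} {e e' : Edge} : op z e e' = false ↔ z e' = false ∧ e' ≠ e := by
  simp [op]

theorem rtg_congr {α : Type*} {R R' : α → α → Prop} (h : ∀ a b, R a b → R' a b) {a b : α}
    (hp : Relation.ReflTransGen R a b) : Relation.ReflTransGen R' a b := by
  induction hp with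
  | refl => exact .refl
  | tail _ hs ih => exact ih.tail (h _ _ hs)

theorem oce_iff {z : Cf} {S : Set P2} {e : Edge} {u v : P2} (hu : u ∈ S) :
    OCe z S e u v ↔ OC (cl z e) S u v := by
  constructor
  · intro h
    refine ⟨hu, rtg_congr ?_ h⟩
    rintro a b ⟨e', ⟨h1, h2, h3⟩, h4⟩
    refine ⟨⟨e', cl_true.2 ⟨h1, h2⟩, h4⟩, ?_⟩
    rcases h4 with ⟨rfl, rfl⟩ | ⟨rfl, rfl⟩
    · exact h3
    · exact h3.symm
  · rintro ⟨_, h⟩
    refine rtg_congr ?_ h
    rintro a b ⟨⟨e', h1, h4⟩, ha, hb⟩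
    refine ⟨e', ⟨(cl_true.1 h1).1, (cl_true.1 h1).2, ?_⟩, h4⟩
    rcases h4 with ⟨rfl, rfl⟩ | ⟨rfl, rfl⟩
    · exact ⟨ha, hb⟩
    · exact ⟨hb, ha⟩

/-- `Gd` depends only on the edges inside the annulus -/
theorem gd_congr {z z' : Cf} {S : Set P2} {x : P2} {a b : ℤ}
    (h : ∀ e, src e ∈ S ∩ An x a b → tgt e ∈ S ∩ An x a b → z e = z' e) (hG : Gd z S x a b) :
    Gd z' S x a b := by
  have key : ∀ u v, OC z (S ∩ An x a b) u v ↔ OC z' (S ∩ An x a b) u v := fun u v => oc_iff h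
  rintro ⟨u, hu, v, hv, u', hu', v', hv', h1, h2, h3⟩
  exact hG ⟨u, hu, v, hv, u', hu', v', hv', (key _ _).2 h1, (key _ _).2 h2, fun h => h3 ((key _ _).1 h)⟩

theorem gd_cl {z : Cf} {S : Set P2} {x : P2} {a b : ℤ} {e : Edge} (he : b < sd x (src e))
    (hG : Gd z S x a b) : Gd (cl z e) S x a b := by
  refine gd_congr ?_ hG
  intro e' h1 _
  have : e' ≠ e := by
    rintro rfl
    have := h1.2.2
    omega
  simp [cl, this]

theorem gd_op {z : Cf} {S : Set P2} {x : P2} {a b : ℤ} {e : Edge} (he : b < sd x (fB e))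
    (hG : Gd (dual z) S x a b) : Gd (dual (op z e)) S x a b := by
  refine gd_congr ?_ hG
  intro e' h1 _
  have : dE.symm e' ≠ e := by
    intro h
    have h2 : e' = dE e := by rw [← h]; simp
    have h3 := h1.2.2
    rw [h2, src_dE] at h3
    omega
  simp [dual, op, this]

theorem face_far {x : P2} {s : ℤ} {e : Edge} (h : ¬ NB x s e) : s ≤ sd x (fA e) ∧ s ≤ sd x (fB e) := by
  obtain ⟨⟨i, j⟩, b⟩ := e
  obtain ⟨u, v⟩ := x
  unfold NB at h
  rw [sd_le, sd_le] at h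
  cases b
  · simp only [src_mk, tgt_h, fA_mk, fB_h] at *
    constructor
    · by_contra h1
      push Not at h1
      have h2 : sd (u, v) (i, j) ≤ s - 1 := by omega
      rw [sd_le] at h2
      simp only at h2 h
      omega
    · by_contra h1
      push Not at h1
      have h2 : sd (u, v) (i, j - 1) ≤ s - 1 := by omega
      rw [sd_le] at h2
      simp only at h2 h
      omega
  · simp only [src_mk, tgt_v, fA_mk, fB_v] at *
    constructor
    · by_contra h1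
      push Not at h1
      have h2 : sd (u, v) (i, j) ≤ s - 1 := by omega
      rw [sd_le] at h2
      simp only at h2 h
      omega
    · by_contra h1
      push Not at h1
      have h2 : sd (u, v) (i - 1, j) ≤ s - 1 := by omega
      rw [sd_le] at h2
      simp only at h2 h
      omega

theorem face_far_src {x : P2} {s : ℤ} {e : Edge} (h : s < sd x (src e)) :
    s ≤ sd x (fA e) ∧ s ≤ sd x (fB e) :=
  face_far (fun hh => by have := hh.1; omega)

/-- first exit of a path from a set -/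
theorem first_exit {α : Type*} {R : α → α → Prop} {D : α → Prop} {a b : α}
    (h : Relation.ReflTransGen R a b) (ha : D a) (hb : ¬ D b) :
    ∃ y y', Relation.ReflTransGen (fun u v => R u v ∧ D u ∧ D v) a y ∧ D y ∧ ¬ D y' ∧ R y y' := by
  have key : ∀ w, Relation.ReflTransGen R a w →
      (D w ∧ Relation.ReflTransGen (fun u v => R u v ∧ D u ∧ D v) a w) ∨
      ∃ y y', Relation.ReflTransGen (fun u v => R u v ∧ D u ∧ D v) a y ∧ D y ∧ ¬ D y' ∧ R y y' := by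
    intro w hw
    induction hw with
    | refl => exact Or.inl ⟨ha, .refl⟩
    | @tail u v _ hs ih =>
        rcases ih with ⟨h1, h2⟩ | h
        · by_cases hv : D v
          · exact Or.inl ⟨hv, h2.tail ⟨hs, h1, hv⟩⟩
          · exact Or.inr ⟨u, v, h2, h1, hv, hs⟩
        · exact Or.inr h
  rcases key b h with ⟨h1, _⟩ | h
  · exact absurd h1 hb
  · exact h

section rect

variable {x0 x1 y0 y1 : ℤ}

/-- a face of the rectangle one step from outside is a boundary face -/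
theorem bd_face {f g : P2} {e : Edge} (h : (f = fA e ∧ g = fB e) ∨ (f = fB e ∧ g = fA e))
    (hf : f ∈ Rect x0 (x1 - 1) y0 (y1 - 1)) (hg : g ∉ Rect x0 (x1 - 1) y0 (y1 - 1)) :
    BdV x0 (x1 - 1) y0 (y1 - 1) f := by
  obtain ⟨⟨i, j⟩, b⟩ := e
  rw [mem_rect] at hf hg
  cases b <;> rcases h with ⟨rfl, rfl⟩ | ⟨rfl, rfl⟩ <;> simp only [fA_mk, fB_h, fB_v, BdV] at * <;> omega

/-- next to a boundary face there is a boundary vertex -/
theorem bd_near {f : P2} (hx : x0 < x1) (hy : y0 < y1) (hf : f ∈ Rect x0 (x1 - 1) y0 (y1 - 1))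
    (hb : BdV x0 (x1 - 1) y0 (y1 - 1) f) :
    ∃ w, w ∈ Rect x0 x1 y0 y1 ∧ BdV x0 x1 y0 y1 w ∧ sd f w ≤ 1 := by
  obtain ⟨i, j⟩ := f
  rw [mem_rect] at hf
  simp only at hf
  rcases hb with h | h | h | h <;> simp only at h
  · exact ⟨(i, j), by rw [mem_rect]; simp only; omega, Or.inl h, by rw [sd_le]; simp only; omega⟩
  · exact ⟨(i + 1, j), by rw [mem_rect]; simp only; omega, Or.inr (Or.inl (by simp only; omega)),
      by rw [sd_le]; simp only; omega⟩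
  · exact ⟨(i, j), by rw [mem_rect]; simp only; omega, Or.inr (Or.inr (Or.inl h)),
      by rw [sd_le]; simp only; omega⟩
  · exact ⟨(i, j + 1), by rw [mem_rect]; simp only; omega, Or.inr (Or.inr (Or.inr (by simp only; omega))),
      by rw [sd_le]; simp only; omega⟩

/-- the dual arm in the inner faces -/
theorem inner_arm {z z' : Cf} {e : Edge} {x x' : P2} {s : ℤ}
    (hz' : ∀ e', z' e' = false → z e' = false ∧ ¬ NB x s e' ∧ ¬ NB x' s e')
    {f0 f1 : P2} (hf0 : f0 ∈ Rect x0 (x1 - 1) y0 (y1 - 1)) (h0 : s ≤ sd x f0) (h0' : s ≤ sd x' f0)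
    (hf1 : OutF x0 x1 y0 y1 f1) (h : DCe z' (Rect x0 x1 y0 y1) e f0 f1) :
    ∃ f, f ∈ Rect x0 (x1 - 1) y0 (y1 - 1) ∧ BdV x0 (x1 - 1) y0 (y1 - 1) f ∧
      OC (dual (op z e)) (Rect x0 (x1 - 1) y0 (y1 - 1) ∩ {v | s ≤ sd x v} ∩ {v | s ≤ sd x' v}) f0 f := by
  obtain ⟨f, g, h1, hf, hg, e', he', hfg⟩ := first_exit (D := fun v => v ∈ Rect x0 (x1 - 1) y0 (y1 - 1)) h hf0
    (by
      intro hh
      apply hf1
      rw [mem_rect] at hh
      omega)
  refine ⟨f, hf, bd_face hfg hf hg, ⟨⟨hf0, h0⟩, h0'⟩, rtg_congr ?_ h1⟩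
  rintro a b ⟨⟨e1, ⟨h2, h3, _⟩, h4⟩, ha, hb⟩
  have h5 := hz' e1 h2
  have h6 := face_far h5.2.1
  have h7 := face_far h5.2.2
  refine ⟨dstep_dual.1 ⟨e1, ?_, h4⟩, ?_, ?_⟩
  · show ¬ op z e e1 = true
    rw [op_false.2 ⟨h5.1, h3⟩]; simp
  · rcases h4 with ⟨rfl, rfl⟩ | ⟨rfl, rfl⟩
    · exact ⟨⟨ha, h6.1⟩, h7.1⟩
    · exact ⟨⟨ha, h6.2⟩, h7.2⟩
  · rcases h4 with ⟨rfl, rfl⟩ | ⟨rfl, rfl⟩
    · exact ⟨⟨hb, h6.2⟩, h7.2⟩
    · exact ⟨⟨hb, h6.1⟩, h7.1⟩

theorem exists_out {v : P2} (hv : v ∈ Rect x0 x1 y0 y1) (hb : BdV x0 x1 y0 y1 v) :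
    ∃ r, Out x0 x1 y0 y1 r v := by
  rw [mem_rect] at hv
  rcases hb with h | h | h | h
  · exact ⟨((x0 - 1, v.2), false), Or.inl ⟨hv.2.2.1, hv.2.2.2, Or.inl ⟨rfl, h⟩⟩⟩
  · exact ⟨((x1, v.2), false), Or.inl ⟨hv.2.2.1, hv.2.2.2, Or.inr ⟨rfl, h⟩⟩⟩
  · exact ⟨((v.1, y0 - 1), true), Or.inr ⟨hv.1, hv.2.1, Or.inl ⟨rfl, h⟩⟩⟩
  · exact ⟨((v.1, y1), true), Or.inr ⟨hv.1, hv.2.1, Or.inr ⟨rfl, h⟩⟩⟩

theorem ib_iff {e : Edge} : IB x0 x1 y0 y1 e ↔ InE (Rect x0 x1 y0 y1) e := Iff.rfl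

/-- the two faces of `e` are not joined by a dual path off `e` if both end points are joined to the boundary -/
theorem no_dual_loop {z : Cf} {e : Edge} (he : InE (Rect x0 x1 y0 y1) e) {x x' : P2}
    (hx : x ∈ Rect x0 x1 y0 y1) (hbx : BdV x0 x1 y0 y1 x)
    (hx' : x' ∈ Rect x0 x1 y0 y1) (hbx' : BdV x0 x1 y0 y1 x')
    (h1 : OC (cl z e) (Rect x0 x1 y0 y1) (src e) x) (h2 : OC (cl z e) (Rect x0 x1 y0 y1) (tgt e) x') :
    ¬ OC (dual (op z e)) (Rect x0 (x1 - 1) y0 (y1 - 1)) (fA e) (fB e) := by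
  intro hD
  have hxx : x0 ≤ x1 := by rw [mem_rect] at hx; omega
  have hyy : y0 ≤ y1 := by rw [mem_rect] at hx; omega
  obtain ⟨r, hr⟩ := exists_out hx hbx
  obtain ⟨r', hr'⟩ := exists_out hx' hbx'
  have h1' : Relation.ReflTransGen (PStep (fun e' => (z e' = true ∧ e' ≠ e) ∧ IB x0 x1 y0 y1 e')) x (src e) := by
    refine rtg_congr ?_ h1.symm.2
    rintro a b ⟨⟨e', h3, h4⟩, ha, hb⟩
    refine ⟨e', ⟨cl_true.1 h3, ?_⟩, h4⟩
    rcases h4 with ⟨rfl, rfl⟩ | ⟨rfl, rfl⟩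
    · exact ⟨ha, hb⟩
    · exact ⟨hb, ha⟩
  have h2' : Relation.ReflTransGen (PStep (fun e' => (z e' = true ∧ e' ≠ e) ∧ IB x0 x1 y0 y1 e')) (tgt e) x' := by
    refine rtg_congr ?_ h2.2
    rintro a b ⟨⟨e', h3, h4⟩, ha, hb⟩
    refine ⟨e', ⟨cl_true.1 h3, ?_⟩, h4⟩
    rcases h4 with ⟨rfl, rfl⟩ | ⟨rfl, rfl⟩
    · exact ⟨ha, hb⟩
    · exact ⟨hb, ha⟩
  obtain ⟨N, hN, hs⟩ := walk_parity h1'
  obtain ⟨N', hN', hs'⟩ := walk_parity h2'
  have hsum : ∀ w, star (fun e' => (N e' + N' e') + dl e e') w = ind (w = x) + ind (w = x') := by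
    intro w
    rw [star_add, star_add, hs, hs', star_dl]
    have z1 := zmod2_add_self (ind (w = src e))
    have z2 := zmod2_add_self (ind (w = tgt e))
    linear_combination z1 + z2
  obtain ⟨k, _, hk2⟩ := par hxx hyy hr hr' (N := fun e' => (N e' + N' e') + dl e e') (by
    intro e' h
    by_cases h3 : N e' = 0
    · by_cases h4 : N' e' = 0
      · by_cases h5 : e' = e
        · rw [h5]; exact he
        · exfalso; apply h
          simp only [h3, h4, dl, ind_false h5, add_zero]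
      · exact (hN' e' h4).2
    · exact (hN e' h3).2) hsum
  have hN0 : N e = 0 := by
    by_contra h0; exact (hN e h0).1.2 rfl
  have hN0' : N' e = 0 := by
    by_contra h0; exact (hN' e h0).1.2 rfl
  have hjump : k (fA e) + k (fB e) = 1 := by
    rw [hk2 e he]
    show (N e + N' e) + dl e e = 1
    rw [hN0, hN0', show dl e e = 1 from ind_true rfl]
    decide
  have hconst : k (fA e) = k (fB e) := by
    have h3 : Relation.ReflTransGen (DStep (fun e' => (z e' = false ∧ e' ≠ e) ∧ IB x0 x1 y0 y1 e'))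
        (fA e) (fB e) := by
      refine rtg_congr ?_ hD.2
      rintro a b ⟨h4, ha, hb⟩
      obtain ⟨e', he', h5⟩ := dstep_dual.2 h4
      have h6 : op z e e' = false := by simpa using he'
      refine ⟨e', ⟨op_false.1 h6, ?_⟩, h5⟩
      rw [mem_rect] at ha hb
      obtain ⟨⟨i, j⟩, c⟩ := e'
      cases c <;> rcases h5 with ⟨rfl, rfl⟩ | ⟨rfl, rfl⟩ <;>
        simp only [IB, src_mk, tgt_h, tgt_v, fA_mk, fB_h, fB_v] at * <;> omega
    apply dual_const _ h3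
    rintro e' ⟨⟨h4, h5⟩, h6⟩
    rw [hk2 e' h6]
    have h7 : N e' = 0 := by
      by_contra h0
      have := (hN e' h0).1.1
      rw [h4] at this; exact absurd this (by simp)
    have h8 : N' e' = 0 := by
      by_contra h0
      have := (hN' e' h0).1.1
      rw [h4] at this; exact absurd this (by simp)
    simp only [h7, h8, dl, ind_false h5, add_zero]
  rw [hconst, zmod2_add_self] at hjump
  exact absurd hjump (by decide)

/-- the boundary of the rectangle is good: primal at the scales `(s1,b)`, `(s,c)`, `(t,r)`, dual at `(t1,b)` -/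
structure GoodB (z : Cf) (x0 x1 y0 y1 : ℤ) (t r t1 s c s1 b : ℤ) : Prop where
  g1 : ∀ w ∈ Rect x0 x1 y0 y1, BdV x0 x1 y0 y1 w → Gd z (Rect x0 x1 y0 y1) w s1 b
  g2 : ∀ w ∈ Rect x0 x1 y0 y1, BdV x0 x1 y0 y1 w → Gd z (Rect x0 x1 y0 y1) w s c
  g3 : ∀ w ∈ Rect x0 x1 y0 y1, BdV x0 x1 y0 y1 w → Gd z (Rect x0 x1 y0 y1) w t r
  g4 : ∀ f ∈ Rect x0 (x1 - 1) y0 (y1 - 1), BdV x0 (x1 - 1) y0 (y1 - 1) f →
    Gd (dual z) (Rect x0 (x1 - 1) y0 (y1 - 1)) f t1 b

/-- **Deterministic core of the separation of arms (edge version).** -/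
theorem core_edge {z : Cf} {e : Edge} (he : InE (Rect x0 x1 y0 y1) e)
    (hfA : fA e ∈ Rect x0 (x1 - 1) y0 (y1 - 1)) (hfB : fB e ∈ Rect x0 (x1 - 1) y0 (y1 - 1))
    {x x' : P2} (hx : x ∈ Rect x0 x1 y0 y1) (hbx : BdV x0 x1 y0 y1 x)
    (hx' : x' ∈ Rect x0 x1 y0 y1) (hbx' : BdV x0 x1 y0 y1 x')
    (h1 : OC (cl z e) (Rect x0 x1 y0 y1) (src e) x) (h2 : OC (cl z e) (Rect x0 x1 y0 y1) (tgt e) x')
    (hn : ¬ OC (cl z e) (Rect x0 x1 y0 y1) (src e) (tgt e))
    {t r t1 s c s1 b : ℤ} (ht : 0 ≤ t) (htr : t ≤ r) (hrt : t + r + 1 ≤ t1) (ht1b : t1 ≤ b) (hrs : r + 1 ≤ s)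
    (hsc : s ≤ c) (hcs : s + c ≤ s1) (hs1b : s1 ≤ b)
    (deep : ∀ w ∈ Rect x0 x1 y0 y1, BdV x0 x1 y0 y1 w → b < sd w (src e) ∧ b < sd w (tgt e))
    (deep' : ∀ f ∈ Rect x0 (x1 - 1) y0 (y1 - 1), BdV x0 (x1 - 1) y0 (y1 - 1) f →
      b < sd f (fA e) ∧ b < sd f (fB e))
    (hG : GoodB z x0 x1 y0 y1 t r t1 s c s1 b) :
    s1 < sd x x' ∧ ∃ f f' w w', f ∈ Rect x0 (x1 - 1) y0 (y1 - 1) ∧ BdV x0 (x1 - 1) y0 (y1 - 1) f ∧
      f' ∈ Rect x0 (x1 - 1) y0 (y1 - 1) ∧ BdV x0 (x1 - 1) y0 (y1 - 1) f' ∧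
      w ∈ Rect x0 x1 y0 y1 ∧ BdV x0 x1 y0 y1 w ∧ sd f w ≤ 1 ∧
      w' ∈ Rect x0 x1 y0 y1 ∧ BdV x0 x1 y0 y1 w' ∧ sd f' w' ≤ 1 ∧ t1 < sd f f' ∧
      OC (dual (op z e)) (Rect x0 (x1 - 1) y0 (y1 - 1) ∩ {v | s ≤ sd x v} ∩ {v | s ≤ sd x' v}) (fA e) f ∧
      OC (dual (op z e)) (Rect x0 (x1 - 1) y0 (y1 - 1) ∩ {v | s ≤ sd x v} ∩ {v | s ≤ sd x' v}) (fB e) f' ∧
      OC (cl z e) (Rect x0 x1 y0 y1 ∩ {v | t ≤ sd w v} ∩ {v | t ≤ sd w' v}) (src e) x ∧
      OC (cl z e) (Rect x0 x1 y0 y1 ∩ {v | t ≤ sd w v} ∩ {v | t ≤ sd w' v}) (tgt e) x' := by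
  classical
  set B := Rect x0 x1 y0 y1 with hB
  set Ri := Rect x0 (x1 - 1) y0 (y1 - 1) with hRi
  have hxy : x0 < x1 ∧ y0 < y1 := by
    rw [hRi, mem_rect] at hfA; omega
  have dx := deep x hx hbx
  have dx' := deep x' hx' hbx'
  have hs0 : 0 ≤ s := by omega
  -- (1)
  have hsep : s1 < sd x x' := sepA1 h1.symm h2.symm hn (by omega) hs1b dx.1.le dx.2.le
    (gd_cl dx.1 (hG.g1 x hx hbx))
  -- (2)
  set z' : Cf := fun e' => decide (z e' = true ∨ NB x s e' ∨ NB x' s e') with hz'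
  have hz't : ∀ e', z' e' = true ↔ (z e' = true ∨ NB x s e' ∨ NB x' s e') := by
    intro e'; simp [hz']
  have hn' : ¬ OC (cl z' e) B (src e) (tgt e) := by
    apply sepA2 (z := cl z e) (s := s) (c := c) h1.symm h2.symm hn hs0 hsc (by omega) (by omega) (by omega)
      (by omega) (by omega) (gd_cl (by omega) (hG.g2 x hx hbx)) (gd_cl (by omega) (hG.g2 x' hx' hbx'))
    intro e' h
    obtain ⟨h3, h4⟩ := cl_true.1 h
    rcases (hz't e').1 h3 with h5 | h5 | h5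
    · exact Or.inl (cl_true.2 ⟨h5, h4⟩)
    · exact Or.inr (Or.inl h5)
    · exact Or.inr (Or.inr h5)
  -- (3)
  have hmono : ∀ {u v : P2}, OC (cl z e) B u v → OC (cl z' e) B u v := by
    intro u v h
    refine h.mono ?_ le_rfl
    intro e' h3
    obtain ⟨h4, h5⟩ := cl_true.1 h3
    exact cl_true.2 ⟨(hz't e').2 (Or.inl h4), h5⟩
  have hd4 := Sq200.dual4 (z := z') he hbx hbx' ((oce_iff he.1).2 (hmono h1)) ((oce_iff he.2).2 (hmono h2))
    (fun h => hn' ((oce_iff he.1).1 h))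
  have hz'f : ∀ e', z' e' = false → z e' = false ∧ ¬ NB x s e' ∧ ¬ NB x' s e' := by
    intro e' h
    have h3 : ¬ (z e' = true ∨ NB x s e' ∨ NB x' s e') := by
      intro h4
      rw [(hz't e').2 h4] at h
      exact absurd h (by simp)
    push Not at h3
    exact ⟨by simpa using h3.1, h3.2⟩
  have fx := face_far_src (x := x) (s := s) (e := e) (by omega)
  have fx' := face_far_src (x := x') (s := s) (e := e) (by omega)
  obtain ⟨⟨f1, hf1o, hf1⟩, ⟨f2, hf2o, hf2⟩⟩ := hd4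
  obtain ⟨f, hf, hbf, hfc⟩ := inner_arm hz'f hfA fx.1 fx'.1 hf1o hf1
  obtain ⟨f', hf', hbf', hfc'⟩ := inner_arm hz'f hfB fx.2 fx'.2 hf2o hf2
  have hsub : Ri ∩ {v | s ≤ sd x v} ∩ {v | s ≤ sd x' v} ⊆ Ri := fun v hv => hv.1.1
  have hloop := no_dual_loop he hx hbx hx' hbx' h1 h2
  have hff : t1 < sd f f' := sepA1 (hfc.monoS hsub).symm (hfc'.monoS hsub).symm hloop (by omega) ht1b
    (deep' f hf hbf).1.le (deep' f hf hbf).2.le (gd_op (deep' f hf hbf).2 (hG.g4 f hf hbf))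
  obtain ⟨w, hw, hbw, hfw⟩ := bd_near hxy.1 hxy.2 hf hbf
  obtain ⟨w', hw', hbw', hfw'⟩ := bd_near hxy.1 hxy.2 hf' hbf'
  have dw := deep w hw hbw
  have dw' := deep w' hw' hbw'
  have hxf : s ≤ sd x f := hfc.right.1.2
  have hx'f : s ≤ sd x' f := hfc.right.2
  have hxf' : s ≤ sd x f' := hfc'.right.1.2
  have hx'f' : s ≤ sd x' f' := hfc'.right.2
  have e1 : r ≤ sd w x := by
    have h3 := sd_tri x w f
    rw [sd_symm x w, sd_symm w f] at h3
    omega
  have e2 : r ≤ sd w x' := by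
    have h3 := sd_tri x' w f
    rw [sd_symm x' w, sd_symm w f] at h3
    omega
  have e3 : r ≤ sd w' x := by
    have h3 := sd_tri x w' f'
    rw [sd_symm x w', sd_symm w' f'] at h3
    omega
  have e4 : r ≤ sd w' x' := by
    have h3 := sd_tri x' w' f'
    rw [sd_symm x' w', sd_symm w' f'] at h3
    omega
  have e5 : t + r ≤ sd w w' := by
    have h3 := sd_tri f w f'
    have h4 := sd_tri w w' f'
    rw [sd_symm w' f'] at h4
    omega
  have hGw := gd_cl (e := e) (show r < sd w (src e) by omega) (hG.g3 w hw hbw)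
  have hGw' := gd_cl (e := e) (show r < sd w' (src e) by omega) (hG.g3 w' hw' hbw')
  refine ⟨hsep, f, f', w, w', hf, hbf, hf', hbf', hw, hbw, hfw, hw', hbw', hfw', hff, hfc, hfc', ?_, ?_⟩
  · exact reroute2 htr e5 hGw hGw' h1 (by omega) e1 (by omega) e3
  · exact reroute2 htr e5 hGw hGw' h2 (by omega) e2 (by omega) e4

end rect

end Crest.Agent.R158.Kd458
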