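import Crest.Agent.R158.Qf2_808
import Crest.Agent.R158.Sp0_580
import Crest.Agent.R158.Kd4_458

/-!
# Row 158 (helper808), QM4, part 3: gluing gives four arms; two crossing clusters give a hole configuration

* `Sph l` : the vertices at distance `l` from `0`;  `RF l` : the ring faces of `Sq l`
* `glued_sub_A4` : `Glued e (Sq l) (FSq l) (Sph l) (Sph l) (RF l) (RF l) ⊆ A4 e l` (`src e = (0,0)`, `1 ≤ l`)
* `hole_of_T2` : `z ∈ T2 0 k l`, `k < ρ ≤ l` gives two vertices of the circle of radius `ρ`, each with a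
  neighbour strictly inside, joined to `Sph l` by different clusters of `OutV (Sq l) ρ`
-/

set_option autoImplicit false

noncomputable section

namespace Crest.Agent.R158.Qf808

open Crest.Agent.R161.Geo729 Crest.Agent.R161.Topo374 Crest.Agent.R161.Dual374
open Crest.Agent.R161.Tas682 hiding Sq
open Crest.Agent.R158.Rs689 Crest.Agent.R158.Ru874 Crest.Agent.R158.Sp580
open Crest.Agent.R158.Kd458 (IB Out RingF first_exit)

/-- vertices at distance `l` from the origin -/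
def Sph (l : ℤ) : Set P2 := {v | sd (0, 0) v = l}

/-- ring faces of `Sq l` -/
def RF (l : ℤ) : Set P2 := FSq l \ Rect (-l) (l - 1) (-l) (l - 1)

theorem Sq_eq (R : ℤ) : Sq R = {v : P2 | sd (0, 0) v ≤ R} := by
  ext v
  rw [mem_Sq, Set.mem_ofPred_eq, sd_le]
  simp only
  constructor <;> intro h <;> refine ⟨?_, ?_, ?_, ?_⟩ <;> omega

theorem mem_RF {l : ℤ} {f : P2} : f ∈ RF l ↔ f ∈ FSq l ∧ ¬ f ∈ Rect (-l) (l - 1) (-l) (l - 1) := Iff.rfl

theorem ringF_of_RF {l : ℤ} {f : P2} (h : f ∈ RF l) : RingF (-l) l (-l) l f := by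
  obtain ⟨i, j⟩ := f
  rw [mem_RF, mem_FSq, mem_rect] at h
  unfold RingF
  simp only at h ⊢
  omega

/-- a dual path of the ball from an inner face to the ring crosses, up to its first visit of the ring, edges
of the ball only -/
theorem dual_to_ring {z : Cf} {e : Edge} {l : ℤ} {f q : P2}
    (h : OC (dual (frc e true z)) (FSq l) f q) (hf : f ∈ Rect (-l) (l - 1) (-l) (l - 1)) (hq : q ∈ RF l) :
    ∃ q', RingF (-l) l (-l) l q' ∧
      Relation.ReflTransGen (DStep (fun e' => (z e' = false ∧ e' ≠ e) ∧ IB (-l) l (-l) l e')) f q' := by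
  have hlift : ∀ a b : P2, OStep (dual (frc e true z)) (FSq l) a b →
      (a ∈ Rect (-l) (l - 1) (-l) (l - 1)) →
      DStep (fun e' => (z e' = false ∧ e' ≠ e) ∧ IB (-l) l (-l) l e') a b := by
    rintro a b ⟨h4, ha, hb⟩ haR
    obtain ⟨e', he', h5⟩ := dstep_dual.2 h4
    have h6 : e' ≠ e := by
      rintro rfl
      apply he'
      rw [frc_self]
    have h7 : z e' = false := by
      rw [frc_ne h6] at he'
      simpa using he'
    refine ⟨e', ⟨⟨h7, h6⟩, ?_⟩, h5⟩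
    rw [mem_rect] at haR
    obtain ⟨⟨i, j⟩, c⟩ := e'
    cases c <;> rcases h5 with ⟨rfl, rfl⟩ | ⟨rfl, rfl⟩ <;>
      simp only [IB, src_mk, tgt_h, tgt_v, fA_mk, fB_h, fB_v] at * <;> omega
  obtain ⟨y, y', h1, hy, hy', h2⟩ := first_exit (D := fun v => v ∈ Rect (-l) (l - 1) (-l) (l - 1)) h.2 hf hq.2
  refine ⟨y', ringF_of_RF ⟨h2.2.2, hy'⟩, ?_⟩
  refine Relation.ReflTransGen.tail ?_ (hlift _ _ h2 hy)
  exact Kd458.rtg_congr (fun a b hab => hlift a b hab.1 hab.2.1) h1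

theorem pstep_of_oc {z : Cf} {e : Edge} {l : ℤ} {u v : P2} (h : OC (frc e false z) (Sq l) u v) :
    Relation.ReflTransGen (PStep (fun e' => (z e' = true ∧ e' ≠ e) ∧ IB (-l) l (-l) l e')) u v := by
  refine Kd458.rtg_congr ?_ h.2
  rintro a b ⟨⟨e', h1, h2⟩, ha, hb⟩
  have h6 : e' ≠ e := by
    rintro rfl
    have h1' : frc e' false z e' = true := h1
    rw [frc_self] at h1'
    exact absurd h1' (by simp)
  have h7 : z e' = true := by
    have h1' : frc e false z e' = true := h1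
    rwa [frc_ne h6] at h1'
  refine ⟨e', ⟨⟨h7, h6⟩, ?_⟩, h2⟩
  rw [mem_Sq] at ha hb
  unfold IB
  rcases h2 with ⟨rfl, rfl⟩ | ⟨rfl, rfl⟩
  · exact ⟨ha, hb⟩
  · exact ⟨hb, ha⟩

/-- **Glued arms to the boundary of the ball are four arms.** -/
theorem glued_sub_A4 {e : Edge} (he : src e = (0, 0)) {l : ℤ} (hl : 1 ≤ l) :
    Glued e (Sq l) (FSq l) (Sph l) (Sph l) (RF l) (RF l) ⊆ A4 e l := by
  rintro z ⟨hP, hD⟩
  have hset : {v : P2 | sd (src e) v ≤ l} = Sq l := by rw [he, Sq_eq]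
  have hsph : {v : P2 | sd (src e) v = l} = Sph l := by rw [he]; rfl
  have hP' : Arm (frc e false z) (Sq l) (Sph l) (src e) ∧ Arm (frc e false z) (Sq l) (Sph l) (tgt e) := by
    rcases hP with h | h <;> exact h
  have hD' : Arm (dual (frc e true z)) (FSq l) (RF l) (fA e) ∧
      Arm (dual (frc e true z)) (FSq l) (RF l) (fB e) := by
    rcases hD with h | h <;> exact h
  show Arm _ _ _ _ ∧ Arm _ _ _ _ ∧ ¬ OC _ _ _ _
  rw [hset, hsph]
  refine ⟨hP'.1, hP'.2, fun hc => ?_⟩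
  obtain ⟨⟨q1, hq1, h1⟩, ⟨q2, hq2, h2⟩⟩ := hD'
  have hfA : fA e ∈ Rect (-l) (l - 1) (-l) (l - 1) := by
    obtain ⟨v, c⟩ := e
    rw [src_mk] at he
    subst he
    rw [mem_rect, fA_mk]
    simp only
    omega
  have hfB : fB e ∈ Rect (-l) (l - 1) (-l) (l - 1) := by
    obtain ⟨v, c⟩ := e
    rw [src_mk] at he
    subst he
    rw [mem_rect]
    cases c
    · rw [fB_h]; simp only; omega
    · rw [fB_v]; simp only; omega
  have heI : IB (-l) l (-l) l e := by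
    obtain ⟨v, c⟩ := e
    rw [src_mk] at he
    subst he
    unfold IB
    cases c
    · rw [src_mk, tgt_h]; simp only; omega
    · rw [src_mk, tgt_v]; simp only; omega
  obtain ⟨r1, hr1, d1⟩ := dual_to_ring h1 hfA hq1
  obtain ⟨r2, hr2, d2⟩ := dual_to_ring h2 hfB hq2
  exact sep_of_dual (O := fun e' => z e' = true ∧ e' ≠ e) (C := fun e' => z e' = false ∧ e' ≠ e)
    (by omega) (by omega) (by
      rintro e' _ ⟨h3, _⟩ ⟨h4, _⟩
      rw [h3] at h4
      exact absurd h4 (by simp)) heI (fun h => h.2 rfl) (fun h => h.2 rfl) hr1 hr2 d1 d2 (pstep_of_oc hc)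

/-! ### two crossing clusters -/

/-- last exit with a neighbour -/
theorem last_exit_nb {z : Cf} {S : Set P2} {c : P2} {k : ℤ} {u v : P2} (h : OC z S u v)
    (hu : sd c u ≤ k) (hv : k < sd c v) :
    ∃ y x, sd c y = k ∧ sd c x = k + 1 ∧ Nbr y x ∧ OC z S u y ∧ OC z S y x ∧
      OC z (S ∩ {w | k + 1 ≤ sd c w}) x v := by
  obtain ⟨huS, h⟩ := h
  induction h with
  | refl => omega
  | @tail b w h1 h2 ih =>
    have hbw : OC z S b w := ⟨h2.2.1, .single h2⟩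
    have hnb : Nbr b w := by
      obtain ⟨⟨e, _, h3⟩, _, _⟩ := h2
      rcases h3 with ⟨rfl, rfl⟩ | ⟨rfl, rfl⟩
      · exact Cpl963.nbr_src_tgt e
      · obtain ⟨⟨i, j⟩, c⟩ := e
        cases c <;> simp [src, tgt, Nbr]
    have h4 := sd_nbr c b w hnb
    by_cases hb : k < sd c b
    · obtain ⟨y, x, h5, h6, h7, h8, h9, h10⟩ := ih hb
      exact ⟨y, x, h5, h6, h7, h8, h9, h10.1,
        h10.2.tail ⟨h2.1, h10.right, ⟨h2.2.2, by show k + 1 ≤ sd c w; omega⟩⟩⟩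
    · have h5 : sd c b = k := by omega
      have h6 : sd c w = k + 1 := by omega
      exact ⟨b, w, h5, h6, hnb, ⟨huS, h1⟩, hbw, OC.refl ⟨h2.2.2, by show k + 1 ≤ sd c w; omega⟩⟩

theorem outV_eq (l ρ : ℤ) : OutV (Sq l) ρ = Cpl963.An (0, 0) ρ l := by
  ext v
  rw [OutV, Sq_eq]
  exact ⟨fun h => ⟨h.2, h.1⟩, fun h => ⟨h.2, h.1⟩⟩

/-- **Two crossing clusters give a hole configuration.** -/
theorem hole_of_T2 {z : Cf} {k l ρ : ℤ} (hk : k < ρ) (hl : ρ ≤ l) (hz : z ∈ Cpl963.T2 (0, 0) k l) :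
    ∃ x x' y y' p p' : P2, sd (0, 0) x = ρ ∧ sd (0, 0) x' = ρ ∧ sd (0, 0) y = ρ - 1 ∧
      sd (0, 0) y' = ρ - 1 ∧ Nbr y x ∧ Nbr y' x' ∧ sd (0, 0) p = l ∧ sd (0, 0) p' = l ∧
      OC z (OutV (Sq l) ρ) x p ∧ OC z (OutV (Sq l) ρ) x' p' ∧ ¬ OC z (OutV (Sq l) ρ) p p' ∧
      ¬ OC z (OutV (Sq l) ρ) x x' := by
  obtain ⟨u, v, u', v', hu, hv, hu', hv', h, h', hn⟩ :=
    Cpl963.T2_shrink (r' := ρ - 1) (by omega) (by omega) le_rfl hz
  obtain ⟨y, x, h1, h2, h3, h4, h5, h6⟩ := last_exit_nb (c := (0, 0)) h (k := ρ - 1) (by omega) (by omega)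
  obtain ⟨y', x', h1', h2', h3', h4', h5', h6'⟩ := last_exit_nb (c := (0, 0)) h' (k := ρ - 1) (by omega) (by omega)
  have hs : Cpl963.An (0, 0) (ρ - 1) l ∩ {w | ρ - 1 + 1 ≤ sd (0, 0) w} ⊆ OutV (Sq l) ρ := by
    rw [outV_eq]
    rintro w ⟨⟨_, h8⟩, h9⟩
    exact ⟨by have : ρ - 1 + 1 ≤ sd (0, 0) w := h9; omega, h8⟩
  have hs' : OutV (Sq l) ρ ⊆ Cpl963.An (0, 0) (ρ - 1) l := by
    rw [outV_eq]
    rintro w ⟨h8, h9⟩
    exact ⟨by omega, h9⟩
  have hxx : ¬ OC z (OutV (Sq l) ρ) x x' := by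
    intro hc
    exact hn (((h4.trans h5).trans (hc.monoS hs')).trans (h4'.trans h5').symm)
  have hxp := h6.monoS hs
  have hxp' := h6'.monoS hs
  exact ⟨x, x', y, y', v, v', by omega, by omega, h1, h1', h3, h3', hv, hv', hxp, hxp',
    fun hc => hxx ((hxp.trans hc).trans hxp'.symm), hxx⟩

end Crest.Agent.R158.Qf808
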