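import Crest.Agent.R158.Hp8_814
import Crest.Agent.R158.Sg1_158

/-!
# Row 158 (helper808), SEP: good scales

* `GoodO c0 ρ t r t1 s c s1 b`, `GoodI ...` : the neighbourhood of the circle of radius `ρ` is good, outside /
  inside (primal at the scales `(s1,b)`, `(s,c)`, `(t,r)`, dual at `(t1,b)`)
* `Par D1 D2 D3 u` : the radii `u, D3 u, 2 D3 u, ...` and `GO`, `GI` the good events for these radii
* `good_params` : for every `η > 0` the numbers `D1 D2 D3` can be chosen with `P(GOᶜ), P(GIᶜ) ≤ η`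
* `locD_GO`, `locD_GI`, `inter_pow` : independence of the scales
-/

set_option autoImplicit false

noncomputable section

namespace Crest.Agent.R158.Qf808

open MeasureTheory ProbabilityTheory unitInterval
open Crest.Agent.R161.Geo729 Crest.Agent.R161.Topo374 Crest.Agent.R161.Dual374
open Crest.Agent.R161.Tas682 hiding Sq
open Crest.Agent.R158.Rs689 Crest.Agent.R158.Ru874 Crest.Agent.R158.Sp580
open Crest.Agent.R158.Hp814 (CL bL CL_pos bL_pos FIn FOut FInB FRing bdS SqI)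
open Crest.Agent.R158.Kd458 (Gd)
open Crest.Agent.R158.Sg158 (LocD)

/-! ### the events -/

/-- good neighbourhood of the circle of radius `ρ`, outside -/
def GoodO (c0 : P2) (ρ t r t1 s c s1 b : ℤ) : Set Cf :=
  {z | (∀ w, sd c0 w = ρ → Gd z {v | ρ ≤ sd c0 v} w s1 b ∧ Gd z {v | ρ ≤ sd c0 v} w s c ∧
      Gd z {v | ρ ≤ sd c0 v} w t r) ∧
    ∀ f ∈ FRing c0 ρ, Gd (dual z) (FOut c0 ρ) f t1 b}

/-- good neighbourhood of the circle of radius `ρ`, inside -/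
def GoodI (c0 : P2) (ρ t r t1 s c s1 b : ℤ) : Set Cf :=
  {z | (∀ w, sd c0 w = ρ → Gd z {v | sd c0 v ≤ ρ} w s1 b ∧ Gd z {v | sd c0 v ≤ ρ} w s c ∧
      Gd z {v | sd c0 v ≤ ρ} w t r) ∧
    ∀ f ∈ FInB c0 ρ, Gd (dual z) (FIn c0 ρ) f t1 b}

/-- `Gd` sees only the part of `S` in the annulus -/
theorem gd_cut {z : Cf} {S S' : Set P2} {x : P2} {a b : ℤ}
    (h : S ∩ Cpl963.An x a b = S' ∩ Cpl963.An x a b) (hG : Gd z S x a b) : Gd z S' x a b := by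
  unfold Gd at hG ⊢
  rwa [← h]

/-! ### locality -/

theorem gd_dual_congr {z z' : Cf} {S : Set P2} {x : P2} {a b : ℤ}
    (h : ∀ e, src e ∈ S ∩ Cpl963.An x a b → z e = z' e) (hG : Gd (dual z) S x a b) :
    Gd (dual z') S x a b := by
  have hz : ∀ e, src e ∈ S ∩ Cpl963.An x a b → tgt e ∈ S ∩ Cpl963.An x a b →
      dual z e = dual z' e := by
    intro e _ h2
    have h3 : tgt (dE (dE.symm e)) = fA (dE.symm e) := tgt_dE _
    rw [Equiv.apply_symm_apply] at h3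
    have h4 : fA (dE.symm e) = src (dE.symm e) := rfl
    show (!z (dE.symm e)) = !z' (dE.symm e)
    rw [h (dE.symm e) (by rw [← h4, ← h3]; exact h2)]
  have key : ∀ u v, OC (dual z) (S ∩ Cpl963.An x a b) u v ↔ OC (dual z') (S ∩ Cpl963.An x a b) u v :=
    fun u v => oc_iff hz
  rintro ⟨u, hu, v, hv, u', hu', v', hv', h1, h2, h3⟩
  exact hG ⟨u, hu, v, hv, u', hu', v', hv', (key _ _).2 h1, (key _ _).2 h2, fun h => h3 ((key _ _).1 h)⟩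

theorem gd_congr' {z z' : Cf} {S : Set P2} {x : P2} {a b : ℤ}
    (h : ∀ e, src e ∈ S ∩ Cpl963.An x a b → z e = z' e) (hG : Gd z S x a b) : Gd z' S x a b := by
  have key : ∀ u v, OC z (S ∩ Cpl963.An x a b) u v ↔ OC z' (S ∩ Cpl963.An x a b) u v :=
    fun u v => oc_iff fun e h1 _ => h e h1
  rintro ⟨u, hu, v, hv, u', hu', v', hv', h1, h2, h3⟩
  exact hG ⟨u, hu, v, hv, u', hu', v', hv', (key _ _).2 h1, (key _ _).2 h2, fun h => h3 ((key _ _).1 h)⟩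

/-- edges with source in an annulus -/
def eR (c0 : P2) (A B : ℤ) : Finset Edge := by
  classical
  exact ((Finset.Icc (c0.1 - B) (c0.1 + B) ×ˢ Finset.Icc (c0.2 - B) (c0.2 + B)) ×ˢ
    (Finset.univ : Finset Bool)).filter fun e => A ≤ sd c0 (src e)

theorem mem_eR {c0 : P2} {A B : ℤ} {e : Edge} :
    e ∈ eR c0 A B ↔ A ≤ sd c0 (src e) ∧ sd c0 (src e) ≤ B := by
  classical
  unfold eR
  rw [Finset.mem_filter]
  obtain ⟨⟨i, j⟩, k⟩ := e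
  have h1 : sd c0 (i, j) ≤ B ↔ _ := sd_le
  simp only [src, Finset.mem_product, Finset.mem_Icc, Finset.mem_univ, and_true, h1]
  omega

theorem sd_FRing {c0 : P2} {ρ : ℤ} {f : P2} (hf : f ∈ FRing c0 ρ) : sd c0 f ≤ ρ + 1 := by
  obtain ⟨h1, _⟩ := hf
  unfold SqI at h1
  rw [mem_rect] at h1
  rw [sd_le]
  omega

theorem sd_FOut {c0 : P2} {ρ : ℤ} {f : P2} (hf : f ∈ FOut c0 ρ) : ρ ≤ sd c0 f := by
  by_contra h
  apply hf
  have h2 : sd c0 f ≤ ρ - 1 := by omega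
  rw [sd_le] at h2
  unfold FIn
  rw [mem_rect]
  omega

theorem sd_FIn {c0 : P2} {ρ : ℤ} {f : P2} (hf : f ∈ FIn c0 ρ) : sd c0 f ≤ ρ := by
  unfold FIn at hf
  rw [mem_rect] at hf
  rw [sd_le]
  omega

theorem sd_FInB {c0 : P2} {ρ : ℤ} {f : P2} (hf : f ∈ FInB c0 ρ) : ρ - 1 ≤ sd c0 f := by
  obtain ⟨h1, h2⟩ := hf
  unfold SqI at h1
  rw [mem_rect] at h1
  by_contra h
  have h3 : sd c0 f ≤ ρ - 2 := by omega
  rw [sd_le] at h3
  omega

theorem dep_GoodO {c0 : P2} {ρ t r t1 s c s1 b : ℤ} (h1 : c ≤ b) (h2 : r ≤ b) :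
    Dep (eR c0 ρ (ρ + b + 1)) (GoodO c0 ρ t r t1 s c s1 b) := by
  have key : ∀ z z' : Cf, (∀ e ∈ eR c0 ρ (ρ + b + 1), z e = z' e) →
      z ∈ GoodO c0 ρ t r t1 s c s1 b → z' ∈ GoodO c0 ρ t r t1 s c s1 b := by
    rintro z z' h ⟨hz, hz'⟩
    have hp : ∀ w, sd c0 w = ρ → ∀ a b' : ℤ, b' ≤ b →
        ∀ e, src e ∈ {v | ρ ≤ sd c0 v} ∩ Cpl963.An w a b' → z e = z' e := by
      rintro w hw a b' hb e ⟨h3, _, h4⟩
      have h5 := Cpl963.sd_tri c0 w (src e)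
      have h6 : ρ ≤ sd c0 (src e) := h3
      exact h e (mem_eR.2 ⟨h6, by omega⟩)
    refine ⟨fun w hw => ⟨gd_congr' (hp w hw s1 b le_rfl) (hz w hw).1,
      gd_congr' (hp w hw s c h1) (hz w hw).2.1, gd_congr' (hp w hw t r h2) (hz w hw).2.2⟩, ?_⟩
    intro f hf
    refine gd_dual_congr ?_ (hz' f hf)
    rintro e ⟨h3, _, h4⟩
    have h5 := Cpl963.sd_tri c0 f (src e)
    have h6 := sd_FOut h3
    have h7 := sd_FRing hf
    exact h e (mem_eR.2 ⟨h6, by omega⟩)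
  exact fun z z' h => ⟨key z z' h, key z' z fun e he => (h e he).symm⟩

theorem dep_GoodI {c0 : P2} {ρ t r t1 s c s1 b : ℤ} (h1 : c ≤ b) (h2 : r ≤ b) :
    Dep (eR c0 (ρ - b - 1) ρ) (GoodI c0 ρ t r t1 s c s1 b) := by
  have key : ∀ z z' : Cf, (∀ e ∈ eR c0 (ρ - b - 1) ρ, z e = z' e) →
      z ∈ GoodI c0 ρ t r t1 s c s1 b → z' ∈ GoodI c0 ρ t r t1 s c s1 b := by
    rintro z z' h ⟨hz, hz'⟩
    have hp : ∀ w, sd c0 w = ρ → ∀ a b' : ℤ, b' ≤ b →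
        ∀ e, src e ∈ {v | sd c0 v ≤ ρ} ∩ Cpl963.An w a b' → z e = z' e := by
      rintro w hw a b' hb e ⟨h3, _, h4⟩
      have h5 := Cpl963.sd_tri c0 (src e) w
      rw [Cpl963.sd_comm (src e) w] at h5
      have h6 : sd c0 (src e) ≤ ρ := h3
      exact h e (mem_eR.2 ⟨by omega, h6⟩)
    refine ⟨fun w hw => ⟨gd_congr' (hp w hw s1 b le_rfl) (hz w hw).1,
      gd_congr' (hp w hw s c h1) (hz w hw).2.1, gd_congr' (hp w hw t r h2) (hz w hw).2.2⟩, ?_⟩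
    intro f hf
    refine gd_dual_congr ?_ (hz' f hf)
    rintro e ⟨h3, _, h4⟩
    have h5 := Cpl963.sd_tri c0 (src e) f
    rw [Cpl963.sd_comm (src e) f] at h5
    have h6 := sd_FIn h3
    have h7 := sd_FInB hf
    exact h e (mem_eR.2 ⟨by omega, h6⟩)
  exact fun z z' h => ⟨key z z' h, key z' z fun e he => (h e he).symm⟩

/-! ### probability -/

theorem four_union {p : I} {A B1 B2 B3 B4 : Set Cf} {x1 x2 x3 x4 : ℝ} (h : A ⊆ B1 ∪ B2 ∪ B3 ∪ B4)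
    (h1 : (nu p).real B1 ≤ x1) (h2 : (nu p).real B2 ≤ x2) (h3 : (nu p).real B3 ≤ x3)
    (h4 : (nu p).real B4 ≤ x4) : (nu p).real A ≤ x1 + x2 + x3 + x4 :=
  (measureReal_mono h).trans
    ((measureReal_union_le _ _).trans (add_le_add ((measureReal_union_le _ _).trans
      (add_le_add ((measureReal_union_le _ _).trans (add_le_add h1 h2)) h3)) h4))

section prob

variable {c' : ℝ} {p : I} {M : ℕ} (hR : RSp c' p M) (c0 : P2) {ρ t r t1 s c s1 b : ℤ}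
  (ht : 1 ≤ t) (htr : t ≤ r) (hr : r ≤ ρ) (hs : 1 ≤ s) (hsc : s ≤ c) (hc : c ≤ ρ) (hs1 : 1 ≤ s1)
  (hs1b : s1 ≤ b) (hb : b ≤ ρ) (ht1 : 1 ≤ t1) (ht1b : t1 ≤ b) (hM : 2 * ρ + 1 ≤ M)

include hR ht htr hr hs hsc hc hs1 hs1b hb ht1 ht1b hM

theorem prob_GoodO : (nu p).real (GoodO c0 ρ t r t1 s c s1 b)ᶜ ≤
    CL c' * (((ρ : ℝ) / b) * ((s1 : ℝ) / b) ^ bL c') + CL c' * (((ρ : ℝ) / c) * ((s : ℝ) / c) ^ bL c') +
      CL c' * (((ρ : ℝ) / r) * ((t : ℝ) / r) ^ bL c') +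
      CL c' * (((ρ : ℝ) / b) * ((t1 : ℝ) / b) ^ bL c') := by
  have e1 := Hp814.ball_out hR c0 (R := ρ) hs1 hs1b hb (by omega) (by omega)
  have e2 := Hp814.ball_out hR c0 (R := ρ) hs hsc hc (by omega) (by omega)
  have e3 := Hp814.ball_out hR c0 (R := ρ) ht htr hr (by omega) (by omega)
  have e4 := Hp814.ball_out_dual hR c0 (R := ρ) ht1 ht1b hb (by omega) (by omega)
  refine four_union ?_ e1 e2 e3 e4
  intro z hz
  by_contra hn
  simp only [Set.mem_union, Set.mem_ofPred_eq, not_or, not_exists, not_and, not_not] at hn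
  exact hz ⟨fun w hw => ⟨hn.1.1.1 w hw, hn.1.1.2 w hw, hn.1.2 w hw⟩, fun f hf => hn.2 f hf⟩

theorem prob_GoodI : (nu p).real (GoodI c0 ρ t r t1 s c s1 b)ᶜ ≤
    CL c' * (((ρ : ℝ) / b) * ((s1 : ℝ) / b) ^ bL c') + CL c' * (((ρ : ℝ) / c) * ((s : ℝ) / c) ^ bL c') +
      CL c' * (((ρ : ℝ) / r) * ((t : ℝ) / r) ^ bL c') +
      CL c' * (((ρ : ℝ) / b) * ((t1 : ℝ) / b) ^ bL c') := by
  have e1 := Hp814.ball_in hR c0 (R := ρ) hs1 hs1b hb (by omega) (by omega)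
  have e2 := Hp814.ball_in hR c0 (R := ρ) hs hsc hc (by omega) (by omega)
  have e3 := Hp814.ball_in hR c0 (R := ρ) ht htr hr (by omega) (by omega)
  have e4 := Hp814.ball_in_dual hR c0 (R := ρ) ht1 ht1b hb (by omega) (by omega)
  refine four_union ?_ e1 e2 e3 e4
  intro z hz
  by_contra hn
  simp only [Set.mem_union, Set.mem_ofPred_eq, not_or, not_exists, not_and, not_not] at hn
  exact hz ⟨fun w hw => ⟨hn.1.1.1 w hw, hn.1.1.2 w hw, hn.1.2 w hw⟩, fun f hf => hn.2 f hf⟩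

end prob

/-! ### independence of the scales -/

theorem inter_pow (p : I) {D : ℕ → Set P2} {A : ℕ → Set Cf} {η : ℝ} (J : ℕ)
    (hA : ∀ j < J, LocD (D j) (A j)) (hD : ∀ i < J, ∀ j < J, i ≠ j → Disjoint (D i) (D j))
    (hη : ∀ j < J, (nu p).real (A j) ≤ η) :
    (nu p).real (⋂ j ∈ Finset.range J, A j) ≤ η ^ J := by
  have key : ∀ K ≤ J, LocD (⋃ j ∈ Finset.range K, D j) (⋂ j ∈ Finset.range K, A j) ∧
      (nu p).real (⋂ j ∈ Finset.range K, A j) ≤ η ^ K := by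
    intro K
    induction K with
    | zero =>
      intro _
      refine ⟨⟨∅, ?_, by simp⟩, ?_⟩
      · intro z z' _
        simp
      · simp
    | succ K ih =>
      intro hK
      obtain ⟨h1, h2⟩ := ih (by omega)
      have e1 : (⋂ j ∈ Finset.range (K + 1), A j) = (⋂ j ∈ Finset.range K, A j) ∩ A K := by
        rw [Finset.range_add_one, Finset.set_biInter_insert, Set.inter_comm]
      have e2 : (⋃ j ∈ Finset.range (K + 1), D j) = (⋃ j ∈ Finset.range K, D j) ∪ D K := by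
        rw [Finset.range_add_one, Finset.set_biUnion_insert, Set.union_comm]
      rw [e1, e2]
      refine ⟨h1.inter (hA K (by omega)), ?_⟩
      have hdis : Disjoint (⋃ j ∈ Finset.range K, D j) (D K) := by
        rw [Set.disjoint_iUnion₂_left]
        intro j hj
        have hj' := Finset.mem_range.1 hj
        exact hD j (by omega) K (by omega) (by omega)
      rw [LocD.indep p hdis h1 (hA K (by omega)), pow_succ]
      have h3 : 0 ≤ η := measureReal_nonneg.trans (hη K (by omega))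
      exact mul_le_mul h2 (hη K (by omega)) measureReal_nonneg (pow_nonneg h3 K)
  exact (key J le_rfl).2

/-! ### the choice of the radii -/

/-- good outside, radii `t = u`, `r = D3 u`, `s = t1 = 2 r`, `c = D2 s`, `s1 = 2 c`, `b = D1 s1`, `ρ = 8 b` -/
def GO (c0 : P2) (D1 D2 D3 : ℕ) (u : ℤ) : Set Cf :=
  GoodO c0 (32 * D1 * D2 * D3 * u) u (D3 * u) (2 * D3 * u) (2 * D3 * u) (2 * D2 * D3 * u)
    (4 * D2 * D3 * u) (4 * D1 * D2 * D3 * u)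

/-- good inside -/
def GI (c0 : P2) (D1 D2 D3 : ℕ) (u : ℤ) : Set Cf :=
  GoodI c0 (32 * D1 * D2 * D3 * u) u (D3 * u) (2 * D3 * u) (2 * D3 * u) (2 * D2 * D3 * u)
    (4 * D2 * D3 * u) (4 * D1 * D2 * D3 * u)

theorem exists_D {C β ε : ℝ} (hβ : 0 < β) (hε : 0 < ε) :
    ∃ D : ℕ, 2 ≤ D ∧ C * (1 / (D : ℝ)) ^ β ≤ ε := by
  have h1 : Filter.Tendsto (fun D : ℕ => C * (1 / (D : ℝ)) ^ β) Filter.atTop (nhds (C * 0)) := by
    refine Filter.Tendsto.const_mul _ ?_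
    have h2 : Filter.Tendsto (fun D : ℕ => ((D : ℝ) ^ β)⁻¹) Filter.atTop (nhds 0) :=
      ((tendsto_rpow_atTop hβ).comp tendsto_natCast_atTop_atTop).inv_tendsto_atTop
    refine h2.congr fun D => ?_
    rw [one_div, Real.inv_rpow (Nat.cast_nonneg D)]
  rw [mul_zero] at h1
  obtain ⟨D, h3, h4⟩ := ((h1.eventually (gt_mem_nhds hε)).and (Filter.eventually_ge_atTop 2)).exists
  exact ⟨D, h4, h3.le⟩

/-- **The radii can be chosen so that bad scales are rare.** -/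
theorem good_params {c' : ℝ} (hc0 : 0 < c') (hc1 : c' ≤ 1) {η : ℝ} (hη : 0 < η) :
    ∃ D1 D2 D3 : ℕ, 2 ≤ D1 ∧ 2 ≤ D2 ∧ 2 ≤ D3 ∧ ∀ (p : I) (M : ℕ) (u : ℤ) (c0 : P2), RSp c' p M → 1 ≤ u →
      2 * (32 * D1 * D2 * D3 * u) + 1 ≤ M →
      (nu p).real (GO c0 D1 D2 D3 u)ᶜ ≤ η ∧ (nu p).real (GI c0 D1 D2 D3 u)ᶜ ≤ η := by
  have hC := CL_pos hc0
  have hβ := bL_pos hc0 hc1
  obtain ⟨D1, hD1, h1⟩ := exists_D (C := CL c' * 8) hβ (show 0 < η / 4 by positivity)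
  obtain ⟨D2, hD2, h2⟩ := exists_D (C := CL c' * (16 * D1)) hβ (show 0 < η / 4 by positivity)
  obtain ⟨D3, hD3, h3⟩ := exists_D (C := CL c' * (32 * D1 * D2)) hβ (show 0 < η / 4 by positivity)
  refine ⟨D1, D2, D3, hD1, hD2, hD3, ?_⟩
  intro p M u c0 hR hu hM
  have hD1' : (1 : ℤ) ≤ D1 := by exact_mod_cast (by omega : 1 ≤ D1)
  have hD2' : (1 : ℤ) ≤ D2 := by exact_mod_cast (by omega : 1 ≤ D2)
  have hD3' : (1 : ℤ) ≤ D3 := by exact_mod_cast (by omega : 1 ≤ D3)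
  have i1 : u ≤ D3 * u := by nlinarith
  have i2 : (D3 : ℤ) * u ≤ 2 * D3 * u := by nlinarith
  have i3 : 2 * (D3 : ℤ) * u ≤ 2 * D2 * D3 * u := by
    have : 0 ≤ ((D2 : ℤ) - 1) * (2 * D3 * u) := mul_nonneg (by omega) (by nlinarith)
    nlinarith
  have i4 : 2 * (D2 : ℤ) * D3 * u ≤ 4 * D2 * D3 * u := by
    have : 0 ≤ (D2 : ℤ) * D3 * u := by positivity
    nlinarith
  have i5 : 4 * (D2 : ℤ) * D3 * u ≤ 4 * D1 * D2 * D3 * u := by
    have : 0 ≤ ((D1 : ℤ) - 1) * (4 * D2 * D3 * u) := mul_nonneg (by omega) (by positivity)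
    nlinarith
  have i6 : 4 * (D1 : ℤ) * D2 * D3 * u ≤ 32 * D1 * D2 * D3 * u := by
    have : 0 ≤ (D1 : ℤ) * D2 * D3 * u := by positivity
    nlinarith
  have r1 : (0 : ℝ) < D1 := by exact_mod_cast (by omega : 0 < D1)
  have r2 : (0 : ℝ) < D2 := by exact_mod_cast (by omega : 0 < D2)
  have r3 : (0 : ℝ) < D3 := by exact_mod_cast (by omega : 0 < D3)
  have r4 : (0 : ℝ) < u := by exact_mod_cast (by omega : 0 < u)
  have q1 : CL c' * ((((32 * D1 * D2 * D3 * u : ℤ) : ℝ) / ((4 * D1 * D2 * D3 * u : ℤ) : ℝ)) *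
      (((4 * D2 * D3 * u : ℤ) : ℝ) / ((4 * D1 * D2 * D3 * u : ℤ) : ℝ)) ^ bL c') ≤ η / 4 := by
    have e1 : (((32 * D1 * D2 * D3 * u : ℤ) : ℝ) / ((4 * D1 * D2 * D3 * u : ℤ) : ℝ)) = 8 := by
      push_cast; field_simp; norm_num
    have e2 : (((4 * D2 * D3 * u : ℤ) : ℝ) / ((4 * D1 * D2 * D3 * u : ℤ) : ℝ)) = 1 / D1 := by
      push_cast; field_simp
    rw [e1, e2, ← mul_assoc]
    exact h1
  have q2 : CL c' * ((((32 * D1 * D2 * D3 * u : ℤ) : ℝ) / ((2 * D2 * D3 * u : ℤ) : ℝ)) *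
      (((2 * D3 * u : ℤ) : ℝ) / ((2 * D2 * D3 * u : ℤ) : ℝ)) ^ bL c') ≤ η / 4 := by
    have e1 : (((32 * D1 * D2 * D3 * u : ℤ) : ℝ) / ((2 * D2 * D3 * u : ℤ) : ℝ)) = 16 * D1 := by
      push_cast; field_simp; norm_num
    have e2 : (((2 * D3 * u : ℤ) : ℝ) / ((2 * D2 * D3 * u : ℤ) : ℝ)) = 1 / D2 := by
      push_cast; field_simp
    rw [e1, e2, ← mul_assoc]
    exact h2
  have q3 : CL c' * ((((32 * D1 * D2 * D3 * u : ℤ) : ℝ) / ((D3 * u : ℤ) : ℝ)) *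
      (((u : ℤ) : ℝ) / ((D3 * u : ℤ) : ℝ)) ^ bL c') ≤ η / 4 := by
    have e1 : (((32 * D1 * D2 * D3 * u : ℤ) : ℝ) / ((D3 * u : ℤ) : ℝ)) = 32 * D1 * D2 := by
      push_cast; field_simp
    have e2 : (((u : ℤ) : ℝ) / ((D3 * u : ℤ) : ℝ)) = 1 / D3 := by
      push_cast; field_simp
    rw [e1, e2, ← mul_assoc]
    exact h3
  have q4 : CL c' * ((((32 * D1 * D2 * D3 * u : ℤ) : ℝ) / ((4 * D1 * D2 * D3 * u : ℤ) : ℝ)) *
      (((2 * D3 * u : ℤ) : ℝ) / ((4 * D1 * D2 * D3 * u : ℤ) : ℝ)) ^ bL c') ≤ η / 4 := by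
    refine le_trans ?_ q1
    have h5 : (((2 * D3 * u : ℤ) : ℝ) / ((4 * D1 * D2 * D3 * u : ℤ) : ℝ)) ≤
        (((4 * D2 * D3 * u : ℤ) : ℝ) / ((4 * D1 * D2 * D3 * u : ℤ) : ℝ)) := by
      refine div_le_div_of_nonneg_right ?_ (by push_cast; positivity)
      exact_mod_cast i3.trans i4
    have h6 : (0 : ℝ) ≤ (((2 * D3 * u : ℤ) : ℝ) / ((4 * D1 * D2 * D3 * u : ℤ) : ℝ)) := by
      push_cast; positivity
    refine mul_le_mul_of_nonneg_left (mul_le_mul_of_nonneg_left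
      (Real.rpow_le_rpow h6 h5 hβ.le) (by push_cast; positivity)) hC.le
  constructor
  · refine (prob_GoodO hR c0 hu i1 (by omega) (by omega) i3 (by omega) (by omega) i5 i6 (by omega)
      (by omega) hM).trans ?_
    linarith
  · refine (prob_GoodI hR c0 hu i1 (by omega) (by omega) i3 (by omega) (by omega) i5 i6 (by omega)
      (by omega) hM).trans ?_
    linarith

/-- the radii are ordered -/
theorem radii {D1 D2 D3 : ℕ} (h1 : 2 ≤ D1) (h2 : 2 ≤ D2) (h3 : 2 ≤ D3) {u : ℤ} (hu : 1 ≤ u) :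
    2 * u ≤ D3 * u ∧ u + D3 * u ≤ 2 * D3 * u ∧ 2 * (2 * D3 * u) ≤ 2 * D2 * D3 * u ∧
      2 * (4 * D2 * D3 * u) ≤ 4 * D1 * D2 * D3 * u ∧
      2 * (D3 : ℤ) * u + 2 * D2 * D3 * u ≤ 4 * D2 * D3 * u := by
  have h1' : (2 : ℤ) ≤ D1 := by exact_mod_cast h1
  have h2' : (2 : ℤ) ≤ D2 := by exact_mod_cast h2
  have h3' : (2 : ℤ) ≤ D3 := by exact_mod_cast h3
  have e1 : 0 ≤ ((D2 : ℤ) - 2) * (D3 * u) := mul_nonneg (by omega) (by positivity)
  have e2 : 0 ≤ ((D1 : ℤ) - 2) * (D2 * D3 * u) := mul_nonneg (by omega) (by positivity)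
  refine ⟨by nlinarith, by nlinarith, by nlinarith, by nlinarith, by nlinarith⟩

/-- support of the good event, outside -/
theorem dep_GO (c0 : P2) {D1 D2 D3 : ℕ} (h1 : 2 ≤ D1) (h2 : 2 ≤ D2) (h3 : 2 ≤ D3) {u : ℤ} (hu : 1 ≤ u) :
    Dep (eR c0 (32 * D1 * D2 * D3 * u) (2 * (32 * D1 * D2 * D3 * u))) (GO c0 D1 D2 D3 u) := by
  obtain ⟨r1, r2, r3, r4, r5⟩ := radii h1 h2 h3 hu
  refine (dep_GoodO (by omega) (by omega)).mono fun e he => ?_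
  rw [mem_eR] at he ⊢
  refine ⟨he.1, he.2.trans ?_⟩
  have e0 : 32 * (D1 : ℤ) * D2 * D3 * u = 8 * (4 * D1 * D2 * D3 * u) := by ring
  omega

theorem locD_GO (c0 : P2) {D1 D2 D3 : ℕ} (h1 : 2 ≤ D1) (h2 : 2 ≤ D2) (h3 : 2 ≤ D3) {u : ℤ} (hu : 1 ≤ u) :
    LocD {v | 32 * D1 * D2 * D3 * u ≤ sd c0 v ∧ sd c0 v ≤ 2 * (32 * D1 * D2 * D3 * u)}
      (GO c0 D1 D2 D3 u) := by
  obtain ⟨r1, r2, r3, r4, r5⟩ := radii h1 h2 h3 hu
  refine ⟨_, dep_GoodO (by omega) (by omega), fun e he => ?_⟩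
  rw [mem_eR] at he
  refine ⟨he.1, he.2.trans ?_⟩
  have e0 : 32 * (D1 : ℤ) * D2 * D3 * u = 8 * (4 * D1 * D2 * D3 * u) := by ring
  omega

theorem locD_GI (c0 : P2) {D1 D2 D3 : ℕ} (h1 : 2 ≤ D1) (h2 : 2 ≤ D2) (h3 : 2 ≤ D3) {u : ℤ} (hu : 1 ≤ u) :
    LocD {v | 16 * D1 * D2 * D3 * u ≤ sd c0 v ∧ sd c0 v ≤ 32 * D1 * D2 * D3 * u}
      (GI c0 D1 D2 D3 u) := by
  obtain ⟨r1, r2, r3, r4, r5⟩ := radii h1 h2 h3 hu
  refine ⟨_, dep_GoodI (by omega) (by omega), fun e he => ?_⟩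
  rw [mem_eR] at he
  refine ⟨le_trans ?_ he.1, he.2⟩
  have e0 : 32 * (D1 : ℤ) * D2 * D3 * u = 8 * (4 * D1 * D2 * D3 * u) := by ring
  have e1 : 16 * (D1 : ℤ) * D2 * D3 * u = 4 * (4 * D1 * D2 * D3 * u) := by ring
  omega

theorem LocD.compl' {D : Set P2} {A : Set Cf} (hA : LocD D A) : LocD D Aᶜ := by
  obtain ⟨T, h1, h2⟩ := hA
  exact ⟨T, h1.compl, h2⟩

end Crest.Agent.R158.Qf808
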