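import Crest.Agent.R158.Sp4c_874

/-!
# Row 158, Block SEP, S4 (helper874), file d: inward tokens (hole version)

* `tok_in`  : the standard cells `rt i (M, 0)` of an inner ring `M` are joined to the hubs
  `ringC (cl (N-1) (w i)) 3` of four cells of the ring `N - 1` (gaps `≥ 420`) by pairwise far tubes
  inside the ring `N - 1` (up to the landing blocks)
* `tok_in'` : the same for the clockwise order
-/

set_option autoImplicit false

namespace Crest.Agent.R158.Sp874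

open Crest.Agent.R158.Rs689 Crest.Agent.R161.Geo729

/-- truncation to `[-a, a]` -/
def clp (a s : ℤ) : ℤ := max (-a) (min a s)

theorem clp_mem {a : ℤ} (ha : 0 ≤ a) (s : ℤ) : -a ≤ clp a s ∧ clp a s ≤ a := by
  unfold clp; omega

/-- far cells close to the ring of the pattern -/
theorem far_gen {N q q' s s' t t' J J' w w' : ℤ} (hN : 20 ≤ N) (hw : w = q * (2 * N + 1) + s)
    (hw' : w' = q' * (2 * N + 1) + s') (hs1 : -N ≤ s) (hs2 : s ≤ N) (hs1' : -N ≤ s')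
    (hs2' : s' ≤ N) (h1 : w + 420 ≤ w') (h2 : w' + 420 ≤ w + 4 * (2 * N + 1))
    (ht : s - 184 ≤ t ∧ t ≤ s + 184) (ht' : s' - 184 ≤ t' ∧ t' ≤ s' + 184)
    (hJ : N - 12 ≤ J ∧ J ≤ N) (hJ' : N - 12 ≤ J' ∧ J' ≤ N) :
    Far (rt q (J, t)) (rt q' (J', t')) := by
  obtain ⟨hd0, hd4, hd⟩ := side_diff (by omega) hs1 hs2 hs1' hs2' hw hw' (by omega) (by omega)
  rw [show q' = q + (q' - q) by ring, rt_add, far_rt]
  generalize q' - q = d at *
  interval_cases d
  · rw [rt_zero]; unfold Far; simp only; omega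
  · rw [rt_one]; unfold Far; simp only; omega
  · rw [rt_two]; unfold Far; simp only; omega
  · rw [rt_three]; unfold Far; simp only; omega
  · rw [rt_four]; unfold Far; simp only; omega

/-- truncated positions are separated -/
theorem clamp_sep {a N q q' s s' w w' : ℤ} (ha : 20 ≤ a) (hN : N = a + 184)
    (hw : w = q * (2 * N + 1) + s) (hw' : w' = q' * (2 * N + 1) + s') (hs1 : -N ≤ s)
    (hs2 : s ≤ N) (hs1' : -N ≤ s') (hs2' : s' ≤ N) (h1 : w + 420 ≤ w')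
    (h2 : w' + 420 ≤ w + 4 * (2 * N + 1)) :
    q * (2 * a + 1) + clp a s + 18 ≤ q' * (2 * a + 1) + clp a s' ∧
      q' * (2 * a + 1) + clp a s' + 18 ≤ q * (2 * a + 1) + clp a s + 4 * (2 * a + 1) := by
  obtain ⟨hd0, hd4, hd⟩ := side_diff (by omega) hs1 hs2 hs1' hs2' hw hw' (by omega) (by omega)
  have e : q' * (2 * a + 1) = q * (2 * a + 1) + (q' - q) * (2 * a + 1) := by ring
  rw [e]
  generalize q * (2 * a + 1) = Q
  generalize q' - q = d at *
  unfold clp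
  subst hN
  interval_cases d <;> omega

/-- the standard rays are far from each other -/
theorem far_std {i j : Fin 4} (hij : i ≠ j) {r r' : ℤ} (hr : 8 ≤ r) (hr' : 8 ≤ r') :
    Far (rt ((i : ℕ) : ℤ) (r, 0)) (rt ((j : ℕ) : ℤ) (r', 0)) := by
  fin_cases i <;> fin_cases j <;> first | (exact absurd rfl hij) | skip
  all_goals (simp [rt, Far]; omega)

/-- the inner hub ring -/
theorem clp_mem_ringC {N q s : ℤ} (hs1 : -(N + 4) ≤ s) (hs2 : s ≤ N + 4) :
    rt q (N, clp N s) ∈ ringC (rt q (N + 4, s)) 4 := by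
  unfold ringC clp
  rw [mem_frameC]
  rcases rt_cases q (N, max (-N) (min N s)) with ⟨h3, h4⟩ | ⟨h3, h4⟩ | ⟨h3, h4⟩ | ⟨h3, h4⟩ <;>
    rcases rt_cases q (N + 4, s) with ⟨h5, h6⟩ | ⟨h5, h6⟩ | ⟨h5, h6⟩ | ⟨h5, h6⟩ <;>
    first | omega | (rw [h4, h6]; dsimp only; omega)

theorem rings_adj (κ : P2) : CConn (((ringC κ 3 ∪ ringC κ 4 : Finset P2)) : Set P2)
    (κ.1 + 3, κ.2) (κ.1 + 4, κ.2) := by
  refine .single ⟨?_, ?_, ?_⟩
  · unfold CAdj
    dsimp only
    omega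
  · refine Finset.mem_union_left _ ?_
    unfold ringC
    rw [mem_frameC]
    dsimp only
    omega
  · refine Finset.mem_union_right _ ?_
    unfold ringC
    rw [mem_frameC]
    dsimp only
    omega

theorem rings_conn {κ k k' : P2} (hk : k ∈ ringC κ 3) (hk' : k' ∈ ringC κ 4) :
    CConn (((ringC κ 3 ∪ ringC κ 4 : Finset P2)) : Set P2) k k' := by
  have h3 : ((κ.1 + 3, κ.2) : P2) ∈ ringC κ 3 := by
    unfold ringC
    rw [mem_frameC]
    dsimp only
    omega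
  have h4 : ((κ.1 + 4, κ.2) : P2) ∈ ringC κ 4 := by
    unfold ringC
    rw [mem_frameC]
    dsimp only
    omega
  refine (CConn.mono ?_ (ringC_conn hk h3)).trans ((rings_adj κ).trans
    (CConn.mono ?_ (ringC_conn h4 hk')))
  · exact fun x hx => Finset.mem_union_left _ hx
  · exact fun x hx => Finset.mem_union_right _ hx

/-- the tube of a token: inner straight part, slides, arc on the ring `A` -/
def TI (M a A : ℤ) (i : Fin 4) (x : ℕ → ℤ) (u v : ℤ) : Set P2 :=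
  ({c | ∃ j : ℤ, M ≤ j ∧ j ≤ a ∧ c = rt ((i : ℕ) : ℤ) (j, 0)} ∪ PS a 10 A x) ∪
    {c | ∃ w : ℤ, min u v ≤ w ∧ w ≤ max u v ∧ c = cl A w}

theorem nr_rt0 {q r : ℤ} (hr : 0 ≤ r) : nr (rt q (r, 0)) = r := by
  rw [nr_rt]
  unfold nr
  dsimp only
  omega

open Classical in
/-- **Inward tokens**, with the straight part made explicit. -/
theorem tok_inS {N M : ℤ} (hM0 : 8 ≤ M) (hN : 205 ≤ N) (hMN : M + 185 ≤ N) {w : Fin 4 → ℤ}
    (hw : Gd (N - 1) 420 w) :
    ∃ K : Fin 4 → Finset P2,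
      (∀ i, ringC (cl (N - 1) (w i)) 3 ⊆ K i) ∧
      (∀ i, ∀ c ∈ K i, (|c.1 - (cl (N - 1) (w i)).1| ≤ 4 ∧ |c.2 - (cl (N - 1) (w i)).2| ≤ 4) ∨
        nr c ≤ N - 5) ∧
      (∀ i, ∀ c ∈ K i, M ≤ nr c ∧ nr c ≤ N + 3) ∧
      (∀ i, rt ((i : ℕ) : ℤ) (M, 0) ∈ K i) ∧
      (∀ i, ∀ k ∈ ringC (cl (N - 1) (w i)) 3,
        CConn ((K i : Finset P2) : Set P2) k (rt ((i : ℕ) : ℤ) (M, 0))) ∧
      (∀ i j, i ≠ j → ∀ c ∈ K i, ∀ c' ∈ K j, 5 ≤ |c.1 - c'.1| ∨ 5 ≤ |c.2 - c'.2|) ∧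
      (∀ i, ∀ c ∈ K i, nr c ≤ N - 177 → c = rt ((i : ℕ) : ℤ) (nr c, 0)) ∧
      (∀ i, (K i).card ≤ (2 * N + 8).toNat ^ 2) ∧
      (∀ i, ∀ j, M ≤ j → j ≤ N - 185 → rt ((i : ℕ) : ℤ) (j, 0) ∈ K i) := by
  set a : ℤ := N - 185 with ha
  have ha0 : 0 ≤ a := by omega
  have hA0 : 0 ≤ N - 5 := by omega
  have hN0 : 0 ≤ N - 1 := by omega
  -- coordinates
  have hq : ∀ i, ∃ q s : ℤ, -(N - 1) ≤ s ∧ s ≤ N - 1 ∧ w i = q * (2 * (N - 1) + 1) + s := by
    intro i
    obtain ⟨q, s, h1, h2, h3, -⟩ := exists_coord hN0 (w i)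
    exact ⟨q, s, h1, h2, h3⟩
  choose q s hs1 hs2 hqs using hq
  set Y : Fin 4 → ℤ := fun i => q i * (2 * a + 1) + clp a (s i) with hYdef
  have hsep : ∀ i j : Fin 4, i < j → Y i + 18 ≤ Y j ∧ Y j + 18 ≤ Y i + 4 * (2 * a + 1) := by
    intro i j hij
    obtain ⟨h1, h2⟩ := hw.pair (by norm_num) hij
    exact clamp_sep (by omega) (by omega) (hqs i) (hqs j) (hs1 i) (hs2 i) (hs1 j) (hs2 j) h1 h2
  have hY : Gd a 18 Y := ⟨(hsep 0 1 (by decide)).1, (hsep 1 2 (by decide)).1,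
    (hsep 2 3 (by decide)).1, (hsep 0 3 (by decide)).2⟩
  obtain ⟨X, hX, hX1, hX2, hX3⟩ := exists_std (a := a) (by omega) (Y 0)
  obtain ⟨x, hx0, hx1, hx2, hx3⟩ := chain hX hY hX2 hX1
  have hB : a + 18 * ((10 : ℕ) : ℤ) ≤ N - 5 := by push_cast; omega
  -- the end of the slides
  have hYr : ∀ i j, ry a j (Y i) = rt (q i) (j, clp a (s i)) := fun i j =>
    ry_eq ha0 (clp_mem ha0 _).1 (clp_mem ha0 _).2 j
  have hYc : ∀ i, rc a (N - 5) (Y i) = q i * (2 * (N - 5) + 1) + clp a (s i) := fun i =>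
    rc_eq ha0 (clp_mem ha0 _).1 (clp_mem ha0 _).2 _
  set W : Fin 4 → ℤ := fun i => q i * (2 * (N - 5) + 1) + clp (N - 5) (s i) with hW
  have hWc : ∀ i, cl (N - 5) (W i) = rt (q i) (N - 5, clp (N - 5) (s i)) := fun i =>
    cl_eq hA0 (clp_mem hA0 _).1 (clp_mem hA0 _).2
  have hkc : ∀ i, cl (N - 1) (w i) = rt (q i) (N - 1, s i) := fun i => by
    rw [hqs i, cl_eq hN0 (hs1 i) (hs2 i)]
  -- cells close to the ring `N - 1`
  have zone : ∀ i, ∀ c, (c ∈ TI M a (N - 5) i (x i) (rc a (N - 5) (Y i)) (W i) ∨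
      c = cl (N - 1) (w i)) → N - 13 ≤ nr c → ∃ J t, c = rt (q i) (J, t) ∧
        (s i - 184 ≤ t ∧ t ≤ s i + 184) ∧ (N - 1 - 12 ≤ J ∧ J ≤ N - 1) := by
    intro i c hc hn
    have hs1i := hs1 i
    have hs2i := hs2 i
    rcases hc with ((⟨j, h1, h2, rfl⟩ | hc) | ⟨v, h1, h2, rfl⟩) | rfl
    · rw [nr_rt0 (by omega)] at hn
      omega
    · have h1 := PS_end ha0 hc (by push_cast; omega)
      have h2 := (nr_PS ha0 hB hc).2
      rw [hx1, hYr] at h1
      refine ⟨nr c, clp a (s i), h1, ?_, by omega, by omega⟩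
      unfold clp
      omega
    · rw [hYc] at h1 h2
      refine ⟨N - 5, v - q i * (2 * (N - 5) + 1), ?_, ?_, by omega, by omega⟩
      · rw [← cl_eq (q := q i) hA0]
        · congr 1
          ring
        · have := (clp_mem ha0 (s i))
          have := (clp_mem hA0 (s i))
          simp only [hW] at h1 h2
          omega
        · have := (clp_mem ha0 (s i))
          have := (clp_mem hA0 (s i))
          simp only [hW] at h1 h2
          omega
      · simp only [hW] at h1 h2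
        unfold clp at h1 h2
        omega
    · exact ⟨N - 1, s i, hkc i, by omega, by omega, by omega⟩
  have nrT : ∀ i, ∀ c ∈ TI M a (N - 5) i (x i) (rc a (N - 5) (Y i)) (W i),
      M ≤ nr c ∧ nr c ≤ N - 5 := by
    intro i c hc
    rcases hc with (⟨j, h1, h2, rfl⟩ | hc) | ⟨v, h1, h2, rfl⟩
    · rw [nr_rt0 (by omega)]
      omega
    · have := nr_PS ha0 hB hc
      omega
    · rw [nr_cl hA0]
      omega
  -- everything is far
  have far' : ∀ i j : Fin 4, i < j →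
      ∀ c, (c ∈ TI M a (N - 5) i (x i) (rc a (N - 5) (Y i)) (W i) ∨ c = cl (N - 1) (w i)) →
      ∀ c', (c' ∈ TI M a (N - 5) j (x j) (rc a (N - 5) (Y j)) (W j) ∨ c' = cl (N - 1) (w j)) →
        Far c c' := by
    intro i j hij c hc c' hc'
    by_cases n1 : nr c + 9 ≤ nr c'
    · exact far_of_nr n1
    by_cases n2 : nr c' + 9 ≤ nr c
    · exact (far_of_nr n2).symm
    by_cases n3 : N - 13 ≤ nr c ∧ N - 13 ≤ nr c'
    · obtain ⟨J, t, rfl, h1, h2⟩ := zone i c hc n3.1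
      obtain ⟨J', t', rfl, h1', h2'⟩ := zone j c' hc' n3.2
      obtain ⟨g1, g2⟩ := hw.pair (by norm_num) hij
      exact far_gen (by omega) (hqs i) (hqs j) (hs1 i) (hs2 i) (hs1 j) (hs2 j) g1 g2 h1 h1' h2 h2'
    · have m1 : nr c < N - 5 := by omega
      have m2 : nr c' < N - 5 := by omega
      rcases hc with ((⟨r, h1, h2, rfl⟩ | hc) | ⟨v, h1, h2, rfl⟩) | rfl
      · rw [nr_rt0 (by omega)] at n1 n2
        rcases hc' with ((⟨r', h1', h2', rfl⟩ | hc') | ⟨v, h1', h2', rfl⟩) | rfl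
        · exact far_std hij.ne (by omega) (by omega)
        · have e := PS_start ha0 (by norm_num) hc' (by omega)
          have e2 := (nr_PS ha0 hB hc').1
          rw [hx0, hX3] at e
          rw [e]
          exact far_std hij.ne (by omega) (by omega)
        · rw [nr_cl hA0] at m2
          omega
        · rw [nr_cl hN0] at m2
          omega
      · rcases hc' with ((⟨r', h1', h2', rfl⟩ | hc') | ⟨v, h1', h2', rfl⟩) | rfl
        · rw [nr_rt0 (by omega)] at n1 n2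
          have e := PS_start ha0 (by norm_num) hc (by omega)
          have e2 := (nr_PS ha0 hB hc).1
          rw [hx0, hX3] at e
          rw [e]
          exact far_std hij.ne (by omega) (by omega)
        · exact far_chain (by omega) hx2 hx3 hij.ne hc hc'
        · rw [nr_cl hA0] at m2
          omega
        · rw [nr_cl hN0] at m2
          omega
      · rw [nr_cl hA0] at m1
        omega
      · rw [nr_cl hN0] at m1
        omega
  have far : ∀ i j : Fin 4, i ≠ j →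
      ∀ c, (c ∈ TI M a (N - 5) i (x i) (rc a (N - 5) (Y i)) (W i) ∨ c = cl (N - 1) (w i)) →
      ∀ c', (c' ∈ TI M a (N - 5) j (x j) (rc a (N - 5) (Y j)) (W j) ∨ c' = cl (N - 1) (w j)) →
        Far c c' := by
    intro i j hij c hc c' hc'
    rcases lt_or_gt_of_ne hij with h | h
    · exact far' i j h c hc c' hc'
    · exact (far' j i h c' hc' c hc).symm
  refine ⟨fun i => (ringC (cl (N - 1) (w i)) 3 ∪ ringC (cl (N - 1) (w i)) 4) ∪
    (ballC (N - 5)).filter fun c => c ∈ TI M a (N - 5) i (x i) (rc a (N - 5) (Y i)) (W i),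
    ?_, ?_, ?_, ?_, ?_, ?_, ?_, ?_, ?_⟩
  · intro i c hc
    exact Finset.mem_union_left _ (Finset.mem_union_left _ hc)
  · intro i c hc
    rcases Finset.mem_union.1 hc with h | h
    · left
      rcases Finset.mem_union.1 h with h | h <;> have := ringC_dist h <;> rw [abs_le, abs_le] <;>
        omega
    · exact Or.inr (nrT i c (Finset.mem_filter.1 h).2).2
  · intro i c hc
    rcases Finset.mem_union.1 hc with h | h
    · rcases Finset.mem_union.1 h with h | h <;> have h1 := nr_ringC h <;>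
        rw [nr_cl hN0] at h1 <;> omega
    · have := nrT i c (Finset.mem_filter.1 h).2
      omega
  · intro i
    refine Finset.mem_union_right _ (Finset.mem_filter.2 ⟨mem_ballC.2 ?_, ?_⟩)
    · rw [nr_rt0 (by omega)]
      omega
    · exact Or.inl (Or.inl ⟨M, le_rfl, by omega, rfl⟩)
  · intro i k hk
    have hsub : TI M a (N - 5) i (x i) (rc a (N - 5) (Y i)) (W i) ⊆
        ((((ringC (cl (N - 1) (w i)) 3 ∪ ringC (cl (N - 1) (w i)) 4) ∪
          (ballC (N - 5)).filter fun c => c ∈ TI M a (N - 5) i (x i) (rc a (N - 5) (Y i)) (W i) :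
            Finset P2)) : Set P2) := fun c hc =>
      Finset.mem_union_right _ (Finset.mem_filter.2 ⟨mem_ballC.2 (nrT i c hc).2, hc⟩)
    have e1 : cl (N - 5) (W i) ∈ ringC (cl (N - 1) (w i)) 4 := by
      rw [hWc, hkc]
      have := clp_mem_ringC (N := N - 5) (q := q i) (s := s i) (by have := hs1 i; omega)
        (by have := hs2 i; omega)
      rwa [show N - 5 + 4 = N - 1 by ring] at this
    have c1 := rings_conn hk e1
    have c2 : CConn (TI M a (N - 5) i (x i) (rc a (N - 5) (Y i)) (W i)) (cl (N - 5) (W i))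
        (cl (N - 5) (rc a (N - 5) (Y i))) := by
      refine conn_arc hA0 fun v h1 h2 => Or.inr ⟨v, ?_, ?_, rfl⟩
      · rwa [min_comm]
      · rwa [max_comm]
    have c3 : CConn (TI M a (N - 5) i (x i) (rc a (N - 5) (Y i)) (W i))
        (cl (N - 5) (rc a (N - 5) (Y i))) (ry a a (X i)) := by
      rw [cl_rc ha0 (by omega)]
      have h := conn_PS (a := a) (B := N - 5) (m := 10) (x := x i) ha0 hB
      rw [hx0, hx1] at h
      exact CConn.mono (fun c hc => Or.inl (Or.inr hc)) (CConn.symm h)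
    have c4 : CConn (TI M a (N - 5) i (x i) (rc a (N - 5) (Y i)) (W i)) (ry a a (X i))
        (rt ((i : ℕ) : ℤ) (M, 0)) := by
      rw [hX3]
      refine CConn.symm ?_
      refine conn_seq (fun j => rt ((i : ℕ) : ℤ) (j, 0)) (fun j => ?_) (by omega : M ≤ a)
        fun j h1 h2 => Or.inl (Or.inl ⟨j, h1, h2, rfl⟩)
      refine cadj_rt _ ?_
      unfold CAdj
      dsimp only
      omega
    exact (CConn.mono (fun c hc => Finset.mem_union_left _ hc) c1).trans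
      (CConn.mono hsub (c2.trans (c3.trans c4)))
  · intro i j hij c hc c' hc'
    have hN13 : FarN 13 (cl (N - 1) (w i)) (cl (N - 1) (w j)) :=
      farN_pair (by omega) (by norm_num) hw hij
    rcases Finset.mem_union.1 hc with h | h <;> rcases Finset.mem_union.1 hc' with h' | h'
    · rcases Finset.mem_union.1 h with h | h <;> rcases Finset.mem_union.1 h' with h' | h' <;>
        exact five_of_rings (by norm_num) (by norm_num) h h' hN13
    · have hf := far i j hij _ (Or.inr rfl) c' (Or.inl (Finset.mem_filter.1 h').2)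
      rcases Finset.mem_union.1 h with h | h <;> exact five_of_far_ring (by norm_num) h hf
    · have hf := far j i hij.symm _ (Or.inr rfl) c (Or.inl (Finset.mem_filter.1 h).2)
      rcases Finset.mem_union.1 h' with h' | h' <;>
        exact five_symm (five_of_far_ring (by norm_num) h' hf)
    · exact five_of_far (far i j hij c (Or.inl (Finset.mem_filter.1 h).2) c'
        (Or.inl (Finset.mem_filter.1 h').2))
  · intro i c hc h1
    rcases Finset.mem_union.1 hc with h | h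
    · rcases Finset.mem_union.1 h with h | h <;> have h2 := nr_ringC h <;>
        rw [nr_cl hN0] at h2 <;> omega
    · rcases (Finset.mem_filter.1 h).2 with (⟨j, h2, h3, rfl⟩ | hc2) | ⟨v, h2, h3, rfl⟩
      · rw [nr_rt0 (by omega)]
      · have e := PS_start ha0 (by norm_num) hc2 (by omega)
        rwa [hx0, hX3] at e
      · rw [nr_cl hA0] at h1
        omega
  · intro i
    have e : (2 * N + 8).toNat = (2 * (N + 3) + 2).toNat := by congr 1; ring
    rw [e, ← card_ballC]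
    refine Finset.card_le_card ?_
    intro c hc
    rcases Finset.mem_union.1 hc with h | h
    · rcases Finset.mem_union.1 h with h | h <;> have h1 := nr_ringC h <;>
        rw [nr_cl hN0] at h1 <;> exact mem_ballC.2 (by omega)
    · exact mem_ballC.2 (by have := nrT i c (Finset.mem_filter.1 h).2; omega)
  · intro i j h1 h2
    refine Finset.mem_union_right _ (Finset.mem_filter.2 ⟨mem_ballC.2 ?_, ?_⟩)
    · rw [nr_rt0 (by omega)]
      omega
    · exact Or.inl (Or.inl ⟨j, h1, h2, rfl⟩)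

open Classical in
/-- **Inward tokens.** -/
theorem tok_in {N M : ℤ} (hM0 : 8 ≤ M) (hN : 205 ≤ N) (hMN : M + 185 ≤ N) {w : Fin 4 → ℤ}
    (hw : Gd (N - 1) 420 w) :
    ∃ K : Fin 4 → Finset P2,
      (∀ i, ringC (cl (N - 1) (w i)) 3 ⊆ K i) ∧
      (∀ i, ∀ c ∈ K i, (|c.1 - (cl (N - 1) (w i)).1| ≤ 4 ∧ |c.2 - (cl (N - 1) (w i)).2| ≤ 4) ∨
        nr c ≤ N - 5) ∧
      (∀ i, ∀ c ∈ K i, M ≤ nr c ∧ nr c ≤ N + 3) ∧
      (∀ i, rt ((i : ℕ) : ℤ) (M, 0) ∈ K i) ∧
      (∀ i, ∀ k ∈ ringC (cl (N - 1) (w i)) 3,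
        CConn ((K i : Finset P2) : Set P2) k (rt ((i : ℕ) : ℤ) (M, 0))) ∧
      (∀ i j, i ≠ j → ∀ c ∈ K i, ∀ c' ∈ K j, 5 ≤ |c.1 - c'.1| ∨ 5 ≤ |c.2 - c'.2|) ∧
      (∀ i, ∀ c ∈ K i, nr c ≤ N - 177 → c = rt ((i : ℕ) : ℤ) (nr c, 0)) ∧
      (∀ i, (K i).card ≤ (2 * N + 8).toNat ^ 2) := by
  obtain ⟨K, h1, h2, h3, h4, h5, h6, h7, h8, -⟩ := tok_inS hM0 hN hMN hw
  exact ⟨K, h1, h2, h3, h4, h5, h6, h7, h8⟩

open Classical in
/-- **Inward tokens, clockwise order**, with the straight part made explicit. -/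
theorem tok_inS' {N M : ℤ} (hM0 : 8 ≤ M) (hN : 205 ≤ N) (hMN : M + 185 ≤ N) {w : Fin 4 → ℤ}
    (hw : Gd' (N - 1) 420 w) :
    ∃ K : Fin 4 → Finset P2,
      (∀ i, ringC (cl (N - 1) (w i)) 3 ⊆ K i) ∧
      (∀ i, ∀ c ∈ K i, (|c.1 - (cl (N - 1) (w i)).1| ≤ 4 ∧ |c.2 - (cl (N - 1) (w i)).2| ≤ 4) ∨
        nr c ≤ N - 5) ∧
      (∀ i, ∀ c ∈ K i, M ≤ nr c ∧ nr c ≤ N + 3) ∧
      (∀ i, rt (((sw13 i : Fin 4) : ℕ) : ℤ) (M, 0) ∈ K i) ∧
      (∀ i, ∀ k ∈ ringC (cl (N - 1) (w i)) 3,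
        CConn ((K i : Finset P2) : Set P2) k (rt (((sw13 i : Fin 4) : ℕ) : ℤ) (M, 0))) ∧
      (∀ i j, i ≠ j → ∀ c ∈ K i, ∀ c' ∈ K j, 5 ≤ |c.1 - c'.1| ∨ 5 ≤ |c.2 - c'.2|) ∧
      (∀ i, ∀ c ∈ K i, nr c ≤ N - 177 → c = rt (((sw13 i : Fin 4) : ℕ) : ℤ) (nr c, 0)) ∧
      (∀ i, (K i).card ≤ (2 * N + 8).toNat ^ 2) ∧
      (∀ i, ∀ j, M ≤ j → j ≤ N - 185 → rt (((sw13 i : Fin 4) : ℕ) : ℤ) (j, 0) ∈ K i) := by
  obtain ⟨K, h1, h2, h3, h4, h5, h6, h7, h8, h9⟩ := tok_inS hM0 hN hMN hw.gd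
  have e : ∀ i : Fin 4, cl (N - 1) (if sw13 i = 0 then w 0 else
      w (sw13 (sw13 i)) + 4 * (2 * (N - 1) + 1)) = cl (N - 1) (w i) := by
    intro i
    rw [sw13_sw13]
    by_cases h : sw13 i = 0
    · have h' : i = 0 := by
        fin_cases i <;> simp [sw13] at h ⊢
      rw [if_pos h, h']
    · rw [if_neg h, cl_period (by omega)]
  refine ⟨fun i => K (sw13 i), fun i => ?_, fun i c hc => ?_, fun i c hc => h3 _ c hc,
    fun i => h4 _, fun i k hk => ?_, fun i j hij => h6 _ _ (sw13_ne hij), fun i => h7 _,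
    fun i => h8 _, fun i => h9 _⟩
  · have := h1 (sw13 i)
    rwa [e i] at this
  · have := h2 (sw13 i) c hc
    rwa [e i] at this
  · have := h5 (sw13 i) k
    rw [e i] at this
    exact this hk

open Classical in
/-- **Inward tokens, clockwise order.** -/
theorem tok_in' {N M : ℤ} (hM0 : 8 ≤ M) (hN : 205 ≤ N) (hMN : M + 185 ≤ N) {w : Fin 4 → ℤ}
    (hw : Gd' (N - 1) 420 w) :
    ∃ K : Fin 4 → Finset P2,
      (∀ i, ringC (cl (N - 1) (w i)) 3 ⊆ K i) ∧
      (∀ i, ∀ c ∈ K i, (|c.1 - (cl (N - 1) (w i)).1| ≤ 4 ∧ |c.2 - (cl (N - 1) (w i)).2| ≤ 4) ∨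
        nr c ≤ N - 5) ∧
      (∀ i, ∀ c ∈ K i, M ≤ nr c ∧ nr c ≤ N + 3) ∧
      (∀ i, rt (((sw13 i : Fin 4) : ℕ) : ℤ) (M, 0) ∈ K i) ∧
      (∀ i, ∀ k ∈ ringC (cl (N - 1) (w i)) 3,
        CConn ((K i : Finset P2) : Set P2) k (rt (((sw13 i : Fin 4) : ℕ) : ℤ) (M, 0))) ∧
      (∀ i j, i ≠ j → ∀ c ∈ K i, ∀ c' ∈ K j, 5 ≤ |c.1 - c'.1| ∨ 5 ≤ |c.2 - c'.2|) ∧
      (∀ i, ∀ c ∈ K i, nr c ≤ N - 177 → c = rt (((sw13 i : Fin 4) : ℕ) : ℤ) (nr c, 0)) ∧
      (∀ i, (K i).card ≤ (2 * N + 8).toNat ^ 2) := by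
  obtain ⟨K, h1, h2, h3, h4, h5, h6, h7, h8, -⟩ := tok_inS' hM0 hN hMN hw
  exact ⟨K, h1, h2, h3, h4, h5, h6, h7, h8⟩

end Crest.Agent.R158.Sp874
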