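import Crest.Agent.R158.Sg3_158
import Crest.Agent.R158.Sp4d_874

/-!
# Row 158, Block SEP, leaf L6 (helper158): `glue_out`

* `glue_out` : `c^B P(Nice e (q n) s t) P(Uout L FL (N n) n k1 .. k4 P1 P3 Q2 Q4) ≤ P(Glued ..)` for
  `32 q + 200 ≤ N`, `k i = cl (N - 1) (w i)` in (either) cyclic order with gaps `≥ 420`
* `glue_piv` : the same with the pivotal event of a rectangle crossing
-/

set_option autoImplicit false

noncomputable section

namespace Crest.Agent.R158.Sg158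

open MeasureTheory ProbabilityTheory unitInterval
open Crest.Agent.R161.Geo729 Crest.Agent.R161.Topo374 Crest.Agent.R161.Dual374
open Crest.Agent.R161.Tas682 hiding Sq
open Crest.Agent.R158.Rs689 Crest.Agent.R158.Ru874 Crest.Agent.R158.Sp580
open Crest.Agent.R158.Sp874 (rt nr cl Gd Gd' sw13)

theorem nr_adj {c c' : P2} (h : CAdj c c') : nr c ≤ nr c' + 1 ∧ nr c' ≤ nr c + 1 := by
  unfold CAdj at h
  unfold nr
  omega

/-- a coarse path visits all intermediate rings -/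
theorem level_of_conn {K : Finset P2} {a b : P2} (ha : a ∈ K)
    (h : CConn ((K : Finset P2) : Set P2) a b) {j : ℤ} (h1 : nr b ≤ j) (h2 : j ≤ nr a) :
    ∃ c ∈ K, nr c = j := by
  induction h with
  | refl => exact ⟨a, ha, by omega⟩
  | @tail b c h3 h4 ih =>
    by_cases hb : nr b ≤ j
    · exact ih hb
    · have h5 := nr_adj h4.1
      exact ⟨c, h4.2.2, by omega⟩

/-- the token of 874 as `InT` -/
theorem inT_of {i : Fin 4} {N M : ℤ} {K : Finset P2} {κ : P2} (hk : nr κ = N - 1)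
    (h1 : ringC κ 3 ⊆ K)
    (h2 : ∀ c ∈ K, (|c.1 - κ.1| ≤ 4 ∧ |c.2 - κ.2| ≤ 4) ∨ nr c ≤ N - 5)
    (h3 : ∀ c ∈ K, M ≤ nr c ∧ nr c ≤ N + 3)
    (h5 : ∀ k ∈ ringC κ 3, CConn ((K : Finset P2) : Set P2) k (rt ((i : ℕ) : ℤ) (M, 0)))
    (h7 : ∀ c ∈ K, nr c ≤ N - 177 → c = rt ((i : ℕ) : ℤ) (nr c, 0)) (hM : 0 ≤ M) :
    InT i N M (N - 177) K κ where
  nrk := hk
  ring := h1
  loc := h2
  low := fun c hc => (h3 c hc).1
  conn := h5
  str := h7
  ray := by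
    intro j hj hj'
    have hr : ((κ.1 - 3, κ.2 - 3) : P2) ∈ ringC κ 3 := by
      unfold ringC
      rw [mem_frameC]
      refine ⟨⟨?_, ?_, ?_, ?_⟩, Or.inl rfl⟩ <;> simp only <;> omega
    have h8 : nr κ ≤ nr ((κ.1 - 3, κ.2 - 3) : P2) + 3 := (Sp874.nr_ringC hr).2
    have h9 : nr (rt ((i : ℕ) : ℤ) (M, 0)) = M := by
      rw [Sp874.nr_rt]
      unfold nr
      simp only
      omega
    obtain ⟨c, hc, hcj⟩ := level_of_conn (h1 hr) (h5 _ hr) (j := j) (by omega) (by omega)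
    have h10 := h7 c hc (by omega)
    rw [hcj] at h10
    rw [← h10]
    exact hc

/-- **L6.** -/
theorem glue_out {q N : ℕ} (hq : 1 ≤ q) (hN : 32 * q + 200 ≤ N) {c : ℝ} {p : I} {n : ℕ}
    (hn : 1 ≤ n) (hc : RSp c p n) {e : Edge} (he : src e = (0, 0)) (s t : Bool)
    {w : Fin 4 → ℤ} (hw : Gd (N - 1) 420 w ∨ Gd' (N - 1) 420 w) {L FL : Set P2} (hL : L.Finite)
    (hFL : FL.Finite) (hLN : Sq (((N : ℤ) + 20) * n) ⊆ L) (hFLN : Sq (((N : ℤ) + 20) * n) ⊆ FL)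
    {P1 P3 Q2 Q4 : Set P2} (f1 : ∀ b ∈ P1, b ∉ Sq (((N : ℤ) + 10) * n))
    (f3 : ∀ b ∈ P3, b ∉ Sq (((N : ℤ) + 10) * n)) (f2 : ∀ b ∈ Q2, b ∉ Sq (((N : ℤ) + 10) * n))
    (f4 : ∀ b ∈ Q4, b ∉ Sq (((N : ℤ) + 10) * n)) :
    c ^ (8 * (2 * N + 8) ^ 2) * ((nu p).real (Nice e (q * n) s t) *
      (nu p).real (Uout L FL (N * n) n (cl (N - 1) (w 0)) (cl (N - 1) (w 1)) (cl (N - 1) (w 2))
        (cl (N - 1) (w 3)) P1 P3 Q2 Q4)) ≤ (nu p).real (Glued e L FL P1 P3 Q2 Q4) := by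
  have hM : (2 * (N : ℤ) + 8).toNat ^ 2 = (2 * N + 8) ^ 2 := by
    congr 1
  have hnr : ∀ i, nr (cl ((N : ℤ) - 1) (w i)) = N - 1 := fun i => Sp874.nr_cl (by omega) _
  rcases hw with hw | hw
  · obtain ⟨K, h1, h2, h3, h4, h5, h6, h7, h8⟩ := Sp874.tok_in (N := N) (M := 18 * q + 1)
      (by omega) (by omega) (by omega) hw
    have T : ∀ i, InT i N (18 * q + 1) (N - 177) (K i) (cl (N - 1) (w i)) := fun i =>
      inT_of (hnr i) (h1 i) (h2 i) (h3 i) (h5 i) (h7 i) (by omega)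
    have hK : ∀ i, (K i).card ≤ (2 * N + 8) ^ 2 := fun i => by
      rw [← hM]
      exact h8 i
    exact glue_out_of hn hq hc he s t (by omega) (by omega) hL hFL hLN hFLN f1 f3 f2 f4
      (Or.inl ⟨rfl, rfl⟩) (Or.inl ⟨rfl, rfl⟩) (T 0) (T 2) (T 1) (T 3)
      (h6 0 1 (by decide)) (h6 0 3 (by decide)) (h6 2 1 (by decide)) (h6 2 3 (by decide))
      (hK 0) (hK 1) (hK 2) (hK 3)
  · obtain ⟨K, h1, h2, h3, h4, h5, h6, h7, h8⟩ := Sp874.tok_in' (N := N) (M := 18 * q + 1)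
      (by omega) (by omega) (by omega) hw
    have T : ∀ i, InT (sw13 i) N (18 * q + 1) (N - 177) (K i) (cl (N - 1) (w i)) := fun i =>
      inT_of (hnr i) (h1 i) (h2 i) (h3 i) (h5 i) (h7 i) (by omega)
    have hK : ∀ i, (K i).card ≤ (2 * N + 8) ^ 2 := fun i => by
      rw [← hM]
      exact h8 i
    exact glue_out_of hn hq hc he s t (by omega) (by omega) hL hFL hLN hFLN f1 f3 f2 f4
      (Or.inl ⟨rfl, rfl⟩) (Or.inr ⟨rfl, rfl⟩) (T 0) (T 2) (T 1) (T 3)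
      (h6 0 1 (by decide)) (h6 0 3 (by decide)) (h6 2 1 (by decide)) (h6 2 3 (by decide))
      (hK 0) (hK 1) (hK 2) (hK 3)

/-- **L6 for the crossing of a rectangle.** -/
theorem glue_piv {q N : ℕ} (hq : 1 ≤ q) (hN : 32 * q + 200 ≤ N) {c : ℝ} {p : I} {n : ℕ}
    (hn : 1 ≤ n) (hc : RSp c p n) {e : Edge} (he : src e = (0, 0)) (s t : Bool)
    {w : Fin 4 → ℤ} (hw : Gd (N - 1) 420 w ∨ Gd' (N - 1) 420 w) {x0 x1 y0 y1 : ℤ}
    (hx0 : x0 ≤ -(((N : ℤ) + 20) * n)) (hx1 : ((N : ℤ) + 20) * n + 1 ≤ x1)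
    (hy0 : y0 ≤ -(((N : ℤ) + 20) * n)) (hy1 : ((N : ℤ) + 20) * n ≤ y1) :
    c ^ (8 * (2 * N + 8) ^ 2) * ((nu p).real (Nice e (q * n) s t) *
      (nu p).real (Uout (Rect x0 x1 y0 y1) (Rect x0 (x1 - 1) (y0 - 1) y1) (N * n) n
        (cl (N - 1) (w 0)) (cl (N - 1) (w 1)) (cl (N - 1) (w 2)) (cl (N - 1) (w 3))
        {v | v.1 = x0} {v | v.1 = x1} {f | f.2 = y0 - 1} {f | f.2 = y1})) ≤
      (nu p).real (Piv e {z | LRc z x0 x1 y0 y1}) := by
  have hn' : (1 : ℤ) ≤ n := by exact_mod_cast hn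
  have e1 : ((N : ℤ) + 20) * n = (N + 10) * n + 10 * n := by ring
  have h0 : (0 : ℤ) ≤ ((N : ℤ) + 10) * n := by positivity
  refine (glue_out hq hN hn hc he s t hw (rect_finite _ _ _ _) (rect_finite _ _ _ _) ?_ ?_ ?_ ?_
    ?_ ?_).trans (measureReal_mono glued_piv)
  · intro v hv
    rw [mem_Sq] at hv
    rw [mem_rect]
    omega
  · intro v hv
    rw [mem_Sq] at hv
    rw [mem_rect]
    omega
  · intro b hb hb'
    rw [mem_Sq] at hb'
    have hb1 : b.1 = x0 := hb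
    omega
  · intro b hb hb'
    rw [mem_Sq] at hb'
    have hb1 : b.1 = x1 := hb
    omega
  · intro b hb hb'
    rw [mem_Sq] at hb'
    have hb1 : b.2 = y0 - 1 := hb
    omega
  · intro b hb hb'
    rw [mem_Sq] at hb'
    have hb1 : b.2 = y1 := hb
    omega

end Crest.Agent.R158.Sg158
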