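import Crest.Agent.R158.Qf1_808
import Crest.Agent.R158.Qf3_808
import Crest.Agent.R158.Qf5_808
import Crest.Agent.R158.Sg4_158
import Crest.Agent.R158.Ax2_107

/-!
# Row 158 (helper808), QM4 and `HypU4`

* `rsp_half` : `RSp c hf N` for all `N`
* `A4_anti`
* `step_out` : `P(T2 0 r l ∩ GO) P(NiceU e n) ≤ K P(A4 e l)`
* `hypU4_of` : `CovT2 T0 → SepIn → L4 → P4U → HypU4`
-/

set_option autoImplicit false

noncomputable section

namespace Crest.Agent.R158.Qf808

open MeasureTheory ProbabilityTheory unitInterval Filter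
open Crest.Agent.R161.Geo729 Crest.Agent.R161.Topo374 Crest.Agent.R161.Dual374
open Crest.Agent.R161.Tas682 hiding Sq
open Crest.Agent.R158.Rs689 Crest.Agent.R158.Ru874 Crest.Agent.R158.Sp580
open Crest.Agent.R158.Sp874 (rt nr cl)
open Crest.Agent.R158.Cpl963 (T2 T2_shrink HypU4)

/-! ### RSW at `p = 1/2` -/

theorem rsp_half : ∃ c : ℝ, 0 < c ∧ c ≤ 1 ∧ ∀ N : ℕ, RSp c hf N := by
  obtain ⟨c, hc, h⟩ := rsw_long 3
  have hc1 : c ≤ 1 := (h 1 le_rfl).trans (Sp580.xpr_le_one _ _ _)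
  refine ⟨c, hc, hc1, fun N => ⟨hc, fun n h1 _ => ?_⟩⟩
  have h2 := h n h1
  push_cast at h2
  rw [sigma_hf]
  exact ⟨h2, h2⟩

/-! ### monotonicity of the four-arm event -/

theorem A4_anti {e : Edge} {R R' : ℤ} (hR : 1 ≤ R) (h : R ≤ R') : Sp580.A4 e R' ⊆ Sp580.A4 e R := by
  have hsub : {v : P2 | sd (src e) v ≤ R} ⊆ {v | sd (src e) v ≤ R'} := fun v hv => le_trans hv h
  have hst := Cpl963.sd_src_tgt e
  have key : ∀ z u, sd (src e) u ≤ R → Arm z {v | sd (src e) v ≤ R'} {v | sd (src e) v = R'} u →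
      Arm z {v | sd (src e) v ≤ R} {v | sd (src e) v = R} u := by
    rintro z u hu ⟨a, ha, hua⟩
    have ha' : sd (src e) a = R' := ha
    obtain ⟨w, hw, hw2⟩ := first_hit (sd (src e)) (sd_nbr (src e)) R hua hu (by omega)
    exact ⟨w, hw, hw2.monoS fun v hv => hv.2⟩
  rintro z ⟨h1, h2, h3⟩
  refine ⟨key _ _ ?_ h1, key _ _ ?_ h2, fun hc => h3 (hc.monoS hsub)⟩
  · have := Cpl963.sd_self (src e); omega
  · omega

/-! ### one scale -/

/-- cells of the box of radius `N` -/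
def boxC (N : ℕ) : Finset P2 := Finset.Icc (-(N : ℤ)) N ×ˢ Finset.Icc (-(N : ℤ)) N

theorem mem_boxC {N : ℕ} {k : P2} (h : nr k ≤ N - 1) : k ∈ boxC N := by
  unfold nr at h
  unfold boxC
  rw [Finset.mem_product, Finset.mem_Icc, Finset.mem_Icc]
  omega

theorem card_boxC (N : ℕ) : (boxC N).card = (2 * N + 1) ^ 2 := by
  unfold boxC
  rw [Finset.card_product, Int.card_Icc]
  have : ((N : ℤ) + 1 - -(N : ℤ)).toNat = 2 * N + 1 := by omega
  rw [this]
  ring

/-- **(cover)** two crossing clusters outside a good circle land in alternating cells -/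
def CovT2 (T0 : ℕ) : Prop :=
  ∀ D1 D2 D3 : ℕ, 2 ≤ D1 → 2 ≤ D2 → 2 ≤ D3 → ∀ N : ℕ, N = 32 * D1 * D2 * D3 * T0 →
    ∀ n : ℕ, 2 ≤ n → ∀ k l : ℤ, 1 ≤ k → k < N * n → 2 * ((N : ℤ) * n) ≤ l → ∀ z : Cf,
      z ∈ T2 (0, 0) k l → z ∈ GO (0, 0) D1 D2 D3 (T0 * n) →
      ∃ w : Fin 4 → ℤ, (Sp874.Gd (N - 1) 420 w ∨ Sp874.Gd' (N - 1) 420 w) ∧
        z ∈ Uout (Sq l) (FSq l) (N * n) n (cl (N - 1) (w 0)) (cl (N - 1) (w 1)) (cl (N - 1) (w 2))
          (cl (N - 1) (w 3)) (Sph l) (Sph l) (RF l) (RF l)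

/-- **(SEP, inner)** -/
def SepIn : Prop :=
  ∀ c : ℝ, 0 < c → ∃ K : ℝ, ∀ (p : I) (j : ℕ), RSp c p (2 ^ (j + 5)) → ∀ e : Edge, src e = (0, 0) →
    (nu p).real (Sp580.A4 e ((2 : ℤ) ^ (j + 2))) ≤ K * (nu p).real (NiceU e (2 ^ j))

/-- **outer landing and gluing at one scale** -/
theorem step_out {T0 : ℕ} (hcov : CovT2 T0) {D1 D2 D3 : ℕ} (h1 : 2 ≤ D1) (h2 : 2 ≤ D2) (h3 : 2 ≤ D3)
    (hT0 : 1 ≤ T0) {c : ℝ} {p : I} {n : ℕ} (hn : 2 ≤ n) (hc : RSp c p n) {e : Edge} (he : src e = (0, 0))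
    {N : ℕ} (hN : N = 32 * D1 * D2 * D3 * T0) {k l : ℤ} (hk : 1 ≤ k) (hkN : k < N * n)
    (hl : 2 * ((N : ℤ) * n) ≤ l) :
    (nu p).real (T2 (0, 0) k l ∩ GO (0, 0) D1 D2 D3 (T0 * n)) * (nu p).real (NiceU e n) ≤
      (4 * ((2 * N + 1) ^ 8 : ℕ) * (c ^ (8 * (2 * N + 8) ^ 2))⁻¹) * (nu p).real (Sp580.A4 e l) := by
  classical
  have hN232 : 232 ≤ N := by
    have : 2 * 2 * 2 * 1 ≤ D1 * D2 * D3 * T0 := by gcongr
    have e0 : N = 32 * (D1 * D2 * D3 * T0) := by rw [hN]; ring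
    omega
  obtain ⟨s, t, hst⟩ := nice_choice p e n
  set E : (P2 × P2) × (P2 × P2) → Set Cf := fun κ =>
    {z | (∃ w : Fin 4 → ℤ, (Sp874.Gd (N - 1) 420 w ∨ Sp874.Gd' (N - 1) 420 w) ∧
      κ.1.1 = cl (N - 1) (w 0) ∧ κ.1.2 = cl (N - 1) (w 1) ∧ κ.2.1 = cl (N - 1) (w 2) ∧
      κ.2.2 = cl (N - 1) (w 3)) ∧
      z ∈ Uout (Sq l) (FSq l) (N * n) n κ.1.1 κ.1.2 κ.2.1 κ.2.2 (Sph l) (Sph l) (RF l) (RF l)} with hE
  set F := (boxC N ×ˢ boxC N) ×ˢ (boxC N ×ˢ boxC N) with hF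
  have hcl : ∀ x : ℤ, cl ((N : ℤ) - 1) x ∈ boxC N := by
    intro x
    apply mem_boxC
    rw [Sp874.nr_cl (by omega)]
  have hsub : T2 (0, 0) k l ∩ GO (0, 0) D1 D2 D3 (T0 * n) ⊆ ⋃ κ ∈ F, E κ := by
    rintro z ⟨hz, hg⟩
    obtain ⟨w, hw, hU⟩ := hcov D1 D2 D3 h1 h2 h3 N hN n hn k l hk hkN hl z hz hg
    simp only [Set.mem_iUnion]
    refine ⟨((cl (N - 1) (w 0), cl (N - 1) (w 1)), (cl (N - 1) (w 2), cl (N - 1) (w 3))), ?_, ?_⟩
    · simp only [hF, Finset.mem_product]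
      exact ⟨⟨hcl _, hcl _⟩, hcl _, hcl _⟩
    · exact ⟨⟨w, hw, rfl, rfl, rfl, rfl⟩, hU⟩
  have hcard : F.card = (2 * N + 1) ^ 8 := by
    rw [hF, Finset.card_product, Finset.card_product, card_boxC]
    ring
  have hc0 : 0 < c := hc.1
  set B := 8 * (2 * N + 8) ^ 2 with hB
  have hcB : 0 < c ^ B := pow_pos hc0 B
  -- one 4-tuple
  have hone : ∀ κ, (nu p).real (E κ) * (nu p).real (Nice e n s t) ≤
      (c ^ B)⁻¹ * (nu p).real (Sp580.A4 e l) := by
    intro κ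
    by_cases hw : ∃ w : Fin 4 → ℤ, (Sp874.Gd (N - 1) 420 w ∨ Sp874.Gd' (N - 1) 420 w) ∧
      κ.1.1 = cl (N - 1) (w 0) ∧ κ.1.2 = cl (N - 1) (w 1) ∧ κ.2.1 = cl (N - 1) (w 2) ∧
      κ.2.2 = cl (N - 1) (w 3)
    · obtain ⟨w, hw1, e1, e2, e3, e4⟩ := hw
      have hn0 : (1 : ℤ) ≤ n := by exact_mod_cast (by omega : 1 ≤ n)
      have hn1 : (N : ℤ) * n + 20 * n ≤ 2 * (N * n) - 2 := by nlinarith
      have hS : ∀ v ∈ Sq (((N : ℤ) + 20) * n), -((N : ℤ) * n + 20 * n) ≤ v.1 ∧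
          v.1 ≤ (N : ℤ) * n + 20 * n ∧ -((N : ℤ) * n + 20 * n) ≤ v.2 ∧ v.2 ≤ (N : ℤ) * n + 20 * n := by
        intro v hv
        rw [mem_Sq] at hv
        have : ((N : ℤ) + 20) * n = (N : ℤ) * n + 20 * n := by ring
        omega
      have hS' : ∀ v ∈ Sq (((N : ℤ) + 10) * n), -((N : ℤ) * n + 20 * n) ≤ v.1 ∧
          v.1 ≤ (N : ℤ) * n + 20 * n ∧ -((N : ℤ) * n + 20 * n) ≤ v.2 ∧ v.2 ≤ (N : ℤ) * n + 20 * n := by
        intro v hv
        rw [mem_Sq] at hv
        have : ((N : ℤ) + 10) * n = (N : ℤ) * n + 10 * n := by ring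
        omega
      have hP : ∀ b ∈ Sph l, b ∉ Sq (((N : ℤ) + 10) * n) := by
        intro b hb hb'
        have h4 := hS' b hb'
        have h5 : sd (0, 0) b = l := hb
        have h6 : sd (0, 0) b ≤ (N : ℤ) * n + 20 * n := by rw [sd_le]; simp only; omega
        omega
      have hQ : ∀ b ∈ RF l, b ∉ Sq (((N : ℤ) + 10) * n) := by
        intro b hb hb'
        have h4 := hS' b hb'
        apply hb.2
        rw [mem_rect]
        omega
      have hg := Sg158.glue_out (q := 1) (N := N) le_rfl (by omega) (by omega) hc he s t hw1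
        (L := Sq l) (FL := FSq l) (Sq_finite l) (FSq_finite l)
        (fun v hv => by rw [mem_Sq]; have := hS v hv; omega)
        (fun v hv => by rw [mem_FSq]; have := hS v hv; omega)
        (P1 := Sph l) (P3 := Sph l) (Q2 := RF l) (Q4 := RF l) hP hP hQ hQ
      rw [one_mul] at hg
      have hsub2 : E κ ⊆ Uout (Sq l) (FSq l) (N * n) n (cl (N - 1) (w 0)) (cl (N - 1) (w 1))
          (cl (N - 1) (w 2)) (cl (N - 1) (w 3)) (Sph l) (Sph l) (RF l) (RF l) := by
        rintro z ⟨_, hz⟩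
        rwa [e1, e2, e3, e4] at hz
      have h5 : (nu p).real (E κ) ≤ _ := measureReal_mono hsub2
      have h6 : (nu p).real (Glued e (Sq l) (FSq l) (Sph l) (Sph l) (RF l) (RF l)) ≤
          (nu p).real (Sp580.A4 e l) := measureReal_mono (glued_sub_A4 he (by omega))
      rw [inv_mul_eq_div, le_div_iff₀ hcB]
      calc (nu p).real (E κ) * (nu p).real (Nice e n s t) * c ^ B
          = c ^ B * ((nu p).real (Nice e n s t) * (nu p).real (E κ)) := by ring
        _ ≤ c ^ B * ((nu p).real (Nice e n s t) * (nu p).real (Uout (Sq l) (FSq l) (N * n) n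
              (cl (N - 1) (w 0)) (cl (N - 1) (w 1)) (cl (N - 1) (w 2)) (cl (N - 1) (w 3)) (Sph l)
              (Sph l) (RF l) (RF l))) :=
            mul_le_mul_of_nonneg_left (mul_le_mul_of_nonneg_left h5 measureReal_nonneg) hcB.le
        _ ≤ _ := hg.trans h6
    · have : E κ = ∅ := by
        ext z
        simp only [Set.mem_empty_iff_false, iff_false]
        exact fun hz => hw hz.1
      rw [this]
      simp only [measureReal_empty, zero_mul]
      positivity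
  have hsum : (nu p).real (T2 (0, 0) k l ∩ GO (0, 0) D1 D2 D3 (T0 * n)) ≤ ∑ κ ∈ F, (nu p).real (E κ) :=
    (measureReal_mono hsub (measure_ne_top _ _)).trans (measureReal_biUnion_finset_le _ _)
  calc (nu p).real (T2 (0, 0) k l ∩ GO (0, 0) D1 D2 D3 (T0 * n)) * (nu p).real (NiceU e n)
      ≤ (∑ κ ∈ F, (nu p).real (E κ)) * (4 * (nu p).real (Nice e n s t)) :=
        mul_le_mul hsum hst measureReal_nonneg (Finset.sum_nonneg fun _ _ => measureReal_nonneg)
    _ = 4 * ∑ κ ∈ F, (nu p).real (E κ) * (nu p).real (Nice e n s t) := by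
        rw [← Finset.sum_mul]; ring
    _ ≤ 4 * ∑ _κ ∈ F, (c ^ B)⁻¹ * (nu p).real (Sp580.A4 e l) :=
        mul_le_mul_of_nonneg_left (Finset.sum_le_sum fun κ _ => hone κ) (by norm_num)
    _ = _ := by
        rw [Finset.sum_const, hcard, nsmul_eq_mul]
        ring

/-! ### the scale -/

/-- least power of two with `N 2^i ≥ r + 1` -/
theorem exists_scale (N r : ℕ) (hN : 1 ≤ N) : ∃ i : ℕ, r + 1 ≤ N * 2 ^ i :=
  ⟨r + 1, by
    have h := (Nat.lt_two_pow_self (n := r + 1)).le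
    nlinarith⟩

open Classical in
/-- the exponent of the scale of `r` -/
def sci (N r : ℕ) : ℕ := if h : ∃ i : ℕ, r + 1 ≤ N * 2 ^ i then Nat.find h else 0

theorem sci_ge {N r : ℕ} (hN : 1 ≤ N) : r + 1 ≤ N * 2 ^ sci N r := by
  classical
  unfold sci
  rw [dif_pos (exists_scale N r hN)]
  exact Nat.find_spec (exists_scale N r hN)

theorem sci_lt {N r : ℕ} (hN : 1 ≤ N) (hr : N ≤ r) : N * 2 ^ sci N r < 2 * (r + 1) ∧ 1 ≤ sci N r := by
  classical
  unfold sci
  rw [dif_pos (exists_scale N r hN)]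
  set i := Nat.find (exists_scale N r hN) with hi
  have h1 : 1 ≤ i := by
    by_contra h
    have h0 : i = 0 := by omega
    have h2 := Nat.find_spec (exists_scale N r hN)
    rw [← hi, h0] at h2
    simp at h2
    omega
  refine ⟨?_, h1⟩
  have h2 := Nat.find_min (exists_scale N r hN) (m := i - 1) (by omega)
  push Not at h2
  have h3 : 2 ^ i = 2 * 2 ^ (i - 1) := by
    rw [← pow_succ']
    congr 1
    omega
  rw [h3]
  calc N * (2 * 2 ^ (i - 1)) = 2 * (N * 2 ^ (i - 1)) := by ring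
    _ < 2 * (r + 1) := by omega

/-! ### `HypU4` -/

/-- **QM4 and the annulus form of the four-arm bound.** -/
theorem hypU4_of {T0 : ℕ} (hT0 : 1 ≤ T0) (hcov : CovT2 T0) (hsep : SepIn) (hL : Cpl963.L4)
    (hU : Ax107.P4U) : HypU4 := by
  classical
  obtain ⟨c, hc0, hc1, hRS⟩ := rsp_half
  set e : Edge := ((0, 0), false) with he0
  have he : src e = (0, 0) := rfl
  -- the parameters
  have hgp := fun η : ℝ => fun hη : 0 < η => good_params hc0 hc1 hη
  choose! D1 D2 D3 hD1 hD2 hD3 hD using hgp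
  set Nf : ℝ → ℕ := fun η => 32 * D1 η * D2 η * D3 η * T0 with hNf
  set G : ℝ → ℕ → Set Cf := fun η r =>
    GO (0, 0) (D1 η) (D2 η) (D3 η) (T0 * (2 ^ sci (Nf η) r : ℕ)) with hG
  have hNpos : ∀ η, 0 < η → 256 ≤ Nf η := by
    intro η hη
    have h1 := hD1 η hη
    have h2 := hD2 η hη
    have h3 := hD3 η hη
    have : 2 * 2 * 2 * 1 ≤ D1 η * D2 η * D3 η * T0 := by gcongr
    have e0 : Nf η = 32 * (D1 η * D2 η * D3 η * T0) := by simp only [hNf]; ring
    omega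
  have hρ : ∀ η, ∀ r : ℕ, 32 * (D1 η : ℤ) * D2 η * D3 η * (T0 * (2 ^ sci (Nf η) r : ℕ)) =
      ((Nf η * 2 ^ sci (Nf η) r : ℕ) : ℤ) := by
    intro η r
    simp only [hNf]
    push_cast
    ring
  have hqm := qm_of_one_scale (μ := nu hf) (P := fun n : ℕ => (nu hf).real (Sp580.A4 e n))
    (T := fun k l : ℕ => T2 (0, 0) (k : ℤ) (l : ℤ)) (a := 5 / 4) (by norm_num)
    (fun n => measureReal_le_one) (fun k k' l h1 h2 h3 =>
      T2_shrink (by exact_mod_cast h2) (by exact_mod_cast h3) le_rfl)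
    (fun ε hε => by
      filter_upwards [hU ε hε] with r hr
      exact hr e)
    (fun ε hε => by
      filter_upwards [hL ε hε] with r hr
      exact hr e)
    (B := 8) (by norm_num) G
    (by
      intro η hη
      refine ⟨Nf η, fun k J hk => ?_⟩
      have hN := hNpos η hη
      have hkj : ∀ j : ℕ, k ≤ 8 ^ j * k := fun j => Nat.le_mul_of_pos_left k (by positivity)
      refine inter_pow hf (D := fun j => {v | ((Nf η * 2 ^ sci (Nf η) (8 ^ j * k) : ℕ) : ℤ) ≤ sd (0, 0) v ∧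
        sd (0, 0) v ≤ 2 * ((Nf η * 2 ^ sci (Nf η) (8 ^ j * k) : ℕ) : ℤ)}) J ?_ ?_ ?_
      · intro j _
        refine LocD.compl' ?_
        have h4 := locD_GO (0, 0) (hD1 η hη) (hD2 η hη) (hD3 η hη)
          (u := (T0 : ℤ) * (2 ^ sci (Nf η) (8 ^ j * k) : ℕ)) (by
            have : 1 ≤ T0 * 2 ^ sci (Nf η) (8 ^ j * k) := Nat.mul_pos hT0 (by positivity)
            exact_mod_cast this)
        rw [hρ η] at h4
        exact h4
      · have key : ∀ i j : ℕ, i < j → Disjoint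
            {v : P2 | ((Nf η * 2 ^ sci (Nf η) (8 ^ i * k) : ℕ) : ℤ) ≤ sd (0, 0) v ∧
              sd (0, 0) v ≤ 2 * ((Nf η * 2 ^ sci (Nf η) (8 ^ i * k) : ℕ) : ℤ)}
            {v : P2 | ((Nf η * 2 ^ sci (Nf η) (8 ^ j * k) : ℕ) : ℤ) ≤ sd (0, 0) v ∧
              sd (0, 0) v ≤ 2 * ((Nf η * 2 ^ sci (Nf η) (8 ^ j * k) : ℕ) : ℤ)} := by
          intro i j hij
          rw [Set.disjoint_left]
          rintro v ⟨_, h5⟩ ⟨h6, _⟩
          have h7 := (sci_lt (N := Nf η) (r := 8 ^ i * k) (by omega) (hk.trans (hkj i))).1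
          have h8 := sci_ge (N := Nf η) (r := 8 ^ j * k) (by omega)
          have h9 : 8 * (8 ^ i * k) ≤ 8 ^ j * k := by
            have : 8 ^ (i + 1) ≤ 8 ^ j := Nat.pow_le_pow_right (by norm_num) hij
            calc 8 * (8 ^ i * k) = 8 ^ (i + 1) * k := by ring
              _ ≤ _ := Nat.mul_le_mul_right k this
          have h10 := hkj i
          have h11 : ((Nf η * 2 ^ sci (Nf η) (8 ^ j * k) : ℕ) : ℤ) ≤
            2 * ((Nf η * 2 ^ sci (Nf η) (8 ^ i * k) : ℕ) : ℤ) := h6.trans h5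
          have h12 : Nf η * 2 ^ sci (Nf η) (8 ^ j * k) ≤ 2 * (Nf η * 2 ^ sci (Nf η) (8 ^ i * k)) := by
            exact_mod_cast h11
          omega
        intro i _ j _ hij
        rcases lt_or_gt_of_ne hij with h | h
        · exact key i j h
        · exact (key j i h).symm
      · intro j _
        exact (hD η hη hf _ _ (0, 0) (hRS (2 * (Nf η * 2 ^ sci (Nf η) (8 ^ j * k)) + 1)) (by
          have : 1 ≤ T0 * 2 ^ sci (Nf η) (8 ^ j * k) := Nat.mul_pos hT0 (by positivity)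
          exact_mod_cast this) (by rw [hρ η]; push_cast; exact le_rfl)).1)
    (by
      intro η hη
      obtain ⟨K, hK⟩ := hsep c hc0
      have hN := hNpos η hη
      set N := Nf η with hNdef
      set C : ℝ := 4 * ((2 * N + 1) ^ 8 : ℕ) * (c ^ (8 * (2 * N + 8) ^ 2))⁻¹ with hC
      have hC0 : 0 ≤ C := by positivity
      refine ⟨max K 0 * C, N, by positivity, fun r l hr hl => ?_⟩
      set i := sci N r with hi
      have h1 := sci_ge (N := N) (r := r) (by omega)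
      obtain ⟨h2, h3⟩ := sci_lt (N := N) (r := r) (by omega) hr
      rw [← hi] at h1 h2 h3
      have h4 : 2 ≤ 2 ^ i := by
        calc 2 = 2 ^ 1 := by norm_num
          _ ≤ 2 ^ i := Nat.pow_le_pow_right (by norm_num) h3
      have hstep := step_out hcov (hD1 η hη) (hD2 η hη) (hD3 η hη) hT0 (p := hf) h4 (hRS _) he
        (N := N) rfl (k := r) (l := l) (by omega) (by
          have : r < N * 2 ^ i := by omega
          exact_mod_cast this) (by
          have : 2 * (N * 2 ^ i) ≤ l := by omega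
          exact_mod_cast this)
      have h5 : (nu hf).real (Sp580.A4 e r) ≤ K * (nu hf).real (NiceU e (2 ^ i)) := by
        refine le_trans (measureReal_mono (A4_anti (R := 2 ^ (i + 2)) ?_ ?_)) (hK hf i (hRS _) e he)
        · exact one_le_pow₀ (by norm_num)
        · have h6 : 256 * 2 ^ i ≤ N * 2 ^ i := Nat.mul_le_mul_right _ hN
          have h7 : 2 ^ (i + 2) = 4 * 2 ^ i := by ring
          have h8 : 2 ^ (i + 2) ≤ r := by omega
          exact_mod_cast h8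
      have h6 : (nu hf).real (Sp580.A4 e r) ≤ max K 0 * (nu hf).real (NiceU e (2 ^ i)) :=
        h5.trans (mul_le_mul_of_nonneg_right (le_max_left _ _) measureReal_nonneg)
      calc (nu hf).real (T2 (0, 0) (r : ℤ) (l : ℤ) ∩ G η r) * (nu hf).real (Sp580.A4 e r)
          ≤ (nu hf).real (T2 (0, 0) (r : ℤ) (l : ℤ) ∩ G η r) *
              (max K 0 * (nu hf).real (NiceU e (2 ^ i))) :=
            mul_le_mul_of_nonneg_left h6 measureReal_nonneg
        _ = max K 0 * ((nu hf).real (T2 (0, 0) (r : ℤ) (l : ℤ) ∩ G η r) *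
              (nu hf).real (NiceU e (2 ^ i))) := by ring
        _ ≤ max K 0 * (C * (nu hf).real (Sp580.A4 e l)) :=
            mul_le_mul_of_nonneg_left hstep (le_max_right _ _)
        _ = _ := by ring)
  exact annulus_of_point (P := fun n : ℕ => (nu hf).real (Sp580.A4 e n))
    (T := fun k l : ℕ => (nu hf).real (T2 (0, 0) (k : ℤ) (l : ℤ))) (a := 5 / 4) (by norm_num)
    (fun k l => measureReal_le_one) (fun k k' l h1 h2 h3 =>
      measureReal_mono (T2_shrink (by exact_mod_cast h2) (by exact_mod_cast h3) le_rfl))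
    (fun ε hε => by
      filter_upwards [hU ε hε] with r hr
      exact hr e)
    (fun ε hε => by
      filter_upwards [hL ε hε] with r hr
      exact hr e) hqm

end Crest.Agent.R158.Qf808
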