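import Crest.Agent.R158.Ud5_107
import Crest.Agent.R158.Qf6_808

/-!
# R158, Block A4, leaf D (helper107), file 6: closing of D

* `dleft_exp` : `|S4D| ≤ n ^ (5/12 + ε) P(A4) ^ (1 - ε)`
* `p2_poly`   : `n ^ (-K) ≤ p2 n`
* `DRight`    : the lower bound on the right side of (ID)
* `sd_of_right` : `DRight → SD p2 p4`
-/

set_option autoImplicit false

noncomputable section

namespace Crest.Agent.R158.Ud107

open Real Function MeasureTheory Filter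
open Crest.Agent.R161.Tas682 (sd)
open Crest.Agent.R161.Geo729
open Crest.Agent.R158.It200 (Cfz Corner fc i1 i2 o1 o2)
open Crest.Agent.R158.Wf850 (Lps Face BF NN NN_dep)
open Crest.Agent.R158.Vx107 (Fw Sw Ntr W mass tot nab op cl Dr)
open Crest.Agent.R158.Cn109 (VV DepF dia)
open Crest.Agent.R158.Rs689 (nu hf Dep)
open Crest.Agent.R158.Vg109 (den)
open Crest.Agent.R158.Ax107 (p2 p4 SD)

local notation "μh" => nu Crest.Agent.R158.Rs689.hf

theorem ev_const (C : ℝ) {d : ℝ} (hd : 0 < d) : ∀ᶠ n : ℕ in atTop, C ≤ (n : ℝ) ^ d :=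
  ((tendsto_rpow_atTop hd).comp tendsto_natCast_atTop_atTop).eventually_ge_atTop C

/-- **exponent of the left side** -/
theorem dleft_exp (hD : Vg109.HD) (hE : HE2) {C0 : ℝ} (hC0 : 0 ≤ C0) {ε : ℝ} (hε : 0 < ε)
    (hε1 : ε < 1) : ∃ τ0 : ℝ, 0 < τ0 ∧ ∀ᶠ n : ℕ in atTop,
    ∀ (R : ℕ) (w : Face →₀ ℝ) (v : P2) (b : Bool) (x : Edge), 16 * n ≤ R →
      (R : ℝ) ≤ (n : ℝ) ^ (1 + τ0) → RingW C0 R w → (n : ℤ) ≤ sd (0, 0) v → sd (0, 0) v ≤ 2 * n →
      src x = (0, 0) →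
      |S4D (cg (2 * π / 3) w (v, b)) x| ≤
        (n : ℝ) ^ (5 / 12 + ε) * (μh).real (Sp580.A4 x (n / 4 : ℕ)) ^ (1 - ε) := by
  obtain ⟨η, hη, hE'⟩ := hE (ε / 4) (by positivity)
  have hl2 : (0 : ℝ) < log 2 := Real.log_pos (by norm_num)
  -- choice of `δ`
  obtain ⟨δ, hδ0, hδε, hδη⟩ : ∃ δ : ℝ, 0 < δ ∧ δ ≤ ε ∧ |1 / (1 - δ) * log 2 - log 2| ≤ η := by
    refine ⟨min (ε / 2) (min (1 / 2) (η / 2)), by positivity, (min_le_left _ _).trans (by linarith),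
      ?_⟩
    set δ := min (ε / 2) (min (1 / 2) (η / 2)) with hδ
    have h1 : δ ≤ 1 / 2 := (min_le_right _ _).trans (min_le_left _ _)
    have h2 : δ ≤ η / 2 := (min_le_right _ _).trans (min_le_right _ _)
    have h3 : 0 < δ := by positivity
    have h4 : 1 / (1 - δ) * log 2 - log 2 = δ / (1 - δ) * log 2 := by
      have : 1 - δ ≠ 0 := by linarith
      field_simp; ring
    have h5 : log 2 ≤ 1 := by have := log_two_lt_d9; linarith
    have h6 : 0 < 1 - δ := by linarith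
    rw [h4, abs_of_nonneg (by positivity)]
    have h7 : δ / (1 - δ) ≤ 2 * δ := by
      rw [div_le_iff₀ h6]; nlinarith
    have h8 : 0 ≤ δ / (1 - δ) := by positivity
    nlinarith
  have hδ1 : δ < 1 := by linarith
  obtain ⟨C, hC, hdl⟩ := dleft hC0 hδ0 hδ1
  obtain ⟨τ1, hτ1, hloc⟩ := loc_pow hD (ε := ε / 4) (by positivity)
  refine ⟨min τ1 (ε / (4 * C)), by positivity, ?_⟩
  set τ0 := min τ1 (ε / (4 * C)) with hτ0
  filter_upwards [hE', hloc, ev_const C (d := ε / 4) (by positivity), eventually_ge_atTop 32]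
    with n h1 h2 h3 h4 R w v b x hR1 hR2 hw hv1 hv2 hx
  have hn0 : (0 : ℝ) < n := by exact_mod_cast (by omega : 0 < n)
  have hn1 : (1 : ℝ) ≤ n := by exact_mod_cast (by omega : 1 ≤ n)
  have hR0 : (0 : ℝ) < R := by exact_mod_cast (by omega : 0 < R)
  have hd := hdl R n w v b x h4 hR1 hw hv1 hv2 hx
  -- factor 2
  have a2 : ((R : ℝ) / n) ^ C ≤ (n : ℝ) ^ (ε / 4) := by
    have b1 : (R : ℝ) / n ≤ (n : ℝ) ^ τ0 := by
      rw [div_le_iff₀ hn0]
      refine hR2.trans (le_of_eq ?_)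
      rw [Real.rpow_add hn0, Real.rpow_one, mul_comm]
    calc ((R : ℝ) / n) ^ C ≤ ((n : ℝ) ^ τ0) ^ C :=
          Real.rpow_le_rpow (by positivity) b1 (by linarith)
      _ = (n : ℝ) ^ (τ0 * C) := by rw [← Real.rpow_mul hn0.le]
      _ ≤ (n : ℝ) ^ (ε / 4) := by
          refine Real.rpow_le_rpow_of_exponent_le hn1 ?_
          have : τ0 ≤ ε / (4 * C) := min_le_right _ _
          calc τ0 * C ≤ ε / (4 * C) * C := mul_le_mul_of_nonneg_right this (by linarith)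
            _ = ε / 4 := by field_simp
  -- factor 3
  have a3 : exp (√3 * (2 * π / 3) * VV (Nat.log 2 R)) ≤ (n : ℝ) ^ (1 / 3 + ε / 4) := by
    refine h2 R (by omega) (hR2.trans ?_)
    exact Real.rpow_le_rpow_of_exponent_le hn1 (by have := min_le_left τ1 (ε / (4 * C)); linarith)
  -- factor 5
  have a5 : ∫ z, exp (1 / (1 - δ) * log 2 * NN (0, 0) 0 ((n / 2 : ℕ) : ℤ) z) ∂μh ≤
      (n : ℝ) ^ (1 / 12 + ε / 4) := by
    have h1δ : 0 < 1 - δ := by linarith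
    refine (Lc522.exp_mono_nn (by positivity) le_rfl ?_).trans ((h1 _ hδη).2)
    exact_mod_cast Nat.div_le_self n 2
  -- factor 4
  set P := (μh).real (Sp580.A4 x (n / 4 : ℕ)) with hP
  have hP0 : 0 ≤ P := measureReal_nonneg
  have hP1 : P ≤ 1 := measureReal_le_one
  have a4 : P ^ (1 - δ) ≤ P ^ (1 - ε) := by
    rcases hP0.eq_or_lt with h0 | h0
    · rw [← h0, Real.zero_rpow (by linarith), Real.zero_rpow (by linarith)]
    · exact Real.rpow_le_rpow_of_exponent_ge h0 hP1 (by linarith)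
  have hE0 : 0 ≤ ∫ z, exp (1 / (1 - δ) * log 2 * NN (0, 0) 0 ((n / 2 : ℕ) : ℤ) z) ∂μh :=
    integral_nonneg fun z => (exp_pos _).le
  have hP2 : 0 ≤ P ^ (1 - δ) := by positivity
  have hP3 : 0 ≤ P ^ (1 - ε) := by positivity
  refine hd.trans ?_
  calc C * ((R : ℝ) / n) ^ C * exp (√3 * (2 * π / 3) * VV (Nat.log 2 R)) * P ^ (1 - δ) *
        ∫ z, exp (1 / (1 - δ) * log 2 * NN (0, 0) 0 ((n / 2 : ℕ) : ℤ) z) ∂μh
      ≤ (n : ℝ) ^ (ε / 4) * (n : ℝ) ^ (ε / 4) * (n : ℝ) ^ (1 / 3 + ε / 4) * P ^ (1 - ε) *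
        (n : ℝ) ^ (1 / 12 + ε / 4) := by
        refine mul_le_mul (mul_le_mul (mul_le_mul (mul_le_mul h3 a2 (by positivity)
          (by positivity)) a3 (exp_pos _).le (by positivity)) a4 hP2 (by positivity)) a5 hE0
          (by positivity)
    _ = ((n : ℝ) ^ (ε / 4) * (n : ℝ) ^ (ε / 4) * (n : ℝ) ^ (1 / 3 + ε / 4) *
        (n : ℝ) ^ (1 / 12 + ε / 4)) * P ^ (1 - ε) := by ring
    _ = (n : ℝ) ^ (5 / 12 + ε) * P ^ (1 - ε) := by
        rw [← Real.rpow_add hn0, ← Real.rpow_add hn0, ← Real.rpow_add hn0]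
        congr 2
        ring

/-! ### polynomial lower bound of `p2` -/

theorem nice2_low : ∃ B D : ℝ, 0 < B ∧ 1 ≤ D ∧ ∀ j : ℕ,
    B ≤ D ^ j * (μh).real (Sb689.Nice2 (0, 0) (2 ^ j)) := by
  obtain ⟨c, hc, hc1, hR⟩ := Qf808.rsp_half
  have hD : 1 ≤ 1 / c ^ 176 := by
    rw [le_div_iff₀ (by positivity), one_mul]
    exact pow_le_one₀ hc.le hc1
  refine ⟨(c / 2) ^ (Sh158.SN2 1).card, 1 / c ^ 176, by positivity, hD, fun j => ?_⟩
  induction j with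
  | zero =>
    rw [pow_zero, pow_zero, one_mul]
    exact Sh158.nice2_base (hR 1) le_rfl Sb689.nr0
  | succ j ih =>
    refine ih.trans ?_
    have h1 := Sh158.nice2_ext' (n := 2 ^ j) Nat.one_le_two_pow (hR (2 ^ j)) (0, 0)
    have h2 : 2 * 2 ^ j = 2 ^ (j + 1) := by rw [pow_succ]; ring
    rw [h2] at h1
    calc (1 / c ^ 176) ^ j * (μh).real (Sb689.Nice2 (0, 0) (2 ^ j))
        ≤ (1 / c ^ 176) ^ j * (1 / c ^ 176 * (μh).real (Sb689.Nice2 (0, 0) (2 ^ (j + 1)))) :=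
          mul_le_mul_of_nonneg_left h1 (by positivity)
      _ = _ := by rw [pow_succ]; ring

theorem p2_poly : ∃ K : ℝ, 0 < K ∧ ∀ᶠ n : ℕ in atTop, (n : ℝ) ^ (-K) ≤ p2 n := by
  obtain ⟨B, D, hB, hD, h⟩ := nice2_low
  have hD0 : 0 < D := by linarith
  set α : ℝ := Real.logb 2 D with hα
  have hα0 : 0 ≤ α := Real.logb_nonneg (by norm_num) hD
  have hDα : (2 : ℝ) ^ α = D := Real.rpow_logb (by norm_num) (by norm_num) hD0
  refine ⟨α + 1, by linarith, ?_⟩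
  filter_upwards [ev_const (2 ^ α / B) (d := 1) one_pos, eventually_ge_atTop 1] with n h1 hn
  have hn0 : (0 : ℝ) < n := by exact_mod_cast hn
  set j := Nat.log 2 n + 1 with hj
  have h2 : n ≤ 16 * 2 ^ j := by
    have : n < 2 ^ j := Nat.lt_pow_succ_log_self (by norm_num) n
    omega
  have h3 : (2 : ℝ) ^ j ≤ 2 * n := by
    have h4 : 2 ^ Nat.log 2 n ≤ n := Nat.pow_log_le_self 2 (by omega)
    have h5 : ((2 ^ Nat.log 2 n : ℕ) : ℝ) ≤ n := by exact_mod_cast h4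
    push_cast at h5
    rw [hj, pow_succ]; linarith
  have h4 : (μh).real (Sb689.Nice2 (0, 0) (2 ^ j)) ≤ p2 n := by
    refine le_trans ?_ (Ax107.p2_anti h2)
    exact measureReal_mono (Sb689.Nice2_sub (n := 2 ^ j) Nat.one_le_two_pow)
  have h5 := h j
  have h6 : D ^ j ≤ 2 ^ α * (n : ℝ) ^ α := by
    calc D ^ j = ((2 : ℝ) ^ j) ^ α := by
          rw [← hDα, ← Real.rpow_natCast, ← Real.rpow_natCast (2 : ℝ) j,
            ← Real.rpow_mul (by norm_num), ← Real.rpow_mul (by norm_num), mul_comm]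
      _ ≤ (2 * (n : ℝ)) ^ α := Real.rpow_le_rpow (by positivity) h3 hα0
      _ = _ := Real.mul_rpow (by norm_num) hn0.le
  have h7 : B ≤ 2 ^ α * (n : ℝ) ^ α * p2 n := by
    have h8 : 0 ≤ (μh).real (Sb689.Nice2 (0, 0) (2 ^ j)) := measureReal_nonneg
    calc B ≤ D ^ j * (μh).real (Sb689.Nice2 (0, 0) (2 ^ j)) := h5
      _ ≤ (2 ^ α * (n : ℝ) ^ α) * p2 n := mul_le_mul h6 h4 h8 (by positivity)
  have h9 : (2 : ℝ) ^ α ≤ B * n := by
    rw [div_le_iff₀ hB, Real.rpow_one] at h1; linarith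
  have h10 : (n : ℝ) ^ (-(α + 1)) = ((n : ℝ) ^ α * n)⁻¹ := by
    rw [Real.rpow_neg hn0.le, Real.rpow_add hn0, Real.rpow_one]
  have h11 : (0 : ℝ) < (n : ℝ) ^ α := Real.rpow_pos_of_pos hn0 _
  rw [h10, inv_le_iff_one_le_mul₀ (by positivity)]
  have h12 : 0 ≤ p2 n := Ax107.p2_nonneg n
  have h13 : B ≤ B * n * (n : ℝ) ^ α * p2 n := h7.trans (by
    have := mul_le_mul_of_nonneg_right h9 (mul_nonneg h11.le h12)
    nlinarith)
  have h14 : B * 1 ≤ B * (p2 n * ((n : ℝ) ^ α * n)) := by nlinarith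
  exact le_of_mul_le_mul_left h14 hB

/-! ### closing -/

/-- **the right side of (ID)** for the charges at the two faces of the corner `((0,n), 0)` -/
def DRight : Prop := ∀ ε : ℝ, 0 < ε → ∃ τ0 : ℝ, 0 < τ0 ∧ ∀ τ : ℝ, 0 < τ → τ ≤ τ0 →
  ∀ᶠ j : ℕ in atTop, ∃ R : ℕ, 16 * (256 * 2 ^ j) ≤ R ∧
    (R : ℝ) ≤ ((256 * 2 ^ j : ℕ) : ℝ) ^ (1 + 2 * τ) ∧
    ((256 * 2 ^ j : ℕ) : ℝ) ^ (-ε) * exp (-(√3 * (2 * π / 3) * VV (Nat.log 2 R))) *
        p2 (256 * 2 ^ j) ^ 2 ≤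
      S4D (cg (2 * π / 3) (Bk430.ws R) (((0, ((256 * 2 ^ j : ℕ) : ℤ)), false) : Face))
          ((0, 0), false) -
        S4D (cg (2 * π / 3) (Bk430.ws R) (((0, ((256 * 2 ^ j : ℕ) : ℤ)), true) : Face))
          ((0, 0), false)

theorem p4_anti {a b : ℕ} (h1 : 1 ≤ a) (h : a ≤ b) : p4 b ≤ p4 a :=
  measureReal_mono (Sp580.A4_anti (by exact_mod_cast h1) (by exact_mod_cast h))

theorem ev_dyadic {p : ℕ → Prop} (h : ∀ᶠ n in atTop, p n) :
    ∀ᶠ j : ℕ in atTop, p (256 * 2 ^ j) := by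
  have ht : Tendsto (fun j : ℕ => 256 * 2 ^ j) atTop atTop :=
    tendsto_atTop_mono (fun j => (Nat.lt_two_pow_self (n := j)).le.trans
      (Nat.le_mul_of_pos_left _ (by norm_num))) tendsto_id
  exact ht.eventually h

/-- power manipulation -/
theorem pow_trick {X y e L N : ℝ} (hN : 1 ≤ N) (he : 0 < e) (he1 : e ≤ 1 / 2)
    (hL : 0 ≤ L) (hX : N ^ (-L) ≤ X) (hy0 : 0 ≤ y) (h : X ≤ y ^ (1 - e)) :
    X * N ^ (-(2 * e * L)) ≤ y := by
  have hN0 : 0 < N := by linarith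
  have h1 : 0 < N ^ (-L) := Real.rpow_pos_of_pos hN0 _
  have hX0 : 0 < X := h1.trans_le hX
  have h1e : 0 < 1 - e := by linarith
  have h2 : X ^ (1 / (1 - e)) ≤ y := by
    calc X ^ (1 / (1 - e)) ≤ (y ^ (1 - e)) ^ (1 / (1 - e)) :=
          Real.rpow_le_rpow hX0.le h (by positivity)
      _ = y := by
          rw [← Real.rpow_mul hy0, mul_one_div_cancel h1e.ne', Real.rpow_one]
  refine le_trans ?_ h2
  have h3 : 1 / (1 - e) = 1 + e / (1 - e) := by field_simp; ring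
  rw [h3, Real.rpow_add hX0, Real.rpow_one]
  refine mul_le_mul_of_nonneg_left ?_ hX0.le
  have h4 : e / (1 - e) ≤ 2 * e := by
    rw [div_le_iff₀ h1e]; nlinarith
  have h5 : 0 ≤ e / (1 - e) := by positivity
  calc N ^ (-(2 * e * L)) ≤ N ^ (-L * (e / (1 - e))) := by
        refine Real.rpow_le_rpow_of_exponent_le hN ?_
        nlinarith
    _ = (N ^ (-L)) ^ (e / (1 - e)) := Real.rpow_mul hN0.le _ _
    _ ≤ X ^ (e / (1 - e)) := Real.rpow_le_rpow h1.le hX h5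

/-- **closing of D** -/
theorem sd_of_right (hD : Vg109.HD) (hE : HE2) (hR : DRight) : SD p2 p4 := by
  obtain ⟨K, hK, hpoly⟩ := p2_poly
  refine Ax107.sd_of_const Ax107.p2_nonneg Ax107.p2_anti fun ε hε => ⟨256, ?_⟩
  set L : ℝ := 4 + 2 * K with hL
  set e : ℝ := min (1 / 2) (min ε 1 / (16 + 4 * L)) with he
  have hL0 : 0 < L := by positivity
  have hm0 : 0 < min ε 1 := lt_min hε one_pos
  have he0 : 0 < e := lt_min (by norm_num) (by positivity)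
  have he1 : e ≤ 1 / 2 := min_le_left _ _
  have he2 : e * (16 + 4 * L) ≤ min ε 1 := by
    have : e ≤ min ε 1 / (16 + 4 * L) := min_le_right _ _
    rwa [le_div_iff₀ (by positivity)] at this
  have he3 : e * (16 + 4 * L) ≤ ε := he2.trans (min_le_left _ _)
  have he4 : e * (16 + 4 * L) ≤ 1 := he2.trans (min_le_right _ _)
  obtain ⟨τ0, hτ0, hleft⟩ := dleft_exp hD hE (C0 := 1) zero_le_one he0 (by linarith)
  obtain ⟨τ1, hτ1, hright⟩ := hR e he0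
  obtain ⟨τ2, hτ2, hloc⟩ := loc_pow_neg hD he0
  set τ : ℝ := min (min (τ0 / 2) τ1) (τ2 / 2) with hτ
  have t0 : 0 < τ := lt_min (lt_min (by linarith) hτ1) (by linarith)
  have t1 : τ ≤ τ0 / 2 := (min_le_left _ _).trans (min_le_left _ _)
  have t2 : τ ≤ τ1 := (min_le_left _ _).trans (min_le_right _ _)
  have t3 : τ ≤ τ2 / 2 := min_le_right _ _
  have hmain : ∀ᶠ j : ℕ in atTop, ((256 * 2 ^ j : ℕ) : ℝ) ^ (-(3 / 4 : ℝ) - 4 * e - 2 * e * L) *
      p2 (256 * 2 ^ j) ^ 2 ≤ p4 (64 * 2 ^ j) := by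
    filter_upwards [hright τ t0 t2, ev_dyadic hleft, ev_dyadic hloc, ev_dyadic hpoly,
      ev_dyadic (ev_const 2 he0)] with j h1 h2 h3 h4 h5
    obtain ⟨R, hR1, hR2, h6⟩ := h1
    set n : ℕ := 256 * 2 ^ j with hn
    have hj : 1 ≤ 2 ^ j := Nat.one_le_two_pow
    have hn1 : (1 : ℝ) ≤ n := by exact_mod_cast (by omega : 1 ≤ n)
    have hn0 : (0 : ℝ) < n := by linarith
    have hR3 : (R : ℝ) ≤ (n : ℝ) ^ (1 + τ0) := hR2.trans
      (Real.rpow_le_rpow_of_exponent_le hn1 (by linarith))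
    have hR4 : (R : ℝ) ≤ (n : ℝ) ^ (1 + τ2) := hR2.trans
      (Real.rpow_le_rpow_of_exponent_le hn1 (by linarith))
    have hsd : sd (0, 0) ((0, (n : ℤ)) : P2) = n := by
      unfold sd
      simp
    have hw := ringW_ws (R := R) (by omega)
    have e4 : n / 4 = 64 * 2 ^ j := by omega
    have a1 := h2 R (Bk430.ws R) (0, (n : ℤ)) false ((0, 0), false) hR1 hR3 hw (by rw [hsd])
      (by rw [hsd]; omega) rfl
    have a2 := h2 R (Bk430.ws R) (0, (n : ℤ)) true ((0, 0), false) hR1 hR3 hw (by rw [hsd])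
      (by rw [hsd]; omega) rfl
    rw [e4] at a1 a2
    set P : ℝ := (μh).real (Sp580.A4 ((0, 0), false) ((64 * 2 ^ j : ℕ) : ℤ)) with hP
    have hPp : P = p4 (64 * 2 ^ j) := rfl
    have b1 := h3 R (by omega) hR4
    set q := p2 n with hq
    have hq0 : 0 ≤ q := Ax107.p2_nonneg n
    set V := exp (-(√3 * (2 * π / 3) * VV (Nat.log 2 R))) with hV
    -- combine
    have c1 : (n : ℝ) ^ (-e) * V * q ^ 2 ≤ 2 * ((n : ℝ) ^ (5 / 12 + e) * P ^ (1 - e)) := by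
      refine h6.trans ((le_abs_self _).trans ((abs_sub _ _).trans ?_))
      linarith
    have c2 : (n : ℝ) ^ (-e) * (n : ℝ) ^ (-(1 / 3 : ℝ) - e) * q ^ 2 ≤
        (n : ℝ) ^ e * ((n : ℝ) ^ (5 / 12 + e) * P ^ (1 - e)) := by
      have d1 : 0 ≤ (n : ℝ) ^ (5 / 12 + e) * P ^ (1 - e) := by
        have : 0 ≤ P := measureReal_nonneg
        positivity
      calc (n : ℝ) ^ (-e) * (n : ℝ) ^ (-(1 / 3 : ℝ) - e) * q ^ 2
          ≤ (n : ℝ) ^ (-e) * V * q ^ 2 := by gcongr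
        _ ≤ 2 * ((n : ℝ) ^ (5 / 12 + e) * P ^ (1 - e)) := c1
        _ ≤ _ := mul_le_mul_of_nonneg_right h5 d1
    have c3 : (n : ℝ) ^ (-(3 / 4 : ℝ) - 4 * e) * q ^ 2 ≤ P ^ (1 - e) := by
      have d2 : (0 : ℝ) < (n : ℝ) ^ (5 / 12 + 2 * e) := Real.rpow_pos_of_pos hn0 _
      have d3 : (n : ℝ) ^ (-e) * (n : ℝ) ^ (-(1 / 3 : ℝ) - e) * q ^ 2 =
          (n : ℝ) ^ (5 / 12 + 2 * e) * ((n : ℝ) ^ (-(3 / 4 : ℝ) - 4 * e) * q ^ 2) := by
        rw [← mul_assoc, ← Real.rpow_add hn0, ← Real.rpow_add hn0]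
        congr 2
        ring
      have d4 : (n : ℝ) ^ e * ((n : ℝ) ^ (5 / 12 + e) * P ^ (1 - e)) =
          (n : ℝ) ^ (5 / 12 + 2 * e) * P ^ (1 - e) := by
        rw [← mul_assoc, ← Real.rpow_add hn0]
        congr 2
        ring
      rw [d3, d4] at c2
      exact le_of_mul_le_mul_left c2 d2
    have c4 : (n : ℝ) ^ (-L) ≤ (n : ℝ) ^ (-(3 / 4 : ℝ) - 4 * e) * q ^ 2 := by
      have d5 : ((n : ℝ) ^ (-K)) ^ 2 ≤ q ^ 2 := pow_le_pow_left₀ (by positivity) h4 2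
      have d6 : ((n : ℝ) ^ (-K)) ^ 2 = (n : ℝ) ^ (-(2 * K)) := by
        rw [← Real.rpow_natCast, ← Real.rpow_mul hn0.le]
        congr 1
        push_cast; ring
      calc (n : ℝ) ^ (-L) ≤ (n : ℝ) ^ (-(3 / 4 : ℝ) - 4 * e + -(2 * K)) := by
            refine Real.rpow_le_rpow_of_exponent_le hn1 ?_
            rw [hL]; nlinarith
        _ = (n : ℝ) ^ (-(3 / 4 : ℝ) - 4 * e) * (n : ℝ) ^ (-(2 * K)) := Real.rpow_add hn0 _ _
        _ ≤ _ := by
            rw [← d6]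
            exact mul_le_mul_of_nonneg_left d5 (by positivity)
    have c5 := pow_trick hn1 he0 he1 hL0.le c4 (measureReal_nonneg : 0 ≤ P) c3
    have c6 : (n : ℝ) ^ (-(3 / 4 : ℝ) - 4 * e) * q ^ 2 * (n : ℝ) ^ (-(2 * e * L)) ≤
        p4 (64 * 2 ^ j) := c5
    refine le_trans (le_of_eq ?_) c6
    have d7 : -(3 / 4 : ℝ) - 4 * e - 2 * e * L = (-(3 / 4 : ℝ) - 4 * e) + -(2 * e * L) := by ring
    rw [d7, Real.rpow_add hn0]
    ring
  obtain ⟨J, hJ⟩ := eventually_atTop.1 hmain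
  filter_upwards [eventually_ge_atTop (2 ^ J), ev_const (256 ^ 2) (d := ε / 2) (by linarith)]
    with N hN1 hN2
  have hN0 : 1 ≤ N := Nat.one_le_two_pow.trans hN1
  set j := Nat.log 2 N with hj
  have hjJ : J ≤ j := Nat.le_log_of_pow_le (by norm_num) hN1
  have h1 := hJ j hjJ
  have h2 : 2 ^ j ≤ N := Nat.pow_log_le_self 2 (by omega)
  have h3 : N < 2 ^ (j + 1) := Nat.lt_pow_succ_log_self (by norm_num) N
  rw [pow_succ] at h3
  have h4 : p4 (64 * 2 ^ j) ≤ p4 N := p4_anti hN0 (by omega)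
  have h5 : p2 (256 * N) ≤ p2 (256 * 2 ^ j) := Ax107.p2_anti (Nat.mul_le_mul_left _ h2)
  refine le_trans ?_ (h1.trans h4)
  have hNr : (1 : ℝ) ≤ N := by exact_mod_cast hN0
  have hNp : (0 : ℝ) < N := by linarith
  have hj1 : 1 ≤ 2 ^ j := Nat.one_le_two_pow
  have hn0 : (0 : ℝ) < ((256 * 2 ^ j : ℕ) : ℝ) := by positivity
  have hnN : ((256 * 2 ^ j : ℕ) : ℝ) ≤ 256 * N := by exact_mod_cast Nat.mul_le_mul_left _ h2
  set a : ℝ := 3 / 4 + 4 * e + 2 * e * L with ha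
  have ha1 : a ≤ 3 / 4 + ε / 2 := by rw [ha]; nlinarith
  have ha2 : a ≤ 2 := by rw [ha]; nlinarith
  have ha0 : 0 < a := by rw [ha]; positivity
  have h6 : (N : ℝ) ^ (-(3 / 4 : ℝ) - ε) ≤
      ((256 * 2 ^ j : ℕ) : ℝ) ^ (-(3 / 4 : ℝ) - 4 * e - 2 * e * L) := by
    have e1 : -(3 / 4 : ℝ) - 4 * e - 2 * e * L = -a := by rw [ha]; ring
    rw [e1]
    calc (N : ℝ) ^ (-(3 / 4 : ℝ) - ε) ≤ (256 * (N : ℝ)) ^ (-a) := by
          rw [Real.mul_rpow (by norm_num) hNp.le]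
          have f1 : (N : ℝ) ^ (-(3 / 4 : ℝ) - ε) ≤ (N : ℝ) ^ (-(ε / 2)) * (N : ℝ) ^ (-a) := by
            rw [← Real.rpow_add hNp]
            exact Real.rpow_le_rpow_of_exponent_le hNr (by linarith)
          refine f1.trans (mul_le_mul_of_nonneg_right ?_ (by positivity))
          rw [Real.rpow_neg hNp.le, Real.rpow_neg (by norm_num)]
          refine inv_anti₀ (by positivity) ?_
          calc (256 : ℝ) ^ a ≤ (256 : ℝ) ^ (2 : ℝ) :=
                Real.rpow_le_rpow_of_exponent_le (by norm_num) ha2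
            _ = 256 ^ 2 := by norm_num
            _ ≤ _ := hN2
      _ ≤ _ := Real.rpow_le_rpow_of_nonpos hn0 hnN (by linarith)
  exact mul_le_mul h6 (pow_le_pow_left₀ (Ax107.p2_nonneg _) h5 2) (by positivity) (by positivity)

end Crest.Agent.R158.Ud107
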