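import Crest.Agent.R158.Fd9_61
import Crest.Agent.R158.Ud6_107
import Crest.Agent.R158.Uc6_31
import Crest.Agent.R158.Lc6_522

/-!
# Row 158, leaf D of doc 1912 (helper61), part 10: the right side and `SD`

* `LB4` : the sum over the four corners
* `dright : DRight`
* `sd_law : Law3 → SD p2 p4`
-/

set_option autoImplicit false

noncomputable section

namespace Crest.Agent.R158.Fd61

open Crest.Agent.R161.Geo729 Crest.Agent.R161.Dual374
open Crest.Agent.R161.Tas682 (sd)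
open Crest.Agent.R158.It200 hiding hf
open Crest.Agent.R158.Wf850
open Crest.Agent.R158.Vx107 hiding tot
open Crest.Agent.R158.Cn109 (VV)
open Crest.Agent.R158.Rs689 (nu PB Dep)
open Crest.Agent.R158.Bk430 (ws us)
open Crest.Agent.R158.Zr110 (Mk Mo)
open Crest.Agent.R158.Ax107 (p2 p4 p2_nonneg p2_le_one p2_anti fl_bounds ev_pow)
open Crest.Agent.R158.Vg109 (HD)
open Function Real MeasureTheory ProbabilityTheory unitInterval Filter

local notation "μh" => nu Crest.Agent.R158.Rs689.hf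

/-- the edge at the origin -/
def xE : Edge := ((0, 0), false)

/-- the main event is likely -/
theorem gd_low : ∃ c : ℝ, 0 < c ∧ ∀ j q : ℕ, 1024 * 2 ^ j ≤ q →
    c * Nj j ^ 2 ≤ (μh).real (GdE (i1 xE) (eP (256 * 2 ^ j)) q) := by
  obtain ⟨c, hc, h⟩ := Mc468.i6
  refine ⟨c, hc, fun j q hq => ?_⟩
  obtain ⟨E, -, h2, h3⟩ := h (2 ^ j) 0 true Nat.one_le_two_pow
  have hf0 : Mc468.f0 0 = (0, 0) := by
    unfold Mc468.f0
    rw [fc_zero]
  rw [hf0] at h2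
  refine le_trans h2 (measureReal_mono fun z hz => ?_)
  obtain ⟨-, g2, g3⟩ := h3 z hz
  have e1 : i1 xE = ((0, 0), 0) := rfl
  have e2 : eP (256 * 2 ^ j) = (Mc468.y2 (2 ^ j), 0) := by
    unfold eP Mc468.y2
    push_cast
    rfl
  rw [e1, e2]
  refine ⟨g2, ?_⟩
  rintro ⟨i, ⟨d, hd, rfl⟩, hM⟩
  have g4 := (g3 d hd).2
  have g5 := Vx107.sd_st (ah d)
  have hq' : (1024 : ℤ) * ((2 ^ j : ℕ) : ℤ) ≤ q := by exact_mod_cast hq
  have h7 : ((q + 3 : ℕ) : ℤ) < sd (0, 0) (src (ah d)) ∨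
      ((q + 3 : ℕ) : ℤ) < sd (0, 0) (tgt (ah d)) := hM
  rcases ah_ends d with ⟨h8, h9⟩ | ⟨h8, h9⟩
  · have h11 := Cpl963.sd_tri (0, 0) (src (ah d)) (tgt (ah d))
    rw [h8] at g4
    push_cast at h7 g4 hq'
    omega
  · have h11 := Cpl963.sd_tri (0, 0) (tgt (ah d)) (src (ah d))
    have h12 := Cpl963.sd_comm (tgt (ah d)) (src (ah d))
    rw [h8] at g4
    push_cast at h7 g4 hq'
    omega

theorem near_xE : sd (0, 0) (i1 xE).1 ≤ 1 ∧ sd (0, 0) (i2 xE).1 ≤ 1 ∧ sd (0, 0) (o1 xE).1 ≤ 1 ∧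
    sd (0, 0) (o2 xE).1 ≤ 1 := by
  refine ⟨?_, ?_, ?_, ?_⟩ <;> simp [xE, i1, i2, o1, o2, sd]

/-- **`LB4`** -/
theorem LB4 (hLaw : Bs410.Law3) (hD : HD) : ∃ K : ℕ, 1 ≤ K ∧ ∃ c : ℝ, 0 < c ∧
    ∀ τ : ℝ, 0 < τ → ∀ᶠ j : ℕ in atTop, ∀ n r : ℕ, n = 256 * 2 ^ j →
      r = ⌊(n : ℝ) ^ (1 + τ)⌋₊ → (∃ q, Scl τ n q r) ∧
        c * EE (K * r) * Nj j ^ 2 ≤ ∫ z, dd (K * r) n (i1 xE) z ∂μh +
          ∫ z, dd (K * r) n (i2 xE) z ∂μh + ∫ z, dd (K * r) n (o1 xE) z ∂μh +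
          ∫ z, dd (K * r) n (o2 xE) z ∂μh := by
  obtain ⟨K, hK, c1, hc1, h⟩ := LB4_s hLaw hD
  obtain ⟨c2, hc2, hG⟩ := gd_low
  refine ⟨K, hK, c1 * c2 / 2, by positivity, fun τ hτ => ?_⟩
  filter_upwards [h τ hτ (c1 * c2 / 8) (by positivity)] with j hj n r hn hr
  obtain ⟨w1, w2⟩ := hj n _ r hn rfl hr
  set q : ℕ := ⌊(n : ℝ) ^ (1 + τ / 2)⌋₊ with hq
  refine ⟨⟨q, w1⟩, ?_⟩
  have hE := EE_pos (K * r)
  obtain ⟨n1, n2, n3, n4⟩ := near_xE
  have a1 := w2 (i1 xE) n1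
  have a2 := w2 (i2 xE) n2
  have a3 := w2 (o1 xE) n3
  have a4 := w2 (o2 xE) n4
  have hnq := w1.nq
  have b1 := hG j q (by omega)
  rw [← hn] at b1
  have b2 : 0 ≤ (μh).real (GdE (i2 xE) (eP n) q) := measureReal_nonneg
  have b3 : 0 ≤ (μh).real (GdE (o1 xE) (eP n) q) := measureReal_nonneg
  have b4 : 0 ≤ (μh).real (GdE (o2 xE) (eP n) q) := measureReal_nonneg
  have hN2 : 0 ≤ Nj j ^ 2 := by positivity
  have d1 : EE (K * r) * (c1 * (c2 * Nj j ^ 2) - c1 * c2 / 8 * Nj j ^ 2) ≤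
      EE (K * r) * (c1 * (μh).real (GdE (i1 xE) (eP n) q) - c1 * c2 / 8 * Nj j ^ 2) :=
    mul_le_mul_of_nonneg_left (sub_le_sub_right (mul_le_mul_of_nonneg_left b1 hc1.le) _) hE.le
  have d2 : ∀ P : ℝ, 0 ≤ P → EE (K * r) * (0 - c1 * c2 / 8 * Nj j ^ 2) ≤
      EE (K * r) * (c1 * P - c1 * c2 / 8 * Nj j ^ 2) := fun P hP =>
    mul_le_mul_of_nonneg_left (sub_le_sub_right (by positivity) _) hE.le
  have e2 := d2 _ b2
  have e3 := d2 _ b3
  have e4 := d2 _ b4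
  have e5 : c1 * c2 / 2 * EE (K * r) * Nj j ^ 2 =
      EE (K * r) * (c1 * (c2 * Nj j ^ 2) - c1 * c2 / 8 * Nj j ^ 2) +
        3 * (EE (K * r) * (0 - c1 * c2 / 8 * Nj j ^ 2)) := by ring
  rw [e5]
  linarith

/-- **the right side of (ID)** -/
theorem dright (hLaw : Bs410.Law3) (hD : HD) : Ud107.DRight := by
  obtain ⟨K, hK, c, hc, h⟩ := LB4 hLaw hD
  obtain ⟨C1, hC1, hN⟩ := p2_le_Nj
  intro ε hε
  refine ⟨1, one_pos, fun τ hτ _ => ?_⟩
  have v1 := tend_n.eventually (ev_pow τ hτ K)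
  have v2 := tend_n.eventually (neg_pow_small hε (C := C1 ^ 2) hc)
  filter_upwards [h τ hτ, v1, v2] with j hj w1 w2
  obtain ⟨⟨q, g1⟩, g2⟩ := hj _ _ rfl rfl
  set n : ℕ := 256 * 2 ^ j with hn
  set r : ℕ := ⌊(n : ℝ) ^ (1 + τ)⌋₊ with hr
  have hnq := g1.nq
  have hqr := g1.qr
  have hn1 := g1.n1
  have hn0 := g1.pos
  have hrR : r ≤ K * r := Nat.le_mul_of_pos_left r (by omega)
  have hR1 : 1 ≤ K * r := by omega
  refine ⟨K * r, by omega, ?_, ?_⟩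
  · push_cast
    have e1 : (n : ℝ) ^ (1 + 2 * τ) = (n : ℝ) ^ τ * (n : ℝ) ^ (1 + τ) := by
      rw [← Real.rpow_add hn0]; congr 1; ring
    rw [e1]
    exact mul_le_mul w1 g1.r1 (Nat.cast_nonneg _) (Real.rpow_nonneg hn0.le _)
  · have hp := hN j n (by rw [pow_add]; omega)
    have hEE : exp (-(√3 * (2 * π / 3) * VV (Nat.log 2 (K * r)))) ≤ EE (K * r) := by
      unfold EE
      rw [Real.exp_le_exp, neg_le_neg_iff]
      exact mul_le_mul_of_nonneg_left (Cn109.VV_mono (by unfold lv; omega)) b0_pos.le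
    have hS : Ud107.S4D (Ud107.cg (2 * π / 3) (Bk430.ws (K * r)) (((0, (n : ℤ)), false))) xE -
        Ud107.S4D (Ud107.cg (2 * π / 3) (Bk430.ws (K * r)) (((0, (n : ℤ)), true))) xE =
        ∫ z, dd (K * r) n (i1 xE) z ∂μh +
          ∫ z, dd (K * r) n (i2 xE) z ∂μh + ∫ z, dd (K * r) n (o1 xE) z ∂μh +
          ∫ z, dd (K * r) n (o2 xE) z ∂μh := by
      have e1 : ∀ g : Face, Ud107.cg (2 * π / 3) (Bk430.ws (K * r)) g = wg (K * r) g := by
        intro g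
        rw [wg_eq, smul_sub, Finsupp.smul_single, smul_eq_mul, mul_one]
        rfl
      have e2 : ∀ s : Corner, ∫ z, dd (K * r) n s z ∂μh =
          ∫ z, Dr (wg (K * r) ((0, (n : ℤ)), false)) s z ∂μh -
            ∫ z, Dr (wg (K * r) ((0, (n : ℤ)), true)) s z ∂μh := by
        intro s
        unfold dd
        rw [cv_eP, cf_eP]
        exact integral_sub (integrable_Dr Vx107.ae_fin (ntr_wg hR1 _) s)
          (integrable_Dr Vx107.ae_fin (ntr_wg hR1 _) s)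
      unfold Ud107.S4D
      rw [e1, e1, e2, e2, e2, e2]
      ring
    have hfin : (n : ℝ) ^ (-ε) * exp (-(√3 * (2 * π / 3) * VV (Nat.log 2 (K * r)))) *
        p2 n ^ 2 ≤ c * EE (K * r) * Nj j ^ 2 := by
      have k1 : p2 n ^ 2 ≤ C1 ^ 2 * Nj j ^ 2 := by
        rw [← mul_pow]; exact pow_le_pow_left₀ (p2_nonneg _) hp 2
      have k2 : 0 ≤ (n : ℝ) ^ (-ε) := Real.rpow_nonneg hn0.le _
      calc (n : ℝ) ^ (-ε) * exp (-(√3 * (2 * π / 3) * VV (Nat.log 2 (K * r)))) * p2 n ^ 2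
          ≤ (n : ℝ) ^ (-ε) * EE (K * r) * (C1 ^ 2 * Nj j ^ 2) := by
            refine mul_le_mul (mul_le_mul_of_nonneg_left hEE k2) k1 (by positivity) ?_
            have := EE_pos (K * r)
            positivity
        _ = (C1 ^ 2 * (n : ℝ) ^ (-ε)) * (EE (K * r) * Nj j ^ 2) := by ring
        _ ≤ c * (EE (K * r) * Nj j ^ 2) := by
            refine mul_le_mul_of_nonneg_right w2 ?_
            have := EE_pos (K * r)
            positivity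
        _ = _ := by ring
    have := hfin.trans g2
    rw [← hS] at this
    exact this

/-- **`SD`** -/
theorem sd_law (hLaw : Bs410.Law3) : Ax107.SD p2 p4 :=
  Ud107.sd_of_right (Uc31.hd_law hLaw) (Lc522.E2_of_hyp (Wf850.hyp_main hLaw))
    (dright hLaw (Uc31.hd_law hLaw))

end Crest.Agent.R158.Fd61
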