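import Crest.Agent.R158.Vx5_107
import Crest.Agent.R158.Hd1_109
import Crest.Agent.R158.Wf2_850

/-!
# Row 158, leaf D of doc 1912 (helper61), part 1: the charges `m_g = (2π/3)(w - δ_g)`

* `cu U u` : the charge `u` on `U`;  `mg U u g = aa • (cu U u - δ_g)`, `aa = 2π/3`
* `RD C κ r0 r1 U u` : a density at level `κ` supported in `r0 + 2^κ ≤ sd 0 · ≤ r1`
* `gu_pos`, `gu_neg` : deterministic bounds of the products over any set of loops containing the
  small loops which meet `U`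
-/

set_option autoImplicit false

noncomputable section

namespace Crest.Agent.R158.Fd61

open Crest.Agent.R161.Geo729 Crest.Agent.R161.Dual374
open Crest.Agent.R161.Tas682 (sd)
open Crest.Agent.R158.It200 hiding hf
open Crest.Agent.R158.Wf850 Crest.Agent.R158.Vx107
open Crest.Agent.R158.Cn109 (lsW smalls mem_smalls SS QQ SS_eq tot tot_eq VV)
open Crest.Agent.R158.Hd109 (Dens)
open Crest.Agent.R158.Lc522 (exp_loops)
open Crest.Agent.R158.Rs689 (nu)
open Function Real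

/-- `2π/3` -/
def aa : ℝ := 2 * π / 3

theorem aa_pos : 0 < aa := by unfold aa; positivity

theorem Fw_neg_aa : Fw (-aa) = 1 := by
  unfold Fw aa
  rw [show π / 3 + -(2 * π / 3) = -(π / 3) by ring, cos_neg, cos_pi_div_three]
  norm_num

theorem Fw_aa : Fw aa = -2 := by
  unfold Fw aa
  rw [show π / 3 + 2 * π / 3 = π by ring, cos_pi]
  norm_num

theorem Fw_eq_ff (x : ℝ) : Fw x = We297.ff x := rfl

/-- the charge `u` on `U` -/
def cu (U : Finset Face) (u : Face → ℝ) : Face →₀ ℝ := ∑ f ∈ U, Finsupp.single f (u f)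

/-- the charge of the leaf D -/
def mg (U : Finset Face) (u : Face → ℝ) (g : Face) : Face →₀ ℝ :=
  aa • (cu U u - Finsupp.single g 1)

theorem cu_apply (U : Finset Face) (u : Face → ℝ) (f : Face) [Decidable (f ∈ U)] :
    cu U u f = if f ∈ U then u f else 0 := by
  classical
  unfold cu
  rw [Finsupp.finsetSum_apply]
  simp only [Finsupp.single_apply]
  rw [Finset.sum_ite_eq' U f]
  congr

theorem mass_cu (U : Finset Face) (u : Face → ℝ) (A : Finset Face) :
    Vx107.mass (cu U u) A = Cn109.mass u U A := by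
  classical
  unfold Vx107.mass Cn109.mass
  rw [Finset.sum_filter]
  simp only [cu_apply]
  rw [← Finset.sum_filter, ← Finset.sum_filter]
  refine Finset.sum_congr ?_ fun _ _ => rfl
  ext f
  simp [and_comm]

theorem tot_cu (U : Finset Face) (u : Face → ℝ) : Vx107.tot (cu U u) = ∑ f ∈ U, u f := by
  classical
  unfold cu
  induction U using Finset.induction_on with
  | empty => simp [Vx107.tot]
  | insert a s ha ih =>
      rw [Finset.sum_insert ha, Finset.sum_insert ha, tot_add, ih, tot_single]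

theorem mass_mg (U : Finset Face) (u : Face → ℝ) (g : Face) (A : Finset Face)
    [Decidable (g ∈ A)] :
    Vx107.mass (mg U u g) A = aa * (Cn109.mass u U A - if g ∈ A then 1 else 0) := by
  unfold mg
  rw [mass_smul, mass_sub, mass_cu, mass_single]

theorem mass_neg_mg (U : Finset Face) (u : Face → ℝ) (g : Face) (A : Finset Face)
    [Decidable (g ∈ A)] :
    Vx107.mass (-mg U u g) A = -(aa * (Cn109.mass u U A - if g ∈ A then 1 else 0)) := by
  rw [mass_neg, mass_mg]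

theorem ntr_mg {U : Finset Face} {u : Face → ℝ} (h : ∑ f ∈ U, u f = 1) (g : Face) :
    Ntr (mg U u g) := by
  unfold mg
  refine Ntr.smul _ ?_
  unfold Ntr
  rw [tot_sub, tot_cu, tot_single, h, sub_self]

/-- product of the weights over a set of loops -/
def PW (S : Set (Finset Face)) (m : Face →₀ ℝ) : ℝ := ∏ᶠ A ∈ S, Fw (Vx107.mass m A)

theorem W_eq_PW (m : Face →₀ ℝ) (z : Cfz) : W m z = PW (Lps z) m := rfl

theorem OP_eq_PW (m : Face →₀ ℝ) (z : Cfz) (c : Corner) : OP m z c = PW (Oth z c) m := rfl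

/-- density at level `κ` in an annulus -/
structure RD (C : ℝ) (κ : ℕ) (r0 r1 : ℤ) (U : Finset Face) (u : Face → ℝ) : Prop
    extends Dens C κ U u where
  inn : ∀ f ∈ U, r0 + 2 ^ κ ≤ sd (0, 0) f.1
  out : ∀ f ∈ U, sd (0, 0) f.1 ≤ r1

/-- the big loops that split `BF 0 r1` -/
def TT (κ : ℕ) (r1 : ℤ) (z : Cfz) : Set (Finset Face) :=
  {A | A ∈ Lps z ∧ Splits A (BF (0, 0) r1) ∧ 2 ^ κ ≤ dia A + 1}

theorem TT_fin (κ : ℕ) (r1 : ℤ) (z : Cfz) : (TT κ r1 z).Finite :=
  (fin_split z (0, 0) r1).subset fun _ h => ⟨h.1, h.2.1⟩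

section
variable {C : ℝ} {κ : ℕ} {r0 r1 : ℤ} {U : Finset Face} {u : Face → ℝ} {z : Cfz}

theorem RD.nonempty (h : RD C κ r0 r1 U u) : U.Nonempty := by
  rw [Finset.nonempty_iff_ne_empty]
  rintro rfl
  have := h.sum
  simp at this

theorem wm_nonneg (h : RD C κ r0 r1 U u) (A : Finset Face) : 0 ≤ Cn109.mass u U A :=
  Cn109.mass_nonneg h.nn A

theorem wm_le_one (h : RD C κ r0 r1 U u) (A : Finset Face) : Cn109.mass u U A ≤ 1 := by
  classical
  rw [← h.sum]
  unfold Cn109.mass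
  exact Finset.sum_le_sum_of_subset_of_nonneg (Finset.filter_subset _ _) fun f hf _ => h.nn f hf

theorem wm_zero {A : Finset Face} (h : ∀ f ∈ U, f ∉ A) : Cn109.mass u U A = 0 := by
  classical
  unfold Cn109.mass
  rw [Finset.filter_eq_empty_iff.2 (fun {f} hf => h f hf), Finset.sum_empty]

theorem wm_one (h : RD C κ r0 r1 U u) {A : Finset Face} (hA : ∀ f ∈ U, f ∈ A) :
    Cn109.mass u U A = 1 := by
  classical
  unfold Cn109.mass
  rw [Finset.filter_true_of_mem hA, h.sum]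

/-- a small loop that meets `U` misses `BF 0 r0` -/
theorem small_off (h : RD C κ r0 r1 U u) {A : Finset Face} (hA : A ∈ smalls lsW U κ z)
    {g : Face} (hg : sd (0, 0) g.1 ≤ r0) : g ∉ A := by
  intro hgA
  rw [mem_smalls] at hA
  obtain ⟨_, ⟨f, hf, hfA⟩, h3⟩ := hA
  have h3 : Cn109.dia A + 1 < 2 ^ κ := h3
  rw [Cn109.dia_eq] at h3
  have h4 := sd_le_dia hgA hfA
  have h5 := sd_tri (0, 0) g.1 f.1
  have h6 := h.inn f hf
  have h7 : ((dia A : ℕ) : ℤ) + 1 < 2 ^ κ := by exact_mod_cast h3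
  linarith

/-- trichotomy of the loops -/
theorem tri (h : RD C κ r0 r1 U u) (h0 : r0 ≤ r1) {A : Finset Face} (hA : A ∈ Lps z)
    (h1 : A ∉ smalls lsW U κ z) (h2 : A ∉ TT κ r1 z) :
    Cn109.mass u U A = 0 ∨ (Cn109.mass u U A = 1 ∧ ∀ g : Face, sd (0, 0) g.1 ≤ r0 → g ∈ A) := by
  by_cases hU : ∃ f ∈ U, f ∈ A
  · right
    obtain ⟨f, hf, hfA⟩ := hU
    have h3 : 2 ^ κ ≤ dia A + 1 := by
      by_contra hcon
      apply h1
      rw [mem_smalls]
      refine ⟨hA, ⟨f, hf, hfA⟩, ?_⟩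
      show Cn109.dia A + 1 < 2 ^ κ
      rw [Cn109.dia_eq]
      omega
    have h4 : ∀ g ∈ BF (0, 0) r1, g ∈ A := by
      by_contra hcon
      push Not at hcon
      obtain ⟨g, hg, hgA⟩ := hcon
      exact h2 ⟨hA, ⟨⟨f, mem_BF.2 (h.out f hf), hfA⟩, g, hg, hgA⟩, h3⟩
    exact ⟨wm_one h fun f hf => h4 f (mem_BF.2 (h.out f hf)), fun g hg =>
      h4 g (mem_BF.2 (hg.trans h0))⟩
  · left
    push Not at hU
    exact wm_zero hU

theorem wt_pos (h : RD C κ r0 r1 U u) (h0 : r0 ≤ r1) {g : Face} (hg : sd (0, 0) g.1 ≤ r0)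
    {A : Finset Face} (hA : A ∈ Lps z) (h1 : A ∉ smalls lsW U κ z) (h2 : A ∉ TT κ r1 z) :
    Fw (Vx107.mass (mg U u g) A) = 1 := by
  classical
  rw [mass_mg]
  rcases tri h h0 hA h1 h2 with h3 | ⟨h3, h4⟩
  · rw [h3]
    split_ifs
    · rw [zero_sub, mul_neg, mul_one, Fw_neg_aa]
    · rw [sub_zero, mul_zero, Fw_zero]
  · rw [h3, if_pos (h4 g hg), sub_self, mul_zero, Fw_zero]

theorem abs_small (h : RD C κ r0 r1 U u) {g : Face} (hg : sd (0, 0) g.1 ≤ r0)
    {A : Finset Face} (h1 : A ∈ smalls lsW U κ z) :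
    |Fw (Vx107.mass (mg U u g) A)| ≤
      exp (-(√3 * aa * Cn109.mass u U A) + 12 * aa ^ 2 * Cn109.mass u U A ^ 2) := by
  classical
  rw [mass_mg, if_neg (small_off h h1 hg), sub_zero, Fw_eq_ff]
  refine (ff_abs_le _).trans (le_of_eq ?_)
  congr 1
  ring

theorem abs_small_neg (h : RD C κ r0 r1 U u) {g : Face} (hg : sd (0, 0) g.1 ≤ r0)
    {A : Finset Face} (h1 : A ∈ smalls lsW U κ z) :
    |Fw (Vx107.mass (-mg U u g) A)| ≤
      exp (√3 * aa * Cn109.mass u U A + 12 * aa ^ 2 * Cn109.mass u U A ^ 2) := by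
  classical
  rw [mass_neg_mg, if_neg (small_off h h1 hg), sub_zero, Fw_eq_ff]
  refine (ff_abs_le _).trans (le_of_eq ?_)
  congr 1
  ring

theorem QQ_eq (U : Finset Face) (u : Face → ℝ) (κ : ℕ) (z : Cfz) :
    QQ lsW u U κ z = ∑ A ∈ smalls lsW U κ z, Cn109.mass u U A ^ 2 := rfl

/-- generic product bound -/
theorem prod_bound {S : Set (Finset Face)} {m : Face →₀ ℝ} {s : Finset (Finset Face)}
    {T : Set (Finset Face)} (hT : T.Finite) (hs : ∀ A ∈ s, A ∈ S) {b : Finset Face → ℝ}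
    (h1 : ∀ A ∈ s, |Fw (Vx107.mass m A)| ≤ exp (b A))
    (h2 : ∀ A ∈ S, A ∉ s → A ∉ T → Fw (Vx107.mass m A) = 1) :
    |PW S m| ≤ exp (∑ A ∈ s, b A) * 2 ^ T.ncard := by
  classical
  set t : Finset (Finset Face) := hT.toFinset.filter (fun A => A ∈ S ∧ A ∉ s) with ht
  have hd : Disjoint s t := by
    rw [Finset.disjoint_left]
    intro A hA hA'
    rw [ht, Finset.mem_filter] at hA'
    exact hA'.2.2 hA
  have e : PW S m = ∏ A ∈ s ∪ t, Fw (Vx107.mass m A) := by
    unfold PW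
    refine finprod_mem_eq_prod_of_inter_mulSupport_eq _ ?_
    ext A
    simp only [Set.mem_inter_iff, mem_mulSupport, Finset.coe_union, Set.mem_union, Finset.mem_coe]
    constructor
    · rintro ⟨h3, h4⟩
      refine ⟨?_, h4⟩
      by_cases h5 : A ∈ s
      · exact Or.inl h5
      · right
        rw [ht, Finset.mem_filter]
        refine ⟨?_, h3, h5⟩
        rw [Set.Finite.mem_toFinset]
        by_contra h6
        exact h4 (h2 A h3 h5 h6)
    · rintro ⟨h3 | h3, h4⟩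
      · exact ⟨hs A h3, h4⟩
      · rw [ht, Finset.mem_filter] at h3
        exact ⟨h3.2.1, h4⟩
  rw [e, Finset.prod_union hd, abs_mul, Finset.abs_prod, Finset.abs_prod, Real.exp_sum]
  refine mul_le_mul (Finset.prod_le_prod (fun _ _ => abs_nonneg _) h1) ?_
    (Finset.prod_nonneg fun _ _ => abs_nonneg _) (Finset.prod_nonneg fun _ _ => (exp_pos _).le)
  calc ∏ A ∈ t, |Fw (Vx107.mass m A)| ≤ ∏ _A ∈ t, (2 : ℝ) :=
        Finset.prod_le_prod (fun _ _ => abs_nonneg _) fun A _ => abs_Fw_le _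
    _ = 2 ^ t.card := by rw [Finset.prod_const]
    _ ≤ 2 ^ T.ncard := by
        refine pow_le_pow_right₀ (by norm_num) ?_
        rw [Set.ncard_eq_toFinset_card T hT]
        exact Finset.card_le_card (Finset.filter_subset _ _)

/-- **upper bound, positive charges** -/
theorem gu_pos (h : RD C κ r0 r1 U u) (h0 : r0 ≤ r1) {g : Face} (hg : sd (0, 0) g.1 ≤ r0)
    {S : Set (Finset Face)} (hS : S ⊆ Lps z) (hsm : ∀ A ∈ smalls lsW U κ z, A ∈ S) :
    |PW S (mg U u g)| ≤ exp (-(√3 * aa * SS lsW u U κ z) + 12 * aa ^ 2 * QQ lsW u U κ z) *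
      2 ^ (TT κ r1 z).ncard := by
  refine (prod_bound (TT_fin κ r1 z) hsm (fun A hA => abs_small h hg hA)
    fun A hA h1 h2 => wt_pos h h0 hg (hS hA) h1 h2).trans (le_of_eq ?_)
  congr 2
  rw [SS_eq, QQ_eq, Finset.sum_add_distrib, Finset.sum_neg_distrib, Finset.mul_sum,
    Finset.mul_sum]

/-- the loops around `g` of diameter below `2 ^ κ` -/
def Ar (κ : ℕ) (g : Face) (z : Cfz) : Set (Finset Face) := {A ∈ Lps z | g ∈ A ∧ dia A + 1 < 2 ^ κ}

theorem Ar_fin (κ : ℕ) (g : Face) (z : Cfz) : (Ar κ g z).Finite := by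
  have := Cn109.tot_fin κ g z
  exact this

/-- **upper bound, negative charges** -/
theorem gu_neg (h : RD C κ r0 r1 U u) (h0 : r0 ≤ r1) {g : Face} (hg : sd (0, 0) g.1 ≤ r0)
    {S : Set (Finset Face)} (hS : S ⊆ Lps z) (hsm : ∀ A ∈ smalls lsW U κ z, A ∈ S) :
    |PW S (-mg U u g)| ≤ exp (√3 * aa * SS lsW u U κ z + 12 * aa ^ 2 * QQ lsW u U κ z) *
      2 ^ ((TT κ r1 z).ncard + (Ar κ g z).ncard) := by
  classical
  refine (prod_bound ((TT_fin κ r1 z).union (Ar_fin κ g z)) hsm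
    (fun A hA => abs_small_neg h hg hA) ?_).trans ?_
  · intro A hA h1 h2
    rw [mass_neg_mg]
    have h2' : A ∉ TT κ r1 z := fun h' => h2 (Or.inl h')
    rcases tri h h0 (hS hA) h1 h2' with h3 | ⟨h3, h4⟩
    · by_cases hgA : g ∈ A
      · exfalso
        by_cases hd : dia A + 1 < 2 ^ κ
        · exact h2 (Or.inr ⟨hS hA, hgA, hd⟩)
        · refine h2' ⟨hS hA, ⟨⟨g, mem_BF.2 (hg.trans h0), hgA⟩, ?_⟩, not_lt.1 hd⟩
          obtain ⟨f, hf⟩ := h.nonempty
          by_contra hcon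
          push Not at hcon
          have h5 := wm_one h fun f hf => hcon f (mem_BF.2 (h.out f hf))
          rw [h3] at h5
          exact zero_ne_one h5
      · rw [h3, if_neg hgA, sub_zero, mul_zero, neg_zero, Fw_zero]
    · rw [h3, if_pos (h4 g hg), sub_self, mul_zero, neg_zero, Fw_zero]
  · refine mul_le_mul (le_of_eq ?_) (pow_le_pow_right₀ (by norm_num) (Set.ncard_union_le _ _))
      (by positivity) (exp_pos _).le
    congr 1
    rw [SS_eq, QQ_eq, Finset.sum_add_distrib, Finset.mul_sum, Finset.mul_sum]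

end

end Crest.Agent.R158.Fd61
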