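import Crest.Agent.R158.Lc3_522

/-!
# Row 158 (helper522): chains of annuli for the number of loops

* `shells` : majorants of the numbers of loops which leave a block, `E exp(t ∑ K_i) ≤ C^k`
* `nn_chain` : `NN x (ρ 0) (ρ k) ≤ 1 + ∑ NN x (ρ i) (ρ (i+1) / 2) + ∑ K_i`
* `chain_upper`, `chain_lower`
* `apriori` : `E exp(t NN x r R) ≤ C (R/r)^C`, `apriori0` : `E exp(t NN x 0 R) ≤ C R^C`
-/

set_option autoImplicit false

noncomputable section

namespace Crest.Agent.R158.Lc522

open Finset unitInterval MeasureTheory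
open Crest.Agent.R161.Geo729 Crest.Agent.R161.Tas682
open Crest.Agent.R158.Rs689 (PB nu hf)
open Crest.Agent.R158.It200 (Cfz)
open Crest.Agent.R158.Em522 (starE)
open Crest.Agent.R158.Fr158 (bx mem_bx mem_bx_sd eIn mem_eIn)
open Crest.Agent.R158.Wf850 (Face BF mem_BF BF_mono Lps Splits bdE bdE_off NN NN_dep NN_super annF
  annF_disj)
open Crest.Agent.R158.Cn109 (DepF dia holder_exp integral_prod_indep)

/-- edges seen by the shell `i` -/
def shE (x : P2) (r R : ℕ) : Finset Edge :=
  (starE x (2 * R)).filter fun e => e ∉ eIn (bx x ((r : ℤ) - 1))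

theorem shE_disj {x : P2} {r R r' R' : ℕ} (h : 2 * R + 2 ≤ r') :
    Disjoint (shE x r R) (shE x r' R') := by
  rw [Finset.disjoint_left]
  intro e he he'
  unfold shE at he he'
  rw [mem_filter] at he he'
  apply he'.2
  have h1 := he.1
  unfold starE at h1
  rw [mem_product, mem_product, mem_Icc, mem_Icc] at h1
  obtain ⟨⟨i, j⟩, k⟩ := e
  simp only at h1
  rw [mem_eIn, mem_bx, mem_bx]
  have h2 : (2 * R + 2 : ℤ) ≤ r' := by exact_mod_cast h
  push_cast at h1
  cases k
  · rw [src_mk, tgt_h]; simp only; omega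
  · rw [src_mk, tgt_v]; simp only; omega

/-- the shell condition -/
def Sh (z : Cfz) (x : P2) (r R : ℕ) (A : Finset Face) : Prop :=
  A ∈ Lps z ∧ BF x r ⊆ A ∧ Splits A (BF x R) ∧ R ≤ 2 * (dia A + 1)

/-- **shells**: majorants with product-like exponential moments -/
theorem shells (t : ℝ) (ht : 0 ≤ t) : ∃ C : ℝ, 1 ≤ C ∧ ∀ (x : P2) (ρ : ℕ → ℕ), 1 ≤ ρ 0 →
    (∀ i, 2 * ρ i ≤ ρ (i + 1)) → ∃ K : ℕ → Cfz → ℕ,
      (∀ i, DepF (shE x (ρ i) (ρ (i + 1))) (K i)) ∧
      (∀ z i (s : Finset (Finset Face)), (∀ A ∈ s, Sh z x (ρ i) (ρ (i + 1)) A) →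
        s.card ≤ K i z) ∧
      (∀ i, ∫ z, Real.exp (t * K i z) ∂(nu hf) ≤ C) ∧
      ∀ k, ∫ z, Real.exp (t * ∑ i ∈ range k, (K i z : ℝ)) ∂(nu hf) ≤ C ^ k := by
  obtain ⟨C, hC, h⟩ := l7G (Real.exp (3 * t)) (Real.one_le_exp (by positivity))
  refine ⟨C, hC, fun x ρ h0 hρ => ?_⟩
  have hpos : ∀ i, 1 ≤ ρ i := by
    intro i
    induction i with
    | zero => exact h0
    | succ i ih => have := hρ i; omega
  choose K hK1 hK2 hK3 using fun i => h x (ρ (i + 1)) (hpos _) {e | e ∉ eIn (bx x ((ρ i : ℤ) - 1))}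
  have hdep : ∀ i, DepF (shE x (ρ i) (ρ (i + 1))) (K i) := by
    intro i z z' hz
    exact hK1 i z z' fun e he he' => hz e (mem_filter.2 ⟨he, he'⟩)
  have hexp : ∀ i, ∫ z, Real.exp (3 * t * K i z) ∂(nu hf) ≤ C := by
    intro i
    have e : (fun z : Cfz => Real.exp (3 * t * K i z)) = fun z => Real.exp (3 * t) ^ K i z := by
      funext z
      rw [← Real.exp_nat_mul, mul_comm]
    rw [e]
    exact hK2 i
  have hmono : ∀ i j, i ≤ j → ρ i ≤ ρ j := by
    intro i j hij
    induction j, hij using Nat.le_induction with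
    | base => exact le_rfl
    | succ j _ ih => have := hρ j; have := hpos j; omega
  refine ⟨K, hdep, ?_, ?_, ?_⟩
  · intro z i s hs
    refine hK3 i z s fun A hA => ?_
    obtain ⟨h1, h2, h3, h4⟩ := hs A hA
    exact ⟨h1, h3, h4, fun e he => bdE_off h2 he⟩
  · intro i
    refine le_trans ?_ (hexp i)
    refine integral_mono_of_nonneg (Filter.Eventually.of_forall fun z => (Real.exp_pos _).le)
      (((hdep i).comp fun n : ℕ => Real.exp (3 * t * n)).integrable _)
      (Filter.Eventually.of_forall fun z => Real.exp_le_exp.2 ?_)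
    have h5 : (0 : ℝ) ≤ t * K i z := by positivity
    linarith
  · intro k
    -- three classes
    set S : Finset Edge := (range k).biUnion fun i => shE x (ρ i) (ρ (i + 1)) with hS
    have hdepS : ∀ c, DepF S (fun z => 3 * t * ∑ i ∈ (range k).filter (fun i => i % 3 = c),
        (K i z : ℝ)) := by
      intro c
      refine DepF.smul (3 * t) (DepF.sum fun i hi => ?_)
      exact ((hdep i).comp fun n : ℕ => (n : ℝ)).mono
        (Finset.subset_biUnion_of_mem (fun i => shE x (ρ i) (ρ (i + 1))) (mem_filter.1 hi).1)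
    have hh := holder_exp (fun _ : Edge => hf) (range 3) (S := S) (fun _ => (1 / 3 : ℝ))
      (fun _ _ => by norm_num) (by simp) (fun c z => 3 * t *
        ∑ i ∈ (range k).filter (fun i => i % 3 = c), (K i z : ℝ)) (fun c _ => hdepS c)
    have e1 : ∀ z : Cfz, ∑ c ∈ range 3, (1 / 3 : ℝ) * (3 * t *
        ∑ i ∈ (range k).filter (fun i => i % 3 = c), (K i z : ℝ)) =
        t * ∑ i ∈ range k, (K i z : ℝ) := by
      intro z
      rw [← Finset.mul_sum, ← Finset.mul_sum]
      rw [Finset.sum_fiberwise_of_maps_to (s := range k) (t := range 3) (g := fun i => i % 3)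
        (fun i _ => mem_range.2 (Nat.mod_lt _ (by norm_num))) (fun i => (K i z : ℝ))]
      ring
    simp only [e1] at hh
    refine hh.trans ?_
    have e2 : ∀ c ∈ range 3, (∫ z, Real.exp (3 * t *
        ∑ i ∈ (range k).filter (fun i => i % 3 = c), (K i z : ℝ)) ∂(PB fun _ : Edge => hf)) ^
          (1 / 3 : ℝ) ≤ (C ^ k) ^ (1 / 3 : ℝ) := by
      intro c _
      refine Real.rpow_le_rpow (integral_nonneg fun z => (Real.exp_pos _).le) ?_ (by norm_num)
      have e3 : (fun z : Cfz => Real.exp (3 * t *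
          ∑ i ∈ (range k).filter (fun i => i % 3 = c), (K i z : ℝ))) =
          fun z => ∏ i ∈ (range k).filter (fun i => i % 3 = c), Real.exp (3 * t * K i z) := by
        funext z
        rw [← Real.exp_sum, Finset.mul_sum]
      rw [e3, integral_prod_indep (fun _ : Edge => hf)
        ((range k).filter (fun i => i % 3 = c)) (fun i => shE x (ρ i) (ρ (i + 1)))]
      · calc ∏ i ∈ (range k).filter (fun i => i % 3 = c),
              ∫ z, Real.exp (3 * t * K i z) ∂(PB fun _ : Edge => hf)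
            ≤ ∏ _i ∈ (range k).filter (fun i => i % 3 = c), C :=
              Finset.prod_le_prod (fun i _ => integral_nonneg fun z => (Real.exp_pos _).le)
                fun i _ => hexp i
          _ = C ^ ((range k).filter (fun i => i % 3 = c)).card := by rw [prod_const]
          _ ≤ C ^ k := by
              refine pow_le_pow_right₀ hC ?_
              exact (card_filter_le _ _).trans (by simp)
      · have key : ∀ i j, i < j → i % 3 = j % 3 →
            Disjoint (shE x (ρ i) (ρ (i + 1))) (shE x (ρ j) (ρ (j + 1))) := by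
          intro i j hij hm
          refine shE_disj ?_
          have h3 : i + 3 ≤ j := by omega
          have h4 := hmono _ _ h3
          have h5 := hρ (i + 1)
          have h6 := hρ (i + 2)
          have h7 := hpos (i + 1)
          have e5 : i + 1 + 1 = i + 2 := by ring
          have e6 : i + 2 + 1 = i + 3 := by ring
          rw [e5] at h5
          rw [e6] at h6
          omega
        intro i hi j hj hij
        have hi' := (mem_filter.1 hi).2
        have hj' := (mem_filter.1 hj).2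
        rcases lt_or_gt_of_ne hij with h3 | h3
        · exact key i j h3 (by omega)
        · exact (key j i h3 (by omega)).symm
      · intro i _
        exact (hdep i).comp fun n : ℕ => Real.exp (3 * t * n)
    refine (Finset.prod_le_prod (fun c _ => Real.rpow_nonneg
      (integral_nonneg fun z => (Real.exp_pos _).le) _) e2).trans (le_of_eq ?_)
    rw [prod_const, card_range, ← Real.rpow_natCast ((C ^ k) ^ (1 / 3 : ℝ)), ← Real.rpow_mul
      (by positivity)]
    norm_num

/-! ### decompositions -/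

theorem ctr_mem {x : P2} {n : ℕ} : ((x, false) : Face) ∈ BF x n := by
  rw [mem_BF]
  have : sd x x = 0 := by unfold sd; simp
  rw [this]; positivity

theorem right_mem {x : P2} {n : ℕ} {m : ℤ} : (((x.1 + n, x.2), false) : Face) ∈ BF x m ↔
    (n : ℤ) ≤ m := by
  rw [mem_BF]
  unfold sd
  simp only [add_sub_cancel_left, sub_self, abs_zero, Nat.abs_cast]
  constructor
  · intro h; exact (le_max_left _ _).trans h
  · intro h; exact max_le h (by have : (0 : ℤ) ≤ n := by positivity
                                linarith)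

theorem left_mem {x : P2} {n : ℕ} {m : ℤ} : (((x.1 - n, x.2), false) : Face) ∈ BF x m ↔
    (n : ℤ) ≤ m := by
  rw [mem_BF]
  unfold sd
  have e : x.1 - (n : ℤ) - x.1 = -n := by ring
  simp only [e, sub_self, abs_zero, abs_neg, Nat.abs_cast]
  constructor
  · intro h; exact (le_max_left _ _).trans h
  · intro h; exact max_le h (by have : (0 : ℤ) ≤ n := by positivity
                                linarith)

/-- a set around a ball has large diameter -/
theorem dia_ge {x : P2} {r : ℕ} {A : Finset Face} (h : BF x r ⊆ A) : 2 * r ≤ dia A := by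
  have h1 := h ((right_mem (x := x) (n := r) (m := r)).2 le_rfl)
  have h2 := h ((left_mem (x := x) (n := r) (m := r)).2 le_rfl)
  have h3 := Cn109.sd_le_dia h2 h1
  have h4 : ((2 * r : ℕ) : ℤ) ≤ sd (x.1 - (r : ℤ), x.2) (x.1 + (r : ℤ), x.2) := by
    unfold sd
    refine le_max_of_le_left ?_
    simp only
    have e : x.1 + (r : ℤ) - (x.1 - r) = ((2 * r : ℕ) : ℤ) := by push_cast; ring
    rw [e, abs_of_nonneg (by positivity)]
  exact_mod_cast h4.trans h3

/-- a set with a point outside `BF x n` and containing the centre has diameter more than `n` -/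
theorem dia_ge' {x : P2} {n r : ℕ} {A : Finset Face} (h : BF x r ⊆ A) (h' : ¬ A ⊆ BF x n) :
    n + 1 ≤ dia A := by
  rw [Finset.not_subset] at h'
  obtain ⟨f, hf, hf'⟩ := h'
  rw [mem_BF, not_le] at hf'
  have h3 := Cn109.sd_le_dia (h ctr_mem) hf
  have : ((n : ℤ) + 1) ≤ dia A := by
    have := hf'.trans_le h3
    linarith
  exact_mod_cast this

theorem splits_of {x : P2} {r R : ℕ} {A : Finset Face} (h : BF x r ⊆ A) (h' : ¬ BF x R ⊆ A) :
    Splits A (BF x R) := by
  rw [Finset.not_subset] at h'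
  exact ⟨⟨_, ctr_mem, h ctr_mem⟩, h'⟩

open Classical in
/-- the finset counted by `NN` -/
def nnF (x : P2) (r R : ℤ) (z : Cfz) : Finset (Finset Face) :=
  (BF x R).powerset.filter fun A => BF x r ⊆ A ∧ A ∈ Lps z

theorem nnF_card (x : P2) (r R : ℤ) (z : Cfz) : NN x r R z = (nnF x r R z).card := rfl

open Classical in
theorem mem_nnF {x : P2} {r R : ℤ} {z : Cfz} {A : Finset Face} :
    A ∈ nnF x r R z ↔ A ⊆ BF x R ∧ BF x r ⊆ A ∧ A ∈ Lps z := by
  unfold nnF
  rw [mem_filter, mem_powerset]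

/-- first radius whose ball is not contained in `A` -/
theorem exists_first {x : P2} {ρ : ℕ → ℕ} {A : Finset Face} {k : ℕ} (h0 : BF x (ρ 0) ⊆ A)
    (hk : ¬ BF x (ρ k) ⊆ A) : ∃ i < k, BF x (ρ i) ⊆ A ∧ ¬ BF x (ρ (i + 1)) ⊆ A := by
  induction k with
  | zero => exact absurd h0 hk
  | succ k ih =>
      by_cases h : BF x (ρ k) ⊆ A
      · exact ⟨k, Nat.lt_succ_self _, h, hk⟩
      · obtain ⟨i, hi, h1⟩ := ih h
        exact ⟨i, by omega, h1⟩

open Classical in
/-- **chain decomposition** -/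
theorem nn_chain {x : P2} {ρ : ℕ → ℕ} {K : ℕ → Cfz → ℕ}
    (hK : ∀ z i (s : Finset (Finset Face)), (∀ A ∈ s, Sh z x (ρ i) (ρ (i + 1)) A) →
      s.card ≤ K i z) (k : ℕ) (z : Cfz) :
    NN x (ρ 0) (ρ k) z ≤ 1 + ∑ i ∈ range k, NN x (ρ i) ((ρ (i + 1) / 2 : ℕ) : ℤ) z +
      ∑ i ∈ range k, K i z := by
  have hsub : nnF x (ρ 0) (ρ k) z ⊆ ({BF x (ρ k)} ∪
      (range k).biUnion fun i => nnF x (ρ i) ((ρ (i + 1) / 2 : ℕ) : ℤ) z) ∪
      (range k).biUnion fun i => (nnF x (ρ 0) (ρ k) z).filter (Sh z x (ρ i) (ρ (i + 1))) := by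
    intro A hA
    obtain ⟨h1, h2, h3⟩ := mem_nnF.1 hA
    by_cases hk : BF x (ρ k) ⊆ A
    · refine mem_union_left _ (mem_union_left _ ?_)
      rw [mem_singleton]
      exact Finset.Subset.antisymm h1 hk
    obtain ⟨i, hi, h4, h5⟩ := exists_first h2 hk
    by_cases h6 : A ⊆ BF x ((ρ (i + 1) / 2 : ℕ) : ℤ)
    · refine mem_union_left _ (mem_union_right _ ?_)
      rw [mem_biUnion]
      exact ⟨i, mem_range.2 hi, mem_nnF.2 ⟨h6, h4, h3⟩⟩
    · refine mem_union_right _ ?_
      rw [mem_biUnion]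
      refine ⟨i, mem_range.2 hi, mem_filter.2 ⟨hA, h3, h4, splits_of h4 h5, ?_⟩⟩
      have := dia_ge' h4 h6
      omega
  rw [nnF_card]
  refine (card_le_card hsub).trans ((card_union_le _ _).trans (add_le_add
    ((card_union_le _ _).trans (add_le_add (by simp) ?_)) ?_))
  · refine card_biUnion_le.trans (Finset.sum_le_sum fun i _ => ?_)
    rw [nnF_card]
  · refine card_biUnion_le.trans (Finset.sum_le_sum fun i _ => ?_)
    exact hK z i _ fun A hA => (mem_filter.1 hA).2

open Classical in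
/-- decomposition into dyadic shells -/
theorem nn_shells {x : P2} {ρ : ℕ → ℕ} {K : ℕ → Cfz → ℕ} (hρ : ∀ i, ρ (i + 1) = 2 * ρ i)
    (hK : ∀ z i (s : Finset (Finset Face)), (∀ A ∈ s, Sh z x (ρ i) (ρ (i + 1)) A) →
      s.card ≤ K i z) {k R : ℕ} (hk : R < ρ k) (z : Cfz) :
    NN x (ρ 0) R z ≤ ∑ i ∈ range k, K i z := by
  have hsub : nnF x (ρ 0) R z ⊆
      (range k).biUnion fun i => (nnF x (ρ 0) R z).filter (Sh z x (ρ i) (ρ (i + 1))) := by
    intro A hA
    obtain ⟨h1, h2, h3⟩ := mem_nnF.1 hA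
    have hk' : ¬ BF x (ρ k) ⊆ A := by
      intro h
      have h4 := h1 (h ((right_mem (x := x) (n := ρ k) (m := ρ k)).2 le_rfl))
      rw [right_mem] at h4
      have : ρ k ≤ R := by exact_mod_cast h4
      omega
    obtain ⟨i, hi, h4, h5⟩ := exists_first h2 hk'
    rw [mem_biUnion]
    refine ⟨i, mem_range.2 hi, mem_filter.2 ⟨hA, h3, h4, splits_of h4 h5, ?_⟩⟩
    have := dia_ge h4
    have := hρ i
    omega
  rw [nnF_card]
  refine (card_le_card hsub).trans (card_biUnion_le.trans (Finset.sum_le_sum fun i _ => ?_))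
  exact hK z i _ fun A hA => (mem_filter.1 hA).2

/-- integrability of exponentials of `NN` -/
theorem nn_int (t : ℝ) (x : P2) (r R : ℤ) :
    Integrable (fun z => Real.exp (t * NN x r R z)) (nu hf) :=
  ((NN_dep x r R).comp fun n : ℕ => Real.exp (t * n)).integrable _

/-- **a priori bound** -/
theorem apriori (t : ℝ) (ht : 0 ≤ t) : ∃ C : ℝ, 1 ≤ C ∧ ∀ (x : P2) (r R k : ℕ), 1 ≤ r →
    R < 2 ^ k * r → ∫ z, Real.exp (t * NN x r R z) ∂(nu hf) ≤ C ^ k := by
  obtain ⟨C, hC, h⟩ := shells t ht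
  refine ⟨C, hC, fun x r R k hr hR => ?_⟩
  obtain ⟨K, hK1, hK2, _, hK3⟩ := h x (fun i => 2 ^ i * r) (by simpa using hr)
    (fun i => by simp only [pow_succ]; nlinarith)
  refine le_trans ?_ (hK3 k)
  have hdep : DepF ((range k).biUnion fun i => shE x (2 ^ i * r) (2 ^ (i + 1) * r))
      (fun z => Real.exp (t * ∑ i ∈ range k, (K i z : ℝ))) := by
    refine DepF.comp (DepF.sum fun i hi => ?_) fun y => Real.exp (t * y)
    exact ((hK1 i).comp fun n : ℕ => (n : ℝ)).mono
      (Finset.subset_biUnion_of_mem (fun i => shE x (2 ^ i * r) (2 ^ (i + 1) * r)) hi)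
  refine integral_mono_of_nonneg (Filter.Eventually.of_forall fun z => (Real.exp_pos _).le)
    (hdep.integrable _) (Filter.Eventually.of_forall fun z => Real.exp_le_exp.2 ?_)
  have h1 := nn_shells (x := x) (ρ := fun i => 2 ^ i * r) (fun i => by simp only [pow_succ]; ring)
    hK2 hR z
  simp only [pow_zero, one_mul] at h1
  refine mul_le_mul_of_nonneg_left ?_ ht
  exact_mod_cast h1

/-- **a priori bound**, power form -/
theorem apriori_pow (t : ℝ) (ht : 0 ≤ t) : ∃ C : ℝ, 1 ≤ C ∧ ∀ (x : P2) (r R : ℕ), 1 ≤ r →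
    r ≤ R → ∫ z, Real.exp (t * NN x r R z) ∂(nu hf) ≤ C * ((R : ℝ) / r) ^ C := by
  obtain ⟨C, hC, h⟩ := apriori t ht
  have hC0 : 0 < C := by linarith
  -- `C = 2 ^ α`
  set α : ℝ := Real.logb 2 C with hα
  have hα0 : 0 ≤ α := Real.logb_nonneg (by norm_num) hC
  have hCα : (2 : ℝ) ^ α = C := Real.rpow_logb (by norm_num) (by norm_num) hC0
  refine ⟨max C α, le_max_of_le_left hC, fun x r R hr hrR => ?_⟩
  have hr0 : (0 : ℝ) < r := by exact_mod_cast hr
  have hRr : 1 ≤ (R : ℝ) / r := by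
    rw [le_div_iff₀ hr0, one_mul]; exact_mod_cast hrR
  -- `k = log2 (R / r) + 1`
  set j := Nat.log 2 (R / r) with hj
  have h1 : R < 2 ^ (j + 1) * r := by
    have h2 : R / r < 2 ^ (j + 1) := Nat.lt_pow_succ_log_self (by norm_num) _
    exact (Nat.div_lt_iff_lt_mul hr).1 h2
  have h2 : (2 : ℝ) ^ j ≤ (R : ℝ) / r := by
    have h3 : R / r ≠ 0 := by
      have : 0 < R / r := Nat.div_pos hrR hr
      omega
    have h4 : 2 ^ j ≤ R / r := Nat.pow_log_le_self 2 h3
    calc (2 : ℝ) ^ j = ((2 ^ j : ℕ) : ℝ) := by push_cast; ring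
      _ ≤ ((R / r : ℕ) : ℝ) := by exact_mod_cast h4
      _ ≤ (R : ℝ) / r := Nat.cast_div_le
  refine (h x r R (j + 1) hr h1).trans ?_
  rw [pow_succ, mul_comm]
  refine mul_le_mul (le_max_left _ _) ?_ (by positivity) (by positivity)
  calc C ^ j = ((2 : ℝ) ^ α) ^ j := by rw [hCα]
    _ = ((2 : ℝ) ^ j) ^ α := by
        rw [← Real.rpow_natCast, ← Real.rpow_natCast (2 : ℝ) j, ← Real.rpow_mul (by norm_num),
          ← Real.rpow_mul (by norm_num), mul_comm]
    _ ≤ ((R : ℝ) / r) ^ α := Real.rpow_le_rpow (by positivity) h2 hα0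
    _ ≤ ((R : ℝ) / r) ^ (max C α) := Real.rpow_le_rpow_of_exponent_le hRr (le_max_right _ _)

end Crest.Agent.R158.Lc522
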