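import Crest.Agent.R158.Fd1_61
import Crest.Agent.R158.Lc4_522

/-!
# Row 158, leaf D of doc 1912 (helper61), part 2: majorants with all moments, truncation

* `TT_maj` : local majorant of the number of big loops which split `BF 0 r1`
* `maj`    : `exp (√3 aa |SS - VV κ| + 12 aa² QQ) 2 ^ #TT ≤ Y`, `∫ Y ^ q ≤ G`, `Y` local
* `tr_pt`, `tr_int` : truncation
-/

set_option autoImplicit false

noncomputable section

namespace Crest.Agent.R158.Fd61

open Crest.Agent.R161.Geo729 Crest.Agent.R161.Dual374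
open Crest.Agent.R161.Tas682 (sd)
open Crest.Agent.R158.It200 hiding hf
open Crest.Agent.R158.Wf850 Crest.Agent.R158.Vx107
open Crest.Agent.R158.Cn109 (lsW smalls mem_smalls SS QQ SS_eq tot tot_eq VV DepF SS_dep QQ_dep)
open Crest.Agent.R158.Hd109 (Dens)
open Crest.Agent.R158.Lc522 (exp_loops ncard_le_of_finset exists_far)
open Crest.Agent.R158.Em522 (starE)
open Crest.Agent.R158.Rs689 (nu)
open Function Real MeasureTheory

local notation "μh" => nu Crest.Agent.R158.Rs689.hf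

/-- corner of a loop -/
theorem corner_of {z : Cfz} {A : Finset Face} (hA : A ∈ Lps z) {c : Corner} (hc : sepC A c) :
    (Lp z c).Finite ∧ ∀ f, f ∈ A ↔ ht z c f ≠ 0 := by
  obtain ⟨c0, h0, hA0⟩ := hA
  have h1 : c ∈ Lp z c0 := (sep_iff h0 hA0 c).1 hc
  have h2 : (Lp z c).Finite := by rw [Lp_eq h1]; exact h0
  refine ⟨h2, ?_⟩
  obtain ⟨B, hB, hB'⟩ := exists_int h2
  have h3 : sepC B c := (sep_iff h2 hB' c).2 (mem_Lp_self _ _)
  have h4 : A = B := sep_uniq ⟨c0, h0, hA0⟩ hB hc h3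
  rw [h4]
  exact hB'

theorem mem_Lp_iff_sep {z : Cfz} {A : Finset Face} (hA : A ∈ Lps z) {c : Corner} (hc : sepC A c)
    (d : Corner) : sepC A d ↔ d ∈ Lp z c := by
  obtain ⟨h1, h2⟩ := corner_of hA hc
  exact sep_iff h1 h2 d

theorem far_of_dia {z : Cfz} {A : Finset Face} (hA : A ∈ Lps z) {c : Corner} (hc : sepC A c)
    {n : ℕ} (hn : n ≤ dia A) :
    ∃ d ∈ Lp z c, ∃ d' ∈ Lp z c, (n : ℤ) ≤ sd d.1 d'.1 := by
  obtain ⟨h1, h2⟩ := corner_of hA hc
  have hne : A.Nonempty := by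
    by_contra h
    rw [Finset.not_nonempty_iff_eq_empty] at h
    subst h
    exact hc (by simp)
  rcases Nat.eq_zero_or_pos n with h0 | h0
  · subst h0
    exact ⟨c, mem_Lp_self _ _, c, mem_Lp_self _ _, sd_nonneg' _ _⟩
  obtain ⟨v, hv, w, hw, h3⟩ := Cn109.exists_dia hne
  rw [Cn109.dia_eq] at h3
  have h4 : (dia A : ℤ) ≤ sd v.1 w.1 := by
    rcases h3 with h3 | h3
    · exact h3
    · omega
  have hin : ∀ f ∈ A, f ∈ Lc522.inn z c := by
    intro f hf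
    show Lc522.Ht (JL z c) f ≠ 0
    rw [Lc522.ht_eq]
    exact (h2 f).1 hf
  obtain ⟨d, hd, d', hd', h5⟩ := exists_far h1 (hin v hv) (hin w hw)
  exact ⟨d, hd, d', hd', by omega⟩

/-- local majorant of `TT` -/
theorem TT_maj (a : ℝ) (ha : 1 ≤ a) (J : ℕ) : ∃ G : ℝ, 1 ≤ G ∧ ∀ (κ : ℕ) (r1 : ℤ), 1 ≤ κ →
    r1 ≤ J * 2 ^ κ → ∃ K : Cfz → ℕ, (∃ S : Finset Edge, DepF S K) ∧ ∫ z, a ^ K z ∂μh ≤ G ∧
      ∀ z, (TT κ r1 z).ncard ≤ K z := by
  classical
  obtain ⟨G, hG, h⟩ := exp_loops a ha (2 * J)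
  refine ⟨G, hG, fun κ r1 hκ hr => ?_⟩
  obtain ⟨K, h1, h2, h3⟩ := h (0, 0) (2 ^ (κ - 1)) Nat.one_le_two_pow
  refine ⟨K, ⟨starE (0, 0) ((2 * J + 1) * 2 ^ (κ - 1)), fun z z' hz => h1 z z' hz⟩, h2,
    fun z => ?_⟩
  refine (ncard_le_of_finset fun s hs => ?_).2
  have e1 : ∀ A : s, ∃ c : Corner, cv c ∈ BF (0, 0) r1 ∧ sepC A.1 c := fun A => by
    obtain ⟨c, hc1, -, hc2⟩ := exists_sep (hs A.1 A.2).2.1
    exact ⟨c, hc1, hc2⟩
  choose φ hφ1 hφ2 using e1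
  have e2 : 2 * 2 ^ (κ - 1) = 2 ^ κ := by
    rw [← pow_succ']
    congr 1
    omega
  have h4 := h3 z s.card (fun i => φ (s.equivFin.symm i))
    (fun i => (corner_of (hs _ (s.equivFin.symm i).2).1 (hφ2 _)).1) ?_ ?_ ?_
  · exact h4
  · intro i j hij hmem
    apply hij
    have h5 : sepC (s.equivFin.symm i).1 (φ (s.equivFin.symm j)) :=
      (mem_Lp_iff_sep (hs _ (s.equivFin.symm i).2).1 (hφ2 _) _).2 hmem
    have h6 := sep_uniq (hs _ (s.equivFin.symm i).2).1 (hs _ (s.equivFin.symm j).2).1 h5 (hφ2 _)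
    exact s.equivFin.symm.injective (Subtype.ext h6)
  · intro i
    have h5 := hφ1 (s.equivFin.symm i)
    rw [mem_BF] at h5
    refine le_trans h5 (hr.trans (le_of_eq ?_))
    push_cast
    have e3 : (2 : ℤ) * 2 ^ (κ - 1) = 2 ^ κ := by exact_mod_cast e2
    rw [← e3]; ring
  · intro i
    refine far_of_dia (hs _ (s.equivFin.symm i).2).1 (hφ2 _) ?_
    have h5 := (hs _ (s.equivFin.symm i).2).2.2
    have h6 : 1 ≤ 2 ^ (κ - 1) := Nat.one_le_two_pow
    omega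

theorem three_le {x y w : ℝ} (hx : 0 ≤ x) (hy : 0 ≤ y) (hw : 0 ≤ w) :
    x * y * w ≤ x ^ 3 + y ^ 3 + w ^ 3 := by
  rcases le_total x y with h1 | h1
  · rcases le_total y w with h2 | h2
    · have : x * y * w ≤ w * w * w := by gcongr; exact h1.trans h2
      nlinarith [pow_nonneg hx 3, pow_nonneg hy 3]
    · have : x * y * w ≤ y * y * y := by gcongr
      nlinarith [pow_nonneg hx 3, pow_nonneg hw 3]
  · rcases le_total x w with h2 | h2
    · have : x * y * w ≤ w * w * w := by gcongr; exact h1.trans h2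
      nlinarith [pow_nonneg hx 3, pow_nonneg hy 3]
    · have : x * y * w ≤ x * x * x := by gcongr
      nlinarith [pow_nonneg hy 3, pow_nonneg hw 3]

/-- **majorant** -/
theorem maj {C : ℝ} (hC : 0 ≤ C) (J q : ℕ) : ∃ G : ℝ, 1 ≤ G ∧ ∀ (κ : ℕ) (r1 : ℤ) (U : Finset Face)
    (u : Face → ℝ), 1 ≤ κ → r1 ≤ J * 2 ^ κ → Dens C κ U u →
    ∃ Y : Cfz → ℝ, (∃ S : Finset Edge, DepF S Y) ∧ (∀ z, 1 ≤ Y z) ∧ ∫ z, Y z ^ q ∂μh ≤ G ∧
      ∀ z, exp (√3 * aa * |SS lsW u U κ z - VV κ| + 12 * aa ^ 2 * QQ lsW u U κ z) *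
        2 ^ (TT κ r1 z).ncard ≤ Y z := by
  classical
  obtain ⟨G1, hG1, h1⟩ := Cn109.stat_moments hC (3 * q * (√3 * aa))
  obtain ⟨G2, hG2, h2⟩ := Cn109.stat_moments hC (3 * q * (12 * aa ^ 2))
  obtain ⟨G3, hG3, h3⟩ := TT_maj ((2 ^ q) ^ 3) (one_le_pow₀ (one_le_pow₀ (by norm_num))) J
  have hap := aa_pos
  have t1 : |3 * (q : ℝ) * (√3 * aa)| = 3 * q * (√3 * aa) := abs_of_nonneg (by positivity)
  have t2 : |3 * (q : ℝ) * (12 * aa ^ 2)| = 3 * q * (12 * aa ^ 2) := abs_of_nonneg (by positivity)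
  rw [t1] at h1
  rw [t2] at h2
  refine ⟨G1 + G2 + G3, by linarith, fun κ r1 U u hκ hr hD => ?_⟩
  obtain ⟨K, ⟨S, hS⟩, hK1, hK2⟩ := h3 κ r1 hκ hr
  obtain ⟨a1, -⟩ := h1 κ U u hD.nn hD.sum hD.le
  obtain ⟨-, a2⟩ := h2 κ U u hD.nn hD.sum hD.le
  have dS := SS_dep lsW u U κ
  have dQ := QQ_dep lsW u U κ
  set T0 := U.biUnion fun v => (Finset.range κ).biUnion fun k => Cn109.Sup lsW k v with hT0
  have dS' : DepF (T0 ∪ S) (SS lsW u U κ) := dS.mono Finset.subset_union_left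
  have dQ' : DepF (T0 ∪ S) (QQ lsW u U κ) := dQ.mono Finset.subset_union_left
  have dK' : DepF (T0 ∪ S) K := hS.mono Finset.subset_union_right
  have dX : DepF (T0 ∪ S) (fun z => exp (√3 * aa * |SS lsW u U κ z - VV κ| +
      12 * aa ^ 2 * QQ lsW u U κ z)) :=
    dS'.comp₂ dQ' fun s q => exp (√3 * aa * |s - VV κ| + 12 * aa ^ 2 * q)
  have dP : DepF (T0 ∪ S) (fun z => (2 : ℝ) ^ K z) := dK'.comp fun k => (2 : ℝ) ^ k
  refine ⟨fun z => exp (√3 * aa * |SS lsW u U κ z - VV κ| + 12 * aa ^ 2 * QQ lsW u U κ z) *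
    2 ^ K z, ⟨T0 ∪ S, dX.mul dP⟩, fun z => ?_, ?_, fun z => ?_⟩
  · refine one_le_mul_of_one_le_of_one_le (one_le_exp ?_) (one_le_pow₀ (by norm_num))
    have := Cn109.QQ_nonneg lsW u U κ z
    positivity
  · have i1 : Integrable (fun z => exp (3 * q * (√3 * aa) * |SS lsW u U κ z - VV κ|)) μh :=
      (dS.comp fun s => exp (3 * q * (√3 * aa) * |s - VV κ|)).integrable _
    have i2 : Integrable (fun z => exp (3 * q * (12 * aa ^ 2) * QQ lsW u U κ z)) μh :=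
      (dQ.comp fun s => exp (3 * q * (12 * aa ^ 2) * s)).integrable _
    have i3 : Integrable (fun z => (((2 : ℝ) ^ q) ^ 3) ^ K z) μh :=
      (hS.comp fun k => (((2 : ℝ) ^ q) ^ 3) ^ k).integrable _
    have i0 : Integrable (fun z => (exp (√3 * aa * |SS lsW u U κ z - VV κ| +
        12 * aa ^ 2 * QQ lsW u U κ z) * 2 ^ K z) ^ q) μh :=
      ((dX.mul dP).comp fun y => y ^ q).integrable _
    calc ∫ z, (exp (√3 * aa * |SS lsW u U κ z - VV κ| + 12 * aa ^ 2 * QQ lsW u U κ z) *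
          2 ^ K z) ^ q ∂μh
        ≤ ∫ z, (exp (3 * q * (√3 * aa) * |SS lsW u U κ z - VV κ|) +
          exp (3 * q * (12 * aa ^ 2) * QQ lsW u U κ z) + (((2 : ℝ) ^ q) ^ 3) ^ K z) ∂μh := by
          refine integral_mono i0 ((i1.add i2).add i3) fun z => ?_
          show (exp (√3 * aa * |SS lsW u U κ z - VV κ| + 12 * aa ^ 2 * QQ lsW u U κ z) *
            2 ^ K z) ^ q ≤ exp (3 * q * (√3 * aa) * |SS lsW u U κ z - VV κ|) +
              exp (3 * q * (12 * aa ^ 2) * QQ lsW u U κ z) + (((2 : ℝ) ^ q) ^ 3) ^ K z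
          have e1 : (exp (√3 * aa * |SS lsW u U κ z - VV κ| + 12 * aa ^ 2 * QQ lsW u U κ z) *
              2 ^ K z) ^ q = exp (q * (√3 * aa * |SS lsW u U κ z - VV κ|)) *
                exp (q * (12 * aa ^ 2 * QQ lsW u U κ z)) * ((2 : ℝ) ^ q) ^ K z := by
            rw [mul_pow, ← Real.exp_nat_mul, mul_add, Real.exp_add, ← pow_mul, ← pow_mul,
              mul_comm (K z) q]
          have e2 : exp (3 * q * (√3 * aa) * |SS lsW u U κ z - VV κ|) =
              exp (q * (√3 * aa * |SS lsW u U κ z - VV κ|)) ^ 3 := by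
            rw [← Real.exp_nat_mul]; congr 1; push_cast; ring
          have e3 : exp (3 * q * (12 * aa ^ 2) * QQ lsW u U κ z) =
              exp (q * (12 * aa ^ 2 * QQ lsW u U κ z)) ^ 3 := by
            rw [← Real.exp_nat_mul]; congr 1; push_cast; ring
          have e4 : (((2 : ℝ) ^ q) ^ 3) ^ K z = (((2 : ℝ) ^ q) ^ K z) ^ 3 := pow_right_comm _ _ _
          rw [e1, e2, e3, e4]
          exact three_le (exp_pos _).le (exp_pos _).le (by positivity)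
      _ ≤ G1 + G2 + G3 := by
          have j12 : Integrable (fun z => exp (3 * q * (√3 * aa) * |SS lsW u U κ z - VV κ|) +
            exp (3 * q * (12 * aa ^ 2) * QQ lsW u U κ z)) μh := i1.add i2
          rw [integral_add j12 i3, integral_add i1 i2]
          linarith
  · exact mul_le_mul_of_nonneg_left (pow_le_pow_right₀ (by norm_num) (hK2 z)) (exp_pos _).le

/-! ### truncation -/

theorem tr_pt {X Y T l : ℝ} (hX : 0 ≤ X) (hY : 0 ≤ Y) (hT : 0 < T) (hl : 0 < l) (k : ℕ) :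
    X * Y ≤ T * X + (l * X ^ 2 + Y ^ (2 * k + 2) / (l * T ^ (2 * k))) / 2 := by
  rcases le_total Y T with h | h
  · have h1 : X * Y ≤ T * X := by nlinarith
    have h2 : 0 ≤ (l * X ^ 2 + Y ^ (2 * k + 2) / (l * T ^ (2 * k))) / 2 := by positivity
    linarith
  · have h1 : 1 ≤ (Y / T) ^ k := one_le_pow₀ ((one_le_div hT).2 h)
    have h2 : X * Y ≤ X * (Y * (Y / T) ^ k) := by
      refine mul_le_mul_of_nonneg_left ?_ hX
      nlinarith
    have h3 : Y ^ (2 * k + 2) / (l * T ^ (2 * k)) = (Y * (Y / T) ^ k) ^ 2 / l := by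
      rw [div_pow]
      field_simp
      ring
    set Z := Y * (Y / T) ^ k
    have h4 : X * Z ≤ (l * X ^ 2 + Z ^ 2 / l) / 2 := by
      have h5 : 0 ≤ (l * X - Z) ^ 2 / l := by positivity
      have h6 : (l * X - Z) ^ 2 / l = l * X ^ 2 - 2 * (X * Z) + Z ^ 2 / l := by
        field_simp
        ring
      linarith
    have h7 : 0 ≤ T * X := by positivity
    rw [h3]
    linarith

theorem tr_int {Ω : Type*} [MeasurableSpace Ω] {μ : Measure Ω} {X Y f : Ω → ℝ} {T l : ℝ}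
    (hT : 0 < T) (hl : 0 < l) (k : ℕ) (hX : ∀ ω, 0 ≤ X ω) (hY : ∀ ω, 0 ≤ Y ω)
    (hf : ∀ ω, |f ω| ≤ X ω * Y ω) (iX : Integrable X μ) (iX2 : Integrable (fun ω => X ω ^ 2) μ)
    (iY : Integrable (fun ω => Y ω ^ (2 * k + 2)) μ) :
    |∫ ω, f ω ∂μ| ≤ T * ∫ ω, X ω ∂μ + (l * ∫ ω, X ω ^ 2 ∂μ +
      (∫ ω, Y ω ^ (2 * k + 2) ∂μ) / (l * T ^ (2 * k))) / 2 := by
  have i1 : Integrable (fun ω => l * X ω ^ 2 + Y ω ^ (2 * k + 2) / (l * T ^ (2 * k))) μ :=
    (iX2.const_mul l).add (iY.div_const _)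
  have i2 : Integrable (fun ω => T * X ω +
      (l * X ω ^ 2 + Y ω ^ (2 * k + 2) / (l * T ^ (2 * k))) / 2) μ :=
    (iX.const_mul T).add (i1.div_const 2)
  have e : ∫ ω, (T * X ω + (l * X ω ^ 2 + Y ω ^ (2 * k + 2) / (l * T ^ (2 * k))) / 2) ∂μ =
      T * ∫ ω, X ω ∂μ + (l * ∫ ω, X ω ^ 2 ∂μ +
        (∫ ω, Y ω ^ (2 * k + 2) ∂μ) / (l * T ^ (2 * k))) / 2 := by
    rw [integral_add (iX.const_mul T) (i1.div_const 2), integral_const_mul, integral_div,
      integral_add (iX2.const_mul l) (iY.div_const _), integral_const_mul, integral_div]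
  rw [← e]
  refine (norm_integral_le_integral_norm f).trans ?_
  refine integral_mono_of_nonneg (Filter.Eventually.of_forall fun ω => norm_nonneg _) i2
    (Filter.Eventually.of_forall fun ω => ?_)
  exact (hf ω).trans (tr_pt (hX ω) (hY ω) hT hl k)

end Crest.Agent.R158.Fd61
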