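import Crest.Agent.R158.Rs6_689
import Crest.Agent.R158.It3_200
import Crest.Agent.R158.Qm1_522

/-!
# Row 158, Block R / W (helper689): primal and dual arms

* `PArm x s R`, `DArm x s R` : an open cluster (dual cluster) of 200 joins `{sd x ≤ s}` to `{R ≤ sd x}`
* `parm_eq` : `PArm = AR` (522); `darm_eq` : `DArm = dual ⁻¹' AR`; `darm_prob`, `ar_prob` (centres)
* `arms_le` : at `p = 1/2` a primal or a dual arm has probability `≤ 2 P(AR)`
-/

set_option autoImplicit false

noncomputable section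

namespace Crest.Agent.R158.Rs689

open MeasureTheory ProbabilityTheory unitInterval
open Crest.Agent.R161.Geo729 Crest.Agent.R161.Topo374 Crest.Agent.R161.Dual374
open Crest.Agent.R161.Tas682 Crest.Agent.R161.Ring421 Crest.Agent.R161.Sym597
open Crest.Agent.R161.Ifc372 Crest.Agent.R161.Hull374 Crest.Agent.R161.Ann374
open Crest.Agent.R158.It200 Crest.Agent.R158.Qm522

/-- primal arm -/
def PArm (x : P2) (s R : ℤ) : Set Cfz := {z | ∃ u v : P2, sd x u ≤ s ∧ R ≤ sd x v ∧ v ∈ OCl z u}

/-- dual arm (faces indexed by their lower left corner) -/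
def DArm (x : P2) (s R : ℤ) : Set Cfz := {z | ∃ f g : P2, sd x f ≤ s ∧ R ≤ sd x g ∧ g ∈ DCl z f}

theorem oc_univ_of_rch {z : Cfz} {u v : P2}
    (h : Relation.ReflTransGen (PStep (fun e => z e = true)) u v) : OC z Set.univ u v :=
  ⟨trivial, Relation.ReflTransGen.mono (fun _ _ h => ⟨h, trivial, trivial⟩) _ _ h⟩

theorem parm_eq {x : P2} {s R : ℤ} (h : s ≤ R) : PArm x s R = AR x s R := by
  ext z
  constructor
  · rintro ⟨u, v, hu, hv, h1⟩
    exact ar_of_oc h (oc_univ_of_rch h1) hu hv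
  · rintro ⟨u, hu, v, hv, h1⟩
    exact ⟨u, v, hu, hv, Relation.ReflTransGen.mono (fun _ _ h => h.1) _ _ h1.2⟩

theorem dstep_false {z : Cfz} {f g : P2} :
    DStep (fun e => z e = false) f g ↔ PStep (fun e => dual z e = true) f g := by
  rw [← dstep_dual]
  constructor
  · rintro ⟨e, he, h⟩
    exact ⟨e, by simp [he], h⟩
  · rintro ⟨e, he, h⟩
    exact ⟨e, by simpa using he, h⟩

/-- dual clusters are the clusters of the dual configuration -/
theorem mem_dcl {z : Cfz} {f g : P2} : g ∈ DCl z f ↔ g ∈ OCl (dual z) f := by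
  constructor
  · intro h
    exact Relation.ReflTransGen.mono (fun _ _ h => dstep_false.1 h) _ _ h
  · intro h
    exact Relation.ReflTransGen.mono (fun _ _ h => dstep_false.2 h) _ _ h

theorem darm_eq' {x : P2} {s R : ℤ} : DArm x s R = dual ⁻¹' PArm x s R := by
  ext z
  constructor
  · rintro ⟨f, g, h1, h2, h3⟩
    exact ⟨f, g, h1, h2, mem_dcl.1 h3⟩
  · rintro ⟨f, g, h1, h2, h3⟩
    exact ⟨f, g, h1, h2, mem_dcl.2 h3⟩

theorem darm_eq {x : P2} {s R : ℤ} (h : s ≤ R) : DArm x s R = dual ⁻¹' AR x s R := by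
  rw [darm_eq', parm_eq h]

theorem measurableSet_AR (x : P2) (s R : ℤ) : MeasurableSet (AR x s R) :=
  (ar_incLoc x s R).measurableSet

/-- centres -/
theorem ar_prob (p : I) (x : P2) {s R : ℤ} (h : s ≤ R) :
    (nu p).real (AR x s R) = (nu p).real (AR (0, 0) s R) := by
  have e : shiftZ x ⁻¹' AR (0, 0) s R = AR x s R := by
    rw [← parm_eq h, ← parm_eq h]
    ext z
    constructor
    · rintro ⟨u, v, h1, h2, h3⟩
      refine ⟨u + x, v + x, ?_, ?_, rch_shift x h3⟩
      · simpa [sd] using h1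
      · simpa [sd] using h2
    · rintro ⟨u, v, h1, h2, h3⟩
      refine ⟨u - x, v - x, ?_, ?_, ?_⟩
      · simpa [sd] using h1
      · simpa [sd] using h2
      · have h4 : Rch (shiftZ x z) (u - x) (v - x) := by
          rw [rch_shift_iff, sub_add_cancel, sub_add_cancel]
          exact h3
        exact h4
  have ht := tInv p x
  rw [← e]
  conv_rhs => rw [← ht]
  rw [measureReal_def, measureReal_def, Measure.map_apply (measurable_shiftZ x)
    (measurableSet_AR _ _ _)]

/-- probability of a dual arm -/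
theorem darm_prob (p : I) (x : P2) {s R : ℤ} (h : s ≤ R) :
    (nu p).real (DArm x s R) = (nu (σ p)).real (AR (0, 0) s R) := by
  rw [darm_eq h, nu_dual p (measurableSet_AR _ _ _), ar_prob _ _ h]

theorem parm_prob (p : I) (x : P2) {s R : ℤ} (h : s ≤ R) :
    (nu p).real (PArm x s R) = (nu p).real (AR (0, 0) s R) := by
  rw [parm_eq h, ar_prob p x h]

/-- primal or dual arm at `p = 1/2` -/
theorem arms_le (x x' : P2) {s R s' R' s'' R'' : ℤ} (h1 : s ≤ s'') (h2 : s' ≤ s'') (h3 : s'' ≤ R'')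
    (h4 : R'' ≤ R) (h5 : R'' ≤ R') :
    (nu hf).real (PArm x s R ∪ DArm x' s' R') ≤ 2 * (nu hf).real (AR (0, 0) s'' R'') := by
  have a1 : (nu hf).real (PArm x s R) ≤ (nu hf).real (AR (0, 0) s'' R'') := by
    rw [parm_prob hf x (h1.trans (h3.trans h4))]
    exact measureReal_mono ((ar_mono_in h1).trans (ar_anti h3 h4))
  have a2 : (nu hf).real (DArm x' s' R') ≤ (nu hf).real (AR (0, 0) s'' R'') := by
    rw [darm_prob hf x' (h2.trans (h3.trans h5)), sigma_hf]
    exact measureReal_mono ((ar_mono_in h2).trans (ar_anti h3 h5))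
  have a3 := measureReal_union_le (μ := nu hf) (PArm x s R) (DArm x' s' R')
  linarith

end Crest.Agent.R158.Rs689
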