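import Crest.Agent.R158.Fd2_61
import Crest.Agent.R158.Cpl5_963
import Crest.Agent.R158.Rs10_689

/-!
# Row 158, leaf D of doc 1912 (helper61), part 3: products over classes of loops, locality, independence

* `PP P m z` : product of the weights of the loops of `z` with the (deterministic) property `P`
* `measurable_PP`, `PP_int`, `PP_dep`, `PP_off`, `PP_split`, `PP_congr`
* `indep_off` : a function of finitely many edges and a function of the others are independent
* `cross_A1`, `A1_le` : crossing loops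
-/

set_option autoImplicit false

noncomputable section

namespace Crest.Agent.R158.Fd61

open Crest.Agent.R161.Geo729 Crest.Agent.R161.Dual374
open Crest.Agent.R161.Tas682 (sd)
open Crest.Agent.R158.It200 hiding hf
open Crest.Agent.R158.Wf850 Crest.Agent.R158.Vx107
open Crest.Agent.R158.Cn109 (lsW smalls mem_smalls SS QQ SS_eq tot tot_eq VV DepF SS_dep QQ_dep)
open Crest.Agent.R158.Hd109 (Dens)
open Crest.Agent.R158.Cpl963 (A1)
open Crest.Agent.R158.Fr158 (bx mem_bx mem_bx_sd eIn mem_eIn)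
open Crest.Agent.R158.Rs689 (nu PB)
open Function Real MeasureTheory ProbabilityTheory unitInterval

local notation "μh" => nu Crest.Agent.R158.Rs689.hf

/-! ### independence off a finite set -/

/-- `f` does not depend on the edges of `S` -/
def DepOff {β : Type*} (S : Finset Edge) (f : Cfz → β) : Prop :=
  ∀ z z' : Cfz, (∀ e, e ∉ S → z e = z' e) → f z = f z'

theorem DepOff.mono {β : Type*} {S T : Finset Edge} {f : Cfz → β} (hf : DepOff T f) (h : S ⊆ T) :
    DepOff S f := fun z z' hz => hf z z' fun e he => hz e fun h' => he (h h')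

theorem indep_sets {ι : Type*} (w : ι → I) {S : Set ι} {f g : (ι → Bool) → ℝ} (mf : Measurable f)
    (mg : Measurable g) (hf : ∀ z z' : ι → Bool, (∀ e, e ∈ S → z e = z' e) → f z = f z')
    (hg : ∀ z z' : ι → Bool, (∀ e, e ∉ S → z e = z' e) → g z = g z') :
    ∫ z, f z * g z ∂(PB w) = (∫ z, f z ∂(PB w)) * ∫ z, g z ∂(PB w) := by
  classical
  set m : ι → MeasurableSpace (ι → Bool) := fun e =>
    MeasurableSpace.comap (fun z : ι → Bool => z e) inferInstance with hm
  have h1 : iIndepFun (fun (e : ι) (z : ι → Bool) => z e) (PB w) := by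
    have := iIndepFun_infinitePi (P := fun e => Crest.Agent.R158.Rs689.bern (w e))
      (X := fun _ b => b) (fun _ => measurable_id)
    exact this
  have h2 : Indep (⨆ e ∈ S, m e) (⨆ e ∈ Sᶜ, m e) (PB w) :=
    indep_iSup_of_disjoint (m := m) (fun e => (measurable_pi_apply e).comap_le) h1
      disjoint_compl_right
  have key : ∀ (T : Set ι) (k : (ι → Bool) → ℝ), Measurable k →
      (∀ z z' : ι → Bool, (∀ e, e ∈ T → z e = z' e) → k z = k z') →
      MeasurableSpace.comap k inferInstance ≤ ⨆ e ∈ T, m e := by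
    intro T k mk hk
    have e1 : k = k ∘ fun (z : ι → Bool) (e : ι) => if e ∈ T then z e else false := by
      funext z
      refine hk _ _ fun e he => ?_
      show z e = if e ∈ T then z e else false
      rw [if_pos he]
    rw [e1, ← MeasurableSpace.comap_comp]
    refine (MeasurableSpace.comap_mono mk.comap_le).trans ?_
    refine @Measurable.comap_le _ _ (⨆ e ∈ T, m e) _ _ ?_
    refine @measurable_pi_lambda _ _ _ (⨆ e ∈ T, m e) _ _ fun e => ?_
    by_cases he : e ∈ T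
    · simp only [if_pos he]
      have h5 : m e ≤ ⨆ e ∈ T, m e := le_iSup₂_of_le e he le_rfl
      have h6 : @Measurable _ _ (m e) _ (fun z : ι → Bool => z e) := comap_measurable _
      exact h6.mono h5 le_rfl
    · simp only [if_neg he]
      exact @measurable_const _ _ _ (⨆ e ∈ T, m e) _
  have h3 : IndepFun f g (PB w) := by
    refine indep_of_indep_of_le_left (indep_of_indep_of_le_right h2 ?_) ?_
    · exact key Sᶜ g mg fun z z' h => hg z z' fun e he => h e he
    · exact key S f mf hf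
  exact h3.integral_fun_mul_eq_mul_integral mf.aestronglyMeasurable mg.aestronglyMeasurable

theorem indep_off {S : Finset Edge} {f g : Cfz → ℝ} (hf : DepF S f) (hg : DepOff S g)
    (mg : Measurable g) : ∫ z, f z * g z ∂μh = (∫ z, f z ∂μh) * ∫ z, g z ∂μh :=
  indep_sets (fun _ => Crest.Agent.R158.Rs689.hf) (S := (S : Set Edge)) hf.measurable mg
    (fun z z' h => hf z z' fun e he => h e he) (fun z z' h => hg z z' fun e he => h e he)

/-! ### products over classes of loops -/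

/-- product of the weights of the loops with property `P` -/
def PP (P : Finset Face → Prop) (m : Face →₀ ℝ) (z : Cfz) : ℝ := PW {A | A ∈ Lps z ∧ P A} m

theorem PP_sub (P : Finset Face → Prop) (z : Cfz) : {A | A ∈ Lps z ∧ P A} ⊆ Lps z := fun _ h => h.1

theorem W_eq_PP (m : Face →₀ ℝ) (z : Cfz) : W m z = PP (fun _ => True) m z := by
  unfold PP
  rw [W_eq_PW]
  congr 1
  ext A
  simp

theorem OP_eq_PP (m : Face →₀ ℝ) (z : Cfz) (c : Corner) :
    OP m z c = PP (fun A => ¬ sepC A c) m z := rfl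

theorem measurable_PP {m : Face →₀ ℝ} (hm : Ntr m) (P : Finset Face → Prop) :
    Measurable (PP P m) := by
  classical
  set Q : ℕ → Cfz → ℝ := fun n z => ∏ A ∈ (BF (0, 0) n).powerset,
    if A ∈ Lps z ∧ P A then Fw (mass m A) else 1 with hQ
  have h1 : ∀ n, Measurable (Q n) := by
    intro n
    refine Finset.measurable_prod _ fun A _ => ?_
    refine Measurable.ite ?_ measurable_const measurable_const
    by_cases hA : P A
    · simpa [hA] using meas_lps A
    · simp [hA]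
  refine measurable_of_tendsto_metrizable h1 ?_
  rw [tendsto_pi_nhds]
  intro z
  have hfin := fin_supp hm (PP_sub P z)
  obtain ⟨N, hN⟩ : ∃ N : ℕ, ∀ A ∈ hfin.toFinset, A ⊆ BF (0, 0) N := by
    have h2 : ∀ A : Finset Face, ∃ N : ℕ, A ⊆ BF (0, 0) N := by
      intro A
      refine ⟨(∑ f ∈ A, sd (0, 0) f.1).toNat, fun f hf => ?_⟩
      rw [mem_BF]
      refine le_trans ?_ (Int.self_le_toNat _)
      exact Finset.single_le_sum (f := fun f : Face => sd (0, 0) f.1)
        (fun g _ => sd_nonneg' _ _) hf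
    choose N hN using h2
    refine ⟨∑ A ∈ hfin.toFinset, N A, fun A hA => (hN A).trans (BF_mono ?_)⟩
    exact_mod_cast Finset.single_le_sum (f := N) (fun _ _ => Nat.zero_le _) hA
  refine tendsto_const_nhds.congr' ?_
  filter_upwards [Filter.eventually_ge_atTop N] with n hn
  rw [hQ]
  dsimp only
  unfold PP PW
  rw [finprod_mem_eq_prod _ hfin]
  refine Finset.prod_subset_one_on_sdiff (f := fun A => Fw (mass m A)) ?_ ?_ ?_
  · intro A hA
    rw [Finset.mem_powerset]
    exact (hN A hA).trans (BF_mono (by exact_mod_cast hn))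
  · intro A hA
    rw [Finset.mem_sdiff, Set.Finite.mem_toFinset] at hA
    by_cases h : A ∈ Lps z ∧ P A
    · rw [if_pos h]
      by_contra h'
      exact hA.2 ⟨h, h'⟩
    · rw [if_neg h]
  · intro A hA
    rw [Set.Finite.mem_toFinset] at hA
    have h3 : A ∈ Lps z ∧ P A := hA.1
    rw [if_pos h3]

theorem abs_PP_le {m : Face →₀ ℝ} (hm : Ntr m) : ∃ K : ℝ, ∀ (P : Finset Face → Prop) (z : Cfz),
    |PP P m z| ≤ K := by
  obtain ⟨n, hn⟩ := exists_box m
  refine ⟨2 ^ nc n, fun P z => ?_⟩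
  have hfin := fin_supp hm (PP_sub P z)
  unfold PP PW
  rw [finprod_mem_eq_prod _ hfin, Finset.abs_prod]
  have h1 : ∀ A ∈ hfin.toFinset, A ∈ Lps z ∧ mass m A ≠ 0 := by
    intro A hA
    rw [Set.Finite.mem_toFinset] at hA
    refine ⟨hA.1.1, fun h => hA.2 ?_⟩
    show Fw (mass m A) = 1
    rw [h, Fw_zero]
  calc ∏ A ∈ hfin.toFinset, |Fw (mass m A)| ≤ ∏ _A ∈ hfin.toFinset, (2 : ℝ) :=
        Finset.prod_le_prod (fun _ _ => abs_nonneg _) fun _ _ => abs_Fw_le _
    _ = 2 ^ hfin.toFinset.card := by rw [Finset.prod_const]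
    _ ≤ 2 ^ nc n := pow_le_pow_right₀ (by norm_num) (card_mass hm hn z h1)

theorem PP_int {m : Face →₀ ℝ} (hm : Ntr m) (P : Finset Face → Prop) : Integrable (PP P m) μh := by
  obtain ⟨K, hK⟩ := abs_PP_le hm
  exact Integrable.of_bound (measurable_PP hm P).aestronglyMeasurable K
    (Filter.Eventually.of_forall fun z => by rw [Real.norm_eq_abs]; exact hK P z)

/-- same loops -/
theorem same_loops {P : Finset Face → Prop} {z z' : Cfz}
    (h : ∀ A, P A → ∀ e ∈ bdE A, z e = z' e) : {A | A ∈ Lps z ∧ P A} = {A | A ∈ Lps z' ∧ P A} := by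
  ext A
  constructor
  · rintro ⟨h1, h2⟩
    exact ⟨loc_aux (h A h2) h1, h2⟩
  · rintro ⟨h1, h2⟩
    exact ⟨loc_aux (fun e he => (h A h2 e he).symm) h1, h2⟩

theorem PP_loc {P : Finset Face → Prop} (m : Face →₀ ℝ) {z z' : Cfz}
    (h : ∀ A, P A → ∀ e ∈ bdE A, z e = z' e) : PP P m z = PP P m z' := by
  unfold PP
  rw [same_loops h]

theorem PP_dep {P : Finset Face → Prop} (m : Face →₀ ℝ) {S : Finset Edge}
    (h : ∀ A, P A → bdE A ⊆ S) : DepF S (PP P m) := fun _ _ hz =>
  PP_loc m fun A hA e he => hz e (h A hA he)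

theorem PP_off {P : Finset Face → Prop} (m : Face →₀ ℝ) {S : Finset Edge}
    (h : ∀ A, P A → ∀ e ∈ bdE A, e ∉ S) : DepOff S (PP P m) := fun _ _ hz =>
  PP_loc m fun A hA e he => hz e (h A hA e he)

theorem PP_congr {m m' : Face →₀ ℝ} {P : Finset Face → Prop} {z : Cfz}
    (h : ∀ A ∈ Lps z, P A → Fw (mass m A) = Fw (mass m' A)) : PP P m z = PP P m' z :=
  finprod_mem_congr rfl fun A hA => h A hA.1 hA.2

theorem PP_congr_set {m : Face →₀ ℝ} {P P' : Finset Face → Prop} {z : Cfz}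
    (h : ∀ A ∈ Lps z, Fw (mass m A) ≠ 1 → (P A ↔ P' A)) : PP P m z = PP P' m z := by
  unfold PP PW
  refine finprod_mem_inter_mulSupport_eq _ _ _ ?_
  ext A
  simp only [Set.mem_inter_iff, Set.mem_ofPred_eq, mem_mulSupport]
  constructor
  · rintro ⟨⟨h1, h2⟩, h3⟩
    exact ⟨⟨h1, (h A h1 h3).1 h2⟩, h3⟩
  · rintro ⟨⟨h1, h2⟩, h3⟩
    exact ⟨⟨h1, (h A h1 h3).2 h2⟩, h3⟩

theorem PP_split {m : Face →₀ ℝ} (hm : Ntr m) {P P1 P2 : Finset Face → Prop} {z : Cfz}
    (h1 : ∀ A ∈ Lps z, P1 A → ¬ P2 A)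
    (h : ∀ A ∈ Lps z, Fw (mass m A) ≠ 1 → (P A ↔ P1 A ∨ P2 A)) :
    PP P m z = PP P1 m z * PP P2 m z := by
  rw [PP_congr_set (P' := fun A => P1 A ∨ P2 A) h]
  unfold PP PW
  have e : {A | A ∈ Lps z ∧ (P1 A ∨ P2 A)} = {A | A ∈ Lps z ∧ P1 A} ∪ {A | A ∈ Lps z ∧ P2 A} := by
    ext A
    simp only [Set.mem_ofPred_eq, Set.mem_union]
    tauto
  rw [e]
  refine finprod_mem_union' ?_ (fin_supp hm (PP_sub P1 z)) (fin_supp hm (PP_sub P2 z))
  rw [Set.disjoint_left]
  rintro A ⟨h2, h3⟩ ⟨_, h4⟩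
  exact h1 A h2 h3 h4

/-! ### loops that do not split a box -/

theorem off_of_not_splits {A : Finset Face} {x : P2} {n : ℤ} (h : ¬ Splits A (BF x n)) {e : Edge}
    (he : e ∈ bdE A) : e ∉ eIn (bx x (n - 1)) := by
  intro h'
  rw [mem_bdE] at he
  obtain ⟨d, hd, rfl⟩ := he
  apply hd
  rw [mem_eIn, mem_bx_sd, mem_bx_sd] at h'
  have h1 : sd x d.1 ≤ n - 1 := by
    rcases ah_ends' d with ⟨h2, -⟩ | ⟨h2, -⟩
    · rw [← h2]; exact h'.1
    · rw [← h2]; exact h'.2
  have h2 := (sd_corner x d).2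
  have c1 : cv d ∈ BF x n := mem_BF.2 (by show sd x d.1 ≤ n; linarith)
  have c2 : cf d ∈ BF x n := mem_BF.2 (by show sd x (fc d) ≤ n; linarith)
  constructor
  · intro h3
    by_contra h4
    exact h ⟨⟨_, c1, h3⟩, _, c2, h4⟩
  · intro h3
    by_contra h4
    exact h ⟨⟨_, c2, h3⟩, _, c1, h4⟩

/-! ### crossing -/

theorem cross_A1 {z : Cfz} {A : Finset Face} (hA : A ∈ Lps z) {x : P2} {k l : ℤ} (hkl : k ≤ l)
    (h : Splits A (BF x k)) (h' : ¬ A ⊆ BF x l) : z ∈ A1 x k l := by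
  obtain ⟨⟨u, v, hu, hv, huv⟩, -⟩ := cross2 hA h h'
  obtain ⟨p, q, hp, hq, hpq, -⟩ := Crest.Agent.R158.Cpl963.cross_sub x hkl
    (Crest.Agent.R158.Rs689.oc_univ_of_rch huv) hu (by linarith)
  exact ⟨p, q, hp, hq, by rwa [Set.univ_inter] at hpq⟩

theorem A1_le : ∃ C a : ℝ, 1 ≤ C ∧ 0 < a ∧ ∀ (x : P2) (s R : ℕ), 1 ≤ s → s ≤ R →
    (nu Crest.Agent.R158.Rs689.hf).real (A1 x s R) ≤ C * ((s : ℝ) / R) ^ a := by
  obtain ⟨C, a, hC, ha, h⟩ := Crest.Agent.R158.Rs689.arm_half
  refine ⟨max C 1, a, le_max_right _ _, ha, fun x s R hs hR => ?_⟩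
  have h1 : A1 x s R ⊆ Crest.Agent.R158.Rs689.ArmX x s R := by
    rintro z ⟨u, v, hu, hv, huv⟩
    have hu' : sd x u ≤ s := hu.le
    have hv' : (R : ℤ) ≤ sd x v := hv.ge
    unfold sd at hu' hv'
    rw [max_le_iff] at hu'
    rw [le_max_iff] at hv'
    exact ⟨u, v, hu'.1, hu'.2, hv', Relation.ReflTransGen.mono (fun _ _ h => h.1) _ _ huv.2⟩
  calc (nu Crest.Agent.R158.Rs689.hf).real (A1 x s R) ≤ (nu Crest.Agent.R158.Rs689.hf).real (Crest.Agent.R158.Rs689.ArmX x s R) := measureReal_mono h1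
    _ ≤ C * ((s : ℝ) / R) ^ a := h x s R hs hR
    _ ≤ max C 1 * ((s : ℝ) / R) ^ a := by
        refine mul_le_mul_of_nonneg_right (le_max_left _ _) (by positivity)

end Crest.Agent.R158.Fd61
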