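import Crest.Agent.R158.Fd3_61

/-!
# Row 158, leaf D of doc 1912 (helper61), part 4: near and far charges, factorisation

* `nm U u N v = aa • (u on U - v on N)`; `ND` : density in a square
* `Bn ρ m` : loops which do not split `BF 0 ρ`; `An ρ m` : loops inside `BF 0 ρ`
* `W_fac` : `W (nm ..) = An ρ * Bn (ρ + 3)` off two crossings; `Bn_nm` : `Bn` does not see the near part
* `W_Bn`, `Bn_Bn` : `W (mg U u g) = Bn ρ`, `Bn ρ = Bn ρ'` off a crossing
* `one_le_An`, `An_le`, `abs_Bn`, `abs_W_nm` : deterministic bounds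
-/

set_option autoImplicit false

noncomputable section

namespace Crest.Agent.R158.Fd61

open Crest.Agent.R161.Geo729 Crest.Agent.R161.Dual374
open Crest.Agent.R161.Tas682 (sd)
open Crest.Agent.R158.It200 hiding hf
open Crest.Agent.R158.Wf850 Crest.Agent.R158.Vx107
open Crest.Agent.R158.Cn109 (lsW smalls mem_smalls SS QQ SS_eq tot tot_eq VV DepF SS_dep QQ_dep)
open Crest.Agent.R158.Hd109 (Dens)
open Crest.Agent.R158.Cpl963 (A1)
open Crest.Agent.R158.Fr158 (bx mem_bx mem_bx_sd eIn mem_eIn)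
open Crest.Agent.R158.Rs689 (nu PB)
open Function Real MeasureTheory ProbabilityTheory unitInterval

local notation "μh" => nu Crest.Agent.R158.Rs689.hf

theorem lps_nonempty {z : Cfz} {A : Finset Face} (hA : A ∈ Lps z) : A.Nonempty := by
  by_contra h
  rw [Finset.not_nonempty_iff_eq_empty] at h
  subst h
  obtain ⟨c, h1, h2⟩ := hA
  exact (sep_iff h1 h2 c).2 (mem_Lp_self _ _) (by simp)

theorem splits_mono {A : Finset Face} {x : P2} {n m : ℤ} (h : n ≤ m) (hA : Splits A (BF x n)) :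
    Splits A (BF x m) := by
  obtain ⟨⟨f, h1, h2⟩, g, h3, h4⟩ := hA
  exact ⟨⟨f, BF_mono h h1, h2⟩, g, BF_mono h h3, h4⟩

theorem not_splits_cases {A B : Finset Face} (h : ¬ Splits A B) : (∀ f ∈ B, f ∉ A) ∨ B ⊆ A := by
  by_cases h1 : ∃ f ∈ B, f ∈ A
  · right
    intro g hg
    by_contra h2
    exact h ⟨h1, g, hg, h2⟩
  · left
    push Not at h1
    exact h1

/-- density in a square -/
structure ND (C : ℝ) (κ : ℕ) (r : ℤ) (N : Finset Face) (v : Face → ℝ) : Prop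
    extends Dens C κ N v where
  out : ∀ f ∈ N, sd (0, 0) f.1 ≤ r
  lev : 2 ^ κ ≤ r

/-- the two-object charge -/
def nm (U : Finset Face) (u : Face → ℝ) (N : Finset Face) (v : Face → ℝ) : Face →₀ ℝ :=
  aa • (cu U u - cu N v)

theorem mass_nm (U : Finset Face) (u : Face → ℝ) (N : Finset Face) (v : Face → ℝ)
    (A : Finset Face) :
    Vx107.mass (nm U u N v) A = aa * (Cn109.mass u U A - Cn109.mass v N A) := by
  unfold nm
  rw [mass_smul, mass_sub, mass_cu, mass_cu]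

theorem ntr_nm {U : Finset Face} {u : Face → ℝ} {N : Finset Face} {v : Face → ℝ}
    (h : ∑ f ∈ U, u f = 1) (h' : ∑ f ∈ N, v f = 1) : Ntr (nm U u N v) := by
  unfold nm
  refine Ntr.smul _ ?_
  unfold Ntr
  rw [tot_sub, tot_cu, tot_cu, h, h', sub_self]

/-- loops which do not split `BF 0 ρ` -/
def Bn (ρ : ℤ) (m : Face →₀ ℝ) : Cfz → ℝ := PP (fun A => ¬ Splits A (BF (0, 0) ρ)) m

/-- loops inside `BF 0 ρ` -/
def An (ρ : ℤ) (m : Face →₀ ℝ) : Cfz → ℝ := PP (fun A => A ⊆ BF (0, 0) ρ) m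

theorem Bn_off (ρ : ℤ) (m : Face →₀ ℝ) : DepOff (eIn (bx (0, 0) (ρ - 1))) (Bn ρ m) :=
  PP_off m fun _ hA _ he => off_of_not_splits hA he

theorem An_dep (ρ : ℤ) (m : Face →₀ ℝ) : DepF (eIn (bx (0, 0) (ρ + 2))) (An ρ m) :=
  PP_dep m fun _ hA => bdE_sub hA

theorem An_Bn {ρ : ℤ} {m m' : Face →₀ ℝ} (hm' : Ntr m') :
    ∫ z, An ρ m z * Bn (ρ + 3) m' z ∂μh = (∫ z, An ρ m z ∂μh) * ∫ z, Bn (ρ + 3) m' z ∂μh := by
  refine indep_off (An_dep ρ m) ?_ (measurable_PP hm' _)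
  have h := Bn_off (ρ + 3) m'
  rw [show ρ + 3 - 1 = ρ + 2 by ring] at h
  exact h

theorem far_face {ρ : ℤ} (h : 0 ≤ ρ) : ∃ f : Face, f ∈ BF (0, 0) (ρ + 3) ∧ f ∉ BF (0, 0) ρ := by
  have h1 : |ρ + 1| = ρ + 1 := abs_of_nonneg (by omega)
  refine ⟨((ρ + 1, 0), false), ?_, ?_⟩ <;> rw [mem_BF] <;> unfold sd <;> simp [h1] <;> omega

section
variable {C C' : ℝ} {κ κ' : ℕ} {r0 r1 r : ℤ} {U N : Finset Face} {u v : Face → ℝ} {z : Cfz}

theorem wm_zero_of_sub (h : RD C κ r0 r1 U u) {A : Finset Face} {ρ : ℤ} (hρ : ρ ≤ r0)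
    (hA : A ⊆ BF (0, 0) ρ) : Cn109.mass u U A = 0 := by
  refine wm_zero fun f hf hfA => ?_
  have h1 := mem_BF.1 (hA hfA)
  have h2 := h.inn f hf
  have h3 : (0 : ℤ) < 2 ^ κ := by positivity
  linarith

theorem vm_one (h : ND C' κ' r N v) {A : Finset Face} (hA : ∀ f ∈ N, f ∈ A) :
    Cn109.mass v N A = 1 := by
  classical
  unfold Cn109.mass
  rw [Finset.filter_true_of_mem hA, h.sum]

theorem vm_zero {A : Finset Face} (h : ∀ f ∈ N, f ∉ A) : Cn109.mass v N A = 0 := by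
  classical
  unfold Cn109.mass
  rw [Finset.filter_eq_empty_iff.2 (fun {f} hf => h f hf), Finset.sum_empty]

theorem vm_nonneg (h : ND C' κ' r N v) (A : Finset Face) : 0 ≤ Cn109.mass v N A :=
  Cn109.mass_nonneg h.nn A

theorem vm_le_one (h : ND C' κ' r N v) (A : Finset Face) : Cn109.mass v N A ≤ 1 := by
  classical
  rw [← h.sum]
  unfold Cn109.mass
  exact Finset.sum_le_sum_of_subset_of_nonneg (Finset.filter_subset _ _) fun f hf _ => h.nn f hf

theorem vm_cases (h : ND C' κ' r N v) {A : Finset Face} (hA : ¬ Splits A (BF (0, 0) r)) :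
    Cn109.mass v N A = 0 ∨ Cn109.mass v N A = 1 := by
  rcases not_splits_cases hA with h1 | h1
  · exact Or.inl (vm_zero fun f hf => h1 f (mem_BF.2 (h.out f hf)))
  · exact Or.inr (vm_one h fun f hf => h1 (mem_BF.2 (h.out f hf)))

theorem Fw_01 {t : ℝ} (ht : t = 0 ∨ t = 1) : Fw (aa * (0 - t)) = 1 := by
  rcases ht with rfl | rfl
  · rw [sub_zero, mul_zero, Fw_zero]
  · rw [zero_sub, mul_neg, mul_one, Fw_neg_aa]

/-- **factorisation** -/
theorem W_fac (h : RD C κ r0 r1 U u) (hn : ND C' κ' r N v) (hr : 0 ≤ r) {ρ : ℤ} (h1 : r ≤ ρ)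
    (h2 : ρ + 3 ≤ r0) (c1 : z ∉ A1 (0, 0) r ρ) (c2 : z ∉ A1 (0, 0) (ρ + 3) r0) :
    W (nm U u N v) z = An ρ (nm U u N v) z * Bn (ρ + 3) (nm U u N v) z := by
  rw [W_eq_PP]
  refine PP_split (ntr_nm h.sum hn.sum) ?_ ?_
  · intro A hA hA1 hA2
    obtain ⟨f, hf⟩ := lps_nonempty hA
    obtain ⟨g, hg, hg'⟩ := far_face (ρ := ρ) (by linarith)
    exact hA2 ⟨⟨f, BF_mono (by linarith) (hA1 hf), hf⟩, g, hg, fun h' => hg' (hA1 h')⟩
  · intro A hA hw
    refine ⟨fun _ => ?_, fun _ => trivial⟩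
    by_contra hcon
    push Not at hcon
    obtain ⟨h3, h4⟩ := hcon
    apply hw
    have h5 : A ⊆ BF (0, 0) r0 := by
      by_contra h6
      exact c2 (cross_A1 hA h2 h4 h6)
    have h6 : ¬ Splits A (BF (0, 0) r) := fun h7 => c1 (cross_A1 hA h1 h7 h3)
    rw [mass_nm, wm_zero_of_sub h le_rfl h5]
    exact Fw_01 (vm_cases hn h6)

/-- `Bn` does not see the near part -/
theorem Bn_nm (hn : ND C' κ' r N v) {ρ : ℤ} (h1 : r ≤ ρ) {g : Face} (hg : sd (0, 0) g.1 ≤ ρ) :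
    Bn ρ (nm U u N v) z = Bn ρ (mg U u g) z := by
  classical
  refine PP_congr fun A _ hA => ?_
  rw [mass_nm, mass_mg]
  congr 2
  rcases not_splits_cases hA with h3 | h3
  · rw [vm_zero fun f hf => h3 f (mem_BF.2 ((hn.out f hf).trans h1)),
      if_neg (h3 g (mem_BF.2 hg))]
  · rw [vm_one hn fun f hf => h3 (mem_BF.2 ((hn.out f hf).trans h1)), if_pos (h3 (mem_BF.2 hg))]

/-- a loop inside `BF 0 r0` has weight one -/
theorem wt_one_of_sub (h : RD C κ r0 r1 U u) {A : Finset Face} (hA : A ⊆ BF (0, 0) r0)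
    (g : Face) : Fw (Vx107.mass (mg U u g) A) = 1 := by
  classical
  rw [mass_mg, wm_zero_of_sub h le_rfl hA]
  refine Fw_01 ?_
  split_ifs
  · exact Or.inr rfl
  · exact Or.inl rfl

/-- more generally: products over all loops with `P` -/
theorem PP_Bn (h : RD C κ r0 r1 U u) {ρ : ℤ} (hρ : ρ ≤ r0) (g : Face)
    (c : z ∉ A1 (0, 0) ρ r0) {P : Finset Face → Prop}
    (hP : ∀ A ∈ Lps z, ¬ Splits A (BF (0, 0) ρ) → P A) :
    PP P (mg U u g) z = Bn ρ (mg U u g) z := by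
  refine PP_congr_set fun A hA hw => ?_
  refine ⟨fun _ hs => ?_, fun hs => hP A hA hs⟩
  apply hw
  refine wt_one_of_sub h ?_ g
  by_contra h'
  exact c (cross_A1 hA hρ hs h')

theorem W_Bn (h : RD C κ r0 r1 U u) {ρ : ℤ} (hρ : ρ ≤ r0) (g : Face)
    (c : z ∉ A1 (0, 0) ρ r0) : W (mg U u g) z = Bn ρ (mg U u g) z := by
  rw [W_eq_PP]
  exact PP_Bn h hρ g c fun _ _ _ => trivial

theorem Bn_Bn (h : RD C κ r0 r1 U u) {ρ ρ' : ℤ} (hρ : ρ' ≤ r0) (h1 : ρ ≤ ρ') (g : Face)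
    (c : z ∉ A1 (0, 0) ρ' r0) : Bn ρ (mg U u g) z = Bn ρ' (mg U u g) z :=
  PP_Bn h hρ g c fun _ _ hs hs' => hs (splits_mono h1 hs')

/-! ### bounds -/

theorem small_sub_of (h : RD C κ r0 r1 U u) {ρ : ℤ} (hρ : ρ ≤ r0) {A : Finset Face}
    (hA : A ∈ smalls lsW U κ z) : ¬ Splits A (BF (0, 0) ρ) := by
  rintro ⟨⟨f, hf, hfA⟩, -⟩
  exact small_off h hA ((mem_BF.1 hf).trans hρ) hfA

theorem abs_Bn (h : RD C κ r0 r1 U u) (h0 : r0 ≤ r1) {ρ : ℤ} (hρ : ρ ≤ r0) {g : Face}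
    (hg : sd (0, 0) g.1 ≤ r0) :
    |Bn ρ (mg U u g) z| ≤ exp (-(√3 * aa * SS lsW u U κ z) + 12 * aa ^ 2 * QQ lsW u U κ z) *
      2 ^ (TT κ r1 z).ncard :=
  gu_pos h h0 hg (fun _ hA => hA.1) fun _ hA => ⟨((mem_smalls lsW).1 hA).1, small_sub_of h hρ hA⟩

theorem small_near (hn : ND C' κ' r N v) {A : Finset Face} (hA : A ∈ smalls lsW N κ' z) :
    A ⊆ BF (0, 0) (2 * r) := by
  rw [mem_smalls] at hA
  obtain ⟨_, ⟨f, hf, hfA⟩, h3⟩ := hA
  have h3 : Cn109.dia A + 1 < 2 ^ κ' := h3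
  rw [Cn109.dia_eq] at h3
  have h4 := hn.out f hf
  have h5 := hn.lev
  have h6 : ((dia A : ℕ) : ℤ) + 1 < 2 ^ κ' := by exact_mod_cast h3
  exact sub_of_dia hfA h4 (by linarith)

theorem near_other (hn : ND C' κ' r N v) {A : Finset Face} (hA : A ∈ Lps z)
    (h1 : A ∉ smalls lsW N κ' z) (h2 : A ∉ TT κ' r z) :
    Cn109.mass v N A = 0 ∨ Cn109.mass v N A = 1 := by
  by_cases h3 : ∃ f ∈ N, f ∈ A
  · refine vm_cases hn fun h4 => h2 ⟨hA, h4, ?_⟩
    by_contra h5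
    apply h1
    rw [mem_smalls]
    refine ⟨hA, h3, ?_⟩
    show Cn109.dia A + 1 < 2 ^ κ'
    rw [Cn109.dia_eq]
    omega
  · push Not at h3
    exact Or.inl (vm_zero h3)

theorem Fw_ge_one {t : ℝ} (h0 : 0 ≤ t) (h1 : t ≤ 1) : 1 ≤ Fw (aa * (0 - t)) := by
  unfold Fw aa
  have hpi := Real.pi_pos
  have h2 : 1 / 2 ≤ cos (π / 3 + 2 * π / 3 * (0 - t)) := by
    rw [← Real.cos_pi_div_three, ← Real.cos_abs (π / 3 + 2 * π / 3 * (0 - t))]
    refine Real.cos_le_cos_of_nonneg_of_le_pi (abs_nonneg _) (by linarith) ?_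
    rw [abs_le]
    constructor <;> nlinarith
  linarith

theorem one_le_An (h : RD C κ r0 r1 U u) (hn : ND C' κ' r N v) {ρ : ℤ} (hρ : ρ ≤ r0) :
    1 ≤ An ρ (nm U u N v) z := by
  unfold An PP PW
  rw [finprod_mem_eq_prod _ (fin_supp (ntr_nm h.sum hn.sum) (PP_sub _ z))]
  refine Finset.prod_induction _ (fun x => 1 ≤ x)
    (fun a b ha hb => one_le_mul_of_one_le_of_one_le ha hb) le_rfl fun A hA => ?_
  rw [Set.Finite.mem_toFinset] at hA
  rw [mass_nm, wm_zero_of_sub h hρ hA.1.2]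
  exact Fw_ge_one (vm_nonneg hn A) (vm_le_one hn A)

theorem An_le (h : RD C κ r0 r1 U u) (hn : ND C' κ' r N v) {ρ : ℤ} (h1 : 2 * r ≤ ρ)
    (hρ : ρ ≤ r0) : |An ρ (nm U u N v) z| ≤
      exp (√3 * aa * SS lsW v N κ' z + 12 * aa ^ 2 * QQ lsW v N κ' z) *
        2 ^ (TT κ' r z).ncard := by
  unfold An PP
  refine (prod_bound (s := smalls lsW N κ' z) (TT_fin κ' r z)
    (b := fun A => √3 * aa * Cn109.mass v N A + 12 * aa ^ 2 * Cn109.mass v N A ^ 2) ?_ ?_ ?_).trans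
      ?_
  · exact fun A hA => ⟨((mem_smalls lsW).1 hA).1, (small_near hn hA).trans (BF_mono h1)⟩
  · intro A hA
    rw [mass_nm, wm_zero_of_sub h hρ ((small_near hn hA).trans (BF_mono h1)), Fw_eq_ff]
    refine (ff_abs_le _).trans (le_of_eq ?_)
    congr 1
    ring
  · intro A hA h2 h3
    rw [mass_nm, wm_zero_of_sub h hρ hA.2]
    exact Fw_01 (near_other hn hA.1 h2 h3)
  · refine le_of_eq ?_
    congr 2
    rw [SS_eq, QQ_eq, Finset.sum_add_distrib, Finset.mul_sum, Finset.mul_sum]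

theorem abs_W_nm (h : RD C κ r0 r1 U u) (h0 : r0 ≤ r1) (hn : ND C' κ' r N v) (h1 : 2 * r ≤ r0) :
    |W (nm U u N v) z| ≤
      (exp (-(√3 * aa * SS lsW u U κ z) + 12 * aa ^ 2 * QQ lsW u U κ z) *
        2 ^ (TT κ r1 z).ncard) *
      (exp (√3 * aa * SS lsW v N κ' z + 12 * aa ^ 2 * QQ lsW v N κ' z) *
        2 ^ (TT κ' r z).ncard) := by
  classical
  have hr : r ≤ r0 := by
    have h5 := hn.lev
    have h6 : (0 : ℤ) < 2 ^ κ' := by positivity
    linarith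
  rw [W_eq_PW]
  have hd : Disjoint (smalls lsW U κ z) (smalls lsW N κ' z) := by
    rw [Finset.disjoint_left]
    intro A hA hA'
    obtain ⟨f, hf⟩ := lps_nonempty ((mem_smalls lsW).1 hA).1
    exact small_off h hA ((mem_BF.1 (small_near hn hA' hf)).trans h1) hf
  refine (prod_bound (s := smalls lsW U κ z ∪ smalls lsW N κ' z)
    ((TT_fin κ r1 z).union (TT_fin κ' r z))
    (b := fun A => (-(√3 * aa * Cn109.mass u U A) + 12 * aa ^ 2 * Cn109.mass u U A ^ 2) +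
      (√3 * aa * Cn109.mass v N A + 12 * aa ^ 2 * Cn109.mass v N A ^ 2)) ?_ ?_ ?_).trans ?_
  · intro A hA
    rcases Finset.mem_union.1 hA with hA | hA
    · exact ((mem_smalls lsW).1 hA).1
    · exact ((mem_smalls lsW).1 hA).1
  · intro A hA
    have key : Cn109.mass u U A * Cn109.mass v N A = 0 := by
      rcases Finset.mem_union.1 hA with hA | hA
      · rw [vm_zero fun f hf hfA => small_off h hA ((hn.out f hf).trans hr) hfA, mul_zero]
      · rw [wm_zero_of_sub h h1 (small_near hn hA), zero_mul]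
    rw [mass_nm, Fw_eq_ff]
    refine (ff_abs_le _).trans (le_of_eq ?_)
    congr 1
    linear_combination (-24 * aa ^ 2) * key
  · intro A hA h2 h3
    rw [Finset.mem_union, not_or] at h2
    rw [Set.mem_union, not_or] at h3
    rw [mass_nm]
    rcases tri h h0 hA h2.1 h3.1 with h4 | ⟨h4, h5⟩
    · rw [h4]
      exact Fw_01 (near_other hn hA h2.2 h3.2)
    · rw [h4, vm_one hn fun f hf => h5 f ((hn.out f hf).trans hr), sub_self, mul_zero, Fw_zero]
  · have e0 : ∑ A ∈ smalls lsW U κ z ∪ smalls lsW N κ' z,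
        ((-(√3 * aa * Cn109.mass u U A) + 12 * aa ^ 2 * Cn109.mass u U A ^ 2) +
        (√3 * aa * Cn109.mass v N A + 12 * aa ^ 2 * Cn109.mass v N A ^ 2)) =
        (-(√3 * aa * SS lsW u U κ z) + 12 * aa ^ 2 * QQ lsW u U κ z) +
        (√3 * aa * SS lsW v N κ' z + 12 * aa ^ 2 * QQ lsW v N κ' z) := by
      rw [Finset.sum_union hd]
      have e1 : ∑ A ∈ smalls lsW U κ z,
          ((-(√3 * aa * Cn109.mass u U A) + 12 * aa ^ 2 * Cn109.mass u U A ^ 2) +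
          (√3 * aa * Cn109.mass v N A + 12 * aa ^ 2 * Cn109.mass v N A ^ 2)) =
          -(√3 * aa * SS lsW u U κ z) + 12 * aa ^ 2 * QQ lsW u U κ z := by
        rw [SS_eq, QQ_eq, Finset.mul_sum, Finset.mul_sum, ← Finset.sum_neg_distrib,
          ← Finset.sum_add_distrib]
        refine Finset.sum_congr rfl fun A hA => ?_
        rw [vm_zero fun f hf hfA => small_off h hA ((hn.out f hf).trans hr) hfA]
        ring
      have e2 : ∑ A ∈ smalls lsW N κ' z,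
          ((-(√3 * aa * Cn109.mass u U A) + 12 * aa ^ 2 * Cn109.mass u U A ^ 2) +
          (√3 * aa * Cn109.mass v N A + 12 * aa ^ 2 * Cn109.mass v N A ^ 2)) =
          √3 * aa * SS lsW v N κ' z + 12 * aa ^ 2 * QQ lsW v N κ' z := by
        rw [SS_eq, QQ_eq, Finset.mul_sum, Finset.mul_sum, ← Finset.sum_add_distrib]
        refine Finset.sum_congr rfl fun A hA => ?_
        rw [wm_zero_of_sub h h1 (small_near hn hA)]
        ring
      rw [e1, e2]
    rw [e0, Real.exp_add]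
    have e3 : (2 : ℝ) ^ ((TT κ r1 z) ∪ (TT κ' r z)).ncard ≤
        2 ^ (TT κ r1 z).ncard * 2 ^ (TT κ' r z).ncard := by
      rw [← pow_add]
      exact pow_le_pow_right₀ (by norm_num) (Set.ncard_union_le _ _)
    calc _ ≤ exp (-(√3 * aa * SS lsW u U κ z) + 12 * aa ^ 2 * QQ lsW u U κ z) *
          exp (√3 * aa * SS lsW v N κ' z + 12 * aa ^ 2 * QQ lsW v N κ' z) *
          (2 ^ (TT κ r1 z).ncard * 2 ^ (TT κ' r z).ncard) :=
          mul_le_mul_of_nonneg_left e3 (by positivity)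
      _ = _ := by ring

end

end Crest.Agent.R158.Fd61
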