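import Crest.Agent.R158.Fd4_61
import Crest.Agent.R158.Bk11_430
import Crest.Agent.R158.Vg1_109

/-!
# Row 158, leaf D of doc 1912 (helper61), part 5: positivity of the mean of `Bn`

* `lv R = log2 R - 2`; `rd_ws`, `nd_us` : the ring `ws R` and the square `us r` of Bk11_430
* `cr_err` : an integrand which lives on a crossing of `A(s, S)` is small
* `EB_pos` : `c exp (-√3 aa VV (lv (K r))) ≤ ∫ Bn ρ (mg (ws (K r)) g)` for a constant `K`, all `ρ ≤ r`
-/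

set_option autoImplicit false

noncomputable section

namespace Crest.Agent.R158.Fd61

open Crest.Agent.R161.Geo729 Crest.Agent.R161.Dual374
open Crest.Agent.R161.Tas682 (sd)
open Crest.Agent.R158.It200 hiding hf
open Crest.Agent.R158.Wf850 Crest.Agent.R158.Vx107
open Crest.Agent.R158.Cn109 (lsW smalls mem_smalls SS QQ SS_eq tot tot_eq VV DepF SS_dep QQ_dep)
open Crest.Agent.R158.Hd109 (Dens)
open Crest.Agent.R158.Cpl963 (A1)
open Crest.Agent.R158.Fr158 (bx mem_bx mem_bx_sd eIn mem_eIn)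
open Crest.Agent.R158.Rs689 (nu PB)
open Crest.Agent.R158.Bk430 (us ws us_nonneg ws_nonneg us_le ws_le us_support ws_support m2)
open Crest.Agent.R158.Vg109 (HD den)
open Function Real MeasureTheory ProbabilityTheory unitInterval

local notation "μh" => nu Crest.Agent.R158.Rs689.hf

/-! ### the ring and the square -/

/-- level of the radius `R` -/
def lv (R : ℕ) : ℕ := Nat.log 2 R - 2

theorem lv_bounds {R : ℕ} (hR : 8 ≤ R) : 4 * 2 ^ lv R ≤ R ∧ R < 8 * 2 ^ lv R ∧ 1 ≤ lv R := by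
  have h1 : 2 ^ Nat.log 2 R ≤ R := Nat.pow_log_le_self 2 (by omega)
  have h2 : R < 2 ^ (Nat.log 2 R + 1) := Nat.lt_pow_succ_log_self (by norm_num) R
  have h3 : 3 ≤ Nat.log 2 R := by
    have := Nat.log_mono_right (b := 2) hR
    have h4 : Nat.log 2 8 = 3 := by
      rw [show (8 : ℕ) = 2 ^ 3 by norm_num, Nat.log_pow (by norm_num)]
    omega
  obtain ⟨k, hk⟩ : ∃ k, Nat.log 2 R = k + 2 := ⟨Nat.log 2 R - 2, by omega⟩
  unfold lv
  rw [hk] at h1 h2 ⊢
  rw [Nat.add_sub_cancel]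
  refine ⟨?_, ?_, by omega⟩
  · calc 4 * 2 ^ k = 2 ^ (k + 2) := by ring
      _ ≤ R := h1
  · calc R < 2 ^ (k + 2 + 1) := h2
      _ = 8 * 2 ^ k := by ring

theorem sum_of_tot {m : Face →₀ ℝ} (h : Vx107.tot m = 1) : ∑ f ∈ m.support, m f = 1 := h

theorem cu_self (m : Face →₀ ℝ) : cu m.support m = m := Finsupp.sum_single m

theorem rd_ws {R : ℕ} (hR : 64 ≤ R) :
    RD 1 (lv R) ((R / 8 : ℕ) : ℤ) ((2 * R : ℕ) : ℤ) (ws R).support (ws R) := by
  obtain ⟨h1, h2, h3⟩ := lv_bounds (R := R) (by omega)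
  refine ⟨⟨fun v _ => ws_nonneg (by omega) v, sum_of_tot (Bk430.tot_ws (by omega)),
    fun v _ => ?_⟩, fun f hf => ?_, fun f hf => ?_⟩
  · refine (ws_le (R := R) (by omega) v).trans ?_
    have h4 : (4 : ℝ) ^ lv R ≤ R ^ 2 := by
      have h5 : ((2 : ℝ) ^ lv R) ^ 2 ≤ (R : ℝ) ^ 2 := by
        refine pow_le_pow_left₀ (by positivity) ?_ 2
        have : 2 ^ lv R ≤ R := by omega
        exact_mod_cast this
      calc (4 : ℝ) ^ lv R = ((2 : ℝ) ^ lv R) ^ 2 := by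
            rw [← pow_mul, mul_comm, pow_mul]; norm_num
        _ ≤ _ := h5
    rw [inv_eq_one_div]
    have hR0 : (0 : ℝ) < R := by
      have : 0 < R := by omega
      exact_mod_cast this
    exact one_div_le_one_div_of_le (by positivity) (by nlinarith)
  · have h4 := (ws_support (R := R) (by omega) (Finsupp.mem_support_iff.1 hf)).2
    have h5 : 2 ^ lv R ≤ R / 4 := by omega
    have h6 : ((2 ^ lv R : ℕ) : ℤ) ≤ ((R / 4 : ℕ) : ℤ) := by exact_mod_cast h5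
    push_cast at h6 ⊢
    omega
  · exact mem_BF.1 (ws_support (R := R) (by omega) (Finsupp.mem_support_iff.1 hf)).1

theorem nd_us {r : ℕ} (hr : 64 ≤ r) : ND 1 (lv r) (r : ℤ) (us r).support (us r) := by
  obtain ⟨h1, h2, h3⟩ := lv_bounds (R := r) (by omega)
  refine ⟨⟨fun v _ => us_nonneg r v, sum_of_tot (Bk430.tot_us (by omega)),
    fun v _ => ?_⟩, fun f hf => ?_, ?_⟩
  · refine (us_le r v).trans ?_
    have h4 : (4 : ℝ) ^ lv r ≤ r ^ 2 := by
      have h5 : ((2 : ℝ) ^ lv r) ^ 2 ≤ (r : ℝ) ^ 2 := by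
        refine pow_le_pow_left₀ (by positivity) ?_ 2
        have : 2 ^ lv r ≤ r := by omega
        exact_mod_cast this
      calc (4 : ℝ) ^ lv r = ((2 : ℝ) ^ lv r) ^ 2 := by
            rw [← pow_mul, mul_comm, pow_mul]; norm_num
        _ ≤ _ := h5
    rw [inv_eq_one_div]
    have hR0 : (0 : ℝ) < r := by
      have : 0 < r := by omega
      exact_mod_cast this
    exact one_div_le_one_div_of_le (by positivity) (by nlinarith)
  · exact mem_BF.1 (us_support (Finsupp.mem_support_iff.1 hf))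
  · have h5 : 2 ^ lv r ≤ r := by omega
    exact_mod_cast h5

/-- the two charges -/
def wr (R r : ℕ) : Face →₀ ℝ := nm (ws R).support (ws R) (us r).support (us r)

/-- ring against a point -/
def wg (R : ℕ) (g : Face) : Face →₀ ℝ := mg (ws R).support (ws R) g

theorem wg_eq (R : ℕ) (g : Face) : wg R g = aa • (ws R - Finsupp.single g 1) := by
  unfold wg mg
  rw [cu_self]

theorem m2_eq (K r : ℕ) : m2 (-aa) K r = wr (K * r) r := by
  unfold m2 wr nm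
  rw [cu_self, cu_self, neg_smul, ← smul_neg, neg_sub]

theorem ntr_wg {R : ℕ} (hR : 1 ≤ R) (g : Face) : Ntr (wg R g) :=
  ntr_mg (sum_of_tot (Bk430.tot_ws hR)) g

theorem ntr_wr {R r : ℕ} (hR : 1 ≤ R) (hr : 1 ≤ r) : Ntr (wr R r) :=
  ntr_nm (sum_of_tot (Bk430.tot_ws hR)) (sum_of_tot (Bk430.tot_us hr))

/-! ### majorants -/

/-- `√3 aa` -/
def b0 : ℝ := √3 * aa

theorem b0_pos : 0 < b0 := by unfold b0; have := aa_pos; positivity

theorem b0_den : b0 * den = 1 / 3 := by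
  unfold b0 den aa
  have h3 : √3 ≠ 0 := by positivity
  have := Real.pi_pos
  field_simp

theorem bd_neg {κ : ℕ} {U : Finset Face} {u : Face → ℝ} {z : Cfz} {Y T : ℝ} (hT : 0 ≤ T)
    (h : exp (√3 * aa * |SS lsW u U κ z - VV κ| + 12 * aa ^ 2 * QQ lsW u U κ z) * T ≤ Y) :
    exp (-(√3 * aa * SS lsW u U κ z) + 12 * aa ^ 2 * QQ lsW u U κ z) * T ≤
      exp (-(b0 * VV κ)) * Y := by
  have h1 : exp (-(√3 * aa * SS lsW u U κ z) + 12 * aa ^ 2 * QQ lsW u U κ z) ≤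
      exp (-(b0 * VV κ)) *
        exp (√3 * aa * |SS lsW u U κ z - VV κ| + 12 * aa ^ 2 * QQ lsW u U κ z) := by
    rw [← Real.exp_add, Real.exp_le_exp]
    unfold b0
    have h2 := neg_abs_le (SS lsW u U κ z - VV κ)
    have h3 : 0 < √3 * aa := b0_pos
    nlinarith
  calc _ ≤ exp (-(b0 * VV κ)) *
        exp (√3 * aa * |SS lsW u U κ z - VV κ| + 12 * aa ^ 2 * QQ lsW u U κ z) * T :=
        mul_le_mul_of_nonneg_right h1 hT
    _ = exp (-(b0 * VV κ)) *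
        (exp (√3 * aa * |SS lsW u U κ z - VV κ| + 12 * aa ^ 2 * QQ lsW u U κ z) * T) := by ring
    _ ≤ _ := mul_le_mul_of_nonneg_left h (exp_pos _).le

theorem bd_pos {κ : ℕ} {U : Finset Face} {u : Face → ℝ} {z : Cfz} {Y T : ℝ} (hT : 0 ≤ T)
    (h : exp (√3 * aa * |SS lsW u U κ z - VV κ| + 12 * aa ^ 2 * QQ lsW u U κ z) * T ≤ Y) :
    exp (√3 * aa * SS lsW u U κ z + 12 * aa ^ 2 * QQ lsW u U κ z) * T ≤
      exp (b0 * VV κ) * Y := by
  have h1 : exp (√3 * aa * SS lsW u U κ z + 12 * aa ^ 2 * QQ lsW u U κ z) ≤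
      exp (b0 * VV κ) *
        exp (√3 * aa * |SS lsW u U κ z - VV κ| + 12 * aa ^ 2 * QQ lsW u U κ z) := by
    rw [← Real.exp_add, Real.exp_le_exp]
    unfold b0
    have h2 := le_abs_self (SS lsW u U κ z - VV κ)
    have h3 : 0 < √3 * aa := b0_pos
    nlinarith
  calc _ ≤ exp (b0 * VV κ) *
        exp (√3 * aa * |SS lsW u U κ z - VV κ| + 12 * aa ^ 2 * QQ lsW u U κ z) * T :=
        mul_le_mul_of_nonneg_right h1 hT
    _ = exp (b0 * VV κ) *
        (exp (√3 * aa * |SS lsW u U κ z - VV κ| + 12 * aa ^ 2 * QQ lsW u U κ z) * T) := by ring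
    _ ≤ _ := mul_le_mul_of_nonneg_left h (exp_pos _).le

/-- majorant of a local object -/
structure Mj (G : ℝ) (q : ℕ) (Y : Cfz → ℝ) : Prop where
  dep : ∃ S : Finset Edge, DepF S Y
  one : ∀ z, 1 ≤ Y z
  mom : ∫ z, Y z ^ q ∂μh ≤ G

theorem Mj.int {G : ℝ} {q : ℕ} {Y : Cfz → ℝ} (h : Mj G q Y) (k : ℕ) :
    Integrable (fun z => Y z ^ k) μh := by
  obtain ⟨S, hS⟩ := h.dep
  exact (hS.comp fun y => y ^ k).integrable _

theorem Mj.int' {G : ℝ} {q : ℕ} {Y : Cfz → ℝ} (h : Mj G q Y) : Integrable Y μh := by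
  obtain ⟨S, hS⟩ := h.dep
  exact hS.integrable _

theorem Mj.one_le {G : ℝ} {q : ℕ} {Y : Cfz → ℝ} (h : Mj G q Y) : 1 ≤ G := by
  refine le_trans ?_ h.mom
  have h1 : ∫ _z : Cfz, (1 : ℝ) ∂μh = 1 := by simp
  rw [← h1]
  exact integral_mono (integrable_const _) (h.int q) fun z => one_le_pow₀ (h.one z)

theorem Mj.low {G : ℝ} {q k : ℕ} {Y : Cfz → ℝ} (h : Mj G q Y) (hk : k ≤ q) :
    ∫ z, Y z ^ k ∂μh ≤ G :=
  (integral_mono (h.int k) (h.int q) fun z => pow_le_pow_right₀ (h.one z) hk).trans h.mom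

theorem Mj.low1 {G : ℝ} {q : ℕ} {Y : Cfz → ℝ} (h : Mj G q Y) (hk : 1 ≤ q) :
    ∫ z, Y z ∂μh ≤ G := by
  have := h.low hk
  simpa using this

theorem maj_ws (q : ℕ) : ∃ G : ℝ, 1 ≤ G ∧ ∀ R : ℕ, 64 ≤ R → ∃ Y : Cfz → ℝ, Mj G q Y ∧
    ∀ z, exp (√3 * aa * |SS lsW (ws R) (ws R).support (lv R) z - VV (lv R)| +
      12 * aa ^ 2 * QQ lsW (ws R) (ws R).support (lv R) z) *
        2 ^ (TT (lv R) ((2 * R : ℕ) : ℤ) z).ncard ≤ Y z := by
  obtain ⟨G, hG, h⟩ := maj (C := 1) zero_le_one 16 q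
  refine ⟨G, hG, fun R hR => ?_⟩
  obtain ⟨h1, h2, h3⟩ := lv_bounds (R := R) (by omega)
  obtain ⟨Y, a1, a2, a3, a4⟩ := h (lv R) ((2 * R : ℕ) : ℤ) (ws R).support (ws R) h3 (by
    have : 2 * R ≤ 16 * 2 ^ lv R := by omega
    exact_mod_cast this) (rd_ws hR).toDens
  exact ⟨Y, ⟨a1, a2, a3⟩, a4⟩

theorem maj_us (q : ℕ) : ∃ G : ℝ, 1 ≤ G ∧ ∀ r : ℕ, 64 ≤ r → ∃ Y : Cfz → ℝ, Mj G q Y ∧
    ∀ z, exp (√3 * aa * |SS lsW (us r) (us r).support (lv r) z - VV (lv r)| +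
      12 * aa ^ 2 * QQ lsW (us r) (us r).support (lv r) z) *
        2 ^ (TT (lv r) (r : ℤ) z).ncard ≤ Y z := by
  obtain ⟨G, hG, h⟩ := maj (C := 1) zero_le_one 16 q
  refine ⟨G, hG, fun r hr => ?_⟩
  obtain ⟨h1, h2, h3⟩ := lv_bounds (R := r) (by omega)
  obtain ⟨Y, a1, a2, a3, a4⟩ := h (lv r) (r : ℤ) (us r).support (us r) h3 (by
    have : r ≤ 16 * 2 ^ lv r := by omega
    exact_mod_cast this) (nd_us hr).toDens
  exact ⟨Y, ⟨a1, a2, a3⟩, a4⟩

/-! ### crossing errors -/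

open Classical in
/-- indicator -/
def ind (E : Set Cfz) (z : Cfz) : ℝ := if z ∈ E then 1 else 0

theorem ind_nonneg (E : Set Cfz) (z : Cfz) : 0 ≤ ind E z := by
  unfold ind; split_ifs <;> norm_num

theorem ind_sq (E : Set Cfz) (z : Cfz) : ind E z ^ 2 = ind E z := by
  unfold ind; split_ifs <;> norm_num

theorem ind_of {E : Set Cfz} {z : Cfz} (h : z ∈ E) : ind E z = 1 := if_pos h

theorem ind_not {E : Set Cfz} {z : Cfz} (h : z ∉ E) : ind E z = 0 := if_neg h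

theorem ind_le_one (E : Set Cfz) (z : Cfz) : ind E z ≤ 1 := by
  unfold ind; split_ifs <;> norm_num

theorem ind_eq (E : Set Cfz) : ind E = E.indicator fun _ => (1 : ℝ) := by
  classical
  funext z
  unfold ind
  rw [Set.indicator_apply]

theorem int_ind {E : Set Cfz} (hE : MeasurableSet E) :
    Integrable (ind E) μh ∧ ∫ z, ind E z ∂μh = (nu Crest.Agent.R158.Rs689.hf).real E := by
  rw [ind_eq]
  refine ⟨(integrable_const _).indicator hE, ?_⟩
  rw [integral_indicator hE, setIntegral_const, smul_eq_mul, mul_one]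

theorem meas_A1 (x : P2) (k l : ℤ) : MeasurableSet (A1 x k l) :=
  (Cpl963.A1_dep x k l).measurableSet

theorem cr_err : ∃ C1 a : ℝ, 1 ≤ C1 ∧ 0 < a ∧ ∀ s S : ℕ, 1 ≤ s → s ≤ S → ∀ (G : ℝ) (Y f : Cfz → ℝ),
    (∀ z, 0 ≤ Y z) → Integrable (fun z => Y z ^ 4) μh → ∫ z, Y z ^ 4 ∂μh ≤ G →
      (∀ z, |f z| ≤ ind (A1 (0, 0) s S) z * Y z) →
        |∫ z, f z ∂μh| ≤ (C1 + G) * ((s : ℝ) / S) ^ a := by
  obtain ⟨C, a, hC, ha, h⟩ := A1_le
  refine ⟨2 * C, a / 2, by linarith, by positivity, fun s S hs hS G Y f hY iY hG hf => ?_⟩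
  have hs0 : (0 : ℝ) < s := by exact_mod_cast hs
  have hS0 : (0 : ℝ) < S := by exact_mod_cast (hs.trans hS)
  set x : ℝ := (s : ℝ) / S with hx
  have hx0 : 0 < x := by positivity
  have hx1 : x ≤ 1 := by
    rw [hx, div_le_one hS0]; exact_mod_cast hS
  have hG0 : 0 ≤ G := le_trans (integral_nonneg fun z => by positivity) hG
  obtain ⟨i1, i2⟩ := int_ind (meas_A1 (0, 0) s S)
  have h1 := h (0, 0) s S hs hS
  set P := (nu Crest.Agent.R158.Rs689.hf).real (A1 (0, 0) s S) with hP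
  have hT : 0 < x ^ (-(a / 2)) := Real.rpow_pos_of_pos hx0 _
  have h2 := tr_int (μ := μh) (X := ind (A1 (0, 0) s S)) (Y := Y) (f := f)
    (T := x ^ (-(a / 2))) (l := 1) hT one_pos 1 (ind_nonneg _) hY hf i1
    (by simp_rw [ind_sq]; exact i1) iY
  simp_rw [ind_sq] at h2
  rw [i2] at h2
  have e1 : (x ^ (-(a / 2))) ^ (2 * 1) = x ^ (-a) := by
    rw [← Real.rpow_natCast, ← Real.rpow_mul hx0.le]
    congr 1; push_cast; ring
  rw [e1, one_mul, one_mul] at h2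
  have e2 : x ^ (-(a / 2)) * x ^ a = x ^ (a / 2) := by
    rw [← Real.rpow_add hx0]; congr 1; ring
  have e3 : x ^ a ≤ x ^ (a / 2) := Real.rpow_le_rpow_of_exponent_ge hx0 hx1 (by linarith)
  have e4 : (∫ z, Y z ^ (2 * 1 + 2) ∂μh) / x ^ (-a) ≤ G * x ^ a := by
    rw [Real.rpow_neg hx0.le, div_inv_eq_mul]
    exact mul_le_mul_of_nonneg_right hG (by positivity)
  have e5 : x ^ (-(a / 2)) * P ≤ C * x ^ (a / 2) := by
    calc x ^ (-(a / 2)) * P ≤ x ^ (-(a / 2)) * (C * x ^ a) := mul_le_mul_of_nonneg_left h1 hT.le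
      _ = C * (x ^ (-(a / 2)) * x ^ a) := by ring
      _ = _ := by rw [e2]
  have e6 : P ≤ C * x ^ (a / 2) := h1.trans (mul_le_mul_of_nonneg_left e3 (by linarith))
  have e7 : G * x ^ a ≤ G * x ^ (a / 2) := mul_le_mul_of_nonneg_left e3 hG0
  have e8 : 0 ≤ G * x ^ (a / 2) := by positivity
  have e9 : 0 ≤ C * x ^ (a / 2) := by
    have : 0 ≤ C := by linarith
    positivity
  nlinarith

/-! ### positivity -/

/-- lower bound for the growth of `VV` between the two levels -/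
theorem VV_low (hD : HD) {d : ℝ} (hd : 0 < d) : ∃ C2 : ℝ, 0 ≤ C2 ∧ ∀ᶠ K : ℕ in Filter.atTop,
    ∀ᶠ r : ℕ in Filter.atTop, (den - d) * log K - C2 ≤ VV (lv (K * r)) - VV (lv r) := by
  obtain ⟨C, hC, hV⟩ := Cn109.VV_diff
  refine ⟨2 * C, by positivity, ?_⟩
  have h1 := (Metric.tendsto_nhds.mp hD) d hd
  rw [Filter.eventually_curry_iff] at h1
  filter_upwards [h1, Filter.eventually_ge_atTop 2] with K hK hK2
  filter_upwards [hK, Filter.eventually_ge_atTop 64] with r hr hr2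
  have hl : 0 < log (K : ℝ) := Real.log_pos (by exact_mod_cast hK2)
  rw [Real.dist_eq] at hr
  have h2 := (abs_lt.1 hr).1
  have h3 : (den - d) * log K < VV (Nat.log 2 (K * r)) - VV (Nat.log 2 r) := by
    have h4 : den - d < (VV (Nat.log 2 (K * r)) - VV (Nat.log 2 r)) / log K := by
      linarith
    rwa [lt_div_iff₀ hl] at h4
  have h5 : VV (Nat.log 2 (K * r)) ≤ VV (lv (K * r)) + 2 * C := by
    have h6 := (hV (lv (K * r)) 2).2
    have h7 : lv (K * r) + 2 = Nat.log 2 (K * r) := by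
      have h8 : 2 ≤ Nat.log 2 (K * r) := by
        have h9 : 64 ≤ K * r := by nlinarith
        have := Nat.log_mono_right (b := 2) h9
        have h4 : Nat.log 2 64 = 6 := by
          rw [show (64 : ℕ) = 2 ^ 6 by norm_num, Nat.log_pow (by norm_num)]
        omega
      unfold lv; omega
    rw [h7] at h6
    push_cast at h6
    linarith
  have h6 : VV (lv r) ≤ VV (Nat.log 2 r) := Cn109.VV_mono (by unfold lv; omega)
  linarith

theorem pow4_le {x y : ℝ} (hx : 0 ≤ x) (hy : 0 ≤ y) : (x * y) ^ 4 ≤ x ^ 8 + y ^ 8 := by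
  have h : (x * y) ^ 4 = x ^ 4 * y ^ 4 := by ring
  rw [h]
  nlinarith [sq_nonneg (x ^ 4 - y ^ 4), pow_nonneg hx 8, pow_nonneg hy 8]

theorem Bn_int {m : Face →₀ ℝ} (hm : Ntr m) (ρ : ℤ) : Integrable (Bn ρ m) μh := PP_int hm _

theorem An_int {m : Face →₀ ℝ} (hm : Ntr m) (ρ : ℤ) : Integrable (An ρ m) μh := PP_int hm _

/-- bound of `Bn` -/
theorem abs_Bn_ws {R : ℕ} (hR : 64 ≤ R) {Y : Cfz → ℝ}
    (hY : ∀ z, exp (√3 * aa * |SS lsW (ws R) (ws R).support (lv R) z - VV (lv R)| +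
      12 * aa ^ 2 * QQ lsW (ws R) (ws R).support (lv R) z) *
        2 ^ (TT (lv R) ((2 * R : ℕ) : ℤ) z).ncard ≤ Y z)
    {ρ : ℤ} (hρ : ρ ≤ ((R / 8 : ℕ) : ℤ)) {g : Face} (hg : sd (0, 0) g.1 ≤ ((R / 8 : ℕ) : ℤ))
    (z : Cfz) : |Bn ρ (wg R g) z| ≤ exp (-(b0 * VV (lv R))) * Y z :=
  (abs_Bn (rd_ws hR) (by push_cast; omega) hρ hg).trans (bd_neg (by positivity) (hY z))

/-- the difference of two `Bn` -/
theorem Bn_diff {C1 a : ℝ} (hcr : ∀ s S : ℕ, 1 ≤ s → s ≤ S → ∀ (G : ℝ) (Y f : Cfz → ℝ),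
    (∀ z, 0 ≤ Y z) → Integrable (fun z => Y z ^ 4) μh → ∫ z, Y z ^ 4 ∂μh ≤ G →
      (∀ z, |f z| ≤ ind (A1 (0, 0) s S) z * Y z) →
        |∫ z, f z ∂μh| ≤ (C1 + G) * ((s : ℝ) / S) ^ a) {R : ℕ} (hR : 64 ≤ R) {Y : Cfz → ℝ}
    (hY : ∀ z, exp (√3 * aa * |SS lsW (ws R) (ws R).support (lv R) z - VV (lv R)| +
      12 * aa ^ 2 * QQ lsW (ws R) (ws R).support (lv R) z) *
        2 ^ (TT (lv R) ((2 * R : ℕ) : ℤ) z).ncard ≤ Y z) {G : ℝ} (hM : Mj G 4 Y)
    {ρ : ℤ} {s : ℕ} (hs1 : 1 ≤ s) (hs : s ≤ R / 8) (hρ : ρ ≤ s) {g : Face}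
    (hg : sd (0, 0) g.1 ≤ ((R / 8 : ℕ) : ℤ)) :
    |∫ z, Bn ρ (wg R g) z ∂μh - ∫ z, Bn s (wg R g) z ∂μh| ≤
      2 * exp (-(b0 * VV (lv R))) * ((C1 + G) * ((s : ℝ) / (R / 8 : ℕ)) ^ a) := by
  have hn := ntr_wg (R := R) (by omega) g
  rw [← integral_sub (Bn_int hn ρ) (Bn_int hn s)]
  set E := exp (-(b0 * VV (lv R))) with hE
  have hE0 : 0 < E := exp_pos _
  have h1 := hcr s (R / 8) hs1 hs G Y
    (fun z => (Bn ρ (wg R g) z - Bn s (wg R g) z) / (2 * E)) (fun z => zero_le_one.trans (hM.one z))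
    (hM.int 4) hM.mom ?_
  · rw [integral_div, abs_div, abs_of_pos (by positivity : 0 < 2 * E),
      div_le_iff₀ (by positivity)] at h1
    calc _ ≤ (C1 + G) * ((s : ℝ) / (R / 8 : ℕ)) ^ a * (2 * E) := h1
      _ = _ := by ring
  · intro z
    rw [abs_div, abs_of_pos (by positivity : 0 < 2 * E), div_le_iff₀ (by positivity)]
    by_cases hz : z ∈ A1 (0, 0) (s : ℤ) ((R / 8 : ℕ) : ℤ)
    · rw [ind_of hz, one_mul]
      have a1 := abs_Bn_ws hR hY (ρ := ρ) (by omega) hg z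
      have a2 := abs_Bn_ws hR hY (ρ := s) (by exact_mod_cast hs) hg z
      have a3 := abs_sub (Bn ρ (wg R g) z) (Bn s (wg R g) z)
      rw [← hE] at a1 a2
      linarith
    · rw [ind_not hz, zero_mul, zero_mul]
      have h2 : Bn ρ (wg R g) z = Bn s (wg R g) z :=
        Bn_Bn (rd_ws hR) (by exact_mod_cast hs) hρ g hz
      rw [h2, sub_self, abs_zero]

set_option maxHeartbeats 4000000 in
/-- **positivity of the mean of `Bn`** -/
theorem EB_pos (hLaw : Bs410.Law3) (hD : HD) : ∃ K : ℕ, 1 ≤ K ∧ ∃ c : ℝ, 0 < c ∧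
    ∀ᶠ r : ℕ in Filter.atTop, ∀ (ρ : ℤ) (g : Face), 0 ≤ ρ → ρ ≤ r → sd (0, 0) g.1 ≤ ρ →
      c * exp (-(b0 * VV (lv (K * r)))) ≤ ∫ z, Bn ρ (wg (K * r) g) z ∂μh := by
  obtain ⟨C1, a, hC1, ha, hcr⟩ := cr_err
  obtain ⟨G, hG, hws⟩ := maj_ws 8
  obtain ⟨G', hG', hus⟩ := maj_us 8
  have hb := b0_pos
  obtain ⟨C2, hC2, hV⟩ := VV_low hD (d := a / (4 * b0)) (by positivity)
  set S2 := Bk430.C2 (-aa) with hS2
  have hS2p : 0 < S2 := exp_pos _
  set E2 := exp (b0 * C2) with hE2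
  have hE2p : 1 ≤ E2 := one_le_exp (by positivity)
  -- constants
  set c4 : ℝ := 2 * E2 * ((C1 + (G + G')) * (1 + 64 ^ a)) with hc4
  set c5 : ℝ := 1 / (2 * S2 * G' * E2) with hc5
  set c6 : ℝ := 2 * ((C1 + G) * 64 ^ a) with hc6
  have hc5p : 0 < c5 := by positivity
  -- choice of `k`
  have hk1 : Filter.Tendsto (fun k : ℕ => c4 * (k : ℝ) ^ (-(a / 2))) Filter.atTop (nhds (c4 * 0)) :=
    ((tendsto_rpow_neg_atTop (by positivity)).comp tendsto_natCast_atTop_atTop).const_mul _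
  have hk2 : Filter.Tendsto (fun k : ℕ => c6 * (k : ℝ) ^ (-(a / 2))) Filter.atTop (nhds (c6 * 0)) :=
    ((tendsto_rpow_neg_atTop (by positivity)).comp tendsto_natCast_atTop_atTop).const_mul _
  rw [mul_zero] at hk1 hk2
  have hV' : ∀ᶠ k : ℕ in Filter.atTop, ∀ᶠ r : ℕ in Filter.atTop,
      (den - a / (4 * b0)) * log ((k ^ 2 : ℕ) : ℝ) - C2 ≤ VV (lv (k ^ 2 * r)) - VV (lv r) :=
    (Filter.tendsto_pow_atTop (by norm_num : (2 : ℕ) ≠ 0)).eventually hV
  obtain ⟨k, hk3, hk4, hk5, hk6⟩ := ((hk1.eventually (gt_mem_nhds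
    (show (0 : ℝ) < 1 / (2 * S2) by positivity))).and ((hk2.eventually (gt_mem_nhds
    (show (0 : ℝ) < c5 / 2 by positivity))).and
    (hV'.and (Filter.eventually_ge_atTop 64)))).exists
  have hk0 : (0 : ℝ) < k := by
    have : 0 < k := by omega
    exact_mod_cast this
  have hkk : (0 : ℝ) < (k : ℝ) ^ (-(a / 2)) := Real.rpow_pos_of_pos hk0 _
  refine ⟨k ^ 2, Nat.one_le_pow _ _ (by omega), c5 / 2 * (k : ℝ) ^ (-(a / 2)), by positivity, ?_⟩
  filter_upwards [hk5, Bk430.star2 hLaw (-aa) (K := k ^ 2) (Nat.one_le_pow _ _ (by omega)),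
    Filter.eventually_ge_atTop 64] with r hVr hst hr64 ρ g hρ0 hρ hg
  set R := k ^ 2 * r with hR
  have hkr : k * r ≤ R := by rw [hR, pow_two]; nlinarith
  have hR64 : 64 ≤ R := by nlinarith
  obtain ⟨Y, hY1, hY2⟩ := hws R hR64
  obtain ⟨Z, hZ1, hZ2⟩ := hus r hr64
  set EV := exp (-(b0 * VV (lv R))) with hEV
  set EN := exp (b0 * VV (lv r)) with hEN
  have hEVp : 0 < EV := exp_pos _
  have hENp : 0 < EN := exp_pos _
  -- radii
  have hr0 : (0 : ℝ) < r := by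
    have : 0 < r := by omega
    exact_mod_cast this
  have hs1 : k * r + 3 ≤ R / 8 := by
    rw [Nat.le_div_iff_mul_le (by norm_num), hR, pow_two]
    nlinarith
  have hratio : ((k * r + 3 : ℕ) : ℝ) / (R / 8 : ℕ) ≤ 64 / k := by
    have h1 : (R : ℝ) / 16 ≤ ((R / 8 : ℕ) : ℝ) := by
      have h2 : R ≤ 16 * (R / 8) := by omega
      have h3 : (R : ℝ) ≤ 16 * ((R / 8 : ℕ) : ℝ) := by exact_mod_cast h2
      linarith
    have h2 : (0 : ℝ) < R := by
      have : 0 < R := by omega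
      exact_mod_cast this
    have h3 : ((k * r + 3 : ℕ) : ℝ) ≤ 4 * (k * r) := by
      have h4 : k * r + 3 ≤ 4 * (k * r) := by nlinarith
      exact_mod_cast h4
    rw [div_le_div_iff₀ (by linarith) hk0]
    have h4 : (R : ℝ) = k ^ 2 * r := by rw [hR]; push_cast; ring
    calc ((k * r + 3 : ℕ) : ℝ) * k ≤ 4 * (k * r) * k := mul_le_mul_of_nonneg_right h3 hk0.le
      _ = 64 * (R / 16) := by rw [h4]; ring
      _ ≤ 64 * ((R / 8 : ℕ) : ℝ) := mul_le_mul_of_nonneg_left h1 (by norm_num)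
  have hratio2 : (((k * r + 3 : ℕ) : ℝ) / (R / 8 : ℕ)) ^ a ≤ 64 ^ a * (k : ℝ) ^ (-a) := by
    calc _ ≤ (64 / (k : ℝ)) ^ a := Real.rpow_le_rpow (by positivity) hratio ha.le
      _ = _ := by rw [Real.div_rpow (by norm_num) hk0.le, Real.rpow_neg hk0.le]; rfl
  have hratio1 : ((r : ℝ) / (k * r : ℕ)) ^ a = (k : ℝ) ^ (-a) := by
    rw [Real.rpow_neg hk0.le, ← Real.inv_rpow hk0.le]
    congr 1
    push_cast
    field_simp
  -- comparison of the two levels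
  have hgap : exp (-(b0 * (VV (lv R) - VV (lv r)))) ≤
      E2 * ((k : ℝ) ^ (-(2 / 3 : ℝ)) * (k : ℝ) ^ (a / 2)) := by
    rw [← Real.rpow_add hk0, hE2, Real.rpow_def_of_pos hk0, ← Real.exp_add, Real.exp_le_exp]
    have h1 := hVr
    have h2 : log ((k ^ 2 : ℕ) : ℝ) = 2 * log k := by push_cast; rw [Real.log_pow]; push_cast; ring
    rw [h2] at h1
    have h3 := mul_le_mul_of_nonneg_left h1 hb.le
    have h4 : b0 * ((den - a / (4 * b0)) * (2 * log k) - C2) =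
        (b0 * den) * (2 * log k) - a / 2 * log k - b0 * C2 := by
      field_simp
      ring
    rw [h4, b0_den] at h3
    linarith
  have hgap' : EV * (1 / E2 * ((k : ℝ) ^ (2 / 3 : ℝ) * (k : ℝ) ^ (-(a / 2)))) ≤
      exp (-(b0 * VV (lv r))) := by
    have h1 : 1 / E2 * ((k : ℝ) ^ (2 / 3 : ℝ) * (k : ℝ) ^ (-(a / 2))) *
        exp (-(b0 * (VV (lv R) - VV (lv r)))) ≤ 1 := by
      calc _ ≤ 1 / E2 * ((k : ℝ) ^ (2 / 3 : ℝ) * (k : ℝ) ^ (-(a / 2))) *
            (E2 * ((k : ℝ) ^ (-(2 / 3 : ℝ)) * (k : ℝ) ^ (a / 2))) :=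
            mul_le_mul_of_nonneg_left hgap (by positivity)
        _ = (1 / E2 * E2) * (((k : ℝ) ^ (2 / 3 : ℝ) * (k : ℝ) ^ (-(2 / 3 : ℝ))) *
            ((k : ℝ) ^ (-(a / 2)) * (k : ℝ) ^ (a / 2))) := by ring
        _ = 1 := by
            rw [← Real.rpow_add hk0, ← Real.rpow_add hk0]
            simp
            field_simp
    have h2 : EV = exp (-(b0 * (VV (lv R) - VV (lv r)))) * exp (-(b0 * VV (lv r))) := by
      rw [hEV, ← Real.exp_add]; congr 1; ring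
    rw [h2]
    have h3 : 0 < exp (-(b0 * VV (lv r))) := exp_pos _
    nlinarith
  -- the identity
  have rd := rd_ws hR64
  have nd := nd_us hr64
  have hnr := ntr_wr (R := R) (r := r) (by omega) (by omega)
  set F : Cfz → ℝ := fun z => W (wr R r) z - An (k * r : ℕ) (wr R r) z *
    Bn ((k * r : ℕ) + 3) (wr R r) z with hF
  have hdep : Integrable (fun z => An (k * r : ℕ) (wr R r) z * Bn ((k * r : ℕ) + 3) (wr R r) z)
      μh := by
    obtain ⟨M, hM⟩ := abs_PP_le hnr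
    refine Integrable.bdd_mul (c := M) (PP_int hnr _) (measurable_PP hnr _).aestronglyMeasurable ?_
    exact Filter.Eventually.of_forall fun z => by rw [Real.norm_eq_abs]; exact hM _ z
  have hYZ : ∀ z, |W (wr R r) z| ≤ EV * EN * (Y z * Z z) := by
    intro z
    have h1 := abs_W_nm (z := z) rd (by push_cast; omega) nd (by
      have : 2 * r ≤ R / 8 := by
        have : 2 * r ≤ k * r := by nlinarith
        omega
      exact_mod_cast this)
    have h2 := bd_neg (by positivity) (hY2 z)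
    have h3 := bd_pos (by positivity) (hZ2 z)
    refine h1.trans ?_
    calc _ ≤ (EV * Y z) * (EN * Z z) := mul_le_mul h2 h3 (by positivity)
          (mul_nonneg hEVp.le (zero_le_one.trans (hY1.one z)))
      _ = _ := by ring
  have hAn : ∀ z, |An (k * r : ℕ) (wr R r) z| ≤ EN * Z z := fun z =>
    (An_le (z := z) rd nd (ρ := (k * r : ℕ)) (by
      have : 2 * r ≤ k * r := by nlinarith
      exact_mod_cast this) (by
      have : k * r ≤ R / 8 := by omega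
      exact_mod_cast this)).trans (bd_pos (by positivity) (hZ2 z))
  have hBeq : ∀ z, Bn ((k * r : ℕ) + 3) (wr R r) z = Bn ((k * r : ℕ) + 3) (wg R g) z := fun z =>
    Bn_nm nd (by
      have : r ≤ k * r + 3 := by nlinarith
      exact_mod_cast this) (by
      have h1 : (r : ℤ) ≤ (k * r : ℕ) := by
        have : r ≤ k * r := by nlinarith
        exact_mod_cast this
      linarith)
  have hgR : sd (0, 0) g.1 ≤ ((R / 8 : ℕ) : ℤ) := by
    have h1 : (r : ℤ) ≤ ((R / 8 : ℕ) : ℤ) := by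
      have : r ≤ R / 8 := by
        have : r ≤ k * r := by nlinarith
        omega
      exact_mod_cast this
    linarith
  have hBn : ∀ z, |Bn ((k * r : ℕ) + 3) (wr R r) z| ≤ EV * Y z := fun z => by
    rw [hBeq]
    exact abs_Bn_ws hR64 hY2 (by exact_mod_cast hs1) hgR z
  have hF1 : ∀ z, |F z| ≤ 2 * (EV * EN) * (Y z * Z z) := by
    intro z
    have h1 : |An (k * r : ℕ) (wr R r) z * Bn ((k * r : ℕ) + 3) (wr R r) z| ≤
        EV * EN * (Y z * Z z) := by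
      rw [abs_mul]
      calc _ ≤ (EN * Z z) * (EV * Y z) := mul_le_mul (hAn z) (hBn z) (abs_nonneg _)
            (mul_nonneg hENp.le (zero_le_one.trans (hZ1.one z)))
        _ = _ := by ring
    have h2 := abs_sub (W (wr R r) z) (An (k * r : ℕ) (wr R r) z *
      Bn ((k * r : ℕ) + 3) (wr R r) z)
    have h3 := hYZ z
    show |W (wr R r) z - An (k * r : ℕ) (wr R r) z * Bn ((k * r : ℕ) + 3) (wr R r) z| ≤ _
    linarith
  have hF0 : ∀ z, z ∉ A1 (0, 0) (r : ℤ) ((k * r : ℕ) : ℤ) →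
      z ∉ A1 (0, 0) ((k * r + 3 : ℕ) : ℤ) ((R / 8 : ℕ) : ℤ) → F z = 0 := by
    intro z c1 c2
    have h1 := W_fac (z := z) rd nd (by positivity) (ρ := ((k * r : ℕ) : ℤ)) (by
      have : r ≤ k * r := by nlinarith
      exact_mod_cast this) (by exact_mod_cast hs1) c1 (by
      have e : ((k * r : ℕ) : ℤ) + 3 = ((k * r + 3 : ℕ) : ℤ) := by push_cast; ring
      rw [e]; exact c2)
    show W (wr R r) z - _ = 0
    unfold wr
    rw [h1, sub_self]
  have hYZn : ∀ z, 0 ≤ Y z * Z z := fun z =>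
    mul_nonneg (zero_le_one.trans (hY1.one z)) (zero_le_one.trans (hZ1.one z))
  have hYZd : ∃ S : Finset Edge, DepF S (fun z => Y z * Z z) := by
    classical
    obtain ⟨S1, h1⟩ := hY1.dep
    obtain ⟨S2, h2⟩ := hZ1.dep
    exact ⟨S1 ∪ S2, (h1.mono Finset.subset_union_left).mul (h2.mono Finset.subset_union_right)⟩
  have iYZ : Integrable (fun z => (Y z * Z z) ^ 4) μh := by
    obtain ⟨S, hS⟩ := hYZd
    exact (hS.comp fun y => y ^ 4).integrable _
  have hYZ4 : ∫ z, (Y z * Z z) ^ 4 ∂μh ≤ G + G' := by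
    calc ∫ z, (Y z * Z z) ^ 4 ∂μh ≤ ∫ z, (Y z ^ 8 + Z z ^ 8) ∂μh :=
          integral_mono iYZ ((hY1.int 8).add (hZ1.int 8)) fun z =>
            pow4_le (zero_le_one.trans (hY1.one z)) (zero_le_one.trans (hZ1.one z))
      _ = ∫ z, Y z ^ 8 ∂μh + ∫ z, Z z ^ 8 ∂μh := integral_add (hY1.int 8) (hZ1.int 8)
      _ ≤ G + G' := add_le_add hY1.mom hZ1.mom
  set EE := 2 * (EV * EN) with hEE
  have hEEp : 0 < EE := by positivity
  have hWi : Integrable (W (wr R r)) μh := integrable_W hnr _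
  have hFi : Integrable F μh := hWi.sub hdep
  have hFm : Measurable F := (measurable_W hnr).sub ((measurable_PP hnr _).mul (measurable_PP hnr _))
  have hIF : |∫ z, F z ∂μh| ≤ EE * ((C1 + (G + G')) * (k : ℝ) ^ (-a)) +
      EE * ((C1 + (G + G')) * (64 ^ a * (k : ℝ) ^ (-a))) := by
    set E1 := A1 (0, 0) (r : ℤ) ((k * r : ℕ) : ℤ) with hE1
    have m1 : MeasurableSet E1 := meas_A1 _ _ _
    have hsplit : ∫ z, F z ∂μh = ∫ z, E1.indicator F z ∂μh + ∫ z, E1ᶜ.indicator F z ∂μh := by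
      rw [← integral_add (hFi.indicator m1) (hFi.indicator m1.compl)]
      refine integral_congr_ae (Filter.Eventually.of_forall fun z => ?_)
      exact (congrFun (Set.indicator_self_add_compl E1 F) z).symm
    have b1 := hcr r (k * r) (by omega) (by nlinarith) (G + G') (fun z => Y z * Z z)
      (fun z => E1.indicator F z / EE) hYZn iYZ hYZ4 (fun z => by
        rw [abs_div, abs_of_pos hEEp, div_le_iff₀ hEEp]
        by_cases hz : z ∈ E1
        · rw [Set.indicator_of_mem hz, ind_of hz, one_mul]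
          exact (hF1 z).trans (le_of_eq (by ring))
        · rw [Set.indicator_of_notMem hz, ind_not hz, abs_zero, zero_mul, zero_mul])
    have b2 := hcr (k * r + 3) (R / 8) (by omega) hs1 (G + G') (fun z => Y z * Z z)
      (fun z => E1ᶜ.indicator F z / EE) hYZn iYZ hYZ4 (fun z => by
        rw [abs_div, abs_of_pos hEEp, div_le_iff₀ hEEp]
        by_cases hz : z ∈ A1 (0, 0) ((k * r + 3 : ℕ) : ℤ) ((R / 8 : ℕ) : ℤ)
        · rw [ind_of hz, one_mul]
          refine le_trans ?_ ((hF1 z).trans (le_of_eq (by ring)))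
          by_cases hz' : z ∈ E1ᶜ
          · rw [Set.indicator_of_mem hz']
          · rw [Set.indicator_of_notMem hz', abs_zero]; exact abs_nonneg _
        · rw [ind_not hz, zero_mul, zero_mul]
          by_cases hz' : z ∈ E1ᶜ
          · rw [Set.indicator_of_mem hz', hF0 z hz' hz, abs_zero]
          · rw [Set.indicator_of_notMem hz', abs_zero])
    rw [integral_div, abs_div, abs_of_pos hEEp, div_le_iff₀ hEEp] at b1 b2
    rw [hratio1] at b1
    have hCG : 0 ≤ C1 + (G + G') := by linarith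
    have b3 : |∫ z, E1ᶜ.indicator F z ∂μh| ≤
        EE * ((C1 + (G + G')) * (64 ^ a * (k : ℝ) ^ (-a))) :=
      b2.trans (by
        rw [mul_comm]
        exact mul_le_mul_of_nonneg_left (mul_le_mul_of_nonneg_left hratio2 hCG) hEEp.le)
    rw [hsplit]
    refine (abs_add_le _ _).trans (add_le_add ?_ b3)
    rw [mul_comm]; exact b1
  -- the product
  have hprod : ∫ z, An (k * r : ℕ) (wr R r) z * Bn ((k * r : ℕ) + 3) (wr R r) z ∂μh =
      (∫ z, An (k * r : ℕ) (wr R r) z ∂μh) * ∫ z, Bn ((k * r : ℕ) + 3) (wr R r) z ∂μh :=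
    An_Bn hnr
  have hsum : ∫ z, F z ∂μh = ∫ z, W (wr R r) z ∂μh -
      ∫ z, An (k * r : ℕ) (wr R r) z * Bn ((k * r : ℕ) + 3) (wr R r) z ∂μh :=
    integral_sub hWi hdep
  have hkm : (k : ℝ) ^ (-(2 / 3 : ℝ)) / S2 ≤ ∫ z, W (wr R r) z ∂μh := by
    have h1 := hst.1
    rw [m2_eq] at h1
    refine le_trans (le_of_eq ?_) h1
    have h2 : -(3 * (-aa) ^ 2 / (4 * π ^ 2)) * log ((k ^ 2 : ℕ) : ℝ) = -(2 / 3) * log k := by
      push_cast
      rw [Real.log_pow]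
      unfold aa
      have := Real.pi_pos
      push_cast
      field_simp
      ring
    rw [h2, Real.rpow_def_of_pos hk0]
    congr 2
    ring
  have hEVN : EV * EN = exp (-(b0 * (VV (lv R) - VV (lv r)))) := by
    rw [hEV, hEN, ← Real.exp_add]; congr 1; ring
  have hprod_low : (k : ℝ) ^ (-(2 / 3 : ℝ)) * (1 / (2 * S2)) ≤
      (∫ z, An (k * r : ℕ) (wr R r) z ∂μh) * ∫ z, Bn ((k * r : ℕ) + 3) (wr R r) z ∂μh := by
    rw [← hprod]
    have h1 := (abs_le.1 hIF).2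
    rw [hsum] at h1
    have h2 : EE * ((C1 + (G + G')) * (k : ℝ) ^ (-a)) +
        EE * ((C1 + (G + G')) * (64 ^ a * (k : ℝ) ^ (-a))) ≤
        (k : ℝ) ^ (-(2 / 3 : ℝ)) * (1 / (2 * S2)) := by
      have h3 : EE ≤ 2 * (E2 * ((k : ℝ) ^ (-(2 / 3 : ℝ)) * (k : ℝ) ^ (a / 2))) := by
        rw [hEE, hEVN]; linarith
      have hCG : 0 ≤ C1 + (G + G') := by linarith
      calc EE * ((C1 + (G + G')) * (k : ℝ) ^ (-a)) +
            EE * ((C1 + (G + G')) * (64 ^ a * (k : ℝ) ^ (-a)))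
          = EE * ((C1 + (G + G')) * (1 + 64 ^ a) * (k : ℝ) ^ (-a)) := by ring
        _ ≤ 2 * (E2 * ((k : ℝ) ^ (-(2 / 3 : ℝ)) * (k : ℝ) ^ (a / 2))) *
            ((C1 + (G + G')) * (1 + 64 ^ a) * (k : ℝ) ^ (-a)) :=
            mul_le_mul_of_nonneg_right h3 (by positivity)
        _ = (k : ℝ) ^ (-(2 / 3 : ℝ)) * (c4 * ((k : ℝ) ^ (a / 2) * (k : ℝ) ^ (-a))) := by
            rw [hc4]; ring
        _ = (k : ℝ) ^ (-(2 / 3 : ℝ)) * (c4 * (k : ℝ) ^ (-(a / 2))) := by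
            rw [← Real.rpow_add hk0]; congr 3; ring
        _ ≤ _ := mul_le_mul_of_nonneg_left hk3.le (by positivity)
    have h4 : (k : ℝ) ^ (-(2 / 3 : ℝ)) / S2 = (k : ℝ) ^ (-(2 / 3 : ℝ)) * (1 / (2 * S2)) +
        (k : ℝ) ^ (-(2 / 3 : ℝ)) * (1 / (2 * S2)) := by
      field_simp
      ring
    linarith
  -- lower bound for the far factor
  have hA1 : 1 ≤ ∫ z, An (k * r : ℕ) (wr R r) z ∂μh := by
    have h1 : ∫ _z : Cfz, (1 : ℝ) ∂μh = 1 := by simp
    rw [← h1]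
    refine integral_mono (integrable_const _) (PP_int hnr _) fun z => ?_
    exact one_le_An rd nd (by
      have : k * r ≤ R / 8 := by omega
      exact_mod_cast this)
  have hA2 : ∫ z, An (k * r : ℕ) (wr R r) z ∂μh ≤ EN * G' := by
    calc ∫ z, An (k * r : ℕ) (wr R r) z ∂μh ≤ ∫ z, EN * Z z ∂μh :=
          integral_mono (PP_int hnr _) (hZ1.int'.const_mul _) fun z =>
            (le_abs_self _).trans (hAn z)
      _ = EN * ∫ z, Z z ∂μh := integral_const_mul _ _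
      _ ≤ EN * G' := mul_le_mul_of_nonneg_left (hZ1.low1 (by norm_num)) hENp.le
  set IB := ∫ z, Bn ((k * r : ℕ) + 3) (wr R r) z ∂μh with hIB
  have hB1 : (k : ℝ) ^ (-(2 / 3 : ℝ)) * (1 / (2 * S2)) ≤ EN * G' * IB := by
    have hIB0 : 0 ≤ IB := by
      by_contra hcon
      push Not at hcon
      have : (∫ z, An (k * r : ℕ) (wr R r) z ∂μh) * IB ≤ 0 :=
        mul_nonpos_of_nonneg_of_nonpos (by linarith) hcon.le
      have h2 : 0 < (k : ℝ) ^ (-(2 / 3 : ℝ)) * (1 / (2 * S2)) := by positivity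
      linarith
    exact hprod_low.trans (mul_le_mul_of_nonneg_right hA2 hIB0)
  have hB2 : c5 * (k : ℝ) ^ (-(a / 2)) * EV ≤ IB := by
    have hG'p : 0 < G' := by linarith
    have h1 : exp (-(b0 * VV (lv r))) * EN = 1 := by
      rw [hEN, ← Real.exp_add]; simp
    have h2 := mul_le_mul_of_nonneg_left hB1 (exp_pos (-(b0 * VV (lv r)))).le
    have h3 : exp (-(b0 * VV (lv r))) * (EN * G' * IB) = G' * IB := by
      calc _ = (exp (-(b0 * VV (lv r))) * EN) * (G' * IB) := by ring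
        _ = _ := by rw [h1, one_mul]
    rw [h3] at h2
    have h4 := mul_le_mul_of_nonneg_right hgap'
      (show 0 ≤ (k : ℝ) ^ (-(2 / 3 : ℝ)) * (1 / (2 * S2)) by positivity)
    have h5 : EV * (1 / E2 * ((k : ℝ) ^ (2 / 3 : ℝ) * (k : ℝ) ^ (-(a / 2)))) *
        ((k : ℝ) ^ (-(2 / 3 : ℝ)) * (1 / (2 * S2))) = G' * (c5 * (k : ℝ) ^ (-(a / 2)) * EV) := by
      have h6 : (k : ℝ) ^ (2 / 3 : ℝ) * (k : ℝ) ^ (-(2 / 3 : ℝ)) = 1 := by
        rw [← Real.rpow_add hk0]; simp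
      calc _ = EV * (1 / E2) * (k : ℝ) ^ (-(a / 2)) * (1 / (2 * S2)) *
            ((k : ℝ) ^ (2 / 3 : ℝ) * (k : ℝ) ^ (-(2 / 3 : ℝ))) := by ring
        _ = EV * (1 / E2) * (k : ℝ) ^ (-(a / 2)) * (1 / (2 * S2)) := by rw [h6, mul_one]
        _ = _ := by
            rw [hc5]
            field_simp
    rw [h5] at h4
    have h6 : G' * (c5 * (k : ℝ) ^ (-(a / 2)) * EV) ≤ G' * IB := h4.trans h2
    exact le_of_mul_le_mul_left h6 hG'p
  -- change of radius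
  have hIB' : IB = ∫ z, Bn ((k * r + 3 : ℕ) : ℤ) (wg R g) z ∂μh := by
    rw [hIB]
    refine integral_congr_ae (Filter.Eventually.of_forall fun z => ?_)
    show Bn ((k * r : ℕ) + 3) (wr R r) z = Bn ((k * r + 3 : ℕ) : ℤ) (wg R g) z
    rw [hBeq]
    push_cast
    rfl
  have hM4 : Mj G 4 Y := ⟨hY1.dep, hY1.one, hY1.low (by norm_num)⟩
  have hd := Bn_diff hcr hR64 hY2 hM4 (ρ := ρ) (s := k * r + 3) (by omega) hs1 (by
    have : (r : ℤ) ≤ ((k * r + 3 : ℕ) : ℤ) := by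
      have : r ≤ k * r + 3 := by nlinarith
      exact_mod_cast this
    linarith) hgR
  rw [← hIB', ← hEV] at hd
  have hd1 := (abs_le.1 hd).1
  have hCG : 0 ≤ C1 + G := by linarith
  have hd2 : 2 * EV * ((C1 + G) * (((k * r + 3 : ℕ) : ℝ) / (R / 8 : ℕ)) ^ a) ≤
      EV * (c6 * (k : ℝ) ^ (-(a / 2)) * (k : ℝ) ^ (-(a / 2))) := by
    have h1 : (k : ℝ) ^ (-(a / 2)) * (k : ℝ) ^ (-(a / 2)) = (k : ℝ) ^ (-a) := by
      rw [← Real.rpow_add hk0]; congr 1; ring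
    calc _ ≤ 2 * EV * ((C1 + G) * (64 ^ a * (k : ℝ) ^ (-a))) :=
          mul_le_mul_of_nonneg_left (mul_le_mul_of_nonneg_left hratio2 hCG) (by positivity)
      _ = EV * (c6 * (k : ℝ) ^ (-a)) := by rw [hc6]; ring
      _ = _ := by rw [← h1]; ring
  have hd3 : c6 * (k : ℝ) ^ (-(a / 2)) * (k : ℝ) ^ (-(a / 2)) ≤ c5 / 2 * (k : ℝ) ^ (-(a / 2)) :=
    mul_le_mul_of_nonneg_right hk4.le hkk.le
  have hd4 : EV * (c6 * (k : ℝ) ^ (-(a / 2)) * (k : ℝ) ^ (-(a / 2))) ≤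
      EV * (c5 / 2 * (k : ℝ) ^ (-(a / 2))) := mul_le_mul_of_nonneg_left hd3 hEVp.le
  nlinarith

end Crest.Agent.R158.Fd61
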