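import Crest.Agent.R158.Zs2_110

/-!
# Row 158, BLOCK Z (helper110): generic forms

* `Z1_abs` : `G` adapted: `|∫ G (-1)^{N0} 1[c ∉ Mk]| ≤ 2 ∫ |G| Pv 1[c ∉ Mk]`
* `Z1_sg`  : the same with the type `sg z c`
* `W_adp`  : `W m` is adapted for neutral `m` off the box
* `XA N s` : a revealed edge within distance `s - 2` of the origin; local, `⊆ A2 (0,0) s (N-1)`;
  `pv_xa` : pointwise bound of `Pv`
-/

set_option autoImplicit false

noncomputable section

namespace Crest.Agent.R158.Zs110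

open Crest.Agent.R161.Geo729 Crest.Agent.R161.Dual374
open Crest.Agent.R161.Tas682 (sd)
open Crest.Agent.R158.It200 Crest.Agent.R158.Wf850
open Crest.Agent.R158.Rs689 (nu Dep)
open Crest.Agent.R158.Fr158 (bx mem_bx mem_bx_sd eIn mem_eIn)
open Crest.Agent.R158.Vx107 (mass tot Ntr Fw W fin_supp Fw_zero)
open Crest.Agent.R158.Ax107 (p2 p2_nonneg p2_le_one)
open Crest.Agent.R158.Zr110 hiding AllFin ae_fin
open MeasureTheory

variable {M : Set Edge}

open Classical in
/-- **Z1, absolute form** -/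
theorem Z1_abs (hM : Mᶜ.Finite) (hGd : ∀ z, Gd M z) {G : Cfz → ℝ} (hG : Adp M G)
    (hGi : Integrable G nh) (c : Corner) :
    |∫ z, G z * (if c ∉ Mk M z then ((-1 : ℝ) ^ N0 M z c) else 0) ∂nh| ≤
      2 * ∫ z, |G z| * (if c ∉ Mk M z then Pv M c z else 0) ∂nh := by
  rw [Z1_int hM hG hGi c]
  have hb : ∀ z, |G z * (if c ∉ Mk M z then
      ∫ y, ((-1 : ℝ) ^ N0 M (mix (Xe M z) z y) c) ∂nh else 0)| ≤
      2 * (|G z| * (if c ∉ Mk M z then Pv M c z else 0)) := by
    intro z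
    by_cases hc : c ∉ Mk M z
    · rw [if_pos hc, if_pos hc]
      obtain ⟨g1, g2⟩ := Z1 hM (hGd z) hc
      rw [abs_mul, abs_of_nonneg g1]
      have : |G z| * (∫ y, ((-1 : ℝ) ^ N0 M (mix (Xe M z) z y) c) ∂nh) ≤
          |G z| * (2 * Pv M c z) := mul_le_mul_of_nonneg_left g2 (abs_nonneg _)
      linarith
    · rw [if_neg hc, if_neg hc, mul_zero, mul_zero, abs_zero, mul_zero]
  have hmf : Measurable fun z : Cfz => (if c ∉ Mk M z then Pv M c z else 0) := by
    refine Measurable.ite ?_ (meas_pv hM c) measurable_const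
    exact meas_un hM c
  have hri : Integrable (fun z => 2 * (|G z| * (if c ∉ Mk M z then Pv M c z else 0))) nh := by
    refine Integrable.const_mul ?_ _
    refine hGi.abs.mul_bdd (c := 1) hmf.aestronglyMeasurable
      (Filter.Eventually.of_forall fun z => ?_)
    rw [Real.norm_eq_abs]
    by_cases hc : c ∉ Mk M z
    · rw [if_pos hc, abs_of_nonneg (pv_nonneg c z)]; exact pv_le_one c z
    · rw [if_neg hc]; simp
  refine (abs_integral_le_integral_abs).trans ?_
  rw [← integral_const_mul]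
  exact integral_mono_of_nonneg (Filter.Eventually.of_forall fun z => abs_nonneg _) hri
    (Filter.Eventually.of_forall hb)

theorem col_dep {z z' : Cfz} (h : ∀ e ∈ Mᶜ, z e = z' e) (c : Corner) : col M z c = col M z' c := by
  unfold col HN JN
  rw [mk_dep h]

open Classical in
/-- **Z1 with the type of the strand** -/
theorem Z1_sg (hM : Mᶜ.Finite) (hGd : ∀ z, Gd M z) {G : Cfz → ℝ} (hG : Adp M G)
    (hGi : Integrable G nh) (c : Corner) :
    |∫ z, G z * (if c ∉ Mk M z then (sg z c : ℝ) else 0) ∂nh| ≤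
      2 * ∫ z, |G z| * (if c ∉ Mk M z then Pv M c z else 0) ∂nh := by
  have hA : Adp M (fun z => G z * (col M z c : ℝ)) := by
    intro z z' h
    simp only
    rw [hG z z' h, col_congr h]
  have hmc : Measurable fun z : Cfz => ((col M z c : ℤ) : ℝ) :=
    meas_of_fin hM fun z z' h => by rw [col_dep h]
  have hcol : ∀ z, ((col M z c : ℤ) : ℝ) = 1 ∨ ((col M z c : ℤ) : ℝ) = -1 := by
    intro z
    rcases par_pm (HN M z c.1) with h | h
    · left; unfold col; rw [h]; norm_num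
    · right; unfold col; rw [h]; norm_num
  have hI : Integrable (fun z => G z * (col M z c : ℝ)) nh := by
    refine hGi.mul_bdd (c := 1) hmc.aestronglyMeasurable (Filter.Eventually.of_forall fun z => ?_)
    rcases hcol z with h | h <;> rw [h] <;> norm_num
  have h1 := Z1_abs hM hGd hA hI c
  have e1 : ∀ z, G z * (col M z c : ℝ) * (if c ∉ Mk M z then ((-1 : ℝ) ^ N0 M z c) else 0) =
      G z * (if c ∉ Mk M z then (sg z c : ℝ) else 0) := by
    intro z
    by_cases hc : c ∉ Mk M z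
    · rw [if_pos hc, if_pos hc, mul_assoc]
      congr 1
      have h2 : (((-1) ^ N0 M z c : ℤ) : ℝ) = ((col M z c * sg z c : ℤ) : ℝ) := by
        rw [parity hM hc]
      push_cast at h2
      rw [h2, ← mul_assoc]
      rcases hcol z with h | h <;> rw [h] <;> ring
    · rw [if_neg hc, if_neg hc, mul_zero, mul_zero]
  have e2 : ∀ z, |G z * (col M z c : ℝ)| = |G z| := by
    intro z
    rw [abs_mul]
    rcases hcol z with h | h <;> rw [h] <;> simp
  simp only [e1, e2] at h1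
  exact h1

/-! ### adapted weights -/

/-- only the marked loops carry mass -/
theorem W_ml {x : P2} {N : ℤ} {m : Face →₀ ℝ} (hm : Ntr m) (hoff : ∀ f ∈ BF x N, m f = 0)
    (z : Cfz) : W m z = ∏ᶠ A ∈ ML (Mo x N) z, Fw (mass m A) := by
  have h1 : Lps z = ML (Mo x N) z ∪ UL (Mo x N) z := by
    ext A
    constructor
    · intro h
      by_cases h3 : MkA (Mo x N) A
      · exact Or.inl ⟨h, h3⟩
      · exact Or.inr ⟨h, h3⟩
    · rintro (h | h)
      · exact h.1
      · exact h.1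
  have hd : Disjoint (ML (Mo x N) z) (UL (Mo x N) z) :=
    Set.disjoint_left.2 fun _ h h' => h'.2 h.2
  have hs1 : ML (Mo x N) z ⊆ Lps z := fun _ h => h.1
  have hs2 : UL (Mo x N) z ⊆ Lps z := fun _ h => h.1
  unfold W
  rw [h1, finprod_mem_union' hd (fin_supp hm hs1) (fin_supp hm hs2)]
  have h2 : ∏ᶠ A ∈ UL (Mo x N) z, Fw (mass m A) = 1 := by
    refine finprod_mem_of_eqOn_one fun A hA => ?_
    show Fw (mass m A) = 1
    rw [mass_off hoff (ul_box hA), Fw_zero]
  rw [h2, mul_one]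

/-- **the weight of charges off the box is adapted** -/
theorem W_adp {x : P2} {N : ℤ} {m : Face →₀ ℝ} (hm : Ntr m) (hoff : ∀ f ∈ BF x N, m f = 0) :
    Adp (Mo x N) (W m) := by
  intro z z' h
  rw [W_ml hm hoff, W_ml hm hoff, ml_congr h]

/-! ### local events -/

/-- a revealed edge near the origin -/
def XA (N s : ℤ) : Set Cfz := {z | ∃ e ∈ Xe (Mo (0, 0) N) z, sd (0, 0) (src e) + 2 ≤ s}

theorem xa_mono {N s s' : ℤ} (h : s ≤ s') : XA N s ⊆ XA N s' := by
  rintro z ⟨e, he, h1⟩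
  exact ⟨e, he, h1.trans h⟩

theorem xa_sub (N s : ℤ) : XA N s ⊆ A2 (0, 0) s (N - 1) := by
  rintro z ⟨e, he, h⟩
  exact A2_mono h le_rfl (xe_arms he)

theorem mo_compl_sub (x : P2) (N : ℤ) {e : Edge} (h : e ∉ Mo x N) : e ∈ eIn (bx x N) := by
  have h' : ¬ (N < sd x (src e) ∨ N < sd x (tgt e)) := h
  push Not at h'
  rw [mem_eIn, mem_bx_sd, mem_bx_sd]
  exact h'

/-- the revelation depends on the edges of the box -/
theorem xe_box {x : P2} {N : ℤ} {z z' : Cfz} (h : ∀ e ∈ eIn (bx x N), z e = z' e) :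
    Xe (Mo x N) z = Xe (Mo x N) z' :=
  xe_dep fun e he => h e (mo_compl_sub x N he)

theorem mk_box {x : P2} {N : ℤ} {z z' : Cfz} (h : ∀ e ∈ eIn (bx x N), z e = z' e) :
    Mk (Mo x N) z = Mk (Mo x N) z' :=
  mk_dep fun e he => h e (mo_compl_sub x N he)

theorem xa_dep (N s : ℤ) : Dep (eIn (bx (0, 0) N)) (XA N s) := by
  intro z z' h
  show (∃ e ∈ Xe (Mo (0, 0) N) z, _) ↔ (∃ e ∈ Xe (Mo (0, 0) N) z', _)
  rw [xe_box h]

theorem mk_dep_box (c : Corner) (N : ℤ) : Dep (eIn (bx (0, 0) N)) {z | c ∈ Mk (Mo (0, 0) N) z} := by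
  intro z z' h
  show c ∈ Mk (Mo (0, 0) N) z ↔ c ∈ Mk (Mo (0, 0) N) z'
  rw [mk_box h]

theorem meas_xa (N s : ℤ) : MeasurableSet (XA N s) := (xa_dep N s).measurableSet

theorem xa_le (N s : ℤ) : nh.real (XA N s) ≤ P2a s (N - 1) := measureReal_mono (xa_sub N s)

/-- **pointwise bound of `Pv` by local events** -/
theorem pv_xa (c : Corner) (N J : ℕ) (hc : sd (0, 0) c.1 ≤ 1) (z : Cfz) :
    Pv (Mo (0, 0) N) c z ≤ p2 (2 ^ J - 7) + ∑ j ∈ Finset.range (J + 1),
      p2 (2 ^ j - 8) * (XA N (2 ^ (j + 1))).indicator 1 z := by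
  classical
  have hsub : {y | ¬ Disjoint (Ve y c) (Xe (Mo (0, 0) N) z)} ⊆
      YY c ((2 ^ J : ℕ) : ℤ) ∪ ⋃ j ∈ (Finset.range (J + 1)).filter
        (fun j => z ∈ XA N (2 ^ (j + 1))), YY c ((2 ^ j - 1 : ℕ) : ℤ) := by
    intro y hy
    rw [Set.mem_ofPred_eq, Set.not_disjoint_iff] at hy
    obtain ⟨e, he, hX⟩ := hy
    have h0 : 0 ≤ sd (0, 0) (src e) := sd_nonneg' _ _
    obtain ⟨k, hk⟩ := Int.eq_ofNat_of_zero_le h0
    rcases le_or_gt (2 ^ J) k with h1 | h1
    · left
      refine ⟨e, he, ?_⟩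
      rw [hk]
      exact_mod_cast h1
    · right
      have h2 : 2 ^ Nat.log 2 (k + 1) ≤ k + 1 := Nat.pow_log_le_self 2 (by omega)
      have h3 : k + 1 < 2 ^ (Nat.log 2 (k + 1) + 1) := Nat.lt_pow_succ_log_self (by norm_num) _
      have h4 : Nat.log 2 (k + 1) ≤ J := by
        by_contra hcon
        push Not at hcon
        have : 2 ^ (J + 1) ≤ 2 ^ Nat.log 2 (k + 1) := Nat.pow_le_pow_right (by norm_num) hcon
        rw [pow_succ] at this
        omega
      rw [Set.mem_iUnion₂]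
      refine ⟨Nat.log 2 (k + 1), ?_, e, he, ?_⟩
      · rw [Finset.mem_filter, Finset.mem_range]
        refine ⟨by omega, e, hX, ?_⟩
        rw [hk]
        have : ((k + 1 : ℕ) : ℤ) < ((2 ^ (Nat.log 2 (k + 1) + 1) : ℕ) : ℤ) := by exact_mod_cast h3
        push_cast at this ⊢
        linarith
      · rw [hk]
        have : 2 ^ Nat.log 2 (k + 1) - 1 ≤ k := by omega
        exact_mod_cast this
  unfold Pv
  refine (measureReal_mono hsub).trans ((measureReal_union_le _ _).trans ?_)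
  refine add_le_add (yy_le c (2 ^ J) hc) ?_
  refine (measureReal_biUnion_finset_le _ _).trans ?_
  rw [Finset.sum_filter]
  refine Finset.sum_le_sum fun j _ => ?_
  split_ifs with h
  · rw [Set.indicator_of_mem h, Pi.one_apply, mul_one]
    have := yy_le c (2 ^ j - 1) hc
    rwa [Nat.sub_sub] at this
  · rw [Set.indicator_of_notMem h, mul_zero]

end Crest.Agent.R158.Zs110
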