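import Crest.Agent.R158.Fd5_61
import Crest.Agent.R158.Zs3_110

/-!
# Row 158, leaf D of doc 1912 (helper61), part 6: the two-point operator, pointwise

* `same_eq` : `Dr (mg v) s - Dr (mg f) s = 2 √3 cos (q) OP` if `e` lies on the strand of `s`
* `diff_le` : `≤ 4 √3 |sin (aa w(l_e))| |PP|` otherwise
* `Dr_unmk` : `Dr m s = √3 sg W m` for unmarked `s`
* `Wd_le` : `|W (mg v) - W (mg f)| ≤ 2 √3 |sin (aa w(l_e))| |OP|`
* `mk_of_not_sub`, `touch` : arms
-/

set_option autoImplicit false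

noncomputable section

namespace Crest.Agent.R158.Fd61

open Crest.Agent.R161.Geo729 Crest.Agent.R161.Dual374
open Crest.Agent.R161.Tas682 (sd)
open Crest.Agent.R158.It200 hiding hf
open Crest.Agent.R158.Wf850
open Crest.Agent.R158.Vx107 hiding tot
open Crest.Agent.R158.Cn109 (lsW smalls mem_smalls SS QQ SS_eq tot tot_eq VV DepF SS_dep QQ_dep)
open Crest.Agent.R158.Hd109 (Dens)
open Crest.Agent.R158.Cpl963 (A1)
open Crest.Agent.R158.Fr158 (bx mem_bx mem_bx_sd eIn mem_eIn)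
open Crest.Agent.R158.Rs689 (nu PB)
open Crest.Agent.R158.Vn841 (In In_spec mem_In In_mem sep_In eq_In ht_pos ht_neg)
open Crest.Agent.R158.Zr110 (Mk Mo Mo_cofin mk_along mk_ah MkA mkA_iff UL Xe Adp lp_un_fin)
open Crest.Agent.R158.Zs110 (ul_box mass_off)
open Function Real MeasureTheory ProbabilityTheory unitInterval

local notation "μh" => nu Crest.Agent.R158.Rs689.hf

variable {z : Cfz} {U : Finset Face} {u : Face → ℝ}

/-! ### trigonometry -/

theorem Sw_diff (x : ℝ) : Sw (aa * (x - 1)) - Sw (aa * x) = -(2 * √3 * cos (aa * x)) := by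
  unfold Sw
  have h1 : π / 3 + aa * (x - 1) = aa * x - π / 3 := by unfold aa; ring
  have h2 : π / 3 + aa * x = aa * x + π / 3 := by ring
  rw [h1, h2, sin_sub, sin_add, cos_pi_div_three, sin_pi_div_three]
  ring

theorem Fw_diff (x : ℝ) : Fw (aa * (x - 1)) - Fw (aa * x) = 2 * √3 * sin (aa * x) := by
  unfold Fw
  have h1 : π / 3 + aa * (x - 1) = aa * x - π / 3 := by unfold aa; ring
  have h2 : π / 3 + aa * x = aa * x + π / 3 := by ring
  rw [h1, h2, cos_sub, cos_add, cos_pi_div_three, sin_pi_div_three]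
  ring

theorem abs_Sw_le (x : ℝ) : |Sw x| ≤ 2 := by
  unfold Sw
  rw [abs_mul, abs_two]
  nlinarith [abs_sin_le_one (π / 3 + x)]

/-! ### masses of the two charges -/

theorem mass_other {e : Corner} {A : Finset Face} (h : ¬ sepC A e) :
    Vx107.mass (mg U u (cv e)) A = Vx107.mass (mg U u (cf e)) A := by
  classical
  unfold sepC at h
  rw [not_not] at h
  rw [mass_mg, mass_mg]
  by_cases h1 : cv e ∈ A
  · rw [if_pos h1, if_pos (h.1 h1)]
  · rw [if_neg h1, if_neg fun h2 => h1 (h.2 h2)]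

/-- mass of the ring in the strand -/
def wI (U : Finset Face) (u : Face → ℝ) (z : Cfz) (c : Corner) : ℝ := Cn109.mass u U (In z c)

/-- the masses at the own loop according to the sign -/
theorem mass_own {e c : Corner} (hfin : (Lp z c).Finite) (he : e ∈ Lp z c) :
    (sg z c = -1 ∧ Vx107.mass (mg U u (cv e)) (In z c) = aa * (wI U u z c - 1) ∧
      Vx107.mass (mg U u (cf e)) (In z c) = aa * wI U u z c) ∨
    (sg z c = 1 ∧ Vx107.mass (mg U u (cv e)) (In z c) = aa * wI U u z c ∧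
      Vx107.mass (mg U u (cf e)) (In z c) = aa * (wI U u z c - 1)) := by
  classical
  rw [mass_mg, mass_mg]
  rcases sg_one hfin with h | h
  · right
    have h1 := (ht_pos hfin h).2 e he
    have h2 : cv e ∉ In z c := by rw [mem_In hfin, h1.1]; simp
    have h3 : cf e ∈ In z c := by rw [mem_In hfin, h1.2]; simp
    rw [if_neg h2, if_pos h3, sub_zero]
    exact ⟨h, rfl, rfl⟩
  · left
    have h1 := (ht_neg hfin h).2 e he
    have h2 : cv e ∈ In z c := by rw [mem_In hfin, h1.1]; simp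
    have h3 : cf e ∉ In z c := by rw [mem_In hfin, h1.2]; simp
    rw [if_pos h2, if_neg h3, sub_zero]
    exact ⟨h, rfl, rfl⟩

theorem oth_notSep {s e : Corner} (he : e ∈ Lp z s) {A : Finset Face} (hA : A ∈ Lps z)
    (h : ¬ sepC A s) : ¬ sepC A e := by
  intro h1
  have h2 := (mem_Lp_iff_sep hA h1 s).2 he.symm
  exact h h2

/-- **the same strand** -/
theorem same_eq {s e : Corner} (hfin : (Lp z s).Finite) (he : e ∈ Lp z s) :
    Dr (mg U u (cv e)) s z - Dr (mg U u (cf e)) s z =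
      2 * √3 * cos (aa * wI U u z s) * OP (mg U u (cv e)) z s := by
  have h1 : OP (mg U u (cf e)) z s = OP (mg U u (cv e)) z s := by
    rw [OP_eq_PP, OP_eq_PP]
    refine PP_congr fun A hA h => ?_
    rw [mass_other (oth_notSep he hA h)]
  rw [Dr_eq hfin (In_spec hfin).2, Dr_eq hfin (In_spec hfin).2, h1]
  rcases mass_own (U := U) (u := u) hfin he with ⟨h2, h3, h4⟩ | ⟨h2, h3, h4⟩
  · rw [h2, h3, h4]
    have h5 := Sw_diff (wI U u z s)
    push_cast
    linear_combination (-1) * OP (mg U u (cv e)) z s * h5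
  · rw [h2, h3, h4]
    have h5 := Sw_diff (wI U u z s)
    push_cast
    linear_combination (-1) * OP (mg U u (cv e)) z s * h5

/-- the product over the other loops is the weight if the own loop misses the ring -/
theorem OP_eq_W {s e : Corner} (hm : Ntr (mg U u (cv e))) (hfin : (Lp z s).Finite)
    (he : e ∈ Lp z s) (h0 : wI U u z s = 0) :
    OP (mg U u (cv e)) z s = W (mg U u (cv e)) z := by
  have hA := In_spec hfin
  rw [W_at hfin hm, ← mass_eq hfin hA.2]
  rcases mass_own (U := U) (u := u) hfin he with ⟨-, h3, -⟩ | ⟨-, h3, -⟩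
  · rw [h3, h0, zero_sub, mul_neg, mul_one, Fw_neg_aa, one_mul]
  · rw [h3, h0, mul_zero, Fw_zero, one_mul]

/-- splitting off the strand of `e` -/
theorem OP_two {s e : Corner} {m : Face →₀ ℝ} (hm : Ntr m) (he' : (Lp z e).Finite)
    (h : e ∉ Lp z s) :
    OP m z s = Fw (Vx107.mass m (In z e)) * PP (fun A => ¬ sepC A s ∧ ¬ sepC A e) m z := by
  have h1 : In z e ∈ Lps z := In_mem he'
  have hse : ¬ sepC (In z e) s := fun h2 => h ((sep_In he' s).1 h2).symm
  have hee : sepC (In z e) e := (sep_In he' e).2 (mem_Lp_self z e)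
  rw [OP_eq_PP]
  have h2 : {A | A ∈ Lps z ∧ ¬ sepC A s} =
      insert (In z e) {A | A ∈ Lps z ∧ ¬ sepC A s ∧ ¬ sepC A e} := by
    ext A
    simp only [Set.mem_ofPred_eq, Set.mem_insert_iff]
    constructor
    · rintro ⟨h3, h4⟩
      by_cases h5 : sepC A e
      · exact Or.inl (eq_In h3 h5).2
      · exact Or.inr ⟨h3, h4, h5⟩
    · rintro (rfl | ⟨h3, h4, -⟩)
      · exact ⟨h1, hse⟩
      · exact ⟨h3, h4⟩
  unfold PP PW
  rw [h2, finprod_mem_insert' _ (fun h3 => h3.2.2 hee) (fin_supp hm fun _ h3 => h3.1)]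

theorem Fw_own {e : Corner} (hfin : (Lp z e).Finite) :
    |Fw (Vx107.mass (mg U u (cv e)) (In z e)) - Fw (Vx107.mass (mg U u (cf e)) (In z e))| =
      2 * √3 * |sin (aa * wI U u z e)| := by
  have h5 := Fw_diff (wI U u z e)
  rcases mass_own (U := U) (u := u) hfin (mem_Lp_self z e) with ⟨-, h3, h4⟩ | ⟨-, h3, h4⟩
  · rw [h3, h4, h5, abs_mul, abs_of_nonneg (by positivity : 0 ≤ 2 * √3)]
  · rw [h3, h4, abs_sub_comm, h5, abs_mul, abs_of_nonneg (by positivity : 0 ≤ 2 * √3)]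

/-- **different strands** -/
theorem diff_le {s e : Corner} (hv : Ntr (mg U u (cv e))) (hf : Ntr (mg U u (cf e)))
    (hfin : (Lp z s).Finite) (he' : (Lp z e).Finite) (h : e ∉ Lp z s) :
    |Dr (mg U u (cv e)) s z - Dr (mg U u (cf e)) s z| ≤ 4 * √3 * |sin (aa * wI U u z e)| *
      |PP (fun A => ¬ sepC A s ∧ ¬ sepC A e) (mg U u (cv e)) z| := by
  have hse : ¬ sepC (In z s) e := fun h2 => h ((sep_In hfin e).1 h2)
  have h1 : PP (fun A => ¬ sepC A s ∧ ¬ sepC A e) (mg U u (cf e)) z =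
      PP (fun A => ¬ sepC A s ∧ ¬ sepC A e) (mg U u (cv e)) z :=
    PP_congr fun A _ h => by rw [mass_other h.2]
  rw [Dr_eq hfin (In_spec hfin).2, Dr_eq hfin (In_spec hfin).2, OP_two hv he' h, OP_two hf he' h,
    h1, ← mass_other hse]
  set P := PP (fun A => ¬ sepC A s ∧ ¬ sepC A e) (mg U u (cv e)) z
  set S := Sw (Vx107.mass (mg U u (cv e)) (In z s))
  have h2 := Fw_own (U := U) (u := u) he'
  have h3 : (sg z s : ℝ) * S * (Fw (Vx107.mass (mg U u (cv e)) (In z e)) * P) -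
      (sg z s : ℝ) * S * (Fw (Vx107.mass (mg U u (cf e)) (In z e)) * P) =
      (sg z s : ℝ) * S * (Fw (Vx107.mass (mg U u (cv e)) (In z e)) -
        Fw (Vx107.mass (mg U u (cf e)) (In z e))) * P := by ring
  rw [h3, abs_mul, abs_mul, abs_mul, h2]
  have h4 : |(sg z s : ℝ)| = 1 := by rcases sg_one' hfin with h | h <;> rw [h] <;> norm_num
  rw [h4, one_mul]
  have h5 : |S| ≤ 2 := abs_Sw_le _
  have h6 : 0 ≤ 2 * √3 * |sin (aa * wI U u z e)| := by positivity
  calc |S| * (2 * √3 * |sin (aa * wI U u z e)|) * |P|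
      ≤ 2 * (2 * √3 * |sin (aa * wI U u z e)|) * |P| :=
        mul_le_mul_of_nonneg_right (mul_le_mul_of_nonneg_right h5 h6) (abs_nonneg _)
    _ = _ := by ring

/-- **the difference of the weights** -/
theorem Wd_le {e : Corner} (hv : Ntr (mg U u (cv e))) (hf : Ntr (mg U u (cf e)))
    (he' : (Lp z e).Finite) :
    |W (mg U u (cv e)) z - W (mg U u (cf e)) z| ≤ 2 * √3 * |sin (aa * wI U u z e)| *
      |OP (mg U u (cv e)) z e| := by
  have h1 : OP (mg U u (cf e)) z e = OP (mg U u (cv e)) z e := by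
    rw [OP_eq_PP, OP_eq_PP]
    exact PP_congr fun A _ h => by rw [mass_other h]
  rw [W_at he' hv, W_at he' hf, h1, ← mass_eq he' (In_spec he').2,
    ← mass_eq he' (In_spec he').2, ← sub_mul, abs_mul, Fw_own he']

/-! ### unmarked corners -/

/-- a strand leaving the box is marked -/
theorem mk_of_not_sub {x : P2} {N : ℤ} {c : Corner} (hfin : (Lp z c).Finite)
    (h : ¬ In z c ⊆ BF x N) : c ∈ Mk (Mo x N) z := by
  by_contra hc
  exact h (ul_box ⟨In_mem hfin, fun h' => hc ((mkA_iff hfin (In_spec hfin).2).1 h')⟩)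

theorem sub_of_unmk {x : P2} {N : ℤ} {c : Corner} (hc : c ∉ Mk (Mo x N) z) :
    In z c ⊆ BF x N := by
  by_contra h
  exact hc (mk_of_not_sub (lp_un_fin (Mo_cofin x N) hc) h)

theorem Dr_unmk {x : P2} {N : ℤ} {c : Corner} {m : Face →₀ ℝ} (hm : Ntr m)
    (hoff : ∀ f ∈ BF x N, m f = 0) (hc : c ∉ Mk (Mo x N) z) :
    Dr m c z = √3 * ((sg z c : ℝ) * W m z) := by
  have hfin := lp_un_fin (Mo_cofin x N) hc
  have h1 : Vx107.mass m (In z c) = 0 := mass_off hoff (sub_of_unmk hc)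
  rw [Dr_eq hfin (In_spec hfin).2, W_at hfin hm, ← mass_eq hfin (In_spec hfin).2, h1, Zs110.sw_zero,
    Fw_zero, one_mul]
  ring

/-- a corner of the same strand outside the box marks -/
theorem mk_of_far {x : P2} {N : ℤ} {c d : Corner} (hd : d ∈ Lp z c) (h : N < sd x d.1) :
    c ∈ Mk (Mo x N) z := by
  refine (mk_along hd).1 (mk_ah ?_)
  rcases ah_ends d with ⟨h1, _⟩ | ⟨h1, _⟩
  · left; rw [← h1]; exact h
  · right; rw [← h1]; exact h

theorem splits_of_sep {A B : Finset Face} {c : Corner} (hA : sepC A c) (h1 : cv c ∈ B)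
    (h2 : cf c ∈ B) : Splits A B := by
  unfold sepC at hA
  by_cases h : cv c ∈ A
  · refine ⟨⟨cv c, h1, h⟩, cf c, h2, fun h3 => hA ⟨fun _ => h3, fun _ => h⟩⟩
  · refine ⟨⟨cf c, h2, ?_⟩, cv c, h1, h⟩
    by_contra h3
    exact hA ⟨fun h' => absurd h' h, fun h' => absurd h' h3⟩

/-- the strand of `e` meets the ring only if it is long -/
theorem touch {C : ℝ} {κ : ℕ} {r0 r1 : ℤ} (h : RD C κ r0 r1 U u) {e : Corner}
    (he' : (Lp z e).Finite) {k : ℤ} (hk : k ≤ r0) (h1 : cv e ∈ BF (0, 0) k)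
    (h2 : cf e ∈ BF (0, 0) k) (hw : wI U u z e ≠ 0) : ¬ In z e ⊆ BF (0, 0) r0 ∧
      z ∈ A1 (0, 0) k r0 := by
  have h3 : ¬ In z e ⊆ BF (0, 0) r0 := by
    intro h4
    exact hw (wm_zero_of_sub h le_rfl h4)
  exact ⟨h3, cross_A1 (In_mem he') hk
    (splits_of_sep ((sep_In he' e).2 (mem_Lp_self z e)) h1 h2) h3⟩

end Crest.Agent.R158.Fd61
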