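import Crest.Agent.R158.Fd6_61
import Crest.Agent.R158.Vx7_107

/-!
# Row 158, leaf D of doc 1912 (helper61), part 7: events and bounds of the two-point operator

* `MkS`, `MkE`, `GdE` : marked / marked / same strand inside the box; locality, probabilities
* `dd` : the two-point operator, `Gw` : difference of the weights
* `dd_mk` : off `GdE` a marked corner costs four arms and a crossing
* `dd_un` : unmarked corners
-/

set_option autoImplicit false

noncomputable section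

namespace Crest.Agent.R158.Fd61

open Crest.Agent.R161.Geo729 Crest.Agent.R161.Dual374
open Crest.Agent.R161.Tas682 (sd)
open Crest.Agent.R158.It200 hiding hf
open Crest.Agent.R158.Wf850
open Crest.Agent.R158.Vx107 hiding tot
open Crest.Agent.R158.Cn109 (lsW smalls mem_smalls SS QQ SS_eq tot tot_eq VV DepF SS_dep QQ_dep)
open Crest.Agent.R158.Hd109 (Dens)
open Crest.Agent.R158.Cpl963 (A1 eAn mem_eAn mem_An A1_dep)
open Crest.Agent.R158.Fr158 (bx mem_bx mem_bx_sd eIn mem_eIn)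
open Crest.Agent.R158.Rs689 (nu PB Dep)
open Crest.Agent.R158.Bk430 (ws us)
open Crest.Agent.R158.Vn841 (In In_spec mem_In In_mem sep_In eq_In ht_pos ht_neg)
open Crest.Agent.R158.Zr110 (Mk Mo Mo_cofin mk_along mk_ah MkA mkA_iff UL Xe Adp lp_un_fin un_dep)
open Crest.Agent.R158.Zs110 (ul_box mass_off mk_box mo_compl_sub out_arms TA TA_mono ta_le_p2 mk_le
  sd_fc)
open Crest.Agent.R158.Ax107 (p2 p2_nonneg p2_le_one p2_anti)
open Function Real MeasureTheory ProbabilityTheory unitInterval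

local notation "μh" => nu Crest.Agent.R158.Rs689.hf

variable {z : Cfz} {s e : Corner} {n N q R : ℕ}

/-! ### events -/

/-- the strand of `s` leaves the box of radius `N` around the origin -/
def MkS (s : Corner) (N : ℕ) : Set Cfz := {z | s ∈ Mk (Mo (0, 0) (N : ℤ)) z}

/-- the strand of `e` leaves the box of radius `N` around `e` -/
def MkE (e : Corner) (N : ℕ) : Set Cfz := {z | e ∈ Mk (Mo e.1 (N : ℤ)) z}

/-- `s`, `e` on the same strand, which stays in the box -/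
def GdE (s e : Corner) (q : ℕ) : Set Cfz :=
  {z | e ∈ Lp z s ∧ s ∉ Mk (Mo (0, 0) ((q + 3 : ℕ) : ℤ)) z}

theorem dep_MkS (s : Corner) (N : ℕ) : Dep (eIn (bx (0, 0) (N : ℤ))) (MkS s N) := by
  intro z z' h
  show s ∈ Mk (Mo (0, 0) (N : ℤ)) z ↔ s ∈ Mk (Mo (0, 0) (N : ℤ)) z'
  rw [mk_box h]

theorem dep_MkE (e : Corner) (N : ℕ) : Dep (eIn (bx e.1 (N : ℤ))) (MkE e N) := by
  intro z z' h
  show e ∈ Mk (Mo e.1 (N : ℤ)) z ↔ e ∈ Mk (Mo e.1 (N : ℤ)) z'
  rw [mk_box h]

theorem dep_GdE (s e : Corner) (q : ℕ) :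
    Dep (eIn (bx (0, 0) ((q + 3 : ℕ) : ℤ))) (GdE s e q) := by
  have key : ∀ z z' : Cfz, (∀ i ∈ eIn (bx (0, 0) ((q + 3 : ℕ) : ℤ)), z i = z' i) →
      z ∈ GdE s e q → z' ∈ GdE s e q := by
    rintro z z' h ⟨h1, h2⟩
    obtain ⟨h3, h4⟩ := un_dep (M := Mo (0, 0) ((q + 3 : ℕ) : ℤ))
      (fun i hi => h i (mo_compl_sub (0, 0) _ hi)) h2
    exact ⟨by rw [← h4]; exact h1, h3⟩
  intro z z' h
  exact ⟨key z z' h, key z' z fun i hi => (h i hi).symm⟩

theorem meas_MkS (s : Corner) (N : ℕ) : MeasurableSet (MkS s N) := (dep_MkS s N).measurableSet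
theorem meas_MkE (e : Corner) (N : ℕ) : MeasurableSet (MkE e N) := (dep_MkE e N).measurableSet
theorem meas_GdE (s e : Corner) (q : ℕ) : MeasurableSet (GdE s e q) :=
  (dep_GdE s e q).measurableSet

theorem P_MkS (s : Corner) (N : ℕ) (hs : sd (0, 0) s.1 ≤ 1) : (μh).real (MkS s N) ≤ p2 (N - 6) :=
  mk_le s N hs

theorem P_MkE (e : Corner) (N : ℕ) : (μh).real (MkE e N) ≤ p2 (N - 6) := by
  rcases le_or_gt N 6 with h | h
  · have h0 : N - 6 = 0 := by omega
    rw [h0, Zs110.p2_zero]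
    exact measureReal_le_one
  · refine (measureReal_mono (fun z hz => ?_)).trans
      (ta_le_p2 e (N : ℤ) ((N : ℤ) - 1) (N - 6) (by omega) (by omega))
    exact out_arms hz

theorem sdp (v : P2) (m : ℤ) (x : P2) : sd x v ≤ m ↔
    x.1 - m ≤ v.1 ∧ v.1 ≤ x.1 + m ∧ x.2 - m ≤ v.2 ∧ v.2 ≤ x.2 + m := by
  rw [← mem_bx, mem_bx_sd]

/-- independence of the three regions -/
theorem P3 {A : Set Cfz} (hA : Dep (eIn (bx (0, 0) (N : ℤ))) A) {k : ℤ} {q : ℤ}
    (h1 : 2 * (N : ℤ) < n) (h2 : (n : ℤ) + N < k) :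
    (μh).real (A ∩ (MkE (((0, (n : ℤ)), 0) : Corner) N ∩ A1 (0, 0) k q)) =
      (μh).real A * ((μh).real (MkE (((0, (n : ℤ)), 0) : Corner) N) *
        (μh).real (A1 (0, 0) k q)) := by
  have hE := dep_MkE (((0, (n : ℤ)), 0) : Corner) N
  have hC := A1_dep (0, 0) k q
  have d1 : Disjoint (eIn (bx ((0 : ℤ), (n : ℤ)) (N : ℤ))) (eAn (0, 0) k q) := by
    rw [Finset.disjoint_left]
    intro i hi hi'
    rw [mem_eIn, mem_bx] at hi
    rw [mem_eAn, mem_An] at hi'
    have h3 := hi'.1.1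
    have h4 : ¬ sd (0, 0) (src i) ≤ k - 1 := by omega
    rw [sdp] at h4
    apply h4
    simp only at hi ⊢
    omega
  have d2 : Disjoint (eIn (bx (0, 0) (N : ℤ))) (eIn (bx ((0 : ℤ), (n : ℤ)) (N : ℤ)) ∪
      eAn (0, 0) k q) := by
    rw [Finset.disjoint_left]
    intro i hi hi'
    rw [mem_eIn, mem_bx] at hi
    rw [Finset.mem_union, mem_eIn, mem_bx, mem_eAn, mem_An] at hi'
    rcases hi' with hi' | hi'
    · simp only at hi hi'
      omega
    · have h3 := hi'.1.1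
      have h4 : ¬ sd (0, 0) (src i) ≤ k - 1 := by omega
      rw [sdp] at h4
      apply h4
      simp only at hi ⊢
      omega
  have hB : Dep (eIn (bx ((0 : ℤ), (n : ℤ)) (N : ℤ)) ∪ eAn (0, 0) k q)
      (MkE (((0, (n : ℤ)), 0) : Corner) N ∩ A1 (0, 0) k q) := by
    intro z z' h
    exact and_congr (hE z z' fun i hi => h i (Finset.mem_union_left _ hi))
      (hC z z' fun i hi => h i (Finset.mem_union_right _ hi))
  have g1 := Rs689.PB_indep_real (fun _ : Edge => Rs689.hf) d2 hA hB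
  have g2 := Rs689.PB_indep_real (fun _ : Edge => Rs689.hf) d1 hE hC
  show (PB fun _ : Edge => Rs689.hf).real _ = _
  rw [g1, g2]
  rfl

/-- independence of the main event and a crossing outside -/
theorem P2i (s e : Corner) {q : ℕ} {k l : ℤ} (h : ((q + 3 : ℕ) : ℤ) < k) :
    (μh).real (GdE s e q ∩ A1 (0, 0) k l) = (μh).real (GdE s e q) * (μh).real (A1 (0, 0) k l) := by
  have d1 : Disjoint (eIn (bx (0, 0) ((q + 3 : ℕ) : ℤ))) (eAn (0, 0) k l) := by
    rw [Finset.disjoint_left]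
    intro i hi hi'
    rw [mem_eIn, mem_bx_sd] at hi
    rw [mem_eAn, mem_An] at hi'
    omega
  have g2 := Rs689.PB_indep_real (fun _ : Edge => Rs689.hf) d1 (dep_GdE s e q)
    (A1_dep (0, 0) k l)
  exact g2

/-! ### bounds of the products -/

/-- the majorant hypothesis -/
def MH (R : ℕ) (Y : Cfz → ℝ) : Prop :=
  ∀ z, exp (√3 * aa * |SS lsW (ws R) (ws R).support (lv R) z - VV (lv R)| +
      12 * aa ^ 2 * QQ lsW (ws R) (ws R).support (lv R) z) *
        2 ^ (TT (lv R) ((2 * R : ℕ) : ℤ) z).ncard ≤ Y z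

/-- the weight of the ring -/
def EE (R : ℕ) : ℝ := exp (-(b0 * VV (lv R)))

theorem EE_pos (R : ℕ) : 0 < EE R := exp_pos _

theorem abs_PP_ws (hR : 64 ≤ R) {Y : Cfz → ℝ} (hY : MH R Y) {g : Face}
    (hg : sd (0, 0) g.1 ≤ ((R / 8 : ℕ) : ℤ)) {P : Finset Face → Prop}
    (hP : ∀ A ∈ smalls lsW (ws R).support (lv R) z, P A) :
    |PP P (wg R g) z| ≤ EE R * Y z := by
  refine (gu_pos (rd_ws hR) (by push_cast; omega) hg (PP_sub P z) fun A hA => ?_).trans
    (bd_neg (by positivity) (hY z))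
  exact ⟨((mem_smalls lsW).1 hA).1, hP A hA⟩

theorem nsep_small (hR : 64 ≤ R) {c : Corner} (h1 : cv c ∈ BF (0, 0) ((R / 8 : ℕ) : ℤ))
    (h2 : cf c ∈ BF (0, 0) ((R / 8 : ℕ) : ℤ)) {A : Finset Face}
    (hA : A ∈ smalls lsW (ws R).support (lv R) z) : ¬ sepC A c := by
  unfold sepC
  rw [not_not]
  have h3 := small_off (rd_ws hR) hA (mem_BF.1 h1)
  have h4 := small_off (rd_ws hR) hA (mem_BF.1 h2)
  exact ⟨fun h => absurd h h3, fun h => absurd h h4⟩

/-! ### the operator -/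

/-- the far corner -/
def eP (n : ℕ) : Corner := ((0, (n : ℤ)), 0)

theorem cv_eP (n : ℕ) : cv (eP n) = ((0, (n : ℤ)), false) := rfl

theorem cf_eP (n : ℕ) : cf (eP n) = ((0, (n : ℤ)), true) := by
  unfold cf eP
  rw [fc_zero]

theorem sd_eP (n : ℕ) : sd (0, 0) (eP n).1 = n := by
  show sd (0, 0) (0, (n : ℤ)) = n
  unfold sd
  simp

theorem near_eP {n : ℕ} {k : ℤ} (h : (n : ℤ) ≤ k) : cv (eP n) ∈ BF (0, 0) k ∧
    cf (eP n) ∈ BF (0, 0) k := by
  have h1 := sd_eP n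
  rw [cv_eP, cf_eP, mem_BF, mem_BF]
  exact ⟨h1.trans_le h, h1.trans_le h⟩

theorem near_s {k : ℤ} (hs : sd (0, 0) s.1 ≤ 1) (h : 2 ≤ k) : cv s ∈ BF (0, 0) k ∧
    cf s ∈ BF (0, 0) k := by
  rw [mem_BF, mem_BF]
  have h1 := (sd_fc s (0, 0)).1
  refine ⟨by show sd (0, 0) s.1 ≤ k; omega, by show sd (0, 0) (fc s) ≤ k; omega⟩

/-- the two-point operator -/
def dd (R n : ℕ) (s : Corner) (z : Cfz) : ℝ :=
  Dr (wg R (cv (eP n))) s z - Dr (wg R (cf (eP n))) s z

/-- the difference of the weights -/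
def Gw (R n : ℕ) (z : Cfz) : ℝ := W (wg R (cv (eP n))) z - W (wg R (cf (eP n))) z

/-- sizes -/
structure Sz (n N k q R : ℕ) : Prop where
  hR : 64 ≤ R
  hn : 2 * N + 2 < n
  hk : n + N + 1 < k
  hq : k ≤ q
  hr : q + 6 ≤ R / 8

/-- the strand of the far corner meets the ring -/
theorem touch_E {k : ℕ} (hz : Sz n N k q R) (he : (Lp z (eP n)).Finite)
    (hw : wI (ws R).support (ws R) z (eP n) ≠ 0) :
    z ∈ MkE (eP n) N ∩ A1 (0, 0) k q := by
  obtain ⟨h1, h2, h3, h4, h5⟩ := hz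
  have e1 := near_eP (n := n) (k := (k : ℤ)) (by omega)
  obtain ⟨g1, g2⟩ := touch (rd_ws h1) he (k := (k : ℤ)) (by omega) e1.1 e1.2 hw
  have g3 : ¬ In z (eP n) ⊆ BF (0, 0) (q : ℤ) := fun h => g1 (h.trans fun f hf => by
    rw [mem_BF] at hf ⊢; omega)
  refine ⟨?_, cross_A1 (In_mem he) (by omega)
    (splits_of_sep ((sep_In he (eP n)).2 (mem_Lp_self z _)) e1.1 e1.2) g3⟩
  refine mk_of_not_sub he fun h => g3 (h.trans fun f hf => ?_)
  rw [mem_BF] at hf ⊢
  have h6 := Cpl963.sd_tri (0, 0) (eP n).1 f.1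
  rw [sd_eP] at h6
  omega

theorem sin_wI (h : wI (ws R).support (ws R) z (eP n) = 0) :
    |sin (aa * wI (ws R).support (ws R) z (eP n))| = 0 := by
  rw [h, mul_zero, sin_zero, abs_zero]

/-- **the difference of the weights** -/
theorem Gw_le {k : ℕ} (hs : Sz n N k q R) {Y : Cfz → ℝ} (hY : MH R Y)
    (he : (Lp z (eP n)).Finite) :
    |Gw R n z| ≤ 2 * √3 * EE R * (ind (MkE (eP n) N ∩ A1 (0, 0) k q) z * Y z) := by
  have hR1 : 1 ≤ R := by have := hs.hR; omega
  have h1 := Wd_le (U := (ws R).support) (u := ws R) (z := z) (e := eP n) (ntr_wg hR1 _)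
    (ntr_wg hR1 _) he
  by_cases h0 : wI (ws R).support (ws R) z (eP n) = 0
  · rw [sin_wI h0, mul_zero, zero_mul] at h1
    have h1' : |Gw R n z| ≤ 0 := h1
    have h2 : |Gw R n z| = 0 := le_antisymm h1' (abs_nonneg _)
    rw [h2]
    have h3 : 0 ≤ Y z := le_trans (by positivity) (hY z)
    have h4 := ind_nonneg (MkE (eP n) N ∩ A1 (0, 0) k q) z
    have h5 := EE_pos R
    positivity
  · rw [ind_of (touch_E hs he h0), one_mul]
    have hn8 : (n : ℤ) ≤ ((R / 8 : ℕ) : ℤ) := by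
      obtain ⟨h1, h2, h3, h4, h5⟩ := hs; omega
    have e1 := near_eP hn8
    have h2 : |OP (wg R (cv (eP n))) z (eP n)| ≤ EE R * Y z := by
      rw [OP_eq_PP]
      exact abs_PP_ws hs.hR hY (mem_BF.1 e1.1) fun A hA => nsep_small hs.hR e1.1 e1.2 hA
    have h3 : |sin (aa * wI (ws R).support (ws R) z (eP n))| ≤ 1 := abs_sin_le_one _
    calc |Gw R n z| ≤ 2 * √3 * |sin (aa * wI (ws R).support (ws R) z (eP n))| *
          |OP (wg R (cv (eP n))) z (eP n)| := h1
      _ ≤ 2 * √3 * 1 * (EE R * Y z) := by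
          refine mul_le_mul (mul_le_mul_of_nonneg_left h3 (by positivity)) h2 (abs_nonneg _)
            (by positivity)
      _ = _ := by ring

/-- **general bound** -/
theorem dd_le {k : ℕ} (hs : Sz n N k q R) (h1 : sd (0, 0) s.1 ≤ 1) {Y : Cfz → ℝ} (hY : MH R Y)
    (hfin : (Lp z s).Finite) (he : (Lp z (eP n)).Finite) :
    |dd R n s z| ≤ 4 * √3 * EE R * Y z := by
  have hR1 : 1 ≤ R := by have := hs.hR; omega
  have hn8 : (n : ℤ) ≤ ((R / 8 : ℕ) : ℤ) := by
    obtain ⟨h1, h2, h3, h4, h5⟩ := hs; omega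
  have h8 : (2 : ℤ) ≤ ((R / 8 : ℕ) : ℤ) := by
    obtain ⟨h1, h2, h3, h4, h5⟩ := hs; omega
  have e1 := near_eP hn8
  have e2 := near_s h1 h8
  have hY0 : 0 ≤ Y z := le_trans (by positivity) (hY z)
  have hE := EE_pos R
  by_cases h : eP n ∈ Lp z s
  · have g1 := same_eq (U := (ws R).support) (u := ws R) hfin h
    have g2 : |OP (wg R (cv (eP n))) z s| ≤ EE R * Y z := by
      rw [OP_eq_PP]
      exact abs_PP_ws hs.hR hY (mem_BF.1 e1.1) fun A hA => nsep_small hs.hR e2.1 e2.2 hA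
    have g3 : dd R n s z = 2 * √3 * cos (aa * wI (ws R).support (ws R) z s) *
        OP (wg R (cv (eP n))) z s := g1
    rw [g3, abs_mul, abs_mul, abs_of_nonneg (by positivity : (0 : ℝ) ≤ 2 * √3)]
    calc 2 * √3 * |cos (aa * wI (ws R).support (ws R) z s)| * |OP (wg R (cv (eP n))) z s|
        ≤ 2 * √3 * 1 * (EE R * Y z) :=
          mul_le_mul (mul_le_mul_of_nonneg_left (abs_cos_le_one _) (by positivity)) g2
            (abs_nonneg _) (by positivity)
      _ ≤ 4 * √3 * EE R * Y z := by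
          have : 0 ≤ √3 * (EE R * Y z) := by positivity
          nlinarith
  · have g1 := diff_le (U := (ws R).support) (u := ws R) (ntr_wg hR1 _) (ntr_wg hR1 _) hfin he h
    refine le_trans (b := 4 * √3 * |sin (aa * wI (ws R).support (ws R) z (eP n))| *
      |PP (fun A => ¬ sepC A s ∧ ¬ sepC A (eP n)) (wg R (cv (eP n))) z|) g1 ?_
    have g2 : |PP (fun A => ¬ sepC A s ∧ ¬ sepC A (eP n)) (wg R (cv (eP n))) z| ≤
        EE R * Y z :=
      abs_PP_ws hs.hR hY (mem_BF.1 e1.1) fun A hA =>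
        ⟨nsep_small hs.hR e2.1 e2.2 hA, nsep_small hs.hR e1.1 e1.2 hA⟩
    calc 4 * √3 * |sin (aa * wI (ws R).support (ws R) z (eP n))| *
          |PP (fun A => ¬ sepC A s ∧ ¬ sepC A (eP n)) (wg R (cv (eP n))) z|
        ≤ 4 * √3 * 1 * (EE R * Y z) :=
          mul_le_mul (mul_le_mul_of_nonneg_left (abs_sin_le_one _) (by positivity)) g2
            (abs_nonneg _) (by positivity)
      _ = _ := by ring

/-- **the main event** -/
theorem dd_good {k : ℕ} (hs : Sz n N k q R) (hz : z ∈ GdE s (eP n) q) :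
    dd R n s z = 2 * √3 * W (wg R (cv (eP n))) z := by
  have hR1 : 1 ≤ R := by have := hs.hR; omega
  obtain ⟨h1, h2⟩ := hz
  have hfin := lp_un_fin (Mo_cofin _ _) h2
  have g1 := same_eq (U := (ws R).support) (u := ws R) hfin h1
  have g0 : wI (ws R).support (ws R) z s = 0 :=
    wm_zero_of_sub (rd_ws hs.hR) (by have := hs.hr; push_cast; omega) (sub_of_unmk h2)
  have g3 : dd R n s z = 2 * √3 * cos (aa * wI (ws R).support (ws R) z s) *
      OP (wg R (cv (eP n))) z s := g1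
  have g4 : OP (wg R (cv (eP n))) z s = W (wg R (cv (eP n))) z :=
    OP_eq_W (ntr_wg hR1 _) hfin h1 g0
  rw [g3, g4, g0, mul_zero, cos_zero, mul_one]

/-- corners of a strand inside a box -/
theorem unmk_of_sub {q : ℤ} (hfin : (Lp z s).Finite) (h : In z s ⊆ BF (0, 0) q) :
    s ∉ Mk (Mo (0, 0) (q + 3)) z := by
  intro hm
  obtain ⟨i, ⟨d, hd, hdi⟩, hM⟩ := hm
  have h1 := (sep_In hfin d).2 hd
  have h2 : sd (0, 0) d.1 ≤ q + 1 := by
    have h1' : cv d ∈ In z s ∨ cf d ∈ In z s := by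
      by_contra h3
      rw [not_or] at h3
      apply h1
      constructor
      · intro h4; exact absurd h4 h3.1
      · intro h4; exact absurd h4 h3.2
    rcases h1' with h3 | h3
    · have h4 := mem_BF.1 (h h3)
      have h5 : sd (0, 0) d.1 ≤ q := h4
      linarith
    · have h4 := mem_BF.1 (h h3)
      have h5 : sd (0, 0) (fc d) ≤ q := h4
      have h6 := (sd_fc d (0, 0)).2
      linarith
  have h7 : q + 3 < sd (0, 0) (src i) ∨ q + 3 < sd (0, 0) (tgt i) := hM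
  rcases ah_ends d with ⟨h8, h9⟩ | ⟨h8, h9⟩
  · have h10 := Vx107.sd_st (ah d)
    have h11 := Cpl963.sd_tri (0, 0) (src (ah d)) (tgt (ah d))
    rw [← hdi] at h7
    rw [h8] at h2
    omega
  · have h10 := Vx107.sd_st (ah d)
    have h11 := Cpl963.sd_tri (0, 0) (tgt (ah d)) (src (ah d))
    have h12 := Cpl963.sd_comm (tgt (ah d)) (src (ah d))
    rw [← hdi] at h7
    rw [h8] at h2
    omega

/-- **a marked corner off the main event** -/
theorem dd_bad {k : ℕ} (hs : Sz n N k q R) (h1 : sd (0, 0) s.1 ≤ 1)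
    (hfin : (Lp z s).Finite) (he : (Lp z (eP n)).Finite) (hm : z ∈ MkS s N)
    (hg : z ∉ GdE s (eP n) q) (hne : dd R n s z ≠ 0) :
    z ∈ MkS s N ∩ (MkE (eP n) N ∩ A1 (0, 0) k q) := by
  have hR1 : 1 ≤ R := by have := hs.hR; omega
  refine ⟨hm, ?_⟩
  by_cases h : eP n ∈ Lp z s
  · have hmk : s ∈ Mk (Mo (0, 0) ((q + 3 : ℕ) : ℤ)) z := by
      by_contra h2
      exact hg ⟨h, h2⟩
    have hns : ¬ In z s ⊆ BF (0, 0) (q : ℤ) := by
      intro h2
      refine unmk_of_sub hfin h2 ?_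
      have : ((q : ℤ) + 3) = ((q + 3 : ℕ) : ℤ) := by push_cast; ring
      rw [this]; exact hmk
    obtain ⟨g1, g2, g3, g4, g5⟩ := hs
    have e2 := near_s h1 (k := (k : ℤ)) (by omega)
    refine ⟨mk_of_far h.symm ?_, cross_A1 (In_mem hfin) (by omega)
      (splits_of_sep ((sep_In hfin s).2 (mem_Lp_self z _)) e2.1 e2.2) hns⟩
    have h3 := Cpl963.sd_tri (0, 0) s.1 (eP n).1
    have h4 := Cpl963.sd_comm s.1 (eP n).1
    rw [sd_eP] at h3
    omega
  · refine touch_E hs he fun h0 => hne ?_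
    have g1 := diff_le (U := (ws R).support) (u := ws R) (ntr_wg hR1 _) (ntr_wg hR1 _) hfin he h
    rw [sin_wI h0, mul_zero, zero_mul] at g1
    have g2 : |dd R n s z| ≤ 0 := g1
    exact abs_nonpos_iff.1 g2

/-- **unmarked corners** -/
theorem dd_un {k : ℕ} (hs : Sz n N k q R) (hm : z ∉ MkS s N) :
    dd R n s z = √3 * (Gw R n z * (sg z s : ℝ)) := by
  have hR1 : 1 ≤ R := by have := hs.hR; omega
  have hoff : ∀ b : Bool, ∀ f ∈ BF (0, 0) (N : ℤ), wg R ((0, (n : ℤ)), b) f = 0 := by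
    intro b f hf
    rw [wg_eq, Finsupp.smul_apply, Finsupp.sub_apply]
    rw [mem_BF] at hf
    have h1 : ws R f = 0 := by
      by_contra h2
      have h3 := (rd_ws hs.hR).inn f (Finsupp.mem_support_iff.2 h2)
      have h4 : (0 : ℤ) < 2 ^ lv R := by positivity
      obtain ⟨g1, g2, g3, g4, g5⟩ := hs
      omega
    have h2 : (Finsupp.single (((0, (n : ℤ)), b) : Face) (1 : ℝ)) f = 0 := by
      rw [Finsupp.single_apply, if_neg]
      rintro rfl
      have h3 := sd_eP n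
      have h4 : sd (0, 0) (0, (n : ℤ)) = n := h3
      rw [h4] at hf
      obtain ⟨g1, g2, g3, g4, g5⟩ := hs
      omega
    rw [h1, h2, sub_zero, smul_zero]
  have hm' : s ∉ Mk (Mo (0, 0) (N : ℤ)) z := hm
  have h1 := Dr_unmk (ntr_wg hR1 (cv (eP n))) (by rw [cv_eP]; exact hoff false) hm'
  have h2 := Dr_unmk (ntr_wg hR1 (cf (eP n))) (by rw [cf_eP]; exact hoff true) hm'
  unfold dd Gw
  rw [h1, h2]
  ring

end Crest.Agent.R158.Fd61
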