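import Crest.Agent.R158.Fd7_61

/-!
# Row 158, leaf D of doc 1912 (helper61), part 8: the integrated inequality

* `tr_set` : truncation on an event
* `LB4_raw` : `∫ dd ≥ 2 √3 P(GdE) (∫ Bn - 4 T E P(A1)) - E (24 T M A (M + Σ) + 24 (J+3) η)`
-/

set_option autoImplicit false

noncomputable section

namespace Crest.Agent.R158.Fd61

open Crest.Agent.R161.Geo729 Crest.Agent.R161.Dual374
open Crest.Agent.R161.Tas682 (sd)
open Crest.Agent.R158.It200 hiding hf
open Crest.Agent.R158.Wf850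
open Crest.Agent.R158.Vx107 hiding tot
open Crest.Agent.R158.Cn109 (lsW smalls mem_smalls SS QQ SS_eq tot tot_eq VV DepF SS_dep QQ_dep)
open Crest.Agent.R158.Hd109 (Dens)
open Crest.Agent.R158.Cpl963 (A1 eAn mem_eAn mem_An A1_dep)
open Crest.Agent.R158.Fr158 (bx mem_bx mem_bx_sd eIn mem_eIn)
open Crest.Agent.R158.Rs689 (nu PB Dep)
open Crest.Agent.R158.Bk430 (ws us)
open Crest.Agent.R158.Vn841 (In In_spec mem_In In_mem sep_In eq_In ht_pos ht_neg)
open Crest.Agent.R158.Zr110 (Mk Mo Mo_cofin mk_along mk_ah MkA mkA_iff UL Xe Adp lp_un_fin un_dep)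
open Crest.Agent.R158.Zs110 (XA xa_dep meas_xa xa_le Pv pv_nonneg pv_xa Z1_sg W_adp P2a p2a_nonneg)
open Crest.Agent.R158.Ax107 (p2 p2_nonneg p2_le_one p2_anti)
open Function Real MeasureTheory ProbabilityTheory unitInterval

local notation "μh" => nu Crest.Agent.R158.Rs689.hf

variable {z : Cfz} {s e : Corner} {n N q R : ℕ}

/-! ### truncation on an event -/

theorem ind_mul (E : Set Cfz) (f : Cfz → ℝ) : (fun z => ind E z * f z) = E.indicator f := by
  funext z
  by_cases h : z ∈ E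
  · rw [ind_of h, one_mul, Set.indicator_of_mem h]
  · rw [ind_not h, zero_mul, Set.indicator_of_notMem h]

theorem ind_mul_int {E : Set Cfz} (hE : MeasurableSet E) {f : Cfz → ℝ} (hf : Integrable f μh) :
    Integrable (fun z => ind E z * f z) μh := by
  rw [ind_mul]
  exact hf.indicator hE

/-- truncation constants -/
structure Tc (Y : Cfz → ℝ) (T η : ℝ) : Prop where
  yi : Integrable Y μh
  y0 : ∀ z, 0 ≤ Y z
  t0 : 0 ≤ T
  e0 : 0 ≤ η
  tr : ∀ X : Set Cfz, MeasurableSet X → ∫ z, ind X z * Y z ∂μh ≤ 2 * T * (μh).real X + η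

theorem tr_set {G : ℝ} {k : ℕ} {Y : Cfz → ℝ} (hM : Mj G (2 * k + 2) Y) {T : ℝ} (hT : 1 ≤ T) :
    Tc Y T (G / T ^ (2 * k + 1)) := by
  have hG := hM.one_le
  have hT0 : 0 < T := by linarith
  refine ⟨hM.int', fun z => by have := hM.one z; linarith, hT0.le, by positivity,
    fun X hX => ?_⟩
  obtain ⟨i1, i2⟩ := int_ind hX
  have h2 := tr_int (μ := μh) (X := ind X) (Y := Y) (f := fun z => ind X z * Y z)
    (T := T) (l := T) hT0 hT0 k (ind_nonneg _) (fun z => by have := hM.one z; linarith)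
    (fun z => by
      rw [abs_of_nonneg (mul_nonneg (ind_nonneg _ _) (by have := hM.one z; linarith))]) i1
    (by simp_rw [ind_sq]; exact i1) (hM.int _)
  simp_rw [ind_sq] at h2
  rw [i2] at h2
  have h3 := le_abs_self (∫ z, ind X z * Y z ∂μh)
  have e1 : T * T ^ (2 * k) = T ^ (2 * k + 1) := by rw [pow_succ]; ring
  rw [e1] at h2
  have h4 : (∫ z, Y z ^ (2 * k + 2) ∂μh) / T ^ (2 * k + 1) ≤ G / T ^ (2 * k + 1) :=
    div_le_div_of_nonneg_right hM.mom (by positivity)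
  have h5 : 0 ≤ T * (μh).real X := mul_nonneg hT0.le measureReal_nonneg
  have h6 : 0 ≤ G / T ^ (2 * k + 1) := by positivity
  linarith

/-- bound of an integral by the truncated majorant -/
theorem int_le_tr {Y : Cfz → ℝ} {T η : ℝ} (hT : Tc Y T η) {X : Set Cfz} (hX : MeasurableSet X)
    {c : ℝ} (hc : 0 ≤ c) {f : Cfz → ℝ} (hf : ∀ᵐ z ∂μh, |f z| ≤ c * (ind X z * Y z)) :
    |∫ z, f z ∂μh| ≤ c * (2 * T * (μh).real X + η) := by
  have h1 : |∫ z, f z ∂μh| ≤ ∫ z, |f z| ∂μh := abs_integral_le_integral_abs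
  have h2 : ∫ z, |f z| ∂μh ≤ ∫ z, c * (ind X z * Y z) ∂μh :=
    integral_mono_of_nonneg (Filter.Eventually.of_forall fun z => abs_nonneg _)
      ((ind_mul_int hX hT.yi).const_mul c) hf
  rw [integral_const_mul] at h2
  exact h1.trans (h2.trans (mul_le_mul_of_nonneg_left (hT.tr X hX) hc))

/-! ### integrability -/

theorem dd_int (hR : 1 ≤ R) (n : ℕ) (s : Corner) : Integrable (dd R n s) μh :=
  (integrable_Dr Vx107.ae_fin (ntr_wg hR _) s).sub (integrable_Dr Vx107.ae_fin (ntr_wg hR _) s)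

theorem Gw_int (hR : 1 ≤ R) (n : ℕ) : Integrable (Gw R n) μh :=
  (integrable_W (ntr_wg hR _) μh).sub (integrable_W (ntr_wg hR _) μh)

/-- the far corner marks the strand of `s` -/
theorem gd_sub_mk {k : ℕ} (hs : Sz n N k q R) : GdE s (eP n) q ⊆ MkS s N := by
  rintro z ⟨h1, -⟩
  refine mk_of_far h1 ?_
  rw [sd_eP]
  have := hs.hn
  omega

/-- the charges are off the box -/
theorem wg_off {k : ℕ} (hs : Sz n N k q R) (b : Bool) :
    ∀ f ∈ BF (0, 0) (N : ℤ), wg R ((0, (n : ℤ)), b) f = 0 := by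
  intro f hf
  rw [wg_eq, Finsupp.smul_apply, Finsupp.sub_apply]
  rw [mem_BF] at hf
  have h1 : ws R f = 0 := by
    by_contra h2
    have h3 := (rd_ws hs.hR).inn f (Finsupp.mem_support_iff.2 h2)
    have h4 : (0 : ℤ) < 2 ^ lv R := by positivity
    obtain ⟨g1, g2, g3, g4, g5⟩ := hs
    omega
  have h2 : (Finsupp.single (((0, (n : ℤ)), b) : Face) (1 : ℝ)) f = 0 := by
    rw [Finsupp.single_apply, if_neg]
    rintro rfl
    have h3 := sd_eP n
    have h4 : sd (0, 0) (0, (n : ℤ)) = n := h3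
    rw [h4] at hf
    obtain ⟨g1, g2, g3, g4, g5⟩ := hs
    omega
  rw [h1, h2, sub_zero, smul_zero]

theorem Gw_adp {k : ℕ} (hs : Sz n N k q R) : Adp (Mo (0, 0) (N : ℤ)) (Gw R n) := by
  have hR1 : 1 ≤ R := by have := hs.hR; omega
  intro z z' h
  have h1 := W_adp (ntr_wg hR1 (cv (eP n))) (by rw [cv_eP]; exact wg_off hs false) z z' h
  have h2 := W_adp (ntr_wg hR1 (cf (eP n))) (by rw [cf_eP]; exact wg_off hs true) z z' h
  unfold Gw
  rw [h1, h2]

/-! ### the isolated part -/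

/-- the sum over the scales -/
def Sg (N J : ℕ) : ℝ := p2 (2 ^ J - 7) + ∑ j ∈ Finset.range (J + 1),
  p2 (2 ^ j - 8) * P2a (2 ^ (j + 1)) ((N : ℤ) - 1)

theorem Sg_nonneg (N J : ℕ) : 0 ≤ Sg N J :=
  add_nonneg (p2_nonneg _) (Finset.sum_nonneg fun _ _ => mul_nonneg (p2_nonneg _) (p2a_nonneg _ _))

open Classical in
/-- **the isolated part** -/
theorem iso_part {k : ℕ} (hs : Sz n N k q R) (h1 : sd (0, 0) s.1 ≤ 1) {Y : Cfz → ℝ}
    (hY : MH R Y) {T η : ℝ} (hT : Tc Y T η) (J : ℕ) :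
    |∫ z, Gw R n z * (if s ∉ Mk (Mo (0, 0) (N : ℤ)) z then (sg z s : ℝ) else 0) ∂μh| ≤
      4 * √3 * EE R * (2 * T * (p2 (N - 6) * (μh).real (A1 (0, 0) k q)) * Sg N J +
        (J + 2) * η) := by
  have hR1 : 1 ≤ R := by have := hs.hR; omega
  have hM := Mo_cofin (0, 0) (N : ℤ)
  have hZ := Z1_sg hM (fun z => Zr110.gd_Mo (0, 0) (N : ℤ) z) (Gw_adp hs) (Gw_int hR1 n) s
  refine hZ.trans ?_
  set F : Set Cfz := MkE (eP n) N ∩ A1 (0, 0) k q with hF
  have mF : MeasurableSet F := (meas_MkE _ _).inter (meas_A1 _ _ _)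
  set A := (μh).real (A1 (0, 0) k q) with hA
  have hA0 : 0 ≤ A := measureReal_nonneg
  have hE := EE_pos R
  have hT0 := hT.t0
  have he0 := hT.e0
  have hk2 : (n : ℤ) + N < ((k : ℕ) : ℤ) := by have := hs.hk; omega
  have hn2 : 2 * (N : ℤ) < n := by have := hs.hn; omega
  -- probabilities
  have pF : (μh).real F ≤ p2 (N - 6) * A := by
    have g := P3 (n := n) (N := N) (A := Set.univ) (k := (k : ℤ)) (q := (q : ℤ))
      (fun _ _ _ => Iff.rfl) hn2 hk2
    rw [Set.univ_inter, probReal_univ, one_mul] at g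
    rw [hF]
    refine g.trans_le (mul_le_mul_of_nonneg_right (P_MkE _ _) hA0)
  have pX : ∀ j : ℕ, (μh).real (XA N (2 ^ (j + 1)) ∩ F) ≤
      P2a (2 ^ (j + 1)) ((N : ℤ) - 1) * (p2 (N - 6) * A) := by
    intro j
    have g := P3 (n := n) (N := N) (A := XA N (2 ^ (j + 1))) (k := (k : ℤ)) (q := (q : ℤ))
      (xa_dep _ _) hn2 hk2
    rw [hF]
    refine g.trans_le ?_
    exact mul_le_mul (xa_le _ _) (mul_le_mul_of_nonneg_right (P_MkE _ _) hA0)
      (mul_nonneg measureReal_nonneg hA0) (p2a_nonneg _ _)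
  -- the majorant
  set g : Cfz → ℝ := fun z => 2 * √3 * EE R * (p2 (2 ^ J - 7) * (ind F z * Y z) +
    ∑ j ∈ Finset.range (J + 1), p2 (2 ^ j - 8) * (ind (XA N (2 ^ (j + 1)) ∩ F) z * Y z)) with hg
  have i1 : ∀ X : Set Cfz, MeasurableSet X → Integrable (fun z => ind X z * Y z) μh :=
    fun X hX => ind_mul_int hX hT.yi
  have mX : ∀ j : ℕ, MeasurableSet (XA N (2 ^ (j + 1)) ∩ F) := fun j => (meas_xa _ _).inter mF
  have i2 : Integrable (fun z => ∑ j ∈ Finset.range (J + 1),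
      p2 (2 ^ j - 8) * (ind (XA N (2 ^ (j + 1)) ∩ F) z * Y z)) μh :=
    integrable_finsetSum _ fun j _ => (i1 _ (mX j)).const_mul _
  have gi : Integrable g μh := (((i1 F mF).const_mul _).add i2).const_mul _
  have hle : ∀ᵐ z ∂μh, |Gw R n z| * (if s ∉ Mk (Mo (0, 0) (N : ℤ)) z then
      Pv (Mo (0, 0) (N : ℤ)) s z else 0) ≤ g z := by
    filter_upwards [Vx107.ae_fin] with z hz
    have h3 := pv_xa s N J h1 z
    have h4 := Gw_le hs hY (hz (eP n))
    have h5 : |Gw R n z| * (if s ∉ Mk (Mo (0, 0) (N : ℤ)) z then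
        Pv (Mo (0, 0) (N : ℤ)) s z else 0) ≤ |Gw R n z| * Pv (Mo (0, 0) (N : ℤ)) s z := by
      refine mul_le_mul_of_nonneg_left ?_ (abs_nonneg _)
      split_ifs
      · exact pv_nonneg _ _
      · exact le_rfl
    refine h5.trans ?_
    have h6 : 0 ≤ 2 * √3 * EE R * (ind F z * Y z) := by
      have := ind_nonneg F z
      have := hT.y0 z
      positivity
    refine (mul_le_mul h4 h3 (pv_nonneg _ _) h6).trans (le_of_eq ?_)
    rw [hg]
    simp only
    rw [mul_add, mul_add, Finset.mul_sum, Finset.mul_sum]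
    congr 1
    · ring
    · refine Finset.sum_congr rfl fun j _ => ?_
      by_cases h7 : z ∈ XA N (2 ^ (j + 1))
      · rw [Set.indicator_of_mem h7, Pi.one_apply]
        by_cases h8 : z ∈ F
        · rw [ind_of h8, ind_of (show z ∈ XA N (2 ^ (j + 1)) ∩ F from ⟨h7, h8⟩)]; ring
        · rw [ind_not h8, ind_not (fun h => h8 h.2)]; ring
      · rw [Set.indicator_of_notMem h7, ind_not (E := XA N (2 ^ (j + 1)) ∩ F) (fun h => h7 h.1)]
        ring
  have h0 : ∀ z, 0 ≤ |Gw R n z| * (if s ∉ Mk (Mo (0, 0) (N : ℤ)) z then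
      Pv (Mo (0, 0) (N : ℤ)) s z else 0) := by
    intro z
    refine mul_nonneg (abs_nonneg _) ?_
    split_ifs
    · exact le_rfl
    · exact pv_nonneg _ _
  have h2 : ∫ z, |Gw R n z| * (if s ∉ Mk (Mo (0, 0) (N : ℤ)) z then
      Pv (Mo (0, 0) (N : ℤ)) s z else 0) ∂μh ≤ ∫ z, g z ∂μh :=
    integral_mono_of_nonneg (Filter.Eventually.of_forall h0) gi hle
  have h3 : ∫ z, g z ∂μh = 2 * √3 * EE R * (p2 (2 ^ J - 7) * (∫ z, ind F z * Y z ∂μh) +
      ∑ j ∈ Finset.range (J + 1), p2 (2 ^ j - 8) *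
        ∫ z, ind (XA N (2 ^ (j + 1)) ∩ F) z * Y z ∂μh) := by
    rw [hg, integral_const_mul, integral_add ((i1 F mF).const_mul _) i2, integral_const_mul,
      integral_finsetSum _ fun j _ => (i1 _ (mX j)).const_mul _]
    congr 2
    refine Finset.sum_congr rfl fun j _ => ?_
    rw [integral_const_mul]
  have h4 : p2 (2 ^ J - 7) * (∫ z, ind F z * Y z ∂μh) ≤
      p2 (2 ^ J - 7) * (2 * T * (p2 (N - 6) * A)) + η := by
    have g1 := hT.tr F mF
    have g2 : 2 * T * (μh).real F ≤ 2 * T * (p2 (N - 6) * A) :=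
      mul_le_mul_of_nonneg_left pF (by positivity)
    calc p2 (2 ^ J - 7) * (∫ z, ind F z * Y z ∂μh)
        ≤ p2 (2 ^ J - 7) * (2 * T * (p2 (N - 6) * A) + η) :=
          mul_le_mul_of_nonneg_left (by linarith) (p2_nonneg _)
      _ = p2 (2 ^ J - 7) * (2 * T * (p2 (N - 6) * A)) + p2 (2 ^ J - 7) * η := by ring
      _ ≤ _ := by
          have := mul_le_of_le_one_left he0 (p2_le_one (2 ^ J - 7))
          linarith
  have h5 : ∀ j : ℕ, p2 (2 ^ j - 8) * ∫ z, ind (XA N (2 ^ (j + 1)) ∩ F) z * Y z ∂μh ≤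
      (p2 (2 ^ j - 8) * P2a (2 ^ (j + 1)) ((N : ℤ) - 1)) * (2 * T * (p2 (N - 6) * A)) + η := by
    intro j
    have g1 := hT.tr _ (mX j)
    have g2 : 2 * T * (μh).real (XA N (2 ^ (j + 1)) ∩ F) ≤
        2 * T * (P2a (2 ^ (j + 1)) ((N : ℤ) - 1) * (p2 (N - 6) * A)) :=
      mul_le_mul_of_nonneg_left (pX j) (by positivity)
    calc p2 (2 ^ j - 8) * ∫ z, ind (XA N (2 ^ (j + 1)) ∩ F) z * Y z ∂μh
        ≤ p2 (2 ^ j - 8) * (2 * T * (P2a (2 ^ (j + 1)) ((N : ℤ) - 1) * (p2 (N - 6) * A)) + η) :=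
          mul_le_mul_of_nonneg_left (by linarith) (p2_nonneg _)
      _ = (p2 (2 ^ j - 8) * P2a (2 ^ (j + 1)) ((N : ℤ) - 1)) * (2 * T * (p2 (N - 6) * A)) +
          p2 (2 ^ j - 8) * η := by ring
      _ ≤ _ := by
          have := mul_le_of_le_one_left he0 (p2_le_one (2 ^ j - 8))
          linarith
  have h6 : ∑ j ∈ Finset.range (J + 1), p2 (2 ^ j - 8) *
      ∫ z, ind (XA N (2 ^ (j + 1)) ∩ F) z * Y z ∂μh ≤
      (∑ j ∈ Finset.range (J + 1), p2 (2 ^ j - 8) * P2a (2 ^ (j + 1)) ((N : ℤ) - 1)) *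
        (2 * T * (p2 (N - 6) * A)) + (J + 1) * η := by
    refine (Finset.sum_le_sum fun j _ => h5 j).trans (le_of_eq ?_)
    rw [Finset.sum_add_distrib, ← Finset.sum_mul, Finset.sum_const, Finset.card_range,
      nsmul_eq_mul]
    push_cast
    ring
  rw [h3] at h2
  have h7 : ∫ z, |Gw R n z| * (if s ∉ Mk (Mo (0, 0) (N : ℤ)) z then
      Pv (Mo (0, 0) (N : ℤ)) s z else 0) ∂μh ≤ 2 * √3 * EE R *
      (2 * T * (p2 (N - 6) * A) * Sg N J + (J + 2) * η) := by
    refine h2.trans (mul_le_mul_of_nonneg_left ?_ (by positivity))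
    unfold Sg
    linarith
  linarith

/-! ### the inequality -/

/-- **the integrated lower bound** -/
theorem LB4_raw {k : ℕ} (hs : Sz n N k q R) (h1 : sd (0, 0) s.1 ≤ 1) {Y : Cfz → ℝ}
    (hY : MH R Y) {T η : ℝ} (hT : Tc Y T η) (J : ℕ) :
    2 * √3 * ((μh).real (GdE s (eP n) q) *
        (∫ z, Bn ((q + 5 : ℕ) : ℤ) (wg R (cv (eP n))) z ∂μh -
          4 * T * EE R * (μh).real (A1 (0, 0) ((q + 5 : ℕ) : ℤ) ((R / 8 : ℕ) : ℤ)))) -
      EE R * (24 * T * (p2 (N - 6) * (μh).real (A1 (0, 0) k q)) * (p2 (N - 6) + Sg N J) +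
        24 * (J + 4) * η) ≤ ∫ z, dd R n s z ∂μh := by
  classical
  have hR1 : 1 ≤ R := by have := hs.hR; omega
  have hE := EE_pos R
  have hT0 := hT.t0
  have he0 := hT.e0
  have hiso := iso_part hs h1 hY hT J
  set m := wg R (cv (eP n)) with hm
  have hmN : Ntr m := ntr_wg hR1 _
  set ρ : ℤ := ((q + 5 : ℕ) : ℤ) with hρ
  set r0 : ℤ := ((R / 8 : ℕ) : ℤ) with hr0
  have hρr : ρ ≤ r0 := by have := hs.hr; rw [hρ, hr0]; omega
  have hn8 : (n : ℤ) ≤ r0 := by
    obtain ⟨h1, h2, h3, h4, h5⟩ := hs; rw [hr0]; omega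
  have hg8 : sd (0, 0) (cv (eP n)).1 ≤ r0 := mem_BF.1 (near_eP hn8).1
  set Gd := GdE s (eP n) q with hGd
  have mG : MeasurableSet Gd := meas_GdE _ _ _
  set F : Set Cfz := MkE (eP n) N ∩ A1 (0, 0) k q with hF
  have mF : MeasurableSet F := (meas_MkE _ _).inter (meas_A1 _ _ _)
  have mS : MeasurableSet (MkS s N) := meas_MkS _ _
  set a : Cfz → ℝ := fun z => ind Gd z * (2 * √3 * (W m z - Bn ρ m z)) with ha
  set b : Cfz → ℝ := fun z => ind (MkS s N \ Gd) z * dd R n s z with hb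
  set d : Cfz → ℝ := fun z => Gw R n z * (if s ∉ Mk (Mo (0, 0) (N : ℤ)) z then (sg z s : ℝ) else 0)
    with hd
  have ai : Integrable a μh :=
    ind_mul_int mG ((((integrable_W hmN μh).sub (Bn_int hmN ρ))).const_mul _)
  have bi : Integrable b μh := ind_mul_int (mS.diff mG) (dd_int hR1 n s)
  have ci : Integrable (fun z => ind Gd z * (2 * √3 * Bn ρ m z)) μh :=
    ind_mul_int mG ((Bn_int hmN ρ).const_mul _)
  have key : ∀ z, dd R n s z = ind Gd z * (2 * √3 * Bn ρ m z) + a z + b z + √3 * d z := by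
    intro z
    by_cases g1 : z ∈ Gd
    · have g2 := gd_sub_mk hs g1
      have g3 := dd_good hs g1
      have g4 : d z = 0 := by
        rw [hd]
        simp only
        rw [if_neg (not_not.2 (show s ∈ Mk (Mo (0, 0) (N : ℤ)) z from g2)), mul_zero]
      rw [g4, ha, hb]
      simp only
      rw [ind_of g1, ind_not (E := MkS s N \ Gd) (fun h => h.2 g1), g3]
      ring
    · by_cases g2 : z ∈ MkS s N
      · have g4 : d z = 0 := by
          rw [hd]
          simp only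
          rw [if_neg (not_not.2 (show s ∈ Mk (Mo (0, 0) (N : ℤ)) z from g2)), mul_zero]
        rw [g4, ha, hb]
        simp only
        rw [ind_not g1, ind_of (show z ∈ MkS s N \ Gd from ⟨g2, g1⟩)]
        ring
      · have g3 := dd_un hs g2
        have g4 : d z = Gw R n z * (sg z s : ℝ) := by
          rw [hd]
          simp only
          rw [if_pos (show s ∉ Mk (Mo (0, 0) (N : ℤ)) z from g2)]
        rw [g4, ha, hb]
        simp only
        rw [ind_not g1, ind_not (E := MkS s N \ Gd) (fun h => g2 h.1), g3]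
        ring
  have di : Integrable (fun z => √3 * d z) μh := by
    have g : (fun z => √3 * d z) = fun z => dd R n s z -
        (ind Gd z * (2 * √3 * Bn ρ m z) + a z + b z) := by
      funext z; rw [key z]; ring
    rw [g]
    exact (dd_int hR1 n s).sub ((ci.add ai).add bi)
  have hint : ∫ z, dd R n s z ∂μh = ∫ z, ind Gd z * (2 * √3 * Bn ρ m z) ∂μh + ∫ z, a z ∂μh +
      ∫ z, b z ∂μh + √3 * ∫ z, d z ∂μh := by
    have s1 : ∫ z, (ind Gd z * (2 * √3 * Bn ρ m z) + a z) ∂μh =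
        ∫ z, ind Gd z * (2 * √3 * Bn ρ m z) ∂μh + ∫ z, a z ∂μh := integral_add ci ai
    have s2 : ∫ z, (ind Gd z * (2 * √3 * Bn ρ m z) + a z + b z) ∂μh =
        ∫ z, (ind Gd z * (2 * √3 * Bn ρ m z) + a z) ∂μh + ∫ z, b z ∂μh :=
      integral_add (ci.add ai) bi
    have s3 : ∫ z, (ind Gd z * (2 * √3 * Bn ρ m z) + a z + b z + √3 * d z) ∂μh =
        ∫ z, (ind Gd z * (2 * √3 * Bn ρ m z) + a z + b z) ∂μh + ∫ z, √3 * d z ∂μh :=
      integral_add ((ci.add ai).add bi) di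
    rw [← integral_const_mul, ← s1, ← s2, ← s3]
    exact integral_congr_ae (Filter.Eventually.of_forall key)
  -- the main term
  have hmain : ∫ z, ind Gd z * (2 * √3 * Bn ρ m z) ∂μh =
      2 * √3 * ((μh).real Gd * ∫ z, Bn ρ m z ∂μh) := by
    have g1 : DepF (eIn (bx (0, 0) ((q + 3 : ℕ) : ℤ))) (ind Gd) := by
      intro z z' h
      have g := dep_GdE s (eP n) q z z' h
      by_cases h2 : z ∈ Gd
      · rw [ind_of h2, ind_of (g.1 h2)]
      · rw [ind_not h2, ind_not fun h' => h2 (g.2 h')]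
    have g2 : DepOff (eIn (bx (0, 0) ((q + 3 : ℕ) : ℤ))) (Bn ρ m) := by
      refine (Bn_off ρ m).mono fun i hi => ?_
      rw [mem_eIn, mem_bx_sd, mem_bx_sd] at hi ⊢
      rw [hρ]
      omega
    have g3 := indep_off g1 g2 (measurable_PP hmN _)
    have g4 : (fun z => ind Gd z * (2 * √3 * Bn ρ m z)) =
        fun z => 2 * √3 * (ind Gd z * Bn ρ m z) := by funext z; ring
    rw [g4, integral_const_mul, g3, (int_ind mG).2]
  -- the first error
  have e1 : |∫ z, a z ∂μh| ≤ 4 * √3 * EE R *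
      (2 * T * ((μh).real Gd * (μh).real (A1 (0, 0) ρ r0)) + η) := by
    have g1 : (μh).real (Gd ∩ A1 (0, 0) ρ r0) = (μh).real Gd * (μh).real (A1 (0, 0) ρ r0) :=
      P2i s (eP n) (by rw [hρ]; omega)
    rw [← g1]
    refine int_le_tr hT (mG.inter (meas_A1 _ _ _)) (by positivity)
      (Filter.Eventually.of_forall fun z => ?_)
    rw [ha]
    simp only
    by_cases g2 : z ∈ Gd
    · rw [ind_of g2, one_mul]
      by_cases g3 : z ∈ A1 (0, 0) ρ r0
      · rw [ind_of (show z ∈ Gd ∩ A1 (0, 0) ρ r0 from ⟨g2, g3⟩), one_mul, abs_mul,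
          abs_of_nonneg (by positivity : (0 : ℝ) ≤ 2 * √3)]
        have g4 : |W m z| ≤ EE R * Y z := by
          rw [W_eq_PP]
          exact abs_PP_ws hs.hR hY hg8 fun _ _ => trivial
        have g5 : |Bn ρ m z| ≤ EE R * Y z := abs_Bn_ws hs.hR hY hρr hg8 z
        have g6 : |W m z - Bn ρ m z| ≤ 2 * (EE R * Y z) :=
          (abs_sub _ _).trans (by linarith)
        calc 2 * √3 * |W m z - Bn ρ m z| ≤ 2 * √3 * (2 * (EE R * Y z)) :=
              mul_le_mul_of_nonneg_left g6 (by positivity)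
          _ = _ := by ring
      · have g4 : W m z = Bn ρ m z := W_Bn (rd_ws hs.hR) hρr _ g3
        rw [g4, sub_self, mul_zero, abs_zero]
        have := ind_nonneg (Gd ∩ A1 (0, 0) ρ r0) z
        have := hT.y0 z
        positivity
    · rw [ind_not g2, zero_mul, abs_zero]
      have := ind_nonneg (Gd ∩ A1 (0, 0) ρ r0) z
      have := hT.y0 z
      positivity
  -- the second error
  have e2 : |∫ z, b z ∂μh| ≤ 4 * √3 * EE R *
      (2 * T * (p2 (N - 6) * (p2 (N - 6) * (μh).real (A1 (0, 0) k q))) + η) := by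
    have g0 : (μh).real (MkS s N ∩ F) ≤
        p2 (N - 6) * (p2 (N - 6) * (μh).real (A1 (0, 0) k q)) := by
      have hk2 : (n : ℤ) + N < ((k : ℕ) : ℤ) := by have := hs.hk; omega
      have hn2 : 2 * (N : ℤ) < n := by have := hs.hn; omega
      have g := P3 (n := n) (N := N) (A := MkS s N) (k := (k : ℤ)) (q := (q : ℤ))
        (dep_MkS s N) hn2 hk2
      rw [hF]
      refine g.trans_le ?_
      exact mul_le_mul (P_MkS s N h1) (mul_le_mul_of_nonneg_right (P_MkE _ _) measureReal_nonneg)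
        (mul_nonneg measureReal_nonneg measureReal_nonneg) (p2_nonneg _)
    have g1 := int_le_tr hT (mS.inter mF) (c := 4 * √3 * EE R) (by positivity) (f := b) (by
      filter_upwards [Vx107.ae_fin] with z hz
      rw [hb]
      simp only
      by_cases g2 : z ∈ MkS s N \ Gd
      · rw [ind_of g2, one_mul]
        by_cases g3 : dd R n s z = 0
        · rw [g3, abs_zero]
          have := ind_nonneg (MkS s N ∩ F) z
          have := hT.y0 z
          positivity
        · rw [ind_of (dd_bad hs h1 (hz s) (hz (eP n)) g2.1 g2.2 g3), one_mul]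
          exact dd_le hs h1 hY (hz s) (hz (eP n))
      · rw [ind_not g2, zero_mul, abs_zero]
        have := ind_nonneg (MkS s N ∩ F) z
        have := hT.y0 z
        positivity)
    refine g1.trans (mul_le_mul_of_nonneg_left ?_ (by positivity))
    have g2 : 2 * T * (μh).real (MkS s N ∩ F) ≤
        2 * T * (p2 (N - 6) * (p2 (N - 6) * (μh).real (A1 (0, 0) k q))) :=
      mul_le_mul_of_nonneg_left g0 (by positivity)
    linarith
  -- assembly
  have e3 : |√3 * ∫ z, d z ∂μh| ≤ 12 * EE R * (2 * T * (p2 (N - 6) *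
      (μh).real (A1 (0, 0) k q)) * Sg N J + (J + 2) * η) := by
    rw [abs_mul, abs_of_nonneg (Real.sqrt_nonneg 3)]
    have g1 := mul_le_mul_of_nonneg_left hiso (Real.sqrt_nonneg 3)
    have g2 : √3 * √3 = 3 := Real.mul_self_sqrt (by norm_num)
    calc √3 * |∫ z, d z ∂μh| ≤ √3 * (4 * √3 * EE R * (2 * T * (p2 (N - 6) *
          (μh).real (A1 (0, 0) k q)) * Sg N J + (J + 2) * η)) := g1
      _ = (√3 * √3) * (4 * EE R * (2 * T * (p2 (N - 6) *
          (μh).real (A1 (0, 0) k q)) * Sg N J + (J + 2) * η)) := by ring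
      _ = _ := by rw [g2]; ring
  rw [hint, hmain]
  have l1 := neg_abs_le (∫ z, a z ∂μh)
  have l2 := neg_abs_le (∫ z, b z ∂μh)
  have l3 := neg_abs_le (√3 * ∫ z, d z ∂μh)
  set P := (μh).real Gd
  set A := (μh).real (A1 (0, 0) k q)
  set B := (μh).real (A1 (0, 0) ρ r0)
  set M := p2 (N - 6)
  have hS : 0 ≤ Sg N J := Sg_nonneg N J
  have hA : 0 ≤ A := measureReal_nonneg
  have hM : 0 ≤ M := p2_nonneg _
  have h3 : √3 ≤ 2 := by
    rw [Real.sqrt_le_left (by norm_num)]; norm_num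
  have h30 : 0 ≤ √3 := Real.sqrt_nonneg 3
  have hJ : (0 : ℝ) ≤ J := Nat.cast_nonneg J
  have f1 : 4 * √3 * EE R * (2 * T * (P * B) + η) ≤ 2 * √3 * (P * (4 * T * EE R * B)) +
      8 * EE R * η := by
    have : √3 * (EE R * η) ≤ 2 * (EE R * η) := mul_le_mul_of_nonneg_right h3 (by positivity)
    nlinarith
  have f2 : 4 * √3 * EE R * (2 * T * (M * (M * A)) + η) ≤
      16 * (EE R * (T * (M * A) * M)) + 8 * EE R * η := by
    have k1 : √3 * (EE R * η) ≤ 2 * (EE R * η) := mul_le_mul_of_nonneg_right h3 (by positivity)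
    have k2 : √3 * (EE R * (T * (M * A) * M)) ≤ 2 * (EE R * (T * (M * A) * M)) :=
      mul_le_mul_of_nonneg_right h3 (by positivity)
    nlinarith
  have f3 : 0 ≤ EE R * (T * (M * A) * M) := by positivity
  have f4 : 0 ≤ EE R * η := by positivity
  have f5 : 0 ≤ EE R * ((J : ℝ) * η) := by positivity
  have f6 : EE R * (24 * T * (M * A) * (M + Sg N J) + 24 * (J + 4) * η) =
      24 * (EE R * (T * (M * A) * M)) + 12 * EE R * (2 * T * (M * A) * Sg N J) +
        24 * (EE R * ((J : ℝ) * η)) + 96 * (EE R * η) := by ring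
  have f7 : 12 * EE R * (2 * T * (M * A) * Sg N J + (J + 2) * η) =
      12 * EE R * (2 * T * (M * A) * Sg N J) + 12 * (EE R * ((J : ℝ) * η)) +
        24 * (EE R * η) := by ring
  have f8 : 2 * √3 * (P * (∫ z, Bn ρ m z ∂μh - 4 * T * EE R * B)) =
      2 * √3 * (P * ∫ z, Bn ρ m z ∂μh) - 2 * √3 * (P * (4 * T * EE R * B)) := by ring
  rw [f6, f8]
  rw [f7] at e3
  linarith

end Crest.Agent.R158.Fd61
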