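import Crest.Agent.R158.Md1_468

/-!
# Row 158, Block A4 / D (helper468), part 2: probability of the main event of identity D

* `MD m q b` : local event (two nice two-arm points of corner type `q`, tubes of both colours, one
  open circuit)
* `md_prob` : `c P(N2)² ≤ P(MD)`
* `md_sub` : on `MD` the corners `((0,0), q)` and `((0, 256 m), q)` lie on the same strand, and this
  strand stays in the ball of radius `1024 m + 1`
* `i6` : the two together
-/

set_option autoImplicit false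

noncomputable section

namespace Crest.Agent.R158.Mc468

open MeasureTheory ProbabilityTheory unitInterval
open Crest.Agent.R161.Geo729 Crest.Agent.R161.Topo374 Crest.Agent.R161.Dual374
open Crest.Agent.R161.Tas682 Crest.Agent.R161.Ring421 Crest.Agent.R161.Sym597
open Crest.Agent.R161.Ifc372 Crest.Agent.R161.Hull374 Crest.Agent.R161.Ann374
open Crest.Agent.R158.It200 (OCl DCl Lp fc Corner)
open Crest.Agent.R158.Qm522 Crest.Agent.R158.Rs689
open Crest.Agent.R158.Ru874 Crest.Agent.R158.Sp580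
open Crest.Agent.R158.Cpl963 (OC_shift_iff)

/-! ### supports -/

theorem near_dual {D : Set P2} {e : Edge} (h : e ∈ (edF D).map dE.symm.toEmbedding) :
    ∃ v ∈ D, (src e).1 - 1 ≤ v.1 ∧ v.1 ≤ (src e).1 + 1 ∧ (src e).2 - 1 ≤ v.2 ∧
      v.2 ≤ (src e).2 + 1 := by
  rw [Finset.mem_map] at h
  obtain ⟨e', he', rfl⟩ := h
  refine ⟨_, (of_mem_edF he').1, ?_⟩
  obtain ⟨⟨i, j⟩, c⟩ := e'
  cases c <;> simp [dE, src] <;> omega

theorem near_shift {S : Finset Edge} {a : P2} {e : Edge} (h : e ∈ S.map (shE a).toEmbedding) :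
    ∃ e' ∈ S, (src e).1 = (src e').1 + a.1 ∧ (src e).2 = (src e').2 + a.2 := by
  rw [Finset.mem_map] at h
  obtain ⟨e', he', rfl⟩ := h
  exact ⟨e', he', rfl, rfl⟩

theorem VS_box {d : Fin 4} {m : ℕ} (hd : d = 0 ∨ d = 2) {v : P2} (hv : v ∈ VS d m) :
    (if d = 0 then -(16 * (m : ℤ)) ≤ v.1 ∧ v.1 ≤ 32 * m else -(32 * (m : ℤ)) ≤ v.1 ∧ v.1 ≤ 16 * m) ∧
      -(16 * (m : ℤ)) ≤ v.2 ∧ v.2 ≤ 16 * m := by
  rcases hv with hv | hv
  · rw [mem_Sq] at hv
    rcases hd with rfl | rfl <;> simp <;> omega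
  · obtain ⟨g1, g2, g3, g4⟩ := hv
    rcases hd with rfl | rfl <;> simp only [co] at g1 g2 g3 g4 <;> simp <;> omega

/-- edges used by the open arms at both points -/
def TP (m : ℕ) (d : Fin 4) : Finset Edge := by
  classical
  exact edF (VS d m) ∪ (edF (VS d m)).map (shE (y2 m)).toEmbedding

/-- edges used by the dual arms at both points -/
def TD (m : ℕ) (d : Fin 4) : Finset Edge := by
  classical
  exact (edF (VS d m)).map dE.symm.toEmbedding ∪
    ((edF (VS d m)).map dE.symm.toEmbedding).map (shE (y2 m)).toEmbedding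

theorem TP_box {m : ℕ} {d : Fin 4} (hd : d = 0 ∨ d = 2) {e : Edge} (h : e ∈ TP m d) :
    (if d = 0 then -(16 * (m : ℤ)) ≤ (src e).1 ∧ (src e).1 ≤ 32 * m
      else -(32 * (m : ℤ)) ≤ (src e).1 ∧ (src e).1 ≤ 16 * m) ∧
      -(16 * (m : ℤ)) ≤ (src e).2 ∧ (src e).2 ≤ 272 * m := by
  classical
  unfold TP at h
  rw [Finset.mem_union] at h
  rcases h with h | h
  · have h1 := VS_box hd (of_mem_edF h).1
    refine ⟨h1.1, h1.2.1, ?_⟩
    omega
  · obtain ⟨e', he', k1, k2⟩ := near_shift h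
    have h1 := VS_box hd (of_mem_edF he').1
    simp only [y2, add_zero] at k1 k2
    rw [k1, k2]
    refine ⟨h1.1, ?_, ?_⟩ <;> omega

theorem TD_box {m : ℕ} {d : Fin 4} (hd : d = 0 ∨ d = 2) {e : Edge} (h : e ∈ TD m d) :
    (if d = 0 then -(16 * (m : ℤ)) - 1 ≤ (src e).1 ∧ (src e).1 ≤ 32 * m + 1
      else -(32 * (m : ℤ)) - 1 ≤ (src e).1 ∧ (src e).1 ≤ 16 * m + 1) ∧
      -(16 * (m : ℤ)) - 1 ≤ (src e).2 ∧ (src e).2 ≤ 272 * m + 1 := by
  classical
  unfold TD at h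
  rw [Finset.mem_union] at h
  rcases h with h | h
  · obtain ⟨v, hv, k1, k2, k3, k4⟩ := near_dual h
    have h1 := VS_box hd hv
    rcases hd with rfl | rfl <;> simp at h1 ⊢ <;> omega
  · obtain ⟨e', he', k1, k2⟩ := near_shift h
    obtain ⟨v, hv, g1, g2, g3, g4⟩ := near_dual he'
    have h1 := VS_box hd hv
    simp only [y2, add_zero] at k1 k2
    rcases hd with rfl | rfl <;> simp at h1 ⊢ <;> omega

theorem dO_cases (b : Bool) : dO b = 0 ∨ dO b = 2 := by cases b <;> simp [dO]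

theorem dD_cases (b : Bool) : dD b = 0 ∨ dD b = 2 := by cases b <;> simp [dD]

theorem dD_eq (b : Bool) : dD b = dO (!b) := by cases b <;> rfl

/-- vertices used by the forced open event -/
def VQ (m : ℕ) (b : Bool) : Set P2 := VT m b ∪ An (0, 0) (512 * m) (1024 * m)

theorem VQ_finite (m : ℕ) (b : Bool) : (VQ m b).Finite := (VT_finite m b).union (an_finite _ _ _)

theorem VT_box {m : ℕ} {b : Bool} {v : P2} (h : v ∈ VT m b) :
    (if b then 20 * (m : ℤ) ≤ v.1 ∧ v.1 ≤ 128 * m else -(128 * (m : ℤ)) ≤ v.1 ∧ v.1 ≤ -(20 * m)) ∧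
      -(4 * (m : ℤ)) ≤ v.2 ∧ v.2 ≤ 260 * m := by
  cases b
  · have h : v ∈ Rect _ _ _ _ := h
    rw [mem_rect] at h
    simp; omega
  · have h : v ∈ Rect _ _ _ _ := h
    rw [mem_rect] at h
    simp; omega

theorem ddisj1 {m : ℕ} (hm : 1 ≤ m) (b : Bool) :
    Disjoint (TP m (dO b)) ((edF (VT m (!b))).map dE.symm.toEmbedding) := by
  rw [Finset.disjoint_left]
  intro e h1 h2
  have k1 := TP_box (dO_cases b) h1
  obtain ⟨v, hv, g1, g2, g3, g4⟩ := near_dual h2
  have k2 := VT_box hv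
  cases b <;> simp [dO] at k1 k2 <;> omega

theorem ddisj2 {m : ℕ} (hm : 1 ≤ m) (b : Bool) :
    Disjoint (TD m (dD b)) (edF (VQ m b)) := by
  rw [Finset.disjoint_left]
  intro e h1 h2
  have k1 := TD_box (dD_cases b) h1
  rcases (of_mem_edF h2).1 with h3 | h3
  · have k2 := VT_box h3
    cases b <;> simp [dD] at k1 k2 <;> omega
  · have k2 := h3.1
    rw [le_sd] at k2
    cases b <;> simp [dD] at k1 k2 <;> omega

theorem ddisj3 {m : ℕ} (hm : 1 ≤ m) (b : Bool) :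
    Disjoint (edF (VQ m b)) ((edF (VT m (!b))).map dE.symm.toEmbedding) := by
  rw [Finset.disjoint_left]
  intro e h1 h2
  obtain ⟨v, hv, g1, g2, g3, g4⟩ := near_dual h2
  have k1 := VT_box hv
  rcases (of_mem_edF h1).1 with h3 | h3
  · have k2 := VT_box h3
    cases b <;> simp at k1 k2 <;> omega
  · have k2 := h3.1
    rw [le_sd] at k2
    cases b <;> simp at k1 k2 <;> omega

/-! ### the event -/

/-- the face of the corner of type `q` at the origin -/
def f0 (q : Fin 4) : P2 := fc ((0, 0), q)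

/-- arms at both points -/
def MDa (m : ℕ) (q : Fin 4) (b : Bool) : Set Cfz :=
  (NP2 m b ∩ shiftZ (y2 m) ⁻¹' NP2 m b) ∩ (ND2 m (f0 q) b ∩ shiftZ (y2 m) ⁻¹' ND2 m (f0 q) b)

/-- forced open event -/
def MDp (m : ℕ) (b : Bool) : Set Cfz := Tb m b ∩ CircZ (0, 0) (512 * m) (2 * (512 * m))

/-- the main event of D -/
def MD (m : ℕ) (q : Fin 4) (b : Bool) : Set Cfz := MDa m q b ∩ (MDp m b ∩ dual ⁻¹' Tb m (!b))

theorem MDp_ge : ∃ c : ℝ, 0 < c ∧ ∀ (m : ℕ) (b : Bool), 1 ≤ m → GE (edF (VQ m b)) c (MDp m b) := by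
  obtain ⟨c, hc, h⟩ := Tb_ge
  obtain ⟨q, hq, _, hq'⟩ := rsw_circ
  refine ⟨c * q, by positivity, fun m b hm => ?_⟩
  have fin := VQ_finite m b
  have e1 := (h m b hm).mono (edF_sub fin Set.subset_union_left)
  have e2 := (circz_ge hq.le (hq' (0, 0) (512 * m) (by omega))).mono
    (edF_sub fin (fun v hv => Or.inr (by
      refine ⟨?_, ?_⟩
      · have := hv.1; push_cast at this; omega
      · have := hv.2; push_cast at this; omega)))
  exact e1.inter e2

theorem dep_TPa (m : ℕ) (b : Bool) :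
    Dep (TP m (dO b)) (NP2 m b ∩ shiftZ (y2 m) ⁻¹' NP2 m b) := by
  classical
  unfold TP
  exact ((dep_NP2 m b).mono Finset.subset_union_left).inter
    ((dep_shift (dep_NP2 m b) (y2 m)).mono Finset.subset_union_right)

theorem dep_TDa (m : ℕ) (f : P2) (b : Bool) :
    Dep (TD m (dD b)) (ND2 m f b ∩ shiftZ (y2 m) ⁻¹' ND2 m f b) := by
  classical
  unfold TD
  exact ((dep_ND2 m f b).mono Finset.subset_union_left).inter
    ((dep_shift (dep_ND2 m f b) (y2 m)).mono Finset.subset_union_right)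

theorem MD_dep {m : ℕ} (hm : 1 ≤ m) (q : Fin 4) (b : Bool) : ∃ S : Finset Edge, Dep S (MD m q b) := by
  classical
  obtain ⟨c, _, h⟩ := MDp_ge
  obtain ⟨c', _, h'⟩ := Tb_ge
  refine ⟨(TP m (dO b) ∪ TD m (dD b)) ∪ (edF (VQ m b) ∪ (edF (VT m (!b))).map dE.symm.toEmbedding),
    Dep.inter (Dep.mono Finset.subset_union_left (Dep.inter (Dep.mono Finset.subset_union_left
      (dep_TPa m b)) (Dep.mono Finset.subset_union_right (dep_TDa m (f0 q) b))))
      (Dep.mono Finset.subset_union_right (Dep.inter (Dep.mono Finset.subset_union_left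
        (h m b hm).dep) (Dep.mono Finset.subset_union_right (h' m (!b) hm).dep.dual)))⟩

/-- the two points are independent -/
theorem MDa_prob {m : ℕ} (hm : 1 ≤ m) (q : Fin 4) (b : Bool) :
    (nu hf).real (MDa m q b) = (nu hf).real (N2 m (f0 q) b) * (nu hf).real (N2 m (f0 q) b) := by
  classical
  have e1 : MDa m q b = N2 m (f0 q) b ∩ shiftZ (y2 m) ⁻¹' N2 m (f0 q) b := by
    unfold MDa N2
    rw [Set.preimage_inter, Set.inter_inter_inter_comm]
  set S : Finset Edge := edF (VS (dO b) m) ∪ (edF (VS (dD b) m)).map dE.symm.toEmbedding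
  have h1 : Dep S (N2 m (f0 q) b) := ((dep_NP2 m b).mono Finset.subset_union_left).inter
    ((dep_ND2 m (f0 q) b).mono Finset.subset_union_right)
  have hbox : ∀ e ∈ S, -(17 * (m : ℤ)) ≤ (src e).2 ∧ (src e).2 ≤ 17 * m := by
    intro e he
    rcases Finset.mem_union.1 he with he | he
    · have k := VS_box (dO_cases b) (of_mem_edF he).1
      omega
    · obtain ⟨v, hv, g1, g2, g3, g4⟩ := near_dual he
      have k := VS_box (dD_cases b) hv
      omega
  have hd : Disjoint S (S.map (shE (y2 m)).toEmbedding) := by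
    rw [Finset.disjoint_left]
    intro e he he'
    obtain ⟨e', he', k1, k2⟩ := near_shift he'
    have g1 := hbox e he
    have g2 := hbox e' he'
    simp only [y2] at k2
    omega
  have h2 := PB_indep_real (fun _ : Edge => hf) hd h1 (dep_shift h1 (y2 m))
  rw [e1]
  have h3 := prob_shift h1.measurableSet (y2 m)
  calc (nu hf).real (N2 m (f0 q) b ∩ shiftZ (y2 m) ⁻¹' N2 m (f0 q) b)
      = (nu hf).real (N2 m (f0 q) b) * (nu hf).real (shiftZ (y2 m) ⁻¹' N2 m (f0 q) b) := h2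
    _ = _ := by rw [h3]

/-- **probability of the main event of D** -/
theorem md_prob : ∃ c : ℝ, 0 < c ∧ ∀ (m : ℕ) (q : Fin 4) (b : Bool), 1 ≤ m →
    c * ((nu hf).real (N2 m (f0 q) b) * (nu hf).real (N2 m (f0 q) b)) ≤
      (nu hf).real (MD m q b) := by
  obtain ⟨c1, hc1, h1⟩ := MDp_ge
  obtain ⟨c2, hc2, h2⟩ := Tb_ge
  refine ⟨c1 * c2, by positivity, fun m q b hm => ?_⟩
  have e1 := h1 m b hm
  have e2 := h2 m (!b) hm
  have g := gen_fkg_dual hf (dep_TPa m b) (dep_TDa m (f0 q) b) e1.dep e2.dep (ddisj1 hm b)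
    (ddisj2 hm b) (ddisj3 hm b) ((inc_NP2 m b).inter (inc_shift (inc_NP2 m b) _))
    ((decr_ND2 m (f0 q) b).inter (decr_shift (decr_ND2 m (f0 q) b) _)) e1.inc e2.inc
  refine le_trans ?_ g
  have e3 := MDa_prob hm q b
  have e4 : (nu hf).real ((NP2 m b ∩ shiftZ (y2 m) ⁻¹' NP2 m b) ∩
      (ND2 m (f0 q) b ∩ shiftZ (y2 m) ⁻¹' ND2 m (f0 q) b)) =
      (nu hf).real (N2 m (f0 q) b) * (nu hf).real (N2 m (f0 q) b) := e3
  rw [e4, sigma_hf, mul_comm]
  refine mul_le_mul_of_nonneg_left ?_ (mul_nonneg measureReal_nonneg measureReal_nonneg)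
  exact mul_le_mul e1.le e2.le hc2.le measureReal_nonneg

/-! ### the strand -/

theorem fc_shift (a : P2) (q : Fin 4) : fc (a, q) = f0 q + a := by
  obtain ⟨x, y⟩ := a
  fin_cases q <;> refine Prod.ext ?_ ?_ <;> simp [f0, fc] <;> ring

theorem f0_box (q : Fin 4) : -1 ≤ (f0 q).1 ∧ (f0 q).1 ≤ 0 ∧ -1 ≤ (f0 q).2 ∧ (f0 q).2 ≤ 0 := by
  fin_cases q <;> simp [f0, fc]

/-- **on the main event the two corners are on the same strand, inside the ball of radius `4n`** -/
theorem md_sub {m : ℕ} (hm : 1 ≤ m) (q : Fin 4) (b : Bool) {z : Cfz} (hz : z ∈ MD m q b) :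
    (Lp z ((0, 0), q)).Finite ∧ (y2 m, q) ∈ Lp z ((0, 0), q) ∧
      ∀ d ∈ Lp z ((0, 0), q), sd (0, 0) (fc d) ≤ 1024 * m ∧ sd (0, 0) d.1 ≤ 1024 * m + 1 := by
  obtain ⟨⟨⟨hP1, hP2⟩, hD1, hD2⟩, ⟨hT, hC⟩, hT'⟩ := hz
  have hball : ∀ g ∈ DCl z (fc ((0, 0), q)), g ∈ ball (0, 0) (2 * (512 * m)) := by
    intro g hg
    rw [mem_dcl] at hg
    refine circ_block' hC ?_ hg
    have h1 := f0_box q
    have h2 : fc ((0, 0), q) = f0 q := rfl
    rw [h2, mem_ball]
    push_cast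
    omega
  have hfinD : (DCl z (fc ((0, 0), q))).Finite :=
    (Finset.finite_toSet (ball (0, 0) (2 * (512 * m)))).subset fun g hg => hball g hg
  have hfin : (Lp z ((0, 0), q)).Finite := It200.Lp_finite_of_f hfinD
  have hopen : Rch z (0, 0) ((0, 0) + y2 m) := tube_link hT hP1 hP2
  have hdual : Rch (dual z) (f0 q) (f0 q + y2 m) := by
    have k1 : GArm (dual z) (dO (!b)) m (f0 q) := by rw [← dD_eq]; exact hD1
    have k2 : GArm (shiftZ (y2 m) (dual z)) (dO (!b)) m (f0 q) := by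
      rw [← dD_eq, ← dual_shift]; exact hD2
    exact tube_link hT' k1 k2
  refine ⟨hfin, same_strand hfin ?_ ?_, fun d hd => ?_⟩
  · have : ((0, 0) : P2) + y2 m = y2 m := zero_add _
    rw [this] at hopen
    exact hopen
  · have e2 : fc (y2 m, q) = f0 q + y2 m := fc_shift _ _
    rw [mem_dcl, e2]
    exact hdual
  · have h1 := hball _ (It200.Lp_f d hd)
    rw [mem_ball] at h1
    push_cast at h1
    have h2 : sd (0, 0) (fc d) ≤ 1024 * m := by
      rw [sd_le]
      omega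
    exact ⟨h2, (Wf850.sd_corner (0, 0) d).1.trans (by omega)⟩

/-- **(i6)** -/
theorem i6 : ∃ c : ℝ, 0 < c ∧ ∀ (m : ℕ) (q : Fin 4) (b : Bool), 1 ≤ m →
    ∃ E : Set Cfz, (∃ S : Finset Edge, Dep S E) ∧
      c * (nu hf).real (N2 m (f0 q) b) ^ 2 ≤ (nu hf).real E ∧
      ∀ z ∈ E, (Lp z ((0, 0), q)).Finite ∧ (y2 m, q) ∈ Lp z ((0, 0), q) ∧
        ∀ d ∈ Lp z ((0, 0), q), sd (0, 0) (fc d) ≤ 1024 * m ∧ sd (0, 0) d.1 ≤ 1024 * m + 1 := by
  obtain ⟨c, hc, h⟩ := md_prob
  refine ⟨c, hc, fun m q b hm => ⟨MD m q b, MD_dep hm q b, ?_, fun z hz => md_sub hm q b hz⟩⟩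
  have := h m q b hm
  rwa [← pow_two] at this

end Crest.Agent.R158.Mc468
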