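import Crest.Agent.R158.Sp4b_874
import Crest.Agent.R158.Rs9_689

/-!
# Row 158, Block SEP, S4 (helper874), file c: the chain of ten slides, outward tokens

* `Gd a X`   : four cyclically ordered, `18`-separated angular positions
* `chain`    : from `X` to `Y` in ten slides
* `tok_out`  : **outward tokens**: four cells of the ring `N - 1` (gaps `≥ 26`) are joined to the four
  standard cells `rt i (M, 0)` (E, N, W, S) of the ring `M` by pairwise far tubes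
* `tok_out'` : the same for the clockwise order
-/

set_option autoImplicit false

namespace Crest.Agent.R158.Sp874

open Crest.Agent.R158.Rs689 Crest.Agent.R161.Geo729

/-- four positions in cyclic order, `g`-separated -/
def Gd (a g : ℤ) (X : Fin 4 → ℤ) : Prop :=
  X 0 + g ≤ X 1 ∧ X 1 + g ≤ X 2 ∧ X 2 + g ≤ X 3 ∧ X 3 + g ≤ X 0 + 4 * (2 * a + 1)

theorem Gd.mono {a g g' : ℤ} (h : g' ≤ g) {X : Fin 4 → ℤ} (hX : Gd a g X) : Gd a g' X := by
  obtain ⟨h1, h2, h3, h4⟩ := hX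
  exact ⟨by omega, by omega, by omega, by omega⟩

theorem Gd.pair {a g : ℤ} (hg : 0 ≤ g) {X : Fin 4 → ℤ} (hX : Gd a g X) {i j : Fin 4}
    (hij : i < j) : X i + g ≤ X j ∧ X j + g ≤ X i + 4 * (2 * a + 1) := by
  obtain ⟨h1, h2, h3, h4⟩ := hX
  fin_cases i <;> fin_cases j <;> first | (exact absurd hij (by decide)) | skip
  all_goals (simp only [Fin.zero_eta, Fin.mk_one, Fin.reduceFinMk]; omega)

theorem Gd.shift {a g : ℤ} {X : Fin 4 → ℤ} (hX : Gd a g X) (n : ℤ) :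
    Gd a g fun i => X i + n := by
  obtain ⟨h1, h2, h3, h4⟩ := hX
  refine ⟨?_, ?_, ?_, ?_⟩ <;> dsimp only <;> omega

/-- **ten slides** -/
theorem chain {a : ℤ} {X Y : Fin 4 → ℤ} (hX : Gd a 18 X) (hY : Gd a 18 Y)
    (h1 : Y 0 + 72 ≤ X 0 + 4 * (2 * a + 1)) (h2 : X 0 + 72 ≤ Y 0 + 4 * (2 * a + 1)) :
    ∃ x : Fin 4 → ℕ → ℤ, (∀ i, x i 0 = X i) ∧ (∀ i, x i 10 = Y i) ∧
      (∀ b ≤ 10, Gd a 18 fun i => x i b) ∧
      ∀ b < 10, ∀ i j, i < j → x i b = x i (b + 1) ∨ x j b = x j (b + 1) := by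
  obtain ⟨a1, a2, a3, a4⟩ := hX
  obtain ⟨b1, b2, b3, b4⟩ := hY
  rcases le_total (X 0) (Y 0) with h | h
  · refine ⟨![fun b => if b < 7 then X 0 else Y 0,
      fun b => if b < 1 then X 1 else if b < 6 then X 0 + 18 else if b < 10 then Y 0 + 18 else Y 1,
      fun b => if b < 2 then X 2 else if b < 5 then X 0 + 36 else if b < 9 then Y 0 + 36 else Y 2,
      fun b => if b < 3 then X 3 else if b < 4 then X 0 + 54 else if b < 8 then Y 0 + 54 else Y 3],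
      ?_, ?_, ?_, ?_⟩
    · intro i; fin_cases i <;> simp
    · intro i; fin_cases i <;> simp
    · intro b hb
      unfold Gd
      simp only [Matrix.cons_val_zero, Matrix.cons_val_one, Matrix.cons_val]
      interval_cases b <;> simp <;> omega
    · intro b hb i j hij
      fin_cases i <;> fin_cases j <;> first | (exact absurd hij (by decide)) | skip
      all_goals
        simp only [Fin.zero_eta, Fin.mk_one, Fin.reduceFinMk, Matrix.cons_val_zero,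
          Matrix.cons_val_one, Matrix.cons_val]
        interval_cases b <;> simp
  · refine ⟨![fun b => if b < 4 then X 0 else Y 0,
      fun b => if b < 1 then X 1 else if b < 5 then X 0 + 18 else if b < 10 then Y 0 + 18 else Y 1,
      fun b => if b < 2 then X 2 else if b < 6 then X 0 + 36 else if b < 9 then Y 0 + 36 else Y 2,
      fun b => if b < 3 then X 3 else if b < 7 then X 0 + 54 else if b < 8 then Y 0 + 54 else Y 3],
      ?_, ?_, ?_, ?_⟩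
    · intro i; fin_cases i <;> simp
    · intro i; fin_cases i <;> simp
    · intro b hb
      unfold Gd
      simp only [Matrix.cons_val_zero, Matrix.cons_val_one, Matrix.cons_val]
      interval_cases b <;> simp <;> omega
    · intro b hb i j hij
      fin_cases i <;> fin_cases j <;> first | (exact absurd hij (by decide)) | skip
      all_goals
        simp only [Fin.zero_eta, Fin.mk_one, Fin.reduceFinMk, Matrix.cons_val_zero,
          Matrix.cons_val_one, Matrix.cons_val]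
        interval_cases b <;> simp

theorem far_chain {a B : ℤ} (ha : 4 ≤ a) {x : Fin 4 → ℕ → ℤ}
    (h1 : ∀ b ≤ 10, Gd a 18 fun i => x i b)
    (h2 : ∀ b < 10, ∀ i j, i < j → x i b = x i (b + 1) ∨ x j b = x j (b + 1)) {i j : Fin 4}
    (hij : i ≠ j) {c c' : P2} (hc : c ∈ PS a 10 B (x i)) (hc' : c' ∈ PS a 10 B (x j)) :
    Far c c' := by
  have key : ∀ i j : Fin 4, i < j → ∀ c ∈ PS a 10 B (x i), ∀ c' ∈ PS a 10 B (x j), Far c c' := by
    intro i j hij c hc c' hc'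
    exact far_PS ha (fun b hb => (h1 b hb).pair (by norm_num) hij) (fun b hb => h2 b hb i j hij)
      hc hc'
  rcases lt_or_gt_of_ne hij with h | h
  · exact key i j h c hc c' hc'
  · exact (key j i h c' hc' c hc).symm

/-- the connection stays in the rings `≥ a + s` -/
theorem conn_PS' {a B : ℤ} {m : ℕ} {x : ℕ → ℤ} (ha : 0 ≤ a) {s : ℤ} (hs0 : 0 ≤ s) (hs : s ≤ 9)
    (hm : 1 ≤ m) (hB : a + 18 * m ≤ B) :
    CConn (PS a m B x ∩ {c | a + s ≤ nr c}) (ry a (a + s) (x 0)) (ry a B (x m)) := by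
  have mr : ∀ b : ℕ, b ≤ m → ∀ j : ℤ, a + s ≤ j → j ≤ B → a + 18 * b - 9 ≤ j →
      (b < m → j ≤ a + 18 * b + 9) → ry a j (x b) ∈ PS a m B x ∩ {c | a + s ≤ nr c} := by
    intro b hb j h1 h2 h3 h4
    refine ⟨Or.inl ⟨b, hb, j, by omega, h2, h3, h4, rfl⟩, ?_⟩
    show a + s ≤ nr (ry a j (x b))
    rw [nr_ry ha (by omega)]
    exact h1
  have ma : ∀ b : ℕ, b < m → CConn (PS a m B x ∩ {c | a + s ≤ nr c})
      (ry a (a + 18 * b + 9) (x b)) (ry a (a + 18 * b + 9) (x (b + 1))) := by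
    intro b hb
    rw [← cl_rc ha (by omega), ← cl_rc ha (by omega)]
    refine conn_arc (by omega) fun v h1 h2 => ⟨Or.inr ⟨b, hb, v, h1, h2, rfl⟩, ?_⟩
    show a + s ≤ nr (cl (a + 18 * b + 9) v)
    rw [nr_cl (by omega)]
    omega
  have key : ∀ b : ℕ, b < m → CConn (PS a m B x ∩ {c | a + s ≤ nr c}) (ry a (a + s) (x 0))
      (ry a (a + 18 * b + 9) (x b)) := by
    intro b
    induction b with
    | zero =>
      intro _
      refine conn_ray ha _ (by push_cast; omega) fun i h1 h2 => ?_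
      push_cast at h2
      exact mr 0 (by omega) i h1 (by omega) (by push_cast; omega) fun _ => by push_cast; omega
    | succ b ih =>
      intro hb
      refine (ih (by omega)).trans ((ma b (by omega)).trans ?_)
      refine conn_ray ha _ (by push_cast; omega) fun i h1 h2 => ?_
      push_cast at h2
      exact mr (b + 1) (by omega) i (by omega) (by omega) (by push_cast; omega)
        fun _ => by push_cast; omega
  obtain ⟨m', rfl⟩ : ∃ m' : ℕ, m = m' + 1 := ⟨m - 1, by omega⟩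
  refine (key m' (by omega)).trans ((ma m' (by omega)).trans ?_)
  push_cast at hB
  refine conn_ray ha _ (by omega) fun i h1 h2 => ?_
  exact mr (m' + 1) le_rfl i (by omega) h2 (by push_cast; omega) fun h => absurd h (lt_irrefl _)

/-! ### cells and hubs -/

/-- the cells of the rings `≤ M` -/
noncomputable def ballC (M : ℤ) : Finset P2 := Finset.Icc (-1 - M) M ×ˢ Finset.Icc (-1 - M) M

theorem mem_ballC {M : ℤ} {c : P2} : c ∈ ballC M ↔ nr c ≤ M := by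
  unfold ballC nr
  simp only [Finset.mem_product, Finset.mem_Icc]
  omega

theorem card_ballC (M : ℤ) : (ballC M).card = (2 * M + 2).toNat ^ 2 := by
  unfold ballC
  rw [Finset.card_product, Int.card_Icc, sq]
  congr 2 <;> ring

theorem ringC_dist {κ c : P2} {r : ℤ} (h : c ∈ ringC κ r) :
    κ.1 - r ≤ c.1 ∧ c.1 ≤ κ.1 + r ∧ κ.2 - r ≤ c.2 ∧ c.2 ≤ κ.2 + r := (mem_frameC.1 h).1

theorem nr_ringC {κ c : P2} {r : ℤ} (h : c ∈ ringC κ r) : nr c ≤ nr κ + r ∧ nr κ ≤ nr c + r := by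
  have := ringC_dist h
  unfold nr
  omega

/-- the ray leaves the hub through its ring of radius `3` -/
theorem ray_mem_ringC {a w : ℤ} (ha : 0 ≤ a) : ry a (a + 3) w ∈ ringC (cl a w) 3 := by
  obtain ⟨q, t, h1, h2, rfl, -⟩ := exists_coord ha w
  rw [ry_eq ha h1 h2, cl_eq ha h1 h2]
  unfold ringC
  rw [mem_frameC]
  rcases rt_cases q (a + 3, t) with ⟨h3, h4⟩ | ⟨h3, h4⟩ | ⟨h3, h4⟩ | ⟨h3, h4⟩ <;>
    rcases rt_cases q (a, t) with ⟨h5, h6⟩ | ⟨h5, h6⟩ | ⟨h5, h6⟩ | ⟨h5, h6⟩ <;>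
    first | omega | (rw [h4, h6]; dsimp only; omega)

/-- standard rays -/
theorem ry_std {a : ℤ} (ha : 0 ≤ a) (j i n : ℤ) :
    ry a j (i * (2 * a + 1) + n * (4 * (2 * a + 1))) = rt i (j, 0) := by
  rw [ry_periods ha]
  have := ry_eq (q := i) (t := 0) ha (by omega) (by omega) j
  rwa [add_zero] at this

/-- the standard configuration close to a given position -/
theorem exists_std {a : ℤ} (ha : 20 ≤ a) (X0 : ℤ) : ∃ Y : Fin 4 → ℤ, Gd a 18 Y ∧
    Y 0 + 72 ≤ X0 + 4 * (2 * a + 1) ∧ X0 + 72 ≤ Y 0 + 4 * (2 * a + 1) ∧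
    ∀ (i : Fin 4) (j : ℤ), ry a j (Y i) = rt ((i : ℕ) : ℤ) (j, 0) := by
  have h0 : (0 : ℤ) < 4 * (2 * a + 1) := by omega
  set n : ℤ := (X0 + 2 * (2 * a + 1)) / (4 * (2 * a + 1)) with hn
  have h1 := Int.ediv_mul_le (X0 + 2 * (2 * a + 1)) h0.ne'
  have h2 := Int.lt_ediv_add_one_mul_self (X0 + 2 * (2 * a + 1)) h0
  rw [← hn] at h1 h2
  rw [add_mul, one_mul] at h2
  refine ⟨fun i => ((i : ℕ) : ℤ) * (2 * a + 1) + n * (4 * (2 * a + 1)), ?_, ?_, ?_, ?_⟩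
  · refine ⟨?_, ?_, ?_, ?_⟩ <;> simp <;> omega
  · simp; omega
  · simp; omega
  · intro i j
    exact ry_std (by omega) j _ n

theorem five_of_far {c c' : P2} (h : Far c c') : 5 ≤ |c.1 - c'.1| ∨ 5 ≤ |c.2 - c'.2| := by
  unfold Far at h
  rw [le_abs, le_abs]
  omega

theorem five_of_far_ring {κ c c' : P2} {r : ℤ} (hr : r ≤ 4) (hc : c ∈ ringC κ r)
    (h : Far κ c') : 5 ≤ |c.1 - c'.1| ∨ 5 ≤ |c.2 - c'.2| := by
  have := ringC_dist hc
  unfold Far at h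
  rw [le_abs, le_abs]
  omega

theorem five_of_rings {κ κ' c c' : P2} {r r' : ℤ} (hr : r ≤ 4) (hr' : r' ≤ 4) (hc : c ∈ ringC κ r)
    (hc' : c' ∈ ringC κ' r') (h : FarN 13 κ κ') : 5 ≤ |c.1 - c'.1| ∨ 5 ≤ |c.2 - c'.2| := by
  have := ringC_dist hc
  have := ringC_dist hc'
  unfold FarN at h
  rw [le_abs, le_abs]
  omega

theorem five_symm {c c' : P2} (h : 5 ≤ |c.1 - c'.1| ∨ 5 ≤ |c.2 - c'.2|) :
    5 ≤ |c'.1 - c.1| ∨ 5 ≤ |c'.2 - c.2| := by
  rwa [abs_sub_comm, abs_sub_comm c'.2]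

theorem farN_pair {N : ℤ} (hN : 8 ≤ N) {w : Fin 4 → ℤ} {g : ℤ} (hg : 26 ≤ g)
    (hw : Gd (N - 1) g w) {i j : Fin 4} (hij : i ≠ j) :
    FarN 13 (cl (N - 1) (w i)) (cl (N - 1) (w j)) := by
  have key : ∀ i j : Fin 4, i < j → FarN 13 (cl (N - 1) (w i)) (cl (N - 1) (w j)) := by
    intro i j hij
    obtain ⟨h1, h2⟩ := hw.pair (by omega) hij
    exact farN_cl_cl (by omega) (by norm_num) (by omega) (by omega) (by omega)
  rcases lt_or_gt_of_ne hij with h | h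
  · exact key i j h
  · have := key j i h
    unfold FarN at *
    omega

/-! ### outward tokens -/

open Classical in
/-- **Outward tokens**, with the straight part made explicit. -/
theorem tok_outS {N M : ℤ} (hN : 21 ≤ N) (hM : N + 200 ≤ M) {w : Fin 4 → ℤ}
    (hw : Gd (N - 1) 26 w) :
    ∃ K : Fin 4 → Finset P2,
      (∀ i, ringC (cl (N - 1) (w i)) 3 ⊆ K i) ∧
      (∀ i, ∀ c ∈ K i, (|c.1 - (cl (N - 1) (w i)).1| ≤ 4 ∧ |c.2 - (cl (N - 1) (w i)).2| ≤ 4) ∨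
        N + 2 ≤ nr c) ∧
      (∀ i, ∀ c ∈ K i, N - 4 ≤ nr c ∧ nr c ≤ M) ∧
      (∀ i, rt ((i : ℕ) : ℤ) (M, 0) ∈ K i) ∧
      (∀ i, ∀ k ∈ ringC (cl (N - 1) (w i)) 3,
        CConn ((K i : Finset P2) : Set P2) k (rt ((i : ℕ) : ℤ) (M, 0))) ∧
      (∀ i j, i ≠ j → ∀ c ∈ K i, ∀ c' ∈ K j, 5 ≤ |c.1 - c'.1| ∨ 5 ≤ |c.2 - c'.2|) ∧
      (∀ i, ∀ c ∈ K i, N + 171 ≤ nr c → c = rt ((i : ℕ) : ℤ) (nr c, 0)) ∧
      (∀ i, (K i).card ≤ (2 * M + 2).toNat ^ 2) ∧
      (∀ i, ∀ j, N + 171 ≤ j → j ≤ M → rt ((i : ℕ) : ℤ) (j, 0) ∈ K i) := by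
  set a : ℤ := N - 1 with ha
  have ha0 : 0 ≤ a := by omega
  obtain ⟨Y, hY, hY1, hY2, hY3⟩ := exists_std (a := a) (by omega) (w 0)
  obtain ⟨x, hx0, hx1, hx2, hx3⟩ := chain (hw.mono (by norm_num)) hY hY1 hY2
  have hfar : ∀ i j, i ≠ j → ∀ c ∈ PS a 10 M (x i), ∀ c' ∈ PS a 10 M (x j), Far c c' :=
    fun i j hij c hc c' hc' => far_chain (by omega) hx2 hx3 hij hc hc'
  have hB : a + 18 * ((10 : ℕ) : ℤ) ≤ M := by push_cast; omega
  have hstart : ∀ i, cl a (w i) ∈ PS a 10 M (x i) := by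
    intro i
    have := start_mem (a := a) (m := 10) (B := M) (x := x i) hB
    rwa [hx0, ry_self] at this
  refine ⟨fun i => ringC (cl a (w i)) 3 ∪
    (ballC M).filter fun c => c ∈ PS a 10 M (x i) ∧ N + 2 ≤ nr c, ?_, ?_, ?_, ?_, ?_, ?_, ?_, ?_, ?_⟩
  · intro i
    exact Finset.subset_union_left
  · intro i c hc
    rcases Finset.mem_union.1 hc with h | h
    · have := ringC_dist h
      left
      rw [abs_le, abs_le]
      omega
    · exact Or.inr (Finset.mem_filter.1 h).2.2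
  · intro i c hc
    rcases Finset.mem_union.1 hc with h | h
    · have h1 := nr_ringC h
      rw [nr_cl ha0] at h1
      omega
    · have h1 := (Finset.mem_filter.1 h).2.2
      exact ⟨by omega, mem_ballC.1 (Finset.mem_filter.1 h).1⟩
  · intro i
    refine Finset.mem_union_right _ (Finset.mem_filter.2 ⟨mem_ballC.2 ?_, ?_, ?_⟩)
    · rw [nr_rt]
      unfold nr
      dsimp only
      omega
    · have := end_mem (a := a) (m := 10) (B := M) (x := x i) hB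
      rwa [hx1, hY3] at this
    · rw [nr_rt]
      unfold nr
      dsimp only
      omega
  · intro i k hk
    have h1 := conn_PS' (a := a) (B := M) (m := 10) (x := x i) ha0 (s := 3) (by norm_num)
      (by norm_num) (by norm_num) hB
    rw [hx0, hx1, hY3] at h1
    refine CConn.trans (CConn.mono ?_ (ringC_conn hk (ray_mem_ringC ha0)))
      (CConn.mono ?_ h1)
    · intro c hc
      exact Finset.mem_union_left _ hc
    · rintro c ⟨hc1, hc2⟩
      have hc3 : a + 3 ≤ nr c := hc2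
      exact Finset.mem_union_right _ (Finset.mem_filter.2 ⟨mem_ballC.2 (nr_PS ha0 hB hc1).2, hc1,
        by omega⟩)
  · intro i j hij c hc c' hc'
    rcases Finset.mem_union.1 hc with h | h <;> rcases Finset.mem_union.1 hc' with h' | h'
    · exact five_of_rings (by norm_num) (by norm_num) h h' (farN_pair (by omega) le_rfl hw hij)
    · exact five_of_far_ring (by norm_num) h (hfar i j hij _ (hstart i) _
        (Finset.mem_filter.1 h').2.1)
    · exact five_symm (five_of_far_ring (by norm_num) h' (hfar j i hij.symm _ (hstart j) _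
        (Finset.mem_filter.1 h).2.1))
    · exact five_of_far (hfar i j hij _ (Finset.mem_filter.1 h).2.1 _
        (Finset.mem_filter.1 h').2.1)
  · intro i c hc h1
    rcases Finset.mem_union.1 hc with h | h
    · have h2 := nr_ringC h
      rw [nr_cl ha0] at h2
      omega
    · have h2 := PS_end ha0 (Finset.mem_filter.1 h).2.1 (by push_cast; omega)
      rwa [hx1, hY3] at h2
  · intro i
    rw [← card_ballC]
    refine Finset.card_le_card ?_
    intro c hc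
    rcases Finset.mem_union.1 hc with h | h
    · have h1 := nr_ringC h
      rw [nr_cl ha0] at h1
      exact mem_ballC.2 (by omega)
    · exact (Finset.mem_filter.1 h).1
  · intro i j h1 h2
    have hj : nr (rt ((i : ℕ) : ℤ) (j, 0)) = j := by
      rw [nr_rt]
      unfold nr
      dsimp only
      omega
    refine Finset.mem_union_right _ (Finset.mem_filter.2 ⟨mem_ballC.2 ?_, ?_, ?_⟩)
    · rw [hj]
      exact h2
    · left
      refine ⟨10, le_rfl, j, by omega, h2, by push_cast; omega, fun h => absurd h (lt_irrefl _), ?_⟩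
      rw [hx1, hY3]
    · rw [hj]
      omega

open Classical in
/-- **Outward tokens.** -/
theorem tok_out {N M : ℤ} (hN : 21 ≤ N) (hM : N + 200 ≤ M) {w : Fin 4 → ℤ}
    (hw : Gd (N - 1) 26 w) :
    ∃ K : Fin 4 → Finset P2,
      (∀ i, ringC (cl (N - 1) (w i)) 3 ⊆ K i) ∧
      (∀ i, ∀ c ∈ K i, (|c.1 - (cl (N - 1) (w i)).1| ≤ 4 ∧ |c.2 - (cl (N - 1) (w i)).2| ≤ 4) ∨
        N + 2 ≤ nr c) ∧
      (∀ i, ∀ c ∈ K i, N - 4 ≤ nr c ∧ nr c ≤ M) ∧
      (∀ i, rt ((i : ℕ) : ℤ) (M, 0) ∈ K i) ∧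
      (∀ i, ∀ k ∈ ringC (cl (N - 1) (w i)) 3,
        CConn ((K i : Finset P2) : Set P2) k (rt ((i : ℕ) : ℤ) (M, 0))) ∧
      (∀ i j, i ≠ j → ∀ c ∈ K i, ∀ c' ∈ K j, 5 ≤ |c.1 - c'.1| ∨ 5 ≤ |c.2 - c'.2|) ∧
      (∀ i, ∀ c ∈ K i, N + 171 ≤ nr c → c = rt ((i : ℕ) : ℤ) (nr c, 0)) ∧
      (∀ i, (K i).card ≤ (2 * M + 2).toNat ^ 2) := by
  obtain ⟨K, h1, h2, h3, h4, h5, h6, h7, h8, -⟩ := tok_outS hN hM hw
  exact ⟨K, h1, h2, h3, h4, h5, h6, h7, h8⟩

/-- relabelling for the clockwise order: `1` and `3` are exchanged -/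
def sw13 : Fin 4 → Fin 4 := ![0, 3, 2, 1]

theorem sw13_sw13 (i : Fin 4) : sw13 (sw13 i) = i := by
  fin_cases i <;> rfl

theorem sw13_ne {i j : Fin 4} (h : i ≠ j) : sw13 i ≠ sw13 j := fun h' => h (by
  rw [← sw13_sw13 i, h', sw13_sw13])

/-- cyclic order, clockwise -/
def Gd' (a g : ℤ) (X : Fin 4 → ℤ) : Prop :=
  X 1 + g ≤ X 0 ∧ X 2 + g ≤ X 1 ∧ X 3 + g ≤ X 2 ∧ X 0 + g ≤ X 3 + 4 * (2 * a + 1)

theorem Gd'.gd {a g : ℤ} {X : Fin 4 → ℤ} (h : Gd' a g X) :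
    Gd a g fun i => if i = 0 then X 0 else X (sw13 i) + 4 * (2 * a + 1) := by
  obtain ⟨h1, h2, h3, h4⟩ := h
  refine ⟨?_, ?_, ?_, ?_⟩ <;> simp [sw13] <;> omega

open Classical in
/-- **Outward tokens, clockwise order**, with the straight part made explicit. -/
theorem tok_outS' {N M : ℤ} (hN : 21 ≤ N) (hM : N + 200 ≤ M) {w : Fin 4 → ℤ}
    (hw : Gd' (N - 1) 26 w) :
    ∃ K : Fin 4 → Finset P2,
      (∀ i, ringC (cl (N - 1) (w i)) 3 ⊆ K i) ∧
      (∀ i, ∀ c ∈ K i, (|c.1 - (cl (N - 1) (w i)).1| ≤ 4 ∧ |c.2 - (cl (N - 1) (w i)).2| ≤ 4) ∨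
        N + 2 ≤ nr c) ∧
      (∀ i, ∀ c ∈ K i, N - 4 ≤ nr c ∧ nr c ≤ M) ∧
      (∀ i, rt (((sw13 i : Fin 4) : ℕ) : ℤ) (M, 0) ∈ K i) ∧
      (∀ i, ∀ k ∈ ringC (cl (N - 1) (w i)) 3,
        CConn ((K i : Finset P2) : Set P2) k (rt (((sw13 i : Fin 4) : ℕ) : ℤ) (M, 0))) ∧
      (∀ i j, i ≠ j → ∀ c ∈ K i, ∀ c' ∈ K j, 5 ≤ |c.1 - c'.1| ∨ 5 ≤ |c.2 - c'.2|) ∧
      (∀ i, ∀ c ∈ K i, N + 171 ≤ nr c → c = rt (((sw13 i : Fin 4) : ℕ) : ℤ) (nr c, 0)) ∧
      (∀ i, (K i).card ≤ (2 * M + 2).toNat ^ 2) ∧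
      (∀ i, ∀ j, N + 171 ≤ j → j ≤ M → rt (((sw13 i : Fin 4) : ℕ) : ℤ) (j, 0) ∈ K i) := by
  obtain ⟨K, h1, h2, h3, h4, h5, h6, h7, h8, h9⟩ := tok_outS hN hM hw.gd
  have e : ∀ i : Fin 4, cl (N - 1) (if sw13 i = 0 then w 0 else
      w (sw13 (sw13 i)) + 4 * (2 * (N - 1) + 1)) = cl (N - 1) (w i) := by
    intro i
    rw [sw13_sw13]
    by_cases h : sw13 i = 0
    · have h' : i = 0 := by
        fin_cases i <;> simp [sw13] at h ⊢
      rw [if_pos h, h']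
    · rw [if_neg h, cl_period (by omega)]
  refine ⟨fun i => K (sw13 i), fun i => ?_, fun i c hc => ?_, fun i c hc => h3 _ c hc,
    fun i => h4 _, fun i k hk => ?_, fun i j hij => h6 _ _ (sw13_ne hij), fun i => h7 _,
    fun i => h8 _, fun i => h9 _⟩
  · have := h1 (sw13 i)
    rwa [e i] at this
  · have := h2 (sw13 i) c hc
    rwa [e i] at this
  · have := h5 (sw13 i) k
    rw [e i] at this
    exact this hk

open Classical in
/-- **Outward tokens, clockwise order.** -/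
theorem tok_out' {N M : ℤ} (hN : 21 ≤ N) (hM : N + 200 ≤ M) {w : Fin 4 → ℤ}
    (hw : Gd' (N - 1) 26 w) :
    ∃ K : Fin 4 → Finset P2,
      (∀ i, ringC (cl (N - 1) (w i)) 3 ⊆ K i) ∧
      (∀ i, ∀ c ∈ K i, (|c.1 - (cl (N - 1) (w i)).1| ≤ 4 ∧ |c.2 - (cl (N - 1) (w i)).2| ≤ 4) ∨
        N + 2 ≤ nr c) ∧
      (∀ i, ∀ c ∈ K i, N - 4 ≤ nr c ∧ nr c ≤ M) ∧
      (∀ i, rt (((sw13 i : Fin 4) : ℕ) : ℤ) (M, 0) ∈ K i) ∧
      (∀ i, ∀ k ∈ ringC (cl (N - 1) (w i)) 3,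
        CConn ((K i : Finset P2) : Set P2) k (rt (((sw13 i : Fin 4) : ℕ) : ℤ) (M, 0))) ∧
      (∀ i j, i ≠ j → ∀ c ∈ K i, ∀ c' ∈ K j, 5 ≤ |c.1 - c'.1| ∨ 5 ≤ |c.2 - c'.2|) ∧
      (∀ i, ∀ c ∈ K i, N + 171 ≤ nr c → c = rt (((sw13 i : Fin 4) : ℕ) : ℤ) (nr c, 0)) ∧
      (∀ i, (K i).card ≤ (2 * M + 2).toNat ^ 2) := by
  obtain ⟨K, h1, h2, h3, h4, h5, h6, h7, h8, -⟩ := tok_outS' hN hM hw
  exact ⟨K, h1, h2, h3, h4, h5, h6, h7, h8⟩

end Crest.Agent.R158.Sp874
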