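import Crest.Agent.R158.Sg4_689
import Crest.Agent.R158.Sp4c_874

/-!
# Row 158, Block SEP, leaf L5 (helper689): `glue_in`

`c^B P(Uin e (N n) n k1 k2 k3 k4) ≤ P(NiceU e (c n))` for four cells of the ring `N - 1`
in alternating cyclic order (either orientation) with gaps `≥ 26`.
-/

set_option autoImplicit false

noncomputable section

namespace Crest.Agent.R158.Sg689

open MeasureTheory ProbabilityTheory unitInterval
open Crest.Agent.R161.Geo729 Crest.Agent.R161.Topo374 Crest.Agent.R161.Dual374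
open Crest.Agent.R161.Tas682
open Crest.Agent.R158.Rs689 Crest.Agent.R158.Sp580 Crest.Agent.R158.Ru874 Crest.Agent.R158.Sp874

theorem rt_std (M : ℤ) : ∀ i : Fin 4, rt ((i : ℕ) : ℤ) (M, 0) = std i M := by
  refine fin4_cases ?_ ?_ ?_ ?_ <;> simp [rt, std]

theorem outR_iff {N : ℤ} {c : P2} : OutR N c ↔ N ≤ nr c := by
  unfold OutR nr; omega

theorem inR_iff {M : ℤ} {c : P2} : InR M c ↔ nr c ≤ M := by
  unfold InR nr; omega

theorem onRay_std {M : ℤ} (hM : 0 ≤ M) : ∀ i : Fin 4, OnRay i (std i M) := by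
  refine fin4_cases ?_ ?_ ?_ ?_ <;> simp only [OnRay, std]
  · exact ⟨trivial, hM⟩
  · exact ⟨trivial, hM⟩
  · exact ⟨trivial, by omega⟩
  · exact ⟨trivial, by omega⟩

/-- tokens exist -/
theorem tokOut_of {N M : ℤ} (hN : 21 ≤ N) (hM : N + 200 ≤ M) {w : Fin 4 → ℤ}
    (hw : Gd (N - 1) 26 w) : ∃ K, TokOut N M (fun i => cl (N - 1) (w i)) K := by
  obtain ⟨K, h1, h2, h3, h4, h5, h6, h7, _⟩ := tok_out hN hM hw
  refine ⟨K, ⟨h1, ?_, ?_, ?_, ?_, ?_, ?_⟩⟩
  · intro i c hc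
    rcases h2 i c hc with h | h
    · exact Or.inl h
    · exact Or.inr (outR_iff.2 h)
  · intro i c hc
    exact inR_iff.2 (h3 i c hc).2
  · intro i c hc h
    have h8 := outR_iff.1 h
    have h9 := h7 i c hc (by omega)
    rw [h9, rt_std]
    exact onRay_std (by omega) i
  · intro i
    rw [← rt_std]
    exact h4 i
  · intro i
    have h0 : ((cl (N - 1) (w i)).1 - 3, (cl (N - 1) (w i)).2 - 3) ∈ ringC (cl (N - 1) (w i)) 3 := by
      generalize cl (N - 1) (w i) = κ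
      unfold ringC
      rw [mem_frameC]
      exact ⟨⟨le_rfl, by simp only; omega, le_rfl, by simp only; omega⟩, Or.inl rfl⟩
    refine ⟨_, h0, ?_⟩
    rw [← rt_std]
    exact h5 i _ h0
  · intro i j hij c hc c' hc'
    have := h6 i j hij c hc c' hc'
    unfold Far5
    rw [le_abs, le_abs] at this
    omega

theorem nr_cl' {N : ℤ} (hN : 1 ≤ N) (w : ℤ) : OutR (N - 1) (cl (N - 1) w) := by
  rw [outR_iff, nr_cl (by omega)]

/-- **L5** : gluing of the inner landing event -/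
theorem glue_in {N c : ℕ} (hN : 21 ≤ N) (hc : N + 203 ≤ 16 * c) {n : ℕ} (hn : 2 ≤ n) {c0 : ℝ}
    {p : I} (hp : RSp c0 p n) {e : Edge} (he : src e = (0, 0)) {w : Fin 4 → ℤ}
    (hw : Gd ((N : ℤ) - 1) 26 w ∨ Gd' ((N : ℤ) - 1) 26 w) :
    c0 ^ (4 * (52 * c + 2) ^ 2) * (nu p).real (Uin e (N * n) n (cl ((N : ℤ) - 1) (w 0))
      (cl ((N : ℤ) - 1) (w 1)) (cl ((N : ℤ) - 1) (w 2)) (cl ((N : ℤ) - 1) (w 3))) ≤
      (nu p).real (NiceU e (c * n)) := by
  rcases hw with hw | hw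
  · obtain ⟨K, hK⟩ := tokOut_of (N := N) (M := N + 200) (by omega) le_rfl hw
    have h := (glue_core hK (fun i => nr_cl' (by omega) (w i)) (by omega) (by omega)
      (c := c) (by omega) hn rfl hp he).1
    refine h.trans (measureReal_mono ?_)
    intro z hz
    exact ⟨true, true, hz⟩
  · obtain ⟨K, hK⟩ := tokOut_of (N := N) (M := N + 200) (by omega) le_rfl hw.gd
    have h := (glue_core hK (fun i => nr_cl' (by omega) _) (by omega) (by omega)
      (c := c) (by omega) hn rfl hp he).2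
    have e1 : cl ((N : ℤ) - 1) (w 1) = cl ((N : ℤ) - 1) (w 1 + 4 * (2 * ((N : ℤ) - 1) + 1)) := by
      rw [cl_period (by omega)]
    have e2 : cl ((N : ℤ) - 1) (w 2) = cl ((N : ℤ) - 1) (w 2 + 4 * (2 * ((N : ℤ) - 1) + 1)) := by
      rw [cl_period (by omega)]
    have e3 : cl ((N : ℤ) - 1) (w 3) = cl ((N : ℤ) - 1) (w 3 + 4 * (2 * ((N : ℤ) - 1) + 1)) := by
      rw [cl_period (by omega)]
    rw [e1, e2, e3]
    have e4 : sw13 1 = 3 := rfl
    have e5 : sw13 2 = 2 := rfl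
    have e6 : sw13 3 = 1 := rfl
    simp only [e4, e5, e6] at h
    refine le_trans ?_ (h.trans (measureReal_mono ?_))
    · exact le_rfl
    · intro z hz
      exact ⟨true, false, hz⟩

end Crest.Agent.R158.Sg689
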