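import Crest.Agent.R158.Sq5_200

/-!
# Row 158, SEP leaf L2-in (helper200)

`uin_alt` : if `Uin e (N n) n k1 k2 k3 k4` occurs (cells of the ring `N-1`, pairwise far), the four cells
alternate: `Gd` (counterclockwise) or `Gd'` (clockwise) in 874's coordinates.
-/

set_option autoImplicit false

noncomputable section

namespace Crest.Agent.R158.Sr200

open Crest.Agent.R161.Geo729 Crest.Agent.R161.Topo374 Crest.Agent.R161.Dual374
open Crest.Agent.R161.Tas682 hiding Sq
open Crest.Agent.R158.Rs689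
open Crest.Agent.R158.Kd458 Finset
open Crest.Agent.R158.Sp874 (FarN nr Gd Gd')
open Crest.Agent.R158.Sp580
open Crest.Agent.R158.Ru874 (frc frc_self frc_ne)

theorem sum4 {N1 N2 N3 N4 : Edge → ZMod 2} {e : Edge} {s t a b x x' : P2}
    (h1 : ∀ v, star N1 v = ind (v = s) + ind (v = a)) (h2 : ∀ v, star N2 v = ind (v = a) + ind (v = x))
    (h3 : ∀ v, star N3 v = ind (v = t) + ind (v = b)) (h4 : ∀ v, star N4 v = ind (v = b) + ind (v = x'))
    (hs : s = src e) (ht : t = tgt e) (v : P2) :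
    star (fun e' => ((N1 e' + N2 e') + (N3 e' + N4 e')) + dl e e') v = ind (v = x) + ind (v = x') := by
  rw [star_add, star_add, star_add, star_add, h1, h2, h3, h4, star_dl, hs, ht]
  have z1 := zmod2_add_self (ind (v = src e))
  have z2 := zmod2_add_self (ind (v = tgt e))
  have z3 := zmod2_add_self (ind (v = a))
  have z4 := zmod2_add_self (ind (v = b))
  linear_combination z1 + z2 + z3 + z4

theorem zero_of_not {N : Edge → ZMod 2} {Z : Edge → Prop} (h : ∀ e, N e ≠ 0 → Z e) {e : Edge} (hz : ¬ Z e) :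
    N e = 0 := by
  by_contra h'
  exact hz (h e h')

set_option maxHeartbeats 2000000 in
/-- **L2-in.** -/
theorem uin_alt {e : Edge} (he : src e = (0, 0)) {n : ℕ} (hn : 1 ≤ n) {N g : ℤ} (hg : 15 ≤ g)
    {k1 k2 k3 k4 : P2} (h1 : nr k1 = N - 1) (h2 : nr k2 = N - 1) (h3 : nr k3 = N - 1) (h4 : nr k4 = N - 1)
    (f12 : FarN g k1 k2) (f23 : FarN g k2 k3) (f34 : FarN g k3 k4) (f41 : FarN g k4 k1)
    (f13 : FarN g k1 k3) {z : Cf} (hz : z ∈ Uin e (N * n) n k1 k2 k3 k4) :
    ∃ w : Fin 4 → ℤ, Sp874.cl (N - 1) (w 0) = k1 ∧ Sp874.cl (N - 1) (w 1) = k2 ∧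
      Sp874.cl (N - 1) (w 2) = k3 ∧ Sp874.cl (N - 1) (w 3) = k4 ∧
      (Gd (N - 1) g w ∨ Gd' (N - 1) g w) := by
  have hN : 8 ≤ N := N_large hg h1 h2 f12
  have hn' : (1 : ℤ) ≤ n := by exact_mod_cast hn
  have hR : 0 ≤ N * (n : ℤ) := by positivity
  have hR5 : 5 ≤ N * (n : ℤ) := by nlinarith
  have hsym : ∀ {k k' : P2}, FarN g k k' → FarN g k' k := fun h => by unfold FarN at *; omega
  obtain ⟨⟨⟨a, ha, hu⟩, ⟨b, hb, hv⟩⟩, ⟨f, hf, hd1⟩, ⟨f', hf', hd2⟩⟩ := hz
  obtain ⟨x, ⟨hx1, hx2⟩, hx3, hx4⟩ := ext_in h1 ha hu.right.1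
  obtain ⟨x', ⟨hx1', hx2'⟩, hx3', hx4'⟩ := ext_in h3 hb hv.right.1
  obtain ⟨y, ⟨hy1, hy2⟩, hy3, hy4⟩ := ext_inD hn h2 hf hd1.right.1
  obtain ⟨y', ⟨hy1', hy2'⟩, hy3', hy4'⟩ := ext_inD hn h4 hf' hd2.right.1
  rw [mem_Sq] at hx2 hx2'
  obtain ⟨A, -, -, hA⟩ := exists_lv hR hx2 hx3 0
  obtain ⟨B, hB1, hB2, hB⟩ := exists_lv hR hx2' hx3' A
  obtain ⟨c, hc1, hc2, hc⟩ := exists_cel hR hy3 A
  obtain ⟨d, hd1', hd2', hd⟩ := exists_cel hR hy3' A
  -- chains
  obtain ⟨N1, m1, s1⟩ := walk_parity (oc_walk hu)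
  obtain ⟨N2, m2, s2⟩ := walk_parity hx4
  obtain ⟨N3, m3, s3⟩ := walk_parity (oc_walk hv)
  obtain ⟨N4, m4, s4⟩ := walk_parity hx4'
  set M : Edge → ZMod 2 := fun e' => ((N1 e' + N2 e') + (N3 e' + N4 e')) + dl e e' with hM
  have hMz : ∀ e', N1 e' = 0 → N2 e' = 0 → N3 e' = 0 → N4 e' = 0 → e' ≠ e → M e' = 0 := by
    intro e' p1 p2 p3 p4 p5
    simp only [hM, p1, p2, p3, p4, dl, ind_false p5, add_zero]
  have hstar : ∀ v, star M v = ind (v = lv (N * n) A) + ind (v = lv (N * n) B) := by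
    intro v
    rw [hA, hB]
    exact sum4 s1 s2 s3 s4 rfl rfl v
  have hsupp : ∀ e', M e' ≠ 0 → IB (-(N * n)) (N * n) (-(N * n)) (N * n) e' := by
    intro e' h
    by_contra hc'
    apply h
    apply hMz
    · exact zero_of_not m1 fun hh => hc' ⟨hh.2.1.1, hh.2.2.1⟩
    · exact zero_of_not m2 fun hh => hc' ⟨hh.1.2, hh.2.2⟩
    · exact zero_of_not m3 fun hh => hc' ⟨hh.2.1.1, hh.2.2.1⟩
    · exact zero_of_not m4 fun hh => hc' ⟨hh.1.2, hh.2.2⟩
    · rintro rfl
      apply hc'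
      have hf0 := (face_src e').2.2
      rw [he] at hf0
      simp only at hf0
      constructor
      · rw [he]; simp only; omega
      · omega
  obtain ⟨K, hK1, hK2⟩ := par (by omega) (by omega) (out_le hR A) (out_le hR B) hsupp hstar
  -- faces of the leaving edges
  have hleA : ∀ k' m, FarN g k' k1 → m ≤ 11 → ∀ p, (p = fA (le (N * n) A) ∨ p = fB (le (N * n) A)) →
      p ∉ Bk n k' m ∧ p ∈ Bk n k1 2 := by
    intro k' m hk' hm p hp
    have ho := out_near (out_le hR A)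
    rw [hA] at ho
    have hp2 : p ∈ Bk n k1 2 := by
      rcases hp with rfl | rfl
      · exact bk_grow hn hx1 (by omega) (by omega) (by omega) (by omega)
      · exact bk_grow hn hx1 (by omega) (by omega) (by omega) (by omega)
    exact ⟨fun h => bk_disj hn (by omega) hk' h hp2, hp2⟩
  have hleB : ∀ k' m, FarN g k' k3 → m ≤ 11 → ∀ p, (p = fA (le (N * n) B) ∨ p = fB (le (N * n) B)) →
      p ∉ Bk n k' m ∧ p ∈ Bk n k3 2 := by
    intro k' m hk' hm p hp
    have ho := out_near (out_le hR B)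
    rw [hB] at ho
    have hp2 : p ∈ Bk n k3 2 := by
      rcases hp with rfl | rfl
      · exact bk_grow hn hx1' (by omega) (by omega) (by omega) (by omega)
      · exact bk_grow hn hx1' (by omega) (by omega) (by omega) (by omega)
    exact ⟨fun h => bk_disj hn (by omega) hk' h hp2, hp2⟩
  have jump0 : ∀ e', fA e' ∈ FSq (N * n) → fB e' ∈ FSq (N * n) → M e' = 0 → e' ≠ le (N * n) A →
      e' ≠ le (N * n) B → K (fA e') + K (fB e') = 0 := by
    intro e' p1 p2 p3 p4 p5
    rcases TB_cases (by omega) (by omega) (tb_of_faces hR p1 p2) with h | ⟨v, h⟩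
    · rw [hK2 e' h, p3]
    · rw [hK1 e' v h]
      simp only [dl, ind_false p4, ind_false p5, add_zero]
  -- the arms
  have C1 : ∀ e', (frc e true z e' = false ∧ fA e' ∈ FSq (N * n) \ Bk2 n k1 k3 8 ∧
      fB e' ∈ FSq (N * n) \ Bk2 n k1 k3 8) → K (fA e') + K (fB e') = 0 := by
    rintro e' ⟨p1, ⟨p2, p3⟩, p4, p5⟩
    have hne : e' ≠ e := by
      rintro rfl
      rw [frc_self] at p1
      exact absurd p1 (by simp)
    have hz0 : frc e false z e' = false := by
      rw [frc_ne hne] at p1 ⊢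
      exact p1
    have hface : ∀ k', (k' = k1 ∨ k' = k3) → src e' ∉ Bk n k' 1 := by
      intro k' hk' hh
      apply p3
      have : fA e' ∈ Bk n k' 8 :=
        bk_mono (by norm_num) (bk_grow hn hh (by have := (face_src e').1; omega)
          (by have := (face_src e').1; omega) (by have := (face_src e').1; omega)
          (by have := (face_src e').1; omega))
      rcases hk' with rfl | rfl
      · exact Or.inl this
      · exact Or.inr this
    refine jump0 e' p2 p4 (hMz e' ?_ ?_ ?_ ?_ hne) ?_ ?_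
    · exact zero_of_not m1 fun hh => by rw [hz0] at hh; exact absurd hh.1 (by simp)
    · exact zero_of_not m2 fun hh => hface k1 (Or.inl rfl) hh.1.1
    · exact zero_of_not m3 fun hh => by rw [hz0] at hh; exact absurd hh.1 (by simp)
    · exact zero_of_not m4 fun hh => hface k3 (Or.inr rfl) hh.1.1
    · rintro rfl
      exact p3 (Or.inl (bk_mono (by norm_num) (hleA k3 1 (hsym f13) (by norm_num) _ (Or.inl rfl)).2))
    · rintro rfl
      exact p3 (Or.inr (bk_mono (by norm_num) (hleB k1 1 f13 (by norm_num) _ (Or.inl rfl)).2))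
  have C2 : ∀ k', (k' = k2 ∨ k' = k4) → nr k' = N - 1 → FarN g k' k1 → FarN g k' k3 → ∀ e',
      (fA e' ∈ Bk n k' 1 ∩ FSq (N * n) ∧ fB e' ∈ Bk n k' 1 ∩ FSq (N * n)) →
      K (fA e') + K (fB e') = 0 := by
    rintro k' hk' hnr g1 g3 e' ⟨⟨p1, p2⟩, p3, p4⟩
    have hsrc : src e' ∈ Bk n k' 2 :=
      bk_grow hn p1 (by have := (face_src e').1; omega)
          (by have := (face_src e').1; omega) (by have := (face_src e').1; omega)
          (by have := (face_src e').1; omega)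
    have hs8 : src e' ∉ Sq (N * n) \ Bk2 n k2 k4 8 := by
      rintro ⟨_, hh⟩
      apply hh
      rcases hk' with rfl | rfl
      · exact Or.inl (bk_mono (by norm_num) hsrc)
      · exact Or.inr (bk_mono (by norm_num) hsrc)
    refine jump0 e' p2 p4 (hMz e' ?_ ?_ ?_ ?_ ?_) ?_ ?_
    · exact zero_of_not m1 fun hh => hs8 hh.2.1
    · exact zero_of_not m2 fun hh => bk_disj hn (by omega) g1 hsrc hh.1.1
    · exact zero_of_not m3 fun hh => hs8 hh.2.1
    · exact zero_of_not m4 fun hh => bk_disj hn (by omega) g3 hsrc hh.1.1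
    · rintro rfl
      rw [he] at hsrc
      exact not_origin hn (by omega) hnr (by simp) (by simp) (by simp) (by simp) hsrc
    · rintro rfl
      exact (hleA k' 1 g1 (by norm_num) _ (Or.inl rfl)).1 p1
    · rintro rfl
      exact (hleB k' 1 g3 (by norm_num) _ (Or.inl rfl)).1 p1
  have e1 : K (fA e) = K y :=
    (dual_const C1 (oc_dwalk hd1)).trans
      (dual_const (C2 k2 (Or.inl rfl) h2 (hsym f12) f23) hy4)
  have e2 : K (fB e) = K y' :=
    (dual_const C1 (oc_dwalk hd2)).trans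
      (dual_const (C2 k4 (Or.inr rfl) h4 f41 (hsym f34)) hy4')
  have hMe : M e = 1 := by
    have ho : ∀ k', nr k' = N - 1 → src e ∉ Bk n k' 1 := fun k' hk' hh =>
      not_origin hn (by omega) hk' (by rw [he]; simp) (by rw [he]; simp) (by rw [he]; simp)
        (by rw [he]; simp) (bk_mono (by norm_num) hh)
    have hz0 : frc e false z e = false := frc_self _ _ _
    have q1 : N1 e = 0 := zero_of_not m1 fun hh => by rw [hz0] at hh; exact absurd hh.1 (by simp)
    have q2 : N2 e = 0 := zero_of_not m2 fun hh => ho k1 h1 hh.1.1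
    have q3 : N3 e = 0 := zero_of_not m3 fun hh => by rw [hz0] at hh; exact absurd hh.1 (by simp)
    have q4 : N4 e = 0 := zero_of_not m4 fun hh => ho k3 h3 hh.1.1
    simp only [hM, q1, q2, q3, q4, dl, zero_add]
    exact ind_true trivial
  have hIBe : IB (-(N * n)) (N * n) (-(N * n)) (N * n) e := hsupp e (by rw [hMe]; decide)
  have hj := hK2 e hIBe
  rw [hMe, e1, e2, ← hc, ← hd] at hj
  have hne : K (cel (N * n) c) ≠ K (cel (N * n) d) := by
    intro h
    rw [h, zmod2_add_self] at hj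
    exact absurd hj (by decide)
  have hAB : A < B := by
    rcases hB1.lt_or_eq with h | h
    · exact h
    · exfalso
      have : x = x' := by rw [← hA, ← hB, h]
      exact bk_disj hn (by omega) f13 hx1 (this ▸ hx1')
  have hs := col_sep hR hAB hB2 hK1 hc1 hc2 hd1' hd2' hne
  refine order_both (by omega) (by omega) hg h1 h2 h3 h4 f12 f23 f34 f41 hc1 hc2 hd1' hd2' hs ?_ ?_ ?_ ?_
  · have := cel_near hR A
    rw [hA] at this
    exact fl_bk2 hn hx1 this.1 this.2.1 this.2.2.1 this.2.2.2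
  · rw [hc]
    exact fl_bk2 hn hy1 (by omega) le_rfl (by omega) le_rfl
  · have := cel_near hR B
    rw [hB] at this
    exact fl_bk2 hn hx1' this.1 this.2.1 this.2.2.1 this.2.2.2
  · rw [hd]
    exact fl_bk2 hn hy1' (by omega) le_rfl (by omega) le_rfl

end Crest.Agent.R158.Sr200
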