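import Crest.Agent.R158.Sp4_580
import Crest.Agent.R158.Sq6_200
import Crest.Agent.R158.Sg5_689

/-!
# Row 158, Block SEP (helper580): separation of the four arms (inner side)

* `one_step` : `P (A4 e (2^(j+3))) ≤ δ P (A4 e (2^(j+2))) + K P (NiceU e (2^(j+1)))`
* `sep_in`   : `P (A4 e (2^(j+2))) ≤ K P (NiceU e (2^j))`, uniformly under RSW at scales `≤ 2^(j+2)`
-/

set_option autoImplicit false
set_option linter.constructorNameAsVariable false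

noncomputable section

namespace Crest.Agent.R158.Sp580

open MeasureTheory ProbabilityTheory unitInterval
open Crest.Agent.R161.Geo729 Crest.Agent.R161.Topo374 Crest.Agent.R161.Dual374
open Crest.Agent.R161.Tas682 Crest.Agent.R158.Rs689
open Crest.Agent.R158.Ru874 hiding An
open Crest.Agent.R158.Kd458 (GoodB)
open Crest.Agent.R158.Sp874 (nr FarN)

/-- the cells of the box -/
def BxC (N : ℕ) : Finset P2 := Finset.Icc (-(N : ℤ)) N ×ˢ Finset.Icc (-(N : ℤ)) N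

theorem BxC_card (N : ℕ) : (BxC N).card = (2 * N + 1) ^ 2 := by
  rw [BxC, Finset.card_product, Int.card_Icc, sq]
  have : ((N : ℤ) + 1 - -(N : ℤ)).toNat = 2 * N + 1 := by omega
  rw [this]

theorem mem_BxC {N : ℕ} {k : P2} (h : nr k = N - 1) : k ∈ BxC N := by
  unfold nr at h
  rw [BxC, Finset.mem_product, Finset.mem_Icc, Finset.mem_Icc]
  omega

theorem farN_symm {g : ℤ} {k k' : P2} (h : FarN g k k') : FarN g k' k := by
  unfold FarN at *; omega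

/-- one landing pattern -/
theorem uin_le {c0 : ℝ} {p : I} {e : Edge} (he : src e = (0, 0)) {N c n : ℕ} (hN : 21 ≤ N)
    (hc : N + 203 ≤ 16 * c) (hn : 2 ≤ n) (hp : RSp c0 p n) {k1 k2 k3 k4 : P2}
    (h1 : nr k1 = N - 1) (h2 : nr k2 = N - 1) (h3 : nr k3 = N - 1) (h4 : nr k4 = N - 1)
    (f12 : FarN 26 k1 k2) (f13 : FarN 26 k1 k3) (f14 : FarN 26 k1 k4) (f23 : FarN 26 k2 k3)
    (f34 : FarN 26 k3 k4) :
    c0 ^ (4 * (52 * c + 2) ^ 2) * (nu p).real (Uin e (N * n) n k1 k2 k3 k4) ≤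
      (nu p).real (NiceU e (c * n)) := by
  by_cases hne : (Uin e (N * n) n k1 k2 k3 k4).Nonempty
  · obtain ⟨z, hz⟩ := hne
    obtain ⟨w, w1, w2, w3, w4, hw⟩ := Sr200.uin_alt he (by omega : 1 ≤ n) (by norm_num : (15 : ℤ) ≤ 26)
      h1 h2 h3 h4 f12 f23 f34 (farN_symm f14) f13 hz
    have h := Sg689.glue_in hN hc hn hp he hw
    rw [w1, w2, w3, w4] at h
    exact h
  · rw [Set.not_nonempty_iff_eq_empty] at hne
    rw [hne]
    simp

/-- one step of the recursion, general form -/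
theorem one_step_gen {c0 : ℝ} (hc0 : 0 < c0) (hc1 : c0 ≤ 1) {δ : ℝ} (hδ : 0 < δ) :
    ∃ (ν : ℕ) (K : ℝ), 0 ≤ K ∧ 9 ≤ ν ∧ ∀ (p : I) (n : ℕ), 2 ≤ n → RSp c0 p (2 ^ ν * n) →
      ∀ e : Edge, src e = (0, 0) → ∀ ρ : ℤ, 1 ≤ ρ → 2 * ρ ≤ 2 ^ ν * n →
      (nu p).real (A4 e (2 ^ ν * n)) ≤
        δ * (nu p).real (A4 e ρ) + K * (nu p).real (NiceU e (2 ^ (ν - 2) * n)) := by
  classical
  obtain ⟨A1, A2, A3, hA3, hbad⟩ := bad_small hc0 hc1 hδ
  set ν := 9 + A1 + A2 + A3 with hν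
  have hNN : NN A1 A2 A3 = 2 ^ ν := rfl
  set B : ℕ := 4 * (52 * 2 ^ (ν - 2) + 2) ^ 2 with hB
  refine ⟨ν, ((2 * 2 ^ ν + 1) ^ 2 : ℝ) ^ 4 * (c0 ^ B)⁻¹, by positivity, by omega, ?_⟩
  intro p n hn hp e he ρ hρ1 hρ
  set N : ℕ := 2 ^ ν with hN
  have hN512 : 512 ≤ N := by
    calc 512 = 2 ^ 9 := by norm_num
      _ ≤ 2 ^ ν := Nat.pow_le_pow_right (by norm_num) (by omega)
  have hN4 : 4 * 2 ^ (ν - 2) = N := by
    rw [hN, show (4 : ℕ) = 2 ^ 2 by norm_num, ← pow_add]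
    congr 1
    omega
  have hn0 : (2 : ℤ) ≤ n := by exact_mod_cast hn
  have hcast : ((2 : ℤ) ^ ν * n) = (N : ℤ) * n := by rw [hN]; push_cast; ring
  rw [hcast] at hρ ⊢
  -- radii
  have p1 : (1 : ℤ) ≤ 2 ^ A1 := one_le_pow₀ (by norm_num)
  have p2 : (1 : ℤ) ≤ 2 ^ A2 := one_le_pow₀ (by norm_num)
  have p3 : (16 : ℤ) ≤ 2 ^ A3 := by
    calc (16 : ℤ) = 2 ^ 4 := by norm_num
      _ ≤ 2 ^ A3 := pow_le_pow_right₀ (by norm_num) hA3
  have x3 : 16 * (n : ℤ) ≤ 2 ^ A3 * n := by nlinarith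
  have x2 : 2 ^ A3 * (n : ℤ) ≤ 2 ^ A3 * 2 ^ A2 * n := by
    have : 2 ^ A3 * (n : ℤ) * 1 ≤ 2 ^ A3 * n * 2 ^ A2 :=
      mul_le_mul_of_nonneg_left p2 (by positivity)
    linarith
  have x1 : 2 ^ A3 * 2 ^ A2 * (n : ℤ) ≤ 2 ^ A3 * 2 ^ A2 * 2 ^ A1 * n := by
    have : 2 ^ A3 * 2 ^ A2 * (n : ℤ) * 1 ≤ 2 ^ A3 * 2 ^ A2 * n * 2 ^ A1 :=
      mul_le_mul_of_nonneg_left p1 (by positivity)
    linarith
  have eR := NN_mul A1 A2 A3 n
  rw [hNN] at eR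
  have eT : rT n = 16 * n := rfl
  have eRr : rR A3 n = 16 * (2 ^ A3 * n) := by unfold rR; ring
  have eT1 : rT1 A3 n = 32 * (2 ^ A3 * n) := by unfold rT1; ring
  have eS : rS A3 n = 32 * (2 ^ A3 * n) := by unfold rS; ring
  have eC : rC A2 A3 n = 32 * (2 ^ A3 * 2 ^ A2 * n) := by unfold rC; ring
  have eS1 : rS1 A2 A3 n = 64 * (2 ^ A3 * 2 ^ A2 * n) := by unfold rS1; ring
  have eB : rB A1 A2 A3 n = 64 * (2 ^ A3 * 2 ^ A2 * 2 ^ A1 * n) := by unfold rB; ring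
  set G : Set Cf := GoodS (N * n) (rT n) (rR A3 n) (rT1 A3 n) (rS A3 n) (rC A2 A3 n)
    (rS1 A2 A3 n) (rB A1 A2 A3 n) with hG
  have hb : (nu p).real Gᶜ ≤ δ := by
    have := hbad p n (by omega) (by rw [hNN]; exact hp)
    rw [hNN] at this
    exact this
  have hlow := a4_bad (p := p) he (R := N * n) (t := rT n) (r := rR A3 n) (t1 := rT1 A3 n)
    (s := rS A3 n) (c := rC A2 A3 n) (s1 := rS1 A2 A3 n) (b := rB A1 A2 A3 n) (ρ := ρ)
    (by omega) (by omega) (by omega) hρ1 (by omega) (by omega)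
  have hcov : A4 e (N * n) ∩ G ⊆ ⋃ k ∈ (BxC N ×ˢ BxC N) ×ˢ (BxC N ×ˢ BxC N),
      {z | (nr k.1.1 = N - 1 ∧ nr k.1.2 = N - 1 ∧ nr k.2.1 = N - 1 ∧ nr k.2.2 = N - 1 ∧
        FarN 26 k.1.1 k.1.2 ∧ FarN 26 k.1.1 k.2.1 ∧ FarN 26 k.1.1 k.2.2 ∧ FarN 26 k.1.2 k.2.1 ∧
        FarN 26 k.2.1 k.2.2) ∧ z ∈ Uin e (N * n) n k.1.1 k.1.2 k.2.1 k.2.2} := by
    rintro z ⟨hz, hzG⟩
    obtain ⟨k1, k2, k3, k4, h1, h2, h3, h4, f12, f13, f14, f23, f24, f34, hU⟩ :=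
      cover_in he (N := N) hn (g := 26) (by norm_num) (t := rT n) (r := rR A3 n) (t1 := rT1 A3 n)
        (s := rS A3 n) (c := rC A2 A3 n) (s1 := rS1 A2 A3 n) (b := rB A1 A2 A3 n) (by omega)
        (by omega) (by omega) (by omega) (by omega) (by omega) (by omega) (by omega) (by omega)
        (by omega) (by omega) hz hzG
    simp only [Set.mem_iUnion]
    exact ⟨((k1, k2), (k3, k4)), by
      simp only [Finset.mem_product]
      exact ⟨⟨mem_BxC h1, mem_BxC h2⟩, mem_BxC h3, mem_BxC h4⟩,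
      ⟨h1, h2, h3, h4, f12, f13, f14, f23, f34⟩, hU⟩
  set X : ℝ := (nu p).real (NiceU e (2 ^ (ν - 2) * n)) with hX
  have hX0 : 0 ≤ X := measureReal_nonneg
  have hcB : 0 < c0 ^ B := by positivity
  have hgood : (nu p).real (A4 e (N * n) ∩ G) ≤ ((2 * 2 ^ ν + 1) ^ 2 : ℝ) ^ 4 * (c0 ^ B)⁻¹ * X := by
    refine (measureReal_mono hcov (measure_ne_top _ _)).trans ((measureReal_biUnion_finset_le _ _).trans ?_)
    have hterm : ∀ k ∈ (BxC N ×ˢ BxC N) ×ˢ (BxC N ×ˢ BxC N), (nu p).real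
        {z | (nr k.1.1 = N - 1 ∧ nr k.1.2 = N - 1 ∧ nr k.2.1 = N - 1 ∧ nr k.2.2 = N - 1 ∧
        FarN 26 k.1.1 k.1.2 ∧ FarN 26 k.1.1 k.2.1 ∧ FarN 26 k.1.1 k.2.2 ∧ FarN 26 k.1.2 k.2.1 ∧
        FarN 26 k.2.1 k.2.2) ∧ z ∈ Uin e (N * n) n k.1.1 k.1.2 k.2.1 k.2.2} ≤ (c0 ^ B)⁻¹ * X := by
      intro k _
      by_cases hk : (nr k.1.1 = N - 1 ∧ nr k.1.2 = N - 1 ∧ nr k.2.1 = N - 1 ∧ nr k.2.2 = N - 1 ∧
        FarN 26 k.1.1 k.1.2 ∧ FarN 26 k.1.1 k.2.1 ∧ FarN 26 k.1.1 k.2.2 ∧ FarN 26 k.1.2 k.2.1 ∧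
        FarN 26 k.2.1 k.2.2)
      · obtain ⟨h1, h2, h3, h4, f12, f13, f14, f23, f34⟩ := hk
        have hu := uin_le he (c := 2 ^ (ν - 2)) (by omega : 21 ≤ N) (by omega) hn
          (hp.mono (by nlinarith [Nat.one_le_two_pow (n := ν)])) h1 h2 h3 h4 f12 f13 f14 f23 f34
        rw [← hB, ← hX] at hu
        rw [inv_mul_eq_div, le_div_iff₀ hcB, mul_comm]
        refine le_trans (mul_le_mul_of_nonneg_left (measureReal_mono ?_) hcB.le) hu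
        exact fun z hz => hz.2
      · have : {z | (nr k.1.1 = N - 1 ∧ nr k.1.2 = N - 1 ∧ nr k.2.1 = N - 1 ∧ nr k.2.2 = N - 1 ∧
          FarN 26 k.1.1 k.1.2 ∧ FarN 26 k.1.1 k.2.1 ∧ FarN 26 k.1.1 k.2.2 ∧ FarN 26 k.1.2 k.2.1 ∧
          FarN 26 k.2.1 k.2.2) ∧ z ∈ Uin e (N * n) n k.1.1 k.1.2 k.2.1 k.2.2} = ∅ := by
          ext z
          simp only [Set.mem_setOf_eq, Set.mem_empty_iff_false, iff_false]
          exact fun hz => hk hz.1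
        rw [this, measureReal_empty]
        positivity
    refine (Finset.sum_le_sum hterm).trans (le_of_eq ?_)
    rw [Finset.sum_const, Finset.card_product, Finset.card_product, BxC_card, nsmul_eq_mul]
    push_cast
    rw [hN]
    push_cast
    ring
  have hsplit := measureReal_union_le (μ := nu p) (A4 e (N * n) ∩ Gᶜ) (A4 e (N * n) ∩ G)
  rw [← Set.inter_union_distrib_left, Set.compl_union_self, Set.inter_univ] at hsplit
  have h0 : (0 : ℝ) ≤ (nu p).real (A4 e ρ) := measureReal_nonneg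
  calc (nu p).real (A4 e (N * n)) ≤ _ := hsplit
    _ ≤ (nu p).real (A4 e ρ) * (nu p).real Gᶜ + ((2 * 2 ^ ν + 1) ^ 2 : ℝ) ^ 4 * (c0 ^ B)⁻¹ * X :=
        add_le_add hlow hgood
    _ ≤ _ := by
        have : (nu p).real (A4 e ρ) * (nu p).real Gᶜ ≤ (nu p).real (A4 e ρ) * δ :=
          mul_le_mul_of_nonneg_left hb h0
        linarith

/-- **Separation of four arms.** -/
theorem sep_in {c0 : ℝ} (hc0 : 0 < c0) : ∃ K : ℝ, 0 < K ∧ ∀ (p : I) (j : ℕ),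
    RSp c0 p (2 ^ (j + 2)) → ∀ e : Edge, src e = (0, 0) →
      (nu p).real (A4 e (2 ^ (j + 2))) ≤ K * (nu p).real (NiceU e (2 ^ j)) := by
  by_cases hc1 : c0 ≤ 1
  swap
  · refine ⟨1, one_pos, fun p j hp => ?_⟩
    exact absurd (hp.le_one Nat.one_le_two_pow) hc1
  set C0 : ℝ := 4 / c0 ^ 352 with hC0
  have hC0pos : 0 < C0 := by positivity
  have hC1 : 1 ≤ C0 := by
    rw [hC0, le_div_iff₀ (by positivity), one_mul]
    have : c0 ^ 352 ≤ 1 := pow_le_one₀ hc0.le hc1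
    linarith
  obtain ⟨ν, K, hK, hν, hstep⟩ := one_step_gen hc0 hc1 (δ := 1 / (2 * C0)) (by positivity)
  set κ : ℝ := (c0 / 2) ^ (SN 1).card with hκ
  have hκ0 : 0 < κ := by positivity
  refine ⟨max (2 * K) (C0 ^ ν / κ), lt_max_of_lt_right (by positivity), fun p J hp e he => ?_⟩
  refine s5 (a := fun j => (nu p).real (A4 e (2 ^ (j + 2))))
    (b := fun j => (nu p).real (NiceU e (2 ^ j))) (J0 := ν) (J := J) (δ := 1 / (2 * C0)) (K := K)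
    (C0 := C0) (κ := κ) hκ0 hC1 hK (fun j => measureReal_le_one) ?_ ?_ (by positivity) ?_ ?_ J
    le_rfl
  · have := nice_base hp Nat.one_le_two_pow he
    simpa using this
  · intro j hj
    have h1 := niceU_ext (n := 2 ^ j) Nat.one_le_two_pow
      (hp.mono (Nat.pow_le_pow_right (by norm_num) (by omega))) he
    have h2 : 2 * 2 ^ j = 2 ^ (j + 1) := by rw [pow_succ]; ring
    rw [h2] at h1
    exact h1
  · rw [div_mul_eq_mul_div, one_mul, div_le_div_iff₀ (by positivity) (by norm_num)]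
    linarith
  · intro j hj0 hj
    have e1 : 2 ^ ν * 2 ^ (j + 3 - ν) = 2 ^ (j + 3) := by
      rw [← pow_add]; congr 1; omega
    have h1 := hstep p (2 ^ (j + 3 - ν)) (by
      calc 2 = 2 ^ 1 := by norm_num
        _ ≤ 2 ^ (j + 3 - ν) := Nat.pow_le_pow_right (by norm_num) (by omega))
      (by rw [e1]; exact hp.mono (Nat.pow_le_pow_right (by norm_num) (by omega))) e he
      (2 ^ (j + 2)) (one_le_pow₀ (by norm_num)) (by
        have : ((2 : ℤ) ^ ν * ((2 ^ (j + 3 - ν) : ℕ) : ℤ)) = 2 ^ (j + 3) := by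
          exact_mod_cast e1
        rw [this, pow_succ 2 (j + 2)]
        linarith)
    have e2 : ((2 : ℤ) ^ ν * ((2 ^ (j + 3 - ν) : ℕ) : ℤ)) = 2 ^ (j + 3) := by exact_mod_cast e1
    have e3 : 2 ^ (ν - 2) * 2 ^ (j + 3 - ν) = 2 ^ (j + 1) := by
      rw [← pow_add]; congr 1; omega
    rw [e2, e3] at h1
    exact h1

end Crest.Agent.R158.Sp580
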