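import Crest.Agent.R158.Sh2_158
import Crest.Agent.R158.Sp5_580

/-!
# Row 158, Block SEP2 (helper158), part 3: separation of two arms

* `sep2` : `P (A2 f (2^(j+2))) ≤ K P (Nice2 f (2^j))`
-/

set_option autoImplicit false

noncomputable section

namespace Crest.Agent.R158.Sh158

open MeasureTheory ProbabilityTheory unitInterval
open Crest.Agent.R161.Geo729 Crest.Agent.R161.Topo374 Crest.Agent.R161.Dual374
open Crest.Agent.R161.Tas682 hiding Sq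
open Crest.Agent.R158.Rs689 Crest.Agent.R158.Sp580 Crest.Agent.R158.Sb689 Crest.Agent.R158.Sg158
open Crest.Agent.R158.Ru874 hiding An
open Crest.Agent.R158.Cpl963 (An mem_An)
open Crest.Agent.R158.Kd458 (Gd)
open Crest.Agent.R158.Sq200 (BdV)
open Crest.Agent.R158.Sp874 (nr cl FarN)

theorem goodS_sub {R t r t1 s c s1 b : ℤ} :
    GoodS R t r t1 s c s1 b ⊆ Gsc R s c ∩ Gsc R t r := by
  rintro z ⟨-, h1, h2, -⟩
  refine ⟨fun w hw => ?_, fun w hw => ?_⟩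
  · obtain ⟨e1, e2⟩ := bdv_of_sd hw
    exact h1 w e1 e2
  · obtain ⟨e1, e2⟩ := bdv_of_sd hw
    exact h2 w e1 e2

theorem nr_FI {f : P2} (hf : Nr f) {R : ℤ} (hR : 2 ≤ R) : f ∈ FI R := by
  obtain ⟨q1, q2, q3, q4⟩ := hf
  rw [mem_FI]
  omega

theorem a2_bad {p : I} {f : P2} (hf : Nr f) {R t r t1 s c s1 b ρ : ℤ} (h1 : s1 ≤ b)
    (h2 : c ≤ b) (h3 : r ≤ b) (hρ1 : 2 ≤ ρ) (hb0 : 0 ≤ b) (hρ : ρ + b + 4 ≤ R) :
    (nu p).real (A2 f R ∩ (GoodS R t r t1 s c s1 b)ᶜ) ≤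
      (nu p).real (A2 f ρ) * (nu p).real (GoodS R t r t1 s c s1 b)ᶜ := by
  rw [← LocD.indep p (D := Sp580.Sq ρ) (D' := {v | ρ < sd (0, 0) v}) ?_
    (locD_A2 f ρ) (locD_compl (locD_good h1 h2 h3 hρ))]
  · exact measureReal_mono (Set.inter_subset_inter_left _
      (a2_mono (by omega) (by omega) (nr_FI hf hρ1))) (measure_ne_top _ _)
  · rw [Set.disjoint_left]
    intro v hv hv'
    have a1 : sd (0, 0) v ≤ ρ := sd0_le.2 (by rw [mem_Sq] at hv; exact hv)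
    have a2 : ρ < sd (0, 0) v := hv'
    omega

/-- one step of the recursion, general form -/
theorem one_step2 {c0 : ℝ} (hc0 : 0 < c0) (hc1 : c0 ≤ 1) {δ : ℝ} (hδ : 0 < δ) :
    ∃ (ν : ℕ) (K : ℝ), 0 ≤ K ∧ 9 ≤ ν ∧ ∀ (p : I) (n : ℕ), 2 ≤ n → RSp c0 p (2 ^ ν * n) →
      ∀ f : P2, Nr f → ∀ ρ : ℤ, 2 ≤ ρ → 2 * ρ ≤ 2 ^ ν * n →
      (nu p).real (A2 f (2 ^ ν * n)) ≤
        δ * (nu p).real (A2 f ρ) + K * (nu p).real (Nice2 f (2 ^ (ν - 2) * n)) := by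
  classical
  obtain ⟨A1, A2', A3, hA3, hbad⟩ := bad_small hc0 hc1 hδ
  set ν := 9 + A1 + A2' + A3 with hν
  have hNN : NN A1 A2' A3 = 2 ^ ν := rfl
  set B : ℕ := 4 * (52 * 2 ^ (ν - 2) + 2) ^ 2 with hB
  refine ⟨ν, 128 * ((2 ^ ν : ℕ) : ℝ) ^ 2 / c0 ^ B, by positivity, by omega, ?_⟩
  intro p n hn hp f hf ρ hρ1 hρ
  set N : ℕ := 2 ^ ν with hN
  have hN512 : 512 ≤ N := by
    calc 512 = 2 ^ 9 := by norm_num
      _ ≤ 2 ^ ν := Nat.pow_le_pow_right (by norm_num) (by omega)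
  have hN4 : 4 * 2 ^ (ν - 2) = N := by
    rw [hN, show (4 : ℕ) = 2 ^ 2 by norm_num, ← pow_add]
    congr 1
    omega
  have hn0 : (2 : ℤ) ≤ n := by exact_mod_cast hn
  have hcast : ((2 : ℤ) ^ ν * n) = (N : ℤ) * n := by rw [hN]; push_cast; ring
  rw [hcast] at hρ ⊢
  -- radii
  have p1 : (1 : ℤ) ≤ 2 ^ A1 := one_le_pow₀ (by norm_num)
  have p2 : (1 : ℤ) ≤ 2 ^ A2' := one_le_pow₀ (by norm_num)
  have p3 : (16 : ℤ) ≤ 2 ^ A3 := by
    calc (16 : ℤ) = 2 ^ 4 := by norm_num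
      _ ≤ 2 ^ A3 := pow_le_pow_right₀ (by norm_num) hA3
  have x3 : 16 * (n : ℤ) ≤ 2 ^ A3 * n := by nlinarith
  have x2 : 2 ^ A3 * (n : ℤ) ≤ 2 ^ A3 * 2 ^ A2' * n := by
    have : 2 ^ A3 * (n : ℤ) * 1 ≤ 2 ^ A3 * n * 2 ^ A2' :=
      mul_le_mul_of_nonneg_left p2 (by positivity)
    linarith
  have x1 : 2 ^ A3 * 2 ^ A2' * (n : ℤ) ≤ 2 ^ A3 * 2 ^ A2' * 2 ^ A1 * n := by
    have : 2 ^ A3 * 2 ^ A2' * (n : ℤ) * 1 ≤ 2 ^ A3 * 2 ^ A2' * n * 2 ^ A1 :=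
      mul_le_mul_of_nonneg_left p1 (by positivity)
    linarith
  have eR := NN_mul A1 A2' A3 n
  rw [hNN] at eR
  have eT : rT n = 16 * n := rfl
  have eRr : rR A3 n = 16 * (2 ^ A3 * n) := by unfold rR; ring
  have eT1 : rT1 A3 n = 32 * (2 ^ A3 * n) := by unfold rT1; ring
  have eS : rS A3 n = 32 * (2 ^ A3 * n) := by unfold rS; ring
  have eC : rC A2' A3 n = 32 * (2 ^ A3 * 2 ^ A2' * n) := by unfold rC; ring
  have eS1 : rS1 A2' A3 n = 64 * (2 ^ A3 * 2 ^ A2' * n) := by unfold rS1; ring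
  have eB : rB A1 A2' A3 n = 64 * (2 ^ A3 * 2 ^ A2' * 2 ^ A1 * n) := by unfold rB; ring
  set G : Set Cf := GoodS (N * n) (rT n) (rR A3 n) (rT1 A3 n) (rS A3 n) (rC A2' A3 n)
    (rS1 A2' A3 n) (rB A1 A2' A3 n) with hG
  have hb : (nu p).real Gᶜ ≤ δ := by
    have := hbad p n (by omega) (by rw [hNN]; exact hp)
    rw [hNN] at this
    exact this
  have hlow := a2_bad (p := p) hf (R := N * n) (t := rT n) (r := rR A3 n) (t1 := rT1 A3 n)
    (s := rS A3 n) (c := rC A2' A3 n) (s1 := rS1 A2' A3 n) (b := rB A1 A2' A3 n) (ρ := ρ)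
    (by omega) (by omega) (by omega) hρ1 (by omega) (by omega)
  have hstep := a2_step hf (N := N) (q := 2 ^ (ν - 2)) (by omega) (by omega) hn
    (hp.mono (by nlinarith [Nat.one_le_two_pow (n := ν)])) (t := rT n) (r := rR A3 n)
    (s := rS A3 n) (c := rC A2' A3 n) (by omega) (by omega) (by omega) (by omega) (by omega)
    (by omega)
  have hgood : (nu p).real (A2 f (N * n) ∩ G) ≤
      128 * (N : ℝ) ^ 2 / c0 ^ B * (nu p).real (Nice2 f (2 ^ (ν - 2) * n)) :=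
    (measureReal_mono (Set.inter_subset_inter_right _ goodS_sub) (measure_ne_top _ _)).trans hstep
  have hsplit := measureReal_union_le (μ := nu p) (A2 f (N * n) ∩ Gᶜ) (A2 f (N * n) ∩ G)
  rw [← Set.inter_union_distrib_left, Set.compl_union_self, Set.inter_univ] at hsplit
  have h0 : (0 : ℝ) ≤ (nu p).real (A2 f ρ) := measureReal_nonneg
  have h5 : (nu p).real (A2 f ρ) * (nu p).real Gᶜ ≤ (nu p).real (A2 f ρ) * δ :=
    mul_le_mul_of_nonneg_left hb h0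
  linarith

/-- **Separation of two arms.** -/
theorem sep2 {c0 : ℝ} (hc0 : 0 < c0) : ∃ K : ℝ, 0 < K ∧ ∀ (p : I) (j : ℕ),
    RSp c0 p (2 ^ (j + 2)) → ∀ f : P2, Nr f →
      (nu p).real (A2 f (2 ^ (j + 2))) ≤ K * (nu p).real (Nice2 f (2 ^ j)) := by
  by_cases hc1 : c0 ≤ 1
  swap
  · refine ⟨1, one_pos, fun p j hp => ?_⟩
    exact absurd (hp.le_one Nat.one_le_two_pow) hc1
  set C0 : ℝ := 1 / c0 ^ 176 with hC0
  have hC0pos : 0 < C0 := by positivity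
  have hC1 : 1 ≤ C0 := by
    rw [hC0, le_div_iff₀ (by positivity), one_mul]
    exact pow_le_one₀ hc0.le hc1
  obtain ⟨ν, K, hK, hν, hstep⟩ := one_step2 hc0 hc1 (δ := 1 / (2 * C0)) (by positivity)
  set κ : ℝ := (c0 / 2) ^ (SN2 1).card with hκ
  have hκ0 : 0 < κ := by positivity
  refine ⟨max (2 * K) (C0 ^ ν / κ), lt_max_of_lt_right (by positivity), fun p J hp f hf => ?_⟩
  refine s5 (a := fun j => (nu p).real (A2 f (2 ^ (j + 2))))
    (b := fun j => (nu p).real (Nice2 f (2 ^ j))) (J0 := ν) (J := J) (δ := 1 / (2 * C0)) (K := K)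
    (C0 := C0) (κ := κ) hκ0 hC1 hK (fun j => measureReal_le_one) ?_ ?_ (by positivity) ?_ ?_ J
    le_rfl
  · have := nice2_base hp Nat.one_le_two_pow hf
    simpa using this
  · intro j hj
    have h1 := nice2_ext' (n := 2 ^ j) Nat.one_le_two_pow
      (hp.mono (Nat.pow_le_pow_right (by norm_num) (by omega))) f
    have h2 : 2 * 2 ^ j = 2 ^ (j + 1) := by rw [pow_succ]; ring
    rw [h2] at h1
    exact h1
  · rw [div_mul_eq_mul_div, one_mul, div_le_div_iff₀ (by positivity) (by norm_num)]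
    linarith
  · intro j hj0 hj
    have e1 : 2 ^ ν * 2 ^ (j + 3 - ν) = 2 ^ (j + 3) := by
      rw [← pow_add]; congr 1; omega
    have h1 := hstep p (2 ^ (j + 3 - ν)) (by
      calc 2 = 2 ^ 1 := by norm_num
        _ ≤ 2 ^ (j + 3 - ν) := Nat.pow_le_pow_right (by norm_num) (by omega))
      (by rw [e1]; exact hp.mono (Nat.pow_le_pow_right (by norm_num) (by omega))) f hf
      (2 ^ (j + 2)) (by
        calc (2 : ℤ) ≤ 2 ^ 2 := by norm_num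
          _ ≤ 2 ^ (j + 2) := pow_le_pow_right₀ (by norm_num) (by omega)) (by
        have : ((2 : ℤ) ^ ν * ((2 ^ (j + 3 - ν) : ℕ) : ℤ)) = 2 ^ (j + 3) := by
          exact_mod_cast e1
        rw [this, pow_succ 2 (j + 2)]
        linarith)
    have e2 : ((2 : ℤ) ^ ν * ((2 ^ (j + 3 - ν) : ℕ) : ℤ)) = 2 ^ (j + 3) := by exact_mod_cast e1
    have e3 : 2 ^ (ν - 2) * 2 ^ (j + 3 - ν) = 2 ^ (j + 1) := by
      rw [← pow_add]; congr 1; omega
    rw [e2, e3] at h1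
    exact h1

/-- extension by a factor two -/
theorem ext2 {c0 : ℝ} (hc0 : 0 < c0) : ∃ K : ℝ, 0 < K ∧ ∀ (p : I) (n : ℕ), 1 ≤ n →
    RSp c0 p n → ∀ f : P2, (nu p).real (Nice2 f n) ≤ K * (nu p).real (Nice2 f (2 * n)) :=
  ⟨1 / c0 ^ 176, by positivity, fun _ _ hn h f => nice2_ext' hn h f⟩

end Crest.Agent.R158.Sh158
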