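import Crest.Agent.R158.Vx2_107

/-!
# R158, Block V (helper107), file 3: vertex algebra, pointwise

Local unit charges at an edge `e`: `dE e` (source minus target), `dO e` (face of `i1` minus face of
`i2`), `dC c` (dual face minus vertex of the corner `c`).

* `V0`       : `W (m + π/2 dC c) z = -(sg * Sw (charge inside)) * (product over the other loops)`
* `V0_neg`   : `W (m - π/2 dC c) z = - W (m + π/2 dC c) z`
* `V1`       : difference open - closed in terms of half charges at `e`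
* `V2E, V2O` : the half charges `± dE`, `± dO` give the same
* `V3`       : a charge `π` may be moved from a vertex to another one
-/

set_option autoImplicit false

noncomputable section

namespace Crest.Agent.R158.Vx107

open Crest.Agent.R161.Geo729 Crest.Agent.R161.Dual374
open Crest.Agent.R161.Tas682 (sd)
open Crest.Agent.R158.It200 Crest.Agent.R158.Wf850
open Function Real

/-- unit charges: source minus target -/
def dE (e : Edge) : Face →₀ ℝ :=
  Finsupp.single (src e, false) 1 - Finsupp.single (tgt e, false) 1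

/-- unit charges: the two dual faces of the edge -/
def dO (e : Edge) : Face →₀ ℝ :=
  Finsupp.single (fc (i1 e), true) 1 - Finsupp.single (fc (i2 e), true) 1

/-- unit charges: dual face minus vertex of a corner -/
def dC (c : Corner) : Face →₀ ℝ := Finsupp.single (cf c) 1 - Finsupp.single (cv c) 1

theorem tot_single (f : Face) (r : ℝ) : tot (Finsupp.single f r) = r := Finsupp.sum_single_index rfl

theorem tot_sub (m x : Face →₀ ℝ) : tot (m - x) = tot m - tot x := by
  rw [sub_eq_add_neg, tot_add, tot_neg]; ring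

theorem ntr_dE (e : Edge) : Ntr (dE e) := by
  unfold Ntr dE; rw [tot_sub, tot_single, tot_single, sub_self]

theorem ntr_dO (e : Edge) : Ntr (dO e) := by
  unfold Ntr dO; rw [tot_sub, tot_single, tot_single, sub_self]

theorem ntr_dC (c : Corner) : Ntr (dC c) := by
  unfold Ntr dC; rw [tot_sub, tot_single, tot_single, sub_self]

theorem mass_single (f : Face) (r : ℝ) (A : Finset Face) [Decidable (f ∈ A)] :
    mass (Finsupp.single f r) A = if f ∈ A then r else 0 := by
  classical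
  unfold mass
  by_cases h : f ∈ A
  · rw [if_pos h, Finset.sum_eq_single_of_mem f h]
    · rw [Finsupp.single_eq_same]
    · intro g _ hg; rw [Finsupp.single_eq_of_ne hg]
  · rw [if_neg h]
    refine Finset.sum_eq_zero fun g hg => ?_
    rw [Finsupp.single_eq_of_ne]
    rintro rfl; exact h hg

theorem mass_sub (m x : Face →₀ ℝ) (A : Finset Face) : mass (m - x) A = mass m A - mass x A := by
  rw [sub_eq_add_neg, mass_add, mass_neg]; ring

theorem mass_pair {f g : Face} {A : Finset Face} (h : f ∈ A ↔ g ∈ A) :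
    mass (Finsupp.single f 1 - Finsupp.single g 1) A = 0 := by
  classical
  rw [mass_sub, mass_single, mass_single]
  by_cases hf : f ∈ A
  · rw [if_pos hf, if_pos (h.1 hf), sub_self]
  · rw [if_neg hf, if_neg (fun h' => hf (h.2 h')), sub_self]

theorem loc0_smul {x : Face →₀ ℝ} {z : Cfz} {e : Edge} (h : Loc0 x z e) (r : ℝ) :
    Loc0 (r • x) z e := fun A hA => by rw [mass_smul, h A hA, mul_zero]

theorem loc0_dE (z : Cfz) (e : Edge) : Loc0 (dE e) z e := fun _ hA => mass_pair (rest_faces hA).1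

theorem loc0_dO (z : Cfz) (e : Edge) : Loc0 (dO e) z e := fun _ hA =>
  mass_pair ((rest_faces hA).2.1.symm.trans (rest_faces hA).2.2)

/-- the four corners at the edge -/
def At (e : Edge) (c : Corner) : Prop := c = i1 e ∨ c = i2 e ∨ c = o1 e ∨ c = o2 e

theorem loc0_dC (z : Cfz) {e : Edge} {c : Corner} (hc : At e c) : Loc0 (dC c) z e := by
  intro A hA
  obtain ⟨h1, h2, h3⟩ := rest_faces hA
  refine mass_pair ?_
  unfold cf cv
  rcases hc with rfl | rfl | rfl | rfl
  · rw [fst_i1]; exact h2.symm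
  · rw [fst_i2]; exact h3.symm.trans h1
  · rw [fst_o1, fc_o1]; exact h3.symm
  · rw [fst_o2, fc_o2]; exact h2.symm.trans h1

theorem th_sub (m x : Face →₀ ℝ) (z : Cfz) (c : Corner) :
    th (m - x) z c = th m z c - th x z c := by
  rw [sub_eq_add_neg, th_add, th_neg]; ring

theorem th_dC {z : Cfz} {d : Corner} (hfin : (Lp z d).Finite) (c : Corner) :
    th (dC c) z d = JL z d c := by
  unfold dC
  rw [th_sub, th_single, th_single, one_mul, one_mul, ht_cf, ht_cv]
  exact_mod_cast hv_grad hfin c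

theorem th_dE (z : Cfz) (d : Corner) (e : Edge) :
    th (dE e) z d = (hv z d (src e) : ℝ) - hv z d (tgt e) := by
  unfold dE
  rw [th_sub, th_single, th_single, one_mul, one_mul, ht_false, ht_false]

theorem th_dO (z : Cfz) (d : Corner) (e : Edge) :
    th (dO e) z d = (hf z d (fc (i1 e)) : ℝ) - hf z d (fc (i2 e)) := by
  unfold dO
  rw [th_sub, th_single, th_single, one_mul, one_mul, ht_true, ht_true]

theorem th_dE_open {z : Cfz} {d : Corner} (hfin : (Lp z d).Finite) {e : Edge} (he : z e = true) :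
    th (dE e) z d = 0 := by
  rw [th_dE]
  have := (JL_inv z d).hv_open (JL_fs hfin) he
  have h2 : hv z d (src e) = hv z d (tgt e) := this
  rw [h2, sub_self]

theorem th_dO_open {z : Cfz} {d : Corner} (hfin : (Lp z d).Finite) {e : Edge} (he : z e = true) :
    th (dO e) z d = JL z d (i1 e) - JL z d (i2 e) := by
  rw [th_dO]
  have h1 := hv_grad hfin (i1 e)
  have h2 := hv_grad hfin (i2 e)
  have h3 : hv z d (src e) = hv z d (tgt e) := (JL_inv z d).hv_open (JL_fs hfin) he
  rw [fst_i1] at h1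
  rw [fst_i2] at h2
  rw [← h1, ← h2]; push_cast; rw [h3]; ring

theorem hf_closed' {z : Cfz} {d : Corner} (hfin : (Lp z d).Finite) {e : Edge} (he : z e = false) :
    hf z d (fc (i1 e)) = hf z d (fc (i2 e)) := by
  have h := (JL_inv z d).hf_closed (JL_fs hfin) he
  have h' : hf z d (fA e) = hf z d (fB e) := h
  rcases fA_or_fB e with ⟨h1, h2⟩ | ⟨h1, h2⟩ <;> rw [fc_o1] at h2 <;> rw [h1, h2, h']

theorem th_dO_closed {z : Cfz} {d : Corner} (hfin : (Lp z d).Finite) {e : Edge}
    (he : z e = false) : th (dO e) z d = 0 := by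
  rw [th_dO, hf_closed' hfin he, sub_self]

theorem th_dE_closed {z : Cfz} {d : Corner} (hfin : (Lp z d).Finite) {e : Edge}
    (he : z e = false) : th (dE e) z d = JL z d (i2 e) - JL z d (i1 e) := by
  rw [th_dE]
  have h1 := hv_grad hfin (i1 e)
  have h2 := hv_grad hfin (i2 e)
  have h3 := hf_closed' hfin he
  rw [fst_i1] at h1
  rw [fst_i2] at h2
  rw [← h1, ← h2]; push_cast; rw [h3]; ring

/-! ### values with local charges -/

section

variable {z : Cfz} {e : Edge} {m x : Face →₀ ℝ}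

theorem W_one_add (hfin : (Lp z (i1 e)).Finite) (h : i2 e ∈ Lp z (i1 e)) (hm : Ntr m) (hx : Ntr x)
    (hl : Loc0 x z e) :
    W (m + x) z = Fw (sg z (i1 e) * (th m z (i1 e) + th x z (i1 e))) * RP m z e := by
  rw [W_one hfin h (hm.add hx), RP_add hl, th_add]

theorem W_two_add (hfin : (Lp z (i1 e)).Finite) (hfin' : (Lp z (i2 e)).Finite)
    (h : i2 e ∉ Lp z (i1 e)) (hm : Ntr m) (hx : Ntr x) (hl : Loc0 x z e) :
    W (m + x) z = Fw (sg z (i1 e) * (th m z (i1 e) + th x z (i1 e))) *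
      Fw (sg z (i2 e) * (th m z (i2 e) + th x z (i2 e))) * RP m z e := by
  rw [W_two hfin hfin' h (hm.add hx), RP_add hl, th_add, th_add]

end

/-- finiteness is preserved by a flip -/
theorem fin_flip {z : Cfz} {e : Edge} (h1 : (Lp z (i1 e)).Finite) (h2 : (Lp z (i2 e)).Finite) :
    (Lp (flip z e) (i1 e)).Finite ∧ (Lp (flip z e) (i2 e)).Finite := by
  have h := flip_union z e
  have h3 : (Lp z (i1 e) ∪ Lp z (i2 e)).Finite := h1.union h2
  rw [← h] at h3
  exact ⟨h3.subset Set.subset_union_left, h3.subset Set.subset_union_right⟩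

theorem ht_split {z : Cfz} {e : Edge} (hfin : (Lp z (i1 e)).Finite) (h : i2 e ∈ Lp z (i1 e))
    (f : Face) : ht z (i1 e) f = ht (flip z e) (i1 e) f + ht (flip z e) (i2 e) f := by
  obtain ⟨v, b⟩ := f
  cases b
  · exact hv_split hfin h v
  · exact hf_split hfin h v

theorem th_split {z : Cfz} {e : Edge} (hfin : (Lp z (i1 e)).Finite) (h : i2 e ∈ Lp z (i1 e))
    (m : Face →₀ ℝ) : th m z (i1 e) = th m (flip z e) (i1 e) + th m (flip z e) (i2 e) := by
  unfold th
  rw [← Finsupp.sum_add]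
  refine Finsupp.sum_congr fun f _ => ?_
  rw [ht_split hfin h f]; push_cast; ring

/-- half charges at the four corners -/
def S4 (m : Face →₀ ℝ) (z : Cfz) (e : Edge) : ℝ :=
  W (m + (π / 2) • dC (i1 e)) z + W (m + (π / 2) • dC (i2 e)) z +
    W (m + (π / 2) • dC (o1 e)) z + W (m + (π / 2) • dC (o2 e)) z

section

variable {z : Cfz} {e : Edge} {m : Face →₀ ℝ}

theorem one_dC (hfin : (Lp z (i1 e)).Finite) (h : i2 e ∈ Lp z (i1 e)) (hm : Ntr m) {c : Corner}
    (hc : At e c) :
    W (m + (π / 2) • dC c) z =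
      -((sg z (i1 e) : ℝ) * Sw (sg z (i1 e) * th m z (i1 e))) * RP m z e := by
  have hc1 : c ∈ Lp z (i1 e) := by
    rcases hc with rfl | rfl | rfl | rfl
    · exact mem_Lp_self _ _
    · exact h
    · rcases out_mem z e with ⟨h1, -⟩ | ⟨h1, -⟩
      · exact h1
      · rwa [Lp_eq h] at h1
    · rcases out_mem z e with ⟨-, h1⟩ | ⟨-, h1⟩
      · rwa [Lp_eq h] at h1
      · exact h1
  rw [W_one_add hfin h hm ((ntr_dC c).smul _) (loc0_smul (loc0_dC z hc) _), th_smul,
    th_dC hfin c, JL_mem hc1, Int.cast_one, mul_one, Fw_sg_add (sg_one' hfin)]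

theorem S4_one (hfin : (Lp z (i1 e)).Finite) (h : i2 e ∈ Lp z (i1 e)) (hm : Ntr m) :
    S4 m z e = -(4 * ((sg z (i1 e) : ℝ) * Sw (sg z (i1 e) * th m z (i1 e)))) * RP m z e := by
  unfold S4
  rw [one_dC hfin h hm (Or.inl rfl), one_dC hfin h hm (Or.inr (Or.inl rfl)),
    one_dC hfin h hm (Or.inr (Or.inr (Or.inl rfl))), one_dC hfin h hm (Or.inr (Or.inr (Or.inr rfl)))]
  ring

theorem W_dE_one (hfin : (Lp z (i1 e)).Finite) (h : i2 e ∈ Lp z (i1 e)) (hm : Ntr m) (r : ℝ) :
    W (m + r • dE e) z = W m z := by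
  have h0 : th (dE e) z (i1 e) = 0 := by
    cases he : z e with
    | true => exact th_dE_open hfin he
    | false =>
        rw [th_dE_closed hfin he, JL_mem (mem_Lp_self _ _), JL_mem h, sub_self]
  rw [W_one_add hfin h hm ((ntr_dE e).smul _) (loc0_smul (loc0_dE z e) _), th_smul, h0, mul_zero,
    add_zero, W_one hfin h hm]

theorem W_dO_one (hfin : (Lp z (i1 e)).Finite) (h : i2 e ∈ Lp z (i1 e)) (hm : Ntr m) (r : ℝ) :
    W (m + r • dO e) z = W m z := by
  have h0 : th (dO e) z (i1 e) = 0 := by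
    cases he : z e with
    | true => rw [th_dO_open hfin he, JL_mem (mem_Lp_self _ _), JL_mem h, sub_self]
    | false => exact th_dO_closed hfin he
  rw [W_one_add hfin h hm ((ntr_dO e).smul _) (loc0_smul (loc0_dO z e) _), th_smul, h0, mul_zero,
    add_zero, W_one hfin h hm]

theorem two_dC_fst (hfin : (Lp z (i1 e)).Finite) (hfin' : (Lp z (i2 e)).Finite)
    (h : i2 e ∉ Lp z (i1 e)) (hm : Ntr m) {c : Corner} (hc : At e c) (hc1 : c ∈ Lp z (i1 e)) :
    W (m + (π / 2) • dC c) z =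
      -((sg z (i1 e) : ℝ) * Sw (sg z (i1 e) * th m z (i1 e))) *
        Fw (sg z (i2 e) * th m z (i2 e)) * RP m z e := by
  have hc2 : c ∉ Lp z (i2 e) := fun h' => h (by
    have e1 := Lp_eq hc1
    have e2 := Lp_eq h'
    rw [← e1, e2]; exact mem_Lp_self _ _)
  rw [W_two_add hfin hfin' h hm ((ntr_dC c).smul _) (loc0_smul (loc0_dC z hc) _), th_smul, th_smul,
    th_dC hfin c, th_dC hfin' c, JL_mem hc1, JL_not_mem hc2, Int.cast_one, Int.cast_zero, mul_one,
    mul_zero, add_zero, Fw_sg_add (sg_one' hfin)]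

theorem two_dC_snd (hfin : (Lp z (i1 e)).Finite) (hfin' : (Lp z (i2 e)).Finite)
    (h : i2 e ∉ Lp z (i1 e)) (hm : Ntr m) {c : Corner} (hc : At e c) (hc1 : c ∈ Lp z (i2 e)) :
    W (m + (π / 2) • dC c) z =
      -((sg z (i2 e) : ℝ) * Sw (sg z (i2 e) * th m z (i2 e))) *
        Fw (sg z (i1 e) * th m z (i1 e)) * RP m z e := by
  have hc2 : c ∉ Lp z (i1 e) := fun h' => h (by
    have e1 := Lp_eq hc1
    have e2 := Lp_eq h'
    rw [← e2, e1]; exact mem_Lp_self _ _)
  rw [W_two_add hfin hfin' h hm ((ntr_dC c).smul _) (loc0_smul (loc0_dC z hc) _), th_smul, th_smul,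
    th_dC hfin c, th_dC hfin' c, JL_mem hc1, JL_not_mem hc2, Int.cast_one, Int.cast_zero, mul_one,
    mul_zero, add_zero, Fw_sg_add (sg_one' hfin')]
  ring

theorem S4_two (hfin : (Lp z (i1 e)).Finite) (hfin' : (Lp z (i2 e)).Finite)
    (h : i2 e ∉ Lp z (i1 e)) (hm : Ntr m) :
    S4 m z e = -(2 * ((sg z (i1 e) : ℝ) * Sw (sg z (i1 e) * th m z (i1 e)) *
        Fw (sg z (i2 e) * th m z (i2 e)) +
        (sg z (i2 e) : ℝ) * Sw (sg z (i2 e) * th m z (i2 e)) *
        Fw (sg z (i1 e) * th m z (i1 e)))) * RP m z e := by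
  unfold S4
  rw [two_dC_fst hfin hfin' h hm (c := i1 e) (Or.inl rfl) (mem_Lp_self _ _),
    two_dC_snd hfin hfin' h hm (c := i2 e) (Or.inr (Or.inl rfl)) (mem_Lp_self _ _)]
  rcases out_mem z e with ⟨h1, h2⟩ | ⟨h1, h2⟩
  · rw [two_dC_fst hfin hfin' h hm (c := o1 e) (Or.inr (Or.inr (Or.inl rfl))) h1,
      two_dC_snd hfin hfin' h hm (c := o2 e) (Or.inr (Or.inr (Or.inr rfl))) h2]
    ring
  · rw [two_dC_snd hfin hfin' h hm (c := o1 e) (Or.inr (Or.inr (Or.inl rfl))) h1,
      two_dC_fst hfin hfin' h hm (c := o2 e) (Or.inr (Or.inr (Or.inr rfl))) h2]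
    ring

/-- `dE` is invisible at an open edge -/
theorem W_dE_open (hfin : (Lp z (i1 e)).Finite) (hfin' : (Lp z (i2 e)).Finite) (he : z e = true)
    (hm : Ntr m) (r : ℝ) : W (m + r • dE e) z = W m z := by
  by_cases h : i2 e ∈ Lp z (i1 e)
  · exact W_dE_one hfin h hm r
  · rw [W_two_add hfin hfin' h hm ((ntr_dE e).smul _) (loc0_smul (loc0_dE z e) _), th_smul, th_smul,
      th_dE_open hfin he, th_dE_open hfin' he, mul_zero, add_zero, add_zero,
      W_two hfin hfin' h hm]

/-- `dO` is invisible at a closed edge -/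
theorem W_dO_closed (hfin : (Lp z (i1 e)).Finite) (hfin' : (Lp z (i2 e)).Finite)
    (he : z e = false) (hm : Ntr m) (r : ℝ) : W (m + r • dO e) z = W m z := by
  by_cases h : i2 e ∈ Lp z (i1 e)
  · exact W_dO_one hfin h hm r
  · rw [W_two_add hfin hfin' h hm ((ntr_dO e).smul _) (loc0_smul (loc0_dO z e) _), th_smul, th_smul,
      th_dO_closed hfin he, th_dO_closed hfin' he, mul_zero, add_zero, add_zero,
      W_two hfin hfin' h hm]

/-- `± dO` at an open edge, two strands -/
theorem W_dO_two (hfin : (Lp z (i1 e)).Finite) (hfin' : (Lp z (i2 e)).Finite)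
    (h : i2 e ∉ Lp z (i1 e)) (he : z e = true) (hm : Ntr m) {r : ℝ}
    (hr : r = π / 2 ∨ r = -(π / 2)) :
    W (m + r • dO e) z = -((sg z (i1 e) : ℝ) * Sw (sg z (i1 e) * th m z (i1 e)) *
        ((sg z (i2 e) : ℝ) * Sw (sg z (i2 e) * th m z (i2 e)))) * RP m z e := by
  have hne' : i1 e ∉ Lp z (i2 e) := fun h' => h h'.symm
  rw [W_two_add hfin hfin' h hm ((ntr_dO e).smul _) (loc0_smul (loc0_dO z e) _), th_smul, th_smul,
    th_dO_open hfin he, th_dO_open hfin' he, JL_mem (mem_Lp_self z (i1 e)), JL_not_mem h,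
    JL_mem (mem_Lp_self z (i2 e)), JL_not_mem hne', Int.cast_one, Int.cast_zero, sub_zero,
    zero_sub, mul_one, mul_neg, mul_one]
  rcases hr with rfl | rfl
  · rw [Fw_sg_add (sg_one' hfin), ← sub_eq_add_neg, Fw_sg_sub (sg_one' hfin')]; ring
  · rw [neg_neg, Fw_sg_add (sg_one' hfin'), ← sub_eq_add_neg, Fw_sg_sub (sg_one' hfin)]; ring

/-- `± dE` at a closed edge, two strands -/
theorem W_dE_two (hfin : (Lp z (i1 e)).Finite) (hfin' : (Lp z (i2 e)).Finite)
    (h : i2 e ∉ Lp z (i1 e)) (he : z e = false) (hm : Ntr m) {r : ℝ}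
    (hr : r = π / 2 ∨ r = -(π / 2)) :
    W (m + r • dE e) z = -((sg z (i1 e) : ℝ) * Sw (sg z (i1 e) * th m z (i1 e)) *
        ((sg z (i2 e) : ℝ) * Sw (sg z (i2 e) * th m z (i2 e)))) * RP m z e := by
  have hne' : i1 e ∉ Lp z (i2 e) := fun h' => h h'.symm
  rw [W_two_add hfin hfin' h hm ((ntr_dE e).smul _) (loc0_smul (loc0_dE z e) _), th_smul, th_smul,
    th_dE_closed hfin he, th_dE_closed hfin' he, JL_mem (mem_Lp_self z (i1 e)), JL_not_mem h,
    JL_mem (mem_Lp_self z (i2 e)), JL_not_mem hne', Int.cast_one, Int.cast_zero, sub_zero,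
    zero_sub, mul_one, mul_neg, mul_one]
  rcases hr with rfl | rfl
  · rw [Fw_sg_add (sg_one' hfin'), ← sub_eq_add_neg, Fw_sg_sub (sg_one' hfin)]; ring
  · rw [neg_neg, Fw_sg_add (sg_one' hfin), ← sub_eq_add_neg, Fw_sg_sub (sg_one' hfin')]; ring

end

/-- **V1, two strands at the closed state merge / split**: `z e = false` -/
theorem V1 {z : Cfz} {e : Edge} (he : z e = false) (h1 : (Lp z (i1 e)).Finite)
    (h2 : (Lp z (i2 e)).Finite) {m : Face →₀ ℝ} (hm : Ntr m) :
    W m (flip z e) - W m z =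
      (1 / 2) * ((W (m + (π / 2) • dE e) (flip z e) + W (m + (π / 2) • dE e) z)
        - (W (m + (π / 2) • dO e) (flip z e) + W (m + (π / 2) • dO e) z))
      + tan (π / 6) / 4 * (S4 m (flip z e) e + S4 m z e) := by
  obtain ⟨f1, f2⟩ := fin_flip h1 h2
  have he' : flip z e e = true := by rw [flip_same, he]; rfl
  rw [W_dE_open f1 f2 he' hm, W_dO_closed h1 h2 he hm]
  by_cases h : i2 e ∈ Lp z (i1 e)
  · -- one strand in `z`, two in `flip z e`
    have hn := flip_split h1 h
    have ht := th_split h1 h m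
    have hsg : (((sg z (i1 e) : ℝ) = 1 ∧ (sg (flip z e) (i1 e) : ℝ) = 1 ∧
        (sg (flip z e) (i2 e) : ℝ) = 1) ∨ ((sg z (i1 e) : ℝ) = -1 ∧
        (sg (flip z e) (i1 e) : ℝ) = -1 ∧ (sg (flip z e) (i2 e) : ℝ) = 1) ∨
        ((sg z (i1 e) : ℝ) = -1 ∧ (sg (flip z e) (i1 e) : ℝ) = 1 ∧
        (sg (flip z e) (i2 e) : ℝ) = -1)) := by
      rcases split_closed_open he h1 h with ⟨a, b, c, -⟩ | ⟨a, b, c, -⟩ | ⟨a, b, c, -⟩
      · left; rw [a, b, c]; norm_num
      · right; left; rw [a, b, c]; norm_num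
      · right; right; rw [a, b, c]; norm_num
    have key := vert_open hsg (th m (flip z e) (i1 e)) (th m (flip z e) (i2 e))
    rw [← ht] at key
    rw [W_dE_one h1 h hm, W_dO_two f1 f2 hn he' hm (Or.inl rfl), S4_one h1 h hm,
      S4_two f1 f2 hn hm, W_one h1 h hm, W_two f1 f2 hn hm, RP_flip]
    linear_combination RP m z e * key
  · -- two strands in `z`, one in `flip z e`
    have hn := flip_merge h2 h
    have ht := th_split f1 hn m
    have hso := split_open_closed he' f1 hn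
    rw [It200.flip_flip] at ht hso
    have hsg : (((sg (flip z e) (i1 e) : ℝ) = -1 ∧ (sg z (i1 e) : ℝ) = -1 ∧
        (sg z (i2 e) : ℝ) = -1) ∨ ((sg (flip z e) (i1 e) : ℝ) = 1 ∧
        (sg z (i1 e) : ℝ) = 1 ∧ (sg z (i2 e) : ℝ) = -1) ∨
        ((sg (flip z e) (i1 e) : ℝ) = 1 ∧ (sg z (i1 e) : ℝ) = -1 ∧
        (sg z (i2 e) : ℝ) = 1)) := by
      rcases hso with ⟨a, b, c, -⟩ | ⟨a, b, c, -⟩ | ⟨a, b, c, -⟩
      · left; rw [a, b, c]; norm_num
      · right; left; rw [a, b, c]; norm_num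
      · right; right; rw [a, b, c]; norm_num
    have key := vert_closed hsg (th m z (i1 e)) (th m z (i2 e))
    rw [← ht] at key
    rw [W_dO_one f1 hn hm, W_dE_two h1 h2 h he hm (Or.inl rfl), S4_one f1 hn hm,
      S4_two h1 h2 h hm, W_one f1 hn hm, W_two h1 h2 h hm, RP_flip]
    linear_combination RP m z e * key

/-- **V2**: the sign of the half charge on `dE` does not matter -/
theorem V2E {z : Cfz} {e : Edge} (h1 : (Lp z (i1 e)).Finite)
    (h2 : (Lp z (i2 e)).Finite) {m : Face →₀ ℝ} (hm : Ntr m) :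
    W (m + (-(π / 2)) • dE e) z = W (m + (π / 2) • dE e) z := by
  cases he : z e with
  | true => rw [W_dE_open h1 h2 he hm, W_dE_open h1 h2 he hm]
  | false =>
      by_cases h : i2 e ∈ Lp z (i1 e)
      · rw [W_dE_one h1 h hm, W_dE_one h1 h hm]
      · rw [W_dE_two h1 h2 h he hm (Or.inr rfl), W_dE_two h1 h2 h he hm (Or.inl rfl)]

theorem V2O {z : Cfz} {e : Edge} (h1 : (Lp z (i1 e)).Finite)
    (h2 : (Lp z (i2 e)).Finite) {m : Face →₀ ℝ} (hm : Ntr m) :
    W (m + (-(π / 2)) • dO e) z = W (m + (π / 2) • dO e) z := by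
  cases he : z e with
  | false => rw [W_dO_closed h1 h2 he hm, W_dO_closed h1 h2 he hm]
  | true =>
      by_cases h : i2 e ∈ Lp z (i1 e)
      · rw [W_dO_one h1 h hm, W_dO_one h1 h hm]
      · rw [W_dO_two h1 h2 h he hm (Or.inr rfl), W_dO_two h1 h2 h he hm (Or.inl rfl)]

end Crest.Agent.R158.Vx107
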