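import Crest.Agent.R158.Vn2_841
import Crest.Agent.R158.Vx3_107

/-!
# R158, V4 (helper841), part 3: normal forms of the weight functional at one edge / one corner

`m = μ + single u (±π)` neutral, `W`, `mass`, `Rest` as in `Vx2_107`.

* `nab m z e = W m (open) - W m (closed)`
* `RX μ u z e` : product over the loops not visiting `e`, `-Fw (mass μ A)` if `u ∈ A`, `Fw (mass μ A)`
  otherwise;  `RP_base`
* `nab_side`, `nab_nest1`, `nab_nest2` (X2): `4 sin M₁ sin M₂ · RX`, `-4 sin (Mo - π/3) sin Mi · RX`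
* `Oth z c` : loops not visiting the corner `c`;  `W_corner`
* `two_strand_pos`, `two_strand_neg` (X3), `charge_corner` ((D), pointwise), `X3'`
-/

set_option autoImplicit false

noncomputable section

namespace Crest.Agent.R158.Vn841

open Crest.Agent.R161.Geo729 Crest.Agent.R161.Dual374
open Crest.Agent.R158.It200 Crest.Agent.R158.Wf850
open Crest.Agent.R158.Vx107 (Fw Sw mass tot Ntr W Rest RP mass_add mass_single mass_sub mass_neg
  mass_smul fin_supp rest_sub dC Fw_add_pi Fw_sub_pi Fw_zero)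
open Function Real

/-! ### the two states -/

/-- `e` opened -/
def op (z : Cfz) (e : Edge) : Cfz := Function.update z e true

/-- `e` closed -/
def cl (z : Cfz) (e : Edge) : Cfz := Function.update z e false

theorem op_of_true {z : Cfz} {e : Edge} (h : z e = true) : op z e = z ∧ cl z e = It200.flip z e := by
  unfold op cl It200.flip
  rw [h]
  refine ⟨?_, rfl⟩
  rw [← h, Function.update_eq_self]

theorem op_of_false {z : Cfz} {e : Edge} (h : z e = false) :
    cl z e = z ∧ op z e = It200.flip z e := by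
  unfold op cl It200.flip
  rw [h]
  refine ⟨?_, rfl⟩
  rw [← h, Function.update_eq_self]

@[simp] theorem op_flip (z : Cfz) (e : Edge) : op (It200.flip z e) e = op z e := by
  unfold op It200.flip; rw [Function.update_idem]

@[simp] theorem cl_flip (z : Cfz) (e : Edge) : cl (It200.flip z e) e = cl z e := by
  unfold cl It200.flip; rw [Function.update_idem]

/-- open minus closed -/
def nab (m : Face →₀ ℝ) (z : Cfz) (e : Edge) : ℝ := W m (op z e) - W m (cl z e)

theorem nab_flip (m : Face →₀ ℝ) (z : Cfz) (e : Edge) : nab m (It200.flip z e) e = nab m z e := by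
  unfold nab; rw [op_flip, cl_flip]

theorem nab_true {m : Face →₀ ℝ} {z : Cfz} {e : Edge} (h : z e = true) :
    nab m z e = W m z - W m (It200.flip z e) := by
  unfold nab; rw [(op_of_true h).1, (op_of_true h).2]

theorem nab_false {m : Face →₀ ℝ} {z : Cfz} {e : Edge} (h : z e = false) :
    nab m z e = W m (It200.flip z e) - W m z := by
  unfold nab; rw [(op_of_false h).1, (op_of_false h).2]

theorem rest_eq (z : Cfz) (e : Edge) : Rest z e = Rst z e := by
  ext A
  unfold Rest Rst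
  rw [Set.mem_ofPred_eq, Set.mem_ofPred_eq, mem_bdE', not_or]

/-! ### the product over the other loops with a base charge -/

open Classical in
/-- factor of the loop `A` seen from the base point `u` -/
def fx (μ : Face →₀ ℝ) (u : Face) (A : Finset Face) : ℝ :=
  if u ∈ A then -Fw (mass μ A) else Fw (mass μ A)

theorem fx_in {μ : Face →₀ ℝ} {u : Face} {A : Finset Face} (h : u ∈ A) :
    fx μ u A = -Fw (mass μ A) := by unfold fx; rw [if_pos h]

theorem fx_out {μ : Face →₀ ℝ} {u : Face} {A : Finset Face} (h : u ∉ A) :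
    fx μ u A = Fw (mass μ A) := by unfold fx; rw [if_neg h]

/-- base charge `± π` -/
def Bs (r : ℝ) : Prop := r = π ∨ r = -π

theorem Fw_bs {r : ℝ} (hr : Bs r) (q : ℝ) : Fw (q + r) = -Fw q := by
  rcases hr with rfl | rfl
  · exact Fw_add_pi q
  · rw [← sub_eq_add_neg]; exact Fw_sub_pi q

theorem mass_base_in {μ : Face →₀ ℝ} {u : Face} {r : ℝ} {A : Finset Face} (h : u ∈ A) :
    mass (μ + Finsupp.single u r) A = mass μ A + r := by
  classical
  rw [mass_add, mass_single, if_pos h]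

theorem mass_base_out {μ : Face →₀ ℝ} {u : Face} {r : ℝ} {A : Finset Face} (h : u ∉ A) :
    mass (μ + Finsupp.single u r) A = mass μ A := by
  classical
  rw [mass_add, mass_single, if_neg h, add_zero]

/-- **factor of a loop in the presence of the base charge** -/
theorem Fw_base {r : ℝ} (hr : Bs r) (μ : Face →₀ ℝ) (u : Face) (A : Finset Face) :
    Fw (mass (μ + Finsupp.single u r) A) = fx μ u A := by
  by_cases h : u ∈ A
  · rw [mass_base_in h, Fw_bs hr, fx_in h]
  · rw [mass_base_out h, fx_out h]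

/-- product over the loops that do not visit `e`, base point `u` -/
def RX (μ : Face →₀ ℝ) (u : Face) (z : Cfz) (e : Edge) : ℝ := ∏ᶠ A ∈ Rest z e, fx μ u A

theorem RP_base {r : ℝ} (hr : Bs r) (μ : Face →₀ ℝ) (u : Face) (z : Cfz) (e : Edge) :
    RP (μ + Finsupp.single u r) z e = RX μ u z e := by
  unfold RP RX
  exact finprod_mem_congr rfl fun A _ => Fw_base hr μ u A

theorem RX_flip (μ : Face →₀ ℝ) (u : Face) (z : Cfz) (e : Edge) :
    RX μ u (It200.flip z e) e = RX μ u z e := by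
  unfold RX; rw [Vx107.rest_flip]

/-! ### the weight at an edge -/

theorem W_two' {z : Cfz} {e : Edge} (h1 : (Lp z (i1 e)).Finite) (h2 : (Lp z (i2 e)).Finite)
    (hne : i2 e ∉ Lp z (i1 e)) {m : Face →₀ ℝ} (hm : Ntr m) :
    W m z = Fw (mass m (In z (i1 e))) * Fw (mass m (In z (i2 e))) * RP m z e := by
  rw [Vx107.W_two h1 h2 hne hm, Vx107.mass_eq h1 (In_spec h1).2, Vx107.mass_eq h2 (In_spec h2).2]

theorem W_one' {z : Cfz} {e : Edge} (h1 : (Lp z (i1 e)).Finite)
    (hne : i2 e ∈ Lp z (i1 e)) {m : Face →₀ ℝ} (hm : Ntr m) :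
    W m z = Fw (mass m (In z (i1 e))) * RP m z e := by
  rw [Vx107.W_one h1 hne hm, Vx107.mass_eq h1 (In_spec h1).2]

/-- the merged state -/
theorem W_merged {z : Cfz} {e : Edge} (h1 : (Lp z (i1 e)).Finite) (h2 : (Lp z (i2 e)).Finite)
    (hne : i2 e ∉ Lp z (i1 e)) {m : Face →₀ ℝ} (hm : Ntr m) :
    W m (It200.flip z e) = Fw (mass m (In (It200.flip z e) (i1 e))) * RP m z e := by
  rw [W_one' (fin_flip1 h1 h2) (flip_merge h2 hne) hm, Vx107.RP_flip]

theorem mass_union {m : Face →₀ ℝ} {A1 A2 A : Finset Face} (hd : Disjoint A1 A2)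
    (h : ∀ f, f ∈ A ↔ f ∈ A1 ∨ f ∈ A2) : mass m A = mass m A1 + mass m A2 := by
  classical
  have : A = A1 ∪ A2 := by ext f; rw [h, Finset.mem_union]
  unfold mass
  rw [this, Finset.sum_union hd]

theorem mass_sdiff {m : Face →₀ ℝ} {Ao Ai A : Finset Face} (hs : Ai ⊆ Ao)
    (h : ∀ f, f ∈ A ↔ f ∈ Ao ∧ f ∉ Ai) : mass m A = mass m Ao - mass m Ai := by
  classical
  have : A = Ao \ Ai := by ext f; rw [h, Finset.mem_sdiff]
  unfold mass
  rw [this, ← Finset.sum_sdiff hs]
  ring

section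

variable {z : Cfz} {e : Edge} {μ : Face →₀ ℝ} {u : Face} {r : ℝ}

/-- **(X2), side by side** -/
theorem nab_side (h1 : (Lp z (i1 e)).Finite) (h2 : (Lp z (i2 e)).Finite)
    (hne : i2 e ∉ Lp z (i1 e)) (hr : Bs r) (hm : Ntr (μ + Finsupp.single u r))
    (hu : u = cv (i1 e) ∨ u = cv (i2 e))
    (hs : Side (X1 z e) (X2 z e) (Y1 z e) (Y2 z e) (In z (i1 e)) (In z (i2 e))
      (In (It200.flip z e) (i1 e))) :
    nab (μ + Finsupp.single u r) z e =
      4 * sin (mass μ (In z (i1 e))) * sin (mass μ (In z (i2 e))) * RX μ u z e := by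
  have hW2 := W_two' h1 h2 hne hm
  have hW1 := W_merged h1 h2 hne hm
  rw [RP_base hr, Fw_base hr] at hW1
  rw [RP_base hr, Fw_base hr, Fw_base hr] at hW2
  have hmas := mass_union (m := μ) hs.dis hs.mem
  have key := Vx107.Fw_mul_sub_side (mass μ (In z (i1 e))) (mass μ (In z (i2 e)))
  rw [← hmas] at key
  cases hz : z e with
  | true =>
      rw [nab_true hz, hW2, hW1]
      have y1 := hs.y1
      have y2 := hs.y2
      rw [Y1, hz, if_pos rfl] at y1
      rw [Y2, hz, if_pos rfl] at y2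
      have hu0 : u ∉ In (It200.flip z e) (i1 e) := by
        rcases hu with rfl | rfl
        · exact y1
        · exact y2
      have hu1 : u ∉ In z (i1 e) := fun h => hu0 ((hs.mem u).2 (Or.inl h))
      have hu2 : u ∉ In z (i2 e) := fun h => hu0 ((hs.mem u).2 (Or.inr h))
      rw [fx_out hu0, fx_out hu1, fx_out hu2]
      linear_combination RX μ u z e * key
  | false =>
      rw [nab_false hz, hW2, hW1]
      have x1 := hs.x1
      have x2 := hs.x2
      rw [X1, hz, if_neg (by simp)] at x1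
      rw [X2, hz, if_neg (by simp)] at x2
      have hd := Finset.disjoint_left.1 hs.dis
      rcases hu with rfl | rfl
      · rw [fx_in ((hs.mem _).2 (Or.inl x1)), fx_in x1, fx_out (hd x1)]
        linear_combination RX μ (cv (i1 e)) z e * key
      · rw [fx_in ((hs.mem _).2 (Or.inr x2)), fx_in x2, fx_out (fun h => hd h x2)]
        linear_combination RX μ (cv (i2 e)) z e * key

/-- **(X2), nested, abstract form** (`Ao` outer, `Ai` inner) -/
theorem nab_nest_aux {Xo Xi : Face} {Ao Ai : Finset Face}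
    (h1 : (Lp z (i1 e)).Finite) (h2 : (Lp z (i2 e)).Finite)
    (hne : i2 e ∉ Lp z (i1 e)) (hr : Bs r) (hm : Ntr (μ + Finsupp.single u r))
    (hu : u = cv (i1 e) ∨ u = cv (i2 e))
    (hA : (Ao = In z (i1 e) ∧ Ai = In z (i2 e) ∧ Xo = X1 z e ∧ Xi = X2 z e) ∨
      (Ao = In z (i2 e) ∧ Ai = In z (i1 e) ∧ Xo = X2 z e ∧ Xi = X1 z e))
    (hs : Nest Xo Xi (Y1 z e) (Y2 z e) Ao Ai (In (It200.flip z e) (i1 e))) :
    nab (μ + Finsupp.single u r) z e =
      -4 * sin (mass μ Ao - π / 3) * sin (mass μ Ai) * RX μ u z e := by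
  have hW2 := W_two' h1 h2 hne hm
  have hW1 := W_merged h1 h2 hne hm
  rw [RP_base hr, Fw_base hr] at hW1
  rw [RP_base hr, Fw_base hr, Fw_base hr] at hW2
  have hW2' : W (μ + Finsupp.single u r) z = fx μ u Ao * fx μ u Ai * RX μ u z e := by
    rcases hA with ⟨a, b, -⟩ | ⟨a, b, -⟩
    · rw [a, b]; exact hW2
    · rw [a, b, hW2]; ring
  have hmas := mass_sdiff (m := μ) hs.sub hs.mem
  have key := Vx107.Fw_mul_sub_nest (mass μ Ao) (mass μ Ai)
  rw [← hmas] at key
  cases hz : z e with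
  | true =>
      rw [nab_true hz, hW2', hW1]
      have y1 := hs.y1
      have y2 := hs.y2
      rw [Y1, hz, if_pos rfl] at y1
      rw [Y2, hz, if_pos rfl] at y2
      have hu0 : u ∈ In (It200.flip z e) (i1 e) := by
        rcases hu with rfl | rfl
        · exact y1
        · exact y2
      obtain ⟨hu1, hu2⟩ := (hs.mem u).1 hu0
      rw [fx_in hu0, fx_in hu1, fx_out hu2]
      linear_combination -RX μ u z e * key
  | false =>
      rw [nab_false hz, hW2', hW1]
      have hcases : (u = Xo) ∨ (u = Xi) := by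
        rcases hA with ⟨-, -, c, d⟩ | ⟨-, -, c, d⟩ <;> rw [c, d, X1, X2, hz, if_neg (by simp),
          if_neg (by simp)]
        · exact hu
        · exact hu.symm
      rcases hcases with h | h
      · have hu1 : u ∉ Ao := h ▸ hs.xo
        have hu2 : u ∉ Ai := fun h' => hu1 (hs.sub h')
        have hu0 : u ∉ In (It200.flip z e) (i1 e) := fun h' => hu1 ((hs.mem u).1 h').1
        rw [fx_out hu0, fx_out hu1, fx_out hu2]
        linear_combination -RX μ u z e * key
      · have hu2 : u ∈ Ai := h ▸ hs.xi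
        have hu1 : u ∈ Ao := hs.sub hu2
        have hu0 : u ∉ In (It200.flip z e) (i1 e) := fun h' => ((hs.mem u).1 h').2 hu2
        rw [fx_out hu0, fx_in hu1, fx_in hu2]
        linear_combination -RX μ u z e * key

/-- **(X2), nested, outer strand `i1`** -/
theorem nab_nest1 (h1 : (Lp z (i1 e)).Finite) (h2 : (Lp z (i2 e)).Finite)
    (hne : i2 e ∉ Lp z (i1 e)) (hr : Bs r) (hm : Ntr (μ + Finsupp.single u r))
    (hu : u = cv (i1 e) ∨ u = cv (i2 e))
    (hs : Nest (X1 z e) (X2 z e) (Y1 z e) (Y2 z e) (In z (i1 e)) (In z (i2 e))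
      (In (It200.flip z e) (i1 e))) :
    nab (μ + Finsupp.single u r) z e =
      -4 * sin (mass μ (In z (i1 e)) - π / 3) * sin (mass μ (In z (i2 e))) * RX μ u z e :=
  nab_nest_aux h1 h2 hne hr hm hu (Or.inl ⟨rfl, rfl, rfl, rfl⟩) hs

/-- **(X2), nested, outer strand `i2`** -/
theorem nab_nest2 (h1 : (Lp z (i1 e)).Finite) (h2 : (Lp z (i2 e)).Finite)
    (hne : i2 e ∉ Lp z (i1 e)) (hr : Bs r) (hm : Ntr (μ + Finsupp.single u r))
    (hu : u = cv (i1 e) ∨ u = cv (i2 e))
    (hs : Nest (X2 z e) (X1 z e) (Y1 z e) (Y2 z e) (In z (i2 e)) (In z (i1 e))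
      (In (It200.flip z e) (i1 e))) :
    nab (μ + Finsupp.single u r) z e =
      -4 * sin (mass μ (In z (i2 e)) - π / 3) * sin (mass μ (In z (i1 e))) * RX μ u z e :=
  nab_nest_aux h1 h2 hne hr hm hu (Or.inr ⟨rfl, rfl, rfl, rfl⟩) hs

end

/-- all strands finite -/
def AFin (z : Cfz) : Prop := ∀ c, (Lp z c).Finite

/-- one of the two states has two loops at `e` -/
theorem exists_two {z : Cfz} {e : Edge} (h1 : (Lp z (i1 e)).Finite) (h2 : (Lp z (i2 e)).Finite) :
    ∃ z', (z' = z ∨ z' = It200.flip z e) ∧ (Lp z' (i1 e)).Finite ∧ (Lp z' (i2 e)).Finite ∧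
      i2 e ∉ Lp z' (i1 e) := by
  by_cases h : i2 e ∈ Lp z (i1 e)
  · exact ⟨_, Or.inr rfl, fin_flip1 h1 h2, fin_flip2 h1 h2, flip_split h1 h⟩
  · exact ⟨_, Or.inl rfl, h1, h2, h⟩

/-- **(X2)**: summary.  `Ao, Ai` are the outer / inner loop in the nested case. -/
theorem nab_cases {z : Cfz} {e : Edge} {μ : Face →₀ ℝ} {u : Face} {r : ℝ}
    (h1 : (Lp z (i1 e)).Finite) (h2 : (Lp z (i2 e)).Finite) (hr : Bs r)
    (hm : Ntr (μ + Finsupp.single u r)) (hu : u = cv (i1 e) ∨ u = cv (i2 e)) :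
    ∃ z', (z' = z ∨ z' = It200.flip z e) ∧ (Lp z' (i1 e)).Finite ∧ (Lp z' (i2 e)).Finite ∧
      i2 e ∉ Lp z' (i1 e) ∧
      ((Side (X1 z' e) (X2 z' e) (Y1 z' e) (Y2 z' e) (In z' (i1 e)) (In z' (i2 e))
          (In (It200.flip z' e) (i1 e)) ∧
        nab (μ + Finsupp.single u r) z e =
          4 * sin (mass μ (In z' (i1 e))) * sin (mass μ (In z' (i2 e))) * RX μ u z e) ∨
      (Nest (X1 z' e) (X2 z' e) (Y1 z' e) (Y2 z' e) (In z' (i1 e)) (In z' (i2 e))
          (In (It200.flip z' e) (i1 e)) ∧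
        nab (μ + Finsupp.single u r) z e =
          -4 * sin (mass μ (In z' (i1 e)) - π / 3) * sin (mass μ (In z' (i2 e))) * RX μ u z e) ∨
      (Nest (X2 z' e) (X1 z' e) (Y1 z' e) (Y2 z' e) (In z' (i2 e)) (In z' (i1 e))
          (In (It200.flip z' e) (i1 e)) ∧
        nab (μ + Finsupp.single u r) z e =
          -4 * sin (mass μ (In z' (i2 e)) - π / 3) * sin (mass μ (In z' (i1 e))) * RX μ u z e)) := by
  obtain ⟨z', hz', f1, f2, hne⟩ := exists_two h1 h2
  have e1 : nab (μ + Finsupp.single u r) z e = nab (μ + Finsupp.single u r) z' e := by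
    rcases hz' with rfl | rfl
    · rfl
    · rw [nab_flip]
  have e2 : RX μ u z e = RX μ u z' e := by
    rcases hz' with rfl | rfl
    · rfl
    · rw [RX_flip]
  refine ⟨z', hz', f1, f2, hne, ?_⟩
  rw [e1, e2]
  rcases surg f1 f2 hne with h | h | h
  · exact Or.inl ⟨h, nab_side f1 f2 hne hr hm hu h⟩
  · exact Or.inr (Or.inl ⟨h, nab_nest1 f1 f2 hne hr hm hu h⟩)
  · exact Or.inr (Or.inr ⟨h, nab_nest2 f1 f2 hne hr hm hu h⟩)

/-! ### one corner -/

/-- the loops that do not visit the corner `c` -/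
def Oth (z : Cfz) (c : Corner) : Set (Finset Face) := {A | A ∈ Lps z ∧ ¬ sepC A c}

theorem oth_sub (z : Cfz) (c : Corner) : Oth z c ⊆ Lps z := fun _ h => h.1

theorem oth_iff {z : Cfz} {c : Corner} {A : Finset Face} (h : A ∈ Oth z c) :
    cv c ∈ A ↔ cf c ∈ A := by
  have := h.2
  unfold sepC at this
  exact not_not.1 this

theorem lps_corner {z : Cfz} {c : Corner} (hfin : (Lp z c).Finite) :
    Lps z = insert (In z c) (Oth z c) ∧ In z c ∉ Oth z c := by
  have s1 : sepC (In z c) c := (sep_In hfin c).2 (mem_Lp_self z c)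
  refine ⟨?_, fun h => h.2 s1⟩
  ext A
  constructor
  · intro hA
    by_cases h : sepC A c
    · exact Or.inl (eq_In hA h).2
    · exact Or.inr ⟨hA, h⟩
  · rintro (rfl | h)
    · exact In_mem hfin
    · exact h.1

/-- **the weight at a corner** -/
theorem W_corner {z : Cfz} {c : Corner} (hfin : (Lp z c).Finite) {m : Face →₀ ℝ} (hm : Ntr m) :
    W m z = Fw (mass m (In z c)) * ∏ᶠ A ∈ Oth z c, Fw (mass m A) := by
  obtain ⟨h1, h2⟩ := lps_corner hfin
  unfold W
  rw [h1, finprod_mem_insert' _ h2 (fin_supp hm (oth_sub z c))]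

/-- exactly one of the two faces is inside -/
theorem corner_cases {z : Cfz} {c : Corner} (hfin : (Lp z c).Finite) :
    (cv c ∈ In z c ∧ cf c ∉ In z c) ∨ (cv c ∉ In z c ∧ cf c ∈ In z c) := by
  have s1 : sepC (In z c) c := (sep_In hfin c).2 (mem_Lp_self z c)
  unfold sepC at s1
  by_cases h : cv c ∈ In z c <;> by_cases h' : cf c ∈ In z c
  · exact absurd ⟨fun _ => h', fun _ => h⟩ s1
  · exact Or.inl ⟨h, h'⟩
  · exact Or.inr ⟨h, h'⟩
  · exact absurd ⟨fun h'' => absurd h'' h, fun h'' => absurd h'' h'⟩ s1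

theorem Sw_bs {r : ℝ} (hr : Bs r) (q : ℝ) : Sw (q + r) = -Sw q := by
  unfold Sw
  rcases hr with rfl | rfl
  · rw [← add_assoc, sin_add_pi]; ring
  · rw [show π / 3 + (q + -π) = (π / 3 + q) - π by ring, sin_sub_pi]; ring

/-- the operator (D) at the corner `c` for the charge `μ` (total `π`), pointwise -/
def Xs (μ : Face →₀ ℝ) (c : Corner) (z : Cfz) : ℝ :=
  Sw (mass μ (In z c)) * ∏ᶠ A ∈ Oth z c, fx μ (cv c) A

theorem mass_dC_oth {z : Cfz} {c : Corner} {A : Finset Face} (h : A ∈ Oth z c) :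
    mass (dC c) A = 0 := Vx107.mass_pair (oth_iff h).symm

theorem mass_dC_v {c : Corner} {A : Finset Face} (h : cv c ∈ A) (h' : cf c ∉ A) :
    mass (dC c) A = -1 := by
  classical
  unfold dC
  rw [mass_sub, mass_single, mass_single, if_neg h', if_pos h]; ring

theorem mass_dC_f {c : Corner} {A : Finset Face} (h : cv c ∉ A) (h' : cf c ∈ A) :
    mass (dC c) A = 1 := by
  classical
  unfold dC
  rw [mass_sub, mass_single, mass_single, if_pos h', if_neg h]; ring

/-- **half charge at a corner**, base point at its vertex: `W (μ ± π δ + (π/2) dC) = - Xs` -/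
theorem W_half {z : Cfz} {c : Corner} (hfin : (Lp z c).Finite) {μ : Face →₀ ℝ} {r : ℝ} (hr : Bs r)
    (hm : Ntr (μ + Finsupp.single (cv c) r)) :
    W (μ + Finsupp.single (cv c) r + (π / 2) • dC c) z = -Xs μ c z := by
  rw [W_corner hfin (hm.add ((Vx107.ntr_dC c).smul _))]
  have e1 : ∏ᶠ A ∈ Oth z c, Fw (mass (μ + Finsupp.single (cv c) r + (π / 2) • dC c) A) =
      ∏ᶠ A ∈ Oth z c, fx μ (cv c) A := by
    refine finprod_mem_congr rfl fun A hA => ?_
    rw [mass_add, mass_smul, mass_dC_oth hA, mul_zero, add_zero, Fw_base hr]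
  rw [e1, Xs]
  rcases corner_cases hfin with ⟨a, b⟩ | ⟨a, b⟩
  · rw [mass_add, mass_smul, mass_dC_v a b, mass_base_in a, mul_neg, mul_one, ← sub_eq_add_neg,
      Vx107.Fw_sub_half, Sw_bs hr]
    ring
  · rw [mass_add, mass_smul, mass_dC_f a b, mass_base_out a, mul_one, Vx107.Fw_add_half]
    ring

/-! ### two-strand operators (X3) -/

/-- charge `t` at either face of the corner `c`, on top of `m'` -/
def At2 (m' : Face →₀ ℝ) (c : Corner) (t : ℝ) (z : Cfz) : ℝ :=
  W (m' + Finsupp.single (cv c) t) z + W (m' + Finsupp.single (cf c) t) z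

theorem oth_single {z : Cfz} {c : Corner} {A : Finset Face} (h : A ∈ Oth z c) (m' : Face →₀ ℝ)
    (t : ℝ) : mass (m' + Finsupp.single (cf c) t) A = mass (m' + Finsupp.single (cv c) t) A := by
  by_cases hA : cv c ∈ A
  · rw [mass_base_in hA, mass_base_in ((oth_iff h).1 hA)]
  · rw [mass_base_out hA, mass_base_out (fun h' => hA ((oth_iff h).2 h'))]

theorem ntr_swap {m' : Face →₀ ℝ} {c : Corner} {t : ℝ} (hm : Ntr (m' + Finsupp.single (cv c) t)) :
    Ntr (m' + Finsupp.single (cf c) t) := by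
  unfold Ntr at *
  rw [Vx107.tot_add, Vx107.tot_single] at *
  exact hm

/-- **the two-strand operator**: general charge -/
theorem At2_eq {z : Cfz} {c : Corner} (hfin : (Lp z c).Finite) {m' : Face →₀ ℝ} {t : ℝ}
    (hm : Ntr (m' + Finsupp.single (cv c) t)) :
    At2 m' c t z = (Fw (mass m' (In z c) + t) + Fw (mass m' (In z c))) *
      ∏ᶠ A ∈ Oth z c, Fw (mass (m' + Finsupp.single (cv c) t) A) := by
  unfold At2
  rw [W_corner hfin hm, W_corner hfin (ntr_swap hm)]
  have e1 : ∏ᶠ A ∈ Oth z c, Fw (mass (m' + Finsupp.single (cf c) t) A) =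
      ∏ᶠ A ∈ Oth z c, Fw (mass (m' + Finsupp.single (cv c) t) A) :=
    finprod_mem_congr rfl fun A hA => by rw [oth_single hA]
  rw [e1]
  rcases corner_cases hfin with ⟨a, b⟩ | ⟨a, b⟩
  · rw [mass_base_in a, mass_base_out b]; ring
  · rw [mass_base_out a, mass_base_in b]; ring

theorem sqrt3_mul : (√3 : ℝ) * √3 = 3 := mul_self_sqrt (by norm_num)

theorem Fw_pair_pos (q : ℝ) : Fw (q + π / 3) + Fw q = -(2 * √3 * sin q) := by
  have h3 := sqrt3_mul
  rw [Vx107.Fw_eq, Vx107.Fw_eq, cos_add, sin_add, cos_pi_div_three, sin_pi_div_three]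
  linear_combination (-cos q / 2) * h3

theorem Fw_pair_neg (q : ℝ) : Fw (q + -(π / 3)) + Fw q = 2 * √3 * cos (π / 6 + q) := by
  have h3 := sqrt3_mul
  rw [Vx107.Fw_eq, Vx107.Fw_eq, cos_add, sin_add, cos_neg, sin_neg, cos_pi_div_three,
    sin_pi_div_three, cos_add, cos_pi_div_six, sin_pi_div_six]
  linear_combination (-cos q / 2) * h3

/-- **(X3)** with charge `+π/3`: vanishes unless the loop of the corner carries mass of `m'` -/
theorem X3_pos {z : Cfz} {c : Corner} (hfin : (Lp z c).Finite) {m' : Face →₀ ℝ}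
    (hm : Ntr (m' + Finsupp.single (cv c) (π / 3))) :
    At2 m' c (π / 3) z = -(2 * √3 * sin (mass m' (In z c))) *
      ∏ᶠ A ∈ Oth z c, Fw (mass (m' + Finsupp.single (cv c) (π / 3)) A) := by
  rw [At2_eq hfin hm, Fw_pair_pos]

/-- **(X3)** with charge `-π/3` -/
theorem X3_neg {z : Cfz} {c : Corner} (hfin : (Lp z c).Finite) {m' : Face →₀ ℝ}
    (hm : Ntr (m' + Finsupp.single (cv c) (-(π / 3)))) :
    At2 m' c (-(π / 3)) z = 2 * √3 * cos (π / 6 + mass m' (In z c)) *
      ∏ᶠ A ∈ Oth z c, Fw (mass (m' + Finsupp.single (cv c) (-(π / 3))) A) := by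
  rw [At2_eq hfin hm, Fw_pair_neg]

theorem Sw_pair (q : ℝ) : Sw (q + π / 3) + Sw q = 2 * √3 * cos q := by
  have h3 := sqrt3_mul
  rw [Vx107.Sw_eq, Vx107.Sw_eq, cos_add, sin_add, cos_pi_div_three, sin_pi_div_three]
  linear_combination (-sin q / 2) * h3

/-! ### a two-strand charge inside the operator `Xs` (X3') -/

theorem fx_swap {d : Corner} {A : Finset Face} (h : cv d ∈ A ↔ cf d ∈ A)
    (μ : Face →₀ ℝ) (u : Face) (t : ℝ) :
    fx (μ + Finsupp.single (cf d) t) u A = fx (μ + Finsupp.single (cv d) t) u A := by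
  have e : mass (μ + Finsupp.single (cf d) t) A = mass (μ + Finsupp.single (cv d) t) A := by
    by_cases hA : cv d ∈ A
    · rw [mass_base_in hA, mass_base_in (h.1 hA)]
    · rw [mass_base_out hA, mass_base_out (fun h' => hA (h.2 h'))]
  unfold fx
  rw [e]

/-- **(X3'), the same loop passes at `c` and `d`** -/
theorem Xs_same {z : Cfz} {c d : Corner} (hfin : (Lp z c).Finite) (hd : d ∈ Lp z c)
    (μ : Face →₀ ℝ) :
    Xs (μ + Finsupp.single (cv d) (π / 3)) c z + Xs (μ + Finsupp.single (cf d) (π / 3)) c z =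
      2 * √3 * cos (mass μ (In z c)) *
        ∏ᶠ A ∈ Oth z c, fx (μ + Finsupp.single (cv d) (π / 3)) (cv c) A := by
  have e1 : ∏ᶠ A ∈ Oth z c, fx (μ + Finsupp.single (cf d) (π / 3)) (cv c) A =
      ∏ᶠ A ∈ Oth z c, fx (μ + Finsupp.single (cv d) (π / 3)) (cv c) A := by
    refine finprod_mem_congr rfl fun A hA => fx_swap ?_ μ _ _
    have h1 : ¬ sepC A d := fun hs => hA.2 (by
      obtain ⟨c', hc', hA'⟩ := hA.1
      rw [sep_iff hc' hA'] at hs ⊢
      exact Equiv.Perm.SameCycle.trans hs hd.symm)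
    unfold sepC at h1
    exact not_not.1 h1
  unfold Xs
  rw [e1, ← add_mul]
  have hIn : In z d = In z c := In_eq hfin hd
  have hfd : (Lp z d).Finite := by rw [Lp_eq hd]; exact hfin
  have hcase := corner_cases hfd
  rw [hIn] at hcase
  rcases hcase with ⟨a, b⟩ | ⟨a, b⟩
  · rw [mass_base_in a, mass_base_out b, Sw_pair]
  · rw [mass_base_out a, mass_base_in b, add_comm (Sw _), Sw_pair]

/-- **(X3'), different loops at `c` and `d`** -/
theorem Xs_diff {z : Cfz} {c d : Corner} (hfin : (Lp z c).Finite) (hfd : (Lp z d).Finite)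
    (hd : d ∉ Lp z c) {μ : Face →₀ ℝ} {r : ℝ} (hr : Bs r)
    (hm : Ntr (μ + Finsupp.single (cv d) (π / 3) + Finsupp.single (cv c) r)) :
    Xs (μ + Finsupp.single (cv d) (π / 3)) c z + Xs (μ + Finsupp.single (cf d) (π / 3)) c z =
      Sw (mass (μ + Finsupp.single (cv d) (π / 3)) (In z c)) *
        (fx (μ + Finsupp.single (cv d) (π / 3)) (cv c) (In z d) +
          fx (μ + Finsupp.single (cf d) (π / 3)) (cv c) (In z d)) *
        ∏ᶠ A ∈ Oth z c ∩ Oth z d, fx (μ + Finsupp.single (cv d) (π / 3)) (cv c) A := by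
  have hcd : c ∉ Lp z d := fun h => hd h.symm
  have hIn : ¬ sepC (In z c) d := by rw [sep_In hfin]; exact hd
  have hIn' : ¬ sepC (In z d) c := by rw [sep_In hfd]; exact hcd
  have hset : Oth z c = insert (In z d) (Oth z c ∩ Oth z d) := by
    ext A
    constructor
    · intro hA
      by_cases h : sepC A d
      · exact Or.inl (eq_In hA.1 h).2
      · exact Or.inr ⟨hA, hA.1, h⟩
    · rintro (rfl | h)
      · exact ⟨In_mem hfd, hIn'⟩
      · exact h.1
  have hnot : In z d ∉ Oth z c ∩ Oth z d := fun h =>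
    h.2.2 ((sep_In hfd d).2 (mem_Lp_self z d))
  have hm' : Ntr (μ + Finsupp.single (cf d) (π / 3) + Finsupp.single (cv c) r) := by
    unfold Ntr at *
    rw [Vx107.tot_add, Vx107.tot_add, Vx107.tot_single, Vx107.tot_single] at *
    exact hm
  have hfs : ∀ x : Face →₀ ℝ, Ntr (x + Finsupp.single (cv c) r) →
      ((Oth z c ∩ Oth z d) ∩ mulSupport fun A => fx x (cv c) A).Finite := by
    intro x hx
    have h := fin_supp hx (z := z) (S := Oth z c ∩ Oth z d) (fun A hA => hA.1.1)
    refine h.subset fun A hA => ⟨hA.1, ?_⟩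
    intro hcon
    exact hA.2 (by dsimp only at hcon ⊢; rw [← Fw_base hr]; exact hcon)
  have p1 : ∏ᶠ A ∈ Oth z c, fx (μ + Finsupp.single (cv d) (π / 3)) (cv c) A =
      fx (μ + Finsupp.single (cv d) (π / 3)) (cv c) (In z d) *
        ∏ᶠ A ∈ Oth z c ∩ Oth z d, fx (μ + Finsupp.single (cv d) (π / 3)) (cv c) A := by
    conv_lhs => rw [hset]
    rw [finprod_mem_insert' _ hnot (hfs _ hm)]
  have p2 : ∏ᶠ A ∈ Oth z c, fx (μ + Finsupp.single (cf d) (π / 3)) (cv c) A =
      fx (μ + Finsupp.single (cf d) (π / 3)) (cv c) (In z d) *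
        ∏ᶠ A ∈ Oth z c ∩ Oth z d, fx (μ + Finsupp.single (cv d) (π / 3)) (cv c) A := by
    conv_lhs => rw [hset]
    rw [finprod_mem_insert' _ hnot (hfs _ hm')]
    congr 1
    exact finprod_mem_congr rfl fun A hA => fx_swap (oth_iff hA.2) μ _ _
  have q1 : mass (μ + Finsupp.single (cf d) (π / 3)) (In z c) =
      mass (μ + Finsupp.single (cv d) (π / 3)) (In z c) := by
    have h : cv d ∈ In z c ↔ cf d ∈ In z c := by
      unfold sepC at hIn; exact not_not.1 hIn
    by_cases hA : cv d ∈ In z c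
    · rw [mass_base_in hA, mass_base_in (h.1 hA)]
    · rw [mass_base_out hA, mass_base_out (fun h' => hA (h.2 h'))]
  unfold Xs
  rw [p1, p2, q1]
  ring

/-- value of the two-strand factor: `∓ 2√3 sin q` -/
theorem fx_pair {z : Cfz} {d : Corner} (hfd : (Lp z d).Finite) (μ : Face →₀ ℝ) (u : Face) :
    fx (μ + Finsupp.single (cv d) (π / 3)) u (In z d) +
      fx (μ + Finsupp.single (cf d) (π / 3)) u (In z d) =
      (open Classical in if u ∈ In z d then (1 : ℝ) else -1) * (2 * √3 * sin (mass μ (In z d))) := by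
  have key : Fw (mass (μ + Finsupp.single (cv d) (π / 3)) (In z d)) +
      Fw (mass (μ + Finsupp.single (cf d) (π / 3)) (In z d)) =
      -(2 * √3 * sin (mass μ (In z d))) := by
    rcases corner_cases hfd with ⟨a, b⟩ | ⟨a, b⟩
    · rw [mass_base_in a, mass_base_out b, Fw_pair_pos]
    · rw [mass_base_out a, mass_base_in b, add_comm, Fw_pair_pos]
  unfold fx
  split_ifs
  · linarith
  · linarith

end Crest.Agent.R158.Vn841
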