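import Crest.Agent.R158.Vx5_107
import Crest.Agent.R158.Vn3_841
import Crest.Agent.R158.Fi1_442

/-!
# R158, Block V (helper107), file 6: finiteness input discharged, (X1) in 841's names

* `ae_fin` : for `nu hf`-a.e. `z` all the strands are finite (from 442's `ae_corner`)
* `nab_eq'`, `Xs_eq'` : 841's `nab`, `Xs` are the same functions
* `X1v` : (X1) for 841's `nab` / `Xs`; the only hypothesis is `Even`
-/

set_option autoImplicit false

noncomputable section

namespace Crest.Agent.R158.Vx107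

open Crest.Agent.R161.Geo729 Crest.Agent.R161.Dual374
open Crest.Agent.R158.It200 Crest.Agent.R158.Wf850
open Crest.Agent.R158.Rs689 (nu)
open Function Real MeasureTheory Filter

local notation "μh" => nu Crest.Agent.R158.Rs689.hf

theorem fin_of_period {z : Cfz} {c : Corner} {k : ℕ} (hk : 0 < k) (h : (nx z)^[k] c = c) :
    (Lp z c).Finite := by
  have h1 : ((nxE z) ^ k) c = c := by
    rw [Equiv.Perm.coe_pow]; exact h
  refine Set.Finite.subset (Set.finite_range fun i : Fin k => ((nxE z) ^ (i : ℕ)) c) ?_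
  rintro d ⟨j, hj⟩
  have hk' : (k : ℤ) ≠ 0 := by exact_mod_cast hk.ne'
  have h2 : ((nxE z) ^ (j % (k : ℤ))) c = d := by
    rw [← hj]
    conv_rhs => rw [← Int.emod_add_mul_ediv j k, zpow_add, zpow_mul, zpow_natCast]
    rw [Equiv.Perm.mul_apply]
    congr 1
    have h3 : ∀ i : ℤ, (((nxE z) ^ k) ^ i) c = c := by
      intro i
      have := Equiv.Perm.zpow_apply_eq_self_of_apply_eq_self h1 i
      exact this
    exact (h3 _).symm
  have h4 : 0 ≤ j % (k : ℤ) := Int.emod_nonneg _ hk'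
  have h5 : j % (k : ℤ) < k := Int.emod_lt_of_pos _ (by exact_mod_cast hk)
  refine ⟨⟨(j % (k : ℤ)).toNat, by omega⟩, ?_⟩
  show ((nxE z) ^ ((j % (k : ℤ)).toNat)) c = d
  rw [← h2, ← zpow_natCast, Int.toNat_of_nonneg h4]

/-- **a.e. all the strands are finite** -/
theorem ae_fin : ∀ᵐ z ∂μh, AllFin z :=
  Crest.Agent.R158.Fi442.ae_corner.mono fun _ hz c => by
    obtain ⟨k, hk, h⟩ := hz c
    exact fin_of_period hk h

theorem nab_eq' (m : Face →₀ ℝ) (z : Cfz) (e : Edge) :
    Crest.Agent.R158.Vn841.nab m z e = nab m e z := rfl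

theorem chv_eq (μ : Face →₀ ℝ) (u : P2) :
    μ + Finsupp.single (u, false) (-π) = chv μ u := by
  unfold chv; rw [Finsupp.single_neg]; abel

theorem Xs_eq' {z : Cfz} {c : Corner} (hfin : (Lp z c).Finite) {μ : Face →₀ ℝ} (h : tot μ = π) :
    Crest.Agent.R158.Vn841.Xs μ c z = Xs μ c z := by
  have h1 : μ + Finsupp.single (cv c) (-π) = chv μ c.1 := chv_eq μ c.1
  have h2 := Crest.Agent.R158.Vn841.W_half hfin (μ := μ) (r := -π) (Or.inr rfl)
    (by rw [h1]; exact ntr_chv h _)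
  rw [h1, V0 hfin (ntr_chv h _)] at h2
  unfold Xs
  linarith

/-- **(X1)**, unconditional up to `Even` -/
theorem X1v (hev : Even) {μ : Face →₀ ℝ} (h : tot μ = π) (e : Edge) (u u' : P2) :
    ∫ z, Crest.Agent.R158.Vn841.nab (-μ + Finsupp.single (u', false) π) z e ∂μh -
      ∫ z, Crest.Agent.R158.Vn841.nab (μ + Finsupp.single (u, false) (-π)) z e ∂μh =
      tan (π / 6) * (∫ z, Crest.Agent.R158.Vn841.Xs μ (i1 e) z ∂μh +
        ∫ z, Crest.Agent.R158.Vn841.Xs μ (i2 e) z ∂μh +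
        ∫ z, Crest.Agent.R158.Vn841.Xs μ (o1 e) z ∂μh +
        ∫ z, Crest.Agent.R158.Vn841.Xs μ (o2 e) z ∂μh) := by
  have hx : ∀ c, ∫ z, Crest.Agent.R158.Vn841.Xs μ c z ∂μh = ∫ z, Xs μ c z ∂μh := fun c =>
    integral_congr_ae (ae_fin.mono fun _ hz => Xs_eq' (hz c) h)
  have h1 : -μ + Finsupp.single (u', false) π = -chv μ u' := by
    unfold chv; abel
  have h2 : ∫ z, Crest.Agent.R158.Vn841.nab (-μ + Finsupp.single (u', false) π) z e ∂μh =
      ∫ z, nab (-chv μ u) e z ∂μh := by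
    rw [h1]
    exact integral_congr_ae (ae_fin.mono fun _ hz => nab_chv_neg hz h e u' u)
  rw [hx, hx, hx, hx, h2, chv_eq]
  exact X1 ae_fin hev h e u

end Crest.Agent.R158.Vx107
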