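import Crest.Agent.R158.Uc2_31
import Crest.Agent.R158.Vx6_107

/-!
# Row 158, Block A4 (helper31), C upper bounds, file 3: moments of the operator `Xs`

* `xs_pt`  : `|Xs (s • mu) c z| ≤ 2 exp (-s √3 π VV (log2 n)) exp (L z)`
* `Um`     : `∫ |Xs mu c| ^ q ≤ (C (R / r) ^ C exp (-√3 π VV (log2 n))) ^ q`, integrability
* `Uf`     : `|∫ Xs mu c 1_A| ≤ C (R / r) ^ C exp (..) P(A) ^ (1 - δ)`
-/

set_option autoImplicit false

noncomputable section

namespace Crest.Agent.R158.Uc31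

open Real Function MeasureTheory
open Crest.Agent.R161.Tas682 (sd)
open Crest.Agent.R161.Geo729
open Crest.Agent.R158.It200 (Cfz Corner fc i1 i2)
open Crest.Agent.R158.Wf850 (Lps Face BF mem_BF cv)
open Crest.Agent.R158.Vn841 (fx Xs Oth oth_sub)
open Crest.Agent.R158.Cn109 (VV DepF)
open Crest.Agent.R158.Rs689 (nu hf)
open Crest.Agent.R158.Gx31

/-- the order of magnitude -/
def WC (n : ℕ) (s : ℝ) : ℝ := exp (-(s * (√3 * π * VV (Nat.log 2 n))))

theorem WC_pos (n : ℕ) (s : ℝ) : 0 < WC n s := exp_pos _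

theorem Geo.loc_Oth {n r R : ℕ} (h : Geo n r R) {z : Cfz} {c : Corner} (hc : sd (0, 0) c.1 ≤ 1)
    {A : Finset Face} (hA : A ∈ Loc (kC r R) (VC n r R) z) : A ∈ Oth z c :=
  ⟨Loc_sub hA, h.loc_sep hA hc⟩

theorem xs_pt {n r R : ℕ} (h : Geo n r R) {s : ℝ} {L : Cfz → ℝ}
    (hL : ∀ (z : Cfz) (u : Face) (S : Set (Finset Face)), sd (0, 0) u.1 ≤ 2 → S ⊆ Lps z →
        (∀ A ∈ Loc (kC r R) (VC n r R) z, A ∈ S) →
        |∏ᶠ A ∈ S, fx (s • mu n r R) u A| ≤
          exp (-(s * (√3 * π * VV (Nat.log 2 n)))) * exp (L z)) {c : Corner}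
    (hc : sd (0, 0) c.1 ≤ 1) (z : Cfz) :
    |Xs (s • mu n r R) c z| ≤ 2 * WC n s * exp (L z) := by
  unfold Xs WC
  rw [abs_mul, mul_assoc]
  refine mul_le_mul (Vx107.abs_Sw_le _) ?_ (abs_nonneg _) (by norm_num)
  exact hL z (cv c) (Oth z c) (by show sd (0, 0) c.1 ≤ 2; linarith) (oth_sub z c)
    fun A hA => h.loc_Oth hc hA

theorem Geo.R1 {n r R : ℕ} (h : Geo n r R) : 1 ≤ R := by
  have h1 := h.r3
  have h2 := h.rn
  have h3 := h.nR
  omega

theorem tot_smu {n r R : ℕ} (h : Geo n r R) (s : ℝ) : Vx107.tot (s • mu n r R) = s * π := by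
  rw [Vx107.tot_smul, tot_mu h.R1]

/-- `Xs mu c` is integrable -/
theorem xs_int {n r R : ℕ} (h : Geo n r R) (c : Corner) :
    Integrable (fun z => Xs (mu n r R) c z) (nu hf) := by
  have ht : Vx107.tot (mu n r R) = π := tot_mu h.R1
  refine (Vx107.integrable_Xs Vx107.ae_fin ht c).congr ?_
  exact Vx107.ae_fin.mono fun z hz => (Vx107.Xs_eq' (hz c) ht).symm

/-- **moments of `Xs`** -/
theorem Um {q : ℝ} (hq : 1 ≤ q) : ∃ C : ℝ, 1 ≤ C ∧ ∀ n r R : ℕ, Geo n r R → ∀ c : Corner,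
    sd (0, 0) c.1 ≤ 1 → Integrable (fun z => |Xs (mu n r R) c z| ^ q) (nu hf) ∧
      ∫ z, |Xs (mu n r R) c z| ^ q ∂(nu hf) ≤ (C * ((R : ℝ) / r) ^ C * WC n 1) ^ q := by
  have hq0 : 0 < q := by linarith
  obtain ⟨C, hC, h⟩ := env (q := q) hq0
  refine ⟨2 * C, by linarith, fun n r R hg c hc => ?_⟩
  obtain ⟨L, T, hd, hm, hb⟩ := h n r R hg 1 (Or.inl rfl)
  have hpt : ∀ z, |Xs (mu n r R) c z| ≤ 2 * WC n 1 * exp (L z) := by
    intro z
    have := xs_pt hg hb hc z
    rwa [one_smul] at this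
  have hq' : ∀ z, |Xs (mu n r R) c z| ^ q ≤ (2 * WC n 1) ^ q * exp (q * L z) := by
    intro z
    have h1 := rpow_le_rpow (abs_nonneg _) (hpt z) hq0.le
    rw [mul_rpow (by have := WC_pos n 1; linarith) (exp_pos _).le, ← exp_mul] at h1
    rwa [mul_comm q (L z)]
  have hi : Integrable (fun z => (2 * WC n 1) ^ q * exp (q * L z)) (nu hf) :=
    ((hd.comp fun x => exp (q * x)).integrable (fun _ => hf)).const_mul _
  have hme : AEStronglyMeasurable (fun z => |Xs (mu n r R) c z| ^ q) (nu hf) := by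
    have h1 : AEMeasurable (fun z => |Xs (mu n r R) c z|) (nu hf) :=
      (xs_int hg c).abs.aemeasurable
    exact (h1.pow_const q).aestronglyMeasurable
  have hint : Integrable (fun z => |Xs (mu n r R) c z| ^ q) (nu hf) := by
    refine hi.mono' hme (Filter.Eventually.of_forall fun z => ?_)
    rw [Real.norm_of_nonneg (rpow_nonneg (abs_nonneg _) _)]
    exact hq' z
  refine ⟨hint, ?_⟩
  have hRr := hg.ratio
  have hRr0 : (0 : ℝ) < (R : ℝ) / r := by linarith
  calc ∫ z, |Xs (mu n r R) c z| ^ q ∂(nu hf) ≤ ∫ z, (2 * WC n 1) ^ q * exp (q * L z) ∂(nu hf) :=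
        integral_mono hint hi hq'
    _ = (2 * WC n 1) ^ q * ∫ z, exp (q * L z) ∂(nu hf) := integral_const_mul _ _
    _ ≤ (2 * WC n 1) ^ q * (C * ((R : ℝ) / r) ^ C) := by
        refine mul_le_mul_of_nonneg_left hm (rpow_nonneg (by have := WC_pos n 1; linarith) _)
    _ ≤ (2 * WC n 1) ^ q * (C * ((R : ℝ) / r) ^ (2 * C)) ^ q := by
        refine mul_le_mul_of_nonneg_left ?_ (rpow_nonneg (by have := WC_pos n 1; linarith) _)
        have h1 : C * ((R : ℝ) / r) ^ C ≤ C * ((R : ℝ) / r) ^ (2 * C) :=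
          mul_le_mul_of_nonneg_left (rpow_le_rpow_of_exponent_le hRr (by linarith)) (by linarith)
        have h2 : 1 ≤ C * ((R : ℝ) / r) ^ (2 * C) := by
          have := one_le_rpow hRr (by linarith : (0 : ℝ) ≤ 2 * C)
          nlinarith
        calc C * ((R : ℝ) / r) ^ C ≤ C * ((R : ℝ) / r) ^ (2 * C) := h1
          _ = (C * ((R : ℝ) / r) ^ (2 * C)) ^ (1 : ℝ) := (rpow_one _).symm
          _ ≤ _ := rpow_le_rpow_of_exponent_le h2 hq
    _ = _ := by
        rw [← mul_rpow (by have := WC_pos n 1; linarith) (by positivity)]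
        congr 1
        ring

/-- **`Xs` on an event** -/
theorem Uf {δ : ℝ} (h0 : 0 < δ) (h1 : δ < 1) : ∃ C : ℝ, 1 ≤ C ∧ ∀ n r R : ℕ, Geo n r R →
    ∀ c : Corner, sd (0, 0) c.1 ≤ 1 → ∀ A : Set Cfz, MeasurableSet A →
      ∫ z, A.indicator (fun z => |Xs (mu n r R) c z|) z ∂(nu hf) ≤
        C * ((R : ℝ) / r) ^ C * WC n 1 * (nu hf).real A ^ (1 - δ) := by
  obtain ⟨C, hC, h⟩ := env_ind h0 h1
  refine ⟨2 * C, by linarith, fun n r R hg c hc A hA => ?_⟩
  obtain ⟨L, T, hd, hm, hb⟩ := h n r R hg 1 (Or.inl rfl)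
  have hpt : ∀ z, |Xs (mu n r R) c z| ≤ 2 * WC n 1 * exp (L z) := by
    intro z
    have := xs_pt hg hb hc z
    rwa [one_smul] at this
  have hW := WC_pos n 1
  have hi : Integrable (fun z => 2 * WC n 1 * A.indicator (fun z => exp (L z)) z) (nu hf) :=
    (((hd.comp fun x => exp x).integrable (fun _ => hf)).indicator hA).const_mul _
  have hRr := hg.ratio
  calc ∫ z, A.indicator (fun z => |Xs (mu n r R) c z|) z ∂(nu hf)
      ≤ ∫ z, 2 * WC n 1 * A.indicator (fun z => exp (L z)) z ∂(nu hf) := by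
        refine integral_mono ((xs_int hg c).abs.indicator hA) hi fun z => ?_
        by_cases hz : z ∈ A
        · rw [Set.indicator_of_mem hz, Set.indicator_of_mem hz]; exact hpt z
        · rw [Set.indicator_of_notMem hz, Set.indicator_of_notMem hz]; simp
    _ = 2 * WC n 1 * ∫ z, A.indicator (fun z => exp (L z)) z ∂(nu hf) := integral_const_mul _ _
    _ ≤ 2 * WC n 1 * (C * ((R : ℝ) / r) ^ C * (nu hf).real A ^ (1 - δ)) :=
        mul_le_mul_of_nonneg_left (hm A hA) (by positivity)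
    _ ≤ 2 * WC n 1 * (C * ((R : ℝ) / r) ^ (2 * C) * (nu hf).real A ^ (1 - δ)) := by
        refine mul_le_mul_of_nonneg_left ?_ (by positivity)
        refine mul_le_mul_of_nonneg_right ?_ (rpow_nonneg measureReal_nonneg _)
        exact mul_le_mul_of_nonneg_left (rpow_le_rpow_of_exponent_le hRr (by linarith))
          (by linarith)
    _ = _ := by ring

end Crest.Agent.R158.Uc31
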