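import Crest.Agent.R158.Zs3_110
import Crest.Agent.R158.Uc3_31

/-!
# Row 158, UB3b (helper110): the operator `Xs` in expectation

* `QM2` : quasi-multiplicativity of two arms with sub-polynomial loss (689)
* `p2_pos`
* `term_le` : every dyadic term is at most `N ^ ε * p2 (N / K)`
* `UB3b` : `|∫ Xs (mu n r R) c| ≤ C (R/r)^C WC n 1 * n^δ * p2 (n / K)^(1-δ)`
-/

set_option autoImplicit false

noncomputable section

namespace Crest.Agent.R158.Zs110

open Crest.Agent.R161.Geo729 Crest.Agent.R161.Dual374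
open Crest.Agent.R161.Tas682 (sd)
open Crest.Agent.R158.It200 Crest.Agent.R158.Wf850
open Crest.Agent.R158.Rs689 (nu Dep PArm DArm)
open Crest.Agent.R158.Fr158 (bx mem_bx mem_bx_sd eIn mem_eIn)
open Crest.Agent.R158.Vx107 (mass tot Ntr Fw W fin_supp Fw_zero)
open Crest.Agent.R158.Ax107 (p2 P2ev p2_nonneg p2_le_one p2_anti)
open Crest.Agent.R158.Zr110 hiding AllFin ae_fin
open Crest.Agent.R158.Uc31 (Geo mu WC WC_pos Uf tot_mu xs_int)
open MeasureTheory Filter

/-- quasi-multiplicativity of two arms with sub-polynomial loss -/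
def QM2 : Prop := ∀ ε : ℝ, 0 < ε → ∃ k0 A : ℕ, ∀ᶠ n : ℕ in atTop, ∀ k l : ℕ, k0 ≤ k → A * k ≤ l →
  l ≤ n → p2 k * P2a (4 * k) l ≤ (n : ℝ) ^ ε * p2 l

/-! ### positivity -/

/-- the edges of the standard two arms -/
def stdE (n : ℕ) : Finset Edge :=
  ((Finset.range n).image fun i : ℕ => (((i : ℤ), 0), false)) ∪
    ((Finset.range n).image fun i : ℕ => ((0, (i : ℤ) + 1), false))

/-- a configuration with two arms -/
def stdZ : Cfz := fun e => decide (e.1.2 = 0)

theorem std_sub (n : ℕ) : {z : Cfz | ∀ e ∈ stdE n, z e = stdZ e} ⊆ P2ev n := by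
  intro z hz
  have h1 : ∀ i : ℕ, i < n → z (((i : ℤ), 0), false) = true := by
    intro i hi
    rw [hz _ (Finset.mem_union_left _ (Finset.mem_image.2 ⟨i, Finset.mem_range.2 hi, rfl⟩))]
    simp [stdZ]
  have h2 : ∀ i : ℕ, i < n → z ((0, (i : ℤ) + 1), false) = false := by
    intro i hi
    rw [hz _ (Finset.mem_union_right _ (Finset.mem_image.2 ⟨i, Finset.mem_range.2 hi, rfl⟩))]
    simp only [stdZ, decide_eq_false_iff_not]
    omega
  have g1 : ∀ i : ℕ, i ≤ n → ((i : ℤ), (0 : ℤ)) ∈ OCl z (0, 0) := by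
    intro i
    induction i with
    | zero => intro _; exact .refl
    | succ i ih =>
        intro hi
        have h3 : Relation.ReflTransGen (PStep (fun e => z e = true)) (0, 0) ((i : ℤ), 0) :=
          ih (by omega)
        refine h3.tail ⟨(((i : ℤ), 0), false), h1 i (by omega), Or.inl ⟨rfl, ?_⟩⟩
        simp [tgt]
  have g2 : ∀ i : ℕ, i ≤ n → ((0 : ℤ), (i : ℤ)) ∈ DCl z (0, 0) := by
    intro i
    induction i with
    | zero => intro _; exact .refl
    | succ i ih =>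
        intro hi
        have h3 : Relation.ReflTransGen (DStep (fun e => z e = false)) (0, 0) (0, (i : ℤ)) :=
          ih (by omega)
        refine h3.tail ⟨((0, (i : ℤ) + 1), false), h2 i (by omega), ?_⟩
        simp [fA, fB]
  refine ⟨⟨((n : ℤ), 0), g1 n le_rfl, ?_⟩, (0, (n : ℤ)), g2 n le_rfl, ?_⟩
  · simp [sd]
  · simp [sd]

theorem bern_pos (b : Bool) : 0 < Rs689.bern Rs689.hf {b} := by
  rw [pos_iff_ne_zero]
  intro h
  have h1 : (Rs689.bern Rs689.hf).real {b} = 0 := by rw [measureReal_def, h]; rfl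
  cases b
  · rw [Rs689.bern_real_false] at h1
    have h2 : ((Rs689.hf : unitInterval) : ℝ) = 1 / 2 := rfl
    rw [h2] at h1; norm_num at h1
  · rw [Rs689.bern_real_true] at h1
    have h2 : ((Rs689.hf : unitInterval) : ℝ) = 1 / 2 := rfl
    rw [h2] at h1; norm_num at h1

/-- the two-arm probability is positive -/
theorem p2_pos (n : ℕ) : 0 < p2 n := by
  have h0 : {z : Cfz | ∀ e ∈ stdE n, z e = stdZ e} =
      Set.pi (stdE n : Set Edge) (fun e => {stdZ e}) := by
    ext z; simp [Set.mem_pi]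
  have h1 : nh {z : Cfz | ∀ e ∈ stdE n, z e = stdZ e} =
      ∏ e ∈ stdE n, Rs689.bern Rs689.hf {stdZ e} := by
    rw [h0]
    show Measure.infinitePi (fun _ : Edge => Rs689.bern Rs689.hf) _ = _
    rw [Measure.infinitePi_pi]
    intro e _
    exact measurableSet_singleton _
  have h2 : 0 < nh {z : Cfz | ∀ e ∈ stdE n, z e = stdZ e} := by
    rw [h1]
    exact pos_iff_ne_zero.2 (Finset.prod_ne_zero_iff.2 fun e _ => (bern_pos _).ne')
  have h3 : 0 < nh.real {z : Cfz | ∀ e ∈ stdE n, z e = stdZ e} :=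
    ENNReal.toReal_pos h2.ne' (measure_ne_top _ _)
  exact h3.trans_le (measureReal_mono (std_sub n))

/-! ### the dyadic terms -/

/-- **every dyadic term is small** -/
theorem term_le (hQ : QM2) {ε : ℝ} (hε : 0 < ε) : ∃ K : ℕ, 1 ≤ K ∧ ∀ᶠ N : ℕ in atTop,
    p2 (2 ^ Nat.log 2 N - 7) ≤ p2 (N / K) ∧ p2 (N - 6) ≤ p2 (N / K) ∧
    ∀ j : ℕ, p2 (2 ^ j - 8) * P2a (2 ^ (j + 1)) ((N : ℤ) - 1) ≤ (N : ℝ) ^ ε * p2 (N / K) := by
  obtain ⟨k0, A, hev⟩ := hQ (ε / 2) (by linarith)
  set k1 : ℕ := max k0 16 with hk1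
  set K : ℕ := 4 * (A + 1) with hK
  have hp1 : 0 < p2 k1 := p2_pos k1
  refine ⟨K, by omega, ?_⟩
  have hc : ∀ᶠ N : ℕ in atTop, max 1 (1 / p2 k1) ≤ (N : ℝ) ^ (ε / 2) :=
    ((tendsto_rpow_atTop (by linarith : (0 : ℝ) < ε / 2)).comp
      tendsto_natCast_atTop_atTop).eventually_ge_atTop _
  filter_upwards [hev, hc, eventually_ge_atTop 28, eventually_ge_atTop (A * k1 + 1)] with
    N h1 h2 h3 h4
  have hNpos : (0 : ℝ) < N := by exact_mod_cast (by omega : 0 < N)
  have hN1 : (1 : ℝ) ≤ N := by exact_mod_cast (by omega : 1 ≤ N)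
  have hKN : N / K ≤ N / 4 := Nat.div_le_div_left (by omega) (by norm_num)
  have hKN1 : p2 (N - 1) ≤ p2 (N / K) := p2_anti (by omega)
  have hsplit : (N : ℝ) ^ ε = (N : ℝ) ^ (ε / 2) * (N : ℝ) ^ (ε / 2) := by
    rw [← Real.rpow_add hNpos]; congr 1; ring
  have hge : (1 : ℝ) ≤ (N : ℝ) ^ (ε / 2) := (le_max_left _ _).trans h2
  have hcast : (((N - 1 : ℕ) : ℕ) : ℤ) = (N : ℤ) - 1 := by
    rw [Nat.cast_sub (by omega)]; simp
  refine ⟨?_, p2_anti (by omega), ?_⟩
  · refine p2_anti ?_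
    have : N < 2 ^ (Nat.log 2 N + 1) := Nat.lt_pow_succ_log_self (by norm_num) _
    rw [pow_succ] at this
    omega
  · intro j
    rcases le_or_gt (2 ^ (j + 1)) (4 * k1) with hj | hj
    · -- small scales
      have h5 := h1 k1 (N - 1) (le_max_left _ _) (by omega) (by omega)
      rw [hcast] at h5
      have h6 : P2a (2 ^ (j + 1)) ((N : ℤ) - 1) ≤ P2a (4 * k1) ((N : ℤ) - 1) :=
        p2a_mono (by exact_mod_cast hj) le_rfl
      have h7 : P2a (4 * k1) ((N : ℤ) - 1) ≤ (1 / p2 k1) * ((N : ℝ) ^ (ε / 2) * p2 (N - 1)) := by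
        rw [one_div, ← div_eq_inv_mul, le_div_iff₀ hp1, mul_comm]
        exact h5
      calc p2 (2 ^ j - 8) * P2a (2 ^ (j + 1)) ((N : ℤ) - 1)
          ≤ 1 * P2a (4 * k1) ((N : ℤ) - 1) :=
            mul_le_mul (p2_le_one _) h6 (p2a_nonneg _ _) zero_le_one
        _ ≤ (1 / p2 k1) * ((N : ℝ) ^ (ε / 2) * p2 (N - 1)) := by rw [one_mul]; exact h7
        _ ≤ (N : ℝ) ^ (ε / 2) * ((N : ℝ) ^ (ε / 2) * p2 (N / K)) :=
            mul_le_mul ((le_max_right _ _).trans h2)
              (mul_le_mul_of_nonneg_left hKN1 (by positivity))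
              (mul_nonneg (by positivity) (p2_nonneg _)) (by positivity)
        _ = (N : ℝ) ^ ε * p2 (N / K) := by rw [hsplit]; ring
    · -- k = 2 ^ (j - 1)
      obtain ⟨i, rfl⟩ : ∃ i, j = i + 1 := by
        rcases j with - | i
        · exfalso
          have : (16 : ℕ) ≤ k1 := le_max_right _ _
          norm_num at hj
          omega
        · exact ⟨i, rfl⟩
      have h16 : (16 : ℕ) ≤ k1 := le_max_right _ _
      have e1 : 2 ^ (i + 1 + 1) = 4 * 2 ^ i := by rw [pow_succ, pow_succ]; ring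
      have e2 : 2 ^ (i + 1) = 2 * 2 ^ i := by rw [pow_succ]; ring
      rw [e1] at hj
      have h8 : k1 < 2 ^ i := by omega
      have h9 : p2 (2 ^ (i + 1) - 8) ≤ p2 (2 ^ i) := p2_anti (by rw [e2]; omega)
      have e3 : ((2 : ℤ) ^ (i + 1 + 1)) = 4 * ((2 ^ i : ℕ) : ℤ) := by
        push_cast; rw [pow_succ, pow_succ]; ring
      rcases le_or_gt (A * 2 ^ i) (N - 1) with h10 | h10
      · have h11 := h1 (2 ^ i) (N - 1) (by have := le_max_left k0 16; omega) h10 (by omega)
        rw [hcast] at h11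
        rw [e3]
        calc p2 (2 ^ (i + 1) - 8) * P2a (4 * ((2 ^ i : ℕ) : ℤ)) ((N : ℤ) - 1)
            ≤ p2 (2 ^ i) * P2a (4 * ((2 ^ i : ℕ) : ℤ)) ((N : ℤ) - 1) :=
              mul_le_mul_of_nonneg_right h9 (p2a_nonneg _ _)
          _ ≤ (N : ℝ) ^ (ε / 2) * p2 (N - 1) := h11
          _ ≤ (N : ℝ) ^ (ε / 2) * p2 (N / K) := mul_le_mul_of_nonneg_left hKN1 (by positivity)
          _ ≤ (N : ℝ) ^ ε * p2 (N / K) := by
              refine mul_le_mul_of_nonneg_right ?_ (p2_nonneg _)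
              rw [hsplit]
              nlinarith
      · have h12 : N / K ≤ 2 ^ i := by
          have hA : 0 < A + 1 := by omega
          have h13 : N / K ≤ N / (A + 1) := Nat.div_le_div_left (by omega) hA
          refine h13.trans ?_
          rw [Nat.div_le_iff_le_mul_add_pred hA]
          have : A * 2 ^ i ≤ (A + 1) * 2 ^ i := Nat.mul_le_mul_right _ (by omega)
          omega
        calc p2 (2 ^ (i + 1) - 8) * P2a (2 ^ (i + 1 + 1)) ((N : ℤ) - 1)
            ≤ p2 (2 ^ i) * 1 := mul_le_mul h9 (p2a_le_one _ _) (p2a_nonneg _ _) (p2_nonneg _)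
          _ ≤ 1 * p2 (N / K) := by rw [mul_one, one_mul]; exact p2_anti h12
          _ ≤ (N : ℝ) ^ ε * p2 (N / K) := by
              refine mul_le_mul_of_nonneg_right ?_ (p2_nonneg _)
              rw [hsplit]
              nlinarith

/-! ### the charge of the C geometry -/

theorem mu_off {n r R : ℕ} (h : Geo n r R) : ∀ f ∈ BF (0, 0) ((n / 4 : ℕ) : ℤ), mu n r R f = 0 := by
  obtain ⟨i1, i2, i3⟩ := h.ints
  intro f hf
  rw [mem_BF] at hf
  have hn4 : (((n / 4 : ℕ) : ℕ) : ℤ) ≤ (n : ℤ) / 4 := by push_cast; exact le_rfl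
  have hf' : sd (0, 0) f.1 ≤ (n : ℤ) / 4 := hf.trans hn4
  have h1 : f ∉ Uc31.Vb n r := by
    intro hv
    have := (h.box_far hv).1
    omega
  have h2 : f ∉ Gx31.rg (0, 0) R := by
    intro hv
    rw [Gx31.mem_rg] at hv
    omega
  unfold mu
  rw [Finsupp.add_apply, Finsupp.smul_apply, Finsupp.smul_apply, Gx31.ud_not_mem h1,
    Gx31.ud_not_mem h2, smul_zero, smul_zero, add_zero]

theorem meas_mk (c : Corner) (N : ℤ) : MeasurableSet {z : Cfz | c ∈ Mk (Mo (0, 0) N) z} :=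
  (mk_dep_box c N).measurableSet

/-- number of dyadic scales -/
theorem log_le {ε : ℝ} (hε : 0 < ε) : ∀ᶠ N : ℕ in atTop,
    ((Nat.log 2 N + 1 : ℕ) : ℝ) ≤ (N : ℝ) ^ ε ∧ 5 ≤ (N : ℝ) ^ ε := by
  have h1 : ∀ᶠ N : ℕ in atTop, (10 : ℝ) ≤ (N : ℝ) ^ (ε / 2) :=
    ((tendsto_rpow_atTop (by linarith : (0 : ℝ) < ε / 2)).comp
      tendsto_natCast_atTop_atTop).eventually_ge_atTop _
  have h2 : ∀ᶠ N : ℕ in atTop, Real.log N ≤ 1 * (N : ℝ) ^ (ε / 2) := by
    have h3 := (isLittleO_log_rpow_atTop (by linarith : (0 : ℝ) < ε / 2)).bound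
      (c := 1) one_pos
    have h4 := tendsto_natCast_atTop_atTop.eventually h3
    filter_upwards [h4, eventually_ge_atTop 1] with N hN hN1
    rw [Real.norm_of_nonneg (Real.log_natCast_nonneg N), Real.norm_of_nonneg (by positivity)] at hN
    exact hN
  filter_upwards [h1, h2, eventually_ge_atTop 2] with N g1 g2 g3
  have hNpos : (0 : ℝ) < N := by exact_mod_cast (by omega : 0 < N)
  have hsplit : (N : ℝ) ^ ε = (N : ℝ) ^ (ε / 2) * (N : ℝ) ^ (ε / 2) := by
    rw [← Real.rpow_add hNpos]; congr 1; ring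
  have h5 : ((Nat.log 2 N : ℕ) : ℝ) ≤ 2 * Real.log N := by
    have h6 : (2 : ℝ) ^ (Nat.log 2 N) ≤ N := by
      exact_mod_cast Nat.pow_log_le_self 2 (by omega)
    have h7 := Real.log_le_log (by positivity) h6
    rw [Real.log_pow] at h7
    have h8 : (1 : ℝ) / 2 ≤ Real.log 2 := by
      have := Real.log_two_gt_d9
      linarith
    have h9 : (0 : ℝ) ≤ (Nat.log 2 N : ℕ) := Nat.cast_nonneg _
    nlinarith
  rw [hsplit]
  constructor
  · push_cast
    nlinarith
  · nlinarith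

/-- **UB3b** -/
theorem UB3b (hQ : QM2) {δ : ℝ} (h0 : 0 < δ) (h1 : δ < 1) : ∃ C : ℝ, 1 ≤ C ∧ ∃ K : ℕ, 1 ≤ K ∧
    ∀ᶠ n : ℕ in atTop, ∀ r R : ℕ, Geo n r R → ∀ c : Corner, sd (0, 0) c.1 ≤ 1 →
      |∫ z, Vn841.Xs (mu n r R) c z ∂nh| ≤
        C * ((R : ℝ) / r) ^ C * WC n 1 * (n : ℝ) ^ δ * p2 (n / K) ^ (1 - δ) := by
  classical
  obtain ⟨C, hC, hUf⟩ := Uf h0 h1
  obtain ⟨K, hK, hT⟩ := term_le hQ (ε := δ / 3) (by linarith)
  have hdiv : Tendsto (fun n : ℕ => n / 4) atTop atTop :=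
    Nat.tendsto_div_const_atTop (by norm_num)
  refine ⟨C, hC, 4 * K, by omega, ?_⟩
  filter_upwards [hdiv.eventually hT, hdiv.eventually (log_le (ε := δ / 3) (by linarith)),
    eventually_ge_atTop 4] with n hTn hLn hn4 r R hg c hc
  obtain ⟨t1, t2, t3⟩ := hTn
  obtain ⟨l1, l2⟩ := hLn
  set N : ℕ := n / 4 with hN
  have hoff := mu_off hg
  rw [← hN] at hoff
  have htot : tot (mu n r R) = Real.pi := tot_mu hg.R1
  set M := Mo (0, 0) (N : ℤ) with hM
  have hMf : Mᶜ.Finite := Mo_cofin _ _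
  set P : ℝ := p2 (N / K) with hP
  have hP0 : 0 < P := p2_pos _
  have hP1 : P ≤ 1 := p2_le_one _
  have hρ := hg.ratio
  set B : ℝ := C * ((R : ℝ) / r) ^ C * WC n 1 with hB
  have hB0 : 0 < B := by
    have := WC_pos n 1
    positivity
  have hNpos : (0 : ℝ) < N := by
    have : 0 < N := by omega
    exact_mod_cast this
  have hNle : (N : ℝ) ^ δ ≤ (n : ℝ) ^ δ := by
    refine Real.rpow_le_rpow hNpos.le ?_ h0.le
    have : N ≤ n := Nat.div_le_self _ _
    exact_mod_cast this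
  have hN1 : (1 : ℝ) ≤ N := by
    have : 1 ≤ N := by omega
    exact_mod_cast this
  -- the two operators agree
  have hXeq : ∀ᵐ z ∂nh, Vn841.Xs (mu n r R) c z = Vx107.Xs (mu n r R) c z :=
    Vx107.ae_fin.mono fun z hz => Vx107.Xs_eq' (hz c) htot
  have hXi := xs_int hg c
  have hXi' : Integrable (Vx107.Xs (mu n r R) c) nh := hXi.congr hXeq
  have hmk : MeasurableSet {z : Cfz | c ∈ Mk M z} := meas_mk c N
  -- event bound
  have hev : ∀ A : Set Cfz, MeasurableSet A →
      ∫ z, A.indicator (fun z => |Vx107.Xs (mu n r R) c z|) z ∂nh ≤ B * nh.real A ^ (1 - δ) := by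
    intro A hA
    have h2 := hUf n r R hg c hc A hA
    refine le_trans (le_of_eq ?_) h2
    refine integral_congr_ae (hXeq.mono fun z hz => ?_)
    show A.indicator (fun z => |Vx107.Xs (mu n r R) c z|) z =
      A.indicator (fun z => |Vn841.Xs (mu n r R) c z|) z
    by_cases h3 : z ∈ A
    · rw [Set.indicator_of_mem h3, Set.indicator_of_mem h3, hz]
    · rw [Set.indicator_of_notMem h3, Set.indicator_of_notMem h3]
  have hδ1 : 0 ≤ 1 - δ := by linarith
  -- the marked part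
  have hfar : |∫ z, (if c ∈ Mk M z then Vx107.Xs (mu n r R) c z else 0) ∂nh| ≤ B * P ^ (1 - δ) := by
    refine (abs_integral_le_integral_abs).trans ?_
    have e1 : ∀ z, |if c ∈ Mk M z then Vx107.Xs (mu n r R) c z else 0| =
        {z : Cfz | c ∈ Mk M z}.indicator (fun z => |Vx107.Xs (mu n r R) c z|) z := by
      intro z
      by_cases h3 : c ∈ Mk M z
      · rw [if_pos h3, Set.indicator_of_mem (show z ∈ {z : Cfz | c ∈ Mk M z} from h3)]
      · rw [if_neg h3, Set.indicator_of_notMem (show z ∉ {z : Cfz | c ∈ Mk M z} from h3),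
          abs_zero]
    simp only [e1]
    refine (hev _ hmk).trans (mul_le_mul_of_nonneg_left ?_ hB0.le)
    refine Real.rpow_le_rpow measureReal_nonneg ?_ hδ1
    exact (mk_le c N hc).trans t2
  -- the unmarked part
  set J := Nat.log 2 N with hJ
  have hnear : ∫ z, (if c ∉ Mk M z then |Vx107.Xs (mu n r R) c z| * Pv M c z else 0) ∂nh ≤
      B * P ^ (1 - δ) * (1 + (J + 1 : ℕ) * (N : ℝ) ^ (δ / 3)) := by
    have hXa : Integrable (fun z => |Vx107.Xs (mu n r R) c z|) nh := hXi'.abs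
    set g : Cfz → ℝ := fun z => p2 (2 ^ J - 7) * |Vx107.Xs (mu n r R) c z| +
      ∑ j ∈ Finset.range (J + 1), p2 (2 ^ j - 8) *
        (XA N (2 ^ (j + 1))).indicator (fun z => |Vx107.Xs (mu n r R) c z|) z with hgdef
    have hji : ∀ j : ℕ, Integrable (fun z => p2 (2 ^ j - 8) *
        (XA N (2 ^ (j + 1))).indicator (fun z => |Vx107.Xs (mu n r R) c z|) z) nh := fun j =>
      (hXa.indicator (meas_xa _ _)).const_mul _
    have hsum_i : Integrable (fun z => ∑ j ∈ Finset.range (J + 1), p2 (2 ^ j - 8) *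
        (XA N (2 ^ (j + 1))).indicator (fun z => |Vx107.Xs (mu n r R) c z|) z) nh :=
      integrable_finsetSum _ fun j _ => hji j
    have hgi : Integrable g nh := (hXa.const_mul _).add hsum_i
    have hle : ∀ z, (if c ∉ Mk M z then |Vx107.Xs (mu n r R) c z| * Pv M c z else 0) ≤ g z := by
      intro z
      have h3 := pv_xa c N J hc z
      have h4 : |Vx107.Xs (mu n r R) c z| * Pv M c z ≤ g z := by
        refine (mul_le_mul_of_nonneg_left h3 (abs_nonneg _)).trans (le_of_eq ?_)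
        rw [hgdef]
        simp only
        rw [mul_add, Finset.mul_sum]
        congr 1
        · ring
        · refine Finset.sum_congr rfl fun j _ => ?_
          by_cases h5 : z ∈ XA N (2 ^ (j + 1))
          · rw [Set.indicator_of_mem h5, Set.indicator_of_mem h5, Pi.one_apply]; ring
          · rw [Set.indicator_of_notMem h5, Set.indicator_of_notMem h5]; ring
      by_cases h5 : c ∉ Mk M z
      · rw [if_pos h5]; exact h4
      · rw [if_neg h5]
        exact (mul_nonneg (abs_nonneg _) (pv_nonneg c z)).trans h4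
    have hge0 : ∀ z, 0 ≤ (if c ∉ Mk M z then |Vx107.Xs (mu n r R) c z| * Pv M c z else 0) := by
      intro z
      split_ifs
      · exact le_rfl
      · exact mul_nonneg (abs_nonneg _) (pv_nonneg c z)
    refine (integral_mono_of_nonneg (Filter.Eventually.of_forall hge0) hgi
      (Filter.Eventually.of_forall hle)).trans ?_
    have hint : ∫ z, g z ∂nh = p2 (2 ^ J - 7) * ∫ z, |Vx107.Xs (mu n r R) c z| ∂nh +
        ∑ j ∈ Finset.range (J + 1), p2 (2 ^ j - 8) *
          ∫ z, (XA N (2 ^ (j + 1))).indicator (fun z => |Vx107.Xs (mu n r R) c z|) z ∂nh := by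
      rw [hgdef, integral_add (hXa.const_mul _) hsum_i, integral_const_mul,
        integral_finsetSum _ fun j _ => hji j]
      congr 1
      refine Finset.sum_congr rfl fun j _ => ?_
      rw [integral_const_mul]
    rw [hint, mul_add, mul_one]
    refine add_le_add ?_ ?_
    · have h3 := hev Set.univ MeasurableSet.univ
      rw [probReal_univ, Real.one_rpow, mul_one] at h3
      simp only [Set.indicator_univ] at h3
      have h4 : p2 (2 ^ J - 7) ≤ P ^ (1 - δ) := by
        refine t1.trans ?_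
        have := Real.rpow_le_rpow_of_exponent_ge hP0 hP1 (by linarith : (1 - δ) ≤ 1)
        rwa [Real.rpow_one] at this
      calc p2 (2 ^ J - 7) * ∫ z, |Vx107.Xs (mu n r R) c z| ∂nh ≤ P ^ (1 - δ) * B :=
            mul_le_mul h4 h3 (integral_nonneg fun _ => abs_nonneg _) (by positivity)
        _ = B * P ^ (1 - δ) := mul_comm _ _
    · have hterm : ∀ j ∈ Finset.range (J + 1), p2 (2 ^ j - 8) *
          ∫ z, (XA N (2 ^ (j + 1))).indicator (fun z => |Vx107.Xs (mu n r R) c z|) z ∂nh ≤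
          B * P ^ (1 - δ) * (N : ℝ) ^ (δ / 3) := by
        intro j _
        have h3 := hev (XA N (2 ^ (j + 1))) (meas_xa _ _)
        have h4 : nh.real (XA N (2 ^ (j + 1))) ^ (1 - δ) ≤
            P2a (2 ^ (j + 1)) ((N : ℤ) - 1) ^ (1 - δ) :=
          Real.rpow_le_rpow measureReal_nonneg (xa_le _ _) hδ1
        have h5 : p2 (2 ^ j - 8) ≤ p2 (2 ^ j - 8) ^ (1 - δ) := by
          have := Real.rpow_le_rpow_of_exponent_ge (p2_pos (2 ^ j - 8)) (p2_le_one _)
            (by linarith : (1 - δ) ≤ 1)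
          rwa [Real.rpow_one] at this
        calc p2 (2 ^ j - 8) * ∫ z, (XA N (2 ^ (j + 1))).indicator
              (fun z => |Vx107.Xs (mu n r R) c z|) z ∂nh
            ≤ p2 (2 ^ j - 8) * (B * P2a (2 ^ (j + 1)) ((N : ℤ) - 1) ^ (1 - δ)) :=
              mul_le_mul_of_nonneg_left (h3.trans (mul_le_mul_of_nonneg_left h4 hB0.le))
                (p2_nonneg _)
          _ ≤ p2 (2 ^ j - 8) ^ (1 - δ) * (B * P2a (2 ^ (j + 1)) ((N : ℤ) - 1) ^ (1 - δ)) :=
              mul_le_mul_of_nonneg_right h5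
                (mul_nonneg hB0.le (Real.rpow_nonneg (p2a_nonneg _ _) _))
          _ = B * (p2 (2 ^ j - 8) * P2a (2 ^ (j + 1)) ((N : ℤ) - 1)) ^ (1 - δ) := by
              rw [Real.mul_rpow (p2_nonneg _) (p2a_nonneg _ _)]; ring
          _ ≤ B * ((N : ℝ) ^ (δ / 3) * P) ^ (1 - δ) := by
              refine mul_le_mul_of_nonneg_left (Real.rpow_le_rpow
                (mul_nonneg (p2_nonneg _) (p2a_nonneg _ _)) (t3 j) hδ1) hB0.le
          _ ≤ B * ((N : ℝ) ^ (δ / 3) * P ^ (1 - δ)) := by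
              refine mul_le_mul_of_nonneg_left ?_ hB0.le
              rw [Real.mul_rpow (by positivity) hP0.le]
              refine mul_le_mul_of_nonneg_right ?_ (by positivity)
              have h6 : (1 : ℝ) ≤ (N : ℝ) ^ (δ / 3) := Real.one_le_rpow hN1 (by linarith)
              have := Real.rpow_le_rpow_of_exponent_le h6 (by linarith : (1 - δ) ≤ 1)
              rwa [Real.rpow_one] at this
          _ = B * P ^ (1 - δ) * (N : ℝ) ^ (δ / 3) := by ring
      refine (Finset.sum_le_sum hterm).trans (le_of_eq ?_)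
      rw [Finset.sum_const, Finset.card_range, nsmul_eq_mul]
      ring
  have hiso := iso_le htot hoff c
  -- assembly
  have hsplit : ∫ z, Vn841.Xs (mu n r R) c z ∂nh =
      ∫ z, (if c ∈ Mk M z then Vx107.Xs (mu n r R) c z else 0) ∂nh +
      ∫ z, (if c ∉ Mk M z then Vx107.Xs (mu n r R) c z else 0) ∂nh := by
    rw [integral_congr_ae hXeq]
    have i1 : Integrable (fun z => if c ∈ Mk M z then Vx107.Xs (mu n r R) c z else 0) nh := by
      refine (hXi'.indicator hmk).congr (Filter.Eventually.of_forall fun z => ?_)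
      show {z : Cfz | c ∈ Mk M z}.indicator (Vx107.Xs (mu n r R) c) z =
        (if c ∈ Mk M z then Vx107.Xs (mu n r R) c z else 0)
      by_cases h3 : c ∈ Mk M z
      · rw [Set.indicator_of_mem (show z ∈ {z : Cfz | c ∈ Mk M z} from h3), if_pos h3]
      · rw [Set.indicator_of_notMem (show z ∉ {z : Cfz | c ∈ Mk M z} from h3), if_neg h3]
    have i2 : Integrable (fun z => if c ∉ Mk M z then Vx107.Xs (mu n r R) c z else 0) nh := by
      refine (hXi'.sub i1).congr (Filter.Eventually.of_forall fun z => ?_)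
      show Vx107.Xs (mu n r R) c z - (if c ∈ Mk M z then Vx107.Xs (mu n r R) c z else 0) =
        (if c ∉ Mk M z then Vx107.Xs (mu n r R) c z else 0)
      by_cases h3 : c ∈ Mk M z
      · rw [if_pos h3, if_neg (not_not.2 h3), sub_self]
      · rw [if_neg h3, if_pos h3, sub_zero]
    rw [← integral_add i1 i2]
    refine integral_congr_ae (Filter.Eventually.of_forall fun z => ?_)
    simp only
    by_cases h3 : c ∈ Mk M z
    · rw [if_pos h3, if_neg (not_not.2 h3), add_zero]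
    · rw [if_neg h3, if_pos h3, zero_add]
  rw [hsplit]
  refine (abs_add_le _ _).trans ?_
  have htotal : |∫ z, (if c ∈ Mk M z then Vx107.Xs (mu n r R) c z else 0) ∂nh| +
      |∫ z, (if c ∉ Mk M z then Vx107.Xs (mu n r R) c z else 0) ∂nh| ≤
      B * P ^ (1 - δ) + 2 * (B * P ^ (1 - δ) * (1 + (J + 1 : ℕ) * (N : ℝ) ^ (δ / 3))) := by
    refine add_le_add hfar (hiso.trans ?_)
    exact mul_le_mul_of_nonneg_left hnear (by norm_num)
  refine htotal.trans ?_
  have hBP : 0 ≤ B * P ^ (1 - δ) := by positivity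
  have hfac : 1 + 2 * (1 + (J + 1 : ℕ) * (N : ℝ) ^ (δ / 3)) ≤ (N : ℝ) ^ δ := by
    have e1 : (N : ℝ) ^ δ = (N : ℝ) ^ (δ / 3) * ((N : ℝ) ^ (δ / 3) * (N : ℝ) ^ (δ / 3)) := by
      rw [← Real.rpow_add hNpos, ← Real.rpow_add hNpos]; congr 1; ring
    set q := (N : ℝ) ^ (δ / 3) with hq
    have hq5 : 5 ≤ q := l2
    have hj : ((J + 1 : ℕ) : ℝ) ≤ q := l1
    rw [e1]
    have h3 : ((J + 1 : ℕ) : ℝ) * q ≤ q * q := mul_le_mul_of_nonneg_right hj (by linarith)
    nlinarith
  have hdd : n / (4 * K) = N / K := by rw [hN, Nat.div_div_eq_div_mul]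
  calc B * P ^ (1 - δ) + 2 * (B * P ^ (1 - δ) * (1 + (J + 1 : ℕ) * (N : ℝ) ^ (δ / 3)))
      = B * P ^ (1 - δ) * (1 + 2 * (1 + (J + 1 : ℕ) * (N : ℝ) ^ (δ / 3))) := by ring
    _ ≤ B * P ^ (1 - δ) * (N : ℝ) ^ δ := mul_le_mul_of_nonneg_left hfac hBP
    _ ≤ B * P ^ (1 - δ) * (n : ℝ) ^ δ := mul_le_mul_of_nonneg_left hNle hBP
    _ = B * (n : ℝ) ^ δ * p2 (n / (4 * K)) ^ (1 - δ) := by rw [hdd]; ring

end Crest.Agent.R158.Zs110
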