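import Crest.Agent.R158.Sc3_689
import Crest.Agent.R158.Sh3_158
import Crest.Agent.R158.Zs4_110

/-!
# Row 158, Block SEP2 (helper689): `QM2`

* `sep2_ok : Sep2` (from 158's `sep2`)
* `qm2 : Zs110.QM2`
-/

set_option autoImplicit false

noncomputable section

namespace Crest.Agent.R158.Sc689

open Filter MeasureTheory ProbabilityTheory unitInterval
open Crest.Agent.R158.Rs689 Crest.Agent.R158.Sp580 Crest.Agent.R158.Sb689
open Crest.Agent.R158.Ax107 (p2 p2_anti p2_nonneg p2_le_one P2ev)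

theorem sep2_ok : Sep2 := by
  intro c hc
  obtain ⟨K, -, hK⟩ := Sh158.sep2 hc
  exact ⟨K, fun p j hp => hK p j
    (hp.mono (Nat.pow_le_pow_right (by norm_num) (by omega))) (0, 0) nr0⟩

/-- **quasi-multiplicativity of two arms** -/
theorem qm2 : Zs110.QM2 := by
  intro ε hε
  obtain ⟨C, hC1, hC⟩ := p2_dbl sep2_ok
  obtain ⟨k0, hk0⟩ := qm2_aux sep2_ok (ε / 2) (by positivity)
  refine ⟨max k0 4, 4, ?_⟩
  have htend : Tendsto (fun n : ℕ => (n : ℝ) ^ (ε / 2)) atTop atTop :=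
    (tendsto_rpow_atTop (by positivity)).comp tendsto_natCast_atTop_atTop
  filter_upwards [hk0, htend.eventually_ge_atTop (C * C), eventually_ge_atTop 1] with n h1 h2 hn
    k l hk hkl hl
  have hn0 : (0 : ℝ) < n := by exact_mod_cast hn
  have hk4 : 4 ≤ k := (le_max_right _ _).trans hk
  have h3 := h1 (4 * k) l (by have := (le_max_left k0 4).trans hk; omega) hkl hl
  have h4 : p2 k ≤ C * C * p2 (4 * k) := by
    have h5 := hC k hk4
    have h6 := hC (2 * k) (by omega)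
    rw [show 2 * (2 * k) = 4 * k by ring] at h6
    calc p2 k ≤ C * p2 (2 * k) := h5
      _ ≤ C * (C * p2 (4 * k)) := mul_le_mul_of_nonneg_left h6 (by linarith)
      _ = C * C * p2 (4 * k) := by ring
  have h7 : Zs110.P2a (4 * (k : ℤ)) l =
      (nu Rs689.hf).real (An2 ((4 * k : ℕ) : ℤ) (l : ℤ)) := by
    push_cast
    rfl
  rw [h7]
  calc p2 k * (nu Rs689.hf).real (An2 ((4 * k : ℕ) : ℤ) (l : ℤ))
      ≤ (C * C * p2 (4 * k)) * (nu Rs689.hf).real (An2 ((4 * k : ℕ) : ℤ) (l : ℤ)) :=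
        mul_le_mul_of_nonneg_right h4 measureReal_nonneg
    _ = (C * C) * (p2 (4 * k) * (nu Rs689.hf).real (An2 ((4 * k : ℕ) : ℤ) (l : ℤ))) := by ring
    _ ≤ (C * C) * ((n : ℝ) ^ (ε / 2) * p2 l) := mul_le_mul_of_nonneg_left h3 (by nlinarith)
    _ ≤ (n : ℝ) ^ (ε / 2) * ((n : ℝ) ^ (ε / 2) * p2 l) :=
        mul_le_mul_of_nonneg_right h2
          (mul_nonneg (Real.rpow_nonneg hn0.le _) (p2_nonneg l))
    _ = (n : ℝ) ^ ε * p2 l := by
        rw [← mul_assoc, ← Real.rpow_add hn0]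
        congr 2
        ring

end Crest.Agent.R158.Sc689
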