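import Crest.Agent.R158.Fd8_61
import Crest.Agent.R158.Sc4_689
import Crest.Agent.R158.Md2_468

/-!
# Row 158, leaf D of doc 1912 (helper61), part 9: the lower bound `LB4`

* `Nj j` : probability of two nice arms at scale `2^j`
* `LB4_s` : one corner
* `LB4` : the sum over the four corners is `≥ c E P(Nice2)^2`
-/

set_option autoImplicit false

noncomputable section

namespace Crest.Agent.R158.Fd61

open Crest.Agent.R161.Geo729 Crest.Agent.R161.Dual374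
open Crest.Agent.R161.Tas682 (sd)
open Crest.Agent.R158.It200 hiding hf
open Crest.Agent.R158.Wf850
open Crest.Agent.R158.Vx107 hiding tot
open Crest.Agent.R158.Cn109 (VV)
open Crest.Agent.R158.Cpl963 (A1)
open Crest.Agent.R158.Rs689 (nu PB Dep)
open Crest.Agent.R158.Bk430 (ws us)
open Crest.Agent.R158.Zr110 (Mk Mo)
open Crest.Agent.R158.Zs110 (P2a p2a_nonneg QM2 term_le log_le p2_pos)
open Crest.Agent.R158.Ax107 (p2 p2_nonneg p2_le_one p2_anti fl_bounds ev_pow)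
open Crest.Agent.R158.Vg109 (HD)
open Function Real MeasureTheory ProbabilityTheory unitInterval Filter

local notation "μh" => nu Crest.Agent.R158.Rs689.hf

/-- two nice arms -/
def Nj (j : ℕ) : ℝ := (μh).real (Sb689.Nice2 (0, 0) (2 ^ j))

theorem Nj_nonneg (j : ℕ) : 0 ≤ Nj j := measureReal_nonneg

theorem p2_le_Nj : ∃ C : ℝ, 1 ≤ C ∧ ∀ j r : ℕ, 2 ^ (j + 2) ≤ r → p2 r ≤ C * Nj j :=
  Sc689.p2_nice Sc689.sep2_ok

theorem p2_div (K : ℕ) (hK : 1 ≤ K) : ∃ C : ℝ, 1 ≤ C ∧ ∀ᶠ j : ℕ in atTop,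
    p2 (64 * 2 ^ j / K) ≤ C * Nj j := by
  obtain ⟨C1, hC1, h1⟩ := p2_le_Nj
  obtain ⟨C2, hC2, h2⟩ := Sc689.p2_dbl Sc689.sep2_ok
  refine ⟨C2 ^ K * C1, one_le_mul_of_one_le_of_one_le (one_le_pow₀ hC2) hC1, ?_⟩
  filter_upwards [eventually_ge_atTop (4 * K + 4)] with j hj
  have hj2 : j < 2 ^ j := Nat.lt_two_pow_self
  have hdiv : 4 ≤ 64 * 2 ^ j / K := by
    rw [Nat.le_div_iff_mul_le (by omega)]
    omega
  have h3 := Sc689.iter_dbl hC2 h2 K hdiv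
  have h4 : 2 ^ (j + 2) ≤ 2 ^ K * (64 * 2 ^ j / K) := by
    have h5 : K < 2 ^ K := Nat.lt_two_pow_self
    have h6 : 64 * 2 ^ j < K * (64 * 2 ^ j / K) + K := by
      have := Nat.div_add_mod (64 * 2 ^ j) K
      have := Nat.mod_lt (64 * 2 ^ j) (show 0 < K by omega)
      omega
    have h7 : K * (64 * 2 ^ j / K) ≤ 2 ^ K * (64 * 2 ^ j / K) := Nat.mul_le_mul_right _ h5.le
    rw [pow_add]
    omega
  calc p2 (64 * 2 ^ j / K) ≤ C2 ^ K * p2 (2 ^ K * (64 * 2 ^ j / K)) := h3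
    _ ≤ C2 ^ K * (C1 * Nj j) := mul_le_mul_of_nonneg_left (h1 j _ h4) (by positivity)
    _ = _ := by ring

theorem Nj_low : ∃ a c : ℝ, 0 ≤ a ∧ 0 < c ∧ ∀ j : ℕ,
    c * (((256 * 2 ^ j : ℕ) : ℝ)) ^ (-a) ≤ Nj j := by
  obtain ⟨C1, hC1, h1⟩ := p2_le_Nj
  obtain ⟨C2, hC2, h2⟩ := Sc689.p2_dbl Sc689.sep2_ok
  obtain ⟨a, c, ha, hc, h⟩ := Sc689.lower_dbl p2_anti p2_nonneg hC2 h2 (p2_pos _)
  refine ⟨a, c / C1, ha, by positivity, fun j => ?_⟩
  have h3 := h (2 ^ (j + 2)) Nat.one_le_two_pow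
  have h4 := h1 j _ le_rfl
  have h5 : (((256 * 2 ^ j : ℕ) : ℝ)) ^ (-a) ≤ ((2 ^ (j + 2) : ℕ) : ℝ) ^ (-a) := by
    refine Real.rpow_le_rpow_of_nonpos (by positivity) ?_ (by linarith)
    have : 2 ^ (j + 2) ≤ 256 * 2 ^ j := by rw [pow_add]; omega
    exact_mod_cast this
  rw [div_mul_eq_mul_div, div_le_iff₀ (by linarith), mul_comm (Nj j)]
  exact (mul_le_mul_of_nonneg_left h5 hc.le).trans (h3.trans h4)

theorem tend_n : Tendsto (fun j : ℕ => 256 * 2 ^ j) atTop atTop := by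
  refine tendsto_atTop_mono (fun j => ?_) tendsto_id
  have : j < 2 ^ j := Nat.lt_two_pow_self
  show j ≤ 256 * 2 ^ j
  omega

theorem tend_N : Tendsto (fun j : ℕ => 64 * 2 ^ j) atTop atTop := by
  refine tendsto_atTop_mono (fun j => ?_) tendsto_id
  have : j < 2 ^ j := Nat.lt_two_pow_self
  show j ≤ 64 * 2 ^ j
  omega

/-- negative powers are small -/
theorem neg_pow_small {b : ℝ} (hb : 0 < b) {C d : ℝ} (hd : 0 < d) : ∀ᶠ n : ℕ in atTop,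
    C * (n : ℝ) ^ (-b) ≤ d := by
  filter_upwards [ev_pow b hb (|C| / d), eventually_ge_atTop 1] with n hn hn1
  have hn0 : (0 : ℝ) < n := by exact_mod_cast hn1
  have hp : 0 < (n : ℝ) ^ b := Real.rpow_pos_of_pos hn0 _
  rw [Real.rpow_neg hn0.le, ← div_eq_mul_inv, div_le_iff₀ hp]
  rw [div_le_iff₀ hd] at hn
  have := le_abs_self C
  linarith

/-- the scales -/
structure Scl (τ : ℝ) (n q r : ℕ) : Prop where
  q1 : (q : ℝ) ≤ (n : ℝ) ^ (1 + τ / 2)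
  q2 : (n : ℝ) ^ (1 + τ / 2) / 2 ≤ q
  r1 : (r : ℝ) ≤ (n : ℝ) ^ (1 + τ)
  r2 : (n : ℝ) ^ (1 + τ) / 2 ≤ r
  big : 1000 ≤ (n : ℝ) ^ (τ / 2)
  n1 : 1000 ≤ n

theorem scl_ev {τ : ℝ} (hτ : 0 < τ) : ∀ᶠ n : ℕ in atTop,
    Scl τ n ⌊(n : ℝ) ^ (1 + τ / 2)⌋₊ ⌊(n : ℝ) ^ (1 + τ)⌋₊ := by
  filter_upwards [fl_bounds (b := 1 + τ / 2) (by linarith), fl_bounds (b := 1 + τ) (by linarith),
    ev_pow (τ / 2) (by linarith) 1000, eventually_ge_atTop 1000] with n h1 h2 h3 h4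
  exact ⟨h1.1, h1.2, h2.1, h2.2, h3, h4⟩

variable {τ : ℝ} {n q r : ℕ}

theorem Scl.pos (h : Scl τ n q r) : (0 : ℝ) < n := by
  have := h.n1
  exact_mod_cast (by omega : 0 < n)

theorem Scl.e1 (h : Scl τ n q r) : (n : ℝ) ^ (1 + τ / 2) = n * (n : ℝ) ^ (τ / 2) := by
  rw [Real.rpow_add h.pos, Real.rpow_one]

theorem Scl.e2 (h : Scl τ n q r) : (n : ℝ) ^ (1 + τ) = (n : ℝ) ^ (1 + τ / 2) * (n : ℝ) ^ (τ / 2) := by
  rw [← Real.rpow_add h.pos]; congr 1; ring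

theorem Scl.nq (h : Scl τ n q r) : 100 * n ≤ q := by
  have h1 := h.q2
  rw [h.e1] at h1
  have h2 : (100 * n : ℝ) ≤ q := by
    have := h.pos
    have := h.big
    nlinarith
  exact_mod_cast h2

theorem Scl.qr (h : Scl τ n q r) : 100 * q ≤ r := by
  have h1 := h.r2
  rw [h.e2] at h1
  have h2 : (100 * q : ℝ) ≤ r := by
    have := h.q1
    have := h.big
    have h3 : 0 < (n : ℝ) ^ (1 + τ / 2) := Real.rpow_pos_of_pos h.pos _
    nlinarith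
  exact_mod_cast h2

theorem Scl.sz (h : Scl τ n q r) {N K : ℕ} (hN : 4 * N = n) (hK : 1 ≤ K) :
    Sz n N (2 * n) q (K * r) := by
  have h1 := h.nq
  have h2 := h.qr
  have h3 := h.n1
  have h4 : r ≤ K * r := Nat.le_mul_of_pos_left r (by omega)
  exact ⟨by omega, by omega, by omega, by omega, by omega⟩

theorem Scl.ratA (h : Scl τ n q r) : ((2 * n : ℕ) : ℝ) / q ≤ 4 * (n : ℝ) ^ (-(τ / 2)) := by
  have h0 := h.pos
  have hp : 0 < (n : ℝ) ^ (τ / 2) := Real.rpow_pos_of_pos h0 _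
  have h1 := h.q2
  rw [h.e1] at h1
  have hq : (0 : ℝ) < q := by
    have := h.nq
    have := h.n1
    exact_mod_cast (by omega : 0 < q)
  rw [Real.rpow_neg h0.le, ← div_eq_mul_inv, div_le_div_iff₀ hq hp]
  push_cast
  linarith

theorem Scl.ratB (h : Scl τ n q r) {K : ℕ} (hK : 1 ≤ K) :
    ((q + 5 : ℕ) : ℝ) / ((K * r / 8 : ℕ) : ℝ) ≤ 64 * (n : ℝ) ^ (-(τ / 2)) := by
  have h0 := h.pos
  have hp : 0 < (n : ℝ) ^ (τ / 2) := Real.rpow_pos_of_pos h0 _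
  have hnq := h.nq
  have hqr := h.qr
  have hn1 := h.n1
  have h4 : r ≤ K * r := Nat.le_mul_of_pos_left r (by omega)
  have h5 : r ≤ 16 * (K * r / 8) := by omega
  have h6 : (r : ℝ) ≤ 16 * ((K * r / 8 : ℕ) : ℝ) := by exact_mod_cast h5
  have h7 : ((q + 5 : ℕ) : ℝ) ≤ 2 * q := by exact_mod_cast (by omega : q + 5 ≤ 2 * q)
  have h8 := h.r2
  rw [h.e2] at h8
  have h9 := h.q1
  have hq : (0 : ℝ) < ((K * r / 8 : ℕ) : ℝ) := by exact_mod_cast (by omega : 0 < K * r / 8)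
  rw [Real.rpow_neg h0.le, ← div_eq_mul_inv, div_le_div_iff₀ hq hp]
  have h10 : (q : ℝ) * (n : ℝ) ^ (τ / 2) ≤ (n : ℝ) ^ (1 + τ / 2) * (n : ℝ) ^ (τ / 2) :=
    mul_le_mul_of_nonneg_right h9 hp.le
  nlinarith

set_option maxHeartbeats 2000000 in
/-- **one corner** -/
theorem LB4_s (hLaw : Bs410.Law3) (hD : HD) : ∃ K : ℕ, 1 ≤ K ∧ ∃ c : ℝ, 0 < c ∧
    ∀ τ : ℝ, 0 < τ → ∀ δ : ℝ, 0 < δ → ∀ᶠ j : ℕ in atTop, ∀ n q r : ℕ, n = 256 * 2 ^ j →
      q = ⌊(n : ℝ) ^ (1 + τ / 2)⌋₊ → r = ⌊(n : ℝ) ^ (1 + τ)⌋₊ → Scl τ n q r ∧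
      ∀ s : Corner, sd (0, 0) s.1 ≤ 1 →
        EE (K * r) * (c * (μh).real (GdE s (eP n) q) - δ * Nj j ^ 2) ≤
          ∫ z, dd (K * r) n s z ∂μh := by
  obtain ⟨K, hK, cE, hcE, hEB⟩ := EB_pos hLaw hD
  obtain ⟨CA, a, hCA, ha, hA1⟩ := A1_le
  refine ⟨K, hK, cE, hcE, fun τ hτ δ hδ => ?_⟩
  set θ : ℝ := a * τ / 8 with hθ
  have hθ0 : 0 < θ := by positivity
  obtain ⟨K', hK', hterm⟩ := term_le Sc689.qm2 (ε := θ / 3) (by positivity)
  obtain ⟨C1, hC1, hdiv⟩ := p2_div K' hK'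
  obtain ⟨a', c1, ha', hc1, hlow⟩ := Nj_low
  obtain ⟨k0, hk0⟩ : ∃ k0 : ℕ, 2 * a' + 2 ≤ θ * ((2 * k0 + 1 : ℕ) : ℝ) := by
    obtain ⟨k0, hk0⟩ := exists_nat_ge ((2 * a' + 2) / θ)
    refine ⟨k0, ?_⟩
    rw [div_le_iff₀ hθ0] at hk0
    push_cast
    nlinarith
  obtain ⟨G, hG, hmaj⟩ := maj_ws (2 * k0 + 2)
  -- eventual facts
  have v1 := tend_n.eventually (scl_ev hτ)
  have v2 := tend_N.eventually hterm
  have v3 := tend_N.eventually (log_le (ε := θ / 3) (by positivity))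
  have v4 := tend_n.eventually (neg_pow_small (b := 2 * θ) (by positivity)
    (C := 24 * (CA * 4 ^ a) * C1 ^ 2) (d := δ / 2) (by positivity))
  have v5 := tend_n.eventually (neg_pow_small (b := 1) (by positivity)
    (C := 24 * G / c1 ^ 2) (d := δ / 2) (by positivity))
  have v6 := tend_n.eventually (neg_pow_small (b := 3 * θ) (by positivity)
    (C := 4 * (CA * 64 ^ a)) (d := cE / 2) (by positivity))
  have v7 : ∀ᶠ j : ℕ in atTop, ∀ (ρ : ℤ) (g : Face), 0 ≤ ρ →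
      ρ ≤ (⌊((256 * 2 ^ j : ℕ) : ℝ) ^ (1 + τ)⌋₊ : ℕ) → sd (0, 0) g.1 ≤ ρ →
      cE * exp (-(b0 * VV (lv (K * ⌊((256 * 2 ^ j : ℕ) : ℝ) ^ (1 + τ)⌋₊)))) ≤
        ∫ z, Bn ρ (wg (K * ⌊((256 * 2 ^ j : ℕ) : ℝ) ^ (1 + τ)⌋₊) g) z ∂μh :=
    ((Ax107.fl_tendsto (b := 1 + τ) (by linarith)).comp tend_n).eventually hEB
  filter_upwards [v1, v2, v3, v4, v5, v6, v7, hdiv] with j w1 w2 w3 w4 w5 w6 w7 w8 n q r hn hq hr
  subst hn
  rw [← hq, ← hr] at w1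
  rw [← hr] at w7
  set n : ℕ := 256 * 2 ^ j with hn
  set N : ℕ := 64 * 2 ^ j with hN
  have h4N : 4 * N = n := by omega
  refine ⟨w1, fun s hs => ?_⟩
  have hsz := w1.sz h4N hK
  set R : ℕ := K * r with hR
  have hn0 : (0 : ℝ) < n := w1.pos
  have hn1 : (1 : ℝ) ≤ n := by have := w1.n1; exact_mod_cast (by omega : 1 ≤ n)
  obtain ⟨Y, hM, hY⟩ := hmaj R hsz.hR
  set T : ℝ := (n : ℝ) ^ θ with hT
  have hT1 : 1 ≤ T := Real.one_le_rpow hn1 hθ0.le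
  have hTc := tr_set hM hT1
  have hraw := LB4_raw hsz hs hY hTc (Nat.log 2 N)
  set J : ℕ := Nat.log 2 N with hJ
  set η : ℝ := G / T ^ (2 * k0 + 1) with hη
  have hE := EE_pos R
  set A := (μh).real (A1 (0, 0) ((2 * n : ℕ) : ℤ) (q : ℤ)) with hAdef
  set B := (μh).real (A1 (0, 0) ((q + 5 : ℕ) : ℤ) ((R / 8 : ℕ) : ℤ)) with hBdef
  have hA0 : 0 ≤ A := measureReal_nonneg
  have hB0 : 0 ≤ B := measureReal_nonneg
  have hP0 : 0 ≤ (μh).real (GdE s (eP n) q) := measureReal_nonneg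
  -- the crossing probabilities
  have hnq := w1.nq
  have hqr := w1.qr
  have hn1000 := w1.n1
  have hrR : r ≤ R := Nat.le_mul_of_pos_left r (by omega)
  have gA : A ≤ (CA * 4 ^ a) * (n : ℝ) ^ (-(4 * θ)) := by
    have g1 := hA1 (0, 0) (2 * n) q (by omega) (by omega)
    refine g1.trans ?_
    rw [mul_assoc]
    refine mul_le_mul_of_nonneg_left ?_ (by linarith)
    have g2 := Real.rpow_le_rpow (by positivity) w1.ratA ha.le
    refine g2.trans (le_of_eq ?_)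
    rw [Real.mul_rpow (by norm_num) (by positivity), ← Real.rpow_mul hn0.le]
    congr 2
    rw [hθ]; ring
  have gB : B ≤ (CA * 64 ^ a) * (n : ℝ) ^ (-(4 * θ)) := by
    have g1 := hA1 (0, 0) (q + 5) (R / 8) (by omega) (by omega)
    refine g1.trans ?_
    rw [mul_assoc]
    refine mul_le_mul_of_nonneg_left ?_ (by linarith)
    have g2 := Real.rpow_le_rpow (by positivity) (w1.ratB hK) ha.le
    refine g2.trans (le_of_eq ?_)
    rw [Real.mul_rpow (by norm_num) (by positivity), ← Real.rpow_mul hn0.le]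
    congr 2
    rw [hθ]; ring
  -- the main term
  have hmain : cE * EE R / 2 ≤ ∫ z, Bn ((q + 5 : ℕ) : ℤ) (wg R (cv (eP n))) z ∂μh -
      4 * T * EE R * B := by
    have g1 := w7 ((q + 5 : ℕ) : ℤ) (cv (eP n)) (by positivity) (by omega) (by
      show sd (0, 0) (eP n).1 ≤ _
      rw [sd_eP]; omega)
    have g2 : cE * EE R ≤ ∫ z, Bn ((q + 5 : ℕ) : ℤ) (wg R (cv (eP n))) z ∂μh := g1
    have g3 : 4 * (T * B) ≤ cE / 2 := by
      have g4 : T * B ≤ (CA * 64 ^ a) * (n : ℝ) ^ (-(3 * θ)) := by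
        calc T * B ≤ (n : ℝ) ^ θ * ((CA * 64 ^ a) * (n : ℝ) ^ (-(4 * θ))) :=
              mul_le_mul_of_nonneg_left gB (by positivity)
          _ = (CA * 64 ^ a) * ((n : ℝ) ^ θ * (n : ℝ) ^ (-(4 * θ))) := by ring
          _ = _ := by rw [← Real.rpow_add hn0]; congr 2; ring
      calc 4 * (T * B) ≤ 4 * ((CA * 64 ^ a) * (n : ℝ) ^ (-(3 * θ))) := by linarith
        _ = 4 * (CA * 64 ^ a) * (n : ℝ) ^ (-(3 * θ)) := by ring
        _ ≤ _ := w6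
    have g5 : 4 * T * EE R * B = EE R * (4 * (T * B)) := by ring
    rw [g5]
    have g6 : EE R * (4 * (T * B)) ≤ EE R * (cE / 2) := mul_le_mul_of_nonneg_left g3 hE.le
    linarith
  -- the errors
  obtain ⟨x1, x2, x3⟩ := w2
  obtain ⟨y1, y2⟩ := w3
  have hNn : (N : ℝ) ≤ n := by exact_mod_cast (by omega : N ≤ n)
  have hN0 : (0 : ℝ) < N := by
    have : 0 < N := by omega
    exact_mod_cast this
  set P := p2 (N / K') with hP
  have hPp : 0 ≤ P := p2_nonneg _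
  have hSg : p2 (N - 6) + Sg N J ≤ P * (n : ℝ) ^ θ := by
    set y := (N : ℝ) ^ (θ / 3) with hy
    have g1 : Sg N J ≤ P + (J + 1 : ℕ) * (y * P) := by
      unfold Sg
      refine add_le_add x1 ?_
      refine (Finset.sum_le_sum fun i _ => x3 i).trans (le_of_eq ?_)
      rw [Finset.sum_const, Finset.card_range, nsmul_eq_mul]
    have g2 : ((J + 1 : ℕ) : ℝ) * (y * P) ≤ y * (y * P) :=
      mul_le_mul_of_nonneg_right y1 (by positivity)
    have g3 : y * (y * y) ≤ (n : ℝ) ^ θ := by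
      have g4 : y * (y * y) = (N : ℝ) ^ θ := by
        rw [hy, ← Real.rpow_add hN0, ← Real.rpow_add hN0]; congr 1; ring
      rw [g4]
      exact Real.rpow_le_rpow hN0.le hNn hθ0.le
    have g5 : 2 + y * y ≤ y * (y * y) := by nlinarith
    have g6 : p2 (N - 6) + Sg N J ≤ P * (2 + y * y) := by nlinarith
    exact g6.trans (mul_le_mul_of_nonneg_left (g5.trans g3) hPp)
  have hPN : P ≤ C1 * Nj j := w8
  have hNj := Nj_nonneg j
  have gE1 : 24 * T * (p2 (N - 6) * A) * (p2 (N - 6) + Sg N J) ≤ δ / 2 * Nj j ^ 2 := by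
    have g1 : p2 (N - 6) * A ≤ P * ((CA * 4 ^ a) * (n : ℝ) ^ (-(4 * θ))) :=
      mul_le_mul x2 gA hA0 hPp
    have hSg0 : 0 ≤ p2 (N - 6) + Sg N J := add_nonneg (p2_nonneg _) (Sg_nonneg _ _)
    calc 24 * T * (p2 (N - 6) * A) * (p2 (N - 6) + Sg N J)
        ≤ 24 * T * (P * ((CA * 4 ^ a) * (n : ℝ) ^ (-(4 * θ)))) * (P * (n : ℝ) ^ θ) := by
          refine mul_le_mul (mul_le_mul_of_nonneg_left g1 (by positivity)) hSg hSg0 ?_
          have : 0 ≤ CA := by linarith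
          positivity
      _ = 24 * (CA * 4 ^ a) * P ^ 2 * ((n : ℝ) ^ θ * (n : ℝ) ^ (-(4 * θ)) * (n : ℝ) ^ θ) := by
          rw [hT]; ring
      _ = 24 * (CA * 4 ^ a) * P ^ 2 * (n : ℝ) ^ (-(2 * θ)) := by
          rw [← Real.rpow_add hn0, ← Real.rpow_add hn0]; congr 2; ring
      _ ≤ 24 * (CA * 4 ^ a) * (C1 * Nj j) ^ 2 * (n : ℝ) ^ (-(2 * θ)) := by
          have : 0 ≤ CA := by linarith
          refine mul_le_mul_of_nonneg_right (mul_le_mul_of_nonneg_left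
            (pow_le_pow_left₀ hPp hPN 2) (by positivity)) (by positivity)
      _ = (24 * (CA * 4 ^ a) * C1 ^ 2 * (n : ℝ) ^ (-(2 * θ))) * Nj j ^ 2 := by ring
      _ ≤ _ := mul_le_mul_of_nonneg_right w4 (by positivity)
  have gE2 : 24 * ((J : ℝ) + 4) * η ≤ δ / 2 * Nj j ^ 2 := by
    have g1 : (J : ℝ) + 4 ≤ n := by
      have h1 : J ≤ N := Nat.log_le_self 2 N
      exact_mod_cast (by omega : J + 4 ≤ n)
    have g2 : η ≤ G * (n : ℝ) ^ (-(2 * a' + 2)) := by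
      rw [hη, div_eq_mul_inv]
      refine mul_le_mul_of_nonneg_left ?_ (by linarith)
      rw [hT, ← Real.rpow_natCast, ← Real.rpow_mul hn0.le, ← Real.rpow_neg hn0.le]
      exact Real.rpow_le_rpow_of_exponent_le hn1 (by linarith)
    have g3 : (n : ℝ) * (n : ℝ) ^ (-(2 * a' + 2)) = (n : ℝ) ^ (-(1 : ℝ)) * ((n : ℝ) ^ (-a')) ^ 2 := by
      rw [← Real.rpow_natCast ((n : ℝ) ^ (-a')) 2, ← Real.rpow_mul hn0.le, ← Real.rpow_add hn0]
      conv_lhs => rw [show (n : ℝ) * (n : ℝ) ^ (-(2 * a' + 2)) =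
        (n : ℝ) ^ (1 : ℝ) * (n : ℝ) ^ (-(2 * a' + 2)) by rw [Real.rpow_one]]
      rw [← Real.rpow_add hn0]
      congr 1
      push_cast
      ring
    have g4 : ((n : ℝ) ^ (-a')) ^ 2 ≤ Nj j ^ 2 / c1 ^ 2 := by
      rw [← div_pow]
      refine pow_le_pow_left₀ (by positivity) ?_ 2
      rw [le_div_iff₀ hc1, mul_comm]
      exact hlow j
    have hη0 : 0 ≤ η := hTc.e0
    calc 24 * ((J : ℝ) + 4) * η ≤ 24 * n * (G * (n : ℝ) ^ (-(2 * a' + 2))) :=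
          mul_le_mul (by linarith) g2 hη0 (by positivity)
      _ = 24 * G * ((n : ℝ) * (n : ℝ) ^ (-(2 * a' + 2))) := by ring
      _ = 24 * G * (n : ℝ) ^ (-(1 : ℝ)) * ((n : ℝ) ^ (-a')) ^ 2 := by rw [g3]; ring
      _ ≤ 24 * G * (n : ℝ) ^ (-(1 : ℝ)) * (Nj j ^ 2 / c1 ^ 2) :=
          mul_le_mul_of_nonneg_left g4 (by positivity)
      _ = (24 * G / c1 ^ 2 * (n : ℝ) ^ (-(1 : ℝ))) * Nj j ^ 2 := by ring
      _ ≤ _ := mul_le_mul_of_nonneg_right w5 (by positivity)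
  -- assembly
  refine le_trans ?_ hraw
  have h3 : 1 ≤ √3 := by
    rw [Real.one_le_sqrt]; norm_num
  have f1 : cE * EE R * (μh).real (GdE s (eP n) q) ≤ 2 * √3 * ((μh).real (GdE s (eP n) q) *
      (∫ z, Bn ((q + 5 : ℕ) : ℤ) (wg R (cv (eP n))) z ∂μh - 4 * T * EE R * B)) := by
    have f2 : (μh).real (GdE s (eP n) q) * (cE * EE R / 2) ≤ (μh).real (GdE s (eP n) q) *
        (∫ z, Bn ((q + 5 : ℕ) : ℤ) (wg R (cv (eP n))) z ∂μh - 4 * T * EE R * B) :=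
      mul_le_mul_of_nonneg_left hmain hP0
    have f3 : 0 ≤ (μh).real (GdE s (eP n) q) * (cE * EE R / 2) := by positivity
    nlinarith
  have f4 : EE R * (24 * T * (p2 (N - 6) * A) * (p2 (N - 6) + Sg N J) +
      24 * ((J : ℝ) + 4) * η) ≤ EE R * (δ * Nj j ^ 2) :=
    mul_le_mul_of_nonneg_left (by linarith) hE.le
  have f5 : EE R * (cE * (μh).real (GdE s (eP n) q) - δ * Nj j ^ 2) =
      cE * EE R * (μh).real (GdE s (eP n) q) - EE R * (δ * Nj j ^ 2) := by ring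
  rw [f5]
  linarith

end Crest.Agent.R158.Fd61
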