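import Crest.Agent.R158.Zs4_110
import Crest.Agent.R158.Ac1_109

/-!
# Row 158, A4 identity D, case II (helper110): generic bounds with an independent far event

* `mk_le'` : `nh {c ∈ Mk (Mo x N) z} ≤ p2 (N - 6)`, any centre
* `caseII_near`, `caseII_far`
* `FE v c N s R` : the strand of `c` leaves `BF v N`, primal or dual arm across `A(0; s, R)`
-/

set_option autoImplicit false

noncomputable section

namespace Crest.Agent.R158.Zs110

open Crest.Agent.R161.Geo729 Crest.Agent.R161.Dual374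
open Crest.Agent.R161.Tas682 (sd)
open Crest.Agent.R158.Ru874 (An edF of_mem_edF)
open Crest.Agent.R158.It200 Crest.Agent.R158.Wf850
open Crest.Agent.R158.Rs689 (nu Dep PArm DArm PB_indep_real)
open Crest.Agent.R158.Fr158 (bx mem_bx mem_bx_sd eIn mem_eIn)
open Crest.Agent.R158.Ax107 (p2 P2ev p2_nonneg p2_le_one p2_anti)
open Crest.Agent.R158.Zr110 hiding AllFin ae_fin
open MeasureTheory Filter

/-- a marked corner, any centre -/
theorem mk_le' (x : P2) (c : Corner) (N : ℕ) (hc : sd x c.1 ≤ 1) :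
    nh.real {z | c ∈ Mk (Mo x N) z} ≤ p2 (N - 6) := by
  have h1 : {z | c ∈ Mk (Mo x N) z} ⊆ TA c.1 (fc c) ((N : ℤ) - 1) ((N : ℤ) - 2) := by
    intro z hz
    obtain ⟨⟨u, hu, a⟩, g, hg, b⟩ := out_arms hz
    have t1 := sd_tri x c.1 u
    have t2 := sd_tri x c.1 g
    exact ⟨⟨u, hu, by linarith⟩, g, hg, by linarith⟩
  refine (measureReal_mono h1).trans ?_
  rcases le_or_gt 2 N with h | h
  · have := ta_le_p2' c ((N : ℤ) - 1) ((N : ℤ) - 2) (N - 2)
      (by push_cast [Nat.cast_sub h]; linarith) (by push_cast [Nat.cast_sub h]; linarith)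
    rwa [Nat.sub_sub] at this
  · rw [Nat.sub_eq_zero_of_le (by omega), p2_zero]
    exact measureReal_le_one

theorem mk_dep_box' (x : P2) (c : Corner) (N : ℤ) : Dep (eIn (bx x N)) {z | c ∈ Mk (Mo x N) z} := by
  intro z z' h
  show c ∈ Mk (Mo x N) z ↔ c ∈ Mk (Mo x N) z'
  rw [mk_box h]

/-- independence of the box and the rest -/
theorem box_indep {S : Finset Edge} {N : ℤ} (hS : Disjoint (eIn (bx (0, 0) N)) S) {A E : Set Cfz}
    (hA : Dep (eIn (bx (0, 0) N)) A) (hE : Dep S E) :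
    nh.real (A ∩ E) = nh.real A * nh.real E :=
  PB_indep_real (fun _ : Edge => Rs689.hf) hS hA hE

/-- **case II, the corner is marked** -/
theorem caseII_far {δ : ℝ} (h1 : δ < 1) (N K : ℕ) (hK : p2 (N - 6) ≤ p2 (N / K)) {c : Corner}
    (hc : sd (0, 0) c.1 ≤ 1) {S : Finset Edge} {E : Set Cfz} (hE : Dep S E)
    (hS : Disjoint (eIn (bx (0, 0) N)) S) {B : ℝ} (hB : 0 ≤ B) {F : Cfz → ℝ}
    (hFE : ∀ z, F z ≠ 0 → z ∈ E)
    (hFB : ∀ A : Set Cfz, MeasurableSet A →
      ∫ z, A.indicator (fun z => |F z|) z ∂nh ≤ B * nh.real A ^ (1 - δ)) :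
    |∫ z, {z | c ∈ Mk (Mo (0, 0) N) z}.indicator F z ∂nh| ≤
      B * (p2 (N / K) * nh.real E) ^ (1 - δ) := by
  have hmk : MeasurableSet {z : Cfz | c ∈ Mk (Mo (0, 0) N) z} := meas_mk c N
  have hEm : MeasurableSet E := hE.measurableSet
  refine (abs_integral_le_integral_abs).trans ?_
  have e1 : ∀ z, |{z | c ∈ Mk (Mo (0, 0) N) z}.indicator F z| =
      ({z | c ∈ Mk (Mo (0, 0) N) z} ∩ E).indicator (fun z => |F z|) z := by
    intro z
    by_cases h3 : z ∈ {z : Cfz | c ∈ Mk (Mo (0, 0) N) z}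
    · rw [Set.indicator_of_mem h3]
      by_cases h4 : z ∈ E
      · have h5 : z ∈ {z : Cfz | c ∈ Mk (Mo (0, 0) N) z} ∩ E := Set.mem_inter h3 h4
        rw [Set.indicator_of_mem h5]
      · rw [Set.indicator_of_notMem (fun h => h4 h.2)]
        by_contra h5
        exact h4 (hFE z fun h6 => h5 (by rw [h6, abs_zero]))
    · rw [Set.indicator_of_notMem h3, Set.indicator_of_notMem (fun h => h3 h.1), abs_zero]
  simp only [e1]
  refine (hFB _ (hmk.inter hEm)).trans (mul_le_mul_of_nonneg_left ?_ hB)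
  rw [box_indep hS (mk_dep_box c N) hE]
  refine Real.rpow_le_rpow (mul_nonneg measureReal_nonneg measureReal_nonneg) ?_ (by linarith)
  exact mul_le_mul_of_nonneg_right ((mk_le c N hc).trans hK) measureReal_nonneg

open Classical in
/-- **case II, the corner is not marked** -/
theorem caseII_near (hQ : QM2) {δ : ℝ} (h0 : 0 < δ) (h1 : δ < 1) : ∃ K : ℕ, 1 ≤ K ∧
    ∀ᶠ N : ℕ in atTop, p2 (N - 6) ≤ p2 (N / K) ∧ ∀ c : Corner, sd (0, 0) c.1 ≤ 1 →
      ∀ (S : Finset Edge) (E : Set Cfz), Dep S E → Disjoint (eIn (bx (0, 0) N)) S →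
      ∀ B : ℝ, 0 ≤ B → ∀ G : Cfz → ℝ, Adp (Mo (0, 0) N) G → Integrable G nh →
      (∀ z, G z ≠ 0 → z ∈ E) →
      (∀ A : Set Cfz, MeasurableSet A →
        ∫ z, A.indicator (fun z => |G z|) z ∂nh ≤ B * nh.real A ^ (1 - δ)) →
      |∫ z, G z * (if c ∉ Mk (Mo (0, 0) N) z then (sg z c : ℝ) else 0) ∂nh| ≤
        B * (N : ℝ) ^ δ * (p2 (N / K) * nh.real E) ^ (1 - δ) := by
  obtain ⟨K, hK, hT⟩ := term_le hQ (ε := δ / 3) (by linarith)
  refine ⟨K, hK, ?_⟩
  filter_upwards [hT, log_le (ε := δ / 3) (by linarith), eventually_ge_atTop 1] with N hTn hLn hN1'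
  obtain ⟨t1, t2, t3⟩ := hTn
  obtain ⟨l1, l2⟩ := hLn
  refine ⟨t2, ?_⟩
  intro c hc S E hE hS B hB G hG hGi hGE hGB
  set M := Mo (0, 0) (N : ℤ) with hM
  have hMf : Mᶜ.Finite := Mo_cofin _ _
  have hEm : MeasurableSet E := hE.measurableSet
  set J := Nat.log 2 N with hJ
  set P : ℝ := p2 (N / K) with hP
  have hP0 : 0 < P := p2_pos _
  have hP1 : P ≤ 1 := p2_le_one _
  set pE : ℝ := nh.real E with hpE
  have hpE0 : 0 ≤ pE := measureReal_nonneg
  have hpE1 : pE ≤ 1 := measureReal_le_one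
  have hδ1 : 0 < 1 - δ := by linarith
  have hNpos : (0 : ℝ) < N := by exact_mod_cast hN1'
  have hN1 : (1 : ℝ) ≤ N := by exact_mod_cast hN1'
  set q : ℝ := (N : ℝ) ^ (δ / 3) with hq
  have hq5 : 5 ≤ q := l2
  -- events intersected with `E`
  have hAE : ∀ A : Set Cfz, MeasurableSet A →
      ∫ z, A.indicator (fun z => |G z|) z ∂nh ≤ B * nh.real (A ∩ E) ^ (1 - δ) := by
    intro A hA
    refine le_trans (le_of_eq ?_) (hGB (A ∩ E) (hA.inter hEm))
    congr 1
    funext z
    by_cases h3 : z ∈ A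
    · rw [Set.indicator_of_mem h3]
      by_cases h4 : z ∈ E
      · have h5 : z ∈ A ∩ E := Set.mem_inter h3 h4
        rw [Set.indicator_of_mem h5]
      · rw [Set.indicator_of_notMem (fun h : z ∈ A ∩ E => h4 h.2)]
        by_contra h5
        exact h4 (hGE z fun h6 => h5 (by rw [h6, abs_zero]))
    · rw [Set.indicator_of_notMem h3, Set.indicator_of_notMem (fun h : z ∈ A ∩ E => h3 h.1)]
  have h2 := Z1_sg hMf (fun z => gd_Mo (0, 0) N z) hG hGi c
  refine h2.trans ?_
  have hGa : Integrable (fun z => |G z|) nh := hGi.abs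
  set g : Cfz → ℝ := fun z => p2 (2 ^ J - 7) * |G z| +
    ∑ j ∈ Finset.range (J + 1), p2 (2 ^ j - 8) *
      (XA N (2 ^ (j + 1))).indicator (fun z => |G z|) z with hgdef
  have hji : ∀ j : ℕ, Integrable (fun z => p2 (2 ^ j - 8) *
      (XA N (2 ^ (j + 1))).indicator (fun z => |G z|) z) nh := fun j =>
    (hGa.indicator (meas_xa _ _)).const_mul _
  have hsum_i : Integrable (fun z => ∑ j ∈ Finset.range (J + 1), p2 (2 ^ j - 8) *
      (XA N (2 ^ (j + 1))).indicator (fun z => |G z|) z) nh :=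
    integrable_finsetSum _ fun j _ => hji j
  have hgi : Integrable g nh := (hGa.const_mul _).add hsum_i
  have hle : ∀ z, |G z| * (if c ∉ Mk M z then Pv M c z else 0) ≤ g z := by
    intro z
    have h3 := pv_xa c N J hc z
    have h4 : |G z| * Pv M c z ≤ g z := by
      refine (mul_le_mul_of_nonneg_left h3 (abs_nonneg _)).trans (le_of_eq ?_)
      rw [hgdef]
      simp only
      rw [mul_add, Finset.mul_sum]
      congr 1
      · ring
      · refine Finset.sum_congr rfl fun j _ => ?_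
        by_cases h5 : z ∈ XA N (2 ^ (j + 1))
        · rw [Set.indicator_of_mem h5, Set.indicator_of_mem h5, Pi.one_apply]; ring
        · rw [Set.indicator_of_notMem h5, Set.indicator_of_notMem h5]; ring
    by_cases h5 : c ∉ Mk M z
    · rw [if_pos h5]; exact h4
    · rw [if_neg h5, mul_zero]
      exact (mul_nonneg (abs_nonneg _) (pv_nonneg c z)).trans h4
  have hge0 : ∀ z, 0 ≤ |G z| * (if c ∉ Mk M z then Pv M c z else 0) := by
    intro z
    refine mul_nonneg (abs_nonneg _) ?_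
    by_cases h5 : c ∉ Mk M z
    · rw [if_pos h5]; exact pv_nonneg c z
    · rw [if_neg h5]
  have hint : ∫ z, g z ∂nh = p2 (2 ^ J - 7) * ∫ z, |G z| ∂nh +
      ∑ j ∈ Finset.range (J + 1), p2 (2 ^ j - 8) *
        ∫ z, (XA N (2 ^ (j + 1))).indicator (fun z => |G z|) z ∂nh := by
    rw [hgdef, integral_add (hGa.const_mul _) hsum_i, integral_const_mul,
      integral_finsetSum _ fun j _ => hji j]
    congr 1
    refine Finset.sum_congr rfl fun j _ => ?_
    rw [integral_const_mul]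
  set X : ℝ := (P * pE) ^ (1 - δ) with hX
  have hX0 : 0 ≤ X := Real.rpow_nonneg (mul_nonneg hP0.le hpE0) _
  have hgX : ∫ z, g z ∂nh ≤ B * X * (1 + (J + 1 : ℕ) * q) := by
    rw [hint, mul_add, mul_one]
    refine add_le_add ?_ ?_
    · have h3 := hAE Set.univ MeasurableSet.univ
      rw [Set.univ_inter] at h3
      simp only [Set.indicator_univ] at h3
      have h4 : p2 (2 ^ J - 7) ≤ P ^ (1 - δ) := by
        refine t1.trans ?_
        have := Real.rpow_le_rpow_of_exponent_ge hP0 hP1 (by linarith : (1 - δ) ≤ 1)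
        rwa [Real.rpow_one] at this
      calc p2 (2 ^ J - 7) * ∫ z, |G z| ∂nh ≤ P ^ (1 - δ) * (B * pE ^ (1 - δ)) :=
            mul_le_mul h4 h3 (integral_nonneg fun _ => abs_nonneg _) (by positivity)
        _ = B * X := by rw [hX, Real.mul_rpow hP0.le hpE0]; ring
    · have hterm : ∀ j ∈ Finset.range (J + 1), p2 (2 ^ j - 8) *
          ∫ z, (XA N (2 ^ (j + 1))).indicator (fun z => |G z|) z ∂nh ≤ B * X * q := by
        intro j _
        have h3 := hAE (XA N (2 ^ (j + 1))) (meas_xa _ _)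
        rw [box_indep hS (xa_dep N _) hE] at h3
        set a := nh.real (XA N (2 ^ (j + 1))) with ha
        have ha0 : 0 ≤ a := measureReal_nonneg
        have ha1 : a ≤ P2a (2 ^ (j + 1)) ((N : ℤ) - 1) := xa_le _ _
        have h5 : p2 (2 ^ j - 8) ≤ p2 (2 ^ j - 8) ^ (1 - δ) := by
          have := Real.rpow_le_rpow_of_exponent_ge (p2_pos (2 ^ j - 8)) (p2_le_one _)
            (by linarith : (1 - δ) ≤ 1)
          rwa [Real.rpow_one] at this
        have h6 : (1 : ℝ) ≤ q := by linarith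
        have h7 : p2 (2 ^ j - 8) * a ≤ q * P := by
          refine le_trans (mul_le_mul_of_nonneg_left ha1 (p2_nonneg _)) ?_
          exact t3 j
        calc p2 (2 ^ j - 8) * ∫ z, (XA N (2 ^ (j + 1))).indicator (fun z => |G z|) z ∂nh
            ≤ p2 (2 ^ j - 8) ^ (1 - δ) * (B * (a * pE) ^ (1 - δ)) :=
              mul_le_mul h5 h3 (integral_nonneg fun z => Set.indicator_nonneg
                (fun _ _ => abs_nonneg _) z) (Real.rpow_nonneg (p2_nonneg _) _)
          _ = B * ((p2 (2 ^ j - 8) * a) ^ (1 - δ) * pE ^ (1 - δ)) := by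
              rw [Real.mul_rpow ha0 hpE0, Real.mul_rpow (p2_nonneg _) ha0]; ring
          _ ≤ B * ((q * P) ^ (1 - δ) * pE ^ (1 - δ)) := by
              refine mul_le_mul_of_nonneg_left ?_ hB
              refine mul_le_mul_of_nonneg_right ?_ (Real.rpow_nonneg hpE0 _)
              exact Real.rpow_le_rpow (mul_nonneg (p2_nonneg _) ha0) h7 hδ1.le
          _ ≤ B * ((q * P ^ (1 - δ)) * pE ^ (1 - δ)) := by
              refine mul_le_mul_of_nonneg_left ?_ hB
              refine mul_le_mul_of_nonneg_right ?_ (Real.rpow_nonneg hpE0 _)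
              rw [Real.mul_rpow (by linarith) hP0.le]
              refine mul_le_mul_of_nonneg_right ?_ (by positivity)
              have := Real.rpow_le_rpow_of_exponent_le h6 (by linarith : (1 - δ) ≤ 1)
              rwa [Real.rpow_one] at this
          _ = B * X * q := by rw [hX, Real.mul_rpow hP0.le hpE0]; ring
      refine (Finset.sum_le_sum hterm).trans (le_of_eq ?_)
      rw [Finset.sum_const, Finset.card_range, nsmul_eq_mul]
      ring
  have hmono : ∫ z, |G z| * (if c ∉ Mk M z then Pv M c z else 0) ∂nh ≤ ∫ z, g z ∂nh :=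
    integral_mono_of_nonneg (Filter.Eventually.of_forall hge0) hgi (Filter.Eventually.of_forall hle)
  have hfac : 2 * (1 + (J + 1 : ℕ) * q) ≤ (N : ℝ) ^ δ := by
    have e1 : (N : ℝ) ^ δ = q * (q * q) := by
      rw [hq, ← Real.rpow_add hNpos, ← Real.rpow_add hNpos]; congr 1; ring
    have hj : ((J + 1 : ℕ) : ℝ) ≤ q := l1
    rw [e1]
    have h3 : ((J + 1 : ℕ) : ℝ) * q ≤ q * q := mul_le_mul_of_nonneg_right hj (by linarith)
    nlinarith
  calc 2 * ∫ z, |G z| * (if c ∉ Mk M z then Pv M c z else 0) ∂nh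
      ≤ 2 * (B * X * (1 + (J + 1 : ℕ) * q)) := by linarith
    _ = B * X * (2 * (1 + (J + 1 : ℕ) * q)) := by ring
    _ ≤ B * X * (N : ℝ) ^ δ := mul_le_mul_of_nonneg_left hfac (mul_nonneg hB hX0)
    _ = B * (N : ℝ) ^ δ * X := by ring

/-! ### a standard far event -/

/-- the strand of `c` leaves `BF v N` and an arm crosses `A(0; s, R)` -/
def FE (v : P2) (c : Corner) (N s R : ℤ) (b : Bool) : Set Cfz :=
  {z | c ∈ Mk (Mo v N) z} ∩ (if b then PArm (0, 0) s R else DArm (0, 0) s R)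

open Classical in
/-- the support of the far event -/
def FES (v : P2) (N s R : ℤ) : Finset Edge :=
  eIn (bx v N) ∪ edF (An (0, 0) (s - 1) (R + 1))

theorem fe_dep (v : P2) (c : Corner) (N : ℤ) {s R : ℤ} (h : s ≤ R) (b : Bool) :
    Dep (FES v N s R) (FE v c N s R b) := by
  classical
  unfold FE FES
  have h1 : Dep (eIn (bx v N) ∪ edF (An (0, 0) (s - 1) (R + 1))) {z | c ∈ Mk (Mo v N) z} :=
    (mk_dep_box' v c N).mono (Finset.subset_union_left)
  have h2 : Dep (eIn (bx v N) ∪ edF (An (0, 0) (s - 1) (R + 1)))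
      (if b then PArm (0, 0) s R else DArm (0, 0) s R) := by
    cases b
    · exact (Ac109.dep_darm h).mono Finset.subset_union_right
    · exact (Ac109.dep_parm' h).mono Finset.subset_union_right
  exact h1.inter h2

theorem eIn_sd {x : P2} {N : ℤ} {e : Edge} (h : e ∈ eIn (bx x N)) :
    sd x (src e) ≤ N ∧ sd x (tgt e) ≤ N := by
  rw [mem_eIn, mem_bx_sd, mem_bx_sd] at h
  exact h

theorem fes_disj {v : P2} {N s R : ℤ} (h1 : 2 * N < sd (0, 0) v) (h2 : N + 1 < s) :
    Disjoint (eIn (bx (0, 0) N)) (FES v N s R) := by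
  classical
  unfold FES
  rw [Finset.disjoint_union_right]
  constructor
  · rw [Finset.disjoint_left]
    intro e he he'
    have a1 := (eIn_sd he).1
    have a2 := (eIn_sd he').1
    have a3 := sd_tri (0, 0) (src e) v
    rw [sd_symm' (src e) v] at a3
    linarith
  · rw [Finset.disjoint_left]
    intro e he he'
    have a1 := (eIn_sd he).1
    have a2 : s - 1 ≤ sd (0, 0) (src e) := (of_mem_edF he').1.1
    linarith

theorem fe_prob (v : P2) (c : Corner) (N : ℕ) {s R : ℤ} (h : s ≤ R) (hc : sd v c.1 ≤ 1)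
    (h2 : sd (0, 0) v + N + 1 < s) (b : Bool) :
    nh.real (FE v c N s R b) ≤ p2 (N - 6) * Ac109.P1 s R := by
  classical
  have hd : Disjoint (eIn (bx v N)) (edF (An (0, 0) (s - 1) (R + 1))) := by
    rw [Finset.disjoint_left]
    intro e he he'
    have a1 := (eIn_sd he).1
    have a2 : s - 1 ≤ sd (0, 0) (src e) := (of_mem_edF he').1.1
    have a3 := sd_tri (0, 0) v (src e)
    linarith
  have hP : nh.real (if b then PArm (0, 0) s R else DArm (0, 0) s R) = Ac109.P1 s R := by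
    cases b
    · exact Ac109.darm_P1 (0, 0) h
    · exact Ac109.parm_P1 (0, 0) h
  have hD : Dep (edF (An (0, 0) (s - 1) (R + 1)))
      (if b then PArm (0, 0) s R else DArm (0, 0) s R) := by
    cases b
    · exact Ac109.dep_darm h
    · exact Ac109.dep_parm' h
  unfold FE
  have e1 : nh.real ({z | c ∈ Mk (Mo v N) z} ∩
      (if b then PArm (0, 0) s R else DArm (0, 0) s R)) =
      nh.real {z | c ∈ Mk (Mo v N) z} *
        nh.real (if b then PArm (0, 0) s R else DArm (0, 0) s R) :=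
    PB_indep_real (fun _ : Edge => Rs689.hf) hd (mk_dep_box' v c N) hD
  rw [e1, hP]
  exact mul_le_mul_of_nonneg_right (mk_le' v c N hc) (Ac109.P1_nonneg _ _)

/-- a strand that visits an edge near its corner and an edge outside `BF (0,0) R` -/
theorem mem_fe {v : P2} {c : Corner} {N s R : ℤ} {z : Cfz} (h : c ∈ Mk (Mo (0, 0) R) z)
    (hN : N + sd (0, 0) v ≤ R) (hs : sd (0, 0) c.1 + 1 ≤ s) :
    z ∈ FE v c N s R true ∧ z ∈ FE v c N s (R - 1) false := by
  obtain ⟨⟨u, hu, a⟩, g, hg, b⟩ := out_arms h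
  have hm : c ∈ Mk (Mo v N) z := by
    obtain ⟨e, he, h1⟩ := h
    refine ⟨e, he, ?_⟩
    have t1 := sd_tri (0, 0) v (src e)
    have t2 := sd_tri (0, 0) v (tgt e)
    rcases h1 with h1 | h1
    · left; linarith
    · right; linarith
  have h2 := sd_fc c (0, 0)
  constructor
  · exact ⟨hm, c.1, u, by linarith, a, hu⟩
  · exact ⟨hm, fc c, g, by linarith, b, hg⟩

end Crest.Agent.R158.Zs110
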