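import Crest.Agent.R158.Fd5_61
import Crest.Agent.R158.Zs5_110

/-!
# R158, Block A4, leaf D, right side (helper107), file 1: different strands, deterministic part

`Dd R v s z = Dr (wg R (v, false)) s z - Dr (wg R (v, true)) s z`, `e0 = (v, 0)`.

* `far0`    : the loop of an unmarked corner is in the box
* `W_same`, `Dd_zero` : if the strand of `e0` does not reach the ring, the two charges give the same
* `Dr_near` : at a corner unmarked for `Mo 0 N`, `Dr m s = √3 sg s W m`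
* `W_env`, `Dr_env` : `|W| ≤ exp (-(b0 VV)) Y`, `|Dr| ≤ 2 exp (-(b0 VV)) Y`
-/

set_option autoImplicit false

noncomputable section

namespace Crest.Agent.R158.Fe107

open Crest.Agent.R161.Geo729 Crest.Agent.R161.Dual374
open Crest.Agent.R161.Tas682 (sd)
open Crest.Agent.R158.It200 hiding hf
open Crest.Agent.R158.Wf850 Crest.Agent.R158.Vx107
open Crest.Agent.R158.Cn109 (lsW smalls mem_smalls SS QQ VV DepF)
open Crest.Agent.R158.Fd61
open Crest.Agent.R158.Bk430 (ws ws_support)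
open Crest.Agent.R158.Zr110 (Mk Mo Xe MkA UL mkA_iff Adp)
open Crest.Agent.R158.Zs110 (ul_box mass_off W_adp)
open Crest.Agent.R158.Rs689 (nu)
open Function Real MeasureTheory

local notation "μh" => nu Crest.Agent.R158.Rs689.hf

/-- difference of the readings for the two faces of the corner `(v, 0)` -/
def Dd (R : ℕ) (v : P2) (s : Corner) (z : Cfz) : ℝ :=
  Dr (wg R (v, false)) s z - Dr (wg R (v, true)) s z

theorem mass_wg (R : ℕ) (g : Face) (A : Finset Face) [Decidable (g ∈ A)] :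
    Vx107.mass (wg R g) A = aa * (Vx107.mass (ws R) A - if g ∈ A then 1 else 0) := by
  classical
  have h1 : Vx107.mass (Finsupp.single g (1 : ℝ)) A = if g ∈ A then 1 else 0 := by
    unfold Vx107.mass
    simp only [Finsupp.single_apply]
    rw [Finset.sum_ite_eq]
    split_ifs <;> rfl
  rw [wg_eq, Vx107.mass_smul, sub_eq_add_neg, Vx107.mass_add, Vx107.mass_neg, h1, sub_eq_add_neg]

theorem cv0 (v : P2) : cv (v, 0) = (v, false) := rfl

theorem cf0 (v : P2) : cf (v, 0) = (v, true) := by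
  unfold cf; rw [It200.fc_zero]

/-- a loop which does not pass at `e0` sees the same charge -/
theorem mass_same {R : ℕ} {v : P2} {A : Finset Face} (h : ¬ sepC A (v, 0)) :
    Vx107.mass (wg R (v, false)) A = Vx107.mass (wg R (v, true)) A := by
  classical
  unfold sepC at h
  rw [not_not, cv0, cf0] at h
  rw [mass_wg, mass_wg]
  by_cases h1 : ((v, false) : Face) ∈ A
  · rw [if_pos h1, if_pos (h.1 h1)]
  · rw [if_neg h1, if_neg fun h2 => h1 (h.2 h2)]

theorem Fw_one {R : ℕ} {g : Face} {A : Finset Face} (h : ∀ f ∈ A, ws R f = 0) :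
    Fw (Vx107.mass (wg R g) A) = 1 := by
  classical
  have h0 : Vx107.mass (ws R) A = 0 := Finset.sum_eq_zero h
  rw [mass_wg, h0]
  by_cases hg : g ∈ A
  · rw [if_pos hg]; exact Fw_01 (Or.inr rfl)
  · rw [if_neg hg]; exact Fw_01 (Or.inl rfl)

/-- the loop of an unmarked corner lies in the box -/
theorem far0 {z : Cfz} {c : Corner} {x : P2} {N : ℤ} {A : Finset Face} (hA : A ∈ Lps z)
    (hc : sepC A c) (h : c ∉ Mk (Mo x N) z) : A ⊆ BF x N := by
  obtain ⟨h1, h2⟩ := corner_of hA hc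
  exact ul_box ⟨hA, fun h3 => h ((mkA_iff h1 h2).1 h3)⟩

theorem ws_off {R : ℕ} {N : ℤ} (hN : 4 * N ≤ R) (hR : 8 ≤ R) {f : Face} (hf : f ∈ BF (0, 0) N) :
    ws R f = 0 := by
  by_contra h
  have h1 := (ws_support (R := R) (by omega) h).2
  rw [mem_BF] at hf
  omega

theorem Fw_same {R : ℕ} {v : P2} {N : ℤ} (hN : 4 * N ≤ R) (hR : 8 ≤ R) {z : Cfz}
    (h : ((v, 0) : Corner) ∉ Mk (Mo (0, 0) N) z) {A : Finset Face} (hA : A ∈ Lps z) :
    Fw (Vx107.mass (wg R (v, false)) A) = Fw (Vx107.mass (wg R (v, true)) A) := by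
  by_cases hs : sepC A (v, 0)
  · have h1 := far0 hA hs h
    rw [Fw_one fun f hf => ws_off hN hR (h1 hf), Fw_one fun f hf => ws_off hN hR (h1 hf)]
  · rw [mass_same hs]

theorem W_same {R : ℕ} {v : P2} {N : ℤ} (hN : 4 * N ≤ R) (hR : 8 ≤ R) {z : Cfz}
    (h : ((v, 0) : Corner) ∉ Mk (Mo (0, 0) N) z) : W (wg R (v, false)) z = W (wg R (v, true)) z :=
  finprod_mem_congr rfl fun _ hA => Fw_same hN hR h hA

theorem OP_same {R : ℕ} {v : P2} {N : ℤ} (hN : 4 * N ≤ R) (hR : 8 ≤ R) {z : Cfz} {s : Corner}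
    (h : ((v, 0) : Corner) ∉ Mk (Mo (0, 0) N) z) :
    OP (wg R (v, false)) z s = OP (wg R (v, true)) z s :=
  finprod_mem_congr rfl fun _ hA => Fw_same hN hR h hA.1

theorem Dd_zero {R : ℕ} {v : P2} {N : ℤ} (hN : 4 * N ≤ R) (hR : 8 ≤ R) {z : Cfz} (hz : AllFin z)
    {s : Corner} (hs : ((v, 0) : Corner) ∉ Lp z s)
    (h : ((v, 0) : Corner) ∉ Mk (Mo (0, 0) N) z) : Dd R v s z = 0 := by
  obtain ⟨A, hA, hA'⟩ := exists_int (hz s)
  have h1 : ¬ sepC A (v, 0) := fun h2 => hs ((sep_iff (hz s) hA' _).1 h2)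
  unfold Dd
  rw [Dr_eq (hz s) hA', Dr_eq (hz s) hA', mass_same h1, OP_same hN hR h, sub_self]

/-- reading at an unmarked corner -/
theorem Dr_near {m : Face →₀ ℝ} (hm : Ntr m) {x : P2} {N : ℤ} (hoff : ∀ f ∈ BF x N, m f = 0)
    {z : Cfz} (hz : AllFin z) {s : Corner} (hs : s ∉ Mk (Mo x N) z) :
    Dr m s z = √3 * sg z s * W m z := by
  obtain ⟨A, hA, hA'⟩ := exists_int (hz s)
  have h1 : A ⊆ BF x N := far0 hA ((sep_iff (hz s) hA' _).2 (mem_Lp_self _ _)) hs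
  have h2 : Vx107.mass m A = 0 := mass_off hoff h1
  have h3 : Sw 0 = √3 := by
    unfold Sw
    rw [add_zero, sin_pi_div_three]; ring
  have h4 : W m z = OP m z s := by
    have := W_at (hz s) hm
    rw [← mass_eq (hz s) hA', h2, Fw_zero, one_mul] at this
    exact this
  rw [Dr_eq (hz s) hA', h2, h3, h4]
  ring

/-- a corner near a strand that stays in the box -/
theorem Lp_mk {z : Cfz} {s c : Corner} (h : c ∈ Lp z s) {x : P2} {N : ℤ}
    (hc : N + 1 < sd x c.1) : s ∈ Mk (Mo x N) z := by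
  refine ⟨ah c, ⟨c, h, rfl⟩, ?_⟩
  show N < sd x (src (ah c)) ∨ N < sd x (tgt (ah c))
  have h1 : sd c.1 (src (ah c)) ≤ 1 := by
    obtain ⟨⟨a, b⟩, q⟩ := c
    fin_cases q <;> simp [ah, src, sd]
  have h2 := sd_tri x (src (ah c)) c.1
  have h3 := sd_symm' c.1 (src (ah c))
  left
  omega

/-! ### envelope -/

/-- the hypothesis on the majorant -/
def MjW (R : ℕ) (Y : Cfz → ℝ) : Prop :=
  ∀ z, exp (√3 * aa * |SS lsW (ws R) (ws R).support (lv R) z - VV (lv R)| +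
    12 * aa ^ 2 * QQ lsW (ws R) (ws R).support (lv R) z) *
      2 ^ (TT (lv R) ((2 * R : ℕ) : ℤ) z).ncard ≤ Y z

theorem W_env {R : ℕ} (hR : 64 ≤ R) {Y : Cfz → ℝ} (hY : MjW R Y) {g : Face}
    (hg : sd (0, 0) g.1 ≤ ((R / 8 : ℕ) : ℤ)) (z : Cfz) :
    |W (wg R g) z| ≤ exp (-(b0 * VV (lv R))) * Y z := by
  rw [W_eq_PW]
  exact (gu_pos (rd_ws hR) (by push_cast; omega) hg subset_rfl
    fun A hA => ((mem_smalls lsW).1 hA).1).trans (bd_neg (by positivity) (hY z))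

theorem OP_env {R : ℕ} (hR : 64 ≤ R) {Y : Cfz → ℝ} (hY : MjW R Y) {g : Face}
    (hg : sd (0, 0) g.1 ≤ ((R / 8 : ℕ) : ℤ)) {s : Corner} (hs : sd (0, 0) s.1 ≤ 1) (z : Cfz) :
    |OP (wg R g) z s| ≤ exp (-(b0 * VV (lv R))) * Y z := by
  rw [OP_eq_PW]
  refine (gu_pos (rd_ws hR) (by push_cast; omega) hg (oth_sub z s)
    fun A hA => ⟨((mem_smalls lsW).1 hA).1, ?_⟩).trans (bd_neg (by positivity) (hY z))
  have h1 : cv s ∉ A := small_off (rd_ws hR) hA (by
    show sd (0, 0) s.1 ≤ _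
    have : (8 : ℤ) ≤ ((R / 8 : ℕ) : ℤ) := by omega
    omega)
  have h2 : cf s ∉ A := small_off (rd_ws hR) hA (by
    show sd (0, 0) (fc s) ≤ _
    have h3 := (sd_corner (0, 0) s).2
    have : (8 : ℤ) ≤ ((R / 8 : ℕ) : ℤ) := by omega
    omega)
  unfold sepC
  rw [not_not]
  exact ⟨fun h => absurd h h1, fun h => absurd h h2⟩

theorem Dr_env {R : ℕ} (hR : 64 ≤ R) {Y : Cfz → ℝ} (hY : MjW R Y) {g : Face}
    (hg : sd (0, 0) g.1 ≤ ((R / 8 : ℕ) : ℤ)) {s : Corner} (hs : sd (0, 0) s.1 ≤ 1) {z : Cfz}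
    (hz : AllFin z) : |Dr (wg R g) s z| ≤ 2 * (exp (-(b0 * VV (lv R))) * Y z) := by
  obtain ⟨A, hA, hA'⟩ := exists_int (hz s)
  rw [Dr_eq (hz s) hA', abs_mul, abs_mul]
  have h1 : |(sg z s : ℝ)| = 1 := by
    rcases sg_one' (hz s) with h | h <;> rw [h] <;> simp
  rw [h1, one_mul]
  exact mul_le_mul (abs_Sw_le _) (OP_env hR hY hg hs z) (abs_nonneg _) (by norm_num)

end Crest.Agent.R158.Fe107
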