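import Crest.Agent.R158.Gx2_31
import Crest.Agent.R158.Lc4_522

/-!
# Row 158, Block A4 (helper31), file 3: measure tools

* `free_le'`     : `|∏ᶠ A ∈ S, g A| ≤ 2 ^ #F` if `|g A| ≤ 1` off the finite set `F`
* `VV_abs`       : `|VV k - VV l| ≤ C |k - l|`
* `ind_hoelder`  : `∫ 1_A e^L ≤ P(A)^(1-δ) (∫ e^(L/δ))^δ`
* `exp_four`     : moments of a sum of four terms
-/

set_option autoImplicit false

noncomputable section

namespace Crest.Agent.R158.Gx31

open Real Function MeasureTheory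
open Crest.Agent.R158.It200 (Cfz)
open Crest.Agent.R158.Wf850 (Lps Face)
open Crest.Agent.R158.Cn109 (VV DepF)
open Crest.Agent.R158.Rs689 (nu hf)

/-- crude upper bound, `|g| ≤ 1` off `F` -/
theorem free_le' {S : Set (Finset Face)} {g : Finset Face → ℝ} {F : Set (Finset Face)}
    (hF : F.Finite) (h1 : ∀ A ∈ S, A ∉ F → |g A| ≤ 1) (h2 : ∀ A ∈ S, |g A| ≤ 2) :
    |∏ᶠ A ∈ S, g A| ≤ 2 ^ F.ncard := by
  classical
  by_cases hfin : (S ∩ mulSupport g).Finite
  · rw [finprod_mem_eq_prod g hfin, Finset.abs_prod]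
    have h3 : ∏ A ∈ hfin.toFinset, |g A| ≤ ∏ A ∈ hfin.toFinset, (if A ∈ F then (2 : ℝ) else 1) := by
      refine Finset.prod_le_prod (fun _ _ => abs_nonneg _) fun A hA => ?_
      rw [Set.Finite.mem_toFinset] at hA
      split_ifs with h
      · exact h2 A hA.1
      · exact h1 A hA.1 h
    refine h3.trans ?_
    rw [Finset.prod_ite, Finset.prod_const, Finset.prod_const_one, mul_one]
    refine pow_le_pow_right₀ (by norm_num) ?_
    rw [Set.ncard_eq_toFinset_card F hF]
    refine Finset.card_le_card fun A hA => ?_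
    rw [Finset.mem_filter] at hA
    exact hF.mem_toFinset.2 hA.2
  · rw [finprod_mem_eq_one_of_infinite hfin, abs_one]
    exact one_le_pow₀ (by norm_num)

/-- Lipschitz bound of the means -/
theorem VV_abs : ∃ C : ℝ, 0 ≤ C ∧ ∀ k l : ℕ, |VV k - VV l| ≤ C * |(k : ℝ) - l| := by
  obtain ⟨C, hC, h⟩ := Cn109.VV_diff
  refine ⟨C, hC, fun k l => ?_⟩
  have key : ∀ k l : ℕ, k ≤ l → |VV k - VV l| ≤ C * |(k : ℝ) - l| := by
    intro k l hkl
    obtain ⟨j, rfl⟩ := Nat.exists_eq_add_of_le hkl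
    have h1 := h k j
    push_cast
    have h2 : (k : ℝ) - (k + j) = -j := by ring
    rw [h2, abs_neg, Nat.abs_cast, abs_sub_comm, abs_of_nonneg h1.1]
    exact h1.2
  rcases le_total k l with hkl | hkl
  · exact key k l hkl
  · rw [abs_sub_comm, abs_sub_comm (k : ℝ)]; exact key l k hkl

/-- Hölder for an event -/
theorem ind_hoelder {δ : ℝ} (h0 : 0 < δ) (h1 : δ < 1) {A : Set Cfz} (hA : MeasurableSet A)
    {L : Cfz → ℝ} (hL : Measurable L)
    (hi : Integrable (fun z => exp (1 / δ * L z)) (nu hf)) :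
    ∫ z, A.indicator (fun z => exp (L z)) z ∂(nu hf) ≤
      (nu hf).real A ^ (1 - δ) * (∫ z, exp (1 / δ * L z) ∂(nu hf)) ^ δ := by
  have hp : 1 < 1 / (1 - δ) := by
    rw [lt_div_iff₀ (by linarith)]; linarith
  have e1 : 1 / (1 - δ) / (1 / (1 - δ) - 1) = 1 / δ := by
    have : 1 - δ ≠ 0 := by linarith
    have h2 : (1 / (1 - δ) - 1) = δ / (1 - δ) := by field_simp; ring
    rw [h2]
    field_simp
  have e2 : (1 / (1 - δ) - 1) / (1 / (1 - δ)) = δ := by
    have : 1 - δ ≠ 0 := by linarith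
    field_simp
    ring
  have e3 : 1 / (1 / (1 - δ)) = 1 - δ := one_div_one_div _
  have hind : ∀ z, A.indicator (fun _ => (1 : ℝ)) z ^ (1 / (1 - δ)) =
      A.indicator (fun _ => (1 : ℝ)) z := by
    intro z
    by_cases hz : z ∈ A
    · rw [Set.indicator_of_mem hz, one_rpow]
    · rw [Set.indicator_of_notMem hz, zero_rpow (by
        have : 0 < 1 / (1 - δ) := by linarith
        exact this.ne')]
  have hint : Integrable (A.indicator fun _ => (1 : ℝ)) (nu hf) :=
    (integrable_const (1 : ℝ)).indicator hA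
  have h := Hd109.hoelder_exp (μ := nu hf) hp (Y := A.indicator fun _ => (1 : ℝ)) (L := L)
    (fun z => Set.indicator_nonneg (fun _ _ => zero_le_one) z) hint.aestronglyMeasurable
    hL.aestronglyMeasurable (by simpa only [hind] using hint) (by rw [e1]; exact hi)
  rw [e1, e2, e3] at h
  simp only [hind] at h
  have e4 : ∫ z, A.indicator (fun _ => (1 : ℝ)) z ∂(nu hf) = (nu hf).real A := by
    rw [integral_indicator_const _ hA]; simp
  rw [e4] at h
  refine le_trans (le_of_eq ?_) h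
  refine integral_congr_ae (Filter.Eventually.of_forall fun z => ?_)
  by_cases hz : z ∈ A
  · simp [hz]
  · simp [hz]

/-- sum of four local terms -/
theorem exp_four {L1 L2 L3 L4 : Cfz → ℝ} {s : ℝ}
    (h1 : Integrable (fun z => exp (4 * s * L1 z)) (nu hf))
    (h2 : Integrable (fun z => exp (4 * s * L2 z)) (nu hf))
    (h3 : Integrable (fun z => exp (4 * s * L3 z)) (nu hf))
    (h4 : Integrable (fun z => exp (4 * s * L4 z)) (nu hf)) :
    ∫ z, exp (s * (L1 z + L2 z + L3 z + L4 z)) ∂(nu hf) ≤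
      (∫ z, exp (4 * s * L1 z) ∂(nu hf)) + (∫ z, exp (4 * s * L2 z) ∂(nu hf)) +
        (∫ z, exp (4 * s * L3 z) ∂(nu hf)) + ∫ z, exp (4 * s * L4 z) ∂(nu hf) := by
  have hs : Integrable (fun z => exp (4 * s * L1 z) + exp (4 * s * L2 z) + exp (4 * s * L3 z) +
      exp (4 * s * L4 z)) (nu hf) := ((h1.add h2).add h3).add h4
  have hp : ∀ z, exp (s * (L1 z + L2 z + L3 z + L4 z)) ≤ exp (4 * s * L1 z) +
      exp (4 * s * L2 z) + exp (4 * s * L3 z) + exp (4 * s * L4 z) := by
    intro z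
    obtain ⟨t, ht, hb⟩ : ∃ t, (t = 4 * s * L1 z ∨ t = 4 * s * L2 z ∨ t = 4 * s * L3 z ∨
        t = 4 * s * L4 z) ∧ s * (L1 z + L2 z + L3 z + L4 z) ≤ t := by
      by_contra hcon
      push Not at hcon
      have a1 := hcon (4 * s * L1 z) (Or.inl rfl)
      have a2 := hcon (4 * s * L2 z) (Or.inr (Or.inl rfl))
      have a3 := hcon (4 * s * L3 z) (Or.inr (Or.inr (Or.inl rfl)))
      have a4 := hcon (4 * s * L4 z) (Or.inr (Or.inr (Or.inr rfl)))
      linarith
    have e1 := exp_pos (4 * s * L1 z)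
    have e2 := exp_pos (4 * s * L2 z)
    have e3 := exp_pos (4 * s * L3 z)
    have e4 := exp_pos (4 * s * L4 z)
    refine (exp_le_exp.2 hb).trans ?_
    rcases ht with rfl | rfl | rfl | rfl <;> linarith
  calc ∫ z, exp (s * (L1 z + L2 z + L3 z + L4 z)) ∂(nu hf)
      ≤ ∫ z, (exp (4 * s * L1 z) + exp (4 * s * L2 z) + exp (4 * s * L3 z) +
          exp (4 * s * L4 z)) ∂(nu hf) :=
        integral_mono_of_nonneg (Filter.Eventually.of_forall fun z => (exp_pos _).le) hs
          (Filter.Eventually.of_forall hp)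
    _ = _ := by
        have a1 := integral_add h1 h2
        have a2 := integral_add (f := fun z => exp (4 * s * L1 z) + exp (4 * s * L2 z))
          (h1.add h2) h3
        have a3 := integral_add (f := fun z => exp (4 * s * L1 z) + exp (4 * s * L2 z) +
          exp (4 * s * L3 z)) ((h1.add h2).add h3) h4
        rw [a3, a2, a1]

end Crest.Agent.R158.Gx31
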