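import Crest.Agent.R158.Fe1_107
import Crest.Agent.R158.Gx3_31

/-!
# R158, Block A4, leaf D, right side (helper107), file 2: different strands, the bound

* `maj_ind`   : `∫ 1_A Y ≤ G P(A)^(1-δ)` for a majorant `Y` with a moment of order `≥ 1/δ`
* `diff_part` : the part of the right side of leaf D where `s` and `e0` are on different strands
-/

set_option autoImplicit false

noncomputable section

namespace Crest.Agent.R158.Fe107

open Crest.Agent.R161.Geo729 Crest.Agent.R161.Dual374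
open Crest.Agent.R161.Tas682 (sd)
open Crest.Agent.R158.It200 hiding hf
open Crest.Agent.R158.Wf850 Crest.Agent.R158.Vx107
open Crest.Agent.R158.Cn109 (lsW smalls mem_smalls SS QQ VV DepF)
open Crest.Agent.R158.Fd61
open Crest.Agent.R158.Bk430 (ws ws_support)
open Crest.Agent.R158.Zr110 (Mk Mo Xe MkA UL mkA_iff Adp)
open Crest.Agent.R158.Zs110 (ul_box mass_off W_adp QM2 FE FES fe_dep fes_disj fe_prob mem_fe
  caseII_near caseII_far meas_mk p2_pos)
open Crest.Agent.R158.Ax107 (p2 p2_le_one)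
open Crest.Agent.R158.Fr158 (bx mem_bx mem_bx_sd eIn mem_eIn)
open Crest.Agent.R158.Rs689 (nu)
open Function Real MeasureTheory

local notation "μh" => nu Crest.Agent.R158.Rs689.hf

theorem maj_ind {δ : ℝ} (h0 : 0 < δ) (h1 : δ < 1) {q : ℕ} (hq : 1 / δ ≤ q) {G : ℝ} {Y : Cfz → ℝ}
    (h : Mj G q Y) {A : Set Cfz} (hA : MeasurableSet A) :
    ∫ z, A.indicator Y z ∂μh ≤ G * (μh).real A ^ (1 - δ) := by
  obtain ⟨S, hS⟩ := h.dep
  have hY : ∀ z, 0 < Y z := fun z => lt_of_lt_of_le one_pos (h.one z)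
  have hL : Measurable fun z => log (Y z) := hS.measurable.log
  have hi : Integrable (fun z => exp (1 / δ * log (Y z))) μh :=
    (hS.comp fun y => exp (1 / δ * log y)).integrable _
  have h2 := Crest.Agent.R158.Gx31.ind_hoelder h0 h1 hA hL hi
  have e1 : (fun z => exp (log (Y z))) = Y := funext fun z => exp_log (hY z)
  rw [e1] at h2
  refine h2.trans ?_
  rw [mul_comm]
  refine mul_le_mul_of_nonneg_right ?_ (by positivity)
  have hG := h.one_le
  have h3 : ∫ z, exp (1 / δ * log (Y z)) ∂μh ≤ G := by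
    refine le_trans (integral_mono hi (h.int q) fun z => ?_) h.mom
    show exp (1 / δ * log (Y z)) ≤ Y z ^ q
    have h4 : Y z ^ q = exp (q * log (Y z)) := by
      rw [mul_comm, ← rpow_def_of_pos (hY z), rpow_natCast]
    rw [h4, exp_le_exp]
    exact mul_le_mul_of_nonneg_right hq (log_nonneg (h.one z))
  have h5 : 0 ≤ ∫ z, exp (1 / δ * log (Y z)) ∂μh := integral_nonneg fun z => (exp_pos _).le
  calc (∫ z, exp (1 / δ * log (Y z)) ∂μh) ^ δ ≤ G ^ δ := rpow_le_rpow h5 h3 h0.le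
    _ ≤ G ^ (1 : ℝ) := rpow_le_rpow_of_exponent_le hG h1.le
    _ = G := rpow_one G

/-- bound on events for something below a multiple of a majorant -/
theorem maj_ind' {δ : ℝ} (h0 : 0 < δ) (h1 : δ < 1) {q : ℕ} (hq : 1 / δ ≤ q) {G : ℝ} {Y : Cfz → ℝ}
    (h : Mj G q Y) {A : Set Cfz} (hA : MeasurableSet A) {F : Cfz → ℝ} {b : ℝ} (hb : 0 ≤ b)
    (hF : ∀ z, |F z| ≤ b * Y z) :
    ∫ z, A.indicator (fun z => |F z|) z ∂μh ≤ b * G * (μh).real A ^ (1 - δ) := by
  have h2 : ∫ z, A.indicator (fun z => |F z|) z ∂μh ≤ ∫ z, b * A.indicator Y z ∂μh := by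
    refine integral_mono_of_nonneg (Filter.Eventually.of_forall fun z => ?_)
      ((h.int'.indicator hA).const_mul b) (Filter.Eventually.of_forall fun z => ?_)
    · exact Set.indicator_nonneg (fun z _ => abs_nonneg _) z
    · show A.indicator (fun z => |F z|) z ≤ b * A.indicator Y z
      by_cases hz : z ∈ A
      · rw [Set.indicator_of_mem hz, Set.indicator_of_mem hz]; exact hF z
      · rw [Set.indicator_of_notMem hz, Set.indicator_of_notMem hz, mul_zero]
  rw [integral_const_mul] at h2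
  refine h2.trans ?_
  rw [mul_assoc]
  exact mul_le_mul_of_nonneg_left (maj_ind h0 h1 hq h hA) hb

theorem wg_off {R : ℕ} {v : P2} {b : Bool} {N : ℤ} (hN : 4 * N ≤ R) (hR : 8 ≤ R)
    (hv : N < sd (0, 0) v) : ∀ f ∈ BF (0, 0) N, wg R (v, b) f = 0 := by
  classical
  intro f hf
  have h1 := ws_off hN hR hf
  have h2 : ((v, b) : Face) ≠ f := by
    rintro rfl
    rw [mem_BF] at hf
    exact absurd hf (not_le.2 hv)
  rw [wg_eq, Finsupp.smul_apply, Finsupp.sub_apply, h1, Finsupp.single_apply, if_neg h2]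
  simp

/-- the corners `s` and `c` are on the same finite strand -/
def SL (s c : Corner) : Set Cfz := {z | ∃ A : Finset Face, A ∈ Lps z ∧ sepC A s ∧ sepC A c}

theorem meas_SL (s c : Corner) : MeasurableSet (SL s c) := by
  have : SL s c = ⋃ A : Finset Face, {z | A ∈ Lps z} ∩ {_z | sepC A s ∧ sepC A c} := by
    ext z
    simp only [SL, Set.mem_ofPred_eq, Set.mem_iUnion, Set.mem_inter_iff]
  rw [this]
  exact MeasurableSet.iUnion fun A => (meas_lps A).inter (MeasurableSet.const _)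

theorem SL_iff {z : Cfz} (hz : AllFin z) {s c : Corner} : z ∈ SL s c ↔ c ∈ Lp z s := by
  obtain ⟨A, hA, hA'⟩ := exists_int (hz s)
  constructor
  · rintro ⟨B, hB, h1, h2⟩
    obtain ⟨h3, h4⟩ := corner_of hB h1
    exact (sep_iff h3 h4 _).1 h2
  · intro h
    exact ⟨A, hA, (sep_iff (hz s) hA' _).2 (mem_Lp_self _ _), (sep_iff (hz s) hA' _).2 h⟩

open Classical in
/-- the integrand -/
def Fo (R : ℕ) (v : P2) (s : Corner) (z : Cfz) : ℝ :=
  if ((v, 0) : Corner) ∈ Lp z s then 0 else Dd R v s z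

open Classical in
def Fo' (R : ℕ) (v : P2) (s : Corner) (z : Cfz) : ℝ :=
  if AllFin z then Fo R v s z else 0

theorem Fo_ae (R : ℕ) (v : P2) (s : Corner) : Fo R v s =ᵐ[μh] Fo' R v s := by
  filter_upwards [ae_fin] with z hz
  unfold Fo'
  rw [if_pos hz]

theorem iDd {R : ℕ} (hR : 1 ≤ R) (v : P2) (s : Corner) : Integrable (Dd R v s) μh :=
  (integrable_Dr ae_fin (ntr_wg hR _) s).sub (integrable_Dr ae_fin (ntr_wg hR _) s)

theorem iFo {R : ℕ} (hR : 1 ≤ R) (v : P2) (s : Corner) : Integrable (Fo R v s) μh := by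
  refine ((iDd hR v s).indicator (meas_SL s (v, 0)).compl).congr ?_
  filter_upwards [ae_fin] with z hz
  unfold Fo
  by_cases h : ((v, 0) : Corner) ∈ Lp z s
  · rw [if_pos h, Set.indicator_of_notMem
      (show z ∉ (SL s (v, 0))ᶜ from fun h' => h' ((SL_iff hz).2 h))]
  · rw [if_neg h, Set.indicator_of_mem
      (show z ∈ (SL s (v, 0))ᶜ from fun h' => h ((SL_iff hz).1 h'))]

open Classical in
/-- **different strands** -/
theorem diff_part (hQ : QM2) {δ : ℝ} (h0 : 0 < δ) (h1 : δ < 1) :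
    ∃ C : ℝ, 1 ≤ C ∧ ∃ K : ℕ, 1 ≤ K ∧ ∀ᶠ n : ℕ in Filter.atTop, ∀ R : ℕ, 64 * n ≤ R →
      ∀ v : P2, sd (0, 0) v = n → ∀ s : Corner, sd (0, 0) s.1 ≤ 1 →
        |∫ z, Fo R v s z ∂μh| ≤ C * exp (-(b0 * VV (lv R))) * (n : ℝ) ^ δ *
          (p2 (n / K) ^ 2 * Ac109.P1 (2 * n) ((R / 4 : ℕ) : ℤ)) ^ (1 - δ) := by
  obtain ⟨K, hK, hn⟩ := caseII_near hQ h0 h1
  obtain ⟨q, hq⟩ := exists_nat_ge (1 / δ)
  obtain ⟨G, hG, hws⟩ := maj_ws q
  rw [Filter.eventually_atTop] at hn
  obtain ⟨N0, hn⟩ := hn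
  refine ⟨8 * G, by linarith, 4 * K, by omega, ?_⟩
  filter_upwards [Filter.eventually_ge_atTop (4 * N0 + 8)] with n hn0
  intro R hR v hv s hs
  obtain ⟨Y, hY, hYe⟩ := hws R (by omega)
  have hYe' : MjW R Y := hYe
  set N := n / 4 with hN
  obtain ⟨hp, hnear⟩ := hn N (by omega)
  set R' : ℤ := ((R / 4 : ℕ) : ℤ) with hR'
  have hR'4 : 4 * R' ≤ R := by omega
  have hN4 : 4 * (N : ℤ) ≤ R := by omega
  have hR8 : 8 ≤ R := by omega
  set E : Set Cfz := FE v (v, 0) N (2 * n) R' true with hE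
  have hsR : (2 * n : ℤ) ≤ R' := by omega
  have hDE := fe_dep v (v, 0) (N : ℤ) hsR true
  have hdj : Disjoint (eIn (bx (0, 0) N)) (FES v (N : ℤ) (2 * n) R') :=
    fes_disj (by omega) (by omega)
  have hPE : (μh).real E ≤ p2 (N - 6) * Ac109.P1 (2 * n) R' :=
    fe_prob v (v, 0) N hsR (by rw [sd_self]; norm_num) (by omega) true
  have hcE : ∀ z, ((v, 0) : Corner) ∈ Mk (Mo (0, 0) R') z → z ∈ E := fun z hz =>
    (mem_fe hz (by omega) (by show sd (0, 0) v + 1 ≤ _; omega)).1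
  have hgv : ∀ b : Bool, sd (0, 0) ((v, b) : Face).1 ≤ ((R / 8 : ℕ) : ℤ) := by
    intro b
    show sd (0, 0) v ≤ _
    omega
  set w0 := exp (-(b0 * VV (lv R))) with hw0
  have hw0p : 0 < w0 := exp_pos _
  set B : ℝ := 4 * w0 * G with hB
  have hBp : 0 ≤ B := by positivity
  -- near
  set G1 : Cfz → ℝ := fun z => √3 * (W (wg R (v, false)) z - W (wg R (v, true)) z) with hG1
  have a1 : Adp (Mo (0, 0) N) G1 := by
    intro z z' h
    have h2 := W_adp (ntr_wg (R := R) (by omega) (v, false))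
      (wg_off (b := false) hN4 hR8 (by omega : (N : ℤ) < sd (0, 0) v)) z z' h
    have h3 := W_adp (ntr_wg (R := R) (by omega) (v, true))
      (wg_off (b := true) hN4 hR8 (by omega : (N : ℤ) < sd (0, 0) v)) z z' h
    show √3 * _ = √3 * _
    rw [h2, h3]
  have a2 : Integrable G1 μh :=
    ((iW (ntr_wg (by omega) _)).sub (iW (ntr_wg (by omega) _))).const_mul _
  have a3 : ∀ z, G1 z ≠ 0 → z ∈ E := by
    intro z hz
    by_contra h
    refine hz ?_
    show √3 * (W (wg R (v, false)) z - W (wg R (v, true)) z) = 0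
    rw [W_same hR'4 hR8 fun h' => h (hcE z h'), sub_self, mul_zero]
  have h3 : √3 ≤ 2 := by
    rw [Real.sqrt_le_left (by norm_num)]; norm_num
  have a4 : ∀ z, |G1 z| ≤ 4 * w0 * Y z := by
    intro z
    show |√3 * (W (wg R (v, false)) z - W (wg R (v, true)) z)| ≤ _
    have b1 := W_env (by omega) hYe' (hgv false) z
    have b2 := W_env (by omega) hYe' (hgv true) z
    have b3 := abs_sub (W (wg R (v, false)) z) (W (wg R (v, true)) z)
    rw [abs_mul, abs_of_nonneg (sqrt_nonneg 3)]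
    calc √3 * |W (wg R (v, false)) z - W (wg R (v, true)) z|
        ≤ 2 * (w0 * Y z + w0 * Y z) :=
          mul_le_mul h3 (by linarith) (abs_nonneg _) (by norm_num)
      _ = 4 * w0 * Y z := by ring
  have hnr := hnear s hs _ E hDE hdj B hBp G1 a1 a2 a3
    fun A hA => maj_ind' h0 h1 hq hY hA (by positivity) a4
  -- far
  have f1 : ∀ z, Fo' R v s z ≠ 0 → z ∈ E := by
    intro z hz
    unfold Fo' Fo at hz
    by_contra h
    refine hz ?_
    split_ifs with i1 i2
    · rfl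
    · exact Dd_zero hR'4 hR8 i1 i2 fun h' => h (hcE z h')
    · rfl
  have f2 : ∀ z, |Fo' R v s z| ≤ 4 * w0 * Y z := by
    intro z
    have hY1 := hY.one z
    unfold Fo' Fo
    split_ifs with i1 i2
    · rw [abs_zero]; positivity
    · have b1 := Dr_env (by omega) hYe' (hgv false) hs i1
      have b2 := Dr_env (by omega) hYe' (hgv true) hs i1
      have b3 := abs_sub (Dr (wg R (v, false)) s z) (Dr (wg R (v, true)) s z)
      unfold Dd
      linarith
    · rw [abs_zero]; positivity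
  have hfr := caseII_far h1 N K hp hs hDE hdj hBp f1
    fun A hA => maj_ind' h0 h1 hq hY hA (by positivity) f2
  -- split
  have hmk : MeasurableSet {z : Cfz | s ∈ Mk (Mo (0, 0) N) z} := meas_mk s N
  have hi := iFo (R := R) (by omega) v s
  have s1 : ∫ z, Fo R v s z ∂μh =
      ∫ z, {z | s ∈ Mk (Mo (0, 0) N) z}.indicator (Fo' R v s) z ∂μh +
      ∫ z, G1 z * (if s ∉ Mk (Mo (0, 0) N) z then (sg z s : ℝ) else 0) ∂μh := by
    rw [← integral_add_compl hmk hi, ← integral_indicator hmk, ← integral_indicator hmk.compl]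
    congr 1
    · refine integral_congr_ae ?_
      filter_upwards [ae_fin] with z hz
      by_cases h : z ∈ {z : Cfz | s ∈ Mk (Mo (0, 0) N) z}
      · rw [Set.indicator_of_mem h, Set.indicator_of_mem h]
        unfold Fo'
        rw [if_pos hz]
      · rw [Set.indicator_of_notMem h, Set.indicator_of_notMem h]
    · refine integral_congr_ae ?_
      filter_upwards [ae_fin] with z hz
      by_cases h : s ∈ Mk (Mo (0, 0) (N : ℤ)) z
      · rw [if_neg (not_not.2 h), mul_zero,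
          Set.indicator_of_notMem (show z ∉ {z : Cfz | s ∈ Mk (Mo (0, 0) N) z}ᶜ from fun h' => h' h)]
      · rw [if_pos h, Set.indicator_of_mem (show z ∈ {z : Cfz | s ∈ Mk (Mo (0, 0) N) z}ᶜ from h)]
        have h5 : ((v, 0) : Corner) ∉ Lp z s := fun h' =>
          h (Lp_mk h' (by show (N : ℤ) + 1 < sd (0, 0) v; omega))
        unfold Fo Dd
        rw [if_neg h5, Dr_near (ntr_wg (by omega) _)
          (wg_off (b := false) hN4 hR8 (by omega)) hz h, Dr_near (ntr_wg (by omega) _)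
          (wg_off (b := true) hN4 hR8 (by omega)) hz h]
        show _ = √3 * (W (wg R (v, false)) z - W (wg R (v, true)) z) * _
        ring
  rw [s1]
  refine (abs_add_le _ _).trans ((add_le_add hfr hnr).trans ?_)
  have hn1 : (1 : ℝ) ≤ n := by
    have : 1 ≤ n := by omega
    exact_mod_cast this
  have hN1 : (1 : ℝ) ≤ N := by
    have : 1 ≤ N := by omega
    exact_mod_cast this
  have hNn : (N : ℝ) ≤ n := by
    have : N ≤ n := by omega
    exact_mod_cast this
  have hP0 : 0 < p2 (N / K) := p2_pos _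
  have hP1 : 0 ≤ Ac109.P1 (2 * n) R' := by
    unfold Ac109.P1; exact measureReal_nonneg
  have hX : (p2 (N / K) * (μh).real E) ^ (1 - δ) ≤
      (p2 (n / (4 * K)) ^ 2 * Ac109.P1 (2 * n) R') ^ (1 - δ) := by
    refine rpow_le_rpow (mul_nonneg hP0.le measureReal_nonneg) ?_ (by linarith)
    have e1 : n / (4 * K) = N / K := by rw [hN, Nat.div_div_eq_div_mul]
    rw [e1, sq, mul_assoc]
    refine mul_le_mul_of_nonneg_left (hPE.trans ?_) hP0.le
    exact mul_le_mul_of_nonneg_right hp hP1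
  set X := (p2 (n / (4 * K)) ^ 2 * Ac109.P1 (2 * n) R') ^ (1 - δ) with hXd
  have hX0 : 0 ≤ X := by positivity
  have hNd : (N : ℝ) ^ δ ≤ (n : ℝ) ^ δ := rpow_le_rpow (by positivity) hNn h0.le
  have hnd : (1 : ℝ) ≤ (n : ℝ) ^ δ := one_le_rpow hn1 h0.le
  have c1 : B * (p2 (N / K) * (μh).real E) ^ (1 - δ) ≤ B * (n : ℝ) ^ δ * X := by
    calc B * (p2 (N / K) * (μh).real E) ^ (1 - δ) ≤ B * X := mul_le_mul_of_nonneg_left hX hBp
      _ ≤ B * (n : ℝ) ^ δ * X := by
        refine mul_le_mul_of_nonneg_right ?_ hX0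
        nlinarith
  have c2 : B * (N : ℝ) ^ δ * (p2 (N / K) * (μh).real E) ^ (1 - δ) ≤ B * (n : ℝ) ^ δ * X :=
    mul_le_mul (mul_le_mul_of_nonneg_left hNd hBp) hX
      (rpow_nonneg (mul_nonneg hP0.le measureReal_nonneg) _) (by positivity)
  calc _ ≤ B * (n : ℝ) ^ δ * X + B * (n : ℝ) ^ δ * X := add_le_add c1 c2
    _ = 8 * G * w0 * (n : ℝ) ^ δ * X := by rw [hB]; ring

end Crest.Agent.R158.Fe107
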