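import Crest.Agent.R158.Fd8_61
import Crest.Agent.R158.Ud6_107
import Crest.Agent.R158.Sc4_689
import Crest.Agent.R158.Md2_468
import Crest.Agent.R158.Zs5_110

/-!
# Row 158, A4 identity D (helper110): the final sum

* `sg_le` : the isolated sum of `LB4_raw`
* `scales`, `A1_small`, `p2_div`, `main_sub`
* `dright : Bs410.Law3 → Vg109.HD → DRight`
-/

set_option autoImplicit false

noncomputable section

namespace Crest.Agent.R158.Fe110

open Real Function MeasureTheory Filter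
open Crest.Agent.R161.Tas682 (sd)
open Crest.Agent.R161.Geo729
open Crest.Agent.R158.It200 (Cfz Corner fc i1 i2 o1 o2 Lp ah)
open Crest.Agent.R158.Wf850 (Lps Face BF sepC sep_iff exists_int sep_uniq cv cf)
open Crest.Agent.R158.Vx107 (Dr Ntr)
open Crest.Agent.R158.Cn109 (VV DepF)
open Crest.Agent.R158.Rs689 (nu Dep)
open Crest.Agent.R158.Ax107 (p2 p4)
open Crest.Agent.R158.Zr110 (nh Mk Mo)
open Crest.Agent.R158.Fd61
open Crest.Agent.R158.Ud107 (cg S4D DRight p2_poly ev_const)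
open Crest.Agent.R158.Cpl963 (A1)

theorem cg_wg (R : ℕ) (g : Face) : cg (2 * π / 3) (Bk430.ws R) g = wg R g := by
  rw [wg_eq]
  unfold cg Fd61.aa
  rw [smul_sub, Finsupp.smul_single, smul_eq_mul, mul_one]

/-- the sum over the four corners -/
theorem S4D_diff {R : ℕ} (hR : 1 ≤ R) (n : ℕ) (x : Edge) :
    S4D (cg (2 * π / 3) (Bk430.ws R) (((0, (n : ℤ)), false) : Face)) x -
      S4D (cg (2 * π / 3) (Bk430.ws R) (((0, (n : ℤ)), true) : Face)) x =
      ∫ z, dd R n (i1 x) z ∂nh + ∫ z, dd R n (i2 x) z ∂nh + ∫ z, dd R n (o1 x) z ∂nh +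
        ∫ z, dd R n (o2 x) z ∂nh := by
  have hfin : ∀ᵐ z ∂nh, Crest.Agent.R158.Vx107.AllFin z := Crest.Agent.R158.Vx107.ae_fin
  have key : ∀ s, ∫ z, dd R n s z ∂nh =
      ∫ z, Dr (cg (2 * π / 3) (Bk430.ws R) (((0, (n : ℤ)), false) : Face)) s z ∂nh -
        ∫ z, Dr (cg (2 * π / 3) (Bk430.ws R) (((0, (n : ℤ)), true) : Face)) s z ∂nh := by
    intro s
    rw [cg_wg, cg_wg, ← integral_sub (Crest.Agent.R158.Vx107.integrable_Dr hfin (ntr_wg hR _) s)
      (Crest.Agent.R158.Vx107.integrable_Dr hfin (ntr_wg hR _) s)]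
    unfold dd
    rw [cv_eP, cf_eP]
  unfold S4D
  rw [key, key, key, key]
  ring

/-! ### arithmetic -/

/-- doubling, iterated -/
theorem p2_div (K : ℕ) (hK : 1 ≤ K) : ∃ C : ℝ, 1 ≤ C ∧ ∀ᶠ n : ℕ in atTop, p2 (n / K) ≤ C * p2 n := by
  obtain ⟨C, hC, hd⟩ := Sc689.p2_dbl Sc689.sep2_ok
  have hpow : ∀ (j m : ℕ), 4 ≤ m → p2 m ≤ C ^ j * p2 (2 ^ j * m) := by
    intro j
    induction j with
    | zero => intro m _; simp
    | succ j ih =>
        intro m hm
        have h1 := ih m hm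
        have h2 : 4 ≤ 2 ^ j * m := le_trans hm (Nat.le_mul_of_pos_left _ (by positivity))
        have h3 := hd (2 ^ j * m) h2
        calc p2 m ≤ C ^ j * p2 (2 ^ j * m) := h1
          _ ≤ C ^ j * (C * p2 (2 * (2 ^ j * m))) := mul_le_mul_of_nonneg_left h3 (by positivity)
          _ = C ^ (j + 1) * p2 (2 ^ (j + 1) * m) := by
              rw [pow_succ, pow_succ, show 2 * (2 ^ j * m) = 2 ^ j * 2 * m by ring]; ring
  refine ⟨C ^ (K + 1), one_le_pow₀ hC, ?_⟩
  filter_upwards [eventually_ge_atTop (4 * K)] with n hn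
  have h1 : 4 ≤ n / K := by rw [Nat.le_div_iff_mul_le (by omega)]; exact hn
  refine (hpow (K + 1) _ h1).trans (mul_le_mul_of_nonneg_left ?_ (by positivity))
  refine Ax107.p2_anti ?_
  have h2 : n < (n / K + 1) * K := by
    have := Nat.lt_div_mul_add (a := n) (b := K) (by omega)
    nlinarith
  have h3 : K < 2 ^ K := Nat.lt_two_pow_self
  have h4 : (n / K + 1) * K ≤ 2 ^ (K + 1) * (n / K) := by
    rw [pow_succ]
    nlinarith
  omega

/-- the isolated sum -/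
theorem sg_le {ε : ℝ} (hε : 0 < ε) : ∃ C : ℝ, 1 ≤ C ∧ ∀ᶠ n : ℕ in atTop,
    p2 (n / 4 - 6) ≤ C * p2 n ∧ Sg (n / 4) (Nat.log 2 (n / 4)) ≤ C * (n : ℝ) ^ ε * p2 n := by
  obtain ⟨K, hK, hT⟩ := Zs110.term_le Sc689.qm2 (ε := ε / 2) (by linarith)
  obtain ⟨C, hC, hd⟩ := p2_div (4 * K) (by omega)
  have h4 : Tendsto (fun n : ℕ => n / 4) atTop atTop :=
    Nat.tendsto_div_const_atTop (by norm_num)
  refine ⟨2 * C, by linarith, ?_⟩
  filter_upwards [h4.eventually hT, h4.eventually (Zs110.log_le (ε := ε / 2) (by linarith)), hd,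
    eventually_ge_atTop 4] with n g1 g2 g3 g4
  obtain ⟨t1, t2, t3⟩ := g1
  obtain ⟨l1, l2⟩ := g2
  rw [Nat.div_div_eq_div_mul] at t1 t2 t3
  have hp0 : 0 ≤ p2 n := Ax107.p2_nonneg n
  have hn4 : 1 ≤ n / 4 := by omega
  have hN0 : (0 : ℝ) < ((n / 4 : ℕ) : ℝ) := by exact_mod_cast hn4
  have hNn : ((n / 4 : ℕ) : ℝ) ≤ n := by exact_mod_cast Nat.div_le_self n 4
  set q : ℝ := ((n / 4 : ℕ) : ℝ) ^ (ε / 2) with hq
  have hqq : q * q ≤ (n : ℝ) ^ ε := by
    rw [hq, ← Real.rpow_add hN0]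
    have : ε / 2 + ε / 2 = ε := by ring
    rw [this]
    exact Real.rpow_le_rpow hN0.le hNn hε.le
  constructor
  · nlinarith [t2, g3]
  set P := p2 (n / (4 * K)) with hP
  have hP0 : 0 ≤ P := Ax107.p2_nonneg _
  have h5 : Sg (n / 4) (Nat.log 2 (n / 4)) ≤ P * (1 + q * q) := by
    unfold Sg
    have h6 : ∑ j ∈ Finset.range (Nat.log 2 (n / 4) + 1),
        p2 (2 ^ j - 8) * Zs110.P2a (2 ^ (j + 1)) (((n / 4 : ℕ) : ℤ) - 1) ≤
        ∑ _j ∈ Finset.range (Nat.log 2 (n / 4) + 1), q * P := Finset.sum_le_sum fun j _ => t3 j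
    rw [Finset.sum_const, Finset.card_range, nsmul_eq_mul] at h6
    have h7 : ((Nat.log 2 (n / 4) + 1 : ℕ) : ℝ) * (q * P) ≤ q * (q * P) :=
      mul_le_mul_of_nonneg_right l1 (mul_nonneg (by linarith) hP0)
    linarith
  calc Sg (n / 4) (Nat.log 2 (n / 4)) ≤ P * (1 + q * q) := h5
    _ ≤ (C * p2 n) * (2 * (n : ℝ) ^ ε) := by
        refine mul_le_mul g3 ?_ (by nlinarith) (by positivity)
        nlinarith
    _ = _ := by ring

/-- one-arm factor -/
theorem A1_small : ∃ C a : ℝ, 1 ≤ C ∧ 0 < a ∧ ∀ (s R : ℕ) (N t : ℝ), 1 ≤ s → s ≤ R → 1 ≤ N → 0 ≤ t →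
    (s : ℝ) / R ≤ 64 * N ^ (-t) → nh.real (A1 (0, 0) (s : ℤ) (R : ℤ)) ≤ C * N ^ (-(a * t)) := by
  obtain ⟨C, a, hC, ha, h⟩ := A1_le
  refine ⟨C * 64 ^ a, a, ?_, ha, fun s R N t hs hR hN ht hx => ?_⟩
  · have : (1 : ℝ) ≤ 64 ^ a := Real.one_le_rpow (by norm_num) ha.le
    nlinarith
  have hN0 : (0 : ℝ) < N := by linarith
  have hs0 : (0 : ℝ) < s := by exact_mod_cast hs
  have hR0 : (0 : ℝ) < R := by exact_mod_cast (by omega : 0 < R)
  calc nh.real (A1 (0, 0) (s : ℤ) (R : ℤ)) ≤ C * ((s : ℝ) / R) ^ a := h (0, 0) s R hs hR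
    _ ≤ C * (64 * N ^ (-t)) ^ a :=
        mul_le_mul_of_nonneg_left (Real.rpow_le_rpow (by positivity) hx ha.le) (by linarith)
    _ = C * 64 ^ a * N ^ (-(a * t)) := by
        rw [Real.mul_rpow (by norm_num) (by positivity), ← Real.rpow_mul hN0.le]
        have : -t * a = -(a * t) := by ring
        rw [this]; ring

theorem VV_mono {i j : ℕ} (h : i ≤ j) : VV i ≤ VV j := by
  obtain ⟨C, hC, h1⟩ := Cn109.VV_diff
  obtain ⟨k, rfl⟩ := Nat.exists_eq_add_of_le h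
  linarith [(h1 i k).1]

/-! ### the main corner -/

theorem sd_ah (d : Corner) : sd (0, 0) (src (ah d)) ≤ sd (0, 0) d.1 + 1 ∧
    sd (0, 0) (tgt (ah d)) ≤ sd (0, 0) d.1 + 1 := by
  have h1 := Ac109.sd_tri (0, 0) d.1 (tgt (ah d))
  have h2 := Ac109.sd_tri (0, 0) d.1 (src (ah d))
  rcases Crest.Agent.R158.Wf850.ah_ends' d with ⟨h3, h4⟩ | ⟨h3, h4⟩
  · rw [h3]; exact ⟨by linarith, by linarith⟩
  · rw [h3]; exact ⟨by linarith, by linarith⟩

theorem main_sub {m n S : ℕ} (hn : n = 256 * m) (hm : 1 ≤ m) (hS : 16 * n ≤ S) {z : Cfz}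
    (h1 : (Mc468.y2 m, 0) ∈ Lp z ((0, 0), 0))
    (h2 : ∀ d ∈ Lp z ((0, 0), 0), sd (0, 0) d.1 ≤ 1024 * m + 1) :
    z ∈ GdE ((0, 0), 0) (eP n) S := by
  have e : (Mc468.y2 m, 0) = eP n := by
    unfold Mc468.y2 eP
    rw [hn]; push_cast; rfl
  rw [e] at h1
  refine ⟨h1, ?_⟩
  rintro ⟨e, ⟨d, hd, rfl⟩, he⟩
  have h3 := h2 d hd
  have h4 := sd_ah d
  have h5 : (((S + 3 : ℕ) : ℤ)) < sd (0, 0) (src (ah d)) ∨
      (((S + 3 : ℕ) : ℤ)) < sd (0, 0) (tgt (ah d)) := he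
  push_cast at h5
  rcases h5 with h5 | h5 <;> omega

/-! ### scales -/

/-- all the scale facts, eventually in `n` -/
theorem scales {t : ℝ} (ht : 0 < t) {K' : ℕ} (hK' : 1 ≤ K') : ∀ᶠ n : ℕ in atTop,
    ∃ S r : ℕ, 16 * n ≤ S ∧ 16 * S ≤ r ∧ (n : ℝ) ^ t ≤ r ∧
      ((K' * r : ℕ) : ℝ) ≤ (n : ℝ) ^ (1 + 4 * t) ∧ 2 * n ≤ S ∧ S + 5 ≤ K' * r / 8 ∧
      ((2 * n : ℕ) : ℝ) / (S : ℝ) ≤ 64 * (n : ℝ) ^ (-t) ∧
      ((S + 5 : ℕ) : ℝ) / ((K' * r / 8 : ℕ) : ℝ) ≤ 64 * (n : ℝ) ^ (-t) := by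
  filter_upwards [Ax107.fl_bounds (b := 1 + t) (by linarith), Ax107.fl_bounds (b := 1 + 2 * t)
    (by linarith), ev_const 64 ht, ev_const (K' : ℝ) (d := 2 * t) (by linarith),
    eventually_ge_atTop 1] with n h1 h2 h3 h4 h5
  have hn1 : (1 : ℝ) ≤ n := by exact_mod_cast h5
  have hn0 : (0 : ℝ) < n := by linarith
  set S := ⌊(n : ℝ) ^ (1 + t)⌋₊ with hS
  set r := ⌊(n : ℝ) ^ (1 + 2 * t)⌋₊ with hr
  set x : ℝ := (n : ℝ) ^ t with hx
  have e1 : (n : ℝ) ^ (1 + t) = n * x := by rw [Real.rpow_add hn0, Real.rpow_one]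
  have e2 : (n : ℝ) ^ (1 + 2 * t) = n * x * x := by
    rw [Real.rpow_add hn0, Real.rpow_one, two_mul, Real.rpow_add hn0]; ring
  have e3 : (n : ℝ) ^ (1 + 4 * t) = n * x * x * (n : ℝ) ^ (2 * t) := by
    rw [← e2, ← Real.rpow_add hn0]; congr 1; ring
  have e4 : (n : ℝ) ^ (-t) = x⁻¹ := Real.rpow_neg hn0.le _
  rw [e1] at h1
  rw [e2] at h2
  have hx0 : 0 < x := by linarith
  have hnx : 0 < n * x := by positivity
  have hnx64 : (64 : ℝ) ≤ n * x := by nlinarith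
  have a1 : 16 * n ≤ S := by
    have : (16 : ℝ) * n ≤ S := by nlinarith [h1.2]
    exact_mod_cast this
  have a2 : 16 * S ≤ r := by
    have : (16 : ℝ) * S ≤ r := by
      have b1 : (16 : ℝ) * S ≤ 16 * (n * x) := by linarith [h1.1]
      have b2 : 16 * (n * x) ≤ n * x * x / 2 := by nlinarith
      linarith [h2.2]
    exact_mod_cast this
  have a3 : r ≤ K' * r := Nat.le_mul_of_pos_left _ (by omega)
  refine ⟨S, r, a1, a2, ?_, ?_, ?_, ?_, ?_, ?_⟩
  · have b2 : x ≤ n * x * x / 2 := by nlinarith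
    linarith [h2.2]
  · push_cast
    rw [e3]
    calc (K' : ℝ) * r ≤ (n : ℝ) ^ (2 * t) * (n * x * x) := mul_le_mul h4 h2.1 (by positivity)
          (by positivity)
      _ = _ := by ring
  · omega
  · omega
  · rw [e4]
    rw [div_le_iff₀ (by linarith [h1.2])]
    calc (((2 * n : ℕ)) : ℝ) = 4 * x⁻¹ * (n * x / 2) := by
          push_cast; field_simp; ring
      _ ≤ 64 * x⁻¹ * (n * x / 2) := by
          refine mul_le_mul_of_nonneg_right ?_ (by positivity)
          have : 0 < x⁻¹ := by positivity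
          linarith
      _ ≤ _ := mul_le_mul_of_nonneg_left h1.2 (by positivity)
  · rw [e4]
    have b1 : (n : ℝ) * x * x / 32 ≤ ((K' * r / 8 : ℕ) : ℝ) := by
      have b2 : (r : ℝ) ≤ 8 * ((K' * r / 8 : ℕ) : ℝ) + 7 := by
        exact_mod_cast (by omega : r ≤ 8 * (K' * r / 8) + 7)
      have b4 : (64 : ℝ) * 64 ≤ n * x * x := by nlinarith
      linarith [h2.2]
    have b5 : 0 < (n : ℝ) * x * x / 32 := by positivity
    rw [div_le_iff₀ (by linarith)]
    calc (((S + 5 : ℕ)) : ℝ) ≤ 2 * (n * x) := by push_cast; linarith [h1.1]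
      _ = 64 * x⁻¹ * (n * x * x / 32) := by field_simp; ring
      _ ≤ _ := mul_le_mul_of_nonneg_left b1 (by positivity)

set_option maxHeartbeats 2000000 in
/-- **the right side of identity D** -/
theorem dright (hLaw : Bs410.Law3) (hD : Vg109.HD) : DRight := by
  intro ε hε
  refine ⟨1, one_pos, fun τ hτ _ => ?_⟩
  obtain ⟨K', hK', c', hc', hEB⟩ := EB_pos hLaw hD
  obtain ⟨c6, hc6, h6⟩ := Mc468.i6
  obtain ⟨Kn, hKn, hn2⟩ := Sc689.p2_nice Sc689.sep2_ok
  obtain ⟨L0, hL0, hpoly⟩ := p2_poly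
  obtain ⟨C1, a, hC1, ha, hA1⟩ := A1_small
  set t : ℝ := τ / 2 with ht
  have ht0 : 0 < t := by positivity
  set b : ℝ := a * t with hb
  have hb0 : 0 < b := by positivity
  set θ : ℝ := b / 4 with hθ
  have hθ0 : 0 < θ := by positivity
  set L : ℝ := 2 * L0 with hL
  have hLp : 0 ≤ L := by positivity
  obtain ⟨kk, hkk⟩ := exists_nat_ge ((L + 2) / θ)
  have hkk' : L + 2 ≤ θ * (2 * kk + 1 : ℕ) := by
    rw [div_le_iff₀ hθ0] at hkk
    push_cast
    nlinarith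
  obtain ⟨G, hG, hmaj⟩ := maj_ws (2 * kk + 2)
  obtain ⟨C, hC, hsg⟩ := sg_le hθ0
  obtain ⟨r0, hr0⟩ := eventually_atTop.1 hEB
  set κ : ℝ := c6 / Kn ^ 2 * c' / 2 with hκ
  have hκ0 : 0 < κ := by positivity
  set M : ℝ := 48 * C ^ 2 * C1 + 120 * G with hM
  have hM0 : 0 < M := by positivity
  set β : ℝ := min (b / 2) 1 with hβ
  have hβ0 : 0 < β := lt_min (by linarith) one_pos
  have hfin : ∀ᶠ n : ℕ in atTop, ∀ m : ℕ, n = 256 * m → (∃ j, m = 2 ^ j) → ∃ R : ℕ,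
      16 * n ≤ R ∧ (R : ℝ) ≤ (n : ℝ) ^ (1 + 2 * τ) ∧
      (n : ℝ) ^ (-ε) * exp (-(√3 * (2 * π / 3) * VV (Nat.log 2 R))) * p2 n ^ 2 ≤
        S4D (cg (2 * π / 3) (Bk430.ws R) (((0, (n : ℤ)), false) : Face)) ((0, 0), false) -
        S4D (cg (2 * π / 3) (Bk430.ws R) (((0, (n : ℤ)), true) : Face)) ((0, 0), false) := by
    filter_upwards [scales ht0 hK', hsg, hpoly, ev_const (r0 : ℝ) ht0,
      ev_const (4 * M / κ) hβ0, ev_const (1 / κ) hε, ev_const (8 * C1 / c') (d := b / 2)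
      (by positivity), eventually_ge_atTop 8] with n g1 g2 g6 g7 g8 g9 g11 g10 m hnm hj
    obtain ⟨j, hj⟩ := hj
    obtain ⟨S, r, s1, s2, s3, s4, s5, s6, s8, s9⟩ := g1
    obtain ⟨g4, g5⟩ := g2
    have hn1 : (1 : ℝ) ≤ n := by exact_mod_cast (by omega : 1 ≤ n)
    have hn0 : (0 : ℝ) < n := by linarith
    have hm1 : 1 ≤ m := by omega
    set R : ℕ := K' * r with hR
    have hrR : r ≤ R := Nat.le_mul_of_pos_left _ (by omega)
    have hR1 : 1 ≤ R := by omega
    have hR64 : 64 ≤ R := by omega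
    refine ⟨R, by omega, ?_, ?_⟩
    · refine s4.trans (le_of_eq ?_)
      congr 1
      rw [ht]; ring
    rw [S4D_diff hR1]
    obtain ⟨Y, hMj, hY⟩ := hmaj R hR64
    set N : ℝ := (n : ℝ) with hN
    set T : ℝ := N ^ θ with hT
    have hT1 : 1 ≤ T := Real.one_le_rpow hn1 hθ0.le
    have hTc := tr_set hMj hT1
    set η : ℝ := G / T ^ (2 * kk + 1) with hη
    have hη1 : η ≤ G * N ^ (-(L + 2)) := by
      have h1 : T ^ (2 * kk + 1) = N ^ (θ * (2 * kk + 1 : ℕ)) := by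
        rw [hT, ← Real.rpow_natCast, ← Real.rpow_mul hn0.le]
      have h2 : N ^ (L + 2) ≤ T ^ (2 * kk + 1) := by
        rw [h1]; exact Real.rpow_le_rpow_of_exponent_le hn1 hkk'
      rw [hη, Real.rpow_neg hn0.le, ← div_eq_mul_inv]
      exact div_le_div_of_nonneg_left (by linarith) (by positivity) h2
    set X : ℝ := p2 n ^ 2 with hX
    have hp0 : 0 ≤ p2 n := Ax107.p2_nonneg n
    have hX0 : N ^ (-L) ≤ X := by
      calc N ^ (-L) = (N ^ (-L0)) ^ 2 := by
            rw [← Real.rpow_natCast, ← Real.rpow_mul hn0.le]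
            congr 1
            rw [hL]; push_cast; ring
        _ ≤ X := pow_le_pow_left₀ (by positivity) g6 2
    have hXp : 0 < X := (Real.rpow_pos_of_pos hn0 _).trans_le hX0
    set E : ℝ := EE R with hE
    have hEp : 0 < E := EE_pos R
    set B : ℝ := ∫ z, Bn ((S + 5 : ℕ) : ℤ) (wg R (cv (eP n))) z ∂nh with hB
    have hBp : c' * E ≤ B := by
      refine hr0 r ?_ _ _ (by positivity) (by exact_mod_cast (by omega : S + 5 ≤ r)) ?_
      · exact_mod_cast g7.trans s3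
      · rw [cv_eP]
        have : sd (0, 0) (0, (n : ℤ)) = n := by
          unfold sd
          simp
        show sd (0, 0) (0, (n : ℤ)) ≤ ((S + 5 : ℕ) : ℤ)
        rw [this]
        exact_mod_cast (by omega : n ≤ S + 5)
    -- one-arm factors
    set a1 : ℝ := nh.real (A1 (0, 0) ((S + 5 : ℕ) : ℤ) ((R / 8 : ℕ) : ℤ)) with ha1
    set a2 : ℝ := nh.real (A1 (0, 0) ((2 * n : ℕ) : ℤ) (S : ℤ)) with ha2
    have p1 : a1 ≤ C1 * N ^ (-b) := hA1 _ _ N t (by omega) s6 hn1 ht0.le s9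
    have p2' : a2 ≤ C1 * N ^ (-b) := hA1 _ _ N t (by omega) s5 hn1 ht0.le s8
    have ha10 : 0 ≤ a1 := measureReal_nonneg
    have ha20 : 0 ≤ a2 := measureReal_nonneg
    have hNb : 0 < N ^ (-b) := Real.rpow_pos_of_pos hn0 _
    have hsz : Sz n (n / 4) (2 * n) S R :=
      ⟨hR64, by omega, by omega, s5, by omega⟩
    -- the first bracket
    have hbr : c' * E / 2 ≤ B - 4 * T * E * a1 := by
      have h1 : 4 * T * a1 ≤ c' / 2 := by
        have h2 : T * N ^ (-b) ≤ N ^ (-(b / 2)) := by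
          rw [hT, ← Real.rpow_add hn0]
          refine Real.rpow_le_rpow_of_exponent_le hn1 ?_
          rw [hθ]; linarith
        have h3 : 4 * C1 * N ^ (-(b / 2)) ≤ c' / 2 := by
          rw [Real.rpow_neg hn0.le, ← div_eq_mul_inv, div_le_iff₀ (by positivity)]
          rw [div_le_iff₀ hc'] at g11
          linarith
        calc 4 * T * a1 ≤ 4 * T * (C1 * N ^ (-b)) := mul_le_mul_of_nonneg_left p1 (by positivity)
          _ = 4 * C1 * (T * N ^ (-b)) := by ring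
          _ ≤ 4 * C1 * N ^ (-(b / 2)) := mul_le_mul_of_nonneg_left h2 (by positivity)
          _ ≤ _ := h3
      have h4 : 4 * T * E * a1 ≤ c' / 2 * E := by
        calc 4 * T * E * a1 = 4 * T * a1 * E := by ring
          _ ≤ _ := mul_le_mul_of_nonneg_right h1 hEp.le
      linarith
    have hbr0 : 0 < B - 4 * T * E * a1 := lt_of_lt_of_le (by positivity) hbr
    -- the error
    have herr : 24 * T * (p2 (n / 4 - 6) * a2) * (p2 (n / 4 - 6) + Sg (n / 4) (Nat.log 2 (n / 4))) +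
        24 * ((Nat.log 2 (n / 4) : ℕ) + 4) * η ≤ M * (X * N ^ (-β)) := by
      have hpN0 : 0 ≤ p2 (n / 4 - 6) := Ax107.p2_nonneg _
      have hSg0 := Sg_nonneg (n / 4) (Nat.log 2 (n / 4))
      have h1 : p2 (n / 4 - 6) + Sg (n / 4) (Nat.log 2 (n / 4)) ≤ 2 * C * T * p2 n := by
        have h2 : C * p2 n ≤ C * T * p2 n := by
          have : 0 ≤ C * p2 n := by positivity
          nlinarith
        linarith
      have h3 : p2 (n / 4 - 6) * a2 ≤ C * p2 n * (C1 * N ^ (-b)) :=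
        mul_le_mul g4 p2' ha20 (by positivity)
      have h4 : 24 * T * (p2 (n / 4 - 6) * a2) * (p2 (n / 4 - 6) + Sg (n / 4) (Nat.log 2 (n / 4))) ≤
          48 * C ^ 2 * C1 * (X * N ^ (-β)) := by
        calc 24 * T * (p2 (n / 4 - 6) * a2) * (p2 (n / 4 - 6) + Sg (n / 4) (Nat.log 2 (n / 4)))
            ≤ 24 * T * (C * p2 n * (C1 * N ^ (-b))) * (2 * C * T * p2 n) := by
              refine mul_le_mul (mul_le_mul_of_nonneg_left h3 (by positivity)) h1
                (by linarith) (by positivity)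
          _ = 48 * C ^ 2 * C1 * (X * (T * T * N ^ (-b))) := by rw [hX]; ring
          _ ≤ 48 * C ^ 2 * C1 * (X * N ^ (-β)) := by
              refine mul_le_mul_of_nonneg_left ?_ (by positivity)
              refine mul_le_mul_of_nonneg_left ?_ hXp.le
              rw [hT, ← Real.rpow_add hn0, ← Real.rpow_add hn0]
              refine Real.rpow_le_rpow_of_exponent_le hn1 ?_
              have : β ≤ b / 2 := min_le_left _ _
              rw [hθ]; linarith
      have h5 : 24 * ((Nat.log 2 (n / 4) : ℕ) + 4 : ℝ) * η ≤ 120 * G * (X * N ^ (-β)) := by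
        have h6 : ((Nat.log 2 (n / 4) : ℕ) + 4 : ℝ) ≤ 5 * N := by
          have h7 : Nat.log 2 (n / 4) ≤ n := (Nat.log_le_self 2 _).trans (Nat.div_le_self n 4)
          have h8 : ((Nat.log 2 (n / 4) : ℕ) : ℝ) ≤ n := by exact_mod_cast h7
          linarith
        have hη0 : 0 ≤ η := hTc.e0
        calc 24 * ((Nat.log 2 (n / 4) : ℕ) + 4 : ℝ) * η ≤ 24 * (5 * N) * (G * N ^ (-(L + 2))) := by
              refine mul_le_mul (by linarith) hη1 hη0 (by positivity)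
          _ = 120 * G * (N ^ (1 : ℝ) * N ^ (-(L + 2))) := by rw [Real.rpow_one]; ring
          _ ≤ 120 * G * (X * N ^ (-β)) := by
              refine mul_le_mul_of_nonneg_left ?_ (by positivity)
              calc N ^ (1 : ℝ) * N ^ (-(L + 2)) = N ^ (-L) * N ^ (-1 : ℝ) := by
                    rw [← Real.rpow_add hn0, ← Real.rpow_add hn0]; congr 1; ring
                _ ≤ X * N ^ (-β) := by
                    refine mul_le_mul hX0 ?_ (by positivity) hXp.le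
                    refine Real.rpow_le_rpow_of_exponent_le hn1 ?_
                    have : β ≤ 1 := min_le_right _ _
                    linarith
      calc _ ≤ 48 * C ^ 2 * C1 * (X * N ^ (-β)) + 120 * G * (X * N ^ (-β)) := add_le_add h4 h5
        _ = _ := by rw [hM]; ring
    -- a corner
    have hcor : ∀ s : Corner, sd (0, 0) s.1 ≤ 1 →
        2 * √3 * (nh.real (GdE s (eP n) S) * (B - 4 * T * E * a1)) -
          E * (M * (X * N ^ (-β))) ≤ ∫ z, dd R n s z ∂nh := by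
      intro s hs
      have u1 := LB4_raw (s := s) hsz hs hY hTc (Nat.log 2 (n / 4))
      have u2 : E * (24 * T * (p2 (n / 4 - 6) * a2) *
          (p2 (n / 4 - 6) + Sg (n / 4) (Nat.log 2 (n / 4))) +
          24 * ((Nat.log 2 (n / 4) : ℕ) + 4) * η) ≤ E * (M * (X * N ^ (-β))) :=
        mul_le_mul_of_nonneg_left herr hEp.le
      linarith
    -- the main corner
    have hmain : c6 / Kn ^ 2 * X ≤ nh.real (GdE ((0, 0), 0) (eP n) S) := by
      obtain ⟨E6, _, q1, q2⟩ := h6 m 0 true hm1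
      have q3 : E6 ⊆ GdE ((0, 0), 0) (eP n) S := fun z hz =>
        main_sub hnm hm1 s1 (q2 z hz).2.1 fun d hd => ((q2 z hz).2.2 d hd).2
      have q4 := hn2 j n (by rw [hnm, hj, pow_add]; omega)
      have q5 : (nu Rs689.hf).real (Mc468.N2 m (Mc468.f0 0) true) =
          (nu Rs689.hf).real (Sb689.Nice2 (0, 0) (2 ^ j)) := by
        rw [← hj]
        rfl
      rw [q5] at q1
      have q6 : X ≤ Kn ^ 2 * (nu Rs689.hf).real (Sb689.Nice2 (0, 0) (2 ^ j)) ^ 2 := by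
        rw [hX, ← mul_pow]
        exact pow_le_pow_left₀ hp0 q4 2
      calc c6 / Kn ^ 2 * X ≤ c6 / Kn ^ 2 *
            (Kn ^ 2 * (nu Rs689.hf).real (Sb689.Nice2 (0, 0) (2 ^ j)) ^ 2) :=
            mul_le_mul_of_nonneg_left q6 (by positivity)
        _ = c6 * (nu Rs689.hf).real (Sb689.Nice2 (0, 0) (2 ^ j)) ^ 2 := by field_simp
        _ ≤ _ := q1.trans (measureReal_mono q3)
    have w1 := hcor (i1 ((0, 0), false)) (by simp [i1, sd])
    have w2 := hcor (i2 ((0, 0), false)) (by simp [i2, sd])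
    have w3 := hcor (o1 ((0, 0), false)) (by simp [o1, sd])
    have w4 := hcor (o2 ((0, 0), false)) (by simp [o2, sd])
    have z0 : ∀ s, 0 ≤ 2 * √3 * (nh.real (GdE s (eP n) S) * (B - 4 * T * E * a1)) := fun s =>
      mul_nonneg (by positivity) (mul_nonneg measureReal_nonneg hbr0.le)
    have z2 := z0 (i2 ((0, 0), false))
    have z3 := z0 (o1 ((0, 0), false))
    have z4 := z0 (o2 ((0, 0), false))
    have z1 : 2 * (E * (κ * X)) ≤
        2 * √3 * (nh.real (GdE (i1 ((0, 0), false)) (eP n) S) * (B - 4 * T * E * a1)) := by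
      have v1 : i1 ((0, 0), false) = (((0, 0), 0) : Corner) := rfl
      rw [v1]
      have v2 : (1 : ℝ) ≤ √3 := by
        rw [show (1 : ℝ) = √1 by simp]
        exact Real.sqrt_le_sqrt (by norm_num)
      have v3 : c6 / Kn ^ 2 * X * (c' * E / 2) ≤
          nh.real (GdE ((0, 0), 0) (eP n) S) * (B - 4 * T * E * a1) :=
        mul_le_mul hmain hbr (by positivity) measureReal_nonneg
      have v4 : 0 ≤ nh.real (GdE ((0, 0), 0) (eP n) S) * (B - 4 * T * E * a1) :=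
        mul_nonneg measureReal_nonneg hbr0.le
      calc 2 * (E * (κ * X)) = 2 * (c6 / Kn ^ 2 * X * (c' * E / 2)) := by rw [hκ]; ring
        _ ≤ 2 * (nh.real (GdE ((0, 0), 0) (eP n) S) * (B - 4 * T * E * a1)) := by linarith
        _ ≤ _ := by nlinarith
    -- the error is small
    have y1 : 4 * (M * (X * N ^ (-β))) ≤ κ * X := by
      have y2 : 4 * M * N ^ (-β) ≤ κ := by
        rw [Real.rpow_neg hn0.le, ← div_eq_mul_inv, div_le_iff₀ (by positivity)]
        rw [div_le_iff₀ hκ0] at g8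
        linarith
      calc 4 * (M * (X * N ^ (-β))) = 4 * M * N ^ (-β) * X := by ring
        _ ≤ κ * X := mul_le_mul_of_nonneg_right y2 hXp.le
    have y3 : 4 * (E * (M * (X * N ^ (-β)))) ≤ E * (κ * X) := by
      calc 4 * (E * (M * (X * N ^ (-β)))) = E * (4 * (M * (X * N ^ (-β)))) := by ring
        _ ≤ _ := mul_le_mul_of_nonneg_left y1 hEp.le
    have y4 : E * (κ * X) ≤ ∫ z, dd R n (i1 ((0, 0), false)) z ∂nh +
        ∫ z, dd R n (i2 ((0, 0), false)) z ∂nh + ∫ z, dd R n (o1 ((0, 0), false)) z ∂nh +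
        ∫ z, dd R n (o2 ((0, 0), false)) z ∂nh := by linarith
    refine le_trans ?_ y4
    have x1 : exp (-(√3 * (2 * π / 3) * VV (Nat.log 2 R))) ≤ E := by
      have x2 : VV (lv R) ≤ VV (Nat.log 2 R) := VV_mono (Nat.sub_le _ _)
      have x3 : b0 = √3 * (2 * π / 3) := rfl
      rw [hE, EE, Real.exp_le_exp, ← x3]
      have := b0_pos
      nlinarith
    have x4 : N ^ (-ε) ≤ κ := by
      rw [Real.rpow_neg hn0.le]
      rw [div_le_iff₀ hκ0] at g9
      rw [inv_le_iff_one_le_mul₀ (by positivity)]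
      linarith
    calc N ^ (-ε) * exp (-(√3 * (2 * π / 3) * VV (Nat.log 2 R))) * X
        ≤ κ * E * X := by
          refine mul_le_mul_of_nonneg_right ?_ hXp.le
          exact mul_le_mul x4 x1 (exp_pos _).le hκ0.le
      _ = E * (κ * X) := by ring
  have h := Ud107.ev_dyadic hfin
  filter_upwards [h] with j hj
  exact hj (2 ^ j) rfl ⟨j, rfl⟩

/-- **the second half of the four-arm comparison (identity D)** -/
theorem sd_law (hLaw : Bs410.Law3) (hD : Vg109.HD) (hE : Ud107.HE2) : Ax107.SD p2 p4 :=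
  Ud107.sd_of_right hD hE (dright hLaw hD)

end Crest.Agent.R158.Fe110
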