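import Mathlib
import Crest.Agent.R158.Vx5_107
import Crest.Agent.R158.Fi1_442

/-!
# R158, Block V (helper442), file 3: `Vx107.AllFin` almost surely

* `allFin : ∀ᵐ z ∂(nu hf), Vx107.AllFin z`
-/

set_option autoImplicit false

namespace Crest.Agent.R158.Fi442

open MeasureTheory Crest.Agent.R158.Rs689 Crest.Agent.R158.It200

/-- a periodic corner has a finite strand -/
theorem Lp_finite {z : It200.Cfz} {c : Corner} (h : ∃ k : ℕ, 0 < k ∧ (nx z)^[k] c = c) :
    (Lp z c).Finite := by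
  obtain ⟨p, hp, hpc⟩ := h
  have hit : ∀ n : ℕ, ((nxE z) ^ n) c = (nx z)^[n] c := by
    intro n
    rw [← Equiv.Perm.iterate_eq_pow]
    rfl
  have h1 : ((nxE z) ^ p) c = c := by rw [hit]; exact hpc
  refine (Set.finite_range fun k : Fin p => (nx z)^[(k : ℕ)] c).subset ?_
  rintro d ⟨i, rfl⟩
  have hp' : (p : ℤ) ≠ 0 := by exact_mod_cast hp.ne'
  have h2 : ((nxE z) ^ i) c = ((nxE z) ^ (i % (p : ℤ))) c := by
    conv_lhs => rw [← Int.emod_add_mul_ediv i p]
    rw [zpow_add, Equiv.Perm.mul_apply, zpow_mul, zpow_natCast]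
    congr 1
    exact Equiv.Perm.zpow_apply_eq_self_of_apply_eq_self h1 _
  rw [h2]
  have h3 : 0 ≤ i % (p : ℤ) := Int.emod_nonneg _ hp'
  have h4 : i % (p : ℤ) < p := Int.emod_lt_of_pos _ (by exact_mod_cast hp)
  refine ⟨⟨(i % (p : ℤ)).toNat, by omega⟩, ?_⟩
  show (nx z)^[(i % (p : ℤ)).toNat] c = _
  rw [← hit, ← zpow_natCast, Int.toNat_of_nonneg h3]

/-- **a.e. all the strands are finite** -/
theorem allFin : ∀ᵐ z ∂(nu hf), Vx107.AllFin z := by
  filter_upwards [ae_corner] with z hz c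
  exact Lp_finite (hz c)

end Crest.Agent.R158.Fi442
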