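import Crest.Agent.R158.Rs3_689

/-!
# Row 158, Block HP (helper814): revealing clusters inside a domain

* `EI S` : edges with both end points in `S`
* `Cl z S L` : the union of the open clusters of `S` (connections inside `S`) which meet `L`
* `expl_sum` : after revealing `Cl z S L`, the edges inside `S \ Cl z S L` are fresh
* `sum_clusters` : expected number of clusters joining a list of sources to a target `F`
-/

set_option autoImplicit false

noncomputable section

namespace Crest.Agent.R158.Hp814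

open MeasureTheory ProbabilityTheory unitInterval
open Crest.Agent.R161.Geo729 Crest.Agent.R161.Topo374 Crest.Agent.R161.Dual374
open Crest.Agent.R161.Tas682 Crest.Agent.R158.Rs689
open scoped ENNReal

/-- edges with both end points in `S` -/
def EI (S : Finset P2) : Finset Edge := (S ×ˢ Finset.univ).filter fun e => tgt e ∈ S

theorem mem_EI {S : Finset P2} {e : Edge} : e ∈ EI S ↔ src e ∈ S ∧ tgt e ∈ S := by
  simp [EI, src]

theorem EI_mono {S T : Finset P2} (h : S ⊆ T) : EI S ⊆ EI T := fun e he => by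
  rw [mem_EI] at he ⊢
  exact ⟨h he.1, h he.2⟩

theorem ostep_congr {z z' : Cf} {S : Finset P2} (h : ∀ e ∈ EI S, z e = z' e) {a b : P2}
    (hab : OStep z S a b) : OStep z' S a b := by
  obtain ⟨⟨e, he, h1⟩, ha, hb⟩ := hab
  refine ⟨⟨e, ?_, h1⟩, ha, hb⟩
  have h2 : e ∈ EI S := by
    rw [mem_EI]
    rcases h1 with ⟨rfl, rfl⟩ | ⟨rfl, rfl⟩
    · exact ⟨ha, hb⟩
    · exact ⟨hb, ha⟩
  show z' e = true
  rw [← h e h2]
  exact he

theorem oc_congr {z z' : Cf} {S : Finset P2} (h : ∀ e ∈ EI S, z e = z' e) {a b : P2}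
    (hab : OC z S a b) : OC z' S a b :=
  ⟨hab.1, Relation.ReflTransGen.mono (fun _ _ h1 => ostep_congr h h1) _ _ hab.2⟩

theorem oc_dep (S : Finset P2) (a b : P2) : Dep (EI S) {z | OC z S a b} := fun _ _ h =>
  ⟨oc_congr h, oc_congr fun e he => (h e he).symm⟩

theorem ev_dep (S : Finset P2) (A B : Set P2) : Dep (EI S) (EV S A B) := by
  intro z z' h
  constructor
  · rintro ⟨u, hu, v, hv, h1⟩
    exact ⟨u, hu, v, hv, oc_congr h h1⟩
  · rintro ⟨u, hu, v, hv, h1⟩
    exact ⟨u, hu, v, hv, oc_congr (fun e he => (h e he).symm) h1⟩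

theorem ev_inc (S A B : Set P2) : Inc (EV S A B) := by
  rintro z z' h ⟨u, hu, v, hv, h1⟩
  refine ⟨u, hu, v, hv, h1.mono ?_ subset_rfl⟩
  intro e
  by_cases he : z e = true
  · rw [he, h e he]
  · rw [Bool.not_eq_true] at he
    rw [he]
    exact bot_le

open Classical in
/-- union of the clusters of `S` which meet `L` -/
def Cl (z : Cf) (S : Finset P2) (L : Set P2) : Finset P2 := S.filter fun v => ∃ u ∈ L, OC z S u v

theorem mem_Cl {z : Cf} {S : Finset P2} {L : Set P2} {v : P2} :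
    v ∈ Cl z S L ↔ ∃ u ∈ L, OC z S u v := by
  classical
  rw [Cl, Finset.mem_filter]
  exact ⟨fun h => h.2, fun h => ⟨by obtain ⟨u, _, h⟩ := h; exact h.right, h⟩⟩

theorem Cl_sub {z : Cf} {S : Finset P2} {L : Set P2} : Cl z S L ⊆ S := by
  classical
  exact Finset.filter_subset _ _

theorem Cl_mem_pow {z : Cf} {S : Finset P2} {L : Set P2} : Cl z S L ∈ S.powerset :=
  Finset.mem_powerset.2 Cl_sub

theorem Cl_step {z : Cf} {S : Finset P2} {L : Set P2} {a b : P2} (ha : a ∈ Cl z S L)
    (h : OC z S a b) : b ∈ Cl z S L := by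
  rw [mem_Cl] at ha ⊢
  obtain ⟨u, hu, h1⟩ := ha
  exact ⟨u, hu, h1.trans h⟩

/-- the complement of revealed clusters: connections of `S` from outside stay outside -/
theorem oc_out {z : Cf} {S : Finset P2} {L : Set P2} {a b : P2} (ha : a ∉ Cl z S L)
    (h : OC z S a b) : OC z (S \ Cl z S L : Finset P2) a b := by
  obtain ⟨haS, h⟩ := h
  refine ⟨by simpa using ⟨haS, ha⟩, ?_⟩
  induction h with
  | refl => exact .refl
  | @tail c d h1 h2 ih =>
    have hc : c ∉ Cl z S L := fun hc => ha (Cl_step hc (OC.symm ⟨haS, h1⟩))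
    have hd : d ∉ Cl z S L := fun hd => ha (Cl_step hd (OC.symm ⟨haS, h1.tail h2⟩))
    exact ih.tail ⟨h2.1, by simpa using ⟨h2.2.1, hc⟩, by simpa using ⟨h2.2.2, hd⟩⟩

theorem oc_sdiff {z : Cf} {S W : Finset P2} {a b : P2}
    (h : OC z (S \ W : Finset P2) a b) : OC z S a b :=
  h.monoS (by simp)

theorem oc_out_iff {z : Cf} {S : Finset P2} {L : Set P2} {a b : P2} :
    OC z (S \ Cl z S L : Finset P2) a b ↔ a ∉ Cl z S L ∧ OC z S a b := by
  constructor
  · intro h
    have := h.left
    simp only [Finset.coe_sdiff, Set.mem_sdiff, Finset.mem_coe] at this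
    exact ⟨this.2, oc_sdiff h⟩
  · rintro ⟨h1, h2⟩
    exact oc_out h1 h2

theorem Cl_congr {z z' : Cf} {S W : Finset P2} {L : Set P2}
    (h : ∀ e ∈ EI S \ EI (S \ W), z e = z' e) (hz : Cl z S L = W) : Cl z' S L = W := by
  have key : ∀ {y y' : Cf}, (∀ e ∈ EI S \ EI (S \ W), y e = y' e) → ∀ {a b : P2}, a ∈ W →
      OStep y S a b → OStep y' S a b := by
    rintro y y' hy a b ha ⟨⟨e, he, h1⟩, haS, hb⟩
    refine ⟨⟨e, ?_, h1⟩, haS, hb⟩
    have h2 : e ∈ EI S \ EI (S \ W) := by
      rw [Finset.mem_sdiff, mem_EI, mem_EI]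
      rcases h1 with ⟨rfl, rfl⟩ | ⟨rfl, rfl⟩
      · exact ⟨⟨haS, hb⟩, fun h3 => (Finset.mem_sdiff.1 h3.1).2 ha⟩
      · exact ⟨⟨hb, haS⟩, fun h3 => (Finset.mem_sdiff.1 h3.2).2 ha⟩
    show y' e = true
    rw [← hy e h2]
    exact he
  ext v
  rw [mem_Cl]
  constructor
  · rintro ⟨u, hu, huS, h1⟩
    induction h1 with
    | refl =>
      rw [← hz, mem_Cl]
      exact ⟨u, hu, OC.refl huS⟩
    | @tail b c _ h2 ih =>
      have h3 := key (fun e he => (h e he).symm) ih h2
      rw [← hz] at ih ⊢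
      exact Cl_step ih ⟨h3.2.1, .single h3⟩
  · intro hv
    have hv' := hv
    rw [← hz, mem_Cl] at hv'
    obtain ⟨u, hu, huS, h1⟩ := hv'
    refine ⟨u, hu, huS, ?_⟩
    clear hv
    have huW : u ∈ W := by
      rw [← hz, mem_Cl]
      exact ⟨u, hu, OC.refl huS⟩
    have : ∀ v, Relation.ReflTransGen (OStep z S) u v →
        v ∈ W ∧ Relation.ReflTransGen (OStep z' S) u v := by
      intro v hv
      induction hv with
      | refl => exact ⟨huW, .refl⟩
      | @tail b c _ h2 ih =>
        refine ⟨?_, ih.2.tail (key h ih.1 h2)⟩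
        have h3 := ih.1
        rw [← hz] at h3 ⊢
        exact Cl_step h3 ⟨h2.2.1, .single h2⟩
    exact (this v h1).2

theorem Cl_dep (S W : Finset P2) (L : Set P2) :
    Dep (EI S \ EI (S \ W)) {z : Cf | Cl z S L = W} := fun _ _ h =>
  ⟨Cl_congr h, Cl_congr fun e he => (h e he).symm⟩

theorem Cl_dep' (S : Finset P2) (L : Set P2) (Q : Finset P2 → Prop) :
    Dep (EI S) {z : Cf | Q (Cl z S L)} := by
  intro z z' h
  have : Cl z S L = Cl z' S L :=
    (Cl_congr (W := Cl z S L) (fun e he => h e (Finset.mem_sdiff.1 he).1) rfl).symm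
  simp only [Set.mem_ofPred_eq]
  rw [this]

/-- **Revealing clusters.** -/
theorem expl_sum (w : Edge → I) (S : Finset P2) (L : Set P2) (Y : Finset P2 → Set Cf)
    (hY : ∀ W, Dep (EI (S \ W)) (Y W)) :
    (PB w).real {z | z ∈ Y (Cl z S L)} =
      ∑ W ∈ S.powerset, (PB w).real {z | Cl z S L = W} * (PB w).real (Y W) := by
  have h1 : {z : Cf | z ∈ Y (Cl z S L)} =
      ⋃ W ∈ S.powerset, ({z | Cl z S L = W} ∩ Y W) := by
    ext z
    simp only [Set.mem_ofPred_eq, Set.mem_iUnion, Set.mem_inter_iff]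
    constructor
    · intro h
      exact ⟨Cl z S L, Cl_mem_pow, rfl, h⟩
    · rintro ⟨W, _, rfl, h⟩
      exact h
  rw [h1, measureReal_biUnion_finset]
  · refine Finset.sum_congr rfl fun W _ => ?_
    exact PB_indep_real w (Finset.sdiff_disjoint) (Cl_dep S W L) (hY W)
  · intro W _ W' _ hWW
    simp only [Function.onFun]
    rw [Set.disjoint_left]
    rintro z ⟨hz, _⟩ ⟨hz', _⟩
    exact hWW (hz.symm.trans hz')
  · intro W _
    exact (Cl_dep S W L).measurableSet.inter (hY W).measurableSet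

theorem expl_le (w : Edge → I) (S : Finset P2) (L : Set P2) (X : Set Cf)
    (Y : Finset P2 → Set Cf) (hY : ∀ W, Dep (EI (S \ W)) (Y W))
    (hX : ∀ z ∈ X, z ∈ Y (Cl z S L)) :
    (PB w).real X ≤
      ∑ W ∈ S.powerset, (PB w).real {z | Cl z S L = W} * (PB w).real (Y W) := by
  rw [← expl_sum w S L Y hY]
  exact measureReal_mono hX

theorem expl_ge (w : Edge → I) (S : Finset P2) (L : Set P2) (X : Set Cf)
    (Y : Finset P2 → Set Cf) (hY : ∀ W, Dep (EI (S \ W)) (Y W))
    (hX : ∀ z, z ∈ Y (Cl z S L) → z ∈ X) :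
    ∑ W ∈ S.powerset, (PB w).real {z | Cl z S L = W} * (PB w).real (Y W) ≤ (PB w).real X := by
  rw [← expl_sum w S L Y hY]
  exact measureReal_mono hX

theorem sum_Cl (w : Edge → I) (S : Finset P2) (L : Set P2) (Q : Finset P2 → Prop)
    [DecidablePred Q] :
    ∑ W ∈ S.powerset, (PB w).real {z | Cl z S L = W} * (if Q W then 1 else 0) =
      (PB w).real {z | Q (Cl z S L)} := by
  have h := expl_sum w S L (fun W => {_z | Q W}) (fun W z z' _ => Iff.rfl)
  have h2 : {z : Cf | z ∈ (fun W => {_z : Cf | Q W}) (Cl z S L)} = {z | Q (Cl z S L)} := rfl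
  rw [h2] at h
  rw [h]
  refine Finset.sum_congr rfl fun W _ => ?_
  congr 1
  split_ifs with hq
  · have : {_z : Cf | Q W} = Set.univ := by
      ext z
      simp [hq]
    rw [this]
    simp
  · have : {_z : Cf | Q W} = ∅ := by
      ext z
      simp [hq]
    rw [this]
    simp

/-! ### number of crossing clusters -/

/-- `x` is joined to `F` inside `S`, and to none of the earlier sources `l` -/
def First (S : Finset P2) (F : Set P2) (l : List P2) (x : P2) : Set Cf :=
  {z | (∃ v ∈ F, OC z S x v) ∧ ∀ y ∈ l, ¬ OC z S y x}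

/-- some source of `l` is joined to `F` inside `S` -/
def Some1 (S : Finset P2) (F : Set P2) (l : List P2) : Set Cf := EV S {x | x ∈ l} F

theorem first_dep (S : Finset P2) (F : Set P2) (l : List P2) (x : P2) :
    Dep (EI S) (First S F l x) := by
  intro z z' h
  have h1 : ∀ a b, OC z S a b ↔ OC z' S a b := fun a b => oc_dep S a b z z' h
  simp only [First, Set.mem_ofPred_eq, h1]

/-- expected number of clusters of `S` joining the sources `l` to `F` -/
def EN (w : Edge → I) (S : Finset P2) (F : Set P2) : List P2 → List P2 → ℝ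
  | _, [] => 0
  | l0, x :: l => (PB w).real (First S F l0 x) + EN w S F (x :: l0) l

theorem some1_dep (S : Finset P2) (F : Set P2) (l : List P2) : Dep (EI S) (Some1 S F l) :=
  ev_dep S _ _

theorem some1_mono {S S' : Finset P2} (hS : S ⊆ S') {F : Set P2} {l l' : List P2}
    (hl : ∀ x ∈ l, x ∈ l') : Some1 S F l ⊆ Some1 S' F l' :=
  EV_mono (by exact_mod_cast hS) hl subset_rfl

theorem first_reveal {z : Cf} {S : Finset P2} {F : Set P2} {L : Set P2} {l0 : List P2} {y : P2}
    (h : z ∈ First S F l0 y) (hy : ∀ u ∈ L, ¬ OC z S u y) :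
    z ∈ First (S \ Cl z S L) F l0 y := by
  obtain ⟨⟨v, hv, h1⟩, h2⟩ := h
  refine ⟨⟨v, hv, oc_out ?_ h1⟩, fun y' hy' h3 => h2 y' hy' (oc_sdiff h3)⟩
  rw [mem_Cl]
  rintro ⟨u, hu, h3⟩
  exact hy u hu h3

theorem EN_reveal (w : Edge → I) (S : Finset P2) (F : Set P2) (x : P2) (l : List P2) :
    ∀ l0 : List P2, EN w S F (l0 ++ [x]) l ≤
      ∑ W ∈ S.powerset, (PB w).real {z | Cl z S {x} = W} * EN w (S \ W) F l0 l := by
  induction l with
  | nil => intro l0; simp [EN]
  | cons y l ih =>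
    intro l0
    have h1 := ih (y :: l0)
    have h2 := expl_le w S {x} (First S F (l0 ++ [x]) y) (fun W => First (S \ W) F l0 y)
      (fun W => first_dep _ _ _ _) (fun z hz => by
        refine first_reveal ⟨hz.1, fun y' hy' => hz.2 y' (List.mem_append_left _ hy')⟩ ?_
        intro u hu
        rw [Set.mem_singleton_iff.1 hu]
        exact hz.2 x (by simp))
    simp only [EN, mul_add, Finset.sum_add_distrib]
    exact add_le_add h2 h1

/-- **Expected number of crossing clusters.** -/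
theorem EN_le (w : Edge → I) {q : ℝ} (hq1 : q < 1) (F : Set P2) (l : List P2) :
    ∀ S : Finset P2, (PB w).real (Some1 S F l) ≤ q →
      EN w S F [] l ≤ (PB w).real (Some1 S F l) / (1 - q) := by
  classical
  have hq : 0 < 1 - q := by linarith
  induction l with
  | nil =>
    intro S _
    simp only [EN]
    exact div_nonneg measureReal_nonneg hq.le
  | cons x l ih =>
    intro S hS
    have h1 := EN_reveal w S F x l []
    rw [List.nil_append] at h1
    have h2 : (PB w).real (First S F [] x) =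
        ∑ W ∈ S.powerset, (PB w).real {z | Cl z S {x} = W} *
          (if (∃ v ∈ F, v ∈ W) then 1 else 0) := by
      rw [sum_Cl w S {x} (fun W => ∃ v ∈ F, v ∈ W)]
      congr 1
      ext z
      simp only [First, mem_Cl, Set.mem_singleton_iff, exists_eq_left, List.not_mem_nil,
        false_implies, implies_true, and_true, Set.mem_ofPred_eq]
    set Y : Finset P2 → Set Cf := fun W => if (∃ v ∈ F, v ∈ W) then Set.univ else
      Some1 (S \ W) F l with hY
    have hYd : ∀ W, Dep (EI (S \ W)) (Y W) := by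
      intro W
      simp only [hY]
      split_ifs
      · exact Dep.univ _
      · exact some1_dep _ _ _
    have h3 := expl_ge w S {x} (Some1 S F (x :: l)) Y hYd (fun z hz => by
      simp only [hY] at hz
      split_ifs at hz with h4
      · obtain ⟨v, hv, h5⟩ := h4
        rw [mem_Cl] at h5
        obtain ⟨u, hu, h5⟩ := h5
        rw [Set.mem_singleton_iff.1 hu] at h5
        exact ⟨x, List.mem_cons_self, v, hv, h5⟩
      · exact some1_mono Finset.sdiff_subset (fun y hy => List.mem_cons_of_mem _ hy) hz)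
    have h4 : ∀ W ∈ S.powerset, (PB w).real {z | Cl z S {x} = W} *
        (if (∃ v ∈ F, v ∈ W) then 1 else 0) +
        (PB w).real {z | Cl z S {x} = W} * EN w (S \ W) F [] l ≤
        (PB w).real {z | Cl z S {x} = W} * (PB w).real (Y W) / (1 - q) := by
      intro W _
      have h5 : (PB w).real (Some1 (S \ W) F l) ≤ q :=
        (measureReal_mono (some1_mono Finset.sdiff_subset
          (fun y hy => List.mem_cons_of_mem _ hy))).trans hS
      have h6 := ih (S \ W) h5
      rw [← mul_add, mul_div_assoc]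
      refine mul_le_mul_of_nonneg_left ?_ measureReal_nonneg
      simp only [hY]
      split_ifs with h7
      · rw [measureReal_def, measure_univ, ENNReal.toReal_one, le_div_iff₀ hq, add_mul]
        have h8 : EN w (S \ W) F [] l * (1 - q) ≤ q := by
          rw [le_div_iff₀ hq] at h6
          linarith
        linarith
      · rw [zero_add]
        exact h6
    calc EN w S F [] (x :: l) = (PB w).real (First S F [] x) + EN w S F [x] l := rfl
      _ ≤ ∑ W ∈ S.powerset, ((PB w).real {z | Cl z S {x} = W} *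
            (if (∃ v ∈ F, v ∈ W) then 1 else 0) +
          (PB w).real {z | Cl z S {x} = W} * EN w (S \ W) F [] l) := by
          rw [Finset.sum_add_distrib, ← h2]
          linarith
      _ ≤ ∑ W ∈ S.powerset, (PB w).real {z | Cl z S {x} = W} * (PB w).real (Y W) / (1 - q) :=
          Finset.sum_le_sum h4
      _ = (∑ W ∈ S.powerset, (PB w).real {z | Cl z S {x} = W} * (PB w).real (Y W)) / (1 - q) := by
          rw [Finset.sum_div]
      _ ≤ _ := by
          apply div_le_div_of_nonneg_right h3 hq.le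

/-! ### second cluster -/

/-- an event after revealing -/
theorem expl_mul (w : Edge → I) (S : Finset P2) (L : Set P2) (Q : Finset P2 → Prop)
    (Y : Finset P2 → Set Cf) (hY : ∀ W, Dep (EI (S \ W)) (Y W)) {π : ℝ}
    (hπ : ∀ W, (PB w).real (Y W) ≤ π) :
    (PB w).real {z | Q (Cl z S L) ∧ z ∈ Y (Cl z S L)} ≤ (PB w).real {z | Q (Cl z S L)} * π := by
  classical
  have h1 := expl_le w S L {z | Q (Cl z S L) ∧ z ∈ Y (Cl z S L)}
    (fun W => if Q W then Y W else ∅) (fun W => by
      split_ifs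
      · exact hY W
      · intro z z' _; rfl) (fun z hz => by
      rw [if_pos hz.1]
      exact hz.2)
  refine h1.trans ?_
  rw [← sum_Cl w S L Q, Finset.sum_mul]
  refine Finset.sum_le_sum fun W _ => ?_
  rw [mul_assoc]
  refine mul_le_mul_of_nonneg_left ?_ measureReal_nonneg
  split_ifs
  · rw [one_mul]; exact hπ W
  · simp

/-- sum over sources of the probability that the source is the first of its cluster, that the
cluster reaches `F` and misses `B` -/
def ENB (w : Edge → I) (S : Finset P2) (F B : Set P2) : List P2 → List P2 → ℝ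
  | _, [] => 0
  | l0, x :: l => (PB w).real (First S F l0 x ∩ {z | ∀ b ∈ B, ¬ OC z S b x}) +
      ENB w S F B (x :: l0) l

theorem ENB_reveal (w : Edge → I) (S : Finset P2) (F B : Set P2) (l : List P2) :
    ∀ l0 : List P2, ENB w S F B l0 l ≤
      ∑ W ∈ S.powerset, (PB w).real {z | Cl z S B = W} * EN w (S \ W) F l0 l := by
  induction l with
  | nil => intro l0; simp [EN, ENB]
  | cons y l ih =>
    intro l0
    have h1 := ih (y :: l0)
    have h2 := expl_le w S B (First S F l0 y ∩ {z | ∀ b ∈ B, ¬ OC z S b y})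
      (fun W => First (S \ W) F l0 y)
      (fun W => first_dep _ _ _ _) (fun z hz => first_reveal hz.1 hz.2)
    simp only [EN, ENB, mul_add, Finset.sum_add_distrib]
    exact add_le_add h2 h1

/-- some cluster of `S` joins the sources `l` to `F` and misses `B` -/
def Miss (S : Finset P2) (F B : Set P2) (l : List P2) : Set Cf :=
  {z | ∃ x ∈ l, ∃ v ∈ F, OC z S x v ∧ ∀ b ∈ B, ¬ OC z S b x}

theorem miss_iff {z : Cf} {S : Finset P2} {F B : Set P2} {l : List P2} :
    z ∈ Miss S F B l ↔ z ∈ Some1 (S \ Cl z S B) F l := by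
  constructor
  · rintro ⟨x, hx, v, hv, h1, h2⟩
    refine ⟨x, hx, v, hv, oc_out ?_ h1⟩
    rw [mem_Cl]
    rintro ⟨b, hb, h3⟩
    exact h2 b hb h3
  · rintro ⟨x, hx, v, hv, h1⟩
    rw [oc_out_iff, mem_Cl] at h1
    exact ⟨x, hx, v, hv, h1.2, fun b hb h3 => h1.1 ⟨b, hb, h3⟩⟩

/-- **Expected number of crossing clusters which miss `B`.** -/
theorem ENB_le (w : Edge → I) {q : ℝ} (hq1 : q < 1) (S : Finset P2) (F B : Set P2) (l : List P2)
    (hq : (PB w).real (Some1 S F l) ≤ q) :
    ENB w S F B [] l ≤ (PB w).real (Miss S F B l) / (1 - q) := by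
  have h1 := ENB_reveal w S F B l []
  have h2 := expl_sum w S B (fun W => Some1 (S \ W) F l) (fun W => some1_dep _ _ _)
  have h3 : {z : Cf | z ∈ (fun W => Some1 (S \ W) F l) (Cl z S B)} = Miss S F B l := by
    ext z
    exact miss_iff.symm
  rw [h3] at h2
  rw [h2, Finset.sum_div]
  refine h1.trans (Finset.sum_le_sum fun W _ => ?_)
  rw [mul_div_assoc]
  refine mul_le_mul_of_nonneg_left ?_ measureReal_nonneg
  exact EN_le w hq1 F l (S \ W)
    ((measureReal_mono (some1_mono Finset.sdiff_subset fun _ h => h)).trans hq)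

/-- two distinct clusters of `S` join the sources `l` to `F`, and the first one misses `B` -/
def Two (S : Finset P2) (F B : Set P2) (l : List P2) : Set Cf :=
  {z | ∃ x ∈ l, ∃ v ∈ F, OC z S x v ∧ (∀ b ∈ B, ¬ OC z S b x) ∧
    ∃ x' ∈ l, ∃ v' ∈ F, OC z S x' v' ∧ ¬ OC z S x x'}

theorem two_first {z : Cf} {S : Finset P2} {F : Set P2} {v : P2} (hv : v ∈ F) :
    ∀ (l : List P2) (x : P2), x ∈ l → OC z S x v →
      ∃ l1 y l2, l = l1 ++ y :: l2 ∧ OC z S y x ∧ z ∈ First S F l1 y := by
  intro l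
  induction l with
  | nil => intro x hx; simp at hx
  | cons a l ih =>
    intro x hx h
    by_cases ha : OC z S a x
    · exact ⟨[], a, l, rfl, ha, ⟨v, hv, ha.trans h⟩, by simp⟩
    · have hxl : x ∈ l := by
        rcases List.mem_cons.1 hx with rfl | h1
        · exact absurd (OC.refl h.left) ha
        · exact h1
      obtain ⟨l1, y, l2, hl, h1, h2⟩ := ih x hxl h
      refine ⟨a :: l1, y, l2, by rw [hl]; rfl, h1, h2.1, ?_⟩
      intro y' hy' h3
      rcases List.mem_cons.1 hy' with rfl | h4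
      · exact ha (h3.trans h1)
      · exact h2.2 y' h4 h3

/-- partial form of `Two`: sources already treated `l0`, remaining sources `l1`, all sources `l` -/
theorem two_le_aux (w : Edge → I) (S : Finset P2) (F B : Set P2) (l : List P2) {π : ℝ}
    (hπ : (PB w).real (Some1 S F l) ≤ π) (l1 : List P2) : ∀ l0 : List P2,
    (PB w).real {z | ∃ l2 y l3, l1 = l2 ++ y :: l3 ∧ z ∈ First S F (l2.reverse ++ l0) y ∧
      (∀ b ∈ B, ¬ OC z S b y) ∧ ∃ x' ∈ l, ∃ v' ∈ F, OC z S x' v' ∧ ¬ OC z S y x'} ≤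
      ENB w S F B l0 l1 * π := by
  induction l1 with
  | nil =>
    intro l0
    have : {z : Cf | ∃ l2 y l3, ([] : List P2) = l2 ++ y :: l3 ∧
        z ∈ First S F (l2.reverse ++ l0) y ∧
        (∀ b ∈ B, ¬ OC z S b y) ∧ ∃ x' ∈ l, ∃ v' ∈ F, OC z S x' v' ∧ ¬ OC z S y x'} = ∅ := by
      ext z
      simp
    rw [this]
    simp [ENB]
  | cons a l1 ih =>
    intro l0
    have h1 := ih (a :: l0)
    have h2 := expl_mul w S {a}
      (fun W => ((∃ v ∈ F, v ∈ W) ∧ ∀ y ∈ l0, y ∉ W) ∧ ∀ b ∈ B, b ∉ W)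
      (fun W => Some1 (S \ W) F l) (fun W => some1_dep _ _ _) (π := π) (fun W =>
        (measureReal_mono (some1_mono Finset.sdiff_subset fun _ h => h)).trans hπ)
    have hcl : ∀ (z : Cf) (v : P2), v ∈ Cl z S {a} ↔ OC z S a v := by
      intro z v
      rw [mem_Cl]
      simp
    have h3 : {z : Cf | ((∃ v ∈ F, v ∈ Cl z S {a}) ∧ ∀ y ∈ l0, y ∉ Cl z S {a}) ∧
        ∀ b ∈ B, b ∉ Cl z S {a}} = First S F l0 a ∩ {z | ∀ b ∈ B, ¬ OC z S b a} := by
      ext z
      simp only [hcl, First, Set.mem_ofPred_eq, Set.mem_inter_iff]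
      constructor
      · rintro ⟨⟨h4, h5⟩, h6⟩
        exact ⟨⟨h4, fun y hy h => h5 y hy h.symm⟩, fun b hb h => h6 b hb h.symm⟩
      · rintro ⟨⟨h4, h5⟩, h6⟩
        exact ⟨⟨h4, fun y hy h => h5 y hy h.symm⟩, fun b hb h => h6 b hb h.symm⟩
    rw [h3] at h2
    have h4 : {z : Cf | ∃ l2 y l3, a :: l1 = l2 ++ y :: l3 ∧
        z ∈ First S F (l2.reverse ++ l0) y ∧
        (∀ b ∈ B, ¬ OC z S b y) ∧ ∃ x' ∈ l, ∃ v' ∈ F, OC z S x' v' ∧ ¬ OC z S y x'} ⊆
        {z | (((∃ v ∈ F, v ∈ Cl z S {a}) ∧ ∀ y ∈ l0, y ∉ Cl z S {a}) ∧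
          ∀ b ∈ B, b ∉ Cl z S {a}) ∧ z ∈ Some1 (S \ Cl z S {a}) F l} ∪
        {z | ∃ l2 y l3, l1 = l2 ++ y :: l3 ∧ z ∈ First S F (l2.reverse ++ (a :: l0)) y ∧
          (∀ b ∈ B, ¬ OC z S b y) ∧ ∃ x' ∈ l, ∃ v' ∈ F, OC z S x' v' ∧ ¬ OC z S y x'} := by
      rintro z ⟨l2, y, l3, h5, h6, h7, x', hx', v', hv', h8, h9⟩
      cases l2 with
      | nil =>
        left
        simp only [List.nil_append, List.cons.injEq] at h5
        obtain ⟨rfl, rfl⟩ := h5
        have h10 : z ∈ First S F l0 a ∩ {z | ∀ b ∈ B, ¬ OC z S b a} := ⟨by simpa using h6, h7⟩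
        rw [← h3] at h10
        refine ⟨h10, x', hx', v', hv', oc_out ?_ h8⟩
        rw [hcl]
        exact h9
      | cons c l2 =>
        right
        simp only [List.cons_append, List.cons.injEq] at h5
        obtain ⟨rfl, rfl⟩ := h5
        refine ⟨l2, y, l3, rfl, ?_, h7, x', hx', v', hv', h8, h9⟩
        simpa using h6
    refine (measureReal_mono h4).trans ((measureReal_union_le _ _).trans ?_)
    simp only [ENB, add_mul]
    exact add_le_add h2 h1

/-- **Two distinct crossing clusters, one of them missing `B`.** -/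
theorem two_le (w : Edge → I) {q : ℝ} (hq1 : q < 1) (S : Finset P2) (F B : Set P2) (l : List P2)
    (hq : (PB w).real (Some1 S F l) ≤ q) :
    (PB w).real (Two S F B l) ≤
      (PB w).real (Miss S F B l) / (1 - q) * (PB w).real (Some1 S F l) := by
  have h1 := two_le_aux w S F B l le_rfl l []
  have h2 : Two S F B l ⊆ {z | ∃ l2 y l3, l = l2 ++ y :: l3 ∧
      z ∈ First S F (l2.reverse ++ []) y ∧
      (∀ b ∈ B, ¬ OC z S b y) ∧ ∃ x' ∈ l, ∃ v' ∈ F, OC z S x' v' ∧ ¬ OC z S y x'} := by
    rintro z ⟨x, hx, v, hv, h3, h4, x', hx', v', hv', h5, h6⟩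
    obtain ⟨l1, y, l2, hl, h7, h8⟩ := two_first hv l x hx h3
    refine ⟨l1, y, l2, hl, ⟨h8.1, fun y' hy' => h8.2 y' (by simpa using hy')⟩,
      fun b hb h9 => h4 b hb (h9.trans h7), x', hx', v', hv', h5, fun h9 => h6 ?_⟩
    exact h7.symm.trans h9
  refine (measureReal_mono h2).trans (h1.trans ?_)
  exact mul_le_mul_of_nonneg_right (ENB_le w hq1 S F B l hq) measureReal_nonneg

end Crest.Agent.R158.Hp814
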