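import Crest.Agent.R158.Rs5_689
import Crest.Agent.R158.Hp1_814

/-!
# Row 158, Block FW (helper440): the flat medial wall, 1: crossing lemma in medial coordinates

`pp v = (2 (x+y) + 1, 2 (y-x) + 1)` : doubled medial position of the primal vertex `v = (x,y)`
`pd f = (2 (x+y) + 3, 2 (y-x) + 1)` : doubled medial position of the dual vertex `f = (x,y)`
`tc e` : doubled medial position of the tile (medial vertex) of the edge `e`

Primal paths go through the N/S mid points of the tiles, dual paths through the E/W mid points; so they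
are disjoint and the crossing lemma `Topo374.cross` applies in medial (45 degrees) coordinates.
-/

set_option autoImplicit false

noncomputable section

namespace Crest.Agent.R158.Fl440

open MeasureTheory ProbabilityTheory unitInterval
open Crest.Agent.R161.Geo729 Crest.Agent.R161.Topo374 Crest.Agent.R161.Dual374
open Crest.Agent.R161.Tas682 Crest.Agent.R158.Rs689 Crest.Agent.R158.Hp814
open scoped ENNReal

/-- medial abscissa -/
def mX (v : P2) : ℤ := v.1 + v.2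
/-- medial ordinate -/
def mY (v : P2) : ℤ := v.2 - v.1

/-- doubled medial position of a primal vertex -/
def pp (v : P2) : P2 := (2 * (v.1 + v.2) + 1, 2 * (v.2 - v.1) + 1)
/-- doubled medial position of a dual vertex -/
def pd (v : P2) : P2 := (2 * (v.1 + v.2) + 3, 2 * (v.2 - v.1) + 1)
/-- doubled medial position of the tile of an edge -/
def tc (e : Edge) : P2 :=
  (2 * (e.1.1 + e.1.2) + 2, 2 * (e.1.2 - e.1.1) + if e.2 then 2 else 0)

theorem tc_inj {e e' : Edge} (h : tc e = tc e') : e = e' := by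
  obtain ⟨⟨a, b⟩, c⟩ := e
  obtain ⟨⟨a', b'⟩, c'⟩ := e'
  simp only [tc, Prod.mk.injEq] at h
  cases c <;> cases c' <;> simp at h ⊢ <;> omega

/-- medial points of primal paths inside `S` -/
def MP (z : Cfz) (S : Set P2) : Set P2 :=
  {w | (∃ v ∈ S, w = pp v) ∨ ∃ e : Edge, z e = true ∧ src e ∈ S ∧ tgt e ∈ S ∧
    (w = tc e ∨ w = ((tc e).1, (tc e).2 + 1) ∨ w = ((tc e).1, (tc e).2 - 1))}

/-- medial points of dual paths inside `S` -/
def MD (z : Cfz) (S : Set P2) : Set P2 :=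
  {w | (∃ v ∈ S, w = pd v) ∨ ∃ e : Edge, z e = true ∧ src e ∈ S ∧ tgt e ∈ S ∧
    (w = tc (dE.symm e) ∨ w = ((tc (dE.symm e)).1 + 1, (tc (dE.symm e)).2) ∨
      w = ((tc (dE.symm e)).1 - 1, (tc (dE.symm e)).2))}

theorem walk_two {T : Set P2} {a b c : P2} (ha : a ∈ T) (hb : b ∈ T) (hc : c ∈ T) (h1 : Nbr a b)
    (h2 : Nbr b c) : Walk T a c := (Walk.step ha hb h1).trans (Walk.step hb hc h2)

theorem oc_mp {z : Cfz} {S : Set P2} {u v : P2} (h : OC z S u v) : Walk (MP z S) (pp u) (pp v) := by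
  obtain ⟨huS, h⟩ := h
  induction h with
  | refl => exact Walk.refl (Or.inl ⟨u, huS, rfl⟩)
  | @tail b c _ h2 ih =>
    refine ih.trans ?_
    obtain ⟨⟨e, he, hbc⟩, hb, hc⟩ := h2
    have hs : src e ∈ S := by rcases hbc with ⟨rfl, rfl⟩ | ⟨rfl, rfl⟩ <;> assumption
    have ht : tgt e ∈ S := by rcases hbc with ⟨rfl, rfl⟩ | ⟨rfl, rfl⟩ <;> assumption
    have key : Walk (MP z S) (pp (src e)) (pp (tgt e)) := by
      have p0 : pp (src e) ∈ MP z S := Or.inl ⟨_, hs, rfl⟩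
      have p1 : pp (tgt e) ∈ MP z S := Or.inl ⟨_, ht, rfl⟩
      have m0 : tc e ∈ MP z S := Or.inr ⟨e, he, hs, ht, Or.inl rfl⟩
      have m1 : ((tc e).1, (tc e).2 + 1) ∈ MP z S := Or.inr ⟨e, he, hs, ht, Or.inr (Or.inl rfl)⟩
      have m2 : ((tc e).1, (tc e).2 - 1) ∈ MP z S := Or.inr ⟨e, he, hs, ht, Or.inr (Or.inr rfl)⟩
      obtain ⟨⟨i, j⟩, k⟩ := e
      cases k
      · refine (walk_two p0 m1 m0 ?_ ?_).trans (walk_two m0 m2 p1 ?_ ?_) <;>
          simp [Nbr, pp, tc] <;> omega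
      · refine (walk_two p0 m2 m0 ?_ ?_).trans (walk_two m0 m1 p1 ?_ ?_) <;>
          simp [Nbr, pp, tc] <;> omega
    rcases hbc with ⟨rfl, rfl⟩ | ⟨rfl, rfl⟩
    · exact key
    · exact key.symm

theorem oc_md {z : Cfz} {S : Set P2} {u v : P2} (h : OC z S u v) : Walk (MD z S) (pd u) (pd v) := by
  obtain ⟨huS, h⟩ := h
  induction h with
  | refl => exact Walk.refl (Or.inl ⟨u, huS, rfl⟩)
  | @tail b c _ h2 ih =>
    refine ih.trans ?_
    obtain ⟨⟨e, he, hbc⟩, hb, hc⟩ := h2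
    have hs : src e ∈ S := by rcases hbc with ⟨rfl, rfl⟩ | ⟨rfl, rfl⟩ <;> assumption
    have ht : tgt e ∈ S := by rcases hbc with ⟨rfl, rfl⟩ | ⟨rfl, rfl⟩ <;> assumption
    have key : Walk (MD z S) (pd (src e)) (pd (tgt e)) := by
      have p0 : pd (src e) ∈ MD z S := Or.inl ⟨_, hs, rfl⟩
      have p1 : pd (tgt e) ∈ MD z S := Or.inl ⟨_, ht, rfl⟩
      have m0 : tc (dE.symm e) ∈ MD z S := Or.inr ⟨e, he, hs, ht, Or.inl rfl⟩
      have m1 : ((tc (dE.symm e)).1 + 1, (tc (dE.symm e)).2) ∈ MD z S :=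
        Or.inr ⟨e, he, hs, ht, Or.inr (Or.inl rfl)⟩
      have m2 : ((tc (dE.symm e)).1 - 1, (tc (dE.symm e)).2) ∈ MD z S :=
        Or.inr ⟨e, he, hs, ht, Or.inr (Or.inr rfl)⟩
      obtain ⟨⟨i, j⟩, k⟩ := e
      cases k
      · refine (walk_two p0 m2 m0 ?_ ?_).trans (walk_two m0 m1 p1 ?_ ?_) <;>
          simp [Nbr, pd, tc] <;> omega
      · refine (walk_two p0 m2 m0 ?_ ?_).trans (walk_two m0 m1 p1 ?_ ?_) <;>
          simp [Nbr, pd, tc] <;> omega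
    rcases hbc with ⟨rfl, rfl⟩ | ⟨rfl, rfl⟩
    · exact key
    · exact key.symm

/-- primal and dual paths are disjoint -/
theorem mp_md {z : Cfz} {S S' : Set P2} {w : P2} (h1 : w ∈ MP z S) (h2 : w ∈ MD (dual z) S') :
    False := by
  obtain ⟨w1, w2⟩ := w
  rcases h1 with ⟨⟨x, y⟩, _, hv⟩ | ⟨e, he, _, _, hw⟩
  · rcases h2 with ⟨⟨x', y'⟩, _, hv'⟩ | ⟨⟨⟨i, j⟩, k⟩, _, _, _, hw'⟩
    · simp only [pp, pd, Prod.mk.injEq] at hv hv'
      omega
    · simp only [pp, Prod.mk.injEq] at hv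
      cases k <;> simp [tc] at hw' <;> omega
  · rcases h2 with ⟨⟨x', y'⟩, _, hv'⟩ | ⟨e', he', _, _, hw'⟩
    · obtain ⟨⟨i, j⟩, k⟩ := e
      simp only [pd, Prod.mk.injEq] at hv'
      cases k <;> simp [tc] at hw <;> omega
    · rw [dual_eq_true] at he'
      have h3 : e = dE.symm e' := by
        apply tc_inj
        obtain ⟨⟨i, j⟩, k⟩ := e
        obtain ⟨⟨i', j'⟩, k'⟩ := e'
        cases k <;> cases k' <;> simp [tc] at hw hw' ⊢ <;> omega
      rw [← h3, he] at he'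
      exact absurd he' (by decide)

/-- bounds for the points of a primal path -/
theorem mp_bd {z : Cfz} {S : Set P2} {a b c d : ℤ}
    (h : ∀ v ∈ S, a ≤ mX v ∧ mX v ≤ b ∧ c ≤ mY v ∧ mY v ≤ d) {w : P2} (hw : w ∈ MP z S) :
    2 * a + 1 ≤ w.1 ∧ w.1 ≤ 2 * b + 1 ∧ 2 * c + 1 ≤ w.2 ∧ w.2 ≤ 2 * d + 1 := by
  simp only [mX, mY] at h
  rcases hw with ⟨v, hv, rfl⟩ | ⟨e, _, hs, ht, hw⟩
  · have := h v hv
    simp only [pp]
    omega
  · have h1 := h _ hs
    have h2 := h _ ht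
    obtain ⟨⟨i, j⟩, k⟩ := e
    obtain ⟨w1, w2⟩ := w
    cases k <;> simp [tc] at h1 h2 hw ⊢ <;> omega

/-- bounds for the points of a dual path -/
theorem md_bd {z : Cfz} {S : Set P2} {a b c d : ℤ}
    (h : ∀ v ∈ S, a ≤ mX v ∧ mX v ≤ b ∧ c ≤ mY v ∧ mY v ≤ d) {w : P2} (hw : w ∈ MD z S) :
    2 * a + 3 ≤ w.1 ∧ w.1 ≤ 2 * b + 3 ∧ 2 * c + 1 ≤ w.2 ∧ w.2 ≤ 2 * d + 1 := by
  simp only [mX, mY] at h
  rcases hw with ⟨v, hv, rfl⟩ | ⟨e, _, hs, ht, hw⟩
  · have := h v hv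
    simp only [pd]
    omega
  · have h1 := h _ hs
    have h2 := h _ ht
    obtain ⟨⟨i, j⟩, k⟩ := e
    obtain ⟨w1, w2⟩ := w
    cases k <;> simp [tc] at h1 h2 hw ⊢ <;> omega

/-- **Medial crossing lemma**, primal from left to right, dual from bottom to top, with extensions -/
theorem mcross {z : Cfz} {S S' E1 E2 : Set P2} {A B P Q : P2}
    (h1 : Walk (MP z S ∪ E1) A B) (h2 : Walk (MD (dual z) S' ∪ E2) P Q)
    (hy : ∀ w ∈ MP z S ∪ E1, P.2 ≤ w.2 ∧ w.2 ≤ Q.2)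
    (hx : ∀ w ∈ MD (dual z) S' ∪ E2, A.1 ≤ w.1 ∧ w.1 ≤ B.1)
    (e1 : ∀ w ∈ E1, w ∉ MD (dual z) S' ∪ E2) (e2 : ∀ w ∈ E2, w ∉ MP z S) : False := by
  obtain ⟨w, hw1, hw2⟩ := cross h1 h2 hy hx
  rcases hw1 with hw1 | hw1
  · rcases hw2 with hw2 | hw2
    · exact mp_md hw1 hw2
    · exact e2 w hw2 hw1
  · exact e1 w hw1 hw2

/-- **Medial crossing lemma**, dual from left to right, primal from bottom to top, with extensions -/
theorem mcross' {z : Cfz} {S S' E1 E2 : Set P2} {A B P Q : P2}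
    (h1 : Walk (MD (dual z) S' ∪ E2) A B) (h2 : Walk (MP z S ∪ E1) P Q)
    (hy : ∀ w ∈ MD (dual z) S' ∪ E2, P.2 ≤ w.2 ∧ w.2 ≤ Q.2)
    (hx : ∀ w ∈ MP z S ∪ E1, A.1 ≤ w.1 ∧ w.1 ≤ B.1)
    (e1 : ∀ w ∈ E1, w ∉ MD (dual z) S' ∪ E2) (e2 : ∀ w ∈ E2, w ∉ MP z S) : False := by
  obtain ⟨w, hw2, hw1⟩ := cross h1 h2 hy hx
  rcases hw1 with hw1 | hw1
  · rcases hw2 with hw2 | hw2
    · exact mp_md hw1 hw2
    · exact e2 w hw2 hw1
  · exact e1 w hw1 hw2

/-- horizontal walks -/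
theorem hwalk {T : Set V} (y : ℤ) (x : ℤ) (n : ℕ)
    (h : ∀ k : ℤ, x ≤ k → k ≤ x + n → ((k, y) : V) ∈ T) : Walk T (x, y) (x + n, y) := by
  induction n with
  | zero => simpa using Walk.refl (h x le_rfl (by simp))
  | succ n ih =>
      have h1 := ih (fun k h1 h2 => h k h1 (by push_cast; omega))
      refine h1.trans (Walk.step h1.right (h _ (by push_cast; omega) le_rfl) ?_)
      left
      refine ⟨rfl, Or.inl ?_⟩
      push_cast
      ring

/-- horizontal walks -/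
theorem hwalk' {T : Set V} (y : ℤ) {x x' : ℤ} (hxx : x ≤ x')
    (h : ∀ k : ℤ, x ≤ k → k ≤ x' → ((k, y) : V) ∈ T) : Walk T (x, y) (x', y) := by
  obtain ⟨n, rfl⟩ : ∃ n : ℕ, x' = x + n := ⟨(x' - x).toNat, by omega⟩
  exact hwalk y x n h

/-! ### the wall -/

/-- **Wall lemma**: a primal path of the half plane from `(k,k)` to `(m,m)` and a dual path of the half
plane from `(j,j)`, `k ≤ j < m`, to a point outside of the box of the primal path do not coexist. -/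
theorem wall_cross {z : Cfz} {S S' : Set P2} {k m j : ℤ} {f : P2} {a b d L : ℤ}
    (h1 : OC z S (k, k) (m, m)) (h2 : OC (dual z) S' (j, j) f) (hkj : k ≤ j) (hjm : j < m)
    (hS : ∀ v ∈ S, a ≤ mX v ∧ mX v ≤ b ∧ 0 ≤ mY v ∧ mY v ≤ d)
    (hS' : ∀ v ∈ S', -L ≤ mX v ∧ mX v ≤ L ∧ 0 ≤ mY v ∧ mY v ≤ L)
    (hf : mX f + 1 < a ∨ b < mX f + 1 ∨ d < mY f) : False := by
  have hfS := h2.right
  have hf' := hS' f hfS
  have hj' := hS' _ h2.left
  have hk' := hS _ h1.left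
  have hm' := hS _ h1.right
  simp only [mX, mY] at hf hf' hj' hk' hm'
  have ha1 := neg_abs_le a
  have hb1 := le_abs_self b
  have hd1 := le_abs_self d
  have ha0 := abs_nonneg a
  have hb0 := abs_nonneg b
  have hd0 := abs_nonneg d
  obtain ⟨M, hM⟩ : ∃ M : ℤ, M = 2 * L + 2 * |a| + 2 * |b| + 2 * |d| + 10 := ⟨_, rfl⟩
  -- extensions
  set E1 : Set P2 := {w | (w.2 = -1 ∧ ((-M ≤ w.1 ∧ w.1 ≤ 4 * k + 1) ∨ (4 * m + 1 ≤ w.1 ∧ w.1 ≤ M))) ∨
    (w.2 = 0 ∧ (w.1 = 4 * k + 1 ∨ w.1 = 4 * m + 1))} with hE1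
  set E2 : Set P2 := {w | (w.1 = 4 * j + 3 ∧ -3 ≤ w.2 ∧ w.2 ≤ 0) ∨
    (w.1 = 2 * (f.1 + f.2) + 3 ∧ 2 * (f.2 - f.1) + 1 < w.2 ∧ w.2 ≤ M)} with hE2
  have ppk : pp (k, k) = (4 * k + 1, 1) := by simp [pp]; ring
  have ppm : pp (m, m) = (4 * m + 1, 1) := by simp [pp]; ring
  have pdj : pd (j, j) = (4 * j + 3, 1) := by simp [pd]; ring
  have hk1 : ((4 * k + 1, 1) : P2) ∈ MP z S ∪ E1 := Or.inl (ppk ▸ (oc_mp h1).left)
  have hm1 : ((4 * m + 1, 1) : P2) ∈ MP z S ∪ E1 := Or.inl (ppm ▸ (oc_mp h1).right)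
  have hj1 : ((4 * j + 3, 1) : P2) ∈ MD (dual z) S' ∪ E2 := Or.inl (pdj ▸ (oc_md h2).left)
  have w1 : Walk (MP z S ∪ E1) (-M, -1) (4 * k + 1, -1) :=
    hwalk' (-1) (by omega) fun x hx1 hx2 => Or.inr (Or.inl ⟨rfl, Or.inl ⟨hx1, hx2⟩⟩)
  have vk : ∀ c : ℤ, (c = 4 * k + 1 ∨ c = 4 * m + 1) → ((c, 1) : P2) ∈ MP z S ∪ E1 →
      Walk (MP z S ∪ E1) (c, -1) (c, 1) := by
    intro c hc hc1
    refine vwalk' c (by norm_num) fun y hy1 hy2 => ?_
    have : y = -1 ∨ y = 0 ∨ y = 1 := by omega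
    rcases this with rfl | rfl | rfl
    · refine Or.inr (Or.inl ⟨rfl, ?_⟩)
      simp only
      omega
    · exact Or.inr (Or.inr ⟨rfl, hc⟩)
    · exact hc1
  have w2 := vk _ (Or.inl rfl) hk1
  have w3 : Walk (MP z S ∪ E1) (4 * k + 1, 1) (4 * m + 1, 1) := by
    have := oc_mp h1
    rw [ppk, ppm] at this
    exact this.mono Set.subset_union_left
  have w4 := (vk _ (Or.inr rfl) hm1).symm
  have w5 : Walk (MP z S ∪ E1) (4 * m + 1, -1) (M, -1) :=
    hwalk' (-1) (by omega) fun x hx1 hx2 => Or.inr (Or.inl ⟨rfl, Or.inr ⟨hx1, hx2⟩⟩)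
  have v1 : Walk (MD (dual z) S' ∪ E2) (4 * j + 3, -3) (4 * j + 3, 1) := by
    refine vwalk' _ (by norm_num) fun y hy1 hy2 => ?_
    rcases eq_or_lt_of_le hy2 with rfl | hy3
    · exact hj1
    · exact Or.inr (Or.inl ⟨rfl, hy1, by simp only; omega⟩)
  have v2 : Walk (MD (dual z) S' ∪ E2) (4 * j + 3, 1) (2 * (f.1 + f.2) + 3, 2 * (f.2 - f.1) + 1) := by
    have := oc_md h2
    rw [pdj] at this
    exact this.mono Set.subset_union_left
  have v3 : Walk (MD (dual z) S' ∪ E2) (2 * (f.1 + f.2) + 3, 2 * (f.2 - f.1) + 1)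
      (2 * (f.1 + f.2) + 3, M) := by
    refine vwalk' _ (by omega) fun y hy1 hy2 => ?_
    rcases eq_or_lt_of_le hy1 with rfl | hy3
    · exact v2.right
    · exact Or.inr (Or.inr ⟨rfl, hy3, hy2⟩)
  refine mcross (((w1.trans w2).trans w3).trans (w4.trans w5)) ((v1.trans v2).trans v3) ?_ ?_ ?_ ?_
  · rintro ⟨x, y⟩ (hw | hw)
    · have := mp_bd (a := a) (b := b) (c := 0) (d := d) (by simpa only [mX, mY] using hS) hw
      simp only at this ⊢
      omega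
    · simp only [hE1, Set.mem_ofPred_eq] at hw
      simp only
      omega
  · rintro ⟨x, y⟩ (hw | hw)
    · have := md_bd (a := -L) (b := L) (c := 0) (d := L) (by simpa only [mX, mY] using hS') hw
      simp only at this ⊢
      omega
    · simp only [hE2, Set.mem_ofPred_eq] at hw
      simp only
      omega
  · rintro ⟨x, y⟩ hw (hw' | hw')
    · have := md_bd (a := -L) (b := L) (c := 0) (d := L) (by simpa only [mX, mY] using hS') hw'
      simp only [hE1, Set.mem_ofPred_eq] at hw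
      simp only at this
      omega
    · simp only [hE1, Set.mem_ofPred_eq] at hw
      simp only [hE2, Set.mem_ofPred_eq] at hw'
      omega
  · rintro ⟨x, y⟩ hw hw'
    have := mp_bd (a := a) (b := b) (c := 0) (d := d) (by simpa only [mX, mY] using hS) hw'
    simp only [hE2, Set.mem_ofPred_eq] at hw
    simp only at this
    omega

end Crest.Agent.R158.Fl440
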