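import Crest.Agent.R158.Fl2_440
import Crest.Agent.R158.Rs8_689

/-!
# Row 158, Block FW (helper440): the flat medial wall, 3: interfaces and lower bounds

* `partner` : the boundary of a finite set of vertices pairs the odd wall gaps (handshake)
* `wall_cross'` : a dual path between two wall gaps is not crossed by a primal arm
* `two_lower` : `P(TwoL 0 n) ≥ c / n`, `pa_lower` : `P(PA 0 n) ≥ c n^(-1/2)`
-/

set_option autoImplicit false
set_option linter.unusedSimpArgs false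

noncomputable section

namespace Crest.Agent.R158.Fl440

open MeasureTheory ProbabilityTheory unitInterval
open Crest.Agent.R161.Geo729 Crest.Agent.R161.Topo374 Crest.Agent.R161.Dual374
open Crest.Agent.R161.Tas682 Crest.Agent.R158.Rs689 Crest.Agent.R158.Hp814
open Crest.Agent.R161.Ring421 Crest.Agent.R161.Sym597
open Crest.Agent.R161.Ifc372 Crest.Agent.R161.Hull374 Crest.Agent.R161.Ann374
open scoped ENNReal

/-! ### interfaces of finite sets of the half plane -/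

/-- boundary edges of `C` in the half plane -/
def bdE (C : Set P2) (e : Edge) : Prop := 0 ≤ mY (src e) ∧ 0 ≤ mY (tgt e) ∧ ¬ (src e ∈ C ↔ tgt e ∈ C)

open Classical in
/-- indicator of the boundary edges -/
def bdi (C : Set P2) (e : Edge) : ZMod 2 := if bdE C e then 1 else 0

theorem bdi_ne {C : Set P2} {e : Edge} : bdi C e ≠ 0 ↔ bdE C e := by
  unfold bdi
  split_ifs with h <;> simp [h]

/-- sum of the four edges around a face -/
def bds (C : Set P2) (f : P2) : ZMod 2 :=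
  bdi C (f, false) + bdi C ((f.1, f.2 + 1), false) + (bdi C (f, true) + bdi C ((f.1 + 1, f.2), true))

theorem bds_int {C : Set P2} {f : P2} (hf : 1 ≤ mY f) : bds C f = 0 := by
  obtain ⟨a, b⟩ := f
  simp only [mY] at hf
  have e1 : (0 ≤ b - a) = True := by simp; omega
  have e2 : (0 ≤ b - (a + 1)) = True := by simp; omega
  have e3 : (0 ≤ b + 1 - a) = True := by simp; omega
  have e4 : (0 ≤ b + 1 - (a + 1)) = True := by simp; omega
  by_cases h1 : ((a, b) : P2) ∈ C <;> by_cases h2 : ((a + 1, b) : P2) ∈ C <;>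
    by_cases h3 : ((a, b + 1) : P2) ∈ C <;> by_cases h4 : ((a + 1, b + 1) : P2) ∈ C <;>
    simp only [bds, bdi, bdE, src, tgt, mY, e1, e2, e3, e4, h1, h2, h3, h4, Bool.false_eq_true,
      if_true, if_false, true_and, iff_self, not_true_eq_false, iff_true, iff_false, not_false_eq_true,
      false_iff, true_iff, reduceIte] <;> decide

theorem bds_wall {C : Set P2} {a : ℤ} :
    bds C (a, a) ≠ 0 ↔ ¬ (((a, a) : P2) ∈ C ↔ ((a + 1, a + 1) : P2) ∈ C) := by
  have e1 : (0 ≤ a - a) = True := by simp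
  have e2 : (0 ≤ a - (a + 1)) = False := by simp
  have e3 : (0 ≤ a + 1 - a) = True := by simp
  have e4 : (0 ≤ a + 1 - (a + 1)) = True := by simp
  by_cases h1 : ((a, a) : P2) ∈ C <;> by_cases h2 : ((a + 1, a) : P2) ∈ C <;>
    by_cases h3 : ((a, a + 1) : P2) ∈ C <;> by_cases h4 : ((a + 1, a + 1) : P2) ∈ C <;>
    simp only [bds, bdi, bdE, src, tgt, mY, e1, e2, e3, e4, h1, h2, h3, h4, Bool.false_eq_true,
      if_true, if_false, true_and, false_and, and_false, iff_self, not_true_eq_false, iff_true,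
      iff_false, not_false_eq_true, false_iff, true_iff, reduceIte] <;> decide

/-- boundary steps -/
abbrev BSt (C : Set P2) (f g : P2) : Prop := DStep (bdE C) f g

theorem bst_mY {C : Set P2} {f g : P2} (h : BSt C f g) : 0 ≤ mY f ∧ 0 ≤ mY g := by
  obtain ⟨e, he, h⟩ := h
  obtain ⟨h1, h2, -⟩ := he
  obtain ⟨⟨a, b⟩, k⟩ := e
  rcases h with ⟨rfl, rfl⟩ | ⟨rfl, rfl⟩ <;> cases k <;>
    simp [mY, src, tgt, fA, fB] at h1 h2 ⊢ <;> omega

/-- faces of the half plane next to `C` -/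
def Fc (C : Set P2) : Set P2 :=
  {f | 0 ≤ mY f ∧ ∃ v ∈ C, 0 ≤ v.1 - f.1 ∧ v.1 - f.1 ≤ 1 ∧ 0 ≤ v.2 - f.2 ∧ v.2 - f.2 ≤ 1}

theorem bst_fc {C : Set P2} {f g : P2} (h : BSt C f g) : f ∈ Fc C ∧ g ∈ Fc C := by
  have h0 := bst_mY h
  obtain ⟨e, he, h⟩ := h
  obtain ⟨h1, h2, h3⟩ := he
  have h4 : ∃ v ∈ C, v = src e ∨ v = tgt e := by
    by_cases h5 : src e ∈ C
    · exact ⟨_, h5, Or.inl rfl⟩
    · by_cases h6 : tgt e ∈ C
      · exact ⟨_, h6, Or.inr rfl⟩
      · exact absurd (by simp [h5, h6]) h3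
  obtain ⟨v, hv, h4⟩ := h4
  refine ⟨⟨h0.1, v, hv, ?_⟩, ⟨h0.2, v, hv, ?_⟩⟩ <;>
  · obtain ⟨⟨a, b⟩, k⟩ := e
    obtain ⟨v1, v2⟩ := v
    rcases h with ⟨rfl, rfl⟩ | ⟨rfl, rfl⟩ <;> cases k <;>
      simp [mY, src, tgt, fA, fB] at h1 h2 h4 ⊢ <;> omega

theorem fc_finite {C : Set P2} (hC : C.Finite) : (Fc C).Finite := by
  have h1 : Fc C ⊆ ⋃ v ∈ C, (Set.Icc (v.1 - 1) v.1 ×ˢ Set.Icc (v.2 - 1) v.2 : Set P2) := by
    rintro f ⟨-, v, hv, h⟩
    simp only [Set.mem_iUnion, Set.mem_prod, Set.mem_Icc]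
    exact ⟨v, hv, by omega, by omega⟩
  exact (hC.biUnion fun v _ => (Set.finite_Icc _ _).prod (Set.finite_Icc _ _)).subset h1

/-- **Handshake lemma**: the boundary of a finite set of vertices of the half plane pairs the odd wall
gaps. -/
theorem partner {C : Set P2} (hC : C.Finite) {i : ℤ}
    (hi : ¬ (((i, i) : P2) ∈ C ↔ ((i + 1, i + 1) : P2) ∈ C)) :
    ∃ j : ℤ, j ≠ i ∧ ¬ (((j, j) : P2) ∈ C ↔ ((j + 1, j + 1) : P2) ∈ C) ∧
      Relation.ReflTransGen (BSt C) ((i, i) : P2) (j, j) := by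
  classical
  set R : Set P2 := {f | Relation.ReflTransGen (BSt C) ((i, i) : P2) f} with hR
  have hRf : R.Finite := by
    refine ((fc_finite hC).insert ((i, i) : P2)).subset ?_
    intro f hf
    rcases Relation.ReflTransGen.cases_tail hf with h | ⟨g, _, h⟩
    · exact Or.inl h
    · exact Or.inr (bst_fc h).2
  have hRY : ∀ f ∈ R, 0 ≤ mY f := by
    intro f hf
    rcases Relation.ReflTransGen.cases_tail hf with h | ⟨g, _, h⟩
    · rw [h]; simp [mY]
    · exact (bst_mY h).2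
  have hstep : ∀ f ∈ R, ∀ g, BSt C f g → g ∈ R := fun f hf g h => hf.tail h
  set F : Finset P2 := hRf.toFinset with hF
  have hmem : ∀ f, f ∈ F ↔ f ∈ R := fun f => by rw [hF, Set.Finite.mem_toFinset]
  have key1 : ∑ f ∈ F, bdi C (f, false) = ∑ f ∈ F, bdi C ((f.1, f.2 + 1), false) := by
    refine Finset.sum_bij_ne_zero (fun f _ _ => (f.1, f.2 - 1)) ?_ ?_ ?_ ?_
    · intro f h1 h2
      rw [hmem] at h1 ⊢
      refine hstep f h1 _ ⟨(f, false), bdi_ne.1 h2, Or.inl ⟨?_, ?_⟩⟩ <;>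
        simp [fA, fB]
    · rintro ⟨a, b⟩ _ _ ⟨c, d⟩ _ _ h
      simp only [Prod.mk.injEq] at h
      ext <;> simp <;> omega
    · rintro ⟨a, b⟩ h1 h2
      refine ⟨(a, b + 1), ?_, ?_, by simp⟩
      · rw [hmem] at h1 ⊢
        refine hstep _ h1 _ ⟨((a, b + 1), false), bdi_ne.1 h2, Or.inr ⟨?_, ?_⟩⟩ <;>
          simp [fA, fB]
      · exact h2
    · rintro ⟨a, b⟩ _ _
      simp
  have key2 : ∑ f ∈ F, bdi C (f, true) = ∑ f ∈ F, bdi C ((f.1 + 1, f.2), true) := by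
    refine Finset.sum_bij_ne_zero (fun f _ _ => (f.1 - 1, f.2)) ?_ ?_ ?_ ?_
    · intro f h1 h2
      rw [hmem] at h1 ⊢
      refine hstep f h1 _ ⟨(f, true), bdi_ne.1 h2, Or.inl ⟨?_, ?_⟩⟩ <;>
        simp [fA, fB]
    · rintro ⟨a, b⟩ _ _ ⟨c, d⟩ _ _ h
      simp only [Prod.mk.injEq] at h
      ext <;> simp <;> omega
    · rintro ⟨a, b⟩ h1 h2
      refine ⟨(a + 1, b), ?_, ?_, by simp⟩
      · rw [hmem] at h1 ⊢
        refine hstep _ h1 _ ⟨((a + 1, b), true), bdi_ne.1 h2, Or.inr ⟨?_, ?_⟩⟩ <;>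
          simp [fA, fB]
      · exact h2
    · rintro ⟨a, b⟩ _ _
      simp
  have key : ∑ f ∈ F, bds C f = 0 := by
    unfold bds
    rw [Finset.sum_add_distrib, Finset.sum_add_distrib, Finset.sum_add_distrib, key1, key2,
      CharTwo.add_self_eq_zero, CharTwo.add_self_eq_zero, add_zero]
  by_contra hno
  have hsingle : ∑ f ∈ F, bds C f = bds C (i, i) := by
    refine Finset.sum_eq_single ((i, i) : P2) ?_ ?_
    · intro f hf hne
      have hfR := (hmem f).1 hf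
      have hy := hRY f hfR
      rcases eq_or_lt_of_le hy with h0 | h0
      · obtain ⟨a, b⟩ := f
        simp only [mY] at h0
        have hab : b = a := by omega
        subst hab
        by_contra hb
        have hb' := bds_wall.1 hb
        exact hno ⟨b, fun h => hne (by rw [h]), hb', hfR⟩
      · exact bds_int (by omega)
    · intro h
      exact absurd ((hmem _).2 Relation.ReflTransGen.refl) h
  rw [hsingle] at key
  exact bds_wall.2 hi key

/-! ### planarity at the wall, second form -/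

/-- **Wall lemma'**: a dual path of the half plane from `(j1,j1)` to `(j2,j2)` and a primal path of the
half plane from `(k,k)`, `j1 < k ≤ j2`, to a point on the boundary or outside of the box of the dual
path do not coexist. -/
theorem wall_cross' {z : Cfz} {S S' : Set P2} {j1 j2 k : ℤ} {w : P2} {a b d L : ℤ}
    (h1 : OC (dual z) S' (j1, j1) (j2, j2)) (h2 : OC z S (k, k) w) (hj1 : j1 < k) (hj2 : k ≤ j2)
    (hS' : ∀ v ∈ S', a ≤ mX v + 1 ∧ mX v + 1 ≤ b ∧ 0 ≤ mY v ∧ mY v ≤ d)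
    (hS : ∀ v ∈ S, -L ≤ mX v ∧ mX v ≤ L ∧ 0 ≤ mY v ∧ mY v ≤ L)
    (hw : mX w ≤ a ∨ b ≤ mX w ∨ d ≤ mY w) : False := by
  have hwS := h2.right
  have hw' := hS w hwS
  have hk' := hS _ h2.left
  have hj1' := hS' _ h1.left
  have hj2' := hS' _ h1.right
  simp only [mX, mY] at hw hw' hj1' hj2' hk'
  have ha1 := neg_abs_le a
  have hb1 := le_abs_self b
  have hd1 := le_abs_self d
  have ha0 := abs_nonneg a
  have hb0 := abs_nonneg b
  have hd0 := abs_nonneg d
  obtain ⟨M, hM⟩ : ∃ M : ℤ, M = 2 * L + 2 * |a| + 2 * |b| + 2 * |d| + 10 := ⟨_, rfl⟩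
  -- column of the upper extension
  obtain ⟨c, hc⟩ : ∃ c : ℤ, (c = 2 * (w.1 + w.2) + 1 ∧ d ≤ w.2 - w.1) ∨
      (c = 2 * (w.1 + w.2) + 2 ∧ b ≤ w.1 + w.2) ∨ (c = 2 * (w.1 + w.2) ∧ w.1 + w.2 ≤ a) := by
    rcases hw with h | h | h
    · exact ⟨_, Or.inr (Or.inr ⟨rfl, h⟩)⟩
    · exact ⟨_, Or.inr (Or.inl ⟨rfl, h⟩)⟩
    · exact ⟨_, Or.inl ⟨rfl, h⟩⟩
  set E1 : Set P2 := {p | (p.1 = 4 * k + 1 ∧ -3 ≤ p.2 ∧ p.2 ≤ 0) ∨
    (p.1 = c ∧ 2 * (w.2 - w.1) + 1 ≤ p.2 ∧ p.2 ≤ M ∧ p ≠ (2 * (w.1 + w.2) + 1, 2 * (w.2 - w.1) + 1))}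
    with hE1
  set E2 : Set P2 := {p | (p.2 = -1 ∧ ((-M ≤ p.1 ∧ p.1 ≤ 4 * j1 + 3) ∨ (4 * j2 + 3 ≤ p.1 ∧ p.1 ≤ M))) ∨
    (p.2 = 0 ∧ (p.1 = 4 * j1 + 3 ∨ p.1 = 4 * j2 + 3))} with hE2
  have ppk : pp (k, k) = (4 * k + 1, 1) := by simp [pp]; ring
  have pd1 : pd (j1, j1) = (4 * j1 + 3, 1) := by simp [pd]; ring
  have pd2 : pd (j2, j2) = (4 * j2 + 3, 1) := by simp [pd]; ring
  have hj11 : ((4 * j1 + 3, 1) : P2) ∈ MD (dual z) S' ∪ E2 := Or.inl (pd1 ▸ (oc_md h1).left)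
  have hj21 : ((4 * j2 + 3, 1) : P2) ∈ MD (dual z) S' ∪ E2 := Or.inl (pd2 ▸ (oc_md h1).right)
  have hk1 : ((4 * k + 1, 1) : P2) ∈ MP z S ∪ E1 := Or.inl (ppk ▸ (oc_mp h2).left)
  have w1 : Walk (MD (dual z) S' ∪ E2) (-M, -1) (4 * j1 + 3, -1) :=
    hwalk' (-1) (by omega) fun x hx1 hx2 => Or.inr (Or.inl ⟨rfl, Or.inl ⟨hx1, hx2⟩⟩)
  have vk : ∀ c : ℤ, (c = 4 * j1 + 3 ∨ c = 4 * j2 + 3) → ((c, 1) : P2) ∈ MD (dual z) S' ∪ E2 →
      Walk (MD (dual z) S' ∪ E2) (c, -1) (c, 1) := by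
    intro c hc hc1
    refine vwalk' c (by norm_num) fun y hy1 hy2 => ?_
    have : y = -1 ∨ y = 0 ∨ y = 1 := by omega
    rcases this with rfl | rfl | rfl
    · refine Or.inr (Or.inl ⟨rfl, ?_⟩)
      simp only
      omega
    · exact Or.inr (Or.inr ⟨rfl, hc⟩)
    · exact hc1
  have w2 := vk _ (Or.inl rfl) hj11
  have w3 : Walk (MD (dual z) S' ∪ E2) (4 * j1 + 3, 1) (4 * j2 + 3, 1) := by
    have := oc_md h1
    rw [pd1, pd2] at this
    exact this.mono Set.subset_union_left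
  have w4 := (vk _ (Or.inr rfl) hj21).symm
  have w5 : Walk (MD (dual z) S' ∪ E2) (4 * j2 + 3, -1) (M, -1) :=
    hwalk' (-1) (by omega) fun x hx1 hx2 => Or.inr (Or.inl ⟨rfl, Or.inr ⟨hx1, hx2⟩⟩)
  have v1 : Walk (MP z S ∪ E1) (4 * k + 1, -3) (4 * k + 1, 1) := by
    refine vwalk' _ (by norm_num) fun y hy1 hy2 => ?_
    rcases eq_or_lt_of_le hy2 with rfl | hy3
    · exact hk1
    · exact Or.inr (Or.inl ⟨rfl, hy1, by simp only; omega⟩)
  have v2 : Walk (MP z S ∪ E1) (4 * k + 1, 1) (2 * (w.1 + w.2) + 1, 2 * (w.2 - w.1) + 1) := by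
    have := oc_mp h2
    rw [ppk] at this
    exact this.mono Set.subset_union_left
  have v3 : Walk (MP z S ∪ E1) (2 * (w.1 + w.2) + 1, 2 * (w.2 - w.1) + 1)
      (c, 2 * (w.2 - w.1) + 1) := by
    rcases hc with ⟨rfl, -⟩ | ⟨rfl, -⟩ | ⟨rfl, -⟩
    · exact Walk.refl v2.right
    · refine Walk.step v2.right (Or.inr (Or.inr ⟨rfl, by simp; omega⟩)) ?_
      exact Or.inl ⟨rfl, Or.inl (by simp only; omega)⟩
    · refine Walk.step v2.right (Or.inr (Or.inr ⟨rfl, by simp; omega⟩)) ?_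
      exact Or.inl ⟨rfl, Or.inr (by simp only)⟩
  have v4 : Walk (MP z S ∪ E1) (c, 2 * (w.2 - w.1) + 1) (c, M) := by
    refine vwalk' _ (by omega) fun y hy1 hy2 => ?_
    rcases eq_or_lt_of_le hy1 with rfl | hy3
    · exact v3.right
    · refine Or.inr (Or.inr ⟨rfl, hy1, hy2, ?_⟩)
      intro h
      simp only [Prod.mk.injEq] at h
      omega
  refine mcross' (((w1.trans w2).trans w3).trans (w4.trans w5)) (((v1.trans v2).trans v3).trans v4)
    ?_ ?_ ?_ ?_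
  · rintro ⟨x, y⟩ (hp | hp)
    · have := md_bd (a := a - 1) (b := b - 1) (c := 0) (d := d) (by
        intro v hv
        have := hS' v hv
        simp only [mX, mY] at this ⊢
        omega) hp
      simp only at this ⊢
      omega
    · simp only [hE2, Set.mem_ofPred_eq] at hp
      simp only
      omega
  · rintro ⟨x, y⟩ (hp | hp)
    · have := mp_bd (a := -L) (b := L) (c := 0) (d := L) (by simpa only [mX, mY] using hS) hp
      simp only at this ⊢
      omega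
    · simp only [hE1, Set.mem_ofPred_eq] at hp
      simp only
      omega
  · rintro ⟨x, y⟩ hp (hp' | hp')
    · by_cases hxy : ((x, y) : P2) = (2 * (w.1 + w.2) + 1, 2 * (w.2 - w.1) + 1)
      · have h5 : pp w = (x, y) := by rw [hxy]; rfl
        exact mp_md (z := z) (S := S) (Or.inl ⟨w, hwS, h5.symm⟩) hp'
      · have := md_bd (a := a - 1) (b := b - 1) (c := 0) (d := d) (by
          intro v hv
          have := hS' v hv
          simp only [mX, mY] at this ⊢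
          omega) hp'
        simp only [hE1, Set.mem_ofPred_eq] at hp
        simp only at this
        simp only [Prod.mk.injEq, not_and] at hxy
        rcases hp with hp | hp
        · omega
        · rcases hc with h | h | h
          · have := hxy (hp.1.trans h.1)
            omega
          · omega
          · omega
    · simp only [hE1, Set.mem_ofPred_eq] at hp
      simp only [hE2, Set.mem_ofPred_eq] at hp'
      omega
  · rintro ⟨x, y⟩ hp hp'
    have := mp_bd (a := -L) (b := L) (c := 0) (d := L) (by simpa only [mX, mY] using hS) hp'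
    simp only [hE2, Set.mem_ofPred_eq] at hp
    simp only at this
    omega

/-! ### the left interface of the leftmost arm -/

/-- dual path along the boundary of a set `C` whose boundary edges are closed -/
theorem oc_of_bst {z : Cfz} {C : Set P2} {f g : P2} (hf : f ∈ Fc C)
    (h : Relation.ReflTransGen (BSt C) f g) (hz : ∀ e, bdE C e → z e = false) :
    OC (dual z) (Fc C) f g := by
  refine ⟨hf, ?_⟩
  induction h with
  | refl => exact .refl
  | @tail b c _ h2 ih =>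
    refine ih.tail ⟨?_, (bst_fc h2).1, (bst_fc h2).2⟩
    rw [← dstep_dual]
    obtain ⟨e, he, h3⟩ := h2
    exact ⟨e, by simp [hz e he], h3⟩

/-- the leftmost wall site joined to distance `M` has a dual arm on its left side -/
theorem left_arm {z : Cfz} {M : ℕ} {a0 a1 b1 : ℤ} (ha0 : -(M : ℤ) ≤ 2 * a0) (hb1 : 2 * b1 ≤ M)
    (h01 : a0 ≤ a1)
    (hno : ∀ j : ℤ, a0 ≤ j → j ≤ a1 → ∀ v ∈ Far 0 M, ¬ OC z (HB 0 M) (j, j) v)
    (hex : ∃ j : ℤ, a0 ≤ j ∧ j ≤ b1 ∧ ∃ v ∈ Far 0 M, OC z (HB 0 M) (j, j) v) :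
    ∃ k i : ℤ, a1 < k ∧ k ≤ b1 ∧ (∃ v ∈ Far 0 M, OC z (HB 0 M) (k, k) v) ∧ i < a0 ∧
      OC (dual z) {f | 0 ≤ mY f} (k - 1, k - 1) (i, i) := by
  classical
  -- the minimal one
  obtain ⟨k, ⟨hk1, hk2, w, hw, hkw⟩, hmin⟩ : ∃ k : ℤ, (a0 ≤ k ∧ k ≤ b1 ∧
      ∃ v ∈ Far 0 M, OC z (HB 0 M) (k, k) v) ∧ ∀ j : ℤ, (a0 ≤ j ∧ j ≤ b1 ∧
      ∃ v ∈ Far 0 M, OC z (HB 0 M) (j, j) v) → k ≤ j :=
    Int.exists_least_of_bdd ⟨a0, fun j hj => hj.1⟩ hex
  have hk3 : a1 < k := by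
    by_contra h
    exact hno k hk1 (by omega) w hw hkw
  set C : Set P2 := {v | ∃ j : ℤ, a0 ≤ j ∧ j ≤ k - 1 ∧ OC z (HB 0 M) (j, j) v} with hC
  have hCS : ∀ v ∈ C, v ∈ HB 0 M := by
    rintro v ⟨j, _, _, h⟩
    exact Finset.mem_coe.1 h.right
  have hCfin : C.Finite := (HB 0 M).finite_toSet.subset fun v hv => Finset.mem_coe.2 (hCS v hv)
  have hCF : ∀ v ∈ C, v ∉ Far 0 M := by
    rintro v ⟨j, h1, h2, h3⟩ hv
    have := hmin j ⟨h1, by omega, v, hv, h3⟩
    omega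
  have hkC : ((k, k) : P2) ∉ C := by
    rintro ⟨j, h1, h2, h3⟩
    have := hmin j ⟨h1, by omega, w, hw, h3.trans hkw⟩
    omega
  have hjC : ∀ j : ℤ, a0 ≤ j → j ≤ k - 1 → ((j, j) : P2) ∈ C := by
    intro j h1 h2
    refine ⟨j, h1, h2, OC.refl ?_⟩
    rw [Finset.mem_coe, mem_HB]
    simp only [mX, mY]
    omega
  have hi : ¬ (((k - 1, k - 1) : P2) ∈ C ↔ ((k - 1 + 1, k - 1 + 1) : P2) ∈ C) := by
    rw [show k - 1 + 1 = k by ring]
    intro h
    exact hkC (h.1 (hjC _ (by omega) le_rfl))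
  obtain ⟨i, hi1, hi2, hi3⟩ := partner hCfin hi
  have hclosed : ∀ e, bdE C e → z e = false := by
    rintro e ⟨h1, h2, h3⟩
    by_contra hz
    rw [Bool.not_eq_false] at hz
    have key : ∀ u v : P2, u ∈ C → PStep (fun e => z e = true) u v → 0 ≤ mY v → v ∈ C := by
      intro u v hu huv hv
      have hu1 := hCS u hu
      have hu2 := hCF u hu
      obtain ⟨j, h4, h5, h6⟩ := hu
      refine ⟨j, h4, h5, h6.trans ⟨h6.right, Relation.ReflTransGen.single ⟨huv, h6.right, ?_⟩⟩⟩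
      have hn := Crest.Agent.R161.Tas682.pstep_nbr huv
      rw [Finset.mem_coe, mem_HB]
      rw [mem_Far] at hu2
      rw [mem_HB] at hu1
      simp only [mX, mY] at hu1 hu2 hv ⊢
      unfold Nbr at hn
      omega
    apply h3
    constructor
    · intro h4
      exact key _ _ h4 ⟨e, hz, Or.inl ⟨rfl, rfl⟩⟩ h2
    · intro h4
      exact key _ _ h4 ⟨e, hz, Or.inr ⟨rfl, rfl⟩⟩ h1
  have hfc : ((k - 1, k - 1) : P2) ∈ Fc C := by
    refine ⟨by simp [mY], _, hjC (k - 1) (by omega) le_rfl, ?_⟩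
    simp
  have hd := oc_of_bst hfc hi3 hclosed
  have hFcb : ∀ f ∈ Fc C, -(M : ℤ) ≤ mX f + 1 ∧ mX f + 1 ≤ M ∧ 0 ≤ mY f ∧ mY f ≤ M := by
    rintro f ⟨hf0, v, hv, hf⟩
    have h1 := hCS v hv
    have h2 := hCF v hv
    rw [mem_Far] at h2
    rw [mem_HB] at h1
    simp only [mX, mY] at h1 h2 hf0 ⊢
    omega
  refine ⟨k, i, hk3, hk2, ⟨w, hw, hkw⟩, ?_, hd.monoS fun f hf => hf.1⟩
  by_contra hia
  rw [not_lt] at hia
  rcases le_or_gt k i with hki | hki
  · refine wall_cross' (a := -M) (b := M) (d := M) (L := M) hd hkw (by omega) hki hFcb ?_ ?_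
    · intro v hv
      have := mem_HB.1 (Finset.mem_coe.1 hv)
      omega
    · rw [mem_Far] at hw
      omega
  · apply hi2
    have h1 := hjC i hia (by omega)
    have h2 := hjC (i + 1) (by omega) (by omega)
    exact ⟨fun _ => h2, fun _ => h1⟩

/-! ### duality between `TwoL` and `TwoR` -/

theorem dual_dual' (z : Cfz) : dual (dual z) = shiftZ ((1, 1) : P2) z := by
  funext e
  rw [dual_dual]
  rfl

theorem dual_twoR (k : ℤ) (n : ℕ) : dual ⁻¹' TwoR (k - 1) n = TwoL k n := by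
  ext z
  simp only [TwoR, TwoL, Set.mem_inter_iff, Set.mem_preimage, dual_dual', pa_shift]
  rw [show k - 1 + 1 = k by ring]
  exact and_comm

theorem two_eq (k : ℤ) (n : ℕ) : (nu hf).real (TwoL k n) = (nu hf).real (TwoR k n) := by
  rw [TwoR_prob, ← TwoR_prob hf (k - 1), ← dual_twoR,
    nu_dual _ (TwoR_dep (k - 1) n).measurableSet, sigma_hf]

/-! ### the lower bound -/

/-- the good event: a dual circuit over the wall and a crossing of a tall rectangle -/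
def E0 (r : ℕ) : Set Cfz :=
  dual ⁻¹' CircZ (-4 * (r : ℤ), -4 * (r : ℤ)) r (2 * r) ∩
    {z | BTc z 0 r (-1) (17 * r)}

theorem E0_prob : ∃ c : ℝ, 0 < c ∧ ∀ r : ℕ, 1 ≤ r → c ≤ (nu hf).real (E0 r) := by
  obtain ⟨c, hc, h1⟩ := rsw_long 18
  obtain ⟨q, hq, -, h2⟩ := rsw_circ
  refine ⟨q * c, by positivity, fun r hr => ?_⟩
  set F : Finset P2 := Finset.Icc (0 : ℤ) r ×ˢ Finset.Icc (-1 : ℤ) (17 * r) with hF
  have hdep : Dep (EI F) {z : Cfz | BTc z 0 r (-1) (17 * r)} := by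
    rw [setOf_BTc]
    have h3 : Rect 0 r (-1) (17 * r) = (F : Set P2) := by
      ext v
      simp only [mem_rect, hF, Finset.coe_product, Finset.coe_Icc, Set.mem_prod, Set.mem_Icc]
      tauto
    rw [h3]
    exact Hp814.ev_dep _ _ _
  have hdep2 := (circ_dep (-4 * (r : ℤ), -4 * (r : ℤ)) r (2 * r)).dual
  have hdisj : Disjoint ((annE (-4 * (r : ℤ), -4 * (r : ℤ)) r (2 * r)).map
      dE.symm.toEmbedding) (EI F) := by
    rw [Finset.disjoint_left]
    intro e he he'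
    obtain ⟨e', h3, rfl⟩ := Finset.mem_map.1 he
    rw [mem_annE] at h3
    rw [mem_EI] at he'
    simp only [hF, Finset.mem_product, Finset.mem_Icc] at he'
    simp only [mem_ball] at h3
    obtain ⟨⟨i, j⟩, k⟩ := e'
    cases k <;> simp at h3 he' <;> omega
  have h4 := PB_indep_real (fun _ : Edge => hf) hdisj hdep2 hdep
  rw [E0]
  change _ ≤ (PB fun _ : Edge => hf).real _
  rw [h4]
  have h5 : q ≤ (PB fun _ : Edge => hf).real
      (dual ⁻¹' CircZ (-4 * (r : ℤ), -4 * (r : ℤ)) r (2 * r)) := by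
    have := nu_dual hf (circ_dep (-4 * (r : ℤ), -4 * (r : ℤ)) r (2 * r)).measurableSet
    change _ ≤ (nu hf).real _
    rw [this, sigma_hf]
    exact h2 _ _ hr
  have h6 : c ≤ (PB fun _ : Edge => hf).real {z : Cfz | BTc z 0 r (-1) (17 * r)} := by
    have := bt_eq_xpr hf 0 r (-1) (17 * r)
    change _ ≤ (nu hf).real _
    rw [this]
    refine (h1 r hr).trans (xpr_mono hf (by omega) ?_ (by simp))
    push_cast
    omega
  exact mul_le_mul h5 h6 hc.le measureReal_nonneg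

theorem E0_sub {r : ℕ} (hr : 1 ≤ r) : E0 r ⊆ ⋃ k ∈ Finset.Ioc (-3 * (r : ℤ)) r, TwoL k r := by
  rintro z ⟨hz1, hz2⟩
  obtain ⟨u, v, hu, hv, huv⟩ := hz2
  have hur := huv.left
  have hvr := huv.right
  rw [mem_rect] at hur hvr
  -- a wall site joined to the top
  obtain ⟨w, hw, hwv, -⟩ := last_exit mY (fun a b hab => by
    unfold Nbr at hab; simp only [mY]; omega) 0 huv (by simp only [mY]; omega)
    (by simp only [mY]; omega)
  have hwr : w ∈ Rect 0 r (-1) (17 * r) := hwv.left.1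
  obtain ⟨w1, w2⟩ := w
  simp only [mY] at hw
  have hww : w2 = w1 := by omega
  subst hww
  rw [mem_rect] at hwr
  simp only at hwr
  obtain ⟨v', hv', h3⟩ := first_hit (hd 0) (hd_nbr 0) (16 * r : ℕ) hwv (by
      rw [hd_le]; simp only [mX, mY]; push_cast; omega) (by
      rw [le_hd, mem_Far]; simp only [mX, mY]; push_cast; omega)
  have h4 : OC z (HB 0 (16 * r)) (w2, w2) v' := by
    refine h3.monoS ?_
    rintro p ⟨⟨_, hp1⟩, hp2⟩
    have h5 := hd_le.1 (show hd 0 p ≤ ((16 * r : ℕ) : ℤ) from hp2)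
    rw [Finset.mem_coe, mem_HB]
    exact ⟨h5.1, h5.2.1, hp1, h5.2.2⟩
  obtain ⟨k, i, hk1, hk2, ⟨x, hx, hkx⟩, hi, hdu⟩ := left_arm (z := z) (M := 16 * r)
    (a0 := -5 * (r : ℤ) + 1) (a1 := -3 * (r : ℤ)) (b1 := r) (by push_cast; omega)
    (by push_cast; omega) (by omega) (by
      intro j hj1 hj2 y hy hoc
      have h6 := circ_block hz1 (u := (j, j)) (v := y) (by
        rw [mem_ball]; simp only; omega) (oc_rch hoc)
      rw [mem_ball] at h6
      rw [mem_Far] at hy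
      simp only [mX, mY] at hy
      push_cast at h6 hy
      omega) ⟨w2, by omega, by omega, v', le_hd.1 hv'.ge, h4⟩
  refine Set.mem_biUnion (x := k) ?_ ⟨?_, ?_⟩
  · simp only [Finset.coe_Ioc, Set.mem_Ioc]
    omega
  · rw [mem_PA]
    refine arm_shrink hkx (fun y hy => (mem_HB.1 hy).2.2.1) ?_ ?_
    · rw [hd_le]
      simp only [mX, mY]
      omega
    · rw [mem_Far] at hx ⊢
      push_cast at hx
      omega
  · show dual z ∈ PA (k - 1) r
    rw [mem_PA]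
    obtain ⟨y, hy, h7⟩ := first_hit (hd (k - 1)) (hd_nbr (k - 1)) r hdu (by
      rw [hd_le]; simp only [mX, mY]; omega) (by
      rw [le_hd, mem_Far]; simp only [mX, mY]; omega)
    refine ⟨y, le_hd.1 hy.ge, h7.monoS ?_⟩
    rintro p ⟨hp1, hp2⟩
    have h5 := hd_le.1 (show hd (k - 1) p ≤ (r : ℤ) from hp2)
    rw [Finset.mem_coe, mem_HB]
    exact ⟨h5.1, h5.2.1, hp1, h5.2.2⟩

/-- **Boundary two-arm lower bound.** -/
theorem two_lower : ∃ c : ℝ, 0 < c ∧ ∀ (k : ℤ) (n : ℕ), 1 ≤ n →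
    c / n ≤ (nu hf).real (TwoL k n) ∧ c / n ≤ (nu hf).real (TwoR k n) := by
  obtain ⟨c, hc, h1⟩ := E0_prob
  refine ⟨c / 4, by positivity, fun k n hn => ?_⟩
  rw [← two_eq, TwoL_prob, and_self]
  have hn0 : (0 : ℝ) < n := by exact_mod_cast hn
  have h2 : c ≤ ∑ k ∈ Finset.Ioc (-3 * (n : ℤ)) n, (nu hf).real (TwoL k n) :=
    ((h1 n hn).trans (measureReal_mono (E0_sub hn) (measure_ne_top _ _))).trans (measureReal_biUnion_finset_le _ _)
  simp_rw [TwoL_prob] at h2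
  rw [Finset.sum_const, Int.card_Ioc, nsmul_eq_mul] at h2
  have h3 : ((n : ℤ) - -3 * (n : ℤ)).toNat = 4 * n := by omega
  rw [h3] at h2
  push_cast at h2
  rw [div_div, div_le_iff₀ (by positivity)]
  linarith

/-- Harris at the wall: `P(TwoL) ≤ P(PA)^2` -/
theorem two_le_sq (k : ℤ) (n : ℕ) : (nu hf).real (TwoR k n) ≤ (nu hf).real (PA k n) ^ 2 := by
  have h1 := harris_opp (fun _ : Edge => hf) (PA_dep k n) (PA_dep k n).dual (PA_inc k n)
    (B := dual ⁻¹' PA k n) (by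
      intro z z' h hz'
      refine PA_inc k n _ _ ?_ hz'
      intro e he
      rw [dual_eq_true] at he ⊢
      by_contra h2
      rw [Bool.not_eq_false] at h2
      rw [h _ h2] at he
      exact absurd he (by decide))
  have h2 := nu_dual hf (PA_dep k n).measurableSet
  rw [sigma_hf] at h2
  change (nu hf).real _ ≤ (nu hf).real _ * (nu hf).real _ at h1
  rw [h2] at h1
  rw [sq]
  exact h1

theorem PA_prob (p : I) (k : ℤ) (n : ℕ) : (nu p).real (PA k n) = (nu p).real (PA 0 n) := by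
  rw [← nu_shift p (k, k) (PA_dep 0 n).measurableSet]
  congr 1
  ext z
  simp only [Set.mem_preimage, pa_shift, zero_add]

/-- **Boundary one-arm lower bound**: `P(PA k n) ≥ c n^(-1/2)`. -/
theorem pa_lower : ∃ c : ℝ, 0 < c ∧ ∀ (k : ℤ) (n : ℕ), 1 ≤ n →
    c * (n : ℝ) ^ (-(1 / 2 : ℝ)) ≤ (nu hf).real (PA k n) := by
  obtain ⟨c, hc, h1⟩ := two_lower
  refine ⟨Real.sqrt c, Real.sqrt_pos.2 hc, fun k n hn => ?_⟩
  have hn0 : (0 : ℝ) < n := by exact_mod_cast hn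
  have h2 := ((h1 k n hn).2).trans (two_le_sq k n)
  have h3 := Real.sqrt_le_sqrt h2
  rw [Real.sqrt_sq measureReal_nonneg] at h3
  refine le_trans (le_of_eq ?_) h3
  rw [Real.sqrt_div hc.le, Real.rpow_neg hn0.le, ← Real.sqrt_eq_rpow, div_eq_mul_inv]

end Crest.Agent.R158.Fl440
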