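import Crest.Agent.R158.Fl3_440

/-!
# Row 158, Block FW (helper440): the flat medial wall, 4: half annuli, half circuits, extension, joining
-/

set_option autoImplicit false
set_option linter.unusedSimpArgs false

noncomputable section

namespace Crest.Agent.R158.Fl440

open MeasureTheory ProbabilityTheory unitInterval
open Crest.Agent.R161.Geo729 Crest.Agent.R161.Topo374 Crest.Agent.R161.Dual374
open Crest.Agent.R161.Tas682 Crest.Agent.R158.Rs689 Crest.Agent.R158.Hp814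
open Crest.Agent.R161.Ring421
open scoped ENNReal

/-! ### common points of primal paths -/

theorem mp_common {z : Cfz} {S1 S2 : Set P2} {w : P2} (h1 : w ∈ MP z S1) (h2 : w ∈ MP z S2) :
    ∃ v, v ∈ S1 ∧ v ∈ S2 := by
  obtain ⟨w1, w2⟩ := w
  rcases h1 with ⟨⟨x, y⟩, hS, hv⟩ | ⟨⟨⟨x, y⟩, b⟩, he, hs, ht, hw⟩
  · rcases h2 with ⟨⟨x', y'⟩, hS', hv'⟩ | ⟨⟨⟨x', y'⟩, b'⟩, he', hs', ht', hw'⟩
    · refine ⟨(x, y), hS, ?_⟩
      simp only [pp, Prod.mk.injEq] at hv hv'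
      rw [show x = x' by omega, show y = y' by omega]
      exact hS'
    · simp only [pp, Prod.mk.injEq] at hv
      cases b' <;> simp [tc] at hw' <;> omega
  · rcases h2 with ⟨⟨x', y'⟩, hS', hv'⟩ | ⟨⟨⟨x', y'⟩, b'⟩, he', hs', ht', hw'⟩
    · simp only [pp, Prod.mk.injEq] at hv'
      cases b <;> simp [tc] at hw <;> omega
    · cases b <;> cases b' <;> simp [tc] at hw hw' hs ht hs' ht'
      · refine ⟨(x, y), hs, ?_⟩
        rw [show x = x' by omega, show y = y' by omega]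
        exact hs'
      · by_cases hxy : x = x' ∧ y = y'
        · exact ⟨(x, y), hs, by rw [hxy.1, hxy.2]; exact hs'⟩
        · refine ⟨(x + 1, y), ht, ?_⟩
          rw [show x + 1 = x' by omega, show y = y' + 1 by omega]
          exact ht'
      · by_cases hxy : x = x' ∧ y = y'
        · exact ⟨(x, y), hs, by rw [hxy.1, hxy.2]; exact hs'⟩
        · refine ⟨(x, y + 1), ht, ?_⟩
          rw [show x = x' + 1 by omega, show y + 1 = y' by omega]
          exact ht'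
      · refine ⟨(x, y), hs, ?_⟩
        rw [show x = x' by omega, show y = y' by omega]
        exact hs'

/-- a path runs through points joined to its origin -/
theorem oc_self {z : Cfz} {S : Set P2} {u v : P2} (h : OC z S u v) :
    OC z {w | OC z S u w} u v := by
  obtain ⟨hu, h⟩ := h
  refine ⟨OC.refl hu, ?_⟩
  induction h with
  | refl => exact .refl
  | tail h3 h4 ih => exact ih.tail ⟨h4.1, ⟨hu, h3⟩, ⟨hu, h3.tail h4⟩⟩

/-- **Meeting lemma at the wall**: a wall-to-wall path of the half annulus `a ≤ hd ≤ b` meets every path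
from `{hd < a}` to `{b < hd}`. -/
theorem wall_meet {z : Cfz} {S S' : Set P2} {k i j a b L : ℤ} {u v : P2}
    (h1 : OC z S (i, i) (j, j)) (h2 : OC z S' u v) (hi : 2 * i ≤ 2 * k - a) (hj : 2 * k + a ≤ 2 * j)
    (hS : ∀ p ∈ S, 0 ≤ mY p ∧ a ≤ hd k p ∧ hd k p ≤ b) (hu : hd k u < a) (hv : b < hd k v)
    (hS' : ∀ p ∈ S', -L ≤ mX p ∧ mX p ≤ L ∧ 0 ≤ mY p ∧ mY p ≤ L) :
    ∃ w, OC z S (i, i) w ∧ OC z S' u w := by
  have hu0 := hS' u h2.left
  have hv0 := hS' v h2.right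
  have hi0 := hS _ h1.left
  have hj0 := hS _ h1.right
  have hu1 := hd_le.1 (show hd k u ≤ a - 1 by omega)
  have hi1 := hd_le.1 hi0.2.2
  have hj1 := hd_le.1 hj0.2.2
  have hv1 : mX v < 2 * k - b ∨ 2 * k + b < mX v ∨ b < mY v := by
    by_contra h
    have : hd k v ≤ b := hd_le.2 (by omega)
    omega
  have hb1 := le_abs_self b
  have hb0 := abs_nonneg b
  have hk1 := neg_abs_le k
  have hk0 := le_abs_self k
  simp only [mX, mY] at hu0 hv0 hi1 hj1 hu1 hv1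
  obtain ⟨M, hM⟩ : ∃ M : ℤ, M = 2 * L + 2 * |b| + 4 * |k| + 10 := ⟨_, rfl⟩
  set T1 : Set P2 := {w | OC z S (i, i) w} with hT1
  set T2 : Set P2 := {w | OC z S' u w} with hT2
  have g1 : OC z T1 (i, i) (j, j) := oc_self h1
  have g2 : OC z T2 u v := oc_self h2
  have hT1S : ∀ p ∈ T1, 0 ≤ mY p ∧ a ≤ hd k p ∧ hd k p ≤ b := fun p hp => hS p (OC.right hp)
  have hT2S : ∀ p ∈ T2, -L ≤ mX p ∧ mX p ≤ L ∧ 0 ≤ mY p ∧ mY p ≤ L := fun p hp => hS' p (OC.right hp)
  set E1 : Set P2 := {p | (p.2 = -1 ∧ ((-M ≤ p.1 ∧ p.1 ≤ 4 * i + 1) ∨ (4 * j + 1 ≤ p.1 ∧ p.1 ≤ M))) ∨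
    (p.2 = 0 ∧ (p.1 = 4 * i + 1 ∨ p.1 = 4 * j + 1))} with hE1
  set E2 : Set P2 := {p | (p.1 = 2 * (u.1 + u.2) + 1 ∧ -3 ≤ p.2 ∧ p.2 < 2 * (u.2 - u.1) + 1) ∨
    (p.1 = 2 * (v.1 + v.2) + 1 ∧ 2 * (v.2 - v.1) + 1 < p.2 ∧ p.2 ≤ M)} with hE2
  have ppi : pp (i, i) = (4 * i + 1, 1) := by simp [pp]; ring
  have ppj : pp (j, j) = (4 * j + 1, 1) := by simp [pp]; ring
  have hi2 : ((4 * i + 1, 1) : P2) ∈ MP z T1 ∪ E1 := Or.inl (ppi ▸ (oc_mp g1).left)
  have hj2 : ((4 * j + 1, 1) : P2) ∈ MP z T1 ∪ E1 := Or.inl (ppj ▸ (oc_mp g1).right)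
  have w1 : Walk (MP z T1 ∪ E1) (-M, -1) (4 * i + 1, -1) :=
    hwalk' (-1) (by omega) fun x hx1 hx2 => Or.inr (Or.inl ⟨rfl, Or.inl ⟨hx1, hx2⟩⟩)
  have vk : ∀ c : ℤ, (c = 4 * i + 1 ∨ c = 4 * j + 1) → ((c, 1) : P2) ∈ MP z T1 ∪ E1 →
      Walk (MP z T1 ∪ E1) (c, -1) (c, 1) := by
    intro c hc hc1
    refine vwalk' c (by norm_num) fun y hy1 hy2 => ?_
    have : y = -1 ∨ y = 0 ∨ y = 1 := by omega
    rcases this with rfl | rfl | rfl
    · refine Or.inr (Or.inl ⟨rfl, ?_⟩)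
      simp only
      omega
    · exact Or.inr (Or.inr ⟨rfl, hc⟩)
    · exact hc1
  have w2 := vk _ (Or.inl rfl) hi2
  have w3 : Walk (MP z T1 ∪ E1) (4 * i + 1, 1) (4 * j + 1, 1) := by
    have := oc_mp g1
    rw [ppi, ppj] at this
    exact this.mono Set.subset_union_left
  have w4 := (vk _ (Or.inr rfl) hj2).symm
  have w5 : Walk (MP z T1 ∪ E1) (4 * j + 1, -1) (M, -1) :=
    hwalk' (-1) (by omega) fun x hx1 hx2 => Or.inr (Or.inl ⟨rfl, Or.inr ⟨hx1, hx2⟩⟩)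
  have v2 : Walk (MP z T2 ∪ E2) (2 * (u.1 + u.2) + 1, 2 * (u.2 - u.1) + 1)
      (2 * (v.1 + v.2) + 1, 2 * (v.2 - v.1) + 1) := (oc_mp g2).mono Set.subset_union_left
  have v1 : Walk (MP z T2 ∪ E2) (2 * (u.1 + u.2) + 1, -3)
      (2 * (u.1 + u.2) + 1, 2 * (u.2 - u.1) + 1) := by
    refine vwalk' _ (by omega) fun y hy1 hy2 => ?_
    rcases eq_or_lt_of_le hy2 with rfl | hy3
    · exact v2.left
    · exact Or.inr (Or.inl ⟨rfl, hy1, hy3⟩)
  have v3 : Walk (MP z T2 ∪ E2) (2 * (v.1 + v.2) + 1, 2 * (v.2 - v.1) + 1)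
      (2 * (v.1 + v.2) + 1, M) := by
    refine vwalk' _ (by omega) fun y hy1 hy2 => ?_
    rcases eq_or_lt_of_le hy1 with rfl | hy3
    · exact v2.right
    · exact Or.inr (Or.inr ⟨rfl, hy3, hy2⟩)
  obtain ⟨p, hp1, hp2⟩ := cross (((w1.trans w2).trans w3).trans (w4.trans w5))
    ((v1.trans v2).trans v3) (by
      rintro ⟨x, y⟩ (hw | hw)
      · have := mp_bd (a := 2 * k - b) (b := 2 * k + b) (c := 0) (d := b) (by
          intro q hq
          have h3 := hT1S q hq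
          have h4 := hd_le.1 h3.2.2
          exact ⟨h4.1, h4.2.1, h3.1, h4.2.2⟩) hw
        simp only at this ⊢
        omega
      · simp only [hE1, Set.mem_ofPred_eq] at hw
        simp only
        omega) (by
      rintro ⟨x, y⟩ (hw | hw)
      · have := mp_bd hT2S hw
        simp only at this ⊢
        omega
      · simp only [hE2, Set.mem_ofPred_eq] at hw
        simp only
        omega)
  obtain ⟨x, y⟩ := p
  rcases hp1 with hp1 | hp1
  · rcases hp2 with hp2 | hp2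
    · obtain ⟨w, hw1, hw2⟩ := mp_common hp1 hp2
      exact ⟨w, hw1, hw2⟩
    · exfalso
      simp only [hE2, Set.mem_ofPred_eq] at hp2
      rcases hp2 with ⟨h3, h4, h5⟩ | ⟨h3, h4, h5⟩
      · rcases hp1 with ⟨⟨q1, q2⟩, hq, hq1⟩ | ⟨⟨⟨q1, q2⟩, c⟩, _, _, _, hq1⟩
        · have h6 := hT1S _ hq
          simp only [pp, Prod.mk.injEq] at hq1
          have h7 : hd k (q1, q2) ≤ a - 1 := hd_le.2 (by simp only [mX, mY] at h6 ⊢; omega)
          omega
        · cases c <;> simp [tc] at hq1 <;> omega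
      · have := mp_bd (a := 2 * k - b) (b := 2 * k + b) (c := 0) (d := b) (by
          intro q hq
          have h3 := hT1S q hq
          have h4 := hd_le.1 h3.2.2
          exact ⟨h4.1, h4.2.1, h3.1, h4.2.2⟩) hp1
        simp only at this
        omega
  · exfalso
    simp only [hE1, Set.mem_ofPred_eq] at hp1
    rcases hp2 with hp2 | hp2
    · have := mp_bd hT2S hp2
      simp only at this
      omega
    · simp only [hE2, Set.mem_ofPred_eq] at hp2
      omega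

/-! ### half annulus crossings -/

/-- primal crossing of the half annulus: from medial distance `≤ s` to distance `≥ n` -/
def PX (k : ℤ) (s n : ℕ) : Set Cfz := EV (HB k n) {v | hd k v ≤ s} (Far k n)

theorem mem_PX {k : ℤ} {s n : ℕ} {z : Cfz} :
    z ∈ PX k s n ↔ ∃ u, hd k u ≤ s ∧ ∃ v ∈ Far k n, OC z (HB k n) u v := Iff.rfl

theorem PX_dep (k : ℤ) (s n : ℕ) : Dep (EI (HB k n)) (PX k s n) := Hp814.ev_dep _ _ _

theorem PX_inc (k : ℤ) (s n : ℕ) : Inc (PX k s n) := Hp814.ev_inc _ _ _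

theorem hd_shift {k j : ℤ} {v : P2} : hd k (v - (j, j)) = hd (k + j) v := by
  unfold hd mX mY
  simp only [Prod.fst_sub, Prod.snd_sub]
  congr 1
  · congr 1; ring
  · ring

theorem mY_shift {j : ℤ} {v : P2} : mY (v - (j, j)) = mY v := by
  simp only [mY, Prod.fst_sub, Prod.snd_sub]; ring

theorem mX_shift {j : ℤ} {v : P2} : mX (v - (j, j)) = mX v - 2 * j := by
  simp only [mX, Prod.fst_sub, Prod.snd_sub]; ring

theorem HB_shift {k j : ℤ} {n : ℕ} {v : P2} : v - (j, j) ∈ HB k n ↔ v ∈ HB (k + j) n := by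
  rw [mem_HB, mem_HB, mX_shift, mY_shift]; omega

theorem Far_shift {k j : ℤ} {n : ℕ} {v : P2} : v - (j, j) ∈ Far k n ↔ v ∈ Far (k + j) n := by
  rw [mem_Far, mem_Far, mX_shift, mY_shift]; omega

theorem ev_shift (a : P2) (S A B : Set P2) :
    shiftZ a ⁻¹' EV S A B = EV {w | w - a ∈ S} {w | w - a ∈ A} {w | w - a ∈ B} := by
  ext z
  constructor
  · rintro ⟨u, hu, v, hv, h⟩
    exact ⟨u + a, by simpa using hu, v + a, by simpa using hv, oc_shift a h⟩
  · rintro ⟨u, hu, v, hv, h⟩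
    refine ⟨u - a, hu, v - a, hv, ?_⟩
    have h1 : shiftZ (-a) (shiftZ a z) = z := by
      rw [shiftZ_shiftZ, neg_add_cancel, shiftZ_zero]
    rw [← h1] at h
    have h2 := oc_shift (-a) h
    simpa [sub_eq_add_neg] using h2

theorem PX_shift (k j : ℤ) (s n : ℕ) : shiftZ ((j, j) : P2) ⁻¹' PX k s n = PX (k + j) s n := by
  unfold PX
  rw [ev_shift]
  simp only [hd_shift, Far_shift, HB_shift, Set.mem_ofPred_eq, Finset.mem_coe, Set.ofPred_mem_eq]
  rfl

theorem PX_prob (p : I) (k : ℤ) (s n : ℕ) : (nu p).real (PX k s n) = (nu p).real (PX 0 s n) := by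
  rw [← nu_shift p (k, k) (PX_dep 0 s n).measurableSet, PX_shift, zero_add]

/-! ### wall-to-wall half circuits -/

/-- vertices of the half annulus `a ≤ hd k ≤ 4 a` -/
def HS (k : ℤ) (a : ℕ) : Finset P2 := (HB k (4 * a)).filter fun v => (a : ℤ) ≤ hd k v

theorem mem_HS {k : ℤ} {a : ℕ} {v : P2} :
    v ∈ HS k a ↔ 0 ≤ mY v ∧ (a : ℤ) ≤ hd k v ∧ hd k v ≤ 4 * a := by
  unfold HS
  rw [Finset.mem_filter, mem_HB, hd_le]
  push_cast
  tauto

/-- open wall-to-wall half circuit around the wall site `(k,k)` -/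
def HC (k : ℤ) (a : ℕ) : Set Cfz :=
  EV (HS k a) {v | mY v = 0 ∧ mX v ≤ 2 * k - 2 * a} {v | mY v = 0 ∧ 2 * k + 2 * a ≤ mX v}

theorem HC_dep (k : ℤ) (a : ℕ) : Dep (EI (HS k a)) (HC k a) := Hp814.ev_dep _ _ _

theorem HC_inc (k : ℤ) (a : ℕ) : Inc (HC k a) := Hp814.ev_inc _ _ _

theorem mem_HC {k : ℤ} {a : ℕ} {z : Cfz} (h : z ∈ HC k a) :
    ∃ i j : ℤ, 2 * i ≤ 2 * k - 2 * a ∧ 2 * k + 2 * a ≤ 2 * j ∧ OC z (HS k a) (i, i) (j, j) := by
  obtain ⟨⟨u1, u2⟩, ⟨hu1, hu2⟩, ⟨v1, v2⟩, ⟨hv1, hv2⟩, h⟩ := h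
  simp only [mX, mY] at hu1 hu2 hv1 hv2
  have e1 : u2 = u1 := by omega
  have e2 : v2 = v1 := by omega
  subst e1 e2
  exact ⟨u2, v2, by omega, by omega, h⟩

theorem rect_fin (a b c d : ℤ) : Rect a b c d = ((Finset.Icc a b ×ˢ Finset.Icc c d : Finset P2) : Set P2) := by
  ext v
  simp only [mem_rect, Finset.coe_product, Finset.coe_Icc, Set.mem_prod, Set.mem_Icc]
  tauto

theorem lrc_dep (a b c d : ℤ) :
    Dep (EI (Finset.Icc a b ×ˢ Finset.Icc c d)) {z : Cfz | LRc z a b c d} := by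
  rw [setOf_LRc, rect_fin]
  exact Hp814.ev_dep _ _ _

theorem btc_dep (a b c d : ℤ) :
    Dep (EI (Finset.Icc a b ×ˢ Finset.Icc c d)) {z : Cfz | BTc z a b c d} := by
  rw [setOf_BTc, rect_fin]
  exact Hp814.ev_dep _ _ _

theorem lrc_inc (a b c d : ℤ) : Inc {z : Cfz | LRc z a b c d} := by
  rw [setOf_LRc]; exact Hp814.ev_inc _ _ _

theorem btc_inc (a b c d : ℤ) : Inc {z : Cfz | BTc z a b c d} := by
  rw [setOf_BTc]; exact Hp814.ev_inc _ _ _

theorem HC_sub (k : ℤ) (a : ℕ) (_ha : 1 ≤ a) :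
    {z : Cfz | BTc z (k - 2 * a) (k - a) (k - 2 * a) (k + 2 * a)} ∩
      {z : Cfz | LRc z (k - 2 * a) (k + 2 * a) (k + a) (k + 2 * a)} ⊆ HC k a := by
  rintro z ⟨⟨u, v, hu, hv, h1⟩, ⟨u', v', hu', hv', h2⟩⟩
  obtain ⟨w, hw1, hw2⟩ := glue h2 h1
    (by rintro p ⟨h3, h4, h5, h6⟩; constructor <;> omega)
    (by rintro p ⟨h3, h4, h5, h6⟩; constructor <;> omega)
  have r1 := h1.left
  have r2 := h2.right
  have r3 := hw1.right
  have r4 := hw2.right
  rw [mem_rect] at r1 r2 r3 r4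
  have hN : ∀ a b : P2, Nbr a b → mY b ≤ mY a + 1 := by
    intro a b hab
    unfold Nbr at hab; simp only [mY]; omega
  obtain ⟨p, hp, h3, -⟩ := last_exit mY hN 0 hw2 (by simp only [mY]; omega)
    (by simp only [mY]; omega)
  obtain ⟨q, hq, h4, -⟩ := last_exit mY hN 0 (h2.symm.trans hw1)
    (by simp only [mY]; omega) (by simp only [mY]; omega)
  have hp1 := h3.left.1
  have hq1 := h4.left.1
  rw [mem_rect] at hp1 hq1
  have key : ∀ x : P2, ((k - 2 * a ≤ x.1 ∧ x.1 ≤ k - a ∧ k - 2 * a ≤ x.2 ∧ x.2 ≤ k + 2 * a) ∨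
      (k - 2 * a ≤ x.1 ∧ x.1 ≤ k + 2 * a ∧ k + a ≤ x.2 ∧ x.2 ≤ k + 2 * a)) → 0 ≤ mY x →
      x ∈ HS k a := by
    intro x hx hx0
    rw [mem_HS]
    refine ⟨hx0, ?_, ?_⟩
    · rw [le_hd, mem_Far]
      simp only [mX, mY] at hx0 ⊢
      omega
    · rw [hd_le]
      simp only [mX, mY] at hx0 ⊢
      omega
  refine ⟨p, ⟨hp, ?_⟩, q, ⟨hq, ?_⟩, (h3.monoS ?_).trans (h4.symm.monoS ?_)⟩
  · simp only [mX, mY] at hp ⊢; omega
  · simp only [mX, mY] at hq ⊢; omega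
  · rintro x ⟨hx1, hx2⟩
    exact key x (Or.inl hx1) hx2
  · rintro x ⟨hx1, hx2⟩
    exact key x (Or.inr hx1) hx2

/-- **RSW for half circuits at the medial wall** -/
theorem HC_prob : ∃ c : ℝ, 0 < c ∧ ∀ (k : ℤ) (a : ℕ), 1 ≤ a → c ≤ (nu hf).real (HC k a) := by
  obtain ⟨c, hc, h1⟩ := rsw_long 4
  refine ⟨c * c, by positivity, fun k a ha => ?_⟩
  have h2 := harris (fun _ : Edge => hf) (btc_dep (k - 2 * a) (k - a) (k - 2 * a) (k + 2 * a))
    (lrc_dep (k - 2 * a) (k + 2 * a) (k + a) (k + 2 * a)) (btc_inc _ _ _ _) (lrc_inc _ _ _ _)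
  change (nu hf).real _ * (nu hf).real _ ≤ (nu hf).real _ at h2
  rw [bt_eq_xpr, lr_eq_xpr] at h2
  refine le_trans ?_ (h2.trans (measureReal_mono (HC_sub k a ha) (measure_ne_top _ _)))
  have h3 := h1 a ha
  have e1 : k + 2 * (a : ℤ) - (k - 2 * a) = ((4 : ℕ) : ℤ) * a := by push_cast; ring
  have e2 : k - (a : ℤ) - (k - 2 * a) = a := by ring
  have e3 : k + 2 * (a : ℤ) - (k + a) = a := by ring
  rw [e1, e2, e3]
  exact mul_le_mul h3 h3 hc.le (hc.le.trans h3)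

/-- every crossing of the half annulus meets the half circuit -/
theorem HC_meet {z : Cfz} {k i j : ℤ} {a n : ℕ} {k' : ℤ} {u v : P2}
    (h1 : OC z (HS k a) (i, i) (j, j)) (hi : 2 * i ≤ 2 * k - 2 * a) (hj : 2 * k + 2 * a ≤ 2 * j)
    (h2 : OC z (HB k' n) u v) (hu : hd k u < a) (hv : 4 * (a : ℤ) < hd k v) :
    ∃ w, OC z (HS k a) (i, i) w ∧ OC z (HB k' n) u w := by
  refine wall_meet (k := k) (a := a) (b := 4 * a) (L := 2 * |k'| + n) h1 h2 (by omega) (by omega)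
    ?_ hu hv ?_
  · intro p hp
    exact mem_HS.1 (Finset.mem_coe.1 hp)
  · intro p hp
    have := mem_HB.1 (Finset.mem_coe.1 hp)
    have h3 := neg_abs_le k'
    have h4 := le_abs_self k'
    omega

theorem HS_sub {k k' : ℤ} {a N : ℕ} (h : 2 * |k - k'| + 4 * a ≤ N) : HS k a ⊆ HB k' N := by
  intro v hv
  rw [mem_HS, hd_le] at hv
  rw [mem_HB]
  rcases abs_cases (k - k') with h4 | h4 <;> omega

theorem HB_sub {k k' : ℤ} {n N : ℕ} (h : 2 * |k - k'| + n ≤ N) : HB k n ⊆ HB k' N := by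
  intro v hv
  rw [mem_HB] at hv ⊢
  rcases abs_cases (k - k') with h4 | h4 <;> omega

/-! ### extension of arms -/

theorem PA_ext_sub {k : ℤ} {a n s N : ℕ} (han : 4 * a + 1 ≤ n) (hs : s < a) (hN : n ≤ N) :
    PA k n ∩ HC k a ∩ PX k s N ⊆ PA k N := by
  rintro z ⟨⟨h1, h2⟩, h3⟩
  obtain ⟨v, hv, h1⟩ := mem_PA.1 h1
  obtain ⟨i, j, hi, hj, h2⟩ := mem_HC h2
  obtain ⟨u, hu, v', hv', h3⟩ := mem_PX.1 h3
  have hv1 := le_hd.2 hv
  have hv2 := le_hd.2 hv'
  obtain ⟨w1, hw1, hw1'⟩ := HC_meet h2 hi hj h1 (by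
    have : hd k (k, k) ≤ 0 := hd_le.2 (by simp only [mX, mY]; omega)
    omega) (by omega)
  obtain ⟨w2, hw2, hw2'⟩ := HC_meet h2 hi hj h3 (by omega) (by omega)
  have s1 : (HB k n : Set P2) ⊆ HB k N := Finset.coe_subset.2 (HB_sub (by simpa using hN))
  have s2 : (HS k a : Set P2) ⊆ HB k N := Finset.coe_subset.2 (HS_sub (by
    rw [sub_self, abs_zero]; omega))
  exact mem_PA.2 ⟨v', hv', ((((hw1'.monoS s1).trans (hw1.monoS s2).symm).trans
    (hw2.monoS s2)).trans hw2'.symm).trans h3⟩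

/-! ### bounds for half annulus crossings -/

theorem PX_sub_arm (k : ℤ) (s n : ℕ) : PX k s n ⊆ ArmX (k, k) s (n / 2) := by
  rintro z ⟨u, hu, v, hv, h⟩
  have hu0 := (mem_HB.1 (Finset.mem_coe.1 h.left)).2.2.1
  have hu1 := hd_le.1 hu
  rw [mem_Far] at hv
  simp only [mX, mY] at hu0 hu1 hv
  refine ⟨u, v, ?_, ?_, ?_, oc_rch h⟩
  · rw [abs_le]; simp only; omega
  · rw [abs_le]; simp only; omega
  · simp only
    rw [le_abs, le_abs]
    omega

/-- **Half annulus crossing, upper bound** -/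
theorem PX_upper : ∃ C a : ℝ, 0 < C ∧ 0 < a ∧ ∀ (k : ℤ) (s n : ℕ), 1 ≤ s → s ≤ n →
    (nu hf).real (PX k s n) ≤ C * ((s : ℝ) / n) ^ a := by
  obtain ⟨C, a, hC, ha, harm⟩ := arm_half
  refine ⟨max C 1 * 3 ^ a, a, by positivity, ha, fun k s n hs hn => ?_⟩
  have hs0 : (0 : ℝ) < s := by exact_mod_cast hs
  have hn0 : (0 : ℝ) < n := hs0.trans_le (by exact_mod_cast hn)
  rw [mul_assoc, ← Real.mul_rpow (by norm_num) (by positivity)]
  by_cases h : s ≤ n / 2
  · refine (measureReal_mono (PX_sub_arm k s n)).trans ((harm _ s (n / 2) hs h).trans ?_)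
    refine mul_le_mul (le_max_left _ _) ?_ (by positivity) (by positivity)
    refine Real.rpow_le_rpow (by positivity) ?_ ha.le
    have h1 : (0 : ℝ) < ((n / 2 : ℕ) : ℝ) := by
      have : 0 < n / 2 := by omega
      exact_mod_cast this
    rw [div_le_iff₀ h1]
    have h2 : (n : ℝ) ≤ 3 * ((n / 2 : ℕ) : ℝ) := by
      have : n ≤ 3 * (n / 2) := by omega
      exact_mod_cast this
    calc (s : ℝ) = s / n * n := by field_simp
      _ ≤ s / n * (3 * ((n / 2 : ℕ) : ℝ)) := by gcongr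
      _ = 3 * (s / n) * ((n / 2 : ℕ) : ℝ) := by ring
  · refine measureReal_le_one.trans ?_
    have h1 : (1 : ℝ) ≤ 3 * (s / n) := by
      rw [← mul_div_assoc, le_div_iff₀ hn0, one_mul]
      have : n ≤ 3 * s := by omega
      exact_mod_cast this
    calc (1 : ℝ) ≤ (3 * (s / n)) ^ a := Real.one_le_rpow h1 ha.le
      _ ≤ max C 1 * (3 * (s / n)) ^ a := le_mul_of_one_le_left (by positivity) (le_max_right _ _)

/-- **One arm upper bound** -/
theorem PA_upper : ∃ C a : ℝ, 0 < C ∧ 0 < a ∧ ∀ (k : ℤ) (n : ℕ), 1 ≤ n →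
    (nu hf).real (PA k n) ≤ C * (1 / (n : ℝ)) ^ a := by
  obtain ⟨C, a, hC, ha, h⟩ := PX_upper
  refine ⟨C, a, hC, ha, fun k n hn => ?_⟩
  have h1 := h k 1 n le_rfl hn
  rw [Nat.cast_one] at h1
  refine le_trans (measureReal_mono ?_) h1
  intro z hz
  obtain ⟨v, hv, h2⟩ := mem_PA.1 hz
  exact ⟨(k, k), hd_le.2 (by simp only [mX, mY]; omega), v, hv, h2⟩

theorem PA_sub_PX {k c : ℤ} {n s m : ℕ} (h1 : 2 * |k - c| ≤ s) (h2 : 2 * |k - c| + m ≤ n) (h3 : s ≤ m) :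
    PA k n ⊆ PX c s m := by
  intro z hz
  obtain ⟨v, hv, h4⟩ := pa_shrink hz h2 (by omega)
  refine ⟨(k, k), ?_, v, hv, h4⟩
  show hd c (k, k) ≤ s
  rw [hd_le]
  simp only [mX, mY]
  rcases abs_cases (k - c) with h4 | h4 <;> omega

theorem harris_px (p : I) (k : ℤ) (s n : ℕ) :
    (nu p).real (PX k s n ∩ dual ⁻¹' PX k s n) ≤
      (nu p).real (PX k s n) * (nu (σ p)).real (PX k s n) := by
  have h1 := harris_opp (fun _ : Edge => p) (PX_dep k s n) (PX_dep k s n).dual (PX_inc k s n)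
    (B := dual ⁻¹' PX k s n) (by
      intro z z' h hz'
      refine PX_inc k s n _ _ ?_ hz'
      intro e he
      rw [dual_eq_true] at he ⊢
      by_contra h2
      rw [Bool.not_eq_false] at h2
      rw [h _ h2] at he
      exact absurd he (by decide))
  have h2 := nu_dual p (PX_dep k s n).measurableSet
  change (nu p).real _ ≤ (nu p).real _ * (nu p).real _ at h1
  rw [h2] at h1
  exact h1

/-- **Half annulus crossing, lower bound** -/
theorem PX_lower : ∃ c : ℝ, 0 < c ∧ ∀ (k : ℤ) (s n : ℕ), 1 ≤ s → s ≤ n →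
    c * ((s : ℝ) / n) ^ (1 / 2 : ℝ) ≤ (nu hf).real (PX k s n) := by
  obtain ⟨c0, hc0, hE⟩ := E0_prob
  obtain ⟨c1, hc1, hpa⟩ := pa_lower
  refine ⟨min (Real.sqrt (c0 / 72)) (c1 / 2), by positivity, fun k s n hs hn => ?_⟩
  have hs0 : (0 : ℝ) < s := by exact_mod_cast hs
  have hn1 : 1 ≤ n := hs.trans hn
  have hn0 : (0 : ℝ) < n := by exact_mod_cast hn1
  rw [PX_prob]
  by_cases h4 : s < 4
  · have h5 := hpa 0 n hn1
    have h6 : PA 0 n ⊆ PX 0 s n := PA_sub_PX (by simp) (by simp) hn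
    refine le_trans ?_ (h5.trans (measureReal_mono h6 (measure_ne_top _ _)))
    have h7 : ((s : ℝ) / n) ^ (1 / 2 : ℝ) ≤ 2 * (n : ℝ) ^ (-(1 / 2 : ℝ)) := by
      rw [Real.div_rpow hs0.le hn0.le, Real.rpow_neg hn0.le, div_eq_mul_inv]
      refine mul_le_mul_of_nonneg_right ?_ (by positivity)
      rw [← Real.sqrt_eq_rpow, Real.sqrt_le_left (by norm_num)]
      have : (s : ℝ) ≤ 4 := by exact_mod_cast h4.le
      linarith
    calc min (Real.sqrt (c0 / 72)) (c1 / 2) * ((s : ℝ) / n) ^ (1 / 2 : ℝ)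
        ≤ c1 / 2 * (2 * (n : ℝ) ^ (-(1 / 2 : ℝ))) := by
          refine mul_le_mul (min_le_right _ _) h7 (by positivity) (by positivity)
      _ = c1 * (n : ℝ) ^ (-(1 / 2 : ℝ)) := by ring
  rw [not_lt] at h4
  obtain ⟨t, ht⟩ : ∃ t : ℕ, t = s / 4 := ⟨_, rfl⟩
  have ht1 : 1 ≤ t := by omega
  have ht4 : 4 * t ≤ s := by omega
  have ht8 : s ≤ 8 * t := by omega
  set r := 2 * n with hr
  set B : Finset ℤ := Finset.Icc ((-3 * (r : ℤ)) / t) ((r : ℤ) / t) with hB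
  have hsub : E0 r ⊆ ⋃ j ∈ B, (PX (t * j) s n ∩ dual ⁻¹' PX (t * j) s n) := by
    refine (E0_sub (by omega)).trans ?_
    intro z hz
    simp only [Set.mem_iUnion] at hz
    obtain ⟨k, hk, hz1, hz2⟩ := hz
    rw [Finset.mem_Ioc] at hk
    have htz : (0 : ℤ) < t := by exact_mod_cast ht1
    have e1 := Int.mul_ediv_add_emod k t
    have e2 := Int.emod_nonneg k htz.ne'
    have e3 := Int.emod_lt_of_pos k htz
    refine Set.mem_biUnion (x := k / t) ?_ ⟨?_, ?_⟩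
    · rw [hB, Finset.coe_Icc, Set.mem_Icc]
      exact ⟨Int.ediv_le_ediv htz hk.1.le, Int.ediv_le_ediv htz hk.2⟩
    · refine PA_sub_PX ?_ ?_ hn hz1
      · rcases abs_cases (k - t * (k / t)) with h | h <;> omega
      · rcases abs_cases (k - t * (k / t)) with h | h <;> omega
    · refine PA_sub_PX ?_ ?_ hn hz2
      · rcases abs_cases (k - 1 - t * (k / t)) with h | h <;> omega
      · rcases abs_cases (k - 1 - t * (k / t)) with h | h <;> omega
  have h5 : c0 ≤ ∑ j ∈ B, (nu hf).real (PX (t * j) s n ∩ dual ⁻¹' PX (t * j) s n) :=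
    ((hE r (by omega)).trans (measureReal_mono hsub (measure_ne_top _ _))).trans
      (measureReal_biUnion_finset_le _ _)
  have h6 : ∀ j ∈ B, (nu hf).real (PX (t * j) s n ∩ dual ⁻¹' PX (t * j) s n) ≤
      (nu hf).real (PX 0 s n) ^ 2 := by
    intro j _
    have := harris_px hf (t * j) s n
    rw [sigma_hf, PX_prob] at this
    rw [sq]
    exact this
  have h7 := h5.trans (Finset.sum_le_card_nsmul _ _ _ h6)
  rw [nsmul_eq_mul] at h7
  have hcard : (B.card : ℤ) * t ≤ 4 * r + 2 * t := by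
    have htz : (0 : ℤ) < t := by exact_mod_cast ht1
    rw [hB, Int.card_Icc]
    have e1 := Int.ediv_mul_le (r : ℤ) htz.ne'
    have e2 := Int.lt_ediv_add_one_mul_self (-3 * (r : ℤ)) htz
    have e3 : -3 * (r : ℤ) / t ≤ (r : ℤ) / t := Int.ediv_le_ediv htz (by omega)
    rw [Int.toNat_of_nonneg (by omega)]
    nlinarith
  have hcard' : (B.card : ℝ) * t ≤ 9 * n := by
    have e1 : (B.card : ℝ) * t ≤ 4 * r + 2 * t := by exact_mod_cast hcard
    have e2 : (r : ℝ) = 2 * n := by rw [hr]; push_cast; ring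
    have e3 : (4 : ℝ) * t ≤ n := by exact_mod_cast ht4.trans hn
    have e4 : (0 : ℝ) ≤ t := by positivity
    rw [e2] at e1
    linarith
  have hP0 : 0 ≤ (nu hf).real (PX 0 s n) := measureReal_nonneg
  have ht0 : (0 : ℝ) < t := by exact_mod_cast ht1
  have h8 : c0 * t ≤ 9 * n * (nu hf).real (PX 0 s n) ^ 2 := by
    calc c0 * t ≤ (B.card : ℝ) * (nu hf).real (PX 0 s n) ^ 2 * t :=
          mul_le_mul_of_nonneg_right h7 ht0.le
      _ = (B.card : ℝ) * t * (nu hf).real (PX 0 s n) ^ 2 := by ring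
      _ ≤ 9 * n * (nu hf).real (PX 0 s n) ^ 2 := mul_le_mul_of_nonneg_right hcard' (by positivity)
  have h9 : c0 / 72 * (s / n) ≤ (nu hf).real (PX 0 s n) ^ 2 := by
    have e1 : (s : ℝ) ≤ 8 * t := by exact_mod_cast ht8
    rw [← mul_div_assoc, div_le_iff₀ hn0]
    nlinarith
  have h10 := Real.sqrt_le_sqrt h9
  rw [Real.sqrt_sq hP0, Real.sqrt_mul (by positivity)] at h10
  refine le_trans ?_ h10
  rw [← Real.sqrt_eq_rpow]
  exact mul_le_mul_of_nonneg_right (min_le_left _ _) (Real.sqrt_nonneg _)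

/-- **Extension of arms at the wall** -/
theorem pa_ext (κ : ℕ) (hκ : 1 ≤ κ) : ∃ c : ℝ, 0 < c ∧ ∀ (k : ℤ) (n : ℕ), 1 ≤ n →
    c * (nu hf).real (PA k n) ≤ (nu hf).real (PA k (κ * n)) := by
  obtain ⟨c1, hc1, hpa⟩ := pa_lower
  obtain ⟨c2, hc2, hHC⟩ := HC_prob
  obtain ⟨c3, hc3, hPX⟩ := PX_lower
  have hκ0 : (0 : ℝ) < κ := by exact_mod_cast hκ
  refine ⟨min (c1 * ((12 * κ : ℕ) : ℝ) ^ (-(1 / 2 : ℝ)))
    (c2 * (c3 * (1 / ((12 * κ : ℕ) : ℝ)) ^ (1 / 2 : ℝ))), ?_, fun k n hn => ?_⟩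
  · have : (0 : ℝ) < ((12 * κ : ℕ) : ℝ) := by exact_mod_cast (by omega : 0 < 12 * κ)
    positivity
  have hP0 : 0 ≤ (nu hf).real (PA k n) := measureReal_nonneg
  have hκ9 : (0 : ℝ) < ((12 * κ : ℕ) : ℝ) := by exact_mod_cast (by omega : 0 < 12 * κ)
  by_cases h9 : n < 9
  · have h1 : (nu hf).real (PA k (12 * κ)) ≤ (nu hf).real (PA k (κ * n)) :=
      measureReal_mono (pa_anti (by nlinarith)) (measure_ne_top _ _)
    refine le_trans ?_ ((hpa k (12 * κ) (by omega)).trans h1)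
    calc _ ≤ (c1 * ((12 * κ : ℕ) : ℝ) ^ (-(1 / 2 : ℝ))) * 1 :=
          mul_le_mul (min_le_left _ _) measureReal_le_one hP0 (by positivity)
      _ = _ := mul_one _
  rw [not_lt] at h9
  obtain ⟨a, ha⟩ : ∃ a : ℕ, a = (n - 1) / 4 := ⟨_, rfl⟩
  have ha2 : 2 ≤ a := by omega
  have h1 := hHC k a (by omega)
  have hnκ : n ≤ κ * n := Nat.le_mul_of_pos_left n hκ
  have h2 := hPX k (a - 1) (κ * n) (by omega) (by omega)
  have h3 := harris (fun _ : Edge => hf) (PA_dep k n) (HC_dep k a) (PA_inc k n) (HC_inc k a)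
  have h4 := harris (fun _ : Edge => hf)
    (((PA_dep k n).mono Finset.subset_union_left).inter ((HC_dep k a).mono Finset.subset_union_right))
    (PX_dep k (a - 1) (κ * n)) ((PA_inc k n).inter (HC_inc k a)) (PX_inc _ _ _)
  change (nu hf).real _ * (nu hf).real _ ≤ (nu hf).real _ at h3
  change (nu hf).real _ * (nu hf).real _ ≤ (nu hf).real _ at h4
  have h5 : (nu hf).real (PA k n ∩ HC k a ∩ PX k (a - 1) (κ * n)) ≤ (nu hf).real (PA k (κ * n)) :=
    measureReal_mono (PA_ext_sub (by omega) (by omega) hnκ) (measure_ne_top _ _)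
  have h6 : (1 / ((12 * κ : ℕ) : ℝ)) ^ (1 / 2 : ℝ) ≤
      (((a - 1 : ℕ) : ℝ) / ((κ * n : ℕ) : ℝ)) ^ (1 / 2 : ℝ) := by
    refine Real.rpow_le_rpow (by positivity) ?_ (by norm_num)
    have hn0 : (0 : ℝ) < ((κ * n : ℕ) : ℝ) := by exact_mod_cast (by positivity : 0 < κ * n)
    rw [div_le_div_iff₀ hκ9 hn0, one_mul]
    have : κ * n ≤ (a - 1) * (12 * κ) := by
      have e1 : n ≤ 12 * (a - 1) := by omega
      calc κ * n ≤ κ * (12 * (a - 1)) := Nat.mul_le_mul_left _ e1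
        _ = (a - 1) * (12 * κ) := by ring
    exact_mod_cast this
  calc _ ≤ (c2 * (c3 * (1 / ((12 * κ : ℕ) : ℝ)) ^ (1 / 2 : ℝ))) * (nu hf).real (PA k n) :=
        mul_le_mul_of_nonneg_right (min_le_right _ _) hP0
    _ ≤ (c2 * (c3 * (((a - 1 : ℕ) : ℝ) / ((κ * n : ℕ) : ℝ)) ^ (1 / 2 : ℝ))) *
          (nu hf).real (PA k n) := by gcongr
    _ ≤ ((nu hf).real (HC k a) * (nu hf).real (PX k (a - 1) (κ * n))) * (nu hf).real (PA k n) := by
        refine mul_le_mul_of_nonneg_right ?_ hP0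
        exact mul_le_mul h1 h2 (by positivity) (hc2.le.trans h1)
    _ = (nu hf).real (PA k n) * (nu hf).real (HC k a) * (nu hf).real (PX k (a - 1) (κ * n)) := by ring
    _ ≤ (nu hf).real (PA k n ∩ HC k a) * (nu hf).real (PX k (a - 1) (κ * n)) :=
        mul_le_mul_of_nonneg_right h3 measureReal_nonneg
    _ ≤ _ := h4.trans h5

/-! ### joining wall sites -/

/-- all the wall sites of `l` are in one open cluster of the half box `HB c N` -/
def Jn (l : Finset ℤ) (c : ℤ) (N : ℕ) : Set Cfz :=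
  {z | ∀ x ∈ l, ∀ y ∈ l, OC z (HB c N) (x, x) (y, y)}

theorem Jn_sub {l : Finset ℤ} {c : ℤ} {a n N : ℕ} (hl : ∀ x ∈ l, 2 * |x - c| < a)
    (hn : 5 * a + 1 ≤ n) (hN : n + a ≤ N) :
    (⋂ x ∈ l, PA x n) ∩ HC c a ⊆ Jn l c N := by
  rintro z ⟨h1, h2⟩
  obtain ⟨i, j, hi, hj, h2⟩ := mem_HC h2
  have key : ∀ x ∈ l, OC z (HB c N) (i, i) (x, x) := by
    intro x hx
    have h3 : z ∈ PA x n := by
      simp only [Set.mem_iInter] at h1
      exact h1 x hx
    obtain ⟨v, hv, h3⟩ := mem_PA.1 h3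
    have hxl := hl x hx
    obtain ⟨w, hw1, hw2⟩ := HC_meet h2 hi hj h3 (by
        have : hd c (x, x) ≤ 2 * |x - c| := hd_le.2 (by
          simp only [mX, mY]
          rcases abs_cases (x - c) with h4 | h4 <;> omega)
        omega) (by
        have : ((4 * a + 1 : ℕ) : ℤ) ≤ hd c v := by
          rw [le_hd, mem_Far]
          rw [mem_Far] at hv
          rcases abs_cases (x - c) with h4 | h4 <;> omega
        omega)
    have s1 : (HB x n : Set P2) ⊆ HB c N := Finset.coe_subset.2 (HB_sub (by omega))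
    have s2 : (HS c a : Set P2) ⊆ HB c N := Finset.coe_subset.2 (HS_sub (by
      rw [sub_self, abs_zero]; omega))
    exact (hw1.monoS s2).trans (hw2.monoS s1).symm
  intro x hx y hy
  exact (key x hx).symm.trans (key y hy)

theorem iPA_dep (l : Finset ℤ) (n : ℕ) :
    Dep (l.biUnion fun x => EI (HB x n)) (⋂ x ∈ l, PA x n) := by
  refine Dep.iInter fun x => ?_
  by_cases hx : x ∈ l
  · simp only [hx, Set.iInter_true]
    exact (PA_dep x n).mono (Finset.subset_biUnion_of_mem (fun x => EI (HB x n)) hx)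
  · simp only [hx, Set.iInter_false]
    exact Dep.univ _

theorem iPA_inc (l : Finset ℤ) (n : ℕ) : Inc (⋂ x ∈ l, PA x n) := by
  intro z z' h hz
  simp only [Set.mem_iInter] at hz ⊢
  exact fun x hx => PA_inc x n z z' h (hz x hx)

theorem iPA_ge (p : I) (l : Finset ℤ) (n : ℕ) :
    (nu p).real (PA 0 n) ^ l.card ≤ (nu p).real (⋂ x ∈ l, PA x n) := by
  induction l using Finset.induction_on with
  | empty => simp
  | insert x l hx ih =>
    rw [Finset.card_insert_of_notMem hx, pow_succ, Finset.set_biInter_insert]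
    have h := harris (fun _ : Edge => p) (PA_dep x n) (iPA_dep l n) (PA_inc x n) (iPA_inc l n)
    change (nu p).real _ * (nu p).real _ ≤ (nu p).real _ at h
    rw [PA_prob] at h
    refine le_trans ?_ h
    rw [mul_comm]
    exact mul_le_mul_of_nonneg_left ih measureReal_nonneg

/-- **Joining lemma**: the probability that the wall sites of `l` (within distance `a/2` of `c`) are in one
cluster of the half box `HB c N` is at least `c0 * P(PA 0 n) ^ #l`, `5 a + 1 ≤ n`, `n + a ≤ N`. -/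
theorem join_ge : ∃ c0 : ℝ, 0 < c0 ∧ ∀ (l : Finset ℤ) (c : ℤ) (a n N : ℕ), 1 ≤ a →
    (∀ x ∈ l, 2 * |x - c| < a) → 5 * a + 1 ≤ n → n + a ≤ N →
    c0 * (nu hf).real (PA 0 n) ^ l.card ≤ (nu hf).real (Jn l c N) := by
  obtain ⟨c2, hc2, hHC⟩ := HC_prob
  refine ⟨c2, hc2, fun l c a n N ha hl hn hN => ?_⟩
  have h := harris (fun _ : Edge => hf) (iPA_dep l n) (HC_dep c a) (iPA_inc l n) (HC_inc c a)
  change (nu hf).real _ * (nu hf).real _ ≤ (nu hf).real _ at h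
  refine le_trans ?_ (h.trans (measureReal_mono (Jn_sub hl hn hN) (measure_ne_top _ _)))
  rw [mul_comm]
  exact mul_le_mul (iPA_ge hf l n) (hHC c a ha) hc2.le measureReal_nonneg

theorem Jn_dep (l : Finset ℤ) (c : ℤ) (N : ℕ) : Dep (EI (HB c N)) (Jn l c N) := by
  intro z z' h
  constructor
  · intro h1 x hx y hy
    exact oc_congr h (h1 x hx y hy)
  · intro h1 x hx y hy
    exact oc_congr (fun e he => (h e he).symm) (h1 x hx y hy)

theorem Jn_inc (l : Finset ℤ) (c : ℤ) (N : ℕ) : Inc (Jn l c N) := by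
  intro z z' h hz x hx y hy
  refine (hz x hx y hy).mono ?_ subset_rfl
  intro e
  by_cases he : z e = true
  · rw [he, h e he]
  · rw [Bool.not_eq_true] at he
    rw [he]
    exact bot_le

end Crest.Agent.R158.Fl440
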