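import Crest.Agent.R158.Fl5_440

/-!
# Row 158, Block FW (helper440): the flat medial wall, 6: crossing lemmas at a floor

* `chord_cross` : interlaced chords `A < P < B < Q` of the half plane `y0 ≤ y` share a vertex
* `chord_arm` : a chord and an arm starting between its feet and leaving its bounding box share a vertex
* tile forms `fl_cross`, `fl_arm` (general tile predicates), `fl_cross_eq/ne`, `fl_arm_eq/ne`
-/

set_option autoImplicit false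
set_option linter.unusedSimpArgs false

noncomputable section

namespace Crest.Agent.R158.Fl440

open Crest.Agent.R161.Geo729 Crest.Agent.R161.Topo374 Crest.Agent.R161.Dual374
open Crest.Agent.R161.Tas682
open Crest.Agent.R158.Mr679 (TF Dg tb TS TP InB dH dV walk_dH walk_dV)

/-- walks have finite carriers -/
theorem walk_fin {S : Set V} {a b : V} (h : Walk S a b) : ∃ F : Finset V, (F : Set V) ⊆ S ∧ Walk (F : Set V) a b := by
  classical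
  obtain ⟨ha, h⟩ := h
  induction h with
  | refl => exact ⟨{a}, by simpa using ha, Walk.refl (by simp)⟩
  | @tail b c _ h2 ih =>
    obtain ⟨F, hF, hw⟩ := ih
    refine ⟨insert c F, ?_, ?_⟩
    · rw [Finset.coe_insert]
      exact Set.insert_subset h2.2.2 hF
    · refine (hw.mono (by simp)).trans (Walk.step ?_ (by simp) h2.1)
      simpa using Or.inr (Finset.mem_coe.1 hw.right)

theorem fin_bound (F : Finset V) : ∃ M : ℤ, ∀ w ∈ F, -M ≤ w.1 ∧ w.1 ≤ M ∧ -M ≤ w.2 ∧ w.2 ≤ M := by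
  induction F using Finset.induction_on with
  | empty => exact ⟨0, by simp⟩
  | insert a F _ ih =>
    obtain ⟨M, hM⟩ := ih
    refine ⟨max M (max |a.1| |a.2|), ?_⟩
    intro w hw
    have h1 := le_max_left M (max |a.1| |a.2|)
    have h2 := le_max_right M (max |a.1| |a.2|)
    have h3 := le_max_left |a.1| |a.2|
    have h4 := le_max_right |a.1| |a.2|
    have h5 := neg_abs_le a.1
    have h6 := neg_abs_le a.2
    have h7 := le_abs_self a.1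
    have h8 := le_abs_self a.2
    rcases Finset.mem_insert.1 hw with rfl | hw
    · omega
    · have := hM w hw
      omega

/-- **Interlaced chords** of the half plane `{y0 ≤ y}` share a vertex -/
theorem chord_cross {S1 S2 : Set V} {A B P Q : V} {y0 : ℤ} (h1 : Walk S1 A B) (h2 : Walk S2 P Q)
    (hS1 : ∀ w ∈ S1, y0 ≤ w.2) (hS2 : ∀ w ∈ S2, y0 ≤ w.2) (hA : A.2 = y0) (hB : B.2 = y0)
    (hP : P.2 = y0) (hQ : Q.2 = y0) (hAP : A.1 < P.1) (hPB : P.1 < B.1) (hBQ : B.1 < Q.1) :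
    (S1 ∩ S2).Nonempty := by
  obtain ⟨F1, hF1, w1⟩ := walk_fin h1
  obtain ⟨F2, hF2, w2⟩ := walk_fin h2
  obtain ⟨M1, hM1⟩ := fin_bound F1
  obtain ⟨M2, hM2⟩ := fin_bound F2
  obtain ⟨M, hM⟩ : ∃ M : ℤ, M1 < M ∧ M2 < M ∧ 0 < M := ⟨max 0 (max M1 M2) + 1, by omega, by omega, by omega⟩
  have bA := hM1 A (Finset.mem_coe.1 w1.left)
  have bB := hM1 B (Finset.mem_coe.1 w1.right)
  have bP := hM2 P (Finset.mem_coe.1 w2.left)
  have bQ := hM2 Q (Finset.mem_coe.1 w2.right)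
  obtain ⟨a1, a2⟩ := A
  obtain ⟨b1, b2⟩ := B
  obtain ⟨p1, p2⟩ := P
  obtain ⟨q1, q2⟩ := Q
  simp only at hA hB hP hQ hAP hPB hBQ bA bB bP bQ
  subst hA; subst hB; subst hP; subst hQ
  set E1 : Set V := {w | (w.2 = q2 - 1 ∧ -M ≤ w.1 ∧ w.1 ≤ a1) ∨ (w.1 = b1 ∧ q2 - 3 ≤ w.2 ∧ w.2 ≤ q2 - 1) ∨
    (w.2 = q2 - 3 ∧ b1 ≤ w.1 ∧ w.1 ≤ M + 1)} with hE1
  set E2 : Set V := {w | (w.1 = p1 ∧ q2 - 5 ≤ w.2 ∧ w.2 ≤ q2 - 1) ∨ (w.2 = q2 - 1 ∧ q1 ≤ w.1 ∧ w.1 ≤ M) ∨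
    (w.1 = M ∧ q2 - 1 ≤ w.2 ∧ w.2 ≤ M)} with hE2
  have mA : ((a1, q2) : V) ∈ (F1 : Set V) ∪ E1 := Or.inl w1.left
  have mB : ((b1, q2) : V) ∈ (F1 : Set V) ∪ E1 := Or.inl w1.right
  have mP : ((p1, q2) : V) ∈ (F2 : Set V) ∪ E2 := Or.inl w2.left
  have mQ : ((q1, q2) : V) ∈ (F2 : Set V) ∪ E2 := Or.inl w2.right
  have u1 : Walk ((F1 : Set V) ∪ E1) (-M, q2 - 1) (a1, q2 - 1) :=
    hwalk' _ (by omega) fun x hx1 hx2 => Or.inr (Or.inl ⟨rfl, hx1, hx2⟩)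
  have u2 : Walk ((F1 : Set V) ∪ E1) (a1, q2 - 1) (a1, q2) :=
    Walk.step u1.right mA (Or.inr ⟨rfl, Or.inl (by simp only; omega)⟩)
  have u3 : Walk ((F1 : Set V) ∪ E1) (a1, q2) (b1, q2) := w1.mono Set.subset_union_left
  have u4 : Walk ((F1 : Set V) ∪ E1) (b1, q2 - 3) (b1, q2) :=
    vwalk' _ (by omega) fun y hy1 hy2 => by
      rcases eq_or_lt_of_le hy2 with rfl | h
      · exact mB
      · exact Or.inr (Or.inr (Or.inl ⟨rfl, hy1, by simp only; omega⟩))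
  have u5 : Walk ((F1 : Set V) ∪ E1) (b1, q2 - 3) (M + 1, q2 - 3) :=
    hwalk' _ (by omega) fun x hx1 hx2 => Or.inr (Or.inr (Or.inr ⟨rfl, hx1, hx2⟩))
  have v1 : Walk ((F2 : Set V) ∪ E2) (p1, q2 - 5) (p1, q2) :=
    vwalk' _ (by omega) fun y hy1 hy2 => by
      rcases eq_or_lt_of_le hy2 with rfl | h
      · exact mP
      · exact Or.inr (Or.inl ⟨rfl, hy1, by simp only; omega⟩)
  have v2 : Walk ((F2 : Set V) ∪ E2) (p1, q2) (q1, q2) := w2.mono Set.subset_union_left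
  have v4 : Walk ((F2 : Set V) ∪ E2) (q1, q2 - 1) (M, q2 - 1) :=
    hwalk' _ (by omega) fun x hx1 hx2 => Or.inr (Or.inr (Or.inl ⟨rfl, hx1, hx2⟩))
  have v3 : Walk ((F2 : Set V) ∪ E2) (q1, q2) (q1, q2 - 1) :=
    Walk.step mQ v4.left (Or.inr ⟨rfl, Or.inr (by simp only; omega)⟩)
  have v5 : Walk ((F2 : Set V) ∪ E2) (M, q2 - 1) (M, M) :=
    vwalk' _ (by omega) fun y hy1 hy2 => Or.inr (Or.inr (Or.inr ⟨rfl, hy1, hy2⟩))
  obtain ⟨⟨x, y⟩, hx1, hx2⟩ := cross (((u1.trans u2).trans u3).trans (u4.symm.trans u5))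
    (((v1.trans v2).trans v3).trans (v4.trans v5)) (by
      rintro ⟨x, y⟩ (hw | hw)
      · have h3 := hM1 _ (Finset.mem_coe.1 hw)
        have h4 := hS1 _ (hF1 hw)
        simp only at h3 h4 ⊢
        omega
      · simp only [hE1, Set.mem_ofPred_eq] at hw
        simp only
        omega) (by
      rintro ⟨x, y⟩ (hw | hw)
      · have h3 := hM2 _ (Finset.mem_coe.1 hw)
        simp only at h3 ⊢
        omega
      · simp only [hE2, Set.mem_ofPred_eq] at hw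
        simp only
        omega)
  rcases hx1 with hx1 | hx1
  · rcases hx2 with hx2 | hx2
    · exact ⟨_, hF1 hx1, hF2 hx2⟩
    · exfalso
      have h3 := hM1 _ (Finset.mem_coe.1 hx1)
      have h4 := hS1 _ (hF1 hx1)
      simp only [hE2, Set.mem_ofPred_eq] at hx2
      simp only at h3 h4
      omega
  · exfalso
    simp only [hE1, Set.mem_ofPred_eq] at hx1
    rcases hx2 with hx2 | hx2
    · have h4 := hS2 _ (hF2 hx2)
      simp only at h4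
      omega
    · simp only [hE2, Set.mem_ofPred_eq] at hx2
      omega

/-- **Chord and arm**: the arm starts between the feet of the chord and leaves the bounding box of the
chord -/
theorem chord_arm {S1 S2 : Set V} {A B P Q : V} {y0 x0 x1 y1 : ℤ} (h1 : Walk S1 A B)
    (h2 : Walk S2 P Q) (hS1 : ∀ w ∈ S1, x0 ≤ w.1 ∧ w.1 ≤ x1 ∧ y0 ≤ w.2 ∧ w.2 ≤ y1)
    (hS2 : ∀ w ∈ S2, y0 ≤ w.2) (hA : A.2 = y0) (hB : B.2 = y0)
    (hP : P.2 = y0) (hAP : A.1 < P.1) (hPB : P.1 < B.1) (hQ : Q.1 < x0 ∨ x1 < Q.1 ∨ y1 < Q.2) :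
    (S1 ∩ S2).Nonempty := by
  obtain ⟨F2, hF2, w2⟩ := walk_fin h2
  obtain ⟨M2, hM2⟩ := fin_bound F2
  obtain ⟨M, hM⟩ : ∃ M : ℤ, M2 < M ∧ x1 < M ∧ -M < x0 ∧ y1 < M :=
    ⟨max (max M2 x1) (max (-x0) y1) + 1, by omega, by omega, by omega, by omega⟩
  have bA := hS1 A h1.left
  have bB := hS1 B h1.right
  have bP := hM2 P (Finset.mem_coe.1 w2.left)
  have bQ := hM2 Q (Finset.mem_coe.1 w2.right)
  have cQ := hS2 Q h2.right
  obtain ⟨a1, a2⟩ := A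
  obtain ⟨b1, b2⟩ := B
  obtain ⟨p1, p2⟩ := P
  obtain ⟨q1, q2⟩ := Q
  simp only at hA hB hP hQ hAP hPB bA bB bP bQ cQ
  subst hA; subst hB; subst hP
  set E1 : Set V := {w | (w.2 = p2 - 1 ∧ -M ≤ w.1 ∧ w.1 ≤ a1) ∨ (w.2 = p2 - 1 ∧ b1 ≤ w.1 ∧ w.1 ≤ M)} with hE1
  set E2 : Set V := {w | (w.1 = p1 ∧ p2 - 3 ≤ w.2 ∧ w.2 < p2) ∨ (w.1 = q1 ∧ q2 < w.2 ∧ w.2 ≤ M)} with hE2
  have mA : ((a1, p2) : V) ∈ S1 ∪ E1 := Or.inl h1.left
  have mB : ((b1, p2) : V) ∈ S1 ∪ E1 := Or.inl h1.right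
  have mP : ((p1, p2) : V) ∈ (F2 : Set V) ∪ E2 := Or.inl w2.left
  have mQ : ((q1, q2) : V) ∈ (F2 : Set V) ∪ E2 := Or.inl w2.right
  have u1 : Walk (S1 ∪ E1) (-M, p2 - 1) (a1, p2 - 1) :=
    hwalk' _ (by omega) fun x hx1 hx2 => Or.inr (Or.inl ⟨rfl, hx1, hx2⟩)
  have u2 : Walk (S1 ∪ E1) (a1, p2 - 1) (a1, p2) :=
    Walk.step u1.right mA (Or.inr ⟨rfl, Or.inl (by simp only; omega)⟩)
  have u3 : Walk (S1 ∪ E1) (a1, p2) (b1, p2) := h1.mono Set.subset_union_left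
  have u5 : Walk (S1 ∪ E1) (b1, p2 - 1) (M, p2 - 1) :=
    hwalk' _ (by omega) fun x hx1 hx2 => Or.inr (Or.inr ⟨rfl, hx1, hx2⟩)
  have u4 : Walk (S1 ∪ E1) (b1, p2) (b1, p2 - 1) :=
    Walk.step mB u5.left (Or.inr ⟨rfl, Or.inr (by simp only; omega)⟩)
  have v1 : Walk ((F2 : Set V) ∪ E2) (p1, p2 - 3) (p1, p2) :=
    vwalk' _ (by omega) fun y hy1 hy2 => by
      rcases eq_or_lt_of_le hy2 with rfl | h
      · exact mP
      · exact Or.inr (Or.inl ⟨rfl, hy1, h⟩)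
  have v2 : Walk ((F2 : Set V) ∪ E2) (p1, p2) (q1, q2) := w2.mono Set.subset_union_left
  have v3 : Walk ((F2 : Set V) ∪ E2) (q1, q2) (q1, M) :=
    vwalk' _ (by omega) fun y hy1 hy2 => by
      rcases eq_or_lt_of_le hy1 with rfl | h
      · exact mQ
      · exact Or.inr (Or.inr ⟨rfl, h, hy2⟩)
  obtain ⟨⟨x, y⟩, hx1, hx2⟩ := cross (((u1.trans u2).trans u3).trans (u4.trans u5))
    ((v1.trans v2).trans v3) (by
      rintro ⟨x, y⟩ (hw | hw)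
      · have h3 := hS1 _ hw
        simp only at h3 ⊢
        omega
      · simp only [hE1, Set.mem_ofPred_eq] at hw
        simp only
        omega) (by
      rintro ⟨x, y⟩ (hw | hw)
      · have h3 := hM2 _ (Finset.mem_coe.1 hw)
        simp only at h3 ⊢
        omega
      · simp only [hE2, Set.mem_ofPred_eq] at hw
        simp only
        omega)
  rcases hx1 with hx1 | hx1
  · rcases hx2 with hx2 | hx2
    · exact ⟨_, hx1, hF2 hx2⟩
    · exfalso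
      have h3 := hS1 _ hx1
      simp only [hE2, Set.mem_ofPred_eq] at hx2
      simp only at h3
      omega
  · exfalso
    simp only [hE1, Set.mem_ofPred_eq] at hx1
    rcases hx2 with hx2 | hx2
    · have h4 := hS2 _ (hF2 hx2)
      simp only at h4
      omega
    · simp only [hE2, Set.mem_ofPred_eq] at hx2
      omega

/-! ### tile forms -/

/-- a common point of a horizontal and a vertical drawing gives a common face or a common tile -/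
theorem dHV_common {R1 R2 : P2 → P2 → Prop} (d1 : ∀ u v, R1 u v → Dg u v)
    (d2 : ∀ u v, R2 u v → Dg u v) {a p w : P2} (hw1 : w ∈ dH R1 a) (hw2 : w ∈ dV R2 p) :
    (∃ w, Relation.ReflTransGen R1 a w ∧ Relation.ReflTransGen R2 p w) ∨
    ∃ u v u' v', Relation.ReflTransGen R1 a u ∧ R1 u v ∧ Relation.ReflTransGen R2 p u' ∧
      R2 u' v' ∧ tb u v = tb u' v' := by
  obtain ⟨w1, w2⟩ := w
  rcases hw1 with ⟨u, hu, hw⟩ | ⟨u, v, hu, huv, hw⟩
  · rcases hw2 with ⟨u', hu', hw'⟩ | ⟨u', v', hu', huv', hw'⟩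
    · left
      refine ⟨u, hu, ?_⟩
      have : u = u' := by
        simp only [Prod.mk.injEq] at hw hw'
        ext <;> omega
      rw [this]; exact hu'
    · have hd := d2 _ _ huv'
      unfold Dg at hd
      simp only [Prod.mk.injEq] at hw hw'
      omega
  · have hd := d1 _ _ huv
    unfold Dg at hd
    rcases hw2 with ⟨u', hu', hw'⟩ | ⟨u', v', hu', huv', hw'⟩
    · simp only [Prod.mk.injEq] at hw hw'
      omega
    · have hd' := d2 _ _ huv'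
      unfold Dg at hd'
      right
      refine ⟨u, v, u', v', hu, huv, hu', huv', ?_⟩
      unfold tb
      simp only [Prod.mk.injEq] at hw hw' ⊢
      omega

/-- same sublattice: share a face; different sublattices: share a tile -/
theorem common_face {Q1 Q2 : P2 → Prop} {a p : P2} (hpar : (a.1 + a.2) % 2 = (p.1 + p.2) % 2)
    (h : (∃ w, TP Q1 a w ∧ TP Q2 p w) ∨
      ∃ u v u' v', TP Q1 a u ∧ TS Q1 u v ∧ TP Q2 p u' ∧ TS Q2 u' v' ∧ tb u v = tb u' v') :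
    ∃ w, TP Q1 a w ∧ TP Q2 p w := by
  rcases h with h | ⟨u, v, u', v', hu, h3, hu', h4, h5⟩
  · exact h
  · have e1 := hu.parity
    have e2 := hu'.parity
    have d1 := h3.1
    have d2 := h4.1
    unfold Dg at d1 d2
    unfold tb at h5
    simp only [Prod.mk.injEq] at h5
    have key : u = u' ∨ u = v' := by
      by_cases hh : u.1 = u'.1
      · left; ext
        · exact hh
        · omega
      · right; ext <;> omega
    rcases key with rfl | rfl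
    · exact ⟨u, hu, hu'⟩
    · exact ⟨u, hu, hu'.tail h4⟩

theorem common_tile {Q1 Q2 : P2 → Prop} {a p : P2} (hpar : (a.1 + a.2) % 2 ≠ (p.1 + p.2) % 2)
    (h : (∃ w, TP Q1 a w ∧ TP Q2 p w) ∨
      ∃ u v u' v', TP Q1 a u ∧ TS Q1 u v ∧ TP Q2 p u' ∧ TS Q2 u' v' ∧ tb u v = tb u' v') :
    ∃ t, Q1 t ∧ Q2 t := by
  rcases h with ⟨w, hw1, hw2⟩ | ⟨u, v, u', v', _, h3, _, h4, h5⟩
  · exact absurd (hw1.parity.trans hw2.parity.symm) hpar
  · exact ⟨_, h3.2, by rw [h5]; exact h4.2⟩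

theorem dH_ge {Q : P2 → Prop} {y0 : ℤ} (hQ : ∀ t, Q t → y0 < t.2) {a w : P2} (ha : y0 ≤ a.2)
    (hw : w ∈ dH (TS Q) a) : 2 * y0 ≤ w.2 := by
  have key : ∀ u, TP Q a u → y0 ≤ u.2 := by
    intro u hu
    induction hu with
    | refl => exact ha
    | @tail u v _ h2 _ =>
      have h3 := hQ _ h2.2
      have h4 := h2.1
      unfold tb at h3
      unfold Dg at h4
      simp only at h3
      omega
  rcases hw with ⟨u, hu, rfl⟩ | ⟨u, v, hu, huv, h⟩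
  · have := key u hu
    simp only; omega
  · have e1 := key u hu
    have e2 := key v (hu.tail huv)
    rcases h with rfl | rfl | rfl <;> simp only <;> omega

theorem dV_ge {Q : P2 → Prop} {y0 : ℤ} (hQ : ∀ t, Q t → y0 < t.2) {a w : P2} (ha : y0 ≤ a.2)
    (hw : w ∈ dV (TS Q) a) : 2 * y0 ≤ w.2 := by
  have key : ∀ u, TP Q a u → y0 ≤ u.2 := by
    intro u hu
    induction hu with
    | refl => exact ha
    | @tail u v _ h2 _ =>
      have h3 := hQ _ h2.2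
      have h4 := h2.1
      unfold tb at h3
      unfold Dg at h4
      simp only at h3
      omega
  rcases hw with ⟨u, hu, rfl⟩ | ⟨u, v, hu, huv, h⟩
  · have := key u hu
    simp only; omega
  · have e1 := key u hu
    have e2 := key v (hu.tail huv)
    rcases h with rfl | rfl | rfl <;> simp only <;> omega

theorem dH_box {Q : P2 → Prop} {x0 x1 y0 y1 : ℤ} (hQ : ∀ t, Q t → InB x0 x1 y0 y1 t) {a w : P2}
    (ha : x0 ≤ a.1 ∧ a.1 ≤ x1 ∧ y0 ≤ a.2 ∧ a.2 ≤ y1) (hw : w ∈ dH (TS Q) a) :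
    2 * x0 ≤ w.1 ∧ w.1 ≤ 2 * x1 ∧ 2 * y0 ≤ w.2 ∧ w.2 ≤ 2 * y1 := by
  have k1 : ∀ u, TP Q a u → x0 ≤ u.1 ∧ u.1 ≤ x1 := fun u hu =>
    TP.faceX hu (fun t ht => ⟨(hQ t ht).1, (hQ t ht).2.1⟩) ⟨ha.1, ha.2.1⟩
  have k2 : ∀ u, TP Q a u → y0 ≤ u.2 ∧ u.2 ≤ y1 := fun u hu =>
    TP.faceY hu (fun t ht => ⟨(hQ t ht).2.2.1, (hQ t ht).2.2.2⟩) ⟨ha.2.2.1, ha.2.2.2⟩
  rcases hw with ⟨u, hu, rfl⟩ | ⟨u, v, hu, huv, h⟩
  · have e1 := k1 u hu
    have e2 := k2 u hu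
    simp only; omega
  · have e1 := k1 u hu
    have e2 := k2 u hu
    have e3 := k1 v (hu.tail huv)
    have e4 := k2 v (hu.tail huv)
    rcases h with rfl | rfl | rfl <;> simp only <;> omega

/-- **Floor crossing lemma, chords**: `i < k < j < l` on the floor line `y0` (the tiles used lie above) -/
theorem fl_cross {Q1 Q2 : P2 → Prop} {y0 i j k l : ℤ} (h1 : TP Q1 (i, y0) (j, y0))
    (h2 : TP Q2 (k, y0) (l, y0)) (hQ1 : ∀ t, Q1 t → y0 < t.2) (hQ2 : ∀ t, Q2 t → y0 < t.2)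
    (hik : i < k) (hkj : k < j) (hjl : j < l) :
    (∃ w, TP Q1 (i, y0) w ∧ TP Q2 (k, y0) w) ∨
      ∃ u v u' v', TP Q1 (i, y0) u ∧ TS Q1 u v ∧ TP Q2 (k, y0) u' ∧ TS Q2 u' v' ∧ tb u v = tb u' v' := by
  obtain ⟨w, hw1, hw2⟩ := chord_cross (y0 := 2 * y0) (walk_dH (fun _ _ h => h.1) h1)
    (walk_dV (fun _ _ h => h.1) h2) (fun w hw => dH_ge hQ1 le_rfl hw) (fun w hw => dV_ge hQ2 le_rfl hw)
    rfl rfl rfl rfl (by simp only; omega) (by simp only; omega) (by simp only; omega)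
  exact dHV_common (fun _ _ h => h.1) (fun _ _ h => h.1) hw1 hw2

/-- **Floor crossing lemma, chord and arm** -/
theorem fl_arm {Q1 Q2 : P2 → Prop} {y0 x0 x1 y1 i j k : ℤ} {G : P2} (h1 : TP Q1 (i, y0) (j, y0))
    (h2 : TP Q2 (k, y0) G) (hQ1 : ∀ t, Q1 t → InB x0 x1 y0 y1 t) (hQ2 : ∀ t, Q2 t → y0 < t.2)
    (hi : x0 ≤ i ∧ i ≤ x1) (hy : y0 ≤ y1) (hik : i < k) (hkj : k < j)
    (hG : G.1 < x0 ∨ x1 < G.1 ∨ y1 < G.2) :
    (∃ w, TP Q1 (i, y0) w ∧ TP Q2 (k, y0) w) ∨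
      ∃ u v u' v', TP Q1 (i, y0) u ∧ TS Q1 u v ∧ TP Q2 (k, y0) u' ∧ TS Q2 u' v' ∧ tb u v = tb u' v' := by
  obtain ⟨w, hw1, hw2⟩ := chord_arm (y0 := 2 * y0) (x0 := 2 * x0) (x1 := 2 * x1) (y1 := 2 * y1)
    (walk_dH (fun _ _ h => h.1) h1)
    (walk_dV (fun _ _ h => h.1) h2) (fun w hw => dH_box hQ1 ⟨hi.1, hi.2, le_rfl, hy⟩ hw)
    (fun w hw => dV_ge hQ2 le_rfl hw)
    rfl rfl rfl (by simp only; omega) (by simp only; omega) (by simp only; omega)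
  exact dHV_common (fun _ _ h => h.1) (fun _ _ h => h.1) hw1 hw2

/-- chords of one sublattice meet -/
theorem fl_cross_eq {Q1 Q2 : P2 → Prop} {y0 i j k l : ℤ} (h1 : TP Q1 (i, y0) (j, y0))
    (h2 : TP Q2 (k, y0) (l, y0)) (hQ1 : ∀ t, Q1 t → y0 < t.2) (hQ2 : ∀ t, Q2 t → y0 < t.2)
    (hik : i < k) (hkj : k < j) (hjl : j < l) (hpar : i % 2 = k % 2) :
    ∃ w, TP Q1 (i, y0) w ∧ TP Q2 (k, y0) w :=
  common_face (by simp only; omega) (fl_cross h1 h2 hQ1 hQ2 hik hkj hjl)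

/-- chords of different sublattices use a common tile -/
theorem fl_cross_ne {Q1 Q2 : P2 → Prop} {y0 i j k l : ℤ} (h1 : TP Q1 (i, y0) (j, y0))
    (h2 : TP Q2 (k, y0) (l, y0)) (hQ1 : ∀ t, Q1 t → y0 < t.2) (hQ2 : ∀ t, Q2 t → y0 < t.2)
    (hik : i < k) (hkj : k < j) (hjl : j < l) (hpar : i % 2 ≠ k % 2) : ∃ t, Q1 t ∧ Q2 t :=
  common_tile (by simp only; omega) (fl_cross h1 h2 hQ1 hQ2 hik hkj hjl)

/-- chord and arm of one sublattice meet -/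
theorem fl_arm_eq {Q1 Q2 : P2 → Prop} {y0 x0 x1 y1 i j k : ℤ} {G : P2}
    (h1 : TP Q1 (i, y0) (j, y0)) (h2 : TP Q2 (k, y0) G) (hQ1 : ∀ t, Q1 t → InB x0 x1 y0 y1 t)
    (hQ2 : ∀ t, Q2 t → y0 < t.2) (hi : x0 ≤ i ∧ i ≤ x1) (hy : y0 ≤ y1) (hik : i < k) (hkj : k < j)
    (hG : G.1 < x0 ∨ x1 < G.1 ∨ y1 < G.2) (hpar : i % 2 = k % 2) :
    ∃ w, TP Q1 (i, y0) w ∧ TP Q2 (k, y0) w :=
  common_face (by simp only; omega) (fl_arm h1 h2 hQ1 hQ2 hi hy hik hkj hG)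

/-- chord and arm of different sublattices use a common tile -/
theorem fl_arm_ne {Q1 Q2 : P2 → Prop} {y0 x0 x1 y1 i j k : ℤ} {G : P2}
    (h1 : TP Q1 (i, y0) (j, y0)) (h2 : TP Q2 (k, y0) G) (hQ1 : ∀ t, Q1 t → InB x0 x1 y0 y1 t)
    (hQ2 : ∀ t, Q2 t → y0 < t.2) (hi : x0 ≤ i ∧ i ≤ x1) (hy : y0 ≤ y1) (hik : i < k) (hkj : k < j)
    (hG : G.1 < x0 ∨ x1 < G.1 ∨ y1 < G.2) (hpar : i % 2 ≠ k % 2) : ∃ t, Q1 t ∧ Q2 t :=
  common_tile (by simp only; omega) (fl_arm h1 h2 hQ1 hQ2 hi hy hik hkj hG)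

end Crest.Agent.R158.Fl440
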