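import Crest.Agent.R158.Fm2_857
import Crest.Agent.R158.Csh_410

/-!
# Row 158: the literal family as a value of 410's `FZ` (helper857)

* `fz : Cs410.FZ` : index `μ ∈ insertNone (JP P L δ B)`, `c μ = ctw`, `φ μ = phi`, `co μ = kap`, `Z = ZP`
* `fz_amp`, `fz_nm` : amplitude and sum of norms as sums over the finite set `insertNone (JP ..)`
* `mkP_eq` : the marks are 410's `mk`
-/

set_option autoImplicit false

noncomputable section

open Finset Matrix

namespace Crest.Agent.R158.Fm857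

open Crest.Agent.R158.Ad350
open Crest.Agent.R158.Ao857
open Crest.Agent.R158.Sw300 (Port)
open Crest.Agent.R158.Bd932 (That e3)
open Crest.Agent.R158.Env664 (TG Band Run D mark lowT upT)
open Crest.Agent.R158.Tj656 (P4)
open Crest.Agent.R158.Cs410 (FamZ FZ InA OutA nrm σ0 mk)

/-- **the family of phases** -/
def fz : FZ := fun P L δ B =>
  { J := {e : Option (Port TG) // e ∈ insertNone (JP P L δ B)}
    fin := inferInstance
    c := fun e => ctw B (L / 2) (mkG P L 0) (mkG P L 1) e.1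
    φ := fun e => phi B (L / 2) (mkG P L 0) (mkG P L 1) e.1
    co := fun e => kap B (L / 2) (mkG P L 0) (mkG P L 1) e.1
    Z := ZP P L B }

lemma mkP_eq (P : P4) (L : ℤ) (j : Fin 3) : mk P L j = mkP P L j := rfl

lemma fz_Z (P : P4) (L : ℤ) (δ : ℝ) (B : Band (D P.F L)) : (fz P L δ B).Z = ZP P L B := rfl

/-- sum over the subtype -/
lemma fz_sum {M : Type*} [AddCommMonoid M] (P : P4) (L : ℤ) (δ : ℝ) (B : Band (D P.F L))
    (f : Option (Port TG) → M) :
    ∑ μ : (fz P L δ B).J, f μ.1 = ∑ e ∈ insertNone (JP P L δ B), f e :=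
  Finset.sum_coe_sort (insertNone (JP P L δ B)) f

/-- **the amplitude of the family** -/
theorem fz_amp (P : P4) (L : ℤ) (δ : ℝ) (B : Band (D P.F L)) (p y0 : ℤ) :
    (fz P L δ B).amp p y0 = ∑ e ∈ insertNone (JP P L δ B),
      kap B (L / 2) (mkG P L 0) (mkG P L 1) e *
        amp1 B (lowT (D P.F L) B.xl B.xr B.y1) (upT (D P.F L) B.xl B.xr B.y2) (L / 2)
          (mkG P L 0) (mkG P L 1) p y0 e :=
  fz_sum P L δ B fun e => kap B (L / 2) (mkG P L 0) (mkG P L 1) e *
        amp1 B (lowT (D P.F L) B.xl B.xr B.y1) (upT (D P.F L) B.xl B.xr B.y2) (L / 2)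
          (mkG P L 0) (mkG P L 1) p y0 e

/-- amplitude over normalisation = `HGr` -/
theorem fz_HGr (P : P4) (L : ℤ) (δ : ℝ) (B : Band (D P.F L)) (p y0 : ℤ) :
    (fz P L δ B).amp p y0 / (fz P L δ B).Z =
      HGr B (lowT (D P.F L) B.xl B.xr B.y1) (upT (D P.F L) B.xl B.xr B.y2) (L / 2)
          (mkG P L 0) (mkG P L 1) (JP P L δ B) (ZP P L B) p y0 := by
  rw [fz_amp]
  rfl

/-- **sum of the norms of the family** -/
theorem fz_nm (P : P4) (L : ℤ) (δ : ℝ) (B : Band (D P.F L)) (a1 b1 : ℕ) :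
    (fz P L δ B).nm a1 b1 = ∑ e ∈ insertNone (JP P L δ B),
      ‖kap B (L / 2) (mkG P L 0) (mkG P L 1) e‖ *
        (nrm (That (nn B + 1) (ctw B (L / 2) (mkG P L 0) (mkG P L 1) e) (1 / 2) ^ a1 *ᵥ
            InM B (lowT (D P.F L) B.xl B.xr B.y1) (L / 2) (mkG P L 0) (mkG P L 1) e) *
          nrm (OutM B (upT (D P.F L) B.xl B.xr B.y2) (L / 2) (mkG P L 0) (mkG P L 1) e ᵥ*
            That (nn B + 2) (ctw B (L / 2) (mkG P L 0) (mkG P L 1) e + e3) (1 / 2) ^ b1)) :=
  fz_sum P L δ B fun e => ‖kap B (L / 2) (mkG P L 0) (mkG P L 1) e‖ *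
        (nrm (That (nn B + 1) (ctw B (L / 2) (mkG P L 0) (mkG P L 1) e) (1 / 2) ^ a1 *ᵥ
            InM B (lowT (D P.F L) B.xl B.xr B.y1) (L / 2) (mkG P L 0) (mkG P L 1) e) *
          nrm (OutM B (upT (D P.F L) B.xl B.xr B.y2) (L / 2) (mkG P L 0) (mkG P L 1) e ᵥ*
            That (nn B + 2) (ctw B (L / 2) (mkG P L 0) (mkG P L 1) e + e3) (1 / 2) ^ b1))

/-- the coefficient has norm `1 / 2` -/
theorem norm_kap {A : Finset (ℤ × ℤ)} (B : Band A) (b : ℤ) (m1 m2 : Port TG)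
    (e : Option (Port TG)) : ‖kap B b m1 m2 e‖ = 1 / 2 := by
  unfold kap
  have h : ‖Vt300.v2‖ = 1 := by
    have : Vt300.v2 = Complex.exp (((Real.pi / 3 : ℝ) : ℂ) * Complex.I) := by
      unfold Vt300.v2
      rw [mul_comm]
      push_cast
      rfl
    rw [this, Complex.norm_exp_ofReal_mul_I]
  rw [norm_mul, norm_zpow, h, _root_.one_zpow, mul_one]
  norm_num

/-- number of ends of the family -/
theorem card_JP_le (P : P4) (L : ℤ) (δ : ℝ) (B : Band (D P.F L)) :
    (JP P L δ B).card ≤ (freeG B).card := card_le_card (filter_subset _ _)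

end Crest.Agent.R158.Fm857
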