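import Mathlib

/-!
# Row 158, Block F (helper158): calculus at logarithmic precision

* `tendsto_logratio` : `d^{a+ε} ≤ f ≤ d^{a-ε}` eventually for every `ε` gives `log f / log d → a`
* `ev_const_le` : constants are absorbed in `d^{-ε}`
* `ev_floor` : `n = ⌊d^{-s}⌋₊` satisfies `d^{-s+ε} ≤ n ≤ d^{-s}`
-/

set_option autoImplicit false

namespace Crest.Agent.R158.Fr158

open Filter Topology Real

variable {α : Type*} {l : Filter α} {d f : α → ℝ} {a : ℝ}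

theorem ev_pos_lt (hd : Tendsto d l (𝓝[>] 0)) {b : ℝ} (hb : 0 < b) :
    ∀ᶠ x in l, 0 < d x ∧ d x < b := by
  have h1 : ∀ᶠ y : ℝ in 𝓝[>] 0, y ∈ Set.Ioo 0 b := Ioo_mem_nhdsGT hb
  exact hd.eventually h1

theorem tendsto_logratio (hd : Tendsto d l (𝓝[>] 0))
    (hf : ∀ ε : ℝ, 0 < ε → ∀ᶠ x in l, d x ^ (a + ε) ≤ f x ∧ f x ≤ d x ^ (a - ε)) :
    Tendsto (fun x => log (f x) / log (d x)) l (𝓝 a) := by
  rw [tendsto_order]
  constructor
  · intro b hb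
    filter_upwards [ev_pos_lt hd one_pos, hf ((a - b) / 2) (by linarith)] with x h1 h2
    have hl : log (d x) < 0 := log_neg h1.1 h1.2
    have hpos : 0 < f x := (rpow_pos_of_pos h1.1 _).trans_le h2.1
    have h3 : log (f x) ≤ (a - (a - b) / 2) * log (d x) := by
      rw [← log_rpow h1.1]
      exact log_le_log hpos h2.2
    rw [lt_div_iff_of_neg hl]
    refine h3.trans_lt ?_
    exact mul_lt_mul_of_neg_right (by linarith) hl
  · intro b hb
    filter_upwards [ev_pos_lt hd one_pos, hf ((b - a) / 2) (by linarith)] with x h1 h2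
    have hl : log (d x) < 0 := log_neg h1.1 h1.2
    have h3 : (a + (b - a) / 2) * log (d x) ≤ log (f x) := by
      rw [← log_rpow h1.1]
      exact log_le_log (rpow_pos_of_pos h1.1 _) h2.1
    rw [div_lt_iff_of_neg hl]
    refine lt_of_lt_of_le ?_ h3
    exact mul_lt_mul_of_neg_right (by linarith) hl

theorem tendsto_rpow_neg (hd : Tendsto d l (𝓝[>] 0)) {s : ℝ} (hs : 0 < s) :
    Tendsto (fun x => d x ^ (-s)) l atTop := by
  have h1 : Tendsto (fun x => (d x)⁻¹) l atTop := tendsto_inv_nhdsGT_zero.comp hd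
  have h2 : Tendsto (fun x => ((d x)⁻¹) ^ s) l atTop := (tendsto_rpow_atTop hs).comp h1
  refine h2.congr' ?_
  filter_upwards [ev_pos_lt hd one_pos] with x hx
  rw [inv_rpow hx.1.le, rpow_neg hx.1.le]

theorem ev_const_le (hd : Tendsto d l (𝓝[>] 0)) {ε : ℝ} (hε : 0 < ε) (C : ℝ) :
    ∀ᶠ x in l, C ≤ d x ^ (-ε) :=
  (tendsto_rpow_neg hd hε).eventually (eventually_ge_atTop C)

theorem ev_rpow_le (hd : Tendsto d l (𝓝[>] 0)) {ε : ℝ} (hε : 0 < ε) {c : ℝ} (hc : 0 < c) :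
    ∀ᶠ x in l, d x ^ ε ≤ c := by
  filter_upwards [ev_const_le hd hε c⁻¹, ev_pos_lt hd one_pos] with x h1 h2
  rw [rpow_neg h2.1.le] at h1
  have h3 := inv_anti₀ (inv_pos.2 hc) h1
  rwa [inv_inv, inv_inv] at h3

/-- the floor of `d^{-s}` -/
theorem ev_floor (hd : Tendsto d l (𝓝[>] 0)) {s ε : ℝ} (hs : 0 < s) (hε : 0 < ε) :
    ∀ᶠ x in l, 1 ≤ ⌊d x ^ (-s)⌋₊ ∧ (⌊d x ^ (-s)⌋₊ : ℝ) ≤ d x ^ (-s) ∧
      d x ^ (-s + ε) ≤ (⌊d x ^ (-s)⌋₊ : ℝ) := by
  filter_upwards [ev_const_le hd hs 2, ev_pos_lt hd one_pos,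
    ev_rpow_le hd hε (by norm_num : (0 : ℝ) < 1 / 2)] with x h1 h2 h3
  have h4 : (⌊d x ^ (-s)⌋₊ : ℝ) ≤ d x ^ (-s) := Nat.floor_le (by positivity)
  have h5 : d x ^ (-s) < (⌊d x ^ (-s)⌋₊ : ℝ) + 1 := Nat.lt_floor_add_one _
  refine ⟨?_, h4, ?_⟩
  · rw [Nat.one_le_floor_iff]; linarith
  · rw [rpow_add h2.1]
    have h6 : 0 < d x ^ (-s) := by positivity
    nlinarith

/-- natural numbers `n x → ∞` -/
theorem tendsto_floor (hd : Tendsto d l (𝓝[>] 0)) {s : ℝ} (hs : 0 < s) :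
    Tendsto (fun x => ⌊d x ^ (-s)⌋₊) l atTop :=
  tendsto_nat_floor_atTop.comp (tendsto_rpow_neg hd hs)

theorem tendsto_sub_half_right :
    Tendsto (fun p : ℝ => p - 1 / 2) (𝓝[>] (1 / 2)) (𝓝[>] 0) := by
  rw [tendsto_nhdsWithin_iff]
  constructor
  · have h : Tendsto (fun p : ℝ => p - 1 / 2) (𝓝 (1 / 2)) (𝓝 (1 / 2 - 1 / 2)) :=
      tendsto_id.sub tendsto_const_nhds
    rw [sub_self] at h
    exact h.mono_left nhdsWithin_le_nhds
  · filter_upwards [self_mem_nhdsWithin] with p hp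
    exact sub_pos.2 (Set.mem_Ioi.1 hp)

theorem tendsto_abs_sub_half :
    Tendsto (fun p : ℝ => |p - 1 / 2|) (𝓝[≠] (1 / 2)) (𝓝[>] 0) := by
  rw [tendsto_nhdsWithin_iff]
  constructor
  · have h : Tendsto (fun p : ℝ => |p - 1 / 2|) (𝓝 (1 / 2)) (𝓝 |1 / 2 - 1 / 2|) :=
      (tendsto_id.sub tendsto_const_nhds).abs
    rw [sub_self, abs_zero] at h
    exact h.mono_left nhdsWithin_le_nhds
  · filter_upwards [self_mem_nhdsWithin] with p hp
    exact abs_pos.2 (sub_ne_zero.2 hp)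

end Crest.Agent.R158.Fr158
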