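import Crest.Agent.R158.FrPre_158
import Crest.Agent.R158.FrLog_158

/-!
# Row 158, Block F (helper158): first limit of S0235 and the upper bound of the second

* `hypA_upper`, `hypA_lower` : `HypA` along scales `d^{-t}`
* `oneArm_limit` : `log (oneArmProb R) / log R → -5/48` from `HypA`
* `theta_upper` : `θ(p) ≤ |p-1/2|^{5/36-ε}` from `HypA`, `HypB`
-/

set_option autoImplicit false

noncomputable section

namespace Crest.Agent.R158.Fr158

open MeasureTheory Filter Topology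
open Crest.ProbabilityR.Percolation Crest.ProbabilityR.FirstPassage
open Crest.Agent.R158.Rs689 Crest.Agent.R161.Tas682 Crest.Agent.R161.Geo729

variable {α : Type*} {l : Filter α} {d : α → ℝ}

theorem rpow_anti_base {x y b : ℝ} (hx : 0 < x) (hxy : x ≤ y) (hb : b ≤ 0) : y ^ b ≤ x ^ b :=
  Real.rpow_le_rpow_of_nonpos hx hxy hb

/-- `HypA` from above along scales at least `d^{-t}` -/
theorem hypA_upper (hA : HypA) (hd : Tendsto d l (𝓝[>] 0)) {t : ℝ} (ht : 0 < t) {n : α → ℕ}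
    (hn : ∀ᶠ x in l, d x ^ (-t) ≤ n x) {ε : ℝ} (hε : 0 < ε) :
    ∀ᶠ x in l, Pr (1 / 2) (Arm1 (n x)) ≤ d x ^ (5 / 48 * t - ε) := by
  have hn' : Tendsto n l atTop := by
    have h1 : Tendsto (fun x => (n x : ℝ)) l atTop :=
      tendsto_atTop_mono' l hn (tendsto_rpow_neg hd ht)
    exact tendsto_natCast_atTop_iff.1 h1
  have hε' : 0 < min (ε / t) (1 / 20) := lt_min (by positivity) (by norm_num)
  filter_upwards [ev_pos_lt hd one_pos, hn, hn'.eventually (hA _ hε')] with x h1 h2 h3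
  refine h3.2.trans ?_
  set ε' := min (ε / t) (1 / 20) with he
  have h4 : ε' ≤ 1 / 20 := min_le_right _ _
  have h5 : t * ε' ≤ ε := by
    have : ε' ≤ ε / t := min_le_left _ _
    calc t * ε' ≤ t * (ε / t) := mul_le_mul_of_nonneg_left this ht.le
      _ = ε := by field_simp
  have h6 : 0 < d x ^ (-t) := Real.rpow_pos_of_pos h1.1 _
  calc (n x : ℝ) ^ (-(5 / 48 : ℝ) + ε') ≤ (d x ^ (-t)) ^ (-(5 / 48 : ℝ) + ε') :=
        rpow_anti_base h6 h2 (by linarith)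
    _ = d x ^ (-t * (-(5 / 48 : ℝ) + ε')) := by rw [← Real.rpow_mul h1.1.le]
    _ ≤ d x ^ (5 / 48 * t - ε) := by
        apply Real.rpow_le_rpow_of_exponent_ge h1.1 h1.2.le
        nlinarith

/-- `HypA` from below along scales at most `d^{-t}` -/
theorem hypA_lower (hA : HypA) (hd : Tendsto d l (𝓝[>] 0)) {t : ℝ} (ht : 0 < t) {n : α → ℕ}
    (hn : ∀ᶠ x in l, (n x : ℝ) ≤ d x ^ (-t)) {ε : ℝ} (hε : 0 < ε) :
    ∀ᶠ x in l, d x ^ (5 / 48 * t + ε) ≤ Pr (1 / 2) (Arm1 (n x)) := by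
  have hN : Tendsto (fun x => ⌊d x ^ (-t)⌋₊) l atTop := tendsto_floor hd ht
  have hε' : 0 < ε / t := by positivity
  filter_upwards [ev_pos_lt hd one_pos, hn, hN.eventually (hA _ hε'), ev_floor hd ht one_pos]
    with x h1 h2 h3 h4
  have h5 : n x ≤ ⌊d x ^ (-t)⌋₊ := Nat.le_floor h2
  have h6 : Pr (1 / 2) (Arm1 (⌊d x ^ (-t)⌋₊ : ℕ)) ≤ Pr (1 / 2) (Arm1 (n x)) :=
    Pr_mono (arm1_anti (by omega) (by exact_mod_cast h5))
  refine le_trans ?_ (h3.1.trans h6)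
  have h7 : (0 : ℝ) < (⌊d x ^ (-t)⌋₊ : ℝ) := by exact_mod_cast h4.1
  calc d x ^ (5 / 48 * t + ε) = d x ^ (-t * (-(5 / 48 : ℝ) - ε / t)) := by
        congr 1
        field_simp
        ring
    _ = (d x ^ (-t)) ^ (-(5 / 48 : ℝ) - ε / t) := by rw [Real.rpow_mul h1.1.le]
    _ ≤ (⌊d x ^ (-t)⌋₊ : ℝ) ^ (-(5 / 48 : ℝ) - ε / t) := rpow_anti_base h7 h4.2.1 (by
        have : 0 < ε / t := hε'
        linarith)

/-! ### the one-arm exponent with real radii and the Euclidean norm -/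

theorem oneArm_limit (hA : HypA) :
    Tendsto (fun R : ℝ => Real.log (oneArmProb R).toReal / Real.log R) atTop
      (𝓝 (-(5 : ℝ) / 48)) := by
  have hd : Tendsto (fun R : ℝ => R⁻¹) atTop (𝓝[>] 0) := tendsto_inv_atTop_nhdsGT_zero
  have key : Tendsto (fun R : ℝ => Real.log (oneArmProb R).toReal / Real.log R⁻¹) atTop
      (𝓝 (5 / 48)) := by
    apply tendsto_logratio hd
    intro ε hε
    -- scales
    have hlow : ∀ᶠ R : ℝ in atTop, ((⌈R⌉₊ : ℕ) : ℝ) ≤ (R⁻¹) ^ (-(1 + ε) : ℝ) := by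
      filter_upwards [eventually_ge_atTop 1, ev_const_le hd hε 2] with R h1 h2
      have h3 : (⌈R⌉₊ : ℝ) < R + 1 := Nat.ceil_lt_add_one (by linarith)
      rw [neg_add, Real.rpow_add (by positivity), Real.rpow_neg_one, inv_inv]
      nlinarith
    have hup : ∀ᶠ R : ℝ in atTop, (R⁻¹) ^ (-(1 - min ε (1 / 2)) : ℝ) ≤ ((⌊R / 2⌋₊ : ℕ) : ℝ) := by
      have hm : 0 < min ε (1 / 2) := lt_min hε (by norm_num)
      filter_upwards [eventually_ge_atTop 4, ev_rpow_le hd hm (by norm_num : (0 : ℝ) < 1 / 4)]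
        with R h1 h2
      have h3 : R / 2 < (⌊R / 2⌋₊ : ℝ) + 1 := Nat.lt_floor_add_one _
      rw [neg_sub, sub_eq_add_neg, Real.rpow_add (by positivity), Real.rpow_neg_one, inv_inv]
      nlinarith
    have h1 := hypA_lower hA hd (t := 1 + ε) (by linarith) hlow hε
    have h2 := hypA_upper hA hd (t := 1 - min ε (1 / 2))
      (by have : min ε (1 / 2) ≤ 1 / 2 := min_le_right _ _; linarith) hup (half_pos hε)
    have hε2 : ∀ᶠ R : ℝ in atTop, (1 : ℝ) < R := eventually_gt_atTop 1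
    -- use `ε` small enough
    have h3 := hypA_lower hA hd (t := 1 + ε / 2) (by linarith) (n := fun R => ⌈R⌉₊) (by
      filter_upwards [eventually_ge_atTop 1, ev_const_le hd (half_pos hε) 2] with R h1 h2
      have h3 : (⌈R⌉₊ : ℝ) < R + 1 := Nat.ceil_lt_add_one (by linarith)
      rw [neg_add, Real.rpow_add (by positivity), Real.rpow_neg_one, inv_inv]
      nlinarith) (half_pos hε)
    filter_upwards [h3, h2, hε2] with R h3 h2 hR
    have hR0 : 0 < R := by linarith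
    have hi : R⁻¹ < 1 := inv_lt_one_of_one_lt₀ hR
    have hi0 : 0 < R⁻¹ := by positivity
    rw [oneArmProb_eq]
    constructor
    · refine le_trans ?_ (h3.trans (Pr_mono (arm1_sub_armE hR0.le)))
      apply Real.rpow_le_rpow_of_exponent_ge hi0 hi.le
      nlinarith
    · refine ((Pr_mono (armE_sub hR0.le)).trans h2).trans ?_
      apply Real.rpow_le_rpow_of_exponent_ge hi0 hi.le
      have : min ε (1 / 2) ≤ ε := min_le_left _ _
      nlinarith
  have h : Tendsto (fun R : ℝ => -(Real.log (oneArmProb R).toReal / Real.log R⁻¹)) atTop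
      (𝓝 (-(5 / 48))) := key.neg
  have h5 : (-(5 : ℝ) / 48) = -(5 / 48) := by ring
  rw [h5]
  refine h.congr fun R => ?_
  rw [Real.log_inv, div_neg, neg_neg]

/-! ### upper bound for the percolation probability -/

theorem theta_le_arm (p : ℝ) (n : ℕ) : (percolationProb p).toReal ≤ Pr p (Arm1 n) := by
  rw [percolationProb_eq]
  exact Pr_mono fun z hz => clu_infinite_iff.1 hz n

/-- the deep critical scale -/
theorem scale_minus (hd : Tendsto d l (𝓝[>] 0)) {η : ℝ} (hη : 0 < η) (hη1 : η < 1) :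
    ∀ᶠ x in l, 1 ≤ ⌊d x ^ (-(4 / 3 : ℝ) + η)⌋₊ ∧
      (⌊d x ^ (-(4 / 3 : ℝ) + η)⌋₊ : ℝ) ≤ d x ^ (-(4 / 3 : ℝ) + η) ∧
      d x ^ (-(4 / 3 - 2 * η)) ≤ (⌊d x ^ (-(4 / 3 : ℝ) + η)⌋₊ : ℝ) := by
  have h := ev_floor hd (s := 4 / 3 - η) (ε := η) (by linarith) hη
  filter_upwards [h] with x hx
  have e1 : -(4 / 3 - η) = -(4 / 3 : ℝ) + η := by ring
  have e2 : -(4 / 3 - 2 * η) = -(4 / 3 - η) + η := by ring
  rw [← e1, e2]
  exact hx

theorem theta_upper (hA : HypA) (hB : HypB) {ε : ℝ} (hε : 0 < ε) :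
    ∀ᶠ p : ℝ in 𝓝[≠] (1 / 2), (percolationProb p).toReal ≤ |p - 1 / 2| ^ ((5 / 36 : ℝ) - ε) := by
  have hd := tendsto_abs_sub_half
  obtain ⟨η, hη, hη1, hη2⟩ : ∃ η : ℝ, 0 < η ∧ η < 1 / 2 ∧ 3 * η ≤ ε :=
    ⟨min (ε / 3) (1 / 4), lt_min (by positivity) (by norm_num),
      (min_le_right _ _).trans_lt (by norm_num), by
        have := min_le_left (ε / 3) (1 / 4 : ℝ)
        linarith⟩
  have h1 := scale_minus hd hη (by linarith)
  have h2 := hypA_upper hA hd (t := 4 / 3 - 2 * η) (by linarith)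
    (n := fun p => ⌊|p - 1 / 2| ^ (-(4 / 3 : ℝ) + η)⌋₊) (h1.mono fun p hp => hp.2.2) hη
  filter_upwards [h1, h2, hB η hη, ev_pos_lt hd one_pos] with p h1 h2 h3 h4
  have h5 := (h3 _ h1.1 h1.2.1).2
  refine (theta_le_arm p _).trans (h5.trans ?_)
  calc |p - 1 / 2| ^ (-η) * Pr (1 / 2) (Arm1 (⌊|p - 1 / 2| ^ (-(4 / 3 : ℝ) + η)⌋₊ : ℕ))
      ≤ |p - 1 / 2| ^ (-η) * |p - 1 / 2| ^ (5 / 48 * (4 / 3 - 2 * η) - η) :=
        mul_le_mul_of_nonneg_left h2 (Real.rpow_nonneg h4.1.le _)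
    _ = |p - 1 / 2| ^ (-η + (5 / 48 * (4 / 3 - 2 * η) - η)) := by rw [Real.rpow_add h4.1]
    _ ≤ _ := by
        apply Real.rpow_le_rpow_of_exponent_ge h4.1 h4.2.le
        nlinarith

end Crest.Agent.R158.Fr158
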