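import Crest.Prelude.Def_PlanarPerc
import Crest.Agent.R158.Rs1_689
import Crest.Agent.R161.Tas1_682

/-!
# Row 158 (S0235, S0236), Block F (helper158): the interface of the near-critical front

Language: configurations `Cf = Edge → Bool` (R161, `Tas682`), law `nu p = PB (fun _ => clampUnit p)`
(`Rs689`), events `EV S A B`, `LRc z a b c d`, `BTc z a b c d`, `Circ4`.

* `Pr p A`   : probability of `A` at parameter `p`
* `Bx n`     : the box `[-n,n]²`, `Out n` : the vertices at sup distance at least `n` from `0`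
* `Arm1 n`   : `0` is joined to `Out n` inside `Bx n`
* `LR n`     : hard-way (left-right) crossing of `[0,3n] × [0,n]`
* `BT n`     : easy-way (bottom-top) crossing of `[0,3n] × [0,n]`
  (a dual hard-way crossing is the complement of a primal easy-way crossing)

The four inputs:
* `HypA` : `π₁(n) = n^{-5/48+o(1)}` at `p = 1/2`
* `HypB` : stability of the one-arm probability below `|p-1/2|^{-4/3+ε}`
* `HypC` : RSW (primal and dual) below `|p-1/2|^{-4/3+ε}`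
* `HypD` : before `|p-1/2|^{-4/3-ε}` some hard-way crossing has probability `≥ 1-δ`
-/

set_option autoImplicit false

noncomputable section

namespace Crest.Agent.R158.Fr158

open MeasureTheory Filter Topology
open Crest.ProbabilityR.Percolation Crest.ProbabilityR.FirstPassage
open Crest.Agent.R158.Rs689 Crest.Agent.R161.Tas682 Crest.Agent.R161.Geo729

/-- the bond percolation law on `Edge → Bool` at the real parameter `p` (clamped to `[0,1]`) -/
def nu (p : ℝ) : Measure Cf := PB fun _ : Edge => clampUnit p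

instance (p : ℝ) : IsProbabilityMeasure (nu p) := by unfold nu; infer_instance

/-- probability of `A` at parameter `p` -/
def Pr (p : ℝ) (A : Set Cf) : ℝ := (nu p).real A

/-- the box `[-n,n]²` -/
def Bx (n : ℤ) : Set P2 := Rect (-n) n (-n) n

/-- vertices at sup distance at least `n` from the origin -/
def Out (n : ℤ) : Set P2 := {v | n ≤ |v.1| ∨ n ≤ |v.2|}

/-- one arm: `0` is joined inside `Bx n` to the boundary of `Bx n` -/
def Arm1 (n : ℤ) : Set Cf := EV (Bx n) {((0 : ℤ), (0 : ℤ))} (Out n)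

/-- hard-way (left-right) crossing of `[0,3n] × [0,n]` -/
def LR (n : ℤ) : Set Cf := {z | LRc z 0 (3 * n) 0 n}

/-- easy-way (bottom-top) crossing of `[0,3n] × [0,n]` -/
def BT (n : ℤ) : Set Cf := {z | BTc z 0 (3 * n) 0 n}

/-- (A) the one-arm exponent `5/48` at `p = 1/2` -/
def HypA : Prop :=
  ∀ ε : ℝ, 0 < ε → ∀ᶠ n : ℕ in atTop,
    (n : ℝ) ^ (-(5 / 48 : ℝ) - ε) ≤ Pr (1 / 2) (Arm1 n) ∧
      Pr (1 / 2) (Arm1 n) ≤ (n : ℝ) ^ (-(5 / 48 : ℝ) + ε)

/-- (B) stability of the one-arm probability in the deep critical window -/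
def HypB : Prop :=
  ∀ ε : ℝ, 0 < ε → ∀ᶠ p : ℝ in 𝓝[≠] (1 / 2), ∀ n : ℕ, 1 ≤ n →
    (n : ℝ) ≤ |p - 1 / 2| ^ (-(4 / 3 : ℝ) + ε) →
      |p - 1 / 2| ^ ε * Pr (1 / 2) (Arm1 n) ≤ Pr p (Arm1 n) ∧
        Pr p (Arm1 n) ≤ |p - 1 / 2| ^ (-ε) * Pr (1 / 2) (Arm1 n)

/-- (C) RSW, primal and dual, in the deep critical window -/
def HypC : Prop :=
  ∃ c : ℝ, 0 < c ∧ ∀ ε : ℝ, 0 < ε → ∀ᶠ p : ℝ in 𝓝[≠] (1 / 2), ∀ n : ℕ, 1 ≤ n →
    (n : ℝ) ≤ |p - 1 / 2| ^ (-(4 / 3 : ℝ) + ε) →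
      c ≤ Pr p (LR n) ∧ Pr p (BT n) ≤ 1 - c

/-- (D) the window ends before `|p-1/2|^{-4/3-ε}` -/
def HypD : Prop :=
  ∀ δ : ℝ, 0 < δ → ∀ ε : ℝ, 0 < ε → ∀ᶠ p : ℝ in 𝓝[≠] (1 / 2), ∃ n : ℕ, 1 ≤ n ∧
    (n : ℝ) ≤ |p - 1 / 2| ^ (-(4 / 3 : ℝ) - ε) ∧
      (1 / 2 < p → 1 - δ ≤ Pr p (LR n)) ∧ (p < 1 / 2 → Pr p (BT n) ≤ δ)

end Crest.Agent.R158.Fr158
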