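import Crest.Agent.R158.Ze2_96

/-!
# Row 158, Block Z (helper96), part 3: the supercritical network

* `hx_iff`, `vx_iff` : comparison with `LRc`, `BTc`
* `hard` : hard crossings fail with probability `≤ 8 Q (σ p) n`
* `Nt n` : frame in the annulus `A(n,2n)` and radial crossing up to distance `4n`
* `inf_of_net` : a cluster which reaches `Out (2 n_j)` is infinite on `⋂_{i ≥ j} Nt (2^i M)`
* `net_prob`, `fin_decay`, `theta_lower`
-/

set_option autoImplicit false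

noncomputable section

namespace Crest.Agent.R158.Ze96

open MeasureTheory unitInterval
open Crest.Agent.R161.Geo729 Crest.Agent.R161.Topo374 Crest.Agent.R161.Dual374
open Crest.Agent.R158.Rs689
open Crest.Agent.R161.Perc374 (Rc)
open Crest.Agent.R161.Tas682 (LRc BTc OC EV Rect)

theorem hx_iff {z : Cfz} {x0 x1 y0 y1 : ℤ} (hx : x0 < x1) :
    z ∈ HX x0 x1 y0 y1 ↔ LRc z x0 x1 y0 y1 := by
  constructor
  · intro h
    obtain ⟨a, b, ha, hb, ha', hb', h⟩ := hx_cn hx.le h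
    exact ⟨a, b, ha, hb, ha', h⟩
  · rintro ⟨a, b, ha, hb, h⟩
    exact ext_h (S := Rect x0 x1 y0 y1) h.2 (fun v hv => ⟨hv.2.2.1, hv.2.2.2⟩) ha.le hb.ge hx

theorem vx_iff {z : Cfz} {x0 x1 y0 y1 : ℤ} (hy : y0 < y1) :
    z ∈ VX x0 x1 y0 y1 ↔ BTc z x0 x1 y0 y1 := by
  constructor
  · intro h
    obtain ⟨a, b, ha, hb, ha', hb', h⟩ := vx_cn hy.le h
    exact ⟨a, b, ha, hb, ha', h⟩
  · rintro ⟨a, b, ha, hb, h⟩
    exact ext_v (S := Rect x0 x1 y0 y1) h.2 (fun v hv => ⟨hv.1, hv.2.1⟩) ha.le hb.ge hy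

theorem pr_hx_xpr (p : I) {x0 x1 : ℤ} (y0 y1 : ℤ) (hx : x0 < x1) :
    Pr p (HX x0 x1 y0 y1) = xpr p (x1 - x0) (y1 - y0) := by
  rw [← lr_eq_xpr]
  congr 1
  ext z
  exact hx_iff hx

/-- easy and hard crossing probabilities as in the interface -/
theorem pr_BT (p : ℝ) {n : ℤ} (hn : 0 < n) :
    Fr158.Pr p (Fr158.BT n) = Q (Crest.ProbabilityR.Percolation.clampUnit p) n := by
  have h1 : Fr158.BT n = VX 0 (3 * n) 0 n := by
    ext z
    exact (vx_iff hn).symm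
  rw [h1]
  exact pr_VX _ _ _ _ _

theorem pr_LR (p : ℝ) {n : ℤ} (hn : 0 < n) :
    Fr158.Pr p (Fr158.LR n) =
      Pr (Crest.ProbabilityR.Percolation.clampUnit p) (HX 0 (3 * n) 0 n) := by
  have h1 : Fr158.LR n = HX 0 (3 * n) 0 n := by
    ext z
    exact (hx_iff (by omega)).symm
  rw [h1]
  rfl

/-- **Hard crossings.** -/
theorem hard (p : I) {n : ℤ} (hn : 1 ≤ n) {x0 x1 y0 y1 : ℤ} (hx : x1 - x0 = 4 * n)
    (hy : y1 - y0 = n) : Pr p (HX x0 x1 y0 y1)ᶜ ≤ 8 * Q (σ p) n := by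
  have h1 : Pr p (HX x0 x1 y0 y1)ᶜ = 1 - Pr p (HX x0 x1 y0 y1) :=
    probReal_compl_eq_one_sub (meas_HX _ _ _ _)
  rw [h1, pr_hx_xpr p _ _ (by omega), hx, hy]
  have h2 := xpr_dual p (4 * n) n (by omega) (by omega)
  have h3 : xpr (σ p) (n + 1) (4 * n - 1) = Pr (σ p) (HX 0 (n + 1) 0 (4 * n - 1)) := by
    rw [pr_hx_xpr (σ p) _ _ (by omega)]
    simp
  have h4 : Pr (σ p) (HX 0 (n + 1) 0 (4 * n - 1)) ≤ Pr (σ p) (HX 0 n 0 (6 * n)) :=
    Pr_mono _ (hx_sub (le_refl _) (by omega) (by omega) (le_refl _) (by omega))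
  have h5 := pr_six (σ p) hn
  linarith

/-! ### frames and radial crossings -/

/-- frame in the annulus `A(n,2n)` -/
def Fm (n : ℤ) : Set Cfz :=
  (HX (-(2 * n)) (2 * n) n (2 * n) ∩ HX (-(2 * n)) (2 * n) (-(2 * n)) (-n)) ∩
    (VX n (2 * n) (-(2 * n)) (2 * n) ∩ VX (-(2 * n)) (-n) (-(2 * n)) (2 * n))

/-- frame and radial crossing -/
def Nt (n : ℤ) : Set Cfz := Fm n ∩ HX 0 (4 * n) 0 n

/-- dependence of an intersection -/
theorem Dep.inter' {S T : Finset Edge} {A B : Set Cfz} (hA : Dep S A) (hB : Dep T B) :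
    Dep (S ∪ T) (A ∩ B) := by
  classical
  exact (hA.mono Finset.subset_union_left).inter (hB.mono Finset.subset_union_right)

/-- edges of a frame -/
def FmE (n : ℤ) : Finset Edge :=
  (REf (-(2 * n)) (2 * n) n (2 * n) ∪ REf (-(2 * n)) (2 * n) (-(2 * n)) (-n)) ∪
    (REv n (2 * n) (-(2 * n)) (2 * n) ∪ REv (-(2 * n)) (-n) (-(2 * n)) (2 * n))

theorem dep_Fm (n : ℤ) : Dep (FmE n) (Fm n) :=
  Dep.inter' (Dep.inter' (dep_HX _ _ _ _) (dep_HX _ _ _ _))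
    (Dep.inter' (dep_VX _ _ _ _) (dep_VX _ _ _ _))

theorem inc_Fm (n : ℤ) : Inc (Fm n) :=
  ((inc_HX _ _ _ _).inter (inc_HX _ _ _ _)).inter ((inc_VX _ _ _ _).inter (inc_VX _ _ _ _))

theorem dep_Nt (n : ℤ) : Dep (FmE n ∪ REf 0 (4 * n) 0 n) (Nt n) :=
  Dep.inter' (dep_Fm n) (dep_HX _ _ _ _)

theorem inc_Nt (n : ℤ) : Inc (Nt n) := (inc_Fm n).inter (inc_HX _ _ _ _)

theorem pr_Nt (p : I) {n : ℤ} (hn : 1 ≤ n) : Pr p (Nt n)ᶜ ≤ 40 * Q (σ p) n := by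
  have h1 : (Nt n)ᶜ ⊆ (HX (-(2 * n)) (2 * n) n (2 * n))ᶜ ∪
      ((HX (-(2 * n)) (2 * n) (-(2 * n)) (-n))ᶜ ∪
      ((VX n (2 * n) (-(2 * n)) (2 * n))ᶜ ∪ ((VX (-(2 * n)) (-n) (-(2 * n)) (2 * n))ᶜ ∪
        (HX 0 (4 * n) 0 n)ᶜ))) := by
    intro z hz
    simp only [Nt, Fm, Set.mem_compl_iff, Set.mem_inter_iff, Set.mem_union] at hz ⊢
    tauto
  refine (Pr_mono p h1).trans ?_
  have e1 := hard p hn (x0 := -(2 * n)) (x1 := 2 * n) (y0 := n) (y1 := 2 * n) (by ring) (by ring)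
  have e2 := hard p hn (x0 := -(2 * n)) (x1 := 2 * n) (y0 := -(2 * n)) (y1 := -n) (by ring)
    (by ring)
  have ev : ∀ x0 x1 y0 y1 : ℤ, Pr p (VX x0 x1 y0 y1)ᶜ = Pr p (HX y0 y1 x0 x1)ᶜ := by
    intro x0 x1 y0 y1
    have h2 : Pr p (VX x0 x1 y0 y1)ᶜ = 1 - Pr p (VX x0 x1 y0 y1) :=
      probReal_compl_eq_one_sub (meas_VX _ _ _ _)
    have h3 : Pr p (HX y0 y1 x0 x1)ᶜ = 1 - Pr p (HX y0 y1 x0 x1) :=
      probReal_compl_eq_one_sub (meas_HX _ _ _ _)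
    rw [h2, h3, pr_VX]
  have e3 := hard p hn (x0 := -(2 * n)) (x1 := 2 * n) (y0 := n) (y1 := 2 * n) (by ring) (by ring)
  have e4 := hard p hn (x0 := -(2 * n)) (x1 := 2 * n) (y0 := -(2 * n)) (y1 := -n) (by ring)
    (by ring)
  rw [← ev] at e3 e4
  have e5 := hard p hn (x0 := 0) (x1 := 4 * n) (y0 := 0) (y1 := n) (by ring) (by ring)
  have g1 := Pr_union_le p (HX (-(2 * n)) (2 * n) n (2 * n))ᶜ
      ((HX (-(2 * n)) (2 * n) (-(2 * n)) (-n))ᶜ ∪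
      ((VX n (2 * n) (-(2 * n)) (2 * n))ᶜ ∪ ((VX (-(2 * n)) (-n) (-(2 * n)) (2 * n))ᶜ ∪
        (HX 0 (4 * n) 0 n)ᶜ)))
  have g2 := Pr_union_le p (HX (-(2 * n)) (2 * n) (-(2 * n)) (-n))ᶜ
      ((VX n (2 * n) (-(2 * n)) (2 * n))ᶜ ∪ ((VX (-(2 * n)) (-n) (-(2 * n)) (2 * n))ᶜ ∪
        (HX 0 (4 * n) 0 n)ᶜ))
  have g3 := Pr_union_le p (VX n (2 * n) (-(2 * n)) (2 * n))ᶜ
      ((VX (-(2 * n)) (-n) (-(2 * n)) (2 * n))ᶜ ∪ (HX 0 (4 * n) 0 n)ᶜ)
  have g4 := Pr_union_le p (VX (-(2 * n)) (-n) (-(2 * n)) (2 * n))ᶜ (HX 0 (4 * n) 0 n)ᶜ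
  linarith

/-! ### topology -/

/-- the cluster of the origin contains a bottom-top crossing of the right slab of `A(n,2n)` -/
def KR (z : Cfz) (n : ℤ) : Prop :=
  ∃ p q : P2, p.2 = -(2 * n) ∧ q.2 = 2 * n ∧ p ∈ Rc n (2 * n) (-(2 * n)) (2 * n) ∧
    Cn z (Rc n (2 * n) (-(2 * n)) (2 * n)) p q ∧ Rch z (0, 0) p

theorem rch_of_meet {z : Cfz} {S1 S2 : Set P2} {a p w : P2} (h1 : Cn z S1 a w)
    (h2 : Cn z S2 p w) : Rch z a p := h1.rch.trans h2.symm.rch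

/-- a cluster reaching distance `2n` contains the frame -/
theorem kr_of_frame {z : Cfz} {n : ℤ} (hn : 1 ≤ n) (hF : z ∈ Fm n) (hA : z ∈ AR (2 * n)) :
    KR z n := by
  obtain ⟨⟨ht, hb⟩, hr, hl⟩ := hF
  obtain ⟨ta, tb, t1, t2, t3, t4, t5⟩ := hx_cn (by omega) ht
  obtain ⟨ba, bb, b1, b2, b3, b4, b5⟩ := hx_cn (by omega) hb
  obtain ⟨ra, rb, r1, r2, r3, r4, r5⟩ := vx_cn (by omega) hr
  obtain ⟨la, lb, l1, l2, l3, l4, l5⟩ := vx_cn (by omega) hl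
  -- the four pieces are connected
  have tr : Rch z ta ra := by
    obtain ⟨w, hw1, hw2⟩ := cn_cross t5 r5 t3 r3
      (fun w hw => ⟨by have := hw.2.2.1; omega, by have := hw.2.2.2; omega⟩)
      (fun w hw => ⟨by have := hw.1; omega, by have := hw.2.1; omega⟩)
    exact rch_of_meet hw1 hw2
  have tl : Rch z ta la := by
    obtain ⟨w, hw1, hw2⟩ := cn_cross t5 l5 t3 l3
      (fun w hw => ⟨by have := hw.2.2.1; omega, by have := hw.2.2.2; omega⟩)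
      (fun w hw => ⟨by have := hw.1; omega, by have := hw.2.1; omega⟩)
    exact rch_of_meet hw1 hw2
  have br : Rch z ba ra := by
    obtain ⟨w, hw1, hw2⟩ := cn_cross b5 r5 b3 r3
      (fun w hw => ⟨by have := hw.2.2.1; omega, by have := hw.2.2.2; omega⟩)
      (fun w hw => ⟨by have := hw.1; omega, by have := hw.2.1; omega⟩)
    exact rch_of_meet hw1 hw2
  have sym : ∀ {u v : P2}, Rch z u v → Rch z v u := fun h => (cn_univ.2 h).symm.rch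
  obtain ⟨b, hb, hA⟩ := hA
  obtain ⟨b, hb, hb', h⟩ := exit_box (by omega) hb hA
  have hb2 := hb'
  simp only [Out, Fr158.Out, Set.mem_ofPred_eq] at hb
  simp only [Rc, Set.mem_ofPred_eq] at hb2
  have h0 : ((0 : ℤ), (0 : ℤ)) ∈ Rc (-(2 * n)) (2 * n) (-(2 * n)) (2 * n) := by
    simp only [Rc, Set.mem_ofPred_eq]; omega
  refine ⟨ra, rb, r1, r2, r3, r5, ?_⟩
  rcases hb with hb | hb
  · rcases le_abs'.1 hb with hb | hb
    · obtain ⟨w, hw1, hw2⟩ := cn_cross h.symm l5 hb' l3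
        (fun w hw => ⟨by have := hw.2.2.1; omega, by have := hw.2.2.2; omega⟩)
        (fun w hw => ⟨by have := hw.1; omega, by show w.1 ≤ 0; have := hw.2.1; omega⟩)
      have h1 := rch_of_meet hw1 hw2
      exact (h.rch.trans h1).trans ((sym tl).trans tr)
    · obtain ⟨w, hw1, hw2⟩ := cn_cross h r5 h0 r3
        (fun w hw => ⟨by have := hw.2.2.1; omega, by have := hw.2.2.2; omega⟩)
        (fun w hw => ⟨by show 0 ≤ w.1; have := hw.1; omega, by have := hw.2.1; omega⟩)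
      exact rch_of_meet hw1 hw2
  · rcases le_abs'.1 hb with hb | hb
    · obtain ⟨w, hw1, hw2⟩ := cn_cross b5 h.symm b3 hb'
        (fun w hw => ⟨by have := hw.2.2.1; omega, by show w.2 ≤ 0; have := hw.2.2.2; omega⟩)
        (fun w hw => ⟨by have := hw.1; omega, by have := hw.2.1; omega⟩)
      have h1 := rch_of_meet hw2 hw1
      exact (h.rch.trans h1).trans br
    · obtain ⟨w, hw1, hw2⟩ := cn_cross t5 h t3 h0
        (fun w hw => ⟨by show 0 ≤ w.2; have := hw.2.2.1; omega, by have := hw.2.2.2; omega⟩)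
        (fun w hw => ⟨by have := hw.1; omega, by have := hw.2.1; omega⟩)
      have h1 := rch_of_meet hw2 hw1
      exact h1.trans tr

/-- the radial crossing brings the cluster to distance `4n` -/
theorem kr_far {z : Cfz} {n : ℤ} (hn : 1 ≤ n) (hK : KR z n) (hR : z ∈ HX 0 (4 * n) 0 n) :
    ∃ b : P2, b.1 = 4 * n ∧ Rch z (0, 0) b := by
  obtain ⟨p, q, h1, h2, h3, h4, h5⟩ := hK
  obtain ⟨a, b, a1, a2, a3, a4, a5⟩ := hx_cn (by omega) hR
  obtain ⟨w, hw1, hw2⟩ := cn_cross a5 h4 a3 h3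
    (fun w hw => ⟨by have := hw.2.2.1; omega, by have := hw.2.2.2; omega⟩)
    (fun w hw => ⟨by have := hw.1; omega, by have := hw.2.1; omega⟩)
  exact ⟨b, a2, (h5.trans (rch_of_meet hw2 hw1)).trans a5.rch⟩

/-- ... and to the next frame -/
theorem kr_next {z : Cfz} {n : ℤ} (hn : 1 ≤ n) (hK : KR z n) (hR : z ∈ HX 0 (4 * n) 0 n)
    (hF : z ∈ Fm (2 * n)) : KR z (2 * n) := by
  obtain ⟨p, q, h1, h2, h3, h4, h5⟩ := hK
  obtain ⟨a, b, a1, a2, a3, a4, a5⟩ := hx_cn (by omega) hR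
  obtain ⟨w, hw1, hw2⟩ := cn_cross a5 h4 a3 h3
    (fun w hw => ⟨by have := hw.2.2.1; omega, by have := hw.2.2.2; omega⟩)
    (fun w hw => ⟨by have := hw.1; omega, by have := hw.2.1; omega⟩)
  have h6 := h5.trans (rch_of_meet hw2 hw1)
  obtain ⟨ra, rb, r1, r2, r3, r4, r5⟩ := vx_cn (by omega) hF.2.1
  obtain ⟨w', hw1', hw2'⟩ := cn_cross a5 r5 a3 r3
    (fun w hw => ⟨by have := hw.2.2.1; omega, by have := hw.2.2.2; omega⟩)
    (fun w hw => ⟨by have := hw.1; omega, by have := hw.2.1; omega⟩)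
  exact ⟨ra, rb, r1, r2, r3, r5, h6.trans (rch_of_meet hw1' hw2')⟩

/-- cluster of the origin -/
def C0 (z : Cfz) : Set P2 := {v | Rch z (0, 0) v}

/-- **Infinite cluster on the network.** -/
theorem inf_of_net {z : Cfz} {M : ℤ} (hM : 1 ≤ M) {j : ℕ} (hN : ∀ i, j ≤ i → z ∈ Nt (2 ^ i * M))
    (hA : z ∈ AR (2 * (2 ^ j * M))) : (C0 z).Infinite := by
  have hpos : ∀ i : ℕ, (1 : ℤ) ≤ 2 ^ i * M := by
    intro i
    have : (1 : ℤ) ≤ 2 ^ i := one_le_pow₀ (by norm_num)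
    nlinarith
  have hK : ∀ k : ℕ, KR z (2 ^ (j + k) * M) := by
    intro k
    induction k with
    | zero => exact kr_of_frame (hpos _) (hN j le_rfl).1 hA
    | succ k ih =>
      have h1 := kr_next (hpos _) ih (hN (j + k) (by omega)).2
        (by have := (hN (j + k + 1) (by omega)).1
            rwa [show (2 : ℤ) * (2 ^ (j + k) * M) = 2 ^ (j + k + 1) * M by ring])
      rwa [show (2 : ℤ) * (2 ^ (j + k) * M) = 2 ^ (j + (k + 1)) * M by ring] at h1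
  intro hfin
  obtain ⟨B, hB⟩ := (hfin.image (fun v : P2 => v.1)).bddAbove
  obtain ⟨k, hk⟩ := pow_unbounded_of_one_lt B (by norm_num : (1 : ℤ) < 2)
  obtain ⟨b, hb, hb'⟩ := kr_far (hpos _) (hK k) (hN (j + k) (by omega)).2
  have h1 : b.1 ≤ B := hB ⟨b, hb', rfl⟩
  have h2 : (2 : ℤ) ^ k ≤ 2 ^ (j + k) := pow_le_pow_right₀ (by norm_num) (by omega)
  have h3 : (0 : ℤ) < 2 ^ (j + k) := by positivity
  nlinarith

/-! ### probabilities -/

theorem exp_neg_two_le : Real.exp (-2) ≤ 1 / 5 := by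
  have h1 := Real.quadratic_le_exp_of_nonneg (show (0 : ℝ) ≤ 2 by norm_num)
  rw [Real.exp_neg, one_div]
  refine inv_anti₀ (by norm_num) ?_
  linarith

theorem two_pow_ge (j k : ℕ) : (2 : ℝ) ^ (j + 1) + 2 * k ≤ 2 ^ (j + k + 1) := by
  induction k with
  | zero => simp
  | succ k ih =>
    have h1 : (2 : ℝ) ^ (j + (k + 1) + 1) = 2 * 2 ^ (j + k + 1) := by ring
    have h2 : (2 : ℝ) ≤ 2 ^ (j + k + 1) := by
      have h3 : (2 : ℝ) ^ 1 ≤ 2 ^ (j + k + 1) := pow_le_pow_right₀ (by norm_num) (by omega)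
      simpa using h3
    rw [h1]
    push_cast
    linarith

theorem exp_geom (j k : ℕ) :
    Real.exp (-(2 : ℝ) ^ (j + k + 1)) ≤ Real.exp (-(2 : ℝ) ^ (j + 1)) * (1 / 5) ^ k := by
  have h1 := two_pow_ge j k
  calc Real.exp (-(2 : ℝ) ^ (j + k + 1)) ≤ Real.exp (-(2 : ℝ) ^ (j + 1) + k * (-2)) :=
        Real.exp_le_exp.2 (by linarith)
    _ = Real.exp (-(2 : ℝ) ^ (j + 1)) * Real.exp (-2) ^ k := by
        rw [Real.exp_add, ← Real.exp_nat_mul]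
    _ ≤ _ := by
        have := exp_neg_two_le
        gcongr

/-- **Probability of the network**, conditionally on an increasing event. -/
theorem net_prob (p : I) {M : ℤ} (hM : 1 ≤ M) (h : Q (σ p) M ≤ 1 / 500) {S : Finset Edge}
    {A : Set Cfz} (hA : Dep S A) (iA : Inc A) (j : ℕ) :
    Pr p (A ∩ ⋃ k : ℕ, (Nt (2 ^ (j + k) * M))ᶜ) ≤ Real.exp (-(2 : ℝ) ^ (j + 1)) * Pr p A := by
  set E := Real.exp (-(2 : ℝ) ^ (j + 1)) with hE
  have hE0 : 0 ≤ E := (Real.exp_pos _).le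
  have ha : 0 ≤ Pr p A := Pr_nonneg p A
  have hpos : ∀ i : ℕ, (1 : ℤ) ≤ 2 ^ i * M := by
    intro i
    have : (1 : ℤ) ≤ 2 ^ i := one_le_pow₀ (by norm_num)
    nlinarith
  have h1 : ∀ k : ℕ, Pr p (A ∩ (Nt (2 ^ (j + k) * M))ᶜ) ≤
      Pr p A * (5 / 8 * (E * (1 / 5) ^ k)) := by
    intro k
    have e1 := harris (fun _ : Edge => p) hA (dep_Nt (2 ^ (j + k) * M)) iA (inc_Nt _)
    have e2 := pr_Nt p (hpos (j + k))
    have e3 := Q_pow (σ p) hM h (j + k)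
    have e4 := exp_geom j k
    have e5 : Pr p (Nt (2 ^ (j + k) * M))ᶜ = 1 - Pr p (Nt (2 ^ (j + k) * M)) :=
      probReal_compl_eq_one_sub (dep_Nt _).measurableSet
    have e6 : Pr p A = Pr p (A ∩ Nt (2 ^ (j + k) * M)) + Pr p (A ∩ (Nt (2 ^ (j + k) * M))ᶜ) := by
      have := measureReal_inter_add_sdiff (μ := PB fun _ : Edge => p) (s := A)
        (dep_Nt (2 ^ (j + k) * M)).measurableSet
      rw [Set.sdiff_eq] at this
      exact this.symm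
    have e7 : Pr p A * Pr p (Nt (2 ^ (j + k) * M)) ≤ Pr p (A ∩ Nt (2 ^ (j + k) * M)) := e1
    have e8 : Pr p (Nt (2 ^ (j + k) * M))ᶜ ≤ 5 / 8 * (E * (1 / 5) ^ k) := by
      linarith
    have e9 : Pr p (A ∩ (Nt (2 ^ (j + k) * M))ᶜ) ≤ Pr p A * Pr p (Nt (2 ^ (j + k) * M))ᶜ := by
      rw [e5]
      linarith
    exact e9.trans (mul_le_mul_of_nonneg_left e8 ha)
  have h2 : HasSum (fun k : ℕ => Pr p A * (5 / 8 * (E * (1 / 5) ^ k)))
      (Pr p A * (5 / 8 * (E * (1 - 1 / 5)⁻¹))) :=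
    (((hasSum_geometric_of_lt_one (by norm_num) (by norm_num)).mul_left E).mul_left _).mul_left _
  have h3 : (PB fun _ : Edge => p) (A ∩ ⋃ k : ℕ, (Nt (2 ^ (j + k) * M))ᶜ) ≤
      ENNReal.ofReal (Pr p A * (5 / 8 * (E * (1 - 1 / 5)⁻¹))) := by
    rw [Set.inter_iUnion]
    refine (measure_iUnion_le _).trans ?_
    rw [← h2.tsum_eq, ENNReal.ofReal_tsum_of_nonneg (fun k => by positivity) h2.summable]
    refine ENNReal.tsum_le_tsum fun k => ?_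
    rw [← ENNReal.ofReal_toReal (measure_ne_top (PB fun _ : Edge => p) _)]
    exact ENNReal.ofReal_le_ofReal (h1 k)
  have h4 := ENNReal.toReal_mono ENNReal.ofReal_ne_top h3
  rw [ENNReal.toReal_ofReal (by positivity)] at h4
  have h5 : Pr p (A ∩ ⋃ k : ℕ, (Nt (2 ^ (j + k) * M))ᶜ) ≤
      Pr p A * (5 / 8 * (E * (1 - 1 / 5)⁻¹)) := h4
  refine h5.trans ?_
  have h6 : (0 : ℝ) ≤ Pr p A * E := mul_nonneg ha hE0
  calc Pr p A * (5 / 8 * (E * (1 - 1 / 5)⁻¹)) = (25 / 32) * (Pr p A * E) := by norm_num; ring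
    _ ≤ 1 * (Pr p A * E) := by gcongr; norm_num
    _ = E * Pr p A := by ring

/-- **Exponential decay of finite clusters beyond a supercritical scale.** -/
theorem fin_decay (p : I) {M : ℤ} (hM : 1 ≤ M) (h : Q (σ p) M ≤ 1 / 500) {R : ℤ}
    (hR : 2 * M ≤ R) :
    Pr p (AR R ∩ {z | (C0 z).Finite}) ≤ Real.exp (-(R : ℝ) / (2 * M)) := by
  obtain ⟨j, h1, h2⟩ := dyadic hM hR
  have h3 := net_prob p hM h (Dep.univ ∅) (fun _ _ _ _ => trivial) j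
  have h4 : AR R ∩ {z | (C0 z).Finite} ⊆ Set.univ ∩ ⋃ k : ℕ, (Nt (2 ^ (j + k) * M))ᶜ := by
    rintro z ⟨hz1, hz2⟩
    refine ⟨trivial, ?_⟩
    by_contra hcon
    simp only [Set.mem_iUnion, Set.mem_compl_iff, not_exists, not_not] at hcon
    refine inf_of_net hM (j := j) (fun i hi => ?_) (AR_anti h1 hz1) hz2
    have := hcon (i - j)
    rwa [Nat.add_sub_cancel' hi] at this
  refine (Pr_mono p h4).trans (h3.trans ?_)
  have h5 : Pr p (Set.univ : Set Cfz) = 1 := probReal_univ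
  rw [h5, mul_one]
  exact exp_dyadic hM h2

/-! ### lower bound of the percolation probability -/

/-- `AR n` is the event `Arm1 n` of the interface -/
theorem AR_eq {n : ℤ} (hn : 0 ≤ n) : AR n = Fr158.Arm1 n := by
  ext z
  constructor
  · rintro ⟨b, hb, h⟩
    obtain ⟨b, hb, hb', h⟩ := exit_box hn hb h
    refine ⟨(0, 0), rfl, b, hb, ?_, h⟩
    show ((0 : ℤ), (0 : ℤ)) ∈ Rect (-n) n (-n) n
    rw [Crest.Agent.R161.Tas682.mem_rect]
    omega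
  · rintro ⟨a, ha, b, hb, h⟩
    rw [Set.mem_singleton_iff] at ha
    subst ha
    exact ⟨b, hb, Cn.rch (S := Fr158.Bx n) h.2⟩

theorem AR_incLoc {n : ℤ} (hn : 0 ≤ n) : (∃ S : Finset Edge, Dep S (AR n)) ∧ Inc (AR n) := by
  rw [AR_eq hn]
  have h := Crest.Agent.R161.Tas682.EV_incLoc (Crest.Agent.R161.Tas682.rect_finite (-n) n (-n) n)
    {((0 : ℤ), (0 : ℤ))} (Fr158.Out n)
  exact ⟨h.loc, h.inc⟩

/-- **Lower bound of `θ`.** -/
theorem theta_lower (p : I) {M : ℤ} (hM : 1 ≤ M) (h : Q (σ p) M ≤ 1 / 500) :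
    1 / 2 * Pr p (AR (2 * M)) ≤ Pr p {z | (C0 z).Infinite} := by
  obtain ⟨⟨S, hS⟩, hI⟩ := AR_incLoc (n := 2 * M) (by omega)
  have h1 := net_prob p hM h hS hI 0
  have h2 : AR (2 * M) \ (AR (2 * M) ∩ ⋃ k : ℕ, (Nt (2 ^ (0 + k) * M))ᶜ) ⊆
      {z | (C0 z).Infinite} := by
    rintro z ⟨hz1, hz2⟩
    refine inf_of_net hM (j := 0) (fun i _ => ?_) (by simpa using hz1)
    by_contra hcon
    exact hz2 ⟨hz1, Set.mem_iUnion.2 ⟨i, by simpa using hcon⟩⟩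
  have h3 : Pr p (AR (2 * M)) - Pr p (AR (2 * M) ∩ ⋃ k : ℕ, (Nt (2 ^ (0 + k) * M))ᶜ) ≤
      Pr p (AR (2 * M) \ (AR (2 * M) ∩ ⋃ k : ℕ, (Nt (2 ^ (0 + k) * M))ᶜ)) :=
    le_measureReal_sdiff
  have h4 := Pr_mono p h2
  have h5 : Real.exp (-(2 : ℝ) ^ (0 + 1)) ≤ 1 / 5 := by
    have := exp_neg_two_le
    simpa using this
  have h6 := Pr_nonneg p (AR (2 * M))
  have h8 := h1.trans (mul_le_mul_of_nonneg_right h5 h6)
  have h9 := h3.trans h4
  generalize Pr p (AR (2 * M) ∩ ⋃ k : ℕ, (Nt (2 ^ (0 + k) * M))ᶜ) = b at h8 h9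
  generalize Pr p (AR (2 * M)) = a at h6 h8 h9 ⊢
  linarith

end Crest.Agent.R158.Ze96
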