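import Crest.Agent.R158.FsF_158
import Crest.Agent.R158.Ze3_96

/-!
# Row 158, Block F (helper158): S0235 and S0236 from `HypA`, `HypB`, `HypC`, `HypD`

The renormalisation inputs `HypZ1`, `HypZ2` are helper96's `fin_decay`, `arm_decay`, `theta_lower`.
-/

set_option autoImplicit false

noncomputable section

namespace Crest.Agent.R158.Fr158

open MeasureTheory Filter Topology unitInterval
open Crest.ProbabilityR.Percolation Crest.ProbabilityR.FirstPassage
open Crest.Agent.R158.Rs689 Crest.Agent.R161.Tas682 Crest.Agent.R161.Geo729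

theorem sigma_clampUnit (p : ℝ) : σ (clampUnit p) = clampUnit (1 - p) := by
  ext
  unfold clampUnit
  rw [unitInterval.coe_symm_eq, Set.coe_projIcc, Set.coe_projIcc]
  rcases le_total p 0 with h0 | h0
  · rw [min_eq_right (by linarith), max_eq_left h0, min_eq_left (by linarith)]
    norm_num
  · rcases le_total p 1 with h1 | h1
    · rw [min_eq_right h1, max_eq_right h0, min_eq_right (by linarith), max_eq_right (by linarith)]
    · rw [min_eq_left h1, min_eq_right (by linarith), max_eq_left (by linarith : 1 - p ≤ 0)]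
      norm_num

theorem pr_eq (p : ℝ) (A : Set Cf) : Ze96.Pr (clampUnit p) A = Pr p A := rfl

theorem clu_eq (z : Cf) : Ze96.C0 z = clu z := rfl

theorem exp_aux {R M : ℕ} (hM : 1 ≤ M) (h : R < 2 * M) :
    (1 : ℝ) ≤ Real.exp 1 * Real.exp (-(1 / 2 * (R : ℝ) / M)) := by
  rw [← Real.exp_add]
  apply Real.one_le_exp
  have hM0 : (0 : ℝ) < M := by exact_mod_cast hM
  have h1 : (R : ℝ) ≤ 2 * M := by exact_mod_cast h.le
  have h2 : 1 / 2 * (R : ℝ) / M ≤ 1 := by
    rw [div_le_one hM0]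
    linarith
  linarith

theorem hypZ1 : HypZ1 := by
  refine ⟨1 / 500, Real.exp 1, 1 / 2, by norm_num, (Real.exp_pos 1).le, by norm_num, ?_⟩
  intro p M hM h R
  by_cases hR : 2 * M ≤ R
  · have hR' : 2 * (M : ℤ) ≤ (R : ℤ) := by exact_mod_cast hR
    have hM' : (1 : ℤ) ≤ (M : ℤ) := by exact_mod_cast hM
    have e : Real.exp (-(((R : ℤ) : ℝ)) / (2 * ((M : ℤ) : ℝ))) =
        Real.exp (-(1 / 2 * (R : ℝ) / M)) := by
      congr 1
      push_cast
      ring
    have hAR : Ze96.AR (R : ℤ) = Arm1 R := Ze96.AR_eq (by omega)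
    have h1 : (1 : ℝ) ≤ Real.exp 1 := Real.one_le_exp (by norm_num)
    have key : Pr p (Arm1 R ∩ {z | (clu z).Finite}) ≤ Real.exp (-(1 / 2 * (R : ℝ) / M)) := by
      rcases h with ⟨_, h⟩ | ⟨_, h⟩
      · rw [Ze96.pr_BT p (by omega)] at h
        have h2 := Ze96.arm_decay (clampUnit p) hM' h hR'
        rw [e, hAR, pr_eq] at h2
        exact (Pr_mono Set.inter_subset_left).trans h2
      · rw [Ze96.pr_BT (1 - p) (by omega), ← sigma_clampUnit] at h
        have h2 := Ze96.fin_decay (clampUnit p) hM' h hR'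
        rw [e, hAR, pr_eq] at h2
        exact h2
    refine key.trans ?_
    have := Real.exp_pos (-(1 / 2 * (R : ℝ) / M))
    nlinarith
  · exact (Pr_le_one _ _).trans (exp_aux hM (by omega))

theorem hypZ2 : HypZ2 := by
  refine ⟨1 / 500, 1 / 2, by norm_num, by norm_num, ?_⟩
  intro p M hM _ h
  have hM' : (1 : ℤ) ≤ (M : ℤ) := by exact_mod_cast hM
  rw [Ze96.pr_BT (1 - p) (by omega), ← sigma_clampUnit] at h
  have h2 := Ze96.theta_lower (clampUnit p) hM' h
  rw [Ze96.AR_eq (by omega), pr_eq] at h2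
  exact h2

/-! ### lower bound of the percolation probability -/

theorem theta_lower (hA : HypA) (hD : HypD) (hZ : HypZ2) {ε : ℝ} (hε : 0 < ε) :
    ∀ᶠ p : ℝ in 𝓝[≠] (1 / 2), 1 / 2 < p →
      |p - 1 / 2| ^ ((5 / 36 : ℝ) + ε) ≤ (percolationProb p).toReal := by
  have hd := tendsto_abs_sub_half
  obtain ⟨δ, c, hδ, hc, hZ⟩ := hZ
  obtain ⟨η, hη, hη1⟩ : ∃ η : ℝ, 0 < η ∧ 3 * η ≤ ε := ⟨ε / 3, by positivity, by linarith⟩
  -- a common scale
  have hlow := hypA_lower hA hd (t := 4 / 3 + 2 * η) (by linarith)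
    (n := fun p => ⌊|p - 1 / 2| ^ (-(4 / 3 + 2 * η))⌋₊) (ε := η)
    ((ev_floor hd (s := 4 / 3 + 2 * η) (ε := η) (by linarith) hη).mono fun p hp => hp.2.1) hη
  filter_upwards [good_scale hD hδ hη, hlow, ev_pos_lt hd one_pos,
    ev_rpow_le hd hη (by norm_num : (0 : ℝ) < 1 / 2),
    ev_rpow_le hd hη hc] with p h1 h2 h3 h4 h5
  intro hp
  obtain ⟨M, hM1, hM2, hM3⟩ := h1
  have hM4 : Pr (1 - p) (BT M) ≤ δ := by
    rcases hM3 with ⟨h, _⟩ | ⟨_, h⟩
    · exact absurd h (by linarith)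
    · exact h
  have h6 := hZ p M hM1 hp hM4
  rw [percolationProb_eq]
  refine le_trans ?_ h6
  set d := |p - 1 / 2| with hdd
  have h7 : 2 * M ≤ ⌊d ^ (-(4 / 3 + 2 * η))⌋₊ := by
    apply Nat.le_floor
    push_cast
    have e : d ^ (-(4 / 3 : ℝ) - η) = d ^ η * d ^ (-(4 / 3 + 2 * η)) := by
      rw [← Real.rpow_add h3.1]
      congr 1
      ring
    have h8 : 0 < d ^ (-(4 / 3 + 2 * η)) := Real.rpow_pos_of_pos h3.1 _
    rw [e] at hM2
    nlinarith
  have h8 : Pr (1 / 2) (Arm1 (⌊d ^ (-(4 / 3 + 2 * η))⌋₊ : ℕ)) ≤ Pr p (Arm1 (2 * (M : ℤ))) := by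
    refine (Pr_mono_loc hp.le (arm1_incLoc _)).trans (Pr_mono (arm1_anti (by omega) ?_))
    exact_mod_cast h7
  calc d ^ ((5 / 36 : ℝ) + ε) ≤ d ^ (η + (5 / 48 * (4 / 3 + 2 * η) + η)) := by
        apply Real.rpow_le_rpow_of_exponent_ge h3.1 h3.2.le
        linarith
    _ = d ^ η * d ^ (5 / 48 * (4 / 3 + 2 * η) + η) := by rw [Real.rpow_add h3.1]
    _ ≤ c * Pr p (Arm1 (2 * (M : ℤ))) :=
        mul_le_mul h5 (h2.trans h8) (Real.rpow_nonneg h3.1.le _) hc.le

/-- **S0235** from the near-critical inputs. -/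
theorem s0235 (hA : HypA) (hB : HypB) (hD : HypD) :
    Filter.Tendsto (fun R : ℝ => Real.log (oneArmProb R).toReal / Real.log R)
        Filter.atTop (nhds (-(5 : ℝ) / 48)) ∧
      Filter.Tendsto (fun p : ℝ => Real.log (percolationProb p).toReal / Real.log (p - 1 / 2))
        (nhdsWithin (1 / 2) (Set.Ioi (1 / 2))) (nhds ((5 : ℝ) / 36)) := by
  refine ⟨oneArm_limit hA, ?_⟩
  have hd := tendsto_sub_half_right
  have hle : (𝓝[>] (1 / 2) : Filter ℝ) ≤ 𝓝[≠] (1 / 2) :=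
    nhdsWithin_mono _ fun x hx => ne_of_gt hx
  apply tendsto_logratio hd
  intro ε hε
  filter_upwards [hle (theta_upper hA hB hε), hle (theta_lower hA hD hypZ2 hε),
    self_mem_nhdsWithin] with p h1 h2 hp
  have hp' : (1 : ℝ) / 2 < p := hp
  rw [abs_of_pos (by linarith)] at h1 h2
  exact ⟨h2 hp', h1⟩

/-- **S0236** from the near-critical inputs. -/
theorem s0236' (hA : HypA) (hB : HypB) (hC : HypC) (hD : HypD) :
    Filter.Tendsto
        (fun p : ℝ => Real.log (truncSusceptibility p) / Real.log (abs (p - 1 / 2)))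
        (nhdsWithin (1 / 2) {(1 / 2 : ℝ)}ᶜ) (nhds (-(43 : ℝ) / 18)) ∧
      Filter.Tendsto
        (fun p : ℝ => Real.log (correlationLength p) / Real.log (abs (p - 1 / 2)))
        (nhdsWithin (1 / 2) {(1 / 2 : ℝ)}ᶜ) (nhds (-(4 : ℝ) / 3)) :=
  s0236 hA hB hC hD hypZ1

end Crest.Agent.R158.Fr158
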