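import Crest.Agent.R158.FsS_158
import Crest.Agent.R158.FrA_158

/-!
# Row 158, Block F (helper158): estimates of the susceptibility and the second moment

Inputs: `HypA`, `HypB`, `HypC`, `HypD` (FrDef_158) and `HypZ1` (exponential decay beyond a good scale).
-/

set_option autoImplicit false

noncomputable section

namespace Crest.Agent.R158.Fr158

open MeasureTheory Filter Topology
open Crest.ProbabilityR.Percolation Crest.ProbabilityR.FirstPassage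
open Crest.Agent.R158.Rs689 Crest.Agent.R161.Tas682 Crest.Agent.R161.Geo729

/-- (Z1) exponential decay of the truncated one-arm probability beyond a good scale -/
def HypZ1 : Prop :=
  ∃ δ C c : ℝ, 0 < δ ∧ 0 ≤ C ∧ 0 < c ∧ ∀ (p : ℝ) (M : ℕ), 1 ≤ M →
    ((p < 1 / 2 ∧ Pr p (BT M) ≤ δ) ∨ (1 / 2 < p ∧ Pr (1 - p) (BT M) ≤ δ)) →
      ∀ R : ℕ, Pr p (Arm1 R ∩ {z | (clu z).Finite}) ≤ C * Real.exp (-(c * R / M))

/-- (Z2) the infinite cluster above a good scale -/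
def HypZ2 : Prop :=
  ∃ δ c : ℝ, 0 < δ ∧ 0 < c ∧ ∀ (p : ℝ) (M : ℕ), 1 ≤ M → 1 / 2 < p → Pr (1 - p) (BT M) ≤ δ →
    c * Pr p (Arm1 (2 * M)) ≤ Pr p {z | (clu z).Infinite}

/-! ### the good scale -/

theorem tendsto_one_sub : Tendsto (fun p : ℝ => 1 - p) (𝓝[≠] (1 / 2)) (𝓝[≠] (1 / 2)) := by
  rw [tendsto_nhdsWithin_iff]
  constructor
  · have h : Tendsto (fun p : ℝ => 1 - p) (𝓝 (1 / 2)) (𝓝 (1 - 1 / 2)) :=
      tendsto_const_nhds.sub tendsto_id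
    have e : (1 : ℝ) - 1 / 2 = 1 / 2 := by norm_num
    rw [e] at h
    exact h.mono_left nhdsWithin_le_nhds
  · filter_upwards [self_mem_nhdsWithin] with p hp
    intro h
    apply hp
    rw [Set.mem_singleton_iff] at h ⊢
    linarith

theorem good_scale (hD : HypD) {δ ε : ℝ} (hδ : 0 < δ) (hε : 0 < ε) :
    ∀ᶠ p : ℝ in 𝓝[≠] (1 / 2), ∃ M : ℕ, 1 ≤ M ∧ (M : ℝ) ≤ |p - 1 / 2| ^ (-(4 / 3 : ℝ) - ε) ∧
      ((p < 1 / 2 ∧ Pr p (BT M) ≤ δ) ∨ (1 / 2 < p ∧ Pr (1 - p) (BT M) ≤ δ)) := by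
  have h1 := hD δ hδ ε hε
  have h2 := tendsto_one_sub.eventually h1
  filter_upwards [h1, h2, self_mem_nhdsWithin] with p h1 h2 hp
  rcases lt_or_gt_of_ne (show p ≠ 1 / 2 from hp) with h | h
  · obtain ⟨M, a, b, -, c⟩ := h1
    exact ⟨M, a, b, Or.inl ⟨h, c h⟩⟩
  · obtain ⟨M, a, b, -, c⟩ := h2
    refine ⟨M, a, ?_, Or.inr ⟨h, c (by linarith)⟩⟩
    have e : |1 - p - 1 / 2| = |p - 1 / 2| := by
      rw [← abs_neg]
      congr 1
      ring
    rwa [e] at b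

/-! ### tails -/

theorem exp_decay {C c κ : ℝ} (hC : 0 ≤ C) (hc : 0 < c) (hκ : 0 < κ) :
    ∀ᶠ R : ℕ in atTop, C * Real.exp (-(c * (R : ℝ) ^ κ)) ≤ ((R : ℝ) ^ 6)⁻¹ := by
  have h1 := tendsto_rpow_mul_exp_neg_mul_atTop_nhds_zero (6 / κ) c hc
  have h2 : Tendsto (fun R : ℕ => (R : ℝ) ^ κ) atTop atTop :=
    (tendsto_rpow_atTop hκ).comp tendsto_natCast_atTop_atTop
  have h3 := h1.comp h2
  have h4 : ∀ᶠ R : ℕ in atTop, ((R : ℝ) ^ κ) ^ (6 / κ) * Real.exp (-c * (R : ℝ) ^ κ) < 1 / (C + 1) :=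
    h3.eventually (gt_mem_nhds (by positivity))
  filter_upwards [h4, eventually_ge_atTop 1] with R h5 hR
  have hR0 : (0 : ℝ) < R := by exact_mod_cast hR
  rw [← Real.rpow_mul hR0.le, mul_div_cancel₀ _ hκ.ne'] at h5
  have e : (R : ℝ) ^ (6 : ℝ) = (R : ℝ) ^ 6 := by
    rw [show (6 : ℝ) = ((6 : ℕ) : ℝ) by norm_num, Real.rpow_natCast]
  rw [e] at h5
  have e2 : -c * (R : ℝ) ^ κ = -(c * (R : ℝ) ^ κ) := by ring
  rw [e2] at h5
  have h6 : 0 < (R : ℝ) ^ 6 := by positivity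
  rw [inv_eq_one_div, le_div_iff₀ h6]
  rw [lt_div_iff₀ (by positivity)] at h5
  have h7 : 0 < (R : ℝ) ^ 6 * Real.exp (-(c * (R : ℝ) ^ κ)) := by positivity
  nlinarith

theorem tail_ev (hD : HypD) (hZ : HypZ1) {η : ℝ} (hη : 0 < η) :
    ∀ᶠ p : ℝ in 𝓝[≠] (1 / 2), ∀ x : ℤ × ℤ, ⌊|p - 1 / 2| ^ (-(4 / 3 + 2 * η))⌋₊ < nm x →
      Pr p (Tf x) ≤ ((nm x : ℝ) ^ 6)⁻¹ := by
  obtain ⟨δ, C, c, hδ, hC, hc, hZ⟩ := hZ
  have hd := tendsto_abs_sub_half
  set κ : ℝ := η / (4 / 3 + 2 * η) with hκ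
  have hκ0 : 0 < κ := by positivity
  obtain ⟨R0, hR0⟩ := eventually_atTop.1 (exp_decay hC hc hκ0)
  have hN : Tendsto (fun p : ℝ => ⌊|p - 1 / 2| ^ (-(4 / 3 + 2 * η))⌋₊) (𝓝[≠] (1 / 2)) atTop :=
    tendsto_floor hd (by positivity)
  filter_upwards [good_scale hD hδ hη, hN.eventually (eventually_ge_atTop R0),
    ev_pos_lt hd one_pos] with p h1 h2 h3
  obtain ⟨M, hM1, hM2, hM3⟩ := h1
  intro x hx
  have hsub : Tf x ⊆ Arm1 (nm x) ∩ {z | (clu z).Finite} := by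
    rintro z ⟨hz1, hz2⟩
    refine ⟨arm_of_rch (by omega) hz1 ?_, hz2⟩
    rw [mem_Out, nm_cast]
  refine (Pr_mono hsub).trans ((hZ p M hM1 hM3 (nm x)).trans (le_trans ?_ (hR0 (nm x) (by omega))))
  apply mul_le_mul_of_nonneg_left _ hC
  apply Real.exp_le_exp.2
  rw [neg_le_neg_iff, mul_div_assoc]
  apply mul_le_mul_of_nonneg_left _ hc.le
  -- `R ^ κ ≤ R / M`
  have hM0 : (0 : ℝ) < M := by exact_mod_cast hM1
  have hR : |p - 1 / 2| ^ (-(4 / 3 + 2 * η)) < nm x := by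
    have := Nat.lt_of_floor_lt hx
    exact this
  have hRp : (0 : ℝ) < nm x := lt_trans (Real.rpow_pos_of_pos h3.1 _) hR
  rw [le_div_iff₀ hM0]
  have hden : (0 : ℝ) < 4 / 3 + 2 * η := by positivity
  have e1 : 1 - κ = (4 / 3 + η) / (4 / 3 + 2 * η) := by
    rw [hκ, eq_div_iff hden.ne', sub_mul, div_mul_cancel₀ _ hden.ne']
    ring
  have h4 : (M : ℝ) ≤ (nm x : ℝ) ^ (1 - κ) := by
    refine hM2.trans ?_
    calc |p - 1 / 2| ^ (-(4 / 3 : ℝ) - η)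
        = (|p - 1 / 2| ^ (-(4 / 3 + 2 * η))) ^ (1 - κ) := by
          rw [← Real.rpow_mul h3.1.le, e1]
          congr 1
          field_simp
          ring
      _ ≤ _ := Real.rpow_le_rpow (Real.rpow_nonneg h3.1.le _) hR.le (by rw [e1]; positivity)
  calc (nm x : ℝ) ^ κ * M ≤ (nm x : ℝ) ^ κ * (nm x : ℝ) ^ (1 - κ) :=
        mul_le_mul_of_nonneg_left h4 (Real.rpow_nonneg hRp.le _)
    _ = nm x := by
        rw [← Real.rpow_add hRp]
        have : κ + (1 - κ) = 1 := by ring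
        rw [this, Real.rpow_one]

/-! ### one-arm probabilities with constants -/

theorem arm_const (hA : HypA) {η : ℝ} (hη : 0 < η) (hη1 : η ≤ 5 / 48) :
    ∃ C : ℝ, 1 ≤ C ∧ ∀ k : ℕ, 1 ≤ k → Pr (1 / 2) (Arm1 k) ≤ C * (k : ℝ) ^ (-(5 / 48 : ℝ) + η) := by
  obtain ⟨k0, hk0⟩ := eventually_atTop.1 (hA η hη)
  refine ⟨k0 + 1, by linarith [Nat.cast_nonneg (α := ℝ) k0], fun k hk => ?_⟩
  have hk1 : (1 : ℝ) ≤ k := by exact_mod_cast hk
  have hkp : (0 : ℝ) < k := by linarith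
  have hpos : 0 < (k : ℝ) ^ (-(5 / 48 : ℝ) + η) := Real.rpow_pos_of_pos hkp _
  by_cases h : k0 ≤ k
  · refine (hk0 k h).2.trans ?_
    nlinarith [Nat.cast_nonneg (α := ℝ) k0]
  · refine (Pr_le_one _ _).trans ?_
    have h1 : (k : ℝ) ^ (-(1 : ℝ)) ≤ (k : ℝ) ^ (-(5 / 48 : ℝ) + η) :=
      Real.rpow_le_rpow_of_exponent_le hk1 (by linarith)
    rw [Real.rpow_neg_one] at h1
    have h2 : (k : ℝ) ≤ k0 + 1 := by
      have : k ≤ k0 + 1 := by omega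
      exact_mod_cast this
    calc (1 : ℝ) = k * (k : ℝ)⁻¹ := by field_simp
      _ ≤ (k0 + 1) * (k : ℝ) ^ (-(5 / 48 : ℝ) + η) :=
        mul_le_mul h2 h1 (by positivity) (by positivity)

/-! ### upper bound of the susceptibility inside the box -/

theorem chi_box_upper (hA : HypA) (hB : HypB) {η : ℝ} (hη : 0 < η) (hη1 : η ≤ 1 / 20) :
    ∀ᶠ p : ℝ in 𝓝[≠] (1 / 2),
      ∑ x ∈ bx (0, 0) ((⌊|p - 1 / 2| ^ (-(4 / 3 + 2 * η))⌋₊ : ℕ) : ℤ), Pr p (Tf x) ≤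
        |p - 1 / 2| ^ (-(43 / 18 : ℝ) - 14 * η) := by
  have hd := tendsto_abs_sub_half
  obtain ⟨C, hC1, hC⟩ := arm_const hA hη (by linarith)
  have hfl := ev_floor hd (s := 4 / 3 + 2 * η) (ε := η) (by linarith) hη
  filter_upwards [ev_pos_lt hd one_pos, scale_minus hd hη (by linarith), hfl, hB η hη,
    ev_const_le hd hη (27 + 36 * C ^ 2)] with p h1 h2 h3 h4 h5
  set d := |p - 1 / 2| with hdd
  set N := ⌊d ^ (-(4 / 3 + 2 * η))⌋₊ with hN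
  set m := ⌊d ^ (-(4 / 3 : ℝ) + η)⌋₊ with hm
  have hN1 : (1 : ℝ) ≤ N := by exact_mod_cast h3.1
  have hm1 : (1 : ℝ) ≤ m := by exact_mod_cast h2.1
  have hmN : m ≤ N := by
    apply Nat.floor_mono
    apply Real.rpow_le_rpow_of_exponent_ge h1.1 h1.2.le
    linarith
  have hmN' : (m : ℝ) ≤ N := by exact_mod_cast hmN
  set ρ : ℝ := m / (4 * N) with hρ
  have hρ0 : 0 < ρ := by positivity
  have hρ1 : ρ ≤ 1 := by
    rw [hρ, div_le_one (by positivity)]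
    linarith
  set s : ℝ := 5 / 24 - 2 * η with hs
  have hs0 : 0 < s := by rw [hs]; linarith
  have hs1 : s ≤ 1 := by rw [hs]; linarith
  set B : ℝ := (d ^ (-η)) ^ 2 * C ^ 2 * ρ⁻¹ with hBdef
  have hB0 : 0 ≤ B := by positivity
  have key : ∀ x : ℤ × ℤ, 3 ≤ nm x → nm x ≤ N → Pr p (Tf x) ≤ B * (nm x : ℝ) ^ (-s) := by
    intro x hx3 hxN
    set k : ℕ := min ((nm x - 1) / 2) m with hk
    have hk1 : 1 ≤ k := le_min (by omega) h2.1
    have hkm : k ≤ m := min_le_right _ _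
    have hk2 : 2 * k < nm x := by
      have : k ≤ (nm x - 1) / 2 := min_le_left _ _
      omega
    have hk3 : (nm x : ℝ) * ρ ≤ k := by
      have hxN' : (nm x : ℝ) ≤ N := by exact_mod_cast hxN
      have hx0 : (0 : ℝ) ≤ nm x := Nat.cast_nonneg _
      rcases min_choice ((nm x - 1) / 2) m with h | h
      · rw [← hk] at h
        have h6 : nm x ≤ 4 * k := by omega
        have h7 : (nm x : ℝ) ≤ 4 * k := by exact_mod_cast h6
        have h8 : ρ ≤ 1 / 4 := by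
          rw [hρ, div_le_div_iff₀ (by positivity) (by norm_num)]
          linarith
        nlinarith
      · rw [← hk] at h
        rw [h, hρ, mul_div_assoc', div_le_iff₀ (by positivity)]
        nlinarith
    have h6 : Pr p (Tf x) ≤ Pr p (Arm1 k) ^ 2 :=
      tf_le_arm p (by omega) (by rw [← nm_cast]; exact_mod_cast hk2)
    have h7 : Pr p (Arm1 k) ≤ d ^ (-η) * (C * (k : ℝ) ^ (-(5 / 48 : ℝ) + η)) := by
      have h8 : (k : ℝ) ≤ d ^ (-(4 / 3 : ℝ) + η) :=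
        le_trans (by exact_mod_cast hkm) h2.2.1
      refine (h4 k hk1 h8).2.trans ?_
      exact mul_le_mul_of_nonneg_left (hC k hk1) (Real.rpow_nonneg h1.1.le _)
    have hkp : (0 : ℝ) < k := by exact_mod_cast hk1
    have hxp : (0 : ℝ) < nm x := by exact_mod_cast (by omega : 0 < nm x)
    refine h6.trans ((pow_le_pow_left₀ (Pr_nonneg _ _) h7 2).trans ?_)
    have e1 : ((k : ℝ) ^ (-(5 / 48 : ℝ) + η)) ^ 2 = (k : ℝ) ^ (-s) := by
      rw [← Real.rpow_natCast, ← Real.rpow_mul hkp.le]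
      congr 1
      rw [hs]
      push_cast
      ring
    have e2 : (k : ℝ) ^ (-s) ≤ ρ⁻¹ * (nm x : ℝ) ^ (-s) := by
      calc (k : ℝ) ^ (-s) ≤ ((nm x : ℝ) * ρ) ^ (-s) :=
            rpow_anti_base (by positivity) hk3 (by linarith)
        _ = (nm x : ℝ) ^ (-s) * ρ ^ (-s) := Real.mul_rpow hxp.le hρ0.le
        _ ≤ (nm x : ℝ) ^ (-s) * ρ⁻¹ := by
            apply mul_le_mul_of_nonneg_left _ (Real.rpow_nonneg hxp.le _)
            rw [← Real.rpow_neg_one]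
            exact Real.rpow_le_rpow_of_exponent_ge hρ0 hρ1 (by linarith)
        _ = _ := mul_comm _ _
    calc (d ^ (-η) * (C * (k : ℝ) ^ (-(5 / 48 : ℝ) + η))) ^ 2
        = (d ^ (-η)) ^ 2 * C ^ 2 * ((k : ℝ) ^ (-(5 / 48 : ℝ) + η)) ^ 2 := by ring
      _ = (d ^ (-η)) ^ 2 * C ^ 2 * (k : ℝ) ^ (-s) := by rw [e1]
      _ ≤ (d ^ (-η)) ^ 2 * C ^ 2 * (ρ⁻¹ * (nm x : ℝ) ^ (-s)) :=
          mul_le_mul_of_nonneg_left e2 (by positivity)
      _ = _ := by rw [hBdef]; ring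
  have h6 := box_sum (F := fun x => Pr p (Tf x)) (B := B) (s := s) (N := N) hs1 hB0
    (fun x => Pr_le_one _ _) key
  refine h6.trans ?_
  -- powers of `d`
  have hNp : (0 : ℝ) < N := by linarith
  have hmp : (0 : ℝ) < m := by linarith
  have hρi : ρ⁻¹ ≤ 4 * d ^ (-(4 * η)) := by
    rw [hρ, inv_div, div_le_iff₀ hmp]
    have e : d ^ (-(4 / 3 + 2 * η)) = d ^ (-(4 * η)) * d ^ (-(4 / 3 - 2 * η)) := by
      rw [← Real.rpow_add h1.1]
      congr 1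
      ring
    calc 4 * (N : ℝ) ≤ 4 * d ^ (-(4 / 3 + 2 * η)) := by linarith [h3.2.1]
      _ = 4 * d ^ (-(4 * η)) * d ^ (-(4 / 3 - 2 * η)) := by rw [e]; ring
      _ ≤ 4 * d ^ (-(4 * η)) * m :=
          mul_le_mul_of_nonneg_left h2.2.2 (by have := Real.rpow_pos_of_pos h1.1 (-(4 * η)); positivity)
  have hNs : (N : ℝ) ^ (2 - s) ≤ d ^ (-(4 / 3 + 2 * η) * (2 - s)) := by
    rw [Real.rpow_mul h1.1.le]
    exact Real.rpow_le_rpow hNp.le h3.2.1 (by linarith)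
  have e3 : (d ^ (-η)) ^ 2 = d ^ (-(2 * η)) := by
    rw [← Real.rpow_natCast, ← Real.rpow_mul h1.1.le]
    congr 1
    push_cast
    ring
  set Y : ℝ := d ^ (-(43 / 18 : ℝ) - 13 * η) with hY
  have hY1 : 1 ≤ Y := Real.one_le_rpow_of_pos_of_le_one_of_nonpos h1.1 h1.2.le (by linarith)
  have h7 : B * (N : ℝ) ^ (2 - s) ≤ 4 * C ^ 2 * Y := by
    calc B * (N : ℝ) ^ (2 - s)
        ≤ (d ^ (-(2 * η)) * C ^ 2 * (4 * d ^ (-(4 * η)))) * d ^ (-(4 / 3 + 2 * η) * (2 - s)) := by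
          rw [hBdef, e3]
          apply mul_le_mul _ hNs (by positivity) (by positivity)
          exact mul_le_mul_of_nonneg_left hρi (by positivity)
      _ = 4 * C ^ 2 * (d ^ (-(2 * η)) * d ^ (-(4 * η)) * d ^ (-(4 / 3 + 2 * η) * (2 - s))) := by ring
      _ = 4 * C ^ 2 * d ^ (-(2 * η) + -(4 * η) + -(4 / 3 + 2 * η) * (2 - s)) := by
          rw [← Real.rpow_add h1.1, ← Real.rpow_add h1.1]
      _ ≤ 4 * C ^ 2 * Y := by
          apply mul_le_mul_of_nonneg_left _ (by positivity)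
          apply Real.rpow_le_rpow_of_exponent_ge h1.1 h1.2.le
          rw [hs]
          nlinarith
  calc 27 + 9 * B * (N : ℝ) ^ (2 - s) = 27 + 9 * (B * (N : ℝ) ^ (2 - s)) := by ring
    _ ≤ 27 * Y + 9 * (4 * C ^ 2 * Y) := by nlinarith
    _ = (27 + 36 * C ^ 2) * Y := by ring
    _ ≤ d ^ (-η) * Y := mul_le_mul_of_nonneg_right h5 (by linarith)
    _ = d ^ (-(43 / 18 : ℝ) - 14 * η) := by
        rw [hY, ← Real.rpow_add h1.1]
        congr 1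
        ring

end Crest.Agent.R158.Fr158
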