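import Crest.Agent.R158.FsE_158

/-!
# Row 158, Block F (helper158): the literal S0236 from `HypA`, `HypB`, `HypC`, `HypD`, `HypZ1`
-/

set_option autoImplicit false

noncomputable section

namespace Crest.Agent.R158.Fr158

open MeasureTheory Filter Topology
open Crest.ProbabilityR.Percolation Crest.ProbabilityR.FirstPassage
open Crest.Agent.R158.Rs689 Crest.Agent.R161.Tas682 Crest.Agent.R161.Geo729

/-! ### lower bounds -/

theorem tf_lower_ev (hA : HypA) (hB : HypB) (hC : HypC) {η : ℝ} (hη : 0 < η) (hη1 : η ≤ 1 / 20) :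
    ∀ᶠ p : ℝ in 𝓝[≠] (1 / 2), ∀ x : ℤ × ℤ, nm x ≤ ⌊|p - 1 / 2| ^ (-(4 / 3 - 2 * η))⌋₊ →
      |p - 1 / 2| ^ ((5 / 18 : ℝ) + 5 * η) ≤ Pr p (Tf x) := by
  have hd := tendsto_abs_sub_half
  obtain ⟨c, hc, hC⟩ := hC
  have hfl := ev_floor hd (s := 4 / 3 - 2 * η) (ε := η) (by linarith) hη
  have hlow := hypA_lower hA hd (t := 4 / 3) (by norm_num)
    (n := fun p => 3 * ⌊|p - 1 / 2| ^ (-(4 / 3 - 2 * η))⌋₊) (ε := η) (by
      filter_upwards [hfl, ev_pos_lt hd one_pos,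
        ev_rpow_le hd hη (by norm_num : (0 : ℝ) < 1 / 10)] with p h1 h2 h3
      push_cast
      have e : |p - 1 / 2| ^ (-(4 / 3 - 2 * η)) = |p - 1 / 2| ^ η * |p - 1 / 2| ^ (-(4 / 3 : ℝ) + η) := by
        rw [← Real.rpow_add h2.1]
        congr 1
        ring
      have h4 : 0 < |p - 1 / 2| ^ (-(4 / 3 : ℝ) + η) := Real.rpow_pos_of_pos h2.1 _
      have h5 : |p - 1 / 2| ^ (-(4 / 3 : ℝ) + η) ≤ |p - 1 / 2| ^ (-(4 / 3 : ℝ)) :=
        Real.rpow_le_rpow_of_exponent_ge h2.1 h2.2.le (by linarith)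
      have h6 := h1.2.1
      rw [e] at h6
      nlinarith) hη
  filter_upwards [ev_pos_lt hd one_pos, hfl, hlow, hB η hη, hC η hη,
    ev_rpow_le hd hη (by norm_num : (0 : ℝ) < 1 / 10),
    ev_rpow_le hd hη (show (0 : ℝ) < c ^ 16 by positivity)] with p h1 h2 h3 h4 h5 h6 h7
  intro x hx
  set d := |p - 1 / 2| with hdd
  set n := ⌊d ^ (-(4 / 3 - 2 * η))⌋₊ with hn
  have hn1 : 1 ≤ n := h2.1
  have e : d ^ (-(4 / 3 - 2 * η)) = d ^ η * d ^ (-(4 / 3 : ℝ) + η) := by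
    rw [← Real.rpow_add h1.1]
    congr 1
    ring
  have hpos : 0 < d ^ (-(4 / 3 : ℝ) + η) := Real.rpow_pos_of_pos h1.1 _
  have hn10 : 10 * (n : ℝ) ≤ d ^ (-(4 / 3 : ℝ) + η) := by
    have h8 := h2.2.1
    rw [e] at h8
    nlinarith
  have hnr : (1 : ℝ) ≤ n := by exact_mod_cast hn1
  have g1 := (h5 n hn1 (by linarith)).1
  have g2 := (h5 (8 * n + 2) (by omega) (by push_cast; linarith)).2
  have g3 := (h4 (3 * n) (by omega) (by push_cast; linarith)).1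
  have e1 : ((8 * n + 2 : ℕ) : ℤ) = 8 * (n : ℤ) + 2 := by push_cast; ring
  have e2 : ((3 * n : ℕ) : ℤ) = 3 * (n : ℤ) := by push_cast; ring
  rw [e1] at g2
  rw [e2] at g3 h3
  have g4 := tf_lower p (n := (n : ℤ)) (by omega) hc.le g1 g2 (x := x)
    (by rw [← nm_cast]; exact_mod_cast hx)
  refine le_trans ?_ g4
  have e3 : (5 / 48 * (4 / 3) : ℝ) = 5 / 36 := by norm_num
  rw [e3] at h3
  have g5 : d ^ ((5 / 36 : ℝ) + 2 * η) ≤ Pr p (Arm1 (3 * (n : ℤ))) := by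
    refine le_trans ?_ g3
    have : d ^ ((5 / 36 : ℝ) + 2 * η) = d ^ η * d ^ ((5 / 36 : ℝ) + η) := by
      rw [← Real.rpow_add h1.1]
      congr 1
      ring
    rw [this]
    exact mul_le_mul_of_nonneg_left h3 (Real.rpow_nonneg h1.1.le _)
  have g6 : d ^ ((5 / 18 : ℝ) + 4 * η) ≤ Pr p (Arm1 (3 * (n : ℤ))) ^ 2 := by
    have : d ^ ((5 / 18 : ℝ) + 4 * η) = (d ^ ((5 / 36 : ℝ) + 2 * η)) ^ 2 := by
      rw [← Real.rpow_natCast, ← Real.rpow_mul h1.1.le]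
      congr 1
      push_cast
      ring
    rw [this]
    exact pow_le_pow_left₀ (Real.rpow_nonneg h1.1.le _) g5 2
  calc d ^ ((5 / 18 : ℝ) + 5 * η) = d ^ η * d ^ ((5 / 18 : ℝ) + 4 * η) := by
        rw [← Real.rpow_add h1.1]
        congr 1
        ring
    _ ≤ c ^ 16 * Pr p (Arm1 (3 * (n : ℤ))) ^ 2 :=
        mul_le_mul h7 g6 (Real.rpow_nonneg h1.1.le _) (by positivity)

theorem card_bx_ge (n : ℕ) : (n : ℝ) ^ 2 ≤ ((bx (0, 0) (n : ℤ)).card : ℝ) := by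
  unfold bx
  have h : (Finset.Icc ((0 : ℤ) - n) (0 + n)).card = 2 * n + 1 := by
    rw [Int.card_Icc]
    omega
  rw [Finset.card_product]
  simp only [h]
  push_cast
  nlinarith [Nat.cast_nonneg (α := ℝ) n]

theorem floor_lower {d : ℝ} {η : ℝ} (h2 : d ^ (-(4 / 3 - 2 * η) + η) ≤
    (⌊d ^ (-(4 / 3 - 2 * η))⌋₊ : ℝ)) :
    d ^ (-(4 / 3 : ℝ) + 3 * η) ≤ (⌊d ^ (-(4 / 3 - 2 * η))⌋₊ : ℝ) := by
  have e : -(4 / 3 : ℝ) + 3 * η = -(4 / 3 - 2 * η) + η := by ring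
  rw [e]
  exact h2

theorem chi_lower (hA : HypA) (hB : HypB) (hC : HypC) {η : ℝ} (hη : 0 < η) (hη1 : η ≤ 1 / 20) :
    ∀ᶠ p : ℝ in 𝓝[≠] (1 / 2), |p - 1 / 2| ^ (-(43 / 18 : ℝ) + 11 * η) ≤
      ∑ x ∈ bx (0, 0) ((⌊|p - 1 / 2| ^ (-(4 / 3 - 2 * η))⌋₊ : ℕ) : ℤ), Pr p (Tf x) := by
  have hd := tendsto_abs_sub_half
  have hfl := ev_floor hd (s := 4 / 3 - 2 * η) (ε := η) (by linarith) hη
  filter_upwards [ev_pos_lt hd one_pos, hfl, tf_lower_ev hA hB hC hη hη1] with p h1 h2 h3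
  set d := |p - 1 / 2| with hdd
  set n := ⌊d ^ (-(4 / 3 - 2 * η))⌋₊ with hn
  have h4 : d ^ (-(4 / 3 : ℝ) + 3 * η) ≤ n := floor_lower h2.2.2
  have h5 : d ^ (-(8 / 3 : ℝ) + 6 * η) ≤ (n : ℝ) ^ 2 := by
    have : d ^ (-(8 / 3 : ℝ) + 6 * η) = (d ^ (-(4 / 3 : ℝ) + 3 * η)) ^ 2 := by
      rw [← Real.rpow_natCast, ← Real.rpow_mul h1.1.le]
      congr 1
      push_cast
      ring
    rw [this]
    exact pow_le_pow_left₀ (Real.rpow_nonneg h1.1.le _) h4 2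
  have h6 := Finset.card_nsmul_le_sum (bx (0, 0) (n : ℤ)) (fun x => Pr p (Tf x))
    (d ^ ((5 / 18 : ℝ) + 5 * η)) (fun x hx => h3 x (mem_bx_nm.1 hx))
  refine le_trans ?_ h6
  rw [nsmul_eq_mul]
  calc d ^ (-(43 / 18 : ℝ) + 11 * η) = d ^ (-(8 / 3 : ℝ) + 6 * η) * d ^ ((5 / 18 : ℝ) + 5 * η) := by
        rw [← Real.rpow_add h1.1]
        congr 1
        ring
    _ ≤ _ := mul_le_mul_of_nonneg_right (h5.trans (card_bx_ge n)) (Real.rpow_nonneg h1.1.le _)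

/-- a quarter of the box, far from the origin -/
def far (n : ℕ) : Finset (ℤ × ℤ) :=
  Finset.Icc ((n : ℤ) - (n / 2 : ℕ)) n ×ˢ Finset.Icc (0 : ℤ) n

theorem far_card (n : ℕ) : (n : ℝ) ^ 2 / 2 ≤ ((far n).card : ℝ) := by
  unfold far
  rw [Finset.card_product, Int.card_Icc, Int.card_Icc]
  have h1 : ((n : ℤ) + 1 - ((n : ℤ) - (n / 2 : ℕ))).toNat = n / 2 + 1 := by omega
  have h2 : ((n : ℤ) + 1 - 0).toNat = n + 1 := by omega
  rw [h1, h2]
  push_cast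
  have h3 : (n : ℝ) / 2 ≤ ((n / 2 : ℕ) : ℝ) + 1 := by
    have : n ≤ 2 * (n / 2 + 1) := by omega
    have h4 : (n : ℝ) ≤ 2 * (((n / 2 : ℕ) : ℝ) + 1) := by exact_mod_cast this
    linarith
  have h0 : (0 : ℝ) ≤ n := Nat.cast_nonneg n
  nlinarith

theorem far_mem {n : ℕ} {x : ℤ × ℤ} (hx : x ∈ far n) :
    nm x ≤ n ∧ (n : ℝ) ^ 2 / 4 ≤ (x.1 : ℝ) ^ 2 + (x.2 : ℝ) ^ 2 := by
  unfold far at hx
  rw [Finset.mem_product, Finset.mem_Icc, Finset.mem_Icc] at hx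
  obtain ⟨⟨a1, a2⟩, a3, a4⟩ := hx
  constructor
  · rw [← mem_bx_nm, mem_bx]
    simp only
    omega
  · have h1 : (n : ℤ) ≤ 2 * x.1 := by omega
    have h2 : (n : ℝ) ≤ 2 * (x.1 : ℝ) := by exact_mod_cast h1
    nlinarith [sq_nonneg (x.2 : ℝ), Nat.cast_nonneg (α := ℝ) n]

theorem sec_lower (hA : HypA) (hB : HypB) (hC : HypC) {η : ℝ} (hη : 0 < η) (hη1 : η ≤ 1 / 20) :
    ∀ᶠ p : ℝ in 𝓝[≠] (1 / 2), |p - 1 / 2| ^ (-(91 / 18 : ℝ) + 18 * η) ≤
      ∑ x ∈ far ⌊|p - 1 / 2| ^ (-(4 / 3 - 2 * η))⌋₊,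
        ((x.1 : ℝ) ^ 2 + (x.2 : ℝ) ^ 2) * Pr p (Tf x) := by
  have hd := tendsto_abs_sub_half
  have hfl := ev_floor hd (s := 4 / 3 - 2 * η) (ε := η) (by linarith) hη
  filter_upwards [ev_pos_lt hd one_pos, hfl, tf_lower_ev hA hB hC hη hη1,
    ev_rpow_le hd hη (by norm_num : (0 : ℝ) < 1 / 8)] with p h1 h2 h3 h7
  set d := |p - 1 / 2| with hdd
  set n := ⌊d ^ (-(4 / 3 - 2 * η))⌋₊ with hn
  have h4 : d ^ (-(4 / 3 : ℝ) + 3 * η) ≤ n := floor_lower h2.2.2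
  have h5 : d ^ (-(16 / 3 : ℝ) + 12 * η) ≤ (n : ℝ) ^ 4 := by
    have : d ^ (-(16 / 3 : ℝ) + 12 * η) = (d ^ (-(4 / 3 : ℝ) + 3 * η)) ^ 4 := by
      rw [← Real.rpow_natCast, ← Real.rpow_mul h1.1.le]
      congr 1
      push_cast
      ring
    rw [this]
    exact pow_le_pow_left₀ (Real.rpow_nonneg h1.1.le _) h4 4
  have h6 := Finset.card_nsmul_le_sum (far n)
    (fun x => ((x.1 : ℝ) ^ 2 + (x.2 : ℝ) ^ 2) * Pr p (Tf x))
    ((n : ℝ) ^ 2 / 4 * d ^ ((5 / 18 : ℝ) + 5 * η)) (fun x hx => by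
      have h8 := far_mem hx
      exact mul_le_mul h8.2 (h3 x h8.1) (Real.rpow_nonneg h1.1.le _) (by positivity))
  refine le_trans ?_ h6
  rw [nsmul_eq_mul]
  have hp : 0 ≤ d ^ ((5 / 18 : ℝ) + 5 * η) := Real.rpow_nonneg h1.1.le _
  calc d ^ (-(91 / 18 : ℝ) + 18 * η)
      = d ^ η * (d ^ (-(16 / 3 : ℝ) + 12 * η) * d ^ ((5 / 18 : ℝ) + 5 * η)) := by
        rw [← Real.rpow_add h1.1, ← Real.rpow_add h1.1]
        congr 1
        ring
    _ ≤ 1 / 8 * ((n : ℝ) ^ 4 * d ^ ((5 / 18 : ℝ) + 5 * η)) :=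
        mul_le_mul h7 (mul_le_mul_of_nonneg_right h5 hp) (by positivity) (by norm_num)
    _ = (n : ℝ) ^ 2 / 2 * ((n : ℝ) ^ 2 / 4 * d ^ ((5 / 18 : ℝ) + 5 * η)) := by ring
    _ ≤ _ := mul_le_mul_of_nonneg_right (far_card n) (by positivity)

/-! ### the literal quantities between these sums -/

theorem tf_nonneg (p : ℝ) (x : ℤ × ℤ) : 0 ≤ Pr p (Tf x) := Pr_nonneg _ _

theorem tail_le_gj {p : ℝ} {x : ℤ × ℤ} (hx : 1 ≤ nm x) (h : Pr p (Tf x) ≤ ((nm x : ℝ) ^ 6)⁻¹) :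
    Pr p (Tf x) ≤ 32 * gj x ∧ ((x.1 : ℝ) ^ 2 + (x.2 : ℝ) ^ 2) * Pr p (Tf x) ≤ 32 * gj x := by
  have h1 := nm_pow_le x hx
  have h0 : (1 : ℝ) ≤ nm x := by exact_mod_cast hx
  have hp : (0 : ℝ) < nm x := by linarith
  have hg := gj_nonneg x
  constructor
  · refine h.trans (le_trans ?_ (h1.trans (by linarith)))
    exact inv_anti₀ (by positivity) (pow_le_pow_right₀ h0 (by norm_num))
  · calc ((x.1 : ℝ) ^ 2 + (x.2 : ℝ) ^ 2) * Pr p (Tf x) ≤ 2 * (nm x : ℝ) ^ 2 * ((nm x : ℝ) ^ 6)⁻¹ :=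
        mul_le_mul (norm_sq_le x) h (tf_nonneg _ _) (by positivity)
      _ = 2 * ((nm x : ℝ) ^ 4)⁻¹ := by field_simp
      _ ≤ 32 * gj x := by linarith

theorem bounds (hA : HypA) (hB : HypB) (hC : HypC) (hD : HypD) (hZ : HypZ1) {η : ℝ} (hη : 0 < η)
    (hη1 : η ≤ 1 / 20) : ∀ᶠ p : ℝ in 𝓝[≠] (1 / 2),
      |p - 1 / 2| ^ (-(43 / 18 : ℝ) + 11 * η) ≤ truncSusceptibility p ∧
      truncSusceptibility p ≤ |p - 1 / 2| ^ (-(43 / 18 : ℝ) - 15 * η) ∧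
      |p - 1 / 2| ^ (-(8 / 3 : ℝ) + 33 * η) ≤
        (truncSecondMomentENN p / truncSusceptibilityENN p).toReal ∧
      (truncSecondMomentENN p / truncSusceptibilityENN p).toReal ≤
        |p - 1 / 2| ^ (-(8 / 3 : ℝ) - 5 * η) := by
  have hd := tendsto_abs_sub_half
  have hfl := ev_floor hd (s := 4 / 3 + 2 * η) (ε := η) (by linarith) hη
  filter_upwards [ev_pos_lt hd one_pos, hfl, chi_lower hA hB hC hη hη1, sec_lower hA hB hC hη hη1,
    chi_box_upper hA hB hη hη1, tail_ev hD hZ hη, ev_const_le hd hη (2 + Kt),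
    ev_const_le hd hη (1 + Kt)]
    with p h1 h2 h3 h4 h5 h6 h7 h8
  set d := |p - 1 / 2| with hdd
  set n := ⌊d ^ (-(4 / 3 - 2 * η))⌋₊ with hn
  set N := ⌊d ^ (-(4 / 3 + 2 * η))⌋₊ with hN
  set X := ∑ x ∈ bx (0, 0) (N : ℤ), Pr p (Tf x) with hX
  have hK := Kt_nonneg
  have hX0 : 0 ≤ X := Finset.sum_nonneg fun x _ => tf_nonneg p x
  -- susceptibility
  have u1 : truncSusceptibilityENN p ≤ ENNReal.ofReal (X + Kt) := by
    rw [chi_eq]
    exact tsum_le_box (fun x => tf_nonneg p x) fun x hx =>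
      (tail_le_gj (by omega) (h6 x hx)).1
  have l1 : ENNReal.ofReal (∑ x ∈ bx (0, 0) (n : ℤ), Pr p (Tf x)) ≤ truncSusceptibilityENN p := by
    rw [chi_eq]
    exact sum_le_tsum' (fun x => tf_nonneg p x) _
  have l1' : ENNReal.ofReal X ≤ truncSusceptibilityENN p := by
    rw [chi_eq]
    exact sum_le_tsum' (fun x => tf_nonneg p x) _
  have fin1 : truncSusceptibilityENN p ≠ ⊤ := ne_top_of_le_ne_top ENNReal.ofReal_ne_top u1
  set χ := (truncSusceptibilityENN p).toReal with hχ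
  have u1r : χ ≤ X + Kt := by
    have := ENNReal.toReal_mono ENNReal.ofReal_ne_top u1
    rwa [ENNReal.toReal_ofReal (by positivity)] at this
  have l1r : d ^ (-(43 / 18 : ℝ) + 11 * η) ≤ χ := by
    refine h3.trans ?_
    have := ENNReal.toReal_mono fin1 l1
    rwa [ENNReal.toReal_ofReal (Finset.sum_nonneg fun x _ => tf_nonneg p x)] at this
  have l1r' : X ≤ χ := by
    have := ENNReal.toReal_mono fin1 l1'
    rwa [ENNReal.toReal_ofReal hX0] at this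
  have hχ1 : 1 ≤ χ := le_trans
    (Real.one_le_rpow_of_pos_of_le_one_of_nonpos h1.1 h1.2.le (by linarith)) l1r
  have hχu : χ ≤ d ^ (-(43 / 18 : ℝ) - 15 * η) := by
    have hY1 : 1 ≤ d ^ (-(43 / 18 : ℝ) - 14 * η) :=
      Real.one_le_rpow_of_pos_of_le_one_of_nonpos h1.1 h1.2.le (by linarith)
    calc χ ≤ d ^ (-(43 / 18 : ℝ) - 14 * η) + Kt := by linarith
      _ ≤ (1 + Kt) * d ^ (-(43 / 18 : ℝ) - 14 * η) := by nlinarith
      _ ≤ d ^ (-η) * d ^ (-(43 / 18 : ℝ) - 14 * η) :=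
          mul_le_mul_of_nonneg_right h8 (by linarith)
      _ = _ := by
          rw [← Real.rpow_add h1.1]
          congr 1
          ring
  -- second moment
  set F : ℤ × ℤ → ℝ := fun x => ((x.1 : ℝ) ^ 2 + (x.2 : ℝ) ^ 2) * Pr p (Tf x) with hF
  have hF0 : ∀ x, 0 ≤ F x := fun x => mul_nonneg (by positivity) (tf_nonneg p x)
  have u2 : truncSecondMomentENN p ≤ ENNReal.ofReal (∑ x ∈ bx (0, 0) (N : ℤ), F x + Kt) := by
    rw [sec_eq]
    exact tsum_le_box hF0 fun x hx => (tail_le_gj (by omega) (h6 x hx)).2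
  have l2 : ENNReal.ofReal (∑ x ∈ far n, F x) ≤ truncSecondMomentENN p := by
    rw [sec_eq]
    exact sum_le_tsum' hF0 _
  have fin2 : truncSecondMomentENN p ≠ ⊤ := ne_top_of_le_ne_top ENNReal.ofReal_ne_top u2
  set S := (truncSecondMomentENN p).toReal with hS
  have hs2 : ∑ x ∈ bx (0, 0) (N : ℤ), F x ≤ 2 * (N : ℝ) ^ 2 * X := by
    rw [hX, Finset.mul_sum]
    refine Finset.sum_le_sum fun x hx => ?_
    refine mul_le_mul_of_nonneg_right ((norm_sq_le x).trans ?_) (tf_nonneg p x)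
    have h9 : (nm x : ℝ) ≤ N := by exact_mod_cast mem_bx_nm.1 hx
    have := pow_le_pow_left₀ (Nat.cast_nonneg _) h9 2
    linarith
  have u2r : S ≤ 2 * (N : ℝ) ^ 2 * X + Kt := by
    have := ENNReal.toReal_mono ENNReal.ofReal_ne_top u2
    rw [ENNReal.toReal_ofReal (add_nonneg (Finset.sum_nonneg fun x _ => hF0 x) hK)] at this
    linarith
  have l2r : d ^ (-(91 / 18 : ℝ) + 18 * η) ≤ S := by
    refine h4.trans ?_
    have := ENNReal.toReal_mono fin2 l2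
    rwa [ENNReal.toReal_ofReal (Finset.sum_nonneg fun x _ => hF0 x)] at this
  have hdiv : (truncSecondMomentENN p / truncSusceptibilityENN p).toReal = S / χ :=
    ENNReal.toReal_div _ _
  refine ⟨l1r, hχu, ?_, ?_⟩
  · rw [hdiv, le_div_iff₀ (by linarith)]
    calc d ^ (-(8 / 3 : ℝ) + 33 * η) * χ
        ≤ d ^ (-(8 / 3 : ℝ) + 33 * η) * d ^ (-(43 / 18 : ℝ) - 15 * η) :=
          mul_le_mul_of_nonneg_left hχu (Real.rpow_nonneg h1.1.le _)
      _ = d ^ (-(91 / 18 : ℝ) + 18 * η) := by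
          rw [← Real.rpow_add h1.1]
          congr 1
          ring
      _ ≤ S := l2r
  · rw [hdiv, div_le_iff₀ (by linarith)]
    have hN2 : (N : ℝ) ^ 2 ≤ d ^ (-(8 / 3 : ℝ) - 4 * η) := by
      have : d ^ (-(8 / 3 : ℝ) - 4 * η) = (d ^ (-(4 / 3 + 2 * η))) ^ 2 := by
        rw [← Real.rpow_natCast, ← Real.rpow_mul h1.1.le]
        congr 1
        push_cast
        ring
      rw [this]
      exact pow_le_pow_left₀ (Nat.cast_nonneg _) h2.2.1 2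
    have hY1 : 1 ≤ d ^ (-(8 / 3 : ℝ) - 4 * η) :=
      Real.one_le_rpow_of_pos_of_le_one_of_nonpos h1.1 h1.2.le (by linarith)
    calc S ≤ 2 * (N : ℝ) ^ 2 * χ + Kt * χ := by
          refine u2r.trans (add_le_add (mul_le_mul_of_nonneg_left l1r' (by positivity)) ?_)
          nlinarith
      _ = (2 * (N : ℝ) ^ 2 + Kt) * χ := by ring
      _ ≤ ((2 + Kt) * d ^ (-(8 / 3 : ℝ) - 4 * η)) * χ := by
          apply mul_le_mul_of_nonneg_right _ (by linarith)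
          nlinarith
      _ ≤ (d ^ (-η) * d ^ (-(8 / 3 : ℝ) - 4 * η)) * χ := by
          apply mul_le_mul_of_nonneg_right _ (by linarith)
          exact mul_le_mul_of_nonneg_right h7 (by linarith)
      _ = _ := by
          rw [← Real.rpow_add h1.1]
          congr 2
          ring

/-- **S0236** from the near-critical inputs. -/
theorem s0236 (hA : HypA) (hB : HypB) (hC : HypC) (hD : HypD) (hZ : HypZ1) :
    Filter.Tendsto
        (fun p : ℝ => Real.log (truncSusceptibility p) / Real.log (abs (p - 1 / 2)))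
        (nhdsWithin (1 / 2) {(1 / 2 : ℝ)}ᶜ) (nhds (-(43 : ℝ) / 18)) ∧
      Filter.Tendsto
        (fun p : ℝ => Real.log (correlationLength p) / Real.log (abs (p - 1 / 2)))
        (nhdsWithin (1 / 2) {(1 / 2 : ℝ)}ᶜ) (nhds (-(4 : ℝ) / 3)) := by
  have hd := tendsto_abs_sub_half
  have pick : ∀ ε : ℝ, 0 < ε → ∃ η : ℝ, 0 < η ∧ η ≤ 1 / 20 ∧ 33 * η ≤ ε := fun ε hε =>
    ⟨min (ε / 33) (1 / 20), lt_min (by positivity) (by norm_num), min_le_right _ _, by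
      have := min_le_left (ε / 33) (1 / 20 : ℝ)
      linarith⟩
  constructor
  · apply tendsto_logratio hd
    intro ε hε
    obtain ⟨η, hη, hη1, hη2⟩ := pick ε hε
    filter_upwards [ev_pos_lt hd one_pos, bounds hA hB hC hD hZ hη hη1] with p h1 h2
    constructor
    · refine le_trans (Real.rpow_le_rpow_of_exponent_ge h1.1 h1.2.le ?_) h2.1
      linarith
    · refine h2.2.1.trans (Real.rpow_le_rpow_of_exponent_ge h1.1 h1.2.le ?_)
      linarith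
  · have key : Tendsto (fun p : ℝ => Real.log
        ((truncSecondMomentENN p / truncSusceptibilityENN p).toReal) / Real.log |p - 1 / 2|)
        (𝓝[≠] (1 / 2)) (𝓝 (-(8 / 3))) := by
      apply tendsto_logratio hd
      intro ε hε
      obtain ⟨η, hη, hη1, hη2⟩ := pick ε hε
      filter_upwards [ev_pos_lt hd one_pos, bounds hA hB hC hD hZ hη hη1] with p h1 h2
      constructor
      · refine le_trans (Real.rpow_le_rpow_of_exponent_ge h1.1 h1.2.le ?_) h2.2.2.1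
        linarith
      · refine h2.2.2.2.trans (Real.rpow_le_rpow_of_exponent_ge h1.1 h1.2.le ?_)
        linarith
    have h5 : (-(4 : ℝ) / 3) = -(8 / 3) / 2 := by norm_num
    rw [h5]
    refine (key.div_const 2).congr fun p => ?_
    unfold correlationLength
    rw [Real.log_sqrt ENNReal.toReal_nonneg]
    ring

end Crest.Agent.R158.Fr158
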