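import Crest.Agent.R158.FsT_158

/-!
# Row 158, Block F (helper158): lower bound of the truncated two-point function

`tf_lower` : if the hard-way crossing of `3n × n` has probability `≥ c` and the easy-way crossing of
`3m × m`, `m = 8n+2`, has probability `≤ 1-c`, then `c¹⁶ · Pr p (Arm1 (3n))² ≤ Pr p (Tf x)` for `|x| ≤ n`.
-/

set_option autoImplicit false

noncomputable section

namespace Crest.Agent.R158.Fr158

open MeasureTheory Filter Topology
open Crest.ProbabilityR.Percolation Crest.ProbabilityR.FirstPassage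
open Crest.Agent.R158.Rs689 Crest.Agent.R161.Tas682 Crest.Agent.R161.Geo729
open Crest.Agent.R161.Topo374 Crest.Agent.R161.Dual374

/-- Harris' inequality for complements -/
theorem Pr_fkg_compl {p : ℝ} {A B : Set Cf} (hA : IncLoc A) (hB : IncLoc B) :
    (1 - Pr p A) * (1 - Pr p B) ≤ 1 - Pr p (A ∪ B) := by
  have h1 := Pr_fkg (p := p) hA hB
  have h2 : Pr p (A ∪ B) + Pr p (A ∩ B) = Pr p A + Pr p B :=
    measureReal_union_add_inter hB.measurableSet
  nlinarith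

theorem LR_prob (p : ℝ) (n : ℤ) : Pr p (LR n) = lr (Pr p) 0 (3 * n) 0 n := rfl

theorem BT_prob (p : ℝ) (n : ℤ) : Pr p (BT n) = lr (Pr p) 0 n 0 (3 * n) := by
  have h := (percP p).bt_eq 0 (3 * n) 0 n
  simp only [sub_zero] at h
  exact h

/-- circuits from hard-way crossings -/
theorem circ_ge (p : ℝ) {n : ℤ} (hn : 0 ≤ n) {c : ℝ} (hc : 0 ≤ c) (h : c ≤ Pr p (LR n)) (x : P2) :
    c ^ 12 ≤ Pr p {z | Circ4 z x n (2 * n)} := by
  have hP := percP p
  rw [LR_prob] at h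
  have h1 : c ≤ lr (Pr p) 0 (2 * n) 0 n := h.trans (hP.h_mono (by omega) (by omega) le_rfl)
  have h2 : c ≤ lr (Pr p) 0 n 0 n := h.trans (hP.h_mono (by omega) (by omega) le_rfl)
  have h3 := hP.h_glue (L1 := 3 * n) (L2 := 2 * n) (W := n) (H := n) (by omega) (by omega)
  have e1 : 3 * n + 2 * n - n = 4 * n := by ring
  rw [e1] at h3
  have h4 : c ^ 3 ≤ lr (Pr p) 0 (4 * n) 0 n := by
    refine le_trans ?_ h3
    have h5 : c * c ≤ lr (Pr p) 0 (3 * n) 0 n * lr (Pr p) 0 (2 * n) 0 n :=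
      mul_le_mul h h1 hc (hP.lr_nonneg _ _ _ _)
    calc c ^ 3 = c * c * c := by ring
      _ ≤ _ := mul_le_mul h5 h2 hc (mul_nonneg (hP.lr_nonneg _ _ _ _) (hP.lr_nonneg _ _ _ _))
  have h5 := hP.circ4_ge x n (2 * n)
  have e2 : 2 * (2 * n) = 4 * n := by ring
  have e3 : 2 * n - n = n := by ring
  rw [e2, e3] at h5
  refine le_trans ?_ h5
  calc c ^ 12 = (c ^ 3) ^ 4 := by ring
    _ ≤ _ := pow_le_pow_left₀ (by positivity) h4 4

/-- the annulus `{a ≤ |v| ≤ b}` -/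
def Ann (a b : ℤ) : Finset P2 := (bx (0, 0) b).filter fun v => a ≤ sd (0, 0) v

theorem mem_Ann {a b : ℤ} {v : P2} : v ∈ Ann a b ↔ a ≤ sd (0, 0) v ∧ sd (0, 0) v ≤ b := by
  unfold Ann
  rw [Finset.mem_filter, mem_bx_sd]
  tauto

/-- primal crossing of the annulus -/
def XC (a b : ℤ) : Set Cf :=
  EV {v | v ∈ Ann a b} {v | sd (0, 0) v = a} {v | sd (0, 0) v = b}

theorem xc_incLoc (a b : ℤ) : IncLoc (XC a b) := EV_incLoc (Ann a b).finite_toSet _ _

theorem xc_dep (a b : ℤ) : Dep (eIn (Ann a b)) (XC a b) := dep_EV (fun _ hv => hv) _ _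

theorem xc_sub {a b : ℤ} (hab : a ≤ b) : XC a b ⊆
    (({z | BTc z (-b) b a b} ∪ {z | BTc z (-b) b (-b) (-a)}) ∪ {z | LRc z a b (-b) b}) ∪
      {z | LRc z (-b) (-a) (-b) b} := by
  rintro z ⟨u, hu, v, hv, h⟩
  rw [Set.mem_ofPred_eq] at hu hv
  have hu1 := sd_le.1 hu.le
  have hu2 : -a ≤ u.1 ∧ u.1 ≤ a ∧ -a ≤ u.2 ∧ u.2 ≤ a := by simpa using hu1
  have hA : ∀ w ∈ {v | v ∈ Ann a b}, -b ≤ w.1 ∧ w.1 ≤ b ∧ -b ≤ w.2 ∧ w.2 ≤ b := by
    intro w hw
    have := sd_le.1 (mem_Ann.1 hw).2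
    simpa using this
  rcases sd_eq hv with h1 | h1 | h1 | h1
  · -- left
    right
    obtain ⟨w, h2, h3, -⟩ := last_exit (fun q => - q.1)
      (fun a b hab => by unfold Nbr at hab; omega) a h (by omega) (by simp only at h1; omega)
    refine ⟨v, w, by simpa using h1, by omega, h3.symm.monoS ?_⟩
    rintro q ⟨hq1, hq2⟩
    have := hA q hq1
    have hq2' : a ≤ -q.1 := hq2
    exact ⟨this.1, by omega, this.2.2.1, this.2.2.2⟩
  · left; right
    obtain ⟨w, h2, h3, -⟩ := last_exit (fun q => q.1)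
      (fun a b hab => by unfold Nbr at hab; omega) a h (by omega) (by simp only at h1; omega)
    refine ⟨w, v, h2, by simpa using h1, h3.monoS ?_⟩
    rintro q ⟨hq1, hq2⟩
    have := hA q hq1
    exact ⟨hq2, this.2.1, this.2.2.1, this.2.2.2⟩
  · left; left; right
    obtain ⟨w, h2, h3, -⟩ := last_exit (fun q => - q.2)
      (fun a b hab => by unfold Nbr at hab; omega) a h (by omega) (by simp only at h1; omega)
    refine ⟨v, w, by simpa using h1, by omega, h3.symm.monoS ?_⟩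
    rintro q ⟨hq1, hq2⟩
    have := hA q hq1
    have hq2' : a ≤ -q.2 := hq2
    exact ⟨this.1, this.2.1, this.2.2.1, by omega⟩
  · left; left; left
    obtain ⟨w, h2, h3, -⟩ := last_exit (fun q => q.2)
      (fun a b hab => by unfold Nbr at hab; omega) a h (by omega) (by simp only at h1; omega)
    refine ⟨w, v, h2, by simpa using h1, h3.monoS ?_⟩
    rintro q ⟨hq1, hq2⟩
    have := hA q hq1
    exact ⟨this.1, this.2.1, hq2, this.2.2.2⟩

/-- the annulus is not crossed with positive probability -/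
theorem xc_prob (p : ℝ) {a : ℤ} (ha : 0 ≤ a) {c : ℝ} (hc : 0 ≤ c)
    (h : Pr p (BT (2 * a)) ≤ 1 - c) : Pr p (XC a (3 * a)) ≤ 1 - c ^ 4 := by
  have hP := percP p
  rw [BT_prob] at h
  have e : lr (Pr p) 0 (3 * a - a) 0 (3 * a - -(3 * a)) = lr (Pr p) 0 (2 * a) 0 (3 * (2 * a)) := by
    congr 1 <;> ring
  have q1 : Pr p {z | BTc z (-(3 * a)) (3 * a) a (3 * a)} ≤ 1 - c := by
    have := hP.bt_eq (-(3 * a)) (3 * a) a (3 * a)
    unfold bt at this
    rw [this, e]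
    exact h
  have q2 : Pr p {z | BTc z (-(3 * a)) (3 * a) (-(3 * a)) (-a)} ≤ 1 - c := by
    have := hP.bt_eq (-(3 * a)) (3 * a) (-(3 * a)) (-a)
    unfold bt at this
    have e' : -a - -(3 * a) = 3 * a - a := by ring
    rw [this, e', e]
    exact h
  have q3 : Pr p {z | LRc z a (3 * a) (-(3 * a)) (3 * a)} ≤ 1 - c := by
    have := hP.lr_eq a (3 * a) (-(3 * a)) (3 * a)
    unfold lr at this
    rw [this]
    unfold lr at e h
    rw [e]
    exact h
  have q4 : Pr p {z | LRc z (-(3 * a)) (-a) (-(3 * a)) (3 * a)} ≤ 1 - c := by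
    have := hP.lr_eq (-(3 * a)) (-a) (-(3 * a)) (3 * a)
    unfold lr at this
    have e' : -a - -(3 * a) = 3 * a - a := by ring
    rw [this, e']
    unfold lr at e h
    rw [e]
    exact h
  have i1 := btc_incLoc (-(3 * a)) (3 * a) a (3 * a)
  have i2 := btc_incLoc (-(3 * a)) (3 * a) (-(3 * a)) (-a)
  have i3 := lrc_incLoc a (3 * a) (-(3 * a)) (3 * a)
  have i4 := lrc_incLoc (-(3 * a)) (-a) (-(3 * a)) (3 * a)
  have f1 := Pr_fkg_compl (p := p) i1 i2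
  have f2 := Pr_fkg_compl (p := p) (i1.union i2) i3
  have f3 := Pr_fkg_compl (p := p) ((i1.union i2).union i3) i4
  have m := Pr_mono (p := p) (xc_sub (a := a) (b := 3 * a) (by omega))
  have g1 : c * c ≤ 1 - Pr p ({z | BTc z (-(3 * a)) (3 * a) a (3 * a)} ∪
      {z | BTc z (-(3 * a)) (3 * a) (-(3 * a)) (-a)}) :=
    le_trans (mul_le_mul (by linarith) (by linarith) hc (by linarith)) f1
  have g2 : c * c * c ≤ _ :=
    le_trans (mul_le_mul g1 (by linarith : c ≤ 1 - Pr p {z | LRc z a (3 * a) (-(3 * a)) (3 * a)})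
      hc (le_trans (by positivity) g1)) f2
  have g3 : c * c * c * c ≤ _ :=
    le_trans (mul_le_mul g2 (by linarith : c ≤ 1 - Pr p {z | LRc z (-(3 * a)) (-a) (-(3 * a)) (3 * a)})
      hc (le_trans (by positivity) g2)) f3
  have e4 : c ^ 4 = c * c * c * c := by ring
  rw [e4]
  linarith

/-- gluing of two arms by a circuit -/
theorem glue_arms {z : Cf} {n : ℤ} (hn : 0 ≤ n) {x : P2} (hx : sd (0, 0) x ≤ n)
    (h0 : z ∈ Arm1 (3 * n)) (h1 : z ∈ ArmX x (3 * n)) (h2 : Circ4 z (0, 0) n (2 * n)) :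
    z ∈ EV (Bx (4 * n)) {((0 : ℤ), (0 : ℤ))} {x} := by
  obtain ⟨t, _, ht⟩ := circ4_meet hn (by omega) h2
  obtain ⟨u, hu, v, hv, hc⟩ := h0
  rw [Set.mem_singleton_iff] at hu
  subst hu
  obtain ⟨w0, a1, a2⟩ := ht _ _ _ hc (by simpa [sd] using hn) (by rw [mem_Out] at hv; omega)
  obtain ⟨v', hv', hc'⟩ := armX_iff.1 h1
  obtain ⟨w1, b1, b2⟩ := ht _ _ _ hc' hx (by
    have := sd_tri x (0, 0) v'
    rw [sd_comm x (0, 0)] at this
    omega)
  have s1 : Bx (3 * n) ⊆ Bx (4 * n) := Bx_mono (by omega)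
  have s2 : {v | v ∈ bx x (3 * n)} ⊆ Bx (4 * n) := by
    intro v hv
    rw [Set.mem_ofPred_eq, mem_bx_sd] at hv
    rw [mem_Bx, mem_bx_sd]
    have := sd_tri (0, 0) x v
    omega
  have s3 : Rect ((0 : ℤ) - 2 * n) (0 + 2 * n) ((0 : ℤ) - 2 * n) (0 + 2 * n) ⊆ Bx (4 * n) := by
    rintro v ⟨c1, c2, c3, c4⟩
    exact ⟨by omega, by omega, by omega, by omega⟩
  exact ⟨(0, 0), rfl, x, rfl, ((a1.monoS s1).trans (a2.monoS s3).symm).trans
    ((b2.monoS s3).trans (b1.monoS s2).symm)⟩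

/-- if the annulus is not crossed then the cluster of the origin is finite -/
theorem finite_of_not_xc {z : Cf} {a b : ℤ} (ha : 0 ≤ a) (hab : a ≤ b) (h : z ∉ XC a b) :
    (clu z).Finite := by
  by_contra hcon
  apply h
  have h1 := clu_infinite_iff.1 hcon b.toNat
  have hb : ((b.toNat : ℕ) : ℤ) = b := by omega
  rw [hb] at h1
  obtain ⟨u, hu, v, hv, hc⟩ := h1
  rw [Set.mem_singleton_iff] at hu
  subst hu
  rw [mem_Out] at hv
  obtain ⟨w, h2, h3, -⟩ := last_exit (sd (0, 0)) (sd_nbr (0, 0)) a hc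
    (by simpa [sd] using ha) (by omega)
  have hv' := hc.right
  rw [mem_Bx, mem_bx_sd] at hv'
  refine ⟨w, h2, v, le_antisymm hv' hv, h3.monoS ?_⟩
  rintro q ⟨q1, q2⟩
  rw [mem_Bx, mem_bx_sd] at q1
  exact mem_Ann.2 ⟨q2, q1⟩

/-- **Lower bound of the truncated two-point function.** -/
theorem tf_lower (p : ℝ) {n : ℤ} (hn : 0 ≤ n) {c : ℝ} (hc : 0 ≤ c) (h1 : c ≤ Pr p (LR n))
    (h2 : Pr p (BT (8 * n + 2)) ≤ 1 - c) {x : P2} (hx : sd (0, 0) x ≤ n) :
    c ^ 16 * Pr p (Arm1 (3 * n)) ^ 2 ≤ Pr p (Tf x) := by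
  set D1 : Set Cf := EV (Bx (4 * n)) {((0 : ℤ), (0 : ℤ))} {x} with hD1
  set a : ℤ := 4 * n + 1 with ha
  have e1 : 2 * a = 8 * n + 2 := by omega
  have hX : Pr p (XC a (3 * a)) ≤ 1 - c ^ 4 := xc_prob p (by omega) hc (by rw [e1]; exact h2)
  have hdis : Disjoint (bx (0, 0) (4 * n)) (Ann a (3 * a)) := by
    rw [Finset.disjoint_left]
    intro v hv hv'
    rw [mem_bx_sd] at hv
    rw [mem_Ann] at hv'
    omega
  have hdep : Dep (eIn (bx (0, 0) (4 * n))) D1 := dep_EV (fun v hv => mem_Bx.1 hv) _ _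
  have hind : Pr p (D1 ∩ (XC a (3 * a))ᶜ) = Pr p D1 * Pr p (XC a (3 * a))ᶜ :=
    Pr_indep hdis hdep (xc_dep a (3 * a)).compl
  have hsub : D1 ∩ (XC a (3 * a))ᶜ ⊆ Tf x := by
    rintro z ⟨⟨u, hu, v, hv, hc⟩, hz⟩
    rw [Set.mem_singleton_iff] at hu hv
    subst hu
    subst hv
    exact ⟨rch_of_oc hc, finite_of_not_xc (by omega) (by omega) hz⟩
  have hD : c ^ 12 * Pr p (Arm1 (3 * n)) ^ 2 ≤ Pr p D1 := by
    have i1 : IncLoc {z : Cf | Circ4 z (0, 0) n (2 * n)} := by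
      have : {z : Cf | Circ4 z (0, 0) n (2 * n)} =
          {z | LRc z (0 - 2 * n) (0 + 2 * n) (0 + n) (0 + 2 * n)} ∩
            ({z | LRc z (0 - 2 * n) (0 + 2 * n) (0 - 2 * n) (0 - n)} ∩
              ({z | BTc z (0 + n) (0 + 2 * n) (0 - 2 * n) (0 + 2 * n)} ∩
                {z | BTc z (0 - 2 * n) (0 - n) (0 - 2 * n) (0 + 2 * n)})) := by
        ext z
        rfl
      rw [this]
      exact (lrc_incLoc _ _ _ _).inter ((lrc_incLoc _ _ _ _).inter
        ((btc_incLoc _ _ _ _).inter (btc_incLoc _ _ _ _)))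
    have f1 := Pr_fkg (p := p) (arm1_incLoc (3 * n)) (armX_incLoc x (3 * n))
    have f2 := Pr_fkg (p := p) ((arm1_incLoc (3 * n)).inter (armX_incLoc x (3 * n))) i1
    rw [armX_prob] at f1
    have f3 := circ_ge p hn hc h1 (0, 0)
    have f4 : (Arm1 (3 * n) ∩ ArmX x (3 * n)) ∩ {z : Cf | Circ4 z (0, 0) n (2 * n)} ⊆ D1 := by
      rintro z ⟨⟨g1, g2⟩, g3⟩
      exact glue_arms hn hx g1 g2 g3
    refine le_trans ?_ (f2.trans (Pr_mono f4))
    calc c ^ 12 * Pr p (Arm1 (3 * n)) ^ 2 = (Pr p (Arm1 (3 * n)) * Pr p (Arm1 (3 * n))) * c ^ 12 := by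
          ring
      _ ≤ _ := mul_le_mul f1 f3 (by positivity) (Pr_nonneg _ _)
  refine le_trans ?_ (Pr_mono hsub)
  rw [hind, Pr_compl (xc_incLoc _ _).measurableSet]
  calc c ^ 16 * Pr p (Arm1 (3 * n)) ^ 2 = (c ^ 12 * Pr p (Arm1 (3 * n)) ^ 2) * c ^ 4 := by ring
    _ ≤ _ := mul_le_mul hD (by linarith) (by positivity) (Pr_nonneg _ _)

end Crest.Agent.R158.Fr158
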