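import Crest.Agent.R158.FsL_158

/-!
# Row 158, Block F (helper158): sums over boxes and tails

* `box_sum` : `∑_{|x| ≤ N} F x ≤ 27 + 9 B N^{2-s}` if `F ≤ 1` and `F x ≤ B |x|^{-s}` for `3 ≤ |x| ≤ N`
* `tail_const`, `tsum_le_box` : tails bounded by a constant
-/

set_option autoImplicit false

noncomputable section

namespace Crest.Agent.R158.Fr158

open MeasureTheory Filter Topology
open Crest.Agent.R161.Tas682 Crest.Agent.R161.Geo729
open scoped ENNReal

/-- sup norm of a lattice point -/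
def nm (x : ℤ × ℤ) : ℕ := (sd (0, 0) x).toNat

theorem sd_nonneg (x y : P2) : 0 ≤ sd x y := (abs_nonneg _).trans (le_max_left _ _)

theorem nm_cast (x : ℤ × ℤ) : ((nm x : ℕ) : ℤ) = sd (0, 0) x := by
  unfold nm
  exact Int.toNat_of_nonneg (sd_nonneg _ _)

theorem nm_eq_natAbs (x : ℤ × ℤ) : nm x = max x.1.natAbs x.2.natAbs := by
  have h := nm_cast x
  unfold sd at h
  simp only [sub_zero] at h
  rw [Int.abs_eq_natAbs, Int.abs_eq_natAbs] at h
  exact_mod_cast h

theorem mem_box_nm {x : ℤ × ℤ} {r : ℕ} : x ∈ (Finset.box r : Finset (ℤ × ℤ)) ↔ nm x = r := by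
  rw [Int.mem_box, nm_eq_natAbs]

theorem card_box_le (r : ℕ) : ((Finset.box r : Finset (ℤ × ℤ)).card : ℝ) ≤ 8 * r + 1 := by
  rcases Nat.eq_zero_or_pos r with rfl | h
  · simp
  · rw [Int.card_box h.ne']
    push_cast
    linarith

theorem mem_bx_nm {x : ℤ × ℤ} {n : ℕ} : x ∈ bx (0, 0) (n : ℤ) ↔ nm x ≤ n := by
  rw [mem_bx_sd, ← nm_cast]
  omega

/-- sum over the box, sphere by sphere -/
theorem box_sum_sphere (F : ℤ × ℤ → ℝ) (N : ℕ) :
    ∑ x ∈ bx (0, 0) (N : ℤ), F x = ∑ r ∈ Finset.range (N + 1), ∑ x ∈ Finset.box r, F x := by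
  rw [← Finset.sum_fiberwise_of_maps_to (s := bx (0, 0) (N : ℤ)) (t := Finset.range (N + 1))
    (g := nm) (fun x hx => by rw [Finset.mem_range]; have := mem_bx_nm.1 hx; omega)]
  refine Finset.sum_congr rfl fun r hr => Finset.sum_congr ?_ fun _ _ => rfl
  ext x
  rw [Finset.mem_filter, mem_bx_nm, mem_box_nm]
  rw [Finset.mem_range] at hr
  omega

theorem box_sum {F : ℤ × ℤ → ℝ} {B s : ℝ} {N : ℕ} (hs : s ≤ 1) (hB : 0 ≤ B)
    (h1 : ∀ x, F x ≤ 1)
    (hF : ∀ x, 3 ≤ nm x → nm x ≤ N → F x ≤ B * (nm x : ℝ) ^ (-s)) :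
    ∑ x ∈ bx (0, 0) (N : ℤ), F x ≤ 27 + 9 * B * (N : ℝ) ^ (2 - s) := by
  rw [box_sum_sphere]
  have hN0 : (0 : ℝ) ≤ (N : ℝ) ^ (1 - s) := by positivity
  have key : ∀ r ∈ Finset.range (N + 1), ∑ x ∈ Finset.box r, F x ≤
      (if r < 3 then (9 : ℝ) * 2 - (if r = 0 then 17 else if r = 1 then 9 else 1) else 0) +
        (if r = 0 then 0 else 9 * B * (N : ℝ) ^ (1 - s)) := by
    intro r hr
    rw [Finset.mem_range] at hr
    by_cases h3 : r < 3
    · have h4 : ∑ x ∈ Finset.box r, F x ≤ 8 * r + 1 := by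
        refine le_trans (Finset.sum_le_card_nsmul _ _ 1 fun x _ => h1 x) ?_
        rw [nsmul_eq_mul, mul_one]
        exact card_box_le r
      refine h4.trans ?_
      rw [if_pos h3]
      interval_cases r
      · norm_num
      · simp only [Nat.cast_one, mul_one, one_ne_zero, if_false, if_true]
        nlinarith [mul_nonneg hB hN0]
      · simp only [Nat.cast_ofNat, OfNat.ofNat_ne_zero, if_false, OfNat.ofNat_ne_one]
        nlinarith [mul_nonneg hB hN0]
    · rw [if_neg h3, zero_add, if_neg (by omega)]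
      have hr0 : (0 : ℝ) < r := by
        have : 0 < r := by omega
        exact_mod_cast this
      have h4 : ∀ x ∈ (Finset.box r : Finset (ℤ × ℤ)), F x ≤ B * (r : ℝ) ^ (-s) := by
        intro x hx
        have hx' := mem_box_nm.1 hx
        have := hF x (by omega) (by omega)
        rwa [hx'] at this
      refine (Finset.sum_le_card_nsmul _ _ _ h4).trans ?_
      rw [nsmul_eq_mul]
      have h5 : ((Finset.box r : Finset (ℤ × ℤ)).card : ℝ) ≤ 9 * r := by
        refine (card_box_le r).trans ?_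
        have : (1 : ℝ) ≤ r := by exact_mod_cast (by omega : 1 ≤ r)
        linarith
      calc ((Finset.box r : Finset (ℤ × ℤ)).card : ℝ) * (B * (r : ℝ) ^ (-s))
          ≤ 9 * r * (B * (r : ℝ) ^ (-s)) :=
            mul_le_mul_of_nonneg_right h5 (by positivity)
        _ = 9 * B * ((r : ℝ) ^ (1 : ℝ) * (r : ℝ) ^ (-s)) := by rw [Real.rpow_one]; ring
        _ = 9 * B * (r : ℝ) ^ (1 - s) := by rw [← Real.rpow_add hr0]; rfl
        _ ≤ 9 * B * (N : ℝ) ^ (1 - s) := by
            apply mul_le_mul_of_nonneg_left _ (by positivity)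
            exact Real.rpow_le_rpow hr0.le (by exact_mod_cast (by omega : r ≤ N)) (by linarith)
  refine (Finset.sum_le_sum key).trans ?_
  rw [Finset.sum_add_distrib]
  have s1 : ∑ r ∈ Finset.range (N + 1), (if r < 3 then
      (9 : ℝ) * 2 - (if r = 0 then 17 else if r = 1 then 9 else 1) else 0) ≤ 27 := by
    calc _ ≤ ∑ r ∈ Finset.range (N + 1 + 3), (if r < 3 then
        (9 : ℝ) * 2 - (if r = 0 then 17 else if r = 1 then 9 else 1) else 0) := by
          refine Finset.sum_le_sum_of_subset_of_nonneg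
            (Finset.range_subset_range.2 (by omega)) fun r _ _ => ?_
          split_ifs <;> norm_num
      _ = 27 := by
          have : ∀ m : ℕ, ∑ r ∈ Finset.range (m + 3), (if r < 3 then
              (9 : ℝ) * 2 - (if r = 0 then 17 else if r = 1 then 9 else 1) else 0) = 27 := by
            intro m
            induction m with
            | zero => simp [Finset.sum_range_succ]; norm_num
            | succ m ih =>
              rw [show m + 1 + 3 = (m + 3) + 1 by ring, Finset.sum_range_succ, ih,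
                if_neg (by omega), add_zero]
          exact this (N + 1)
  have s2 : ∑ r ∈ Finset.range (N + 1), (if r = 0 then (0 : ℝ) else 9 * B * (N : ℝ) ^ (1 - s)) =
      N * (9 * B * (N : ℝ) ^ (1 - s)) := by
    rw [Finset.sum_range_succ']
    simp
  rw [s2]
  refine add_le_add s1 (le_of_eq ?_)
  rcases Nat.eq_zero_or_pos N with rfl | hN
  · have : (2 : ℝ) - s ≠ 0 := by linarith
    simp [Real.zero_rpow this]
  · have hN' : (0 : ℝ) < N := by exact_mod_cast hN
    have : (N : ℝ) ^ (2 - s) = N * (N : ℝ) ^ (1 - s) := by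
      rw [show (2 - s) = 1 + (1 - s) by ring, Real.rpow_add hN', Real.rpow_one]
    rw [this]
    ring

/-! ### tails -/

/-- the summable majorant -/
def gj (x : ℤ × ℤ) : ℝ := (1 / (1 + |(x.1 : ℝ)|) ^ 2) * (1 / (1 + |(x.2 : ℝ)|) ^ 2)

theorem summable_g1 : Summable fun n : ℤ => 1 / (1 + |(n : ℝ)|) ^ 2 := by
  have h : Summable fun n : ℕ => 1 / (1 + (n : ℝ)) ^ 2 := by
    have h1 := (summable_nat_add_iff 1).2 (Real.summable_one_div_nat_pow.2 one_lt_two)
    refine h1.congr fun n => ?_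
    push_cast
    rw [add_comm (1 : ℝ)]
  refine Summable.of_nat_of_neg ?_ ?_
  · refine h.congr fun n => ?_
    simp
  · refine h.congr fun n => ?_
    simp

theorem summable_gj : Summable gj :=
  summable_g1.mul_of_nonneg summable_g1 (fun _ => by positivity) (fun _ => by positivity)

theorem gj_nonneg (x : ℤ × ℤ) : 0 ≤ gj x := by unfold gj; positivity

theorem nm_pow_le (x : ℤ × ℤ) (hx : 1 ≤ nm x) : ((nm x : ℝ) ^ 4)⁻¹ ≤ 16 * gj x := by
  have hn : (1 : ℝ) ≤ nm x := by exact_mod_cast hx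
  have h1 : |(x.1 : ℝ)| ≤ nm x := by
    have : x.1.natAbs ≤ nm x := by rw [nm_eq_natAbs]; exact le_max_left _ _
    rw [← Int.cast_abs, Int.abs_eq_natAbs]
    exact_mod_cast this
  have h2 : |(x.2 : ℝ)| ≤ nm x := by
    have : x.2.natAbs ≤ nm x := by rw [nm_eq_natAbs]; exact le_max_right _ _
    rw [← Int.cast_abs, Int.abs_eq_natAbs]
    exact_mod_cast this
  have h3 : (1 + |(x.1 : ℝ)|) ^ 2 ≤ (2 * nm x) ^ 2 :=
    pow_le_pow_left₀ (by positivity) (by linarith) 2
  have h4 : (1 + |(x.2 : ℝ)|) ^ 2 ≤ (2 * nm x) ^ 2 :=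
    pow_le_pow_left₀ (by positivity) (by linarith) 2
  unfold gj
  rw [div_mul_div_comm, one_mul, mul_one_div, inv_eq_one_div, div_le_div_iff₀ (by positivity)
    (by positivity)]
  calc 1 * ((1 + |(x.1 : ℝ)|) ^ 2 * (1 + |(x.2 : ℝ)|) ^ 2)
      ≤ (2 * nm x) ^ 2 * (2 * nm x) ^ 2 := by
        rw [one_mul]
        exact mul_le_mul h3 h4 (by positivity) (by positivity)
    _ = 16 * (nm x : ℝ) ^ 4 := by ring

theorem norm_sq_le (x : ℤ × ℤ) : ((x.1 : ℝ) ^ 2 + (x.2 : ℝ) ^ 2) ≤ 2 * (nm x : ℝ) ^ 2 := by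
  have h1 : |(x.1 : ℝ)| ≤ nm x := by
    have : x.1.natAbs ≤ nm x := by rw [nm_eq_natAbs]; exact le_max_left _ _
    rw [← Int.cast_abs, Int.abs_eq_natAbs]
    exact_mod_cast this
  have h2 : |(x.2 : ℝ)| ≤ nm x := by
    have : x.2.natAbs ≤ nm x := by rw [nm_eq_natAbs]; exact le_max_right _ _
    rw [← Int.cast_abs, Int.abs_eq_natAbs]
    exact_mod_cast this
  have h3 := pow_le_pow_left₀ (abs_nonneg _) h1 2
  have h4 := pow_le_pow_left₀ (abs_nonneg _) h2 2
  rw [sq_abs] at h3 h4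
  linarith

/-- the constant bounding the tails -/
def Kt : ℝ := 32 * ∑' x : ℤ × ℤ, gj x

theorem Kt_nonneg : 0 ≤ Kt := mul_nonneg (by norm_num) (tsum_nonneg gj_nonneg)

/-- a sum over the lattice is at most the sum over a box plus a constant -/
theorem tsum_le_box {F : ℤ × ℤ → ℝ} (hF0 : ∀ x, 0 ≤ F x) {N : ℕ}
    (hF : ∀ x, N < nm x → F x ≤ 32 * gj x) :
    ∑' x, ENNReal.ofReal (F x) ≤ ENNReal.ofReal (∑ x ∈ bx (0, 0) (N : ℤ), F x + Kt) := by
  classical
  have h1 : ∀ x, ENNReal.ofReal (F x) ≤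
      (if x ∈ bx (0, 0) (N : ℤ) then ENNReal.ofReal (F x) else 0) + ENNReal.ofReal (32 * gj x) := by
    intro x
    by_cases hx : x ∈ bx (0, 0) (N : ℤ)
    · rw [if_pos hx]
      exact le_self_add
    · rw [if_neg hx, zero_add]
      refine ENNReal.ofReal_le_ofReal (hF x ?_)
      rw [mem_bx_nm] at hx
      omega
  refine (ENNReal.tsum_le_tsum h1).trans ?_
  rw [ENNReal.tsum_add, ENNReal.ofReal_add (Finset.sum_nonneg fun x _ => hF0 x) Kt_nonneg]
  refine add_le_add ?_ ?_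
  · rw [tsum_eq_sum (s := bx (0, 0) (N : ℤ)) (fun x hx => if_neg hx),
      ENNReal.ofReal_sum_of_nonneg fun x _ => hF0 x]
    exact le_of_eq (Finset.sum_congr rfl fun x hx => if_pos hx)
  · unfold Kt
    rw [← tsum_mul_left, ENNReal.ofReal_tsum_of_nonneg (fun x => by have := gj_nonneg x; positivity)
      (summable_gj.mul_left 32)]

theorem sum_le_tsum' {F : ℤ × ℤ → ℝ} (hF0 : ∀ x, 0 ≤ F x) (s : Finset (ℤ × ℤ)) :
    ENNReal.ofReal (∑ x ∈ s, F x) ≤ ∑' x, ENNReal.ofReal (F x) := by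
  rw [ENNReal.ofReal_sum_of_nonneg fun x _ => hF0 x]
  exact ENNReal.sum_le_tsum s

end Crest.Agent.R158.Fr158
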