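import Crest.Agent.R158.FrPre_158
import Crest.Agent.R158.FrLog_158

/-!
# Row 158, Block F (helper158): truncated two-point function

* `Tf x` : `0 ↔ x` and the cluster of `0` is finite
* `chi_eq`, `sec_eq` : the literal susceptibility and second moment as sums over `x` of `Pr p (Tf x)`
* `two_arm` : `Pr p (0 ↔ x) ≤ Pr p (Arm1 k)²` if `2k < |x|`
-/

set_option autoImplicit false

noncomputable section

namespace Crest.Agent.R158.Fr158

open MeasureTheory Filter Topology
open Crest.ProbabilityR.Percolation Crest.ProbabilityR.FirstPassage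
open Crest.Agent.R158.Rs689 Crest.Agent.R161.Tas682 Crest.Agent.R161.Geo729
open Crest.Agent.R161.Topo374 Crest.Agent.R161.Dual374
open scoped ENNReal

/-- `0 ↔ x` and the cluster of the origin is finite -/
def Tf (x : P2) : Set Cf := {z | Rch z (0, 0) x ∧ (clu z).Finite}

theorem tf_meas (x : P2) : MeasurableSet (Tf x) :=
  (rch_meas (0, 0) x).inter finite_meas

theorem tf_zero : Tf (0, 0) = {z | (clu z).Finite} := by
  ext z
  exact ⟨fun h => h.2, fun h => ⟨Relation.ReflTransGen.refl, h⟩⟩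

theorem nu_ofReal (p : ℝ) (A : Set Cf) : nu p A = ENNReal.ofReal (Pr p A) := by
  unfold Pr
  rw [measureReal_def, ENNReal.ofReal_toReal (measure_ne_top _ _)]

theorem squareBondLaw_tf (p : ℝ) (x : P2) :
    squareBondLaw p {ω | x ∈ originCluster ω ∧ (originCluster ω).Finite} =
      ENNReal.ofReal (Pr p (Tf x)) := by
  rw [← nu_ofReal, nu, ← squareBondLaw_conf p (tf_meas x)]
  congr 1
  ext ω
  simp only [originCluster_eq, Set.mem_preimage]
  rfl

/-- the second moment as a sum -/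
theorem sec_eq (p : ℝ) : truncSecondMomentENN p =
    ∑' x : ℤ × ℤ, ENNReal.ofReal (((x.1 : ℝ) ^ 2 + (x.2 : ℝ) ^ 2) * Pr p (Tf x)) := by
  unfold truncSecondMomentENN
  refine tsum_congr fun x => ?_
  rw [squareBondLaw_tf, ENNReal.ofReal_mul (by positivity)]

open Classical in
theorem ncard_tsum {X : Type*} {C : Set X} (hC : C.Finite) :
    (C.ncard : ℝ≥0∞) = ∑' x : X, C.indicator (fun _ => (1 : ℝ≥0∞)) x := by
  rw [tsum_eq_sum (s := hC.toFinset)]
  · rw [Set.ncard_eq_toFinset_card C hC, Finset.sum_congr rfl (g := fun _ => (1 : ℝ≥0∞))]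
    · simp
    · intro x hx
      exact Set.indicator_of_mem (hC.mem_toFinset.1 hx) _
  · intro x hx
    exact Set.indicator_of_notMem (fun h => hx (hC.mem_toFinset.2 h)) _

/-- the susceptibility as a sum -/
theorem chi_eq (p : ℝ) : truncSusceptibilityENN p =
    ∑' x : ℤ × ℤ, ENNReal.ofReal (Pr p (Tf x)) := by
  classical
  unfold truncSusceptibilityENN
  have h1 : ∀ ω : Set (Sym2 (ℤ × ℤ)), {ω' | (originCluster ω').Finite}.indicator
      (fun ω' => ((originCluster ω').ncard : ENNReal)) ω =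
      ∑' x : ℤ × ℤ, {ω' | x ∈ originCluster ω' ∧ (originCluster ω').Finite}.indicator
        (fun _ => (1 : ℝ≥0∞)) ω := by
    intro ω
    by_cases h : (originCluster ω).Finite
    · rw [Set.indicator_of_mem (show ω ∈ {ω' | (originCluster ω').Finite} from h),
        ncard_tsum h]
      refine tsum_congr fun x => ?_
      by_cases hx : x ∈ originCluster ω
      · rw [Set.indicator_of_mem hx, Set.indicator_of_mem]
        exact ⟨hx, h⟩
      · rw [Set.indicator_of_notMem hx, Set.indicator_of_notMem]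
        exact fun h' => hx h'.1
    · rw [Set.indicator_of_notMem (show ω ∉ {ω' | (originCluster ω').Finite} from h)]
      symm
      rw [ENNReal.tsum_eq_zero]
      intro x
      exact Set.indicator_of_notMem (fun h' => h h'.2) _
  simp_rw [h1]
  have hm : ∀ x : ℤ × ℤ, MeasurableSet {ω' | x ∈ originCluster ω' ∧ (originCluster ω').Finite} := by
    intro x
    have : {ω' | x ∈ originCluster ω' ∧ (originCluster ω').Finite} = conf ⁻¹' (Tf x) := by
      ext ω
      simp only [originCluster_eq, Set.mem_preimage]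
      rfl
    rw [this]
    exact measurable_conf (tf_meas x)
  rw [lintegral_tsum fun x => (measurable_const.indicator (hm x)).aemeasurable]
  refine tsum_congr fun x => ?_
  rw [lintegral_indicator_const (hm x), one_mul, squareBondLaw_tf]

/-! ### independence of two arms -/

/-- one arm from `x` to distance `k` -/
def ArmX (x : P2) (k : ℤ) : Set Cf :=
  EV {v | (v.1 - x.1, v.2 - x.2) ∈ Bx k} {v | (v.1 - x.1, v.2 - x.2) ∈ ({((0 : ℤ), (0 : ℤ))} : Set P2)}
    {v | (v.1 - x.1, v.2 - x.2) ∈ Out k}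

theorem armX_prob (p : ℝ) (x : P2) (k : ℤ) : Pr p (ArmX x k) = Pr p (Arm1 k) :=
  Pr_shift p x.1 x.2 (Bx_finite k) _ _

theorem sd_shift (x v : P2) : sd (0, 0) (v.1 - x.1, v.2 - x.2) = sd x v := by
  simp [sd]

theorem sd_comm (x v : P2) : sd x v = sd v x := by
  unfold sd
  rw [abs_sub_comm, abs_sub_comm x.2]

theorem sd_tri (x y v : P2) : sd x v ≤ sd x y + sd y v := by
  unfold sd
  have h1 := abs_sub_le v.1 y.1 x.1
  have h2 := abs_sub_le v.2 y.2 x.2
  have h3 := le_max_left |y.1 - x.1| |y.2 - x.2|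
  have h4 := le_max_right |y.1 - x.1| |y.2 - x.2|
  have h5 := le_max_left |v.1 - y.1| |v.2 - y.2|
  have h6 := le_max_right |v.1 - y.1| |v.2 - y.2|
  refine max_le ?_ ?_ <;> omega

theorem armX_set (x : P2) (k : ℤ) :
    {v : P2 | (v.1 - x.1, v.2 - x.2) ∈ Bx k} = {v | v ∈ bx x k} := by
  ext v
  rw [Set.mem_ofPred_eq, Set.mem_ofPred_eq, mem_Bx, mem_bx_sd, mem_bx_sd, sd_shift]

theorem armX_iff {x : P2} {k : ℤ} {z : Cf} : z ∈ ArmX x k ↔
    ∃ v, k ≤ sd x v ∧ OC z {v | v ∈ bx x k} x v := by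
  unfold ArmX
  rw [armX_set, mem_EV]
  constructor
  · rintro ⟨u, hu, v, hv, h⟩
    have hu' : u = x := by
      simp only [Set.mem_ofPred_eq, Set.mem_singleton_iff, Prod.mk.injEq] at hu
      ext <;> omega
    subst hu'
    refine ⟨v, ?_, h⟩
    have := mem_Out.1 hv
    rwa [sd_shift] at this
  · rintro ⟨v, hv, h⟩
    refine ⟨x, by simp, v, ?_, h⟩
    rw [Set.mem_ofPred_eq, mem_Out, sd_shift]
    exact hv

theorem armX_of_oc {z : Cf} {x : P2} {k : ℤ} (hk : 0 ≤ k) {S : Set P2} {v : P2} (h : OC z S x v)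
    (hv : k ≤ sd x v) : z ∈ ArmX x k := by
  obtain ⟨w, h1, h2⟩ := first_hit (sd x) (sd_nbr x) k h (by simpa [sd] using hk) hv
  refine armX_iff.2 ⟨w, h1.ge, h2.monoS ?_⟩
  rintro q ⟨_, hq⟩
  exact mem_bx_sd.2 hq

theorem armX_incLoc (x : P2) (k : ℤ) : IncLoc (ArmX x k) := by
  refine EV_incLoc ?_ _ _
  rw [armX_set]
  exact (bx x k).finite_toSet

theorem armX_dep (x : P2) (k : ℤ) : Dep (eIn (bx x k)) (ArmX x k) := by
  refine dep_EV (fun v hv => ?_) _ _
  rw [armX_set] at hv
  exact hv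

theorem bx_disjoint {x y : P2} {k m : ℤ} (h : k + m < sd x y) : Disjoint (bx x k) (bx y m) := by
  rw [Finset.disjoint_left]
  intro v h1 h2
  rw [mem_bx_sd] at h1 h2
  have := sd_tri x v y
  rw [sd_comm v y] at this
  omega

/-- two independent arms -/
theorem two_arm (p : ℝ) {x : P2} {k : ℤ} (hk : 0 ≤ k) (hx : 2 * k < sd (0, 0) x) :
    Pr p {z | Rch z (0, 0) x} ≤ Pr p (Arm1 k) ^ 2 := by
  have h1 : {z | Rch z (0, 0) x} ⊆ Arm1 k ∩ ArmX x k := by
    intro z hz
    have h2 := rch_oc_univ.1 hz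
    refine ⟨arm_of_oc hk h2 (by omega), armX_of_oc hk h2.symm ?_⟩
    rw [sd_comm]
    omega
  refine (Pr_mono h1).trans ?_
  rw [Pr_indep (bx_disjoint (x := (0, 0)) (y := x) (k := k) (m := k) (by omega)) (arm1_dep k)
    (armX_dep x k), armX_prob, sq]

theorem tf_le_arm (p : ℝ) {x : P2} {k : ℤ} (hk : 0 ≤ k) (hx : 2 * k < sd (0, 0) x) :
    Pr p (Tf x) ≤ Pr p (Arm1 k) ^ 2 :=
  (Pr_mono fun _ h => h.1).trans (two_arm p hk hx)

end Crest.Agent.R158.Fr158
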