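import Crest.Agent.R158.Hp4_814
import Crest.Agent.R158.Fl2_440

/-!
# Row 158, Block FW (helper814): flat medial wall, half annuli and planar topology

Half plane `{v | 0 ≤ mY v}` of 440 (`mX v = x + y`, `mY v = y - x`), centre = wall site `(k,k)`,
`hd k v = max |mX v - 2k| (mY v)`.

* `HM k s R` : half annulus `{v | 0 ≤ mY v, s ≤ hd k v ≤ R}`
* `WL k s R`, `WR k s R` : wall sites on the left / right; `InM k s` : inner boundary without corners
* `half_cross` : a walk of the half annulus from `WL` to `WR` meets each walk from `InM` to `hd = R`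
-/

set_option autoImplicit false

noncomputable section

namespace Crest.Agent.R158.Fw814

open MeasureTheory ProbabilityTheory unitInterval
open Crest.Agent.R161.Geo729 Crest.Agent.R161.Topo374 Crest.Agent.R161.Dual374
open Crest.Agent.R161.Tas682 Crest.Agent.R158.Rs689 Crest.Agent.R158.Fl440
open Crest.Agent.R158.Hp814 (EI EI_mono EI_disj ev_dep ev_inc Cl mem_Cl Cl_sub Cl_step oc_out
  oc_sdiff oc_out_iff expl_sum expl_le expl_ge sum_Cl First Some1 EN EN_le Miss miss_iff Two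
  some1_dep some1_mono two_le oc_dep oc_stay oc_enter cl_walk miss_dep two_sub_miss Sy)

/-- half annulus of the flat medial wall -/
def HM (k : ℤ) (s R : ℤ) : Finset P2 :=
  (Finset.Icc (k - R) (k + R) ×ˢ Finset.Icc (k - R) (k + R)).filter fun v =>
    0 ≤ mY v ∧ s ≤ hd k v ∧ hd k v ≤ R

theorem hd_nonneg (k : ℤ) (v : P2) : 0 ≤ hd k v := (abs_nonneg _).trans (le_max_left _ _)

theorem hd_lt {k : ℤ} {v : P2} {m : ℤ} :
    m < hd k v ↔ mX v < 2 * k - m ∨ 2 * k + m < mX v ∨ m < mY v := by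
  rw [← not_le, hd_le]
  omega

theorem le_hd' {k : ℤ} {v : P2} {m : ℤ} :
    m ≤ hd k v ↔ mX v ≤ 2 * k - m ∨ 2 * k + m ≤ mX v ∨ m ≤ mY v := by
  have : m ≤ hd k v ↔ m - 1 < hd k v := by omega
  rw [this, hd_lt]
  omega

theorem mem_HM {k : ℤ} {s R : ℤ} {v : P2} :
    v ∈ HM k s R ↔ 0 ≤ mY v ∧ s ≤ hd k v ∧ hd k v ≤ R := by
  unfold HM
  rw [Finset.mem_filter, Finset.mem_product, Finset.mem_Icc, Finset.mem_Icc]
  refine ⟨fun h => h.2, fun h => ⟨?_, h⟩⟩
  have h1 := hd_le.1 h.2.2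
  have h2 := h.1
  simp only [mX, mY] at h1 h2
  omega

theorem HM_mono {k : ℤ} {s s' R R' : ℤ} (hs : s' ≤ s) (hR : R ≤ R') : HM k s R ⊆ HM k s' R' := by
  intro v hv
  rw [mem_HM] at hv ⊢
  omega

/-- wall sites on the left -/
def WL (k s R : ℤ) : Set P2 := {v | mY v = 0 ∧ 2 * k - R ≤ mX v ∧ mX v ≤ 2 * k - s}

/-- wall sites on the right -/
def WR (k s R : ℤ) : Set P2 := {v | mY v = 0 ∧ 2 * k + s ≤ mX v ∧ mX v ≤ 2 * k + R}

/-- sites at distance `s` -/
def Sp (k s : ℤ) : Set P2 := {v | hd k v = s}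

/-- sites at distance `s` with a neighbour at a smaller distance -/
def InM (k s : ℤ) : Set P2 := {v | hd k v = s ∧ ∃ u, Nbr u v ∧ hd k u < s ∧ 0 ≤ mY u}

theorem hd_wall {k : ℤ} {v : P2} (h : mY v = 0) : hd k v = |mX v - 2 * k| := by
  unfold hd
  rw [h, max_eq_left (abs_nonneg _)]

theorem WR_sub {k s s' R R' : ℤ} (hs : s' ≤ s) (hR : R ≤ R') : WR k s R ⊆ WR k s' R' := by
  rintro v ⟨h1, h2, h3⟩
  exact ⟨h1, by omega, by omega⟩

theorem WL_sub {k s s' R R' : ℤ} (hs : s' ≤ s) (hR : R ≤ R') : WL k s R ⊆ WL k s' R' := by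
  rintro v ⟨h1, h2, h3⟩
  exact ⟨h1, by omega, by omega⟩

theorem WR_HM {k s R : ℤ} {v : P2} (hs : 0 ≤ s) (h : v ∈ WR k s R) : v ∈ HM k s R := by
  obtain ⟨h1, h2, h3⟩ := h
  rw [mem_HM, hd_wall h1, abs_of_nonneg (by omega)]
  omega

theorem WL_HM {k s R : ℤ} {v : P2} (hs : 0 ≤ s) (h : v ∈ WL k s R) : v ∈ HM k s R := by
  obtain ⟨h1, h2, h3⟩ := h
  rw [mem_HM, hd_wall h1, abs_of_nonpos (by omega)]
  omega

/-- staircase walk just below the wall -/
theorem stair {T : Set P2} {i j : ℤ} (hij : i ≤ j)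
    (h : ∀ v : P2, (mY v = -1 ∨ mY v = -2) → 2 * i - 1 ≤ mX v → mX v ≤ 2 * j - 1 → v ∈ T) :
    Walk T (i, i - 1) (j, j - 1) := by
  obtain ⟨n, rfl⟩ : ∃ n : ℕ, j = i + n := ⟨(j - i).toNat, by omega⟩
  clear hij
  induction n with
  | zero =>
    simp only [Nat.cast_zero, add_zero]
    exact Walk.refl (h _ (by simp only [mY]; omega) (by simp only [mX]; omega)
      (by simp only [mX]; omega))
  | succ n ih =>
    have h1 := ih fun v h1 h2 h3 => h v h1 h2 (by push_cast; omega)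
    have h2 : ((i + n + 1, i + n - 1) : P2) ∈ T :=
      h _ (by simp only [mY]; omega) (by simp only [mX]; omega) (by simp only [mX]; push_cast; omega)
    have h3 : ((i + (n + 1 : ℕ), i + (n + 1 : ℕ) - 1) : P2) ∈ T :=
      h _ (by simp only [mY]; push_cast; omega) (by simp only [mX]; push_cast; omega)
        (by simp only [mX]; push_cast; omega)
    refine (h1.trans (Walk.step h1.right h2 ?_)).trans (Walk.step h2 h3 ?_)
    · exact Or.inl ⟨rfl, Or.inl rfl⟩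
    · refine Or.inr ⟨?_, Or.inl ?_⟩
      · push_cast
        ring
      · push_cast
        ring

/-- horizontal walks in either direction -/
theorem hwalk2 {T : Set V} (y : ℤ) (x x' : ℤ)
    (h : ∀ k : ℤ, min x x' ≤ k → k ≤ max x x' → ((k, y) : V) ∈ T) : Walk T (x, y) (x', y) := by
  rcases le_total x x' with hx | hx
  · rw [min_eq_left hx, max_eq_right hx] at h
    exact hwalk' y hx h
  · rw [min_eq_right hx, max_eq_left hx] at h
    exact (hwalk' y hx h).symm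

/-- **Crossing lemma in the half annulus of the flat medial wall.** -/
theorem half_cross {k : ℤ} {s R : ℤ} (hs : 1 ≤ s) {T1 T2 : Set P2} {u w x v : P2}
    (h1 : Walk T1 u w) (h2 : Walk T2 x v)
    (hT1 : ∀ t ∈ T1, t ∈ HM k s R) (hT2 : ∀ t ∈ T2, t ∈ HM k s R)
    (hu : u ∈ WL k s R) (hw : w ∈ WR k s R) (hx : x ∈ InM k s) (hv : v ∈ Sp k R) :
    (T1 ∩ T2).Nonempty := by
  obtain ⟨hu2, hu1', hu1⟩ := hu
  obtain ⟨hw2, hw1, hw1'⟩ := hw
  obtain ⟨hxs, x0, hx0, hx0s, hx02⟩ := hx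
  have hvR : hd k v = R := hv
  have hR : s ≤ R := by
    have := (mem_HM.1 (hT2 x h2.left)).2.2
    omega
  obtain ⟨u1, u2⟩ := u
  obtain ⟨w1, w2⟩ := w
  simp only [mX, mY] at hu2 hu1 hu1' hw2 hw1 hw1'
  have hu3 : u2 = u1 := by omega
  have hw3 : w2 = w1 := by omega
  subst hu3 hw3
  -- far coordinates
  obtain ⟨L1, hL1⟩ : ∃ L1 : ℤ, L1 = k - 4 * R - 20 := ⟨_, rfl⟩
  obtain ⟨L2, hL2⟩ : ∃ L2 : ℤ, L2 = k + 4 * R + 20 := ⟨_, rfl⟩
  obtain ⟨X1, hX1⟩ : ∃ X1 : ℤ, X1 = k - 3 * R - 15 := ⟨_, rfl⟩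
  -- extension of `T1`
  set A1 : Set P2 := {t | (mY t = -1 ∨ mY t = -2) ∧ (mX t < 2 * u2 ∨ 2 * w2 < mX t) ∧
    2 * L1 - 1 ≤ mX t ∧ mX t ≤ 2 * L2 + 1} with hA1
  have w1 : Walk (T1 ∪ A1) (L1, L1 - 1) (L2 + 1, L2 + 1 - 1) := by
    have e1 : Walk (T1 ∪ A1) (L1, L1 - 1) (u2, u2 - 1) :=
      stair (by omega) fun v h3 h4 h5 => Or.inr ⟨h3, by omega, by omega, by omega⟩
    have e2 : Walk (T1 ∪ A1) (u2, u2 - 1) (u2, u2) := by
      refine Walk.step e1.right (Or.inl h1.left) (Or.inr ⟨rfl, ?_⟩)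
      simp only
      omega
    have e3 : Walk (T1 ∪ A1) (u2, u2) (w2, w2) := h1.mono Set.subset_union_left
    have e5 : Walk (T1 ∪ A1) (w2 + 1, w2 + 1 - 1) (L2 + 1, L2 + 1 - 1) :=
      stair (by omega) fun v h3 h4 h5 => Or.inr ⟨h3, by omega, by omega, by omega⟩
    have e4 : Walk (T1 ∪ A1) (w2, w2) (w2 + 1, w2 + 1 - 1) := by
      exact Walk.step e3.right e5.left (Or.inl ⟨by ring, Or.inl rfl⟩)
    exact (((e1.trans e2).trans e3).trans e4).trans e5
  -- from the inner neighbour to the wall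
  have hx0' := hd_le.1 (show hd k x0 ≤ s - 1 by omega)
  obtain ⟨a, b⟩ := x0
  simp only [mX, mY] at hx0' hx02
  -- extension of `T2`
  obtain ⟨i, hi1, hi2, hi3⟩ : ∃ i : ℤ, 2 * k - s + 1 ≤ 2 * i ∧ 2 * i ≤ 2 * k + s - 1 ∧
      ∀ T : Set P2, (∀ t : P2, 0 ≤ mY t → hd k t < s → t ∈ T) → Walk T (i, i) (a, b) := by
    by_cases hab : a + b ≤ 2 * k
    · refine ⟨b, by omega, by omega, fun T hT => ?_⟩
      refine hwalk2 _ _ _ fun j h3 h4 => ?_
      rw [min_eq_right (by omega)] at h3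
      rw [max_eq_left (by omega)] at h4
      refine hT _ (by simp only [mY]; omega) ?_
      have : hd k (j, b) ≤ s - 1 := hd_le.2 (by simp only [mX, mY]; omega)
      omega
    · refine ⟨a, by omega, by omega, fun T hT => ?_⟩
      refine vwalk' _ (by omega) fun j h3 h4 => ?_
      refine hT _ (by simp only [mY]; omega) ?_
      have : hd k (a, j) ≤ s - 1 := hd_le.2 (by simp only [mX, mY]; omega)
      omega
  set A2 : Set P2 := {t | (t.1 = i ∧ t.2 < i ∧ L1 - 1 ≤ t.2) ∨ (hd k t < s ∧ 0 ≤ mY t) ∨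
    (R < hd k t ∧ 0 ≤ mY t ∧ X1 ≤ t.1 ∧ t.1 ≤ L2)} with hA2
  have f1 : Walk (T2 ∪ A2) (i, L1 - 1) (i, i) := by
    refine vwalk' _ (by omega) fun j h3 h4 => ?_
    rcases eq_or_lt_of_le h4 with rfl | h5
    · refine Or.inr (Or.inr (Or.inl ⟨?_, by simp [mY]⟩))
      have : hd k (j, j) ≤ s - 1 := hd_le.2 (by simp only [mX, mY]; omega)
      omega
    · exact Or.inr (Or.inl ⟨rfl, h5, h3⟩)
  have f2 : Walk (T2 ∪ A2) (i, i) (a, b) := hi3 _ fun t h3 h4 => Or.inr (Or.inr (Or.inl ⟨h4, h3⟩))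
  have f3 : Walk (T2 ∪ A2) (a, b) x := Walk.step f2.right (Or.inl h2.left) hx0
  have f4 : Walk (T2 ∪ A2) x v := h2.mono Set.subset_union_left
  have f5 : Walk (T2 ∪ A2) (i, L1 - 1) v := ((f1.trans f2).trans f3).trans f4
  have hvm := mem_HM.1 (hT2 v h2.right)
  have hv' := hd_le.1 hvm.2.2
  obtain ⟨v1, v2⟩ := v
  simp only [mX, mY] at hv' hvm
  have hcase : v1 + v2 = 2 * k - R ∨ v1 + v2 = 2 * k + R ∨ v2 - v1 = R := by
    have h3 := (le_hd' (k := k) (v := (v1, v2))).1 hvR.ge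
    simp only [mX, mY] at h3
    omega
  obtain ⟨q, hq, hq2⟩ : ∃ q : P2, q.2 = L2 + 1 ∧ Walk (T2 ∪ A2) (i, L1 - 1) q := by
    rcases hcase with h3 | h3
    · have e7 : Walk (T2 ∪ A2) (X1, v2) (v1, v2) := by
        refine hwalk' _ (by omega) fun j h4 h5 => ?_
        rcases eq_or_lt_of_le h5 with rfl | h6
        · exact Or.inl h2.right
        · refine Or.inr (Or.inr (Or.inr ⟨?_, by simp only [mY]; omega, h4, by simp only; omega⟩))
          rw [hd_lt]
          simp only [mX, mY]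
          omega
      have e8 : Walk (T2 ∪ A2) (X1, v2) (X1, L2 + 1) := by
        refine vwalk' _ (by omega) fun j h4 h5 => ?_
        refine Or.inr (Or.inr (Or.inr ⟨?_, by simp only [mY]; omega, le_rfl, by simp only; omega⟩))
        rw [hd_lt]
        simp only [mX, mY]
        omega
      exact ⟨_, rfl, (f5.trans e7.symm).trans e8⟩
    · have e8 : Walk (T2 ∪ A2) (v1, v2) (v1, L2 + 1) := by
        refine vwalk' _ (by omega) fun j h4 h5 => ?_
        rcases eq_or_lt_of_le h4 with rfl | h6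
        · exact Or.inl h2.right
        · refine Or.inr (Or.inr (Or.inr ⟨?_, by simp only [mY]; omega, by simp only; omega,
            by simp only; omega⟩))
          rw [hd_lt]
          simp only [mX, mY]
          omega
      exact ⟨_, rfl, f5.trans e8⟩
  have hbd : ∀ t : P2, t ∈ HM k s R → k - R ≤ t.1 ∧ t.1 ≤ k + R ∧ k - R ≤ t.2 ∧ t.2 ≤ k + R ∧
      t.1 ≤ t.2 := by
    intro t ht
    have h3 := mem_HM.1 ht
    have h4 := hd_le.1 h3.2.2
    simp only [mX, mY] at h3 h4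
    omega
  obtain ⟨t, ht1, ht2⟩ := cross w1 hq2 (by
    rintro t (ht | ht)
    · have h3 := hbd t (hT1 t ht)
      simp only
      omega
    · have h3 := ht.1
      have h4 := ht.2.2
      simp only [mX, mY] at h3 h4
      simp only
      omega) (by
    rintro t (ht | ht)
    · have h3 := hbd t (hT2 t ht)
      simp only
      omega
    · simp only
      rcases ht with ht | ht | ht
      · omega
      · have h4 := hd_le.1 (show hd k t ≤ s - 1 by omega)
        have h5 := ht.2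
        simp only [mX, mY] at h4 h5
        omega
      · omega)
  rcases ht1 with ht1 | ht1
  · have h3 := mem_HM.1 (hT1 t ht1)
    rcases ht2 with ht2 | ht2
    · exact ⟨t, ht1, ht2⟩
    · exfalso
      rcases ht2 with ht2 | ht2 | ht2
      · have h4 := h3.1
        simp only [mY] at h4
        omega
      · omega
      · omega
  · exfalso
    obtain ⟨h3, h4, h5, h6⟩ := ht1
    rcases ht2 with ht2 | ht2
    · have h7 := (mem_HM.1 (hT2 t ht2)).1
      omega
    · rcases ht2 with ht2 | ht2 | ht2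
      · simp only [mX, mY] at h3 h4 h5 h6
        omega
      · omega
      · omega

/-! ### restriction of connections -/

/-- last exit from `{hd < m}`, with a neighbour inside -/
theorem last_exit_inn {y : Cf} {S : Set P2} {k m : ℤ} {u v : P2} (h : OC y S u v)
    (hu : hd k u < m) (hv : m ≤ hd k v) (hS : ∀ t ∈ S, 0 ≤ mY t) :
    ∃ w, w ∈ InM k m ∧ OC y (S ∩ {p | m ≤ hd k p}) w v ∧ OC y S u w := by
  obtain ⟨huS, h⟩ := h
  induction h with
  | refl => omega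
  | @tail b c h1 h2 ih =>
    by_cases hb : m ≤ hd k b
    · obtain ⟨w, h3, h4, h5⟩ := ih hb
      exact ⟨w, h3, ⟨h4.1, h4.2.tail ⟨h2.1, h4.right, ⟨h2.2.2, hv⟩⟩⟩, h5⟩
    · have h3 := hd_nbr k b c (pstep_nbr h2.1)
      refine ⟨c, ⟨by omega, b, pstep_nbr h2.1, by omega, hS b h2.2.1⟩,
        OC.refl ⟨h2.2.2, hv⟩, ⟨huS, h1.tail h2⟩⟩

/-- first hit of `{hd = m}` -/
theorem first_hit_hd {y : Cf} {S : Set P2} {k m : ℤ} {u v : P2} (h : OC y S u v)
    (hu : hd k u ≤ m) (hv : m ≤ hd k v) :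
    ∃ w, hd k w = m ∧ OC y (S ∩ {p | hd k p ≤ m}) u w :=
  first_hit (hd k) (hd_nbr k) m h hu hv

/-- crossing of a half annulus -/
def HX (k s R : ℤ) : Set Cf := EV (HM k s R) (Sp k s) (Sp k R)

/-- open half circuit in the half annulus `(s, l s)` -/
def HO (l k s : ℤ) : Set Cf := EV (HM k s (l * s)) (WL k s (l * s)) (WR k s (l * s))

theorem HX_sub {k s s' R R' : ℤ} (hs : s ≤ s') (hsR : s' ≤ R') (hR : R' ≤ R) :
    HX k s R ⊆ HX k s' R' := by
  rintro y ⟨u, hu, v, hv, h⟩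
  obtain ⟨w, h1, h2, _⟩ := last_exit (hd k) (hd_nbr k) s' h
    (by have : hd k u = s := hu; omega) (by have : hd k v = R := hv; omega)
  obtain ⟨w', h3, h4⟩ := first_hit (hd k) (hd_nbr k) R' h2
    (by omega) (by have : hd k v = R := hv; omega)
  refine ⟨w, h1, w', h3, h4.monoS ?_⟩
  rintro t ⟨⟨h5, h6⟩, h7⟩
  have h5' := mem_HM.1 h5
  have h6' : s' ≤ hd k t := h6
  have h7' : hd k t ≤ R' := h7
  exact mem_HM.2 ⟨h5'.1, h6', h7'⟩

theorem HX_dep (k s R : ℤ) : Dep (EI (HM k s R)) (HX k s R) := ev_dep _ _ _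

theorem HO_dep (l k s : ℤ) : Dep (EI (HM k s (l * s))) (HO l k s) := ev_dep _ _ _

/-- **Medial RSW hypothesis** (scale invariant): open half circuits, one arm. -/
structure Mrsw (p : I) (c : ℝ) (l : ℤ) (C a : ℝ) : Prop where
  pos : 0 < c
  two : 2 ≤ l
  ho : ∀ k n : ℤ, 1 ≤ n → c ≤ (nu p).real (HO l k n)
  hx : ∀ k n : ℤ, 1 ≤ n → (nu p).real (HX k n (l * n)) ≤ 1 - c
  C1 : 1 ≤ C
  apos : 0 < a
  ale : a ≤ 1
  arm : ∀ k s R : ℤ, 1 ≤ s → s ≤ R → (nu p).real (HX k s R) ≤ C * ((s : ℝ) / R) ^ a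

theorem Mrsw.c_le_one {p : I} {c : ℝ} {l : ℤ} {C a : ℝ} (h : Mrsw p c l C a) : c ≤ 1 :=
  (h.ho 0 1 le_rfl).trans measureReal_le_one

end Crest.Agent.R158.Fw814
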