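import Crest.Agent.R158.Fw1_814

/-!
# Row 158, Block FW (helper814): flat medial wall, two arms

* `SegM k R` : `(k,k)` is joined to distance `R` in the half box, rightmost wall site of its cluster
* `missR_le`, `missL_le` : `P(some crossing cluster of the half annulus misses the right (left) part
  of the wall) ≤ K s / R`
-/

set_option autoImplicit false

noncomputable section

namespace Crest.Agent.R158.Fw814

open MeasureTheory ProbabilityTheory unitInterval
open Crest.Agent.R161.Geo729 Crest.Agent.R161.Topo374 Crest.Agent.R161.Dual374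
open Crest.Agent.R161.Tas682 Crest.Agent.R158.Rs689 Crest.Agent.R158.Fl440
open Crest.Agent.R158.Hp814 (EI EI_mono EI_disj ev_dep ev_inc Cl mem_Cl Cl_sub Cl_step oc_out
  oc_sdiff oc_out_iff expl_sum expl_le expl_ge sum_Cl First Some1 EN EN_le Miss miss_iff Two
  some1_dep some1_mono two_le oc_dep oc_stay oc_enter cl_walk miss_dep two_sub_miss Sy)

/-! ### translations along the wall -/

theorem hd_shift (k j : ℤ) (v : P2) : hd (k + j) (v + (j, j)) = hd k v := by
  unfold hd mX mY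
  rw [Prod.fst_add, Prod.snd_add]
  congr 1
  · congr 1
    ring
  · simp

theorem mY_shift (j : ℤ) (v : P2) : mY (v + (j, j)) = mY v := by
  unfold mY
  rw [Prod.fst_add, Prod.snd_add]
  simp

/-- `(k,k)` is joined to distance `R` in the half box, and is the rightmost wall site of its
cluster -/
def SegM (k : ℤ) (R : ℤ) : Set Cf :=
  {y | (∃ v ∈ Sp k R, OC y (HM k 0 R) (k, k) v) ∧ ∀ j : ℤ, k < j → ¬ OC y (HM k 0 R) (j, j) (k, k)}

theorem segM_dep (k R : ℤ) : Dep (EI (HM k 0 R)) (SegM k R) := by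
  intro y y' h
  have h1 : ∀ a b, OC y (HM k 0 R) a b ↔ OC y' (HM k 0 R) a b := fun a b => oc_dep _ a b y y' h
  simp only [SegM, Set.mem_ofPred_eq, h1]

theorem segM_shift (p : I) (k j R : ℤ) :
    (nu p).real (SegM (k + j) R) = (nu p).real (SegM k R) := by
  rw [← (Hp814.syT (j, j)).prob p (segM_dep k R).measurableSet]
  congr 1
  ext y
  have key : ∀ u v : P2, OC (fun e => y ((Hp814.syT (j, j)).E e)) (HM k 0 R) u v ↔
      OC y (HM (k + j) 0 R) (u + (j, j)) (v + (j, j)) := by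
    intro u v
    exact (Hp814.syT (j, j)).oc_iff (fun v => by
      show v ∈ HM k 0 R ↔ v + (j, j) ∈ HM (k + j) 0 R
      rw [mem_HM, mem_HM, hd_shift, mY_shift])
  have hkk : ∀ i : ℤ, ((i, i) : P2) + (j, j) = (i + j, i + j) := fun i => rfl
  constructor
  · rintro ⟨⟨v, hv, h1⟩, h2⟩
    refine ⟨⟨v - (j, j), ?_, ?_⟩, fun i hi h3 => h2 (i + j) (by omega) ?_⟩
    · have : hd (k + j) v = R := hv
      show hd k (v - (j, j)) = R
      rw [← hd_shift k j, sub_add_cancel]
      exact this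
    · rw [key, sub_add_cancel]
      exact h1
    · rw [key] at h3
      exact h3
  · rintro ⟨⟨v, hv, h1⟩, h2⟩
    refine ⟨⟨v + (j, j), ?_, ?_⟩, fun i hi h3 => h2 (i - j) (by omega) ?_⟩
    · show hd (k + j) (v + (j, j)) = R
      rw [hd_shift]
      exact hv
    · rw [key] at h1
      exact h1
    · rw [key, hkk, hkk, sub_add_cancel]
      exact h3

theorem EN_ge' (w : Edge → I) (S : Finset P2) (F : Set P2) {e : ℝ} (l : List P2) :
    ∀ l0 : List P2, l.Pairwise (fun a b => b.1 < a.1) → (∀ y ∈ l0, ∀ x ∈ l, x.1 < y.1) →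
      (∀ x ∈ l, ∀ l' : List P2, (∀ y ∈ l', x.1 < y.1 ∧ (y ∈ l0 ∨ y ∈ l)) →
        e ≤ (PB w).real (First S F l' x)) →
      l.length * e ≤ EN w S F l0 l := Hp814.EN_ge w S F l

variable {p : I} {c : ℝ} {l : ℤ} {C a : ℝ}

/-- counting of clusters -/
theorem segM_count (h : Mrsw p c l C a) (k : ℤ) (m : ℕ) (hm : 1 ≤ m) :
    (2 * m + 1 : ℝ) * (nu p).real (SegM k (2 * m * (l + 1))) ≤ 1 / c := by
  have hl := h.two
  set L : List P2 := (List.range (2 * m + 1)).map fun i : ℕ => (k + (m : ℤ) - (i : ℤ),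
    k + (m : ℤ) - (i : ℤ)) with hL
  have hlen : L.length = 2 * m + 1 := by simp [hL]
  have hmem : ∀ x ∈ L, ∃ j : ℤ, x = (k + j, k + j) ∧ -(m : ℤ) ≤ j ∧ j ≤ m := by
    intro x hx
    rw [hL, List.mem_map] at hx
    obtain ⟨i, hi, rfl⟩ := hx
    rw [List.mem_range] at hi
    exact ⟨m - i, by rw [add_sub_assoc], by omega, by omega⟩
  have hpair : L.Pairwise (fun a b => b.1 < a.1) := by
    rw [hL, List.pairwise_map]
    refine List.pairwise_lt_range.imp fun {a b} hab => ?_
    simp only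
    omega
  have hml : 2 * (m : ℤ) ≤ l * (2 * m) := by nlinarith
  have h1 : L.length * (nu p).real (SegM k (2 * m * (l + 1))) ≤
      EN (fun _ => p) (HM k 0 (l * (2 * m))) (Sp k (l * (2 * m))) [] L := by
    refine EN_ge' _ _ _ L [] hpair (by simp) ?_
    intro x hx l' hl'
    obtain ⟨j, rfl, hj1, hj2⟩ := hmem x hx
    rw [← segM_shift p k j]
    refine measureReal_mono ?_
    rintro y ⟨⟨v, hv, h3⟩, h4⟩
    have hR : 2 * (m : ℤ) * (l + 1) = l * (2 * m) + 2 * m := by ring
    have hsub : ((HM k 0 (l * (2 * m)) : Finset P2) : Set P2) ⊆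
        (HM (k + j) 0 (2 * m * (l + 1)) : Finset P2) := by
      intro t ht
      have ht' := mem_HM.1 ht
      have h5 := hd_le.1 ht'.2.2
      refine mem_HM.2 ⟨ht'.1, hd_nonneg _ _, hd_le.2 ⟨by omega, by omega, by omega⟩⟩
    have hxz0 : hd k (k + j, k + j) ≤ 2 * m := hd_le.2 (by simp only [mX, mY]; omega)
    have hvz : l * (2 * (m : ℤ)) ≤ hd k v := by
      have h5 : hd (k + j) v = 2 * m * (l + 1) := hv
      have h6 := h5.ge
      rw [le_hd'] at h6 ⊢
      omega
    constructor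
    · obtain ⟨w, h5, h6⟩ := first_hit_hd (k := k) (m := l * (2 * m)) h3 (by omega) hvz
      refine ⟨w, h5, h6.monoS ?_⟩
      rintro t ⟨ht1, ht2⟩
      have ht1' := mem_HM.1 ht1
      have ht2' : hd k t ≤ l * (2 * m) := ht2
      exact mem_HM.2 ⟨ht1'.1, hd_nonneg _ _, ht2'⟩
    · intro y' hy' h5
      obtain ⟨h6, h7⟩ := hl' y' hy'
      rcases h7 with h7 | h7
      · simp at h7
      obtain ⟨j', rfl, hj1', hj2'⟩ := hmem y' h7
      exact h4 (k + j') (by simpa using h6) (h5.monoS hsub)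
  have h2 : (PB fun _ : Edge => p).real (Some1 (HM k 0 (l * (2 * m))) (Sp k (l * (2 * m))) L) ≤
      1 - c := by
    refine le_trans (measureReal_mono ?_) (h.hx k (2 * m) (by omega))
    rintro y ⟨x, hx, v, hv, h3⟩
    obtain ⟨j, rfl, hj1, hj2⟩ := hmem x hx
    have hv' : hd k v = l * (2 * m) := hv
    have hxz0 : hd k (k + j, k + j) ≤ 2 * m := hd_le.2 (by simp only [mX, mY]; omega)
    obtain ⟨w, h4, h5, _⟩ := last_exit (hd k) (hd_nbr k) (2 * m) h3 hxz0 (by omega)
    refine ⟨w, h4, v, hv, h5.monoS ?_⟩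
    rintro t ⟨ht1, ht2⟩
    have ht1' := mem_HM.1 ht1
    have ht2' : 2 * (m : ℤ) ≤ hd k t := ht2
    exact mem_HM.2 ⟨ht1'.1, ht2', ht1'.2.2⟩
  have h3 := EN_le (fun _ => p) (q := 1 - c) (by linarith [h.pos]) (Sp k (l * (2 * m))) L
    (HM k 0 (l * (2 * m))) h2
  have hc := h.pos
  rw [hlen] at h1
  push_cast at h1
  refine h1.trans (h3.trans ?_)
  rw [sub_sub_cancel]
  apply div_le_div_of_nonneg_right measureReal_le_one hc.le

theorem segM_mono (k : ℤ) {R R' : ℤ} (hR : 0 ≤ R') (h : R' ≤ R) : SegM k R ⊆ SegM k R' := by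
  rintro y ⟨⟨v, hv, h3⟩, h4⟩
  have hsub : ((HM k 0 R' : Finset P2) : Set P2) ⊆ (HM k 0 R : Finset P2) := by
    exact_mod_cast HM_mono le_rfl h
  constructor
  · have hv' : hd k v = R := hv
    obtain ⟨w, h5, h6⟩ := first_hit_hd (k := k) (m := R') h3 (by
      have : hd k (k, k) ≤ 0 := hd_le.2 (by simp only [mX, mY]; omega)
      omega) (by omega)
    refine ⟨w, h5, h6.monoS ?_⟩
    rintro t ⟨ht1, ht2⟩
    have ht1' := mem_HM.1 ht1
    have ht2' : hd k t ≤ R' := ht2
    exact mem_HM.2 ⟨ht1'.1, hd_nonneg _ _, ht2'⟩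
  · intro x hx h5
    exact h4 x hx (h5.monoS hsub)

/-- **Segment form of the two arms.** -/
theorem segM_le (h : Mrsw p c l C a) (k : ℤ) {R : ℤ} (hR : 1 ≤ R) :
    (nu p).real (SegM k R) ≤ 2 * (l + 1) / (c * R) := by
  have hc := h.pos
  have hc1 := h.c_le_one
  have hl := h.two
  have hl0 : (2 : ℝ) ≤ l := by exact_mod_cast hl
  have hR0 : (1 : ℝ) ≤ R := by exact_mod_cast hR
  by_cases h4 : R < 2 * (l + 1)
  · refine measureReal_le_one.trans ?_
    rw [le_div_iff₀ (by positivity), one_mul]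
    have h5 : (R : ℝ) ≤ 2 * (l + 1) := by exact_mod_cast h4.le
    nlinarith
  · obtain ⟨m, hm⟩ : ∃ m : ℕ, (m : ℤ) = R / (2 * (l + 1)) :=
      ⟨(R / (2 * (l + 1))).toNat, Int.toNat_of_nonneg (Int.ediv_nonneg (by omega) (by omega))⟩
    have hpos : (0 : ℤ) < 2 * (l + 1) := by omega
    have hm1 : 1 ≤ m := by
      have : (1 : ℤ) ≤ R / (2 * (l + 1)) := by
        rw [Int.le_ediv_iff_mul_le hpos]
        omega
      omega
    have hmR : 2 * (m : ℤ) * (l + 1) ≤ R := by
      have := Int.ediv_mul_le R hpos.ne'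
      rw [hm]
      linarith
    have hmR2 : R < (m + 1) * (2 * (l + 1)) := by
      have := Int.lt_ediv_add_one_mul_self R hpos
      rw [hm]
      exact this
    have h5 := segM_count h k m hm1
    have h6 : (nu p).real (SegM k R) ≤ (nu p).real (SegM k (2 * m * (l + 1))) :=
      measureReal_mono (segM_mono k (by positivity) hmR)
    refine h6.trans ?_
    have h7 : (R : ℝ) ≤ (m + 1) * (2 * (l + 1)) := by exact_mod_cast hmR2.le
    rw [le_div_iff₀ (by positivity)]
    rw [le_div_iff₀ hc] at h5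
    have h8 : 0 ≤ (nu p).real (SegM k (2 * m * (l + 1))) := measureReal_nonneg
    set P := (nu p).real (SegM k (2 * m * (l + 1)))
    have h9 : P * (c * R) ≤ P * c * ((m + 1) * (2 * (l + 1))) := by
      rw [← mul_assoc]
      exact mul_le_mul_of_nonneg_left h7 (mul_nonneg h8 hc.le)
    have h10 : (0 : ℝ) ≤ P * c := mul_nonneg h8 hc.le
    have h11 : P * c * (m + 1) ≤ 1 := by
      have : (0 : ℝ) ≤ m := Nat.cast_nonneg m
      nlinarith [mul_nonneg h10 this]
    calc P * (c * R) ≤ P * c * ((m + 1) * (2 * (l + 1))) := h9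
      _ = (P * c * (m + 1)) * (2 * (l + 1)) := by ring
      _ ≤ 1 * (2 * (l + 1)) := mul_le_mul_of_nonneg_right h11 (by linarith)
      _ = _ := one_mul _

/-! ### clusters missing one part of the wall -/

open Classical in
/-- list of the inner boundary sites -/
def innL (k s R : ℤ) : List P2 := ((HM k s R).filter fun x => x ∈ InM k s).toList

theorem mem_innL {k s R : ℤ} {x : P2} : x ∈ innL k s R ↔ x ∈ HM k s R ∧ x ∈ InM k s := by
  classical
  simp [innL]

/-- some crossing cluster misses the right part of the wall -/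
def MissR (k s R : ℤ) : Set Cf := Miss (HM k s R) (Sp k R) (WR k s R) (innL k s R)

/-- some crossing cluster misses the left part of the wall -/
def MissL (k s R : ℤ) : Set Cf := Miss (HM k s R) (Sp k R) (WL k s R) (innL k s R)

theorem mem_missR {k s R : ℤ} {y : Cf} : y ∈ MissR k s R ↔
    ∃ x ∈ InM k s, ∃ v ∈ Sp k R, OC y (HM k s R) x v ∧ ∀ b ∈ WR k s R, ¬ OC y (HM k s R) b x := by
  constructor
  · rintro ⟨x, hx, v, hv, h⟩
    exact ⟨x, (mem_innL.1 hx).2, v, hv, h⟩
  · rintro ⟨x, hx, v, hv, h⟩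
    exact ⟨x, mem_innL.2 ⟨h.1.left, hx⟩, v, hv, h⟩

theorem mem_missL {k s R : ℤ} {y : Cf} : y ∈ MissL k s R ↔
    ∃ x ∈ InM k s, ∃ v ∈ Sp k R, OC y (HM k s R) x v ∧ ∀ b ∈ WL k s R, ¬ OC y (HM k s R) b x := by
  constructor
  · rintro ⟨x, hx, v, hv, h⟩
    exact ⟨x, (mem_innL.1 hx).2, v, hv, h⟩
  · rintro ⟨x, hx, v, hv, h⟩
    exact ⟨x, mem_innL.2 ⟨h.1.left, hx⟩, v, hv, h⟩

/-- a cluster of `WL` sites reaches distance `R`, and no cluster of these sites reaches `WR` -/
def F1 (l k s R : ℤ) : Set Cf :=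
  {y | (∃ u ∈ WL k s (l * s), ∃ v ∈ Sp k R, OC y (HM k s R) u v) ∧
    ∀ u ∈ WL k s (l * s), ∀ b ∈ WR k s R, ¬ OC y (HM k s R) b u}

/-- **Step 1.** -/
theorem step1 (p : I) (l k : ℤ) {s R : ℤ} (hs : 1 ≤ s) (hR : l * s ≤ R) :
    (nu p).real (MissR k s R) * (nu p).real (HO l k s) ≤ (nu p).real (F1 l k s R) := by
  classical
  set A := HM k s R with hA
  set B := WR k s R with hB
  set X : Finset P2 → Set Cf := fun W => Some1 (A \ W) (Sp k R) (innL k s R) with hX
  set O : Finset P2 → Set Cf := fun W => EV ((A \ W) ∩ HM k s (l * s) : Finset P2)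
    (WL k s (l * s)) {a | ∃ b ∈ W, Nbr a b} with hO
  have hXd : ∀ W, Dep (EI (A \ W)) (X W) := fun W => some1_dep _ _ _
  have hOd : ∀ W, Dep (EI (A \ W)) (O W) := fun W =>
    (ev_dep ((A \ W) ∩ HM k s (l * s)) _ _).mono (EI_mono Finset.inter_subset_left)
  have e1 : (nu p).real (MissR k s R) =
      ∑ W ∈ A.powerset, (PB fun _ => p).real {y | Cl y A B = W} * (PB fun _ => p).real (X W) := by
    rw [← expl_sum (fun _ => p) A B X hXd]
    congr 1
    ext y
    exact miss_iff
  have e2 : ∀ W ∈ A.powerset, (PB fun _ => p).real {y | Cl y A B = W} *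
      (PB fun _ => p).real (X W) * (nu p).real (HO l k s) ≤
      (PB fun _ => p).real {y | Cl y A B = W} * (PB fun _ => p).real (X W ∩ O W) := by
    intro W _
    by_cases hW : ∃ y0, Cl y0 A B = W
    swap
    · have : {y : Cf | Cl y A B = W} = ∅ := by
        ext y
        simp only [Set.mem_ofPred_eq, Set.mem_empty_iff_false, iff_false]
        exact fun h => hW ⟨y, h⟩
      rw [this]
      simp
    obtain ⟨y0, hy0⟩ := hW
    rw [mul_assoc]
    refine mul_le_mul_of_nonneg_left ?_ measureReal_nonneg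
    by_cases hU : ∃ u ∈ WL k s (l * s), u ∈ W
    · obtain ⟨u, hu, huW⟩ := hU
      have h0 : X W = ∅ := by
        ext y
        simp only [Set.mem_empty_iff_false, iff_false]
        rintro ⟨x, hx, v, hv, h1⟩
        rw [← hy0] at huW
        obtain ⟨b, hb, hbA, hw⟩ := cl_walk huW
        have h2 := half_cross hs hw.symm h1.walk (fun t ht => Cl_sub ht) (fun t ht => by
          have := ht.2
          simp only [Finset.coe_sdiff, Set.mem_sdiff, Finset.mem_coe] at this
          exact this.1) (WL_sub le_rfl hR hu) hb (mem_innL.1 hx).2 hv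
        obtain ⟨t, ht1, ht2⟩ := h2
        have h3 := ht2.2
        simp only [Finset.coe_sdiff, Set.mem_sdiff, Finset.mem_coe] at h3
        exact h3.2 (hy0 ▸ ht1)
      rw [h0]
      simp
    · push Not at hU
      have h1 : (nu p).real (HO l k s) ≤ (PB fun _ => p).real (O W) := by
        refine measureReal_mono ?_
        rintro y ⟨u, hu, w, hw, h1⟩
        have hwW : w ∈ W := by
          rw [← hy0, mem_Cl]
          exact ⟨w, WR_sub le_rfl hR hw, OC.refl (HM_mono le_rfl hR h1.right)⟩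
        obtain ⟨a, b, h2, h3, h4⟩ := oc_enter (W := (W : Set P2)) h1 (hU u hu) hwW
        refine ⟨u, hu, a, ⟨b, h3, h4⟩, h2.monoS ?_⟩
        rintro t ⟨ht1, ht2⟩
        simp only [Finset.coe_inter, Finset.coe_sdiff, Set.mem_inter_iff, Set.mem_sdiff,
          Finset.mem_coe]
        exact ⟨⟨HM_mono le_rfl hR ht1, ht2⟩, ht1⟩
      calc (PB fun _ => p).real (X W) * (nu p).real (HO l k s)
          ≤ (PB fun _ => p).real (X W) * (PB fun _ => p).real (O W) :=
            mul_le_mul_of_nonneg_left h1 measureReal_nonneg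
        _ ≤ _ := harris _ (hXd W) (hOd W) (ev_inc _ _ _) (ev_inc _ _ _)
  have e3 := expl_ge (fun _ => p) A B (F1 l k s R) (fun W => X W ∩ O W)
    (fun W => (hXd W).inter (hOd W)) (by
    rintro y ⟨⟨x, hx, v, hv, h1⟩, u, hu, a, ⟨b, hbW, hab⟩, h2⟩
    set W := Cl y A B with hW
    have h2' : OC y (A \ W : Finset P2) u a := h2.monoS (by
      intro t ht
      simp only [Finset.coe_inter, Set.mem_inter_iff] at ht
      exact ht.1)
    obtain ⟨w, hw, hwA, hwalk⟩ := cl_walk hbW
    have hwm : ∀ t, t ∈ ((A \ W : Finset P2) : Set P2) → t ∈ A ∧ t ∉ W := by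
      intro t ht
      simpa using ht
    -- the walk from the left wall to the right wall
    have w1 : Walk ({t | OC y (A \ W : Finset P2) u t ∧ t ∈ ((A \ W : Finset P2) : Set P2)} ∪
        (W : Set P2)) u w := by
      have e1 := h2'.walk.mono (T' := {t | OC y (A \ W : Finset P2) u t ∧
        t ∈ ((A \ W : Finset P2) : Set P2)} ∪ (W : Set P2)) Set.subset_union_left
      have e2 := hwalk.symm.mono (T' := {t | OC y (A \ W : Finset P2) u t ∧
        t ∈ ((A \ W : Finset P2) : Set P2)} ∪ (W : Set P2)) Set.subset_union_right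
      exact (e1.trans (Walk.step e1.right e2.left hab)).trans e2
    obtain ⟨t, ht1, ht2⟩ := half_cross hs w1 h1.walk (by
      rintro t (ht | ht)
      · exact (hwm t ht.2).1
      · exact Cl_sub ht) (fun t ht => (hwm t ht.2).1) (WL_sub le_rfl hR hu) hw
      (mem_innL.1 hx).2 hv
    have h5 : OC y (A \ W : Finset P2) u t := by
      rcases ht1 with ht1 | ht1
      · exact ht1.1
      · exact absurd ht1 (hwm t ht2.2).2
    have h6 : OC y (A \ W : Finset P2) u v := (h5.trans ht2.1.symm).trans h1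
    refine ⟨⟨u, hu, v, hv, oc_sdiff h6⟩, ?_⟩
    intro u' hu' b' hb' h7
    -- the cluster of `u'` would separate
    obtain ⟨t', ht3, ht4⟩ := half_cross hs h7.symm.walk h1.walk (fun t ht => ht.2)
      (fun t ht => (hwm t ht.2).1) (WL_sub le_rfl hR hu') hb' (mem_innL.1 hx).2 hv
    have h8 : OC y A b' t' := h7.trans ht3.1
    exact (hwm t' ht4.2).2 (mem_Cl.2 ⟨b', hb', h8⟩))
  rw [e1, Finset.sum_mul]
  exact (Finset.sum_le_sum e2).trans e3

/-- a site of `WL k s (l s)` is joined to distance `R` in the half box, but to no wall site on the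
right of `2 k + l s` -/
def F2 (l k s R : ℤ) : Set Cf :=
  {y | ∃ u ∈ WL k s (l * s), (∃ v ∈ Sp k R, OC y (HM k 0 R) u v) ∧
    ∀ j : ℤ, 2 * k + l * s < 2 * j → ¬ OC y (HM k 0 R) (j, j) u}

/-- **Step 2.** -/
theorem step2 {p : I} {c : ℝ} (l k : ℤ) {s R : ℤ} (hl : 2 ≤ l) (hs : 1 ≤ s) (hR : l * s ≤ R)
    (hc : (nu p).real (HX k s (l * s)) ≤ 1 - c) :
    (nu p).real (F1 l k s R) * c ≤ (nu p).real (F2 l k s R) := by
  classical
  have hsl : s ≤ l * s := by nlinarith
  set A := HM k s R with hA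
  set B := WL k s (l * s) with hB
  set Q : Finset P2 → Prop := fun W => (∃ v ∈ Sp k R, v ∈ W) ∧ ∀ b ∈ WR k s R, b ∉ W with hQ
  set Y : Finset P2 → Set Cf := fun W => if Q W then
    (EV (HM k s (l * s) \ W : Finset P2) (Sp k s) (Sp k (l * s)))ᶜ else ∅ with hY
  have hAsub : ∀ W, HM k s (l * s) \ W ⊆ A \ W := fun W =>
    Finset.sdiff_subset_sdiff (HM_mono le_rfl hR) (Finset.Subset.refl _)
  have hYd : ∀ W, Dep (EI (A \ W)) (Y W) := by
    intro W
    simp only [hY]
    split_ifs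
    · exact ((ev_dep (HM k s (l * s) \ W) _ _).mono (EI_mono (hAsub W))).compl
    · intro z z' _; rfl
  have e1 : (nu p).real (F1 l k s R) = ∑ W ∈ A.powerset,
      (PB fun _ => p).real {y | Cl y A B = W} * (if Q W then 1 else 0) := by
    rw [sum_Cl (fun _ => p) A B Q]
    congr 1
    ext y
    simp only [F1, hQ, Set.mem_ofPred_eq, mem_Cl]
    constructor
    · rintro ⟨⟨u, hu, v, hv, h1⟩, h2⟩
      refine ⟨⟨v, hv, u, hu, h1⟩, ?_⟩
      rintro b hb ⟨u', hu', h3⟩
      exact h2 u' hu' b hb h3.symm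
    · rintro ⟨⟨v, hv, u, hu, h1⟩, h2⟩
      refine ⟨⟨u, hu, v, hv, h1⟩, ?_⟩
      intro u' hu' b hb h3
      exact h2 b hb ⟨u', hu', h3.symm⟩
  have e2 : ∀ W ∈ A.powerset, (PB fun _ => p).real {y | Cl y A B = W} *
      (if Q W then 1 else 0) * c ≤
      (PB fun _ => p).real {y | Cl y A B = W} * (PB fun _ => p).real (Y W) := by
    intro W _
    rw [mul_assoc]
    refine mul_le_mul_of_nonneg_left ?_ measureReal_nonneg
    simp only [hY]
    split_ifs
    · rw [one_mul, probReal_compl_eq_one_sub (ev_dep _ _ _).measurableSet]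
      have h1 : (PB fun _ : Edge => p).real
          (EV (HM k s (l * s) \ W : Finset P2) (Sp k s) (Sp k (l * s))) ≤
          (nu p).real (HX k s (l * s)) := by
        refine measureReal_mono ?_
        refine EV_mono ?_ subset_rfl subset_rfl
        simp
      linarith
    · simp
  have e3 := expl_ge (fun _ => p) A B (F2 l k s R) Y hYd (by
    intro y hy
    set W := Cl y A B with hW
    simp only [hY] at hy
    split_ifs at hy with hq
    swap
    · exact absurd hy (by simp)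
    obtain ⟨⟨v, hv, hvW⟩, hq2⟩ := hq
    rw [hW, mem_Cl] at hvW
    obtain ⟨u, hu, h1⟩ := hvW
    have hAD : ((A : Finset P2) : Set P2) ⊆ (HM k 0 R : Finset P2) := by
      exact_mod_cast HM_mono (by omega) le_rfl
    refine ⟨u, hu, ⟨v, hv, h1.monoS hAD⟩, ?_⟩
    intro j hj h2
    have hjD := mem_HM.1 h2.left
    have hjB : ((j, j) : P2) ∈ WR k s R := by
      have := hd_le.1 hjD.2.2
      simp only [mX, mY] at this
      exact ⟨by simp only [mY]; omega, by simp only [mX]; omega, by simp only [mX]; omega⟩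
    have hjW := hq2 _ hjB
    have hjs : l * s ≤ hd k (j, j) := by
      rw [le_hd']
      simp only [mX]
      omega
    have hmemA : ∀ t, t ∈ ((HM k 0 R : Finset P2) : Set P2) ∩ {q | s ≤ hd k q} → t ∈ A := by
      rintro t ⟨ht1, ht2⟩
      have h3 := mem_HM.1 ht1
      have h4 : s ≤ hd k t := ht2
      exact mem_HM.2 ⟨h3.1, h4, h3.2.2⟩
    rcases oc_stay (hd k) s h2 with h3 | ⟨t, ht, h3⟩
    · apply hjW
      rw [hW, mem_Cl]
      exact ⟨u, hu, (h3.monoS (fun t ht => hmemA t ht)).symm⟩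
    · obtain ⟨w', h4, h5, _⟩ := last_exit (hd k) (hd_nbr k) s h3.symm (by omega) (by omega)
      have h6 : OC y A w' (j, j) := h5.monoS (fun t ht => hmemA t ht)
      have h7 : w' ∉ Cl y A B := fun h8 => hjW (Cl_step h8 h6)
      have h8 := oc_out h7 h6
      obtain ⟨w'', h9, h10⟩ := first_hit_hd (k := k) (m := l * s) h8 (by omega) hjs
      apply hy
      refine ⟨w', h4, w'', h9, h10.monoS ?_⟩
      rintro t ⟨ht1, ht2⟩
      simp only [Finset.coe_sdiff, Set.mem_sdiff, Finset.mem_coe] at ht1 ⊢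
      have ht3 : hd k t ≤ l * s := ht2
      have ht4 := mem_HM.1 ht1.1
      exact ⟨mem_HM.2 ⟨ht4.1, ht4.2.1, ht3⟩, ht1.2⟩)
  rw [e1, Finset.sum_mul]
  exact (Finset.sum_le_sum e2).trans e3

/-- **Step 3.** -/
theorem step3 (l k : ℤ) {s R : ℤ} (hR0 : l * s ≤ R) :
    F2 l k s R ⊆ ⋃ i ∈ Finset.Icc (k - l * s) (k + l * s), SegM i (R - l * s) := by
  classical
  rintro y ⟨u, hu, ⟨v, hv, h1⟩, h2⟩
  obtain ⟨hu2, hu1', hu1⟩ := hu
  set J : Finset ℤ := (Finset.Icc (k - R) (k + R)).filter fun i => OC y (HM k 0 R) u (i, i) with hJ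
  have hJm : ∀ i, i ∈ J ↔ OC y (HM k 0 R) u (i, i) := by
    intro i
    simp only [hJ, Finset.mem_filter, Finset.mem_Icc, and_iff_right_iff_imp]
    intro h3
    have h4 := hd_le.1 (mem_HM.1 h3.right).2.2
    simp only [mX, mY] at h4
    have h5 := hd_nonneg k (i, i)
    have h6 := (mem_HM.1 h3.right).2.2
    omega
  obtain ⟨u1, u2⟩ := u
  simp only [mX, mY] at hu2 hu1 hu1'
  have hu3 : u2 = u1 := by omega
  subst hu3
  have huJ : u2 ∈ J := by
    rw [hJm]
    exact OC.refl h1.left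
  have hne : J.Nonempty := ⟨_, huJ⟩
  set i := J.max' hne with hi
  have hiJ : i ∈ J := J.max'_mem hne
  have hmax : ∀ j ∈ J, j ≤ i := fun j hj => J.le_max' j hj
  have hi1 : u2 ≤ i := hmax _ huJ
  have hi2 : 2 * i ≤ 2 * k + l * s := by
    by_contra h3
    exact h2 i (by omega) ((hJm i).1 hiJ).symm
  simp only [Set.mem_iUnion, Finset.mem_Icc]
  have hls : 0 ≤ l * s := by omega
  refine ⟨i, ⟨by omega, by omega⟩, ?_⟩
  have h3 : OC y (HM k 0 R) (i, i) v := ((hJm i).1 hiJ).symm.trans h1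
  have hv' : hd k v = R := hv
  have hvs : R - l * s ≤ hd i v := by
    have h4 : R ≤ hd k v := hv'.ge
    rw [le_hd'] at h4 ⊢
    omega
  constructor
  · obtain ⟨w, h5, h6⟩ := first_hit_hd (k := i) (m := R - l * s) h3 (by
      have : hd i (i, i) ≤ 0 := hd_le.2 (by simp only [mX, mY]; omega)
      omega) hvs
    refine ⟨w, h5, h6.monoS ?_⟩
    rintro t ⟨ht1, ht2⟩
    have ht1' := mem_HM.1 ht1
    have ht2' : hd i t ≤ R - l * s := ht2
    exact mem_HM.2 ⟨ht1'.1, hd_nonneg _ _, ht2'⟩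
  · intro x hx h5
    have hsub : ((HM i 0 (R - l * s) : Finset P2) : Set P2) ⊆ (HM k 0 R : Finset P2) := by
      intro t ht
      have ht' := mem_HM.1 ht
      have h6 := hd_le.1 ht'.2.2
      exact mem_HM.2 ⟨ht'.1, hd_nonneg _ _, hd_le.2 ⟨by omega, by omega, by omega⟩⟩
    have h6 : OC y (HM k 0 R) (u2, u2) (x, x) := ((hJm i).1 hiJ).trans (h5.monoS hsub).symm
    have h7 : x ∈ J := by
      rw [hJm]
      exact h6
    have := hmax _ h7
    omega

/-- the constant of the two-arm bound -/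
def KM (c : ℝ) (l : ℤ) : ℝ := 12 * l * (l + 1) / c ^ 3

theorem KM_pos (h : Mrsw p c l C a) : 0 < KM c l := by
  have hc := h.pos
  have hl0 : (2 : ℝ) ≤ l := by exact_mod_cast h.two
  unfold KM
  positivity

/-- **Two arms, ball form.** -/
theorem missR_le (h : Mrsw p c l C a) (k : ℤ) {s R : ℤ} (hs : 1 ≤ s) (hsR : s ≤ R) :
    (nu p).real (MissR k s R) ≤ KM c l * ((s : ℝ) / R) := by
  have hc := h.pos
  have hc1 := h.c_le_one
  have hl := h.two
  have hl0 : (2 : ℝ) ≤ l := by exact_mod_cast hl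
  have hs0 : (1 : ℝ) ≤ s := by exact_mod_cast hs
  have hR0 : (s : ℝ) ≤ R := by exact_mod_cast hsR
  have hRp : (0 : ℝ) < R := by linarith
  have hc3 : c ^ 3 ≤ 1 := pow_le_one₀ hc.le hc1
  have hls : 2 ≤ l * s := by nlinarith
  by_cases h4 : 2 * (l * s) ≤ R
  · have h1 := step1 p l k hs (by omega : l * s ≤ R)
    have h2 := step2 (p := p) (c := c) l k hl hs (by omega : l * s ≤ R) (h.hx k s hs)
    have h3 : (nu p).real (F2 l k s R) ≤ (2 * (l * s) + 1) * (2 * (l + 1) / (c * (R - l * s : ℤ))) := by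
      refine (measureReal_mono (step3 l k (by omega)) (measure_ne_top _ _)).trans ?_
      refine (measureReal_biUnion_finset_le _ _).trans ?_
      refine (Finset.sum_le_card_nsmul _ _ (2 * (l + 1) / (c * (R - l * s : ℤ))) fun i _ =>
        segM_le h _ (by omega)).trans ?_
      rw [Int.card_Icc, nsmul_eq_mul]
      refine le_of_eq ?_
      congr 1
      have : (((k + l * s + 1 - (k - l * s)).toNat : ℕ) : ℤ) = 2 * (l * s) + 1 := by omega
      exact_mod_cast this
    have h5 := h.ho k s hs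
    have h6 : 0 ≤ (nu p).real (MissR k s R) := measureReal_nonneg
    have h7 : (nu p).real (MissR k s R) * c ^ 2 ≤
        (2 * (l * s) + 1) * (2 * (l + 1) / (c * (R - l * s : ℤ))) := by
      calc (nu p).real (MissR k s R) * c ^ 2 = (nu p).real (MissR k s R) * c * c := by ring
        _ ≤ (nu p).real (MissR k s R) * (nu p).real (HO l k s) * c := by
            gcongr
        _ ≤ (nu p).real (F1 l k s R) * c := mul_le_mul_of_nonneg_right h1 hc.le
        _ ≤ _ := h2.trans h3
    have h8 : (2 * ((l : ℝ) * s) + 1) * (2 * (l + 1) / (c * (R - l * s : ℤ))) ≤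
        12 * l * (l + 1) * s / (c * R) := by
      have h9 : (R : ℝ) / 2 ≤ ((R - l * s : ℤ) : ℝ) := by
        push_cast
        have : (2 : ℝ) * (l * s) ≤ R := by exact_mod_cast h4
        linarith
      have h10 : (0 : ℝ) < R / 2 := by positivity
      have h12 : (0 : ℝ) < ((R - l * s : ℤ) : ℝ) := lt_of_lt_of_le h10 h9
      have h13 : 2 * ((l : ℝ) * s) + 1 ≤ 3 * (l * s) := by nlinarith
      have h14 : (0 : ℝ) ≤ (l : ℝ) + 1 := by linarith
      have h15 : (0 : ℝ) < (l : ℝ) := by linarith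
      calc (2 * ((l : ℝ) * s) + 1) * (2 * (l + 1) / (c * (R - l * s : ℤ)))
          ≤ (3 * (l * s)) * (2 * (l + 1) / (c * (R / 2))) := by
            gcongr
        _ = 12 * l * (l + 1) * s / (c * R) := by
            field_simp
            ring
    unfold KM
    rw [← mul_div_assoc, ← mul_div_right_comm, div_div, le_div_iff₀ (by positivity)]
    have h11 := h7.trans h8
    rw [le_div_iff₀ (by positivity)] at h11
    calc (nu p).real (MissR k s R) * (c ^ 3 * (R : ℝ)) =
        (nu p).real (MissR k s R) * c ^ 2 * (c * (R : ℝ)) := by ring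
      _ ≤ 12 * (l : ℝ) * (l + 1) * s := h11
  · refine measureReal_le_one.trans ?_
    have h5 : (R : ℝ) ≤ 2 * (l * s) := by exact_mod_cast (show R ≤ 2 * (l * s) by omega)
    unfold KM
    rw [← mul_div_assoc, ← mul_div_right_comm, div_div, le_div_iff₀ (by positivity), one_mul]
    have h6 : c ^ 3 * (R : ℝ) ≤ 1 * (2 * (l * s)) := mul_le_mul hc3 h5 hRp.le (by norm_num)
    have h7 : (0 : ℝ) ≤ l * s := by positivity
    nlinarith

end Crest.Agent.R158.Fw814
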