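import Crest.Agent.R158.Fw2_814

/-!
# Row 158, Block FW (helper814): flat medial wall, three arms

* `TT k s R` : two distinct crossing clusters of the half annulus; `TW k s R` : a crossing cluster
  which misses the wall
* `two_arm : P(TT ∪ TW) ≤ K s / R`, `three_arm : P(TT) ≤ K (s/R)^(1+a)`
-/

set_option autoImplicit false

noncomputable section

namespace Crest.Agent.R158.Fw814

open MeasureTheory ProbabilityTheory unitInterval
open Crest.Agent.R161.Geo729 Crest.Agent.R161.Topo374 Crest.Agent.R161.Dual374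
open Crest.Agent.R161.Tas682 Crest.Agent.R158.Rs689 Crest.Agent.R158.Fl440
open Crest.Agent.R158.Hp814 (EI EI_mono EI_disj ev_dep ev_inc Cl mem_Cl Cl_sub Cl_step oc_out
  oc_sdiff oc_out_iff expl_sum expl_le expl_ge sum_Cl First Some1 EN EN_le Miss miss_iff Two
  some1_dep some1_mono two_le oc_dep oc_stay oc_enter cl_walk miss_dep two_sub_miss Sy)

/-! ### reflection -/

/-- reflection of the edges in the medial vertical line through `(k,k)` -/
def refE (k : ℤ) : Edge → Edge
  | ((x, y), false) => ((2 * k - y, 2 * k - x - 1), true)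
  | ((x, y), true) => ((2 * k - y - 1, 2 * k - x), false)

theorem refE_refE (k : ℤ) (e : Edge) : refE k (refE k e) = e := by
  obtain ⟨⟨x, y⟩, b⟩ := e
  cases b <;> simp [refE] <;> ring

/-- reflection in the medial vertical line through `(k,k)` -/
def syA (k : ℤ) : Sy where
  V := ⟨fun v => (2 * k - v.2, 2 * k - v.1), fun v => (2 * k - v.2, 2 * k - v.1),
    fun v => by ext <;> simp, fun v => by ext <;> simp⟩
  E := ⟨refE k, refE k, refE_refE k, refE_refE k⟩
  ok e := by
    right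
    obtain ⟨⟨x, y⟩, b⟩ := e
    cases b
    · simp only [Equiv.coe_fn_mk, refE, src, tgt]
      constructor
      · ext
        · simp
        · simp; ring
      · ext
        · simp
        · simp
    · simp only [Equiv.coe_fn_mk, refE, src, tgt]
      constructor
      · ext
        · simp; ring
        · simp
      · ext
        · simp
        · simp

theorem syA_V (k : ℤ) (v : P2) : (syA k).V v = (2 * k - v.2, 2 * k - v.1) := rfl

theorem hd_syA (k : ℤ) (v : P2) : hd k ((syA k).V v) = hd k v := by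
  rw [syA_V]
  unfold hd mX mY
  simp only
  congr 1
  · rw [show 2 * k - v.2 + (2 * k - v.1) - 2 * k = -(v.1 + v.2 - 2 * k) by ring, abs_neg]
  · ring

theorem mY_syA (k : ℤ) (v : P2) : mY ((syA k).V v) = mY v := by
  rw [syA_V]
  unfold mY
  simp only
  ring

theorem mX_syA (k : ℤ) (v : P2) : mX ((syA k).V v) = 4 * k - mX v := by
  rw [syA_V]
  unfold mX
  simp only
  ring

theorem syA_VV (k : ℤ) (v : P2) : (syA k).V ((syA k).V v) = v := by
  rw [syA_V, syA_V]
  ext <;> simp

theorem nbr_syA (k : ℤ) {u v : P2} (h : Nbr u v) : Nbr ((syA k).V u) ((syA k).V v) := by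
  rw [syA_V, syA_V]
  unfold Nbr at h ⊢
  simp only
  omega

theorem missL_eq (p : I) (k s R : ℤ) :
    (nu p).real (MissL k s R) = (nu p).real (MissR k s R) := by
  have hm : MeasurableSet (MissR k s R) := (miss_dep _ _ _ _).measurableSet
  rw [← (syA k).prob p hm]
  congr 1
  ext y
  have hS : ∀ v, v ∈ ((HM k s R : Finset P2) : Set P2) ↔
      (syA k).V v ∈ ((HM k s R : Finset P2) : Set P2) := by
    intro v
    rw [Finset.mem_coe, Finset.mem_coe, mem_HM, mem_HM, hd_syA, mY_syA]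
  have key : ∀ u v : P2, OC (fun e => y ((syA k).E e)) (HM k s R) u v ↔
      OC y (HM k s R) ((syA k).V u) ((syA k).V v) := fun u v => (syA k).oc_iff hS
  have hSp : ∀ v, v ∈ Sp k R → (syA k).V v ∈ Sp k R := by
    intro v hv
    show hd k _ = R
    rw [hd_syA]
    exact hv
  have hInn : ∀ v, v ∈ InM k s → (syA k).V v ∈ InM k s := by
    rintro v ⟨h1, u, h2, h3, h4⟩
    exact ⟨by rw [hd_syA]; exact h1, (syA k).V u, nbr_syA k h2, by rw [hd_syA]; exact h3,
      by rw [mY_syA]; exact h4⟩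
  have hRL : ∀ v, v ∈ WR k s R → (syA k).V v ∈ WL k s R := by
    rintro v ⟨h1, h2, h3⟩
    exact ⟨by rw [mY_syA]; exact h1, by rw [mX_syA]; omega, by rw [mX_syA]; omega⟩
  have hLR : ∀ v, v ∈ WL k s R → (syA k).V v ∈ WR k s R := by
    rintro v ⟨h1, h2, h3⟩
    exact ⟨by rw [mY_syA]; exact h1, by rw [mX_syA]; omega, by rw [mX_syA]; omega⟩
  rw [mem_missL]
  simp only [Set.mem_ofPred_eq, mem_missR, key]
  constructor
  · rintro ⟨x, hx, v, hv, h1, h2⟩
    refine ⟨(syA k).V x, hInn x hx, (syA k).V v, hSp v hv, ?_, ?_⟩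
    · rw [syA_VV, syA_VV]
      exact h1
    · intro b hb h3
      rw [syA_VV] at h3
      exact h2 _ (hRL b hb) h3
  · rintro ⟨x, hx, v, hv, h1, h2⟩
    refine ⟨(syA k).V x, hInn x hx, (syA k).V v, hSp v hv, h1, ?_⟩
    intro b hb h3
    refine h2 ((syA k).V b) (hLR b hb) ?_
    rw [syA_VV]
    exact h3

variable {p : I} {c : ℝ} {l : ℤ} {C a : ℝ}

theorem missL_le (h : Mrsw p c l C a) (k : ℤ) {s R : ℤ} (hs : 1 ≤ s) (hsR : s ≤ R) :
    (nu p).real (MissL k s R) ≤ KM c l * ((s : ℝ) / R) := by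
  rw [missL_eq]
  exact missR_le h k hs hsR

/-! ### two crossing clusters -/

/-- two distinct crossing clusters of the half annulus -/
def TT (k s R : ℤ) : Set Cf :=
  {y | ∃ x ∈ Sp k s, ∃ v ∈ Sp k R, ∃ x' ∈ Sp k s, ∃ v' ∈ Sp k R, OC y (HM k s R) x v ∧
    OC y (HM k s R) x' v' ∧ ¬ OC y (HM k s R) x x'}

/-- a crossing cluster of the half annulus which misses the wall -/
def TW (k s R : ℤ) : Set Cf :=
  {y | ∃ x ∈ Sp k s, ∃ v ∈ Sp k R, OC y (HM k s R) x v ∧
    ∀ b : P2, mY b = 0 → ¬ OC y (HM k s R) b x}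

theorem TT_dep (k s R : ℤ) : Dep (EI (HM k s R)) (TT k s R) := by
  intro y y' h
  have h1 : ∀ a b, OC y (HM k s R) a b ↔ OC y' (HM k s R) a b := fun a b => oc_dep _ a b y y' h
  simp only [TT, Set.mem_ofPred_eq, h1]

theorem TW_dep (k s R : ℤ) : Dep (EI (HM k s R)) (TW k s R) := by
  intro y y' h
  have h1 : ∀ a b, OC y (HM k s R) a b ↔ OC y' (HM k s R) a b := fun a b => oc_dep _ a b y y' h
  simp only [TW, Set.mem_ofPred_eq, h1]

/-- restriction of a crossing to `HM k (s+1) R` -/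
theorem cross_shrink {y : Cf} {k s R : ℤ} (hsR : s + 1 ≤ R) {x v : P2} (hx : x ∈ Sp k s)
    (hv : v ∈ Sp k R) (h : OC y (HM k s R) x v) :
    ∃ w ∈ InM k (s + 1), OC y (HM k (s + 1) R) w v ∧ OC y (HM k s R) x w := by
  have hx' : hd k x = s := hx
  have hv' : hd k v = R := hv
  obtain ⟨w, h1, h2, h3⟩ := last_exit_inn (k := k) (m := s + 1) h (by omega) (by omega)
    (fun t ht => (mem_HM.1 ht).1)
  refine ⟨w, h1, h2.monoS ?_, h3⟩
  rintro t ⟨ht1, ht2⟩
  have ht1' := mem_HM.1 ht1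
  have ht2' : s + 1 ≤ hd k t := ht2
  exact mem_HM.2 ⟨ht1'.1, ht2', ht1'.2.2⟩

theorem TW_sub {k s R : ℤ} (hsR : s + 1 ≤ R) : TW k s R ⊆ MissR k (s + 1) R := by
  rintro y ⟨x, hx, v, hv, h1, h2⟩
  obtain ⟨w, hw, h3, h4⟩ := cross_shrink hsR hx hv h1
  rw [mem_missR]
  refine ⟨w, hw, v, hv, h3, ?_⟩
  intro b hb h5
  have hsub : ((HM k (s + 1) R : Finset P2) : Set P2) ⊆ (HM k s R : Finset P2) := by
    exact_mod_cast HM_mono (by omega) le_rfl
  exact h2 b hb.1 ((h5.monoS hsub).trans h4.symm)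

theorem TT_sub {k s R : ℤ} (hs : 0 ≤ s) (hsR : s + 1 ≤ R) : TT k s R ⊆
    Two (HM k (s + 1) R) (Sp k R) (WR k (s + 1) R) (innL k (s + 1) R) ∪
    Two (HM k (s + 1) R) (Sp k R) (WL k (s + 1) R) (innL k (s + 1) R) := by
  rintro y ⟨x, hx, v, hv, x', hx', v', hv', h1, h1', h2⟩
  obtain ⟨w, hw, h3, h4⟩ := cross_shrink hsR hx hv h1
  obtain ⟨w', hw', h3', h4'⟩ := cross_shrink hsR hx' hv' h1'
  have hsub : ((HM k (s + 1) R : Finset P2) : Set P2) ⊆ (HM k s R : Finset P2) := by
    exact_mod_cast HM_mono (by omega) le_rfl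
  have hne : ¬ OC y (HM k (s + 1) R) w w' := by
    intro h5
    exact h2 ((h4.trans (h5.monoS hsub)).trans h4'.symm)
  have hwl : w ∈ innL k (s + 1) R := mem_innL.2 ⟨h3.left, hw⟩
  have hwl' : w' ∈ innL k (s + 1) R := mem_innL.2 ⟨h3'.left, hw'⟩
  by_cases hb : ∀ b ∈ WR k (s + 1) R, ¬ OC y (HM k (s + 1) R) b w
  · left
    exact ⟨w, hwl, v, hv, h3, hb, w', hwl', v', hv', h3', hne⟩
  · right
    refine ⟨w, hwl, v, hv, h3, ?_, w', hwl', v', hv', h3', hne⟩
    push Not at hb
    obtain ⟨b, hb, hbw⟩ := hb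
    intro a ha haw
    have h6 : OC y (HM k (s + 1) R) a b := haw.trans hbw.symm
    obtain ⟨t, ht1, ht2⟩ := half_cross (by omega : 1 ≤ s + 1) h6.walk h3'.walk (fun t ht => ht.2)
      (fun t ht => ht.2) ha hb hw' hv'
    exact hne ((haw.symm.trans ht1.1).trans ht2.1.symm)

theorem some1_sub {k s R : ℤ} : Some1 (HM k s R) (Sp k R) (innL k s R) ⊆ HX k s R := by
  rintro y ⟨x, hx, v, hv, h⟩
  exact ⟨x, (mem_innL.1 hx).2.1, v, hv, h⟩

/-- **Two arms at the flat medial wall.** -/
theorem two_arm (h : Mrsw p c l C a) (k : ℤ) {s R : ℤ} (hs : 1 ≤ s) (hsR : s ≤ R) :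
    (nu p).real (TT k s R ∪ TW k s R) ≤ 4 * KM c l * ((s : ℝ) / R) := by
  have hK := KM_pos h
  have hc := h.pos
  have hc1 := h.c_le_one
  have hl0 : (2 : ℝ) ≤ l := by exact_mod_cast h.two
  have hs0 : (1 : ℝ) ≤ s := by exact_mod_cast hs
  have hR0 : (s : ℝ) ≤ R := by exact_mod_cast hsR
  have hRp : (0 : ℝ) < R := by linarith
  by_cases h4 : s + 1 ≤ R
  · have h1 : TT k s R ∪ TW k s R ⊆ MissR k (s + 1) R ∪ MissL k (s + 1) R := by
      rintro y (hy | hy)
      · rcases TT_sub (by omega) h4 hy with hy | hy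
        · exact Or.inl (two_sub_miss hy)
        · exact Or.inr (two_sub_miss hy)
      · exact Or.inl (TW_sub h4 hy)
    have h2 := missR_le h k (by omega : 1 ≤ s + 1) h4
    have h3 := missL_le h k (by omega : 1 ≤ s + 1) h4
    have h5 := Hp814.ratio_bound hs0 hRp
    push_cast at h2 h3
    calc (nu p).real (TT k s R ∪ TW k s R)
        ≤ (nu p).real (MissR k (s + 1) R) + (nu p).real (MissL k (s + 1) R) :=
          (measureReal_mono h1).trans (measureReal_union_le _ _)
      _ ≤ 2 * KM c l * (((s : ℝ) + 1) / R) := by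
          have : 2 * KM c l * (((s : ℝ) + 1) / R) =
            KM c l * (((s : ℝ) + 1) / R) + KM c l * (((s : ℝ) + 1) / R) := by ring
          linarith
      _ ≤ 2 * KM c l * (2 * ((s : ℝ) / R)) := mul_le_mul_of_nonneg_left h5 (by positivity)
      _ = _ := by ring
  · refine measureReal_le_one.trans ?_
    have h5 : s = R := by omega
    rw [h5, div_self hRp.ne', mul_one]
    have h6 : (1 : ℝ) ≤ KM c l := by
      unfold KM
      rw [le_div_iff₀ (by positivity), one_mul]
      have : c ^ 3 ≤ 1 := pow_le_one₀ hc.le hc1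
      nlinarith
    linarith

theorem KM_ge (h : Mrsw p c l C a) : (72 : ℝ) ≤ KM c l := by
  have hc := h.pos
  have hc1 := h.c_le_one
  have hl0 : (2 : ℝ) ≤ l := by exact_mod_cast h.two
  unfold KM
  rw [le_div_iff₀ (by positivity)]
  have : c ^ 3 ≤ 1 := pow_le_one₀ hc.le hc1
  nlinarith

/-- the constant of the three-arm bound -/
def K3 (c : ℝ) (l : ℤ) (C : ℝ) : ℝ := 8 * KM c l * C * l ^ 2 / c

/-- **Three arms at the flat medial wall.** -/
theorem three_arm (h : Mrsw p c l C a) (k : ℤ) {s R : ℤ} (hs : 1 ≤ s) (hsR : s ≤ R) :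
    (nu p).real (TT k s R) ≤ K3 c l C * ((s : ℝ) / R) ^ (1 + a) := by
  have hc := h.pos
  have hc1 := h.c_le_one
  have hK := KM_ge h
  have hC := h.C1
  have hl := h.two
  have hl0 : (2 : ℝ) ≤ l := by exact_mod_cast hl
  have hs0 : (1 : ℝ) ≤ s := by exact_mod_cast hs
  have hR0 : (s : ℝ) ≤ R := by exact_mod_cast hsR
  have hsp : (0 : ℝ) < s := by linarith
  have hRp : (0 : ℝ) < R := by linarith
  have ha := h.apos
  have ha1 := h.ale
  have hq : 0 < (s : ℝ) / R := by positivity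
  have hK3 : 0 < K3 c l C := by unfold K3; positivity
  by_cases h4 : l * (s + 1) ≤ R
  · have hs1 : s + 1 ≤ R := by nlinarith
    set S := HM k (s + 1) R
    set L := innL k (s + 1) R
    have h1 : (nu p).real (Some1 S (Sp k R) L) ≤ 1 - c :=
      (measureReal_mono (some1_sub.trans (HX_sub le_rfl (by nlinarith) h4))).trans
        (h.hx k (s + 1) (by omega))
    have h2 : (nu p).real (Some1 S (Sp k R) L) ≤ C * (((s + 1 : ℤ) : ℝ) / R) ^ a :=
      (measureReal_mono some1_sub).trans (h.arm k _ _ (by omega) hs1)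
    have h3 := two_le (fun _ => p) (q := 1 - c) (by linarith) S (Sp k R) (WR k (s + 1) R) L h1
    have h3' := two_le (fun _ => p) (q := 1 - c) (by linarith) S (Sp k R) (WL k (s + 1) R) L h1
    rw [sub_sub_cancel] at h3 h3'
    have h5 := missR_le h k (by omega : 1 ≤ s + 1) hs1
    have h6 := missL_le h k (by omega : 1 ≤ s + 1) hs1
    push_cast at h2 h5 h6
    have h7 := Hp814.ratio_bound hs0 hRp
    set t : ℝ := (s : ℝ) / R with ht
    have h8 : (((s : ℝ) + 1) / R) ^ a ≤ 2 * t ^ a := by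
      calc (((s : ℝ) + 1) / R) ^ a ≤ (2 * t) ^ a :=
            Real.rpow_le_rpow (by positivity) h7 ha.le
        _ = 2 ^ a * t ^ a := Real.mul_rpow (by norm_num) hq.le
        _ ≤ 2 * t ^ a := by
            refine mul_le_mul_of_nonneg_right ?_ (by positivity)
            calc (2 : ℝ) ^ a ≤ 2 ^ (1 : ℝ) :=
                  Real.rpow_le_rpow_of_exponent_le (by norm_num) ha1
              _ = 2 := Real.rpow_one _
    have h9 : (nu p).real (Some1 S (Sp k R) L) ≤ C * (2 * t ^ a) :=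
      h2.trans (mul_le_mul_of_nonneg_left h8 (by linarith))
    have hta : 0 ≤ t ^ a := by positivity
    have key : ∀ M : ℝ, 0 ≤ M → M ≤ KM c l * (((s : ℝ) + 1) / R) →
        M / c * (nu p).real (Some1 S (Sp k R) L) ≤ 4 * KM c l * C / c * (t * t ^ a) := by
      intro M hM0 hM
      have h10 : M ≤ KM c l * (2 * t) :=
        hM.trans (mul_le_mul_of_nonneg_left h7 (by linarith))
      calc M / c * (nu p).real (Some1 S (Sp k R) L)
          ≤ (KM c l * (2 * t)) / c * (C * (2 * t ^ a)) := by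
            gcongr
        _ = 4 * KM c l * C / c * (t * t ^ a) := by
            field_simp
            ring
    have h10 : (nu p).real (TT k s R) ≤
        (nu p).real (Two S (Sp k R) (WR k (s + 1) R) L) +
        (nu p).real (Two S (Sp k R) (WL k (s + 1) R) L) :=
      (measureReal_mono (TT_sub (by omega) hs1)).trans (measureReal_union_le _ _)
    have h11 := h3.trans (key _ measureReal_nonneg h5)
    have h12 := h3'.trans (key _ measureReal_nonneg h6)
    rw [Real.rpow_add hq, Real.rpow_one]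
    have h13 : 8 * KM c l * C / c * (t * t ^ a) =
        4 * KM c l * C / c * (t * t ^ a) + 4 * KM c l * C / c * (t * t ^ a) := by ring
    have h14 : 8 * KM c l * C / c * (t * t ^ a) ≤ K3 c l C * (t * t ^ a) := by
      refine mul_le_mul_of_nonneg_right ?_ (by positivity)
      unfold K3
      have h15 : 8 * KM c l * C ≤ 8 * KM c l * C * (l : ℝ) ^ 2 := by
        have h16 : (1 : ℝ) ≤ (l : ℝ) ^ 2 := by nlinarith
        have h17 : (0 : ℝ) ≤ 8 * KM c l * C := by positivity
        nlinarith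
      exact div_le_div_of_nonneg_right h15 hc.le
    refine h10.trans ((add_le_add h11 h12).trans ?_)
    rw [← h13]
    exact h14
  · refine measureReal_le_one.trans ?_
    have h5 : (R : ℝ) ≤ l * (2 * s) := by
      have h6 : R ≤ l * (2 * s) := by
        have : l * (s + 1) ≤ l * (2 * s) := by nlinarith
        omega
      exact_mod_cast h6
    have h6 : (1 : ℝ) / (2 * l) ≤ (s : ℝ) / R := by
      rw [div_le_div_iff₀ (by positivity) hRp]
      linarith
    have h7 : (s : ℝ) / R ≤ 1 := by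
      rw [div_le_one hRp]
      exact hR0
    have h8 : ((1 : ℝ) / (2 * l)) ^ (2 : ℝ) ≤ ((s : ℝ) / R) ^ (1 + a) := by
      calc ((1 : ℝ) / (2 * l)) ^ (2 : ℝ) ≤ ((s : ℝ) / R) ^ (2 : ℝ) :=
            Real.rpow_le_rpow (by positivity) h6 (by norm_num)
        _ ≤ ((s : ℝ) / R) ^ (1 + a) :=
            Real.rpow_le_rpow_of_exponent_ge hq h7 (by linarith)
    have h9 : ((1 : ℝ) / (2 * l)) ^ (2 : ℝ) = 1 / (4 * l ^ 2) := by
      rw [Real.rpow_two, div_pow]
      ring
    rw [h9] at h8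
    have h10 : 4 * (l : ℝ) ^ 2 ≤ K3 c l C := by
      unfold K3
      rw [le_div_iff₀ hc]
      have h11 : (0 : ℝ) ≤ (l : ℝ) ^ 2 := by positivity
      have h12 : (1 : ℝ) ≤ KM c l * C := by nlinarith
      calc 4 * (l : ℝ) ^ 2 * c ≤ 4 * (l : ℝ) ^ 2 * 1 := by
            refine mul_le_mul_of_nonneg_left hc1 (by positivity)
        _ ≤ 8 * (KM c l * C) * (l : ℝ) ^ 2 := by nlinarith
        _ = _ := by ring
    calc (1 : ℝ) = 4 * (l : ℝ) ^ 2 * (1 / (4 * l ^ 2)) := by
          field_simp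
      _ ≤ K3 c l C * ((s : ℝ) / R) ^ (1 + a) :=
          mul_le_mul h10 h8 (by positivity) hK3.le

end Crest.Agent.R158.Fw814
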