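import Crest.Agent.R158.Fw3_814
import Crest.Agent.R158.Fl5_440
import Crest.Agent.R158.Cb1_771

/-!
# Row 158, Block FW (helper814): flat medial wall, three arms in face-path form

* `mrsw_half` : the medial RSW hypothesis holds at `p = 1/2`
* `three_half` : `P(TT k s R) ≤ C (s/R)^(1+c)`
* `FSy` : symmetries of the tile plane acting on face paths
* `f3` : two distinct colour-blind crossing clusters of the same parity of a half annulus at a flat wall,
  any tile set which contains the half annulus and stays behind the wall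
-/

set_option autoImplicit false

noncomputable section

namespace Crest.Agent.R158.Fw814

open MeasureTheory ProbabilityTheory unitInterval
open Crest.Agent.R161.Geo729 Crest.Agent.R161.Topo374 Crest.Agent.R161.Dual374
open Crest.Agent.R161.Tas682 Crest.Agent.R158.Rs689 Crest.Agent.R158.Fl440
open Crest.Agent.R158.Mr679 (TF Dg tb TS TP InB tau tau_real_perm measurable_perm)
open Crest.Agent.R158.Cb771 (FS FP xg dgt fs_even fp_even tau_real_xg measurable_xg PB_flip)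
open Crest.Agent.R158.Hp814 (EI EI_mono ev_dep oc_dep)

/-! ### the medial RSW hypothesis at 1/2 -/

theorem hc_sub {l k : ℤ} {n : ℕ} (hl : 4 ≤ l) : HC k n ⊆ HO l k n := by
  have h0 : (0 : ℤ) ≤ n := Int.natCast_nonneg n
  have hln : 4 * (n : ℤ) ≤ l * n := mul_le_mul_of_nonneg_right hl h0
  rintro y ⟨u, hu, v, hv, h⟩
  have hu1 := mem_HS.1 h.left
  have hv1 := mem_HS.1 h.right
  have hu2 := hd_le.1 hu1.2.2
  have hv2 := hd_le.1 hv1.2.2
  obtain ⟨hu3, hu4⟩ := hu
  obtain ⟨hv3, hv4⟩ := hv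
  refine ⟨u, ⟨hu3, by omega, by omega⟩, v, ⟨hv3, by omega, by omega⟩, h.monoS ?_⟩
  intro t ht
  have ht1 := mem_HS.1 ht
  exact mem_HM.2 ⟨ht1.1, ht1.2.1, by omega⟩

theorem hx_sub_px {k : ℤ} {s n : ℕ} : HX k s n ⊆ PX k s n := by
  rintro y ⟨u, hu, v, hv, h⟩
  have hu' : hd k u = s := hu
  have hv' : hd k v = n := hv
  refine ⟨u, hu'.le, v, le_hd.1 hv'.ge, h.monoS ?_⟩
  intro t ht
  have ht1 := mem_HM.1 ht
  have ht2 := hd_le.1 ht1.2.2
  rw [Finset.mem_coe, mem_HB]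
  exact ⟨ht2.1, ht2.2.1, ht1.1, ht2.2.2⟩

/-- **The medial RSW hypothesis at `p = 1/2`.** -/
theorem mrsw_half : ∃ (c : ℝ) (l : ℤ) (C a : ℝ), Mrsw hf c l C a := by
  obtain ⟨c0, hc0, h0⟩ := HC_prob
  obtain ⟨C0, a0, hC0, ha0, h1⟩ := PX_upper
  set C := max C0 1 with hC
  set a := min a0 1 with ha
  have ha' : 0 < a := lt_min ha0 one_pos
  have hCpos : 0 < C := lt_of_lt_of_le one_pos (le_max_right _ _)
  have harm : ∀ k s R : ℤ, 1 ≤ s → s ≤ R → (nu hf).real (HX k s R) ≤ C * ((s : ℝ) / R) ^ a := by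
    intro k s R hs hsR
    obtain ⟨s', rfl⟩ : ∃ s' : ℕ, s = s' := ⟨s.toNat, by omega⟩
    obtain ⟨R', rfl⟩ : ∃ R' : ℕ, R = R' := ⟨R.toNat, by omega⟩
    have h2 := h1 k s' R' (by omega) (by omega)
    refine (measureReal_mono hx_sub_px).trans (h2.trans ?_)
    have hs0 : (1 : ℝ) ≤ s' := by exact_mod_cast hs
    have hR0 : (s' : ℝ) ≤ R' := by exact_mod_cast hsR
    have hq : (0 : ℝ) < (s' : ℝ) / R' := by
      have : (0 : ℝ) < R' := by linarith
      positivity
    have hq1 : (s' : ℝ) / R' ≤ 1 := by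
      rw [div_le_one (by linarith)]
      exact hR0
    push_cast
    refine mul_le_mul (le_max_left _ _) ?_ (by positivity) hCpos.le
    exact Real.rpow_le_rpow_of_exponent_ge hq hq1 (min_le_left _ _)
  obtain ⟨lam, hlam, hlam2⟩ : ∃ lam : ℕ, 4 ≤ lam ∧ C * (1 / (lam : ℝ)) ^ a ≤ 1 / 2 := by
    have ht : Filter.Tendsto (fun n : ℕ => C * (1 / (n : ℝ)) ^ a) Filter.atTop (nhds (C * 0)) := by
      refine Filter.Tendsto.const_mul C ?_
      have h1 : Filter.Tendsto (fun n : ℕ => 1 / (n : ℝ)) Filter.atTop (nhds 0) :=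
        tendsto_one_div_atTop_nhds_zero_nat
      have h2 := h1.rpow_const (p := a) (Or.inr ha'.le)
      rwa [Real.zero_rpow ha'.ne'] at h2
    rw [mul_zero] at ht
    have h3 := (ht.eventually (ge_mem_nhds (show (0 : ℝ) < 1 / 2 by norm_num))).and
      (Filter.eventually_ge_atTop 4)
    obtain ⟨n, h4, h5⟩ := h3.exists
    exact ⟨n, h5, h4⟩
  refine ⟨min c0 (1 / 2), lam, C, a, ?_⟩
  refine ⟨lt_min hc0 (by norm_num), by omega, ?_, ?_, le_max_right _ _, ha', min_le_right _ _,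
    harm⟩
  · intro k n hn
    obtain ⟨n', rfl⟩ : ∃ n' : ℕ, n = n' := ⟨n.toNat, by omega⟩
    refine (min_le_left _ _).trans ((h0 k n' (by omega)).trans ?_)
    exact measureReal_mono (hc_sub (by omega))
  · intro k n hn
    have h2 : n ≤ (lam : ℤ) * n := by
      have : (4 : ℤ) ≤ lam := by exact_mod_cast hlam
      nlinarith
    refine (harm k n _ hn h2).trans ?_
    have hn0 : (0 : ℝ) < n := by
      have : (0 : ℤ) < n := by omega
      exact_mod_cast this
    have h3 : (n : ℝ) / (((lam : ℤ) * n : ℤ) : ℝ) = 1 / lam := by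
      push_cast
      have : (0 : ℝ) < lam := by
        have : 0 < lam := by omega
        exact_mod_cast this
      field_simp
    rw [h3]
    have := min_le_right c0 (1 / 2)
    linarith

/-- **Three arms at the flat medial wall, `p = 1/2`.** -/
theorem three_half : ∃ C c : ℝ, 1 ≤ C ∧ 0 < c ∧ c ≤ 1 ∧ ∀ k s R : ℤ, 1 ≤ s → s ≤ R →
    (nu hf).real (TT k s R) ≤ C * ((s : ℝ) / R) ^ (1 + c) := by
  obtain ⟨c, l, C, a, h⟩ := mrsw_half
  have hl0 : (2 : ℝ) ≤ l := by exact_mod_cast h.two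
  refine ⟨max 1 (K3 c l C), a, le_max_left _ _, h.apos, h.ale, fun k s R hs hsR => ?_⟩
  refine (three_arm h k hs hsR).trans ?_
  refine mul_le_mul_of_nonneg_right (le_max_right _ _) ?_
  have hs0 : (1 : ℝ) ≤ s := by exact_mod_cast hs
  have hR0 : (s : ℝ) ≤ R := by exact_mod_cast hsR
  have hR1 : (0 : ℝ) < R := by linarith
  positivity

/-- **Two arms at the flat medial wall, `p = 1/2`.** -/
theorem two_half : ∃ C : ℝ, 1 ≤ C ∧ ∀ k s R : ℤ, 1 ≤ s → s ≤ R →
    (nu hf).real (TT k s R ∪ TW k s R) ≤ C * ((s : ℝ) / R) := by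
  obtain ⟨c, l, C, a, h⟩ := mrsw_half
  refine ⟨max 1 (4 * KM c l), le_max_left _ _, fun k s R hs hsR => ?_⟩
  refine (two_arm h k hs hsR).trans ?_
  refine mul_le_mul_of_nonneg_right (le_max_right _ _) ?_
  have hs0 : (1 : ℝ) ≤ s := by exact_mod_cast hs
  have hR0 : (s : ℝ) ≤ R := by exact_mod_cast hsR
  have hR1 : (0 : ℝ) < R := by linarith
  positivity

/-! ### symmetries of face paths -/

/-- symmetries of the tile plane: `V` on tiles, `F` on faces -/
structure FSy where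
  V : P2 ≃ P2
  F : P2 ≃ P2
  b : Bool
  dg : ∀ {A B : P2}, Dg (F A) (F B) ↔ Dg A B
  tb : ∀ {A B : P2}, Dg A B → tb (F A) (F B) = V (Mr679.tb A B)
  dgt : ∀ {A B : P2}, Dg A B → dgt (F A) (F B) = xor b (Cb771.dgt A B)

namespace FSy

/-- action on tile fields -/
def act (ρ : FSy) (g : TF) : TF := fun t => xor ρ.b (g (ρ.V t))

theorem fs_iff (ρ : FSy) {g : TF} {Q : P2 → Prop} {A B : P2} :
    FS g Q (ρ.F A) (ρ.F B) ↔ FS (ρ.act g) (fun t => Q (ρ.V t)) A B := by
  unfold FS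
  rw [ρ.dg]
  refine and_congr_right fun h => ?_
  rw [ρ.tb h, ρ.dgt h]
  refine and_congr_right fun _ => ?_
  unfold act
  cases ρ.b <;> cases g (ρ.V (Mr679.tb A B)) <;> cases Cb771.dgt A B <;> simp

theorem fp_of (ρ : FSy) {g : TF} {Q : P2 → Prop} {A B : P2}
    (h : FP (ρ.act g) (fun t => Q (ρ.V t)) A B) : FP g Q (ρ.F A) (ρ.F B) := by
  induction h with
  | refl => exact .refl
  | tail _ h2 ih => exact ih.tail (ρ.fs_iff.2 h2)

theorem measurable_act (ρ : FSy) : Measurable ρ.act := by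
  refine measurable_pi_lambda _ fun t => ?_
  exact (Measurable.of_discrete (f := fun b : Bool => xor ρ.b b)).comp (measurable_pi_apply _)

theorem prob (ρ : FSy) {A : Set TF} (hA : MeasurableSet A) :
    (tau hf).real {g | ρ.act g ∈ A} = (tau hf).real A := by
  rcases hb : ρ.b with _ | _
  · have h0 : ρ.act = fun g t => g (ρ.V t) := by
      funext g t
      simp [act, hb]
    rw [h0]
    exact tau_real_perm hf ρ.V hA
  · have h0 : ρ.act = fun g t => !g (ρ.V t) := by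
      funext g t
      simp [act, hb]
    rw [h0]
    have h1 : (tau hf).real {X : TF | (fun t => !X t) ∈ A} = (tau hf).real A := by
      have := Mr679.tau_real_not hf hA
      rwa [sigma_hf] at this
    rw [← h1]
    exact tau_real_perm hf ρ.V (Mr679.measurable_not hA)

end FSy

theorem dg_cases {A B : P2} (h : Dg A B) : (B.1 = A.1 + 1 ∨ A.1 = B.1 + 1) ∧
    (B.2 = A.2 + 1 ∨ A.2 = B.2 + 1) := h

/-- floor: translation by `c` -/
def fS (c : P2) : FSy where
  V := Equiv.addRight c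
  F := Equiv.addRight c
  b := false
  dg := by
    intro A B
    unfold Dg
    simp only [Equiv.coe_addRight, Prod.fst_add, Prod.snd_add]
    omega
  tb := by
    intro A B h
    have h' := dg_cases h
    simp only [Mr679.tb, Equiv.coe_addRight]
    ext <;> simp only [Prod.fst_add, Prod.snd_add] <;> omega
  dgt := by
    intro A B h
    simp only [Cb771.dgt, Equiv.coe_addRight, Prod.fst_add, Prod.snd_add, Bool.false_xor]
    exact decide_eq_decide.2 ⟨fun h => by omega, fun h => by omega⟩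

/-- ceiling -/
def fN (c : P2) : FSy where
  V := ⟨fun t => (c.1 + t.1, c.2 + 1 - t.2), fun t => (t.1 - c.1, c.2 + 1 - t.2),
    fun t => by ext <;> simp, fun t => by ext <;> simp⟩
  F := ⟨fun A => (c.1 + A.1, c.2 - A.2), fun A => (A.1 - c.1, c.2 - A.2),
    fun t => by ext <;> simp, fun t => by ext <;> simp⟩
  b := true
  dg := by
    intro A B
    unfold Dg
    simp only [Equiv.coe_fn_mk]
    omega
  tb := by
    intro A B h
    have h' := dg_cases h
    simp only [Mr679.tb, Equiv.coe_fn_mk]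
    ext <;> simp only <;> omega
  dgt := by
    intro A B h
    have h' := dg_cases h
    simp only [Cb771.dgt, Equiv.coe_fn_mk, Bool.true_xor]
    rw [← decide_not]
    exact decide_eq_decide.2 ⟨fun h => by omega, fun h => by omega⟩

/-- left wall -/
def fW (c : P2) : FSy where
  V := ⟨fun t => (c.1 + t.2, c.2 + t.1), fun t => (t.2 - c.2, t.1 - c.1),
    fun t => by ext <;> simp, fun t => by ext <;> simp⟩
  F := ⟨fun A => (c.1 + A.2, c.2 + A.1), fun A => (A.2 - c.2, A.1 - c.1),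
    fun t => by ext <;> simp, fun t => by ext <;> simp⟩
  b := false
  dg := by
    intro A B
    unfold Dg
    simp only [Equiv.coe_fn_mk]
    omega
  tb := by
    intro A B h
    have h' := dg_cases h
    simp only [Mr679.tb, Equiv.coe_fn_mk]
    ext <;> simp only <;> omega
  dgt := by
    intro A B h
    simp only [Cb771.dgt, Equiv.coe_fn_mk, Bool.false_xor]
    exact decide_eq_decide.2 ⟨fun h => by omega, fun h => by omega⟩

/-- right wall -/
def fE (c : P2) : FSy where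
  V := ⟨fun t => (c.1 + 1 - t.2, c.2 + 1 - t.1), fun t => (c.2 + 1 - t.2, c.1 + 1 - t.1),
    fun t => by ext <;> simp, fun t => by ext <;> simp⟩
  F := ⟨fun A => (c.1 - A.2, c.2 - A.1), fun A => (c.2 - A.2, c.1 - A.1),
    fun t => by ext <;> simp, fun t => by ext <;> simp⟩
  b := false
  dg := by
    intro A B
    unfold Dg
    simp only [Equiv.coe_fn_mk]
    omega
  tb := by
    intro A B h
    have h' := dg_cases h
    simp only [Mr679.tb, Equiv.coe_fn_mk]
    ext <;> simp only <;> omega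
  dgt := by
    intro A B h
    simp only [Cb771.dgt, Equiv.coe_fn_mk, Bool.false_xor]
    exact decide_eq_decide.2 ⟨fun h => by omega, fun h => by omega⟩

/-! ### two crossing clusters in face-path form -/

/-- distance of a face to the wall gap `(0,0)` -/
def hF (A : P2) : ℤ := max |A.1| A.2

theorem hF_le {A : P2} {m : ℤ} : hF A ≤ m ↔ -m ≤ A.1 ∧ A.1 ≤ m ∧ A.2 ≤ m := by
  unfold hF
  rw [max_le_iff, abs_le]
  omega

theorem lt_hF {A : P2} {m : ℤ} : m < hF A ↔ A.1 < -m ∨ m < A.1 ∨ m < A.2 := by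
  rw [← not_le, hF_le]
  omega

theorem le_hF {A : P2} {m : ℤ} : m ≤ hF A ↔ A.1 ≤ -m ∨ m ≤ A.1 ∨ m ≤ A.2 := by
  have : m ≤ hF A ↔ m - 1 < hF A := by omega
  rw [this, lt_hF]
  omega

theorem hF_dg {A B : P2} (h : Dg A B) : hF B ≤ hF A + 1 := by
  have h' := dg_cases h
  have h1 := hF_le.1 (le_refl (hF A))
  rw [hF_le]
  omega

theorem hF_fP (v : P2) : hF (fP v) = hd 0 v := by
  unfold hF hd fP
  simp

/-- last exit of `{hF ≤ s}` along a face path -/
theorem fp_exit {g : TF} {Q : P2 → Prop} {s : ℤ} {A B : P2} (h : FP g Q A B) (hA : hF A ≤ s)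
    (hB : s ≤ hF B) : ∃ x, hF x = s ∧ FP g Q A x ∧
      Relation.ReflTransGen (fun C D => FS g Q C D ∧ s ≤ hF C ∧ s ≤ hF D) x B := by
  induction h with
  | refl => exact ⟨A, le_antisymm hA hB, .refl, .refl⟩
  | @tail b c h1 h2 ih =>
    by_cases hb : s ≤ hF b
    · obtain ⟨x, h3, h4, h5⟩ := ih hb
      exact ⟨x, h3, h4, h5.tail ⟨h2, hb, hB⟩⟩
    · have h3 := hF_dg h2.1
      exact ⟨c, by omega, h1.tail h2, .refl⟩

/-- first hit of `{hF = R}` -/
theorem rt_hit {r : P2 → P2 → Prop} (hr : ∀ a b, r a b → hF b ≤ hF a + 1) {R : ℤ} {A B : P2}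
    (h : Relation.ReflTransGen r A B) (hA : hF A ≤ R) (hB : R ≤ hF B) :
    ∃ x, hF x = R ∧ Relation.ReflTransGen (fun C D => r C D ∧ hF C ≤ R ∧ hF D ≤ R) A x := by
  have key : (∃ x, hF x = R ∧ Relation.ReflTransGen (fun C D => r C D ∧ hF C ≤ R ∧ hF D ≤ R) A x) ∨
      (hF B < R ∧ Relation.ReflTransGen (fun C D => r C D ∧ hF C ≤ R ∧ hF D ≤ R) A B) := by
    clear hB
    induction h with
    | refl =>
      rcases hA.lt_or_eq with h | h
      · exact Or.inr ⟨h, .refl⟩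
      · exact Or.inl ⟨A, h, .refl⟩
    | @tail b c h1 h2 ih =>
      rcases ih with ih | ⟨ih1, ih2⟩
      · exact Or.inl ih
      · have h3 := hr b c h2
        have h4 := ih2.tail (c := c) ⟨h2, ih1.le, by omega⟩
        rcases (show hF c ≤ R by omega).lt_or_eq with h5 | h5
        · exact Or.inr ⟨h5, h4⟩
        · exact Or.inl ⟨c, h5, h4⟩
  rcases key with h1 | h1
  · exact h1
  · omega

/-- the half annulus of tiles -/
def Ring (s R : ℤ) (t : P2) : Prop := InB (-R) R 0 R t ∧ ¬ InB (-(s - 1)) (s - 1) 0 (s - 1) t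

/-- two distinct crossing clusters of even faces -/
def TE (Q : P2 → Prop) (s R : ℤ) : Set TF :=
  {g | ∃ A A' B B' : P2, hF A ≤ s ∧ hF A' ≤ s ∧ R ≤ hF B ∧ R ≤ hF B' ∧ (A.1 + A.2) % 2 = 0 ∧
    (A'.1 + A'.2) % 2 = 0 ∧ FP g Q A B ∧ FP g Q A' B' ∧ ¬ FP g Q A A'}

/-- from face paths of even parity to primal paths -/
theorem fp_to_oc {g : TF} {Q : P2 → Prop} {s R : ℤ} (hQ : ∀ t, Q t → 1 ≤ t.2) {u : P2} {B : P2}
    (h : Relation.ReflTransGen (fun C D => (FS g Q C D ∧ s ≤ hF C ∧ s ≤ hF D) ∧ hF C ≤ R ∧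
      hF D ≤ R) (fP u) B) (hu : u ∈ HM 0 s R) :
    ∃ v, fP v = B ∧ OC (zX (xg g)) (HM 0 s R) u v := by
  induction h with
  | refl => exact ⟨u, rfl, OC.refl hu⟩
  | @tail b c _ h2 ih =>
    obtain ⟨w, rfl, hw⟩ := ih
    obtain ⟨⟨h3, h4, h5⟩, h6, h7⟩ := h2
    have hpar : ((fP w).1 + (fP w).2) % 2 = 0 := by simp only [fP, mX, mY]; omega
    obtain ⟨w', rfl⟩ := exists_fP (F := c) (by rw [← h3.1.par]; exact hpar)
    have h8 := (fs_even hpar).1 h3
    have h9 := ts_fP_iff.1 h8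
    have hy := hQ _ h3.2.1
    have hd' := dg_cases h3.1
    refine ⟨w', rfl, hw.trans ⟨hw.right, Relation.ReflTransGen.single ⟨?_, hw.right, ?_⟩⟩⟩
    · exact pstep_mono (fun e he => he.2) h9
    · rw [Finset.mem_coe, mem_HM, ← hF_fP]
      refine ⟨?_, h5, h7⟩
      simp only [Mr679.tb, fP] at hy hd'
      omega

/-- from primal paths to face paths -/
theorem oc_to_fp {g : TF} {Q : P2 → Prop} {s R : ℤ} (hQ : ∀ t, Ring s R t → Q t) {u v : P2}
    (h : OC (zX (xg g)) (HM 0 s R) u v) : FP g Q (fP u) (fP v) := by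
  obtain ⟨_, h⟩ := h
  induction h with
  | refl => exact .refl
  | @tail a b _ h2 ih =>
    refine ih.tail ?_
    obtain ⟨⟨e, he, h3⟩, ha, hb⟩ := h2
    have hpar : ((fP a).1 + (fP a).2) % 2 = 0 := by simp only [fP, mX, mY]; omega
    rw [fs_even hpar]
    have h4 : TS (fun t => xg g t = true) (fP a) (fP b) := ts_fP_iff.2 ⟨e, he, h3⟩
    refine ⟨h4.1, hQ _ ?_, h4.2⟩
    have ha' := mem_HM.1 ha
    have hb' := mem_HM.1 hb
    have h5 := hd_le.1 ha'.2.2
    have h6 := hd_le.1 hb'.2.2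
    have h7 := (le_hd' (k := 0)).1 ha'.2.1
    have hd' := dg_cases h4.1
    simp only [fP] at hd'
    refine ⟨?_, ?_⟩
    · simp only [InB, Mr679.tb, fP]
      omega
    · simp only [InB, Mr679.tb, fP]
      omega

theorem TE_sub {Q : P2 → Prop} {s R : ℤ} (_ : s ≤ R) (h1 : ∀ t, Q t → 1 ≤ t.2)
    (h2 : ∀ t, Ring s R t → Q t) (hs : s < R) :
    TE Q s R ⊆ {g | xg g ∈ zX ⁻¹' TT 0 s R} := by
  rintro g ⟨A, A', B, B', hA, hA', hB, hB', hpA, hpA', hAB, hAB', hn⟩
  have key : ∀ A B : P2, hF A ≤ s → R ≤ hF B → (A.1 + A.2) % 2 = 0 → FP g Q A B →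
      ∃ x v : P2, hd 0 x = s ∧ hd 0 v = R ∧ FP g Q A (fP x) ∧ OC (zX (xg g)) (HM 0 s R) x v := by
    intro A B hA hB hp hAB
    obtain ⟨x, hx, h3, h4⟩ := fp_exit hAB hA (by omega)
    obtain ⟨v, hv, h5⟩ := rt_hit (fun a b h => hF_dg h.1.1) h4 (by omega) hB
    have hpx : (x.1 + x.2) % 2 = 0 := by
      have : (A.1 + A.2) % 2 = (x.1 + x.2) % 2 := by
        clear h4 h5 hx
        induction h3 with
        | refl => rfl
        | tail _ h7 ih => rw [ih]; exact h7.1.par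
      omega
    obtain ⟨x', rfl⟩ := exists_fP hpx
    have hx0 : x' ∈ HM 0 s R := by
      rw [mem_HM, ← hF_fP]
      refine ⟨?_, hx.ge, by omega⟩
      -- the path makes at least one step
      rcases Relation.ReflTransGen.cases_head h5 with h6 | ⟨c, h6, _⟩
      · rw [← h6] at hv
        omega
      · have hy := h1 _ h6.1.1.2.1
        have hd' := dg_cases h6.1.1.1
        simp only [Mr679.tb, fP] at hy hd'
        omega
    obtain ⟨v', rfl, h7⟩ := fp_to_oc h1 h5 hx0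
    rw [hF_fP] at hx hv
    exact ⟨x', v', hx, hv, h3, h7⟩
  obtain ⟨x, v, hx, hv, h3, h4⟩ := key A B hA hB hpA hAB
  obtain ⟨x', v', hx', hv', h3', h4'⟩ := key A' B' hA' hB' hpA' hAB'
  refine ⟨x, hx, v, hv, x', hx', v', hv', h4, h4', fun h5 => hn ?_⟩
  exact (h3.trans (oc_to_fp h2 h5)).trans h3'.symm

theorem te_le {C c : ℝ} (h : ∀ k s R : ℤ, 1 ≤ s → s ≤ R →
    (nu hf).real (TT k s R) ≤ C * ((s : ℝ) / R) ^ (1 + c)) {Q : P2 → Prop} {s R : ℤ}
    (hs : 1 ≤ s) (hsR : s < R) (h1 : ∀ t, Q t → 1 ≤ t.2) (h2 : ∀ t, Ring s R t → Q t) :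
    (tau hf).real (TE Q s R) ≤ C * ((s : ℝ) / R) ^ (1 + c) := by
  refine (measureReal_mono (TE_sub hsR.le h1 h2 hsR)).trans ?_
  rw [tau_real_xg (measurable_zX (TT_dep 0 s R).measurableSet),
    tau_zX hf (TT_dep 0 s R).measurableSet]
  exact h 0 s R hs hsR.le

/-- two distinct crossing clusters of faces of the same parity, seen through `ρ` -/
def TFP (ρ : FSy) (Q : P2 → Prop) (s R : ℤ) : Set TF :=
  {g | ∃ A A' B B' : P2, hF A ≤ s ∧ hF A' ≤ s ∧ R ≤ hF B ∧ R ≤ hF B' ∧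
    (A.1 + A.2) % 2 = (A'.1 + A'.2) % 2 ∧ FP g Q (ρ.F A) (ρ.F B) ∧ FP g Q (ρ.F A') (ρ.F B') ∧
    ¬ FP g Q (ρ.F A) (ρ.F A')}

theorem fp_back (ρ : FSy) {g : TF} {Q : P2 → Prop} {A B : P2} (h : FP g Q (ρ.F A) (ρ.F B)) :
    FP (ρ.act g) (fun t => Q (ρ.V t)) A B := by
  have key : ∀ D, FP g Q (ρ.F A) D → FP (ρ.act g) (fun t => Q (ρ.V t)) A (ρ.F.symm D) := by
    intro D hD
    induction hD with
    | refl =>
      rw [Equiv.symm_apply_apply]
      exact .refl
    | @tail b c _ h2 ih =>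
      refine ih.tail (ρ.fs_iff.1 ?_)
      rw [Equiv.apply_symm_apply, Equiv.apply_symm_apply]
      exact h2
  have h1 := key _ h
  rwa [Equiv.symm_apply_apply] at h1

theorem fp_iff (ρ : FSy) {g : TF} {Q : P2 → Prop} {A B : P2} :
    FP g Q (ρ.F A) (ρ.F B) ↔ FP (ρ.act g) (fun t => Q (ρ.V t)) A B :=
  ⟨fp_back ρ, ρ.fp_of⟩

theorem fp_par {g : TF} {Q : P2 → Prop} {A B : P2} (h : FP g Q A B) :
    (A.1 + A.2) % 2 = (B.1 + B.2) % 2 := by
  induction h with
  | refl => rfl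
  | tail _ h7 ih => rw [ih]; exact h7.1.par

theorem meas_TE (Q : P2 → Prop) (s R : ℤ) : MeasurableSet (TE Q s R) := by
  have h : TE Q s R = ⋃ (A : P2) (A' : P2) (B : P2) (B' : P2),
      ({_g | hF A ≤ s ∧ hF A' ≤ s ∧ R ≤ hF B ∧ R ≤ hF B' ∧ (A.1 + A.2) % 2 = 0 ∧
        (A'.1 + A'.2) % 2 = 0} ∩ ({g | FP g Q A B} ∩ ({g | FP g Q A' B'} ∩
        {g | FP g Q A A'}ᶜ))) := by
    ext g
    simp only [TE, Set.mem_ofPred_eq, Set.mem_iUnion, Set.mem_inter_iff, Set.mem_compl_iff,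
      and_assoc]
  rw [h]
  refine MeasurableSet.iUnion fun A => MeasurableSet.iUnion fun A' => MeasurableSet.iUnion fun B =>
    MeasurableSet.iUnion fun B' => (MeasurableSet.const _).inter ?_
  exact (Cb771.meas_fp Q A B).inter ((Cb771.meas_fp Q A' B').inter (Cb771.meas_fp Q A A').compl)

/-- splitting by parity -/
theorem tfp_sub (ρ : FSy) (Q : P2 → Prop) (s R : ℤ) : TFP ρ Q s R ⊆
    {g | ρ.act g ∈ TE (fun t => Q (ρ.V t)) s R} ∪
    {g | (fS (1, 0)).act (ρ.act g) ∈ TE (fun t => Q (ρ.V ((fS (1, 0)).V t))) (s + 1) (R - 1)} := by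
  rintro g ⟨A, A', B, B', hA, hA', hB, hB', hp, h1, h2, h3⟩
  rw [fp_iff] at h1 h2 h3
  by_cases hpar : (A.1 + A.2) % 2 = 0
  · left
    exact ⟨A, A', B, B', hA, hA', hB, hB', hpar, by omega, h1, h2, h3⟩
  · right
    have e : ∀ D : P2, (fS (1, 0)).F (D - (1, 0)) = D := fun D => by
      show D - (1, 0) + (1, 0) = D
      simp
    have key : ∀ D D' : P2, FP (ρ.act g) (fun t => Q (ρ.V t)) D D' ↔
        FP ((fS (1, 0)).act (ρ.act g)) (fun t => Q (ρ.V ((fS (1, 0)).V t))) (D - (1, 0))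
          (D' - (1, 0)) := by
      intro D D'
      rw [← fp_iff (fS (1, 0)) (g := ρ.act g) (Q := fun t => Q (ρ.V t)), e, e]
    rw [key] at h1 h2 h3
    rw [hF_le] at hA hA'
    rw [le_hF] at hB hB'
    refine ⟨A - (1, 0), A' - (1, 0), B - (1, 0), B' - (1, 0), ?_, ?_, ?_, ?_, ?_, ?_, h1, h2, h3⟩
    · rw [hF_le]
      simp only [Prod.fst_sub, Prod.snd_sub]
      omega
    · rw [hF_le]
      simp only [Prod.fst_sub, Prod.snd_sub]
      omega
    · rw [le_hF]
      simp only [Prod.fst_sub, Prod.snd_sub]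
      omega
    · rw [le_hF]
      simp only [Prod.fst_sub, Prod.snd_sub]
      omega
    · simp only [Prod.fst_sub, Prod.snd_sub]
      omega
    · simp only [Prod.fst_sub, Prod.snd_sub]
      omega

/-- **(F3) in face-path form**, any wall: `Q` behind the wall, contains the half annulus. -/
theorem f3 : ∃ C c : ℝ, 1 ≤ C ∧ 0 < c ∧ c ≤ 1 ∧ ∀ (ρ : FSy) (Q : P2 → Prop) (s R : ℤ), 1 ≤ s →
    s ≤ R → (∀ t, Q (ρ.V t) → 1 ≤ t.2) → (∀ t, Ring s R t → Q (ρ.V t)) →
    (tau hf).real (TFP ρ Q s R) ≤ C * ((s : ℝ) / R) ^ (1 + c) := by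
  obtain ⟨C, c, hC, hc, hc1, h⟩ := three_half
  refine ⟨81 * C, c, by linarith, hc, hc1, fun ρ Q s R hs hsR h1 h2 => ?_⟩
  have hs0 : (1 : ℝ) ≤ s := by exact_mod_cast hs
  have hR0 : (s : ℝ) ≤ R := by exact_mod_cast hsR
  have hsp : (0 : ℝ) < s := by linarith
  have hRp : (0 : ℝ) < R := by linarith
  have hq : (0 : ℝ) < (s : ℝ) / R := by positivity
  by_cases h3 : s + 3 ≤ R
  · have e1 := te_le h (Q := fun t => Q (ρ.V t)) hs (by omega : s < R) h1 h2
    have e2 := te_le h (Q := fun t => Q (ρ.V ((fS (1, 0)).V t))) (by omega : 1 ≤ s + 1)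
      (by omega : s + 1 < R - 1) (fun t ht => by
        have := h1 _ ht
        change 1 ≤ (t + (1, 0)).2 at this
        simpa using this) (fun t ht => h2 _ (by
        obtain ⟨h4, h5⟩ := ht
        change Ring s R (t + (1, 0))
        simp only [InB] at h4 h5
        refine ⟨?_, ?_⟩
        · simp only [InB, Prod.fst_add, Prod.snd_add]
          omega
        · simp only [InB, Prod.fst_add, Prod.snd_add]
          omega))
    have e3 : (tau hf).real {g | ρ.act g ∈ TE (fun t => Q (ρ.V t)) s R} ≤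
        C * ((s : ℝ) / R) ^ (1 + c) := by
      rw [ρ.prob (meas_TE _ _ _)]
      exact e1
    have e4 : (tau hf).real {g | (fS (1, 0)).act (ρ.act g) ∈
        TE (fun t => Q (ρ.V ((fS (1, 0)).V t))) (s + 1) (R - 1)} ≤
        C * (((s + 1 : ℤ) : ℝ) / ((R - 1 : ℤ) : ℝ)) ^ (1 + c) := by
      have e5 : (tau hf).real {g | (fS (1, 0)).act (ρ.act g) ∈
          TE (fun t => Q (ρ.V ((fS (1, 0)).V t))) (s + 1) (R - 1)} =
          (tau hf).real {g | (fS (1, 0)).act g ∈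
            TE (fun t => Q (ρ.V ((fS (1, 0)).V t))) (s + 1) (R - 1)} :=
        ρ.prob ((fS (1, 0)).measurable_act (meas_TE _ _ _))
      rw [e5, (fS (1, 0)).prob (meas_TE _ _ _)]
      exact e2
    have e5 : ((s + 1 : ℤ) : ℝ) / ((R - 1 : ℤ) : ℝ) ≤ 4 * ((s : ℝ) / R) := by
      have h6 : (4 : ℝ) ≤ R := by
        have : (4 : ℤ) ≤ R := by omega
        exact_mod_cast this
      push_cast
      rw [← mul_div_assoc, div_le_div_iff₀ (by linarith) hRp]
      nlinarith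
    have e6 : (((s + 1 : ℤ) : ℝ) / ((R - 1 : ℤ) : ℝ)) ^ (1 + c) ≤ 16 * ((s : ℝ) / R) ^ (1 + c) := by
      have h7 : (0 : ℝ) ≤ ((s + 1 : ℤ) : ℝ) / ((R - 1 : ℤ) : ℝ) := by
        push_cast
        have : (1 : ℝ) ≤ R := by linarith
        exact div_nonneg (by linarith) (by linarith)
      calc (((s + 1 : ℤ) : ℝ) / ((R - 1 : ℤ) : ℝ)) ^ (1 + c) ≤ (4 * ((s : ℝ) / R)) ^ (1 + c) :=
            Real.rpow_le_rpow h7 e5 (by linarith)
        _ = 4 ^ (1 + c) * ((s : ℝ) / R) ^ (1 + c) := Real.mul_rpow (by norm_num) hq.le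
        _ ≤ 16 * ((s : ℝ) / R) ^ (1 + c) := by
            refine mul_le_mul_of_nonneg_right ?_ (by positivity)
            calc (4 : ℝ) ^ (1 + c) ≤ 4 ^ (2 : ℝ) :=
                  Real.rpow_le_rpow_of_exponent_le (by norm_num) (by linarith)
              _ = 16 := by rw [Real.rpow_two]; norm_num
    have e7 := (measureReal_mono (tfp_sub ρ Q s R)).trans (measureReal_union_le (μ := tau hf) _ _)
    have e8 : (0 : ℝ) ≤ ((s : ℝ) / R) ^ (1 + c) := by positivity
    have e9 : C * (((s + 1 : ℤ) : ℝ) / ((R - 1 : ℤ) : ℝ)) ^ (1 + c) ≤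
        C * (16 * ((s : ℝ) / R) ^ (1 + c)) := mul_le_mul_of_nonneg_left e6 (by linarith)
    nlinarith [mul_nonneg (by linarith : (0 : ℝ) ≤ C) e8]
  · refine measureReal_le_one.trans ?_
    have h4 : (R : ℝ) ≤ 3 * s := by exact_mod_cast (show R ≤ 3 * s by omega)
    have h6 : (1 : ℝ) / 3 ≤ (s : ℝ) / R := by
      rw [div_le_div_iff₀ (by norm_num) hRp]
      linarith
    have h7 : (s : ℝ) / R ≤ 1 := by
      rw [div_le_one hRp]
      exact hR0
    have h8 : ((1 : ℝ) / 3) ^ (2 : ℝ) ≤ ((s : ℝ) / R) ^ (1 + c) := by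
      calc ((1 : ℝ) / 3) ^ (2 : ℝ) ≤ ((s : ℝ) / R) ^ (2 : ℝ) :=
            Real.rpow_le_rpow (by norm_num) h6 (by norm_num)
        _ ≤ ((s : ℝ) / R) ^ (1 + c) :=
            Real.rpow_le_rpow_of_exponent_ge hq h7 (by linarith)
    have h9 : ((1 : ℝ) / 3) ^ (2 : ℝ) = 1 / 9 := by
      rw [Real.rpow_two]
      norm_num
    rw [h9] at h8
    nlinarith

end Crest.Agent.R158.Fw814
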