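import Crest.Agent.R158.Fw4_814

/-!
# Row 158, Block FW (helper814): (F3) in literal form for the four wall directions

Wall gap face `(X, Y)`; `dS`, `dN`, `dW`, `dE` : distance of a face to the gap, wall below / above /
left / right; `sS`, `sN`, `sW`, `sE` : tiles of the half annulus `(r, n)`.
`f3S`, `f3N`, `f3W`, `f3E` : `P(two distinct crossing clusters of the same parity) ≤ C (s/R)^(1+c)`
for every tile set behind the wall which contains the half annulus `(s-1, R)`;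
`f3S'`, … : the tile set is the half annulus `(r, n)`, end points with slack `k`.
-/

set_option autoImplicit false

noncomputable section

namespace Crest.Agent.R158.Fw814

open MeasureTheory ProbabilityTheory unitInterval
open Crest.Agent.R161.Geo729 Crest.Agent.R161.Topo374 Crest.Agent.R161.Dual374
open Crest.Agent.R158.Rs689
open Crest.Agent.R158.Mr679 (TF Dg tb TS TP InB tau)
open Crest.Agent.R158.Cb771 (FS FP)

/-- distance to the gap, floor -/
def dS (X Y : ℤ) (a : P2) : ℤ := max |a.1 - X| (a.2 - Y)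
/-- distance to the gap, ceiling -/
def dN (X Y : ℤ) (a : P2) : ℤ := max |a.1 - X| (Y - a.2)
/-- distance to the gap, left wall -/
def dW (X Y : ℤ) (a : P2) : ℤ := max |a.2 - Y| (a.1 - X)
/-- distance to the gap, right wall -/
def dE (X Y : ℤ) (a : P2) : ℤ := max |Y - a.2| (X - a.1)

/-- half annulus, floor: tiles of the rows `> Y` -/
def sS (X Y r n : ℤ) (t : P2) : Prop :=
  (X - n < t.1 ∧ t.1 ≤ X + n ∧ Y < t.2 ∧ t.2 ≤ Y + n) ∧
    ¬ (X - r < t.1 ∧ t.1 ≤ X + r ∧ Y < t.2 ∧ t.2 ≤ Y + r)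

/-- half annulus, ceiling: tiles of the rows `≤ Y` -/
def sN (X Y r n : ℤ) (t : P2) : Prop :=
  (X - n < t.1 ∧ t.1 ≤ X + n ∧ Y - n < t.2 ∧ t.2 ≤ Y) ∧
    ¬ (X - r < t.1 ∧ t.1 ≤ X + r ∧ Y - r < t.2 ∧ t.2 ≤ Y)

/-- half annulus, left wall: tiles of the columns `> X` -/
def sW (X Y r n : ℤ) (t : P2) : Prop :=
  (X < t.1 ∧ t.1 ≤ X + n ∧ Y - n < t.2 ∧ t.2 ≤ Y + n) ∧
    ¬ (X < t.1 ∧ t.1 ≤ X + r ∧ Y - r < t.2 ∧ t.2 ≤ Y + r)

/-- half annulus, right wall: tiles of the columns `≤ X` -/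
def sE (X Y r n : ℤ) (t : P2) : Prop :=
  (X - n < t.1 ∧ t.1 ≤ X ∧ Y - n < t.2 ∧ t.2 ≤ Y + n) ∧
    ¬ (X - r < t.1 ∧ t.1 ≤ X ∧ Y - r < t.2 ∧ t.2 ≤ Y + r)

/-- two distinct clusters of faces of the same parity of the tile set `Q` from `{d ≤ s}` to
`{R ≤ d}` -/
def T3 (d : P2 → ℤ) (Q : P2 → Prop) (s R : ℤ) : Set TF :=
  {g | ∃ a a' b b' : P2, d a ≤ s ∧ d a' ≤ s ∧ R ≤ d b ∧ R ≤ d b' ∧
    (a.1 + a.2) % 2 = (a'.1 + a'.2) % 2 ∧ FP g Q a b ∧ FP g Q a' b' ∧ ¬ FP g Q a a'}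

theorem T3_sub {ρ : FSy} {d : P2 → ℤ} (hd : ∀ a, d a = hF (ρ.F.symm a))
    (hp : ∀ a b : P2, (a.1 + a.2) % 2 = (b.1 + b.2) % 2 →
      ((ρ.F.symm a).1 + (ρ.F.symm a).2) % 2 = ((ρ.F.symm b).1 + (ρ.F.symm b).2) % 2)
    {Q : P2 → Prop} {s R : ℤ} : T3 d Q s R ⊆ TFP ρ Q s R := by
  rintro g ⟨a, a', b, b', h1, h2, h3, h4, h5, h6, h7, h8⟩
  rw [hd] at h1 h2 h3 h4
  refine ⟨ρ.F.symm a, ρ.F.symm a', ρ.F.symm b, ρ.F.symm b', h1, h2, h3, h4, hp _ _ h5, ?_⟩
  simp only [Equiv.apply_symm_apply]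
  exact ⟨h6, h7, h8⟩

/-- **(F3)**, all four wall directions. -/
theorem f3_all : ∃ C c : ℝ, 1 ≤ C ∧ 0 < c ∧ c ≤ 1 ∧ ∀ (X Y : ℤ) (Q : P2 → Prop) (s R : ℤ), 1 ≤ s →
    s ≤ R →
    ((∀ t, Q t → Y < t.2) → (∀ t, sS X Y (s - 1) R t → Q t) →
      (tau hf).real (T3 (dS X Y) Q s R) ≤ C * ((s : ℝ) / R) ^ (1 + c)) ∧
    ((∀ t, Q t → t.2 ≤ Y) → (∀ t, sN X Y (s - 1) R t → Q t) →
      (tau hf).real (T3 (dN X Y) Q s R) ≤ C * ((s : ℝ) / R) ^ (1 + c)) ∧
    ((∀ t, Q t → X < t.1) → (∀ t, sW X Y (s - 1) R t → Q t) →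
      (tau hf).real (T3 (dW X Y) Q s R) ≤ C * ((s : ℝ) / R) ^ (1 + c)) ∧
    ((∀ t, Q t → t.1 ≤ X) → (∀ t, sE X Y (s - 1) R t → Q t) →
      (tau hf).real (T3 (dE X Y) Q s R) ≤ C * ((s : ℝ) / R) ^ (1 + c)) := by
  obtain ⟨C, c, hC, hc, hc1, h⟩ := f3
  refine ⟨C, c, hC, hc, hc1, fun X Y Q s R hs hsR => ⟨fun h1 h2 => ?_, fun h1 h2 => ?_,
    fun h1 h2 => ?_, fun h1 h2 => ?_⟩⟩
  · refine (measureReal_mono (T3_sub (ρ := fS (X, Y)) ?_ ?_)).trans
      (h (fS (X, Y)) Q s R hs hsR (fun t ht => ?_) fun t ht => h2 _ ?_)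
    · intro a
      simp only [dS, hF, fS, Equiv.addRight_symm, Equiv.coe_addRight, Prod.fst_add, Prod.snd_add,
        Prod.neg_mk, sub_eq_add_neg]
    · intro a b hab
      simp only [fS, Equiv.addRight_symm, Equiv.coe_addRight, Prod.fst_add, Prod.snd_add,
        Prod.neg_mk]
      omega
    · have := h1 _ ht
      simp only [fS, Equiv.coe_addRight, Prod.snd_add] at this
      omega
    · simp only [Ring, InB] at ht
      simp only [sS, fS, Equiv.coe_addRight, Prod.fst_add, Prod.snd_add]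
      omega
  · refine (measureReal_mono (T3_sub (ρ := fN (X, Y)) ?_ ?_)).trans
      (h (fN (X, Y)) Q s R hs hsR (fun t ht => ?_) fun t ht => h2 _ ?_)
    · intro a
      simp only [dN, hF, fN, Equiv.coe_fn_symm_mk]
    · intro a b hab
      simp only [fN, Equiv.coe_fn_symm_mk]
      omega
    · have := h1 _ ht
      simp only [fN, Equiv.coe_fn_mk] at this
      omega
    · simp only [Ring, InB] at ht
      simp only [sN, fN, Equiv.coe_fn_mk]
      omega
  · refine (measureReal_mono (T3_sub (ρ := fW (X, Y)) ?_ ?_)).trans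
      (h (fW (X, Y)) Q s R hs hsR (fun t ht => ?_) fun t ht => h2 _ ?_)
    · intro a
      simp only [dW, hF, fW, Equiv.coe_fn_symm_mk]
    · intro a b hab
      simp only [fW, Equiv.coe_fn_symm_mk]
      omega
    · have := h1 _ ht
      simp only [fW, Equiv.coe_fn_mk] at this
      omega
    · simp only [Ring, InB] at ht
      simp only [sW, fW, Equiv.coe_fn_mk]
      omega
  · refine (measureReal_mono (T3_sub (ρ := fE (X, Y)) ?_ ?_)).trans
      (h (fE (X, Y)) Q s R hs hsR (fun t ht => ?_) fun t ht => h2 _ ?_)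
    · intro a
      simp only [dE, hF, fE, Equiv.coe_fn_symm_mk]
    · intro a b hab
      simp only [fE, Equiv.coe_fn_symm_mk]
      omega
    · have := h1 _ ht
      simp only [fE, Equiv.coe_fn_mk] at this
      omega
    · simp only [Ring, InB] at ht
      simp only [sE, fE, Equiv.coe_fn_mk]
      omega

/-- changing the radii by a constant -/
theorem slack {C c : ℝ} (hC : 1 ≤ C) (hc : 0 < c) (hc1 : c ≤ 1) {k r n : ℤ} (hk : 0 ≤ k)
    (hr : 1 ≤ r) (hrn : r ≤ n) {P : ℝ} (hP : P ≤ 1)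
    (h : r + k ≤ n - k → P ≤ C * (((r + k : ℤ) : ℝ) / ((n - k : ℤ) : ℝ)) ^ (1 + c)) :
    P ≤ C * (2 * k + 2) ^ 4 * ((r : ℝ) / n) ^ (1 + c) := by
  have hr0 : (1 : ℝ) ≤ r := by exact_mod_cast hr
  have hn0 : (r : ℝ) ≤ n := by exact_mod_cast hrn
  have hk0 : (0 : ℝ) ≤ k := by exact_mod_cast hk
  have hnp : (0 : ℝ) < n := by linarith
  have hq : (0 : ℝ) < (r : ℝ) / n := by positivity
  have hq1 : (r : ℝ) / n ≤ 1 := by
    rw [div_le_one hnp]
    exact hn0
  set t := ((r : ℝ) / n) ^ (1 + c) with ht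
  have ht0 : 0 < t := by positivity
  have hM : (1 : ℝ) ≤ 2 * k + 2 := by linarith
  by_cases h1 : 2 * (r + 2 * k) ≤ 2 * n
  · have h2 := h (by omega)
    by_cases h3 : 2 * k + 2 ≤ n
    · -- `(r+k)/(n-k) ≤ (2k+2)² r/n`
      have h4 : ((r + k : ℤ) : ℝ) / ((n - k : ℤ) : ℝ) ≤ (2 * k + 2) ^ 2 * ((r : ℝ) / n) := by
        have h5 : (2 : ℝ) * k + 2 ≤ n := by exact_mod_cast h3
        have h6 : (0 : ℝ) < (n : ℝ) - k := by linarith
        push_cast
        rw [← mul_div_assoc, div_le_div_iff₀ h6 hnp]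
        have h7 : (r : ℝ) + k ≤ (k + 1) * r := by nlinarith
        have h8 : (n : ℝ) ≤ 2 * (n - k) := by linarith
        calc ((r : ℝ) + k) * n ≤ ((k + 1) * r) * (2 * (n - k)) := by
              refine mul_le_mul h7 h8 hnp.le (by positivity)
          _ = (2 * k + 2) * r * (n - k) := by ring
          _ ≤ (2 * k + 2) ^ 2 * r * (n - k) := by
              refine mul_le_mul_of_nonneg_right ?_ h6.le
              refine mul_le_mul_of_nonneg_right ?_ (by linarith)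
              nlinarith
      have h5 : (0 : ℝ) ≤ ((r + k : ℤ) : ℝ) / ((n - k : ℤ) : ℝ) := by
        have h6 : (0 : ℤ) ≤ r + k := by omega
        have h7 : (0 : ℤ) ≤ n - k := by omega
        exact div_nonneg (by exact_mod_cast h6) (by exact_mod_cast h7)
      have h6 : (((r + k : ℤ) : ℝ) / ((n - k : ℤ) : ℝ)) ^ (1 + c) ≤ (2 * k + 2) ^ 4 * t := by
        calc (((r + k : ℤ) : ℝ) / ((n - k : ℤ) : ℝ)) ^ (1 + c)
            ≤ ((2 * k + 2) ^ 2 * ((r : ℝ) / n)) ^ (1 + c) := Real.rpow_le_rpow h5 h4 (by linarith)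
          _ = (((2 : ℝ) * k + 2) ^ 2) ^ (1 + c) * t := by
              rw [Real.mul_rpow (by positivity) hq.le]
          _ ≤ (2 * k + 2) ^ 4 * t := by
              refine mul_le_mul_of_nonneg_right ?_ ht0.le
              calc (((2 : ℝ) * k + 2) ^ 2) ^ (1 + c) ≤ (((2 : ℝ) * k + 2) ^ 2) ^ (2 : ℝ) :=
                    Real.rpow_le_rpow_of_exponent_le (by nlinarith) (by linarith)
                _ = (2 * k + 2) ^ 4 := by
                    rw [Real.rpow_two]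
                    ring
      calc P ≤ C * (((r + k : ℤ) : ℝ) / ((n - k : ℤ) : ℝ)) ^ (1 + c) := h2
        _ ≤ C * ((2 * k + 2) ^ 4 * t) := mul_le_mul_of_nonneg_left h6 (by linarith)
        _ = _ := by ring
    · -- `n < 2k+2`
      have h5 : (n : ℝ) ≤ 2 * k + 2 := by exact_mod_cast (show n ≤ 2 * k + 2 by omega)
      have h6 : 1 / (2 * (k : ℝ) + 2) ≤ (r : ℝ) / n := by
        rw [div_le_div_iff₀ (by linarith) hnp]
        nlinarith
      have h7 : (1 / (2 * (k : ℝ) + 2)) ^ 2 ≤ t := by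
        calc (1 / (2 * (k : ℝ) + 2)) ^ 2 ≤ ((r : ℝ) / n) ^ 2 :=
              pow_le_pow_left₀ (by positivity) h6 2
          _ = ((r : ℝ) / n) ^ (2 : ℝ) := (Real.rpow_two _).symm
          _ ≤ t := Real.rpow_le_rpow_of_exponent_ge hq hq1 (by linarith)
      have h8 : (1 : ℝ) = (2 * k + 2) ^ 2 * (1 / (2 * (k : ℝ) + 2)) ^ 2 := by
        field_simp
      calc P ≤ 1 := hP
        _ = (2 * k + 2) ^ 2 * (1 / (2 * (k : ℝ) + 2)) ^ 2 := h8
        _ ≤ (C * (2 * k + 2) ^ 4) * t := by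
            refine mul_le_mul ?_ h7 (by positivity) (by positivity)
            have h9 : ((2 : ℝ) * k + 2) ^ 2 ≤ (2 * k + 2) ^ 4 :=
              pow_le_pow_right₀ hM (by norm_num)
            have h10 : (0 : ℝ) ≤ (2 * k + 2) ^ 4 := by positivity
            nlinarith
  · have h5 : (n : ℝ) ≤ r + 2 * k := by exact_mod_cast (show n ≤ r + 2 * k by omega)
    have h6 : 1 / (2 * (k : ℝ) + 2) ≤ (r : ℝ) / n := by
      rw [div_le_div_iff₀ (by linarith) hnp]
      nlinarith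
    have h7 : (1 / (2 * (k : ℝ) + 2)) ^ 2 ≤ t := by
      calc (1 / (2 * (k : ℝ) + 2)) ^ 2 ≤ ((r : ℝ) / n) ^ 2 :=
            pow_le_pow_left₀ (by positivity) h6 2
        _ = ((r : ℝ) / n) ^ (2 : ℝ) := (Real.rpow_two _).symm
        _ ≤ t := Real.rpow_le_rpow_of_exponent_ge hq hq1 (by linarith)
    have h8 : (1 : ℝ) = (2 * k + 2) ^ 2 * (1 / (2 * (k : ℝ) + 2)) ^ 2 := by
      field_simp
    calc P ≤ 1 := hP
      _ = (2 * k + 2) ^ 2 * (1 / (2 * (k : ℝ) + 2)) ^ 2 := h8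
      _ ≤ (C * (2 * k + 2) ^ 4) * t := by
          refine mul_le_mul ?_ h7 (by positivity) (by positivity)
          have h9 : ((2 : ℝ) * k + 2) ^ 2 ≤ (2 * k + 2) ^ 4 :=
            pow_le_pow_right₀ hM (by norm_num)
          have h10 : (0 : ℝ) ≤ (2 * k + 2) ^ 4 := by positivity
          nlinarith

/-- **(F3) with slack**: the tile set is the half annulus `(r, n)` at a flat wall, end points within
`k` of the inner / outer radius. -/
theorem f3_slack : ∃ c : ℝ, 0 < c ∧ c ≤ 1 ∧ ∀ k : ℕ, ∃ C : ℝ, 1 ≤ C ∧ ∀ X Y r n : ℤ, 1 ≤ r →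
    r ≤ n →
    (tau hf).real (T3 (dS X Y) (sS X Y r n) (r + k) (n - k)) ≤ C * ((r : ℝ) / n) ^ (1 + c) ∧
    (tau hf).real (T3 (dN X Y) (sN X Y r n) (r + k) (n - k)) ≤ C * ((r : ℝ) / n) ^ (1 + c) ∧
    (tau hf).real (T3 (dW X Y) (sW X Y r n) (r + k) (n - k)) ≤ C * ((r : ℝ) / n) ^ (1 + c) ∧
    (tau hf).real (T3 (dE X Y) (sE X Y r n) (r + k) (n - k)) ≤ C * ((r : ℝ) / n) ^ (1 + c) := by
  obtain ⟨C, c, hC, hc, hc1, h⟩ := f3_all
  refine ⟨c, hc, hc1, fun k => ⟨C * (2 * ((k + 1 : ℕ) : ℤ) + 2) ^ 4, ?_,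
    fun X Y r n hr hrn => ?_⟩⟩
  · have h1 : (1 : ℝ) ≤ (2 * (((k + 1 : ℕ) : ℤ) : ℝ) + 2) ^ 4 := by
      refine one_le_pow₀ ?_
      push_cast
      have : (0 : ℝ) ≤ k := Nat.cast_nonneg k
      linarith
    nlinarith
  · have hmono : ∀ (d : P2 → ℤ) (Q : P2 → Prop), T3 d Q (r + k) (n - k) ⊆
        T3 d Q (r + ((k + 1 : ℕ) : ℤ)) (n - ((k + 1 : ℕ) : ℤ)) := by
      rintro d Q g ⟨a, a', b, b', h1, h2, h3, h4, h5⟩
      refine ⟨a, a', b, b', ?_, ?_, ?_, ?_, h5⟩ <;> push_cast <;> omega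
    refine ⟨?_, ?_, ?_, ?_⟩
    · refine slack hC hc hc1 (by positivity) hr hrn measureReal_le_one fun h1 => ?_
      refine (measureReal_mono (hmono _ _)).trans
        ((h X Y _ _ _ (by push_cast; omega) h1).1 (fun t ht => ht.1.2.2.1) fun t ht => ?_)
      simp only [sS] at ht ⊢
      push_cast at ht
      omega
    · refine slack hC hc hc1 (by positivity) hr hrn measureReal_le_one fun h1 => ?_
      refine (measureReal_mono (hmono _ _)).trans
        ((h X Y _ _ _ (by push_cast; omega) h1).2.1 (fun t ht => ht.1.2.2.2) fun t ht => ?_)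
      simp only [sN] at ht ⊢
      push_cast at ht
      omega
    · refine slack hC hc hc1 (by positivity) hr hrn measureReal_le_one fun h1 => ?_
      refine (measureReal_mono (hmono _ _)).trans
        ((h X Y _ _ _ (by push_cast; omega) h1).2.2.1 (fun t ht => ht.1.1) fun t ht => ?_)
      simp only [sW] at ht ⊢
      push_cast at ht
      omega
    · refine slack hC hc hc1 (by positivity) hr hrn measureReal_le_one fun h1 => ?_
      refine (measureReal_mono (hmono _ _)).trans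
        ((h X Y _ _ _ (by push_cast; omega) h1).2.2.2 (fun t ht => ht.1.2.1) fun t ht => ?_)
      simp only [sE] at ht ⊢
      push_cast at ht
      omega

end Crest.Agent.R158.Fw814
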