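import Crest.Agent.R158.Gc9_748

/-!
# R158 block GC, part 10: quarter annuli, the other three orientations

Centre face `(X, Y)`, radii `1 ≤ r < n`.
* **`qa1_word`** (`QA1`, base `(X - n + 1, Y + 1)`): `Q1oW ++ (Q1oN ++ (Q1nE ++ (Q1jS ++ (Q1jE ++ (Q1nS)))))`
* **`qa2_word`** (`QA2`, base `(X - n + 1, Y - n + 1)`): `Q2oW ++ (Q2nN ++ (Q2jE ++ (Q2jN ++ (Q2nE ++ (Q2oS)))))`
* **`qa3_word`** (`QA3`, base `(X + r + 1, Y - r + 1)`): `Q3jW ++ (Q3nN ++ (Q3oE ++ (Q3oS ++ (Q3nW ++ (Q3jN)))))`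
-/

set_option autoImplicit false
set_option linter.unusedVariables false

namespace Crest.Agent.R158.Gc748

open Crest.Agent.R158.Xr249 (Reg Nx CPath)
open Crest.Agent.R158.Sw300 (Port Wd)

variable {X Y : ℤ} {r n : ℕ}

theorem gs_q0 (hr : 1 ≤ r) (hn : r + 1 ≤ n) : GS X Y n (InQ X Y r n) := by
  refine ⟨fun x y h => ?_, fun x y h => ?_, ?_⟩
  · unfold InQ at h; simp only at h; omega
  · by_cases h1 : X - n < x ∧ x ≤ X + n ∧ Y - n < y ∧ y ≤ Y + n
    · by_cases h2 : X < x ∧ y ≤ Y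
      · refine ⟨(x, Y - n), (CPath.ver (y1 := Y - n) (by omega) fun z h3 h4 => ?_).symm,
          by simp only; omega⟩
        change ¬ InQ X Y r n (x, z)
        unfold InQ at h ⊢; simp only at h ⊢; omega
      · refine ⟨(X - n, y), (CPath.hor (x1 := X - n) (by omega) fun z h3 h4 => ?_).symm,
          by simp only; omega⟩
        change ¬ InQ X Y r n (z, y)
        unfold InQ at h ⊢; simp only at h ⊢; omega
    · exact ⟨(x, y), .refl, h1⟩
  · have key : ∀ x y, InQ X Y r n (x, y) → CPath {t | InQ X Y r n t} (x, y) (X + n, Y + n) := by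
      intro x y h
      refine (CPath.hor (x2 := X + n) (by unfold InQ at h; simp only at h; omega)
        fun z h1 h2 => ?_).trans
        (CPath.ver (y2 := Y + n) (by unfold InQ at h; simp only at h; omega) fun z h1 h2 => ?_)
      · change InQ X Y r n (z, y)
        unfold InQ at h ⊢; simp only at h ⊢; omega
      · change InQ X Y r n (X + n, z)
        unfold InQ at h ⊢; simp only at h ⊢; omega
    rintro ⟨x, y⟩ ⟨x', y'⟩ ha hb
    exact (key x y ha).trans (key x' y' hb).symm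

/-- quarter annulus in the quadrant `x ≤ X`, `y > Y` -/
def InQ1 (X Y : ℤ) (r n : ℕ) (p : ℤ × ℤ) : Prop :=
  (X - n < p.1 ∧ p.1 ≤ X ∧ Y < p.2 ∧ p.2 ≤ Y + n) ∧ ¬ (X - r < p.1 ∧ p.2 ≤ Y + r)

open Classical in
/-- quarter annulus in the quadrant `x ≤ X`, `y > Y` (`Finset`) -/
noncomputable def QA1 (X Y : ℤ) (r n : ℕ) : Finset (ℤ × ℤ) :=
  ((Finset.Icc (X - n) (X + n)) ×ˢ (Finset.Icc (Y - n) (Y + n))).filter (InQ1 X Y r n)

theorem mem_QA1 {t : ℤ × ℤ} : t ∈ QA1 X Y r n ↔ InQ1 X Y r n t := by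
  simp only [QA1, Finset.mem_filter, Finset.mem_product, Finset.mem_Icc]
  refine ⟨fun h => h.2, fun h => ⟨?_, h⟩⟩
  unfold InQ1 at h; omega

theorem qa1_full (x y : ℤ) (hr : 1 ≤ r) : FullAt (Xr249.full (QA1 X Y r n)) x y := by
  refine full_at ?_ ?_ <;>
    (simp only [mem_QA1]; unfold InQ1; simp only; intro h h'; omega)

theorem gs_q1 (hr : 1 ≤ r) (hn : r + 1 ≤ n) : GS X Y n (InQ1 X Y r n) := by
  refine (gs_q0 hr hn).rot fun x y => ?_
  unfold InQ1 InQ; simp only; omega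

theorem qa1_sc (hr : 1 ≤ r) (hn : r + 1 ≤ n) : (Xr249.full (QA1 X Y r n)).SC :=
  (gs_q1 hr hn).sc fun _ => mem_QA1

theorem qa1_conn (hr : 1 ≤ r) (hn : r + 1 ≤ n) : (Xr249.full (QA1 X Y r n)).Conn :=
  (gs_q1 hr hn).conn fun _ => mem_QA1

theorem qa1_run (hr : 1 ≤ r) (hn : r + 1 ≤ n) :
    (Xr249.full (QA1 X Y r n)).IsRun (X - n + 1) (X - r) (Y + 1) := by
  refine ⟨by omega, ?_, fun x h1 h2 => ?_, ?_, ?_⟩
  · rw [Xr249.full_P, mem_QA1]; unfold InQ1; simp only; omega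
  · rw [Xr249.full_h, mem_QA1, mem_QA1]; unfold InQ1; simp only; omega
  · rw [Xr249.full_h, mem_QA1, mem_QA1]; unfold InQ1; simp only; omega
  · rw [Xr249.full_h, mem_QA1, mem_QA1]; unfold InQ1; simp only; omega

/-- outer side -/
def Q1oW (X Y : ℤ) (r n : ℕ) : List (Port (ℤ × ℤ)) :=
  fl (fun i => some ((X - n + 1, Y + 1 + i), 0)) (n - 1)

/-- outer side -/
def Q1oN (X Y : ℤ) (r n : ℕ) : List (Port (ℤ × ℤ)) :=
  fl (fun i => some ((X - n + 1 + i, Y + n), 1)) (n - 1)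

/-- wall -/
def Q1nE (X Y : ℤ) (r n : ℕ) : List (Port (ℤ × ℤ)) :=
  fl (fun i => some ((X, Y + n - i), 2)) (n - r - 1)

/-- inner side -/
def Q1jS (X Y : ℤ) (r n : ℕ) : List (Port (ℤ × ℤ)) :=
  fl (fun i => some ((X - i, Y + r + 1), 3)) (r - 1)

/-- inner side -/
def Q1jE (X Y : ℤ) (r n : ℕ) : List (Port (ℤ × ℤ)) :=
  fl (fun i => some ((X - r, Y + r - i), 2)) (r - 1)

/-- wall -/
def Q1nS (X Y : ℤ) (r n : ℕ) : List (Port (ℤ × ℤ)) :=
  fl (fun i => some ((X - r - i, Y + 1), 3)) (n - r - 1)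

theorem qa1_chain (hr : 1 ≤ r) (hn : r + 1 ≤ n) : List.IsChain (Nx (Xr249.full (QA1 X Y r n)).gl)
    (Q1oW X Y r n ++ (Q1oN X Y r n ++ (Q1nE X Y r n ++ (Q1jS X Y r n ++ (Q1jE X Y r n ++ (Q1nS X Y r n ++ [some ((X - n + 1, Y + 1), 0)])))))) := by
  refine fl_fl_chain (fun i hi => ?_) ?_ ?_
  · refine nx_eq ((nx_straight (x := X - n + 1) (y := Y + 1 + i)).1 ?_ ?_) rfl
      (pe (by omega) (by omega))
    · rw [Xr249.full_v, mem_QA1, mem_QA1]; unfold InQ1; simp only; omega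
    · rw [Xr249.full_h, mem_QA1, mem_QA1]; unfold InQ1; simp only; omega
  · refine nx_eq ((nx4 (x := X - n + 1) (y := Y + n)).1 ?_) (pe (by omega) (by omega))
      (pe (by omega) (by omega))
    rw [Xr249.full_v, mem_QA1, mem_QA1]; unfold InQ1; simp only; omega
  refine fl_fl_chain (fun i hi => ?_) ?_ ?_
  · refine nx_eq ((nx_straight (x := X - n + 1 + i) (y := Y + n)).2.1 ?_ ?_) rfl
      (pe (by omega) (by omega))
    · rw [Xr249.full_h, mem_QA1, mem_QA1]; unfold InQ1; simp only; omega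
    · rw [Xr249.full_v, mem_QA1, mem_QA1]; unfold InQ1; simp only; omega
  · refine nx_eq ((nx4 (x := X) (y := Y + n)).2.1 ?_) (pe (by omega) (by omega))
      (pe (by omega) (by omega))
    rw [Xr249.full_h, mem_QA1, mem_QA1]; unfold InQ1; simp only; omega
  refine fl_fl_chain (fun i hi => ?_) ?_ ?_
  · refine nx_eq ((nx_straight (x := X) (y := Y + n - i)).2.2.1 ?_ ?_) rfl
      (pe (by omega) (by omega))
    · rw [Xr249.full_v, mem_QA1, mem_QA1]; unfold InQ1; simp only; omega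
    · rw [Xr249.full_h, mem_QA1, mem_QA1]; unfold InQ1; simp only; omega
  · refine nx_eq ((nx4 (x := X) (y := Y + r + 1)).2.2.1 ?_) (pe (by omega) (by omega))
      (pe (by omega) (by omega))
    rw [Xr249.full_v, mem_QA1, mem_QA1]; unfold InQ1; simp only; omega
  refine fl_fl_chain (fun i hi => ?_) ?_ ?_
  · refine nx_eq ((nx_straight (x := X - i) (y := Y + r + 1)).2.2.2 ?_ ?_) rfl
      (pe (by omega) (by omega))
    · rw [Xr249.full_h, mem_QA1, mem_QA1]; unfold InQ1; simp only; omega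
    · rw [Xr249.full_v, mem_QA1, mem_QA1]; unfold InQ1; simp only; omega
  · refine nx_eq ((nx_reflex (x := X - r + 1) (y := Y + r + 1)).2.2.2 ?_ ?_ ?_)
      (pe (by omega) (by omega)) (pe (by omega) (by omega))
    · rw [Xr249.full_h, mem_QA1, mem_QA1]; unfold InQ1; simp only; omega
    · rw [Xr249.full_v, mem_QA1, mem_QA1]; unfold InQ1; simp only; omega
    · rw [Xr249.full_h, mem_QA1, mem_QA1]; unfold InQ1; simp only; omega
  refine fl_fl_chain (fun i hi => ?_) ?_ ?_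
  · refine nx_eq ((nx_straight (x := X - r) (y := Y + r - i)).2.2.1 ?_ ?_) rfl
      (pe (by omega) (by omega))
    · rw [Xr249.full_v, mem_QA1, mem_QA1]; unfold InQ1; simp only; omega
    · rw [Xr249.full_h, mem_QA1, mem_QA1]; unfold InQ1; simp only; omega
  · refine nx_eq ((nx4 (x := X - r) (y := Y + 1)).2.2.1 ?_) (pe (by omega) (by omega))
      (pe (by omega) (by omega))
    rw [Xr249.full_v, mem_QA1, mem_QA1]; unfold InQ1; simp only; omega
  refine fl_app_chain (fun i hi => ?_) ?_ (by simp)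
  · refine nx_eq ((nx_straight (x := X - r - i) (y := Y + 1)).2.2.2 ?_ ?_) rfl
      (pe (by omega) (by omega))
    · rw [Xr249.full_h, mem_QA1, mem_QA1]; unfold InQ1; simp only; omega
    · rw [Xr249.full_v, mem_QA1, mem_QA1]; unfold InQ1; simp only; omega
  · refine nx_eq ((nx4 (x := X - n + 1) (y := Y + 1)).2.2.2 ?_) (pe (by omega) (by omega))
      (pe (by omega) (by omega))
    rw [Xr249.full_h, mem_QA1, mem_QA1]; unfold InQ1; simp only; omega

/-- **the word of the region `QA1`** -/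
theorem qa1_word (X Y : ℤ) (r n : ℕ) (hr : 1 ≤ r) (hn : r + 1 ≤ n) :
    ∃ w : Wd (ℤ × ℤ), RW (Xr249.full (QA1 X Y r n)) w (X - n + 1, Y + 1) ∧ Sw300.Fc w ∧
    Sw300.L w = none :: (Q1oW X Y r n ++ (Q1oN X Y r n ++ (Q1nE X Y r n ++ (Q1jS X Y r n ++ (Q1jE X Y r n ++ (Q1nS X Y r n)))))) := by
  have hw0 : ∃ l, Q1oW X Y r n = some ((X - n + 1, Y + 1), 0) :: l := by
    obtain ⟨l, hl⟩ := fl_cons (fun i : ℕ => (some ((X - n + 1, Y + 1 + i), 0) : Port (ℤ × ℤ)))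
      (n - 1)
    exact ⟨l, by unfold Q1oW; rw [hl]; simp⟩
  obtain ⟨l', hl'⟩ := hw0
  have hch := qa1_chain (X := X) (Y := Y) hr hn
  rw [hl'] at hch
  have hch' : List.IsChain (Nx (Xr249.full (QA1 X Y r n)).gl) (some ((X - n + 1, Y + 1), 0) ::
      ((l' ++ (Q1oN X Y r n ++ (Q1nE X Y r n ++ (Q1jS X Y r n ++ (Q1jE X Y r n ++ (Q1nS X Y r n)))))) ++
        [some ((X - n + 1, Y + 1), 0)])) := by
    simpa [List.append_assoc] using hch
  have hne : some ((X - n + 1, Y + 1), (0 : ZMod 4)) ∉ l' ++ (Q1oN X Y r n ++ (Q1nE X Y r n ++ (Q1jS X Y r n ++ (Q1jE X Y r n ++ (Q1nS X Y r n))))) := by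
    have k1 : some ((X - n + 1, Y + 1), (0 : ZMod 4)) ∉ l' := by
      have hw : wS ((X - n + 1, Y + 1).1) ((X - n + 1, Y + 1).2) (n - 1) = Q1oW X Y r n := rfl
      exact nodup_head (hw.trans hl')
    simp only [List.mem_append, not_or]
    refine ⟨k1, ?_, ?_, ?_, ?_, ?_⟩
    all_goals
      intro hm
      obtain ⟨i, hi', hi⟩ := mem_fl.1 hm
      simp only [Option.some.injEq, Prod.mk.injEq] at hi
      first
        | exact absurd hi.2 (by decide)
        | omega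
  obtain ⟨w, h1, h2, h3⟩ := word_of_chain (qa1_sc hr hn) (qa1_conn hr hn) (qa1_run hr hn) hch' hne
  exact ⟨w, h1, h2, by rw [h3, hl']; simp⟩

/-- quarter annulus in the quadrant `x ≤ X`, `y ≤ Y` -/
def InQ2 (X Y : ℤ) (r n : ℕ) (p : ℤ × ℤ) : Prop :=
  (X - n < p.1 ∧ p.1 ≤ X ∧ Y - n < p.2 ∧ p.2 ≤ Y) ∧ ¬ (X - r < p.1 ∧ Y - r < p.2)

open Classical in
/-- quarter annulus in the quadrant `x ≤ X`, `y ≤ Y` (`Finset`) -/
noncomputable def QA2 (X Y : ℤ) (r n : ℕ) : Finset (ℤ × ℤ) :=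
  ((Finset.Icc (X - n) (X + n)) ×ˢ (Finset.Icc (Y - n) (Y + n))).filter (InQ2 X Y r n)

theorem mem_QA2 {t : ℤ × ℤ} : t ∈ QA2 X Y r n ↔ InQ2 X Y r n t := by
  simp only [QA2, Finset.mem_filter, Finset.mem_product, Finset.mem_Icc]
  refine ⟨fun h => h.2, fun h => ⟨?_, h⟩⟩
  unfold InQ2 at h; omega

theorem qa2_full (x y : ℤ) (hr : 1 ≤ r) : FullAt (Xr249.full (QA2 X Y r n)) x y := by
  refine full_at ?_ ?_ <;>
    (simp only [mem_QA2]; unfold InQ2; simp only; intro h h'; omega)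

theorem gs_q2 (hr : 1 ≤ r) (hn : r + 1 ≤ n) : GS X Y n (InQ2 X Y r n) := by
  refine (gs_q1 hr hn).rot fun x y => ?_
  unfold InQ2 InQ1; simp only; omega

theorem qa2_sc (hr : 1 ≤ r) (hn : r + 1 ≤ n) : (Xr249.full (QA2 X Y r n)).SC :=
  (gs_q2 hr hn).sc fun _ => mem_QA2

theorem qa2_conn (hr : 1 ≤ r) (hn : r + 1 ≤ n) : (Xr249.full (QA2 X Y r n)).Conn :=
  (gs_q2 hr hn).conn fun _ => mem_QA2

theorem qa2_run (hr : 1 ≤ r) (hn : r + 1 ≤ n) :
    (Xr249.full (QA2 X Y r n)).IsRun (X - n + 1) (X) (Y - n + 1) := by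
  refine ⟨by omega, ?_, fun x h1 h2 => ?_, ?_, ?_⟩
  · rw [Xr249.full_P, mem_QA2]; unfold InQ2; simp only; omega
  · rw [Xr249.full_h, mem_QA2, mem_QA2]; unfold InQ2; simp only; omega
  · rw [Xr249.full_h, mem_QA2, mem_QA2]; unfold InQ2; simp only; omega
  · rw [Xr249.full_h, mem_QA2, mem_QA2]; unfold InQ2; simp only; omega

/-- outer side -/
def Q2oW (X Y : ℤ) (r n : ℕ) : List (Port (ℤ × ℤ)) :=
  fl (fun i => some ((X - n + 1, Y - n + 1 + i), 0)) (n - 1)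

/-- wall -/
def Q2nN (X Y : ℤ) (r n : ℕ) : List (Port (ℤ × ℤ)) :=
  fl (fun i => some ((X - n + 1 + i, Y), 1)) (n - r - 1)

/-- inner side -/
def Q2jE (X Y : ℤ) (r n : ℕ) : List (Port (ℤ × ℤ)) :=
  fl (fun i => some ((X - r, Y - i), 2)) (r - 1)

/-- inner side -/
def Q2jN (X Y : ℤ) (r n : ℕ) : List (Port (ℤ × ℤ)) :=
  fl (fun i => some ((X - r + 1 + i, Y - r), 1)) (r - 1)

/-- wall -/
def Q2nE (X Y : ℤ) (r n : ℕ) : List (Port (ℤ × ℤ)) :=
  fl (fun i => some ((X, Y - r - i), 2)) (n - r - 1)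

/-- outer side -/
def Q2oS (X Y : ℤ) (r n : ℕ) : List (Port (ℤ × ℤ)) :=
  fl (fun i => some ((X - i, Y - n + 1), 3)) (n - 1)

theorem qa2_chain (hr : 1 ≤ r) (hn : r + 1 ≤ n) : List.IsChain (Nx (Xr249.full (QA2 X Y r n)).gl)
    (Q2oW X Y r n ++ (Q2nN X Y r n ++ (Q2jE X Y r n ++ (Q2jN X Y r n ++ (Q2nE X Y r n ++ (Q2oS X Y r n ++ [some ((X - n + 1, Y - n + 1), 0)])))))) := by
  refine fl_fl_chain (fun i hi => ?_) ?_ ?_
  · refine nx_eq ((nx_straight (x := X - n + 1) (y := Y - n + 1 + i)).1 ?_ ?_) rfl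
      (pe (by omega) (by omega))
    · rw [Xr249.full_v, mem_QA2, mem_QA2]; unfold InQ2; simp only; omega
    · rw [Xr249.full_h, mem_QA2, mem_QA2]; unfold InQ2; simp only; omega
  · refine nx_eq ((nx4 (x := X - n + 1) (y := Y)).1 ?_) (pe (by omega) (by omega))
      (pe (by omega) (by omega))
    rw [Xr249.full_v, mem_QA2, mem_QA2]; unfold InQ2; simp only; omega
  refine fl_fl_chain (fun i hi => ?_) ?_ ?_
  · refine nx_eq ((nx_straight (x := X - n + 1 + i) (y := Y)).2.1 ?_ ?_) rfl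
      (pe (by omega) (by omega))
    · rw [Xr249.full_h, mem_QA2, mem_QA2]; unfold InQ2; simp only; omega
    · rw [Xr249.full_v, mem_QA2, mem_QA2]; unfold InQ2; simp only; omega
  · refine nx_eq ((nx4 (x := X - r) (y := Y)).2.1 ?_) (pe (by omega) (by omega))
      (pe (by omega) (by omega))
    rw [Xr249.full_h, mem_QA2, mem_QA2]; unfold InQ2; simp only; omega
  refine fl_fl_chain (fun i hi => ?_) ?_ ?_
  · refine nx_eq ((nx_straight (x := X - r) (y := Y - i)).2.2.1 ?_ ?_) rfl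
      (pe (by omega) (by omega))
    · rw [Xr249.full_v, mem_QA2, mem_QA2]; unfold InQ2; simp only; omega
    · rw [Xr249.full_h, mem_QA2, mem_QA2]; unfold InQ2; simp only; omega
  · refine nx_eq ((nx_reflex (x := X - r) (y := Y - r + 1)).2.2.1 ?_ ?_ ?_)
      (pe (by omega) (by omega)) (pe (by omega) (by omega))
    · rw [Xr249.full_v, mem_QA2, mem_QA2]; unfold InQ2; simp only; omega
    · rw [Xr249.full_h, mem_QA2, mem_QA2]; unfold InQ2; simp only; omega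
    · rw [Xr249.full_v, mem_QA2, mem_QA2]; unfold InQ2; simp only; omega
  refine fl_fl_chain (fun i hi => ?_) ?_ ?_
  · refine nx_eq ((nx_straight (x := X - r + 1 + i) (y := Y - r)).2.1 ?_ ?_) rfl
      (pe (by omega) (by omega))
    · rw [Xr249.full_h, mem_QA2, mem_QA2]; unfold InQ2; simp only; omega
    · rw [Xr249.full_v, mem_QA2, mem_QA2]; unfold InQ2; simp only; omega
  · refine nx_eq ((nx4 (x := X) (y := Y - r)).2.1 ?_) (pe (by omega) (by omega))
      (pe (by omega) (by omega))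
    rw [Xr249.full_h, mem_QA2, mem_QA2]; unfold InQ2; simp only; omega
  refine fl_fl_chain (fun i hi => ?_) ?_ ?_
  · refine nx_eq ((nx_straight (x := X) (y := Y - r - i)).2.2.1 ?_ ?_) rfl
      (pe (by omega) (by omega))
    · rw [Xr249.full_v, mem_QA2, mem_QA2]; unfold InQ2; simp only; omega
    · rw [Xr249.full_h, mem_QA2, mem_QA2]; unfold InQ2; simp only; omega
  · refine nx_eq ((nx4 (x := X) (y := Y - n + 1)).2.2.1 ?_) (pe (by omega) (by omega))
      (pe (by omega) (by omega))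
    rw [Xr249.full_v, mem_QA2, mem_QA2]; unfold InQ2; simp only; omega
  refine fl_app_chain (fun i hi => ?_) ?_ (by simp)
  · refine nx_eq ((nx_straight (x := X - i) (y := Y - n + 1)).2.2.2 ?_ ?_) rfl
      (pe (by omega) (by omega))
    · rw [Xr249.full_h, mem_QA2, mem_QA2]; unfold InQ2; simp only; omega
    · rw [Xr249.full_v, mem_QA2, mem_QA2]; unfold InQ2; simp only; omega
  · refine nx_eq ((nx4 (x := X - n + 1) (y := Y - n + 1)).2.2.2 ?_) (pe (by omega) (by omega))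
      (pe (by omega) (by omega))
    rw [Xr249.full_h, mem_QA2, mem_QA2]; unfold InQ2; simp only; omega

/-- **the word of the region `QA2`** -/
theorem qa2_word (X Y : ℤ) (r n : ℕ) (hr : 1 ≤ r) (hn : r + 1 ≤ n) :
    ∃ w : Wd (ℤ × ℤ), RW (Xr249.full (QA2 X Y r n)) w (X - n + 1, Y - n + 1) ∧ Sw300.Fc w ∧
    Sw300.L w = none :: (Q2oW X Y r n ++ (Q2nN X Y r n ++ (Q2jE X Y r n ++ (Q2jN X Y r n ++ (Q2nE X Y r n ++ (Q2oS X Y r n)))))) := by
  have hw0 : ∃ l, Q2oW X Y r n = some ((X - n + 1, Y - n + 1), 0) :: l := by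
    obtain ⟨l, hl⟩ := fl_cons (fun i : ℕ => (some ((X - n + 1, Y - n + 1 + i), 0) : Port (ℤ × ℤ)))
      (n - 1)
    exact ⟨l, by unfold Q2oW; rw [hl]; simp⟩
  obtain ⟨l', hl'⟩ := hw0
  have hch := qa2_chain (X := X) (Y := Y) hr hn
  rw [hl'] at hch
  have hch' : List.IsChain (Nx (Xr249.full (QA2 X Y r n)).gl) (some ((X - n + 1, Y - n + 1), 0) ::
      ((l' ++ (Q2nN X Y r n ++ (Q2jE X Y r n ++ (Q2jN X Y r n ++ (Q2nE X Y r n ++ (Q2oS X Y r n)))))) ++
        [some ((X - n + 1, Y - n + 1), 0)])) := by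
    simpa [List.append_assoc] using hch
  have hne : some ((X - n + 1, Y - n + 1), (0 : ZMod 4)) ∉ l' ++ (Q2nN X Y r n ++ (Q2jE X Y r n ++ (Q2jN X Y r n ++ (Q2nE X Y r n ++ (Q2oS X Y r n))))) := by
    have k1 : some ((X - n + 1, Y - n + 1), (0 : ZMod 4)) ∉ l' := by
      have hw : wS ((X - n + 1, Y - n + 1).1) ((X - n + 1, Y - n + 1).2) (n - 1) = Q2oW X Y r n := rfl
      exact nodup_head (hw.trans hl')
    simp only [List.mem_append, not_or]
    refine ⟨k1, ?_, ?_, ?_, ?_, ?_⟩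
    all_goals
      intro hm
      obtain ⟨i, hi', hi⟩ := mem_fl.1 hm
      simp only [Option.some.injEq, Prod.mk.injEq] at hi
      first
        | exact absurd hi.2 (by decide)
        | omega
  obtain ⟨w, h1, h2, h3⟩ := word_of_chain (qa2_sc hr hn) (qa2_conn hr hn) (qa2_run hr hn) hch' hne
  exact ⟨w, h1, h2, by rw [h3, hl']; simp⟩

/-- quarter annulus in the quadrant `x > X`, `y ≤ Y` -/
def InQ3 (X Y : ℤ) (r n : ℕ) (p : ℤ × ℤ) : Prop :=
  (X < p.1 ∧ p.1 ≤ X + n ∧ Y - n < p.2 ∧ p.2 ≤ Y) ∧ ¬ (p.1 ≤ X + r ∧ Y - r < p.2)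

open Classical in
/-- quarter annulus in the quadrant `x > X`, `y ≤ Y` (`Finset`) -/
noncomputable def QA3 (X Y : ℤ) (r n : ℕ) : Finset (ℤ × ℤ) :=
  ((Finset.Icc (X - n) (X + n)) ×ˢ (Finset.Icc (Y - n) (Y + n))).filter (InQ3 X Y r n)

theorem mem_QA3 {t : ℤ × ℤ} : t ∈ QA3 X Y r n ↔ InQ3 X Y r n t := by
  simp only [QA3, Finset.mem_filter, Finset.mem_product, Finset.mem_Icc]
  refine ⟨fun h => h.2, fun h => ⟨?_, h⟩⟩
  unfold InQ3 at h; omega

theorem qa3_full (x y : ℤ) (hr : 1 ≤ r) : FullAt (Xr249.full (QA3 X Y r n)) x y := by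
  refine full_at ?_ ?_ <;>
    (simp only [mem_QA3]; unfold InQ3; simp only; intro h h'; omega)

theorem gs_q3 (hr : 1 ≤ r) (hn : r + 1 ≤ n) : GS X Y n (InQ3 X Y r n) := by
  refine (gs_q2 hr hn).rot fun x y => ?_
  unfold InQ3 InQ2; simp only; omega

theorem qa3_sc (hr : 1 ≤ r) (hn : r + 1 ≤ n) : (Xr249.full (QA3 X Y r n)).SC :=
  (gs_q3 hr hn).sc fun _ => mem_QA3

theorem qa3_conn (hr : 1 ≤ r) (hn : r + 1 ≤ n) : (Xr249.full (QA3 X Y r n)).Conn :=
  (gs_q3 hr hn).conn fun _ => mem_QA3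

theorem qa3_run (hr : 1 ≤ r) (hn : r + 1 ≤ n) :
    (Xr249.full (QA3 X Y r n)).IsRun (X + r + 1) (X + n) (Y - r + 1) := by
  refine ⟨by omega, ?_, fun x h1 h2 => ?_, ?_, ?_⟩
  · rw [Xr249.full_P, mem_QA3]; unfold InQ3; simp only; omega
  · rw [Xr249.full_h, mem_QA3, mem_QA3]; unfold InQ3; simp only; omega
  · rw [Xr249.full_h, mem_QA3, mem_QA3]; unfold InQ3; simp only; omega
  · rw [Xr249.full_h, mem_QA3, mem_QA3]; unfold InQ3; simp only; omega

/-- inner side -/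
def Q3jW (X Y : ℤ) (r n : ℕ) : List (Port (ℤ × ℤ)) :=
  fl (fun i => some ((X + r + 1, Y - r + 1 + i), 0)) (r - 1)

/-- wall -/
def Q3nN (X Y : ℤ) (r n : ℕ) : List (Port (ℤ × ℤ)) :=
  fl (fun i => some ((X + r + 1 + i, Y), 1)) (n - r - 1)

/-- outer side -/
def Q3oE (X Y : ℤ) (r n : ℕ) : List (Port (ℤ × ℤ)) :=
  fl (fun i => some ((X + n, Y - i), 2)) (n - 1)

/-- outer side -/
def Q3oS (X Y : ℤ) (r n : ℕ) : List (Port (ℤ × ℤ)) :=
  fl (fun i => some ((X + n - i, Y - n + 1), 3)) (n - 1)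

/-- wall -/
def Q3nW (X Y : ℤ) (r n : ℕ) : List (Port (ℤ × ℤ)) :=
  fl (fun i => some ((X + 1, Y - n + 1 + i), 0)) (n - r - 1)

/-- inner side -/
def Q3jN (X Y : ℤ) (r n : ℕ) : List (Port (ℤ × ℤ)) :=
  fl (fun i => some ((X + 1 + i, Y - r), 1)) (r - 1)

theorem qa3_chain (hr : 1 ≤ r) (hn : r + 1 ≤ n) : List.IsChain (Nx (Xr249.full (QA3 X Y r n)).gl)
    (Q3jW X Y r n ++ (Q3nN X Y r n ++ (Q3oE X Y r n ++ (Q3oS X Y r n ++ (Q3nW X Y r n ++ (Q3jN X Y r n ++ [some ((X + r + 1, Y - r + 1), 0)])))))) := by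
  refine fl_fl_chain (fun i hi => ?_) ?_ ?_
  · refine nx_eq ((nx_straight (x := X + r + 1) (y := Y - r + 1 + i)).1 ?_ ?_) rfl
      (pe (by omega) (by omega))
    · rw [Xr249.full_v, mem_QA3, mem_QA3]; unfold InQ3; simp only; omega
    · rw [Xr249.full_h, mem_QA3, mem_QA3]; unfold InQ3; simp only; omega
  · refine nx_eq ((nx4 (x := X + r + 1) (y := Y)).1 ?_) (pe (by omega) (by omega))
      (pe (by omega) (by omega))
    rw [Xr249.full_v, mem_QA3, mem_QA3]; unfold InQ3; simp only; omega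
  refine fl_fl_chain (fun i hi => ?_) ?_ ?_
  · refine nx_eq ((nx_straight (x := X + r + 1 + i) (y := Y)).2.1 ?_ ?_) rfl
      (pe (by omega) (by omega))
    · rw [Xr249.full_h, mem_QA3, mem_QA3]; unfold InQ3; simp only; omega
    · rw [Xr249.full_v, mem_QA3, mem_QA3]; unfold InQ3; simp only; omega
  · refine nx_eq ((nx4 (x := X + n) (y := Y)).2.1 ?_) (pe (by omega) (by omega))
      (pe (by omega) (by omega))
    rw [Xr249.full_h, mem_QA3, mem_QA3]; unfold InQ3; simp only; omega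
  refine fl_fl_chain (fun i hi => ?_) ?_ ?_
  · refine nx_eq ((nx_straight (x := X + n) (y := Y - i)).2.2.1 ?_ ?_) rfl
      (pe (by omega) (by omega))
    · rw [Xr249.full_v, mem_QA3, mem_QA3]; unfold InQ3; simp only; omega
    · rw [Xr249.full_h, mem_QA3, mem_QA3]; unfold InQ3; simp only; omega
  · refine nx_eq ((nx4 (x := X + n) (y := Y - n + 1)).2.2.1 ?_) (pe (by omega) (by omega))
      (pe (by omega) (by omega))
    rw [Xr249.full_v, mem_QA3, mem_QA3]; unfold InQ3; simp only; omega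
  refine fl_fl_chain (fun i hi => ?_) ?_ ?_
  · refine nx_eq ((nx_straight (x := X + n - i) (y := Y - n + 1)).2.2.2 ?_ ?_) rfl
      (pe (by omega) (by omega))
    · rw [Xr249.full_h, mem_QA3, mem_QA3]; unfold InQ3; simp only; omega
    · rw [Xr249.full_v, mem_QA3, mem_QA3]; unfold InQ3; simp only; omega
  · refine nx_eq ((nx4 (x := X + 1) (y := Y - n + 1)).2.2.2 ?_) (pe (by omega) (by omega))
      (pe (by omega) (by omega))
    rw [Xr249.full_h, mem_QA3, mem_QA3]; unfold InQ3; simp only; omega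
  refine fl_fl_chain (fun i hi => ?_) ?_ ?_
  · refine nx_eq ((nx_straight (x := X + 1) (y := Y - n + 1 + i)).1 ?_ ?_) rfl
      (pe (by omega) (by omega))
    · rw [Xr249.full_v, mem_QA3, mem_QA3]; unfold InQ3; simp only; omega
    · rw [Xr249.full_h, mem_QA3, mem_QA3]; unfold InQ3; simp only; omega
  · refine nx_eq ((nx4 (x := X + 1) (y := Y - r)).1 ?_) (pe (by omega) (by omega))
      (pe (by omega) (by omega))
    rw [Xr249.full_v, mem_QA3, mem_QA3]; unfold InQ3; simp only; omega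
  refine fl_app_chain (fun i hi => ?_) ?_ (by simp)
  · refine nx_eq ((nx_straight (x := X + 1 + i) (y := Y - r)).2.1 ?_ ?_) rfl
      (pe (by omega) (by omega))
    · rw [Xr249.full_h, mem_QA3, mem_QA3]; unfold InQ3; simp only; omega
    · rw [Xr249.full_v, mem_QA3, mem_QA3]; unfold InQ3; simp only; omega
  · refine nx_eq ((nx_reflex (x := X + r) (y := Y - r)).2.1 ?_ ?_ ?_)
      (pe (by omega) (by omega)) (pe (by omega) (by omega))
    · rw [Xr249.full_h, mem_QA3, mem_QA3]; unfold InQ3; simp only; omega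
    · rw [Xr249.full_v, mem_QA3, mem_QA3]; unfold InQ3; simp only; omega
    · rw [Xr249.full_h, mem_QA3, mem_QA3]; unfold InQ3; simp only; omega

/-- **the word of the region `QA3`** -/
theorem qa3_word (X Y : ℤ) (r n : ℕ) (hr : 1 ≤ r) (hn : r + 1 ≤ n) :
    ∃ w : Wd (ℤ × ℤ), RW (Xr249.full (QA3 X Y r n)) w (X + r + 1, Y - r + 1) ∧ Sw300.Fc w ∧
    Sw300.L w = none :: (Q3jW X Y r n ++ (Q3nN X Y r n ++ (Q3oE X Y r n ++ (Q3oS X Y r n ++ (Q3nW X Y r n ++ (Q3jN X Y r n)))))) := by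
  have hw0 : ∃ l, Q3jW X Y r n = some ((X + r + 1, Y - r + 1), 0) :: l := by
    obtain ⟨l, hl⟩ := fl_cons (fun i : ℕ => (some ((X + r + 1, Y - r + 1 + i), 0) : Port (ℤ × ℤ)))
      (r - 1)
    exact ⟨l, by unfold Q3jW; rw [hl]; simp⟩
  obtain ⟨l', hl'⟩ := hw0
  have hch := qa3_chain (X := X) (Y := Y) hr hn
  rw [hl'] at hch
  have hch' : List.IsChain (Nx (Xr249.full (QA3 X Y r n)).gl) (some ((X + r + 1, Y - r + 1), 0) ::
      ((l' ++ (Q3nN X Y r n ++ (Q3oE X Y r n ++ (Q3oS X Y r n ++ (Q3nW X Y r n ++ (Q3jN X Y r n)))))) ++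
        [some ((X + r + 1, Y - r + 1), 0)])) := by
    simpa [List.append_assoc] using hch
  have hne : some ((X + r + 1, Y - r + 1), (0 : ZMod 4)) ∉ l' ++ (Q3nN X Y r n ++ (Q3oE X Y r n ++ (Q3oS X Y r n ++ (Q3nW X Y r n ++ (Q3jN X Y r n))))) := by
    have k1 : some ((X + r + 1, Y - r + 1), (0 : ZMod 4)) ∉ l' := by
      have hw : wS ((X + r + 1, Y - r + 1).1) ((X + r + 1, Y - r + 1).2) (r - 1) = Q3jW X Y r n := rfl
      exact nodup_head (hw.trans hl')
    simp only [List.mem_append, not_or]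
    refine ⟨k1, ?_, ?_, ?_, ?_, ?_⟩
    all_goals
      intro hm
      obtain ⟨i, hi', hi⟩ := mem_fl.1 hm
      simp only [Option.some.injEq, Prod.mk.injEq] at hi
      first
        | exact absurd hi.2 (by decide)
        | omega
  obtain ⟨w, h1, h2, h3⟩ := word_of_chain (qa3_sc hr hn) (qa3_conn hr hn) (qa3_run hr hn) hch' hne
  exact ⟨w, h1, h2, by rw [h3, hl']; simp⟩

end Crest.Agent.R158.Gc748
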