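import Crest.Agent.R158.Gc9_748

/-!
# R158 block GC, part 11: three quarter annuli, the other three orientations

Centre face `(X, Y)`, radii `1 ≤ r < n`.
* **`ta1_word`** (`TA1`, base `(X - n + 1, Y - n + 1)`): `T1oW ++ (T1nN ++ (T1jE ++ (T1jN ++ (T1jW ++ (T1jS ++ (T1nW ++ (T1oN ++ (T1oE ++ (T1oS)))))))))`
* **`ta2_word`** (`TA2`, base `(X + 1, Y - n + 1)`): `T2nW ++ (T2jN ++ (T2jW ++ (T2jS ++ (T2jE ++ (T2nS ++ (T2oW ++ (T2oN ++ (T2oE ++ (T2oS)))))))))`
* **`ta3_word`** (`TA3`, base `(X + r + 1, Y + 1)`): `T3jW ++ (T3jS ++ (T3jE ++ (T3jN ++ (T3nE ++ (T3oS ++ (T3oW ++ (T3oN ++ (T3oE ++ (T3nS)))))))))`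
-/

set_option autoImplicit false
set_option linter.unusedVariables false

namespace Crest.Agent.R158.Gc748

open Crest.Agent.R158.Xr249 (Reg Nx CPath)
open Crest.Agent.R158.Sw300 (Port Wd)

variable {X Y : ℤ} {r n : ℕ}

theorem gs_t0 (hr : 1 ≤ r) (hn : r + 1 ≤ n) : GS X Y n (InT X Y r n) := by
  refine ⟨fun x y h => ?_, fun x y h => ?_, ?_⟩
  · unfold InT at h; simp only at h; omega
  · by_cases h1 : X - n < x ∧ x ≤ X + n ∧ Y - n < y ∧ y ≤ Y + n
    · have up : ∀ x y : ℤ, X < x → x ≤ X + r → Y - r < y → y ≤ Y + n + 1 →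
          CPath {t | ¬ InT X Y r n t} (x, y) (x, Y + n + 1) := by
        intro x y h2 h3 h4 h5
        refine CPath.ver h5 fun z h6 h7 => ?_
        change ¬ InT X Y r n (x, z)
        unfold InT; simp only; omega
      by_cases h2 : X < x ∧ Y < y
      · refine ⟨(x, Y + n + 1), CPath.ver (by omega) fun z h3 h4 => ?_, by simp only; omega⟩
        change ¬ InT X Y r n (x, z)
        unfold InT; simp only; omega
      · have h3 : X - r < x ∧ x ≤ X + r ∧ Y - r < y ∧ y ≤ Y + r := by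
          unfold InT at h; simp only at h; omega
        by_cases h4 : X < x
        · exact ⟨(x, Y + n + 1), up x y h4 h3.2.1 h3.2.2.1 (by omega), by simp only; omega⟩
        · refine ⟨(X + 1, Y + n + 1), (CPath.hor (x2 := X + 1) (by omega) fun z h5 h6 => ?_).trans
            (up (X + 1) y (by omega) (by omega) h3.2.2.1 (by omega)), by simp only; omega⟩
          change ¬ InT X Y r n (z, y)
          unfold InT; simp only; omega
    · exact ⟨(x, y), .refl, h1⟩
  · have left : ∀ x y : ℤ, InT X Y r n (x, y) → (y ≤ Y - r ∨ x ≤ X - r ∨ (Y + r < y ∧ x ≤ X)) →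
        CPath {t | InT X Y r n t} (X - n + 1, Y - n + 1) (x, y) := by
      intro x y h hcase
      unfold InT at h
      simp only at h
      refine (CPath.ver (y2 := y) (by omega) fun z h1 h2 => ?_).trans
        (CPath.hor (by omega) fun z h1 h2 => ?_)
      · change InT X Y r n (X - n + 1, z)
        unfold InT; simp only; omega
      · change InT X Y r n (z, y)
        unfold InT; simp only; omega
    have hub : ∀ x y, InT X Y r n (x, y) → CPath {t | InT X Y r n t} (X - n + 1, Y - n + 1) (x, y) := by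
      intro x y h
      by_cases hcase : y ≤ Y - r ∨ x ≤ X - r ∨ (Y + r < y ∧ x ≤ X)
      · exact left x y h hcase
      · unfold InT at h
        simp only at h
        refine (left x (Y - r) ?_ (Or.inl le_rfl)).trans
          (CPath.ver (y1 := Y - r) (by omega) fun z h1 h2 => ?_)
        · unfold InT; simp only; omega
        · change InT X Y r n (x, z)
          unfold InT; simp only; omega
    rintro ⟨x, y⟩ ⟨x', y'⟩ ha hb
    exact (hub x y ha).symm.trans (hub x' y' hb)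

/-- three quarter annulus, missing quadrant `x ≤ X`, `y > Y` -/
def InT1 (X Y : ℤ) (r n : ℕ) (p : ℤ × ℤ) : Prop :=
  (X - n < p.1 ∧ p.1 ≤ X + n ∧ Y - n < p.2 ∧ p.2 ≤ Y + n) ∧
    ¬ (X - r < p.1 ∧ p.1 ≤ X + r ∧ Y - r < p.2 ∧ p.2 ≤ Y + r) ∧ ¬ (p.1 ≤ X ∧ Y < p.2)

open Classical in
/-- three quarter annulus, missing quadrant `x ≤ X`, `y > Y` (`Finset`) -/
noncomputable def TA1 (X Y : ℤ) (r n : ℕ) : Finset (ℤ × ℤ) :=
  ((Finset.Icc (X - n) (X + n)) ×ˢ (Finset.Icc (Y - n) (Y + n))).filter (InT1 X Y r n)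

theorem mem_TA1 {t : ℤ × ℤ} : t ∈ TA1 X Y r n ↔ InT1 X Y r n t := by
  simp only [TA1, Finset.mem_filter, Finset.mem_product, Finset.mem_Icc]
  refine ⟨fun h => h.2, fun h => ⟨?_, h⟩⟩
  unfold InT1 at h; omega

theorem ta1_full (x y : ℤ) (hr : 1 ≤ r) : FullAt (Xr249.full (TA1 X Y r n)) x y := by
  refine full_at ?_ ?_ <;>
    (simp only [mem_TA1]; unfold InT1; simp only; intro h h'; omega)

theorem gs_t1 (hr : 1 ≤ r) (hn : r + 1 ≤ n) : GS X Y n (InT1 X Y r n) := by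
  refine (gs_t0 hr hn).rot fun x y => ?_
  unfold InT1 InT; simp only; omega

theorem ta1_sc (hr : 1 ≤ r) (hn : r + 1 ≤ n) : (Xr249.full (TA1 X Y r n)).SC :=
  (gs_t1 hr hn).sc fun _ => mem_TA1

theorem ta1_conn (hr : 1 ≤ r) (hn : r + 1 ≤ n) : (Xr249.full (TA1 X Y r n)).Conn :=
  (gs_t1 hr hn).conn fun _ => mem_TA1

theorem ta1_run (hr : 1 ≤ r) (hn : r + 1 ≤ n) :
    (Xr249.full (TA1 X Y r n)).IsRun (X - n + 1) (X + n) (Y - n + 1) := by
  refine ⟨by omega, ?_, fun x h1 h2 => ?_, ?_, ?_⟩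
  · rw [Xr249.full_P, mem_TA1]; unfold InT1; simp only; omega
  · rw [Xr249.full_h, mem_TA1, mem_TA1]; unfold InT1; simp only; omega
  · rw [Xr249.full_h, mem_TA1, mem_TA1]; unfold InT1; simp only; omega
  · rw [Xr249.full_h, mem_TA1, mem_TA1]; unfold InT1; simp only; omega

/-- outer side -/
def T1oW (X Y : ℤ) (r n : ℕ) : List (Port (ℤ × ℤ)) :=
  fl (fun i => some ((X - n + 1, Y - n + 1 + i), 0)) (n - 1)

/-- wall -/
def T1nN (X Y : ℤ) (r n : ℕ) : List (Port (ℤ × ℤ)) :=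
  fl (fun i => some ((X - n + 1 + i, Y), 1)) (n - r - 1)

/-- inner side -/
def T1jE (X Y : ℤ) (r n : ℕ) : List (Port (ℤ × ℤ)) :=
  fl (fun i => some ((X - r, Y - i), 2)) (r - 1)

/-- inner side -/
def T1jN (X Y : ℤ) (r n : ℕ) : List (Port (ℤ × ℤ)) :=
  fl (fun i => some ((X - r + 1 + i, Y - r), 1)) (2 * r - 1)

/-- inner side -/
def T1jW (X Y : ℤ) (r n : ℕ) : List (Port (ℤ × ℤ)) :=
  fl (fun i => some ((X + r + 1, Y - r + 1 + i), 0)) (2 * r - 1)

/-- inner side -/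
def T1jS (X Y : ℤ) (r n : ℕ) : List (Port (ℤ × ℤ)) :=
  fl (fun i => some ((X + r - i, Y + r + 1), 3)) (r - 1)

/-- wall -/
def T1nW (X Y : ℤ) (r n : ℕ) : List (Port (ℤ × ℤ)) :=
  fl (fun i => some ((X + 1, Y + r + 1 + i), 0)) (n - r - 1)

/-- outer side -/
def T1oN (X Y : ℤ) (r n : ℕ) : List (Port (ℤ × ℤ)) :=
  fl (fun i => some ((X + 1 + i, Y + n), 1)) (n - 1)

/-- outer side -/
def T1oE (X Y : ℤ) (r n : ℕ) : List (Port (ℤ × ℤ)) :=
  fl (fun i => some ((X + n, Y + n - i), 2)) (2 * n - 1)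

/-- outer side -/
def T1oS (X Y : ℤ) (r n : ℕ) : List (Port (ℤ × ℤ)) :=
  fl (fun i => some ((X + n - i, Y - n + 1), 3)) (2 * n - 1)

theorem ta1_chain (hr : 1 ≤ r) (hn : r + 1 ≤ n) : List.IsChain (Nx (Xr249.full (TA1 X Y r n)).gl)
    (T1oW X Y r n ++ (T1nN X Y r n ++ (T1jE X Y r n ++ (T1jN X Y r n ++ (T1jW X Y r n ++ (T1jS X Y r n ++ (T1nW X Y r n ++ (T1oN X Y r n ++ (T1oE X Y r n ++ (T1oS X Y r n ++ [some ((X - n + 1, Y - n + 1), 0)])))))))))) := by
  refine fl_fl_chain (fun i hi => ?_) ?_ ?_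
  · refine nx_eq ((nx_straight (x := X - n + 1) (y := Y - n + 1 + i)).1 ?_ ?_) rfl
      (pe (by omega) (by omega))
    · rw [Xr249.full_v, mem_TA1, mem_TA1]; unfold InT1; simp only; omega
    · rw [Xr249.full_h, mem_TA1, mem_TA1]; unfold InT1; simp only; omega
  · refine nx_eq ((nx4 (x := X - n + 1) (y := Y)).1 ?_) (pe (by omega) (by omega))
      (pe (by omega) (by omega))
    rw [Xr249.full_v, mem_TA1, mem_TA1]; unfold InT1; simp only; omega
  refine fl_fl_chain (fun i hi => ?_) ?_ ?_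
  · refine nx_eq ((nx_straight (x := X - n + 1 + i) (y := Y)).2.1 ?_ ?_) rfl
      (pe (by omega) (by omega))
    · rw [Xr249.full_h, mem_TA1, mem_TA1]; unfold InT1; simp only; omega
    · rw [Xr249.full_v, mem_TA1, mem_TA1]; unfold InT1; simp only; omega
  · refine nx_eq ((nx4 (x := X - r) (y := Y)).2.1 ?_) (pe (by omega) (by omega))
      (pe (by omega) (by omega))
    rw [Xr249.full_h, mem_TA1, mem_TA1]; unfold InT1; simp only; omega
  refine fl_fl_chain (fun i hi => ?_) ?_ ?_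
  · refine nx_eq ((nx_straight (x := X - r) (y := Y - i)).2.2.1 ?_ ?_) rfl
      (pe (by omega) (by omega))
    · rw [Xr249.full_v, mem_TA1, mem_TA1]; unfold InT1; simp only; omega
    · rw [Xr249.full_h, mem_TA1, mem_TA1]; unfold InT1; simp only; omega
  · refine nx_eq ((nx_reflex (x := X - r) (y := Y - r + 1)).2.2.1 ?_ ?_ ?_)
      (pe (by omega) (by omega)) (pe (by omega) (by omega))
    · rw [Xr249.full_v, mem_TA1, mem_TA1]; unfold InT1; simp only; omega
    · rw [Xr249.full_h, mem_TA1, mem_TA1]; unfold InT1; simp only; omega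
    · rw [Xr249.full_v, mem_TA1, mem_TA1]; unfold InT1; simp only; omega
  refine fl_fl_chain (fun i hi => ?_) ?_ ?_
  · refine nx_eq ((nx_straight (x := X - r + 1 + i) (y := Y - r)).2.1 ?_ ?_) rfl
      (pe (by omega) (by omega))
    · rw [Xr249.full_h, mem_TA1, mem_TA1]; unfold InT1; simp only; omega
    · rw [Xr249.full_v, mem_TA1, mem_TA1]; unfold InT1; simp only; omega
  · refine nx_eq ((nx_reflex (x := X + r) (y := Y - r)).2.1 ?_ ?_ ?_)
      (pe (by omega) (by omega)) (pe (by omega) (by omega))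
    · rw [Xr249.full_h, mem_TA1, mem_TA1]; unfold InT1; simp only; omega
    · rw [Xr249.full_v, mem_TA1, mem_TA1]; unfold InT1; simp only; omega
    · rw [Xr249.full_h, mem_TA1, mem_TA1]; unfold InT1; simp only; omega
  refine fl_fl_chain (fun i hi => ?_) ?_ ?_
  · refine nx_eq ((nx_straight (x := X + r + 1) (y := Y - r + 1 + i)).1 ?_ ?_) rfl
      (pe (by omega) (by omega))
    · rw [Xr249.full_v, mem_TA1, mem_TA1]; unfold InT1; simp only; omega
    · rw [Xr249.full_h, mem_TA1, mem_TA1]; unfold InT1; simp only; omega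
  · refine nx_eq ((nx_reflex (x := X + r + 1) (y := Y + r)).1 ?_ ?_ ?_)
      (pe (by omega) (by omega)) (pe (by omega) (by omega))
    · rw [Xr249.full_v, mem_TA1, mem_TA1]; unfold InT1; simp only; omega
    · rw [Xr249.full_h, mem_TA1, mem_TA1]; unfold InT1; simp only; omega
    · rw [Xr249.full_v, mem_TA1, mem_TA1]; unfold InT1; simp only; omega
  refine fl_fl_chain (fun i hi => ?_) ?_ ?_
  · refine nx_eq ((nx_straight (x := X + r - i) (y := Y + r + 1)).2.2.2 ?_ ?_) rfl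
      (pe (by omega) (by omega))
    · rw [Xr249.full_h, mem_TA1, mem_TA1]; unfold InT1; simp only; omega
    · rw [Xr249.full_v, mem_TA1, mem_TA1]; unfold InT1; simp only; omega
  · refine nx_eq ((nx4 (x := X + 1) (y := Y + r + 1)).2.2.2 ?_) (pe (by omega) (by omega))
      (pe (by omega) (by omega))
    rw [Xr249.full_h, mem_TA1, mem_TA1]; unfold InT1; simp only; omega
  refine fl_fl_chain (fun i hi => ?_) ?_ ?_
  · refine nx_eq ((nx_straight (x := X + 1) (y := Y + r + 1 + i)).1 ?_ ?_) rfl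
      (pe (by omega) (by omega))
    · rw [Xr249.full_v, mem_TA1, mem_TA1]; unfold InT1; simp only; omega
    · rw [Xr249.full_h, mem_TA1, mem_TA1]; unfold InT1; simp only; omega
  · refine nx_eq ((nx4 (x := X + 1) (y := Y + n)).1 ?_) (pe (by omega) (by omega))
      (pe (by omega) (by omega))
    rw [Xr249.full_v, mem_TA1, mem_TA1]; unfold InT1; simp only; omega
  refine fl_fl_chain (fun i hi => ?_) ?_ ?_
  · refine nx_eq ((nx_straight (x := X + 1 + i) (y := Y + n)).2.1 ?_ ?_) rfl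
      (pe (by omega) (by omega))
    · rw [Xr249.full_h, mem_TA1, mem_TA1]; unfold InT1; simp only; omega
    · rw [Xr249.full_v, mem_TA1, mem_TA1]; unfold InT1; simp only; omega
  · refine nx_eq ((nx4 (x := X + n) (y := Y + n)).2.1 ?_) (pe (by omega) (by omega))
      (pe (by omega) (by omega))
    rw [Xr249.full_h, mem_TA1, mem_TA1]; unfold InT1; simp only; omega
  refine fl_fl_chain (fun i hi => ?_) ?_ ?_
  · refine nx_eq ((nx_straight (x := X + n) (y := Y + n - i)).2.2.1 ?_ ?_) rfl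
      (pe (by omega) (by omega))
    · rw [Xr249.full_v, mem_TA1, mem_TA1]; unfold InT1; simp only; omega
    · rw [Xr249.full_h, mem_TA1, mem_TA1]; unfold InT1; simp only; omega
  · refine nx_eq ((nx4 (x := X + n) (y := Y - n + 1)).2.2.1 ?_) (pe (by omega) (by omega))
      (pe (by omega) (by omega))
    rw [Xr249.full_v, mem_TA1, mem_TA1]; unfold InT1; simp only; omega
  refine fl_app_chain (fun i hi => ?_) ?_ (by simp)
  · refine nx_eq ((nx_straight (x := X + n - i) (y := Y - n + 1)).2.2.2 ?_ ?_) rfl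
      (pe (by omega) (by omega))
    · rw [Xr249.full_h, mem_TA1, mem_TA1]; unfold InT1; simp only; omega
    · rw [Xr249.full_v, mem_TA1, mem_TA1]; unfold InT1; simp only; omega
  · refine nx_eq ((nx4 (x := X - n + 1) (y := Y - n + 1)).2.2.2 ?_) (pe (by omega) (by omega))
      (pe (by omega) (by omega))
    rw [Xr249.full_h, mem_TA1, mem_TA1]; unfold InT1; simp only; omega

/-- **the word of the region `TA1`** -/
theorem ta1_word (X Y : ℤ) (r n : ℕ) (hr : 1 ≤ r) (hn : r + 1 ≤ n) :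
    ∃ w : Wd (ℤ × ℤ), RW (Xr249.full (TA1 X Y r n)) w (X - n + 1, Y - n + 1) ∧ Sw300.Fc w ∧
    Sw300.L w = none :: (T1oW X Y r n ++ (T1nN X Y r n ++ (T1jE X Y r n ++ (T1jN X Y r n ++ (T1jW X Y r n ++ (T1jS X Y r n ++ (T1nW X Y r n ++ (T1oN X Y r n ++ (T1oE X Y r n ++ (T1oS X Y r n)))))))))) := by
  have hw0 : ∃ l, T1oW X Y r n = some ((X - n + 1, Y - n + 1), 0) :: l := by
    obtain ⟨l, hl⟩ := fl_cons (fun i : ℕ => (some ((X - n + 1, Y - n + 1 + i), 0) : Port (ℤ × ℤ)))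
      (n - 1)
    exact ⟨l, by unfold T1oW; rw [hl]; simp⟩
  obtain ⟨l', hl'⟩ := hw0
  have hch := ta1_chain (X := X) (Y := Y) hr hn
  rw [hl'] at hch
  have hch' : List.IsChain (Nx (Xr249.full (TA1 X Y r n)).gl) (some ((X - n + 1, Y - n + 1), 0) ::
      ((l' ++ (T1nN X Y r n ++ (T1jE X Y r n ++ (T1jN X Y r n ++ (T1jW X Y r n ++ (T1jS X Y r n ++ (T1nW X Y r n ++ (T1oN X Y r n ++ (T1oE X Y r n ++ (T1oS X Y r n)))))))))) ++
        [some ((X - n + 1, Y - n + 1), 0)])) := by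
    simpa [List.append_assoc] using hch
  have hne : some ((X - n + 1, Y - n + 1), (0 : ZMod 4)) ∉ l' ++ (T1nN X Y r n ++ (T1jE X Y r n ++ (T1jN X Y r n ++ (T1jW X Y r n ++ (T1jS X Y r n ++ (T1nW X Y r n ++ (T1oN X Y r n ++ (T1oE X Y r n ++ (T1oS X Y r n))))))))) := by
    have k1 : some ((X - n + 1, Y - n + 1), (0 : ZMod 4)) ∉ l' := by
      have hw : wS ((X - n + 1, Y - n + 1).1) ((X - n + 1, Y - n + 1).2) (n - 1) = T1oW X Y r n := rfl
      exact nodup_head (hw.trans hl')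
    simp only [List.mem_append, not_or]
    refine ⟨k1, ?_, ?_, ?_, ?_, ?_, ?_, ?_, ?_, ?_⟩
    all_goals
      intro hm
      obtain ⟨i, hi', hi⟩ := mem_fl.1 hm
      simp only [Option.some.injEq, Prod.mk.injEq] at hi
      first
        | exact absurd hi.2 (by decide)
        | omega
  obtain ⟨w, h1, h2, h3⟩ := word_of_chain (ta1_sc hr hn) (ta1_conn hr hn) (ta1_run hr hn) hch' hne
  exact ⟨w, h1, h2, by rw [h3, hl']; simp⟩

/-- three quarter annulus, missing quadrant `x ≤ X`, `y ≤ Y` -/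
def InT2 (X Y : ℤ) (r n : ℕ) (p : ℤ × ℤ) : Prop :=
  (X - n < p.1 ∧ p.1 ≤ X + n ∧ Y - n < p.2 ∧ p.2 ≤ Y + n) ∧
    ¬ (X - r < p.1 ∧ p.1 ≤ X + r ∧ Y - r < p.2 ∧ p.2 ≤ Y + r) ∧ ¬ (p.1 ≤ X ∧ p.2 ≤ Y)

open Classical in
/-- three quarter annulus, missing quadrant `x ≤ X`, `y ≤ Y` (`Finset`) -/
noncomputable def TA2 (X Y : ℤ) (r n : ℕ) : Finset (ℤ × ℤ) :=
  ((Finset.Icc (X - n) (X + n)) ×ˢ (Finset.Icc (Y - n) (Y + n))).filter (InT2 X Y r n)

theorem mem_TA2 {t : ℤ × ℤ} : t ∈ TA2 X Y r n ↔ InT2 X Y r n t := by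
  simp only [TA2, Finset.mem_filter, Finset.mem_product, Finset.mem_Icc]
  refine ⟨fun h => h.2, fun h => ⟨?_, h⟩⟩
  unfold InT2 at h; omega

theorem ta2_full (x y : ℤ) (hr : 1 ≤ r) : FullAt (Xr249.full (TA2 X Y r n)) x y := by
  refine full_at ?_ ?_ <;>
    (simp only [mem_TA2]; unfold InT2; simp only; intro h h'; omega)

theorem gs_t2 (hr : 1 ≤ r) (hn : r + 1 ≤ n) : GS X Y n (InT2 X Y r n) := by
  refine (gs_t1 hr hn).rot fun x y => ?_
  unfold InT2 InT1; simp only; omega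

theorem ta2_sc (hr : 1 ≤ r) (hn : r + 1 ≤ n) : (Xr249.full (TA2 X Y r n)).SC :=
  (gs_t2 hr hn).sc fun _ => mem_TA2

theorem ta2_conn (hr : 1 ≤ r) (hn : r + 1 ≤ n) : (Xr249.full (TA2 X Y r n)).Conn :=
  (gs_t2 hr hn).conn fun _ => mem_TA2

theorem ta2_run (hr : 1 ≤ r) (hn : r + 1 ≤ n) :
    (Xr249.full (TA2 X Y r n)).IsRun (X + 1) (X + n) (Y - n + 1) := by
  refine ⟨by omega, ?_, fun x h1 h2 => ?_, ?_, ?_⟩
  · rw [Xr249.full_P, mem_TA2]; unfold InT2; simp only; omega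
  · rw [Xr249.full_h, mem_TA2, mem_TA2]; unfold InT2; simp only; omega
  · rw [Xr249.full_h, mem_TA2, mem_TA2]; unfold InT2; simp only; omega
  · rw [Xr249.full_h, mem_TA2, mem_TA2]; unfold InT2; simp only; omega

/-- wall -/
def T2nW (X Y : ℤ) (r n : ℕ) : List (Port (ℤ × ℤ)) :=
  fl (fun i => some ((X + 1, Y - n + 1 + i), 0)) (n - r - 1)

/-- inner side -/
def T2jN (X Y : ℤ) (r n : ℕ) : List (Port (ℤ × ℤ)) :=
  fl (fun i => some ((X + 1 + i, Y - r), 1)) (r - 1)

/-- inner side -/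
def T2jW (X Y : ℤ) (r n : ℕ) : List (Port (ℤ × ℤ)) :=
  fl (fun i => some ((X + r + 1, Y - r + 1 + i), 0)) (2 * r - 1)

/-- inner side -/
def T2jS (X Y : ℤ) (r n : ℕ) : List (Port (ℤ × ℤ)) :=
  fl (fun i => some ((X + r - i, Y + r + 1), 3)) (2 * r - 1)

/-- inner side -/
def T2jE (X Y : ℤ) (r n : ℕ) : List (Port (ℤ × ℤ)) :=
  fl (fun i => some ((X - r, Y + r - i), 2)) (r - 1)

/-- wall -/
def T2nS (X Y : ℤ) (r n : ℕ) : List (Port (ℤ × ℤ)) :=
  fl (fun i => some ((X - r - i, Y + 1), 3)) (n - r - 1)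

/-- outer side -/
def T2oW (X Y : ℤ) (r n : ℕ) : List (Port (ℤ × ℤ)) :=
  fl (fun i => some ((X - n + 1, Y + 1 + i), 0)) (n - 1)

/-- outer side -/
def T2oN (X Y : ℤ) (r n : ℕ) : List (Port (ℤ × ℤ)) :=
  fl (fun i => some ((X - n + 1 + i, Y + n), 1)) (2 * n - 1)

/-- outer side -/
def T2oE (X Y : ℤ) (r n : ℕ) : List (Port (ℤ × ℤ)) :=
  fl (fun i => some ((X + n, Y + n - i), 2)) (2 * n - 1)

/-- outer side -/
def T2oS (X Y : ℤ) (r n : ℕ) : List (Port (ℤ × ℤ)) :=
  fl (fun i => some ((X + n - i, Y - n + 1), 3)) (n - 1)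

theorem ta2_chain (hr : 1 ≤ r) (hn : r + 1 ≤ n) : List.IsChain (Nx (Xr249.full (TA2 X Y r n)).gl)
    (T2nW X Y r n ++ (T2jN X Y r n ++ (T2jW X Y r n ++ (T2jS X Y r n ++ (T2jE X Y r n ++ (T2nS X Y r n ++ (T2oW X Y r n ++ (T2oN X Y r n ++ (T2oE X Y r n ++ (T2oS X Y r n ++ [some ((X + 1, Y - n + 1), 0)])))))))))) := by
  refine fl_fl_chain (fun i hi => ?_) ?_ ?_
  · refine nx_eq ((nx_straight (x := X + 1) (y := Y - n + 1 + i)).1 ?_ ?_) rfl
      (pe (by omega) (by omega))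
    · rw [Xr249.full_v, mem_TA2, mem_TA2]; unfold InT2; simp only; omega
    · rw [Xr249.full_h, mem_TA2, mem_TA2]; unfold InT2; simp only; omega
  · refine nx_eq ((nx4 (x := X + 1) (y := Y - r)).1 ?_) (pe (by omega) (by omega))
      (pe (by omega) (by omega))
    rw [Xr249.full_v, mem_TA2, mem_TA2]; unfold InT2; simp only; omega
  refine fl_fl_chain (fun i hi => ?_) ?_ ?_
  · refine nx_eq ((nx_straight (x := X + 1 + i) (y := Y - r)).2.1 ?_ ?_) rfl
      (pe (by omega) (by omega))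
    · rw [Xr249.full_h, mem_TA2, mem_TA2]; unfold InT2; simp only; omega
    · rw [Xr249.full_v, mem_TA2, mem_TA2]; unfold InT2; simp only; omega
  · refine nx_eq ((nx_reflex (x := X + r) (y := Y - r)).2.1 ?_ ?_ ?_)
      (pe (by omega) (by omega)) (pe (by omega) (by omega))
    · rw [Xr249.full_h, mem_TA2, mem_TA2]; unfold InT2; simp only; omega
    · rw [Xr249.full_v, mem_TA2, mem_TA2]; unfold InT2; simp only; omega
    · rw [Xr249.full_h, mem_TA2, mem_TA2]; unfold InT2; simp only; omega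
  refine fl_fl_chain (fun i hi => ?_) ?_ ?_
  · refine nx_eq ((nx_straight (x := X + r + 1) (y := Y - r + 1 + i)).1 ?_ ?_) rfl
      (pe (by omega) (by omega))
    · rw [Xr249.full_v, mem_TA2, mem_TA2]; unfold InT2; simp only; omega
    · rw [Xr249.full_h, mem_TA2, mem_TA2]; unfold InT2; simp only; omega
  · refine nx_eq ((nx_reflex (x := X + r + 1) (y := Y + r)).1 ?_ ?_ ?_)
      (pe (by omega) (by omega)) (pe (by omega) (by omega))
    · rw [Xr249.full_v, mem_TA2, mem_TA2]; unfold InT2; simp only; omega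
    · rw [Xr249.full_h, mem_TA2, mem_TA2]; unfold InT2; simp only; omega
    · rw [Xr249.full_v, mem_TA2, mem_TA2]; unfold InT2; simp only; omega
  refine fl_fl_chain (fun i hi => ?_) ?_ ?_
  · refine nx_eq ((nx_straight (x := X + r - i) (y := Y + r + 1)).2.2.2 ?_ ?_) rfl
      (pe (by omega) (by omega))
    · rw [Xr249.full_h, mem_TA2, mem_TA2]; unfold InT2; simp only; omega
    · rw [Xr249.full_v, mem_TA2, mem_TA2]; unfold InT2; simp only; omega
  · refine nx_eq ((nx_reflex (x := X - r + 1) (y := Y + r + 1)).2.2.2 ?_ ?_ ?_)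
      (pe (by omega) (by omega)) (pe (by omega) (by omega))
    · rw [Xr249.full_h, mem_TA2, mem_TA2]; unfold InT2; simp only; omega
    · rw [Xr249.full_v, mem_TA2, mem_TA2]; unfold InT2; simp only; omega
    · rw [Xr249.full_h, mem_TA2, mem_TA2]; unfold InT2; simp only; omega
  refine fl_fl_chain (fun i hi => ?_) ?_ ?_
  · refine nx_eq ((nx_straight (x := X - r) (y := Y + r - i)).2.2.1 ?_ ?_) rfl
      (pe (by omega) (by omega))
    · rw [Xr249.full_v, mem_TA2, mem_TA2]; unfold InT2; simp only; omega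
    · rw [Xr249.full_h, mem_TA2, mem_TA2]; unfold InT2; simp only; omega
  · refine nx_eq ((nx4 (x := X - r) (y := Y + 1)).2.2.1 ?_) (pe (by omega) (by omega))
      (pe (by omega) (by omega))
    rw [Xr249.full_v, mem_TA2, mem_TA2]; unfold InT2; simp only; omega
  refine fl_fl_chain (fun i hi => ?_) ?_ ?_
  · refine nx_eq ((nx_straight (x := X - r - i) (y := Y + 1)).2.2.2 ?_ ?_) rfl
      (pe (by omega) (by omega))
    · rw [Xr249.full_h, mem_TA2, mem_TA2]; unfold InT2; simp only; omega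
    · rw [Xr249.full_v, mem_TA2, mem_TA2]; unfold InT2; simp only; omega
  · refine nx_eq ((nx4 (x := X - n + 1) (y := Y + 1)).2.2.2 ?_) (pe (by omega) (by omega))
      (pe (by omega) (by omega))
    rw [Xr249.full_h, mem_TA2, mem_TA2]; unfold InT2; simp only; omega
  refine fl_fl_chain (fun i hi => ?_) ?_ ?_
  · refine nx_eq ((nx_straight (x := X - n + 1) (y := Y + 1 + i)).1 ?_ ?_) rfl
      (pe (by omega) (by omega))
    · rw [Xr249.full_v, mem_TA2, mem_TA2]; unfold InT2; simp only; omega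
    · rw [Xr249.full_h, mem_TA2, mem_TA2]; unfold InT2; simp only; omega
  · refine nx_eq ((nx4 (x := X - n + 1) (y := Y + n)).1 ?_) (pe (by omega) (by omega))
      (pe (by omega) (by omega))
    rw [Xr249.full_v, mem_TA2, mem_TA2]; unfold InT2; simp only; omega
  refine fl_fl_chain (fun i hi => ?_) ?_ ?_
  · refine nx_eq ((nx_straight (x := X - n + 1 + i) (y := Y + n)).2.1 ?_ ?_) rfl
      (pe (by omega) (by omega))
    · rw [Xr249.full_h, mem_TA2, mem_TA2]; unfold InT2; simp only; omega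
    · rw [Xr249.full_v, mem_TA2, mem_TA2]; unfold InT2; simp only; omega
  · refine nx_eq ((nx4 (x := X + n) (y := Y + n)).2.1 ?_) (pe (by omega) (by omega))
      (pe (by omega) (by omega))
    rw [Xr249.full_h, mem_TA2, mem_TA2]; unfold InT2; simp only; omega
  refine fl_fl_chain (fun i hi => ?_) ?_ ?_
  · refine nx_eq ((nx_straight (x := X + n) (y := Y + n - i)).2.2.1 ?_ ?_) rfl
      (pe (by omega) (by omega))
    · rw [Xr249.full_v, mem_TA2, mem_TA2]; unfold InT2; simp only; omega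
    · rw [Xr249.full_h, mem_TA2, mem_TA2]; unfold InT2; simp only; omega
  · refine nx_eq ((nx4 (x := X + n) (y := Y - n + 1)).2.2.1 ?_) (pe (by omega) (by omega))
      (pe (by omega) (by omega))
    rw [Xr249.full_v, mem_TA2, mem_TA2]; unfold InT2; simp only; omega
  refine fl_app_chain (fun i hi => ?_) ?_ (by simp)
  · refine nx_eq ((nx_straight (x := X + n - i) (y := Y - n + 1)).2.2.2 ?_ ?_) rfl
      (pe (by omega) (by omega))
    · rw [Xr249.full_h, mem_TA2, mem_TA2]; unfold InT2; simp only; omega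
    · rw [Xr249.full_v, mem_TA2, mem_TA2]; unfold InT2; simp only; omega
  · refine nx_eq ((nx4 (x := X + 1) (y := Y - n + 1)).2.2.2 ?_) (pe (by omega) (by omega))
      (pe (by omega) (by omega))
    rw [Xr249.full_h, mem_TA2, mem_TA2]; unfold InT2; simp only; omega

/-- **the word of the region `TA2`** -/
theorem ta2_word (X Y : ℤ) (r n : ℕ) (hr : 1 ≤ r) (hn : r + 1 ≤ n) :
    ∃ w : Wd (ℤ × ℤ), RW (Xr249.full (TA2 X Y r n)) w (X + 1, Y - n + 1) ∧ Sw300.Fc w ∧
    Sw300.L w = none :: (T2nW X Y r n ++ (T2jN X Y r n ++ (T2jW X Y r n ++ (T2jS X Y r n ++ (T2jE X Y r n ++ (T2nS X Y r n ++ (T2oW X Y r n ++ (T2oN X Y r n ++ (T2oE X Y r n ++ (T2oS X Y r n)))))))))) := by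
  have hw0 : ∃ l, T2nW X Y r n = some ((X + 1, Y - n + 1), 0) :: l := by
    obtain ⟨l, hl⟩ := fl_cons (fun i : ℕ => (some ((X + 1, Y - n + 1 + i), 0) : Port (ℤ × ℤ)))
      (n - r - 1)
    exact ⟨l, by unfold T2nW; rw [hl]; simp⟩
  obtain ⟨l', hl'⟩ := hw0
  have hch := ta2_chain (X := X) (Y := Y) hr hn
  rw [hl'] at hch
  have hch' : List.IsChain (Nx (Xr249.full (TA2 X Y r n)).gl) (some ((X + 1, Y - n + 1), 0) ::
      ((l' ++ (T2jN X Y r n ++ (T2jW X Y r n ++ (T2jS X Y r n ++ (T2jE X Y r n ++ (T2nS X Y r n ++ (T2oW X Y r n ++ (T2oN X Y r n ++ (T2oE X Y r n ++ (T2oS X Y r n)))))))))) ++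
        [some ((X + 1, Y - n + 1), 0)])) := by
    simpa [List.append_assoc] using hch
  have hne : some ((X + 1, Y - n + 1), (0 : ZMod 4)) ∉ l' ++ (T2jN X Y r n ++ (T2jW X Y r n ++ (T2jS X Y r n ++ (T2jE X Y r n ++ (T2nS X Y r n ++ (T2oW X Y r n ++ (T2oN X Y r n ++ (T2oE X Y r n ++ (T2oS X Y r n))))))))) := by
    have k1 : some ((X + 1, Y - n + 1), (0 : ZMod 4)) ∉ l' := by
      have hw : wS ((X + 1, Y - n + 1).1) ((X + 1, Y - n + 1).2) (n - r - 1) = T2nW X Y r n := rfl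
      exact nodup_head (hw.trans hl')
    simp only [List.mem_append, not_or]
    refine ⟨k1, ?_, ?_, ?_, ?_, ?_, ?_, ?_, ?_, ?_⟩
    all_goals
      intro hm
      obtain ⟨i, hi', hi⟩ := mem_fl.1 hm
      simp only [Option.some.injEq, Prod.mk.injEq] at hi
      first
        | exact absurd hi.2 (by decide)
        | omega
  obtain ⟨w, h1, h2, h3⟩ := word_of_chain (ta2_sc hr hn) (ta2_conn hr hn) (ta2_run hr hn) hch' hne
  exact ⟨w, h1, h2, by rw [h3, hl']; simp⟩

/-- three quarter annulus, missing quadrant `x > X`, `y ≤ Y` -/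
def InT3 (X Y : ℤ) (r n : ℕ) (p : ℤ × ℤ) : Prop :=
  (X - n < p.1 ∧ p.1 ≤ X + n ∧ Y - n < p.2 ∧ p.2 ≤ Y + n) ∧
    ¬ (X - r < p.1 ∧ p.1 ≤ X + r ∧ Y - r < p.2 ∧ p.2 ≤ Y + r) ∧ ¬ (X < p.1 ∧ p.2 ≤ Y)

open Classical in
/-- three quarter annulus, missing quadrant `x > X`, `y ≤ Y` (`Finset`) -/
noncomputable def TA3 (X Y : ℤ) (r n : ℕ) : Finset (ℤ × ℤ) :=
  ((Finset.Icc (X - n) (X + n)) ×ˢ (Finset.Icc (Y - n) (Y + n))).filter (InT3 X Y r n)

theorem mem_TA3 {t : ℤ × ℤ} : t ∈ TA3 X Y r n ↔ InT3 X Y r n t := by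
  simp only [TA3, Finset.mem_filter, Finset.mem_product, Finset.mem_Icc]
  refine ⟨fun h => h.2, fun h => ⟨?_, h⟩⟩
  unfold InT3 at h; omega

theorem ta3_full (x y : ℤ) (hr : 1 ≤ r) : FullAt (Xr249.full (TA3 X Y r n)) x y := by
  refine full_at ?_ ?_ <;>
    (simp only [mem_TA3]; unfold InT3; simp only; intro h h'; omega)

theorem gs_t3 (hr : 1 ≤ r) (hn : r + 1 ≤ n) : GS X Y n (InT3 X Y r n) := by
  refine (gs_t2 hr hn).rot fun x y => ?_
  unfold InT3 InT2; simp only; omega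

theorem ta3_sc (hr : 1 ≤ r) (hn : r + 1 ≤ n) : (Xr249.full (TA3 X Y r n)).SC :=
  (gs_t3 hr hn).sc fun _ => mem_TA3

theorem ta3_conn (hr : 1 ≤ r) (hn : r + 1 ≤ n) : (Xr249.full (TA3 X Y r n)).Conn :=
  (gs_t3 hr hn).conn fun _ => mem_TA3

theorem ta3_run (hr : 1 ≤ r) (hn : r + 1 ≤ n) :
    (Xr249.full (TA3 X Y r n)).IsRun (X + r + 1) (X + n) (Y + 1) := by
  refine ⟨by omega, ?_, fun x h1 h2 => ?_, ?_, ?_⟩
  · rw [Xr249.full_P, mem_TA3]; unfold InT3; simp only; omega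
  · rw [Xr249.full_h, mem_TA3, mem_TA3]; unfold InT3; simp only; omega
  · rw [Xr249.full_h, mem_TA3, mem_TA3]; unfold InT3; simp only; omega
  · rw [Xr249.full_h, mem_TA3, mem_TA3]; unfold InT3; simp only; omega

/-- inner side -/
def T3jW (X Y : ℤ) (r n : ℕ) : List (Port (ℤ × ℤ)) :=
  fl (fun i => some ((X + r + 1, Y + 1 + i), 0)) (r - 1)

/-- inner side -/
def T3jS (X Y : ℤ) (r n : ℕ) : List (Port (ℤ × ℤ)) :=
  fl (fun i => some ((X + r - i, Y + r + 1), 3)) (2 * r - 1)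

/-- inner side -/
def T3jE (X Y : ℤ) (r n : ℕ) : List (Port (ℤ × ℤ)) :=
  fl (fun i => some ((X - r, Y + r - i), 2)) (2 * r - 1)

/-- inner side -/
def T3jN (X Y : ℤ) (r n : ℕ) : List (Port (ℤ × ℤ)) :=
  fl (fun i => some ((X - r + 1 + i, Y - r), 1)) (r - 1)

/-- wall -/
def T3nE (X Y : ℤ) (r n : ℕ) : List (Port (ℤ × ℤ)) :=
  fl (fun i => some ((X, Y - r - i), 2)) (n - r - 1)

/-- outer side -/
def T3oS (X Y : ℤ) (r n : ℕ) : List (Port (ℤ × ℤ)) :=
  fl (fun i => some ((X - i, Y - n + 1), 3)) (n - 1)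

/-- outer side -/
def T3oW (X Y : ℤ) (r n : ℕ) : List (Port (ℤ × ℤ)) :=
  fl (fun i => some ((X - n + 1, Y - n + 1 + i), 0)) (2 * n - 1)

/-- outer side -/
def T3oN (X Y : ℤ) (r n : ℕ) : List (Port (ℤ × ℤ)) :=
  fl (fun i => some ((X - n + 1 + i, Y + n), 1)) (2 * n - 1)

/-- outer side -/
def T3oE (X Y : ℤ) (r n : ℕ) : List (Port (ℤ × ℤ)) :=
  fl (fun i => some ((X + n, Y + n - i), 2)) (n - 1)

/-- wall -/
def T3nS (X Y : ℤ) (r n : ℕ) : List (Port (ℤ × ℤ)) :=
  fl (fun i => some ((X + n - i, Y + 1), 3)) (n - r - 1)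

theorem ta3_chain (hr : 1 ≤ r) (hn : r + 1 ≤ n) : List.IsChain (Nx (Xr249.full (TA3 X Y r n)).gl)
    (T3jW X Y r n ++ (T3jS X Y r n ++ (T3jE X Y r n ++ (T3jN X Y r n ++ (T3nE X Y r n ++ (T3oS X Y r n ++ (T3oW X Y r n ++ (T3oN X Y r n ++ (T3oE X Y r n ++ (T3nS X Y r n ++ [some ((X + r + 1, Y + 1), 0)])))))))))) := by
  refine fl_fl_chain (fun i hi => ?_) ?_ ?_
  · refine nx_eq ((nx_straight (x := X + r + 1) (y := Y + 1 + i)).1 ?_ ?_) rfl
      (pe (by omega) (by omega))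
    · rw [Xr249.full_v, mem_TA3, mem_TA3]; unfold InT3; simp only; omega
    · rw [Xr249.full_h, mem_TA3, mem_TA3]; unfold InT3; simp only; omega
  · refine nx_eq ((nx_reflex (x := X + r + 1) (y := Y + r)).1 ?_ ?_ ?_)
      (pe (by omega) (by omega)) (pe (by omega) (by omega))
    · rw [Xr249.full_v, mem_TA3, mem_TA3]; unfold InT3; simp only; omega
    · rw [Xr249.full_h, mem_TA3, mem_TA3]; unfold InT3; simp only; omega
    · rw [Xr249.full_v, mem_TA3, mem_TA3]; unfold InT3; simp only; omega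
  refine fl_fl_chain (fun i hi => ?_) ?_ ?_
  · refine nx_eq ((nx_straight (x := X + r - i) (y := Y + r + 1)).2.2.2 ?_ ?_) rfl
      (pe (by omega) (by omega))
    · rw [Xr249.full_h, mem_TA3, mem_TA3]; unfold InT3; simp only; omega
    · rw [Xr249.full_v, mem_TA3, mem_TA3]; unfold InT3; simp only; omega
  · refine nx_eq ((nx_reflex (x := X - r + 1) (y := Y + r + 1)).2.2.2 ?_ ?_ ?_)
      (pe (by omega) (by omega)) (pe (by omega) (by omega))
    · rw [Xr249.full_h, mem_TA3, mem_TA3]; unfold InT3; simp only; omega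
    · rw [Xr249.full_v, mem_TA3, mem_TA3]; unfold InT3; simp only; omega
    · rw [Xr249.full_h, mem_TA3, mem_TA3]; unfold InT3; simp only; omega
  refine fl_fl_chain (fun i hi => ?_) ?_ ?_
  · refine nx_eq ((nx_straight (x := X - r) (y := Y + r - i)).2.2.1 ?_ ?_) rfl
      (pe (by omega) (by omega))
    · rw [Xr249.full_v, mem_TA3, mem_TA3]; unfold InT3; simp only; omega
    · rw [Xr249.full_h, mem_TA3, mem_TA3]; unfold InT3; simp only; omega
  · refine nx_eq ((nx_reflex (x := X - r) (y := Y - r + 1)).2.2.1 ?_ ?_ ?_)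
      (pe (by omega) (by omega)) (pe (by omega) (by omega))
    · rw [Xr249.full_v, mem_TA3, mem_TA3]; unfold InT3; simp only; omega
    · rw [Xr249.full_h, mem_TA3, mem_TA3]; unfold InT3; simp only; omega
    · rw [Xr249.full_v, mem_TA3, mem_TA3]; unfold InT3; simp only; omega
  refine fl_fl_chain (fun i hi => ?_) ?_ ?_
  · refine nx_eq ((nx_straight (x := X - r + 1 + i) (y := Y - r)).2.1 ?_ ?_) rfl
      (pe (by omega) (by omega))
    · rw [Xr249.full_h, mem_TA3, mem_TA3]; unfold InT3; simp only; omega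
    · rw [Xr249.full_v, mem_TA3, mem_TA3]; unfold InT3; simp only; omega
  · refine nx_eq ((nx4 (x := X) (y := Y - r)).2.1 ?_) (pe (by omega) (by omega))
      (pe (by omega) (by omega))
    rw [Xr249.full_h, mem_TA3, mem_TA3]; unfold InT3; simp only; omega
  refine fl_fl_chain (fun i hi => ?_) ?_ ?_
  · refine nx_eq ((nx_straight (x := X) (y := Y - r - i)).2.2.1 ?_ ?_) rfl
      (pe (by omega) (by omega))
    · rw [Xr249.full_v, mem_TA3, mem_TA3]; unfold InT3; simp only; omega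
    · rw [Xr249.full_h, mem_TA3, mem_TA3]; unfold InT3; simp only; omega
  · refine nx_eq ((nx4 (x := X) (y := Y - n + 1)).2.2.1 ?_) (pe (by omega) (by omega))
      (pe (by omega) (by omega))
    rw [Xr249.full_v, mem_TA3, mem_TA3]; unfold InT3; simp only; omega
  refine fl_fl_chain (fun i hi => ?_) ?_ ?_
  · refine nx_eq ((nx_straight (x := X - i) (y := Y - n + 1)).2.2.2 ?_ ?_) rfl
      (pe (by omega) (by omega))
    · rw [Xr249.full_h, mem_TA3, mem_TA3]; unfold InT3; simp only; omega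
    · rw [Xr249.full_v, mem_TA3, mem_TA3]; unfold InT3; simp only; omega
  · refine nx_eq ((nx4 (x := X - n + 1) (y := Y - n + 1)).2.2.2 ?_) (pe (by omega) (by omega))
      (pe (by omega) (by omega))
    rw [Xr249.full_h, mem_TA3, mem_TA3]; unfold InT3; simp only; omega
  refine fl_fl_chain (fun i hi => ?_) ?_ ?_
  · refine nx_eq ((nx_straight (x := X - n + 1) (y := Y - n + 1 + i)).1 ?_ ?_) rfl
      (pe (by omega) (by omega))
    · rw [Xr249.full_v, mem_TA3, mem_TA3]; unfold InT3; simp only; omega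
    · rw [Xr249.full_h, mem_TA3, mem_TA3]; unfold InT3; simp only; omega
  · refine nx_eq ((nx4 (x := X - n + 1) (y := Y + n)).1 ?_) (pe (by omega) (by omega))
      (pe (by omega) (by omega))
    rw [Xr249.full_v, mem_TA3, mem_TA3]; unfold InT3; simp only; omega
  refine fl_fl_chain (fun i hi => ?_) ?_ ?_
  · refine nx_eq ((nx_straight (x := X - n + 1 + i) (y := Y + n)).2.1 ?_ ?_) rfl
      (pe (by omega) (by omega))
    · rw [Xr249.full_h, mem_TA3, mem_TA3]; unfold InT3; simp only; omega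
    · rw [Xr249.full_v, mem_TA3, mem_TA3]; unfold InT3; simp only; omega
  · refine nx_eq ((nx4 (x := X + n) (y := Y + n)).2.1 ?_) (pe (by omega) (by omega))
      (pe (by omega) (by omega))
    rw [Xr249.full_h, mem_TA3, mem_TA3]; unfold InT3; simp only; omega
  refine fl_fl_chain (fun i hi => ?_) ?_ ?_
  · refine nx_eq ((nx_straight (x := X + n) (y := Y + n - i)).2.2.1 ?_ ?_) rfl
      (pe (by omega) (by omega))
    · rw [Xr249.full_v, mem_TA3, mem_TA3]; unfold InT3; simp only; omega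
    · rw [Xr249.full_h, mem_TA3, mem_TA3]; unfold InT3; simp only; omega
  · refine nx_eq ((nx4 (x := X + n) (y := Y + 1)).2.2.1 ?_) (pe (by omega) (by omega))
      (pe (by omega) (by omega))
    rw [Xr249.full_v, mem_TA3, mem_TA3]; unfold InT3; simp only; omega
  refine fl_app_chain (fun i hi => ?_) ?_ (by simp)
  · refine nx_eq ((nx_straight (x := X + n - i) (y := Y + 1)).2.2.2 ?_ ?_) rfl
      (pe (by omega) (by omega))
    · rw [Xr249.full_h, mem_TA3, mem_TA3]; unfold InT3; simp only; omega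
    · rw [Xr249.full_v, mem_TA3, mem_TA3]; unfold InT3; simp only; omega
  · refine nx_eq ((nx4 (x := X + r + 1) (y := Y + 1)).2.2.2 ?_) (pe (by omega) (by omega))
      (pe (by omega) (by omega))
    rw [Xr249.full_h, mem_TA3, mem_TA3]; unfold InT3; simp only; omega

/-- **the word of the region `TA3`** -/
theorem ta3_word (X Y : ℤ) (r n : ℕ) (hr : 1 ≤ r) (hn : r + 1 ≤ n) :
    ∃ w : Wd (ℤ × ℤ), RW (Xr249.full (TA3 X Y r n)) w (X + r + 1, Y + 1) ∧ Sw300.Fc w ∧
    Sw300.L w = none :: (T3jW X Y r n ++ (T3jS X Y r n ++ (T3jE X Y r n ++ (T3jN X Y r n ++ (T3nE X Y r n ++ (T3oS X Y r n ++ (T3oW X Y r n ++ (T3oN X Y r n ++ (T3oE X Y r n ++ (T3nS X Y r n)))))))))) := by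
  have hw0 : ∃ l, T3jW X Y r n = some ((X + r + 1, Y + 1), 0) :: l := by
    obtain ⟨l, hl⟩ := fl_cons (fun i : ℕ => (some ((X + r + 1, Y + 1 + i), 0) : Port (ℤ × ℤ)))
      (r - 1)
    exact ⟨l, by unfold T3jW; rw [hl]; simp⟩
  obtain ⟨l', hl'⟩ := hw0
  have hch := ta3_chain (X := X) (Y := Y) hr hn
  rw [hl'] at hch
  have hch' : List.IsChain (Nx (Xr249.full (TA3 X Y r n)).gl) (some ((X + r + 1, Y + 1), 0) ::
      ((l' ++ (T3jS X Y r n ++ (T3jE X Y r n ++ (T3jN X Y r n ++ (T3nE X Y r n ++ (T3oS X Y r n ++ (T3oW X Y r n ++ (T3oN X Y r n ++ (T3oE X Y r n ++ (T3nS X Y r n)))))))))) ++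
        [some ((X + r + 1, Y + 1), 0)])) := by
    simpa [List.append_assoc] using hch
  have hne : some ((X + r + 1, Y + 1), (0 : ZMod 4)) ∉ l' ++ (T3jS X Y r n ++ (T3jE X Y r n ++ (T3jN X Y r n ++ (T3nE X Y r n ++ (T3oS X Y r n ++ (T3oW X Y r n ++ (T3oN X Y r n ++ (T3oE X Y r n ++ (T3nS X Y r n))))))))) := by
    have k1 : some ((X + r + 1, Y + 1), (0 : ZMod 4)) ∉ l' := by
      have hw : wS ((X + r + 1, Y + 1).1) ((X + r + 1, Y + 1).2) (r - 1) = T3jW X Y r n := rfl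
      exact nodup_head (hw.trans hl')
    simp only [List.mem_append, not_or]
    refine ⟨k1, ?_, ?_, ?_, ?_, ?_, ?_, ?_, ?_, ?_⟩
    all_goals
      intro hm
      obtain ⟨i, hi', hi⟩ := mem_fl.1 hm
      simp only [Option.some.injEq, Prod.mk.injEq] at hi
      first
        | exact absurd hi.2 (by decide)
        | omega
  obtain ⟨w, h1, h2, h3⟩ := word_of_chain (ta3_sc hr hn) (ta3_conn hr hn) (ta3_run hr hn) hch' hne
  exact ⟨w, h1, h2, by rw [h3, hl']; simp⟩

end Crest.Agent.R158.Gc748
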