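import Crest.Agent.R158.Gc3_748
import Crest.Agent.R158.Gc4_748

/-!
# R158 block GC, part 5: arcs of a region versus literal face paths

`K` a region of `Xr249`, `w` a word of `K` (`RW K w b`), `s` a splitting, `M = Sw300.M s w`.
* `arcs_of_fp` : two gaps joined by a face path in the region ⟹ no arc joins the two parts
* `fp_of_arcs` : the converse
* `arm_fp` : no arc over a gap from `m1` to `m2` ⟹ face path to the outer part
* `side_fp` : both faces along an arc are joined
* `M_none`, `M_fix` : the marker is the only unmatched end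
* rectangles: `rectRW`, `rect_full`, `wall_*`
-/

set_option autoImplicit false

namespace Crest.Agent.R158.Gc748

open Crest.Agent.R158.Sw300 (Port Wd thru tl sd tls)
open Crest.Agent.R158.Cb771 (FS FP dgt)
open Crest.Agent.R158.Mr679 (Dg tb)

/-! ### the marker -/

section

variable {T : Type*} [DecidableEq T]

theorem M_none (s : T → Bool) : ∀ {w : Wd T}, Sw300.Ok w → bs w ≠ none → Sw300.M s w none = none
  | .leg, _, h => absurd rfl h
  | .tile t, _, _ => by simp [Sw300.M]
  | .att w p t d, hw, h => by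
    have hp : p ≠ none := fun e => by
      have := hw.2.2.2 e
      rw [this] at h
      exact h rfl
    have ih := M_none s hw.1 h
    simp only [Sw300.M, Sw300.tl_none, ih]
    rw [if_neg (by simp), if_neg (Ne.symm hp)]
  | .con w p q, hw, h => by
    have ih := M_none s hw.1 h
    simp only [Sw300.M, ih]
    rw [if_neg (Ne.symm hw.2.1), if_neg (Ne.symm hw.2.2.1)]

/-- in a word without leg the marker is the only unmatched end -/
theorem M_fix (s : T → Bool) {w : Wd T} (hw : Sw300.Ok w) (hb : bs w ≠ none) {p : Port T}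
    (hp : p ∈ Sw300.L w) (h : Sw300.M s w p = p) : p = none := by
  have g := gd_wd s hw
  rcases g.leg p hp h with h1 | ⟨z, h1, _⟩
  · exact h1
  · exfalso
    have h2 := ((be_state hw).gl none z).1 h1
    have h3 : ∀ {w : Wd T}, Sw300.Ok w → bs w ≠ none → Sw300.be w none = none := by
      intro w
      induction w with
      | leg => intro _ h; exact absurd rfl h
      | tile t => intro _ _; rfl
      | att w p t d ih =>
        intro hw h
        have hp : p ≠ none := fun e => by
          have := hw.2.2.2 e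
          rw [this] at h
          exact h rfl
        simp only [Sw300.be, if_neg (Ne.symm hp)]
        rw [if_neg (by simp)]
        exact ih hw.1 h
      | con w p q ih =>
        intro hw h
        simp only [Sw300.be, if_neg (Ne.symm hw.2.1), if_neg (Ne.symm hw.2.2.1)]
        exact ih hw.1 h
    exact h2.2 (by rw [← h2.1, h3 hw hb])

end

/-! ### regions -/

variable {K : Xr249.Reg} {w : Wd (ℤ × ℤ)} {b : ℤ × ℤ} {s : ℤ × ℤ → Bool}

/-- the faces on the left and on the right of an arc are joined in the region -/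
theorem side_fp (h : RW K w b) {p : Port (ℤ × ℤ)} (hp : p ∈ Sw300.L w) :
    FP s (fun t => t ∈ K.P) (fa (b + off 0) (rc p)) (fa (b + off 0) (lc (Sw300.M s w p))) := by
  have g := h.gd s
  refine fp_of_R h (g.side p hp) ?_
  match p, g.inL p hp with
  | none, hT => exact hT
  | some (t, d), hT => rw [rc_some]; exact inT_pt.2 (inT_pt.1 hT)

/-- **no arc crosses a face path**: two gaps joined by a face path of the region -/
theorem arcs_of_fp (h : RW K w b) (hf : ∀ x y, FullAt K x y) {t t' : ℤ × ℤ} {k k' : ZMod 4}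
    {m m' : List (Port (ℤ × ℤ))} (hr : Sw300.L w ~r (some (t, k) :: m) ++ (some (t', k') :: m'))
    (hp : FP s (fun t => t ∈ K.P) (t + off k) (t' + off k')) :
    ∀ y ∈ some (t, k) :: m, Sw300.M s w y ∈ some (t, k) :: m := by
  have g := h.gd s
  have h1 : (some (t, k) : Port (ℤ × ℤ)) ∈ Sw300.L w := hr.mem_iff.2 (by simp)
  have h2 : (some (t', k') : Port (ℤ × ℤ)) ∈ Sw300.L w := hr.mem_iff.2 (by simp)
  have ht : t ∈ K.P := h.ts.1 (inT_pt.1 (g.inL _ h1))
  have ht' : t' ∈ K.P := h.ts.1 (inT_pt.1 (g.inL _ h2))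
  exact (g.conn_iff' hr).1 (R_of_fp h hf hp ht ht' rfl rfl)

/-- two gaps not separated by an arc are joined by a face path of the region -/
theorem fp_of_arcs (h : RW K w b) {a z : Port (ℤ × ℤ)}
    {m m' : List (Port (ℤ × ℤ))} (hr : Sw300.L w ~r (a :: m) ++ (z :: m'))
    (hcl : ∀ y ∈ a :: m, Sw300.M s w y ∈ a :: m) :
    FP s (fun t => t ∈ K.P) (fa (b + off 0) a) (fa (b + off 0) z) := by
  have g := h.gd s
  have h1 : a ∈ Sw300.L w := hr.mem_iff.2 (by simp)
  exact fp_of_R h ((g.conn_iff' hr).2 hcl) (g.inL _ h1)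

/-- **arm**: no arc joins `m1` to `m2` ⟹ the gap between them is joined to a face next to an end of
the outer part `o` -/
theorem arm_fp (h : RW K w b) {m1 m2 o : List (Port (ℤ × ℤ))}
    (hr : Sw300.L w ~r m1 ++ (m2 ++ o)) (ho : o ≠ [])
    (hno : ∀ y ∈ m1, Sw300.M s w y ∉ m2) :
    ∃ v ∈ o, FP s (fun t => t ∈ K.P) (fa (b + off 0) ((m2 ++ o).headD none))
        (fa (b + off 0) (lc v)) ∨
      FP s (fun t => t ∈ K.P) (fa (b + off 0) ((m2 ++ o).headD none)) (fa (b + off 0) (rc v)) := by
  have g := (h.gd s).rotated hr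
  obtain ⟨v, hv, h1⟩ := g.arm ho hno
  have hin : inT (ts w) ((m2 ++ o).headD none) := by
    cases hm : m2 ++ o with
    | nil => exact absurd (List.append_eq_nil_iff.1 hm).2 ho
    | cons z m' => exact g.inL z (by rw [hm]; simp)
  exact ⟨v, hv, h1.imp (fun h2 => fp_of_R h h2 hin) (fun h2 => fp_of_R h h2 hin)⟩

/-! ### rectangles -/

variable {x0 y0 : ℤ} {m n : ℕ}

theorem rect_full (x y : ℤ) : FullAt (rect x0 y0 m n) x y := by
  refine ⟨?_, ?_, ?_, ?_, ?_, ?_⟩
  · intro h h'
    rw [mem_rect] at h h'; rw [rect_h]; simp only at h h'; omega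
  · intro h h'
    rw [mem_rect] at h h'; rw [rect_h]; simp only at h h'; omega
  · intro h h'
    rw [mem_rect] at h h'; rw [rect_v]; simp only at h h'; omega
  · intro h h'
    rw [mem_rect] at h h'; rw [rect_v]; simp only at h h'; omega
  · intro h h'
    rw [mem_rect] at h h'; rw [mem_rect, mem_rect]; simp only at h h' ⊢; omega
  · intro h h'
    rw [mem_rect] at h h'; rw [mem_rect, mem_rect]; simp only at h h' ⊢; omega

/-- **the rectangle word** -/
theorem rectRW (x0 y0 : ℤ) (m n : ℕ) : ∃ w, RW (rect x0 y0 m n) w (x0, y0) ∧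
    Sw300.L w = none :: (wS x0 y0 n ++ (nS x0 y0 m n ++ (eS x0 y0 m n ++ sS x0 y0 m))) := by
  obtain ⟨w, h1, _, h3, h4, h5, h6⟩ := rect_word x0 y0 m n
  exact ⟨w, ⟨h1, by rw [← bas_eq]; exact h3, h4, h5⟩, h6⟩

/-- splitting the list `f 0, …, f m` before `f i` -/
theorem fl_split {α : Type*} (f : ℕ → α) : ∀ (m i : ℕ), i ≤ m →
    ∃ l1 l2, fl f m = l1 ++ f i :: l2 ∧ (∀ x, x ∈ l1 ↔ ∃ j < i, x = f j) ∧
      ∀ x, x ∈ l2 ↔ ∃ j, i < j ∧ j ≤ m ∧ x = f j
  | 0, i, h => by
    have : i = 0 := by omega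
    subst this
    refine ⟨[], [], rfl, by simp, fun x => ⟨by simp, ?_⟩⟩
    rintro ⟨j, h1, h2, _⟩; omega
  | m + 1, i, h => by
    rcases Nat.lt_or_ge i (m + 1) with h1 | h1
    · obtain ⟨l1, l2, e, h2, h3⟩ := fl_split f m i (by omega)
      refine ⟨l1, l2 ++ [f (m + 1)], by simp only [fl, e]; simp, h2, fun x => ?_⟩
      rw [List.mem_append, h3, List.mem_singleton]
      constructor
      · rintro (⟨j, hj1, hj2, hj3⟩ | hx)
        · exact ⟨j, hj1, by omega, hj3⟩
        · exact ⟨m + 1, by omega, le_rfl, hx⟩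
      · rintro ⟨j, hj1, hj2, hj3⟩
        rcases Nat.lt_or_ge j (m + 1) with h4 | h4
        · exact Or.inl ⟨j, hj1, by omega, hj3⟩
        · exact Or.inr (by rw [hj3, show j = m + 1 by omega])
    · have : i = m + 1 := by omega
      subst this
      refine ⟨fl f m, [], by simp only [fl], fun x => ?_, fun x => ⟨by simp, ?_⟩⟩
      · rw [mem_fl]
        exact ⟨fun ⟨j, hj, hx⟩ => ⟨j, by omega, hx⟩, fun ⟨j, hj, hx⟩ => ⟨j, by omega, hx⟩⟩
      · rintro ⟨j, h1, h2, _⟩; omega

/-! ### one side of the ring -/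

section side

variable {f : ℕ → Port (ℤ × ℤ)} {M0 : ℕ} {A : List (Port (ℤ × ℤ))}

/-- no arc of the side passes over the gap before `f i0` ⟹ the gap is joined to the outer part -/
theorem side_arm (h : RW K w b) (hr : Sw300.L w ~r fl f M0 ++ A) (hA : A ≠ []) {i0 : ℕ}
    (h0 : i0 ≤ M0)
    (hno : ∀ i j, i < i0 → i0 ≤ j → j ≤ M0 → Sw300.M s w (f i) ≠ f j) :
    ∃ v ∈ A, FP s (fun t => t ∈ K.P) (fa (b + off 0) (f i0)) (fa (b + off 0) (lc v)) ∨
      FP s (fun t => t ∈ K.P) (fa (b + off 0) (f i0)) (fa (b + off 0) (rc v)) := by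
  obtain ⟨l1, l2, e, h1, h2⟩ := fl_split f M0 i0 h0
  have hr' : Sw300.L w ~r l1 ++ ((f i0 :: l2) ++ A) := by
    rw [e] at hr; simpa using hr
  obtain ⟨v, hv, h3⟩ := arm_fp (s := s) h hr' hA (by
    intro y hy hM
    obtain ⟨i, hi, rfl⟩ := (h1 y).1 hy
    rcases List.mem_cons.1 hM with hM | hM
    · exact hno i i0 hi le_rfl h0 hM
    · obtain ⟨j, hj1, hj2, hj3⟩ := (h2 _).1 hM
      exact hno i j hi (by omega) hj2 hj3)
  exact ⟨v, hv, h3⟩

/-- a face path from the gap before `f i0` to an outer gap ⟹ no arc of the side passes over it -/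
theorem side_cross (h : RW K w b) (hf : ∀ x y, FullAt K x y) (hr : Sw300.L w ~r fl f M0 ++ A)
    {i0 : ℕ} (h0 : i0 ≤ M0) {v : Port (ℤ × ℤ)} (hv : v ∈ A) (hvn : v ≠ none) (hfn : f i0 ≠ none)
    (hp : FP s (fun t => t ∈ K.P) (fa (b + off 0) (f i0)) (fa (b + off 0) v)) :
    ∀ i j, i < i0 → i0 ≤ j → j ≤ M0 → Sw300.M s w (f i) ≠ f j := by
  obtain ⟨l1, l2, e, h1, h2⟩ := fl_split f M0 i0 h0
  obtain ⟨A1, A2, hA⟩ := List.append_of_mem hv
  have g := h.gd s
  intro i j hi hj1 hj2 hM
  obtain ⟨⟨t, k⟩, hv'⟩ := Option.ne_none_iff_exists'.1 hvn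
  obtain ⟨⟨t', k'⟩, hf'⟩ := Option.ne_none_iff_exists'.1 hfn
  have hr' : Sw300.L w ~r (v :: (A2 ++ l1)) ++ (f i0 :: (l2 ++ A1)) := by
    refine hr.trans ?_
    rw [e, hA]
    have := rot_app (l1 ++ f i0 :: l2 ++ A1) (v :: A2)
    simpa using this
  have hnd := (g.rotated hr').nodup
  rw [hv', hf'] at hr' hp
  have := arcs_of_fp h hf hr' (FP.symm (by simpa using hp)) (f i) (by
    refine List.mem_cons_of_mem _ (List.mem_append_right _ ((h1 _).2 ⟨i, hi, rfl⟩)))
  rw [hM, ← hv'] at this
  have hj : f j ∈ f i0 :: (l2 ++ A1) := by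
    rcases Nat.lt_or_ge i0 j with h3 | h3
    · exact List.mem_cons_of_mem _ (List.mem_append_left _ ((h2 _).2 ⟨j, h3, hj2, rfl⟩))
    · have : j = i0 := by omega
      rw [this]; simp
  exact (List.nodup_append.1 hnd).2.2 _ this _ hj rfl

/-- two gaps of the side joined by a face path ⟹ the ends between them are matched among
themselves -/
theorem side_match (h : RW K w b) (hf : ∀ x y, FullAt K x y) (hr : Sw300.L w ~r fl f M0 ++ A)
    {i0 i1 : ℕ} (h01 : i0 < i1) (h1 : i1 ≤ M0) (hfn : ∀ i, f i ≠ none)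
    (hp : FP s (fun t => t ∈ K.P) (fa (b + off 0) (f i0)) (fa (b + off 0) (f i1))) :
    ∀ i, i0 ≤ i → i < i1 → ∃ j, i0 ≤ j ∧ j < i1 ∧ Sw300.M s w (f i) = f j := by
  obtain ⟨l1, l2, e, k1, k2⟩ := fl_split f M0 i1 h1
  obtain ⟨l3, l4, e', k3, k4⟩ := fl_split f (i1 - 1) i0 (by omega)
  have e1 : l1 = l3 ++ f i0 :: l4 := by
    -- both are `fl f (i1 - 1)`
    have key : ∀ (n i : ℕ) (l1 l2 : List (Port (ℤ × ℤ))), i ≤ n → 0 < i → fl f n = l1 ++ f i :: l2 →
        (∀ x, x ∈ l1 ↔ ∃ j < i, x = f j) → (fl f n).Nodup → l1 = fl f (i - 1) := by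
      intro n i l1 l2 hin hi hE hl1 hnd
      obtain ⟨a1, a2, ha, _, _⟩ := fl_split f n i hin
      -- prefix of `fl f n`
      have pre : ∀ n i, i ≤ n → ∃ l, fl f n = fl f i ++ l := by
        intro n
        induction n with
        | zero => intro i hi; exact ⟨[], by rw [show i = 0 by omega]; simp⟩
        | succ n ih =>
          intro i hi
          rcases Nat.lt_or_ge i (n + 1) with h3 | h3
          · obtain ⟨l, hl⟩ := ih i (by omega)
            exact ⟨l ++ [f (n + 1)], by simp only [fl, hl]; simp⟩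
          · exact ⟨[], by rw [show i = n + 1 by omega]; simp⟩
      obtain ⟨l, hl⟩ := pre n i hin
      have hi' : i - 1 + 1 = i := by omega
      have e2 : fl f n = fl f (i - 1) ++ f i :: l := by
        rw [hl]
        conv_lhs => rw [← hi']
        simp only [fl, hi']; simp
      rw [e2] at hE
      rw [e2] at hnd
      -- `f i` occurs once
      have hn1 : f i ∉ fl f (i - 1) := by
        intro hm
        exact (List.nodup_append.1 hnd).2.2 _ hm _ (by simp) rfl
      have hn2 : f i ∉ l1 := by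
        rw [hE] at hnd
        intro hm
        exact (List.nodup_append.1 hnd).2.2 _ hm _ (by simp) rfl
      have uniq : ∀ (a b c d : List (Port (ℤ × ℤ))) (x : Port (ℤ × ℤ)), x ∉ a → x ∉ c →
          a ++ x :: b = c ++ x :: d → a = c := by
        intro a
        induction a with
        | nil =>
          intro b c d x _ hc h
          cases c with
          | nil => rfl
          | cons y c =>
            simp only [List.nil_append, List.cons_append, List.cons.injEq] at h
            exact absurd (by rw [h.1]; simp) hc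
        | cons y a ih =>
          intro b c d x ha hc h
          cases c with
          | nil =>
            simp only [List.nil_append, List.cons_append, List.cons.injEq] at h
            exact absurd (by rw [h.1]; simp) ha
          | cons z c =>
            simp only [List.cons_append, List.cons.injEq] at h
            rw [h.1, ih b c d x (fun hm => ha (by simp [hm])) (fun hm => hc (by simp [hm])) h.2]
      exact (uniq _ _ _ _ _ hn1 hn2 hE).symm
    have hnd : (fl f M0).Nodup := by
      have := ((h.gd s).rotated hr).nodup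
      exact (List.nodup_append.1 this).1
    rw [key M0 i1 l1 l2 h1 (by omega) e k1 hnd, e']
  have hr' : Sw300.L w ~r (f i0 :: l4) ++ (f i1 :: (l2 ++ (A ++ l3))) := by
    refine hr.trans ?_
    rw [e, e1]
    have := rot_app l3 ((f i0 :: l4) ++ (f i1 :: l2) ++ A)
    simpa using this
  obtain ⟨⟨t, k⟩, hv'⟩ := Option.ne_none_iff_exists'.1 (hfn i0)
  obtain ⟨⟨t', k'⟩, hf'⟩ := Option.ne_none_iff_exists'.1 (hfn i1)
  have hcl : ∀ y ∈ f i0 :: l4, Sw300.M s w y ∈ f i0 :: l4 := by
    rw [hv', hf'] at hp hr'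
    rw [hv']
    exact arcs_of_fp h hf hr' (by simpa using hp)
  intro i hi0 hi1
  have hmem : ∀ j, i0 ≤ j → j < i1 → f j ∈ f i0 :: l4 := by
    intro j hj0 hj1
    rcases Nat.lt_or_ge i0 j with h3 | h3
    · exact List.mem_cons_of_mem _ ((k4 _).2 ⟨j, h3, by omega, rfl⟩)
    · rw [show j = i0 by omega]; simp
  have := hcl _ (hmem i hi0 hi1)
  rcases List.mem_cons.1 this with h3 | h3
  · exact ⟨i0, le_rfl, h01, h3⟩
  · obtain ⟨j, hj1, hj2, hj3⟩ := (k4 _).1 h3
    exact ⟨j, by omega, by omega, hj3⟩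

/-- an end of the side matched to an outer end: both its gaps are joined to the outer part -/
theorem side_out (h : RW K w b) {p : Port (ℤ × ℤ)} (hp : p ∈ Sw300.L w) :
    FP s (fun t => t ∈ K.P) (fa (b + off 0) (rc p)) (fa (b + off 0) (lc (Sw300.M s w p))) ∧
    FP s (fun t => t ∈ K.P) (fa (b + off 0) (lc p)) (fa (b + off 0) (rc (Sw300.M s w p))) := by
  have g := h.gd s
  refine ⟨side_fp h hp, ?_⟩
  have := side_fp (s := s) h (g.mem p hp)
  rw [g.inv p hp] at this
  exact this.symm

end side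

end Crest.Agent.R158.Gc748
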