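import Crest.Agent.R158.Gc5_748

/-!
# R158 block GC, part 6: boxes at a flat wall

`rectW x0 y0 m n` = word of the box of tiles `[x0, x0+m] × [y0, y0+n]`, `BM s x0 y0 m n` = its
partner map.  Floor ends `((c, y0), 3)`, ceiling ends `((c, y0+n), 1)`; the floor gap between the
columns `c` and `c+1` is the face `(c, y0-1)`, the ceiling gap is `(c, y0+n)`.
* `floor_arm` / `ceil_arm`   : no arc over the gap ⟹ face path inside the box to the outer sides
* `floor_cross` / `ceil_cross` : a face path to the outer sides ⟹ no arc over the gap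
* `floor_match` / `ceil_match` : two joined gaps ⟹ the ends between are matched among themselves
* `floor_out` / `ceil_out`   : an end matched outside of the wall has both gaps joined to the outer
  sides
-/

set_option autoImplicit false

namespace Crest.Agent.R158.Gc748

open Crest.Agent.R158.Sw300 (Port Wd thru tl sd tls)
open Crest.Agent.R158.Cb771 (FS FP dgt)

/-- the word of the box -/
noncomputable def rectW (x0 y0 : ℤ) (m n : ℕ) : Wd (ℤ × ℤ) := (rectRW x0 y0 m n).choose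

theorem rectW_rw (x0 y0 : ℤ) (m n : ℕ) : RW (rect x0 y0 m n) (rectW x0 y0 m n) (x0, y0) :=
  (rectRW x0 y0 m n).choose_spec.1

theorem rectW_L (x0 y0 : ℤ) (m n : ℕ) : Sw300.L (rectW x0 y0 m n) =
    none :: (wS x0 y0 n ++ (nS x0 y0 m n ++ (eS x0 y0 m n ++ sS x0 y0 m))) :=
  (rectRW x0 y0 m n).choose_spec.2

/-- partner map of the box -/
noncomputable def BM (s : ℤ × ℤ → Bool) (x0 y0 : ℤ) (m n : ℕ) : Port (ℤ × ℤ) → Port (ℤ × ℤ) :=
  Sw300.M s (rectW x0 y0 m n)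

variable {x0 y0 : ℤ} {m n : ℕ} {s : ℤ × ℤ → Bool}

/-- tiles of the box -/
def InR (x0 y0 : ℤ) (m n : ℕ) (t : ℤ × ℤ) : Prop :=
  x0 ≤ t.1 ∧ t.1 ≤ x0 + m ∧ y0 ≤ t.2 ∧ t.2 ≤ y0 + n

theorem inR_eq : (fun t => t ∈ (rect x0 y0 m n).P) = InR x0 y0 m n := by
  funext t; exact propext mem_rect

theorem base_face : ((x0, y0) : ℤ × ℤ) + off 0 = (x0 - 1, y0 - 1) := by
  simp only [off_0, Prod.mk_add_mk]; rfl

/-- rest of the ring after the floor -/
def oF (x0 y0 : ℤ) (m n : ℕ) : List (Port (ℤ × ℤ)) :=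
  none :: (wS x0 y0 n ++ (nS x0 y0 m n ++ eS x0 y0 m n))

/-- rest of the ring after the ceiling -/
def oC (x0 y0 : ℤ) (m n : ℕ) : List (Port (ℤ × ℤ)) :=
  eS x0 y0 m n ++ (sS x0 y0 m ++ (none :: wS x0 y0 n))

theorem ring_floor : Sw300.L (rectW x0 y0 m n) ~r sS x0 y0 m ++ oF x0 y0 m n := by
  rw [rectW_L]
  have := rot_app (oF x0 y0 m n) (sS x0 y0 m)
  simpa [oF] using this

theorem ring_ceil : Sw300.L (rectW x0 y0 m n) ~r nS x0 y0 m n ++ oC x0 y0 m n := by
  rw [rectW_L]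
  have := rot_app (none :: wS x0 y0 n) (nS x0 y0 m n ++ (eS x0 y0 m n ++ sS x0 y0 m))
  simpa [oC] using this

theorem mem_wS {p : Port (ℤ × ℤ)} : p ∈ wS x0 y0 n ↔
    ∃ y, y0 ≤ y ∧ y ≤ y0 + n ∧ p = some ((x0, y), 0) := by
  unfold wS
  rw [mem_fl]
  constructor
  · rintro ⟨i, hi, rfl⟩; exact ⟨y0 + i, by omega, by omega, rfl⟩
  · rintro ⟨y, h1, h2, rfl⟩
    refine ⟨(y - y0).toNat, by omega, ?_⟩
    rw [show y0 + (((y - y0).toNat : ℕ) : ℤ) = y by omega]

theorem mem_nS {p : Port (ℤ × ℤ)} : p ∈ nS x0 y0 m n ↔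
    ∃ x, x0 ≤ x ∧ x ≤ x0 + m ∧ p = some ((x, y0 + n), 1) := by
  unfold nS
  rw [mem_fl]
  constructor
  · rintro ⟨i, hi, rfl⟩; exact ⟨x0 + i, by omega, by omega, rfl⟩
  · rintro ⟨x, h1, h2, rfl⟩
    refine ⟨(x - x0).toNat, by omega, ?_⟩
    rw [show x0 + (((x - x0).toNat : ℕ) : ℤ) = x by omega]

theorem mem_eS {p : Port (ℤ × ℤ)} : p ∈ eS x0 y0 m n ↔
    ∃ y, y0 ≤ y ∧ y ≤ y0 + n ∧ p = some ((x0 + m, y), 2) := by
  unfold eS
  rw [mem_fl]
  constructor
  · rintro ⟨i, hi, rfl⟩; exact ⟨y0 + n - i, by omega, by omega, rfl⟩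
  · rintro ⟨y, h1, h2, rfl⟩
    refine ⟨(y0 + n - y).toNat, by omega, ?_⟩
    rw [show y0 + n - (((y0 + n - y).toNat : ℕ) : ℤ) = y by omega]

theorem mem_sS {p : Port (ℤ × ℤ)} : p ∈ sS x0 y0 m ↔
    ∃ x, x0 ≤ x ∧ x ≤ x0 + m ∧ p = some ((x, y0), 3) := by
  unfold sS
  rw [mem_fl]
  constructor
  · rintro ⟨i, hi, rfl⟩; exact ⟨x0 + m - i, by omega, by omega, rfl⟩
  · rintro ⟨x, h1, h2, rfl⟩
    refine ⟨(x0 + m - x).toNat, by omega, ?_⟩
    rw [show x0 + m - (((x0 + m - x).toNat : ℕ) : ℤ) = x by omega]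

/-- the outer faces of the box seen from the floor -/
def OutF (x0 y0 : ℤ) (m n : ℕ) (F : ℤ × ℤ) : Prop := F.1 = x0 - 1 ∨ F.1 = x0 + m ∨ F.2 = y0 + n

/-- the outer faces of the box seen from the ceiling -/
def OutC (x0 y0 : ℤ) (m : ℕ) (F : ℤ × ℤ) : Prop := F.1 = x0 - 1 ∨ F.1 = x0 + m ∨ F.2 = y0 - 1

theorem oF_out {v : Port (ℤ × ℤ)} (hv : v ∈ oF x0 y0 m n) :
    OutF x0 y0 m n (fa (x0 - 1, y0 - 1) (lc v)) ∧ OutF x0 y0 m n (fa (x0 - 1, y0 - 1) (rc v)) := by
  have a1 : (0 : ZMod 4) + 1 = 1 := by decide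
  have a2 : (1 : ZMod 4) + 1 = 2 := by decide
  have a3 : (2 : ZMod 4) + 1 = 3 := by decide
  simp only [oF, List.mem_cons, List.mem_append, mem_wS, mem_nS, mem_eS] at hv
  rcases hv with rfl | ⟨y, _, _, rfl⟩ | ⟨x, _, _, rfl⟩ | ⟨y, _, _, rfl⟩
  · exact ⟨Or.inl rfl, Or.inl rfl⟩
  · simp only [lc_some, rc_some, fa_some, a1, off_0, off_1, Prod.mk_add_mk, OutF]
    exact ⟨Or.inl (by ring), Or.inl (by ring)⟩
  · simp only [lc_some, rc_some, fa_some, a2, off_1, off_2, Prod.mk_add_mk, OutF]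
    exact ⟨Or.inr (Or.inr (by ring)), Or.inr (Or.inr (by ring))⟩
  · simp only [lc_some, rc_some, fa_some, a3, off_2, off_3, Prod.mk_add_mk, OutF]
    exact ⟨Or.inr (Or.inl (by ring)), Or.inr (Or.inl (by ring))⟩

theorem oC_out {v : Port (ℤ × ℤ)} (hv : v ∈ oC x0 y0 m n) :
    OutC x0 y0 m (fa (x0 - 1, y0 - 1) (lc v)) ∧ OutC x0 y0 m (fa (x0 - 1, y0 - 1) (rc v)) := by
  have a1 : (0 : ZMod 4) + 1 = 1 := by decide
  have a3 : (2 : ZMod 4) + 1 = 3 := by decide
  have a4 : (3 : ZMod 4) + 1 = 0 := by decide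
  simp only [oC, List.mem_cons, List.mem_append, mem_wS, mem_sS, mem_eS] at hv
  rcases hv with ⟨y, _, _, rfl⟩ | ⟨x, _, _, rfl⟩ | rfl | ⟨y, _, _, rfl⟩
  · simp only [lc_some, rc_some, fa_some, a3, off_2, off_3, Prod.mk_add_mk, OutC]
    exact ⟨Or.inr (Or.inl (by ring)), Or.inr (Or.inl (by ring))⟩
  · simp only [lc_some, rc_some, fa_some, a4, off_3, off_0, Prod.mk_add_mk, OutC]
    exact ⟨Or.inr (Or.inr (by ring)), Or.inr (Or.inr (by ring))⟩
  · exact ⟨Or.inl rfl, Or.inl rfl⟩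
  · simp only [lc_some, rc_some, fa_some, a1, off_0, off_1, Prod.mk_add_mk, OutC]
    exact ⟨Or.inl (by ring), Or.inl (by ring)⟩

/-- a face path inside the box stays on faces of the box -/
theorem fp_face {F G : ℤ × ℤ} (h : FP s (InR x0 y0 m n) F G) (hne : F ≠ G) :
    (x0 - 1 ≤ G.1 ∧ G.1 ≤ x0 + m ∧ y0 - 1 ≤ G.2 ∧ G.2 ≤ y0 + n) := by
  rcases Relation.ReflTransGen.cases_tail h with h | ⟨c, _, h⟩
  · exact absurd h.symm hne
  · obtain ⟨⟨x, y⟩, k, hQ, _, e, _⟩ := fs_corner h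
    unfold InR at hQ
    simp only at hQ
    rcases Xr249.Reg.d4 (k + 2) with h1 | h1 | h1 | h1 <;> rw [h1] at e <;>
      simp only [off_0, off_1, off_2, off_3, Prod.mk_add_mk] at e <;> rw [e] <;> simp only <;> omega

/-! ### floor -/

theorem floor_arm {c : ℤ} (h0 : x0 - 1 ≤ c) (h1 : c ≤ x0 + m)
    (hno : ∀ i j : ℤ, c < i → i ≤ x0 + m → x0 ≤ j → j ≤ c →
      BM s x0 y0 m n (some ((i, y0), 3)) ≠ some ((j, y0), 3)) :
    ∃ G, FP s (InR x0 y0 m n) (c, y0 - 1) G ∧ OutF x0 y0 m n G := by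
  rcases eq_or_lt_of_le h0 with e | h2
  · exact ⟨_, FP.refl, Or.inl e.symm⟩
  have h := rectW_rw x0 y0 m n
  obtain ⟨v, hv, h3⟩ := side_arm (s := s) h (f := fun i : ℕ => some ((x0 + m - i, y0), 3))
    (M0 := m) ring_floor (by simp [oF]) (i0 := (x0 + m - c).toNat) (by omega) (by
      intro i j hi hj1 hj2
      exact hno (x0 + m - i) (x0 + m - j) (by omega) (by omega) (by omega) (by omega))
  rw [inR_eq, base_face] at h3
  have e1 : fa (x0 - 1, y0 - 1)
      ((fun i : ℕ => (some ((x0 + m - i, y0), 3) : Port (ℤ × ℤ))) (x0 + m - c).toNat) =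
      (c, y0 - 1) := by
    simp only [fa_some, off_3, Prod.mk_add_mk]
    rw [show x0 + m - (((x0 + m - c).toNat : ℕ) : ℤ) + 0 = c by omega]; rfl
  rw [e1] at h3
  have h4 := oF_out hv
  rcases h3 with h3 | h3
  · exact ⟨_, h3, h4.1⟩
  · exact ⟨_, h3, h4.2⟩

theorem floor_match {c c' : ℤ} (h0 : x0 ≤ c) (h1 : c < c') (h2 : c' ≤ x0 + m)
    (hp : FP s (InR x0 y0 m n) (c, y0 - 1) (c', y0 - 1)) :
    ∀ i : ℤ, c < i → i ≤ c' → ∃ j, c < j ∧ j ≤ c' ∧
      BM s x0 y0 m n (some ((i, y0), 3)) = some ((j, y0), 3) := by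
  have h := rectW_rw x0 y0 m n
  have key : ∀ a : ℤ, x0 ≤ a → a ≤ x0 + m → fa (x0 - 1, y0 - 1)
      ((fun i : ℕ => (some ((x0 + m - i, y0), 3) : Port (ℤ × ℤ))) (x0 + m - a).toNat) =
      (a, y0 - 1) := by
    intro a h1 h2
    simp only [fa_some, off_3, Prod.mk_add_mk]
    rw [show x0 + m - (((x0 + m - a).toNat : ℕ) : ℤ) + 0 = a by omega]; rfl
  intro i hi1 hi2
  obtain ⟨j, hj1, hj2, hj3⟩ := side_match (s := s) h (rect_full (x0 := x0) (y0 := y0))
    (f := fun i : ℕ => some ((x0 + m - i, y0), 3)) (M0 := m) ring_floor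
    (i0 := (x0 + m - c').toNat) (i1 := (x0 + m - c).toNat) (by omega) (by omega)
    (fun i => by simp) (by
      rw [inR_eq, base_face, key c' (by omega) h2, key c h0 (by omega)]
      exact hp.symm) (x0 + m - i).toNat (by omega) (by omega)
  refine ⟨x0 + m - j, by omega, by omega, ?_⟩
  have e1 : x0 + m - (((x0 + m - i).toNat : ℕ) : ℤ) = i := by omega
  simp only [e1] at hj3
  exact hj3

theorem floor_cross {c : ℤ} (h0 : x0 ≤ c) (h1 : c < x0 + m) {G : ℤ × ℤ}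
    (hG : OutF x0 y0 m n G) (hp : FP s (InR x0 y0 m n) (c, y0 - 1) G) :
    ∀ i j : ℤ, c < i → i ≤ x0 + m → x0 ≤ j → j ≤ c →
      BM s x0 y0 m n (some ((i, y0), 3)) ≠ some ((j, y0), 3) := by
  have h := rectW_rw x0 y0 m n
  intro i j hi1 hi2 hj1 hj2
  have hne : (c, y0 - 1) ≠ G := by
    rintro rfl
    unfold OutF at hG
    simp only at hG
    omega
  have hfc := fp_face hp hne
  by_cases hSE : G = (x0 + m, y0 - 1)
  · -- the corner below the east side
    rw [hSE] at hp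
    obtain ⟨j', hj'1, hj'2, hj'3⟩ := floor_match h0 h1 le_rfl hp i hi1 hi2
    rw [hj'3]
    intro e
    simp only [Option.some.injEq, Prod.mk.injEq, and_true] at e
    omega
  · obtain ⟨v, hv, hvn, hvf⟩ : ∃ v ∈ oF x0 y0 m n, v ≠ none ∧ fa (x0 - 1, y0 - 1) v = G := by
      obtain ⟨g1, g2⟩ := G
      simp only at hfc
      unfold OutF at hG
      simp only at hG
      by_cases k1 : g2 = y0 + n
      · by_cases k2 : g1 = x0 + m
        · refine ⟨some ((x0 + m, y0 + n), 2), ?_, by simp, ?_⟩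
          · simp only [oF, List.mem_cons, List.mem_append, mem_eS]
            exact Or.inr (Or.inr (Or.inr ⟨_, by omega, le_rfl, rfl⟩))
          · simp only [fa_some, off_2, Prod.mk_add_mk, Prod.mk.injEq]; omega
        · refine ⟨some ((g1 + 1, y0 + n), 1), ?_, by simp, ?_⟩
          · simp only [oF, List.mem_cons, List.mem_append, mem_nS]
            exact Or.inr (Or.inr (Or.inl ⟨g1 + 1, by omega, by omega, rfl⟩))
          · simp only [fa_some, off_1, Prod.mk_add_mk, Prod.mk.injEq]; omega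
      · by_cases k2 : g1 = x0 - 1
        · refine ⟨some ((x0, g2 + 1), 0), ?_, by simp, ?_⟩
          · simp only [oF, List.mem_cons, List.mem_append, mem_wS]
            exact Or.inr (Or.inl ⟨g2 + 1, by omega, by omega, rfl⟩)
          · simp only [fa_some, off_0, Prod.mk_add_mk, Prod.mk.injEq]; omega
        · have k3 : g2 ≠ y0 - 1 := fun e => hSE (by
            rw [e]; simp only [Prod.mk.injEq, and_true]; omega)
          refine ⟨some ((x0 + m, g2), 2), ?_, by simp, ?_⟩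
          · simp only [oF, List.mem_cons, List.mem_append, mem_eS]
            exact Or.inr (Or.inr (Or.inr ⟨g2, by omega, by omega, rfl⟩))
          · simp only [fa_some, off_2, Prod.mk_add_mk, Prod.mk.injEq]; omega
    have e1 : x0 + m - (((x0 + m - c).toNat : ℕ) : ℤ) = c := by omega
    have := side_cross (s := s) h (rect_full (x0 := x0) (y0 := y0))
      (f := fun i : ℕ => some ((x0 + m - i, y0), 3)) (M0 := m) ring_floor
      (i0 := (x0 + m - c).toNat) (by omega) hv hvn (by simp) (by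
        rw [inR_eq, base_face, hvf]
        simp only [fa_some, off_3, Prod.mk_add_mk, e1]
        rw [show c + 0 = c by ring, show y0 + -1 = y0 - 1 by ring]
        exact hp) (x0 + m - i).toNat (x0 + m - j).toNat (by omega) (by omega) (by omega)
    rw [show x0 + m - (((x0 + m - i).toNat : ℕ) : ℤ) = i by omega,
      show x0 + m - (((x0 + m - j).toNat : ℕ) : ℤ) = j by omega] at this
    exact this

theorem floor_out {i : ℤ} (h0 : x0 ≤ i) (h1 : i ≤ x0 + m)
    (hM : ∀ j, x0 ≤ j → j ≤ x0 + m →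
      BM s x0 y0 m n (some ((i, y0), 3)) ≠ some ((j, y0), 3)) :
    (∃ G, FP s (InR x0 y0 m n) (i, y0 - 1) G ∧ OutF x0 y0 m n G) ∧
    ∃ G, FP s (InR x0 y0 m n) (i - 1, y0 - 1) G ∧ OutF x0 y0 m n G := by
  have h := rectW_rw x0 y0 m n
  have a4 : (3 : ZMod 4) + 1 = 0 := by decide
  have hpL : (some ((i, y0), 3) : Port (ℤ × ℤ)) ∈ Sw300.L (rectW x0 y0 m n) := by
    rw [ring_floor.mem_iff, List.mem_append, mem_sS]
    exact Or.inl ⟨i, h0, h1, rfl⟩
  have hv : BM s x0 y0 m n (some ((i, y0), 3)) ∈ oF x0 y0 m n := by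
    have := (h.gd s).mem _ hpL
    rw [ring_floor.mem_iff, List.mem_append] at this
    rcases this with h2 | h2
    · obtain ⟨x, hx1, hx2, hx3⟩ := mem_sS.1 h2
      exact absurd hx3 (hM x hx1 hx2)
    · exact h2
  have h2 := side_out (s := s) h hpL
  rw [inR_eq, base_face] at h2
  have h3 := oF_out hv
  simp only [lc_some, rc_some, fa_some, a4, off_3, off_0, Prod.mk_add_mk, add_zero] at h2
  refine ⟨⟨_, h2.2, h3.2⟩, ⟨_, h2.1, h3.1⟩⟩

/-! ### ceiling -/

theorem ceil_key (a : ℤ) (h1 : x0 - 1 ≤ a) : fa (x0 - 1, y0 - 1)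
    ((fun i : ℕ => (some ((x0 + i, y0 + n), 1) : Port (ℤ × ℤ))) (a + 1 - x0).toNat) =
    (a, y0 + n) := by
  simp only [fa_some, off_1, Prod.mk_add_mk]
  rw [show x0 + (((a + 1 - x0).toNat : ℕ) : ℤ) + -1 = a by omega, add_zero]

theorem ceil_arm {c : ℤ} (h0 : x0 - 1 ≤ c) (h1 : c ≤ x0 + m)
    (hno : ∀ i j : ℤ, x0 ≤ i → i ≤ c → c < j → j ≤ x0 + m →
      BM s x0 y0 m n (some ((i, y0 + n), 1)) ≠ some ((j, y0 + n), 1)) :
    ∃ G, FP s (InR x0 y0 m n) (c, y0 + n) G ∧ OutC x0 y0 m G := by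
  rcases eq_or_lt_of_le h1 with e | h2
  · exact ⟨_, FP.refl, Or.inr (Or.inl e)⟩
  have h := rectW_rw x0 y0 m n
  obtain ⟨v, hv, h3⟩ := side_arm (s := s) h (f := fun i : ℕ => some ((x0 + i, y0 + n), 1))
    (M0 := m) ring_ceil (by simp [oC]) (i0 := (c + 1 - x0).toNat) (by omega) (by
      intro i j hi hj1 hj2
      exact hno (x0 + i) (x0 + j) (by omega) (by omega) (by omega) (by omega))
  rw [inR_eq, base_face, ceil_key c h0] at h3
  have h4 := oC_out hv
  rcases h3 with h3 | h3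
  · exact ⟨_, h3, h4.1⟩
  · exact ⟨_, h3, h4.2⟩

theorem ceil_match {c c' : ℤ} (h0 : x0 - 1 ≤ c) (h1 : c < c') (h2 : c' < x0 + m)
    (hp : FP s (InR x0 y0 m n) (c, y0 + n) (c', y0 + n)) :
    ∀ i : ℤ, c < i → i ≤ c' → ∃ j, c < j ∧ j ≤ c' ∧
      BM s x0 y0 m n (some ((i, y0 + n), 1)) = some ((j, y0 + n), 1) := by
  have h := rectW_rw x0 y0 m n
  intro i hi1 hi2
  obtain ⟨j, hj1, hj2, hj3⟩ := side_match (s := s) h (rect_full (x0 := x0) (y0 := y0))
    (f := fun i : ℕ => some ((x0 + i, y0 + n), 1)) (M0 := m) ring_ceil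
    (i0 := (c + 1 - x0).toNat) (i1 := (c' + 1 - x0).toNat) (by omega) (by omega)
    (fun i => by simp) (by
      rw [inR_eq, base_face, ceil_key c h0, ceil_key c' (by omega)]
      exact hp) (i - x0).toNat (by omega) (by omega)
  refine ⟨x0 + j, by omega, by omega, ?_⟩
  have e1 : x0 + (((i - x0).toNat : ℕ) : ℤ) = i := by omega
  simp only [e1] at hj3
  exact hj3

theorem ceil_cross {c : ℤ} (h0 : x0 ≤ c) (h1 : c < x0 + m) {G : ℤ × ℤ}
    (hG : OutC x0 y0 m G) (hp : FP s (InR x0 y0 m n) (c, y0 + n) G) :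
    ∀ i j : ℤ, x0 ≤ i → i ≤ c → c < j → j ≤ x0 + m →
      BM s x0 y0 m n (some ((i, y0 + n), 1)) ≠ some ((j, y0 + n), 1) := by
  have h := rectW_rw x0 y0 m n
  intro i j hi1 hi2 hj1 hj2
  have hne : (c, y0 + n) ≠ G := by
    rintro rfl
    unfold OutC at hG
    simp only at hG
    omega
  have hfc := fp_face hp hne
  by_cases hNW : G = (x0 - 1, y0 + n)
  · -- the corner above the west side
    rw [hNW] at hp
    obtain ⟨j', hj'1, hj'2, hj'3⟩ := ceil_match le_rfl (by omega) h1 hp.symm i (by omega) hi2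
    rw [hj'3]
    intro e
    simp only [Option.some.injEq, Prod.mk.injEq, and_true] at e
    omega
  · obtain ⟨v, hv, hvn, hvf⟩ : ∃ v ∈ oC x0 y0 m n, v ≠ none ∧ fa (x0 - 1, y0 - 1) v = G := by
      obtain ⟨g1, g2⟩ := G
      simp only at hfc
      unfold OutC at hG
      simp only at hG
      by_cases k1 : g2 = y0 - 1
      · by_cases k2 : g1 = x0 - 1
        · refine ⟨some ((x0, y0), 0), ?_, by simp, ?_⟩
          · simp only [oC, List.mem_cons, List.mem_append, mem_wS]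
            exact Or.inr (Or.inr (Or.inr ⟨y0, le_rfl, by omega, rfl⟩))
          · simp only [fa_some, off_0, Prod.mk_add_mk, Prod.mk.injEq]; omega
        · refine ⟨some ((g1, y0), 3), ?_, by simp, ?_⟩
          · simp only [oC, List.mem_cons, List.mem_append, mem_sS]
            exact Or.inr (Or.inl ⟨g1, by omega, by omega, rfl⟩)
          · simp only [fa_some, off_3, Prod.mk_add_mk, Prod.mk.injEq]; omega
      · by_cases k2 : g1 = x0 - 1
        · have k3 : g2 ≠ y0 + n := fun e => hNW (by rw [e, k2])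
          refine ⟨some ((x0, g2 + 1), 0), ?_, by simp, ?_⟩
          · simp only [oC, List.mem_cons, List.mem_append, mem_wS]
            exact Or.inr (Or.inr (Or.inr ⟨g2 + 1, by omega, by omega, rfl⟩))
          · simp only [fa_some, off_0, Prod.mk_add_mk, Prod.mk.injEq]; omega
        · refine ⟨some ((x0 + m, g2), 2), ?_, by simp, ?_⟩
          · simp only [oC, List.mem_cons, List.mem_append, mem_eS]
            exact Or.inl ⟨g2, by omega, by omega, rfl⟩
          · simp only [fa_some, off_2, Prod.mk_add_mk, Prod.mk.injEq]; omega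
    have := side_cross (s := s) h (rect_full (x0 := x0) (y0 := y0))
      (f := fun i : ℕ => some ((x0 + i, y0 + n), 1)) (M0 := m) ring_ceil
      (i0 := (c + 1 - x0).toNat) (by omega) hv hvn (by simp) (by
        rw [inR_eq, base_face, hvf, ceil_key c (by omega)]
        exact hp) (i - x0).toNat (j - x0).toNat (by omega) (by omega) (by omega)
    rw [show x0 + (((i - x0).toNat : ℕ) : ℤ) = i by omega,
      show x0 + (((j - x0).toNat : ℕ) : ℤ) = j by omega] at this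
    exact this

theorem ceil_out {i : ℤ} (h0 : x0 ≤ i) (h1 : i ≤ x0 + m)
    (hM : ∀ j, x0 ≤ j → j ≤ x0 + m →
      BM s x0 y0 m n (some ((i, y0 + n), 1)) ≠ some ((j, y0 + n), 1)) :
    (∃ G, FP s (InR x0 y0 m n) (i, y0 + n) G ∧ OutC x0 y0 m G) ∧
    ∃ G, FP s (InR x0 y0 m n) (i - 1, y0 + n) G ∧ OutC x0 y0 m G := by
  have h := rectW_rw x0 y0 m n
  have a2 : (1 : ZMod 4) + 1 = 2 := by decide
  have hpL : (some ((i, y0 + n), 1) : Port (ℤ × ℤ)) ∈ Sw300.L (rectW x0 y0 m n) := by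
    rw [ring_ceil.mem_iff, List.mem_append, mem_nS]
    exact Or.inl ⟨i, h0, h1, rfl⟩
  have hv : BM s x0 y0 m n (some ((i, y0 + n), 1)) ∈ oC x0 y0 m n := by
    have := (h.gd s).mem _ hpL
    rw [ring_ceil.mem_iff, List.mem_append] at this
    rcases this with h2 | h2
    · obtain ⟨x, hx1, hx2, hx3⟩ := mem_nS.1 h2
      exact absurd hx3 (hM x hx1 hx2)
    · exact h2
  have h2 := side_out (s := s) h hpL
  rw [inR_eq, base_face] at h2
  have h3 := oC_out hv
  simp only [lc_some, rc_some, fa_some, a2, off_1, off_2, Prod.mk_add_mk, add_zero] at h2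
  refine ⟨⟨_, h2.1, h3.1⟩, ⟨_, h2.2, h3.2⟩⟩

end Crest.Agent.R158.Gc748
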