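import Crest.Agent.R158.Gc6_748

/-!
# R158 block GC, part 7: the stepped half annulus (request of helper434)

`stp X Y r n e` : tiles `X-n < x ≤ X` (`≤ X+e` for `y < Y`), `Y-n ≤ y < Y+n`, without the inner box
`X-r < x`, `Y-r ≤ y < Y+r`; fully glued.
**`stp_word`** : admissible word with the explicit ring
`none :: (JoW ++ (JoN ++ (N1 ++ (JlS ++ (JlE ++ (JlN ++ (N2 ++ JoS)))))))`.
-/

set_option autoImplicit false

namespace Crest.Agent.R158.Gc748

open Crest.Agent.R158.Xr249 (Reg Nx)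
open Crest.Agent.R158.Sw300 (Port Wd)

/-- tiles of the stepped half annulus -/
def InS (X Y : ℤ) (r n e : ℕ) (p : ℤ × ℤ) : Prop :=
  X - n < p.1 ∧ Y - n ≤ p.2 ∧ p.2 < Y + n ∧ (p.2 < Y → p.1 ≤ X + e) ∧ (Y ≤ p.2 → p.1 ≤ X) ∧
    ¬ (X - r < p.1 ∧ Y - r ≤ p.2 ∧ p.2 < Y + r)

open Classical in
/-- the stepped half annulus, fully glued -/
noncomputable def stp (X Y : ℤ) (r n e : ℕ) : Reg where
  P := ((Finset.Icc (X - n) (X + e)) ×ˢ (Finset.Icc (Y - n) (Y + n))).filter (InS X Y r n e)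
  h := fun p => InS X Y r n e p ∧ InS X Y r n e (p.1 + 1, p.2)
  v := fun p => InS X Y r n e p ∧ InS X Y r n e (p.1, p.2 + 1)
  hP := by
    intro x y h
    simp only [Finset.mem_filter, Finset.mem_product, Finset.mem_Icc]
    refine ⟨⟨?_, h.1⟩, ⟨?_, h.2⟩⟩
    · have := h.1; unfold InS at this; simp only at this; omega
    · have := h.2; unfold InS at this; simp only at this; omega
  vP := by
    intro x y h
    simp only [Finset.mem_filter, Finset.mem_product, Finset.mem_Icc]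
    refine ⟨⟨?_, h.1⟩, ⟨?_, h.2⟩⟩
    · have := h.1; unfold InS at this; simp only at this; omega
    · have := h.2; unfold InS at this; simp only at this; omega

variable {X Y : ℤ} {r n e : ℕ}

theorem mem_stp {t : ℤ × ℤ} : t ∈ (stp X Y r n e).P ↔ InS X Y r n e t := by
  simp only [stp, Finset.mem_filter, Finset.mem_product, Finset.mem_Icc]
  constructor
  · exact fun h => h.2
  · intro h
    refine ⟨?_, h⟩
    unfold InS at h; omega

theorem stp_h {x y : ℤ} : (stp X Y r n e).h (x, y) ↔ InS X Y r n e (x, y) ∧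
    InS X Y r n e (x + 1, y) := Iff.rfl

theorem stp_v {x y : ℤ} : (stp X Y r n e).v (x, y) ↔ InS X Y r n e (x, y) ∧
    InS X Y r n e (x, y + 1) := Iff.rfl

theorem stp_full (x y : ℤ) (hr : 1 ≤ r) : FullAt (stp X Y r n e) x y := by
  refine ⟨?_, ?_, ?_, ?_, ?_, ?_⟩
  · intro h h'; exact ⟨mem_stp.1 h, mem_stp.1 h'⟩
  · intro h h'; exact ⟨mem_stp.1 h, mem_stp.1 h'⟩
  · intro h h'; exact ⟨mem_stp.1 h, mem_stp.1 h'⟩
  · intro h h'; exact ⟨mem_stp.1 h, mem_stp.1 h'⟩
  · intro h h'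
    rw [mem_stp] at h h' ⊢
    rw [mem_stp]
    unfold InS at h h' ⊢
    simp only at h h' ⊢
    omega
  · intro h h'
    rw [mem_stp] at h h' ⊢
    rw [mem_stp]
    unfold InS at h h' ⊢
    simp only at h h' ⊢
    omega

theorem stp_up {x y : ℤ} (hx : x ≤ X - n ∨ X + e ≤ x) (k : ℕ) :
    Relation.ReflTransGen (stp X Y r n e).FAdj (x, y) (x, y + k) := by
  induction k with
  | zero => simp only [Nat.cast_zero, add_zero]; exact .refl
  | succ k ih =>
    have : y + ((k + 1 : ℕ) : ℤ) = y + k + 1 := by push_cast; ring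
    rw [this]
    refine ih.tail (.up ?_)
    rw [stp_h]; unfold InS; simp only; omega

theorem stp_left {x y : ℤ} (hy : y < Y - n) (k : ℕ) :
    Relation.ReflTransGen (stp X Y r n e).FAdj (x, y) (x - k, y) := by
  induction k with
  | zero => simp only [Nat.cast_zero, sub_zero]; exact .refl
  | succ k ih =>
    have h := Reg.FAdj.left (R := stp X Y r n e) (x := x - ((k + 1 : ℕ) : ℤ)) (y := y)
      (by rw [stp_v]; unfold InS; simp only; omega)
    have : x - ((k + 1 : ℕ) : ℤ) + 1 = x - k := by push_cast; ring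
    rw [this] at h
    exact ih.tail h

theorem stp_right {x y : ℤ}
    (hy : ∀ x', x < x' → ¬ (InS X Y r n e (x', y) ∧ InS X Y r n e (x', y + 1))) (k : ℕ) :
    Relation.ReflTransGen (stp X Y r n e).FAdj (x, y) (x + k, y) := by
  induction k with
  | zero => simp only [Nat.cast_zero, add_zero]; exact .refl
  | succ k ih =>
    have : x + ((k + 1 : ℕ) : ℤ) = x + k + 1 := by push_cast; ring
    rw [this]
    exact ih.tail (.right (hy _ (by omega)))

theorem stp_sc (hr : 1 ≤ r) : (stp X Y r n e).SC := by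
  intro x y hxy
  have up : ∀ x y : ℤ, (x ≤ X - n ∨ X + e ≤ x) → (stp X Y r n e).Out (x, y) := by
    intro x y hx
    refine ⟨(x, y + ((Y + n - y).toNat : ℕ)), stp_up hx _, fun p hp => ?_⟩
    have := mem_stp.1 hp
    unfold InS at this
    simp only
    omega
  by_cases h1 : x ≤ X - n ∨ X + e ≤ x
  · exact up x y h1
  by_cases h2 : Y + n - 1 ≤ y
  · refine ⟨(x, y), .refl, fun p hp => ?_⟩
    have := mem_stp.1 hp
    unfold InS at this
    simp only
    omega
  by_cases h3 : y < Y - n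
  · have h4 : x - ((x - X + n + 1).toNat : ℕ) ≤ X - n := by omega
    obtain ⟨g, hg1, hg2⟩ := up _ y (Or.inl h4)
    exact ⟨g, (stp_left h3 _).trans hg1, hg2⟩
  -- to the right
  have h4 : ∀ x', x < x' → ¬ (InS X Y r n e (x', y) ∧ InS X Y r n e (x', y + 1)) := by
    intro x' hx' hc
    simp only [stp_h, stp_v] at hxy
    unfold InS at hxy hc
    simp only at hxy hc
    omega
  have h5 : X + e ≤ x + ((X + e - x).toNat : ℕ) := by omega
  obtain ⟨g, hg1, hg2⟩ := up _ y (Or.inr h5)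
  exact ⟨g, (stp_right h4 _).trans hg1, hg2⟩

theorem stp_base (hn : r + 1 ≤ n) {p : ℤ × ℤ} (hp : p ∈ (stp X Y r n e).P) :
    ∃ N, (stp X Y r n e).WN ((stp X Y r n e).P : Set (ℤ × ℤ)) (X - n + 1, Y - n) p N := by
  have hp' := mem_stp.1 hp
  have ver : ∀ k : ℕ, ∀ c : ℤ, c < Y + n → c = Y - n + k →
      ∃ N, (stp X Y r n e).WN ((stp X Y r n e).P : Set (ℤ × ℤ)) (X - n + 1, Y - n)
        (X - n + 1, c) N := by
    intro k
    induction k with
    | zero =>
      intro c h1 h2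
      have : c = Y - n := by omega
      subst this
      exact ⟨0, .nil (by
        have : (X - n + 1, Y - n) ∈ (stp X Y r n e).P :=
          mem_stp.2 (by unfold InS; simp only; omega)
        exact this)⟩
    | succ k ih =>
      intro c h1 h2
      obtain ⟨N, hN⟩ := ih (c - 1) (by omega) (by omega)
      have hs := Reg.Stp.up (R := stp X Y r n e) (a := X - n + 1) (b := c - 1)
        (by rw [stp_v]; unfold InS; simp only; omega)
      rw [sub_add_cancel] at hs
      exact ⟨_, hN.cons hs (by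
        have : (X - n + 1, c) ∈ (stp X Y r n e).P :=
          mem_stp.2 (by unfold InS; simp only; omega)
        exact this)⟩
  have hor : ∀ k : ℕ, ∀ a : ℤ, a ≤ p.1 → a = X - n + 1 + k →
      ∃ N, (stp X Y r n e).WN ((stp X Y r n e).P : Set (ℤ × ℤ)) (X - n + 1, Y - n) (a, p.2) N := by
    intro k
    induction k with
    | zero =>
      intro a h1 h2
      have : a = X - n + 1 := by omega
      subst this
      unfold InS at hp'
      exact ver (p.2 - (Y - n)).toNat p.2 (by omega) (by omega)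
    | succ k ih =>
      intro a h1 h2
      obtain ⟨N, hN⟩ := ih (a - 1) (by omega) (by omega)
      have hs := Reg.Stp.right (R := stp X Y r n e) (a := a - 1) (b := p.2)
        (by rw [stp_h]; unfold InS at hp' ⊢; simp only; omega)
      rw [sub_add_cancel] at hs
      exact ⟨_, hN.cons hs (by
        have : (a, p.2) ∈ (stp X Y r n e).P :=
          mem_stp.2 (by unfold InS at hp' ⊢; simp only; omega)
        exact this)⟩
  unfold InS at hp'
  exact hor (p.1 - (X - n + 1)).toNat p.1 le_rfl (by omega)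

theorem stp_conn (hn : r + 1 ≤ n) : (stp X Y r n e).Conn := by
  intro p hp q hq
  obtain ⟨N, hN⟩ := stp_base hn hp
  obtain ⟨N', hN'⟩ := stp_base hn hq
  exact ⟨_, hN.symm.trans hN'⟩

theorem stp_run (hn : r + 1 ≤ n) : (stp X Y r n e).IsRun (X - n + 1) (X + e) (Y - n) := by
  refine ⟨by omega, mem_stp.2 (by unfold InS; simp only; omega), fun x h1 h2 => ?_, ?_, ?_⟩
  · rw [stp_h]; unfold InS; simp only; omega
  · rw [stp_h]; unfold InS; simp only; omega
  · rw [stp_h]; unfold InS; simp only; omega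

/-! ### the ring -/

/-- west side, up -/
def JoW (X Y : ℤ) (n : ℕ) : List (Port (ℤ × ℤ)) :=
  fl (fun i => some ((X - n + 1, Y - n + i), 0)) (2 * n - 1)
/-- north side, to the right -/
def JoN (X Y : ℤ) (n : ℕ) : List (Port (ℤ × ℤ)) :=
  fl (fun i => some ((X - n + 1 + i, Y + n - 1), 1)) (n - 1)
/-- upper wall, down -/
def N1 (X Y : ℤ) (r n : ℕ) : List (Port (ℤ × ℤ)) :=
  fl (fun i => some ((X, Y + n - 1 - i), 2)) (n - r - 1)
/-- inner side, upper part, to the left -/
def JlS (X Y : ℤ) (r : ℕ) : List (Port (ℤ × ℤ)) :=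
  fl (fun i => some ((X - i, Y + r), 3)) (r - 1)
/-- inner side, middle part, down -/
def JlE (X Y : ℤ) (r : ℕ) : List (Port (ℤ × ℤ)) :=
  fl (fun i => some ((X - r, Y + r - 1 - i), 2)) (2 * r - 1)
/-- inner side, lower part, to the right -/
def JlN (X Y : ℤ) (r e : ℕ) : List (Port (ℤ × ℤ)) :=
  fl (fun i => some ((X - r + 1 + i, Y - r - 1), 1)) (r + e - 1)
/-- lower wall, down -/
def N2 (X Y : ℤ) (r n e : ℕ) : List (Port (ℤ × ℤ)) :=
  fl (fun i => some ((X + e, Y - r - 1 - i), 2)) (n - r - 1)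
/-- south side, to the left -/
def JoS (X Y : ℤ) (n e : ℕ) : List (Port (ℤ × ℤ)) :=
  fl (fun i => some ((X + e - i, Y - n), 3)) (n + e - 1)

/-- the elementary boundary steps of a fully glued region given by a predicate -/
theorem nx4 {K : Reg} {x y : ℤ} :
    (¬ K.v (x, y) → Nx K.gl (some ((x, y), 0)) (some ((x, y), 1))) ∧
    (¬ K.h (x, y) → Nx K.gl (some ((x, y), 1)) (some ((x, y), 2))) ∧
    (¬ K.v (x, y - 1) → Nx K.gl (some ((x, y), 2)) (some ((x, y), 3))) ∧
    (¬ K.h (x - 1, y) → Nx K.gl (some ((x, y), 3)) (some ((x, y), 0))) := by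
  have a1 : (0 : ZMod 4) + 1 = 1 := by decide
  have a2 : (1 : ZMod 4) + 1 = 2 := by decide
  have a3 : (2 : ZMod 4) + 1 = 3 := by decide
  have a4 : (3 : ZMod 4) + 1 = 0 := by decide
  refine ⟨fun h => ?_, fun h => ?_, fun h => ?_, fun h => ?_⟩
  · have := nx_stop (K := K) (t := (x, y)) (d := 0) (by
      rw [a1]; intro q hq; exact h (Reg.gl_1.1 hq).1)
    rwa [a1] at this
  · have := nx_stop (K := K) (t := (x, y)) (d := 1) (by
      rw [a2]; intro q hq; exact h (Reg.gl_2.1 hq).1)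
    rwa [a2] at this
  · have := nx_stop (K := K) (t := (x, y)) (d := 2) (by
      rw [a3]; intro q hq; exact h (Reg.gl_3.1 hq).1)
    rwa [a3] at this
  · have := nx_stop (K := K) (t := (x, y)) (d := 3) (by
      rw [a4]; intro q hq; exact h (Reg.gl_0.1 hq).1)
    rwa [a4] at this

/-- straight steps along a wall -/
theorem nx_straight {K : Reg} {x y : ℤ} :
    (K.v (x, y) → ¬ K.h (x - 1, y + 1) → Nx K.gl (some ((x, y), 0)) (some ((x, y + 1), 0))) ∧
    (K.h (x, y) → ¬ K.v (x + 1, y) → Nx K.gl (some ((x, y), 1)) (some ((x + 1, y), 1))) ∧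
    (K.v (x, y - 1) → ¬ K.h (x, y - 1) → Nx K.gl (some ((x, y), 2)) (some ((x, y - 1), 2))) ∧
    (K.h (x - 1, y) → ¬ K.v (x - 1, y - 1) →
      Nx K.gl (some ((x, y), 3)) (some ((x - 1, y), 3))) := by
  have a1 : (0 : ZMod 4) + 1 = 1 := by decide
  have a2 : (1 : ZMod 4) + 1 = 2 := by decide
  have a3 : (2 : ZMod 4) + 1 = 3 := by decide
  have a4 : (3 : ZMod 4) + 1 = 0 := by decide
  refine ⟨fun h h' => ?_, fun h h' => ?_, fun h h' => ?_, fun h h' => ?_⟩
  · refine Nx.go (q := some ((x, y + 1), 3)) ?_ (nx4.2.2.2 h')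
    rw [Xr249.rot_some, a1]; exact Reg.gl_1.2 ⟨h, rfl⟩
  · refine Nx.go (q := some ((x + 1, y), 0)) ?_ (nx4.1 h')
    rw [Xr249.rot_some, a2]; exact Reg.gl_2.2 ⟨h, rfl⟩
  · refine Nx.go (q := some ((x, y - 1), 1)) ?_ (nx4.2.1 h')
    rw [Xr249.rot_some, a3]; exact Reg.gl_3.2 ⟨h, rfl⟩
  · refine Nx.go (q := some ((x - 1, y), 2)) ?_ (nx4.2.2.1 h')
    rw [Xr249.rot_some, a4]; exact Reg.gl_0.2 ⟨h, rfl⟩

/-- reflex corners -/
theorem nx_reflex {K : Reg} {x y : ℤ} :
    (K.v (x, y) → K.h (x - 1, y + 1) → ¬ K.v (x - 1, y) →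
      Nx K.gl (some ((x, y), 0)) (some ((x - 1, y + 1), 3))) ∧
    (K.h (x, y) → K.v (x + 1, y) → ¬ K.h (x, y + 1) →
      Nx K.gl (some ((x, y), 1)) (some ((x + 1, y + 1), 0))) ∧
    (K.v (x, y - 1) → K.h (x, y - 1) → ¬ K.v (x + 1, y - 1) →
      Nx K.gl (some ((x, y), 2)) (some ((x + 1, y - 1), 1))) ∧
    (K.h (x - 1, y) → K.v (x - 1, y - 1) → ¬ K.h (x - 1, y - 1) →
      Nx K.gl (some ((x, y), 3)) (some ((x - 1, y - 1), 2))) := by
  have a1 : (0 : ZMod 4) + 1 = 1 := by decide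
  have a2 : (1 : ZMod 4) + 1 = 2 := by decide
  have a3 : (2 : ZMod 4) + 1 = 3 := by decide
  have a4 : (3 : ZMod 4) + 1 = 0 := by decide
  refine ⟨fun h h' h'' => ?_, fun h h' h'' => ?_, fun h h' h'' => ?_, fun h h' h'' => ?_⟩
  · refine Nx.go (q := some ((x, y + 1), 3)) ?_ (Nx.go (q := some ((x - 1, y + 1), 2)) ?_ ?_)
    · rw [Xr249.rot_some, a1]; exact Reg.gl_1.2 ⟨h, rfl⟩
    · rw [Xr249.rot_some, a4]; exact Reg.gl_0.2 ⟨h', rfl⟩
    · exact nx4.2.2.1 (by rw [add_sub_cancel_right]; exact h'')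
  · refine Nx.go (q := some ((x + 1, y), 0)) ?_ (Nx.go (q := some ((x + 1, y + 1), 3)) ?_ ?_)
    · rw [Xr249.rot_some, a2]; exact Reg.gl_2.2 ⟨h, rfl⟩
    · rw [Xr249.rot_some, a1]; exact Reg.gl_1.2 ⟨h', rfl⟩
    · exact nx4.2.2.2 (by rw [add_sub_cancel_right]; exact h'')
  · refine Nx.go (q := some ((x, y - 1), 1)) ?_ (Nx.go (q := some ((x + 1, y - 1), 0)) ?_ ?_)
    · rw [Xr249.rot_some, a3]; exact Reg.gl_3.2 ⟨h, rfl⟩
    · rw [Xr249.rot_some, a2]; exact Reg.gl_2.2 ⟨h', rfl⟩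
    · exact nx4.1 h''
  · refine Nx.go (q := some ((x - 1, y), 2)) ?_ (Nx.go (q := some ((x - 1, y - 1), 1)) ?_ ?_)
    · rw [Xr249.rot_some, a4]; exact Reg.gl_0.2 ⟨h, rfl⟩
    · rw [Xr249.rot_some, a3]; exact Reg.gl_3.2 ⟨h', rfl⟩
    · exact nx4.2.1 h''

theorem fl_fl_chain {α : Type*} {ρ : α → α → Prop} {f g : ℕ → α} {k l : ℕ} {rest : List α}
    (h : ∀ i < k, ρ (f i) (f (i + 1))) (hb : ρ (f k) (g 0))
    (h2 : List.IsChain ρ (fl g l ++ rest)) : List.IsChain ρ (fl f k ++ (fl g l ++ rest)) := by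
  obtain ⟨l', hl'⟩ := fl_cons g l
  rw [hl', List.cons_append] at h2 ⊢
  exact fl_app_chain h hb h2

theorem nx_eq {G : Port (ℤ × ℤ) → Port (ℤ × ℤ) → Prop} {p p' q q' : Port (ℤ × ℤ)}
    (h : Nx G p q) (hp : p = p') (hq : q = q') : Nx G p' q' := by
  subst hp; subst hq; exact h

theorem pe {a a' c c' : ℤ} {d : ZMod 4} (h : a = a') (h' : c = c') :
    (some ((a, c), d) : Port (ℤ × ℤ)) = some ((a', c'), d) := by rw [h, h']

theorem stp_chain (hr : 1 ≤ r) (hn : r + 1 ≤ n) : List.IsChain (Nx (stp X Y r n e).gl)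
    (JoW X Y n ++ (JoN X Y n ++ (N1 X Y r n ++ (JlS X Y r ++ (JlE X Y r ++ (JlN X Y r e ++
      (N2 X Y r n e ++ (JoS X Y n e ++ [some ((X - n + 1, Y - n), 0)])))))))) := by
  refine fl_fl_chain (fun i hi => ?_) ?_ ?_
  · refine nx_eq ((nx_straight (x := X - n + 1) (y := Y - n + i)).1 ?_ ?_) rfl
      (pe (by omega) (by omega))
    · rw [stp_v]; unfold InS; simp only; omega
    · rw [stp_h]; unfold InS; simp only; omega
  · refine nx_eq ((nx4 (x := X - n + 1) (y := Y + n - 1)).1 ?_) (pe (by omega) (by omega))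
      (pe (by omega) (by omega))
    rw [stp_v]; unfold InS; simp only; omega
  refine fl_fl_chain (fun i hi => ?_) ?_ ?_
  · refine nx_eq ((nx_straight (x := X - n + 1 + i) (y := Y + n - 1)).2.1 ?_ ?_) rfl
      (pe (by omega) (by omega))
    · rw [stp_h]; unfold InS; simp only; omega
    · rw [stp_v]; unfold InS; simp only; omega
  · refine nx_eq ((nx4 (x := X) (y := Y + n - 1)).2.1 ?_) (pe (by omega) (by omega))
      (pe (by omega) (by omega))
    rw [stp_h]; unfold InS; simp only; omega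
  refine fl_fl_chain (fun i hi => ?_) ?_ ?_
  · refine nx_eq ((nx_straight (x := X) (y := Y + n - 1 - i)).2.2.1 ?_ ?_) rfl
      (pe (by omega) (by omega))
    · rw [stp_v]; unfold InS; simp only; omega
    · rw [stp_h]; unfold InS; simp only; omega
  · refine nx_eq ((nx4 (x := X) (y := Y + r)).2.2.1 ?_) (pe (by omega) (by omega))
      (pe (by omega) (by omega))
    rw [stp_v]; unfold InS; simp only; omega
  refine fl_fl_chain (fun i hi => ?_) ?_ ?_
  · refine nx_eq ((nx_straight (x := X - i) (y := Y + r)).2.2.2 ?_ ?_) rfl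
      (pe (by omega) (by omega))
    · rw [stp_h]; unfold InS; simp only; omega
    · rw [stp_v]; unfold InS; simp only; omega
  · refine nx_eq ((nx_reflex (x := X - r + 1) (y := Y + r)).2.2.2 ?_ ?_ ?_)
      (pe (by omega) (by omega)) (pe (by omega) (by omega))
    · rw [stp_h]; unfold InS; simp only; omega
    · rw [stp_v]; unfold InS; simp only; omega
    · rw [stp_h]; unfold InS; simp only; omega
  refine fl_fl_chain (fun i hi => ?_) ?_ ?_
  · refine nx_eq ((nx_straight (x := X - r) (y := Y + r - 1 - i)).2.2.1 ?_ ?_) rfl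
      (pe (by omega) (by omega))
    · rw [stp_v]; unfold InS; simp only; omega
    · rw [stp_h]; unfold InS; simp only; omega
  · refine nx_eq ((nx_reflex (x := X - r) (y := Y - r)).2.2.1 ?_ ?_ ?_)
      (pe (by omega) (by omega)) (pe (by omega) (by omega))
    · rw [stp_v]; unfold InS; simp only; omega
    · rw [stp_h]; unfold InS; simp only; omega
    · rw [stp_v]; unfold InS; simp only; omega
  refine fl_fl_chain (fun i hi => ?_) ?_ ?_
  · refine nx_eq ((nx_straight (x := X - r + 1 + i) (y := Y - r - 1)).2.1 ?_ ?_) rfl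
      (pe (by omega) (by omega))
    · rw [stp_h]; unfold InS; simp only; omega
    · rw [stp_v]; unfold InS; simp only; omega
  · refine nx_eq ((nx4 (x := X + e) (y := Y - r - 1)).2.1 ?_) (pe (by omega) (by omega))
      (pe (by omega) (by omega))
    rw [stp_h]; unfold InS; simp only; omega
  refine fl_fl_chain (fun i hi => ?_) ?_ ?_
  · refine nx_eq ((nx_straight (x := X + e) (y := Y - r - 1 - i)).2.2.1 ?_ ?_) rfl
      (pe (by omega) (by omega))
    · rw [stp_v]; unfold InS; simp only; omega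
    · rw [stp_h]; unfold InS; simp only; omega
  · refine nx_eq ((nx4 (x := X + e) (y := Y - n)).2.2.1 ?_) (pe (by omega) (by omega))
      (pe (by omega) (by omega))
    rw [stp_v]; unfold InS; simp only; omega
  refine fl_app_chain (fun i hi => ?_) ?_ (by simp)
  · refine nx_eq ((nx_straight (x := X + e - i) (y := Y - n)).2.2.2 ?_ ?_) rfl
      (pe (by omega) (by omega))
    · rw [stp_h]; unfold InS; simp only; omega
    · rw [stp_v]; unfold InS; simp only; omega
  · refine nx_eq ((nx4 (x := X - n + 1) (y := Y - n)).2.2.2 ?_) (pe (by omega) (by omega)) rfl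
    rw [stp_h]; unfold InS; simp only; omega

/-- **the word of the stepped half annulus** -/
theorem stp_word (X Y : ℤ) (r n e : ℕ) (hr : 1 ≤ r) (hn : r + 1 ≤ n) :
    ∃ w : Wd (ℤ × ℤ), RW (stp X Y r n e) w (X - n + 1, Y - n) ∧ Sw300.Fc w ∧
    Sw300.L w = none :: (JoW X Y n ++ (JoN X Y n ++ (N1 X Y r n ++ (JlS X Y r ++ (JlE X Y r ++
      (JlN X Y r e ++ (N2 X Y r n e ++ JoS X Y n e))))))) := by
  obtain ⟨w, l, h1, h2, h3, h4, _, h6, h7, h8, _, h10⟩ :=
    Reg.ok (stp_sc (X := X) (Y := Y) (n := n) (e := e) hr) (stp_conn hn) (stp_run hn)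
  refine ⟨w, ⟨h1, by rw [← bas_eq]; exact h3, h4, h6⟩, h2, ?_⟩
  have hw0 : ∃ l, JoW X Y n = some ((X - n + 1, Y - n), 0) :: l := by
    obtain ⟨l, hl⟩ := fl_cons (fun i : ℕ => (some ((X - n + 1, Y - n + i), 0) : Port (ℤ × ℤ)))
      (2 * n - 1)
    exact ⟨l, by unfold JoW; rw [hl]; simp⟩
  obtain ⟨l', hl'⟩ := hw0
  have hch := stp_chain (X := X) (Y := Y) (e := e) hr hn
  rw [hl'] at hch
  have hdet : ∀ a b c, Nx (stp X Y r n e).gl a b → Nx (stp X Y r n e).gl a c → b = c :=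
    fun a b c => Nx.det (stp X Y r n e).gl_glue.fn
  rw [h7] at h8
  have hn' := (List.nodup_cons.1 (List.nodup_cons.1 h8).2).1
  have hch' : List.IsChain (Nx (stp X Y r n e).gl) (some ((X - n + 1, Y - n), 0) ::
      ((l' ++ (JoN X Y n ++ (N1 X Y r n ++ (JlS X Y r ++ (JlE X Y r ++
      (JlN X Y r e ++ (N2 X Y r n e ++ JoS X Y n e))))))) ++ [some ((X - n + 1, Y - n), 0)])) := by
    simpa [List.append_assoc] using hch
  have e0 := chain_det hdet h10 hch' hn' ?_
  · rw [h7, e0, hl']; simp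
  · have k1 : some ((X - n + 1, Y - n), (0 : ZMod 4)) ∉ l' := by
      have hw : wS (X - n + 1) (Y - n) (2 * n - 1) = JoW X Y n := rfl
      exact nodup_head (hw.trans hl')
    simp only [List.mem_append, not_or]
    refine ⟨k1, ?_, ?_, ?_, ?_, ?_, ?_, ?_⟩
    all_goals
      intro hm
      obtain ⟨i, _, hi⟩ := mem_fl.1 hm
      simp only [Option.some.injEq, Prod.mk.injEq] at hi
      exact absurd hi.2 (by decide)

end Crest.Agent.R158.Gc748
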