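import Crest.Agent.R158.Gc8_748

/-!
# R158 block GC, part 9: flat half annuli in the four orientations

Centre face `(X, Y)`, radii `1 ≤ r < n`; tile sets = 814's `sS, sN, sW, sE` (Fw5).
* **`ahs_word`** (`AHS`, base `(X - n + 1, Y + 1)`): `HSoW ++ (HSoN ++ (HSoE ++ (HSn1 ++ (HSjW ++ (HSjS ++ (HSjE ++ (HSn2)))))))`
* **`ahe_word`** (`AHE`, base `(X - n + 1, Y - n + 1)`): `HEoW ++ (HEoN ++ (HEn1 ++ (HEjS ++ (HEjE ++ (HEjN ++ (HEn2 ++ (HEoS)))))))`
* **`ahn_word`** (`AHN`, base `(X - n + 1, Y - n + 1)`): `HNoW ++ (HNn1 ++ (HNjE ++ (HNjN ++ (HNjW ++ (HNn2 ++ (HNoE ++ (HNoS)))))))`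
* **`ahw_word`** (`AHW`, base `(X + 1, Y - n + 1)`): `HWn1 ++ (HWjN ++ (HWjW ++ (HWjS ++ (HWn2 ++ (HWoN ++ (HWoE ++ (HWoS)))))))`
-/

set_option autoImplicit false
set_option linter.unusedVariables false

namespace Crest.Agent.R158.Gc748

open Crest.Agent.R158.Xr249 (Reg Nx CPath)
open Crest.Agent.R158.Sw300 (Port Wd)

/-- rotation by a quarter turn around the face `(X, Y)` -/
def rt (X Y : ℤ) (p : ℤ × ℤ) : ℤ × ℤ := (X + Y + 1 - p.2, Y - X + p.1)

/-- inverse of `rt` -/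
def rti (X Y : ℤ) (p : ℤ × ℤ) : ℤ × ℤ := (X - Y + p.2, X + Y + 1 - p.1)

theorem rt_rti (X Y : ℤ) (p : ℤ × ℤ) : rt X Y (rti X Y p) = p := by
  obtain ⟨x, y⟩ := p
  simp only [rt, rti, Prod.mk.injEq]
  omega

theorem rti_rt (X Y : ℤ) (p : ℤ × ℤ) : rti X Y (rt X Y p) = p := by
  obtain ⟨x, y⟩ := p
  simp only [rt, rti, Prod.mk.injEq]
  omega

/-- paths are carried by the rotation -/
theorem cpath_rt (X Y : ℤ) {S S' : Set (ℤ × ℤ)} (h : ∀ p ∈ S, rt X Y p ∈ S') {a b : ℤ × ℤ}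
    (hp : CPath S a b) : CPath S' (rt X Y a) (rt X Y b) := by
  induction hp with
  | refl => exact .refl
  | tail _ h2 ih =>
    refine ih.tail ⟨?_, h _ h2.2.1, h _ h2.2.2⟩
    have h3 := h2.1
    unfold Env664.Adj4 at h3 ⊢
    simp only [rt]
    omega

/-- a set of tiles inside the box of radius `n`, connected, with complement connected to the
outside of the box -/
structure GS (X Y : ℤ) (n : ℕ) (P : ℤ × ℤ → Prop) : Prop where
  box : ∀ x y, P (x, y) → X - n < x ∧ x ≤ X + n ∧ Y - n < y ∧ y ≤ Y + n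
  out : ∀ x y, ¬ P (x, y) → ∃ q : ℤ × ℤ, CPath {t | ¬ P t} (x, y) q ∧
    ¬ (X - n < q.1 ∧ q.1 ≤ X + n ∧ Y - n < q.2 ∧ q.2 ≤ Y + n)
  con : ∀ a b, P a → P b → CPath {t | P t} a b

/-- the property is carried by the rotation -/
theorem GS.rot {X Y : ℤ} {n : ℕ} {P P' : ℤ × ℤ → Prop} (h : GS X Y n P)
    (hP : ∀ x y, P' (x, y) ↔ P (X - Y + y, X + Y + 1 - x)) : GS X Y n P' := by
  have h1 : ∀ p, P p → P' (rt X Y p) := fun p hp => by
    obtain ⟨x, y⟩ := p
    simp only [rt]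
    rw [hP]
    have : ((X - Y + (Y - X + x), X + Y + 1 - (X + Y + 1 - y)) : ℤ × ℤ) = (x, y) := by
      simp only [Prod.mk.injEq]; omega
    rwa [this]
  have h2 : ∀ p, ¬ P p → ¬ P' (rt X Y p) := fun p hp => by
    obtain ⟨x, y⟩ := p
    simp only [rt]
    rw [hP]
    have : ((X - Y + (Y - X + x), X + Y + 1 - (X + Y + 1 - y)) : ℤ × ℤ) = (x, y) := by
      simp only [Prod.mk.injEq]; omega
    rwa [this]
  refine ⟨fun x y hxy => ?_, fun x y hxy => ?_, fun a b ha hb => ?_⟩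
  · have := h.box _ _ ((hP x y).1 hxy)
    omega
  · obtain ⟨q, hq, hq'⟩ := h.out _ _ (fun h3 => hxy ((hP x y).2 h3))
    refine ⟨rt X Y q, ?_, ?_⟩
    · have h4 := cpath_rt X Y (S' := {t | ¬ P' t}) (fun p hp => h2 p hp) hq
      have h5 : rt X Y (X - Y + y, X + Y + 1 - x) = (x, y) := by
        simp only [rt, Prod.mk.injEq]; omega
      rwa [h5] at h4
    · simp only [rt]; omega
  · have ha' : P (rti X Y a) := (hP a.1 a.2).1 ha
    have hb' : P (rti X Y b) := (hP b.1 b.2).1 hb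
    have h4 := cpath_rt X Y (S' := {t | P' t}) (fun p hp => h1 p hp) (h.con _ _ ha' hb')
    rwa [rt_rti, rt_rti] at h4

theorem GS.sc {X Y : ℤ} {n : ℕ} {P : ℤ × ℤ → Prop} (h : GS X Y n P) {A : Finset (ℤ × ℤ)}
    (hA : ∀ t, t ∈ A ↔ P t) : (Xr249.full A).SC := by
  refine Xr249.full_SC ?_
  rintro ⟨x, y⟩ hc
  have hX : ∀ {a b : ℤ}, ¬ (X - n < a ∧ a ≤ X + n ∧ Y - n < b ∧ b ≤ Y + n) →
      (a, b) ∈ {t : ℤ × ℤ | t ∉ A} := fun h1 h2 => h1 (h.box _ _ ((hA _).1 h2))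
  have top : ∀ d : ℤ, Y + n ≤ d → ∀ t ∈ A, t.2 ≤ d := by
    intro d hd t ht
    have := h.box t.1 t.2 ((hA _).1 ht)
    omega
  have up : ∀ x y : ℤ, (x ≤ X - n ∨ X + n < x) → ∃ d, CPath {t | t ∉ A} (x, y) d ∧
      ∀ t ∈ A, t.2 ≤ d.2 := by
    intro x y hx
    exact ⟨(x, max y (Y + n)), CPath.ver (le_max_left _ _) fun z _ _ => hX (by omega),
      top _ (le_max_right _ _)⟩
  obtain ⟨⟨a, b⟩, hq, hq'⟩ := h.out x y (fun h3 => hc ((hA _).2 h3))
  have hq2 : CPath {t | t ∉ A} (x, y) (a, b) :=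
    hq.mono (fun t (ht : ¬ P t) => (fun h3 => ht ((hA t).1 h3) : t ∉ A))
  simp only at hq'
  by_cases h1 : a ≤ X - n ∨ X + n < a
  · obtain ⟨d, h2, h3⟩ := up a b h1
    exact ⟨d, hq2.trans h2, h3⟩
  by_cases h2 : Y + n < b
  · exact ⟨(a, b), hq2, top _ h2.le⟩
  obtain ⟨d, h4, h5⟩ := up (X - n) b (Or.inl le_rfl)
  exact ⟨d, hq2.trans ((CPath.hor (x1 := X - n) (x2 := a) (by omega)
    fun z h6 h7 => hX (by omega)).symm.trans h4), h5⟩

theorem GS.conn {X Y : ℤ} {n : ℕ} {P : ℤ × ℤ → Prop} (h : GS X Y n P) {A : Finset (ℤ × ℤ)}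
    (hA : ∀ t, t ∈ A ↔ P t) : (Xr249.full A).Conn := by
  refine Xr249.full_Conn fun a ha b hb => ?_
  exact (h.con a b ((hA _).1 ha) ((hA _).1 hb)).mono fun t ht => (hA _).2 ht

variable {X Y : ℤ} {r n : ℕ}

/-- half annulus, wall below (814 `sS`) -/
def InHS (X Y : ℤ) (r n : ℕ) (p : ℤ × ℤ) : Prop :=
  (X - n < p.1 ∧ p.1 ≤ X + n ∧ Y < p.2 ∧ p.2 ≤ Y + n) ∧
    ¬ (X - r < p.1 ∧ p.1 ≤ X + r ∧ Y < p.2 ∧ p.2 ≤ Y + r)

open Classical in
/-- half annulus, wall below (814 `sS`) (`Finset`) -/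
noncomputable def AHS (X Y : ℤ) (r n : ℕ) : Finset (ℤ × ℤ) :=
  ((Finset.Icc (X - n) (X + n)) ×ˢ (Finset.Icc (Y - n) (Y + n))).filter (InHS X Y r n)

theorem mem_AHS {t : ℤ × ℤ} : t ∈ AHS X Y r n ↔ InHS X Y r n t := by
  simp only [AHS, Finset.mem_filter, Finset.mem_product, Finset.mem_Icc]
  refine ⟨fun h => h.2, fun h => ⟨?_, h⟩⟩
  unfold InHS at h; omega

theorem ahs_full (x y : ℤ) (hr : 1 ≤ r) : FullAt (Xr249.full (AHS X Y r n)) x y := by
  refine full_at ?_ ?_ <;>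
    (simp only [mem_AHS]; unfold InHS; simp only; intro h h'; omega)

theorem gs_hs (hr : 1 ≤ r) (hn : r + 1 ≤ n) : GS X Y n (InHS X Y r n) := by
  refine ⟨fun x y h => ?_, fun x y h => ?_, ?_⟩
  · unfold InHS at h; simp only at h; omega
  · by_cases h1 : X - n < x ∧ x ≤ X + n ∧ Y - n < y ∧ y ≤ Y + n
    · refine ⟨(x, Y - n), (CPath.ver (y1 := Y - n) (by omega) fun z h3 h4 => ?_).symm,
        by simp only; omega⟩
      change ¬ InHS X Y r n (x, z)
      unfold InHS at h ⊢; simp only at h ⊢; omega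
    · exact ⟨(x, y), .refl, h1⟩
  · have key : ∀ x y, InHS X Y r n (x, y) → CPath {t | InHS X Y r n t} (x, y) (X - n + 1, Y + n) := by
      intro x y h
      refine (CPath.ver (y2 := Y + n) (by unfold InHS at h; simp only at h; omega) fun z h1 h2 => ?_).trans
        (CPath.hor (x1 := X - n + 1) (by unfold InHS at h; simp only at h; omega) fun z h1 h2 => ?_).symm
      · change InHS X Y r n (x, z)
        unfold InHS at h ⊢; simp only at h ⊢; omega
      · change InHS X Y r n (z, Y + n)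
        unfold InHS at h ⊢; simp only at h ⊢; omega
    rintro ⟨x, y⟩ ⟨x', y'⟩ ha hb
    exact (key x y ha).trans (key x' y' hb).symm

theorem ahs_sc (hr : 1 ≤ r) (hn : r + 1 ≤ n) : (Xr249.full (AHS X Y r n)).SC :=
  (gs_hs hr hn).sc fun _ => mem_AHS

theorem ahs_conn (hr : 1 ≤ r) (hn : r + 1 ≤ n) : (Xr249.full (AHS X Y r n)).Conn :=
  (gs_hs hr hn).conn fun _ => mem_AHS

theorem ahs_run (hr : 1 ≤ r) (hn : r + 1 ≤ n) :
    (Xr249.full (AHS X Y r n)).IsRun (X - n + 1) (X - r) (Y + 1) := by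
  refine ⟨by omega, ?_, fun x h1 h2 => ?_, ?_, ?_⟩
  · rw [Xr249.full_P, mem_AHS]; unfold InHS; simp only; omega
  · rw [Xr249.full_h, mem_AHS, mem_AHS]; unfold InHS; simp only; omega
  · rw [Xr249.full_h, mem_AHS, mem_AHS]; unfold InHS; simp only; omega
  · rw [Xr249.full_h, mem_AHS, mem_AHS]; unfold InHS; simp only; omega

/-- outer side -/
def HSoW (X Y : ℤ) (r n : ℕ) : List (Port (ℤ × ℤ)) :=
  fl (fun i => some ((X - n + 1, Y + 1 + i), 0)) (n - 1)

/-- outer side -/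
def HSoN (X Y : ℤ) (r n : ℕ) : List (Port (ℤ × ℤ)) :=
  fl (fun i => some ((X - n + 1 + i, Y + n), 1)) (2 * n - 1)

/-- outer side -/
def HSoE (X Y : ℤ) (r n : ℕ) : List (Port (ℤ × ℤ)) :=
  fl (fun i => some ((X + n, Y + n - i), 2)) (n - 1)

/-- wall -/
def HSn1 (X Y : ℤ) (r n : ℕ) : List (Port (ℤ × ℤ)) :=
  fl (fun i => some ((X + n - i, Y + 1), 3)) (n - r - 1)

/-- inner side -/
def HSjW (X Y : ℤ) (r n : ℕ) : List (Port (ℤ × ℤ)) :=
  fl (fun i => some ((X + r + 1, Y + 1 + i), 0)) (r - 1)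

/-- inner side -/
def HSjS (X Y : ℤ) (r n : ℕ) : List (Port (ℤ × ℤ)) :=
  fl (fun i => some ((X + r - i, Y + r + 1), 3)) (2 * r - 1)

/-- inner side -/
def HSjE (X Y : ℤ) (r n : ℕ) : List (Port (ℤ × ℤ)) :=
  fl (fun i => some ((X - r, Y + r - i), 2)) (r - 1)

/-- wall -/
def HSn2 (X Y : ℤ) (r n : ℕ) : List (Port (ℤ × ℤ)) :=
  fl (fun i => some ((X - r - i, Y + 1), 3)) (n - r - 1)

theorem ahs_chain (hr : 1 ≤ r) (hn : r + 1 ≤ n) : List.IsChain (Nx (Xr249.full (AHS X Y r n)).gl)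
    (HSoW X Y r n ++ (HSoN X Y r n ++ (HSoE X Y r n ++ (HSn1 X Y r n ++ (HSjW X Y r n ++ (HSjS X Y r n ++ (HSjE X Y r n ++ (HSn2 X Y r n ++ [some ((X - n + 1, Y + 1), 0)])))))))) := by
  refine fl_fl_chain (fun i hi => ?_) ?_ ?_
  · refine nx_eq ((nx_straight (x := X - n + 1) (y := Y + 1 + i)).1 ?_ ?_) rfl
      (pe (by omega) (by omega))
    · rw [Xr249.full_v, mem_AHS, mem_AHS]; unfold InHS; simp only; omega
    · rw [Xr249.full_h, mem_AHS, mem_AHS]; unfold InHS; simp only; omega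
  · refine nx_eq ((nx4 (x := X - n + 1) (y := Y + n)).1 ?_) (pe (by omega) (by omega))
      (pe (by omega) (by omega))
    rw [Xr249.full_v, mem_AHS, mem_AHS]; unfold InHS; simp only; omega
  refine fl_fl_chain (fun i hi => ?_) ?_ ?_
  · refine nx_eq ((nx_straight (x := X - n + 1 + i) (y := Y + n)).2.1 ?_ ?_) rfl
      (pe (by omega) (by omega))
    · rw [Xr249.full_h, mem_AHS, mem_AHS]; unfold InHS; simp only; omega
    · rw [Xr249.full_v, mem_AHS, mem_AHS]; unfold InHS; simp only; omega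
  · refine nx_eq ((nx4 (x := X + n) (y := Y + n)).2.1 ?_) (pe (by omega) (by omega))
      (pe (by omega) (by omega))
    rw [Xr249.full_h, mem_AHS, mem_AHS]; unfold InHS; simp only; omega
  refine fl_fl_chain (fun i hi => ?_) ?_ ?_
  · refine nx_eq ((nx_straight (x := X + n) (y := Y + n - i)).2.2.1 ?_ ?_) rfl
      (pe (by omega) (by omega))
    · rw [Xr249.full_v, mem_AHS, mem_AHS]; unfold InHS; simp only; omega
    · rw [Xr249.full_h, mem_AHS, mem_AHS]; unfold InHS; simp only; omega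
  · refine nx_eq ((nx4 (x := X + n) (y := Y + 1)).2.2.1 ?_) (pe (by omega) (by omega))
      (pe (by omega) (by omega))
    rw [Xr249.full_v, mem_AHS, mem_AHS]; unfold InHS; simp only; omega
  refine fl_fl_chain (fun i hi => ?_) ?_ ?_
  · refine nx_eq ((nx_straight (x := X + n - i) (y := Y + 1)).2.2.2 ?_ ?_) rfl
      (pe (by omega) (by omega))
    · rw [Xr249.full_h, mem_AHS, mem_AHS]; unfold InHS; simp only; omega
    · rw [Xr249.full_v, mem_AHS, mem_AHS]; unfold InHS; simp only; omega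
  · refine nx_eq ((nx4 (x := X + r + 1) (y := Y + 1)).2.2.2 ?_) (pe (by omega) (by omega))
      (pe (by omega) (by omega))
    rw [Xr249.full_h, mem_AHS, mem_AHS]; unfold InHS; simp only; omega
  refine fl_fl_chain (fun i hi => ?_) ?_ ?_
  · refine nx_eq ((nx_straight (x := X + r + 1) (y := Y + 1 + i)).1 ?_ ?_) rfl
      (pe (by omega) (by omega))
    · rw [Xr249.full_v, mem_AHS, mem_AHS]; unfold InHS; simp only; omega
    · rw [Xr249.full_h, mem_AHS, mem_AHS]; unfold InHS; simp only; omega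
  · refine nx_eq ((nx_reflex (x := X + r + 1) (y := Y + r)).1 ?_ ?_ ?_)
      (pe (by omega) (by omega)) (pe (by omega) (by omega))
    · rw [Xr249.full_v, mem_AHS, mem_AHS]; unfold InHS; simp only; omega
    · rw [Xr249.full_h, mem_AHS, mem_AHS]; unfold InHS; simp only; omega
    · rw [Xr249.full_v, mem_AHS, mem_AHS]; unfold InHS; simp only; omega
  refine fl_fl_chain (fun i hi => ?_) ?_ ?_
  · refine nx_eq ((nx_straight (x := X + r - i) (y := Y + r + 1)).2.2.2 ?_ ?_) rfl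
      (pe (by omega) (by omega))
    · rw [Xr249.full_h, mem_AHS, mem_AHS]; unfold InHS; simp only; omega
    · rw [Xr249.full_v, mem_AHS, mem_AHS]; unfold InHS; simp only; omega
  · refine nx_eq ((nx_reflex (x := X - r + 1) (y := Y + r + 1)).2.2.2 ?_ ?_ ?_)
      (pe (by omega) (by omega)) (pe (by omega) (by omega))
    · rw [Xr249.full_h, mem_AHS, mem_AHS]; unfold InHS; simp only; omega
    · rw [Xr249.full_v, mem_AHS, mem_AHS]; unfold InHS; simp only; omega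
    · rw [Xr249.full_h, mem_AHS, mem_AHS]; unfold InHS; simp only; omega
  refine fl_fl_chain (fun i hi => ?_) ?_ ?_
  · refine nx_eq ((nx_straight (x := X - r) (y := Y + r - i)).2.2.1 ?_ ?_) rfl
      (pe (by omega) (by omega))
    · rw [Xr249.full_v, mem_AHS, mem_AHS]; unfold InHS; simp only; omega
    · rw [Xr249.full_h, mem_AHS, mem_AHS]; unfold InHS; simp only; omega
  · refine nx_eq ((nx4 (x := X - r) (y := Y + 1)).2.2.1 ?_) (pe (by omega) (by omega))
      (pe (by omega) (by omega))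
    rw [Xr249.full_v, mem_AHS, mem_AHS]; unfold InHS; simp only; omega
  refine fl_app_chain (fun i hi => ?_) ?_ (by simp)
  · refine nx_eq ((nx_straight (x := X - r - i) (y := Y + 1)).2.2.2 ?_ ?_) rfl
      (pe (by omega) (by omega))
    · rw [Xr249.full_h, mem_AHS, mem_AHS]; unfold InHS; simp only; omega
    · rw [Xr249.full_v, mem_AHS, mem_AHS]; unfold InHS; simp only; omega
  · refine nx_eq ((nx4 (x := X - n + 1) (y := Y + 1)).2.2.2 ?_) (pe (by omega) (by omega))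
      (pe (by omega) (by omega))
    rw [Xr249.full_h, mem_AHS, mem_AHS]; unfold InHS; simp only; omega

/-- **the word of the region `AHS`** -/
theorem ahs_word (X Y : ℤ) (r n : ℕ) (hr : 1 ≤ r) (hn : r + 1 ≤ n) :
    ∃ w : Wd (ℤ × ℤ), RW (Xr249.full (AHS X Y r n)) w (X - n + 1, Y + 1) ∧ Sw300.Fc w ∧
    Sw300.L w = none :: (HSoW X Y r n ++ (HSoN X Y r n ++ (HSoE X Y r n ++ (HSn1 X Y r n ++ (HSjW X Y r n ++ (HSjS X Y r n ++ (HSjE X Y r n ++ (HSn2 X Y r n)))))))) := by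
  have hw0 : ∃ l, HSoW X Y r n = some ((X - n + 1, Y + 1), 0) :: l := by
    obtain ⟨l, hl⟩ := fl_cons (fun i : ℕ => (some ((X - n + 1, Y + 1 + i), 0) : Port (ℤ × ℤ)))
      (n - 1)
    exact ⟨l, by unfold HSoW; rw [hl]; simp⟩
  obtain ⟨l', hl'⟩ := hw0
  have hch := ahs_chain (X := X) (Y := Y) hr hn
  rw [hl'] at hch
  have hch' : List.IsChain (Nx (Xr249.full (AHS X Y r n)).gl) (some ((X - n + 1, Y + 1), 0) ::
      ((l' ++ (HSoN X Y r n ++ (HSoE X Y r n ++ (HSn1 X Y r n ++ (HSjW X Y r n ++ (HSjS X Y r n ++ (HSjE X Y r n ++ (HSn2 X Y r n)))))))) ++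
        [some ((X - n + 1, Y + 1), 0)])) := by
    simpa [List.append_assoc] using hch
  have hne : some ((X - n + 1, Y + 1), (0 : ZMod 4)) ∉ l' ++ (HSoN X Y r n ++ (HSoE X Y r n ++ (HSn1 X Y r n ++ (HSjW X Y r n ++ (HSjS X Y r n ++ (HSjE X Y r n ++ (HSn2 X Y r n))))))) := by
    have k1 : some ((X - n + 1, Y + 1), (0 : ZMod 4)) ∉ l' := by
      have hw : wS ((X - n + 1, Y + 1).1) ((X - n + 1, Y + 1).2) (n - 1) = HSoW X Y r n := rfl
      exact nodup_head (hw.trans hl')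
    simp only [List.mem_append, not_or]
    refine ⟨k1, ?_, ?_, ?_, ?_, ?_, ?_, ?_⟩
    all_goals
      intro hm
      obtain ⟨i, hi', hi⟩ := mem_fl.1 hm
      simp only [Option.some.injEq, Prod.mk.injEq] at hi
      first
        | exact absurd hi.2 (by decide)
        | omega
  obtain ⟨w, h1, h2, h3⟩ := word_of_chain (ahs_sc hr hn) (ahs_conn hr hn) (ahs_run hr hn) hch' hne
  exact ⟨w, h1, h2, by rw [h3, hl']; simp⟩

/-- half annulus, wall on the right (814 `sE`) -/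
def InHE (X Y : ℤ) (r n : ℕ) (p : ℤ × ℤ) : Prop :=
  (X - n < p.1 ∧ p.1 ≤ X ∧ Y - n < p.2 ∧ p.2 ≤ Y + n) ∧
    ¬ (X - r < p.1 ∧ p.1 ≤ X ∧ Y - r < p.2 ∧ p.2 ≤ Y + r)

open Classical in
/-- half annulus, wall on the right (814 `sE`) (`Finset`) -/
noncomputable def AHE (X Y : ℤ) (r n : ℕ) : Finset (ℤ × ℤ) :=
  ((Finset.Icc (X - n) (X + n)) ×ˢ (Finset.Icc (Y - n) (Y + n))).filter (InHE X Y r n)

theorem mem_AHE {t : ℤ × ℤ} : t ∈ AHE X Y r n ↔ InHE X Y r n t := by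
  simp only [AHE, Finset.mem_filter, Finset.mem_product, Finset.mem_Icc]
  refine ⟨fun h => h.2, fun h => ⟨?_, h⟩⟩
  unfold InHE at h; omega

theorem ahe_full (x y : ℤ) (hr : 1 ≤ r) : FullAt (Xr249.full (AHE X Y r n)) x y := by
  refine full_at ?_ ?_ <;>
    (simp only [mem_AHE]; unfold InHE; simp only; intro h h'; omega)

theorem gs_he (hr : 1 ≤ r) (hn : r + 1 ≤ n) : GS X Y n (InHE X Y r n) := by
  refine (gs_hs hr hn).rot fun x y => ?_
  unfold InHE InHS; simp only; omega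

theorem ahe_sc (hr : 1 ≤ r) (hn : r + 1 ≤ n) : (Xr249.full (AHE X Y r n)).SC :=
  (gs_he hr hn).sc fun _ => mem_AHE

theorem ahe_conn (hr : 1 ≤ r) (hn : r + 1 ≤ n) : (Xr249.full (AHE X Y r n)).Conn :=
  (gs_he hr hn).conn fun _ => mem_AHE

theorem ahe_run (hr : 1 ≤ r) (hn : r + 1 ≤ n) :
    (Xr249.full (AHE X Y r n)).IsRun (X - n + 1) (X) (Y - n + 1) := by
  refine ⟨by omega, ?_, fun x h1 h2 => ?_, ?_, ?_⟩
  · rw [Xr249.full_P, mem_AHE]; unfold InHE; simp only; omega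
  · rw [Xr249.full_h, mem_AHE, mem_AHE]; unfold InHE; simp only; omega
  · rw [Xr249.full_h, mem_AHE, mem_AHE]; unfold InHE; simp only; omega
  · rw [Xr249.full_h, mem_AHE, mem_AHE]; unfold InHE; simp only; omega

/-- outer side -/
def HEoW (X Y : ℤ) (r n : ℕ) : List (Port (ℤ × ℤ)) :=
  fl (fun i => some ((X - n + 1, Y - n + 1 + i), 0)) (2 * n - 1)

/-- outer side -/
def HEoN (X Y : ℤ) (r n : ℕ) : List (Port (ℤ × ℤ)) :=
  fl (fun i => some ((X - n + 1 + i, Y + n), 1)) (n - 1)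

/-- wall -/
def HEn1 (X Y : ℤ) (r n : ℕ) : List (Port (ℤ × ℤ)) :=
  fl (fun i => some ((X, Y + n - i), 2)) (n - r - 1)

/-- inner side -/
def HEjS (X Y : ℤ) (r n : ℕ) : List (Port (ℤ × ℤ)) :=
  fl (fun i => some ((X - i, Y + r + 1), 3)) (r - 1)

/-- inner side -/
def HEjE (X Y : ℤ) (r n : ℕ) : List (Port (ℤ × ℤ)) :=
  fl (fun i => some ((X - r, Y + r - i), 2)) (2 * r - 1)

/-- inner side -/
def HEjN (X Y : ℤ) (r n : ℕ) : List (Port (ℤ × ℤ)) :=
  fl (fun i => some ((X - r + 1 + i, Y - r), 1)) (r - 1)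

/-- wall -/
def HEn2 (X Y : ℤ) (r n : ℕ) : List (Port (ℤ × ℤ)) :=
  fl (fun i => some ((X, Y - r - i), 2)) (n - r - 1)

/-- outer side -/
def HEoS (X Y : ℤ) (r n : ℕ) : List (Port (ℤ × ℤ)) :=
  fl (fun i => some ((X - i, Y - n + 1), 3)) (n - 1)

theorem ahe_chain (hr : 1 ≤ r) (hn : r + 1 ≤ n) : List.IsChain (Nx (Xr249.full (AHE X Y r n)).gl)
    (HEoW X Y r n ++ (HEoN X Y r n ++ (HEn1 X Y r n ++ (HEjS X Y r n ++ (HEjE X Y r n ++ (HEjN X Y r n ++ (HEn2 X Y r n ++ (HEoS X Y r n ++ [some ((X - n + 1, Y - n + 1), 0)])))))))) := by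
  refine fl_fl_chain (fun i hi => ?_) ?_ ?_
  · refine nx_eq ((nx_straight (x := X - n + 1) (y := Y - n + 1 + i)).1 ?_ ?_) rfl
      (pe (by omega) (by omega))
    · rw [Xr249.full_v, mem_AHE, mem_AHE]; unfold InHE; simp only; omega
    · rw [Xr249.full_h, mem_AHE, mem_AHE]; unfold InHE; simp only; omega
  · refine nx_eq ((nx4 (x := X - n + 1) (y := Y + n)).1 ?_) (pe (by omega) (by omega))
      (pe (by omega) (by omega))
    rw [Xr249.full_v, mem_AHE, mem_AHE]; unfold InHE; simp only; omega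
  refine fl_fl_chain (fun i hi => ?_) ?_ ?_
  · refine nx_eq ((nx_straight (x := X - n + 1 + i) (y := Y + n)).2.1 ?_ ?_) rfl
      (pe (by omega) (by omega))
    · rw [Xr249.full_h, mem_AHE, mem_AHE]; unfold InHE; simp only; omega
    · rw [Xr249.full_v, mem_AHE, mem_AHE]; unfold InHE; simp only; omega
  · refine nx_eq ((nx4 (x := X) (y := Y + n)).2.1 ?_) (pe (by omega) (by omega))
      (pe (by omega) (by omega))
    rw [Xr249.full_h, mem_AHE, mem_AHE]; unfold InHE; simp only; omega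
  refine fl_fl_chain (fun i hi => ?_) ?_ ?_
  · refine nx_eq ((nx_straight (x := X) (y := Y + n - i)).2.2.1 ?_ ?_) rfl
      (pe (by omega) (by omega))
    · rw [Xr249.full_v, mem_AHE, mem_AHE]; unfold InHE; simp only; omega
    · rw [Xr249.full_h, mem_AHE, mem_AHE]; unfold InHE; simp only; omega
  · refine nx_eq ((nx4 (x := X) (y := Y + r + 1)).2.2.1 ?_) (pe (by omega) (by omega))
      (pe (by omega) (by omega))
    rw [Xr249.full_v, mem_AHE, mem_AHE]; unfold InHE; simp only; omega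
  refine fl_fl_chain (fun i hi => ?_) ?_ ?_
  · refine nx_eq ((nx_straight (x := X - i) (y := Y + r + 1)).2.2.2 ?_ ?_) rfl
      (pe (by omega) (by omega))
    · rw [Xr249.full_h, mem_AHE, mem_AHE]; unfold InHE; simp only; omega
    · rw [Xr249.full_v, mem_AHE, mem_AHE]; unfold InHE; simp only; omega
  · refine nx_eq ((nx_reflex (x := X - r + 1) (y := Y + r + 1)).2.2.2 ?_ ?_ ?_)
      (pe (by omega) (by omega)) (pe (by omega) (by omega))
    · rw [Xr249.full_h, mem_AHE, mem_AHE]; unfold InHE; simp only; omega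
    · rw [Xr249.full_v, mem_AHE, mem_AHE]; unfold InHE; simp only; omega
    · rw [Xr249.full_h, mem_AHE, mem_AHE]; unfold InHE; simp only; omega
  refine fl_fl_chain (fun i hi => ?_) ?_ ?_
  · refine nx_eq ((nx_straight (x := X - r) (y := Y + r - i)).2.2.1 ?_ ?_) rfl
      (pe (by omega) (by omega))
    · rw [Xr249.full_v, mem_AHE, mem_AHE]; unfold InHE; simp only; omega
    · rw [Xr249.full_h, mem_AHE, mem_AHE]; unfold InHE; simp only; omega
  · refine nx_eq ((nx_reflex (x := X - r) (y := Y - r + 1)).2.2.1 ?_ ?_ ?_)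
      (pe (by omega) (by omega)) (pe (by omega) (by omega))
    · rw [Xr249.full_v, mem_AHE, mem_AHE]; unfold InHE; simp only; omega
    · rw [Xr249.full_h, mem_AHE, mem_AHE]; unfold InHE; simp only; omega
    · rw [Xr249.full_v, mem_AHE, mem_AHE]; unfold InHE; simp only; omega
  refine fl_fl_chain (fun i hi => ?_) ?_ ?_
  · refine nx_eq ((nx_straight (x := X - r + 1 + i) (y := Y - r)).2.1 ?_ ?_) rfl
      (pe (by omega) (by omega))
    · rw [Xr249.full_h, mem_AHE, mem_AHE]; unfold InHE; simp only; omega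
    · rw [Xr249.full_v, mem_AHE, mem_AHE]; unfold InHE; simp only; omega
  · refine nx_eq ((nx4 (x := X) (y := Y - r)).2.1 ?_) (pe (by omega) (by omega))
      (pe (by omega) (by omega))
    rw [Xr249.full_h, mem_AHE, mem_AHE]; unfold InHE; simp only; omega
  refine fl_fl_chain (fun i hi => ?_) ?_ ?_
  · refine nx_eq ((nx_straight (x := X) (y := Y - r - i)).2.2.1 ?_ ?_) rfl
      (pe (by omega) (by omega))
    · rw [Xr249.full_v, mem_AHE, mem_AHE]; unfold InHE; simp only; omega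
    · rw [Xr249.full_h, mem_AHE, mem_AHE]; unfold InHE; simp only; omega
  · refine nx_eq ((nx4 (x := X) (y := Y - n + 1)).2.2.1 ?_) (pe (by omega) (by omega))
      (pe (by omega) (by omega))
    rw [Xr249.full_v, mem_AHE, mem_AHE]; unfold InHE; simp only; omega
  refine fl_app_chain (fun i hi => ?_) ?_ (by simp)
  · refine nx_eq ((nx_straight (x := X - i) (y := Y - n + 1)).2.2.2 ?_ ?_) rfl
      (pe (by omega) (by omega))
    · rw [Xr249.full_h, mem_AHE, mem_AHE]; unfold InHE; simp only; omega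
    · rw [Xr249.full_v, mem_AHE, mem_AHE]; unfold InHE; simp only; omega
  · refine nx_eq ((nx4 (x := X - n + 1) (y := Y - n + 1)).2.2.2 ?_) (pe (by omega) (by omega))
      (pe (by omega) (by omega))
    rw [Xr249.full_h, mem_AHE, mem_AHE]; unfold InHE; simp only; omega

/-- **the word of the region `AHE`** -/
theorem ahe_word (X Y : ℤ) (r n : ℕ) (hr : 1 ≤ r) (hn : r + 1 ≤ n) :
    ∃ w : Wd (ℤ × ℤ), RW (Xr249.full (AHE X Y r n)) w (X - n + 1, Y - n + 1) ∧ Sw300.Fc w ∧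
    Sw300.L w = none :: (HEoW X Y r n ++ (HEoN X Y r n ++ (HEn1 X Y r n ++ (HEjS X Y r n ++ (HEjE X Y r n ++ (HEjN X Y r n ++ (HEn2 X Y r n ++ (HEoS X Y r n)))))))) := by
  have hw0 : ∃ l, HEoW X Y r n = some ((X - n + 1, Y - n + 1), 0) :: l := by
    obtain ⟨l, hl⟩ := fl_cons (fun i : ℕ => (some ((X - n + 1, Y - n + 1 + i), 0) : Port (ℤ × ℤ)))
      (2 * n - 1)
    exact ⟨l, by unfold HEoW; rw [hl]; simp⟩
  obtain ⟨l', hl'⟩ := hw0
  have hch := ahe_chain (X := X) (Y := Y) hr hn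
  rw [hl'] at hch
  have hch' : List.IsChain (Nx (Xr249.full (AHE X Y r n)).gl) (some ((X - n + 1, Y - n + 1), 0) ::
      ((l' ++ (HEoN X Y r n ++ (HEn1 X Y r n ++ (HEjS X Y r n ++ (HEjE X Y r n ++ (HEjN X Y r n ++ (HEn2 X Y r n ++ (HEoS X Y r n)))))))) ++
        [some ((X - n + 1, Y - n + 1), 0)])) := by
    simpa [List.append_assoc] using hch
  have hne : some ((X - n + 1, Y - n + 1), (0 : ZMod 4)) ∉ l' ++ (HEoN X Y r n ++ (HEn1 X Y r n ++ (HEjS X Y r n ++ (HEjE X Y r n ++ (HEjN X Y r n ++ (HEn2 X Y r n ++ (HEoS X Y r n))))))) := by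
    have k1 : some ((X - n + 1, Y - n + 1), (0 : ZMod 4)) ∉ l' := by
      have hw : wS ((X - n + 1, Y - n + 1).1) ((X - n + 1, Y - n + 1).2) (2 * n - 1) = HEoW X Y r n := rfl
      exact nodup_head (hw.trans hl')
    simp only [List.mem_append, not_or]
    refine ⟨k1, ?_, ?_, ?_, ?_, ?_, ?_, ?_⟩
    all_goals
      intro hm
      obtain ⟨i, hi', hi⟩ := mem_fl.1 hm
      simp only [Option.some.injEq, Prod.mk.injEq] at hi
      first
        | exact absurd hi.2 (by decide)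
        | omega
  obtain ⟨w, h1, h2, h3⟩ := word_of_chain (ahe_sc hr hn) (ahe_conn hr hn) (ahe_run hr hn) hch' hne
  exact ⟨w, h1, h2, by rw [h3, hl']; simp⟩

/-- half annulus, wall above (814 `sN`) -/
def InHN (X Y : ℤ) (r n : ℕ) (p : ℤ × ℤ) : Prop :=
  (X - n < p.1 ∧ p.1 ≤ X + n ∧ Y - n < p.2 ∧ p.2 ≤ Y) ∧
    ¬ (X - r < p.1 ∧ p.1 ≤ X + r ∧ Y - r < p.2 ∧ p.2 ≤ Y)

open Classical in
/-- half annulus, wall above (814 `sN`) (`Finset`) -/
noncomputable def AHN (X Y : ℤ) (r n : ℕ) : Finset (ℤ × ℤ) :=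
  ((Finset.Icc (X - n) (X + n)) ×ˢ (Finset.Icc (Y - n) (Y + n))).filter (InHN X Y r n)

theorem mem_AHN {t : ℤ × ℤ} : t ∈ AHN X Y r n ↔ InHN X Y r n t := by
  simp only [AHN, Finset.mem_filter, Finset.mem_product, Finset.mem_Icc]
  refine ⟨fun h => h.2, fun h => ⟨?_, h⟩⟩
  unfold InHN at h; omega

theorem ahn_full (x y : ℤ) (hr : 1 ≤ r) : FullAt (Xr249.full (AHN X Y r n)) x y := by
  refine full_at ?_ ?_ <;>
    (simp only [mem_AHN]; unfold InHN; simp only; intro h h'; omega)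

theorem gs_hn (hr : 1 ≤ r) (hn : r + 1 ≤ n) : GS X Y n (InHN X Y r n) := by
  refine (gs_he hr hn).rot fun x y => ?_
  unfold InHN InHE; simp only; omega

theorem ahn_sc (hr : 1 ≤ r) (hn : r + 1 ≤ n) : (Xr249.full (AHN X Y r n)).SC :=
  (gs_hn hr hn).sc fun _ => mem_AHN

theorem ahn_conn (hr : 1 ≤ r) (hn : r + 1 ≤ n) : (Xr249.full (AHN X Y r n)).Conn :=
  (gs_hn hr hn).conn fun _ => mem_AHN

theorem ahn_run (hr : 1 ≤ r) (hn : r + 1 ≤ n) :
    (Xr249.full (AHN X Y r n)).IsRun (X - n + 1) (X + n) (Y - n + 1) := by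
  refine ⟨by omega, ?_, fun x h1 h2 => ?_, ?_, ?_⟩
  · rw [Xr249.full_P, mem_AHN]; unfold InHN; simp only; omega
  · rw [Xr249.full_h, mem_AHN, mem_AHN]; unfold InHN; simp only; omega
  · rw [Xr249.full_h, mem_AHN, mem_AHN]; unfold InHN; simp only; omega
  · rw [Xr249.full_h, mem_AHN, mem_AHN]; unfold InHN; simp only; omega

/-- outer side -/
def HNoW (X Y : ℤ) (r n : ℕ) : List (Port (ℤ × ℤ)) :=
  fl (fun i => some ((X - n + 1, Y - n + 1 + i), 0)) (n - 1)

/-- wall -/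
def HNn1 (X Y : ℤ) (r n : ℕ) : List (Port (ℤ × ℤ)) :=
  fl (fun i => some ((X - n + 1 + i, Y), 1)) (n - r - 1)

/-- inner side -/
def HNjE (X Y : ℤ) (r n : ℕ) : List (Port (ℤ × ℤ)) :=
  fl (fun i => some ((X - r, Y - i), 2)) (r - 1)

/-- inner side -/
def HNjN (X Y : ℤ) (r n : ℕ) : List (Port (ℤ × ℤ)) :=
  fl (fun i => some ((X - r + 1 + i, Y - r), 1)) (2 * r - 1)

/-- inner side -/
def HNjW (X Y : ℤ) (r n : ℕ) : List (Port (ℤ × ℤ)) :=
  fl (fun i => some ((X + r + 1, Y - r + 1 + i), 0)) (r - 1)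

/-- wall -/
def HNn2 (X Y : ℤ) (r n : ℕ) : List (Port (ℤ × ℤ)) :=
  fl (fun i => some ((X + r + 1 + i, Y), 1)) (n - r - 1)

/-- outer side -/
def HNoE (X Y : ℤ) (r n : ℕ) : List (Port (ℤ × ℤ)) :=
  fl (fun i => some ((X + n, Y - i), 2)) (n - 1)

/-- outer side -/
def HNoS (X Y : ℤ) (r n : ℕ) : List (Port (ℤ × ℤ)) :=
  fl (fun i => some ((X + n - i, Y - n + 1), 3)) (2 * n - 1)

theorem ahn_chain (hr : 1 ≤ r) (hn : r + 1 ≤ n) : List.IsChain (Nx (Xr249.full (AHN X Y r n)).gl)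
    (HNoW X Y r n ++ (HNn1 X Y r n ++ (HNjE X Y r n ++ (HNjN X Y r n ++ (HNjW X Y r n ++ (HNn2 X Y r n ++ (HNoE X Y r n ++ (HNoS X Y r n ++ [some ((X - n + 1, Y - n + 1), 0)])))))))) := by
  refine fl_fl_chain (fun i hi => ?_) ?_ ?_
  · refine nx_eq ((nx_straight (x := X - n + 1) (y := Y - n + 1 + i)).1 ?_ ?_) rfl
      (pe (by omega) (by omega))
    · rw [Xr249.full_v, mem_AHN, mem_AHN]; unfold InHN; simp only; omega
    · rw [Xr249.full_h, mem_AHN, mem_AHN]; unfold InHN; simp only; omega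
  · refine nx_eq ((nx4 (x := X - n + 1) (y := Y)).1 ?_) (pe (by omega) (by omega))
      (pe (by omega) (by omega))
    rw [Xr249.full_v, mem_AHN, mem_AHN]; unfold InHN; simp only; omega
  refine fl_fl_chain (fun i hi => ?_) ?_ ?_
  · refine nx_eq ((nx_straight (x := X - n + 1 + i) (y := Y)).2.1 ?_ ?_) rfl
      (pe (by omega) (by omega))
    · rw [Xr249.full_h, mem_AHN, mem_AHN]; unfold InHN; simp only; omega
    · rw [Xr249.full_v, mem_AHN, mem_AHN]; unfold InHN; simp only; omega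
  · refine nx_eq ((nx4 (x := X - r) (y := Y)).2.1 ?_) (pe (by omega) (by omega))
      (pe (by omega) (by omega))
    rw [Xr249.full_h, mem_AHN, mem_AHN]; unfold InHN; simp only; omega
  refine fl_fl_chain (fun i hi => ?_) ?_ ?_
  · refine nx_eq ((nx_straight (x := X - r) (y := Y - i)).2.2.1 ?_ ?_) rfl
      (pe (by omega) (by omega))
    · rw [Xr249.full_v, mem_AHN, mem_AHN]; unfold InHN; simp only; omega
    · rw [Xr249.full_h, mem_AHN, mem_AHN]; unfold InHN; simp only; omega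
  · refine nx_eq ((nx_reflex (x := X - r) (y := Y - r + 1)).2.2.1 ?_ ?_ ?_)
      (pe (by omega) (by omega)) (pe (by omega) (by omega))
    · rw [Xr249.full_v, mem_AHN, mem_AHN]; unfold InHN; simp only; omega
    · rw [Xr249.full_h, mem_AHN, mem_AHN]; unfold InHN; simp only; omega
    · rw [Xr249.full_v, mem_AHN, mem_AHN]; unfold InHN; simp only; omega
  refine fl_fl_chain (fun i hi => ?_) ?_ ?_
  · refine nx_eq ((nx_straight (x := X - r + 1 + i) (y := Y - r)).2.1 ?_ ?_) rfl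
      (pe (by omega) (by omega))
    · rw [Xr249.full_h, mem_AHN, mem_AHN]; unfold InHN; simp only; omega
    · rw [Xr249.full_v, mem_AHN, mem_AHN]; unfold InHN; simp only; omega
  · refine nx_eq ((nx_reflex (x := X + r) (y := Y - r)).2.1 ?_ ?_ ?_)
      (pe (by omega) (by omega)) (pe (by omega) (by omega))
    · rw [Xr249.full_h, mem_AHN, mem_AHN]; unfold InHN; simp only; omega
    · rw [Xr249.full_v, mem_AHN, mem_AHN]; unfold InHN; simp only; omega
    · rw [Xr249.full_h, mem_AHN, mem_AHN]; unfold InHN; simp only; omega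
  refine fl_fl_chain (fun i hi => ?_) ?_ ?_
  · refine nx_eq ((nx_straight (x := X + r + 1) (y := Y - r + 1 + i)).1 ?_ ?_) rfl
      (pe (by omega) (by omega))
    · rw [Xr249.full_v, mem_AHN, mem_AHN]; unfold InHN; simp only; omega
    · rw [Xr249.full_h, mem_AHN, mem_AHN]; unfold InHN; simp only; omega
  · refine nx_eq ((nx4 (x := X + r + 1) (y := Y)).1 ?_) (pe (by omega) (by omega))
      (pe (by omega) (by omega))
    rw [Xr249.full_v, mem_AHN, mem_AHN]; unfold InHN; simp only; omega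
  refine fl_fl_chain (fun i hi => ?_) ?_ ?_
  · refine nx_eq ((nx_straight (x := X + r + 1 + i) (y := Y)).2.1 ?_ ?_) rfl
      (pe (by omega) (by omega))
    · rw [Xr249.full_h, mem_AHN, mem_AHN]; unfold InHN; simp only; omega
    · rw [Xr249.full_v, mem_AHN, mem_AHN]; unfold InHN; simp only; omega
  · refine nx_eq ((nx4 (x := X + n) (y := Y)).2.1 ?_) (pe (by omega) (by omega))
      (pe (by omega) (by omega))
    rw [Xr249.full_h, mem_AHN, mem_AHN]; unfold InHN; simp only; omega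
  refine fl_fl_chain (fun i hi => ?_) ?_ ?_
  · refine nx_eq ((nx_straight (x := X + n) (y := Y - i)).2.2.1 ?_ ?_) rfl
      (pe (by omega) (by omega))
    · rw [Xr249.full_v, mem_AHN, mem_AHN]; unfold InHN; simp only; omega
    · rw [Xr249.full_h, mem_AHN, mem_AHN]; unfold InHN; simp only; omega
  · refine nx_eq ((nx4 (x := X + n) (y := Y - n + 1)).2.2.1 ?_) (pe (by omega) (by omega))
      (pe (by omega) (by omega))
    rw [Xr249.full_v, mem_AHN, mem_AHN]; unfold InHN; simp only; omega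
  refine fl_app_chain (fun i hi => ?_) ?_ (by simp)
  · refine nx_eq ((nx_straight (x := X + n - i) (y := Y - n + 1)).2.2.2 ?_ ?_) rfl
      (pe (by omega) (by omega))
    · rw [Xr249.full_h, mem_AHN, mem_AHN]; unfold InHN; simp only; omega
    · rw [Xr249.full_v, mem_AHN, mem_AHN]; unfold InHN; simp only; omega
  · refine nx_eq ((nx4 (x := X - n + 1) (y := Y - n + 1)).2.2.2 ?_) (pe (by omega) (by omega))
      (pe (by omega) (by omega))
    rw [Xr249.full_h, mem_AHN, mem_AHN]; unfold InHN; simp only; omega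

/-- **the word of the region `AHN`** -/
theorem ahn_word (X Y : ℤ) (r n : ℕ) (hr : 1 ≤ r) (hn : r + 1 ≤ n) :
    ∃ w : Wd (ℤ × ℤ), RW (Xr249.full (AHN X Y r n)) w (X - n + 1, Y - n + 1) ∧ Sw300.Fc w ∧
    Sw300.L w = none :: (HNoW X Y r n ++ (HNn1 X Y r n ++ (HNjE X Y r n ++ (HNjN X Y r n ++ (HNjW X Y r n ++ (HNn2 X Y r n ++ (HNoE X Y r n ++ (HNoS X Y r n)))))))) := by
  have hw0 : ∃ l, HNoW X Y r n = some ((X - n + 1, Y - n + 1), 0) :: l := by
    obtain ⟨l, hl⟩ := fl_cons (fun i : ℕ => (some ((X - n + 1, Y - n + 1 + i), 0) : Port (ℤ × ℤ)))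
      (n - 1)
    exact ⟨l, by unfold HNoW; rw [hl]; simp⟩
  obtain ⟨l', hl'⟩ := hw0
  have hch := ahn_chain (X := X) (Y := Y) hr hn
  rw [hl'] at hch
  have hch' : List.IsChain (Nx (Xr249.full (AHN X Y r n)).gl) (some ((X - n + 1, Y - n + 1), 0) ::
      ((l' ++ (HNn1 X Y r n ++ (HNjE X Y r n ++ (HNjN X Y r n ++ (HNjW X Y r n ++ (HNn2 X Y r n ++ (HNoE X Y r n ++ (HNoS X Y r n)))))))) ++
        [some ((X - n + 1, Y - n + 1), 0)])) := by
    simpa [List.append_assoc] using hch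
  have hne : some ((X - n + 1, Y - n + 1), (0 : ZMod 4)) ∉ l' ++ (HNn1 X Y r n ++ (HNjE X Y r n ++ (HNjN X Y r n ++ (HNjW X Y r n ++ (HNn2 X Y r n ++ (HNoE X Y r n ++ (HNoS X Y r n))))))) := by
    have k1 : some ((X - n + 1, Y - n + 1), (0 : ZMod 4)) ∉ l' := by
      have hw : wS ((X - n + 1, Y - n + 1).1) ((X - n + 1, Y - n + 1).2) (n - 1) = HNoW X Y r n := rfl
      exact nodup_head (hw.trans hl')
    simp only [List.mem_append, not_or]
    refine ⟨k1, ?_, ?_, ?_, ?_, ?_, ?_, ?_⟩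
    all_goals
      intro hm
      obtain ⟨i, hi', hi⟩ := mem_fl.1 hm
      simp only [Option.some.injEq, Prod.mk.injEq] at hi
      first
        | exact absurd hi.2 (by decide)
        | omega
  obtain ⟨w, h1, h2, h3⟩ := word_of_chain (ahn_sc hr hn) (ahn_conn hr hn) (ahn_run hr hn) hch' hne
  exact ⟨w, h1, h2, by rw [h3, hl']; simp⟩

/-- half annulus, wall on the left (814 `sW`) -/
def InHW (X Y : ℤ) (r n : ℕ) (p : ℤ × ℤ) : Prop :=
  (X < p.1 ∧ p.1 ≤ X + n ∧ Y - n < p.2 ∧ p.2 ≤ Y + n) ∧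
    ¬ (X < p.1 ∧ p.1 ≤ X + r ∧ Y - r < p.2 ∧ p.2 ≤ Y + r)

open Classical in
/-- half annulus, wall on the left (814 `sW`) (`Finset`) -/
noncomputable def AHW (X Y : ℤ) (r n : ℕ) : Finset (ℤ × ℤ) :=
  ((Finset.Icc (X - n) (X + n)) ×ˢ (Finset.Icc (Y - n) (Y + n))).filter (InHW X Y r n)

theorem mem_AHW {t : ℤ × ℤ} : t ∈ AHW X Y r n ↔ InHW X Y r n t := by
  simp only [AHW, Finset.mem_filter, Finset.mem_product, Finset.mem_Icc]
  refine ⟨fun h => h.2, fun h => ⟨?_, h⟩⟩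
  unfold InHW at h; omega

theorem ahw_full (x y : ℤ) (hr : 1 ≤ r) : FullAt (Xr249.full (AHW X Y r n)) x y := by
  refine full_at ?_ ?_ <;>
    (simp only [mem_AHW]; unfold InHW; simp only; intro h h'; omega)

theorem gs_hw (hr : 1 ≤ r) (hn : r + 1 ≤ n) : GS X Y n (InHW X Y r n) := by
  refine (gs_hn hr hn).rot fun x y => ?_
  unfold InHW InHN; simp only; omega

theorem ahw_sc (hr : 1 ≤ r) (hn : r + 1 ≤ n) : (Xr249.full (AHW X Y r n)).SC :=
  (gs_hw hr hn).sc fun _ => mem_AHW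

theorem ahw_conn (hr : 1 ≤ r) (hn : r + 1 ≤ n) : (Xr249.full (AHW X Y r n)).Conn :=
  (gs_hw hr hn).conn fun _ => mem_AHW

theorem ahw_run (hr : 1 ≤ r) (hn : r + 1 ≤ n) :
    (Xr249.full (AHW X Y r n)).IsRun (X + 1) (X + n) (Y - n + 1) := by
  refine ⟨by omega, ?_, fun x h1 h2 => ?_, ?_, ?_⟩
  · rw [Xr249.full_P, mem_AHW]; unfold InHW; simp only; omega
  · rw [Xr249.full_h, mem_AHW, mem_AHW]; unfold InHW; simp only; omega
  · rw [Xr249.full_h, mem_AHW, mem_AHW]; unfold InHW; simp only; omega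
  · rw [Xr249.full_h, mem_AHW, mem_AHW]; unfold InHW; simp only; omega

/-- wall -/
def HWn1 (X Y : ℤ) (r n : ℕ) : List (Port (ℤ × ℤ)) :=
  fl (fun i => some ((X + 1, Y - n + 1 + i), 0)) (n - r - 1)

/-- inner side -/
def HWjN (X Y : ℤ) (r n : ℕ) : List (Port (ℤ × ℤ)) :=
  fl (fun i => some ((X + 1 + i, Y - r), 1)) (r - 1)

/-- inner side -/
def HWjW (X Y : ℤ) (r n : ℕ) : List (Port (ℤ × ℤ)) :=
  fl (fun i => some ((X + r + 1, Y - r + 1 + i), 0)) (2 * r - 1)

/-- inner side -/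
def HWjS (X Y : ℤ) (r n : ℕ) : List (Port (ℤ × ℤ)) :=
  fl (fun i => some ((X + r - i, Y + r + 1), 3)) (r - 1)

/-- wall -/
def HWn2 (X Y : ℤ) (r n : ℕ) : List (Port (ℤ × ℤ)) :=
  fl (fun i => some ((X + 1, Y + r + 1 + i), 0)) (n - r - 1)

/-- outer side -/
def HWoN (X Y : ℤ) (r n : ℕ) : List (Port (ℤ × ℤ)) :=
  fl (fun i => some ((X + 1 + i, Y + n), 1)) (n - 1)

/-- outer side -/
def HWoE (X Y : ℤ) (r n : ℕ) : List (Port (ℤ × ℤ)) :=
  fl (fun i => some ((X + n, Y + n - i), 2)) (2 * n - 1)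

/-- outer side -/
def HWoS (X Y : ℤ) (r n : ℕ) : List (Port (ℤ × ℤ)) :=
  fl (fun i => some ((X + n - i, Y - n + 1), 3)) (n - 1)

theorem ahw_chain (hr : 1 ≤ r) (hn : r + 1 ≤ n) : List.IsChain (Nx (Xr249.full (AHW X Y r n)).gl)
    (HWn1 X Y r n ++ (HWjN X Y r n ++ (HWjW X Y r n ++ (HWjS X Y r n ++ (HWn2 X Y r n ++ (HWoN X Y r n ++ (HWoE X Y r n ++ (HWoS X Y r n ++ [some ((X + 1, Y - n + 1), 0)])))))))) := by
  refine fl_fl_chain (fun i hi => ?_) ?_ ?_
  · refine nx_eq ((nx_straight (x := X + 1) (y := Y - n + 1 + i)).1 ?_ ?_) rfl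
      (pe (by omega) (by omega))
    · rw [Xr249.full_v, mem_AHW, mem_AHW]; unfold InHW; simp only; omega
    · rw [Xr249.full_h, mem_AHW, mem_AHW]; unfold InHW; simp only; omega
  · refine nx_eq ((nx4 (x := X + 1) (y := Y - r)).1 ?_) (pe (by omega) (by omega))
      (pe (by omega) (by omega))
    rw [Xr249.full_v, mem_AHW, mem_AHW]; unfold InHW; simp only; omega
  refine fl_fl_chain (fun i hi => ?_) ?_ ?_
  · refine nx_eq ((nx_straight (x := X + 1 + i) (y := Y - r)).2.1 ?_ ?_) rfl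
      (pe (by omega) (by omega))
    · rw [Xr249.full_h, mem_AHW, mem_AHW]; unfold InHW; simp only; omega
    · rw [Xr249.full_v, mem_AHW, mem_AHW]; unfold InHW; simp only; omega
  · refine nx_eq ((nx_reflex (x := X + r) (y := Y - r)).2.1 ?_ ?_ ?_)
      (pe (by omega) (by omega)) (pe (by omega) (by omega))
    · rw [Xr249.full_h, mem_AHW, mem_AHW]; unfold InHW; simp only; omega
    · rw [Xr249.full_v, mem_AHW, mem_AHW]; unfold InHW; simp only; omega
    · rw [Xr249.full_h, mem_AHW, mem_AHW]; unfold InHW; simp only; omega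
  refine fl_fl_chain (fun i hi => ?_) ?_ ?_
  · refine nx_eq ((nx_straight (x := X + r + 1) (y := Y - r + 1 + i)).1 ?_ ?_) rfl
      (pe (by omega) (by omega))
    · rw [Xr249.full_v, mem_AHW, mem_AHW]; unfold InHW; simp only; omega
    · rw [Xr249.full_h, mem_AHW, mem_AHW]; unfold InHW; simp only; omega
  · refine nx_eq ((nx_reflex (x := X + r + 1) (y := Y + r)).1 ?_ ?_ ?_)
      (pe (by omega) (by omega)) (pe (by omega) (by omega))
    · rw [Xr249.full_v, mem_AHW, mem_AHW]; unfold InHW; simp only; omega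
    · rw [Xr249.full_h, mem_AHW, mem_AHW]; unfold InHW; simp only; omega
    · rw [Xr249.full_v, mem_AHW, mem_AHW]; unfold InHW; simp only; omega
  refine fl_fl_chain (fun i hi => ?_) ?_ ?_
  · refine nx_eq ((nx_straight (x := X + r - i) (y := Y + r + 1)).2.2.2 ?_ ?_) rfl
      (pe (by omega) (by omega))
    · rw [Xr249.full_h, mem_AHW, mem_AHW]; unfold InHW; simp only; omega
    · rw [Xr249.full_v, mem_AHW, mem_AHW]; unfold InHW; simp only; omega
  · refine nx_eq ((nx4 (x := X + 1) (y := Y + r + 1)).2.2.2 ?_) (pe (by omega) (by omega))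
      (pe (by omega) (by omega))
    rw [Xr249.full_h, mem_AHW, mem_AHW]; unfold InHW; simp only; omega
  refine fl_fl_chain (fun i hi => ?_) ?_ ?_
  · refine nx_eq ((nx_straight (x := X + 1) (y := Y + r + 1 + i)).1 ?_ ?_) rfl
      (pe (by omega) (by omega))
    · rw [Xr249.full_v, mem_AHW, mem_AHW]; unfold InHW; simp only; omega
    · rw [Xr249.full_h, mem_AHW, mem_AHW]; unfold InHW; simp only; omega
  · refine nx_eq ((nx4 (x := X + 1) (y := Y + n)).1 ?_) (pe (by omega) (by omega))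
      (pe (by omega) (by omega))
    rw [Xr249.full_v, mem_AHW, mem_AHW]; unfold InHW; simp only; omega
  refine fl_fl_chain (fun i hi => ?_) ?_ ?_
  · refine nx_eq ((nx_straight (x := X + 1 + i) (y := Y + n)).2.1 ?_ ?_) rfl
      (pe (by omega) (by omega))
    · rw [Xr249.full_h, mem_AHW, mem_AHW]; unfold InHW; simp only; omega
    · rw [Xr249.full_v, mem_AHW, mem_AHW]; unfold InHW; simp only; omega
  · refine nx_eq ((nx4 (x := X + n) (y := Y + n)).2.1 ?_) (pe (by omega) (by omega))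
      (pe (by omega) (by omega))
    rw [Xr249.full_h, mem_AHW, mem_AHW]; unfold InHW; simp only; omega
  refine fl_fl_chain (fun i hi => ?_) ?_ ?_
  · refine nx_eq ((nx_straight (x := X + n) (y := Y + n - i)).2.2.1 ?_ ?_) rfl
      (pe (by omega) (by omega))
    · rw [Xr249.full_v, mem_AHW, mem_AHW]; unfold InHW; simp only; omega
    · rw [Xr249.full_h, mem_AHW, mem_AHW]; unfold InHW; simp only; omega
  · refine nx_eq ((nx4 (x := X + n) (y := Y - n + 1)).2.2.1 ?_) (pe (by omega) (by omega))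
      (pe (by omega) (by omega))
    rw [Xr249.full_v, mem_AHW, mem_AHW]; unfold InHW; simp only; omega
  refine fl_app_chain (fun i hi => ?_) ?_ (by simp)
  · refine nx_eq ((nx_straight (x := X + n - i) (y := Y - n + 1)).2.2.2 ?_ ?_) rfl
      (pe (by omega) (by omega))
    · rw [Xr249.full_h, mem_AHW, mem_AHW]; unfold InHW; simp only; omega
    · rw [Xr249.full_v, mem_AHW, mem_AHW]; unfold InHW; simp only; omega
  · refine nx_eq ((nx4 (x := X + 1) (y := Y - n + 1)).2.2.2 ?_) (pe (by omega) (by omega))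
      (pe (by omega) (by omega))
    rw [Xr249.full_h, mem_AHW, mem_AHW]; unfold InHW; simp only; omega

/-- **the word of the region `AHW`** -/
theorem ahw_word (X Y : ℤ) (r n : ℕ) (hr : 1 ≤ r) (hn : r + 1 ≤ n) :
    ∃ w : Wd (ℤ × ℤ), RW (Xr249.full (AHW X Y r n)) w (X + 1, Y - n + 1) ∧ Sw300.Fc w ∧
    Sw300.L w = none :: (HWn1 X Y r n ++ (HWjN X Y r n ++ (HWjW X Y r n ++ (HWjS X Y r n ++ (HWn2 X Y r n ++ (HWoN X Y r n ++ (HWoE X Y r n ++ (HWoS X Y r n)))))))) := by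
  have hw0 : ∃ l, HWn1 X Y r n = some ((X + 1, Y - n + 1), 0) :: l := by
    obtain ⟨l, hl⟩ := fl_cons (fun i : ℕ => (some ((X + 1, Y - n + 1 + i), 0) : Port (ℤ × ℤ)))
      (n - r - 1)
    exact ⟨l, by unfold HWn1; rw [hl]; simp⟩
  obtain ⟨l', hl'⟩ := hw0
  have hch := ahw_chain (X := X) (Y := Y) hr hn
  rw [hl'] at hch
  have hch' : List.IsChain (Nx (Xr249.full (AHW X Y r n)).gl) (some ((X + 1, Y - n + 1), 0) ::
      ((l' ++ (HWjN X Y r n ++ (HWjW X Y r n ++ (HWjS X Y r n ++ (HWn2 X Y r n ++ (HWoN X Y r n ++ (HWoE X Y r n ++ (HWoS X Y r n)))))))) ++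
        [some ((X + 1, Y - n + 1), 0)])) := by
    simpa [List.append_assoc] using hch
  have hne : some ((X + 1, Y - n + 1), (0 : ZMod 4)) ∉ l' ++ (HWjN X Y r n ++ (HWjW X Y r n ++ (HWjS X Y r n ++ (HWn2 X Y r n ++ (HWoN X Y r n ++ (HWoE X Y r n ++ (HWoS X Y r n))))))) := by
    have k1 : some ((X + 1, Y - n + 1), (0 : ZMod 4)) ∉ l' := by
      have hw : wS ((X + 1, Y - n + 1).1) ((X + 1, Y - n + 1).2) (n - r - 1) = HWn1 X Y r n := rfl
      exact nodup_head (hw.trans hl')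
    simp only [List.mem_append, not_or]
    refine ⟨k1, ?_, ?_, ?_, ?_, ?_, ?_, ?_⟩
    all_goals
      intro hm
      obtain ⟨i, hi', hi⟩ := mem_fl.1 hm
      simp only [Option.some.injEq, Prod.mk.injEq] at hi
      first
        | exact absurd hi.2 (by decide)
        | omega
  obtain ⟨w, h1, h2, h3⟩ := word_of_chain (ahw_sc hr hn) (ahw_conn hr hn) (ahw_run hr hn) hch' hne
  exact ⟨w, h1, h2, by rw [h3, hl']; simp⟩

end Crest.Agent.R158.Gc748
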