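import Crest.Agent.R158.Ld1_570
import Crest.Agent.R158.Os5_488

/-!
# Row 158, Block G, Lemma D (helper570), part 2: the lower bound for the number of pivotal edges

* `F n` : the easy-way crossing `{LRc z 0 n 0 (3n)}`
* `HypBD` : boundary blocks
* `HypGl A4` : one-scale separation and gluing
* `HypA4 A4` : lower point bound in the deep critical window
* `piv_lower` : `w (m² X - |E| η^J) ≤ J K Σ_e P(e pivotal)`
-/

set_option autoImplicit false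

noncomputable section

namespace Crest.Agent.R158.Ld570

open MeasureTheory unitInterval Filter Topology Crest.Agent.R158.Rs689 Crest.Agent.R158.Fr158
open Crest.Agent.R158.Os488 Crest.Agent.R158.Ru874
open Crest.Agent.R161.Geo729 Crest.Agent.R161.Topo374 Crest.Agent.R161.Dual374
open Crest.Agent.R161.Tas682

/-- crossing of a rectangle -/
def XR (a b c d : ℤ) : Set Cf := {z | LRc z a b c d}

/-- **(BD)** boundary blocks -/
def HypBD : Prop :=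
  ∀ c : ℝ, 0 < c → ∃ C : ℝ, 0 < C ∧ ∀ q : ℝ, 0 < q → q ≤ 1 / 2 → ∀ m s n : ℕ, 1 ≤ m → m ≤ s →
    s ≤ n → RScale c q (16 * s) →
      ∑ k ∈ bdK m 0 n 0 (3 * n) s, Pr q (PivS (blk m) k (XR 0 n 0 (3 * n))) ≤
        C * ((s : ℝ) / m) ^ 2 * (1 + Real.log ((n : ℝ) / m))

/-- **(Gl)** one-scale separation of the outer arms and gluing with the inner four arms -/
def HypGl (A4 : Edge → ℕ → Set Cf) : Prop :=
  ∀ c : ℝ, 0 < c → ∃ Λ : ℕ, 1 ≤ Λ ∧ ∀ η : ℝ, 0 < η → ∃ K : ℝ, 0 < K ∧ ∃ C r0 : ℕ, 1 ≤ C ∧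
    ∀ q : ℝ, 0 < q → q < 1 → ∀ r : ℕ, r0 ≤ r → RScale c q (C * r) →
      ∀ (a b c' d : ℤ) (e : Edge), Blk a b c' d (C * r) e →
        ∃ (G : Set Cf) (T : Finset Edge), Dep T G ∧
          (∀ i ∈ T, (r : ℤ) ≤ Λ * sd (src e) (src i) ∧ sd (src e) (src i) ≤ Λ * r) ∧
          Pr q Gᶜ ≤ η ∧
          Pr q (Ld570.BPiv (src e) r (XR a b c' d) ∩ G) * Pr q (A4 e r) ≤
            K * Pr q (Piv e (XR a b c' d))

/-- **(A4)** lower point bound in the deep critical window -/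
def HypA4 (A4 : Edge → ℕ → Set Cf) : Prop :=
  ∀ δ ε : ℝ, 0 < δ → 0 < ε → ∀ᶠ r : ℕ in atTop, ∀ q : ℝ, |q - 1 / 2| ≤ (r : ℝ) ^ (-(3 / 4 : ℝ) - δ) →
    ∀ e : Edge, (r : ℝ) ^ (-(5 / 4 : ℝ) - ε) ≤ Pr q (A4 e r)

theorem scale_disj {m B Λ : ℕ} (hm : 1 ≤ m) (hB : Λ ^ 2 + 1 ≤ B) {x : P2}
    {T : ℕ → Finset Edge} {J : ℕ}
    (hT : ∀ j < J, ∀ i ∈ T j, ((m * B ^ j : ℕ) : ℤ) ≤ Λ * sd x (src i) ∧
      sd x (src i) ≤ Λ * (m * B ^ j : ℕ)) :
    ∀ i < J, ∀ j < J, i ≠ j → Disjoint (T i) (T j) := by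
  have key : ∀ i < J, ∀ j < J, i < j → Disjoint (T i) (T j) := by
    intro i hi j hj hij
    rw [Finset.disjoint_left]
    intro e he he'
    have h1 := (hT i hi e he).2
    have h2 := (hT j hj e he').1
    have h3 : m * B ^ i * B ≤ m * B ^ j := by
      rw [mul_assoc, ← pow_succ]
      exact Nat.mul_le_mul_left _ (Nat.pow_le_pow_right (by omega) hij)
    have h4 : (m * B ^ i) * (Λ ^ 2 + 1) ≤ m * B ^ j := (Nat.mul_le_mul_left _ hB).trans h3
    have h5 : 1 ≤ m * B ^ i := Nat.mul_pos hm (pow_pos (by omega) i)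
    have h6 : ((m * B ^ i * (Λ ^ 2 + 1) : ℕ) : ℤ) ≤ (m * B ^ j : ℕ) := by exact_mod_cast h4
    have h7 : (Λ : ℤ) * sd x (src e) ≤ Λ * (Λ * (m * B ^ i : ℕ)) :=
      mul_le_mul_of_nonneg_left h1 (by positivity)
    have h8 : (1 : ℤ) ≤ (m * B ^ i : ℕ) := by exact_mod_cast h5
    push_cast at *
    nlinarith
  intro i hi j hj hij
  rcases lt_or_gt_of_ne hij with h | h
  · exact key i hi j hj h
  · exact (key j hj i hi h).symm

/-- **lower bound for the number of pivotal edges** -/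
theorem piv_lower {q : ℝ} {m n B Λ J : ℕ} {s : ℤ} {η K w X : ℝ} (hm : 1 ≤ m) (hs : 1 ≤ s)
    (hB : Λ ^ 2 + 1 ≤ B) (hw : 0 ≤ w)
    (hX : X ≤ ∑ k ∈ bulkK m 0 n 0 (3 * n) s, Pr q (PivS (blk m) k (XR 0 n 0 (3 * n))))
    (hG : ∀ e ∈ bulkE 0 n 0 (3 * n) s, ∀ j < J, ∃ (G : Set Cf) (T : Finset Edge), Dep T G ∧
      (∀ i ∈ T, ((m * B ^ j : ℕ) : ℤ) ≤ Λ * sd (src e) (src i) ∧
        sd (src e) (src i) ≤ Λ * (m * B ^ j : ℕ)) ∧
      Pr q Gᶜ ≤ η ∧
      w * Pr q (Ld570.BPiv (src e) (m * B ^ j : ℕ) (XR 0 n 0 (3 * n)) ∩ G) ≤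
        K * Pr q (Piv e (XR 0 n 0 (3 * n)))) :
    w * ((m : ℝ) ^ 2 * X - (bulkE 0 n 0 (3 * n) s).card * η ^ J) ≤
      J * K * ∑ e ∈ bulkE 0 n 0 (3 * n) s, Pr q (Piv e (XR 0 n 0 (3 * n))) := by
  set A : Set Cf := XR 0 n 0 (3 * n) with hA
  set E := bulkE 0 n 0 (3 * n) s with hE
  have h1 : ∀ e ∈ E, w * (Pr q (Ld570.BPiv (src e) m A) - η ^ J) ≤ J * (K * Pr q (Piv e A)) := by
    intro e he
    choose! G T h2 h3 h4 h5 using hG e he
    have h6 := scales q (src e) A J (fun j => ((m * B ^ j : ℕ) : ℤ)) (fun j _ => by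
      have : m * B ^ 0 ≤ m * B ^ j :=
        Nat.mul_le_mul_left _ (Nat.pow_le_pow_right (by omega) (Nat.zero_le _))
      exact_mod_cast this) G T (scale_disj hm hB h3) h2 h4
    have h7 : w * ∑ j ∈ Finset.range J, Pr q (Ld570.BPiv (src e) ((m * B ^ j : ℕ) : ℤ) A ∩ G j) ≤
        J * (K * Pr q (Piv e A)) := by
      rw [Finset.mul_sum]
      calc _ ≤ ∑ _j ∈ Finset.range J, K * Pr q (Piv e A) :=
            Finset.sum_le_sum fun j hj => h5 j (Finset.mem_range.1 hj)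
        _ = _ := by rw [Finset.sum_const, Finset.card_range, nsmul_eq_mul]
    refine le_trans ?_ h7
    refine mul_le_mul_of_nonneg_left ?_ hw
    simp only [pow_zero, mul_one] at h6
    linarith
  have h2 := Finset.sum_le_sum h1
  rw [← Finset.mul_sum, ← Finset.mul_sum, ← Finset.mul_sum, Finset.sum_sub_distrib,
    Finset.sum_const, nsmul_eq_mul] at h2
  rw [mul_assoc]
  refine le_trans ?_ h2
  refine mul_le_mul_of_nonneg_left ?_ hw
  have h3 := blocks_to_edges q hm (a := 0) (b := n) (c := 0) (d := 3 * n) hs A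
  have h4 : (m : ℝ) ^ 2 * X ≤ (m : ℝ) ^ 2 * ∑ k ∈ bulkK m 0 n 0 (3 * n) s,
      Pr q (PivS (blk m) k A) := mul_le_mul_of_nonneg_left hX (by positivity)
  linarith

/-- number of edges of the rectangle -/
theorem card_bulkE (n : ℕ) (hn : 1 ≤ n) (s : ℤ) :
    ((bulkE 0 n 0 (3 * n) s).card : ℝ) ≤ 16 * (n : ℝ) ^ 2 := by
  classical
  have h1 : (bulkE 0 n 0 (3 * n) s).card ≤ (rS 0 n 0 (3 * n)).card := Finset.card_filter_le _ _
  have h2 : (rS 0 n 0 (3 * n)).card ≤ ((rV 0 n 0 (3 * n)) ×ˢ (Finset.univ : Finset Bool)).card := by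
    unfold rS eIn
    exact Finset.card_filter_le _ _
  have h3 : ((rV 0 n 0 (3 * n)) ×ˢ (Finset.univ : Finset Bool)).card =
      (n + 1) * (3 * n + 1) * 2 := by
    rw [Finset.card_product, rV, Finset.card_product, Int.card_Icc, Int.card_Icc]
    simp only [Finset.card_univ, Fintype.card_bool]
    have e1 : ((n : ℤ) + 1 - 0).toNat = n + 1 := by omega
    have e2 : (3 * (n : ℤ) + 1 - 0).toNat = 3 * n + 1 := by omega
    rw [e1, e2]
  have h4 : (bulkE 0 n 0 (3 * n) s).card ≤ 16 * n ^ 2 := by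
    rw [h3] at h2
    have h5 : (n + 1) * (3 * n + 1) * 2 ≤ 16 * n ^ 2 := by nlinarith
    omega
  exact_mod_cast h4

end Crest.Agent.R158.Ld570
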