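import Crest.Agent.R158.Qf5_808
import Crest.Agent.R158.Sg4_158
import Crest.Agent.R158.Sp2_580
import Crest.Agent.R158.Cpl8_963
import Crest.Agent.R158.Ld2_570

/-!
# Row 158, Block G (helper570): assembly of `HypGl` at the origin

* `CovPiv T0` : block pivotality on the good event lies in a union of `Uout`
* `SepIn` : one-scale inner separation (580)
* `gl0_of` : `CovPiv T0 → SepIn → HypGl` for edges with source `(0,0)`
-/

set_option autoImplicit false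

noncomputable section

namespace Crest.Agent.R158.Ld570

open MeasureTheory ProbabilityTheory unitInterval
open Crest.Agent.R161.Geo729 Crest.Agent.R161.Topo374 Crest.Agent.R161.Dual374
open Crest.Agent.R161.Tas682 hiding Sq
open Crest.Agent.R158.Rs689 Crest.Agent.R158.Ru874
open Crest.Agent.R158.Fr158 hiding nu
open Crest.ProbabilityR.Percolation (clampUnit)
open Crest.Agent.R158.Sp580 (RSp Uout Nice NiceU)
open Crest.Agent.R158.Sp874 (nr cl Gd Gd')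
open Crest.Agent.R158.Qf808 (GO)

/-- the outer landing event of the cells `κ` for the crossing of a rectangle -/
def UR (x0 x1 y0 y1 : ℤ) (N n : ℕ) (κ : Fin 4 → P2) : Set Cf :=
  Uout (Rect x0 x1 y0 y1) (Rect x0 (x1 - 1) (y0 - 1) y1) (N * n) n (κ 0) (κ 1) (κ 2) (κ 3)
    {v | v.1 = x0} {v | v.1 = x1} {f | f.2 = y0 - 1} {f | f.2 = y1}

/-- **outer cover** : on the good event block pivotality produces four separated landing cells -/
def CovPiv (T0 : ℕ) : Prop :=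
  ∀ (D1 D2 D3 N n : ℕ), 2 ≤ D1 → 2 ≤ D2 → 2 ≤ D3 → N = 32 * D1 * D2 * D3 * T0 → 1 ≤ n →
    ∀ x0 x1 y0 y1 : ℤ, x0 ≤ -(2 * (N * n)) → 2 * (N * n) ≤ x1 → y0 ≤ -(2 * (N * n)) →
      2 * (N * n) ≤ y1 → ∀ z : Cf, z ∈ Ld570.BPiv (0, 0) (N * n - 1) (XR x0 x1 y0 y1) →
        z ∈ GO (0, 0) D1 D2 D3 (T0 * n) →
          ∃ w : Fin 4 → ℤ, (Gd (N - 1) 420 w ∨ Gd' (N - 1) 420 w) ∧
            z ∈ UR x0 x1 y0 y1 N n (fun i => cl (N - 1) (w i))

/-- **inner separation** (580) -/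
def SepIn : Prop :=
  ∀ c : ℝ, 0 < c → ∃ K : ℝ, 0 < K ∧ ∀ (p : I) (j : ℕ), RSp c p (2 ^ (j + 5)) → ∀ e : Edge,
    src e = (0, 0) → (nu p).real (Sp580.A4 e (2 ^ (j + 2))) ≤ K * (nu p).real (NiceU e (2 ^ j))

/-- RSW, from the form of 488 to the form of 580 -/
theorem rsp_of_rscale {c q : ℝ} {N : ℕ} (hc : 0 < c) (h : Os488.RScale c q N) :
    RSp c (clampUnit q) N := by
  refine ⟨hc, fun n h1 h2 => ⟨?_, ?_⟩⟩
  · have h3 := (h n h1 h2).1
    rw [Os488.lrn_eq] at h3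
    exact h3
  · exact Os488.xpr_dual_ge h (by exact_mod_cast h1) (by exact_mod_cast h2)

/-- ring cells -/
def rcs (N : ℕ) : Finset P2 := Finset.Icc (-(N : ℤ)) (N - 1) ×ˢ Finset.Icc (-(N : ℤ)) (N - 1)

theorem mem_rcs {N : ℕ} (hN : 1 ≤ N) (w : ℤ) : cl ((N : ℤ) - 1) w ∈ rcs N := by
  have h := Sp874.nr_cl (j := (N : ℤ) - 1) (by omega) w
  unfold nr at h
  rw [rcs, Finset.mem_product, Finset.mem_Icc, Finset.mem_Icc]
  omega

theorem card_rcs (N : ℕ) : (rcs N).card = (2 * N) ^ 2 := by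
  rw [rcs, Finset.card_product, Int.card_Icc]
  have : ((N : ℤ) - 1 + 1 - -(N : ℤ)).toNat = 2 * N := by omega
  rw [this]
  ring

/-- the union bound over the landing cells -/
theorem cover_bound {q N n : ℕ} (hq : 1 ≤ q) (hN : 32 * q + 200 ≤ N) {c : ℝ} {p : I}
    (hn : 1 ≤ n) (hc : RSp c p n) {e : Edge} (he : src e = (0, 0)) (s t : Bool)
    {x0 x1 y0 y1 : ℤ} (hx0 : x0 ≤ -(((N : ℤ) + 20) * n)) (hx1 : ((N : ℤ) + 20) * n + 1 ≤ x1)
    (hy0 : y0 ≤ -(((N : ℤ) + 20) * n)) (hy1 : ((N : ℤ) + 20) * n ≤ y1) {B : Set Cf}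
    (hB : ∀ z ∈ B, ∃ w : Fin 4 → ℤ, (Gd (N - 1) 420 w ∨ Gd' (N - 1) 420 w) ∧
      z ∈ UR x0 x1 y0 y1 N n (fun i => cl (N - 1) (w i))) :
    c ^ (8 * (2 * N + 8) ^ 2) * ((nu p).real (Nice e (q * n) s t) * (nu p).real B) ≤
      ((2 * N) ^ 2) ^ 4 * (nu p).real (Piv e (XR x0 x1 y0 y1)) := by
  classical
  set Ω : Finset (Fin 4 → P2) := (Fintype.piFinset fun _ => rcs N).filter fun κ =>
    ∃ w : Fin 4 → ℤ, (Gd (N - 1) 420 w ∨ Gd' (N - 1) 420 w) ∧ ∀ i, κ i = cl (N - 1) (w i)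
  have h1 : B ⊆ ⋃ κ ∈ Ω, UR x0 x1 y0 y1 N n κ := by
    intro z hz
    obtain ⟨w, h2, h3⟩ := hB z hz
    refine Set.mem_biUnion (x := fun i => cl ((N : ℤ) - 1) (w i)) ?_ h3
    rw [Finset.mem_coe, Finset.mem_filter, Fintype.mem_piFinset]
    exact ⟨fun i => mem_rcs (by omega) _, w, h2, fun i => rfl⟩
  have h2 : (nu p).real B ≤ ∑ κ ∈ Ω, (nu p).real (UR x0 x1 y0 y1 N n κ) :=
    (measureReal_mono h1 (measure_ne_top _ _)).trans (measureReal_biUnion_finset_le _ _)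
  have hcard : (Ω.card : ℝ) ≤ ((2 * N) ^ 2) ^ 4 := by
    have h3 : Ω.card ≤ ((2 * N) ^ 2) ^ 4 := by
      refine (Finset.card_filter_le _ _).trans ?_
      rw [Fintype.card_piFinset]
      simp [card_rcs]
    calc (Ω.card : ℝ) ≤ ((((2 * N) ^ 2) ^ 4 : ℕ) : ℝ) := by exact_mod_cast h3
      _ = _ := by push_cast; ring
  have hc0 : 0 < c := hc.1
  calc c ^ (8 * (2 * N + 8) ^ 2) * ((nu p).real (Nice e (q * n) s t) * (nu p).real B)
      ≤ c ^ (8 * (2 * N + 8) ^ 2) * ((nu p).real (Nice e (q * n) s t) *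
          ∑ κ ∈ Ω, (nu p).real (UR x0 x1 y0 y1 N n κ)) := by
        gcongr
    _ = ∑ κ ∈ Ω, c ^ (8 * (2 * N + 8) ^ 2) * ((nu p).real (Nice e (q * n) s t) *
          (nu p).real (UR x0 x1 y0 y1 N n κ)) := by
        rw [Finset.mul_sum, Finset.mul_sum]
    _ ≤ ∑ _κ ∈ Ω, (nu p).real (Piv e (XR x0 x1 y0 y1)) := by
        refine Finset.sum_le_sum fun κ hκ => ?_
        obtain ⟨w, hw, hκw⟩ := (Finset.mem_filter.1 hκ).2
        have hκ' : κ = fun i => cl ((N : ℤ) - 1) (w i) := funext hκw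
        rw [hκ']
        exact Sg158.glue_piv hq hN hn hc he s t hw hx0 hx1 hy0 hy1
    _ = Ω.card * (nu p).real (Piv e (XR x0 x1 y0 y1)) := by
        rw [Finset.sum_const, nsmul_eq_mul]
    _ ≤ _ := mul_le_mul_of_nonneg_right hcard measureReal_nonneg

/-- the scale: a power of two `n` with `r + 1 ≤ N n ≤ 2 r + 1` -/
theorem exists_scale {N r : ℕ} (hN : 1 ≤ N) (hr : N ≤ r) :
    ∃ j : ℕ, r + 1 ≤ N * 2 ^ j ∧ N * 2 ^ j ≤ 2 * r + 1 := by
  classical
  have hex : ∃ j : ℕ, r + 1 ≤ N * 2 ^ j := by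
    refine ⟨r + 1, ?_⟩
    have h1 : r + 1 < 2 ^ (r + 1) := Nat.lt_two_pow_self
    nlinarith
  refine ⟨Nat.find hex, Nat.find_spec hex, ?_⟩
  have h0 : Nat.find hex ≠ 0 := by
    intro h
    have h2 := Nat.find_spec hex
    rw [h] at h2
    omega
  obtain ⟨m, hm⟩ := Nat.exists_eq_succ_of_ne_zero h0
  have h3 := Nat.find_min hex (m := m) (by omega)
  rw [hm, pow_succ]
  have : N * (2 ^ m * 2) = 2 * (N * 2 ^ m) := by ring
  omega

/-- **`HypGl` at the origin.** -/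
theorem gl0_of {T0 : ℕ} (hT0 : 500 ≤ T0) (hcov : CovPiv T0) (hsep : SepIn) :
    ∀ c : ℝ, 0 < c → ∃ Λ : ℕ, 1 ≤ Λ ∧ ∀ η : ℝ, 0 < η → ∃ K : ℝ, 0 < K ∧ ∃ C r0 : ℕ, 1 ≤ C ∧
      ∀ q : ℝ, 0 < q → q < 1 → ∀ r : ℕ, r0 ≤ r → Os488.RScale c q (C * r) →
        ∀ (a b c' d : ℤ) (e : Edge), src e = (0, 0) → Blk a b c' d (C * r) e →
          ∃ (G : Set Cf) (T : Finset Edge), Dep T G ∧
            (∀ i ∈ T, (r : ℤ) ≤ Λ * sd (src e) (src i) ∧ sd (src e) (src i) ≤ Λ * r) ∧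
            Pr q Gᶜ ≤ η ∧
            Pr q (Ld570.BPiv (src e) r (XR a b c' d) ∩ G) * Pr q (Sp580.A4 e r) ≤
              K * Pr q (Piv e (XR a b c' d)) := by
  intro c hc
  refine ⟨8, by norm_num, fun η hη => ?_⟩
  -- reduce to `c ≤ 1`
  have hm0 : 0 < min c 1 := lt_min hc one_pos
  obtain ⟨D1, D2, D3, hD1, hD2, hD3, hgood⟩ := Qf808.good_params hm0 (min_le_right c 1) hη
  obtain ⟨K, hK, hsepK⟩ := hsep (min c 1) hm0
  set N : ℕ := 32 * D1 * D2 * D3 * T0 with hNdef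
  have hN : 232 ≤ N := by
    have h1 : 1 ≤ D1 * D2 * D3 := Nat.mul_pos (Nat.mul_pos (by omega) (by omega)) (by omega)
    have h2 : N = 32 * (D1 * D2 * D3) * T0 := by rw [hNdef]; ring
    rw [h2]
    calc 232 ≤ 32 * 1 * 500 := by norm_num
      _ ≤ 32 * (D1 * D2 * D3) * T0 := Nat.mul_le_mul (Nat.mul_le_mul_left _ h1) hT0
  have hcM : 0 < (min c 1) ^ (8 * (2 * N + 8) ^ 2) := pow_pos hm0 _
  have hNr : (0 : ℝ) < N := by exact_mod_cast (by omega : 0 < N)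
  refine ⟨4 * K * ((2 * N) ^ 2) ^ 4 / (min c 1) ^ (8 * (2 * N + 8) ^ 2), by positivity,
    16, N, by norm_num, ?_⟩
  intro q hq0 hq1 r hr hRS a b c' d e he hblk
  obtain ⟨j, hj1, hj2⟩ := exists_scale (N := N) (r := r) (by omega) hr
  set n : ℕ := 2 ^ j with hn
  have hn1 : 1 ≤ n := Nat.one_le_two_pow
  set p : I := clampUnit q
  have hRp : RSp (min c 1) p (16 * r) :=
    rsp_of_rscale hm0 (hRS.anti (min_le_left _ _))
  have hnr : 232 * n ≤ 2 * r + 1 := (Nat.mul_le_mul_right _ hN).trans hj2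
  have hj1' : (r : ℤ) + 1 ≤ N * n := by exact_mod_cast hj1
  have hj2' : (N : ℤ) * n ≤ 2 * r + 1 := by exact_mod_cast hj2
  have hnr' : 232 * (n : ℤ) ≤ 2 * r + 1 := by exact_mod_cast hnr
  have hn1' : (1 : ℤ) ≤ n := by exact_mod_cast hn1
  have hu : (1 : ℤ) ≤ T0 * n := by
    have : 1 ≤ T0 * n := Nat.mul_pos (by omega) hn1
    exact_mod_cast this
  have hNn : (32 : ℤ) * D1 * D2 * D3 * (T0 * n) = N * n := by
    rw [hNdef]
    push_cast
    ring
  -- the good event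
  refine ⟨GO (0, 0) D1 D2 D3 (T0 * n), Qf808.eR (0, 0) (N * n) (2 * (N * n)), ?_, ?_, ?_, ?_⟩
  · have := Qf808.dep_GO (0, 0) hD1 hD2 hD3 hu
    rw [hNn] at this
    exact this
  · intro i hi
    rw [Qf808.mem_eR] at hi
    rw [he]
    push_cast
    omega
  · have h1 := (hgood p (16 * r) (T0 * n) (0, 0) hRp hu (by rw [hNn]; push_cast; omega)).1
    exact h1
  · obtain ⟨s, t, hst⟩ := Sp580.nice_choice p e n
    have hb := hblk
    unfold Blk at hb
    rw [he] at hb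
    simp only at hb
    push_cast at hb
    have e1 : ((N : ℤ) + 20) * n = N * n + 20 * n := by ring
    have hsub : ∀ z ∈ Ld570.BPiv (src e) r (XR a b c' d) ∩ GO (0, 0) D1 D2 D3 (T0 * n),
        ∃ w : Fin 4 → ℤ, (Gd (N - 1) 420 w ∨ Gd' (N - 1) 420 w) ∧
          z ∈ UR a b c' d N n (fun i => cl (N - 1) (w i)) := by
      rintro z ⟨hz1, hz2⟩
      rw [he] at hz1
      refine hcov D1 D2 D3 N n hD1 hD2 hD3 hNdef hn1 a b c' d (by omega) (by omega) (by omega)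
        (by omega) z ?_ hz2
      exact bpiv_mono (by omega) _ hz1
    have h1 := cover_bound (q := 1) (N := N) (n := n) le_rfl (by omega) (p := p) hn1
      (hRp.mono (by omega)) he s t (x0 := a) (x1 := b) (y0 := c') (y1 := d) (by omega) (by omega)
      (by omega) (by omega) hsub
    rw [one_mul] at h1
    have h2 : (nu p).real (Sp580.A4 e r) ≤ (nu p).real (Sp580.A4 e (2 ^ (j + 2))) := by
      rw [Cpl963.A4_eq, Cpl963.A4_eq]
      refine measureReal_mono (Cpl963.A4_shrink ?_ ?_)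
      · exact one_le_pow₀ (by norm_num)
      · have : (2 : ℤ) ^ (j + 2) = 4 * n := by
          rw [hn, pow_add]
          push_cast
          ring
        rw [this]
        omega
    have h3 := hsepK p j (hRp.mono (by
      have : 2 ^ (j + 5) = 32 * n := by
        rw [hn, pow_add]
        ring
      omega)) e he
    have h4 : (nu p).real (Sp580.A4 e r) ≤ K * (4 * (nu p).real (Nice e n s t)) :=
      (h2.trans h3).trans (by gcongr)
    set X := (nu p).real (Ld570.BPiv (src e) r (XR a b c' d) ∩ GO (0, 0) D1 D2 D3 (T0 * n))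
    set Y := (nu p).real (Piv e (XR a b c' d))
    set Z := (nu p).real (Nice e n s t)
    have h5 : X * (nu p).real (Sp580.A4 e r) ≤ X * (K * (4 * Z)) :=
      mul_le_mul_of_nonneg_left h4 measureReal_nonneg
    have h6 : X * (K * (4 * Z)) ≤
        4 * K * ((2 * N) ^ 2) ^ 4 / (min c 1) ^ (8 * (2 * N + 8) ^ 2) * Y := by
      rw [div_mul_eq_mul_div, le_div_iff₀ hcM]
      calc X * (K * (4 * Z)) * (min c 1) ^ (8 * (2 * N + 8) ^ 2) =
          4 * K * ((min c 1) ^ (8 * (2 * N + 8) ^ 2) * (Z * X)) := by ring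
        _ ≤ 4 * K * (((2 * N) ^ 2) ^ 4 * Y) :=
          mul_le_mul_of_nonneg_left h1 (by positivity)
        _ = _ := by ring
    exact h5.trans h6

end Crest.Agent.R158.Ld570
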