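import Crest.Agent.R158.Ld4_570

/-!
# Row 158, Block G, Lemma D (helper570), part 5: `HypD`

* `main_small` : for large `A`, some `n ≤ A^{4/3+ε}` has `P_{1/2-1/A}(BT n) ≤ δ`
* `hypD_of`    : `HypC → HypBD → HypGl A4 → HypA4 A4 → HypD`
-/

set_option autoImplicit false

noncomputable section

namespace Crest.Agent.R158.Ld570

open MeasureTheory unitInterval Filter Topology Crest.Agent.R158.Rs689 Crest.Agent.R158.Fr158
open Crest.Agent.R158.Os488 Crest.Agent.R158.Ru874
open Crest.Agent.R161.Geo729 Crest.Agent.R161.Topo374 Crest.Agent.R161.Dual374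
open Crest.Agent.R161.Tas682
open Crest.ProbabilityR.Percolation (clampUnit)

/-- the exponents -/
structure Ex (α ε ε1 τ ε' δ' a b g : ℝ) : Prop where
  hτ : 0 < τ
  he1 : 0 < ε1
  he' : 0 < ε'
  hd' : 0 < δ'
  ha : 0 < a
  h1 : a + 2 * τ < b
  h2 : a + 2 * τ ≤ 4 / 3 - ε1 / 2
  h3 : (a + 2 * τ) * (3 / 4 + δ') ≤ 1
  h4 : 4 * τ ≤ g
  h5 : g < (b - a) * α
  h6 : 3 * a - b < 2 * a + g
  h7 : τ < -1 - (a + 2 * τ) * (5 / 4 + ε') + (2 * a + g)
  h8 : b = 4 / 3 + ε

theorem ex_exists {α ε : ℝ} (hα : 0 < α) (hα1 : α ≤ 1) (hε : 0 < ε) (hε1 : ε ≤ 1) :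
    ∃ ε1 τ ε' δ' a b g : ℝ, Ex α ε ε1 τ ε' δ' a b g := by
  set u := ε * α with hu
  have hu0 : 0 < u := mul_pos hε hα
  have hu1 : u ≤ 1 := by nlinarith
  have hue : u ≤ ε := by nlinarith
  refine ⟨u / 8, u / 100, u / 64, u / 64, 4 / 3 - u / 8, 4 / 3 + ε, (ε + u / 8) * α - u / 100,
    ⟨by positivity, by positivity, by positivity, by positivity, by linarith, by linarith,
      by linarith, by nlinarith, ?_, ?_, ?_, ?_, rfl⟩⟩
  · have : 0 ≤ u / 8 * α := by positivity
    nlinarith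
  · have : (4 / 3 + ε - (4 / 3 - u / 8)) * α = (ε + u / 8) * α := by ring
    rw [this]
    linarith
  · have : 0 ≤ u / 8 * α := by positivity
    nlinarith
  · have h1 : 0 ≤ u / 8 * α := by positivity
    have h2 : (ε + u / 8) * α = u + u / 8 * α := by rw [hu]; ring
    rw [h2]
    have h3 : (4 / 3 - u / 8 + 2 * (u / 100)) * (5 / 4 + u / 64) ≤
        (4 / 3 - u / 8 + 2 * (u / 100)) * (5 / 4) + (4 / 3) * (u / 64) := by
      nlinarith
    nlinarith

set_option maxHeartbeats 4000000 in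
theorem main_small {A4 : Edge → ℕ → Set Cf} (hC : HypC) (hBD : HypBD) (hGl : HypGl A4)
    (hA4 : HypA4 A4) {δ ε : ℝ} (hδ : 0 < δ) (hε : 0 < ε) (hε1 : ε ≤ 1) :
    ∀ᶠ A : ℝ in atTop, ∃ n : ℕ, 1 ≤ n ∧ (n : ℝ) ≤ A ^ (4 / 3 + ε) ∧
      Pr (1 / 2 - 1 / A) (BT n) ≤ δ := by
  obtain ⟨c, hc, hC⟩ := hC
  obtain ⟨Cos, α, hCos, hα, hα1, hOS⟩ := os_lower
  obtain ⟨c', hc', hshort⟩ := rsw_short 3
  obtain ⟨Λ, hΛ, hGl⟩ := hGl c hc
  obtain ⟨ε1, τ, ε', δ', a, b, g, X⟩ := ex_exists hα hα1 hε hε1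
  set B : ℕ := Λ ^ 2 + 1 with hB
  have hB2 : 2 ≤ B := by
    have : 1 ≤ Λ ^ 2 := Nat.one_le_pow _ _ hΛ
    omega
  set D : ℝ := 3 * (b - a) with hD
  have hτ0 := X.hτ
  have hab : a < b := by
    have := X.h1
    linarith
  have hD0 : 0 < D := by
    rw [hD]
    linarith
  set κ : ℝ := τ / Real.log B with hκ
  set η : ℝ := Real.exp (-(D / κ)) with hη
  obtain ⟨K, hK, C, r0, hC1, hGl⟩ := hGl η (Real.exp_pos _)
  obtain ⟨C2, hC2, hBD⟩ := hBD c hc
  have hB0 : (0 : ℝ) < B := by exact_mod_cast (by omega : 0 < B)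
  have hC0 : (0 : ℝ) < C := by exact_mod_cast hC1
  -- the window
  have hW : ∀ᶠ A : ℝ in atTop, ∀ q : ℝ, q ≠ 1 / 2 → |q - 1 / 2| ≤ 1 / A → ∀ n : ℕ, 1 ≤ n →
      (n : ℝ) ≤ |q - 1 / 2| ^ (-(4 / 3 : ℝ) + ε1 / 2) →
        c ≤ Pr q (LR n) ∧ Pr q (BT n) ≤ 1 - c := by
    have h1 := hC (ε1 / 2) (by have := X.he1; linarith)
    rw [eventually_nhdsWithin_iff, Metric.eventually_nhds_iff] at h1
    obtain ⟨ρ, hρ, h1⟩ := h1
    filter_upwards [eventually_gt_atTop (1 / ρ), eventually_gt_atTop 0] with A hA hA0 q hq1 hq2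
    refine h1 ?_ hq1
    rw [Real.dist_eq]
    refine hq2.trans_lt ?_
    rw [div_lt_iff₀ hA0]
    rw [div_lt_iff₀ hρ] at hA
    linarith
  have hA4' := hA4 δ' ε' X.hd' X.he'
  rw [eventually_atTop] at hA4'
  obtain ⟨R0, hA4'⟩ := hA4'
  have hdc : 0 < δ * c' := mul_pos hδ hc'
  filter_upwards [hW, eventually_ge_atTop 4, ev_pow (R0 + r0 + 2) (x := 0) X.ha,
    ev_pow (32 * C * B) (x := a + τ) (y := a + 2 * τ) (by linarith),
    ev_pow 2 X.h1, ev_log b 1 hτ0,
    ev_pow (C2 * (C * B) ^ 2) (x := 3 * τ) (y := 4 * τ) (by linarith),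
    ev_pow (8 * Cos / (δ * c')) X.h5, ev_pow 32 X.h6, ev_log κ 1 hτ0,
    ev_pow (8 * K) X.h7, ev_pow 4 (x := 0) (y := b) (by have := X.ha; linarith)] with A
    eW e4 eR eS eN eL eBD eX eE eJ eF eB
  have hA0 : 0 < A := by linarith
  have hA1 : 1 ≤ A := by linarith
  simp only [Real.rpow_zero, mul_one] at eR eB
  have hpos : ∀ x : ℝ, 0 < A ^ x := fun x => Real.rpow_pos_of_pos hA0 x
  set m : ℕ := ⌈A ^ a⌉₊ with hm
  set n : ℕ := ⌊A ^ b⌋₊ with hn
  set J : ℕ := ⌈κ * Real.log A⌉₊ with hJ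
  have hm1 : A ^ a ≤ m := Nat.le_ceil _
  have hm2 : (m : ℝ) < A ^ a + 1 := Nat.ceil_lt_add_one (hpos a).le
  have hmR : (R0 : ℝ) + r0 + 2 ≤ m := eR.trans hm1
  have hm3 : (m : ℝ) ≤ 2 * A ^ a := by
    have h1 : (0 : ℝ) ≤ R0 + r0 := by positivity
    linarith
  have hm4 : 1 ≤ m := by
    have h1 : (0 : ℝ) ≤ R0 + r0 := by positivity
    have : (1 : ℝ) ≤ m := by linarith
    exact_mod_cast this
  have hn1 : (n : ℝ) ≤ A ^ b := Nat.floor_le (hpos b).le
  have hn2 : A ^ b < n + 1 := Nat.lt_floor_add_one _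
  have hn3 : A ^ b / 2 ≤ n := by linarith
  obtain ⟨hBJ, hηJ⟩ := pow_J hB2 hτ0 hD0.le hA1
  have hBJ' : (B : ℝ) ^ J ≤ B * A ^ τ := hBJ
  have hηJ' : η ^ J ≤ A ^ (-D) := hηJ
  set s : ℕ := C * (m * B ^ J) with hs
  -- size of s
  have hs1 : 16 * (s : ℝ) ≤ A ^ (a + 2 * τ) := by
    refine le_trans ?_ eS
    rw [hs]
    push_cast
    have h1 : (m : ℝ) * (B : ℝ) ^ J ≤ 2 * A ^ a * (B * A ^ τ) :=
      mul_le_mul hm3 hBJ' (by positivity) (by positivity)
    have h2 : A ^ (a + τ) = A ^ a * A ^ τ := Real.rpow_add hA0 _ _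
    rw [h2]
    have h3 := mul_le_mul_of_nonneg_left h1 hC0.le
    linarith only [h3]
  have hmB : (m : ℝ) * (B : ℝ) ^ J ≤ A ^ (a + 2 * τ) := by
    have h1 : (m : ℝ) * (B : ℝ) ^ J ≤ s := by
      rw [hs]
      push_cast
      have h3 : (1 : ℝ) ≤ C := by exact_mod_cast hC1
      have h2 : 0 ≤ (m : ℝ) * (B : ℝ) ^ J := by positivity
      exact le_mul_of_one_le_left h2 h3
    have h2 : (0 : ℝ) ≤ s := by positivity
    linarith
  have hms : m ≤ s := by
    rw [hs]
    have h1 : 1 ≤ B ^ J := Nat.one_le_pow _ _ (by omega)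
    calc m = 1 * (m * 1) := by ring
      _ ≤ C * (m * B ^ J) := Nat.mul_le_mul hC1 (Nat.mul_le_mul_left _ h1)
  have hsn : s ≤ n := by
    have h1 : (s : ℝ) ≤ n := by
      have h2 : (0 : ℝ) ≤ s := by positivity
      linarith
    exact_mod_cast h1
  have hmn : m ≤ n := hms.trans hsn
  have hm0 : (0 : ℝ) < m := by exact_mod_cast hm4
  have hn0 : (0 : ℝ) < n := by exact_mod_cast hm4.trans hmn
  refine ⟨n, hm4.trans hmn, by rw [← X.h8]; exact hn1, ?_⟩
  by_contra hcon
  push Not at hcon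
  set q0 : ℝ := 1 / 2 - 1 / A with hq0
  set q1 : ℝ := 1 / 2 - 1 / (2 * A) with hq1
  have hA4inv : 1 / A ≤ 1 / 4 := one_div_le_one_div_of_le (by norm_num) e4
  have hAinv : 0 < 1 / A := by positivity
  have h2A : 1 / (2 * A) = 1 / A / 2 := by rw [mul_comm, ← div_div]
  have hq0pos : 0 < q0 := by rw [hq0]; linarith
  have hq01 : q0 ≤ q1 := by rw [hq0, hq1, h2A]; linarith
  have hq1lt : q1 < 1 / 2 := by rw [hq1, h2A]; linarith
  -- the exponent `X`
  have hXg : A ^ g ≤ δ * c' / Cos * ((n : ℝ) / m) ^ α -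
      C2 * ((s : ℝ) / m) ^ 2 * (1 + Real.log ((n : ℝ) / m)) := by
    have h1 : C2 * ((s : ℝ) / m) ^ 2 * (1 + Real.log ((n : ℝ) / m)) ≤ A ^ g := by
      have h2 : (s : ℝ) / m ≤ C * B * A ^ τ := by
        rw [div_le_iff₀ hm0, hs]
        push_cast
        have h3 := mul_le_mul_of_nonneg_left hBJ' (mul_nonneg hC0.le hm0.le)
        linarith only [h3]
      have h3 : ((s : ℝ) / m) ^ 2 ≤ (C * B) ^ 2 * A ^ (2 * τ) := by
        have h4 : (C * B * A ^ τ) ^ 2 = ((C : ℝ) * B) ^ 2 * A ^ (2 * τ) := by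
          rw [mul_pow, two_mul τ, Real.rpow_add hA0]
          ring
        rw [← h4]
        exact pow_le_pow_left₀ (by positivity) h2 2
      have h4 : Real.log ((n : ℝ) / m) ≤ b * Real.log A := by
        rw [← Real.log_rpow hA0]
        refine Real.log_le_log (by positivity) ?_
        rw [div_le_iff₀ hm0]
        have h9 : (1 : ℝ) ≤ m := by exact_mod_cast hm4
        exact hn1.trans (le_mul_of_one_le_right (hpos b).le h9)
      have h5 : 1 + Real.log ((n : ℝ) / m) ≤ A ^ τ := by linarith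
      have h5' : 0 ≤ 1 + Real.log ((n : ℝ) / m) := by
        have : 0 ≤ Real.log ((n : ℝ) / m) := by
          refine Real.log_nonneg ?_
          rw [le_div_iff₀ hm0, one_mul]
          exact_mod_cast hmn
        linarith
      have h6 : A ^ (3 * τ) = A ^ (2 * τ) * A ^ τ := by
        rw [← Real.rpow_add hA0]
        congr 1
        ring
      calc C2 * ((s : ℝ) / m) ^ 2 * (1 + Real.log ((n : ℝ) / m))
          ≤ C2 * ((C * B) ^ 2 * A ^ (2 * τ)) * A ^ τ :=
            mul_le_mul (mul_le_mul_of_nonneg_left h3 hC2.le) h5 h5' (by positivity)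
        _ = C2 * (C * B) ^ 2 * A ^ (3 * τ) := by rw [h6]; ring
        _ ≤ A ^ (4 * τ) := eBD
        _ ≤ A ^ g := Real.rpow_le_rpow_of_exponent_le hA1 X.h4
    have h2 : 2 * A ^ g ≤ δ * c' / Cos * ((n : ℝ) / m) ^ α := by
      have h3 : A ^ (b - a) / 4 ≤ (n : ℝ) / m := by
        rw [le_div_iff₀ hm0, Real.rpow_sub hA0]
        have h4 : A ^ b / A ^ a / 4 * m ≤ A ^ b / A ^ a / 4 * (2 * A ^ a) :=
          mul_le_mul_of_nonneg_left hm3 (by positivity)
        refine h4.trans (le_trans (le_of_eq ?_) hn3)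
        have := (hpos a).ne'
        field_simp
        ring
      have h4 : (A ^ (b - a) / 4) ^ α ≤ ((n : ℝ) / m) ^ α :=
        Real.rpow_le_rpow (by positivity) h3 hα.le
      have h5 : A ^ ((b - a) * α) / 4 ≤ (A ^ (b - a) / 4) ^ α := by
        rw [Real.div_rpow (hpos _).le (by norm_num), ← Real.rpow_mul hA0.le]
        refine div_le_div_of_nonneg_left (hpos _).le (by positivity) ?_
        calc (4 : ℝ) ^ α ≤ 4 ^ (1 : ℝ) := Real.rpow_le_rpow_of_exponent_le (by norm_num) hα1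
          _ = 4 := by norm_num
      have h6 : 8 * Cos / (δ * c') * A ^ g / 4 ≤ ((n : ℝ) / m) ^ α := by linarith
      have h7 := mul_le_mul_of_nonneg_left h6 (div_pos hdc hCos).le
      refine le_trans (le_of_eq ?_) h7
      have := hCos.ne'
      have := hdc.ne'
      have := hδ.ne'
      have := hc'.ne'
      field_simp
      ring
    linarith
  -- the lower bound for the four arms
  set w : ℝ := ((m : ℝ) * (B : ℝ) ^ J) ^ (-(5 / 4 : ℝ) - ε') with hw
  have hmBpos : 0 < (m : ℝ) * (B : ℝ) ^ J := by positivity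
  have hw0 : 0 < w := Real.rpow_pos_of_pos hmBpos _
  set L : ℝ := w * ((m : ℝ) ^ 2 * A ^ g - 16 * (n : ℝ) ^ 2 * η ^ J) / (J * K) with hL
  have hJpos : 0 < J := by
    rw [hJ, Nat.ceil_pos]
    have h1 : 0 < Real.log A := Real.log_pos (by linarith)
    have h2 : 0 < Real.log B := Real.log_pos (by exact_mod_cast (by omega : 1 < B))
    positivity
  have hJ0 : (0 : ℝ) < J := by exact_mod_cast hJpos
  have hkey : ∀ q ∈ Set.Icc q0 q1,
      L ≤ ∑ e ∈ bulkE 0 n 0 (3 * n) s, Pr q (Piv e (XR 0 n 0 (3 * n))) := by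
    intro q hq
    have hqh : q < 1 / 2 := hq.2.trans_lt hq1lt
    have hq0' : 0 < q := hq0pos.trans_le hq.1
    have habs : |q - 1 / 2| ≤ 1 / A := by
      rw [abs_le]
      have := hq.1
      rw [hq0] at this
      constructor <;> linarith
    have habs0 : 0 < |q - 1 / 2| := abs_pos.2 (by linarith)
    have hwin : A ^ (4 / 3 - ε1 / 2) ≤ |q - 1 / 2| ^ (-(4 / 3 : ℝ) + ε1 / 2) := by
      have h1 : (1 / A) ^ (-(4 / 3 : ℝ) + ε1 / 2) ≤ |q - 1 / 2| ^ (-(4 / 3 : ℝ) + ε1 / 2) := by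
        refine Real.rpow_le_rpow_of_nonpos habs0 habs ?_
        have := X.h2
        have := X.ha
        linarith
      refine le_trans (le_of_eq ?_) h1
      rw [one_div, Real.inv_rpow hA0.le, ← Real.rpow_neg hA0.le]
      congr 1
      ring
    have hRS : ∀ N : ℕ, (N : ℝ) ≤ A ^ (a + 2 * τ) → RScale c q N := by
      intro N hN k hk1 hk2
      refine eW q hqh.ne habs k hk1 ?_
      have h1 : (k : ℝ) ≤ N := by exact_mod_cast hk2
      refine h1.trans (hN.trans (le_trans ?_ hwin))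
      exact Real.rpow_le_rpow_of_exponent_le hA1 X.h2
    have hs0 : (0 : ℝ) ≤ s := by positivity
    have hf1 : δ ≤ Pr q (BT n) := by
      have h1 : Pr q0 (BT n) ≤ Pr q (BT n) := by
        rw [← pr_XR, ← pr_XR]
        exact Pr_mono_p hq.1 (xr_meas _ _ _ _) (xr_inc _ _ _ _)
      exact hcon.le.trans h1
    have hf2 : Pr q (BT n) ≤ 1 - c' := by
      have h1 : Pr q (BT n) ≤ Pr (1 / 2) (BT n) := by
        rw [← pr_XR, ← pr_XR]
        exact Pr_mono_p hqh.le (xr_meas _ _ _ _) (xr_inc _ _ _ _)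
      refine h1.trans ?_
      rw [btn_eq, clampUnit_half]
      have h2 := hshort n (hm4.trans hmn)
      exact_mod_cast h2
    have h1 := main_q (A4 := A4) (c := c) (η := η) (K := K) (w := w) (B := B) (r0 := r0)
      (J := J) hOS hCos hδ hc' hf1 hf2 hqh.le hm4 hmn
      (hBD q hq0' hqh.le m s n hm4 hms hsn (hRS _ (by push_cast; exact hs1)))
      (le_refl _) hs hC1 (by
        have h2 : (r0 : ℝ) ≤ m := by
          have : (0 : ℝ) ≤ R0 := by positivity
          linarith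
        exact_mod_cast h2) (hRS s (by linarith)) (fun r hr hR' => hGl q hq0' (by linarith) r hr hR')
      hw0.le (fun j hj e => ?_) (Real.exp_pos _).le
    · rw [hL, div_le_iff₀ (by positivity)]
      have h2 : w * ((m : ℝ) ^ 2 * A ^ g - 16 * (n : ℝ) ^ 2 * η ^ J) ≤
          w * ((m : ℝ) ^ 2 * (δ * c' / Cos * ((n : ℝ) / m) ^ α -
            C2 * ((s : ℝ) / m) ^ 2 * (1 + Real.log ((n : ℝ) / m))) -
              16 * (n : ℝ) ^ 2 * η ^ J) := by
        refine mul_le_mul_of_nonneg_left ?_ hw0.le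
        have := mul_le_mul_of_nonneg_left hXg (by positivity : (0 : ℝ) ≤ (m : ℝ) ^ 2)
        linarith
      linarith
    · -- the four arm bound
      have hr1 : R0 ≤ m * B ^ j := by
        have h2 : (R0 : ℝ) ≤ m := by
          have : (0 : ℝ) ≤ r0 := by positivity
          linarith
        have h3 : R0 ≤ m := by exact_mod_cast h2
        exact h3.trans (Nat.le_mul_of_pos_right _ (pow_pos (by omega) _))
      have hr2 : ((m * B ^ j : ℕ) : ℝ) ≤ (m : ℝ) * (B : ℝ) ^ J := by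
        have h2 : m * B ^ j ≤ m * B ^ J :=
          Nat.mul_le_mul_left _ (Nat.pow_le_pow_right (by omega) hj.le)
        exact_mod_cast h2
      have hr3 : (0 : ℝ) < ((m * B ^ j : ℕ) : ℝ) := by
        have : 0 < m * B ^ j := Nat.mul_pos hm4 (pow_pos (by omega) _)
        exact_mod_cast this
      have h2 := hA4' (m * B ^ j) hr1 q (by
        refine habs.trans ?_
        have h3 : ((m * B ^ j : ℕ) : ℝ) ≤ A ^ (a + 2 * τ) := hr2.trans hmB
        have h4 : (A ^ (a + 2 * τ)) ^ (-(3 / 4 : ℝ) - δ') ≤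
            ((m * B ^ j : ℕ) : ℝ) ^ (-(3 / 4 : ℝ) - δ') :=
          Real.rpow_le_rpow_of_nonpos hr3 h3 (by have := X.hd'; linarith)
        refine le_trans ?_ h4
        rw [← Real.rpow_mul hA0.le, one_div, ← Real.rpow_neg_one]
        refine Real.rpow_le_rpow_of_exponent_le hA1 ?_
        have h9 := X.h3
        linarith only [h9]) e
      refine le_trans ?_ h2
      rw [hw]
      exact Real.rpow_le_rpow_of_nonpos hr3 hr2 (by have := X.he'; linarith)
  have hinc := incr hq0pos hq01 (by linarith) n s hkey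
  have hlen : q1 - q0 = 1 / A / 2 := by
    rw [hq0, hq1, h2A]
    ring
  rw [hlen] at hinc
  -- final contradiction
  have hwl : A ^ (-((a + 2 * τ) * (5 / 4 + ε'))) ≤ w := by
    rw [hw]
    have h1 : (A ^ (a + 2 * τ)) ^ (-(5 / 4 : ℝ) - ε') ≤
        ((m : ℝ) * (B : ℝ) ^ J) ^ (-(5 / 4 : ℝ) - ε') :=
      Real.rpow_le_rpow_of_nonpos hmBpos hmB (by have := X.he'; linarith)
    refine le_trans (le_of_eq ?_) h1
    rw [← Real.rpow_mul hA0.le]
    congr 1
    ring
  have hmain : A ^ (2 * a + g) / 2 ≤ (m : ℝ) ^ 2 * A ^ g - 16 * (n : ℝ) ^ 2 * η ^ J := by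
    have h1 : A ^ (2 * a + g) ≤ (m : ℝ) ^ 2 * A ^ g := by
      rw [Real.rpow_add hA0]
      refine mul_le_mul_of_nonneg_right ?_ (hpos g).le
      have h2 : A ^ (2 * a) = (A ^ a) ^ 2 := by
        rw [two_mul, Real.rpow_add hA0]
        ring
      rw [h2]
      exact pow_le_pow_left₀ (hpos a).le hm1 2
    have h2 : 16 * (n : ℝ) ^ 2 * η ^ J ≤ A ^ (2 * a + g) / 2 := by
      have h3 : (n : ℝ) ^ 2 ≤ A ^ (2 * b) := by
        have h4 : A ^ (2 * b) = (A ^ b) ^ 2 := by
          rw [two_mul, Real.rpow_add hA0]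
          ring
        rw [h4]
        exact pow_le_pow_left₀ hn0.le hn1 2
      have h4 : 16 * (n : ℝ) ^ 2 * η ^ J ≤ 16 * A ^ (2 * b) * A ^ (-D) :=
        mul_le_mul (by linarith) hηJ' (by positivity) (by positivity)
      have h5 : A ^ (2 * b) * A ^ (-D) = A ^ (3 * a - b) := by
        rw [← Real.rpow_add hA0]
        congr 1
        rw [hD]
        ring
      have h6 : 16 * A ^ (2 * b) * A ^ (-D) = 16 * A ^ (3 * a - b) := by
        rw [← h5]
        ring
      linarith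
    linarith
  have hJb : (J : ℝ) ≤ A ^ τ := by
    have h1 : (J : ℝ) < κ * Real.log A + 1 := Nat.ceil_lt_add_one (by
      have h1 : 0 ≤ Real.log A := Real.log_nonneg hA1
      have h2 : 0 < Real.log B := Real.log_pos (by exact_mod_cast (by omega : 1 < B))
      positivity)
    linarith
  have hfin : 8 * K * A ^ τ ≤ 1 / A * (w * A ^ (2 * a + g)) := by
    refine eF.trans ?_
    have h1 : A ^ (-1 - (a + 2 * τ) * (5 / 4 + ε') + (2 * a + g)) =
        1 / A * (A ^ (-((a + 2 * τ) * (5 / 4 + ε'))) * A ^ (2 * a + g)) := by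
      rw [one_div, ← Real.rpow_neg_one, ← Real.rpow_add hA0, ← Real.rpow_add hA0]
      congr 1
      ring
    rw [h1]
    refine mul_le_mul_of_nonneg_left ?_ hAinv.le
    exact mul_le_mul_of_nonneg_right hwl (hpos _).le
  have hLow : w * (A ^ (2 * a + g) / 2) / (J * K) ≤ L := by
    rw [hL]
    exact div_le_div_of_nonneg_right (mul_le_mul_of_nonneg_left hmain hw0.le) (by positivity)
  have h1 : w * (A ^ (2 * a + g) / 2) / (J * K) * (1 / A / 2) ≤ 1 :=
    (mul_le_mul_of_nonneg_right hLow (by positivity)).trans hinc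
  have h2 : w * (A ^ (2 * a + g) / 2) / (J * K) * (1 / A / 2) =
      (1 / A * (w * A ^ (2 * a + g))) / (4 * (J * K)) := by
    field_simp
    ring
  rw [h2, div_le_one (by positivity)] at h1
  have h3 : 4 * (J * K) ≤ 4 * (A ^ τ * K) := by
    have := mul_le_mul_of_nonneg_right hJb hK.le
    linarith
  have h4 : 0 < K * A ^ τ := mul_pos hK (hpos τ)
  linarith only [h1, hfin, h3, h4]

/-- **Lemma D.** -/
theorem hypD_of {A4 : Edge → ℕ → Set Cf} (hC : HypC) (hBD : HypBD) (hGl : HypGl A4)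
    (hA4 : HypA4 A4) : HypD := by
  intro δ hδ ε hε
  set ε0 := min ε 1 with hε0
  have hε0p : 0 < ε0 := lt_min hε one_pos
  have h1 := main_small hC hBD hGl hA4 hδ hε0p (min_le_right _ _)
  rw [eventually_atTop] at h1
  obtain ⟨A0, h1⟩ := h1
  set A1 := max A0 1 with hA1
  have hA1p : 0 < A1 := lt_of_lt_of_le one_pos (le_max_right _ _)
  rw [eventually_nhdsWithin_iff, Metric.eventually_nhds_iff]
  refine ⟨1 / A1, by positivity, fun p hp hpne => ?_⟩
  rw [Real.dist_eq] at hp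
  have hd0 : 0 < |p - 1 / 2| := abs_pos.2 (sub_ne_zero.2 hpne)
  set d := |p - 1 / 2| with hd
  have hA : A1 ≤ 1 / d := by
    rw [le_div_iff₀ hd0]
    rw [lt_div_iff₀ hA1p] at hp
    linarith
  obtain ⟨n, hn1, hn2, hn3⟩ := h1 (1 / d) ((le_max_left _ _).trans hA)
  rw [one_div_one_div] at hn3
  refine ⟨n, hn1, ?_, ?_, ?_⟩
  · refine hn2.trans ?_
    have h2 : (1 / d) ^ (4 / 3 + ε0) ≤ (1 / d) ^ (4 / 3 + ε) :=
      Real.rpow_le_rpow_of_exponent_le ((le_max_right _ _).trans hA)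
        (by have := min_le_left ε 1; linarith)
    refine h2.trans (le_of_eq ?_)
    rw [one_div, Real.inv_rpow hd0.le, ← Real.rpow_neg hd0.le]
    congr 1
    ring
  · intro hp2
    have hd1 : d = p - 1 / 2 := abs_of_pos (by linarith)
    have h2 : 1 / 2 - d = 1 - p := by rw [hd1]; ring
    rw [h2, btn_eq] at hn3
    have h3 := xpr_dual (clampUnit p) (3 * n) n (by omega) (by omega)
    have h4 : σ (clampUnit p) = clampUnit (1 - p) := by
      unfold Crest.ProbabilityR.Percolation.clampUnit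
      ext
      simp only [unitInterval.coe_symm_eq, Set.coe_projIcc]
      rcases le_total p 0 with h | h
      · rw [max_eq_left ((min_le_right _ _).trans h), min_eq_left (by linarith),
          max_eq_right (by norm_num)]
        norm_num
      · rcases le_total p 1 with h' | h'
        · rw [min_eq_right h', max_eq_right h, min_eq_right (by linarith),
            max_eq_right (by linarith)]
        · rw [min_eq_left h', max_eq_right (by norm_num), min_eq_right (by linarith),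
            max_eq_left (by linarith)]
          norm_num
    rw [h4] at h3
    have h5 : xpr (clampUnit (1 - p)) ((n : ℤ) + 1) (3 * n - 1) ≤
        xpr (clampUnit (1 - p)) n (3 * n) := xpr_mono _ (by omega) (by omega) (by omega)
    rw [lrn_eq]
    linarith
  · intro hp2
    have hd1 : d = 1 / 2 - p := by
      rw [hd, abs_of_neg (by linarith)]
      ring
    have h2 : 1 / 2 - d = p := by rw [hd1]; ring
    rw [h2] at hn3
    exact hn3

end Crest.Agent.R158.Ld570
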