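import Crest.Agent.R158.Sp0_580
import Crest.Agent.R158.Rs5_689
import Crest.Agent.R158.Ld2_570

/-!
# Row 158, Block SEP / Lemma D (helper158): translation of `HypGl` to the origin

* `ocs_iff` : open connections of the shifted configuration
* `sh_XR`, `sh_BPiv`, `sh_Piv`, `sh_A4`, `dep_sh` : shifts of the events of `HypGl`
* `HypGl0 A4` : `HypGl` restricted to `src e = (0,0)`
* `gl_of_gl0` : `HypGl0 → HypGl` (for `Sp580.A4`)
-/

set_option autoImplicit false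

noncomputable section

namespace Crest.Agent.R158.Sg158

open MeasureTheory ProbabilityTheory unitInterval
open Crest.Agent.R161.Geo729 Crest.Agent.R161.Topo374 Crest.Agent.R161.Dual374
open Crest.Agent.R161.Tas682 hiding Sq
open Crest.Agent.R161.Ring421
open Crest.Agent.R158.Rs689 Crest.Agent.R158.Ru874
open Crest.Agent.R158.Fr158 (Pr)
open Crest.Agent.R158.Ld570 (XR Blk HypGl)
open Crest.Agent.R158.Os488 (RScale)

theorem ocs_one {z : Cfz} (a : P2) {S : Set P2} {u v : P2} (h : OC (shiftZ a z) S u v) :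
    OC z {w | w - a ∈ S} (u + a) (v + a) := by
  refine ⟨by simpa using h.1, ?_⟩
  obtain ⟨_, h⟩ := h
  induction h with
  | refl => exact .refl
  | @tail b c _ h2 ih =>
    obtain ⟨⟨e, he, h3⟩, hb, hc⟩ := h2
    refine ih.tail ⟨⟨shE a e, he, ?_⟩, by simpa using hb, by simpa using hc⟩
    rw [src_shE, tgt_shE]
    rcases h3 with ⟨rfl, rfl⟩ | ⟨rfl, rfl⟩
    · exact Or.inl ⟨rfl, rfl⟩
    · exact Or.inr ⟨rfl, rfl⟩

/-- open connections of the shifted configuration -/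
theorem ocs_iff {z : Cfz} (a : P2) {S : Set P2} {u v : P2} :
    OC (shiftZ a z) S u v ↔ OC z {w | w - a ∈ S} (u + a) (v + a) := by
  refine ⟨ocs_one a, fun h => ?_⟩
  have h1 : OC (shiftZ (-a) (shiftZ a z)) {w | w - a ∈ S} (u + a) (v + a) := by
    rw [shiftZ_shiftZ, neg_add_cancel, shiftZ_zero]
    exact h
  have h2 := ocs_one (-a) h1
  have h3 : {w : P2 | w - -a ∈ {w : P2 | w - a ∈ S}} = S := by
    ext w
    simp
  rw [h3] at h2
  simpa using h2

/-- the shifted edge -/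
def ea (x : P2) (e : Edge) : Edge := (e.1 + x, e.2)

theorem src_ea (x : P2) (e : Edge) : src (ea x e) = src e + x := rfl

theorem tgt_ea (x : P2) (e : Edge) : tgt (ea x e) = tgt e + x := by
  obtain ⟨⟨a, b⟩, c⟩ := e
  obtain ⟨x1, x2⟩ := x
  cases c
  · simp only [ea, tgt_h]
    ext <;> simp <;> ring
  · simp only [ea, tgt_v]
    ext <;> simp <;> ring

theorem ea_inj (x : P2) : Function.Injective (ea x) := by
  rintro ⟨a, b⟩ ⟨a', b'⟩ h
  simp only [ea, Prod.mk.injEq, add_left_inj] at h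
  exact Prod.ext h.1 h.2

/-- shifting commutes with forcing -/
theorem frc_sh (x : P2) (e : Edge) (b : Bool) (z : Cfz) :
    frc e b (shiftZ x z) = shiftZ x (frc (ea x e) b z) := by
  funext i
  by_cases h : i = e
  · subst h
    rw [frc_self]
    show b = frc (ea x i) b z (ea x i)
    rw [frc_self]
  · rw [frc_ne h]
    show z (ea x i) = frc (ea x e) b z (ea x i)
    rw [frc_ne fun h' => h (ea_inj x h')]

theorem sh_XR (x : P2) (a b c d : ℤ) :
    shiftZ x ⁻¹' XR (a - x.1) (b - x.1) (c - x.2) (d - x.2) = XR a b c d := by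
  have hR : {w : P2 | w - x ∈ Rect (a - x.1) (b - x.1) (c - x.2) (d - x.2)} = Rect a b c d := by
    ext w
    simp only [Set.mem_ofPred_eq, mem_rect, Prod.fst_sub, Prod.snd_sub]
    omega
  ext z
  constructor
  · rintro ⟨u, v, hu, hv, h⟩
    rw [ocs_iff, hR] at h
    exact ⟨u + x, v + x, by simp [hu], by simp [hv], h⟩
  · rintro ⟨u, v, hu, hv, h⟩
    refine ⟨u - x, v - x, by simp [hu], by simp [hv], ?_⟩
    rw [ocs_iff, hR, sub_add_cancel, sub_add_cancel]
    exact h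

theorem sh_surj (x : P2) (z : Cfz) : ∃ z' : Cfz, shiftZ x z' = z :=
  ⟨shiftZ (-x) z, by rw [shiftZ_shiftZ, add_neg_cancel, shiftZ_zero]⟩

theorem sd_sh (x y w : P2) : sd (y + x) (w + x) = sd y w := by
  simp [sd]

theorem sh_BPiv (x y : P2) (r : ℤ) (A : Set Cfz) :
    shiftZ x ⁻¹' Ld570.BPiv y r A = Ld570.BPiv (y + x) r (shiftZ x ⁻¹' A) := by
  ext z
  constructor
  · rintro ⟨z', h1, h2⟩
    obtain ⟨z'', rfl⟩ := sh_surj x z'
    refine ⟨z'', fun e he => ?_, h2⟩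
    have h3 := h1 (e.1 - x, e.2) (fun h => he ?_)
    · have h4 : ∀ t : Cfz, shiftZ x t (e.1 - x, e.2) = t e := by
        intro t
        show t (e.1 - x + x, e.2) = t e
        rw [sub_add_cancel]
      rwa [h4, h4] at h3
    · obtain ⟨h4, h5⟩ := h
      have e1 : e = ea x (e.1 - x, e.2) := by
        simp [ea]
      refine ⟨?_, ?_⟩
      · rw [e1, src_ea, sd_sh]
        exact h4
      · rw [e1, tgt_ea, sd_sh]
        exact h5
  · rintro ⟨z', h1, h2⟩
    refine ⟨shiftZ x z', fun e he => ?_, h2⟩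
    refine h1 (ea x e) fun h => he ?_
    obtain ⟨h4, h5⟩ := h
    rw [src_ea, sd_sh] at h4
    rw [tgt_ea, sd_sh] at h5
    exact ⟨h4, h5⟩

theorem sh_Piv (x : P2) (e : Edge) (A : Set Cfz) :
    shiftZ x ⁻¹' Piv e A = Piv (ea x e) (shiftZ x ⁻¹' A) := by
  ext z
  simp only [Set.mem_preimage, mem_piv, frc_sh]

theorem sh_A4 (x : P2) (e : Edge) (R : ℤ) :
    shiftZ x ⁻¹' Sp580.A4 e R = Sp580.A4 (ea x e) R := by
  have hS : {w : P2 | w - x ∈ {v : P2 | sd (src e) v ≤ R}} = {v : P2 | sd (src (ea x e)) v ≤ R} := by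
    ext w
    have h := sd_sh x (src e) (w - x)
    rw [sub_add_cancel] at h
    show sd (src e) (w - x) ≤ R ↔ sd (src e + x) w ≤ R
    rw [h]
  have hA : ∀ (z : Cfz) (u : P2),
      Sp580.Arm (frc e false (shiftZ x z)) {v | sd (src e) v ≤ R} {v | sd (src e) v = R} u ↔
      Sp580.Arm (frc (ea x e) false z) {v | sd (src (ea x e)) v ≤ R}
        {v | sd (src (ea x e)) v = R} (u + x) := by
    intro z u
    constructor
    · rintro ⟨a, ha, h⟩
      rw [frc_sh, ocs_iff, hS] at h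
      refine ⟨a + x, ?_, h⟩
      show sd (src e + x) (a + x) = R
      rw [sd_sh]
      exact ha
    · rintro ⟨a, ha, h⟩
      refine ⟨a - x, ?_, ?_⟩
      · have h2 := sd_sh x (src e) (a - x)
        rw [sub_add_cancel] at h2
        show sd (src e) (a - x) = R
        rw [← h2]
        exact ha
      · rw [frc_sh, ocs_iff, hS, sub_add_cancel]
        exact h
  ext z
  show (Sp580.Arm _ _ _ _ ∧ Sp580.Arm _ _ _ _ ∧ ¬ OC _ _ _ _) ↔
    (Sp580.Arm _ _ _ _ ∧ Sp580.Arm _ _ _ _ ∧ ¬ OC _ _ _ _)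
  rw [hA, hA, frc_sh, ocs_iff, hS, ← src_ea, ← tgt_ea]

open Classical in
theorem dep_sh (x : P2) {T : Finset Edge} {A : Set Cfz} (h : Dep T A) :
    Dep (T.image (ea x)) (shiftZ x ⁻¹' A) := by
  intro z z' hz
  exact h _ _ fun e he => hz _ (Finset.mem_image_of_mem _ he)

theorem Pr_sh (q : ℝ) (x : P2) {A : Set Cfz} (hA : MeasurableSet A) :
    Pr q (shiftZ x ⁻¹' A) = Pr q A := by
  have ht := tInv (Crest.ProbabilityR.Percolation.clampUnit q) x
  show (Rs689.nu _).real _ = (Rs689.nu _).real _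
  conv_rhs => rw [← ht]
  rw [measureReal_def, measureReal_def, Measure.map_apply (measurable_shiftZ x) hA]

/-- `HypGl` at the origin -/
def HypGl0 (A4 : Edge → ℕ → Set Cfz) : Prop :=
  ∀ c : ℝ, 0 < c → ∃ Λ : ℕ, 1 ≤ Λ ∧ ∀ η : ℝ, 0 < η → ∃ K : ℝ, 0 < K ∧ ∃ C r0 : ℕ, 1 ≤ C ∧
    ∀ q : ℝ, 0 < q → q < 1 → ∀ r : ℕ, r0 ≤ r → RScale c q (C * r) →
      ∀ (a b c' d : ℤ) (e : Edge), src e = (0, 0) → a + C * r ≤ 0 → C * r ≤ b →
        c' + C * r ≤ 0 → C * r ≤ d →
        ∃ (G : Set Cfz) (T : Finset Edge), Dep T G ∧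
          (∀ i ∈ T, (r : ℤ) ≤ Λ * sd (0, 0) (src i) ∧ sd (0, 0) (src i) ≤ Λ * r) ∧
          Pr q Gᶜ ≤ η ∧
          Pr q (Ld570.BPiv (0, 0) r (XR a b c' d) ∩ G) * Pr q (A4 e r) ≤
            K * Pr q (Piv e (XR a b c' d))

theorem dep_XR (a b c d : ℤ) : Dep (rectE a b c d) (XR a b c d) := lr_dep a b c d

theorem finite_sdball (x : P2) (R : ℤ) : {v : P2 | sd x v ≤ R}.Finite := by
  refine (rect_finite (x.1 - R) (x.1 + R) (x.2 - R) (x.2 + R)).subset fun v hv => ?_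
  have h : sd x v ≤ R := hv
  unfold sd at h
  rw [max_le_iff, abs_le, abs_le] at h
  rw [mem_rect]
  omega

theorem dep_A4 (e : Edge) (R : ℤ) : ∃ S : Finset Edge, Dep S (Sp580.A4 e R) :=
  ⟨_, Sp580.dep_frc_oc (finite_sdball (src e) R) e false fun f =>
    (∃ a ∈ {v | sd (src e) v = R}, f (src e) a) ∧ (∃ a ∈ {v | sd (src e) v = R}, f (tgt e) a) ∧
      ¬ f (src e) (tgt e)⟩

/-- **`HypGl` from its version at the origin** -/
theorem gl_of_gl0 (h : HypGl0 fun e r => Sp580.A4 e r) : HypGl fun e r => Sp580.A4 e r := by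
  classical
  intro c hc
  obtain ⟨Λ, hΛ, h⟩ := h c hc
  refine ⟨Λ, hΛ, fun η hη => ?_⟩
  obtain ⟨K, hK, C, r0, hC, h⟩ := h η hη
  refine ⟨K, hK, C, r0, hC, ?_⟩
  intro q hq0 hq1 r hr hs a b c' d e he
  obtain ⟨x, k⟩ := e
  obtain ⟨h1, h2, h3, h4⟩ := he
  have h1' : a + C * r ≤ x.1 := by exact_mod_cast h1
  have h2' : x.1 ≤ b - C * r := by exact_mod_cast h2
  have h3' : c' + C * r ≤ x.2 := by exact_mod_cast h3
  have h4' : x.2 ≤ d - C * r := by exact_mod_cast h4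
  obtain ⟨G, T, hG, hT, hη', hmain⟩ := h q hq0 hq1 r hr hs (a - x.1) (b - x.1) (c' - x.2)
    (d - x.2) ((0, 0), k) rfl (by linarith) (by linarith) (by linarith) (by linarith)
  have hex : ea x ((0, 0), k) = (x, k) := by
    obtain ⟨x1, x2⟩ := x
    simp [ea]
  have h0x : ((0, 0) : P2) + x = x := by
    obtain ⟨x1, x2⟩ := x
    simp
  refine ⟨shiftZ x ⁻¹' G, T.image (ea x), dep_sh x hG, ?_, ?_, ?_⟩
  · intro i hi
    rw [Finset.mem_image] at hi
    obtain ⟨i', hi', rfl⟩ := hi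
    have h5 := hT i' hi'
    have h6 := sd_sh x (0, 0) (src i')
    rw [h0x] at h6
    show (r : ℤ) ≤ Λ * sd x (src (ea x i')) ∧ sd x (src (ea x i')) ≤ Λ * r
    rw [src_ea, h6]
    exact h5
  · rw [← Set.preimage_compl, Pr_sh q x hG.compl.measurableSet]
    exact hη'
  · have dX := dep_XR (a - x.1) (b - x.1) (c' - x.2) (d - x.2)
    have m1 : MeasurableSet (Ld570.BPiv (0, 0) r (XR (a - x.1) (b - x.1) (c' - x.2) (d - x.2)) ∩ G) :=
      (Ld570.dep_bpiv (0, 0) r dX).measurableSet.inter hG.measurableSet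
    have m2 : MeasurableSet (Piv ((0, 0), k) (XR (a - x.1) (b - x.1) (c' - x.2) (d - x.2))) :=
      (dep_piv dX _).measurableSet
    obtain ⟨S, hS⟩ := dep_A4 ((0, 0), k) r
    have e1 : Pr q (Ld570.BPiv (src (x, k)) r (XR a b c' d) ∩ shiftZ x ⁻¹' G) =
        Pr q (Ld570.BPiv (0, 0) r (XR (a - x.1) (b - x.1) (c' - x.2) (d - x.2)) ∩ G) := by
      rw [← Pr_sh q x m1, Set.preimage_inter, sh_BPiv, sh_XR, h0x]
      rfl
    have e2 : Pr q (Sp580.A4 (x, k) r) = Pr q (Sp580.A4 ((0, 0), k) r) := by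
      rw [← Pr_sh q x hS.measurableSet, sh_A4, hex]
    have e3 : Pr q (Piv (x, k) (XR a b c' d)) =
        Pr q (Piv ((0, 0), k) (XR (a - x.1) (b - x.1) (c' - x.2) (d - x.2))) := by
      rw [← Pr_sh q x m2, sh_Piv, sh_XR, hex]
    rw [e1, e2, e3]
    exact hmain

end Crest.Agent.R158.Sg158
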