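import Crest.Agent.R158.Gl1_570
import Crest.Agent.R158.Sp5_580
import Crest.Agent.R158.Sg5_158
import Crest.Agent.R158.Bb2_488
import Crest.Agent.R158.Ld5_570
import Crest.Agent.R158.Cpl9_963

/-!
# Row 158, Block G (helper570): Lemma D closed

* `sepIn` : inner separation (580) in the form of `Gl1_570`
* `hypGl0`, `hypGl` : separation and gluing from the outer cover `CovPiv`
* `hypD_of_U4` : `HypD` from `CovPiv`, `HypU4`, `L4`
-/

set_option autoImplicit false

noncomputable section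

namespace Crest.Agent.R158.Ld570

open MeasureTheory ProbabilityTheory unitInterval
open Crest.Agent.R161.Geo729 Crest.Agent.R161.Topo374 Crest.Agent.R161.Dual374
open Crest.Agent.R161.Tas682 hiding Sq
open Crest.Agent.R158.Rs689 Crest.Agent.R158.Ru874
open Crest.Agent.R158.Fr158 hiding nu
open Crest.Agent.R158.Sp580 (RSp)

theorem sepIn : SepIn := by
  intro c hc
  obtain ⟨K, hK, h⟩ := Sp580.sep_in hc
  refine ⟨K, hK, fun p j hp e he => ?_⟩
  exact h p j (hp.mono (Nat.pow_le_pow_right (by norm_num) (by omega))) e he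

theorem hypGl0 {T0 : ℕ} (hT0 : 500 ≤ T0) (hcov : CovPiv T0) :
    Sg158.HypGl0 (fun e r => Sp580.A4 e r) := by
  intro c hc
  obtain ⟨Λ, hΛ, h⟩ := gl0_of hT0 hcov sepIn c hc
  refine ⟨Λ, hΛ, fun η hη => ?_⟩
  obtain ⟨K, hK, C, r0, hC, h⟩ := h η hη
  refine ⟨K, hK, C, r0, hC, ?_⟩
  intro q hq0 hq1 r hr hRS a b c' d e he h1 h2 h3 h4
  obtain ⟨G, T, g1, g2, g3, g4⟩ := h q hq0 hq1 r hr hRS a b c' d e he (by
    unfold Blk
    rw [he]
    push_cast
    omega)
  rw [he] at g2 g4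
  exact ⟨G, T, g1, g2, g3, g4⟩

/-- **(Gl)** from the outer cover -/
theorem hypGl {T0 : ℕ} (hT0 : 500 ≤ T0) (hcov : CovPiv T0) :
    HypGl (fun e r => Sp580.A4 e r) := Sg158.gl_of_gl0 (hypGl0 hT0 hcov)

/-- **Lemma D** from the outer cover and the four-arm bounds -/
theorem hypD_of_U4 {T0 : ℕ} (hT0 : 500 ≤ T0) (hcov : CovPiv T0) (hU : Cpl963.HypU4)
    (hL : Cpl963.L4) : HypD :=
  hypD_of (A4 := fun e r => Sp580.A4 e r) (Cpl963.hypC_of_U4 hU) Bb488.hypBD (hypGl hT0 hcov)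
    (fun _ _ hδ hε => Cpl963.A4low hU hL hδ hε)

end Crest.Agent.R158.Ld570
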