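import Mathlib
import Crest.Prelude.Def_PlanarPerc
import Crest.Agent.R161.Geo_729

/-!
# Row 158 (S0237), block GP (helper949): grid polygons, file 1

Unit mesh. `GC P` : `P : ℝ → ℂ` is continuous, 1-periodic, injective modulo 1 and runs inside the
grid lines of `ℤ²`. Result: `P` is a lattice polygon: there are strictly increasing times `t i`
(`i : ℤ`) with `t (i + L) = t i + 1`, at which `P` is at the lattice point `v i`, and on
`[t i, t (i+1)]` the curve runs monotonically through the closed edge `e i` from `v i` to `v (i+1)`.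
-/

set_option autoImplicit false

namespace Crest.Agent.R158.Gp949

open Set Filter Topology Crest.Agent.R161.Geo729

/-- the lattice point `v` in the plane -/
noncomputable def lp (v : P2) : ℂ := ⟨v.1, v.2⟩

@[simp] theorem lp_re (v : P2) : (lp v).re = v.1 := rfl
@[simp] theorem lp_im (v : P2) : (lp v).im = v.2 := rfl

theorem lp_inj {v w : P2} (h : lp v = lp w) : v = w := by
  have h1 := congrArg Complex.re h
  have h2 := congrArg Complex.im h
  simp only [lp_re, lp_im] at h1 h2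
  exact Prod.ext (by exact_mod_cast h1) (by exact_mod_cast h2)

/-- the grid lines of `ℤ²` -/
def GrL : Set ℂ := {z : ℂ | (∃ k : ℤ, z.re = k) ∨ ∃ k : ℤ, z.im = k}

/-- coordinate along the edge `e` -/
noncomputable def co (e : Edge) (z : ℂ) : ℝ := if e.2 then z.im - e.1.2 else z.re - e.1.1

@[simp] theorem co_h (v : P2) (z : ℂ) : co (v, false) z = z.re - v.1 := rfl
@[simp] theorem co_v (v : P2) (z : ℂ) : co (v, true) z = z.im - v.2 := rfl

theorem continuous_co (e : Edge) : Continuous (co e) := by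
  obtain ⟨v, b⟩ := e
  cases b
  · exact Complex.continuous_re.sub continuous_const
  · exact Complex.continuous_im.sub continuous_const

/-- the line of the edge -/
def lineE (e : Edge) : Set ℂ := {z | if e.2 then z.re = e.1.1 else z.im = e.1.2}

@[simp] theorem mem_line_h (v : P2) (z : ℂ) : z ∈ lineE (v, false) ↔ z.im = v.2 := Iff.rfl
@[simp] theorem mem_line_v (v : P2) (z : ℂ) : z ∈ lineE (v, true) ↔ z.re = v.1 := Iff.rfl

/-- open edge -/
def oE (e : Edge) : Set ℂ := {z | z ∈ lineE e ∧ 0 < co e z ∧ co e z < 1}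
/-- closed edge -/
def cE (e : Edge) : Set ℂ := {z | z ∈ lineE e ∧ 0 ≤ co e z ∧ co e z ≤ 1}

theorem oE_sub_cE (e : Edge) : oE e ⊆ cE e := fun _ h => ⟨h.1, h.2.1.le, h.2.2.le⟩

theorem isClosed_lineE (e : Edge) : IsClosed (lineE e) := by
  obtain ⟨v, b⟩ := e
  cases b
  · exact isClosed_eq Complex.continuous_im continuous_const
  · exact isClosed_eq Complex.continuous_re continuous_const

theorem isClosed_cE (e : Edge) : IsClosed (cE e) :=
  (isClosed_lineE e).inter ((isClosed_le continuous_const (continuous_co e)).inter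
    (isClosed_le (continuous_co e) continuous_const))

/-- the open rectangle around the open edge -/
def vE (e : Edge) : Set ℂ :=
  {z | (if e.2 then |z.re - e.1.1| < 1 else |z.im - e.1.2| < 1) ∧ 0 < co e z ∧ co e z < 1}

theorem isOpen_vE (e : Edge) : IsOpen (vE e) := by
  have h2 : IsOpen {z | 0 < co e z ∧ co e z < 1} :=
    (isOpen_lt continuous_const (continuous_co e)).inter
      (isOpen_lt (continuous_co e) continuous_const)
  obtain ⟨v, b⟩ := e
  cases b
  · refine IsOpen.inter ?_ h2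
    exact isOpen_lt (Complex.continuous_im.sub continuous_const).abs continuous_const
  · refine IsOpen.inter ?_ h2
    exact isOpen_lt (Complex.continuous_re.sub continuous_const).abs continuous_const

theorem int_eq_of_abs {a b : ℤ} {x : ℝ} (h : x = a) (h' : |x - b| < 1) : a = b := by
  rw [h, abs_lt] at h'
  have h1 : (b : ℝ) - 1 < a := by linarith
  have h2 : (a : ℝ) < b + 1 := by linarith
  have h3 : b - 1 < a := by exact_mod_cast h1
  have h4 : a < b + 1 := by exact_mod_cast h2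
  omega

theorem no_int {a k : ℤ} {x : ℝ} (h : x = k) (h1 : 0 < x - a) (h2 : x - a < 1) : False := by
  rw [h] at h1 h2
  have h3 : (a : ℝ) < k := by linarith
  have h4 : (k : ℝ) < a + 1 := by linarith
  have h5 : a < k := by exact_mod_cast h3
  have h6 : k < a + 1 := by exact_mod_cast h4
  omega

theorem oE_sub_vE (e : Edge) : oE e ⊆ vE e := by
  obtain ⟨v, b⟩ := e
  rintro z ⟨h1, h2⟩
  refine ⟨?_, h2⟩
  cases b
  · rw [mem_line_h] at h1
    simp [h1]
  · rw [mem_line_v] at h1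
    simp [h1]

theorem vE_GrL (e : Edge) {z : ℂ} (h : z ∈ vE e) (hz : z ∈ GrL) : z ∈ oE e := by
  obtain ⟨v, b⟩ := e
  obtain ⟨h1, h2, h3⟩ := h
  refine ⟨?_, h2, h3⟩
  cases b
  · rw [mem_line_h]
    simp only [co_h, Bool.false_eq_true, if_false] at h1 h2 h3
    rcases hz with ⟨k, hk⟩ | ⟨k, hk⟩
    · exact (no_int hk h2 h3).elim
    · rw [hk, int_eq_of_abs hk h1]
  · rw [mem_line_v]
    simp only [co_v, if_true] at h1 h2 h3
    rcases hz with ⟨k, hk⟩ | ⟨k, hk⟩
    · rw [hk, int_eq_of_abs hk h1]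
    · exact (no_int hk h2 h3).elim

theorem oE_sub_GrL (e : Edge) : oE e ⊆ GrL := by
  obtain ⟨v, b⟩ := e
  rintro z ⟨h1, -⟩
  cases b
  · exact Or.inr ⟨v.2, h1⟩
  · exact Or.inl ⟨v.1, h1⟩

theorem cE_sub_GrL (e : Edge) : cE e ⊆ GrL := by
  obtain ⟨v, b⟩ := e
  rintro z ⟨h1, -⟩
  cases b
  · exact Or.inr ⟨v.2, h1⟩
  · exact Or.inl ⟨v.1, h1⟩

theorem lp_not_oE (v : P2) (e : Edge) : lp v ∉ oE e := by
  obtain ⟨w, b⟩ := e
  rintro ⟨-, h2, h3⟩
  cases b
  · exact no_int (x := (lp v).re) (k := v.1) rfl h2 h3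
  · exact no_int (x := (lp v).im) (k := v.2) rfl h2 h3

theorem floor_of {x : ℝ} {a : ℤ} (h1 : 0 < x - a) (h2 : x - a < 1) : ⌊x⌋ = a := by
  rw [Int.floor_eq_iff]
  exact ⟨by linarith, by linarith⟩

theorem oE_unique {e e' : Edge} {z : ℂ} (h : z ∈ oE e) (h' : z ∈ oE e') : e = e' := by
  obtain ⟨⟨a, b⟩, c⟩ := e
  obtain ⟨⟨a', b'⟩, c'⟩ := e'
  obtain ⟨h1, h2, h3⟩ := h
  obtain ⟨h1', h2', h3'⟩ := h'
  cases c <;> cases c' <;>
    simp only [mem_line_h, mem_line_v, co_h, co_v] at h1 h2 h3 h1' h2' h3'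
  · have e1 : (b : ℝ) = b' := by rw [← h1, ← h1']
    have e2 : a = a' := by rw [← floor_of h2 h3, ← floor_of h2' h3']
    have e3 : b = b' := by exact_mod_cast e1
    rw [e2, e3]
  · exact (no_int h1' h2 h3).elim
  · exact (no_int h1' h2 h3).elim
  · have e1 : (a : ℝ) = a' := by rw [← h1, ← h1']
    have e2 : b = b' := by rw [← floor_of h2 h3, ← floor_of h2' h3']
    have e3 : a = a' := by exact_mod_cast e1
    rw [e2, e3]

theorem GrL_cases {z : ℂ} (h : z ∈ GrL) : (∃ v, z = lp v) ∨ ∃ e, z ∈ oE e := by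
  rcases h with ⟨k, hk⟩ | ⟨k, hk⟩
  · by_cases hf : z.im = ⌊z.im⌋
    · exact Or.inl ⟨(k, ⌊z.im⌋), Complex.ext hk hf⟩
    · refine Or.inr ⟨((k, ⌊z.im⌋), true), hk, ?_, ?_⟩
      · rw [co_v]
        have := Int.floor_le z.im
        exact sub_pos.2 (lt_of_le_of_ne this (fun h => hf h.symm))
      · rw [co_v]
        have := Int.lt_floor_add_one z.im
        show z.im - (⌊z.im⌋ : ℝ) < 1
        linarith
  · by_cases hf : z.re = ⌊z.re⌋
    · exact Or.inl ⟨(⌊z.re⌋, k), Complex.ext hf hk⟩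
    · refine Or.inr ⟨((⌊z.re⌋, k), false), hk, ?_, ?_⟩
      · rw [co_h]
        have := Int.floor_le z.re
        exact sub_pos.2 (lt_of_le_of_ne this (fun h => hf h.symm))
      · rw [co_h]
        have := Int.lt_floor_add_one z.re
        show z.re - (⌊z.re⌋ : ℝ) < 1
        linarith

theorem lp_GrL (v : P2) : lp v ∈ GrL := Or.inl ⟨v.1, rfl⟩

/-- on the closed edge the coordinate is injective -/
theorem co_inj {e : Edge} {z w : ℂ} (hz : z ∈ cE e) (hw : w ∈ cE e) (h : co e z = co e w) :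
    z = w := by
  obtain ⟨v, b⟩ := e
  obtain ⟨h1, -⟩ := hz
  obtain ⟨h2, -⟩ := hw
  cases b
  · rw [mem_line_h] at h1 h2
    rw [co_h, co_h] at h
    exact Complex.ext (by linarith) (by rw [h1, h2])
  · rw [mem_line_v] at h1 h2
    rw [co_v, co_v] at h
    exact Complex.ext (by rw [h1, h2]) (by linarith)

/-- the two end points of a closed edge -/
theorem lp_cE {e : Edge} {v : P2} (h : lp v ∈ cE e) :
    (co e (lp v) = 0 ∧ v = src e) ∨ (co e (lp v) = 1 ∧ v = tgt e) := by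
  obtain ⟨⟨a, b⟩, c⟩ := e
  obtain ⟨p, q⟩ := v
  obtain ⟨h1, h2, h3⟩ := h
  cases c <;> simp only [mem_line_h, mem_line_v, co_h, co_v, lp_re, lp_im] at h1 h2 h3 ⊢
  · have e1 : q = b := by exact_mod_cast h1
    have e2 : a ≤ p := by
      have : (a : ℝ) ≤ p := by linarith
      exact_mod_cast this
    have e3 : p ≤ a + 1 := by
      have : (p : ℝ) ≤ a + 1 := by linarith
      exact_mod_cast this
    rcases (by omega : p = a ∨ p = a + 1) with h | h
    · left
      subst h; subst e1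
      exact ⟨by simp, rfl⟩
    · right
      subst h; subst e1
      exact ⟨by push_cast; ring, rfl⟩
  · have e1 : p = a := by exact_mod_cast h1
    have e2 : b ≤ q := by
      have : (b : ℝ) ≤ q := by linarith
      exact_mod_cast this
    have e3 : q ≤ b + 1 := by
      have : (q : ℝ) ≤ b + 1 := by linarith
      exact_mod_cast this
    rcases (by omega : q = b ∨ q = b + 1) with h | h
    · left
      subst h; subst e1
      exact ⟨by simp, rfl⟩
    · right
      subst h; subst e1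
      exact ⟨by push_cast; ring, rfl⟩

theorem src_cE (e : Edge) : lp (src e) ∈ cE e ∧ co e (lp (src e)) = 0 := by
  obtain ⟨⟨a, b⟩, c⟩ := e
  cases c <;> simp [cE, src]

theorem tgt_cE (e : Edge) : lp (tgt e) ∈ cE e ∧ co e (lp (tgt e)) = 1 := by
  obtain ⟨⟨a, b⟩, c⟩ := e
  cases c <;> simp [cE, tgt, add_comm]

/-- point of the closed edge with prescribed coordinate -/
noncomputable def ep (e : Edge) (s : ℝ) : ℂ :=
  if e.2 then ⟨e.1.1, e.1.2 + s⟩ else ⟨e.1.1 + s, e.1.2⟩

theorem ep_line (e : Edge) (s : ℝ) : ep e s ∈ lineE e := by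
  obtain ⟨⟨a, b⟩, c⟩ := e
  cases c <;> simp [ep]

theorem co_ep (e : Edge) (s : ℝ) : co e (ep e s) = s := by
  obtain ⟨⟨a, b⟩, c⟩ := e
  cases c <;> simp [ep]

theorem ep_oE {e : Edge} {s : ℝ} (h : 0 < s) (h' : s < 1) : ep e s ∈ oE e :=
  ⟨ep_line e s, by rw [co_ep]; exact h, by rw [co_ep]; exact h'⟩

theorem cE_cases {e : Edge} {z : ℂ} (h : z ∈ cE e) :
    z = lp (src e) ∨ z = lp (tgt e) ∨ z ∈ oE e := by
  rcases h.2.1.eq_or_lt with h0 | h0
  · exact Or.inl (co_inj h (src_cE e).1 (by rw [(src_cE e).2, ← h0]))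
  rcases h.2.2.eq_or_lt with h1 | h1
  · exact Or.inr (Or.inl (co_inj h (tgt_cE e).1 (by rw [(tgt_cE e).2, h1])))
  · exact Or.inr (Or.inr ⟨h.1, h0, h1⟩)

/-- grid curve of unit mesh, in periodic form -/
structure GC (P : ℝ → ℂ) : Prop where
  cont : Continuous P
  per : ∀ t, P (t + 1) = P t
  inj : ∀ s t, P s = P t → ∃ k : ℤ, s - t = k
  grid : ∀ t, P t ∈ GrL

/-- a continuous periodic real function is never injective modulo the period -/
theorem noinj {f : ℝ → ℝ} (hf : Continuous f) (hp : ∀ t, f (t + 1) = f t) :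
    ∃ s t : ℝ, f s = f t ∧ ∀ k : ℤ, s - t ≠ k := by
  set g : ℝ → ℝ := fun x => f (x + 1 / 2) - f x with hg
  have hgc : Continuous g := (hf.comp (continuous_id.add continuous_const)).sub hf
  have h1 : g (1 / 2) = - g 0 := by
    simp only [hg]
    have := hp 0
    rw [zero_add] at this
    norm_num [this]
  have hx : ∃ x, g x = 0 := by
    rcases le_total (g 0) 0 with h | h
    · have := intermediate_value_Icc (by norm_num : (0 : ℝ) ≤ 1 / 2) hgc.continuousOn
      obtain ⟨x, -, hx⟩ := this ⟨h, by rw [h1]; linarith⟩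
      exact ⟨x, hx⟩
    · have := intermediate_value_Icc' (by norm_num : (0 : ℝ) ≤ 1 / 2) hgc.continuousOn
      obtain ⟨x, -, hx⟩ := this ⟨by rw [h1]; linarith, h⟩
      exact ⟨x, hx⟩
  obtain ⟨x, hx⟩ := hx
  refine ⟨x + 1 / 2, x, by simpa [hg, sub_eq_zero] using hx, fun k hk => ?_⟩
  have h2 : (1 : ℝ) = 2 * k := by linarith
  have h3 : (1 : ℤ) = 2 * k := by exact_mod_cast h2
  omega

/-- times at lattice points -/
def L0 (P : ℝ → ℂ) : Set ℝ := {t | ∃ v, P t = lp v}

namespace GC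

variable {P : ℝ → ℂ} (h : GC P)
include h

theorem per_int (t : ℝ) (k : ℤ) : P (t + k) = P t := by
  have h1 : Function.Periodic P 1 := h.per
  have := h1.int_mul k t
  simpa using this

theorem L0_add {t : ℝ} (k : ℤ) (ht : t ∈ L0 P) : t + k ∈ L0 P := by
  obtain ⟨v, hv⟩ := ht
  exact ⟨v, by rw [h.per_int, hv]⟩

theorem edge_of {t : ℝ} (ht : t ∉ L0 P) : ∃ e, P t ∈ oE e := by
  rcases GrL_cases (h.grid t) with ⟨v, hv⟩ | he
  · exact (ht ⟨v, hv⟩).elim
  · exact he

theorem edge_const {s : Set ℝ} (hs : IsPreconnected s) (hS : ∀ t ∈ s, t ∉ L0 P)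
    {e : Edge} {t0 : ℝ} (ht0 : t0 ∈ s) (he : P t0 ∈ oE e) : ∀ t ∈ s, P t ∈ oE e := by
  have hu : IsOpen (P ⁻¹' vE e) := (isOpen_vE e).preimage h.cont
  have hv : IsOpen (⋃ e' ∈ {e' | e' ≠ e}, P ⁻¹' vE e') :=
    isOpen_biUnion fun e' _ => (isOpen_vE e').preimage h.cont
  have hd : Disjoint (P ⁻¹' vE e) (⋃ e' ∈ {e' | e' ≠ e}, P ⁻¹' vE e') := by
    rw [Set.disjoint_left]
    intro t h1 h2
    simp only [mem_iUnion, mem_ofPred_eq] at h2
    obtain ⟨e', hne, h2⟩ := h2
    exact hne (oE_unique (vE_GrL e' h2 (h.grid t)) (vE_GrL e h1 (h.grid t)))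
  have hsub : s ⊆ (P ⁻¹' vE e) ∪ ⋃ e' ∈ {e' | e' ≠ e}, P ⁻¹' vE e' := by
    intro t ht
    obtain ⟨e', he'⟩ := h.edge_of (hS t ht)
    by_cases hee : e' = e
    · exact Or.inl (by rw [← hee]; exact oE_sub_vE e' he')
    · refine Or.inr ?_
      simp only [mem_iUnion, mem_ofPred_eq]
      exact ⟨e', hee, oE_sub_vE e' he'⟩
  have := IsPreconnected.subset_left_of_subset_union hu hv hd hsub ⟨t0, ht0, oE_sub_vE e he⟩ hs
  intro t ht
  exact vE_GrL e (this ht) (h.grid t)

theorem L0_nonempty : (L0 P).Nonempty := by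
  by_contra hne
  rw [Set.not_nonempty_iff_eq_empty] at hne
  have hS : ∀ t ∈ (univ : Set ℝ), t ∉ L0 P := fun t _ => by rw [hne]; exact notMem_empty t
  obtain ⟨e, he⟩ := h.edge_of (hS 0 trivial)
  have h1 := h.edge_const isPreconnected_univ hS (mem_univ 0) he
  obtain ⟨s, t, hst, hk⟩ := noinj (f := fun t => co e (P t)) ((continuous_co e).comp h.cont)
    (fun t => by simp only [h.per])
  obtain ⟨k, hk'⟩ := h.inj s t (co_inj (oE_sub_cE e (h1 s trivial)) (oE_sub_cE e (h1 t trivial)) hst)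
  exact hk k hk'

theorem bounded : ∃ R : ℕ, ∀ t, |(P t).re| ≤ R ∧ |(P t).im| ≤ R := by
  have h1 : IsCompact (P '' Icc 0 1) := isCompact_Icc.image h.cont
  obtain ⟨C, hC⟩ := h1.isBounded.exists_norm_le
  obtain ⟨R, hR⟩ := exists_nat_ge C
  refine ⟨R, fun t => ?_⟩
  have h2 : P t ∈ P '' Icc 0 1 := by
    refine ⟨Int.fract t, ⟨Int.fract_nonneg t, (Int.fract_lt_one t).le⟩, ?_⟩
    have := h.per_int (Int.fract t) ⌊t⌋
    rw [← this]
    congr 1
    exact Int.fract_add_floor t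
  have h3 := (hC _ h2).trans hR
  exact ⟨(Complex.abs_re_le_norm _).trans h3, (Complex.abs_im_le_norm _).trans h3⟩

theorem L0_finite : (L0 P ∩ Ico 0 1).Finite := by
  obtain ⟨R, hR⟩ := h.bounded
  have hfin : (Icc (-(R : ℤ)) R ×ˢ Icc (-(R : ℤ)) R : Set (ℤ × ℤ)).Finite :=
    (Set.finite_Icc _ _).prod (Set.finite_Icc _ _)
  refine Set.Finite.of_finite_image (f := P) ?_ ?_
  · refine (hfin.image lp).subset ?_
    rintro z ⟨t, ⟨⟨v, hv⟩, -⟩, rfl⟩
    refine ⟨v, ?_, hv.symm⟩
    have h1 := (hR t).1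
    have h2 := (hR t).2
    rw [hv] at h1 h2
    simp only [lp_re, lp_im] at h1 h2
    have h1' : |v.1| ≤ (R : ℤ) := by exact_mod_cast h1
    have h2' : |v.2| ≤ (R : ℤ) := by exact_mod_cast h2
    rw [abs_le] at h1' h2'
    exact ⟨⟨h1'.1, h1'.2⟩, ⟨h2'.1, h2'.2⟩⟩
  · rintro s ⟨-, hs⟩ t ⟨-, ht⟩ hst
    obtain ⟨k, hk⟩ := h.inj s t hst
    have h1 : (k : ℝ) < 1 := by rw [← hk]; linarith [hs.2, ht.1]
    have h2 : (-1 : ℝ) < k := by rw [← hk]; linarith [hs.1, ht.2]
    have h3 : k < 1 := by exact_mod_cast h1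
    have h4 : -1 < k := by exact_mod_cast h2
    have : k = 0 := by omega
    rw [this] at hk
    push_cast at hk
    linarith

end GC

end Crest.Agent.R158.Gp949
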