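import Crest.Agent.R158.Gp1_949

/-!
# Row 158 (S0237), block GP (helper949): grid polygons, file 2

The cyclic enumeration of the lattice points of a grid curve.
-/

set_option autoImplicit false

namespace Crest.Agent.R158.Gp949

open Set Filter Topology Crest.Agent.R161.Geo729

/-- The combinatorial structure of a grid curve `P` of unit mesh. -/
structure GWalk (P : ℝ → ℂ) where
  L : ℕ
  t : ℤ → ℝ
  v : ℤ → P2
  e : ℤ → Edge
  hL : 2 ≤ L
  mono : StrictMono t
  tper : ∀ i, t (i + L) = t i + 1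
  all : ∀ s, s ∈ L0 P → ∃ i, s = t i
  Pt : ∀ i, P (t i) = lp (v i)
  Pe : ∀ i, ∀ s ∈ Ioo (t i) (t (i + 1)), P s ∈ oE (e i)
  ends : ∀ i, (v i = src (e i) ∧ v (i + 1) = tgt (e i) ∧
      StrictMonoOn (fun s => co (e i) (P s)) (Icc (t i) (t (i + 1)))) ∨
    (v i = tgt (e i) ∧ v (i + 1) = src (e i) ∧
      StrictAntiOn (fun s => co (e i) (P s)) (Icc (t i) (t (i + 1))))
  surj : ∀ i, P '' Icc (t i) (t (i + 1)) = cE (e i)

section enum

/-- abstract enumeration: a nonempty set of reals, invariant under integer translations and finite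
in `[0,1)`, is the range of a strictly increasing sequence with `t (i + L) = t i + 1`. -/
theorem exists_enum {S : Set ℝ} (hadd : ∀ t ∈ S, ∀ k : ℤ, t + k ∈ S) (hfin : (S ∩ Ico 0 1).Finite)
    (hne : S.Nonempty) : ∃ (L : ℕ) (t : ℤ → ℝ), 1 ≤ L ∧ StrictMono t ∧
      (∀ i, t (i + L) = t i + 1) ∧ ∀ s, s ∈ S ↔ ∃ i, s = t i := by
  classical
  set F : Finset ℝ := hfin.toFinset with hF
  have memF : ∀ s, s ∈ F ↔ s ∈ S ∧ 0 ≤ s ∧ s < 1 := by
    intro s
    rw [hF, Set.Finite.mem_toFinset]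
    exact Iff.rfl
  set L : ℕ := F.card with hL
  have hLpos : 0 < L := by
    obtain ⟨s, hs⟩ := hne
    refine Finset.card_pos.2 ⟨Int.fract s, (memF _).2 ⟨?_, Int.fract_nonneg s, Int.fract_lt_one s⟩⟩
    have := hadd s hs (-⌊s⌋)
    rw [Int.fract]
    push_cast at this
    rwa [← sub_eq_add_neg] at this
  have hLz : (0 : ℤ) < L := by exact_mod_cast hLpos
  let o : Fin L ↪o ℝ := F.orderEmbOfFin hL.symm
  have ho : ∀ j, o j ∈ F := fun j => F.orderEmbOfFin_mem hL.symm j
  have hr : ∀ s ∈ F, ∃ j, o j = s := by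
    intro s hs
    have := F.range_orderEmbOfFin hL.symm
    have h2 : s ∈ Set.range (F.orderEmbOfFin hL.symm) := by rw [this]; exact hs
    exact h2
  have hm : ∀ i : ℤ, (i % L).toNat < L := by
    intro i
    have h1 := Int.emod_nonneg i hLz.ne'
    have h2 := Int.emod_lt_of_pos i hLz
    omega
  set t : ℤ → ℝ := fun i => o ⟨(i % L).toNat, hm i⟩ + ((i / L : ℤ) : ℝ) with ht
  have hqr : ∀ (q : ℤ) (r : Fin L), t (L * q + r.1) = o r + q := by
    intro q r
    have h1 : (L * q + (r.1 : ℤ)) % L = r.1 := by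
      rw [Int.mul_add_emod_self_left]
      exact Int.emod_eq_of_lt (by omega) (by exact_mod_cast r.2)
    have h2 : (L * q + (r.1 : ℤ)) / L = q := by
      rw [Int.mul_add_ediv_left _ _ hLz.ne', Int.ediv_eq_zero_of_lt (by omega)
        (by exact_mod_cast r.2), add_zero]
    simp only [ht, h2]
    congr 2
    apply Fin.ext
    simp only [h1, Int.toNat_natCast]
  have hdec : ∀ i : ℤ, ∃ (q : ℤ) (r : Fin L), i = L * q + r.1 := by
    intro i
    refine ⟨i / L, ⟨(i % L).toNat, hm i⟩, ?_⟩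
    have h1 := Int.emod_nonneg i hLz.ne'
    have h2 := Int.mul_ediv_add_emod i L
    simp only
    rw [Int.toNat_of_nonneg h1]
    exact h2.symm
  refine ⟨L, t, hLpos, ?_, ?_, ?_⟩
  · refine strictMono_int_of_lt_succ fun i => ?_
    obtain ⟨q, r, rfl⟩ := hdec i
    rw [hqr]
    by_cases hr1 : r.1 + 1 < L
    · have : (L * q + (r.1 : ℤ) + 1) = L * q + ((⟨r.1 + 1, hr1⟩ : Fin L).1 : ℤ) := by
        push_cast; ring
      rw [this, hqr]
      have h1 : o r < o ⟨r.1 + 1, hr1⟩ := o.strictMono (by rw [Fin.lt_def]; simp)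
      linarith
    · have h2 : r.1 + 1 = L := by have := r.2; omega
      have : (L * q + (r.1 : ℤ) + 1) = L * (q + 1) + ((⟨0, hLpos⟩ : Fin L).1 : ℤ) := by
        have h3 : ((r.1 : ℤ) + 1) = L := by exact_mod_cast h2
        push_cast
        linear_combination h3
      rw [this, hqr]
      have h3 := ((memF _).1 (ho r)).2.2
      have h4 := ((memF _).1 (ho ⟨0, hLpos⟩)).2.1
      push_cast
      linarith
  · intro i
    obtain ⟨q, r, rfl⟩ := hdec i
    have : (L * q + (r.1 : ℤ) + L) = L * (q + 1) + (r.1 : ℤ) := by ring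
    rw [this, hqr, hqr]
    push_cast
    ring
  · intro s
    constructor
    · intro hs
      have h1 : Int.fract s ∈ F := by
        refine (memF _).2 ⟨?_, Int.fract_nonneg s, Int.fract_lt_one s⟩
        have := hadd s hs (-⌊s⌋)
        rw [Int.fract]
        push_cast at this
        rwa [← sub_eq_add_neg] at this
      obtain ⟨j, hj⟩ := hr _ h1
      refine ⟨L * ⌊s⌋ + j.1, ?_⟩
      rw [hqr, hj]
      exact (Int.fract_add_floor s).symm
    · rintro ⟨i, rfl⟩
      obtain ⟨q, r, rfl⟩ := hdec i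
      rw [hqr]
      exact hadd _ ((memF _).1 (ho r)).1 q

end enum

/-- **(GP1)** a grid curve is a lattice polygon. -/
theorem GC.exists_walk {P : ℝ → ℂ} (h : GC P) : Nonempty (GWalk P) := by
  obtain ⟨L, t, hL1, hmono, htper, hall⟩ :=
    exists_enum (S := L0 P) (fun t ht k => h.L0_add k ht) h.L0_finite h.L0_nonempty
  have hlt : ∀ i : ℤ, t i < t (i + 1) := fun i => hmono (by omega)
  have hv : ∀ i, ∃ v, P (t i) = lp v := fun i => (hall (t i)).2 ⟨i, rfl⟩
  choose v hv using hv
  have hno : ∀ i : ℤ, ∀ s ∈ Ioo (t i) (t (i + 1)), s ∉ L0 P := by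
    intro i s hs hs'
    obtain ⟨j, rfl⟩ := (hall s).1 hs'
    have h1 := hmono.lt_iff_lt.1 hs.1
    have h2 := hmono.lt_iff_lt.1 hs.2
    omega
  have he : ∀ i : ℤ, ∃ e, ∀ s ∈ Ioo (t i) (t (i + 1)), P s ∈ oE e := by
    intro i
    have hm : (t i + t (i + 1)) / 2 ∈ Ioo (t i) (t (i + 1)) := by
      have := hlt i
      constructor <;> linarith
    obtain ⟨e, he⟩ := h.edge_of (hno i _ hm)
    exact ⟨e, h.edge_const isPreconnected_Ioo (hno i) hm he⟩
  choose e he using he
  have hcl : ∀ i : ℤ, ∀ s ∈ Icc (t i) (t (i + 1)), P s ∈ cE (e i) := by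
    intro i
    have h1 : closure (Ioo (t i) (t (i + 1))) = Icc (t i) (t (i + 1)) := closure_Ioo (hlt i).ne
    intro s hs
    rw [← h1] at hs
    have h2 : MapsTo P (closure (Ioo (t i) (t (i + 1)))) (closure (cE (e i))) :=
      MapsTo.closure (fun x hx => oE_sub_cE _ (he i x hx)) h.cont
    rw [(isClosed_cE (e i)).closure_eq] at h2
    exact h2 hs
  have hL : 2 ≤ L := by
    by_contra hL2
    have hL1' : L = 1 := by omega
    subst hL1'
    obtain ⟨s, s', hst, hk⟩ := noinj (f := fun x => co (e 0) (P x))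
      ((continuous_co (e 0)).comp h.cont) (fun x => by simp only [h.per])
    have hin : ∀ x, P x ∈ cE (e 0) := by
      intro x
      have h1 : t (0 + 1) = t 0 + 1 := by have := htper 0; simpa using this
      have h2 := Int.fract_nonneg (x - t 0)
      have h3 := (Int.fract_lt_one (x - t 0)).le
      have h4 : P x = P (t 0 + Int.fract (x - t 0)) := by
        have := h.per_int (t 0 + Int.fract (x - t 0)) ⌊x - t 0⌋
        rw [← this]
        congr 1
        have := Int.fract_add_floor (x - t 0)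
        linarith
      rw [h4]
      exact hcl 0 _ ⟨by linarith, by rw [h1]; linarith⟩
    obtain ⟨k, hk'⟩ := h.inj s s' (co_inj (hin s) (hin s') hst)
    exact hk k hk'
  have hone : ∀ i : ℤ, t (i + 1) < t i + 1 := by
    intro i
    rw [← htper i]
    exact hmono (by omega)
  have hinj : ∀ i : ℤ, InjOn (fun s => co (e i) (P s)) (Icc (t i) (t (i + 1))) := by
    intro i s hs s' hs' hss
    obtain ⟨k, hk⟩ := h.inj s s' (co_inj (hcl i s hs) (hcl i s' hs') hss)
    have h1 := hone i
    have h2 : (k : ℝ) < 1 := by rw [← hk]; linarith [hs.2, hs'.1]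
    have h3 : (-1 : ℝ) < k := by rw [← hk]; linarith [hs.1, hs'.2]
    have h4 : k < 1 := by exact_mod_cast h2
    have h5 : -1 < k := by exact_mod_cast h3
    have : k = 0 := by omega
    rw [this] at hk
    push_cast at hk
    linarith
  have hcont : ∀ i : ℤ, ContinuousOn (fun s => co (e i) (P s)) (Icc (t i) (t (i + 1))) :=
    fun i => ((continuous_co (e i)).comp h.cont).continuousOn
  have hends : ∀ i : ℤ, (v i = src (e i) ∧ v (i + 1) = tgt (e i) ∧
      StrictMonoOn (fun s => co (e i) (P s)) (Icc (t i) (t (i + 1)))) ∨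
    (v i = tgt (e i) ∧ v (i + 1) = src (e i) ∧
      StrictAntiOn (fun s => co (e i) (P s)) (Icc (t i) (t (i + 1)))) := by
    intro i
    have hli := left_mem_Icc.2 (hlt i).le
    have hri := right_mem_Icc.2 (hlt i).le
    have h1 := hcl i _ hli
    have h2 := hcl i _ hri
    rw [hv i] at h1
    rw [hv (i + 1)] at h2
    have h3 := lp_cE h1
    have h4 := lp_cE h2
    rcases ContinuousOn.strictMonoOn_of_injOn_Icc' (hlt i).le (hcont i) (hinj i) with hm | hm
    · left
      have h5 := hm hli hri (hlt i)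
      simp only [hv] at h5
      rcases h3 with ⟨h3, h3'⟩ | ⟨h3, h3'⟩ <;> rcases h4 with ⟨h4, h4'⟩ | ⟨h4, h4'⟩ <;>
        rw [h3, h4] at h5
      · exact (lt_irrefl _ h5).elim
      · exact ⟨h3', h4', hm⟩
      · norm_num at h5
      · exact (lt_irrefl _ h5).elim
    · right
      have h5 := hm hli hri (hlt i)
      simp only [hv] at h5
      rcases h3 with ⟨h3, h3'⟩ | ⟨h3, h3'⟩ <;> rcases h4 with ⟨h4, h4'⟩ | ⟨h4, h4'⟩ <;>
        rw [h3, h4] at h5
      · exact (lt_irrefl _ h5).elim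
      · norm_num at h5
      · exact ⟨h3', h4', hm⟩
      · exact (lt_irrefl _ h5).elim
  refine ⟨⟨L, t, v, e, hL, hmono, htper, fun s hs => (hall s).1 hs, hv, he, hends, ?_⟩⟩
  intro i
  apply Subset.antisymm
  · rintro z ⟨s, hs, rfl⟩
    exact hcl i s hs
  · intro z hz
    have h0 : co (e i) z ∈ Icc (0 : ℝ) 1 := ⟨hz.2.1, hz.2.2⟩
    have hli := left_mem_Icc.2 (hlt i).le
    have hri := right_mem_Icc.2 (hlt i).le
    rcases hends i with ⟨h1, h2, -⟩ | ⟨h1, h2, -⟩
    · have h3 := intermediate_value_Icc (hlt i).le (hcont i)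
      simp only [hv, h1, h2, (src_cE (e i)).2, (tgt_cE (e i)).2] at h3
      obtain ⟨s, hs, hs'⟩ := h3 h0
      exact ⟨s, hs, co_inj (hcl i s hs) hz hs'⟩
    · have h3 := intermediate_value_Icc' (hlt i).le (hcont i)
      simp only [hv, h1, h2, (src_cE (e i)).2, (tgt_cE (e i)).2] at h3
      obtain ⟨s, hs, hs'⟩ := h3 h0
      exact ⟨s, hs, co_inj (hcl i s hs) hz hs'⟩

end Crest.Agent.R158.Gp949
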