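import Crest.Agent.R158.Gp2_949

/-!
# Row 158 (S0237), block GP (helper949): grid polygons, file 3

Combinatorial Jordan curve theorem for the lattice polygon: parity of the cells, the cells of equal
parity are connected through edges off the trace.
-/

set_option autoImplicit false
set_option linter.unusedSectionVars false
set_option linter.unusedVariables false

namespace Crest.Agent.R158.Gp949

open Set Filter Topology Crest.Agent.R161.Geo729

/-- the vertex `w` is an end point of the edge `e` -/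
def Inc (e : Edge) (w : P2) : Prop := w = src e ∨ w = tgt e

theorem inc_iff (e : Edge) (w : P2) : Inc e w ↔
    e = ((w.1, w.2), false) ∨ e = ((w.1 - 1, w.2), false) ∨ e = ((w.1, w.2), true) ∨
      e = ((w.1, w.2 - 1), true) := by
  obtain ⟨⟨a, b⟩, c⟩ := e
  obtain ⟨p, q⟩ := w
  cases c <;> simp only [Inc, src, tgt, Prod.mk.injEq, if_true, if_false, Bool.false_eq_true,
    and_true, and_false, or_false, false_or, Bool.true_eq_false] <;> omega

theorem inc_src (e : Edge) : Inc e (src e) := Or.inl rfl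
theorem inc_tgt (e : Edge) : Inc e (tgt e) := Or.inr rfl

theorem corner_of_inc {e : Edge} {w : P2} (h : Inc e w) :
    IsCorner w (fA e) ∧ IsCorner w (fB e) := by
  obtain ⟨⟨a, b⟩, c⟩ := e
  obtain ⟨p, q⟩ := w
  simp only [isCorner_iff]
  cases c <;> simp only [Inc, src, tgt, fA, fB, Prod.mk.injEq, if_true, if_false,
    Bool.false_eq_true] at h ⊢ <;> omega

namespace GWalk

variable {P : ℝ → ℂ} (h : GC P) (W : GWalk P)

theorem hlt (i : ℤ) : W.t i < W.t (i + 1) := W.mono (by omega)

theorem mem_L0 (i : ℤ) : W.t i ∈ L0 P := ⟨W.v i, W.Pt i⟩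

theorem tper_int (i k : ℤ) : W.t (i + k * W.L) = W.t i + k := by
  induction k using Int.induction_on with
  | zero => simp
  | succ n ih =>
    have : i + ((n : ℤ) + 1) * W.L = (i + n * W.L) + W.L := by ring
    rw [this, W.tper, ih]; push_cast; ring
  | pred n ih =>
    have h1 := W.tper (i + (-(n : ℤ) - 1) * W.L)
    have : i + (-(n : ℤ) - 1) * W.L + W.L = i + -(n : ℤ) * W.L := by ring
    rw [this, ih] at h1
    push_cast at h1 ⊢
    linarith

include h

theorem vper (i k : ℤ) : W.v (i + k * W.L) = W.v i := by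
  apply lp_inj
  rw [← W.Pt, ← W.Pt, W.tper_int, h.per_int]

theorem vinj {i j : ℤ} (hij : W.v i = W.v j) : ∃ k : ℤ, i = j + k * W.L := by
  have h1 : P (W.t i) = P (W.t j) := by rw [W.Pt, W.Pt, hij]
  obtain ⟨k, hk⟩ := h.inj _ _ h1
  refine ⟨k, W.mono.injective ?_⟩
  rw [W.tper_int]
  linarith

theorem mid_mem (i : ℤ) : (W.t i + W.t (i + 1)) / 2 ∈ Ioo (W.t i) (W.t (i + 1)) := by
  have := W.hlt i
  constructor <;> linarith

theorem eper (i k : ℤ) : W.e (i + k * W.L) = W.e i := by
  have h1 := W.Pe i _ (W.mid_mem h i)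
  have h2 := W.Pe (i + k * W.L) ((W.t i + W.t (i + 1)) / 2 + k) (by
    have h3 := W.tper_int i k
    have h4 := W.tper_int (i + 1) k
    have h5 : i + 1 + k * W.L = i + k * W.L + 1 := by ring
    rw [h5] at h4
    rw [h3, h4]
    have := W.mid_mem h i
    exact ⟨by linarith [this.1], by linarith [this.2]⟩)
  rw [h.per_int] at h2
  exact oE_unique h2 h1

omit h in
theorem oE_image (i : ℤ) {z : ℂ} (hz : z ∈ oE (W.e i)) :
    ∃ s ∈ Ioo (W.t i) (W.t (i + 1)), P s = z := by
  have h1 : z ∈ P '' Icc (W.t i) (W.t (i + 1)) := by rw [W.surj]; exact oE_sub_cE _ hz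
  obtain ⟨s, hs, rfl⟩ := h1
  refine ⟨s, ⟨lt_of_le_of_ne hs.1 ?_, lt_of_le_of_ne hs.2 ?_⟩, rfl⟩
  · rintro rfl
    rw [W.Pt] at hz
    exact lp_not_oE _ _ hz
  · rintro rfl
    rw [W.Pt] at hz
    exact lp_not_oE _ _ hz

theorem einj {i j : ℤ} (hij : W.e i = W.e j) : ∃ k : ℤ, i = j + k * W.L := by
  have h1 := W.Pe i _ (W.mid_mem h i)
  rw [hij] at h1
  obtain ⟨s, hs, hs'⟩ := W.oE_image j h1
  obtain ⟨k, hk⟩ := h.inj _ _ hs'
  have h2 := W.mid_mem h i
  refine ⟨-k, ?_⟩
  have h3 := W.tper_int j (-k)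
  have h4 := W.tper_int (j + 1) (-k)
  have h5 : j + 1 + -k * W.L = j + -k * W.L + 1 := by ring
  rw [h5] at h4
  have h6 : (W.t i + W.t (i + 1)) / 2 = s - k := by linarith
  rw [h6] at h2
  have h7 : W.t (j + -k * W.L) < W.t (i + 1) := by
    rw [h3]; push_cast; linarith [hs.1, h2.2]
  have h8 : W.t i < W.t (j + -k * W.L + 1) := by
    rw [h4]; push_cast; linarith [hs.2, h2.1]
  have h9 := W.mono.lt_iff_lt.1 h7
  have h10 := W.mono.lt_iff_lt.1 h8
  omega

omit h in
/-- trace edges -/
def tr (W : GWalk P) (e : Edge) : Prop := ∃ i, W.e i = e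

/-- every point of the curve lies on a closed trace edge -/
theorem mem_cE (s : ℝ) : ∃ i, s ∈ Ico (W.t i) (W.t (i + 1)) := by
  -- unboundedness of the times
  have hup : ∃ i, s < W.t i := by
    obtain ⟨n, hn⟩ := exists_nat_gt (s - W.t 0)
    refine ⟨0 + n * W.L, ?_⟩
    rw [W.tper_int]
    push_cast
    linarith
  have hdn : ∃ b : ℤ, ∀ i, s < W.t i → b ≤ i := by
    obtain ⟨n, hn⟩ := exists_nat_gt (W.t 0 - s)
    refine ⟨0 + (-(n : ℤ)) * W.L, fun i hi => ?_⟩
    have h1 : W.t (0 + (-(n : ℤ)) * W.L) < W.t i := by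
      rw [W.tper_int]
      push_cast
      linarith
    exact (W.mono.lt_iff_lt.1 h1).le
  obtain ⟨j, hj, hmin⟩ := Int.exists_least_of_bdd hdn hup
  refine ⟨j - 1, ?_, by simpa using hj⟩
  by_contra hlt
  push Not at hlt
  have := hmin (j - 1) hlt
  omega

theorem range_eq : range P = ⋃ i, cE (W.e i) := by
  ext z
  simp only [mem_range, mem_iUnion]
  constructor
  · rintro ⟨s, rfl⟩
    obtain ⟨i, hi⟩ := W.mem_cE h s
    refine ⟨i, ?_⟩
    rw [← W.surj]
    exact ⟨s, ⟨hi.1, hi.2.le⟩, rfl⟩
  · rintro ⟨i, hi⟩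
    rw [← W.surj] at hi
    obtain ⟨s, -, hs⟩ := hi
    exact ⟨s, hs⟩

theorem tr_of_mem {e : Edge} {z : ℂ} (hz : z ∈ oE e) (hz' : z ∈ range P) : W.tr e := by
  obtain ⟨s, rfl⟩ := hz'
  obtain ⟨i, hi⟩ := W.mem_cE h s
  have hne : W.t i ≠ s := by
    rintro rfl
    rw [W.Pt] at hz
    exact lp_not_oE _ _ hz
  exact ⟨i, oE_unique (W.Pe i s ⟨lt_of_le_of_ne hi.1 hne, hi.2⟩) hz⟩

omit h in
theorem cE_sub (i : ℤ) : cE (W.e i) ⊆ range P := by
  rw [← W.surj]
  exact image_subset_range _ _

omit h in
theorem cE_sub' {e : Edge} (he : W.tr e) : cE e ⊆ range P := by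
  obtain ⟨i, rfl⟩ := he
  exact W.cE_sub i

omit h in
theorem inc_e (i : ℤ) : Inc (W.e i) (W.v i) ∧ Inc (W.e i) (W.v (i + 1)) := by
  rcases W.ends i with ⟨h1, h2, -⟩ | ⟨h1, h2, -⟩
  · exact ⟨Or.inl h1, Or.inr h2⟩
  · exact ⟨Or.inr h1, Or.inl h2⟩

omit h in
theorem inc_e_iff (i : ℤ) {w : P2} (hw : Inc (W.e i) w) : w = W.v i ∨ w = W.v (i + 1) := by
  rcases W.ends i with ⟨h1, h2, -⟩ | ⟨h1, h2, -⟩ <;> rcases hw with rfl | rfl
  · exact Or.inl h1.symm
  · exact Or.inr h2.symm
  · exact Or.inr h2.symm
  · exact Or.inl h1.symm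

/-- lattice points of the trace -/
theorem lp_mem {w : P2} : lp w ∈ range P ↔ ∃ i, W.v i = w := by
  constructor
  · rintro ⟨s, hs⟩
    obtain ⟨i, hi⟩ := W.all s ⟨w, hs⟩
    refine ⟨i, lp_inj ?_⟩
    rw [← W.Pt, ← hi, hs]
  · rintro ⟨i, rfl⟩
    exact ⟨W.t i, W.Pt i⟩

theorem tr_at {e : Edge} {i : ℤ} (hi : Inc e (W.v i)) (he : W.tr e) :
    e = W.e (i - 1) ∨ e = W.e i := by
  obtain ⟨j, rfl⟩ := he
  rcases W.inc_e_iff j hi with h1 | h1
  · obtain ⟨k, hk⟩ := W.vinj h h1
    right
    have h2 := W.eper h j k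
    rw [hk]
    exact h2.symm
  · obtain ⟨k, hk⟩ := W.vinj h h1
    left
    rw [hk]
    have : j + 1 + k * W.L - 1 = j + k * W.L := by ring
    rw [this, W.eper h]

theorem e_ne (i : ℤ) : W.e (i - 1) ≠ W.e i := by
  intro hh
  obtain ⟨k, hk⟩ := W.einj h hh
  have h1 := W.hL
  have h2 : (2 : ℤ) ≤ W.L := by exact_mod_cast h1
  have h3 : k * W.L = -1 := by omega
  have h4 : (W.L : ℤ) ∣ 1 := ⟨-k, by linarith [mul_comm k (W.L : ℤ)]⟩
  have h5 := Int.le_of_dvd one_pos h4
  omega

/-- the four edges at a vertex -/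
theorem deg (w : P2) :
    (∀ e, Inc e w → ¬ W.tr e) ∨ ∃ e1 e2, e1 ≠ e2 ∧ Inc e1 w ∧ Inc e2 w ∧ W.tr e1 ∧ W.tr e2 ∧
      ∀ e, Inc e w → W.tr e → e = e1 ∨ e = e2 := by
  by_cases hw : ∃ i, W.v i = w
  · obtain ⟨i, rfl⟩ := hw
    right
    refine ⟨W.e (i - 1), W.e i, W.e_ne h i, ?_, (W.inc_e i).1, ⟨_, rfl⟩, ⟨_, rfl⟩,
      fun e he he' => W.tr_at h he he'⟩
    have := (W.inc_e (i - 1)).2
    rwa [sub_add_cancel] at this
  · left
    rintro e he ⟨j, rfl⟩
    rcases W.inc_e_iff j he with h1 | h1
    · exact hw ⟨j, h1.symm⟩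
    · exact hw ⟨j + 1, h1.symm⟩

open Classical in
/-- indicator of the trace edges, modulo 2 -/
noncomputable def tz (W : GWalk P) (e : Edge) : ZMod 2 := if W.tr e then 1 else 0

/-- the four edges at `(a, b)`: none or exactly two are trace edges -/
theorem deg_cases (a b : ℤ) :
    (¬ W.tr ((a, b), false) ∧ ¬ W.tr ((a - 1, b), false) ∧ ¬ W.tr ((a, b), true) ∧
      ¬ W.tr ((a, b - 1), true)) ∨
    (W.tr ((a, b), false) ∧ W.tr ((a - 1, b), false) ∧ ¬ W.tr ((a, b), true) ∧
      ¬ W.tr ((a, b - 1), true)) ∨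
    (W.tr ((a, b), false) ∧ ¬ W.tr ((a - 1, b), false) ∧ W.tr ((a, b), true) ∧
      ¬ W.tr ((a, b - 1), true)) ∨
    (W.tr ((a, b), false) ∧ ¬ W.tr ((a - 1, b), false) ∧ ¬ W.tr ((a, b), true) ∧
      W.tr ((a, b - 1), true)) ∨
    (¬ W.tr ((a, b), false) ∧ W.tr ((a - 1, b), false) ∧ W.tr ((a, b), true) ∧
      ¬ W.tr ((a, b - 1), true)) ∨
    (¬ W.tr ((a, b), false) ∧ W.tr ((a - 1, b), false) ∧ ¬ W.tr ((a, b), true) ∧
      W.tr ((a, b - 1), true)) ∨
    (¬ W.tr ((a, b), false) ∧ ¬ W.tr ((a - 1, b), false) ∧ W.tr ((a, b), true) ∧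
      W.tr ((a, b - 1), true)) := by
  have i1 : Inc ((a, b), false) (a, b) := (inc_iff _ _).2 (Or.inl rfl)
  have i2 : Inc ((a - 1, b), false) (a, b) := (inc_iff _ _).2 (Or.inr (Or.inl rfl))
  have i3 : Inc ((a, b), true) (a, b) := (inc_iff _ _).2 (Or.inr (Or.inr (Or.inl rfl)))
  have i4 : Inc ((a, b - 1), true) (a, b) := (inc_iff _ _).2 (Or.inr (Or.inr (Or.inr rfl)))
  rcases W.deg h (a, b) with h0 | ⟨e1, e2, hne, h1, h2, ht1, ht2, hall⟩
  · exact Or.inl ⟨h0 _ i1, h0 _ i2, h0 _ i3, h0 _ i4⟩
  · have key : ∀ e, Inc e (a, b) → (W.tr e ↔ e = e1 ∨ e = e2) := fun e he =>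
      ⟨hall e he, by rintro (rfl | rfl) <;> assumption⟩
    rw [key _ i1, key _ i2, key _ i3, key _ i4]
    rw [inc_iff] at h1 h2
    have na : ¬ (a = a - 1) := by omega
    have nb : ¬ (b = b - 1) := by omega
    have na' : ¬ (a - 1 = a) := by omega
    have nb' : ¬ (b - 1 = b) := by omega
    clear hall key ht1 ht2 i1 i2 i3 i4
    rcases h1 with rfl | rfl | rfl | rfl <;> rcases h2 with rfl | rfl | rfl | rfl <;>
      simp [na, nb, na', nb'] at hne ⊢

theorem tz_sum (a b : ℤ) : W.tz ((a, b), false) + W.tz ((a - 1, b), false) + W.tz ((a, b), true) +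
    W.tz ((a, b - 1), true) = 0 := by
  have h11 : (1 : ZMod 2) + 1 = 0 := by decide
  rcases W.deg_cases h a b with h1 | h1 | h1 | h1 | h1 | h1 | h1 <;>
    obtain ⟨h1, h2, h3, h4⟩ := h1 <;> simp [tz, h1, h2, h3, h4, h11]

open Classical in
/-- the finite set of trace edges -/
noncomputable def TF (W : GWalk P) : Finset Edge :=
  (Finset.range W.L).image fun i : ℕ => W.e (i : ℤ)

theorem mem_TF {e : Edge} : e ∈ W.TF ↔ W.tr e := by
  classical
  simp only [TF, Finset.mem_image, Finset.mem_range]
  constructor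
  · rintro ⟨i, -, rfl⟩
    exact ⟨i, rfl⟩
  · rintro ⟨i, rfl⟩
    have hL : (0 : ℤ) < W.L := by have := W.hL; omega
    refine ⟨(i % W.L).toNat, ?_, ?_⟩
    · have h1 := Int.emod_nonneg i hL.ne'
      have h2 := Int.emod_lt_of_pos i hL
      omega
    · have h1 := Int.emod_nonneg i hL.ne'
      rw [Int.toNat_of_nonneg h1]
      have h2 := Int.mul_ediv_add_emod i W.L
      have h3 := W.eper h (i % W.L) (i / W.L)
      rw [← h3]
      congr 1
      linarith [mul_comm (i / (W.L : ℤ)) (W.L : ℤ)]

open Classical in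
/-- parity of a cell: number of vertical trace edges to its right -/
noncomputable def par (W : GWalk P) (c : P2) : ZMod 2 :=
  ((W.TF.filter fun e => e.2 = true ∧ e.1.2 = c.2 ∧ c.1 < e.1.1).card : ZMod 2)

theorem par_right (i j : ℤ) : W.par (i - 1, j) = W.par (i, j) + W.tz ((i, j), true) := by
  classical
  have hsplit : (W.TF.filter fun e => e.2 = true ∧ e.1.2 = j ∧ i - 1 < e.1.1) =
      (W.TF.filter fun e => e.2 = true ∧ e.1.2 = j ∧ i < e.1.1) ∪
        (W.TF.filter fun e => e = ((i, j), true)) := by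
    ext ⟨⟨a, b⟩, c⟩
    simp only [Finset.mem_filter, Finset.mem_union, Prod.mk.injEq]
    constructor
    · rintro ⟨h1, h2, h3, h4⟩
      by_cases h5 : i < a
      · exact Or.inl ⟨h1, h2, h3, h5⟩
      · exact Or.inr ⟨h1, ⟨by omega, h3⟩, h2⟩
    · rintro (⟨h1, h2, h3, h4⟩ | ⟨h1, ⟨h2, h3⟩, h4⟩)
      · exact ⟨h1, h2, h3, by omega⟩
      · exact ⟨h1, h4, h3, by omega⟩
  have hdisj : Disjoint (W.TF.filter fun e => e.2 = true ∧ e.1.2 = j ∧ i < e.1.1)
      (W.TF.filter fun e => e = ((i, j), true)) := by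
    rw [Finset.disjoint_left]
    intro e h1 h2
    rw [Finset.mem_filter] at h1 h2
    rw [h2.2] at h1
    exact lt_irrefl _ h1.2.2.2
  have hone : ((W.TF.filter fun e => e = ((i, j), true)).card : ZMod 2) = W.tz ((i, j), true) := by
    rw [tz]
    split_ifs with ht
    · have : (W.TF.filter fun e => e = ((i, j), true)) = {((i, j), true)} := by
        ext e
        simp only [Finset.mem_filter, Finset.mem_singleton, and_iff_right_iff_imp]
        rintro rfl
        exact (W.mem_TF h).2 ht
      rw [this]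
      simp
    · have : (W.TF.filter fun e => e = ((i, j), true)) = ∅ := by
        ext e
        simp only [Finset.mem_filter, Finset.notMem_empty, iff_false, not_and]
        rintro h1 rfl
        exact ht ((W.mem_TF h).1 h1)
      rw [this]
      simp
  unfold par
  simp only
  rw [hsplit, Finset.card_union_of_disjoint hdisj, Nat.cast_add, hone]

/-- a box containing the trace -/
theorem exists_box : ∃ B : ℤ, 0 < B ∧ ∀ e, W.tr e → |e.1.1| < B ∧ |e.1.2| < B := by
  obtain ⟨B, hB⟩ := (W.TF.image fun e => max |e.1.1| |e.1.2|).exists_le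
  refine ⟨max B 0 + 1, by positivity, fun e he => ?_⟩
  have h1 := hB _ (Finset.mem_image_of_mem _ ((W.mem_TF h).2 he))
  have h2 := le_max_left |e.1.1| |e.1.2|
  have h3 := le_max_right |e.1.1| |e.1.2|
  have h4 := le_max_left B 0
  exact ⟨by linarith, by linarith⟩

theorem par_zero_right {B : ℤ} (hB : ∀ e, W.tr e → |e.1.1| < B ∧ |e.1.2| < B) {c : P2}
    (hc : B ≤ c.1) : W.par c = 0 := by
  classical
  unfold par
  have : (W.TF.filter fun e => e.2 = true ∧ e.1.2 = c.2 ∧ c.1 < e.1.1) = ∅ := by
    ext e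
    simp only [Finset.mem_filter, Finset.notMem_empty, iff_false, not_and]
    intro h1 _ _ h2
    have := (hB e ((W.mem_TF h).1 h1)).1
    rw [abs_lt] at this
    omega
  rw [this]
  simp

theorem par_zero_row {B : ℤ} (hB : ∀ e, W.tr e → |e.1.1| < B ∧ |e.1.2| < B) {c : P2}
    (hc : B ≤ |c.2|) : W.par c = 0 := by
  classical
  unfold par
  have : (W.TF.filter fun e => e.2 = true ∧ e.1.2 = c.2 ∧ c.1 < e.1.1) = ∅ := by
    ext e
    simp only [Finset.mem_filter, Finset.notMem_empty, iff_false, not_and]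
    intro h1 _ h2 _
    have := (hB e ((W.mem_TF h).1 h1)).2
    rw [h2] at this
    omega
  rw [this]
  simp

theorem tz_zero {B : ℤ} (hB : ∀ e, W.tr e → |e.1.1| < B ∧ |e.1.2| < B) {e : Edge}
    (he : B ≤ |e.1.1| ∨ B ≤ |e.1.2|) : W.tz e = 0 := by
  rw [tz, if_neg]
  intro ht
  have := hB e ht
  omega

theorem par_up (i j : ℤ) : W.par (i, j) = W.par (i, j - 1) + W.tz ((i, j), false) := by
  obtain ⟨B, hB0, hB⟩ := W.exists_box h
  -- downward induction on `i`
  have key : ∀ n : ℕ, ∀ i : ℤ, B ≤ i + n →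
      W.par (i, j) = W.par (i, j - 1) + W.tz ((i, j), false) := by
    intro n
    induction n with
    | zero =>
      intro i hi
      have hi' : B ≤ i := by simpa using hi
      rw [W.par_zero_right h hB hi', W.par_zero_right h hB hi',
        W.tz_zero h hB (Or.inl (le_trans hi' (le_abs_self i)))]
      simp
    | succ n ih =>
      intro i hi
      have h1 := ih (i + 1) (by push_cast at hi; omega)
      have h2 := W.par_right h (i + 1) j
      have h3 := W.par_right h (i + 1) (j - 1)
      have h4 := W.tz_sum h (i + 1) j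
      rw [add_sub_cancel_right] at h2 h3 h4
      rw [h2, h3, h1]
      have h5 : W.tz ((i, j), false) = W.tz ((i + 1, j), false) + W.tz ((i + 1, j), true) +
          W.tz ((i + 1, j - 1), true) := by
        have h6 : ∀ x y z w : ZMod 2, x + y + z + w = 0 → y = x + z + w := by decide
        exact h6 _ _ _ _ h4
      rw [h5]
      generalize W.par (i + 1, j - 1) = p
      generalize W.tz ((i + 1, j), false) = q
      generalize W.tz ((i + 1, j), true) = r
      generalize W.tz ((i + 1, j - 1), true) = s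
      revert p q r s
      decide
  refine key (B - i).toNat i ?_
  have := Int.self_le_toNat (B - i)
  omega

theorem par_edge (e : Edge) : W.par (fA e) = W.par (fB e) + W.tz e := by
  obtain ⟨⟨a, b⟩, c⟩ := e
  cases c
  · exact W.par_up h a b
  · have h1 := W.par_right h a b
    simp only [fA_mk, fB_v]
    rw [h1]
    generalize W.par (a, b) = p
    generalize W.tz ((a, b), true) = q
    revert p q
    decide

theorem par_zero {B : ℤ} (hB : ∀ e, W.tr e → |e.1.1| < B ∧ |e.1.2| < B) {c : P2}
    (hc : B ≤ |c.1| ∨ B ≤ |c.2|) : W.par c = 0 := by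
  rcases hc with hc | hc
  · rcases le_total 0 c.1 with h1 | h1
    · rw [abs_of_nonneg h1] at hc
      exact W.par_zero_right h hB hc
    · rw [abs_of_nonpos h1] at hc
      obtain ⟨i, j⟩ := c
      simp only at hc h1
      -- move up to the row `B`
      have key : ∀ n : ℕ, ∀ j : ℤ, B ≤ j + n → W.par (i, j) = 0 := by
        intro n
        induction n with
        | zero =>
          intro j hj
          have hj' : B ≤ j := by simpa using hj
          exact W.par_zero_row h hB (le_trans hj' (le_abs_self j))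
        | succ n ih =>
          intro j hj
          have h2 := ih (j + 1) (by push_cast at hj; omega)
          have h3 := W.par_up h i (j + 1)
          rw [add_sub_cancel_right, h2, W.tz_zero h hB (Or.inl (le_trans hc (neg_le_abs i))),
            add_zero] at h3
          exact h3.symm
      refine key (B - j).toNat j ?_
      have := Int.self_le_toNat (B - j)
      omega
  · exact W.par_zero_row h hB hc

omit h in
/-- one step between neighbouring cells through an edge off the trace -/
def Step (W : GWalk P) (c c' : P2) : Prop :=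
  ∃ e, ¬ W.tr e ∧ ((c = fA e ∧ c' = fB e) ∨ (c = fB e ∧ c' = fA e))

omit h in
/-- connection of cells through edges off the trace -/
def Reach (W : GWalk P) (c c' : P2) : Prop := Relation.ReflTransGen W.Step c c'

omit h in
theorem Step.symm {c c' : P2} (hs : W.Step c c') : W.Step c' c := by
  obtain ⟨e, he, h1 | h1⟩ := hs
  · exact ⟨e, he, Or.inr ⟨h1.2, h1.1⟩⟩
  · exact ⟨e, he, Or.inl ⟨h1.2, h1.1⟩⟩

omit h in
theorem Reach.symm {c c' : P2} (hs : W.Reach c c') : W.Reach c' c := by
  induction hs with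
  | refl => exact Relation.ReflTransGen.refl
  | tail _ h2 ih => exact Relation.ReflTransGen.head (Step.symm W h2) ih

omit h in
theorem Reach.trans {c c' c'' : P2} (hs : W.Reach c c') (hs' : W.Reach c' c'') : W.Reach c c'' :=
  Relation.ReflTransGen.trans hs hs'

omit h in
theorem Reach.refl (c : P2) : W.Reach c c := Relation.ReflTransGen.refl

omit h in
theorem reach_edge {e : Edge} (he : ¬ W.tr e) : W.Reach (fA e) (fB e) :=
  Relation.ReflTransGen.single ⟨e, he, Or.inl ⟨rfl, rfl⟩⟩

theorem par_step {c c' : P2} (hs : W.Step c c') : W.par c = W.par c' := by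
  obtain ⟨e, he, h1⟩ := hs
  have h2 := W.par_edge h e
  rw [tz, if_neg he, add_zero] at h2
  rcases h1 with ⟨rfl, rfl⟩ | ⟨rfl, rfl⟩
  · exact h2
  · exact h2.symm

theorem par_reach {c c' : P2} (hs : W.Reach c c') : W.par c = W.par c' := by
  induction hs with
  | refl => rfl
  | tail _ h2 ih => rw [ih, W.par_step h h2]

theorem par_ne {e : Edge} (he : W.tr e) : W.par (fA e) ≠ W.par (fB e) := by
  have h2 := W.par_edge h e
  rw [tz, if_pos he] at h2
  rw [h2]
  generalize W.par (fB e) = p
  revert p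
  decide

/-- cells of equal parity at a common vertex are connected -/
theorem reach_corner {w q q' : P2} (hq : IsCorner w q) (hq' : IsCorner w q')
    (hp : W.par q = W.par q') : W.Reach q q' := by
  obtain ⟨a, b⟩ := w
  -- the four edges and cells
  have eN : ¬ W.tr ((a, b), true) → W.Reach (a, b) (a - 1, b) := fun hh => W.reach_edge hh
  have eE : ¬ W.tr ((a, b), false) → W.Reach (a, b) (a, b - 1) := fun hh => W.reach_edge hh
  have eW : ¬ W.tr ((a - 1, b), false) → W.Reach (a - 1, b) (a - 1, b - 1) :=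
    fun hh => W.reach_edge hh
  have eS : ¬ W.tr ((a, b - 1), true) → W.Reach (a, b - 1) (a - 1, b - 1) :=
    fun hh => W.reach_edge hh
  have nN : W.tr ((a, b), true) → W.par (a, b) ≠ W.par (a - 1, b) := fun hh => W.par_ne h hh
  have nE : W.tr ((a, b), false) → W.par (a, b) ≠ W.par (a, b - 1) := fun hh => W.par_ne h hh
  have nW : W.tr ((a - 1, b), false) → W.par (a - 1, b) ≠ W.par (a - 1, b - 1) :=
    fun hh => W.par_ne h hh
  have nS : W.tr ((a, b - 1), true) → W.par (a, b - 1) ≠ W.par (a - 1, b - 1) :=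
    fun hh => W.par_ne h hh
  have hdeg := W.deg_cases h a b
  have opp1 : W.par (a, b) = W.par (a - 1, b - 1) → W.Reach (a, b) (a - 1, b - 1) := by
    intro hp
    by_cases hN : W.tr ((a, b), true)
    · by_cases hE : W.tr ((a, b), false)
      · have h1 : ¬ W.tr ((a - 1, b), false) := by
          rcases hdeg with h0 | h0 | h0 | h0 | h0 | h0 | h0
          · exact h0.2.1
          · exact (h0.2.2.1 hN).elim
          · exact h0.2.1
          · exact h0.2.1
          · exact (h0.1 hE).elim
          · exact (h0.1 hE).elim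
          · exact h0.2.1
        have h2 := W.par_reach h (eW h1)
        exact (nN hN (hp.trans h2.symm)).elim
      · by_cases hS : W.tr ((a, b - 1), true)
        · have h2 := W.par_reach h (eE hE)
          exact (nS hS (h2.symm.trans hp)).elim
        · exact (eE hE).trans _ (eS hS)
    · by_cases hW : W.tr ((a - 1, b), false)
      · have h2 := W.par_reach h (eN hN)
        exact (nW hW (h2.symm.trans hp)).elim
      · exact (eN hN).trans _ (eW hW)
  have opp2 : W.par (a - 1, b) = W.par (a, b - 1) → W.Reach (a - 1, b) (a, b - 1) := by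
    intro hp
    by_cases hN : W.tr ((a, b), true)
    · by_cases hW : W.tr ((a - 1, b), false)
      · have h1 : ¬ W.tr ((a, b), false) := by
          rcases hdeg with h0 | h0 | h0 | h0 | h0 | h0 | h0
          · exact h0.1
          · exact (h0.2.2.1 hN).elim
          · exact (h0.2.1 hW).elim
          · exact (h0.2.1 hW).elim
          · exact h0.1
          · exact h0.1
          · exact h0.1
        have h2 := W.par_reach h (eE h1)
        exact (nN hN (h2.trans hp.symm)).elim
      · by_cases hS : W.tr ((a, b - 1), true)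
        · have h2 := W.par_reach h (eW hW)
          exact (nS hS (hp.symm.trans h2)).elim
        · exact (eW hW).trans _ (Reach.symm W (eS hS))
    · by_cases hE : W.tr ((a, b), false)
      · have h2 := W.par_reach h (eN hN)
        exact (nE hE (h2.trans hp)).elim
      · exact (Reach.symm W (eN hN)).trans _ (eE hE)
  have aN : W.par (a, b) = W.par (a - 1, b) → W.Reach (a, b) (a - 1, b) := fun hp =>
    eN fun ht => nN ht hp
  have aE : W.par (a, b) = W.par (a, b - 1) → W.Reach (a, b) (a, b - 1) := fun hp =>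
    eE fun ht => nE ht hp
  have aW : W.par (a - 1, b) = W.par (a - 1, b - 1) → W.Reach (a - 1, b) (a - 1, b - 1) :=
    fun hp => eW fun ht => nW ht hp
  have aS : W.par (a, b - 1) = W.par (a - 1, b - 1) → W.Reach (a, b - 1) (a - 1, b - 1) :=
    fun hp => eS fun ht => nS ht hp
  rw [isCorner_iff] at hq hq'
  simp only at hq hq'
  rcases hq with rfl | rfl | rfl | rfl <;> rcases hq' with rfl | rfl | rfl | rfl
  · exact Reach.refl W _
  · exact aN hp
  · exact aE hp
  · exact opp1 hp
  · exact Reach.symm W (aN hp.symm)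
  · exact Reach.refl W _
  · exact opp2 hp
  · exact aW hp
  · exact Reach.symm W (aE hp.symm)
  · exact Reach.symm W (opp2 hp.symm)
  · exact Reach.refl W _
  · exact aS hp
  · exact Reach.symm W (opp1 hp.symm)
  · exact Reach.symm W (aW hp.symm)
  · exact Reach.symm W (aS hp.symm)
  · exact Reach.refl W _

open Classical in
/-- the cell of parity `p` at a trace edge -/
noncomputable def side (W : GWalk P) (e : Edge) (p : ZMod 2) : P2 :=
  if W.par (fA e) = p then fA e else fB e

omit h in
theorem zmod2_cases {x y p : ZMod 2} (hne : x ≠ y) (hx : x ≠ p) : y = p := by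
  revert x y p; decide

theorem par_side {e : Edge} (he : W.tr e) (p : ZMod 2) : W.par (W.side e p) = p := by
  unfold side
  split_ifs with h1
  · exact h1
  · exact zmod2_cases (W.par_ne h he) h1

omit h in
theorem side_corner {e : Edge} {w : P2} (hw : Inc e w) (p : ZMod 2) :
    IsCorner w (W.side e p) := by
  unfold side
  split_ifs
  · exact (corner_of_inc hw).1
  · exact (corner_of_inc hw).2

theorem side_succ (i : ℤ) (p : ZMod 2) :
    W.Reach (W.side (W.e i) p) (W.side (W.e (i + 1)) p) := by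
  refine W.reach_corner h (w := W.v (i + 1)) (W.side_corner (W.inc_e i).2 p)
    (W.side_corner (W.inc_e (i + 1)).1 p) ?_
  rw [W.par_side h ⟨i, rfl⟩, W.par_side h ⟨i + 1, rfl⟩]

theorem side_all (i j : ℤ) (p : ZMod 2) :
    W.Reach (W.side (W.e i) p) (W.side (W.e j) p) := by
  have key : ∀ (n : ℕ) (i : ℤ), W.Reach (W.side (W.e i) p) (W.side (W.e (i + n)) p) := by
    intro n
    induction n with
    | zero => intro i; simpa using Reach.refl W _
    | succ n ih =>
      intro i
      refine (ih i).trans _ ?_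
      have := W.side_succ h (i + n) p
      push_cast
      rwa [← add_assoc]
  rcases le_total i j with h1 | h1
  · have := key (j - i).toNat i
    rwa [Int.toNat_of_nonneg (by omega), add_sub_cancel] at this
  · have := key (i - j).toNat j
    rw [Int.toNat_of_nonneg (by omega), add_sub_cancel] at this
    exact Reach.symm W this

/-- far to the right all cells are connected -/
theorem reach_far {B : ℤ} (hB0 : 0 < B) (hB : ∀ e, W.tr e → |e.1.1| < B ∧ |e.1.2| < B) {c c' : P2}
    (hc : B ≤ c.1) (hc' : B ≤ c'.1) : W.Reach c c' := by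
  have nt : ∀ e : Edge, B ≤ e.1.1 → ¬ W.tr e := by
    intro e he ht
    have := (hB e ht).1
    rw [abs_lt] at this
    omega
  have hx : ∀ (n : ℕ) (i j : ℤ), B ≤ i → W.Reach (i, j) (i + n, j) := by
    intro n
    induction n with
    | zero => intro i j _; simpa using Reach.refl W _
    | succ n ih =>
      intro i j hi
      refine (ih i j hi).trans _ ?_
      have h1 : W.Reach (fA ((i + n + 1, j), true)) (fB ((i + n + 1, j), true)) :=
        W.reach_edge (nt _ (by simp only; omega))
      simp only [fA_mk, fB_v, add_sub_cancel_right] at h1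
      push_cast
      rw [← add_assoc]
      exact Reach.symm W h1
  have hy : ∀ (n : ℕ) (i j : ℤ), B ≤ i → W.Reach (i, j) (i, j + n) := by
    intro n
    induction n with
    | zero => intro i j _; simpa using Reach.refl W _
    | succ n ih =>
      intro i j hi
      refine (ih i j hi).trans _ ?_
      have h1 : W.Reach (fA ((i, j + n + 1), false)) (fB ((i, j + n + 1), false)) :=
        W.reach_edge (nt _ (by simpa using hi))
      simp only [fA_mk, fB_h, add_sub_cancel_right] at h1
      push_cast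
      rw [← add_assoc]
      exact Reach.symm W h1
  have hx' : ∀ i i' j : ℤ, B ≤ i → B ≤ i' → W.Reach (i, j) (i', j) := by
    intro i i' j hi hi'
    rcases le_total i i' with h1 | h1
    · have := hx (i' - i).toNat i j hi
      rwa [Int.toNat_of_nonneg (by omega), add_sub_cancel] at this
    · have := hx (i - i').toNat i' j hi'
      rw [Int.toNat_of_nonneg (by omega), add_sub_cancel] at this
      exact Reach.symm W this
  have hy' : ∀ i j j' : ℤ, B ≤ i → W.Reach (i, j) (i, j') := by
    intro i j j' hi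
    rcases le_total j j' with h1 | h1
    · have := hy (j' - j).toNat i j hi
      rwa [Int.toNat_of_nonneg (by omega), add_sub_cancel] at this
    · have := hy (j - j').toNat i j' hi
      rw [Int.toNat_of_nonneg (by omega), add_sub_cancel] at this
      exact Reach.symm W this
  obtain ⟨i, j⟩ := c
  obtain ⟨i', j'⟩ := c'
  exact (hx' i i' j hc hc').trans _ (hy' i' j j' hc')

/-- walk to the right until the first trace edge -/
theorem reach_or {B : ℤ} (hB : ∀ e, W.tr e → |e.1.1| < B ∧ |e.1.2| < B) (c : P2) :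
    (∃ c', W.Reach c c' ∧ B ≤ c'.1) ∨ ∃ i, W.Reach c (W.side (W.e i) (W.par c)) := by
  have key : ∀ (n : ℕ) (c : P2), B ≤ c.1 + n → (∃ c', W.Reach c c' ∧ B ≤ c'.1) ∨
      ∃ i, W.Reach c (W.side (W.e i) (W.par c)) := by
    intro n
    induction n with
    | zero => intro c hc; exact Or.inl ⟨c, Reach.refl W _, by simpa using hc⟩
    | succ n ih =>
      rintro ⟨i, j⟩ hc
      simp only at hc
      by_cases ht : W.tr ((i + 1, j), true)
      · right
        obtain ⟨k, hk⟩ := ht
        refine ⟨k, ?_⟩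
        have h1 : W.side (W.e k) (W.par (i, j)) = (i, j) := by
          have h2 := W.par_ne h (e := W.e k) ⟨k, rfl⟩
          rw [hk] at h2 ⊢
          simp only [fA_mk, fB_v, add_sub_cancel_right] at h2
          unfold side
          simp only [fA_mk, fB_v, add_sub_cancel_right]
          rw [if_neg h2]
        rw [h1]
        exact Reach.refl W _
      · have h1 := W.reach_edge ht
        simp only [fA_mk, fB_v, add_sub_cancel_right] at h1
        have h2 := Reach.symm W h1
        rcases ih (i + 1, j) (by simp only; push_cast at hc; omega) with ⟨c', h3, h4⟩ | ⟨k, h3⟩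
        · exact Or.inl ⟨c', h2.trans _ h3, h4⟩
        · right
          refine ⟨k, ?_⟩
          rw [W.par_reach h h2]
          exact h2.trans _ h3
  refine key (B - c.1).toNat c ?_
  have := Int.self_le_toNat (B - c.1)
  omega

/-- the exterior side of the polygon is connected to the far cells -/
theorem far_side {B : ℤ} (hB : ∀ e, W.tr e → |e.1.1| < B ∧ |e.1.2| < B) :
    ∃ i c', W.Reach (W.side (W.e i) 0) c' ∧ B ≤ c'.1 := by
  classical
  -- a vertical trace edge exists
  have hv : (W.TF.filter fun e => e.2 = true).Nonempty := by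
    have h1 := W.par_side h (e := W.e 0) ⟨0, rfl⟩ 1
    by_contra hne
    rw [Finset.not_nonempty_iff_eq_empty] at hne
    have h2 : W.par (W.side (W.e 0) 1) = 0 := by
      unfold par
      have : (W.TF.filter fun e => e.2 = true ∧ e.1.2 = (W.side (W.e 0) 1).2 ∧
          (W.side (W.e 0) 1).1 < e.1.1) = ∅ := by
        rw [← Finset.subset_empty, ← hne]
        intro e he
        rw [Finset.mem_filter] at he ⊢
        exact ⟨he.1, he.2.1⟩
      rw [this]; simp
    rw [h1] at h2
    exact absurd h2 (by decide)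
  obtain ⟨⟨⟨x, y⟩, d⟩, he, hmax⟩ :=
    Finset.exists_max_image (W.TF.filter fun e => e.2 = true) (fun e => e.1.1) hv
  rw [Finset.mem_filter] at he
  obtain ⟨he1, he2⟩ := he
  simp only at he2
  subst he2
  have ht := (W.mem_TF h).1 he1
  have nt : ∀ k : ℤ, x < k → ¬ W.tr ((k, y), true) := by
    intro k hk htk
    have := hmax ((k, y), true) (Finset.mem_filter.2 ⟨(W.mem_TF h).2 htk, rfl⟩)
    simp only at this
    omega
  have hrun : ∀ n : ℕ, W.Reach (x, y) (x + n, y) := by
    intro n
    induction n with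
    | zero => simpa using Reach.refl W _
    | succ n ih =>
      refine ih.trans _ ?_
      have h1 := W.reach_edge (nt (x + n + 1) (by omega))
      simp only [fA_mk, fB_v, add_sub_cancel_right] at h1
      push_cast
      rw [← add_assoc]
      exact Reach.symm W h1
  have hfar : B ≤ x + ((B - x).toNat : ℤ) := by
    have := Int.self_le_toNat (B - x)
    omega
  have h0 : W.par (x, y) = 0 := by
    rw [W.par_reach h (hrun (B - x).toNat)]
    exact W.par_zero_right h hB hfar
  obtain ⟨i, hi⟩ := ht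
  refine ⟨i, (x + ((B - x).toNat : ℤ), y), ?_, hfar⟩
  have h1 : W.side (W.e i) 0 = (x, y) := by
    unfold side
    rw [hi]
    simp only [fA_mk, h0, if_true]
  rw [h1]
  exact hrun _

/-- **combinatorial Jordan curve theorem**: two cells are connected through edges off the trace
iff they have the same parity. -/
theorem reach_iff (c c' : P2) : W.Reach c c' ↔ W.par c = W.par c' := by
  refine ⟨fun hr => W.par_reach h hr, fun hp => ?_⟩
  obtain ⟨B, hB0, hB⟩ := W.exists_box h
  obtain ⟨i0, c0, hc0, hc0'⟩ := W.far_side h hB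
  -- every cell is connected to the side of `e 0` of its parity
  have key : ∀ c, W.Reach c (W.side (W.e 0) (W.par c)) := by
    intro c
    rcases W.reach_or h hB c with ⟨c1, h1, h2⟩ | ⟨i, hi⟩
    · have h3 : W.par c = 0 := by rw [W.par_reach h h1]; exact W.par_zero_right h hB h2
      rw [h3]
      exact (h1.trans _ (W.reach_far h hB0 hB h2 hc0')).trans _
        ((Reach.symm W hc0).trans _ (W.side_all h i0 0 0))
    · exact hi.trans _ (W.side_all h i 0 _)
  have h1 := key c
  rw [hp] at h1
  exact h1.trans _ (Reach.symm W (key c'))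

end GWalk

end Crest.Agent.R158.Gp949
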