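import Crest.Agent.R158.Gp3_949

/-!
# Row 158 (S0237), block GP (helper949): grid polygons, file 4

The plane side: the complement of the polygon has exactly the two components `{pz = 0}`, `{pz = 1}`,
the second one is bounded and the first one is not.
-/

set_option autoImplicit false
set_option linter.unusedSectionVars false
set_option linter.unusedVariables false

namespace Crest.Agent.R158.Gp949

open Set Filter Topology Crest.Agent.R161.Geo729

/-- the half open cell of a point -/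
noncomputable def cell (z : ℂ) : P2 := (⌊z.re⌋, ⌊z.im⌋)

/-- open cell -/
def oC (c : P2) : Set ℂ := {z | ((c.1 : ℝ) < z.re ∧ z.re < c.1 + 1) ∧ (c.2 : ℝ) < z.im ∧ z.im < c.2 + 1}
/-- closed cell -/
def cC (c : P2) : Set ℂ := {z | ((c.1 : ℝ) ≤ z.re ∧ z.re ≤ c.1 + 1) ∧ (c.2 : ℝ) ≤ z.im ∧ z.im ≤ c.2 + 1}

/-- centre of a cell -/
noncomputable def ctr (c : P2) : ℂ := ⟨c.1 + 1 / 2, c.2 + 1 / 2⟩

@[simp] theorem ctr_re (c : P2) : (ctr c).re = c.1 + 1 / 2 := rfl
@[simp] theorem ctr_im (c : P2) : (ctr c).im = c.2 + 1 / 2 := rfl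

theorem mem_cC_cell (z : ℂ) : z ∈ cC (cell z) :=
  ⟨⟨Int.floor_le _, (Int.lt_floor_add_one _).le⟩, Int.floor_le _, (Int.lt_floor_add_one _).le⟩

theorem oC_sub_cC (c : P2) : oC c ⊆ cC c := fun _ h => ⟨⟨h.1.1.le, h.1.2.le⟩, h.2.1.le, h.2.2.le⟩

theorem oC_GrL {c : P2} {z : ℂ} (h : z ∈ oC c) : z ∉ GrL := by
  rintro (⟨k, hk⟩ | ⟨k, hk⟩)
  · exact no_int hk (a := c.1) (by linarith [h.1.1]) (by linarith [h.1.2])
  · exact no_int hk (a := c.2) (by linarith [h.2.1]) (by linarith [h.2.2])

theorem cell_oC {c : P2} {z : ℂ} (h : z ∈ oC c) : cell z = c := by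
  refine Prod.ext ?_ ?_
  · exact floor_of (by linarith [h.1.1]) (by linarith [h.1.2])
  · exact floor_of (by linarith [h.2.1]) (by linarith [h.2.2])

theorem cell_lp (w : P2) : cell (lp w) = w := by
  refine Prod.ext ?_ ?_ <;> simp [cell]

theorem cell_oE {e : Edge} {z : ℂ} (h : z ∈ oE e) : cell z = fA e := by
  obtain ⟨⟨a, b⟩, c⟩ := e
  obtain ⟨h1, h2, h3⟩ := h
  cases c
  · rw [mem_line_h] at h1
    rw [co_h] at h2 h3
    refine Prod.ext (floor_of h2 h3) ?_
    simp [cell, h1]
  · rw [mem_line_v] at h1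
    rw [co_v] at h2 h3
    refine Prod.ext ?_ (floor_of h2 h3)
    simp [cell, h1]

/-- the closed cells containing a lattice point -/
theorem corner_of_cC {w c : P2} (h : lp w ∈ cC c) : IsCorner w c := by
  obtain ⟨⟨h1, h2⟩, h3, h4⟩ := h
  simp only [lp_re, lp_im] at h1 h2 h3 h4
  have h1' : c.1 ≤ w.1 := by exact_mod_cast h1
  have h2' : w.1 ≤ c.1 + 1 := by exact_mod_cast h2
  have h3' : c.2 ≤ w.2 := by exact_mod_cast h3
  have h4' : w.2 ≤ c.2 + 1 := by exact_mod_cast h4
  obtain ⟨a, b⟩ := w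
  obtain ⟨p, q⟩ := c
  rw [isCorner_iff]
  simp only [Prod.mk.injEq] at *
  omega

/-- the closed cells containing a point of an open edge -/
theorem cC_oE {e : Edge} {c : P2} {z : ℂ} (h : z ∈ oE e) (hc : z ∈ cC c) : c = fA e ∨ c = fB e := by
  obtain ⟨⟨a, b⟩, d⟩ := e
  obtain ⟨p, q⟩ := c
  obtain ⟨h1, h2, h3⟩ := h
  obtain ⟨⟨h4, h5⟩, h6, h7⟩ := hc
  cases d <;> simp only [mem_line_h, mem_line_v, co_h, co_v, fA_mk, fB_h, fB_v, Prod.mk.injEq]
    at *
  · have e1 : p < a + 1 := by
      have : (p : ℝ) < a + 1 := by linarith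
      exact_mod_cast this
    have e2 : a < p + 1 := by
      have : (a : ℝ) < p + 1 := by linarith
      exact_mod_cast this
    have e3 : q ≤ b := by
      have : (q : ℝ) ≤ b := by linarith
      exact_mod_cast this
    have e4 : b ≤ q + 1 := by
      have : (b : ℝ) ≤ q + 1 := by linarith
      exact_mod_cast this
    omega
  · have e1 : q < b + 1 := by
      have : (q : ℝ) < b + 1 := by linarith
      exact_mod_cast this
    have e2 : b < q + 1 := by
      have : (b : ℝ) < q + 1 := by linarith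
      exact_mod_cast this
    have e3 : p ≤ a := by
      have : (p : ℝ) ≤ a := by linarith
      exact_mod_cast this
    have e4 : a ≤ p + 1 := by
      have : (a : ℝ) ≤ p + 1 := by linarith
      exact_mod_cast this
    omega

theorem not_GrL_cell {z : ℂ} (h : z ∉ GrL) : z ∈ oC (cell z) := by
  have h1 := Int.floor_le z.re
  have h2 := Int.lt_floor_add_one z.re
  have h3 := Int.floor_le z.im
  have h4 := Int.lt_floor_add_one z.im
  refine ⟨⟨lt_of_le_of_ne h1 fun hh => h (Or.inl ⟨_, hh.symm⟩), h2⟩,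
    lt_of_le_of_ne h3 fun hh => h (Or.inr ⟨_, hh.symm⟩), h4⟩

theorem cC_not_GrL {z : ℂ} (h : z ∉ GrL) {c : P2} (hc : z ∈ cC c) : c = cell z := by
  have h1 : z ∈ oC c := by
    obtain ⟨⟨h4, h5⟩, h6, h7⟩ := hc
    refine ⟨⟨lt_of_le_of_ne h4 fun hh => h (Or.inl ⟨c.1, hh.symm⟩),
      lt_of_le_of_ne h5 fun hh => h (Or.inl ⟨c.1 + 1, by rw [hh]; push_cast; rfl⟩)⟩,
      lt_of_le_of_ne h6 fun hh => h (Or.inr ⟨c.2, hh.symm⟩),
      lt_of_le_of_ne h7 fun hh => h (Or.inr ⟨c.2 + 1, by rw [hh]; push_cast; rfl⟩)⟩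
  exact (cell_oC h1).symm

theorem floor_near (a : ℝ) : ∃ ε : ℝ, 0 < ε ∧ ∀ x : ℝ, |x - a| < ε →
    ((⌊x⌋ : ℝ) ≤ a ∧ a ≤ (⌊x⌋ : ℝ) + 1) := by
  have h1 : (⌈a⌉ : ℝ) < a + 1 := Int.ceil_lt_add_one a
  have h2 : a < (⌊a⌋ : ℝ) + 1 := Int.lt_floor_add_one a
  refine ⟨min (a - (⌈a⌉ - 1)) (⌊a⌋ + 1 - a), lt_min (by linarith) (by linarith), fun x hx => ?_⟩
  rw [abs_lt] at hx
  have h3 := min_le_left (a - ((⌈a⌉ : ℝ) - 1)) ((⌊a⌋ : ℝ) + 1 - a)
  have h4 := min_le_right (a - ((⌈a⌉ : ℝ) - 1)) ((⌊a⌋ : ℝ) + 1 - a)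
  have h5 : ((⌈a⌉ - 1 : ℤ) : ℝ) ≤ x := by push_cast; linarith
  have h6 : ⌈a⌉ - 1 ≤ ⌊x⌋ := Int.le_floor.2 h5
  have h7 : x < ((⌊a⌋ + 1 : ℤ) : ℝ) := by push_cast; linarith
  have h8 : ⌊x⌋ < ⌊a⌋ + 1 := Int.floor_lt.2 h7
  have h9 : (⌊x⌋ : ℝ) ≤ ⌊a⌋ := by exact_mod_cast Int.lt_add_one_iff.1 h8
  have h10 : ((⌈a⌉ : ℝ)) ≤ ⌊x⌋ + 1 := by
    have : ⌈a⌉ ≤ ⌊x⌋ + 1 := by omega
    exact_mod_cast this
  exact ⟨h9.trans (Int.floor_le a), (Int.le_ceil a).trans h10⟩

theorem component_eq_of_segment {F : Set ℂ} {z w : ℂ} (hs : segment ℝ z w ⊆ F) :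
    connectedComponentIn F z = connectedComponentIn F w := by
  have h1 : w ∈ connectedComponentIn F z :=
    (convex_segment z w).isPreconnected.subset_connectedComponentIn (left_mem_segment ℝ z w) hs
      (right_mem_segment ℝ z w)
  exact connectedComponentIn_eq h1

namespace GWalk

variable {P : ℝ → ℂ} (h : GC P) (W : GWalk P)
include h

omit h in
/-- parity of a point off the trace -/
noncomputable def pz (W : GWalk P) (z : ℂ) : ZMod 2 := W.par (cell z)

theorem par_corner {w : P2} (hw : lp w ∉ range P) {q q' : P2} (hq : IsCorner w q)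
    (hq' : IsCorner w q') : W.par q = W.par q' := by
  obtain ⟨a, b⟩ := w
  have hnt : ∀ e, Inc e (a, b) → ¬ W.tr e := by
    rintro e he ⟨i, rfl⟩
    rcases W.inc_e_iff i he with h1 | h1
    · exact hw ((W.lp_mem h).2 ⟨i, h1.symm⟩)
    · exact hw ((W.lp_mem h).2 ⟨i + 1, h1.symm⟩)
  have e1 : W.par (a, b) = W.par (a, b - 1) :=
    W.par_reach h (W.reach_edge (hnt ((a, b), false) ((inc_iff _ _).2 (Or.inl rfl))))
  have e2 : W.par (a - 1, b) = W.par (a - 1, b - 1) :=
    W.par_reach h (W.reach_edge (hnt ((a - 1, b), false) ((inc_iff _ _).2 (Or.inr (Or.inl rfl)))))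
  have e3 : W.par (a, b) = W.par (a - 1, b) :=
    W.par_reach h (W.reach_edge (hnt ((a, b), true)
      ((inc_iff _ _).2 (Or.inr (Or.inr (Or.inl rfl))))))
  have f3 := e2
  have f1 : W.par (a, b) = W.par (a - 1, b - 1) := e3.trans e2
  have f2 : W.par (a, b - 1) = W.par (a - 1, b - 1) := e1.symm.trans f1
  clear e1 e2 e3
  rw [isCorner_iff] at hq hq'
  simp only at hq hq'
  rcases hq with rfl | rfl | rfl | rfl <;> rcases hq' with rfl | rfl | rfl | rfl <;>
    simp only [f1, f2, f3]

theorem par_closed {z : ℂ} (hz : z ∉ range P) {c : P2} (hc : z ∈ cC c) : W.par c = W.pz z := by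
  unfold pz
  by_cases hg : z ∈ GrL
  · rcases GrL_cases hg with ⟨w, rfl⟩ | ⟨e, he⟩
    · rw [cell_lp]
      exact W.par_corner h hz (corner_of_cC hc) ((isCorner_iff _ _).2 (Or.inl rfl))
    · have hnt : ¬ W.tr e := fun ht => hz (W.cE_sub' ht (oE_sub_cE e he))
      rw [cell_oE he]
      rcases cC_oE he hc with rfl | rfl
      · rfl
      · exact (W.par_reach h (W.reach_edge hnt)).symm
  · rw [cC_not_GrL hg hc]

theorem isClosed_range : IsClosed (range P) := by
  have h1 : range P = P '' Icc 0 1 := by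
    apply Subset.antisymm
    · rintro _ ⟨t, rfl⟩
      refine ⟨Int.fract t, ⟨Int.fract_nonneg t, (Int.fract_lt_one t).le⟩, ?_⟩
      have := h.per_int (Int.fract t) ⌊t⌋
      rw [← this]
      congr 1
      exact Int.fract_add_floor t
    · exact image_subset_range _ _
  rw [h1]
  exact (isCompact_Icc.image h.cont).isClosed

theorem pz_near {z : ℂ} (hz : z ∉ range P) : ∀ᶠ w in 𝓝 z, w ∉ range P ∧ W.pz w = W.pz z := by
  have h1 : ∀ᶠ w in 𝓝 z, w ∉ range P := (isClosed_range h).isOpen_compl.mem_nhds hz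
  obtain ⟨ε1, hε1, h2⟩ := floor_near z.re
  obtain ⟨ε2, hε2, h3⟩ := floor_near z.im
  have h4 : ∀ᶠ w in 𝓝 z, |w.re - z.re| < ε1 := by
    have := (Complex.continuous_re.tendsto z).eventually (Metric.ball_mem_nhds z.re hε1)
    filter_upwards [this] with w hw
    exact hw
  have h5 : ∀ᶠ w in 𝓝 z, |w.im - z.im| < ε2 := by
    have := (Complex.continuous_im.tendsto z).eventually (Metric.ball_mem_nhds z.im hε2)
    filter_upwards [this] with w hw
    exact hw
  filter_upwards [h1, h4, h5] with w hw1 hw2 hw3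
  refine ⟨hw1, ?_⟩
  have h6 : z ∈ cC (cell w) := ⟨h2 _ hw2, h3 _ hw3⟩
  exact W.par_closed h hz h6

omit h in
/-- the points off the trace of parity `p` -/
def Rg (W : GWalk P) (p : ZMod 2) : Set ℂ := {z | z ∉ range P ∧ W.pz z = p}

theorem isOpen_Rg (p : ZMod 2) : IsOpen (W.Rg p) := by
  rw [isOpen_iff_mem_nhds]
  rintro z ⟨hz, rfl⟩
  exact W.pz_near h hz

/-- a point is in the component of the centre of its cell -/
theorem comp_ctr {z : ℂ} (hz : z ∉ range P) :
    connectedComponentIn (range P)ᶜ z = connectedComponentIn (range P)ᶜ (ctr (cell z)) := by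
  apply component_eq_of_segment
  rw [segment_eq_image]
  rintro _ ⟨s, ⟨hs0, hs1⟩, rfl⟩
  rcases hs0.eq_or_lt with rfl | hs0
  · simpa using hz
  · have h1 := Int.floor_le z.re
    have h2 := Int.lt_floor_add_one z.re
    have h3 := Int.floor_le z.im
    have h4 := Int.lt_floor_add_one z.im
    have hoc : (1 - s) • z + s • ctr (cell z) ∈ oC (cell z) := by
      simp only [oC, mem_ofPred_eq, Complex.add_re, Complex.add_im, Complex.smul_re,
        Complex.smul_im, ctr_re, ctr_im, cell, smul_eq_mul]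
      refine ⟨⟨?_, ?_⟩, ?_, ?_⟩ <;> nlinarith
    rintro ⟨t, ht⟩
    have hg := h.grid t
    rw [ht] at hg
    exact oC_GrL hoc hg

theorem comp_step {c c' : P2} (hs : W.Step c c') :
    connectedComponentIn (range P)ᶜ (ctr c) = connectedComponentIn (range P)ᶜ (ctr c') := by
  have key : ∀ e, ¬ W.tr e → connectedComponentIn (range P)ᶜ (ctr (fA e)) =
      connectedComponentIn (range P)ᶜ (ctr (fB e)) := by
    intro e he
    apply component_eq_of_segment
    rw [segment_eq_image]
    rintro _ ⟨s, ⟨hs0, hs1⟩, rfl⟩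
    rintro ⟨t, ht⟩
    have hg := h.grid t
    have hoe : P t ∈ oE e := by
      rw [ht] at hg ⊢
      obtain ⟨⟨a, b⟩, d⟩ := e
      cases d
      · simp only [fA_mk, fB_h] at hg ⊢
        rcases hg with ⟨k, hk⟩ | ⟨k, hk⟩
        · exfalso
          simp only [Complex.add_re, Complex.smul_re, ctr_re, smul_eq_mul] at hk
          have h2 : (2 : ℝ) * k = 2 * a + 1 := by linarith
          have h3 : (2 : ℤ) * k = 2 * a + 1 := by exact_mod_cast h2
          omega
        · simp only [Complex.add_im, Complex.smul_im, ctr_im, smul_eq_mul] at hk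
          push_cast at hk
          have h2 : (k : ℝ) = b + 1 / 2 - s := by linarith
          have h3 : (k : ℝ) < b + 1 := by linarith
          have h4 : (b : ℝ) - 1 < k := by linarith
          have h5 : k < b + 1 := by exact_mod_cast h3
          have h6 : b - 1 < k := by exact_mod_cast h4
          have h7 : k = b := by omega
          subst h7
          refine ⟨?_, ?_, ?_⟩
          · rw [mem_line_h]
            simp only [Complex.add_im, Complex.smul_im, ctr_im, smul_eq_mul]
            push_cast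
            linarith
          · rw [co_h]
            simp only [Complex.add_re, Complex.smul_re, ctr_re, smul_eq_mul]
            linarith
          · rw [co_h]
            simp only [Complex.add_re, Complex.smul_re, ctr_re, smul_eq_mul]
            linarith
      · simp only [fA_mk, fB_v] at hg ⊢
        rcases hg with ⟨k, hk⟩ | ⟨k, hk⟩
        · simp only [Complex.add_re, Complex.smul_re, ctr_re, smul_eq_mul] at hk
          push_cast at hk
          have h2 : (k : ℝ) = a + 1 / 2 - s := by linarith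
          have h3 : (k : ℝ) < a + 1 := by linarith
          have h4 : (a : ℝ) - 1 < k := by linarith
          have h5 : k < a + 1 := by exact_mod_cast h3
          have h6 : a - 1 < k := by exact_mod_cast h4
          have h7 : k = a := by omega
          subst h7
          refine ⟨?_, ?_, ?_⟩
          · rw [mem_line_v]
            simp only [Complex.add_re, Complex.smul_re, ctr_re, smul_eq_mul]
            push_cast
            linarith
          · rw [co_v]
            simp only [Complex.add_im, Complex.smul_im, ctr_im, smul_eq_mul]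
            linarith
          · rw [co_v]
            simp only [Complex.add_im, Complex.smul_im, ctr_im, smul_eq_mul]
            linarith
        · exfalso
          simp only [Complex.add_im, Complex.smul_im, ctr_im, smul_eq_mul] at hk
          have h2 : (2 : ℝ) * k = 2 * b + 1 := by linarith
          have h3 : (2 : ℤ) * k = 2 * b + 1 := by exact_mod_cast h2
          omega
    exact he (W.tr_of_mem h hoe ⟨t, rfl⟩)
  obtain ⟨e, he, ⟨rfl, rfl⟩ | ⟨rfl, rfl⟩⟩ := hs
  · exact key e he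
  · exact (key e he).symm

theorem comp_reach {c c' : P2} (hs : W.Reach c c') :
    connectedComponentIn (range P)ᶜ (ctr c) = connectedComponentIn (range P)ᶜ (ctr c') := by
  induction hs with
  | refl => rfl
  | tail _ h2 ih => rw [ih, W.comp_step h h2]

/-- **the components of the complement** -/
theorem comp_eq {z : ℂ} (hz : z ∉ range P) :
    connectedComponentIn (range P)ᶜ z = W.Rg (W.pz z) := by
  apply Subset.antisymm
  · -- separation
    have hpc : IsPreconnected (connectedComponentIn (range P)ᶜ z) :=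
      isPreconnected_connectedComponentIn
    have hsub : connectedComponentIn (range P)ᶜ z ⊆ W.Rg (W.pz z) ∪ W.Rg (W.pz z + 1) := by
      intro w hw
      have hw' : w ∉ range P := connectedComponentIn_subset _ _ hw
      have : W.pz w = W.pz z ∨ W.pz w = W.pz z + 1 := by
        generalize W.pz w = x
        generalize W.pz z = y
        revert x y
        decide
      rcases this with h1 | h1
      · exact Or.inl ⟨hw', h1⟩
      · exact Or.inr ⟨hw', h1⟩
    have hdisj : Disjoint (W.Rg (W.pz z)) (W.Rg (W.pz z + 1)) := by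
      rw [Set.disjoint_left]
      rintro w ⟨-, h1⟩ ⟨-, h2⟩
      rw [h1] at h2
      generalize W.pz z = y at h2
      revert y
      decide
    exact hpc.subset_left_of_subset_union (W.isOpen_Rg h _) (W.isOpen_Rg h _) hdisj hsub
      ⟨z, mem_connectedComponentIn hz, hz, rfl⟩
  · rintro w ⟨hw, hwp⟩
    have h1 : W.Reach (cell w) (cell z) := (W.reach_iff h _ _).2 hwp
    rw [comp_ctr h hz, ← W.comp_reach h h1, ← comp_ctr h hw]
    exact mem_connectedComponentIn hw

theorem bdd_Rg_one : Bornology.IsBounded (W.Rg 1) := by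
  obtain ⟨B, hB0, hB⟩ := W.exists_box h
  refine (Metric.isBounded_ball (x := (0 : ℂ)) (r := 2 * (B + 1))).subset ?_
  rintro z ⟨-, hz⟩
  have h1 : ¬ (B ≤ |(cell z).1| ∨ B ≤ |(cell z).2|) := by
    intro hh
    have := W.par_zero h hB hh
    rw [pz, this] at hz
    exact absurd hz (by decide)
  push Not at h1
  obtain ⟨h2, h3⟩ := h1
  rw [abs_lt] at h2 h3
  have a1 := Int.floor_le z.re
  have a2 := Int.lt_floor_add_one z.re
  have a3 := Int.floor_le z.im
  have a4 := Int.lt_floor_add_one z.im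
  have b1 : (-(B : ℝ)) < ⌊z.re⌋ := by exact_mod_cast h2.1
  have b2 : (⌊z.re⌋ : ℝ) < B := by exact_mod_cast h2.2
  have b3 : (-(B : ℝ)) < ⌊z.im⌋ := by exact_mod_cast h3.1
  have b4 : (⌊z.im⌋ : ℝ) < B := by exact_mod_cast h3.2
  rw [mem_ball_zero_iff]
  have h5 : |z.re| < B + 1 := abs_lt.2 ⟨by linarith, by linarith⟩
  have h6 : |z.im| < B + 1 := abs_lt.2 ⟨by linarith, by linarith⟩
  calc ‖z‖ ≤ |z.re| + |z.im| := Complex.norm_le_abs_re_add_abs_im z
    _ < 2 * (B + 1) := by linarith

theorem not_bdd_Rg_zero : ¬ Bornology.IsBounded (W.Rg 0) := by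
  obtain ⟨B, hB0, hB⟩ := W.exists_box h
  intro hb
  obtain ⟨C, hC⟩ := hb.exists_norm_le
  obtain ⟨n, hn⟩ := exists_nat_gt C
  set k : ℤ := B + n with hk
  have hkB : B ≤ k := by omega
  have hz : ctr (k, 0) ∈ oC (k, 0) := by
    simp only [oC, mem_ofPred_eq, ctr_re, ctr_im]
    refine ⟨⟨?_, ?_⟩, ?_, ?_⟩ <;> linarith
  have hnt : ctr (k, 0) ∉ range P := by
    rintro ⟨t, ht⟩
    exact oC_GrL hz (ht ▸ h.grid t)
  have h1 : ctr (k, 0) ∈ W.Rg 0 := by
    refine ⟨hnt, ?_⟩
    rw [pz, cell_oC hz]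
    exact W.par_zero_right h hB hkB
  have h2 := hC _ h1
  have h3 := (Complex.abs_re_le_norm (ctr (k, 0))).trans h2
  rw [ctr_re] at h3
  have h4 := le_abs_self ((k : ℝ) + 1 / 2)
  have h5 : (k : ℝ) = B + n := by rw [hk]; push_cast; ring
  have h6 : (0 : ℝ) < B := by exact_mod_cast hB0
  linarith

/-- bounded components are the odd ones -/
theorem bdd_iff {z : ℂ} (hz : z ∉ range P) :
    Bornology.IsBounded (connectedComponentIn (range P)ᶜ z) ↔ W.pz z = 1 := by
  rw [W.comp_eq h hz]
  have : W.pz z = 0 ∨ W.pz z = 1 := by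
    generalize W.pz z = x
    revert x
    decide
  rcases this with h1 | h1
  · rw [h1]
    exact ⟨fun hb => (W.not_bdd_Rg_zero h hb).elim, fun hh => absurd hh (by decide)⟩
  · rw [h1]
    exact ⟨fun _ => rfl, fun _ => W.bdd_Rg_one h⟩

/-- **(GP3)** a closed edge is in the closed region iff one of its two cells is inside -/
theorem cE_sub_iff (e : Edge) :
    cE e ⊆ W.Rg 1 ∪ range P ↔ W.par (fA e) = 1 ∨ W.par (fB e) = 1 := by
  constructor
  · intro hs
    have hm : ep e (1 / 2) ∈ oE e := ep_oE (by norm_num) (by norm_num)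
    rcases hs (oE_sub_cE e hm) with ⟨-, h1⟩ | h1
    · left
      rwa [pz, cell_oE hm] at h1
    · have h2 := W.par_ne h (W.tr_of_mem h hm h1)
      generalize W.par (fA e) = x at *
      generalize W.par (fB e) = y at *
      revert x y
      decide
  · intro h1 z hz
    by_cases ht : z ∈ range P
    · exact Or.inr ht
    · left
      refine ⟨ht, ?_⟩
      -- off the trace: both cells have the parity of `z`
      have hcA : z ∈ cC (fA e) := by
        obtain ⟨⟨a, b⟩, d⟩ := e
        obtain ⟨h2, h3, h4⟩ := hz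
        cases d <;> simp only [mem_line_h, mem_line_v, co_h, co_v] at h2 h3 h4
        · exact ⟨⟨by simpa using h3, by simp only [fA_mk]; linarith⟩, by simp [h2], by simp [h2]⟩
        · exact ⟨⟨by simp [h2], by simp [h2]⟩, by simpa using h3, by simp only [fA_mk]; linarith⟩
      have hcB : z ∈ cC (fB e) := by
        obtain ⟨⟨a, b⟩, d⟩ := e
        obtain ⟨h2, h3, h4⟩ := hz
        cases d <;> simp only [mem_line_h, mem_line_v, co_h, co_v] at h2 h3 h4
        · exact ⟨⟨by simpa using h3, by simp only [fB_h]; linarith⟩, by simp [h2], by simp [h2]⟩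
        · exact ⟨⟨by simp [h2], by simp [h2]⟩, by simpa using h3, by simp only [fB_v]; linarith⟩
      rcases h1 with h1 | h1
      · rw [← h1]; exact (W.par_closed h ht hcA).symm
      · rw [← h1]; exact (W.par_closed h ht hcB).symm

/-- a lattice point is in the closed region iff one of its four cells is inside -/
theorem lp_mem_iff (w : P2) :
    lp w ∈ W.Rg 1 ∪ range P ↔ ∃ q, IsCorner w q ∧ W.par q = 1 := by
  constructor
  · rintro (⟨-, h1⟩ | h1)
    · rw [pz, cell_lp] at h1
      exact ⟨w, (isCorner_iff _ _).2 (Or.inl rfl), h1⟩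
    · obtain ⟨i, hi⟩ := (W.lp_mem h).1 h1
      refine ⟨W.side (W.e i) 1, W.side_corner ?_ 1, W.par_side h ⟨i, rfl⟩ 1⟩
      rw [← hi]
      exact (W.inc_e i).1
  · rintro ⟨q, hq, hq'⟩
    by_cases ht : lp w ∈ range P
    · exact Or.inr ht
    · left
      refine ⟨ht, ?_⟩
      rw [pz, cell_lp, ← hq']
      exact W.par_corner h ht ((isCorner_iff _ _).2 (Or.inl rfl)) hq

theorem finite_ins : {c : P2 | W.par c = 1}.Finite := by
  obtain ⟨B, hB0, hB⟩ := W.exists_box h
  refine ((Set.finite_Icc (-B) B).prod (Set.finite_Icc (-B) B)).subset ?_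
  intro c hc
  have h1 : ¬ (B ≤ |c.1| ∨ B ≤ |c.2|) := by
    intro hh
    have := W.par_zero h hB hh
    rw [mem_ofPred_eq, this] at hc
    exact absurd hc (by decide)
  push Not at h1
  obtain ⟨h2, h3⟩ := h1
  rw [abs_lt] at h2 h3
  exact ⟨⟨h2.1.le, h2.2.le⟩, ⟨h3.1.le, h3.2.le⟩⟩

end GWalk

end Crest.Agent.R158.Gp949
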