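import Crest.Agent.R158.Gp4_949

/-!
# Row 158 (S0237), block GP (helper949): grid polygons, file 5

The literal grid polygons of S0237 (`IsGridPolygon δ γ`, `jordanInterior γ`, `regionGraph δ γ`).
-/

set_option autoImplicit false
set_option linter.unusedSectionVars false
set_option linter.unusedVariables false

namespace Crest.Agent.R158.Gp949

open Set Filter Topology Crest.Agent.R161.Geo729
open Crest.ProbabilityR.Percolation Crest.ProbabilityR.FirstPassage

/-- the curve in unit mesh and periodic form -/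
noncomputable def uc (δ : ℝ) (γ : ℝ → ℂ) : ℝ → ℂ := fun t => γ (Int.fract t) / δ

variable {δ : ℝ} {γ : ℝ → ℂ}

theorem div_re (z : ℂ) (δ : ℝ) : (z / (δ : ℂ)).re = z.re / δ := Complex.div_ofReal_re z δ
theorem div_im (z : ℂ) (δ : ℝ) : (z / (δ : ℂ)).im = z.im / δ := Complex.div_ofReal_im z δ

theorem fract_mem_Ico (t : ℝ) : Int.fract t ∈ Ico (0 : ℝ) 1 :=
  ⟨Int.fract_nonneg t, Int.fract_lt_one t⟩

theorem gc_uc (hδ : 0 < δ) (hγ : IsGridPolygon δ γ) : GC (uc δ γ) := by
  obtain ⟨⟨hc, hi, h01⟩, hg⟩ := hγ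
  have hδ' : (δ : ℂ) ≠ 0 := by exact_mod_cast hδ.ne'
  refine ⟨?_, ?_, ?_, ?_⟩
  · exact (ContinuousOn.comp_fract'' hc h01).div_const _
  · intro t
    simp only [uc, Int.fract_add_one]
  · intro s t hst
    simp only [uc] at hst
    have h1 : γ (Int.fract s) = γ (Int.fract t) := by
      field_simp at hst
      exact hst
    have h2 := hi (fract_mem_Ico s) (fract_mem_Ico t) h1
    refine ⟨⌊s⌋ - ⌊t⌋, ?_⟩
    have h3 := Int.fract_add_floor s
    have h4 := Int.fract_add_floor t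
    push_cast
    linarith
  · intro t
    have h1 : γ (Int.fract t) ∈ curveTrace γ := ⟨_, Ico_subset_Icc_self (fract_mem_Ico t), rfl⟩
    rcases hg h1 with ⟨k, hk⟩ | ⟨k, hk⟩
    · left
      refine ⟨k, ?_⟩
      rw [uc, div_re, hk]
      field_simp
    · right
      refine ⟨k, ?_⟩
      rw [uc, div_im, hk]
      field_simp

theorem uc_trace (hδ : 0 < δ) (h01 : γ 0 = γ 1) (z : ℂ) :
    z ∈ curveTrace γ ↔ z / δ ∈ range (uc δ γ) := by
  have hδ' : (δ : ℂ) ≠ 0 := by exact_mod_cast hδ.ne'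
  constructor
  · rintro ⟨t, ht, rfl⟩
    rcases ht.2.lt_or_eq with h1 | h1
    · refine ⟨t, ?_⟩
      rw [uc, Int.fract_eq_self.2 ⟨ht.1, h1⟩]
    · refine ⟨0, ?_⟩
      rw [uc, Int.fract_zero, h01, h1]
  · rintro ⟨t, ht⟩
    refine ⟨Int.fract t, Ico_subset_Icc_self (fract_mem_Ico t), ?_⟩
    simp only [uc] at ht
    field_simp at ht
    exact ht

/-- the dilation by `δ` -/
noncomputable def dil (δ : ℝ) (hδ : 0 < δ) : ℂ ≃ₜ ℂ :=
  Homeomorph.mulLeft₀ (δ : ℂ) (by exact_mod_cast hδ.ne')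

@[simp] theorem dil_apply (hδ : 0 < δ) (z : ℂ) : dil δ hδ z = δ * z := rfl

theorem dil_compl (hδ : 0 < δ) (h01 : γ 0 = γ 1) :
    dil δ hδ '' (range (uc δ γ))ᶜ = (curveTrace γ)ᶜ := by
  have hδ' : (δ : ℂ) ≠ 0 := by exact_mod_cast hδ.ne'
  ext z
  constructor
  · rintro ⟨w, hw, rfl⟩
    rw [dil_apply, mem_compl_iff, uc_trace hδ h01]
    rwa [mul_div_cancel_left₀ w hδ']
  · intro hz
    refine ⟨z / δ, fun hh => hz ((uc_trace hδ h01 z).2 hh), ?_⟩
    rw [dil_apply]
    field_simp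

section lit

variable (hδ : 0 < δ) (hγ : IsGridPolygon δ γ) (W : GWalk (uc δ γ))
include hδ hγ

theorem ji_iff (z : ℂ) : z ∈ jordanInterior γ ↔ z / δ ∈ W.Rg 1 := by
  have h01 := hγ.1.2.2
  have hδ' : (δ : ℂ) ≠ 0 := by exact_mod_cast hδ.ne'
  have hgc := gc_uc hδ hγ
  have hzz : dil δ hδ (z / δ) = z := by
    rw [dil_apply]
    field_simp
  have key : ∀ hz : z / δ ∉ range (uc δ γ),
      (Bornology.IsBounded (connectedComponentIn (curveTrace γ)ᶜ z) ↔
        Bornology.IsBounded (connectedComponentIn (range (uc δ γ))ᶜ (z / δ))) := by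
    intro hz
    have h1 := (dil δ hδ).image_connectedComponentIn (s := (range (uc δ γ))ᶜ) (x := z / δ) hz
    rw [dil_compl hδ h01, hzz] at h1
    rw [← h1]
    constructor
    · intro hb
      obtain ⟨C, hC⟩ := hb.exists_norm_le
      refine isBounded_iff_forall_norm_le.2 ⟨C / δ, fun w hw => ?_⟩
      have h2 := hC _ (mem_image_of_mem _ hw)
      rw [dil_apply, norm_mul, Complex.norm_real, Real.norm_of_nonneg hδ.le] at h2
      rw [le_div_iff₀ hδ]
      linarith
    · intro hb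
      obtain ⟨C, hC⟩ := hb.exists_norm_le
      refine isBounded_iff_forall_norm_le.2 ⟨δ * C, ?_⟩
      rintro _ ⟨w, hw, rfl⟩
      rw [dil_apply, norm_mul, Complex.norm_real, Real.norm_of_nonneg hδ.le]
      exact mul_le_mul_of_nonneg_left (hC w hw) hδ.le
  constructor
  · rintro ⟨h1, h2⟩
    rw [uc_trace hδ h01] at h1
    rw [key h1, W.bdd_iff hgc h1] at h2
    exact ⟨h1, h2⟩
  · rintro ⟨h1, h2⟩
    refine ⟨fun hh => h1 ((uc_trace hδ h01 z).1 hh), ?_⟩
    rw [key h1, W.bdd_iff hgc h1]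
    exact h2

theorem closed_iff (z : ℂ) :
    z ∈ jordanInterior γ ∪ curveTrace γ ↔ z / δ ∈ W.Rg 1 ∪ range (uc δ γ) := by
  rw [mem_union, mem_union, ji_iff hδ hγ W, uc_trace hδ hγ.1.2.2]

omit hδ hγ in
theorem gridPoint_div (hδ : 0 < δ) (v : P2) : gridPoint δ v / δ = lp v := by
  have hδ' : (δ : ℂ) ≠ 0 := by exact_mod_cast hδ.ne'
  apply Complex.ext
  · rw [div_re]
    simp only [gridPoint, lp_re]
    field_simp
  · rw [div_im]
    simp only [gridPoint, lp_im]
    field_simp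

/-- lattice points of the closed region -/
theorem gridPoint_mem_iff (v : P2) :
    gridPoint δ v ∈ jordanInterior γ ∪ curveTrace γ ↔ ∃ q, IsCorner v q ∧ W.par q = 1 := by
  rw [closed_iff hδ hγ W, gridPoint_div hδ, W.lp_mem_iff (gc_uc hδ hγ)]

omit hδ hγ in
theorem segment_edge (hδ : 0 < δ) (e : Edge) (z : ℂ) :
    z ∈ segment ℝ (gridPoint δ (src e)) (gridPoint δ (tgt e)) ↔ z / δ ∈ cE e := by
  have hδ' : (δ : ℂ) ≠ 0 := by exact_mod_cast hδ.ne'
  rw [segment_eq_image]
  constructor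
  · rintro ⟨s, ⟨hs0, hs1⟩, rfl⟩
    obtain ⟨⟨a, b⟩, c⟩ := e
    cases c
    · refine ⟨?_, ?_, ?_⟩
      · rw [mem_line_h, div_im]
        simp only [src, tgt, gridPoint, Complex.add_im, Complex.smul_im, smul_eq_mul,
          Bool.false_eq_true, if_false]
        field_simp
        ring
      · rw [co_h, div_re]
        simp only [src, tgt, gridPoint, Complex.add_re, Complex.smul_re, smul_eq_mul,
          Bool.false_eq_true, if_false]
        push_cast
        have : ((1 - s) * (δ * a) + s * (δ * (a + 1))) / δ - a = s := by field_simp; ring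
        rw [this]; exact hs0
      · rw [co_h, div_re]
        simp only [src, tgt, gridPoint, Complex.add_re, Complex.smul_re, smul_eq_mul,
          Bool.false_eq_true, if_false]
        push_cast
        have : ((1 - s) * (δ * a) + s * (δ * (a + 1))) / δ - a = s := by field_simp; ring
        rw [this]; exact hs1
    · refine ⟨?_, ?_, ?_⟩
      · rw [mem_line_v, div_re]
        simp only [src, tgt, gridPoint, Complex.add_re, Complex.smul_re, smul_eq_mul, if_true]
        field_simp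
        ring
      · rw [co_v, div_im]
        simp only [src, tgt, gridPoint, Complex.add_im, Complex.smul_im, smul_eq_mul, if_true]
        push_cast
        have : ((1 - s) * (δ * b) + s * (δ * (b + 1))) / δ - b = s := by field_simp; ring
        rw [this]; exact hs0
      · rw [co_v, div_im]
        simp only [src, tgt, gridPoint, Complex.add_im, Complex.smul_im, smul_eq_mul, if_true]
        push_cast
        have : ((1 - s) * (δ * b) + s * (δ * (b + 1))) / δ - b = s := by field_simp; ring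
        rw [this]; exact hs1
  · intro hz
    refine ⟨co e (z / δ), ⟨hz.2.1, hz.2.2⟩, ?_⟩
    obtain ⟨⟨a, b⟩, c⟩ := e
    have h1 := hz.1
    cases c
    · rw [mem_line_h, div_im] at h1
      simp only [co_h, div_re]
      apply Complex.ext
      · simp only [src, tgt, gridPoint, Complex.add_re, Complex.smul_re, smul_eq_mul,
          Bool.false_eq_true, if_false]
        push_cast
        field_simp
        ring
      · simp only [src, tgt, gridPoint, Complex.add_im, Complex.smul_im, smul_eq_mul,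
          Bool.false_eq_true, if_false]
        rw [← h1]
        field_simp
        ring
    · rw [mem_line_v, div_re] at h1
      simp only [co_v, div_im]
      apply Complex.ext
      · simp only [src, tgt, gridPoint, Complex.add_re, Complex.smul_re, smul_eq_mul, if_true]
        rw [← h1]
        field_simp
        ring
      · simp only [src, tgt, gridPoint, Complex.add_im, Complex.smul_im, smul_eq_mul, if_true]
        push_cast
        field_simp
        ring

/-- **an edge belongs to the region graph iff one of its two cells is inside** -/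
theorem segment_sub_iff (e : Edge) :
    segment ℝ (gridPoint δ (src e)) (gridPoint δ (tgt e)) ⊆ jordanInterior γ ∪ curveTrace γ ↔
      W.par (fA e) = 1 ∨ W.par (fB e) = 1 := by
  have hδ' : (δ : ℂ) ≠ 0 := by exact_mod_cast hδ.ne'
  rw [← W.cE_sub_iff (gc_uc hδ hγ)]
  constructor
  · intro hs z hz
    have h1 : (δ : ℂ) * z ∈ segment ℝ (gridPoint δ (src e)) (gridPoint δ (tgt e)) := by
      rw [segment_edge hδ, mul_div_cancel_left₀ z hδ']
      exact hz
    have h2 := hs h1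
    rw [closed_iff hδ hγ W, mul_div_cancel_left₀ z hδ'] at h2
    exact h2
  · intro hs z hz
    rw [segment_edge hδ] at hz
    rw [closed_iff hδ hγ W]
    exact hs hz

omit hδ hγ in
theorem sq_adj_iff (u v : P2) : squareLattice.Adj u v ↔
    ∃ e : Edge, (u = src e ∧ v = tgt e) ∨ (u = tgt e ∧ v = src e) := by
  obtain ⟨a, b⟩ := u
  obtain ⟨p, q⟩ := v
  simp only [squareLattice, SimpleGraph.fromRel_adj]
  constructor
  · rintro ⟨-, (⟨h1, h2⟩ | ⟨h1, h2⟩) | (⟨h1, h2⟩ | ⟨h1, h2⟩)⟩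
    · exact ⟨((a, b), true), Or.inl ⟨rfl, by simp [tgt, h1, h2]⟩⟩
    · exact ⟨((a, b), false), Or.inl ⟨rfl, by simp [tgt, h1, h2]⟩⟩
    · exact ⟨((p, q), true), Or.inr ⟨by simp [tgt, h1, h2], rfl⟩⟩
    · exact ⟨((p, q), false), Or.inr ⟨by simp [tgt, h1, h2], rfl⟩⟩
  · rintro ⟨⟨⟨x, y⟩, c⟩, h1⟩
    cases c <;> simp only [src, tgt, Prod.mk.injEq, if_true, if_false, Bool.false_eq_true, ne_eq]
      at h1 ⊢ <;> omega

theorem region_adj_iff (u v : P2) : (regionGraph δ γ).Adj u v ↔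
    ∃ e : Edge, ((u = src e ∧ v = tgt e) ∨ (u = tgt e ∧ v = src e)) ∧
      (W.par (fA e) = 1 ∨ W.par (fB e) = 1) := by
  simp only [regionGraph, SimpleGraph.fromRel_adj]
  constructor
  · rintro ⟨-, ⟨h1, h2⟩ | ⟨h1, h2⟩⟩
    · obtain ⟨e, ⟨rfl, rfl⟩ | ⟨rfl, rfl⟩⟩ := (sq_adj_iff u v).1 h1
      · exact ⟨e, Or.inl ⟨rfl, rfl⟩, (segment_sub_iff hδ hγ W e).1 h2⟩
      · rw [segment_symm] at h2
        exact ⟨e, Or.inr ⟨rfl, rfl⟩, (segment_sub_iff hδ hγ W e).1 h2⟩
    · obtain ⟨e, ⟨rfl, rfl⟩ | ⟨rfl, rfl⟩⟩ := (sq_adj_iff v u).1 h1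
      · exact ⟨e, Or.inr ⟨rfl, rfl⟩, (segment_sub_iff hδ hγ W e).1 h2⟩
      · rw [segment_symm] at h2
        exact ⟨e, Or.inl ⟨rfl, rfl⟩, (segment_sub_iff hδ hγ W e).1 h2⟩
  · rintro ⟨e, h1, h2⟩
    have h3 := (segment_sub_iff hδ hγ W e).2 h2
    rcases h1 with ⟨rfl, rfl⟩ | ⟨rfl, rfl⟩
    · have h4 : squareLattice.Adj (src e) (tgt e) := (sq_adj_iff _ _).2 ⟨e, Or.inl ⟨rfl, rfl⟩⟩
      exact ⟨h4.ne, Or.inl ⟨h4, h3⟩⟩
    · have h4 : squareLattice.Adj (tgt e) (src e) := (sq_adj_iff _ _).2 ⟨e, Or.inr ⟨rfl, rfl⟩⟩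
      rw [segment_symm] at h3
      exact ⟨h4.ne, Or.inl ⟨h4, h3⟩⟩

/-- points of the trace in terms of the walk -/
theorem trace_iff (z : ℂ) : z ∈ curveTrace γ ↔ ∃ i, z / δ ∈ cE (W.e i) := by
  rw [uc_trace hδ hγ.1.2.2, W.range_eq (gc_uc hδ hγ), mem_iUnion]

/-- lattice points of the trace -/
theorem gridPoint_trace_iff (v : P2) : gridPoint δ v ∈ curveTrace γ ↔ ∃ i, W.v i = v := by
  rw [uc_trace hδ hγ.1.2.2, gridPoint_div hδ, W.lp_mem (gc_uc hδ hγ)]

/-- parameters of the lattice points of the trace -/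
theorem gridPoint_param {s : ℝ} (hs : s ∈ Icc (0 : ℝ) 1) {v : P2} (hv : γ s = gridPoint δ v) :
    ∃ i, W.v i = v ∧ W.t i = s := by
  have h01 := hγ.1.2.2
  have h1 : uc δ γ s = lp v := by
    rcases hs.2.lt_or_eq with h2 | h2
    · rw [uc, Int.fract_eq_self.2 ⟨hs.1, h2⟩, hv, gridPoint_div hδ]
    · have : uc δ γ s = γ 0 / δ := by rw [h2, uc, Int.fract_one]
      rw [this, h01, ← h2, hv, gridPoint_div hδ]
  obtain ⟨i, hi⟩ := W.all s ⟨v, h1⟩
  refine ⟨i, lp_inj ?_, hi.symm⟩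
  rw [← W.Pt, ← hi, h1]

/-- the curve at the times of the walk -/
theorem gridPoint_at {i : ℤ} (hi : W.t i ∈ Icc (0 : ℝ) 1) : γ (W.t i) = gridPoint δ (W.v i) := by
  have hδ' : (δ : ℂ) ≠ 0 := by exact_mod_cast hδ.ne'
  have h01 := hγ.1.2.2
  have h1 := W.Pt i
  have h2 : uc δ γ (W.t i) = γ (W.t i) / δ := by
    rcases hi.2.lt_or_eq with h2 | h2
    · rw [uc, Int.fract_eq_self.2 ⟨hi.1, h2⟩]
    · rw [h2, uc, Int.fract_one, h01]
  rw [h2, ← gridPoint_div hδ] at h1
  field_simp at h1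
  exact h1

end lit

end Crest.Agent.R158.Gp949
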