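import Crest.Agent.R158.Wf2_850
import Crest.Agent.R158.Hd1_109
import Crest.Agent.R158.Vx4_107

/-!
# Row 158, Block A4 (helper31), file 1: GU and GL, objects at arbitrary centres

Finitely many smeared objects `i` (`V i : Finset Face`, density `u i`, amplitude `a i`, level `κ i`)
and any other charges. A loop `A` is *local* at `i` if it meets `V i` and `dia A + 1 < 2 ^ κ i`.

* `Sys κ V u a m`  : the charge configuration `m` restricted to `V i` is `a i * u i`, all the other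
  charges are at distance `≥ 2 ^ κ i - 1` of `V i`
* `Loc κ V z`      : the local loops (a `Finset`)
* `mass_loc`       : `mass m A = a i * share`
* `GU`, `GLow`     : the product over the local loops is `exp (- √3 ∑ a i VV (κ i) ± Err)`
* `free_le`, `free_ge` : crude bounds for the product over the other loops
-/

set_option autoImplicit false

noncomputable section

namespace Crest.Agent.R158.Gx31

open Real Function
open Crest.Agent.R161.Tas682 (sd)
open Crest.Agent.R158.It200 (Cfz)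
open Crest.Agent.R158.Wf850 (Lps Face)
open Crest.Agent.R158.Vx107 (Fw Ntr W)
open Crest.Agent.R158.Cn109 (SS QQ lsW smalls mem_smalls VV SS_eq)
open Crest.Agent.R158.Hd109 (Dens Err)

/-! ### weights -/

theorem Fw_eq_ff (x : ℝ) : Fw x = We297.ff x := rfl

theorem abs_Fw_le_exp (x : ℝ) : |Fw x| ≤ exp (-(√3 * x) + 12 * x ^ 2) := Wf850.ff_abs_le x

theorem Fw_lower {lo hi : ℝ} (h1 : -(5 * π / 6) < lo) (h2 : hi < π / 6) :
    ∃ C : ℝ, 0 ≤ C ∧ ∀ x, lo ≤ x → x ≤ hi → exp (-(√3 * x) - C * x ^ 2) ≤ Fw x :=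
  Wf850.ff_lower h1 h2

/-! ### systems of objects -/

/-- the charge configuration `m` restricted to `V i` is `a i * u i`, the rest is far from `V i` -/
structure Sys {ι : Type*} (κ : ι → ℕ) (V : ι → Finset Face) (u : ι → Face → ℝ) (a : ι → ℝ)
    (m : Face →₀ ℝ) : Prop where
  nn : ∀ i, ∀ v ∈ V i, 0 ≤ u i v
  sum : ∀ i, ∑ v ∈ V i, u i v = 1
  val : ∀ i, ∀ v ∈ V i, m v = a i * u i v
  sepV : ∀ i j, i ≠ j → ∀ v ∈ V i, ∀ w ∈ V j, (2 : ℤ) ^ κ i ≤ sd v.1 w.1 + 1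
  sepm : ∀ i, ∀ v ∈ V i, ∀ w, m w ≠ 0 → w ∉ V i → (2 : ℤ) ^ κ i ≤ sd v.1 w.1 + 1

/-- share of the density inside `A` -/
abbrev shr (u : Face → ℝ) (V : Finset Face) (A : Finset Face) : ℝ := Cn109.mass u V A

theorem shr_nonneg {u : Face → ℝ} {V : Finset Face} (h : ∀ v ∈ V, 0 ≤ u v) (A : Finset Face) :
    0 ≤ shr u V A := Cn109.mass_nonneg h A

theorem shr_le_one {u : Face → ℝ} {V : Finset Face} (h : ∀ v ∈ V, 0 ≤ u v)
    (h1 : ∑ v ∈ V, u v = 1) (A : Finset Face) : shr u V A ≤ 1 := by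
  classical
  rw [← h1]
  unfold shr Cn109.mass
  exact Finset.sum_le_sum_of_subset_of_nonneg (Finset.filter_subset _ _) fun v hv _ => h v hv

section sys

variable {ι : Type*} {κ : ι → ℕ} {V : ι → Finset Face} {u : ι → Face → ℝ} {a : ι → ℝ}
  {m : Face →₀ ℝ}

theorem Sys.mass_eq (h : Sys κ V u a m) {i : ι} {A : Finset Face} (hA : ∃ v ∈ V i, v ∈ A)
    (hd : Cn109.dia A + 1 < 2 ^ κ i) : Vx107.mass m A = a i * shr (u i) (V i) A := by
  classical
  obtain ⟨v, hv, hvA⟩ := hA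
  have h0 : ∀ w ∈ A, w ∉ V i → m w = 0 := by
    intro w hw hwV
    by_contra hne
    have h1 := h.sepm i v hv w hne hwV
    have h2 := Cn109.sd_le_dia hvA hw
    have h3 : ((Cn109.dia A + 1 : ℕ) : ℤ) < ((2 ^ κ i : ℕ) : ℤ) := by exact_mod_cast hd
    push_cast at h3
    linarith
  unfold Vx107.mass shr Cn109.mass
  rw [Finset.mul_sum]
  calc ∑ f ∈ A, m f = ∑ f ∈ A with f ∈ V i, m f := by
        rw [Finset.sum_filter]
        refine Finset.sum_congr rfl fun w hw => ?_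
        split_ifs with hwV
        · rfl
        · exact h0 w hw hwV
    _ = ∑ f ∈ V i with f ∈ A, m f := by
        refine Finset.sum_congr ?_ fun _ _ => rfl
        ext f
        simp only [Finset.mem_filter]
        tauto
    _ = ∑ f ∈ V i with f ∈ A, a i * u i f :=
        Finset.sum_congr rfl fun f hf => h.val i f (Finset.mem_filter.1 hf).1

theorem Sys.loc_mass (h : Sys κ V u a m) {i : ι} {A : Finset Face} {z : Cfz}
    (hA : A ∈ smalls lsW (V i) (κ i) z) : Vx107.mass m A = a i * shr (u i) (V i) A := by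
  rw [mem_smalls] at hA
  exact h.mass_eq hA.2.1 hA.2.2

theorem Sys.disj (h : Sys κ V u a m) (z : Cfz) {i j : ι} (hij : i ≠ j) :
    Disjoint (smalls lsW (V i) (κ i) z) (smalls lsW (V j) (κ j) z) := by
  rw [Finset.disjoint_left]
  intro A hA hA'
  rw [mem_smalls] at hA hA'
  obtain ⟨v, hv, hvA⟩ := hA.2.1
  obtain ⟨w, hw, hwA⟩ := hA'.2.1
  have h1 := h.sepV i j hij v hv w hw
  have h2 := Cn109.sd_le_dia hvA hwA
  have h3 : ((Cn109.dia A + 1 : ℕ) : ℤ) < ((2 ^ κ i : ℕ) : ℤ) := by exact_mod_cast hA.2.2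
  push_cast at h3
  linarith

open Classical in
/-- the local loops -/
def Loc [Fintype ι] (κ : ι → ℕ) (V : ι → Finset Face) (z : Cfz) : Finset (Finset Face) :=
  Finset.univ.biUnion fun i => smalls lsW (V i) (κ i) z

theorem mem_Loc [Fintype ι] {z : Cfz} {A : Finset Face} :
    A ∈ Loc κ V z ↔ ∃ i, A ∈ smalls lsW (V i) (κ i) z := by
  classical
  simp [Loc]

theorem mem_Loc' [Fintype ι] {z : Cfz} {A : Finset Face} :
    A ∈ Loc κ V z ↔ A ∈ Lps z ∧ ∃ i, (∃ v ∈ V i, v ∈ A) ∧ Cn109.dia A + 1 < 2 ^ κ i := by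
  rw [mem_Loc]
  constructor
  · rintro ⟨i, hi⟩
    rw [mem_smalls] at hi
    exact ⟨hi.1, i, hi.2⟩
  · rintro ⟨h1, i, h2⟩
    exact ⟨i, (mem_smalls lsW).2 ⟨h1, h2⟩⟩

theorem Loc_sub [Fintype ι] {z : Cfz} {A : Finset Face} (h : A ∈ Loc κ V z) : A ∈ Lps z :=
  (mem_Loc'.1 h).1

theorem Sys.prod_Loc [Fintype ι] (h : Sys κ V u a m) (z : Cfz) (g : Finset Face → ℝ) :
    ∏ A ∈ Loc κ V z, g A = ∏ i, ∏ A ∈ smalls lsW (V i) (κ i) z, g A := by
  classical
  unfold Loc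
  rw [Finset.prod_biUnion]
  intro i _ j _ hij
  exact h.disj z hij

/-! ### the local product -/

/-- linear exponent of the local loops, at the mean -/
def Lin [Fintype ι] (a : ι → ℝ) (κ : ι → ℕ) : ℝ := √3 * ∑ i, a i * VV (κ i)

theorem local_le [Fintype ι] (κ : ι → ℕ) (V : ι → Finset Face) (u : ι → Face → ℝ) (a : ι → ℝ)
    (z : Cfz) :
    ∏ i, ∏ A ∈ smalls lsW (V i) (κ i) z, |Fw (a i * shr (u i) (V i) A)| ≤
      exp (-Lin a κ + Err (fun i => √3 * a i) (fun i => 12 * a i ^ 2) κ V u z) := by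
  have h1 : ∀ i, ∏ A ∈ smalls lsW (V i) (κ i) z, |Fw (a i * shr (u i) (V i) A)| ≤
      exp (-(√3 * (a i * SS lsW (u i) (V i) (κ i) z)) +
        12 * a i ^ 2 * QQ lsW (u i) (V i) (κ i) z) := by
    intro i
    calc ∏ A ∈ smalls lsW (V i) (κ i) z, |Fw (a i * shr (u i) (V i) A)|
        ≤ ∏ A ∈ smalls lsW (V i) (κ i) z, exp (-(√3 * (a i * shr (u i) (V i) A)) +
            12 * (a i * shr (u i) (V i) A) ^ 2) :=
          Finset.prod_le_prod (fun _ _ => abs_nonneg _) fun A _ => abs_Fw_le_exp _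
      _ = _ := by
          rw [← exp_sum, Finset.sum_add_distrib, Finset.sum_neg_distrib, ← Finset.mul_sum,
            ← Finset.mul_sum, ← Finset.mul_sum, ← SS_eq]
          congr 2
          unfold QQ
          rw [mul_assoc, Finset.mul_sum (a := a i ^ 2)]
          congr 1
          exact Finset.sum_congr rfl fun A _ => mul_pow _ _ _
  calc _ ≤ ∏ i, exp (-(√3 * (a i * SS lsW (u i) (V i) (κ i) z)) +
        12 * a i ^ 2 * QQ lsW (u i) (V i) (κ i) z) :=
        Finset.prod_le_prod (fun i _ => Finset.prod_nonneg fun _ _ => abs_nonneg _) fun i _ => h1 i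
    _ = exp (∑ i, (-(√3 * (a i * SS lsW (u i) (V i) (κ i) z)) +
        12 * a i ^ 2 * QQ lsW (u i) (V i) (κ i) z)) := (exp_sum _ _).symm
    _ ≤ _ := by
        apply exp_le_exp.2
        unfold Lin Err
        rw [Finset.mul_sum, ← Finset.sum_neg_distrib, ← Finset.sum_add_distrib]
        refine Finset.sum_le_sum fun i _ => ?_
        have h2 : -(√3 * (a i * SS lsW (u i) (V i) (κ i) z)) ≤
            -(√3 * (a i * VV (κ i))) +
              |√3 * a i| * |SS lsW (u i) (V i) (κ i) z - VV (κ i)| := by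
          rw [← abs_mul]
          have h3 := neg_abs_le (√3 * a i * (SS lsW (u i) (V i) (κ i) z - VV (κ i)))
          nlinarith
        linarith

theorem local_ge {lo hi : ℝ} (h1 : -(5 * π / 6) < lo) (h2 : hi < π / 6) :
    ∃ C : ℝ, 0 ≤ C ∧ ∀ {ι : Type} [Fintype ι] (κ : ι → ℕ) (V : ι → Finset Face)
      (u : ι → Face → ℝ) (a : ι → ℝ) (z : Cfz),
      (∀ i, ∀ A ∈ smalls lsW (V i) (κ i) z, lo ≤ a i * shr (u i) (V i) A ∧
        a i * shr (u i) (V i) A ≤ hi) →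
      exp (-Lin a κ - Err (fun i => √3 * a i) (fun i => C * a i ^ 2) κ V u z) ≤
        ∏ i, ∏ A ∈ smalls lsW (V i) (κ i) z, Fw (a i * shr (u i) (V i) A) := by
  obtain ⟨C, hC, hF⟩ := Fw_lower h1 h2
  refine ⟨C, hC, fun {ι} _ κ V u a z hsh => ?_⟩
  have h1 : ∀ i, exp (-(√3 * (a i * SS lsW (u i) (V i) (κ i) z)) -
        C * a i ^ 2 * QQ lsW (u i) (V i) (κ i) z) ≤
      ∏ A ∈ smalls lsW (V i) (κ i) z, Fw (a i * shr (u i) (V i) A) := by
    intro i
    refine le_trans (le_of_eq ?_) (Finset.prod_le_prod (fun _ _ => (exp_pos _).le) fun A hA =>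
      hF _ (hsh i A hA).1 (hsh i A hA).2)
    rw [← exp_sum, Finset.sum_sub_distrib, Finset.sum_neg_distrib, ← Finset.mul_sum,
      ← Finset.mul_sum, ← Finset.mul_sum, ← SS_eq]
    congr 2
    unfold QQ
    rw [mul_assoc, Finset.mul_sum (a := a i ^ 2)]
    congr 1
    exact Finset.sum_congr rfl fun A _ => (mul_pow _ _ _).symm
  refine le_trans ?_ (Finset.prod_le_prod (fun i _ => (exp_pos _).le) fun i _ => h1 i)
  rw [← exp_sum]
  apply exp_le_exp.2
  unfold Lin Err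
  rw [Finset.mul_sum, ← Finset.sum_neg_distrib, ← Finset.sum_sub_distrib]
  refine Finset.sum_le_sum fun i _ => ?_
  have h2 : -(√3 * (a i * VV (κ i))) -
      |√3 * a i| * |SS lsW (u i) (V i) (κ i) z - VV (κ i)| ≤
        -(√3 * (a i * SS lsW (u i) (V i) (κ i) z)) := by
    rw [← abs_mul]
    have h3 := le_abs_self (√3 * a i * (SS lsW (u i) (V i) (κ i) z - VV (κ i)))
    nlinarith
  linarith

/-! ### GU and GL -/

theorem finprod_split {S : Set (Finset Face)} {L : Finset (Finset Face)} (hL : ∀ A ∈ L, A ∈ S)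
    {g : Finset Face → ℝ} (hfin : (S ∩ mulSupport g).Finite) :
    ∏ᶠ A ∈ S, g A = (∏ A ∈ L, g A) * ∏ᶠ A ∈ S \ (L : Set (Finset Face)), g A := by
  rw [← finprod_mem_mul_sdiff' (s := (L : Set (Finset Face))) (fun A hA => hL A hA) hfin,
    finprod_mem_coe_finset]

/-- **GU** : upper bound, arbitrary centres. `S` = the loops considered (`Lps z`, `Oth z c`, ...),
`g` = the factors. -/
theorem GU [Fintype ι] (h : Sys κ V u a m) {z : Cfz} {S : Set (Finset Face)}
    (hL : ∀ A ∈ Loc κ V z, A ∈ S) {g : Finset Face → ℝ} (hfin : (S ∩ mulSupport g).Finite)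
    (hg : ∀ A ∈ Loc κ V z, |g A| ≤ |Fw (Vx107.mass m A)|) :
    |∏ᶠ A ∈ S, g A| ≤
      exp (-Lin a κ + Err (fun i => √3 * a i) (fun i => 12 * a i ^ 2) κ V u z) *
        |∏ᶠ A ∈ S \ (Loc κ V z : Set (Finset Face)), g A| := by
  rw [finprod_split hL hfin, abs_mul]
  refine mul_le_mul_of_nonneg_right ?_ (abs_nonneg _)
  rw [Finset.abs_prod]
  refine (Finset.prod_le_prod (fun _ _ => abs_nonneg _) hg).trans ?_
  rw [h.prod_Loc]
  refine le_trans (le_of_eq ?_) (local_le κ V u a z)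
  exact Finset.prod_congr rfl fun i _ => Finset.prod_congr rfl fun A hA => by
    rw [h.loc_mass hA]

/-- **GLow** : lower bound, arbitrary centres -/
theorem GLow {lo hi : ℝ} (h1 : -(5 * π / 6) < lo) (h2 : hi < π / 6) :
    ∃ C : ℝ, 0 ≤ C ∧ ∀ {ι : Type} [Fintype ι] {κ : ι → ℕ} {V : ι → Finset Face}
      {u : ι → Face → ℝ} {a : ι → ℝ} {m : Face →₀ ℝ}, Sys κ V u a m → ∀ {z : Cfz},
      (∀ i, ∀ A ∈ smalls lsW (V i) (κ i) z, lo ≤ a i * shr (u i) (V i) A ∧
        a i * shr (u i) (V i) A ≤ hi) → ∀ {S : Set (Finset Face)}, (∀ A ∈ Loc κ V z, A ∈ S) →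
      ∀ {g : Finset Face → ℝ}, (S ∩ mulSupport g).Finite →
      (∀ A ∈ Loc κ V z, Fw (Vx107.mass m A) ≤ g A) →
      0 ≤ ∏ᶠ A ∈ S \ (Loc κ V z : Set (Finset Face)), g A →
      exp (-Lin a κ - Err (fun i => √3 * a i) (fun i => C * a i ^ 2) κ V u z) *
        ∏ᶠ A ∈ S \ (Loc κ V z : Set (Finset Face)), g A ≤ ∏ᶠ A ∈ S, g A := by
  obtain ⟨C, hC, hF⟩ := local_ge h1 h2
  obtain ⟨C', hC', hF'⟩ := Fw_lower h1 h2
  refine ⟨C, hC, fun {ι} _ {κ V u a m} h {z} hsh {S} hL {g} hfin hg hfree => ?_⟩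
  rw [finprod_split hL hfin]
  refine mul_le_mul_of_nonneg_right ?_ hfree
  refine (hF κ V u a z hsh).trans ?_
  have e1 : ∏ i, ∏ A ∈ smalls lsW (V i) (κ i) z, Fw (a i * shr (u i) (V i) A) =
      ∏ A ∈ Loc κ V z, Fw (Vx107.mass m A) := by
    rw [h.prod_Loc]
    exact Finset.prod_congr rfl fun i _ => Finset.prod_congr rfl fun A hA => by
      rw [h.loc_mass hA]
  rw [e1]
  refine Finset.prod_le_prod (fun A hA => ?_) hg
  obtain ⟨i, hi⟩ := mem_Loc.1 hA
  rw [h.loc_mass hi]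
  exact (exp_pos _).le.trans (hF' _ (hsh i A hi).1 (hsh i A hi).2)

/-- the local factor is positive, the sign is the sign of the free factor -/
theorem sign_loc [Fintype ι] (h : Sys κ V u a m) {z : Cfz}
    (hsh : ∀ i, ∀ A ∈ smalls lsW (V i) (κ i) z, 0 ≤ Fw (a i * shr (u i) (V i) A))
    {S : Set (Finset Face)} (hL : ∀ A ∈ Loc κ V z, A ∈ S) {g : Finset Face → ℝ}
    (hfin : (S ∩ mulSupport g).Finite) (hg : ∀ A ∈ Loc κ V z, g A = Fw (Vx107.mass m A))
    (hfree : 0 ≤ ∏ᶠ A ∈ S \ (Loc κ V z : Set (Finset Face)), g A) : 0 ≤ ∏ᶠ A ∈ S, g A := by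
  rw [finprod_split hL hfin]
  refine mul_nonneg (Finset.prod_nonneg fun A hA => ?_) hfree
  rw [hg A hA]
  obtain ⟨i, hi⟩ := mem_Loc.1 hA
  rw [h.loc_mass hi]
  exact hsh i A hi

end sys

/-! ### the free loops -/

/-- crude upper bound: `2` for every factor which is not `1` -/
theorem free_le {S : Set (Finset Face)} {g : Finset Face → ℝ} {F : Set (Finset Face)}
    (hF : F.Finite) (h1 : ∀ A ∈ S, A ∉ F → g A = 1) (h2 : ∀ A ∈ S, |g A| ≤ 2) :
    |∏ᶠ A ∈ S, g A| ≤ 2 ^ F.ncard := by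
  classical
  set T : Finset (Finset Face) := hF.toFinset.filter fun A => A ∈ S with hT
  have e1 : ∏ᶠ A ∈ S, g A = ∏ A ∈ T, g A := by
    refine finprod_mem_eq_prod_of_inter_mulSupport_eq g ?_
    ext A
    simp only [Set.mem_inter_iff, mem_mulSupport, hT, Finset.coe_filter, Set.Finite.mem_toFinset,
      Set.mem_ofPred_eq]
    constructor
    · rintro ⟨h3, h4⟩
      exact ⟨⟨by_contra fun h5 => h4 (h1 A h3 h5), h3⟩, h4⟩
    · rintro ⟨⟨_, h4⟩, h5⟩
      exact ⟨h4, h5⟩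
  rw [e1, Finset.abs_prod]
  have h3 : ∏ A ∈ T, |g A| ≤ ∏ A ∈ T, (2 : ℝ) :=
    Finset.prod_le_prod (fun _ _ => abs_nonneg _) fun A hA => h2 A (Finset.mem_filter.1 hA).2
  refine h3.trans ?_
  rw [Finset.prod_const]
  refine pow_le_pow_right₀ (by norm_num) ?_
  rw [Set.ncard_eq_toFinset_card F hF]
  exact Finset.card_le_card (Finset.filter_subset _ _)

/-- crude lower bound: `c ≤ 1` for every factor which is not `1` -/
theorem free_ge {S : Set (Finset Face)} {g : Finset Face → ℝ} {F : Set (Finset Face)}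
    (hF : F.Finite) (h1 : ∀ A ∈ S, A ∉ F → g A = 1) {c : ℝ} (hc0 : 0 ≤ c) (hc1 : c ≤ 1)
    (h2 : ∀ A ∈ S, c ≤ g A) : c ^ F.ncard ≤ ∏ᶠ A ∈ S, g A := by
  classical
  set T : Finset (Finset Face) := hF.toFinset.filter fun A => A ∈ S with hT
  have e1 : ∏ᶠ A ∈ S, g A = ∏ A ∈ T, g A := by
    refine finprod_mem_eq_prod_of_inter_mulSupport_eq g ?_
    ext A
    simp only [Set.mem_inter_iff, mem_mulSupport, hT, Finset.coe_filter, Set.Finite.mem_toFinset,
      Set.mem_ofPred_eq]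
    constructor
    · rintro ⟨h3, h4⟩
      exact ⟨⟨by_contra fun h5 => h4 (h1 A h3 h5), h3⟩, h4⟩
    · rintro ⟨⟨_, h4⟩, h5⟩
      exact ⟨h4, h5⟩
  rw [e1]
  have h3 : ∏ A ∈ T, c ≤ ∏ A ∈ T, g A :=
    Finset.prod_le_prod (fun _ _ => hc0) fun A hA => h2 A (Finset.mem_filter.1 hA).2
  refine le_trans ?_ h3
  rw [Finset.prod_const]
  refine pow_le_pow_of_le_one hc0 hc1 ?_
  rw [Set.ncard_eq_toFinset_card F hF]
  exact Finset.card_le_card (Finset.filter_subset _ _)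

theorem free_nonneg {S : Set (Finset Face)} {g : Finset Face → ℝ} (h2 : ∀ A ∈ S, 0 ≤ g A) :
    0 ≤ ∏ᶠ A ∈ S, g A :=
  finprod_nonneg fun A => finprod_nonneg fun hA => h2 A hA

end Crest.Agent.R158.Gx31
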