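import Crest.Agent.R158.Lc1_522
import Crest.Agent.R158.Cn3_109

/-!
# Row 158 (helper522): (L7) in the carrier of `Wf0_850`

* `l7` : local majorant `K` (depends on `starE x (2n)`) of the number of loops which split `BF x n`
  and have `n ≤ 2 (dia A + 1)`, with `∫ a^K ≤ C`
* `l7_int` : `∫ a^#{..} ≤ C`
* `moments` : the single-scale input of `Cn3_109`
-/

set_option autoImplicit false

noncomputable section

namespace Crest.Agent.R158.Lc522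

open MeasureTheory hiding Lp
open Crest.Agent.R161.Geo729 Crest.Agent.R161.Tas682
open Crest.Agent.R158.Em522 (starE)
open Crest.Agent.R158.It200 (Cfz Corner JL Hv Hf)
open Crest.Agent.R158.Wf850 (Face BF mem_BF Lps Splits)
open Crest.Agent.R158.Cn109 (dia exists_dia cnt lsW cnt_le_of_split)

theorem big_of {z : Cfz} {x : P2} {n : ℕ} {A : Finset Face} (h1 : A ∈ Lps z)
    (h2 : Splits A (BF x n)) (h3 : n ≤ 2 * (dia A + 1)) : Big z x n (A : Set (P2 × Bool)) := by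
  obtain ⟨c, hc, hA⟩ := h1
  obtain ⟨⟨f, hf, hfA⟩, g, hg, hgA⟩ := h2
  refine ⟨⟨c, hc, ?_⟩, ⟨f, hfA, mem_BF.1 hf⟩, ⟨g, hgA, mem_BF.1 hg⟩, ?_⟩
  · ext p
    exact hA p
  · obtain ⟨v, hv, w, hw, h4⟩ := exists_dia ⟨f, hfA⟩
    refine ⟨v, hv, w, hw, ?_⟩
    have h5 : (0 : ℤ) ≤ sd v.1 w.1 := le_max_of_le_left (abs_nonneg _)
    rcases h4 with h4 | h4
    · omega
    · omega

/-- **(L7)**, local majorant -/
theorem l7 (a : ℝ) (ha : 1 ≤ a) : ∃ C : ℝ, 1 ≤ C ∧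
    ∀ (x : P2) (n : ℕ), 1 ≤ n → ∃ K : Cfz → ℕ,
      (∀ z z' : Cfz, (∀ e ∈ starE x (2 * n), z e = z' e) → K z = K z') ∧
      ∫ z, a ^ K z ∂(Rs689.nu Rs689.hf) ≤ C ∧
      ∀ z : Cfz, {A | A ∈ Lps z ∧ Splits A (BF x n) ∧ n ≤ 2 * (dia A + 1)}.ncard ≤ K z := by
  classical
  obtain ⟨C, hC, h⟩ := exp_loops_int a ha
  refine ⟨C, hC, fun x n hn => ?_⟩
  obtain ⟨K, hK1, hK2, hK3⟩ := h x n hn
  refine ⟨K, hK1, hK2, fun z => ?_⟩
  refine (ncard_le_of_finset fun s hs => ?_).2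
  have h1 := hK3 z (s.image fun A : Finset Face => (A : Set (P2 × Bool))) (by
    intro B hB
    obtain ⟨A, hA, rfl⟩ := Finset.mem_image.1 hB
    obtain ⟨h1, h2, h3⟩ := hs A hA
    exact big_of h1 h2 h3)
  rwa [Finset.card_image_of_injective _ Finset.coe_injective] at h1

/-- **(L7)**, integrated -/
theorem l7_int (a : ℝ) (ha : 1 ≤ a) : ∃ C : ℝ, 1 ≤ C ∧ ∀ (x : P2) (n : ℕ), 1 ≤ n →
    ∫ z, a ^ {A | A ∈ Lps z ∧ Splits A (BF x n) ∧ n ≤ 2 * (dia A + 1)}.ncard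
      ∂(Rs689.nu Rs689.hf) ≤ C := by
  obtain ⟨C, hC, h⟩ := l7 a ha
  refine ⟨C, hC, fun x n hn => ?_⟩
  obtain ⟨K, hK1, hK2, hK3⟩ := h x n hn
  refine le_trans ?_ hK2
  exact integral_mono_of_nonneg (Filter.Eventually.of_forall fun z => by positivity)
    (integrable_pow ha hK1) (Filter.Eventually.of_forall fun z => pow_le_pow_right₀ ha (hK3 z))

/-- **single-scale moments** (the input `hM` of `Cn3_109`) -/
theorem moments : ∃ M : ℝ → ℝ, ∀ s : ℝ, 0 ≤ s → ∀ (k : ℕ) (v : Face),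
    ∫ z, Real.exp (s * cnt lsW k v z) ∂(Rs689.nu Rs689.hf) ≤ M s := by
  have h : ∀ s : ℝ, 0 ≤ s → ∃ C : ℝ, ∀ (k : ℕ) (v : Face),
      ∫ z, Real.exp (s * cnt lsW k v z) ∂(Rs689.nu Rs689.hf) ≤ C := by
    intro s hs
    obtain ⟨C, hC, h⟩ := l7 (Real.exp s) (Real.one_le_exp hs)
    refine ⟨C, fun k v => ?_⟩
    obtain ⟨K, hK1, hK2, hK3⟩ := h v.1 (2 ^ k) Nat.one_le_two_pow
    refine le_trans ?_ hK2
    refine integral_mono_of_nonneg (Filter.Eventually.of_forall fun z => by positivity)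
      (integrable_pow (Real.one_le_exp hs) hK1) (Filter.Eventually.of_forall fun z => ?_)
    simp only
    rw [← Real.exp_nat_mul, mul_comm]
    refine Real.exp_le_exp.2 (mul_le_mul_of_nonneg_right ?_ hs)
    refine (cnt_le_of_split k v z).trans ?_
    have h1 : {A | A ∈ Lps z ∧ Splits A (BF v.1 (2 ^ k : ℕ)) ∧ 2 ^ k ≤ dia A + 1} ⊆
        {A | A ∈ Lps z ∧ Splits A (BF v.1 (2 ^ k : ℕ)) ∧ 2 ^ k ≤ 2 * (dia A + 1)} :=
      fun A hA => ⟨hA.1, hA.2.1, by have := hA.2.2; omega⟩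
    have hfin : {A | A ∈ Lps z ∧ Splits A (BF v.1 (2 ^ k : ℕ)) ∧
        2 ^ k ≤ 2 * (dia A + 1)}.Finite :=
      (Wf850.fin_split z v.1 (2 ^ k : ℕ)).subset fun A hA => ⟨hA.1, hA.2.1⟩
    exact_mod_cast (Set.ncard_le_ncard h1 hfin).trans (hK3 z)
  choose! M hM using h
  exact ⟨M, hM⟩

end Crest.Agent.R158.Lc522
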