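import Crest.Agent.R158.Gx1_31
import Crest.Agent.R158.Lc2_522

/-!
# Row 158, Block A4 (helper31), file 2: uniform densities, crossing loops at any ratio

* `card_le_sq`   : `card A ≤ 2 (dia A + 1)²`
* `ud V`         : the uniform density of `V` as a `Finsupp`; `tot_ud`, `mass_ud`, `dens_ud`
* `share_ud`     : the share of a local loop is `≤ 2 C` if `4 ^ κ ≤ C |V|`
* `Sys.of_ud`    : the system of `∑ i, a i • ud (V i) + m0`
* `bq x ρ` (box), `rg x R` (square ring `R < sd ≤ 2R`)
* `T_mom`        : all moments of the number of loops which split `BF x n` and have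
  `n ≤ K (dia A + 1)`
-/

set_option autoImplicit false

noncomputable section

namespace Crest.Agent.R158.Gx31

open Real Function MeasureTheory
open Crest.Agent.R161.Tas682 (sd)
open Crest.Agent.R161.Geo729
open Crest.Agent.R158.It200 (Cfz Corner fc)
open Crest.Agent.R158.Wf850 (Lps Face BF mem_BF Splits card_BF BF_mono sd_self sd_tri sd_symm'
  exists_sep sepC cv cf sd_corner)
open Crest.Agent.R158.Vx107 (Fw Ntr W)
open Crest.Agent.R158.Cn109 (SS QQ lsW smalls mem_smalls VV SS_eq DepF)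
open Crest.Agent.R158.Hd109 (Dens Err)
open Crest.Agent.R158.Rs689 (nu hf)
open Crest.Agent.R158.Em522 (starE)

/-! ### cardinality and diameter -/

theorem card_le_sq (A : Finset Face) : A.card ≤ 2 * (Cn109.dia A + 1) ^ 2 := by
  classical
  rcases A.eq_empty_or_nonempty with rfl | hA
  · simp
  · obtain ⟨v, hv, hv'⟩ := A.exists_min_image (fun f => f.1.1) hA
    obtain ⟨w, hw, hw'⟩ := A.exists_min_image (fun f => f.1.2) hA
    have hsub : A ⊆ (Finset.Icc v.1.1 (v.1.1 + Cn109.dia A) ×ˢ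
        Finset.Icc w.1.2 (w.1.2 + Cn109.dia A)) ×ˢ (Finset.univ : Finset Bool) := by
      intro f hf
      rw [Finset.mem_product, Finset.mem_product, Finset.mem_Icc, Finset.mem_Icc]
      have h1 := (Cn109.coord_le_dia hv hf).1
      have h2 := (Cn109.coord_le_dia hw hf).2
      rw [abs_le] at h1 h2
      exact ⟨⟨⟨hv' f hf, by linarith [h1.2]⟩, hw' f hf, by linarith [h2.2]⟩, Finset.mem_univ _⟩
    refine (Finset.card_le_card hsub).trans (le_of_eq ?_)
    rw [Finset.card_product, Finset.card_product, Int.card_Icc, Int.card_Icc, Finset.card_univ,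
      Fintype.card_bool]
    have e1 : (v.1.1 + (Cn109.dia A : ℤ) + 1 - v.1.1).toNat = Cn109.dia A + 1 := by omega
    have e2 : (w.1.2 + (Cn109.dia A : ℤ) + 1 - w.1.2).toNat = Cn109.dia A + 1 := by omega
    rw [e1, e2]
    ring

/-! ### uniform densities -/

/-- the density function -/
def uf (V : Finset Face) : Face → ℝ := fun _ => (V.card : ℝ)⁻¹

open Classical in
/-- the uniform density of `V` -/
def ud (V : Finset Face) : Face →₀ ℝ :=
  Finsupp.onFinset V (fun v => if v ∈ V then (V.card : ℝ)⁻¹ else 0) fun v hv => by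
    by_contra h
    simp [h] at hv

theorem ud_mem {V : Finset Face} {v : Face} (h : v ∈ V) : ud V v = (V.card : ℝ)⁻¹ := by
  classical
  simp [ud, h]

theorem ud_not_mem {V : Finset Face} {v : Face} (h : v ∉ V) : ud V v = 0 := by
  classical
  simp [ud, h]

theorem uf_nonneg (V : Finset Face) (v : Face) : 0 ≤ uf V v := by unfold uf; positivity

theorem uf_sum {V : Finset Face} (h : V.Nonempty) : ∑ v ∈ V, uf V v = 1 := by
  have hc : (V.card : ℝ) ≠ 0 := by exact_mod_cast h.card_pos.ne'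
  unfold uf
  rw [Finset.sum_const, nsmul_eq_mul, mul_inv_cancel₀ hc]

theorem mass_ud (V A : Finset Face) : Vx107.mass (ud V) A = shr (uf V) V A := by
  classical
  unfold Vx107.mass shr Cn109.mass
  calc ∑ f ∈ A, ud V f = ∑ f ∈ A with f ∈ V, ud V f := by
        rw [Finset.sum_filter]
        refine Finset.sum_congr rfl fun w _ => ?_
        split_ifs with hwV
        · rfl
        · exact ud_not_mem hwV
    _ = ∑ f ∈ V with f ∈ A, ud V f := by
        refine Finset.sum_congr ?_ fun _ _ => rfl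
        ext f
        simp only [Finset.mem_filter]
        tauto
    _ = ∑ f ∈ V with f ∈ A, uf V f :=
        Finset.sum_congr rfl fun f hf => ud_mem (Finset.mem_filter.1 hf).1

theorem mass_ud_nonneg (V A : Finset Face) : 0 ≤ Vx107.mass (ud V) A := by
  rw [mass_ud]; exact shr_nonneg (fun v _ => uf_nonneg V v) A

theorem mass_ud_le_one (V A : Finset Face) : Vx107.mass (ud V) A ≤ 1 := by
  classical
  rcases V.eq_empty_or_nonempty with rfl | hV
  · rw [mass_ud]; simp [shr, Cn109.mass]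
  · rw [mass_ud]; exact shr_le_one (fun v _ => uf_nonneg V v) (uf_sum hV) A

theorem mass_ud_eq (V A : Finset Face) [DecidablePred fun v => v ∈ A] :
    Vx107.mass (ud V) A = ((V.filter fun v => v ∈ A).card : ℝ) / V.card := by
  classical
  rw [mass_ud]
  unfold shr Cn109.mass uf
  rw [Finset.sum_const, nsmul_eq_mul, div_eq_mul_inv]
  congr 3
  ext v
  simp

theorem mass_ud_zero {V A : Finset Face} (h : ∀ v ∈ V, v ∉ A) : Vx107.mass (ud V) A = 0 := by
  classical
  rw [mass_ud]
  unfold shr Cn109.mass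
  rw [Finset.sum_eq_zero]
  intro v hv
  rw [Finset.mem_filter] at hv
  exact absurd hv.2 (h v hv.1)

theorem mass_ud_one {V A : Finset Face} (hV : V.Nonempty) (h : ∀ v ∈ V, v ∈ A) :
    Vx107.mass (ud V) A = 1 := by
  classical
  rw [mass_ud, ← uf_sum hV]
  unfold shr Cn109.mass
  rw [Finset.filter_true_of_mem h]

theorem tot_ud {V : Finset Face} (hV : V.Nonempty) : Vx107.tot (ud V) = 1 := by
  classical
  rw [← uf_sum hV]
  unfold Vx107.tot Finsupp.sum
  have hs : (ud V).support ⊆ V := fun v hv => by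
    by_contra h
    exact Finsupp.mem_support_iff.1 hv (ud_not_mem h)
  rw [Finset.sum_subset hs fun v _ hv => Finsupp.notMem_support_iff.1 hv]
  exact Finset.sum_congr rfl fun v hv => ud_mem hv

theorem dens_ud {C : ℝ} {κ : ℕ} {V : Finset Face} (hV : V.Nonempty)
    (h : (4 : ℝ) ^ κ ≤ C * V.card) : Dens C κ V (uf V) where
  nn := fun v _ => uf_nonneg V v
  sum := uf_sum hV
  le := fun v _ => by
    have hc : (0 : ℝ) < V.card := by exact_mod_cast hV.card_pos
    unfold uf
    rw [le_div_iff₀ (by positivity), inv_mul_le_iff₀ hc, mul_comm]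
    exact h

/-- share of a small set -/
theorem share_ud {C : ℝ} {κ : ℕ} {V : Finset Face} (hV : V.Nonempty)
    (h : (4 : ℝ) ^ κ ≤ C * V.card) {A : Finset Face} (hA : Cn109.dia A + 1 < 2 ^ κ) :
    shr (uf V) V A ≤ 2 * C := by
  classical
  have hc : (0 : ℝ) < V.card := by exact_mod_cast hV.card_pos
  have h1 : ((V.filter fun v => v ∈ A).card : ℝ) ≤ 2 * 4 ^ κ := by
    have h2 : (V.filter fun v => v ∈ A).card ≤ A.card :=
      Finset.card_le_card fun v hv => (Finset.mem_filter.1 hv).2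
    have h3 := h2.trans (card_le_sq A)
    have h4 : 2 * (Cn109.dia A + 1) ^ 2 ≤ 2 * (2 ^ κ) ^ 2 :=
      Nat.mul_le_mul_left _ (Nat.pow_le_pow_left hA.le 2)
    calc ((V.filter fun v => v ∈ A).card : ℝ) ≤ ((2 * (2 ^ κ) ^ 2 : ℕ) : ℝ) := by
          exact_mod_cast h3.trans h4
      _ = 2 * 4 ^ κ := by
          push_cast
          rw [← pow_mul, mul_comm κ 2, pow_mul]
          norm_num
  rw [← mass_ud, mass_ud_eq, div_le_iff₀ hc]
  nlinarith

/-- **the system of `∑ i, a i • ud (V i) + m0`** -/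
theorem Sys.of_ud {ι : Type*} [Fintype ι] {κ : ι → ℕ} {V : ι → Finset Face} {a : ι → ℝ}
    {m m0 : Face →₀ ℝ} (hm : ∀ f, m f = ∑ i, a i * ud (V i) f + m0 f)
    (hne : ∀ i, (V i).Nonempty)
    (hdj : ∀ i j, i ≠ j → ∀ v ∈ V i, v ∉ V j)
    (hsep : ∀ i j, i ≠ j → ∀ v ∈ V i, ∀ w ∈ V j, (2 : ℤ) ^ κ i ≤ sd v.1 w.1 + 1)
    (h0 : ∀ i, ∀ v ∈ V i, m0 v = 0)
    (hm0 : ∀ i, ∀ v ∈ V i, ∀ w, m0 w ≠ 0 → (2 : ℤ) ^ κ i ≤ sd v.1 w.1 + 1) :
    Sys κ V (fun i => uf (V i)) a m where
  nn := fun i v _ => uf_nonneg _ v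
  sum := fun i => uf_sum (hne i)
  val := fun i v hv => by
    rw [hm, h0 i v hv, add_zero, Finset.sum_eq_single_of_mem i (Finset.mem_univ i), ud_mem hv]
    · rfl
    · intro j _ hj
      rw [ud_not_mem (hdj i j (Ne.symm hj) v hv), mul_zero]
  sepV := hsep
  sepm := fun i v hv w hw hwV => by
    by_cases h : m0 w = 0
    · rw [hm, h, add_zero] at hw
      obtain ⟨j, _, hj⟩ := Finset.exists_ne_zero_of_sum_ne_zero hw
      have hwj : w ∈ V j := by
        by_contra h'
        exact hj (by rw [ud_not_mem h', mul_zero])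
      have hij : i ≠ j := by
        rintro rfl; exact hwV hwj
      exact hsep i j hij v hv w hwj
    · exact hm0 i v hv w h

/-! ### boxes and rings -/

/-- the square ring `R < sd x ≤ 2 R` -/
def rg (x : P2) (R : ℕ) : Finset Face := BF x (2 * R : ℕ) \ BF x (R : ℕ)

theorem mem_rg {x : P2} {R : ℕ} {f : Face} : f ∈ rg x R ↔ (R : ℤ) < sd x f.1 ∧ sd x f.1 ≤ 2 * R := by
  unfold rg
  rw [Finset.mem_sdiff, mem_BF, mem_BF]
  push_cast
  constructor
  · rintro ⟨h1, h2⟩; exact ⟨not_le.1 h2, h1⟩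
  · rintro ⟨h1, h2⟩; exact ⟨h2, not_le.2 h1⟩

theorem card_rg (x : P2) (R : ℕ) : (rg x R).card = 24 * R ^ 2 + 8 * R := by
  unfold rg
  rw [Finset.card_sdiff_of_subset (BF_mono (by push_cast; linarith)), card_BF, card_BF]
  have : 2 * (2 * (2 * R) + 1) ^ 2 = 24 * R ^ 2 + 8 * R + 2 * (2 * R + 1) ^ 2 := by ring
  omega

theorem rg_nonempty {x : P2} {R : ℕ} (hR : 1 ≤ R) : (rg x R).Nonempty := by
  rw [← Finset.card_pos, card_rg]
  positivity

theorem BF_nonempty (x : P2) (n : ℕ) : (BF x n).Nonempty :=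
  ⟨(x, false), by rw [mem_BF, sd_self]; positivity⟩

/-- constant of the ring: `2 ^ κ ≤ R ⟹ C = 1/24` (share `≤ 1/12`) -/
theorem rg_card {x : P2} {R κ : ℕ} (h : 2 ^ κ ≤ R) : (4 : ℝ) ^ κ ≤ 1 / 24 * (rg x R).card := by
  rw [card_rg]
  have h1 : ((2 ^ κ : ℕ) : ℝ) ≤ R := by exact_mod_cast h
  push_cast at h1 ⊢
  have h2 : (4 : ℝ) ^ κ = (2 ^ κ) ^ 2 := by rw [← pow_mul, mul_comm κ 2, pow_mul]; norm_num
  rw [h2]
  have h3 : (0 : ℝ) ≤ 2 ^ κ := by positivity
  have h4 : (0 : ℝ) ≤ R := Nat.cast_nonneg _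
  nlinarith [pow_le_pow_left₀ h3 h1 2]

/-- constant of the box: `2 ^ κ ≤ ρ ⟹ C = 1/8` (share `≤ 1/4`) -/
theorem bq_card {x : P2} {ρ κ : ℕ} (h : 2 ^ κ ≤ ρ) : (4 : ℝ) ^ κ ≤ 1 / 8 * (BF x ρ).card := by
  rw [card_BF]
  have h1 : ((2 ^ κ : ℕ) : ℝ) ≤ ρ := by exact_mod_cast h
  push_cast at h1 ⊢
  have h2 : (4 : ℝ) ^ κ = (2 ^ κ) ^ 2 := by rw [← pow_mul, mul_comm κ 2, pow_mul]; norm_num
  rw [h2]
  have h3 : (0 : ℝ) ≤ 2 ^ κ := by positivity
  have h4 : (0 : ℝ) ≤ ρ := Nat.cast_nonneg _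
  nlinarith [pow_le_pow_left₀ h3 h1 2]

/-! ### crossing loops at any ratio -/

/-- grid point near `d` -/
def gp (x : P2) (n' : ℕ) (i : ℤ × ℤ) : P2 := (x.1 + n' * i.1, x.2 + n' * i.2)

theorem exists_gp {n' : ℕ} (hn' : 1 ≤ n') (d : ℤ) {n : ℤ} (hd : |d| ≤ n) :
    ∃ i : ℤ, |i| ≤ n / n' ∧ |d - n' * i| ≤ n' ∧ |n' * i| ≤ |d| := by
  have hp : (0 : ℤ) < n' := by exact_mod_cast hn'
  rcases le_total 0 d with h | h
  · refine ⟨d / n', ?_, ?_, ?_⟩
    · rw [abs_of_nonneg (Int.ediv_nonneg h hp.le)]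
      rw [abs_of_nonneg h] at hd
      exact Int.ediv_le_ediv hp hd
    · have h1 := Int.emod_nonneg d hp.ne'
      have h2 := Int.emod_lt_of_pos d hp
      have h3 : d - n' * (d / n') = d % n' := by
        have := Int.mul_ediv_add_emod d n'; linarith
      rw [h3, abs_of_nonneg h1]; exact h2.le
    · have h1 := Int.emod_nonneg d hp.ne'
      have h3 := Int.mul_ediv_add_emod d n'
      have h4 : 0 ≤ (n' : ℤ) * (d / n') := mul_nonneg hp.le (Int.ediv_nonneg h hp.le)
      rw [abs_of_nonneg h4, abs_of_nonneg h]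
      linarith
  · have h' : 0 ≤ -d := by linarith
    refine ⟨-(-d / n'), ?_, ?_, ?_⟩
    · rw [abs_neg, abs_of_nonneg (Int.ediv_nonneg h' hp.le)]
      rw [abs_of_nonpos h] at hd
      exact Int.ediv_le_ediv hp hd
    · have h1 := Int.emod_nonneg (-d) hp.ne'
      have h2 := Int.emod_lt_of_pos (-d) hp
      have h3 : d - n' * (-(-d / n')) = -((-d) % n') := by
        have := Int.mul_ediv_add_emod (-d) n'; linarith
      rw [h3, abs_neg, abs_of_nonneg h1]; exact h2.le
    · have h1 := Int.emod_nonneg (-d) hp.ne'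
      have h3 := Int.mul_ediv_add_emod (-d) n'
      have h4 : 0 ≤ (n' : ℤ) * (-d / n') := mul_nonneg hp.le (Int.ediv_nonneg h' hp.le)
      rw [mul_neg, abs_neg, abs_of_nonneg h4, abs_of_nonpos h]
      linarith

theorem sd_le_iff {x y : P2} {n : ℤ} : sd x y ≤ n ↔ |y.1 - x.1| ≤ n ∧ |y.2 - x.2| ≤ n := by
  unfold sd; exact max_le_iff

/-- crossing loops: splitting `BF x n` with `n ≤ K (dia A + 1)` -/
def CR (x : P2) (n K : ℕ) (z : Cfz) : Set (Finset Face) :=
  {A | A ∈ Lps z ∧ Splits A (BF x n) ∧ n ≤ K * (Cn109.dia A + 1)}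

theorem CR_fin (x : P2) (n K : ℕ) (z : Cfz) : (CR x n K z).Finite :=
  (Wf850.fin_split z x n).subset fun _ h => ⟨h.1, h.2.1⟩

theorem ncard_biUnion_le' {α ι : Type*} (s : Finset ι) (f : ι → Set α)
    (hf : ∀ i ∈ s, (f i).Finite) : (⋃ i ∈ s, f i).ncard ≤ ∑ i ∈ s, (f i).ncard := by
  classical
  induction s using Finset.induction_on with
  | empty => simp
  | insert a s ha ih =>
    rw [Finset.sum_insert ha, Finset.set_biUnion_insert]
    refine (Set.ncard_union_le _ _).trans ?_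
    exact Nat.add_le_add_left (ih fun i hi => hf i (Finset.mem_insert_of_mem hi)) _

open Classical in
/-- **moments of the number of crossing loops, any ratio** -/
theorem T_mom (a : ℝ) (ha : 1 ≤ a) (K : ℕ) : ∃ C : ℝ, 1 ≤ C ∧
    ∀ (x : P2) (n : ℕ), 1 ≤ n → ∃ T : Cfz → ℕ,
      DepF (starE x (6 * n)) T ∧ ∫ z, a ^ T z ∂(nu hf) ≤ C ∧
      ∀ z : Cfz, (CR x n K z).ncard ≤ T z := by
  set N : ℕ := (2 * K + 1) * (2 * K + 1) with hN
  have hN0 : 0 < N := by positivity
  have haN : 1 ≤ a ^ N := one_le_pow₀ ha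
  obtain ⟨C, hC, h⟩ := Lc522.l7 (a ^ N) haN
  refine ⟨C, hC, fun x n hn => ?_⟩
  rcases Nat.eq_zero_or_pos K with hK | hK
  · refine ⟨fun _ => 0, fun _ _ _ => rfl, by simpa using hC, fun z => ?_⟩
    have : CR x n K z = ∅ := by
      ext A
      unfold CR
      simp only [Set.mem_ofPred_eq, Set.mem_empty_iff_false, iff_false, hK, zero_mul]
      rintro ⟨_, _, h3⟩
      omega
    rw [this]; simp
  · -- `n' = ⌈n / K⌉`
    set n' : ℕ := (n + K - 1) / K with hn'
    have hn1 : 1 ≤ n' := by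
      rw [hn', Nat.one_le_div_iff hK]; omega
    have hn2 : n ≤ K * n' := by
      have h1 := Nat.div_add_mod (n + K - 1) K
      have h2 := Nat.mod_lt (n + K - 1) hK
      rw [← hn'] at h1
      omega
    have hn3 : n' ≤ n := by
      rw [hn']
      have h5 : n + K - 1 ≤ n * K := by
        obtain ⟨n0, rfl⟩ : ∃ n0, n = n0 + 1 := ⟨n - 1, by omega⟩
        obtain ⟨K0, rfl⟩ : ∃ K0, K = K0 + 1 := ⟨K - 1, by omega⟩
        have : (n0 + 1) * (K0 + 1) = n0 * K0 + n0 + K0 + 1 := by ring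
        omega
      calc (n + K - 1) / K ≤ (n * K) / K := Nat.div_le_div_right h5
        _ = n := Nat.mul_div_cancel _ hK
    have hdia : ∀ A : Finset Face, n ≤ K * (Cn109.dia A + 1) →
        n' + 1 ≤ 2 * (Cn109.dia A + 1) := by
      intro A hA
      have h1 : n' ≤ Cn109.dia A + 1 := by
        rw [hn']
        have h5 : n + K - 1 < K * (Cn109.dia A + 1) + K := by omega
        have h6 : (n + K - 1) / K < Cn109.dia A + 1 + 1 := by
          rw [Nat.div_lt_iff_lt_mul hK]
          have : (Cn109.dia A + 1 + 1) * K = K * (Cn109.dia A + 1) + K := by ring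
          omega
        omega
      omega
    choose M hM1 hM2 hM3 using fun y : P2 => h y (n' + 1) (by omega)
    -- index set
    set q : ℤ := (n : ℤ) / n' with hq
    have hqK : q ≤ K := by
      have h1 : (n : ℤ) ≤ K * n' := by exact_mod_cast hn2
      have hp : (0 : ℤ) < n' := by exact_mod_cast hn1
      rw [hq]
      exact Int.ediv_le_of_le_mul hp h1
    have hq0 : 0 ≤ q := Int.ediv_nonneg (by positivity) (by positivity)
    have hqn : n' * q ≤ n := by
      have h1 := Int.mul_ediv_add_emod (n : ℤ) n'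
      have h2 := Int.emod_nonneg (n : ℤ) (show (n' : ℤ) ≠ 0 by exact_mod_cast (by omega : n' ≠ 0))
      rw [hq]; linarith
    set I : Finset (ℤ × ℤ) := Finset.Icc (-q) q ×ˢ Finset.Icc (-q) q with hI
    have hIcard : I.card ≤ N := by
      rw [hI, Finset.card_product, Int.card_Icc]
      have : (q + 1 - -q).toNat ≤ 2 * K + 1 := by omega
      exact Nat.mul_le_mul this this
    have hIne : I.Nonempty := ⟨(0, 0), by
      rw [hI, Finset.mem_product, Finset.mem_Icc]
      exact ⟨⟨by omega, by omega⟩, by omega, by omega⟩⟩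
    have hI0 : (0 : ℝ) < I.card := by exact_mod_cast hIne.card_pos
    have hgpI : ∀ i ∈ I, sd x (gp x n' i) ≤ n := by
      intro i hi
      rw [hI, Finset.mem_product, Finset.mem_Icc, Finset.mem_Icc] at hi
      have hp : (0 : ℤ) ≤ n' := by positivity
      rw [sd_le_iff]
      unfold gp
      have e1 : x.1 + n' * i.1 - x.1 = n' * i.1 := by ring
      have e2 : x.2 + n' * i.2 - x.2 = n' * i.2 := by ring
      dsimp only
      rw [e1, e2, abs_mul, abs_mul, Nat.abs_cast]
      have a1 : |i.1| ≤ q := abs_le.2 hi.1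
      have a2 : |i.2| ≤ q := abs_le.2 hi.2
      constructor
      · exact (mul_le_mul_of_nonneg_left a1 hp).trans hqn
      · exact (mul_le_mul_of_nonneg_left a2 hp).trans hqn
    -- supports
    have hsub : ∀ i ∈ I, starE (gp x n' i) (2 * (n' + 1)) ⊆ starE x (6 * n) := by
      intro i hi e he
      have h1 := sd_le_iff.1 (hgpI i hi)
      rw [abs_le, abs_le] at h1
      unfold starE at he ⊢
      rw [Finset.mem_product, Finset.mem_product, Finset.mem_Icc, Finset.mem_Icc] at he ⊢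
      push_cast at he ⊢
      have h3 : (n' : ℤ) ≤ n := by exact_mod_cast hn3
      have h4 : (1 : ℤ) ≤ n := by exact_mod_cast hn
      refine ⟨⟨⟨?_, ?_⟩, ?_, ?_⟩, Finset.mem_univ _⟩ <;>
        linarith [he.1.1.1, he.1.1.2, he.1.2.1, he.1.2.2, h1.1.1, h1.1.2, h1.2.1, h1.2.2]
    refine ⟨fun z => ∑ i ∈ I, M (gp x n' i) z, ?_, ?_, ?_⟩
    · intro z z' hz
      refine Finset.sum_congr rfl fun i hi => hM1 _ z z' fun e he => hz e (hsub i hi he)
    · -- moments
      have hMI : ∀ i, Integrable (fun z => (a ^ N) ^ M (gp x n' i) z) (nu hf) := fun i =>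
        Lc522.integrable_pow haN (hM1 (gp x n' i))
      have hpt : ∀ z, a ^ (∑ i ∈ I, M (gp x n' i) z) ≤
          ∑ i ∈ I, (1 / (I.card : ℝ)) * (a ^ N) ^ M (gp x n' i) z := by
        intro z
        have h2 : a ^ (∑ i ∈ I, M (gp x n' i) z) =
            ∏ i ∈ I, ((a ^ I.card) ^ M (gp x n' i) z) ^ (1 / (I.card : ℝ)) := by
          rw [← Finset.prod_pow_eq_pow_sum]
          refine Finset.prod_congr rfl fun i _ => ?_
          rw [← pow_mul, ← Real.rpow_natCast a (I.card * _), ← Real.rpow_mul (by linarith)]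
          rw [← Real.rpow_natCast]
          congr 1
          push_cast
          field_simp
        rw [h2]
        refine (Real.geom_mean_le_arith_mean_weighted I (fun _ => 1 / (I.card : ℝ))
          (fun i => (a ^ I.card) ^ M (gp x n' i) z) (fun _ _ => by positivity)
          (by rw [Finset.sum_const, nsmul_eq_mul]; field_simp)
          (fun i _ => by positivity)).trans ?_
        refine Finset.sum_le_sum fun i _ => mul_le_mul_of_nonneg_left ?_ (by positivity)
        exact pow_le_pow_left₀ (by positivity) (pow_le_pow_right₀ ha hIcard) _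
      calc ∫ z, a ^ (∑ i ∈ I, M (gp x n' i) z) ∂(nu hf)
          ≤ ∫ z, ∑ i ∈ I, (1 / (I.card : ℝ)) * (a ^ N) ^ M (gp x n' i) z ∂(nu hf) :=
            integral_mono_of_nonneg (Filter.Eventually.of_forall fun z => by positivity)
              (integrable_finsetSum _ fun i _ => (hMI i).const_mul _)
              (Filter.Eventually.of_forall hpt)
        _ = ∑ i ∈ I, (1 / (I.card : ℝ)) * ∫ z, (a ^ N) ^ M (gp x n' i) z ∂(nu hf) := by
            rw [integral_finsetSum _ fun i _ => (hMI i).const_mul _]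
            exact Finset.sum_congr rfl fun i _ => integral_const_mul _ _
        _ ≤ ∑ i ∈ I, (1 / (I.card : ℝ)) * C :=
            Finset.sum_le_sum fun i _ => mul_le_mul_of_nonneg_left (hM2 _) (by positivity)
        _ = C := by rw [Finset.sum_const, nsmul_eq_mul]; field_simp
    · -- counting
      intro z
      have hcov : CR x n K z ⊆ ⋃ i ∈ I, {A | A ∈ Lps z ∧ Splits A (BF (gp x n' i) (n' + 1 : ℕ)) ∧
          n' + 1 ≤ 2 * (Cn109.dia A + 1)} := by
        rintro A ⟨h1, h2, h3⟩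
        obtain ⟨d, hd1, hd2, hd3⟩ := exists_sep h2
        rw [mem_BF] at hd1
        have hd1' := sd_le_iff.1 hd1
        obtain ⟨i1, hi1, hi2, _⟩ := exists_gp hn1 _ hd1'.1
        obtain ⟨i2, hi3, hi4, _⟩ := exists_gp hn1 _ hd1'.2
        have hsd : sd (gp x n' (i1, i2)) d.1 ≤ n' := by
          rw [sd_le_iff]
          unfold gp
          have e1 : d.1.1 - (x.1 + n' * i1) = (cv d).1.1 - x.1 - n' * i1 := by
            show d.1.1 - (x.1 + n' * i1) = d.1.1 - x.1 - n' * i1
            ring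
          have e2 : d.1.2 - (x.2 + n' * i2) = (cv d).1.2 - x.2 - n' * i2 := by
            show d.1.2 - (x.2 + n' * i2) = d.1.2 - x.2 - n' * i2
            ring
          dsimp only
          rw [e1, e2]
          exact ⟨hi2, hi4⟩
        have hcv : cv d ∈ BF (gp x n' (i1, i2)) (n' + 1 : ℕ) := by
          rw [mem_BF]
          show sd (gp x n' (i1, i2)) d.1 ≤ _
          push_cast; linarith
        have hcf : cf d ∈ BF (gp x n' (i1, i2)) (n' + 1 : ℕ) := by
          rw [mem_BF]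
          show sd (gp x n' (i1, i2)) (fc d) ≤ _
          have := (sd_corner (gp x n' (i1, i2)) d).2
          push_cast; linarith
        simp only [Set.mem_iUnion]
        refine ⟨(i1, i2), ?_, h1, ?_, hdia A h3⟩
        · rw [hI, Finset.mem_product, Finset.mem_Icc, Finset.mem_Icc]
          exact ⟨abs_le.1 hi1, abs_le.1 hi3⟩
        · unfold sepC at hd3
          by_cases hA : cv d ∈ A
          · refine ⟨⟨_, hcv, hA⟩, _, hcf, fun h => hd3 ⟨fun _ => h, fun _ => hA⟩⟩
          · refine ⟨⟨_, hcf, ?_⟩, _, hcv, hA⟩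
            by_contra h
            exact hd3 ⟨fun h' => absurd h' hA, fun h' => absurd h' h⟩
      have hfin : ∀ i ∈ I, {A | A ∈ Lps z ∧ Splits A (BF (gp x n' i) (n' + 1 : ℕ)) ∧
          n' + 1 ≤ 2 * (Cn109.dia A + 1)}.Finite := fun i _ =>
        (Wf850.fin_split z (gp x n' i) (n' + 1 : ℕ)).subset fun _ h => ⟨h.1, h.2.1⟩
      calc (CR x n K z).ncard ≤ _ := Set.ncard_le_ncard hcov
            (Set.Finite.biUnion (Finset.finite_toSet I) fun i hi => hfin i hi)
        _ ≤ ∑ i ∈ I, _ := ncard_biUnion_le' I _ hfin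
        _ ≤ ∑ i ∈ I, M (gp x n' i) z := Finset.sum_le_sum fun i _ => hM3 _ z

end Crest.Agent.R158.Gx31
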