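import Crest.Agent.R158.Hb2_656

/-!
R158, S0237, BLOCK BL, file 3 (helper656): the chains in ε-form.

* `away_of`, `rl_eps`, `ll_eps` : 679's chains for a fixed configuration, `L → ∞`
-/

set_option autoImplicit false

noncomputable section

namespace Crest.Agent.R158.Hb656

open Filter Topology
open Crest.Agent.R158.Sp896 (V)
open Crest.Agent.R158.Sw300 (Port)
open Crest.Agent.R158.Env664 (D Run Adj4 Mac mark mem_D beD div_iff exists_run nbc)
open Crest.Agent.R158.Ob664 (HG HA HD rgt)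
open Crest.Agent.R158.Tj656 (P4)
open Crest.Agent.R158.Bh679 (NP Words RLchain LLchain MKs HGs mq)
open Crest.Agent.R158.Wd377 (MK)

/-! ### marks -/

theorem mkS_zero (H : Finset V) (L : ℤ) (m : V × ZMod 4) : mkS H L 0 ∅ m = m := by
  unfold mkS
  obtain ⟨⟨x, y⟩, d⟩ := m
  simp

theorem mkS_empty (H : Finset V) (L δ : ℤ) (m : V × ZMod 4) [Decidable (m.1 ∈ D H L)] :
    mkS H L δ ∅ m = if m.1 ∈ D H L then ((m.1.1 + δ, m.1.2), m.2) else m := by
  unfold mkS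
  simp only [Finset.notMem_empty, and_false, if_false]

theorem mks_ok {P : P4} {H : Finset V} {L δ p y0 xr : ℤ} {S : Finset V} :
    MKs P.F H L δ p y0 xr P.cc S ↔
      Rg.ok ⟨shD P.F H L δ ∪ S, p, y0, xr, fun i => mkS H L δ S (mt P L i)⟩ := by
  unfold MKs Rg.ok mq mt
  simp only [mark_eq, Option.map_some]

theorem hgs_val {P : P4} {H : Finset V} {L δ p y0 xr : ℤ} {S : Finset V} :
    HGs P.F H L δ p y0 xr P.cc S =
      Rg.val ⟨shD P.F H L δ ∪ S, p, y0, xr, fun i => mkS H L δ S (mt P L i)⟩ := by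
  unfold HGs Rg.val GH mq mt
  simp only [mark_eq, Option.map_some]

/-! ### the slit is away from the hanging part -/

theorem away_of {F H : Finset V} {k i0 i1 : ℤ} {up : Bool} {a b j : ℤ}
    (h : Cfg F H k i0 i1 up a b j) {L x y : ℤ} (hL : 0 < L) (hs : Sl L a b j x y) :
    Bh679.Away H L x y (b * L + L - 1) := by
  intro x' h1 h2 t ht
  rw [mem_D hL] at ht
  obtain ⟨s1, es1⟩ : ∃ s, s = t.1 / L := ⟨_, rfl⟩
  obtain ⟨s2, es2⟩ : ∃ s, s = t.2 / L := ⟨_, rfl⟩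
  have g1 := (div_iff hL _ _).1 es1.symm
  have g2 := (div_iff hL _ _).1 es2.symm
  rw [← es1, ← es2] at ht
  have hx := hs.hx
  have hy := hs.hy
  have hy' := hs.hy'
  obtain ⟨u, eu, hu1, hu2⟩ : ∃ u, (u = x' ∨ u = x' - 1) ∧ a * L ≤ u ∧ u < b * L + L := by
    rcases le_or_gt x' (b * L + L - 1) with h3 | h3
    · exact ⟨x', Or.inl rfl, by linarith, by linarith⟩
    · have hx' := hs.hx'
      exact ⟨x' - 1, Or.inr rfl, by linarith, by linarith⟩
  obtain ⟨c, ec⟩ : ∃ c, c = u / L := ⟨_, rfl⟩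
  have g3 := (div_iff hL _ _).1 ec.symm
  have hac : a ≤ c := by
    by_contra hcon
    push Not at hcon
    have : c + 1 ≤ a := hcon
    nlinarith
  have hcb : c ≤ b := by
    by_contra hcon
    push Not at hcon
    have : b + 1 ≤ c := hcon
    nlinarith
  rcases h.far c hac hcb (s1, s2) ht with h3 | h3
  · left
    simp only at h3
    rcases le_abs.1 h3 with h4 | h4
    · have h5 : c * L + 2 * L ≤ s1 * L := by nlinarith
      have : L ≤ -(x' - t.1) := by rcases eu with rfl | rfl <;> linarith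
      have h6 := neg_le_abs (x' - t.1)
      linarith
    · have h5 : s1 * L + 2 * L ≤ c * L := by nlinarith
      have h6 := le_abs_self (x' - t.1)
      have h7 : L ≤ x' - t.1 := by rcases eu with rfl | rfl <;> linarith
      linarith
  · right
    simp only at h3
    rcases le_abs.1 h3 with h4 | h4
    · have h5 : j * L + 2 * L ≤ s2 * L := by nlinarith
      have h6 := neg_le_abs (y - t.2)
      linarith
    · have h5 : s2 * L + 2 * L ≤ j * L := by nlinarith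
      have h6 := le_abs_self (y - t.2)
      linarith

/-! ### the chains in ε-form -/

/-- choice of the radius of the thick rows -/
theorem choose_g {C a c : ℝ} (hC : 0 ≤ C) (ha : 0 < a) (hc : 0 < c) (N : ℕ) {ε : ℝ} (hε : 0 < ε) :
    ∃ L0 : ℤ, ∀ L : ℤ, L0 ≤ L → ∃ g : ℕ, 8 ≤ g ∧ 64 * (g : ℤ) ≤ L ∧
      N * (L * (C * (1 / (g : ℝ)) ^ (1 + c)) + C * ((g : ℝ) / L) ^ a) ≤ ε := by
  -- `d` with `N C d ^ a ≤ ε / 2`
  obtain ⟨d, hd0, hd1, hd2⟩ : ∃ d : ℝ, 0 < d ∧ d ≤ 1 / 64 ∧ N * (C * d ^ a) ≤ ε / 2 := by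
    have hT : Tendsto (fun d : ℝ => (N : ℝ) * (C * d ^ a)) (𝓝[>] 0) (𝓝 0) := by
      have h1 : Tendsto (fun d : ℝ => d ^ a) (𝓝[>] 0) (𝓝 0) := by
        have h2 : Tendsto (fun d : ℝ => d ^ a) (𝓝 0) (𝓝 ((0 : ℝ) ^ a)) :=
          (Real.continuousAt_rpow_const 0 a (Or.inr ha.le)).tendsto
        rw [Real.zero_rpow ha.ne'] at h2
        exact h2.mono_left nhdsWithin_le_nhds
      simpa using (h1.const_mul C).const_mul (N : ℝ)
    have h3 : ∀ᶠ d : ℝ in 𝓝[>] 0, (N : ℝ) * (C * d ^ a) < ε / 2 :=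
      hT.eventually_lt_const (by linarith)
    have h4 : ∀ᶠ d : ℝ in 𝓝[>] (0 : ℝ), d ∈ Set.Ioc (0 : ℝ) (1 / 64) :=
      Ioc_mem_nhdsGT (by norm_num)
    obtain ⟨d, h5, h6⟩ := (h3.and h4).exists
    exact ⟨d, h6.1, h6.2, h5.le⟩
  -- first part
  have hT2 : Tendsto (fun L : ℤ => (N : ℝ) * (C * (2 / d) ^ (1 + c) * (L : ℝ) ^ (-c))) atTop
      (𝓝 0) := by
    have h1 : Tendsto (fun L : ℤ => (L : ℝ) ^ (-c)) atTop (𝓝 0) :=
      (tendsto_rpow_neg_atTop hc).comp tendsto_intCast_atTop_atTop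
    simpa using (h1.const_mul (C * (2 / d) ^ (1 + c))).const_mul (N : ℝ)
  have h3 : ∀ᶠ L : ℤ in atTop, (N : ℝ) * (C * (2 / d) ^ (1 + c) * (L : ℝ) ^ (-c)) < ε / 2 :=
    hT2.eventually_lt_const (by linarith)
  obtain ⟨L1, hL1⟩ := eventually_atTop.1 h3
  refine ⟨max L1 (⌈(16 / d : ℝ)⌉), fun L hL => ?_⟩
  have hLa : L1 ≤ L := (le_max_left _ _).trans hL
  have hLb : (16 / d : ℝ) ≤ L := by
    have := (le_max_right L1 (⌈(16 / d : ℝ)⌉)).trans hL
    exact (Int.le_ceil _).trans (by exact_mod_cast this)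
  have hdL : 16 ≤ d * L := by
    rw [div_le_iff₀ hd0] at hLb
    linarith
  have hLp : (0 : ℝ) < L := by
    have : (0 : ℝ) < 16 / d := by positivity
    linarith
  obtain ⟨g, hg⟩ : ∃ g, g = ⌊d * (L : ℝ)⌋₊ := ⟨_, rfl⟩
  have g1 : (g : ℝ) ≤ d * L := by rw [hg]; exact Nat.floor_le (by positivity)
  have g2 : d * L < (g : ℝ) + 1 := by rw [hg]; exact Nat.lt_floor_add_one _
  have g3 : (8 : ℝ) ≤ g := by linarith
  have g4 : d * L / 2 ≤ g := by linarith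
  refine ⟨g, by exact_mod_cast g3, ?_, ?_⟩
  · have : (64 * (g : ℝ)) ≤ L := by nlinarith
    exact_mod_cast this
  · have e1 : (L : ℝ) * (C * (1 / (g : ℝ)) ^ (1 + c)) ≤ C * (2 / d) ^ (1 + c) * (L : ℝ) ^ (-c) := by
      have h5 : (1 / (g : ℝ)) ≤ 2 / d * (1 / L) := by
        rw [div_le_iff₀ (by linarith)]
        have : 2 / d * (1 / L) * (d * L / 2) = 1 := by field_simp
        calc (1 : ℝ) = 2 / d * (1 / L) * (d * L / 2) := this.symm
          _ ≤ 2 / d * (1 / L) * g := by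
            apply mul_le_mul_of_nonneg_left g4
            positivity
      have h6 : (1 / (g : ℝ)) ^ (1 + c) ≤ (2 / d * (1 / L)) ^ (1 + c) :=
        Real.rpow_le_rpow (by positivity) h5 (by linarith)
      have h7 : (2 / d * (1 / (L : ℝ))) ^ (1 + c) = (2 / d) ^ (1 + c) * (L : ℝ) ^ (-(1 + c)) := by
        rw [Real.mul_rpow (by positivity) (by positivity), one_div, Real.inv_rpow hLp.le,
          Real.rpow_neg hLp.le]
      have h8 : (L : ℝ) * (L : ℝ) ^ (-(1 + c)) = (L : ℝ) ^ (-c) := by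
        nth_rewrite 1 [← Real.rpow_one (L : ℝ)]
        rw [← Real.rpow_add hLp]
        congr 1
        ring
      calc (L : ℝ) * (C * (1 / (g : ℝ)) ^ (1 + c)) ≤
          (L : ℝ) * (C * ((2 / d) ^ (1 + c) * (L : ℝ) ^ (-(1 + c)))) := by
            rw [← h7]
            gcongr
        _ = C * (2 / d) ^ (1 + c) * ((L : ℝ) * (L : ℝ) ^ (-(1 + c))) := by ring
        _ = C * (2 / d) ^ (1 + c) * (L : ℝ) ^ (-c) := by rw [h8]
    have e2 : ((g : ℝ) / L) ^ a ≤ d ^ a := by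
      apply Real.rpow_le_rpow (by positivity) _ ha.le
      rw [div_le_iff₀ hLp]
      exact g1
    have e3 := hL1 L hLa
    have hN : (0 : ℝ) ≤ N := Nat.cast_nonneg N
    calc N * (L * (C * (1 / (g : ℝ)) ^ (1 + c)) + C * ((g : ℝ) / L) ^ a)
        ≤ N * (C * (2 / d) ^ (1 + c) * (L : ℝ) ^ (-c) + C * d ^ a) := by
          apply mul_le_mul_of_nonneg_left _ hN
          apply add_le_add e1
          exact mul_le_mul_of_nonneg_left e2 hC
      _ = N * (C * (2 / d) ^ (1 + c) * (L : ℝ) ^ (-c)) + N * (C * d ^ a) := by ring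
      _ ≤ ε := by linarith

/-- two-way link -/
def Lk (R R' : Rg) (ε : ℝ) : Prop := (R.ok ↔ R'.ok) ∧ (R.ok → ‖R.val - R'.val‖ ≤ ε)

theorem Lk.fwd {R R' : Rg} {ε : ℝ} (h : Lk R R' ε) : Lk1 R R' ε := fun g => ⟨h.1.1 g, h.2 g⟩

theorem Lk.bwd {R R' : Rg} {ε : ℝ} (h : Lk R R' ε) : Lk1 R' R ε := fun g =>
  ⟨h.1.2 g, by rw [norm_sub_rev]; exact h.2 (h.1.2 g)⟩

theorem rl_eps (hc : RLchain) (hw : WordsEx) {P : P4} {H : Finset V} {k i0 i1 : ℤ} {up : Bool}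
    {a b j : ℤ} (h : Cfg P.F H k i0 i1 up a b j) {δ : ℤ}
    (hδ : up = true ∧ δ = -1 ∨ up = false ∧ δ = 0) {ε : ℝ} (hε : 0 < ε) :
    ∃ L0 : ℤ, ∀ L : ℤ, L0 ≤ L → Even L → ∀ x y : ℤ, Sl L a b j x y →
      Lk ⟨shD P.F H L δ, x, y, b * L + L - 1, fun i => mkS H L δ ∅ (mt P L i)⟩
        ⟨shD P.F H L δ ∪ RL P.F H L δ, x, y, b * L + L - 1,
          fun i => mkS H L δ (RL P.F H L δ) (mt P L i)⟩ ε := by
  obtain ⟨C, α, c, hC, hα, hc', hch⟩ := hc
  obtain ⟨N, hN⟩ := hch P.F h.np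
  obtain ⟨L1, hg⟩ := choose_g hC hα hc' N hε
  obtain ⟨L2, hw2⟩ := hw P H k i0 i1 up a b j h
  refine ⟨max (max L1 L2) 1, fun L hL hev x y hs => ?_⟩
  have l1 : L1 ≤ L := (le_max_left _ _).trans ((le_max_left _ _).trans hL)
  have l2 : L2 ≤ L := (le_max_right _ _).trans ((le_max_left _ _).trans hL)
  have l3 : 1 ≤ L := (le_max_right _ _).trans hL
  obtain ⟨g, g1, g2, g3⟩ := hg L l1
  have hδ' : δ = -1 ∨ δ = 0 := by rcases hδ with ⟨-, e⟩ | ⟨-, e⟩ <;> simp [e]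
  obtain ⟨r1, r2⟩ := hN H k i0 i1 up h.hang L δ x y (b * L + L - 1) g hev hδ' g1 g2
    (by have := hs.hx'; omega) (away_of h (by omega) hs) ((hw2 L l2 hev x y hs).1 δ hδ) P.cc
    (fun i i' e => by by_contra hne; exact Hw949.ci_inj P hne e) (Hw949.ci_spec P)
  rw [mks_ok, mks_ok, Finset.union_empty] at r1
  rw [mks_ok, hgs_val, hgs_val, Finset.union_empty] at r2
  exact ⟨r1, fun g => by rw [norm_sub_rev]; exact (r2 g).trans g3⟩

theorem ll_eps (hc : LLchain) (hw : WordsEx) {P : P4} {H : Finset V} {k i0 i1 : ℤ} {up : Bool}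
    {a b j : ℤ} (h : Cfg P.F H k i0 i1 up a b j) {δ : ℤ}
    (hδ : up = true ∧ δ = 0 ∨ up = false ∧ δ = 1) {ε : ℝ} (hε : 0 < ε) :
    ∃ L0 : ℤ, ∀ L : ℤ, L0 ≤ L → Even L → ∀ x y : ℤ, Sl L a b j x y →
      Lk ⟨shD P.F H L δ, x, y, b * L + L - 1, fun i => mkS H L δ ∅ (mt P L i)⟩
        ⟨shD P.F H L δ ∪ LL P.F H L δ, x, y, b * L + L - 1,
          fun i => mkS H L δ (LL P.F H L δ) (mt P L i)⟩ ε := by
  obtain ⟨C, α, c, hC, hα, hc', hch⟩ := hc
  obtain ⟨N, hN⟩ := hch P.F h.np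
  obtain ⟨L1, hg⟩ := choose_g hC hα hc' N hε
  obtain ⟨L2, hw2⟩ := hw P H k i0 i1 up a b j h
  refine ⟨max (max L1 L2) 1, fun L hL hev x y hs => ?_⟩
  have l1 : L1 ≤ L := (le_max_left _ _).trans ((le_max_left _ _).trans hL)
  have l2 : L2 ≤ L := (le_max_right _ _).trans ((le_max_left _ _).trans hL)
  have l3 : 1 ≤ L := (le_max_right _ _).trans hL
  obtain ⟨g, g1, g2, g3⟩ := hg L l1
  have hδ' : δ = 0 ∨ δ = 1 := by rcases hδ with ⟨-, e⟩ | ⟨-, e⟩ <;> simp [e]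
  obtain ⟨r1, r2⟩ := hN H k i0 i1 up h.hang L δ x y (b * L + L - 1) g hev hδ' g1 g2
    (by have := hs.hx'; omega) (away_of h (by omega) hs) ((hw2 L l2 hev x y hs).2 δ hδ) P.cc
    (fun i i' e => by by_contra hne; exact Hw949.ci_inj P hne e) (Hw949.ci_spec P)
  rw [mks_ok, mks_ok, Finset.union_empty] at r1
  rw [mks_ok, hgs_val, hgs_val, Finset.union_empty] at r2
  exact ⟨r1, fun g => by rw [norm_sub_rev]; exact (r2 g).trans g3⟩

end Crest.Agent.R158.Hb656
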