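import Crest.Agent.R158.Hb3_656

/-!
R158, S0237, BLOCK BL, file 4 (helper656): the marks of the DR plugs, and the pairs.

* `mkE_eq_mU`, `pkE_eq_mD`
* `up_pair`, `dn_pair`, `one_pair`
-/

set_option autoImplicit false

noncomputable section

namespace Crest.Agent.R158.Hb656

open Filter Topology
open Crest.Agent.R158.Sp896 (V)
open Crest.Agent.R158.Sw300 (Port)
open Crest.Agent.R158.Env664 (D Run Adj4 Mac mark mem_D beD div_iff exists_run nbc z4)
open Crest.Agent.R158.Ob664 (HG HA HD rgt)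
open Crest.Agent.R158.Tj656 (P4)
open Crest.Agent.R158.Bh679 (NP Words RLchain LLchain MKs HGs mq)
open Crest.Agent.R158.Wd377 (MK)

theorem memD {F : Finset V} {L : ℤ} (hL : 0 < L) {x y a b : ℤ} (h1 : a * L ≤ x)
    (h2 : x < a * L + L) (h3 : b * L ≤ y) (h4 : y < b * L + L) :
    ((x, y) : V) ∈ D F L ↔ ((a, b) : V) ∈ F := Hw949.memD' hL h1 h2 h3 h4

theorem mul_lt_of {L : ℤ} (hL : 0 < L) {a b : ℤ} (h : a * L < b * L) : a < b :=
  lt_of_mul_lt_mul_right h hL.le

theorem nbc_1 (c : V) : nbc c 1 = (c.1, c.2 + 1) := Hw949.nt_1 c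
theorem nbc_3 (c : V) : nbc c 3 = (c.1, c.2 - 1) := Hw949.nt_3 c

section marks

variable {P : P4} {H : Finset V} {k a b a' b' L x y0 y1 : ℤ} {r h : ℝ}

/-- integer form of the position -/
theorem Cr.int (hc : Cr L k a b a' b' r h x y0 y1) (hL : 8 ≤ L) (hh : h ≤ 1 / 8) (hr : 0 < r) :
    k * L - L / 2 < y0 ∧ y1 < k * L + L / 2 - 1 ∧ a * L ≤ x ∧ a' * L ≤ x ∧ x ≤ b * L + L ∧
      x ≤ b' * L + L := by
  have hLr : (8 : ℝ) ≤ L := by exact_mod_cast hL
  have h1 := hc.lo'
  have h2 := hc.hi'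
  have h3 := hc.l0
  have h4 := hc.l1
  have h5 := hc.r0
  have h6 := hc.r1
  have e1 : h * L ≤ L / 8 := by nlinarith
  have e2 : 0 ≤ r * L := by positivity
  have hd : ∀ z : ℤ, (z : ℝ) ≤ L / 8 → z ≤ L / 8 := by
    intro z hz
    rw [Int.le_ediv_iff_mul_le (by norm_num)]
    have : (z : ℝ) * 8 ≤ L := by linarith
    exact_mod_cast this
  have g1 : k * L - y0 ≤ L / 8 := hd _ (by push_cast; linarith)
  have g2 : y1 - k * L ≤ L / 8 := hd _ (by push_cast; linarith)
  refine ⟨by omega, by omega, ?_, ?_, ?_, ?_⟩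
  · have : (a : ℝ) * L ≤ x := by linarith
    exact_mod_cast this
  · have : (a' : ℝ) * L ≤ x := by linarith
    exact_mod_cast this
  · have : (x : ℝ) ≤ b * L + L := by linarith
    exact_mod_cast this
  · have : (x : ℝ) ≤ b' * L + L := by linarith
    exact_mod_cast this

theorem row_cases {L : ℤ} (hL : 8 ≤ L) (k c e : ℤ) (he0 : 0 ≤ e) (he1 : e < L) {y : ℤ}
    (h1 : k * L - L / 2 < y) (h2 : y < k * L + L / 2 - 1) (hy : y = c * L + e) :
    (c = k ∧ e < L / 2 - 1) ∨ (c = k - 1 ∧ L / 2 < e) := by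
  have hL0 : 0 < L := by omega
  have g1 : (k - 1) * L < (c + 1) * L := by
    have : (k - 1) * L = k * L - L := by ring
    have e3 : (c + 1) * L = c * L + L := by ring
    omega
  have g2 : c * L < (k + 1) * L := by
    have : (k + 1) * L = k * L + L := by ring
    omega
  have g3 := mul_lt_of hL0 g1
  have g4 := mul_lt_of hL0 g2
  have : c = k ∨ c = k - 1 := by omega
  rcases this with rfl | rfl
  · left
    exact ⟨rfl, by omega⟩
  · right
    have e3 : (k - 1) * L = k * L - L := by ring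
    exact ⟨rfl, by omega⟩

/-- **UP: the marks after DR** -/
theorem mkE_eq_mU (t : Two P.F H k a b a' b') (hb : b' < b)
    (hc : Cr L k a b a' b' r h x y0 y1) (hL : 8 ≤ L) (hev : Even L) (hh : h ≤ 1 / 8) (hr : 0 < r)
    (i : Fin 3) :
    mkE (Sx L k b b' x y0 y1 ∪ D H L) (mt P L i) = mU H L k b b' (mt P L i) := by
  classical
  obtain ⟨q1, q2, q3, q4, q5, q6⟩ := hc.int hL hh hr
  have hlo := hc.lo
  have hhi := hc.hi
  have hL0 : 0 < L := by omega
  obtain ⟨hF, hN⟩ := Hw949.ci_spec P i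
  have hco := t.com
  rw [max_le_iff, le_min_iff, le_min_iff] at hco
  unfold mt
  obtain ⟨c, hcd⟩ : ∃ c, c = (P.cc i).1 := ⟨_, rfl⟩
  obtain ⟨d, hdd⟩ : ∃ d, d = (P.cc i).2 := ⟨_, rfl⟩
  rw [← hcd, ← hdd] at hN ⊢
  rw [← hcd] at hF
  obtain ⟨c1, c2⟩ := c
  obtain ⟨l, rfl⟩ := hev
  -- membership in the slab
  have key : (mk2 (l + l) (c1, c2) d).1 ∈ Sx (l + l) k b b' x y0 y1 ↔
      (d = 1 ∧ (mk2 (l + l) (c1, c2) d).1.2 = k * (l + l) - 1 ∧
        b' * (l + l) + (l + l) ≤ (mk2 (l + l) (c1, c2) d).1.1 ∧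
        (mk2 (l + l) (c1, c2) d).1.1 < b * (l + l) + (l + l)) := by
    rw [mem_Sx]
    have hl2 : (l + l) / 2 = l := by omega
    rcases z4 d with rfl | rfl | rfl | rfl
    · have e : mk2 (l + l) (c1, c2) 0 = ((c1 * (l + l), c2 * (l + l) + (l + l) / 2), 0) := rfl
      rw [e]
      simp only
      constructor
      · intro g
        exfalso
        have g' : k * (l + l) - (l + l) / 2 < c2 * (l + l) + (l + l) / 2 ∧
            c2 * (l + l) + (l + l) / 2 < k * (l + l) + (l + l) / 2 - 1 := by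
          rcases g with g | g <;> constructor <;> omega
        rcases row_cases (by omega) k c2 ((l + l) / 2) (by omega) (by omega) g'.1 g'.2 rfl with g | g
          <;> omega
      · rintro ⟨g, -⟩
        exact absurd g (by decide)
    · have e : mk2 (l + l) (c1, c2) 1 =
          ((c1 * (l + l) + (l + l) / 2, c2 * (l + l) + (l + l) - 1), 1) := by
        unfold mk2; rw [if_neg (by decide), if_pos rfl]
      rw [e]
      simp only
      rw [nbc_1] at hN
      simp only at hN
      constructor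
      · intro g
        have g' : k * (l + l) - (l + l) / 2 < c2 * (l + l) + (l + l) - 1 ∧
            c2 * (l + l) + (l + l) - 1 < k * (l + l) + (l + l) / 2 - 1 := by
          rcases g with g | g <;> constructor <;> omega
        rcases row_cases (by omega) k c2 ((l + l) - 1) (by omega) (by omega) g'.1 g'.2
          (by ring) with g3 | ⟨rfl, -⟩
        · omega
        have e5 : (k - 1) * (l + l) = k * (l + l) - (l + l) := by ring
        rcases g with g | g
        · refine ⟨trivial, by omega, ?_, g.1.2⟩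
          -- the cell is to the right of the upper run
          by_contra hcon
          push Not at hcon
          have f1 : c1 ≤ b' := by
            by_contra hcc
            push Not at hcc
            have : b' + 1 ≤ c1 := hcc
            have : (b' + 1) * (l + l) ≤ c1 * (l + l) := Int.mul_le_mul_of_nonneg_right this (by omega)
            have e6 : (b' + 1) * (l + l) = b' * (l + l) + (l + l) := by ring
            omega
          have f2 : a' ≤ c1 := by
            by_contra hcc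
            push Not at hcc
            have : c1 + 1 ≤ a' := hcc
            have : (c1 + 1) * (l + l) ≤ a' * (l + l) := Int.mul_le_mul_of_nonneg_right this (by omega)
            have e6 : (c1 + 1) * (l + l) = c1 * (l + l) + (l + l) := by ring
            omega
          apply hN
          have := t.up.mem c1 f2 f1
          rwa [show k - 1 + 1 = k by ring]
        · omega
      · rintro ⟨-, g1, g2, g3⟩
        have f1 : b' < c1 := by
          by_contra hcc
          push Not at hcc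
          have : c1 * (l + l) ≤ b' * (l + l) := Int.mul_le_mul_of_nonneg_right hcc (by omega)
          omega
        left
        refine ⟨⟨?_, g3⟩, by omega, by omega⟩
        have : (b' + 1) * (l + l) ≤ c1 * (l + l) :=
          Int.mul_le_mul_of_nonneg_right (by omega) (by omega)
        have e6 : (b' + 1) * (l + l) = b' * (l + l) + (l + l) := by ring
        omega
    · have e : mk2 (l + l) (c1, c2) 2 =
          ((c1 * (l + l) + (l + l) - 1, c2 * (l + l) + (l + l) / 2 - 1), 2) := by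
        unfold mk2; rw [if_neg (by decide), if_neg (by decide), if_pos rfl]
      rw [e]
      simp only
      constructor
      · intro g
        exfalso
        have g' : k * (l + l) - (l + l) / 2 < c2 * (l + l) + (l + l) / 2 - 1 ∧
            c2 * (l + l) + (l + l) / 2 - 1 < k * (l + l) + (l + l) / 2 - 1 := by
          rcases g with g | g <;> constructor <;> omega
        rcases row_cases (by omega) k c2 ((l + l) / 2 - 1) (by omega) (by omega) g'.1 g'.2
          (by ring) with g | g <;> omega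
      · rintro ⟨g, -⟩
        exact absurd g (by decide)
    · have e : mk2 (l + l) (c1, c2) 3 = ((c1 * (l + l) + (l + l) / 2 - 1, c2 * (l + l)), 3) := by
        unfold mk2; rw [if_neg (by decide), if_neg (by decide), if_neg (by decide)]
      rw [e]
      simp only
      rw [nbc_3] at hN
      simp only at hN
      constructor
      · intro g
        exfalso
        have g' : k * (l + l) - (l + l) / 2 < c2 * (l + l) ∧
            c2 * (l + l) < k * (l + l) + (l + l) / 2 - 1 := by
          rcases g with g | g <;> constructor <;> omega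
        rcases row_cases (by omega) k c2 0 (by omega) (by omega) g'.1 g'.2
          (by ring) with ⟨rfl, -⟩ | g3
        · rcases g with g | g
          · omega
          · have f1 : c1 ≤ b' := by
              by_contra hcc
              push Not at hcc
              have : b' + 1 ≤ c1 := hcc
              have : (b' + 1) * (l + l) ≤ c1 * (l + l) :=
                Int.mul_le_mul_of_nonneg_right this (by omega)
              have e6 : (b' + 1) * (l + l) = b' * (l + l) + (l + l) := by ring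
              omega
            have f2 : a ≤ c1 := by
              by_contra hcc
              push Not at hcc
              have : c1 + 1 ≤ a := hcc
              have : (c1 + 1) * (l + l) ≤ a * (l + l) :=
                Int.mul_le_mul_of_nonneg_right this (by omega)
              have e6 : (c1 + 1) * (l + l) = c1 * (l + l) + (l + l) := by ring
              omega
            exact hN (t.lo.mem c1 f2 (by omega))
        · omega
      · rintro ⟨g, -⟩
        exact absurd g (by decide)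
  have hd : (mk2 (l + l) (c1, c2) d).2 = d := by
    unfold mk2
    rcases z4 d with rfl | rfl | rfl | rfl <;> rfl
  have hmem : (mk2 (l + l) (c1, c2) d).1 ∈ Sx (l + l) k b b' x y0 y1 ∪ D H (l + l) ↔ _ :=
    Finset.mem_union.trans (or_congr_left key)
  unfold mkE mU
  rw [mkS_empty]
  by_cases hcond : d = 1 ∧ (mk2 (l + l) (c1, c2) d).1.2 = k * (l + l) - 1 ∧
        b' * (l + l) + (l + l) ≤ (mk2 (l + l) (c1, c2) d).1.1 ∧
        (mk2 (l + l) (c1, c2) d).1.1 < b * (l + l) + (l + l)
  · rw [if_pos (hmem.2 (Or.inl hcond)), if_pos (by rw [hd]; exact hcond)]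
  · have hcond' : ¬ ((mk2 (l + l) (c1, c2) d).2 = 1 ∧
        (mk2 (l + l) (c1, c2) d).1.2 = k * (l + l) - 1 ∧
        b' * (l + l) + (l + l) ≤ (mk2 (l + l) (c1, c2) d).1.1 ∧
        (mk2 (l + l) (c1, c2) d).1.1 < b * (l + l) + (l + l)) := by rw [hd]; exact hcond
    rw [if_neg hcond']
    by_cases hD : (mk2 (l + l) (c1, c2) d).1 ∈ D H (l + l)
    · rw [if_pos (hmem.2 (Or.inr hD)), if_pos hD]
      rfl
    · rw [if_neg (fun g => (hmem.1 g).elim hcond hD), if_neg hD]

/-- **DN: the marks before DR** -/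
theorem pkE_eq_mD (t : Two P.F H k a b a' b') (hb : b < b')
    (hc : Cr L k a b a' b' r h x y0 y1) (hL : 8 ≤ L) (hev : Even L) (hh : h ≤ 1 / 8) (hr : 0 < r)
    (i : Fin 3) :
    pkE (Sx L k b b' x y0 y1 ∪ (D H L).image fun t => (t.1 + 1, t.2)) (mt P L i) =
      mD H L k b b' (mt P L i) := by
  classical
  obtain ⟨q1, q2, q3, q4, q5, q6⟩ := hc.int hL hh hr
  have hlo := hc.lo
  have hhi := hc.hi
  have hL0 : 0 < L := by omega
  obtain ⟨hF, hN⟩ := Hw949.ci_spec P i
  have hco := t.com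
  rw [max_le_iff, le_min_iff, le_min_iff] at hco
  unfold mt
  obtain ⟨c, hcd⟩ : ∃ c, c = (P.cc i).1 := ⟨_, rfl⟩
  obtain ⟨d, hdd⟩ : ∃ d, d = (P.cc i).2 := ⟨_, rfl⟩
  rw [← hcd, ← hdd] at hN ⊢
  rw [← hcd] at hF
  obtain ⟨c1, c2⟩ := c
  obtain ⟨l, rfl⟩ := hev
  -- membership in the slab
  have key : ((mk2 (l + l) (c1, c2) d).1.1 + 1, (mk2 (l + l) (c1, c2) d).1.2) ∈
        Sx (l + l) k b b' x y0 y1 ↔
      (d = 3 ∧ (mk2 (l + l) (c1, c2) d).1.2 = k * (l + l) ∧
        b * (l + l) + (l + l) ≤ (mk2 (l + l) (c1, c2) d).1.1 ∧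
        (mk2 (l + l) (c1, c2) d).1.1 < b' * (l + l) + (l + l)) := by
    rw [mem_Sx]
    rcases z4 d with rfl | rfl | rfl | rfl
    · have e : mk2 (l + l) (c1, c2) 0 = ((c1 * (l + l), c2 * (l + l) + (l + l) / 2), 0) := rfl
      rw [e]
      simp only
      constructor
      · intro g
        exfalso
        have g' : k * (l + l) - (l + l) / 2 < c2 * (l + l) + (l + l) / 2 ∧
            c2 * (l + l) + (l + l) / 2 < k * (l + l) + (l + l) / 2 - 1 := by
          rcases g with g | g <;> constructor <;> omega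
        rcases row_cases (by omega) k c2 ((l + l) / 2) (by omega) (by omega) g'.1 g'.2 rfl with g | g
          <;> omega
      · rintro ⟨g, -⟩
        exact absurd g (by decide)
    · have e : mk2 (l + l) (c1, c2) 1 =
          ((c1 * (l + l) + (l + l) / 2, c2 * (l + l) + (l + l) - 1), 1) := by
        unfold mk2; rw [if_neg (by decide), if_pos rfl]
      rw [e]
      simp only
      rw [nbc_1] at hN
      simp only at hN
      constructor
      · intro g
        exfalso
        have g' : k * (l + l) - (l + l) / 2 < c2 * (l + l) + (l + l) - 1 ∧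
            c2 * (l + l) + (l + l) - 1 < k * (l + l) + (l + l) / 2 - 1 := by
          rcases g with g | g <;> constructor <;> omega
        rcases row_cases (by omega) k c2 ((l + l) - 1) (by omega) (by omega) g'.1 g'.2
          (by ring) with g3 | ⟨rfl, -⟩
        · omega
        have e5 : (k - 1) * (l + l) = k * (l + l) - (l + l) := by ring
        rcases g with g | g
        · have f1 : c1 ≤ b := by
            by_contra hcc
            push Not at hcc
            have : b + 1 ≤ c1 := hcc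
            have : (b + 1) * (l + l) ≤ c1 * (l + l) := Int.mul_le_mul_of_nonneg_right this (by omega)
            have e6 : (b + 1) * (l + l) = b * (l + l) + (l + l) := by ring
            omega
          have f2 : a' ≤ c1 := by
            by_contra hcc
            push Not at hcc
            have : c1 + 1 ≤ a' := hcc
            have : (c1 + 1) * (l + l) ≤ a' * (l + l) := Int.mul_le_mul_of_nonneg_right this (by omega)
            have e6 : (c1 + 1) * (l + l) = c1 * (l + l) + (l + l) := by ring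
            omega
          apply hN
          have := t.up.mem c1 f2 (by omega)
          rwa [show k - 1 + 1 = k by ring]
        · omega
      · rintro ⟨g, -⟩
        exact absurd g (by decide)
    · have e : mk2 (l + l) (c1, c2) 2 =
          ((c1 * (l + l) + (l + l) - 1, c2 * (l + l) + (l + l) / 2 - 1), 2) := by
        unfold mk2; rw [if_neg (by decide), if_neg (by decide), if_pos rfl]
      rw [e]
      simp only
      constructor
      · intro g
        exfalso
        have g' : k * (l + l) - (l + l) / 2 < c2 * (l + l) + (l + l) / 2 - 1 ∧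
            c2 * (l + l) + (l + l) / 2 - 1 < k * (l + l) + (l + l) / 2 - 1 := by
          rcases g with g | g <;> constructor <;> omega
        rcases row_cases (by omega) k c2 ((l + l) / 2 - 1) (by omega) (by omega) g'.1 g'.2
          (by ring) with g | g <;> omega
      · rintro ⟨g, -⟩
        exact absurd g (by decide)
    · have e : mk2 (l + l) (c1, c2) 3 = ((c1 * (l + l) + (l + l) / 2 - 1, c2 * (l + l)), 3) := by
        unfold mk2; rw [if_neg (by decide), if_neg (by decide), if_neg (by decide)]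
      rw [e]
      simp only
      rw [nbc_3] at hN
      simp only at hN
      constructor
      · intro g
        have g' : k * (l + l) - (l + l) / 2 < c2 * (l + l) ∧
            c2 * (l + l) < k * (l + l) + (l + l) / 2 - 1 := by
          rcases g with g | g <;> constructor <;> omega
        rcases row_cases (by omega) k c2 0 (by omega) (by omega) g'.1 g'.2
          (by ring) with ⟨rfl, -⟩ | g3
        · rcases g with g | g
          · omega
          · refine ⟨trivial, rfl, ?_, by omega⟩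
            by_contra hcon
            push Not at hcon
            have f1 : c1 ≤ b := by
              by_contra hcc
              push Not at hcc
              have : b + 1 ≤ c1 := hcc
              have : (b + 1) * (l + l) ≤ c1 * (l + l) :=
                Int.mul_le_mul_of_nonneg_right this (by omega)
              have e6 : (b + 1) * (l + l) = b * (l + l) + (l + l) := by ring
              omega
            have f2 : a ≤ c1 := by
              by_contra hcc
              push Not at hcc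
              have : c1 + 1 ≤ a := hcc
              have : (c1 + 1) * (l + l) ≤ a * (l + l) :=
                Int.mul_le_mul_of_nonneg_right this (by omega)
              have e6 : (c1 + 1) * (l + l) = c1 * (l + l) + (l + l) := by ring
              omega
            exact hN (t.lo.mem c1 f2 f1)
        · omega
      · rintro ⟨-, g1, g2, g3⟩
        have f1 : b < c1 := by
          by_contra hcc
          push Not at hcc
          have : c1 * (l + l) ≤ b * (l + l) := Int.mul_le_mul_of_nonneg_right hcc (by omega)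
          omega
        have f3 : c1 < b' + 1 := by
          apply mul_lt_of hL0
          have e6 : (b' + 1) * (l + l) = b' * (l + l) + (l + l) := by ring
          omega
        right
        have : (b + 1) * (l + l) ≤ c1 * (l + l) :=
          Int.mul_le_mul_of_nonneg_right (by omega) (by omega)
        have e6 : (b + 1) * (l + l) = b * (l + l) + (l + l) := by ring
        have : c1 * (l + l) ≤ b' * (l + l) :=
          Int.mul_le_mul_of_nonneg_right (by omega) (by omega)
        refine ⟨⟨by omega, by omega⟩, by omega, by omega⟩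
  have hd : (mk2 (l + l) (c1, c2) d).2 = d := by
    unfold mk2
    rcases z4 d with rfl | rfl | rfl | rfl <;> rfl
  have him : ((mk2 (l + l) (c1, c2) d).1.1 + 1, (mk2 (l + l) (c1, c2) d).1.2) ∈
      ((D H (l + l)).image fun t => (t.1 + 1, t.2)) ↔ (mk2 (l + l) (c1, c2) d).1 ∈ D H (l + l) := by
    rw [Finset.mem_image]
    constructor
    · rintro ⟨u, hu, e⟩
      simp only [Prod.mk.injEq, add_left_inj] at e
      have : u = (mk2 (l + l) (c1, c2) d).1 := Prod.ext e.1 e.2
      rwa [← this]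
    · intro g
      exact ⟨_, g, rfl⟩
  have hmem : ((mk2 (l + l) (c1, c2) d).1.1 + 1, (mk2 (l + l) (c1, c2) d).1.2) ∈
      Sx (l + l) k b b' x y0 y1 ∪ ((D H (l + l)).image fun t => (t.1 + 1, t.2)) ↔ _ :=
    Finset.mem_union.trans (or_congr key him)
  unfold pkE mD
  rw [mkS_empty]
  by_cases hcond : d = 3 ∧ (mk2 (l + l) (c1, c2) d).1.2 = k * (l + l) ∧
        b * (l + l) + (l + l) ≤ (mk2 (l + l) (c1, c2) d).1.1 ∧
        (mk2 (l + l) (c1, c2) d).1.1 < b' * (l + l) + (l + l)
  · rw [if_pos (hmem.2 (Or.inl hcond)), if_pos (by rw [hd]; exact hcond)]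
  · have hcond' : ¬ ((mk2 (l + l) (c1, c2) d).2 = 3 ∧
        (mk2 (l + l) (c1, c2) d).1.2 = k * (l + l) ∧
        b * (l + l) + (l + l) ≤ (mk2 (l + l) (c1, c2) d).1.1 ∧
        (mk2 (l + l) (c1, c2) d).1.1 < b' * (l + l) + (l + l)) := by rw [hd]; exact hcond
    rw [if_neg hcond']
    by_cases hD : (mk2 (l + l) (c1, c2) d).1 ∈ D H (l + l)
    · rw [if_pos (hmem.2 (Or.inr hD)), if_pos hD]
    · rw [if_neg (fun g => (hmem.1 g).elim hcond hD), if_neg hD]

/-! ### the pairs -/

/-- positions of the slits of a crossing pair -/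
theorem Cr.sl (hc : Cr L k a b a' b' r h x y0 y1) (hL : 8 ≤ L) (hh : h ≤ 1 / 8)
    (hr : 0 < r) (hrL : 3 ≤ r * L) : Sl L a b (k - 1) x y0 ∧ Sl L a' b' k x y1 := by
  obtain ⟨q1, q2, q3, q4, q5, q6⟩ := hc.int hL hh hr
  have hlo := hc.lo
  have hhi := hc.hi
  have e1 : (k - 1) * L = k * L - L := by ring
  have h3 := hc.l0
  have h4 := hc.l1
  have h5 := hc.r0
  have h6 := hc.r1
  refine ⟨⟨?_, ?_, by omega, by omega⟩, ⟨?_, ?_, by omega, by omega⟩⟩
  · have : ((a * L + 1 : ℤ) : ℝ) ≤ x := by push_cast; linarith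
    exact_mod_cast this
  · have : ((x + 2 : ℤ) : ℝ) ≤ ((b * L + L - 1 : ℤ) : ℝ) := by push_cast; linarith
    exact_mod_cast this
  · have : ((a' * L + 1 : ℤ) : ℝ) ≤ x := by push_cast; linarith
    exact_mod_cast this
  · have : ((x + 2 : ℤ) : ℝ) ≤ ((b' * L + L - 1 : ℤ) : ℝ) := by push_cast; linarith
    exact_mod_cast this

theorem Cr.mono {h' : ℝ} (hc : Cr L k a b a' b' r h x y0 y1) (hL : 0 < L) (hh : h ≤ h') :
    Cr L k a b a' b' r h' x y0 y1 where
  lo := hc.lo
  hi := hc.hi
  lo' := by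
    have hLr : (0 : ℝ) < L := by exact_mod_cast hL
    have := hc.lo'
    nlinarith
  hi' := by
    have hLr : (0 : ℝ) < L := by exact_mod_cast hL
    have := hc.hi'
    nlinarith
  l0 := hc.l0
  l1 := hc.l1
  r0 := hc.r0
  r1 := hc.r1

end marks

theorem ge_div {r : ℝ} (hr : 0 < r) {L : ℤ} (hL : ⌈(8 / r : ℝ)⌉ ≤ L) (hr1 : r ≤ 1) :
    8 ≤ r * L ∧ 8 ≤ L := by
  have h1 : (8 / r : ℝ) ≤ L := (Int.le_ceil _).trans (by exact_mod_cast hL)
  rw [div_le_iff₀ hr] at h1
  refine ⟨by linarith, ?_⟩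
  have h2 : (0 : ℝ) < L := by
    by_contra hcon
    push Not at hcon
    nlinarith
  have : (8 : ℝ) ≤ L := by nlinarith
  exact_mod_cast this

theorem tri6 {v0 v1 v3 v4 v5 v6 v7 : ℂ} {ε : ℝ} (n3 : ‖v1 - v3‖ ≤ ε / 6)
    (n4 : ‖v3 - v4‖ ≤ ε / 6) (n5 : ‖v4 - v5‖ ≤ ε / 6) (n6 : ‖v5 - v6‖ ≤ ε / 6)
    (n7 : ‖v6 - v7‖ ≤ ε / 6) (n8 : ‖v0 - v7‖ ≤ ε / 6) : ‖v0 - v1‖ ≤ ε := by
  have h1 := norm_sub_le_norm_sub_add_norm_sub v0 v7 v1
  have h2 := norm_sub_le_norm_sub_add_norm_sub v7 v6 v1
  have h3 := norm_sub_le_norm_sub_add_norm_sub v6 v5 v1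
  have h4 := norm_sub_le_norm_sub_add_norm_sub v5 v4 v1
  have h5 := norm_sub_le_norm_sub_add_norm_sub v4 v3 v1
  rw [norm_sub_rev] at n3 n4 n5 n6 n7
  linarith

theorem tri6' {v0 v1 v3 v4 v5 v6 v7 : ℂ} {ε : ℝ} (n3 : ‖v0 - v3‖ ≤ ε / 6)
    (n4 : ‖v3 - v4‖ ≤ ε / 6) (n5 : ‖v4 - v5‖ ≤ ε / 6) (n6 : ‖v5 - v6‖ ≤ ε / 6)
    (n7 : ‖v6 - v7‖ ≤ ε / 6) (n8 : ‖v7 - v1‖ ≤ ε / 6) : ‖v0 - v1‖ ≤ ε := by
  have h1 := norm_sub_le_norm_sub_add_norm_sub v0 v3 v1
  have h2 := norm_sub_le_norm_sub_add_norm_sub v3 v4 v1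
  have h3 := norm_sub_le_norm_sub_add_norm_sub v4 v5 v1
  have h4 := norm_sub_le_norm_sub_add_norm_sub v5 v6 v1
  have h5 := norm_sub_le_norm_sub_add_norm_sub v6 v7 v1
  linarith

/-- **crossing pair, lower run longer** -/
theorem up_pair (hm0 : MK0) (hw : WordsEx) (hrl : RLchain) (hll : LLchain) (hmb : MBup)
    (hmb' : MBup') (hnb : NBup) (hdr : DRup) (P : P4) (H : Finset V) (k a b a' b' : ℤ)
    (hb : b' < b) (hH : Hang P.F H k (b' + 1) b true) (t : Two P.F H k a b a' b') :
    Sm k a b a' b' fun L x y0 y1 ε =>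
      ‖GH (D P.F L) x y0 (b * L + L - 1) (mt P L) -
        GH (D P.F L) x y1 (b' * L + L - 1) (mt P L)‖ ≤ ε := by
  intro r hr hr2 ε hε
  have hε' : 0 < ε / 6 := by linarith
  have cfg := cfg_up (np_P4 P) hb hH t
  obtain ⟨L1, g1⟩ := hm0 P a b (k - 1) t.lo
  obtain ⟨L2, g2⟩ := hm0 P a' b' k t.up
  obtain ⟨L3, g3⟩ := ll_eps hll hw cfg (δ := 0) (Or.inl ⟨rfl, rfl⟩) hε'
  obtain ⟨L4, g4⟩ := hmb P H k (b' + 1) b a' b' k cfg (ε / 6) hε'
  obtain ⟨L5, g5⟩ := rl_eps hrl hw cfg (δ := -1) (Or.inl ⟨rfl, rfl⟩) hε'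
  obtain ⟨L6, g6⟩ := hmb' P H k a b a' b' hb t cfg (ε / 6) hε'
  obtain ⟨h7, hh7, L7, g7⟩ := hnb P H k a b a' b' (np_P4 P) hb hH t r hr hr2 (ε / 6) hε'
  obtain ⟨h8, hh8, L8, g8⟩ := hdr P H k a b a' b' (np_P4 P) hb hH t r hr hr2 (ε / 6) hε'
  refine ⟨min (min h7 h8) (1 / 8), lt_min (lt_min hh7 hh8) (by norm_num),
    max (max (max L1 L2) (max L3 L4)) (max (max L5 L6) (max (max L7 L8) ⌈(8 / r : ℝ)⌉)),
    fun L hL hev x y0 y1 hc => ?_⟩
  simp only [max_le_iff] at hL
  obtain ⟨⟨⟨k1, k2⟩, k3, k4⟩, ⟨k5, k6⟩, ⟨k7, k8⟩, k9⟩ := hL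
  obtain ⟨hrL, hL8⟩ := ge_div hr k9 (by linarith)
  have hL0 : 0 < L := by omega
  have c7 : Cr L k a b a' b' r h7 x y0 y1 :=
    hc.mono hL0 ((min_le_left _ _).trans (min_le_left _ _))
  have c8 : Cr L k a b a' b' r h8 x y0 y1 :=
    hc.mono hL0 ((min_le_left _ _).trans (min_le_right _ _))
  obtain ⟨s0, s1⟩ := hc.sl hL8 (min_le_right _ _) hr (by linarith)
  have ok0 := g1 L k1 hev x y0 s0
  have ok1 := g2 L k2 hev x y1 s1
  have e3 := (g3 L k3 hev x y1 s1).fwd
  rw [shD_zero hH hL0] at e3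
  simp only [mkS_zero] at e3
  obtain ⟨o3, n3⟩ := e3 ok1
  obtain ⟨o4, n4⟩ := g4 L k4 hev x y1 s1 o3
  have e5 := (g5 L k5 hev x y1 s1).bwd
  rw [shD_m1 hH hL0] at e5
  obtain ⟨o5, n5⟩ := e5 o4
  obtain ⟨o6, n6⟩ := g6 L k6 hev x y1 s1 o5
  obtain ⟨o7, n7⟩ := g7 L k7 hev x y0 y1 c7 o6
  have e8 := g8 L k8 hev x y0 y1 c8
  simp only [mkE_eq_mU t hb hc hL8 hev (min_le_right _ _) hr] at e8
  have n8 := e8 ok0 o7
  exact tri6 n3 n4 n5 n6 n7 n8

/-- **crossing pair, upper run longer** -/
theorem dn_pair (hm0 : MK0) (hw : WordsEx) (hrl : RLchain) (hll : LLchain) (hmb : MBdn)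
    (hmb' : MBdn') (hnb : NBdn) (hdr : DRdn) (P : P4) (H : Finset V) (k a b a' b' : ℤ)
    (hb : b < b') (hH : Hang P.F H k (b + 1) b' false) (t : Two P.F H k a b a' b') :
    Sm k a b a' b' fun L x y0 y1 ε =>
      ‖GH (D P.F L) x y0 (b * L + L - 1) (mt P L) -
        GH (D P.F L) x y1 (b' * L + L - 1) (mt P L)‖ ≤ ε := by
  intro r hr hr2 ε hε
  have hε' : 0 < ε / 6 := by linarith
  have cfg := cfg_dn (np_P4 P) hb hH t
  obtain ⟨L1, g1⟩ := hm0 P a b (k - 1) t.lo
  obtain ⟨L2, g2⟩ := hm0 P a' b' k t.up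
  obtain ⟨L3, g3⟩ := rl_eps hrl hw cfg (δ := 0) (Or.inr ⟨rfl, rfl⟩) hε'
  obtain ⟨L4, g4⟩ := hmb P H k (b + 1) b' a b (k - 1) cfg (ε / 6) hε'
  obtain ⟨L5, g5⟩ := ll_eps hll hw cfg (δ := 1) (Or.inr ⟨rfl, rfl⟩) hε'
  obtain ⟨L6, g6⟩ := hmb' P H k a b a' b' hb t cfg (ε / 6) hε'
  obtain ⟨h7, hh7, L7, g7⟩ := hnb P H k a b a' b' (np_P4 P) hb hH t r hr hr2 (ε / 6) hε'
  obtain ⟨h8, hh8, L8, g8⟩ := hdr P H k a b a' b' (np_P4 P) hb hH t r hr hr2 (ε / 6) hε'
  refine ⟨min (min h7 h8) (1 / 8), lt_min (lt_min hh7 hh8) (by norm_num),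
    max (max (max L1 L2) (max L3 L4)) (max (max L5 L6) (max (max L7 L8) ⌈(8 / r : ℝ)⌉)),
    fun L hL hev x y0 y1 hc => ?_⟩
  simp only [max_le_iff] at hL
  obtain ⟨⟨⟨k1, k2⟩, k3, k4⟩, ⟨k5, k6⟩, ⟨k7, k8⟩, k9⟩ := hL
  obtain ⟨hrL, hL8⟩ := ge_div hr k9 (by linarith)
  have hL0 : 0 < L := by omega
  have c7 : Cr L k a b a' b' r h7 x y0 y1 :=
    hc.mono hL0 ((min_le_left _ _).trans (min_le_left _ _))
  have c8 : Cr L k a b a' b' r h8 x y0 y1 :=
    hc.mono hL0 ((min_le_left _ _).trans (min_le_right _ _))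
  obtain ⟨s0, s1⟩ := hc.sl hL8 (min_le_right _ _) hr (by linarith)
  have ok0 := g1 L k1 hev x y0 s0
  have ok1 := g2 L k2 hev x y1 s1
  have e3 := (g3 L k3 hev x y0 s0).fwd
  rw [shD_zero hH hL0] at e3
  simp only [mkS_zero] at e3
  obtain ⟨o3, n3⟩ := e3 ok0
  obtain ⟨o4, n4⟩ := g4 L k4 hev x y0 s0 o3
  have e5 := (g5 L k5 hev x y0 s0).bwd
  rw [shD_p1 hH hL0] at e5
  obtain ⟨o5, n5⟩ := e5 o4
  obtain ⟨o6, n6⟩ := g6 L k6 hev x y0 s0 o5
  obtain ⟨o7, n7⟩ := g7 L k7 hev x y0 y1 c7 ok1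
  have e8 := g8 L k8 hev x y0 y1 c8
  simp only [pkE_eq_mD t hb hc hL8 hev (min_le_right _ _) hr] at e8
  have n8 := e8 o6 o7
  rw [norm_sub_rev] at n7
  exact tri6' n3 n4 n5 n6 n8 n7

/-- position of the slits of a pair with one right end -/
theorem Cr1.mono {F : Finset V} {L q b : ℤ} {r h h' : ℝ} {x y0 y1 : ℤ}
    (hc : Cr1 F L q b r h x y0 y1) (hL : 0 < L) (hh : h ≤ h') : Cr1 F L q b r h' x y0 y1 where
  lt := hc.lt
  n0 := hc.n0
  n1 := hc.n1
  c0 := by
    have hLr : (0 : ℝ) < L := by exact_mod_cast hL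
    have := hc.c0
    nlinarith
  c1 := by
    have hLr : (0 : ℝ) < L := by exact_mod_cast hL
    have := hc.c1
    nlinarith
  row := hc.row
  box := hc.box
  out := hc.out
  xr := hc.xr

/-- **pair with one right end** -/
theorem one_pair (hnb : NBone) (hdr : DRone) (P : P4) (q b : ℤ) :
    Sm1 P q b fun L x y0 y1 ε =>
      Rg.ok ⟨D P.F L, x, y0, b * L + L - 1, mt P L⟩ →
      Rg.ok ⟨D P.F L, x, y1, b * L + L - 1, mt P L⟩ →
      ‖GH (D P.F L) x y0 (b * L + L - 1) (mt P L) -
        GH (D P.F L) x y1 (b * L + L - 1) (mt P L)‖ ≤ ε := by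
  intro r hr hr2 ε hε
  have hε' : 0 < ε / 2 := by linarith
  obtain ⟨h7, hh7, L7, g7⟩ := hnb P q b r hr hr2 (ε / 2) hε'
  obtain ⟨h8, hh8, L8, g8⟩ := hdr P q b r hr hr2 (ε / 2) hε'
  refine ⟨min h7 h8, lt_min hh7 hh8, max (max L7 L8) 1, fun L hL hev x y0 y1 hc ok0 ok1 => ?_⟩
  simp only [max_le_iff] at hL
  obtain ⟨⟨k7, k8⟩, k9⟩ := hL
  have hL0 : 0 < L := by omega
  obtain ⟨o7, n7⟩ := g7 L k7 hev x y0 y1 (hc.mono hL0 (min_le_left _ _)) ok1
  have n8 := g8 L k8 hev x y0 y1 (hc.mono hL0 (min_le_right _ _)) ok0 o7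
  rw [norm_sub_rev] at n7
  have := norm_sub_le_norm_sub_add_norm_sub (Rg.val ⟨D P.F L, x, y0, b * L + L - 1, mt P L⟩)
    (Rg.val ⟨D P.F L \ N1 L b y0 y1, x, y1, b * L + L - 1, fun i => nmk L b y0 y1 (mt P L i)⟩)
    (Rg.val ⟨D P.F L, x, y1, b * L + L - 1, mt P L⟩)
  exact this.trans (by linarith)

end Crest.Agent.R158.Hb656
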