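import Crest.Agent.R158.Hb4_656

/-!
R158, S0237, BLOCK BL, file 5 (helper656): **`OscM` from the leaves**.
-/

set_option autoImplicit false

noncomputable section

namespace Crest.Agent.R158.Hb656

open Filter Topology Metric
open Crest.Agent.R158.Sp896 (V sq)
open Crest.Agent.R158.Sw300 (Port)
open Crest.Agent.R158.Env664 (D Run Adj4 Mac mark mem_D beD div_iff exists_run nbc z4)
open Crest.Agent.R158.Ob664 (HG HA HD rgt)
open Crest.Agent.R158.Tj656 (P4 Om mpos mem_om om_open)
open Crest.Agent.R158.Bh679 (NP Words RLchain LLchain MKs HGs mq)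
open Crest.Agent.R158.Wd377 (MK)

/-- uniform choice for finitely many data -/
theorem unif {ι : Type*} (S : Finset ι) (Q : ι → ℝ → ℤ → Prop)
    (mono : ∀ i h h' L L', h' ≤ h → L ≤ L' → Q i h L → Q i h' L')
    (H : ∀ i ∈ S, ∃ h : ℝ, 0 < h ∧ ∃ L : ℤ, Q i h L) :
    ∃ h : ℝ, 0 < h ∧ ∃ L : ℤ, ∀ i ∈ S, Q i h L := by
  classical
  induction S using Finset.induction_on with
  | empty => exact ⟨1, one_pos, 0, fun i hi => absurd hi (Finset.notMem_empty i)⟩
  | insert i S hi ih =>
    obtain ⟨h1, hh1, L1, g1⟩ := ih fun j hj => H j (Finset.mem_insert_of_mem hj)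
    obtain ⟨h2, hh2, L2, g2⟩ := H i (Finset.mem_insert_self i S)
    refine ⟨min h1 h2, lt_min hh1 hh2, max L1 L2, fun j hj => ?_⟩
    rcases Finset.mem_insert.1 hj with rfl | hj
    · exact mono _ _ _ _ _ (min_le_right _ _) (le_max_right _ _) g2
    · exact mono _ _ _ _ _ (min_le_left _ _) (le_max_left _ _) (g1 j hj)

section geo

variable {P : P4} {L : ℤ}

theorem om_cell {u v : ℝ} (h : (⟨u, v⟩ : ℂ) ∈ P.Om) {c j : ℤ} (h1 : (c : ℝ) ≤ u)
    (h2 : u ≤ c + 1) (h3 : (j : ℝ) ≤ v) (h4 : v ≤ j + 1) : (c, j) ∈ P.F := by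
  refine (mem_om one_pos).1 h (c, j) ?_
  simp only [Sp896.sq, Set.mem_ofPred_eq]
  refine ⟨?_, ?_, ?_, ?_⟩ <;> simp only [one_mul] <;> assumption

/-- rows and columns of tiles in macroscopic coordinates -/
theorem cast_cell (hL : 0 < L) {x c : ℤ} (h1 : c * L ≤ x) (h2 : x < c * L + L) :
    (c : ℝ) ≤ (x : ℝ) / L ∧ (x : ℝ) / L < c + 1 := by
  have hLr : (0 : ℝ) < L := by exact_mod_cast hL
  rw [le_div_iff₀ hLr, div_lt_iff₀ hLr]
  constructor
  · exact_mod_cast h1
  · have : ((x : ℤ) : ℝ) < ((c * L + L : ℤ) : ℝ) := by exact_mod_cast h2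
    push_cast at this
    linarith

theorem cell_of_om (hL : 0 < L) {x y c j : ℤ} (h : mpos L x y ∈ P.Om) (h1 : c * L ≤ x)
    (h2 : x < c * L + L) (h3 : j * L ≤ y) (h4 : y < j * L + L) : (c, j) ∈ P.F := by
  obtain ⟨q1, q2⟩ := cast_cell hL h1 h2
  obtain ⟨q3, q4⟩ := cast_cell hL h3 h4
  exact om_cell (u := (x : ℝ) / L) (v := (y : ℝ) / L) h q1 q2.le q3 q4.le

/-- the run of the row is `r0 L` longer on both sides -/
theorem margins (hL : 0 < L) {x y a b j c : ℤ} {r0 : ℝ} (hr : Run P.F a b j)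
    (h : ball (mpos L x y) r0 ⊆ P.Om) (h1 : c * L ≤ x) (h2 : x < c * L + L) (hac : a ≤ c)
    (hcb : c ≤ b) (h3 : j * L ≤ y) (h4 : y < j * L + L) :
    (a : ℝ) * L + r0 * L ≤ x ∧ (x : ℝ) + r0 * L ≤ (b + 1) * L := by
  have hLr : (0 : ℝ) < L := by exact_mod_cast hL
  obtain ⟨q1, q2⟩ := cast_cell hL h1 h2
  obtain ⟨q3, q4⟩ := cast_cell hL h3 h4
  have hac' : (a : ℝ) ≤ c := by exact_mod_cast hac
  have hcb' : (c : ℝ) ≤ b := by exact_mod_cast hcb
  constructor
  · by_contra hcon
    push Not at hcon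
    have g1 : (x : ℝ) / L < a + r0 := by rw [div_lt_iff₀ hLr]; linarith
    have hin : (⟨(a : ℝ), (y : ℝ) / L⟩ : ℂ) ∈ P.Om := by
      apply h
      rw [mem_ball, dist_eq_norm]
      have e : (⟨(a : ℝ), (y : ℝ) / L⟩ : ℂ) - mpos L x y = (((a : ℝ) - (x : ℝ) / L : ℝ) : ℂ) := by
        apply Complex.ext <;> simp [mpos]
      rw [e, Complex.norm_real, Real.norm_eq_abs, abs_lt]
      constructor <;> linarith
    have := om_cell (c := a - 1) (j := j) hin (by push_cast; linarith) (by push_cast; linarith)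
      q3 q4.le
    exact hr.left this
  · by_contra hcon
    push Not at hcon
    have g1 : (b : ℝ) + 1 < (x : ℝ) / L + r0 := by
      have : ((b : ℝ) + 1) * L < ((x : ℝ) / L + r0) * L := by
        rw [add_mul ((x : ℝ) / L), div_mul_cancel₀ _ hLr.ne']
        exact hcon
      exact lt_of_mul_lt_mul_right this hLr.le
    have hin : (⟨(b : ℝ) + 1, (y : ℝ) / L⟩ : ℂ) ∈ P.Om := by
      apply h
      rw [mem_ball, dist_eq_norm]
      have e : (⟨(b : ℝ) + 1, (y : ℝ) / L⟩ : ℂ) - mpos L x y =
          (((b : ℝ) + 1 - (x : ℝ) / L : ℝ) : ℂ) := by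
        apply Complex.ext <;> simp [mpos]
      rw [e, Complex.norm_real, Real.norm_eq_abs, abs_lt]
      constructor <;> linarith
    have := om_cell (c := b + 1) (j := j) hin (by push_cast; linarith) (by push_cast; linarith)
      q3 q4.le
    exact hr.right this

/-- tiles near `(x, y)` are tiles of the domain -/
theorem box_of (hL : 0 < L) {x y : ℤ} {r0 r : ℝ} (h : ball (mpos L x y) r0 ⊆ P.Om)
    (hr : 2 * r < r0) {x1 y1 : ℤ} (h1 : |(x1 : ℝ) - x| ≤ r * L) (h2 : |(y1 : ℝ) - y| ≤ r * L) :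
    (x1, y1) ∈ D P.F L := by
  have hLr : (0 : ℝ) < L := by exact_mod_cast hL
  have hin : mpos L x1 y1 ∈ P.Om := by
    apply h
    rw [mem_ball, dist_eq_norm]
    have e1 : |(mpos L x1 y1 - mpos L x y).re| ≤ r := by
      have : (mpos L x1 y1 - mpos L x y).re = ((x1 : ℝ) - x) / L := by simp [mpos]; ring
      rw [this, abs_div, abs_of_pos hLr, div_le_iff₀ hLr]
      exact h1
    have e2 : |(mpos L x1 y1 - mpos L x y).im| ≤ r := by
      have : (mpos L x1 y1 - mpos L x y).im = ((y1 : ℝ) - y) / L := by simp [mpos]; ring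
      rw [this, abs_div, abs_of_pos hLr, div_le_iff₀ hLr]
      exact h2
    have := Complex.norm_le_abs_re_add_abs_im (mpos L x1 y1 - mpos L x y)
    linarith
  rw [mem_D hL]
  have g1 := (div_iff hL x1 (x1 / L)).1 rfl
  have g2 := (div_iff hL y1 (y1 / L)).1 rfl
  exact cell_of_om hL hin g1.1 g1.2 g2.1 g2.2

end geo

/-- all leaves of block BL -/
structure Leaves : Prop where
  hang : HangEx
  mk0 : MK0
  words : WordsEx
  rl : RLchain
  ll : LLchain
  mbup : MBup
  mbdn : MBdn
  mbup' : MBup'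
  mbdn' : MBdn'
  nbup : NBup
  nbdn : NBdn
  nbone : NBone
  drup : DRup
  drdn : DRdn
  drone : DRone

/-- **crossing pairs**, all cases -/
theorem cross_pair (lv : Leaves) (P : P4) (k a b a' b' : ℤ) (hlo : Run P.F a b (k - 1))
    (hup : Run P.F a' b' k) (hco : max a a' ≤ min b b') : Sm k a b a' b' fun L x y0 y1 ε =>
      ‖GH (D P.F L) x y0 (b * L + L - 1) (mt P L) -
        GH (D P.F L) x y1 (b' * L + L - 1) (mt P L)‖ ≤ ε := by
  rcases lt_trichotomy b b' with hb | hb | hb
  · obtain ⟨H, hH, t⟩ := (lv.hang P k a b a' b' hlo hup hco).2 hb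
    exact dn_pair lv.mk0 lv.words lv.rl lv.ll lv.mbdn lv.mbdn' lv.nbdn lv.drdn P H k a b a' b' hb
      hH t
  · subst hb
    intro r hr hr2 ε hε
    obtain ⟨h, hh, L1, g⟩ := one_pair lv.nbone lv.drone P (2 * k) b (r / 2) (by linarith)
      (by linarith) ε hε
    obtain ⟨L2, g2⟩ := lv.mk0 P a b (k - 1) hlo
    obtain ⟨L3, g3⟩ := lv.mk0 P a' b k hup
    refine ⟨min h (1 / 8), lt_min hh (by norm_num), max (max L1 (max L2 L3)) ⌈(8 / r : ℝ)⌉,
      fun L hL hev x y0 y1 hc => ?_⟩
    simp only [max_le_iff] at hL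
    obtain ⟨⟨k1, k2, k3⟩, k4⟩ := hL
    obtain ⟨hrL, hL8⟩ := ge_div hr k4 (by linarith)
    have hL0 : 0 < L := by omega
    have hLr : (0 : ℝ) < L := by exact_mod_cast hL0
    have hh8 : min h (1 / 8) ≤ 1 / 8 := min_le_right _ _
    obtain ⟨s0, s1⟩ := hc.sl hL8 hh8 hr (by linarith)
    obtain ⟨q1, q2, q3, q4, q5, q6⟩ := hc.int hL8 hh8 hr
    have c1 := hc.lo
    have c2 := hc.hi
    have c3 := hc.lo'
    have c4 := hc.hi'
    have c5 := hc.l0
    have c6 := hc.l1
    have c7 := hc.r0
    have e1 : (k - 1) * L = k * L - L := by ring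
    have e2 : (k + 1) * L = k * L + L := by ring
    have hmin : min h (1 / 8) * L ≤ L / 8 := by nlinarith
    have hmin2 : min h (1 / 8) * L ≤ h * L := mul_le_mul_of_nonneg_right (min_le_left _ _) hLr.le
    rw [max_le_iff, le_min_iff, le_min_iff] at hco
    -- tiles of the two rows
    have tile : ∀ x1 y : ℤ, a * L ≤ x1 → a' * L ≤ x1 → x1 ≤ b * L + L - 1 → (k - 1) * L ≤ y →
        y < (k + 1) * L → (x1, y) ∈ D P.F L := by
      intro x1 y f1 f2 f3 f4 f5
      obtain ⟨u, hu⟩ : ∃ u, u = x1 / L := ⟨_, rfl⟩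
      have g1 := (div_iff hL0 _ _).1 hu.symm
      have f6 : u < b + 1 := by
        apply mul_lt_of hL0
        have : (b + 1) * L = b * L + L := by ring
        omega
      have f7 : a < u + 1 := by
        apply mul_lt_of hL0
        have : (u + 1) * L = u * L + L := by ring
        omega
      have f8 : a' < u + 1 := by
        apply mul_lt_of hL0
        have : (u + 1) * L = u * L + L := by ring
        omega
      rcases lt_or_ge y (k * L) with f9 | f9
      · exact (memD hL0 g1.1 g1.2 f4 (by omega)).2 (hlo.mem u (by omega) (by omega))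
      · exact (memD hL0 g1.1 g1.2 f9 (by omega)).2 (hup.mem u (by omega) (by omega))
    have cr : Cr1 P.F L (2 * k) b (r / 2) h x y0 y1 := by
      refine ⟨by omega, ?_, ?_, ?_, ?_, ?_, ?_, ?_, ?_⟩
      · rintro ⟨u, rfl⟩
        have f1 : u * L < k * L := by linarith [mul_comm L u]
        have f2 := mul_lt_of hL0 f1
        have f3 : u * L ≤ (k - 1) * L := Int.mul_le_mul_of_nonneg_right (by omega) hL0.le
        have := mul_comm L u
        omega
      · rintro ⟨u, rfl⟩
        have f1 : k * L < u * L := by linarith [mul_comm L u]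
        have f2 := mul_lt_of hL0 f1
        have f3 : (k + 1) * L ≤ u * L := Int.mul_le_mul_of_nonneg_right (by omega) hL0.le
        have := mul_comm L u
        omega
      · have f : (y0 : ℝ) < k * L := by exact_mod_cast c1
        rw [abs_le]
        push_cast
        constructor <;> linarith
      · have f : (k * L : ℝ) < y1 := by exact_mod_cast c2
        rw [abs_le]
        push_cast
        constructor <;> linarith
      · intro x1 y f1 f2 f3 f4
        refine tile x1 y ?_ ?_ f2 (by omega) (by omega)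
        · have : (a : ℝ) * L ≤ x1 := by linarith
          exact_mod_cast this
        · have : (a' : ℝ) * L ≤ x1 := by linarith
          exact_mod_cast this
      · intro x1 y f1 f2
        rw [abs_le] at f1 f2
        have f : (y0 : ℝ) < k * L := by exact_mod_cast c1
        have hrr : r / 2 * L ≤ L / 4 := by nlinarith
        refine tile x1 y ?_ ?_ ?_ ?_ ?_
        · have : (a : ℝ) * L ≤ x1 := by linarith
          exact_mod_cast this
        · have : (a' : ℝ) * L ≤ x1 := by linarith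
          exact_mod_cast this
        · have : ((x1 : ℤ) : ℝ) < ((b * L + L : ℤ) : ℝ) := by push_cast; linarith
          have : x1 < b * L + L := by exact_mod_cast this
          omega
        · have : (((k - 1) * L : ℤ) : ℝ) ≤ y := by push_cast; linarith
          exact_mod_cast this
        · have : (y : ℝ) < (((k + 1) * L : ℤ) : ℝ) := by push_cast; linarith
          exact_mod_cast this
      · intro y f1 f2
        rcases lt_or_ge y (k * L) with f9 | f9
        · rw [memD hL0 (a := b + 1) (b := k - 1) (by linarith) (by linarith) (by omega) (by omega)]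
          exact hlo.right
        · rw [memD hL0 (a := b + 1) (b := k) (by linarith) (by linarith) f9 (by omega)]
          exact hup.right
      · linarith
    exact g L k1 hev x y0 y1 cr (g2 L k2 hev x y0 s0) (g3 L k3 hev x y1 s1)
  · obtain ⟨H, hH, t⟩ := (lv.hang P k a b a' b' hlo hup hco).1 hb
    exact up_pair lv.mk0 lv.words lv.rl lv.ll lv.mbup lv.mbup' lv.nbup lv.drup P H k a b a' b' hb
      hH t

end Crest.Agent.R158.Hb656
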