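import Crest.Agent.R158.Hb5_656

/-!
R158, S0237, BLOCK BL, file 6 (helper656): **`oscM_of : Leaves → ∀ P, OscM P`**
-/

set_option autoImplicit false

noncomputable section

namespace Crest.Agent.R158.Hb656

open Filter Topology Metric
open Crest.Agent.R158.Sp896 (V sq)
open Crest.Agent.R158.Sw300 (Port)
open Crest.Agent.R158.Env664 (D Run Adj4 Mac mark mem_D beD div_iff exists_run nbc z4)
open Crest.Agent.R158.Ob664 (HG HA HD rgt)
open Crest.Agent.R158.Tj656 (P4 Om mpos mem_om om_open)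
open Crest.Agent.R158.Bh679 (NP Words RLchain LLchain MKs HGs mq)
open Crest.Agent.R158.Wd377 (MK)
open Crest.Agent.R158.Cs410 (OscM)

theorem not_dvd_row {L y : ℤ} (hL : 0 < L) (h : ¬ L ∣ y) : y / L * L < y ∧ y < y / L * L + L := by
  obtain ⟨h1, h2⟩ := (div_iff hL y (y / L)).1 rfl
  refine ⟨lt_of_le_of_ne h1 fun e => h ⟨y / L, ?_⟩, h2⟩
  rw [mul_comm]; exact e.symm

set_option maxHeartbeats 1000000 in
/-- **BLOCK BL** : the official form from the leaves -/
theorem oscM_of (lv : Leaves) (P : P4) : OscM P := by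
  classical
  intro q r0 ε hr0 hε
  -- the radius
  obtain ⟨r, hr, hr2, hrr⟩ : ∃ r : ℝ, 0 < r ∧ r ≤ 1 / 4 ∧ 2 * r < r0 :=
    ⟨min (r0 / 4) (1 / 4), lt_min (by linarith) (by norm_num), min_le_right _ _, by
      have := min_le_left (r0 / 4) (1 / 4); linarith⟩
  set C : Finset ℤ := P.F.image Prod.fst with hC
  set R : Finset ℤ := P.F.image Prod.snd with hR
  -- one right end
  obtain ⟨h1, hh1, L1, g1⟩ := unif C (fun b h L0 => ∀ L : ℤ, L0 ≤ L → 0 < L → Even L →
      ∀ x y0 y1 : ℤ, Cr1 P.F L q b r h x y0 y1 →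
        Rg.ok ⟨D P.F L, x, y0, b * L + L - 1, mt P L⟩ →
        Rg.ok ⟨D P.F L, x, y1, b * L + L - 1, mt P L⟩ →
        ‖GH (D P.F L) x y0 (b * L + L - 1) (mt P L) -
          GH (D P.F L) x y1 (b * L + L - 1) (mt P L)‖ ≤ ε)
    (fun b h h' L L' e1 e2 g L3 k1 k2 k3 x y0 y1 hc => g L3 (e2.trans k1) k2 k3 x y0 y1
      (hc.mono k2 e1))
    (fun b _ => by
      obtain ⟨h, hh, L0, g⟩ := one_pair lv.nbone lv.drone P q b r hr (by linarith) ε hε
      exact ⟨h, hh, L0, fun L k1 _ k3 => g L k1 k3⟩)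
  -- crossing pairs
  obtain ⟨h2, hh2, L2, g2⟩ := unif (C ×ˢ C ×ˢ C ×ˢ C) (fun t h L0 => ∀ L : ℤ, L0 ≤ L → 0 < L →
      Even L → ∀ m : ℤ, 2 * m = q → Run P.F t.1 t.2.1 (m - 1) → Run P.F t.2.2.1 t.2.2.2 m →
      max t.1 t.2.2.1 ≤ min t.2.1 t.2.2.2 →
      ∀ x y0 y1 : ℤ, Cr L m t.1 t.2.1 t.2.2.1 t.2.2.2 r h x y0 y1 →
        ‖GH (D P.F L) x y0 (t.2.1 * L + L - 1) (mt P L) -
          GH (D P.F L) x y1 (t.2.2.2 * L + L - 1) (mt P L)‖ ≤ ε)
    (fun t h h' L L' e1 e2 g L3 k1 k2 k3 m k4 k5 k6 k7 x y0 y1 hc =>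
      g L3 (e2.trans k1) k2 k3 m k4 k5 k6 k7 x y0 y1 (hc.mono k2 e1))
    (fun t _ => by
      by_cases hex : ∃ m : ℤ, 2 * m = q ∧ Run P.F t.1 t.2.1 (m - 1) ∧
          Run P.F t.2.2.1 t.2.2.2 m ∧ max t.1 t.2.2.1 ≤ min t.2.1 t.2.2.2
      · obtain ⟨m, k4, k5, k6, k7⟩ := hex
        obtain ⟨h, hh, L0, g⟩ := cross_pair lv P m t.1 t.2.1 t.2.2.1 t.2.2.2 k5 k6 k7 r hr
          (by linarith) ε hε
        refine ⟨h, hh, L0, fun L k1 _ k3 m' k4' _ _ _ => ?_⟩
        have : m' = m := by omega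
        subst this
        exact g L k1 k3
      · exact ⟨1, one_pos, 0, fun L _ _ _ m k4 k5 k6 k7 => absurd ⟨m, k4, k5, k6, k7⟩ hex⟩)
  -- order of the marks
  obtain ⟨h3, hh3, L3, g3⟩ := unif (C ×ˢ C ×ˢ R) (fun t _ L0 => ∀ L : ℤ, L0 ≤ L → Even L →
      Run P.F t.1 t.2.1 t.2.2 → ∀ x y : ℤ, Sl L t.1 t.2.1 t.2.2 x y →
        Rg.ok ⟨D P.F L, x, y, t.2.1 * L + L - 1, mt P L⟩)
    (fun t h h' L L' _ e2 g L3 k1 => g L3 (e2.trans k1))
    (fun t _ => by
      by_cases hex : Run P.F t.1 t.2.1 t.2.2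
      · obtain ⟨L0, g⟩ := lv.mk0 P t.1 t.2.1 t.2.2 hex
        exact ⟨1, one_pos, L0, fun L k1 k2 _ => g L k1 k2⟩
      · exact ⟨1, one_pos, 0, fun L _ _ k => absurd k hex⟩)
  obtain ⟨h, hh⟩ : ∃ h, h = min (min h1 h2) (min (1 / 8) (r0 / 4)) := ⟨_, rfl⟩
  have hpos : 0 < h := by
    rw [hh]; exact lt_min (lt_min hh1 hh2) (lt_min (by norm_num) (by linarith))
  have hle1 : h ≤ h1 := by rw [hh]; exact (min_le_left _ _).trans (min_le_left _ _)
  have hle2 : h ≤ h2 := by rw [hh]; exact (min_le_left _ _).trans (min_le_right _ _)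
  have hle3 : h ≤ 1 / 8 := by rw [hh]; exact (min_le_right _ _).trans (min_le_left _ _)
  have hle4 : h ≤ r0 / 4 := by rw [hh]; exact (min_le_right _ _).trans (min_le_right _ _)
  refine ⟨h, hpos, max (max L1 L2) (max L3 ⌈(8 / r : ℝ)⌉), fun L hL hev => ?_⟩
  simp only [max_le_iff] at hL
  obtain ⟨⟨k1, k2⟩, k3, k4⟩ := hL
  obtain ⟨hrL, hL8⟩ := ge_div hr k4 (by linarith)
  have hL0 : 0 < L := by omega
  have hLr : (0 : ℝ) < L := by exact_mod_cast hL0
  -- the ordered pair
  have key : ∀ x y y' : ℤ, y < y' → ¬ L ∣ y → ¬ L ∣ y' → |(y : ℝ) / L - q / 2| ≤ h →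
      |(y' : ℝ) / L - q / 2| ≤ h → ball (mpos L x y) r0 ⊆ P.Om → ball (mpos L x y') r0 ⊆ P.Om →
      ‖P.HD L x y - P.HD L x y'‖ ≤ ε := by
    intro x y y' hlt n0 n1 c0 c1 b0 b1
    obtain ⟨c, hc⟩ : ∃ c, c = x / L := ⟨_, rfl⟩
    obtain ⟨j, hj⟩ : ∃ j, j = y / L := ⟨_, rfl⟩
    obtain ⟨j', hj'⟩ : ∃ j', j' = y' / L := ⟨_, rfl⟩
    have gc := (div_iff hL0 _ _).1 hc.symm
    obtain ⟨gj, gj1⟩ := not_dvd_row hL0 n0
    obtain ⟨gj', gj1'⟩ := not_dvd_row hL0 n1
    rw [← hj] at gj gj1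
    rw [← hj'] at gj' gj1'
    have om0 : mpos L x y ∈ P.Om := b0 (mem_ball_self hr0)
    have om1 : mpos L x y' ∈ P.Om := b1 (mem_ball_self hr0)
    have cF0 : (c, j) ∈ P.F := cell_of_om hL0 om0 gc.1 gc.2 gj.le gj1
    have cF1 : (c, j') ∈ P.F := cell_of_om hL0 om1 gc.1 gc.2 gj'.le gj1'
    obtain ⟨a, b, hac, hcb, hrun⟩ := exists_run P.F cF0
    obtain ⟨a', b', hac', hcb', hrun'⟩ := exists_run P.F cF1
    simp only at hac hcb hrun hac' hcb' hrun'
    obtain ⟨m0, m1⟩ := margins hL0 hrun b0 gc.1 gc.2 hac hcb gj.le gj1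
    obtain ⟨m0', m1'⟩ := margins hL0 hrun' b1 gc.1 gc.2 hac' hcb' gj'.le gj1'
    have hr0L : r * L ≤ r0 * L := by nlinarith
    have aC : a ∈ C := Finset.mem_image_of_mem Prod.fst (hrun.mem a le_rfl hrun.le)
    have bC : b ∈ C := Finset.mem_image_of_mem Prod.fst (hrun.mem b hrun.le le_rfl)
    have aC' : a' ∈ C := Finset.mem_image_of_mem Prod.fst (hrun'.mem a' le_rfl hrun'.le)
    have bC' : b' ∈ C := Finset.mem_image_of_mem Prod.fst (hrun'.mem b' hrun'.le le_rfl)
    have jR : j ∈ R := Finset.mem_image_of_mem Prod.snd cF0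
    have jR' : j' ∈ R := Finset.mem_image_of_mem Prod.snd cF1
    -- positions of the slits
    have sl0 : Sl L a b j x y := by
      refine ⟨?_, ?_, gj, gj1⟩
      · have : ((a * L + 1 : ℤ) : ℝ) ≤ x := by push_cast; linarith
        exact_mod_cast this
      · have : ((x + 2 : ℤ) : ℝ) ≤ ((b * L + L - 1 : ℤ) : ℝ) := by push_cast; linarith
        exact_mod_cast this
    have sl1 : Sl L a' b' j' x y' := by
      refine ⟨?_, ?_, gj', gj1'⟩
      · have : ((a' * L + 1 : ℤ) : ℝ) ≤ x := by push_cast; linarith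
        exact_mod_cast this
      · have : ((x + 2 : ℤ) : ℝ) ≤ ((b' * L + L - 1 : ℤ) : ℝ) := by push_cast; linarith
        exact_mod_cast this
    have ok0 := g3 (a, b, j) (by simp [aC, bC, jR]) L k3 hev hrun x y sl0
    have ok1 := g3 (a', b', j') (by simp [aC', bC', jR']) L k3 hev hrun' x y' sl1
    have hrD := hrun.scale hL0 (y := y) gj.le gj1
    have hrD' := hrun'.scale hL0 (y := y') gj'.le gj1'
    have e0 : P.HD L x y = GH (D P.F L) x y (b * L + L - 1) (mt P L) := by
      refine HD_run hrD ?_ ?_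
      · have := sl0.hx; omega
      · have := sl0.hx'; omega
    have e1 : P.HD L x y' = GH (D P.F L) x y' (b' * L + L - 1) (mt P L) := by
      refine HD_run hrD' ?_ ?_
      · have := sl1.hx; omega
      · have := sl1.hx'; omega
    rw [e0, e1]
    have c0' : |(y : ℝ) - q * L / 2| ≤ h * L := by
      have : (y : ℝ) - q * L / 2 = ((y : ℝ) / L - q / 2) * L := by field_simp
      rw [this, abs_mul, abs_of_pos hLr]
      exact mul_le_mul_of_nonneg_right c0 hLr.le
    have c1' : |(y' : ℝ) - q * L / 2| ≤ h * L := by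
      have : (y' : ℝ) - q * L / 2 = ((y' : ℝ) / L - q / 2) * L := by field_simp
      rw [this, abs_mul, abs_of_pos hLr]
      exact mul_le_mul_of_nonneg_right c1 hLr.le
    rcases eq_or_ne j j' with ejj | njj
    · -- the same macroscopic row
      subst ejj
      have ebb : b' = b := by
        have q1 : b' ≤ b := by
          by_contra hcon
          push Not at hcon
          exact hrun.right (hrun'.mem (b + 1) (by omega) (by omega))
        have q2 : b ≤ b' := by
          by_contra hcon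
          push Not at hcon
          exact hrun'.right (hrun.mem (b' + 1) (by omega) (by omega))
        omega
      subst ebb
      refine g1 b' bC L k1 hL0 hev x y y' ⟨hlt, n0, n1, ?_, ?_, ?_, ?_, ?_, ?_⟩ ok0 ok1
      · exact c0'.trans (mul_le_mul_of_nonneg_right hle1 hLr.le)
      · exact c1'.trans (mul_le_mul_of_nonneg_right hle1 hLr.le)
      · intro x1 y1 f1 f2 f3 f4
        have f5 : (a : ℝ) * L ≤ x1 := by linarith
        have f6 : a * L ≤ x1 := by exact_mod_cast f5
        obtain ⟨u, hu⟩ : ∃ u, u = x1 / L := ⟨_, rfl⟩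
        have gu := (div_iff hL0 _ _).1 hu.symm
        have f7 : u < b' + 1 := by
          apply mul_lt_of hL0
          have : (b' + 1) * L = b' * L + L := by ring
          omega
        have f8 : a < u + 1 := by
          apply mul_lt_of hL0
          have : (u + 1) * L = u * L + L := by ring
          omega
        exact (memD hL0 gu.1 gu.2 (by omega) (by omega)).2 (hrun.mem u (by omega) (by omega))
      · intro x1 y1 f1 f2
        exact box_of hL0 b0 hrr f1 f2
      · intro y1 f1 f2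
        rw [memD hL0 (a := b' + 1) (b := j) (by linarith) (by linarith) (by omega) (by omega)]
        exact hrun.right
      · linarith
    · -- across the line `j + 1`
      have hjj : j < j' := by
        refine lt_of_le_of_ne ?_ njj
        rw [hj, hj']
        exact Int.ediv_le_ediv hL0 hlt.le
      have hm1 : y < (j + 1) * L := by linarith
      have hm2 : (j + 1) * L < y' := by
        have : (j + 1) * L ≤ j' * L := Int.mul_le_mul_of_nonneg_right (by omega) hL0.le
        omega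
      have hm1r : (y : ℝ) < (j + 1) * L := by exact_mod_cast hm1
      have hm2r : ((j : ℝ) + 1) * L < y' := by exact_mod_cast hm2
      have hq : 2 * (j + 1) = q := by
        rw [abs_le] at c0' c1'
        have t1 : ((j : ℝ) + 1 - q / 2) * L ≤ h * L := by linarith
        have t2 : -(h * L) ≤ ((j : ℝ) + 1 - q / 2) * L := by linarith
        have t3 : (j : ℝ) + 1 - q / 2 ≤ 1 / 8 := by nlinarith
        have t4 : -(1 / 8 : ℝ) ≤ (j : ℝ) + 1 - q / 2 := by nlinarith
        have t5 : ((2 * (j + 1) - q : ℤ) : ℝ) < 1 := by push_cast; linarith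
        have t6 : (-1 : ℝ) < ((2 * (j + 1) - q : ℤ) : ℝ) := by push_cast; linarith
        have t7 : 2 * (j + 1) - q < 1 := by exact_mod_cast t5
        have t8 : -1 < 2 * (j + 1) - q := by exact_mod_cast t6
        omega
      have hqr : (q : ℝ) = 2 * ((j : ℝ) + 1) := by rw [← hq]; push_cast; ring
      have hj1 : j' = j + 1 := by
        have t1 : (y' : ℝ) < (j + 2) * L := by
          rw [abs_le] at c1'
          rw [hqr] at c1'
          have : h * L ≤ L / 8 := by nlinarith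
          linarith [c1'.2]
        have t2 : j' * L < (j + 2) * L := by
          have : y' < (j + 2) * L := by exact_mod_cast t1
          omega
        have := mul_lt_of hL0 t2
        omega
      subst hj1
      have hcr : Cr L (j + 1) a b a' b' r h2 x y y' := by
        have hh2L : h * L ≤ h2 * L := mul_le_mul_of_nonneg_right hle2 hLr.le
        rw [abs_le] at c0' c1'
        rw [hqr] at c0' c1'
        refine ⟨hm1, hm2, ?_, ?_, ?_, ?_, ?_, ?_⟩
        · push_cast; linarith [c0'.1]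
        · push_cast; linarith [c1'.2]
        · linarith
        · linarith
        · linarith
        · linarith
      exact g2 (a, b, a', b') (by simp [aC, bC, aC', bC']) L k2 hL0 hev (j + 1) hq
        (by simpa using hrun) hrun' (by
          simp only [max_le_iff, le_min_iff]
          omega) x y y' hcr
  intro x y y' n0 n1 c0 c1 b0 b1
  rcases lt_trichotomy y y' with hlt | rfl | hlt
  · exact key x y y' hlt n0 n1 c0 c1 b0 b1
  · simpa using hε.le
  · rw [norm_sub_rev]
    exact key x y' y hlt n1 n0 c1 c0 b1 b0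

end Crest.Agent.R158.Hb656
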