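import Crest.Agent.R158.Hc6_854

/-!
# R158, block BL (helper854), file Hc7: the chain of the left walls

* **`ll_chain : Bh679.LLchain`**
-/

set_option autoImplicit false
set_option linter.unusedSectionVars false

noncomputable section

namespace Crest.Agent.R158.Hc854

open Crest.Agent.R158.Bh679 (Gr mem_Gr NP Away Words mq MKs HGs)
open Crest.Agent.R158.Sp896 (V)
open Crest.Agent.R158.Sw300 (Port Wd)
open Crest.Agent.R158.Env664
open Crest.Agent.R158.Ob664 (GW HG)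
open Crest.Agent.R158.Hb656 (Hang shD RL LL mkS mem_shD mem_RL mem_LL mk2)
open Crest.Agent.R158.Wd377 (MK)
open Crest.Agent.R158.Vw802 (NoPinch)

theorem mq_eq (H : Finset V) (L δ : ℤ) (S : Finset V) (c : V × ZMod 4) :
    mq H L δ S c = mq' H L δ S c := by
  unfold mq
  rw [Hb656.mark_eq]
  rfl

theorem MKs_eq (F H : Finset V) (L δ p y0 xr : ℤ) (e : Fin 3 → V × ZMod 4) (S : Finset V) :
    MKs F H L δ p y0 xr e S = PS F H L δ p y0 xr e S := by
  unfold MKs PS
  simp only [mq_eq]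

theorem HGs_eq (F H : Finset V) (L δ p y0 xr : ℤ) (e : Fin 3 → V × ZMod 4) (S : Finset V) :
    HGs F H L δ p y0 xr e S = GS F H L δ p y0 xr e S := by
  unfold HGs GS
  simp only [mq_eq]

theorem noPinch_of {F : Finset V} (h : NP F) : NoPinch F where
  ne a b h1 h2 := by
    have := (h a b).1
    tauto
  se a b h1 h2 := by
    have := (h a b).2
    tauto

/-- **(B7), left walls** -/
theorem ll_chain : Bh679.LLchain := by
  obtain ⟨C1, c, hC1, hc, hthin⟩ := thinL
  obtain ⟨C2, a, hC2, ha, hthick⟩ := thickL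
  have hC10 : 0 < C1 := by linarith
  have p1 : (0 : ℝ) < C1 * 2 ^ (1 + c) := by positivity
  have p2 : (0 : ℝ) < C2 * 32 ^ a := by positivity
  refine ⟨C1 * 2 ^ (1 + c) + C2 * 32 ^ a, a, c, by positivity, ha, hc, ?_⟩
  intro F hF
  obtain ⟨k0, K, hext⟩ := ext_LL F
  refine ⟨(K + 1) * F.card, ?_⟩
  intro H k i0 i1 up hH L δ p y0 xr g hev hδ hg hgL hp haw hwd m hinj hm
  have ctx : Ctx F H L δ p y0 xr g :=
    ⟨⟨k, i0, i1, up, hH⟩, noPinch_of hF, hev, hδ, hg, by omega, by omega, haw, hwd⟩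
  have hs := hH.sub
  have hL0 : 0 < L := by omega
  have hgR : (8 : ℝ) ≤ g := by exact_mod_cast hg
  have hLR : (64 : ℝ) * g ≤ L := by exact_mod_cast hgL
  have hg0 : (0 : ℝ) < g := by linarith
  have hLR0 : (0 : ℝ) < L := by linarith
  set ε1 : ℝ := C1 * (1 / ((g - 1 : ℕ) : ℝ)) ^ (1 + c) with hε1
  set ε2 : ℝ := C2 * (((g + 2 : ℕ) : ℝ) / ((L / 8).toNat : ℕ)) ^ a with hε2
  have e0 : 0 ≤ ε1 := by rw [hε1]; positivity
  have e0' : 0 ≤ ε2 := by rw [hε2]; positivity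
  have key := chainDP (LL := LL F H L δ) (PS F H L δ p y0 xr m) (GS F H L δ p y0 xr m)
    (L2 := L / 2) (δ := g) (k0 := k0) (K := K) (by omega) (by omega)
    (fun t ht => (hext H L δ g hL0 hs (by omega) (by omega) hev t ht).1)
    (fun t ht => (hext H L δ g hL0 hs (by omega) (by omega) hev t ht).2) e0 e0'
    (fun k y X h1 h2 h3 => hthin ctx m k y X h1 h2 h3)
    (fun k X h1 => hthick ctx m hinj (fun i => (hm i).1) k X h1)
  simp only [MKs_eq, HGs_eq]
  refine ⟨key.1, fun h => (key.2 h).trans ?_⟩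
  -- the constants
  have b1 : ε1 ≤ (C1 * 2 ^ (1 + c)) * (1 / (g : ℝ)) ^ (1 + c) := by
    have h1 : ((g - 1 : ℕ) : ℝ) = g - 1 := by
      rw [Nat.cast_sub (by omega)]; simp
    have h2 : 1 / ((g - 1 : ℕ) : ℝ) ≤ 2 * (1 / (g : ℝ)) := by
      rw [h1, mul_one_div, div_le_div_iff₀ (by linarith) hg0]
      linarith
    have h3 : (1 / ((g - 1 : ℕ) : ℝ)) ^ (1 + c) ≤ (2 * (1 / (g : ℝ))) ^ (1 + c) :=
      Real.rpow_le_rpow (by positivity) h2 (by linarith)
    rw [Real.mul_rpow (by norm_num) (by positivity)] at h3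
    rw [hε1, mul_assoc]
    exact mul_le_mul_of_nonneg_left h3 hC10.le
  have b2 : ε2 ≤ (C2 * 32 ^ a) * ((g : ℝ) / L) ^ a := by
    have h0 : (((L / 8).toNat : ℕ) : ℤ) = L / 8 := Int.toNat_of_nonneg (by omega)
    have h1 : (L : ℝ) / 16 ≤ (((L / 8).toNat : ℕ) : ℝ) := by
      have h2 : L ≤ 16 * (((L / 8).toNat : ℕ) : ℤ) := by rw [h0]; omega
      have h3 : (L : ℝ) ≤ 16 * (((L / 8).toNat : ℕ) : ℝ) := by exact_mod_cast h2
      linarith
    have h2 : ((g + 2 : ℕ) : ℝ) / ((L / 8).toNat : ℕ) ≤ 32 * ((g : ℝ) / L) := by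
      have h3 : (0 : ℝ) < (((L / 8).toNat : ℕ) : ℝ) := by linarith [div_pos hLR0 (by norm_num : (0:ℝ) < 16)]
      rw [← mul_div_assoc, div_le_div_iff₀ h3 hLR0]
      push_cast
      nlinarith
    have h3 := Real.rpow_le_rpow (by positivity) h2 ha.le
    rw [Real.mul_rpow (by norm_num) (by positivity)] at h3
    rw [hε2, mul_assoc]
    exact mul_le_mul_of_nonneg_left h3 hC2.le
  have q1 : (0 : ℝ) ≤ (1 / (g : ℝ)) ^ (1 + c) := by positivity
  have q2 : (0 : ℝ) ≤ ((g : ℝ) / L) ^ a := by positivity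
  have b1' : ε1 ≤ (C1 * 2 ^ (1 + c) + C2 * 32 ^ a) * (1 / (g : ℝ)) ^ (1 + c) :=
    b1.trans (mul_le_mul_of_nonneg_right (by linarith) q1)
  have b2' : ε2 ≤ (C1 * 2 ^ (1 + c) + C2 * 32 ^ a) * ((g : ℝ) / L) ^ a :=
    b2.trans (mul_le_mul_of_nonneg_right (by linarith) q2)
  have c1 := card_LL_le (δ := δ) hL0 hs
  have c2 : (((LL F H L δ).image Prod.fst).card : ℝ) ≤ F.card := by
    exact_mod_cast cols_LL_le (δ := δ) hL0 hs
  have hK : (0 : ℝ) ≤ K := Nat.cast_nonneg K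
  have hFc : (0 : ℝ) ≤ F.card := Nat.cast_nonneg _
  calc ((LL F H L δ).card : ℝ) * ε1 + (K + 1) * ((LL F H L δ).image Prod.fst).card * ε2
      ≤ (F.card * L) * ε1 + (K + 1) * F.card * ε2 := by
        refine add_le_add (mul_le_mul_of_nonneg_right c1 e0) (mul_le_mul_of_nonneg_right ?_ e0')
        exact mul_le_mul_of_nonneg_left c2 (by linarith)
    _ ≤ ((K + 1) * F.card) * (L * ε1) + (K + 1) * F.card * ε2 := by
        refine add_le_add ?_ (le_refl _)
        have h1 : 0 ≤ L * ε1 := by positivity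
        have h2 : (F.card : ℝ) * L * ε1 = 1 * F.card * (L * ε1) := by ring
        rw [h2]
        exact mul_le_mul_of_nonneg_right (mul_le_mul_of_nonneg_right (by linarith) hFc) h1
    _ = ((K + 1) * F.card) * (L * ε1 + ε2) := by ring
    _ ≤ _ := by
        push_cast
        refine mul_le_mul_of_nonneg_left (add_le_add ?_ b2') (by positivity)
        exact mul_le_mul_of_nonneg_left b1' hLR0.le

end Crest.Agent.R158.Hc854
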