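import Crest.Agent.R158.Hg3_896
import Crest.Agent.R158.Hb2_656
import Crest.Agent.R158.Mg2_949

/-!
# Row 158, BL (helper896), file Hg4: the Prop `HangEx` of Hb2_656 and `NP P.F`
-/

set_option autoImplicit false

namespace Crest.Agent.R158.Hg896

open Crest.Agent.R158.Hb656
open Crest.Agent.R158.Tj656 (P4)

/-- **no pinch** -/
theorem np_P4 (P : P4) : Bh679.NP P.F := fun a b =>
  ⟨mac_no_pinch (Mg949.mac P) a b, mac_no_pinch' (Mg949.mac P) a b⟩

/-- **(B1)** -/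
theorem hangEx : HangEx := by
  intro P k a b a' b' hl hu hc
  rw [max_le_iff, le_min_iff, le_min_iff] at hc
  obtain ⟨⟨c1, c2⟩, c3, c4⟩ := hc
  have h1 : a ≤ max a a' := le_max_left _ _
  have h2 : a' ≤ max a a' := le_max_right _ _
  have h3 : max a a' ≤ b := max_le c1 c3
  have h4 : max a a' ≤ b' := max_le c2 c4
  refine ⟨fun hb => ?_, fun hb => ?_⟩
  · obtain ⟨H, g1, g2, g3⟩ := mac_hang_up (Mg949.mac P) hl hu h1 h3 h2 h4 hb
    exact ⟨H, g1, hl, hu, max_le (le_min c1 c2) (le_min c3 c4), g2, g3⟩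
  · obtain ⟨H, g1, g2, g3⟩ := mac_hang_dn (Mg949.mac P) hl hu h1 h3 h2 h4 hb
    exact ⟨H, g1, hl, hu, max_le (le_min c1 c2) (le_min c3 c4), g2, g3⟩

end Crest.Agent.R158.Hg896
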