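import Crest.Agent.R158.Hs2_689
import Crest.Agent.R158.Dr10_945

/-!
R158, S0237, block BL, leaf (B8) (helper689), part 4: **the plugs `DRup` and `DRdn`**.
-/

set_option autoImplicit false

noncomputable section

namespace Crest.Agent.R158.Hs689

open Crest.Agent.R158.Sp896 (V)
open Crest.Agent.R158.Sw300 (Port)
open Crest.Agent.R158.Env664 (D Run Mac mark mem_D beD div_iff)
open Crest.Agent.R158.Hb656 (Hang shD mkS Two Cr Sm Nk Rg mt)
open Crest.Agent.R158.Bh679 (NP)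
open Crest.Agent.R158.Tj656 (P4)
open Crest.Agent.R158.Dr945 (Slab gE BoxV Bxz dr_vert dr_HG fp)
open Crest.Agent.R158.Wd377 (MK)

/-- the integer data of a pair -/
structure Nums (L k a b a' b' x y0 y1 : ℤ) (R : ℕ) : Prop where
  L2 : 2 ≤ L
  R1 : 1 ≤ R
  kR : y1 - y0 + 1 ≤ R
  lo : y0 < k * L
  hi : k * L < y1
  hi' : y1 < k * L + L
  y0R : (k - 1) * L ≤ y0 - 1 - R
  y1R : y0 + R < k * L + L
  l0 : a * L ≤ x - R
  l1 : a' * L ≤ x - R
  r0 : x + R + 1 < b * L + L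
  r1 : x + R + 1 < b' * L + L

/-- the numbers from the position, and the small quantity -/
theorem nums_of {C α r ε : ℝ} (hC : 0 < C) (hα : 0 < α) (hr : 0 < r) (hr' : r ≤ 1 / 2)
    (hε : 0 < ε) : ∃ h : ℝ, 0 < h ∧ ∃ L0 : ℤ, ∀ L : ℤ, L0 ≤ L → ∀ {k a b a' b' x y0 y1 : ℤ},
    Cr L k a b a' b' r h x y0 y1 → ∃ R : ℕ, Nums L k a b a' b' x y0 y1 R ∧
      C * ((((y1 - y0 : ℤ) : ℝ)) / R) ^ α ≤ ε := by
  obtain ⟨h, hh⟩ : ∃ h : ℝ, h = min (r / 8) (r / 4 * (ε / C) ^ (1 / α)) := ⟨_, rfl⟩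
  have hpos : 0 < h := by
    rw [hh]
    exact lt_min (by positivity) (by positivity)
  have h8 : h ≤ r / 8 := by rw [hh]; exact min_le_left _ _
  have h4 : h ≤ r / 4 * (ε / C) ^ (1 / α) := by rw [hh]; exact min_le_right _ _
  refine ⟨h, hpos, ⌈8 / r⌉ + 2, ?_⟩
  intro L hL k a b a' b' x y0 y1 hc
  have hL8 : 8 / r ≤ L := by
    have h1 : (8 / r : ℝ) ≤ ⌈8 / r⌉ := Int.le_ceil _
    have h2 : ((⌈8 / r⌉ : ℤ) : ℝ) ≤ (L : ℝ) := by exact_mod_cast (by linarith : ⌈8 / r⌉ ≤ L)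
    linarith
  have hrL : 8 ≤ r * L := by
    rw [div_le_iff₀ hr] at hL8
    linarith
  have hL2 : 2 ≤ L := by
    have : (0 : ℤ) ≤ ⌈8 / r⌉ := Int.ceil_nonneg (by positivity)
    omega
  have hLr : (2 : ℝ) ≤ L := by exact_mod_cast hL2
  obtain ⟨R, hR⟩ : ∃ R : ℕ, R = ⌊r * L⌋₊ - 2 := ⟨_, rfl⟩
  have hfl : (⌊r * L⌋₊ : ℝ) ≤ r * L := Nat.floor_le (by linarith)
  have hfl' : r * L < ⌊r * L⌋₊ + 1 := Nat.lt_floor_add_one _
  have h8' : 8 ≤ ⌊r * L⌋₊ := Nat.le_floor (by exact_mod_cast hrL)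
  have hRr : (R : ℝ) = ⌊r * L⌋₊ - 2 := by
    rw [hR, Nat.cast_sub (by omega)]; norm_num
  have hR1 : (R : ℝ) ≤ r * L - 2 := by linarith
  have hR2 : r * L / 2 ≤ R := by linarith
  have hhL : h * L ≤ r * L / 8 := by nlinarith
  have hrL2 : r * L ≤ L / 2 := by nlinarith
  have c1 := hc.lo'
  have c2 := hc.hi'
  have c3 := hc.l0
  have c4 := hc.l1
  have c5 := hc.r0
  have c6 := hc.r1
  refine ⟨R, ⟨hL2, by omega, ?_, hc.lo, hc.hi, ?_, ?_, ?_, ?_, ?_, ?_, ?_⟩, ?_⟩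
  · have : ((y1 - y0 + 1 : ℤ) : ℝ) ≤ ((R : ℤ) : ℝ) := by push_cast; linarith
    exact_mod_cast this
  · have : ((y1 : ℤ) : ℝ) < ((k * L + L : ℤ) : ℝ) := by push_cast; linarith
    exact_mod_cast this
  · have : (((k - 1) * L : ℤ) : ℝ) ≤ ((y0 - 1 - R : ℤ) : ℝ) := by push_cast; linarith
    exact_mod_cast this
  · have : ((y0 + R : ℤ) : ℝ) < ((k * L + L : ℤ) : ℝ) := by
      have : (y0 : ℝ) < (k : ℝ) * L := by exact_mod_cast hc.lo
      push_cast; linarith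
    exact_mod_cast this
  · have : ((a * L : ℤ) : ℝ) ≤ ((x - R : ℤ) : ℝ) := by push_cast; linarith
    exact_mod_cast this
  · have : ((a' * L : ℤ) : ℝ) ≤ ((x - R : ℤ) : ℝ) := by push_cast; linarith
    exact_mod_cast this
  · have : ((x + R + 1 : ℤ) : ℝ) < ((b * L + L : ℤ) : ℝ) := by push_cast; linarith
    exact_mod_cast this
  · have : ((x + R + 1 : ℤ) : ℝ) < ((b' * L + L : ℤ) : ℝ) := by push_cast; linarith
    exact_mod_cast this
  · have hRpos : (0 : ℝ) < R := by linarith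
    have hy : (0 : ℝ) ≤ ((y1 - y0 : ℤ) : ℝ) := by
      have := hc.lo
      have := hc.hi
      exact_mod_cast (by omega : (0 : ℤ) ≤ y1 - y0)
    have hq : ((y1 - y0 : ℤ) : ℝ) / R ≤ 4 * h / r := by
      rw [div_le_div_iff₀ hRpos hr]
      have h5 : ((y1 - y0 : ℤ) : ℝ) ≤ 2 * (h * L) := by push_cast; linarith
      calc ((y1 - y0 : ℤ) : ℝ) * r ≤ 2 * (h * L) * r := mul_le_mul_of_nonneg_right h5 hr.le
        _ = 4 * h * (r * L / 2) := by ring
        _ ≤ 4 * h * R := by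
          refine mul_le_mul_of_nonneg_left hR2 (by positivity)
    have hq2 : 4 * h / r ≤ (ε / C) ^ (1 / α) := by
      rw [div_le_iff₀ hr]
      linarith
    calc C * (((y1 - y0 : ℤ) : ℝ) / R) ^ α ≤ C * ((ε / C) ^ (1 / α)) ^ α := by
          refine mul_le_mul_of_nonneg_left ?_ hC.le
          exact Real.rpow_le_rpow (by positivity) (hq.trans hq2) hα.le
      _ = C * (ε / C) := by
          rw [← Real.rpow_mul (by positivity), one_div, inv_mul_cancel₀ hα.ne', Real.rpow_one]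
      _ = ε := by field_simp

variable {F H : Finset V} {k L a b a' b' x y0 y1 : ℤ} {R : ℕ}

/-- the box at `z` is in `D F L` and off `D H L` -/
theorem box_mem (n : Nums L k a b a' b' x y0 y1 R) (t : Two F H k a b a' b') {u v : ℤ}
    (hu : x - R ≤ u) (hu' : u ≤ x + R) (hv : y0 - 1 - R ≤ v) (hv' : v ≤ y0 - 1 + R) :
    (u, v) ∈ D F L ∧ (u, v) ∉ D H L := by
  have hL0 : 0 < L := by have := n.L2; omega
  have h1 := n.y0R
  have h2 := n.y1R
  have h3 := n.l0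
  have h4 := n.l1
  have h5 := n.r0
  have h6 := n.r1
  rw [mem_D hL0, mem_D hL0]
  dsimp only
  rcases lt_or_ge v (k * L) with hv1 | hv1
  · have e : v / L = k - 1 := (div_iff hL0 _ _).2 ⟨by linarith, by linarith⟩
    rw [e]
    exact ⟨t.lo.mem _ (le_div hL0 (by linarith)) (lt_div hL0 (by linarith)),
      t.nlo _ (le_div hL0 (by linarith)) (lt_div hL0 (by linarith))⟩
  · have e : v / L = k := (div_iff hL0 _ _).2 ⟨hv1, by linarith⟩
    rw [e]
    exact ⟨t.up.mem _ (le_div hL0 (by linarith)) (lt_div hL0 (by linarith)),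
      t.nup _ (le_div hL0 (by linarith)) (lt_div hL0 (by linarith))⟩

theorem boxV_D (n : Nums L k a b a' b' x y0 y1 R) (t : Two F H k a b a' b') :
    BoxV (D F L) x y0 (y1 - y0) (b * L + L - 1) (b' * L + L - 1) R := by
  have h5 := n.r0
  have h6 := n.r1
  have h7 := n.kR
  have h8 := n.R1
  refine ⟨⟨n.R1, ?_, by linarith⟩, h7, by omega⟩
  rintro ⟨i, j⟩ hv
  simp only [Dr945.Bx, Set.mem_ofPred_eq] at hv
  exact (box_mem n t (by linarith) (by linarith) (by linarith) (by linarith)).1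

theorem boxV_sh (n : Nums L k a b a' b' x y0 y1 R) (t : Two F H k a b a' b') (δ : ℤ) :
    BoxV (shD F H L δ) x y0 (y1 - y0) (b * L + L - 1) (b' * L + L - 1) R := by
  have h5 := n.r0
  have h6 := n.r1
  have h7 := n.kR
  have h8 := n.R1
  refine ⟨⟨n.R1, ?_, by linarith⟩, h7, by omega⟩
  rintro ⟨i, j⟩ hv
  simp only [Dr945.Bx, Set.mem_ofPred_eq] at hv
  unfold Dr945.ch
  rw [Hb656.mem_shD]
  exact Or.inl (box_mem n t (by linarith) (by linarith) (by linarith) (by linarith))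

theorem mkE_eq (E : Finset V) (m : V × ZMod 4) : Hb656.mkE E m = Dr945.mkE E m := by
  unfold Hb656.mkE Dr945.mkE
  by_cases h : m.1 ∈ E
  · rw [if_pos h]
  · rw [if_neg h]

/-- the data of a good region -/
theorem ok_data {Q : Rg} (h : Q.ok) : ∃ w, Ob664.GW Q.A (beD Q.A Q.x Q.y Q.xr) w ∧
    (∀ i, some (Q.m i) ∈ Sw300.L w) ∧ Q.m 0 ≠ Q.m 1 ∧ Q.m 0 ≠ Q.m 2 ∧ Q.m 1 ≠ Q.m 2 ∧
    Q.val = Ob664.HW w (some (Q.m 0)) (some (Q.m 1)) (some (Q.m 2)) := by
  obtain ⟨w, h0, h1, h2, h3, h4, h5⟩ := Wd377.MK.spec h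
  obtain ⟨n1, n2, n3⟩ := Wd377.cyc_ne h4
  refine ⟨w, h0, ?_, fun e => n1 (by rw [e]), fun e => n3 (by rw [e]), fun e => n2 (by rw [e]), h5⟩
  intro i
  fin_cases i
  · exact h1
  · exact h2
  · exact h3

/-- **(B8, UP)** -/
theorem drup : Hb656.DRup := by
  obtain ⟨C, α, hC, hα, hX⟩ := dr_HG
  intro P H k a b a' b' np hb hH ht r hr hr' ε hε
  obtain ⟨h, hh, L0, hN⟩ := nums_of hC hα hr hr' hε
  refine ⟨h, hh, L0, ?_⟩
  intro L hL _ x y0 y1 hc
  obtain ⟨R, n, hsm⟩ := hN L hL hc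
  intro h1 h2
  have hS := slab_up (p := x) n.L2 np hb.le hH ht (by have := n.y0R; linarith) n.lo n.hi n.hi'
    (by have := n.l0; have := n.R1; linarith) (by have := n.l1; have := n.R1; linarith)
    (by have := n.r0; have := n.R1; linarith) (by have := n.r1; have := n.R1; linarith)
  have hB := boxV_D n ht
  have e1 : y0 + (y1 - y0) = y1 := by ring
  obtain ⟨w, hw, m1, n1, n2, n3, v1⟩ := ok_data h1
  obtain ⟨w', hw', m2, -, -, -, v2⟩ := ok_data h2
  dsimp only at hw m1 n1 n2 n3 hw' m2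
  have key := hX hS hB ⟨w, hw⟩ ⟨w', by rw [e1]; exact hw'⟩ (mt P L) (by
    intro i j e
    fin_cases i <;> fin_cases j <;> first | rfl | (exfalso; revert e; simp only; tauto))
    (fun i => (Dr945.gw_mem_iff hw (mt P L i).1 (mt P L i).2).1 (m1 i))
  rw [e1] at key
  refine le_trans (le_of_eq ?_) (key.trans hsm)
  unfold Rg.val Hb656.GH
  simp only [mkE_eq]

/-- **(B8, DN)** -/
theorem drdn : Hb656.DRdn := by
  obtain ⟨C, α, hC, hα, hX⟩ := dr_vert
  intro P H k a b a' b' np hb hH ht r hr hr' ε hε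
  obtain ⟨h, hh, L0, hN⟩ := nums_of hC hα hr hr' hε
  refine ⟨h, hh, L0, ?_⟩
  intro L hL _ x y0 y1 hc
  obtain ⟨R, n, hsm⟩ := hN L hL hc
  intro h1 h2
  have hS := slab_dn (p := x) n.L2 np hb.le hH ht (by have := n.y0R; linarith) n.lo n.hi n.hi'
    (by have := n.l0; have := n.R1; linarith) (by have := n.l1; have := n.R1; linarith)
    (by have := n.r0; have := n.R1; linarith) (by have := n.r1; have := n.R1; linarith)
  have hB := boxV_sh n ht 1
  have e1 : y0 + (y1 - y0) = y1 := by ring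
  obtain ⟨w, hw, m1, -, -, -, v1⟩ := ok_data h1
  obtain ⟨w', hw', m2, n1, n2, n3, v2⟩ := ok_data h2
  dsimp only at hw m1 hw' m2 n1 n2 n3
  have hf : ∀ i, fp (gE (Hb656.Sx L k b b' x y0 y1 ∪ (D H L).image fun t => (t.1 + 1, t.2)))
      (some (mt P L i)) = some (Hb656.pkE
        (Hb656.Sx L k b b' x y0 y1 ∪ (D H L).image fun t => (t.1 + 1, t.2)) (mt P L i)) := by
    intro i
    rw [Dr945.fp_some]
    unfold gE Hb656.pkE
    split_ifs <;> rfl
  have key := hX hS hB hw (by rw [e1]; exact hw') (m2 0) (m2 1) (m2 2) (by simpa using n1)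
    (by simpa using n2) (by simpa using n3) (by rw [hf]; exact m1 0)
  rw [hf, hf, hf] at key
  rw [v1, v2]
  exact key.trans hsm

end Crest.Agent.R158.Hs689
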