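import Crest.Agent.R158.Hw2_949
import Crest.Agent.R158.Hb2_656
import Crest.Agent.R158.Wd2_377

/-!
# Row 158 (helper949), BLOCK BL: words and marks of a polygon, 3

* adapters to `Hb656.mt`
* **`cyc_D`** : clockwise order of the three marks in the word of `D^(z)`; **`mk_D`** : `MK`
-/

set_option autoImplicit false
set_option linter.unusedVariables false

noncomputable section

namespace Crest.Agent.R158.Hw949

open Crest.Agent.R158.Sw300 (Port Wd Ok pos cyc)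
open Crest.Agent.R158.Env664
open Crest.Agent.R158.Ob664 (Gl GW HW HG cyc_idL)
open Crest.Agent.R158.Sp896 (V Adj Cyc Con lc rc)
open Crest.Agent.R158.Tj656
open Crest.Agent.R158.Al194 (idL)
open Crest.Agent.R158.Mg949
open Crest.Agent.R158.Wd377 (MK)

theorem mk2_eq (L : ℤ) (c : V) (d : ZMod 4) : Hb656.mk2 L c d = mtl L c d := rfl

theorem mt_eq (P : P4) (L : ℤ) (i : Fin 3) : Hb656.mt P L i = mt P L i := rfl

section WD

variable {P : P4} {k : ℕ} {x y xr : ℤ} {q : ℕ} {w : Wd V}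

theorem mt0 (P : P4) {k : ℕ} (hk : 0 < k) : some (mt P (Lz k) 0) = sU P k (nn P k - 1) := by
  rw [← mark0 P hk, mark_snd]; rfl

theorem mt1 (P : P4) {k : ℕ} (hk : 0 < k) :
    some (mt P (Lz k) 1) = sU P k (P.md * (2 * k) - 1) := by
  rw [← markD P hk, mark_snd]; rfl

theorem mt2 (P : P4) {k : ℕ} (hk : 0 < k) :
    some (mt P (Lz k) 2) = sU P k (P.mc * (2 * k) - 1) := by
  rw [← markC P hk, mark_snd]; rfl

theorem mul_lt {a b k : ℕ} (hk : 0 < k) (h : a < b) : a * (2 * k) < b * (2 * k) :=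
  Nat.mul_lt_mul_of_pos_right h (by omega)

/-- **clockwise order of the three marks** -/
theorem cyc_D (h : WD P k x y xr q w) : cyc (pos w (some (mt P (Lz k) 0)))
    (pos w (some (mt P (Lz k) 1))) (pos w (some (mt P (Lz k) 2))) := by
  have hk := h.hk
  rw [mt0 P hk, mt1 P hk, mt2 P hk]
  have q1 := P.h1; have q2 := P.h2; have q3 := P.h3; have q4 := P.h4
  have e1 := mul_lt hk (a := 0) (b := P.mc) (by omega)
  have e2 := mul_lt hk q3
  have e3 : P.md * (2 * k) < nn P k := mul_lt hk q4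
  have m1 := m1_mem h.ok h.hL h.hq
  have m2 : sU P k (P.md * (2 * k) - 1) ∈ Sw300.L w :=
    (mem_L h.ok h.hL h.hq).2 ⟨_, by omega, Or.inl rfl⟩
  have m3 : sU P k (P.mc * (2 * k) - 1) ∈ Sw300.L w :=
    (mem_L h.ok h.hL h.hq).2 ⟨_, by omega, Or.inl rfl⟩
  rw [cyc_idL h.ok m1 m1 m2 m3, idL_m1 h.ok h.hL h.hq,
    idL_step h.ok h.hL h.hq (by omega : P.md * (2 * k) - 1 < nn P k),
    idL_step h.ok h.hL h.hq (by omega : P.mc * (2 * k) - 1 < nn P k)]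
  have hq := h.hq
  unfold cyc pu
  split_ifs <;> omega

theorem WD.mt_mem (h : WD P k x y xr q w) (i : Fin 3) : some (mt P (Lz k) i) ∈ Sw300.L w := by
  have hk := h.hk
  have q1 := P.h1; have q2 := P.h2; have q3 := P.h3; have q4 := P.h4
  have e1 := mul_lt hk (a := 0) (b := P.mc) (by omega)
  have e2 := mul_lt hk q3
  have e3 : P.md * (2 * k) < nn P k := mul_lt hk q4
  fin_cases i
  · show some (mt P (Lz k) 0) ∈ Sw300.L w
    rw [mt0 P hk]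
    exact m1_mem h.ok h.hL h.hq
  · show some (mt P (Lz k) 1) ∈ Sw300.L w
    rw [mt1 P hk]
    exact (mem_L h.ok h.hL h.hq).2 ⟨_, by omega, Or.inl rfl⟩
  · show some (mt P (Lz k) 2) ∈ Sw300.L w
    rw [mt2 P hk]
    exact (mem_L h.ok h.hL h.hq).2 ⟨_, by omega, Or.inl rfl⟩

theorem WD.mk (h : WD P k x y xr q w) : MK (D P.F (Lz k)) (beD (D P.F (Lz k)) x y xr)
    (some (mt P (Lz k) 0)) (some (mt P (Lz k) 1)) (some (mt P (Lz k) 2)) :=
  ⟨w, h.gw, WD.mt_mem h 0, WD.mt_mem h 1, WD.mt_mem h 2, cyc_D h⟩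

end WD

/-- **clockwise order of the marks in `D^(z)`**, tile form -/
theorem mk_run (P : P4) {L : ℤ} (hL : 0 < L) (hev : Even L) {x y xl xr : ℤ}
    (r0 : Run (D P.F L) xl xr y) (r1 : Run (D P.F L) xl xr (y - 1)) (h1 : xl < x) (h2 : x ≤ xr) :
    MK (D P.F L) (beD (D P.F L) x y xr) (some (Hb656.mt P L 0)) (some (Hb656.mt P L 1))
      (some (Hb656.mt P L 2)) := by
  obtain ⟨m, hm⟩ := hev
  obtain ⟨k, rfl⟩ : ∃ k : ℕ, m = k := ⟨m.toNat, by omega⟩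
  have e : L = Lz k := by rw [hm]; unfold Lz; push_cast; ring
  subst e
  have hk : 0 < k := by unfold Lz at hL; omega
  obtain ⟨q, w, hw⟩ := exists_word P hk r0 r1 h1 h2
  exact WD.mk hw

/-- **clockwise order of the marks in `D^(z)`**, macroscopic form -/
theorem mk_D (P : P4) {L : ℤ} (hL : 0 < L) (hev : Even L) {a b j x y : ℤ} (hr : Run P.F a b j)
    (h1 : a * L + 1 ≤ x) (h2 : x ≤ b * L + L - 1) (h3 : j * L < y) (h4 : y < j * L + L) :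
    MK (D P.F L) (beD (D P.F L) x y (b * L + L - 1)) (some (Hb656.mt P L 0))
      (some (Hb656.mt P L 1)) (some (Hb656.mt P L 2)) :=
  mk_run P hL hev (hr.scale hL (by omega) h4) (hr.scale (y := y - 1) hL (by omega) (by omega))
    (by omega) h2

/-- the macroscopic word -/
theorem word_D (P : P4) {L : ℤ} (hL : 0 < L) (hev : Even L) {a b j x y : ℤ} (hr : Run P.F a b j)
    (h1 : a * L + 1 ≤ x) (h2 : x ≤ b * L + L - 1) (h3 : j * L < y) (h4 : y < j * L + L) :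
    ∃ w, GW (D P.F L) (beD (D P.F L) x y (b * L + L - 1)) w := by
  obtain ⟨w, hw, -⟩ := mk_D P hL hev hr h1 h2 h3 h4
  exact ⟨w, hw⟩

/-! ### adapters -/

section P

open Crest.Agent.R158.Hb656 (shD RL LL mkS)

variable {P : P4} {H : Finset V} {L δ : ℤ} {S A : Finset V} {x y xr : ℤ} {w : Wd V}

theorem mkS_tile' (hH : H ⊆ P.F) (hL : 8 ≤ L) (hev : Even L) (d0 : -1 ≤ δ) (d1 : δ ≤ 1)
    (hS : S ⊆ RL P.F H L δ ∨ S ⊆ LL P.F H L δ) (i : Fin 3) :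
    (mkS H L δ S (Hb656.mt P L i)).1 ∈ shD P.F H L δ ∪ S ∧
      nt (mkS H L δ S (Hb656.mt P L i)) ∉ shD P.F H L δ ∪ S :=
  mkS_tile hH hL hev d0 d1 hS i

theorem mkS_mem' (hH : H ⊆ P.F) (hL : 8 ≤ L) (hev : Even L) (d0 : -1 ≤ δ) (d1 : δ ≤ 1)
    (hS : S ⊆ RL P.F H L δ ∨ S ⊆ LL P.F H L δ) (hA : A ⊆ shD P.F H L δ ∪ S) (hy : ¬ L ∣ y)
    (h : GW A (beD A x y xr) w) {i : Fin 3} (hm : (mkS H L δ S (Hb656.mt P L i)).1 ∈ A) :
    some (mkS H L δ S (Hb656.mt P L i)) ∈ Sw300.L w :=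
  mkS_mem hH hL hev d0 d1 hS hA hy h hm

/-- free port (the shape of `Fr3`) -/
theorem mkS_free' (hH : H ⊆ P.F) (hL : 8 ≤ L) (hev : Even L) (d0 : -1 ≤ δ) (d1 : δ ≤ 1)
    (hS : S ⊆ RL P.F H L δ ∨ S ⊆ LL P.F H L δ) (hA : A ⊆ shD P.F H L δ ∪ S) (hy : ¬ L ∣ y)
    {i : Fin 3} (hm : (mkS H L δ S (Hb656.mt P L i)).1 ∈ A) :
    ∃ t d, (some (mkS H L δ S (Hb656.mt P L i)) : Port V) = some (t, d) ∧ t ∈ A ∧
      beD A x y xr (some (mkS H L δ S (Hb656.mt P L i))) =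
        some (mkS H L δ S (Hb656.mt P L i)) := by
  obtain ⟨h1, h2⟩ := ci_spec P i
  exact ⟨_, _, rfl, hm, mkS_free hH hL hev d0 d1 hS h1 h2 hA hm hy⟩

theorem mkS_dist2 (hL : 8 ≤ L) (hev : Even L) (d0 : -1 ≤ δ) (d1 : δ ≤ 1) {S' : Finset V}
    {i j : Fin 3} (h : i ≠ j) :
    L / 2 - 4 ≤ |(mkS H L δ S (Hb656.mt P L i)).1.1 - (mkS H L δ S' (Hb656.mt P L j)).1.1| ∨
      L / 2 ≤ |(mkS H L δ S (Hb656.mt P L i)).1.2 - (mkS H L δ S' (Hb656.mt P L j)).1.2| :=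
  mkS_dist' hL hev d0 d1 h

theorem mkS_ne' (hL : 10 ≤ L) (hev : Even L) (d0 : -1 ≤ δ) (d1 : δ ≤ 1) {i j : Fin 3} (h : i ≠ j) :
    mkS H L δ S (Hb656.mt P L i) ≠ mkS H L δ S (Hb656.mt P L j) :=
  mkS_ne hL hev d0 d1 h

theorem mt_dist'' (P : P4) {L : ℤ} (hL : 2 ≤ L) (hev : Even L) {i j : Fin 3} (h : i ≠ j) :
    L / 2 ≤ |(Hb656.mt P L i).1.1 - (Hb656.mt P L j).1.1| ∨
      L / 2 ≤ |(Hb656.mt P L i).1.2 - (Hb656.mt P L j).1.2| :=
  mt_dist P hL hev h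

end P

end Crest.Agent.R158.Hw949
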