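import Crest.Agent.R158.Mb4_331

/-!
# R158, block BL (helper331): the leaves `MBup`, `MBdn` of `Hb2_656`
-/

set_option autoImplicit false

noncomputable section

namespace Crest.Agent.R158.Mb331

open Crest.Agent.R158.Hb656

/-- **mark balls, UP** -/
theorem mBup : MBup := by
  intro P H k i0 i1 a b j cfg ε hε
  obtain ⟨L0, h⟩ := mb_up P H k i0 i1 a b j cfg ε hε
  refine ⟨L0, fun L hL hev x y hs hok => ?_⟩
  obtain ⟨h1, -, h3⟩ := h L hL hev x y hs _ rfl (Or.inr hok)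
  refine ⟨h1, ?_⟩
  rw [norm_sub_rev]
  exact h3

/-- **mark balls, DN** -/
theorem mBdn : MBdn := by
  intro P H k i0 i1 a b j cfg ε hε
  obtain ⟨L0, h⟩ := mb_dn P H k i0 i1 a b j cfg ε hε
  refine ⟨L0, fun L hL hev x y hs hok => ?_⟩
  obtain ⟨-, h2, h3⟩ := h L hL hev x y hs _ rfl (Or.inl hok)
  exact ⟨h2, h3⟩

end Crest.Agent.R158.Mb331
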