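import Crest.Agent.R158.Mb3_331
import Crest.Agent.R158.Hb2_656

/-!
# R158, block BL (helper896): mark balls outside the hanging part

* `no_1`, `no_3`, `flat_out` : the region `shD F H L δ` near a mark of a cell outside `H`
* `out_balls` : marks on flat horizontal walls outside the hanging part move by one column
* **`mbup' : MBup'`**, **`mbdn' : MBdn'`** : the leaves of `Hb2_656`
-/

set_option autoImplicit false
set_option linter.unusedVariables false

noncomputable section

namespace Crest.Agent.R158.Mp896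

open Filter Topology
open Crest.Agent.R158.Sp896 (V)
open Crest.Agent.R158.Sw300 (Port Wd tls)
open Crest.Agent.R158.Env664
open Crest.Agent.R158.Tj656 (P4)
open Crest.Agent.R158.Hb656 (Hang shD RL LL mkS mk2 mt mem_shD mem_RL mem_LL Two Cfg Sl Rg Lk1 MBup'
  MBdn' mU mD GH)
open Crest.Agent.R158.Mb331

/-- no tiles near the mark on a ceiling -/
theorem no_1 {F : Finset V} {L : ℤ} (hL : 4 ≤ L) {c : V} (hc : c ∉ F)
    (hn : nbc c 1 ∉ F) {x y : ℤ} (h1 : |x - (mk2 L c 1).1.1| ≤ L / 2 - 1)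
    (h2 : |y - (mk2 L c 1).1.2| ≤ L / 2 - 1) : (x, y) ∉ D F L := by
  rw [mk2_1] at h1 h2
  rw [nbc1] at hn
  simp only at h1 h2
  rw [abs_le] at h1 h2
  rw [mem_D (by omega)]
  have e1 : x / L = c.1 := dv (by omega) (by omega) (by omega)
  simp only [e1]
  by_cases h : y ≤ c.2 * L + L - 1
  · have e2 : y / L = c.2 := dv (by omega) (by omega) (by omega)
    rw [e2]
    exact hc
  · have e3 : (c.2 + 1) * L = c.2 * L + L := by ring
    have e2 : y / L = c.2 + 1 := dv (by omega) (by omega) (by omega)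
    rw [e2]
    exact hn

/-- no tiles near the mark on a floor -/
theorem no_3 {F : Finset V} {L : ℤ} (hL : 4 ≤ L) {c : V} (hc : c ∉ F)
    (hn : nbc c 3 ∉ F) {x y : ℤ} (h1 : |x - (mk2 L c 3).1.1| ≤ L / 2 - 1)
    (h2 : |y - (mk2 L c 3).1.2| ≤ L / 2 - 1) : (x, y) ∉ D F L := by
  rw [mk2_3] at h1 h2
  rw [nbc3] at hn
  simp only at h1 h2
  rw [abs_le] at h1 h2
  rw [mem_D (by omega)]
  have e1 : x / L = c.1 := dv (by omega) (by omega) (by omega)
  simp only [e1]
  by_cases h : c.2 * L ≤ y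
  · have e2 : y / L = c.2 := dv (by omega) (by omega) (by omega)
    rw [e2]
    exact hc
  · have e3 : (c.2 - 1) * L = c.2 * L - L := by ring
    have e2 : y / L = c.2 - 1 := dv (by omega) (by omega) (by omega)
    rw [e2]
    exact hn

/-- the region is flat near a mark of a cell outside the hanging part -/
theorem flat_out {F H : Finset V} (hs : H ⊆ F) {L δ : ℤ} (hL : 16 ≤ L) (h1 : -1 ≤ δ) (h2 : δ ≤ 1)
    {c : V} {d : ZMod 4} (hc : c ∈ F) (hH : c ∉ H) (hn : nbc c d ∉ F) (hd : d = 1 ∨ d = 3) {n : ℕ}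
    (hnL : (n : ℤ) + 3 ≤ L / 2) : Flat (shD F H L δ) (mk2 L c d).1 d n := by
  have hnH : nbc c d ∉ H := fun g => hn (hs g)
  rcases hd with rfl | rfl
  · refine Or.inl ⟨rfl, ?_⟩
    rintro ⟨x, y⟩ k1 k2
    simp only at k1 k2
    rw [mem_shD]
    have a0 := near_1 (by omega : 4 ≤ L) hc hn (x := x) (y := y) (by omega) (by omega)
    have b0 := no_1 (by omega : 4 ≤ L) hH hnH (x := x) (y := y) (by omega) (by omega)
    have b1 := no_1 (by omega : 4 ≤ L) hH hnH (x := x - δ) (y := y) (by rw [abs_le] at k1 ⊢; omega)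
      (by omega)
    simp only
    tauto
  · refine Or.inr ⟨rfl, ?_⟩
    rintro ⟨x, y⟩ k1 k2
    simp only at k1 k2
    rw [mem_shD]
    have a0 := near_3 (by omega : 4 ≤ L) hc hn (x := x) (y := y) (by omega) (by omega)
    have b0 := no_3 (by omega : 4 ≤ L) hH hnH (x := x) (y := y) (by omega) (by omega)
    have b1 := no_3 (by omega : 4 ≤ L) hH hnH (x := x - δ) (y := y) (by rw [abs_le] at k1 ⊢; omega)
      (by omega)
    simp only
    tauto

/-- **marks outside the hanging part, far from the slit, move by one column** -/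
theorem out_balls : ∃ C a : ℝ, 0 < C ∧ 0 < a ∧ ∀ (P : P4) {H : Finset V}, H ⊆ P.F →
    ∀ {L δ x y xr : ℤ}, Even L → 64 ≤ L → -1 ≤ δ → δ ≤ 1 → x ≤ xr →
    ∀ {q : Fin 3 → V × ZMod 4}, (∀ i, q i = mkS H L δ ∅ (mt P L i) ∨
      ((P.cc i).1 ∉ H ∧ ((P.cc i).2 = 1 ∨ (P.cc i).2 = 3) ∧ xr + L / 4 < (mt P L i).1.1 ∧
        ∃ e : ℤ, |e| ≤ 1 ∧ q i = (((mt P L i).1.1 + e, (mt P L i).1.2), (mt P L i).2))) →
    (MKm (shD P.F H L δ) (beD (shD P.F H L δ) x y xr) (fun i => mkS H L δ ∅ (mt P L i)) ↔
      MKm (shD P.F H L δ) (beD (shD P.F H L δ) x y xr) q) ∧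
    (MKm (shD P.F H L δ) (beD (shD P.F H L δ) x y xr) (fun i => mkS H L δ ∅ (mt P L i)) →
      ‖HGm (shD P.F H L δ) (beD (shD P.F H L δ) x y xr) (fun i => mkS H L δ ∅ (mt P L i)) -
        HGm (shD P.F H L δ) (beD (shD P.F H L δ) x y xr) q‖ ≤ C * (1 / (L : ℝ)) ^ a) := by
  obtain ⟨C, a, hC, ha, h⟩ := mk_three
  refine ⟨C * (32 : ℝ) ^ a, a, by positivity, ha, ?_⟩
  intro P H hs L δ x y xr hev hL h1 h2 hp q hq
  obtain ⟨n, hn⟩ : ∃ n : ℕ, (n : ℤ) = L / 8 := ⟨(L / 8).toNat, by omega⟩
  have hmv : ∀ i, Mv (shD P.F H L δ) (beD (shD P.F H L δ) x y xr) n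
      (mkS H L δ ∅ (mt P L i)) (q i) := by
    intro i
    rcases hq i with e | ⟨k1, k2, k3, e, k4, k5⟩
    · exact Or.inl e
    · obtain ⟨c1, c2⟩ := Hw949.ci_spec P i
      have hm : mkS H L δ ∅ (mt P L i) = mt P L i := by
        unfold mkS
        rw [if_neg]
        unfold Hb656.mt
        rw [mk2_mem (by omega)]
        exact k1
      right
      rw [hm]
      have hd : (mt P L i).2 = (P.cc i).2 := by
        unfold Hb656.mt
        rcases k2 with g | g <;> rw [g]
        · rw [mk2_1]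
        · rw [mk2_3]
      refine ⟨e, k4, k5, ?_, ?_⟩
      · rw [hd]
        exact flat_out hs (by omega) h1 h2 c1 k1 c2 k2 (by push_cast; omega)
      · intro s d' g1 g2
        refine beD_plain hp ?_ d'
        rintro ⟨g3, g4, g5⟩
        rw [abs_le] at g1
        omega
  have hdist : ∀ i j, i ≠ j → (n : ℤ) + 3 ≤
      |(mkS H L δ ∅ (mt P L j)).1.1 - (mkS H L δ ∅ (mt P L i)).1.1| ∨ (n : ℤ) + 3 ≤
      |(mkS H L δ ∅ (mt P L j)).1.2 - (mkS H L δ ∅ (mt P L i)).1.2| := by
    intro i j hij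
    rcases Hw949.mkS_dist (P := P) (H := H) (S := ∅) (by omega : 8 ≤ L) hev h1 h2 hij.symm
      with g | g
    · left
      refine le_trans ?_ g
      omega
    · right
      refine le_trans ?_ g
      omega
  have key := h n (by omega) hmv hdist
  refine ⟨key.1, fun g => (key.2 g).trans ?_⟩
  have hL0 : (0 : ℝ) < L := by exact_mod_cast (by omega : (0 : ℤ) < L)
  have hn0 : (0 : ℝ) < n := by exact_mod_cast (by omega : (0 : ℤ) < n)
  have hnL : (L : ℝ) ≤ 16 * n := by
    have : L ≤ 16 * (n : ℤ) := by omega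
    exact_mod_cast this
  rw [mul_assoc, ← Real.mul_rpow (by norm_num) (by positivity)]
  refine mul_le_mul_of_nonneg_left (Real.rpow_le_rpow (by positivity) ?_ ha.le) hC.le
  rw [mul_one_div, div_le_div_iff₀ hn0 hL0]
  linarith

/-- small for large `L` -/
theorem small_L {C a : ℝ} (hC : 0 < C) (ha : 0 < a) {ε : ℝ} (hε : 0 < ε) :
    ∃ L0 : ℤ, ∀ L : ℤ, L0 ≤ L → C * (1 / (L : ℝ)) ^ a ≤ ε := by
  have ht : Tendsto (fun x : ℝ => C * x ^ (-a)) atTop (𝓝 0) := by
    have := (tendsto_rpow_neg_atTop ha).const_mul C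
    rwa [mul_zero] at this
  obtain ⟨X, hX⟩ := eventually_atTop.1 (ht.eventually (gt_mem_nhds hε))
  refine ⟨max 1 ⌈X⌉, fun L hL => ?_⟩
  have h1 : (1 : ℤ) ≤ L := (le_max_left _ _).trans hL
  have h2 : X ≤ (L : ℝ) := (Int.le_ceil X).trans (by exact_mod_cast (le_max_right _ _).trans hL)
  have h3 := hX L h2
  have hL0 : (0 : ℝ) ≤ L := by exact_mod_cast (by omega : (0 : ℤ) ≤ L)
  rw [one_div, Real.inv_rpow hL0, ← Real.rpow_neg hL0]
  exact h3.le

theorem mul_lt_iff {L p q : ℤ} (hL : 0 < L) : p * L < q * L ↔ p < q := by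
  constructor
  · intro h; exact lt_of_mul_lt_mul_right h hL.le
  · intro h; exact mul_lt_mul_of_pos_right h hL

/-- **mark ball, UP, after DR** (leaf `MBup'` of `Hb2_656`) -/
theorem mbup' : MBup' := by
  obtain ⟨C, a, hC, ha, h⟩ := out_balls
  intro P H k a1 b1 a' b' hb ht hcfg ε hε
  obtain ⟨L0, hL0⟩ := small_L hC ha hε
  refine ⟨max 64 L0, fun L hL hev x y hsl => ?_⟩
  have hL1 : 64 ≤ L := (le_max_left _ _).trans hL
  have hL2 : L0 ≤ L := (le_max_right _ _).trans hL
  have hx : x ≤ b' * L + L - 1 := by have := hsl.hx'; omega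
  have hcom := ht.com
  rw [max_le_iff, le_min_iff, le_min_iff] at hcom
  have key := h P hcfg.hang.sub hev hL1 (by norm_num : (-1 : ℤ) ≤ -1) (by norm_num) hx
    (y := y) (q := fun i => mU H L k b1 b' (mt P L i)) (fun i => by
      show mU H L k b1 b' (mt P L i) = _ ∨ _
      unfold mU
      split_ifs with hc
      · right
        obtain ⟨g1, g2, g3, g4⟩ := hc
        have hd : (P.cc i).2 = 1 := by
          have : (mt P L i).2 = (P.cc i).2 := Hw949.mtl_snd _ _ _
          rw [← this]; exact g1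
        have hm : mt P L i = (((P.cc i).1.1 * L + L / 2, (P.cc i).1.2 * L + L - 1), 1) := by
          unfold Hb656.mt
          rw [hd, mk2_1]
        rw [hm] at g2 g3 g4 ⊢
        simp only at g2 g3 g4 ⊢
        have e1 : (P.cc i).1.2 = k - 1 := by
          have e2 : ((P.cc i).1.2 + 1) * L = k * L := by linarith
          have := mul_right_cancel₀ (by omega : (L : ℤ) ≠ 0) e2
          omega
        have e2 : b' < (P.cc i).1.1 := by
          have : (b' + 1) * L < ((P.cc i).1.1 + 1) * L := by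
            have r1 : (b' + 1) * L = b' * L + L := by ring
            have r2 : ((P.cc i).1.1 + 1) * L = (P.cc i).1.1 * L + L := by ring
            omega
          have := (mul_lt_iff (by omega)).1 this
          omega
        have e3 : (P.cc i).1.1 ≤ b1 := by
          have : (P.cc i).1.1 * L < (b1 + 1) * L := by
            have r1 : (b1 + 1) * L = b1 * L + L := by ring
            omega
          have := (mul_lt_iff (by omega)).1 this
          omega
        have e4 : (b' + 1) * L ≤ (P.cc i).1.1 * L :=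
          mul_le_mul_of_nonneg_right (by omega) (by omega)
        have e5 : (b' + 1) * L = b' * L + L := by ring
        refine ⟨?_, Or.inl hd, by omega, -1, by norm_num, rfl⟩
        have := ht.nlo (P.cc i).1.1 (by omega) e3
        rwa [← e1] at this
      · exact Or.inl rfl)
  intro hok
  refine ⟨key.1.1 hok, (key.2 hok).trans (hL0 L hL2)⟩

/-- **mark ball, DN, before DR** (leaf `MBdn'` of `Hb2_656`) -/
theorem mbdn' : MBdn' := by
  obtain ⟨C, a, hC, ha, h⟩ := out_balls
  intro P H k a1 b1 a' b' hb ht hcfg ε hε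
  obtain ⟨L0, hL0⟩ := small_L hC ha hε
  refine ⟨max 64 L0, fun L hL hev x y hsl => ?_⟩
  have hL1 : 64 ≤ L := (le_max_left _ _).trans hL
  have hL2 : L0 ≤ L := (le_max_right _ _).trans hL
  have hx : x ≤ b1 * L + L - 1 := by have := hsl.hx'; omega
  have hcom := ht.com
  rw [max_le_iff, le_min_iff, le_min_iff] at hcom
  have key := h P hcfg.hang.sub hev hL1 (by norm_num : (-1 : ℤ) ≤ 1) (by norm_num) hx
    (y := y) (q := fun i => mD H L k b1 b' (mt P L i)) (fun i => by
      show mD H L k b1 b' (mt P L i) = _ ∨ _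
      unfold mD
      split_ifs with hc
      · right
        obtain ⟨g1, g2, g3, g4⟩ := hc
        have hd : (P.cc i).2 = 3 := by
          have : (mt P L i).2 = (P.cc i).2 := Hw949.mtl_snd _ _ _
          rw [← this]; exact g1
        have hm : mt P L i = (((P.cc i).1.1 * L + L / 2 - 1, (P.cc i).1.2 * L), 3) := by
          unfold Hb656.mt
          rw [hd, mk2_3]
        rw [hm] at g2 g3 g4 ⊢
        simp only at g2 g3 g4 ⊢
        have e1 : (P.cc i).1.2 = k := mul_right_cancel₀ (by omega : (L : ℤ) ≠ 0) g2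
        have e2 : b1 < (P.cc i).1.1 := by
          have : (b1 + 1) * L < ((P.cc i).1.1 + 1) * L := by
            have r1 : (b1 + 1) * L = b1 * L + L := by ring
            have r2 : ((P.cc i).1.1 + 1) * L = (P.cc i).1.1 * L + L := by ring
            omega
          have := (mul_lt_iff (by omega)).1 this
          omega
        have e3 : (P.cc i).1.1 ≤ b' := by
          have : (P.cc i).1.1 * L < (b' + 1) * L := by
            have r1 : (b' + 1) * L = b' * L + L := by ring
            omega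
          have := (mul_lt_iff (by omega)).1 this
          omega
        have e4 : (b1 + 1) * L ≤ (P.cc i).1.1 * L :=
          mul_le_mul_of_nonneg_right (by omega) (by omega)
        have e5 : (b1 + 1) * L = b1 * L + L := by ring
        refine ⟨?_, Or.inr hd, by omega, 1, by norm_num, rfl⟩
        have := ht.nup (P.cc i).1.1 (by omega) e3
        rwa [← e1] at this
      · exact Or.inl rfl)
  intro hok
  refine ⟨key.1.1 hok, (key.2 hok).trans (hL0 L hL2)⟩

end Crest.Agent.R158.Mp896
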