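import Crest.Agent.R158.Hg2_896

/-!
# Row 158, BL (helper896), file Hg3: the shifted regions are hole-free and connected (leaf B2)

* `shD_CC`, `shD_CA` : `shD F H L s`, `s = 1 ∨ s = -1`
-/

set_option autoImplicit false
set_option linter.unusedVariables false

noncomputable section

namespace Crest.Agent.R158.Hg896

open Crest.Agent.R158.Env664 (Adj4 Mac D mem_D div_iff Run CutAdj)
open Crest.Agent.R158.Xr249
open Crest.Agent.R158.Hb656 (Hang shD mem_shD)

theorem D_CC {F : Finset (ℤ × ℤ)} (h : CC F) {L : ℤ} (hL : 0 < L) : CC (D F L) := by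
  intro a ha b hb
  rw [mem_D hL] at ha hb
  refine lift_path hL (Y := {t | t ∉ F}) (fun t ht => ?_) (h _ ha _ hb) ha rfl rfl
  exact fun h => ht ((mem_D hL t).1 h)

theorem D_CA {F : Finset (ℤ × ℤ)} (h : CA F) {L : ℤ} (hL : 0 < L) : CA (D F L) := by
  intro a ha b hb
  rw [mem_D hL] at ha hb
  refine lift_path hL (Y := {t | t ∈ F}) (fun t ht => ?_) (h _ ha _ hb) ha rfl rfl
  exact (mem_D hL t).2 ht

theorem cpath_symm {X : Set (ℤ × ℤ)} {a b : ℤ × ℤ} (h : CPath X a b) : CPath X b a := h.symm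

section

variable {F H : Finset (ℤ × ℤ)} {k i0 i1 L s : ℤ} {up : Bool}

/-- a wall lies between two macroscopic columns -/
theorem far_side (hL : 2 ≤ L) (hs : s = 1 ∨ s = -1) {x y : ℤ} (h1 : (x - s, y) ∈ D F L)
    (h2 : (x, y) ∉ D F L) : (x + s) / L = x / L := by
  have hL0 : 0 < L := by omega
  rw [mem_D hL0] at h1 h2
  simp only at h1 h2
  have b1 := (div_iff hL0 x (x / L)).1 rfl
  by_contra hne
  have hne' : (x - s) / L ≠ x / L := fun h => h2 (by rw [← h]; exact h1)
  have key : ∀ u : ℤ, x / L * L ≤ u → u < x / L * L + L → u / L = x / L :=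
    fun u h3 h4 => (div_iff hL0 u (x / L)).2 ⟨h3, h4⟩
  have n1 : ¬ (x / L * L ≤ x + s ∧ x + s < x / L * L + L) := fun h => hne (key _ h.1 h.2)
  have n2 : ¬ (x / L * L ≤ x - s ∧ x - s < x / L * L + L) := fun h => hne' (key _ h.1 h.2)
  rcases hs with rfl | rfl <;> omega

/-- **the complement of the shifted region is connected** -/
theorem shD_CC (h : Hang F H k i0 i1 up) (hF : CC F) (hL : 2 ≤ L) (hs : s = 1 ∨ s = -1) :
    CC (shD F H L s) := by
  have hL0 : 0 < L := by omega
  have hD := D_CC hF hL0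
  have hsub : ∀ t, t ∈ D H L → t ∈ D F L := by
    intro t ht
    rw [mem_D hL0] at ht ⊢
    exact h.sub ht
  have hhor : ∀ x y : ℤ, (x, y) ∈ D H L → (x - s, y) ∈ D F L → (x - s, y) ∈ D H L := by
    intro x y h1 h2
    rcases hang_adj_D h hL0 h1 h2 (by
      rcases hs with rfl | rfl
      · exact Or.inr ⟨rfl, Or.inr (by simp)⟩
      · exact Or.inr ⟨rfl, Or.inl (by simp)⟩) with h3 | ⟨-, -, h3, -⟩
    · exact h3
    · simp only at h3
      rcases hs with rfl | rfl <;> omega
  -- the complement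
  set X : Set (ℤ × ℤ) := {t | t ∉ shD F H L s} with hX
  have memX : ∀ x y : ℤ, (x, y) ∈ X ↔ ¬ ((x, y) ∈ D F L ∧ (x, y) ∉ D H L) ∧ (x - s, y) ∉ D H L := by
    intro x y
    show (x, y) ∉ shD F H L s ↔ _
    rw [mem_shD, not_or]
  -- points outside `D F L`
  have out1 : ∀ x y : ℤ, (x, y) ∉ D F L → (x - s, y) ∉ D H L → (x, y) ∈ X :=
    fun x y h1 h2 => (memX x y).2 ⟨fun h3 => h1 h3.1, h2⟩
  have far : ∀ x y : ℤ, (x - s, y) ∈ D H L → (x, y) ∉ D F L → ∀ y' : ℤ,
      ((x, y') ∈ D F L ↔ (x + s, y') ∈ D F L) := by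
    intro x y h1 h2 y'
    have := far_side hL hs (hsub _ h1) h2
    rw [mem_D hL0, mem_D hL0]
    simp only
    rw [this]
  have out2 : ∀ x y y' : ℤ, (x - s, y) ∈ D H L → (x, y) ∉ D F L → (x, y') ∉ D F L →
      (x + s, y') ∈ X := by
    intro x y y' h1 h2 h3
    refine out1 _ _ (fun h4 => h3 ((far x y h1 h2 y').2 h4)) ?_
    rw [add_sub_cancel_right]
    exact fun h4 => h3 (hsub _ h4)
  -- the retraction
  classical
  let σ : ℤ × ℤ → ℤ × ℤ := fun t => if (t.1 - s, t.2) ∈ D H L then (t.1 + s, t.2) else t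
  have σp : ∀ x y : ℤ, (x - s, y) ∈ D H L → σ (x, y) = (x + s, y) := fun x y h => if_pos h
  have σn : ∀ x y : ℤ, (x - s, y) ∉ D H L → σ (x, y) = (x, y) := fun x y h => if_neg h
  have adjs : ∀ x y : ℤ, Adj4 (x, y) (x + s, y) := by
    intro x y
    rcases hs with rfl | rfl
    · exact Or.inr ⟨rfl, Or.inl rfl⟩
    · exact Or.inr ⟨rfl, Or.inr (by simp)⟩
  have σX : ∀ x y : ℤ, (x, y) ∉ D F L → σ (x, y) ∈ X := by
    intro x y h1
    by_cases h2 : (x - s, y) ∈ D H L
    · rw [σp _ _ h2]; exact out2 x y y h2 h1 h1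
    · rw [σn _ _ h2]; exact out1 _ _ h1 h2
  have one : ∀ {a b : ℤ × ℤ}, Adj4 a b → a ∈ X → b ∈ X → CPath X a b :=
    fun h1 h2 h3 => .single ⟨h1, h2, h3⟩
  -- vertical steps
  have ver : ∀ x y y' : ℤ, (y' = y + 1 ∨ y = y' + 1) → (x, y) ∉ D F L → (x, y') ∉ D F L →
      CPath X (σ (x, y)) (σ (x, y')) := by
    intro x y y' hy h1 h2
    have v1 : ∀ u : ℤ, Adj4 (u, y) (u, y') := fun u => Or.inl ⟨rfl, hy⟩
    by_cases g1 : (x - s, y) ∈ D H L <;> by_cases g2 : (x - s, y') ∈ D H L
    · rw [σp _ _ g1, σp _ _ g2]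
      exact one (v1 _) (out2 x y y g1 h1 h1) (out2 x y' y' g2 h2 h2)
    · rw [σp _ _ g1, σn _ _ g2]
      have m1 := out2 x y y' g1 h1 h2
      exact (one (v1 _) (out2 x y y g1 h1 h1) m1).trans
        (one (adjs _ _).symm m1 (out1 _ _ h2 g2))
    · rw [σn _ _ g1, σp _ _ g2]
      have m1 := out2 x y' y g2 h2 h1
      exact (one (adjs _ _) (out1 _ _ h1 g1) m1).trans
        (one (v1 _) m1 (out2 x y' y' g2 h2 h2))
    · rw [σn _ _ g1, σn _ _ g2]
      exact one (v1 _) (out1 _ _ h1 g1) (out1 _ _ h2 g2)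
  -- horizontal steps
  have hor : ∀ x y : ℤ, (x, y) ∉ D F L → (x + s, y) ∉ D F L →
      CPath X (σ (x, y)) (σ (x + s, y)) := by
    intro x y h1 h2
    have g0 : (x + s - s, y) ∉ D H L := by
      rw [add_sub_cancel_right]; exact fun h => h1 (hsub _ h)
    rw [σn _ _ g0]
    by_cases g1 : (x - s, y) ∈ D H L
    · rw [σp _ _ g1]
      exact .refl
    · rw [σn _ _ g1]
      exact one (adjs _ _) (out1 _ _ h1 g1) (out1 _ _ h2 g0)
  have stepσ : ∀ a b : ℤ × ℤ, Adj4 a b → a ∉ D F L → b ∉ D F L → CPath X (σ a) (σ b) := by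
    rintro ⟨x, y⟩ ⟨x', y'⟩ hab h1 h2
    rcases hab with ⟨e1, e2⟩ | ⟨e1, e2⟩
    · simp only at e1 e2
      subst e1
      exact ver x y y' e2 h1 h2
    · simp only at e1 e2
      subst e1
      rcases hs with hs' | hs'
      · rcases e2 with e2 | e2
        · have : x' = x + s := by omega
          subst this
          exact hor x y h1 h2
        · have : x = x' + s := by omega
          subst this
          exact (hor x' y h2 h1).symm
      · rcases e2 with e2 | e2
        · have : x = x' + s := by omega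
          subst this
          exact (hor x' y h2 h1).symm
        · have : x' = x + s := by omega
          subst this
          exact hor x y h1 h2
  have pathσ : ∀ a b : ℤ × ℤ, CPath {t | t ∉ D F L} a b → CPath X (σ a) (σ b) := by
    intro a b hab
    induction hab with
    | refl => exact .refl
    | tail _ h2 ih => exact ih.trans (stepσ _ _ h2.1 h2.2.1 h2.2.2)
  -- every point of the complement is joined to a retracted one
  have reach : ∀ c : ℤ × ℤ, c ∈ X → ∃ c', c' ∉ D F L ∧ CPath X c (σ c') := by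
    rintro ⟨x, y⟩ hc
    obtain ⟨h1, h2⟩ := (memX x y).1 hc
    by_cases h3 : (x, y) ∈ D F L
    · have h4 : (x, y) ∈ D H L := by
        by_contra h4
        exact h1 ⟨h3, h4⟩
      have h5 : (x - s, y) ∉ D F L := fun h => h2 (hhor x y h4 h)
      have h6 : (x - s - s, y) ∉ D H L := by
        intro h6
        have h7 := far_side (s := s) hL hs (x := x - s) (y := y) (hsub _ h6) h5
        rw [sub_add_cancel] at h7
        apply h5
        rw [mem_D hL0] at h3 ⊢
        simp only at h3 ⊢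
        rw [← h7]
        exact h3
      have h7 := out1 _ _ h5 h6
      refine ⟨(x - s, y), h5, ?_⟩
      rw [σn _ _ h6]
      have := adjs (x - s) y
      rw [sub_add_cancel] at this
      exact one this.symm hc h7
    · refine ⟨(x, y), h3, ?_⟩
      rw [σn _ _ h2]
      exact .refl
  intro a ha b hb
  obtain ⟨a', ha1, ha2⟩ := reach a ha
  obtain ⟨b', hb1, hb2⟩ := reach b hb
  exact ha2.trans ((pathσ _ _ (hD _ ha1 _ hb1)).trans hb2.symm)

/-- the part outside the hanging part is connected -/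
theorem base_CA (h : Hang F H k i0 i1 up) (hF : CA F) (hi : i0 ≤ i1) : CA (F \ H) := by
  -- the row of the crosscut
  obtain ⟨j, hj, hcr⟩ : ∃ j : ℤ, (∀ a, i0 ≤ a → a ≤ i1 → (a, j) ∈ F \ H) ∧
      (∀ c d : ℤ × ℤ, c ∉ H → c ∈ F → d ∈ H → Adj4 c d → i0 ≤ c.1 ∧ c.1 ≤ i1 ∧ c.2 = j) := by
    cases up
    · refine ⟨k, fun a h1 h2 => ?_, fun c d h1 h2 h3 h4 => ?_⟩
      · have := h.cut a h1 h2
        simp only [Bool.false_eq_true, if_false] at this
        exact Finset.mem_sdiff.2 ⟨this.1, this.2.1⟩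
      · rcases h.adj h3 h2 h4.symm with h5 | h5
        · exact absurd h5 h1
        · simp only [Bool.false_eq_true, if_false] at h5
          omega
    · refine ⟨k - 1, fun a h1 h2 => ?_, fun c d h1 h2 h3 h4 => ?_⟩
      · have := h.cut a h1 h2
        simp only [if_true] at this
        exact Finset.mem_sdiff.2 ⟨this.1, this.2.1⟩
      · rcases h.adj h3 h2 h4.symm with h5 | h5
        · exact absurd h5 h1
        · simp only [if_true] at h5
          omega
  have row : ∀ a b : ℤ, i0 ≤ a → a ≤ b → b ≤ i1 → CPath {t | t ∈ F \ H} (a, j) (b, j) := by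
    intro a b h1 h2 h3
    have : ∀ n : ℕ, a + n ≤ i1 → CPath {t | t ∈ F \ H} (a, j) (a + n, j) := by
      intro n
      induction n with
      | zero => intro _; simp only [Nat.cast_zero, add_zero]; exact .refl
      | succ n ih =>
        intro hn
        push_cast at hn ⊢
        refine (ih (by omega)).tail ⟨Or.inr ⟨rfl, Or.inl ?_⟩, hj _ (by omega) (by omega),
          hj _ (by omega) (by omega)⟩
        simp only; omega
    have h4 := this (b - a).toNat (by omega)
    rwa [Int.toNat_of_nonneg (by omega), add_sub_cancel] at h4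
  have key : ∀ a : ℤ × ℤ, a ∈ F \ H → CPath {t | t ∈ F \ H} a (i0, j) := by
    intro a ha
    have ha' := Finset.mem_sdiff.1 ha
    have hp := hF _ ha'.1 _ (Finset.mem_sdiff.1 (hj i0 le_rfl hi)).1
    clear ha'
    induction hp using Relation.ReflTransGen.head_induction_on with
    | refl => exact .refl
    | @head a c h1 h2 ih =>
      by_cases hc : c ∈ H
      · have ha2 := Finset.mem_sdiff.1 ha
        obtain ⟨g1, g2, g3⟩ := hcr a c ha2.2 ha2.1 hc h1.1
        obtain ⟨x, y⟩ := a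
        simp only at g1 g2 g3
        subst g3
        exact (row i0 x le_rfl g1 g2).symm
      · have hc2 : c ∈ F \ H := Finset.mem_sdiff.2 ⟨h1.2.2, hc⟩
        exact .head ⟨h1.1, ha, hc2⟩ (ih hc2)
  intro a ha b hb
  exact (key a ha).trans (key b hb).symm

theorem cpath_shift {X Y : Set (ℤ × ℤ)} {s : ℤ} (h : ∀ t : ℤ × ℤ, t ∈ X → (t.1 + s, t.2) ∈ Y)
    {a b : ℤ × ℤ} (hab : CPath X a b) : CPath Y (a.1 + s, a.2) (b.1 + s, b.2) := by
  induction hab with
  | refl => exact .refl
  | tail _ h2 ih =>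
    refine ih.tail ⟨?_, h _ h2.2.1, h _ h2.2.2⟩
    have := h2.1
    unfold Adj4 at this ⊢
    simp only
    omega

/-- **the shifted region is connected** -/
theorem shD_CA (h : Hang F H k i0 i1 up) (hF : CA F) (hi : i0 ≤ i1) (hL : 2 ≤ L)
    (hs : s = 1 ∨ s = -1) : CA (shD F H L s) := by
  have hL0 : 0 < L := by omega
  have hB := D_CA (base_CA h hF hi) hL0
  have hBm : ∀ t, t ∈ D (F \ H) L ↔ t ∈ D F L ∧ t ∉ D H L := by
    intro t
    rw [mem_D hL0, mem_D hL0, mem_D hL0, Finset.mem_sdiff]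
  have hsubB : ∀ t, t ∈ D (F \ H) L → t ∈ shD F H L s := fun t ht =>
    mem_shD.2 (Or.inl ((hBm t).1 ht))
  have hsubH : ∀ t : ℤ × ℤ, t ∈ D H L → (t.1 + s, t.2) ∈ shD F H L s := fun t ht =>
    mem_shD.2 (Or.inr (by simpa using ht))
  -- every tile is joined to a tile of the base
  have key : ∀ a, a ∈ shD F H L s → ∃ b, b ∈ D (F \ H) L ∧ CPath {t | t ∈ shD F H L s} a b := by
    intro a ha
    rcases mem_shD.1 ha with h1 | h1
    · exact ⟨a, (hBm a).2 h1, .refl⟩
    have h1' := h1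
    rw [mem_D hL0] at h1
    simp only at h1
    obtain ⟨x, hx0, hx1, hx⟩ := h.joined hF hi h1
    -- the column at the crosscut
    obtain ⟨u, hu1, hu2⟩ : ∃ u : ℤ, u / L = x ∧ (u + s) / L = x := by
      rcases hs with rfl | rfl
      · exact ⟨x * L, (div_iff hL0 _ _).2 ⟨by omega, by omega⟩,
          (div_iff hL0 _ _).2 ⟨by omega, by omega⟩⟩
      · exact ⟨x * L + 1, (div_iff hL0 _ _).2 ⟨by omega, by omega⟩,
          (div_iff hL0 _ _).2 ⟨by omega, by omega⟩⟩
    have hkL : (k * L) / L = k := (div_iff hL0 _ _).2 ⟨le_rfl, by omega⟩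
    have hkL1 : (k * L - 1) / L = k - 1 := (div_iff hL0 _ _).2 ⟨by nlinarith, by nlinarith⟩
    cases up
    · simp only [Bool.false_eq_true, if_false] at hx
      obtain ⟨g1, g2, g3, g4⟩ := hx
      have p1 : CPath {t | t ∈ D H L} (a.1 - s, a.2) (u, k * L - 1) :=
        lift_path hL0 (Y := {t | t ∈ H}) (fun t ht => (mem_D hL0 t).2 ht) g4 h1 rfl
          (by simp only; rw [hu1, hkL1])
      have p2 := cpath_shift (s := s) hsubH p1
      simp only [sub_add_cancel] at p2
      have m2 : (u + s, k * L) ∈ D (F \ H) L := by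
        rw [mem_D hL0]
        simp only
        rw [hu2, hkL]
        exact Finset.mem_sdiff.2 ⟨g2, g3⟩
      refine ⟨(u + s, k * L), m2, p2.tail ⟨Or.inl ⟨rfl, Or.inl ?_⟩, ?_, hsubB _ m2⟩⟩
      · simp only; ring
      · refine hsubH (u, k * L - 1) ?_
        rw [mem_D hL0]
        simp only
        rw [hu1, hkL1]
        exact g1
    · simp only [if_true] at hx
      obtain ⟨g1, g2, g3, g4⟩ := hx
      have p1 : CPath {t | t ∈ D H L} (a.1 - s, a.2) (u, k * L) :=
        lift_path hL0 (Y := {t | t ∈ H}) (fun t ht => (mem_D hL0 t).2 ht) g4 h1 rfl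
          (by simp only; rw [hu1, hkL])
      have p2 := cpath_shift (s := s) hsubH p1
      simp only [sub_add_cancel] at p2
      have m2 : (u + s, k * L - 1) ∈ D (F \ H) L := by
        rw [mem_D hL0]
        simp only
        rw [hu2, hkL1]
        exact Finset.mem_sdiff.2 ⟨g2, g3⟩
      refine ⟨(u + s, k * L - 1), m2, p2.tail ⟨Or.inl ⟨rfl, Or.inr ?_⟩, ?_, hsubB _ m2⟩⟩
      · simp only; ring
      · refine hsubH (u, k * L) ?_
        rw [mem_D hL0]
        simp only
        rw [hu1, hkL]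
        exact g1
  intro a ha b hb
  obtain ⟨a', ha1, ha2⟩ := key a ha
  obtain ⟨b', hb1, hb2⟩ := key b hb
  have := (hB _ ha1 _ hb1).mono' (Y := {t | t ∈ shD F H L s}) hsubB
  exact ha2.trans (this.trans hb2.symm)

end

end Crest.Agent.R158.Hg896
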