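import Crest.Agent.R158.Cb7_771
import Crest.Agent.R158.Tj2_656

/-!
# R158 (helper331), Q3m / Q3p, part 1: from the cores of block CB and the macro geometry

* `H3m`, `H3p` : hypotheses of the cores of block CB (helper771), `core3m'`, `core3p'`
* `Geo3m k`, `Geo3p k` : macro geometry near a flat point of the arc `0`, `1`
* `eps_scale` : choice of the scales
* **`q3m_of`, `q3p_of`**
-/

set_option autoImplicit false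

noncomputable section

namespace Crest.Agent.R158.Q331

open Filter Topology Set Metric MeasureTheory
open Crest.Agent.R161.Geo729 Crest.Agent.R158.Rs689 Crest.Agent.R158.Mr679
open Crest.Agent.R158.Cb771 Crest.Agent.R158.Env664 Crest.Agent.R158.Tj656
open Crest.Agent.R158.Sw300 (Port Wd L)
open Crest.Agent.R158.Ob664 (Gl GW HW)
open Crest.Agent.R158.Al194 (rotl)

/-- hypotheses of the core of `Q3m` -/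
structure H3m (D : Finset (ℤ × ℤ)) (p y0 : ℤ) (l : List (Port (ℤ × ℤ))) (x2 x3 : ℕ) (Rd : ℕ)
    (Q : P2 → Prop) (S0 S1 : Set P2) : Prop where
  le : x2 ≤ x3
  i : ∀ u ∈ l, NearZ p y0 Rd u → x3 ≤ l.idxOf u
  ii : ∀ h, x2 ≤ h → h ≤ x3 → ∃ t d, l.getD h none = some (t, d) ∧ FarT p y0 Rd t
  iii : ∀ u ∈ l, NearZ p y0 Rd u → ∀ g, l.idxOf u < g → g ≤ l.length → InS (gc l g) S0
  iv : ∀ h, x2 ≤ h → h ≤ x3 → InS (l.getD h none) S1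
  v : ∀ t ∈ D, ∀ e : ℤ, e = 0 ∨ e = 1 → Q (t.1 - e, t.2)

/-- hypotheses of the core of `Q3p` -/
structure H3p (D : Finset (ℤ × ℤ)) (p y0 : ℤ) (l : List (Port (ℤ × ℤ))) (x2 x3 : ℕ) (Rd : ℕ)
    (Q : P2 → Prop) (S0 S1 : Set P2) : Prop where
  le : x2 ≤ x3
  i : ∀ u ∈ l, NearZ p y0 Rd u → x3 ≤ l.idxOf u
  ii : ∀ g, g ≤ x2 → ∃ t d, l.getD g none = some (t, d) ∧ FarT p y0 Rd t
  iii : ∀ u ∈ l, NearZ p y0 Rd u → ∀ h, x3 ≤ h → h ≤ l.idxOf u → InS (l.getD h none) S0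
  iv : ∀ g, g ≤ x2 → InS (l.getD g none) S1
  v : ∀ t ∈ D, ∀ e : ℤ, e = 0 ∨ e = 1 → Q (t.1 - e, t.2)

/-- three distinct marks of a word -/
structure M3 (w : Wd (ℤ × ℤ)) (m1 m2 m3 : Port (ℤ × ℤ)) : Prop where
  h1 : m1 ∈ L w
  h2 : m2 ∈ L w
  h3 : m3 ∈ L w
  h12 : m1 ≠ m2
  h13 : m1 ≠ m3
  h23 : m2 ≠ m3

/-- core of `Q3m` (block CB) -/
theorem core3m' : ∃ C a : ℝ, 0 < C ∧ 0 < a ∧ ∀ (D : Finset (ℤ × ℤ)) (p y0 xr : ℤ) (s Rd : ℕ)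
    (w : Wd (ℤ × ℤ)) (m1 m2 m3 : Port (ℤ × ℤ)) (Q : P2 → Prop) (S0 S1 : Set P2),
  LegBox D p y0 xr s → GW D (beD D p y0 xr) w → s + 2 ≤ Rd → M3 w m1 m2 m3 →
  H3m D p y0 (rotl (L w) m1) ((rotl (L w) m1).idxOf m2) ((rotl (L w) m1).idxOf m3) Rd Q S0 S1 →
  (HW w m1 m2 m3).re ≤ C * (((s + 2 : ℕ) : ℝ) / Rd) ^ a +
    ((tau hf).real (XQ Q 0 S0 S1) + (tau hf).real (XQ Q 1 S0 S1)) / 2 := by
  obtain ⟨C, a, hC, ha, h⟩ := core3m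
  refine ⟨C, a, hC, ha, fun D p y0 xr s Rd w m1 m2 m3 Q S0 S1 hb hw hR hM hH => ?_⟩
  exact h D p y0 xr s w Rd m1 m2 m3 Q S0 S1 hb hw hR hM.h1 hM.h2 hM.h3 hM.h12 hM.h13 hM.h23 hH.le
    (fun u hu => hH.i u (Al194.mem_rotl.2 hu)) hH.ii
    (fun u hu => hH.iii u (Al194.mem_rotl.2 hu)) hH.iv hH.v

/-- core of `Q3p` (block CB) -/
theorem core3p' : ∃ C a : ℝ, 0 < C ∧ 0 < a ∧ ∀ (D : Finset (ℤ × ℤ)) (p y0 xr : ℤ) (s Rd : ℕ)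
    (w : Wd (ℤ × ℤ)) (m1 m2 m3 : Port (ℤ × ℤ)) (Q : P2 → Prop) (S0 S1 : Set P2),
  LegBox D p y0 xr s → GW D (beD D p y0 xr) w → s + 2 ≤ Rd → M3 w m1 m2 m3 →
  H3p D p y0 (rotl (L w) m1) ((rotl (L w) m1).idxOf m2) ((rotl (L w) m1).idxOf m3) Rd Q S0 S1 →
  1 - (HW w m1 m2 m3).re ≤ C * (((s + 2 : ℕ) : ℝ) / Rd) ^ a +
    ((tau hf).real (XQ Q 0 S0 S1) + (tau hf).real (XQ Q 1 S0 S1)) / 2 := by
  obtain ⟨C, a, hC, ha, h⟩ := core3p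
  refine ⟨C, a, hC, ha, fun D p y0 xr s Rd w m1 m2 m3 Q S0 S1 hb hw hR hM hH => ?_⟩
  exact h D p y0 xr s w Rd m1 m2 m3 Q S0 S1 hb hw hR hM.h1 hM.h2 hM.h3 hM.h12 hM.h13 hM.h23 hH.le
    (fun u hu => hH.i u (Al194.mem_rotl.2 hu)) hH.ii
    (fun u hu => hH.iii u (Al194.mem_rotl.2 hu)) hH.iv hH.v

/-! ### macro geometry -/

/-- the marks of the observable -/
def mk (P : P4) (Ln : ℤ) (k : Fin 3) : Port (ℤ × ℤ) := (mark Ln (P.cc k).1 (P.cc k).2).2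

/-- macro geometry near a flat point of the arc `0` -/
def Geo3m (k : ℤ) : Prop := ∀ P : P4, ∀ b ∈ P.hA 0, ∃ ρ : ℝ, 0 < ρ ∧ ∃ L0 : ℤ, ∀ Ln : ℤ, L0 ≤ Ln →
  Even Ln → ∀ i j : ℤ, mpos Ln (2 * i) (2 * j) ∈ P.Om → ‖mpos Ln (2 * i) (2 * j) - b‖ < ρ →
  ∃ (xr : ℤ) (w : Wd (ℤ × ℤ)), GW (D P.F Ln) (beD (D P.F Ln) (2 * i) (2 * j) xr) w ∧
    P.HD Ln (2 * i) (2 * j) = HW w (mk P Ln 0) (mk P Ln 1) (mk P Ln 2) ∧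
    M3 w (mk P Ln 0) (mk P Ln 1) (mk P Ln 2) ∧
    (∀ s : ℕ, Ln * ‖mpos Ln (2 * i) (2 * j) - b‖ + 2 ≤ s →
      LegBox (D P.F Ln) (2 * i) (2 * j) xr s) ∧
    ∀ Rd : ℕ, (Rd : ℝ) ≤ ρ * Ln →
      H3m (D P.F Ln) (2 * i) (2 * j) (rotl (L w) (mk P Ln 0))
        ((rotl (L w) (mk P Ln 0)).idxOf (mk P Ln 1)) ((rotl (L w) (mk P Ln 0)).idxOf (mk P Ln 2))
        Rd (fun t => t ∈ Nk k (DT (↑P.F) Ln)) (Nk k (arcT Ln P.v 0 P.mb))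
        (Nk k (arcT Ln P.v P.mc P.md))

/-- macro geometry near a flat point of the arc `1` -/
def Geo3p (k : ℤ) : Prop := ∀ P : P4, ∀ b ∈ P.hA 1, ∃ ρ : ℝ, 0 < ρ ∧ ∃ L0 : ℤ, ∀ Ln : ℤ, L0 ≤ Ln →
  Even Ln → ∀ i j : ℤ, mpos Ln (2 * i) (2 * j) ∈ P.Om → ‖mpos Ln (2 * i) (2 * j) - b‖ < ρ →
  ∃ (xr : ℤ) (w : Wd (ℤ × ℤ)), GW (D P.F Ln) (beD (D P.F Ln) (2 * i) (2 * j) xr) w ∧
    P.HD Ln (2 * i) (2 * j) = HW w (mk P Ln 0) (mk P Ln 1) (mk P Ln 2) ∧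
    M3 w (mk P Ln 0) (mk P Ln 1) (mk P Ln 2) ∧
    (∀ s : ℕ, Ln * ‖mpos Ln (2 * i) (2 * j) - b‖ + 2 ≤ s →
      LegBox (D P.F Ln) (2 * i) (2 * j) xr s) ∧
    ∀ Rd : ℕ, (Rd : ℝ) ≤ ρ * Ln →
      H3p (D P.F Ln) (2 * i) (2 * j) (rotl (L w) (mk P Ln 0))
        ((rotl (L w) (mk P Ln 0)).idxOf (mk P Ln 1)) ((rotl (L w) (mk P Ln 0)).idxOf (mk P Ln 2))
        Rd (fun t => t ∈ Nk k (DT (↑P.F) Ln)) (Nk k (arcT Ln P.v P.mb P.mc))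
        (Nk k (arcT Ln P.v P.md P.N))

/-- the end `u` is near `z = (p, y0)` -/
abbrev nearE (p y0 : ℤ) (Rd : ℕ) (u : Port (ℤ × ℤ)) : Prop := NearZ p y0 Rd u

/-! ### scales -/

/-- choice of the scales -/
theorem eps_scale1 {C a ρ ε : ℝ} (hC : 0 < C) (ha : 0 < a) (hρ : 0 < ρ) (hε : 0 < ε) :
    ∃ r : ℝ, 0 < r ∧ r ≤ ρ ∧ ∃ L0 : ℤ, ∀ Ln : ℤ, L0 ≤ Ln → ∃ s Rd : ℕ, Ln * r + 2 ≤ s ∧
      (Rd : ℝ) ≤ ρ * Ln ∧ s + 2 ≤ Rd ∧ C * (((s + 2 : ℕ) : ℝ) / Rd) ^ a ≤ ε := by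
  obtain ⟨η, hη0, hη1, hη⟩ : ∃ η : ℝ, 0 < η ∧ η ≤ 1 ∧ C * η ^ a ≤ ε := by
    refine ⟨min 1 ((ε / C) ^ (1 / a)), lt_min one_pos (by positivity), min_le_left _ _, ?_⟩
    have h1 : (min 1 ((ε / C) ^ (1 / a))) ^ a ≤ ε / C := by
      calc (min 1 ((ε / C) ^ (1 / a))) ^ a ≤ ((ε / C) ^ (1 / a)) ^ a :=
            Real.rpow_le_rpow (le_min zero_le_one (by positivity)) (min_le_right _ _) ha.le
        _ = ε / C := by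
            rw [← Real.rpow_mul (by positivity), one_div_mul_cancel ha.ne', Real.rpow_one]
    calc C * (min 1 ((ε / C) ^ (1 / a))) ^ a ≤ C * (ε / C) := by gcongr
      _ = ε := by field_simp
  refine ⟨ρ * η / 2, by positivity, ?_, ⌈12 / (ρ * η)⌉ + 1, fun Ln hLn => ?_⟩
  · nlinarith
  have hL : 12 / (ρ * η) < (Ln : ℝ) := by
    have h1 : (12 / (ρ * η) : ℝ) ≤ ⌈12 / (ρ * η)⌉ := Int.le_ceil _
    have h2 : ((⌈12 / (ρ * η)⌉ + 1 : ℤ) : ℝ) ≤ Ln := by exact_mod_cast hLn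
    push_cast at h2
    linarith
  have hpos : 0 < ρ * η := by positivity
  have h12 : 12 < Ln * (ρ * η) := by
    rwa [div_lt_iff₀ hpos] at hL
  have hL0 : (0 : ℝ) < Ln := lt_trans (by positivity) hL
  have hRL : 12 < ρ * Ln := by nlinarith [mul_pos hρ hL0]
  refine ⟨⌈(Ln : ℝ) * (ρ * η / 2)⌉₊ + 2, ⌊ρ * Ln⌋₊, ?_, ?_, ?_, ?_⟩
  · push_cast
    have := Nat.le_ceil ((Ln : ℝ) * (ρ * η / 2))
    linarith
  · exact Nat.floor_le (by positivity)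
  all_goals
    have e1 : ((⌈(Ln : ℝ) * (ρ * η / 2)⌉₊ : ℕ) : ℝ) < Ln * (ρ * η / 2) + 1 :=
      Nat.ceil_lt_add_one (by positivity)
    have e2 : ρ * Ln - 1 < ((⌊ρ * Ln⌋₊ : ℕ) : ℝ) := by
      have := Nat.lt_floor_add_one (ρ * Ln)
      linarith
    have e3 : ((⌈(Ln : ℝ) * (ρ * η / 2)⌉₊ + 2 + 2 : ℕ) : ℝ) ≤ η * ((⌊ρ * Ln⌋₊ : ℕ) : ℝ) := by
      push_cast
      nlinarith
  · have e4 : ((⌈(Ln : ℝ) * (ρ * η / 2)⌉₊ + 2 + 2 : ℕ) : ℝ) ≤ ((⌊ρ * Ln⌋₊ : ℕ) : ℝ) :=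
      e3.trans (by nlinarith [Nat.cast_nonneg (α := ℝ) ⌊ρ * Ln⌋₊])
    exact_mod_cast e4
  · refine le_trans ?_ hη
    have e5 : (0 : ℝ) < ((⌊ρ * Ln⌋₊ : ℕ) : ℝ) := by linarith
    have e6 : ((⌈(Ln : ℝ) * (ρ * η / 2)⌉₊ + 2 + 2 : ℕ) : ℝ) / ((⌊ρ * Ln⌋₊ : ℕ) : ℝ) ≤ η := by
      rw [div_le_iff₀ e5]; exact e3
    gcongr

/-- choice of the scales, factor two -/
theorem eps_scale {C a ρ ε : ℝ} (hC : 0 < C) (ha : 0 < a) (hρ : 0 < ρ) (hε : 0 < ε) :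
    ∃ r : ℝ, 0 < r ∧ r ≤ ρ ∧ ∃ L0 : ℤ, ∀ Ln : ℤ, L0 ≤ Ln → ∃ s Rd : ℕ, Ln * r + 2 ≤ s ∧
      (Rd : ℝ) ≤ ρ * Ln ∧ s + 2 ≤ Rd ∧ 2 * (C * (((s + 2 : ℕ) : ℝ) / Rd) ^ a) ≤ ε := by
  obtain ⟨r, h1, h2, L0, h3⟩ := eps_scale1 (C := 2 * C) (by positivity) ha hρ hε
  refine ⟨r, h1, h2, L0, fun Ln hLn => ?_⟩
  obtain ⟨s, Rd, k1, k2, k3, k4⟩ := h3 Ln hLn
  exact ⟨s, Rd, k1, k2, k3, by rw [← mul_assoc]; exact k4⟩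

/-! ### events -/

theorem Nk_mono {k k' : ℤ} (h : k ≤ k') {S : Set P2} : Nk k S ⊆ Nk k' S := by
  rintro x ⟨y, hy, h1, h2⟩
  exact ⟨y, hy, h1.trans h, h2.trans h⟩

theorem Nk_shift {k : ℤ} {S : Set P2} {x : P2} (h : x ∈ Nk k S) : x - (1, 0) ∈ Nk (k + 1) S := by
  obtain ⟨y, hy, h1, h2⟩ := h
  refine ⟨y, hy, ?_, ?_⟩
  · rw [abs_le] at h1 ⊢
    simp only [Prod.fst_sub]
    omega
  · rw [abs_le] at h2 ⊢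
    simp only [Prod.snd_sub]
    omega

theorem XQ_mono {Q Q' : P2 → Prop} {e : ℤ} {S0 S1 S0' S1' : Set P2} (hQ : ∀ t, Q t → Q' t)
    (h0 : S0 ⊆ S0') (h1 : S1 ⊆ S1') :
    (tau hf).real (XQ Q e S0 S1) ≤ (tau hf).real (XQ Q' e S0' S1') := by
  refine measureReal_mono ?_
  rintro g ⟨f0, f1, a1, a2, a3, a4⟩
  exact ⟨f0, f1, a1, a2.mono fun t ht => ⟨hQ t ht, rfl⟩, h0 a3, h1 a4⟩

/-- both parities are bounded by one parity in a larger neighbourhood -/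
theorem XQ_le {k : ℤ} {F A B : Set P2} {e e' : ℤ} (he : e' = e ∨ e' = (e - 1) % 2) :
    (tau hf).real (XQ (fun t => t ∈ Nk k F) e (Nk k A) (Nk k B)) ≤
      (tau hf).real (XQ (fun t => t ∈ Nk (k + 1) F) e' (Nk (k + 1) A) (Nk (k + 1) B)) := by
  rcases he with rfl | he
  · exact XQ_mono (fun t ht => Nk_mono (by omega) ht) (Nk_mono (by omega)) (Nk_mono (by omega))
  · exact shift_event (1, 0) (fun t ht => Nk_shift ht) (fun f hf => Nk_shift hf)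
      (fun f hf => Nk_shift hf) (by rw [he]; simp)

/-! ### assembly -/

/-- **`Q3m` from the macro geometry** -/
theorem q3m_of {k : ℤ} (geo : Geo3m k) : Q3m := by
  obtain ⟨C, a, hC, ha, hcore⟩ := core3m'
  refine ⟨k + 1, fun P b hb ε hε => ?_⟩
  obtain ⟨ρ, hρ, L1, hgeo⟩ := geo P b hb
  obtain ⟨r, hr, hrρ, L2, hsc⟩ := eps_scale1 hC ha hρ hε
  refine ⟨r, hr, max (max L1 L2) 1, fun Ln hLn hev i j hOm hnear => ?_⟩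
  obtain ⟨xr, w, hGW, hHD, hM3, hLB, hH⟩ := hgeo Ln (by omega) hev i j hOm (hnear.trans_le hrρ)
  obtain ⟨s, Rd, h1, h2, h3, h4⟩ := hsc Ln (by omega)
  have hLp : (0 : ℝ) < Ln := by
    have : 0 < Ln := by omega
    exact_mod_cast this
  have hbox := hLB s (by nlinarith)
  have hmain := hcore _ _ _ _ _ _ _ _ _ _ _ _ _ hbox hGW h3 hM3 (hH Rd h2)
  rw [← hHD] at hmain
  have e0 : (tau hf).real (XQ (fun t => t ∈ Nk k (DT (↑P.F) Ln)) 0 (Nk k (arcT Ln P.v 0 P.mb))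
      (Nk k (arcT Ln P.v P.mc P.md))) ≤ P.pm (k + 1) Ln := XQ_le (Or.inl rfl)
  have e1 : (tau hf).real (XQ (fun t => t ∈ Nk k (DT (↑P.F) Ln)) 1 (Nk k (arcT Ln P.v 0 P.mb))
      (Nk k (arcT Ln P.v P.mc P.md))) ≤ P.pm (k + 1) Ln := XQ_le (Or.inr (by norm_num))
  show (P.HD Ln (2 * i) (2 * j)).re - P.pm (k + 1) Ln ≤ ε
  linarith

/-- **`Q3p` from the macro geometry** -/
theorem q3p_of {k : ℤ} (geo : Geo3p k) : Q3p := by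
  obtain ⟨C, a, hC, ha, hcore⟩ := core3p'
  refine ⟨k + 1, fun P b hb ε hε => ?_⟩
  obtain ⟨ρ, hρ, L1, hgeo⟩ := geo P b hb
  obtain ⟨r, hr, hrρ, L2, hsc⟩ := eps_scale1 hC ha hρ hε
  refine ⟨r, hr, max (max L1 L2) 1, fun Ln hLn hev i j hOm hnear => ?_⟩
  obtain ⟨xr, w, hGW, hHD, hM3, hLB, hH⟩ := hgeo Ln (by omega) hev i j hOm (hnear.trans_le hrρ)
  obtain ⟨s, Rd, h1, h2, h3, h4⟩ := hsc Ln (by omega)
  have hLp : (0 : ℝ) < Ln := by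
    have : 0 < Ln := by omega
    exact_mod_cast this
  have hbox := hLB s (by nlinarith)
  have hmain := hcore _ _ _ _ _ _ _ _ _ _ _ _ _ hbox hGW h3 hM3 (hH Rd h2)
  rw [← hHD] at hmain
  have e0 : (tau hf).real (XQ (fun t => t ∈ Nk k (DT (↑P.F) Ln)) 0 (Nk k (arcT Ln P.v P.mb P.mc))
      (Nk k (arcT Ln P.v P.md P.N))) ≤ P.pp (k + 1) Ln := XQ_le (Or.inr (by norm_num))
  have e1 : (tau hf).real (XQ (fun t => t ∈ Nk k (DT (↑P.F) Ln)) 1 (Nk k (arcT Ln P.v P.mb P.mc))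
      (Nk k (arcT Ln P.v P.md P.N))) ≤ P.pp (k + 1) Ln := XQ_le (Or.inl rfl)
  show (1 - (P.HD Ln (2 * i) (2 * j)).re) - P.pp (k + 1) Ln ≤ ε
  linarith

end Crest.Agent.R158.Q331
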