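import Crest.Agent.R158.Nb4_771
import Crest.Agent.R158.Hg3_896
import Crest.Agent.R158.Xr15_249
import Crest.Agent.R158.Q3a_331

/-!
# Row 158, BLOCK BL (helper771), notch balls, 5: **`nbOne : NBone`**
-/

set_option autoImplicit false
set_option linter.unusedVariables false

noncomputable section

namespace Crest.Agent.R158.Nb771

open Crest.Agent.R158.Sp896 (V)
open Crest.Agent.R158.Sw300 (Port)
open Crest.Agent.R158.Tj656 (P4)
open Crest.Agent.R158.Cw161 (Bx Sh pat shr)
open Crest.Agent.R158.Xr249 (CPath full exists_GW'')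
open Crest.Agent.R158.Ob664 (GW HG)
open Crest.Agent.R158.Env664
open Crest.Agent.R158.Hb656
open Crest.Agent.R158.Hg896 (CA CC)

/-! ### connectedness without the notch -/

theorem notch_CC {A N : Finset V} {xr : ℤ} (hA : CC A) (hN : ∀ t ∈ N, t.1 = xr)
    (hout : ∀ t ∈ N, (xr + 1, t.2) ∉ A) : CC (A \ N) := by
  have sub : {t | t ∉ A} ⊆ {t | t ∉ A \ N} := fun t ht h => ht (Finset.mem_sdiff.1 h).1
  have key : ∀ a ∉ A \ N, ∃ a' ∉ A, CPath {t | t ∉ A \ N} a a' := by
    intro a ha
    by_cases h : a ∈ A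
    · have hN' : a ∈ N := by
        by_contra hc
        exact ha (Finset.mem_sdiff.2 ⟨h, hc⟩)
      exact ⟨(xr + 1, a.2), hout a hN', CPath.step
        (Or.inr ⟨rfl, Or.inl (by rw [hN a hN'])⟩) ha (sub (hout a hN'))⟩
    · exact ⟨a, h, Relation.ReflTransGen.refl⟩
  intro a ha b hb
  obtain ⟨a', ha', h1⟩ := key a ha
  obtain ⟨b', hb', h2⟩ := key b hb
  exact h1.trans (((hA a' ha' b' hb').mono sub).trans h2.symm)

theorem notch_CA {A N : Finset V} {xr y0 y1 : ℤ} (hA : CA A)
    (hN : ∀ t, t ∈ N ↔ t.1 = xr ∧ y0 ≤ t.2 ∧ t.2 < y1)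
    (h1 : ∀ y, y0 - 1 ≤ y → y ≤ y1 → (xr - 1, y) ∈ A)
    (hout : ∀ y, y0 ≤ y → y < y1 → (xr + 1, y) ∉ A) : CA (A \ N) := by
  classical
  set ρ : V → V := fun c => if c ∈ N then (c.1 - 1, c.2) else c with hρ
  have in1 : ∀ y, y0 - 1 ≤ y → y ≤ y1 → (xr - 1, y) ∈ A \ N := by
    intro y g1 g2
    refine Finset.mem_sdiff.2 ⟨h1 y g1 g2, fun h => ?_⟩
    have := ((hN _).1 h).1
    simp only at this
    omega
  -- one step
  have one : ∀ c c' : V, Adj4 c c' → c ∈ A → c' ∈ A → c ∈ N → c' ∉ N →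
      CPath {t | t ∈ A \ N} (ρ c) c' := by
    rintro ⟨x, y⟩ ⟨x', y'⟩ hadj hc hc' hn hn'
    obtain ⟨g1, g2, g3⟩ := (hN _).1 hn
    simp only at g1 g2 g3
    subst g1
    have e : ρ (x, y) = (x - 1, y) := by rw [hρ]; simp only; rw [if_pos hn]
    rw [e]
    have hin' : (x', y') ∈ A \ N := Finset.mem_sdiff.2 ⟨hc', hn'⟩
    unfold Adj4 at hadj
    simp only at hadj
    rcases hadj with ⟨rfl, h | h⟩ | ⟨rfl, h | h⟩
    · subst h
      have hy : y + 1 = y1 := by
        by_contra hne
        exact hn' ((hN _).2 ⟨rfl, by simp only; omega, by simp only; omega⟩)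
      exact (CPath.step (a := (x - 1, y)) (b := (x - 1, y + 1)) (Or.inl ⟨rfl, Or.inl rfl⟩)
        (in1 y (by omega) (by omega)) (in1 (y + 1) (by omega) (by omega))).trans
        (CPath.step (a := (x - 1, y + 1)) (b := (x, y + 1)) (Or.inr ⟨rfl, Or.inl (by simp)⟩) (in1 (y + 1) (by omega) (by omega)) hin')
    · have hy : y = y0 := by
        by_contra hne
        exact hn' ((hN _).2 ⟨rfl, by simp only; omega, by simp only; omega⟩)
      exact (CPath.step (a := (x - 1, y)) (b := (x - 1, y')) (Or.inl ⟨rfl, Or.inr h⟩)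
        (in1 y (by omega) (by omega)) (in1 y' (by omega) (by omega))).trans
        (CPath.step (a := (x - 1, y')) (b := (x, y')) (Or.inr ⟨rfl, Or.inl (by simp)⟩) (in1 y' (by omega) (by omega)) hin')
    · subst h
      exact absurd hc' (hout _ g2 g3)
    · have : x' = x - 1 := by omega
      subst this
      exact Relation.ReflTransGen.refl
  intro a ha b hb
  obtain ⟨ha1, ha2⟩ := Finset.mem_sdiff.1 ha
  obtain ⟨hb1, hb2⟩ := Finset.mem_sdiff.1 hb
  have key : ∀ c, CPath {t | t ∈ A} a c → CPath {t | t ∈ A \ N} a (ρ c) := by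
    intro c hc
    induction hc with
    | refl =>
      have : ρ a = a := if_neg ha2
      rw [this]
      exact Relation.ReflTransGen.refl
    | @tail c d h2 h3 ih =>
      obtain ⟨hadj, hcA, hdA⟩ := h3
      refine ih.trans ?_
      by_cases hc : c ∈ N
      · by_cases hd : d ∈ N
        · have e1 : ρ c = (c.1 - 1, c.2) := if_pos hc
          have e2 : ρ d = (d.1 - 1, d.2) := if_pos hd
          obtain ⟨c1, c2, c3⟩ := (hN _).1 hc
          obtain ⟨d1, d2, d3⟩ := (hN _).1 hd
          rw [e1, e2, c1, d1]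
          refine CPath.step (a := (xr - 1, c.2)) (b := (xr - 1, d.2)) (Or.inl ⟨rfl, ?_⟩)
            (in1 _ (by omega) (by omega)) (in1 _ (by omega) (by omega))
          unfold Adj4 at hadj
          show d.2 = c.2 + 1 ∨ c.2 = d.2 + 1
          omega
        · have e2 : ρ d = d := if_neg hd
          rw [e2]
          exact one c d hadj hcA hdA hc hd
      · have e1 : ρ c = c := if_neg hc
        by_cases hd : d ∈ N
        · rw [e1]
          exact (one d c hadj.symm hdA hcA hd hc).symm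
        · have e2 : ρ d = d := if_neg hd
          rw [e1, e2]
          exact CPath.step hadj (Finset.mem_sdiff.2 ⟨hcA, hc⟩) (Finset.mem_sdiff.2 ⟨hdA, hd⟩)
  have := key b (hA a ha1 b hb1)
  have e : ρ b = b := if_neg hb2
  rwa [e] at this

/-! ### the leaf -/

theorem cell_out {F : Finset V} {L b : ℤ} (hL : 0 < L) {c y : ℤ} (h1 : b * L + L ≤ c)
    (h2 : c < b * L + L + L) (h : (b * L + L, y) ∉ D F L) : (c, y) ∉ D F L := by
  rw [mem_D hL] at h ⊢
  have e : b * L + L = (b + 1) * L := by ring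
  have e1 : (b * L + L) / L = b + 1 := (div_iff hL _ _).2 ⟨by linarith, by linarith⟩
  have e2 : c / L = b + 1 := (div_iff hL _ _).2 ⟨by linarith, by linarith⟩
  simp only at h ⊢
  rw [e1] at h
  rw [e2]
  exact h

/-- **(B9, SR)** -/
theorem nbOne : NBone := by
  intro P q b r hr hr2 ε hε
  obtain ⟨C, a, hC, ha, hball⟩ := ball_slit
  obtain ⟨h, hh, hhρ, L1, hsc⟩ := Q331.eps_scale1 (ρ := r / 16) hC ha (by positivity) hε
  refine ⟨h, hh, max L1 (⌈64 / r⌉ + 64), fun L hL hev x y0 y1 hc => ?_⟩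
  obtain ⟨s, n, hs, hnρ, hsn, hCn⟩ := hsc L (by omega)
  have hL64 : 64 ≤ L := by
    have : (0 : ℤ) ≤ ⌈64 / r⌉ := Int.ceil_nonneg (by positivity)
    omega
  have hL0 : 0 < L := by omega
  have hLr : (0 : ℝ) < L := by exact_mod_cast hL0
  have hrL : 64 ≤ r * L := by
    have h1 : (64 / r : ℝ) ≤ L := by
      refine (Int.le_ceil _).trans ?_
      have : ⌈64 / r⌉ ≤ L := by omega
      exact_mod_cast this
    rw [div_le_iff₀ hr] at h1
    linarith
  have hn4 : 4 * (n : ℤ) + 8 ≤ L := by
    have h1 : (4 : ℝ) * n + 8 ≤ L := by nlinarith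
    exact_mod_cast h1
  have hnr : (n : ℝ) + 3 ≤ r * L := by linarith
  -- geometry
  obtain ⟨Yc, jL, jU, hYc, hp⟩ := prof_exists (q := q) hL0 hev
  have hYr : (Yc : ℝ) = q * L / 2 := by
    have : (2 * Yc : ℝ) = q * L := by exact_mod_cast hYc
    linarith
  have hs0 : Yc ≤ y0 + s - 2 := by
    have h1 := (abs_le.1 hc.c0).1
    rw [← hYr] at h1
    have h2 : (Yc : ℝ) ≤ y0 + s - 2 := by linarith
    exact_mod_cast h2
  have hs1 : y1 ≤ Yc + s - 2 := by
    have h1 := (abs_le.1 hc.c1).2
    rw [← hYr] at h1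
    have h2 : (y1 : ℝ) ≤ Yc + s - 2 := by linarith
    exact_mod_cast h2
  have hlt := hc.lt
  have hxr : x + n + 3 ≤ b * L + L := by
    have h1 := hc.xr
    have h2 : (x : ℝ) + n + 3 ≤ b * L + L := by linarith
    exact_mod_cast h2
  have hrow : ∀ x1 y : ℤ, b * L + L - 3 ≤ x1 ∨ x ≤ x1 → x1 ≤ b * L + L - 1 → y0 - 1 ≤ y → y ≤ y1 →
      (x1, y) ∈ D P.F L := by
    intro x1 y h1 h2 h3 h4
    refine hc.row x1 y ?_ h2 h3 h4
    have h5 : x ≤ x1 := by omega
    have h6 : (x : ℝ) ≤ x1 := by exact_mod_cast h5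
    linarith
  have hout := hc.out
  obtain ⟨sh, k, X, hX, hwin⟩ := pats (b := b) (np_P4 P) hL0 hp hlt hs0 hs1 hsn (by omega)
    (fun y h1 h2 => hrow _ y (by omega) le_rfl h1 h2) hout
  have hid : ∀ t : V, t.2 < y1 → shr y1 (-1) t = t := by
    intro t ht
    unfold shr
    rw [if_pos ht]
  have hs2 : 2 ≤ s := by
    have h1 : (2 : ℝ) ≤ s := by nlinarith
    exact_mod_cast h1
  -- the good word
  have hA : CA (D P.F L) := Hg896.D_CA (Mg949.mac P).CA hL0
  have hCc : CC (D P.F L) := Hg896.D_CC (Mg949.mac P).CC hL0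
  have hword : ∃ w, GW (D P.F L \ N1 L b y0 y1)
      (beD (D P.F L \ N1 L b y0 y1) x y1 (b * L + L - 1)) w := by
    have c1 : CC (D P.F L \ N1 L b y0 y1) := by
      refine notch_CC (xr := b * L + L - 1) hCc (fun t ht => (mem_N1.1 ht).1) fun t ht => ?_
      obtain ⟨-, g1, g2⟩ := mem_N1.1 ht
      rw [sub_add_cancel]
      exact hout _ (by omega) (by omega)
    have c2 : CA (D P.F L \ N1 L b y0 y1) := by
      refine notch_CA (xr := b * L + L - 1) (y0 := y0) (y1 := y1) hA (fun t => mem_N1)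
        (fun y g1 g2 => hrow _ _ (by omega) (by omega) g1 g2) fun y g1 g2 => ?_
      rw [sub_add_cancel]
      exact hout _ (by omega) (by omega)
    refine exists_GW'' c1.sc c2.conn (by omega) (fun x1 g1 g2 => ?_) (fun x1 g1 g2 => ?_)
      (fun g => ?_) (fun g => ?_)
    · refine Finset.mem_sdiff.2 ⟨hrow _ _ (Or.inr g1) g2 (by omega) le_rfl, fun g => ?_⟩
      have := (mem_N1.1 g).2.2
      simp only at this
      omega
    · refine Finset.mem_sdiff.2 ⟨hrow _ _ (Or.inr g1) (by omega) (by omega) (by omega), fun g => ?_⟩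
      have := (mem_N1.1 g).1
      simp only at this
      omega
    · exact (Finset.mem_sdiff.1 g).2 (mem_N1.2 ⟨rfl, by simp only; omega, by simp only; omega⟩)
    · have := (Finset.mem_sdiff.1 g).1
      rw [sub_add_cancel] at this
      exact hout _ (by omega) le_rfl this
  intro hok
  have hmain := hball (D P.F L) (N1 L b y0 y1) x y1 (b * L + L - 1) X (Yc - 1) s n sh k hsn hwin
    ?_ ?_ ?_ hword (mt P L) (fun i => nmk L b y0 y1 (mt P L i)) hok ?_ ?_
  · refine ⟨hmain.1, hmain.2.trans (le_trans ?_ hCn)⟩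
    have hn0 : (0 : ℝ) < n := by
      have : 0 < n := by omega
      exact_mod_cast this
    gcongr
    omega
  · -- the chart is to the right of `z`
    intro c hcb
    have e1 : (shr y1 1 c).1 = c.1 ∨ (shr y1 1 c).1 = c.1 + 1 := by
      unfold shr; split_ifs <;> simp
    unfold Bx at hcb
    omega
  · -- rows of the slit to the right of its end
    rintro ⟨t1, t2⟩ ht hb ht1
    simp only at ht1
    have e1 : (shr y1 (-1) (t1, t2)).1 = t1 ∨ (shr y1 (-1) (t1, t2)).1 = t1 + -1 := by
      unfold shr; split_ifs <;> simp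
    have key : y0 - 1 ≤ t2 → t2 ≤ y1 → False := by
      intro g1 g2
      refine cell_out hL0 ?_ ?_ (hout t2 g1 g2) ht
      · omega
      · unfold Bx at hb
        omega
    constructor
    · intro e
      simp only at e
      exact key (by omega) (by omega)
    · intro e
      simp only at e
      exact key (by omega) (by omega)
  · -- the notch
    intro t ht
    obtain ⟨g1, g2, g3⟩ := mem_N1.1 ht
    rw [hid t g3]
    unfold Bx
    omega
  · -- marks
    intro i
    obtain ⟨m1, m2⟩ := Hw949.mt_out (P := P) (by omega : 2 ≤ L) hev i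
    rw [← mt_eq] at m1 m2
    generalize mt P L i = m at m1 m2 ⊢
    obtain ⟨⟨t1, t2⟩, d⟩ := m
    by_cases hi : ((t1, t2) : V) ∈ N1 L b y0 y1
    · right
      obtain ⟨g1, g2, g3⟩ := mem_N1.1 hi
      simp only at g1 g2 g3 m1
      have hd : d = 2 := by
        rcases Cw161.d4 d with rfl | rfl | rfl | rfl
        · rw [Hw949.nt_0] at m2
          exact absurd (hrow (t1 - 1) t2 (by omega) (by omega) (by omega) (by omega)) m2
        · rw [Hw949.nt_1] at m2
          exact absurd (hrow t1 (t2 + 1) (by omega) (by omega) (by omega) (by omega)) m2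
        · rfl
        · rw [Hw949.nt_3] at m2
          exact absurd (hrow t1 (t2 - 1) (by omega) (by omega) (by omega) (by omega)) m2
      subst hd
      have e : nmk L b y0 y1 ((t1, t2), 2) = ((t1 - 1, t2), 2) := by
        unfold nmk
        rw [if_pos hi]
      have hin : ((t1 - 1, t2) : V) ∈ D P.F L \ N1 L b y0 y1 := by
        refine Finset.mem_sdiff.2 ⟨hrow _ _ (by omega) (by omega) (by omega) (by omega), fun g => ?_⟩
        have := (mem_N1.1 g).1
        simp only at this
        omega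
      show _ ∧ Bx _ _ _ (shr y1 (-1) (nmk L b y0 y1 ((t1, t2), 2)).1) ∧ _ ∧ _
      rw [e]
      refine ⟨hi, ?_, hin, ?_⟩
      · rw [hid _ g3]
        unfold Bx
        simp only
        omega
      · unfold beD res
        rw [if_neg]
        rintro ⟨-, g⟩
        rw [nbD_E, portOf_some] at g
        simp only [sub_add_cancel] at g
        exact (Finset.mem_sdiff.1 g).2 hi
    · left
      refine ⟨hi, ?_⟩
      show nmk L b y0 y1 ((t1, t2), d) = ((t1, t2), d)
      unfold nmk
      rw [if_neg hi]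
  · -- distance of the marks
    intro i j hij
    by_contra hcon
    push Not at hcon
    obtain ⟨g1, g2⟩ := hcon
    have hd := Hw949.mt_dist P (by omega : 2 ≤ L) hev hij
    rw [← mt_eq] at hd
    generalize (mt P L i).1 = u at *
    generalize (mt P L j).1 = v at *
    have e1 : (shr y1 (-1) u).1 = u.1 ∨ (shr y1 (-1) u).1 = u.1 + -1 := by
      unfold shr; split_ifs <;> simp
    have e2 : (shr y1 (-1) v).1 = v.1 ∨ (shr y1 (-1) v).1 = v.1 + -1 := by
      unfold shr; split_ifs <;> simp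
    have e3 : (shr y1 (-1) u).2 = u.2 := by
      unfold shr; split_ifs <;> simp
    have e4 : (shr y1 (-1) v).2 = v.2 := by
      unfold shr; split_ifs <;> simp
    unfold Bx at g1 g2
    rw [le_abs, le_abs] at hd
    obtain ⟨M, hM⟩ := hev
    omega

end Crest.Agent.R158.Nb771
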