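import Crest.Agent.R158.Sh4_279
import Crest.Agent.R158.Hb2_656

/-!
R158, S0237, BLOCK BL, leaf (B2), file 5 (helper279): 656's Prop `WordsEx`

* `nop` : 679's `NP` gives `NoPinch`
* `rows_of` : the two rows of the slit are not moved
* **`wordsEx : WordsEx`**
-/

set_option autoImplicit false

noncomputable section

namespace Crest.Agent.R158.Sh279

open Crest.Agent.R158.Sp896 (V)
open Crest.Agent.R158.Env664 (D Run Adj4 Mac mem_D div_iff beD)
open Crest.Agent.R158.Ob664 (GW rgt)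
open Crest.Agent.R158.Bh679 (NP Words)
open Crest.Agent.R158.Tj656 (P4)
open Crest.Agent.R158.Hb656

theorem nop {F : Finset V} (np : NP F) : NoPinch F where
  ne a b h1 h2 := by
    by_contra h3
    rw [not_or] at h3
    exact (np a b).1 ⟨h1, h2, h3.1, h3.2⟩
  nw a b h1 h2 := by
    by_contra h3
    rw [not_or] at h3
    exact (np a b).2 ⟨h1, h2, h3.1, h3.2⟩

theorem not_DH_of_far {H : Finset V} {L : ℤ} (hL : 0 < L) {x y : ℤ}
    (h : (x / L, y / L) ∉ H) : (x, y) ∉ D H L := fun h1 => h ((mem_D hL _).1 h1)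

/-- the two rows of the slit in a run none of whose cells is moved -/
theorem rows_of {F H : Finset V} {a b j L x y : ℤ} (hL : 8 ≤ L) (hr : Run F a b j)
    (hn : ∀ i, a ≤ i → i ≤ b → (i, j) ∉ H) (hs : Sl L a b j x y) :
    ∀ y', y - 1 ≤ y' → y' ≤ y → ∀ x', x ≤ x' → x' ≤ b * L + L - 1 →
      (x', y') ∈ D F L ∧ (x', y') ∉ D H L := by
  intro y' h1 h2 x' h3 h4
  obtain ⟨e1, e2, e3, e4⟩ := hs
  have hL' : 0 < L := by omega
  have hj : y' / L = j := (div_iff hL' _ _).2 ⟨by linarith, by linarith⟩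
  have hi1 : a ≤ x' / L := by
    rw [Int.le_ediv_iff_mul_le hL']
    linarith
  have hi2 : x' / L ≤ b := by
    have : x' / L < b + 1 := by
      rw [Int.ediv_lt_iff_lt_mul hL']
      linarith [mul_comm b L, add_mul b 1 L]
    omega
  constructor
  · rw [mem_D hL']
    simp only
    rw [hj]
    exact hr.mem _ hi1 hi2
  · apply not_DH_of_far hL'
    rw [hj]
    exact hn _ hi1 hi2

theorem not_moved {F H : Finset V} {k i0 i1 : ℤ} {up : Bool} {a b j : ℤ}
    (c : Cfg F H k i0 i1 up a b j) : ∀ i, a ≤ i → i ≤ b → (i, j) ∉ H := by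
  intro i h1 h2 h3
  have := c.far i h1 h2 _ h3
  simp at this

theorem right_of {F : Finset V} {a b j L x y : ℤ} (hL : 8 ≤ L) (hr : Run F a b j)
    (hs : Sl L a b j x y) : (b * L + L - 1 + 1, y) ∉ D F L := by
  have hL' : 0 < L := by omega
  obtain ⟨e1, e2, e3, e4⟩ := hs
  rw [mem_D hL']
  simp only
  have h1 : (b * L + L - 1 + 1) / L = b + 1 := (div_iff hL' _ _).2
    ⟨by linarith [add_mul b 1 L], by linarith [add_mul b 1 L]⟩
  have h2 : y / L = j := (div_iff hL' _ _).2 ⟨by linarith, by linarith⟩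
  rw [h1, h2]
  exact hr.right

/-- **656's leaf (B2)** -/
theorem wordsEx : WordsEx := by
  intro P H k i0 i1 up a b j c
  refine ⟨8, fun L hL _ x y hs => ?_⟩
  have key : ∀ δ : ℤ, (δ = 0 ∨ δ = 1 ∨ δ = -1) → ∀ S : Finset V,
      (S ⊆ RL P.F H L δ ∨ S ⊆ LL P.F H L δ) →
      ∃ w, GW (shD P.F H L δ ∪ S) (beD (shD P.F H L δ ∪ S) x y (b * L + L - 1)) w := by
    intro δ hδ S hS
    have hrow := rows_of hL c.run (not_moved c) hs
    exact (lay_GW (M := Mg949.mac P) c.hang (nop c.np) hL hδ hS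
      (by have := hs.hx'; omega) (fun x' h1 h2 => hrow _ (le_refl _) (by omega) x' h1 h2)
      (fun x' h1 h2 => hrow _ (by omega) (le_refl _) x' h1 h2) (right_of hL c.run hs)).2
  refine ⟨fun δ hδ S hS => key δ ?_ S (Or.inl hS), fun δ hδ S hS => key δ ?_ S (Or.inr hS)⟩
  · rcases hδ with ⟨-, h⟩ | ⟨-, h⟩ <;> omega
  · rcases hδ with ⟨-, h⟩ | ⟨-, h⟩ <;> omega

end Crest.Agent.R158.Sh279
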