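import Crest.Agent.R158.Hb6_656
import Crest.Agent.R158.Hg4_896
import Crest.Agent.R158.Hw3_949
import Crest.Agent.R158.Sh5_279
import Crest.Agent.R158.Bh8_679
import Crest.Agent.R158.Hc7_854
import Crest.Agent.R158.Mb5_331
import Crest.Agent.R158.Mp1_896
import Crest.Agent.R158.Nb5_771
import Crest.Agent.R158.Hs4_689
import Crest.Agent.R158.Dr11_945
import Crest.Agent.R158.Cn3_161

/-!
R158, S0237, BLOCK BL, file 7 (helper656): all leaves plugged.
**`oscM : ∀ P, OscM P`**.
-/

set_option autoImplicit false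

noncomputable section

namespace Crest.Agent.R158.Hb656

open Crest.Agent.R158.Tj656 (P4)
open Crest.Agent.R158.Cs410 (OscM)

theorem mk0 : MK0 := by
  intro P a b j hr
  refine ⟨1, fun L hL hev x y hs => ?_⟩
  have h1 := hs.hx
  have h2 := hs.hx'
  have h3 : x ≤ b * L + L - 1 := by omega
  have h4 : 0 < L := by omega
  exact Hw949.mk_D P h4 hev hr h1 h3 hs.hy hs.hy'

theorem leaves : Leaves where
  hang := Hg896.hangEx
  mk0 := mk0
  words := Sh279.wordsEx
  rl := Bh679.rlchain
  ll := Hc854.ll_chain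
  mbup := Mb331.mBup
  mbdn := Mb331.mBdn
  mbup' := Mp896.mbup'
  mbdn' := Mp896.mbdn'
  nbup := Cn161.nBup
  nbdn := Cn161.nBdn
  nbone := Nb771.nbOne
  drup := Hs689.drup
  drdn := Hs689.drdn
  drone := Dr945.dRone

/-- **BLOCK BL** -/
theorem oscM (P : P4) : OscM P := oscM_of leaves P

end Crest.Agent.R158.Hb656
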