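import Crest.Agent.R158.Bh1_679

/-!
# R158, BL (helper854), file Hc1: the height-ordered chain with an invariant

* `chainI` : 679's `chain` when the step estimates need an invariant `P` of the state, which is
  carried along
* `rr` : rotation by 180 degrees of the tiles, `chainR` : the chain from the top to the bottom and
  from the right to the left
-/

set_option autoImplicit false

namespace Crest.Agent.R158.Hc854

open Crest.Agent.R158.Bh679

variable {RL : Finset (ℤ × ℤ)} {y y' X : ℤ}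

variable {E : Type*} [SeminormedAddCommGroup E]

/-- one row -/
theorem rowI (P : Finset (ℤ × ℤ) → Prop) (H : Finset (ℤ × ℤ) → E) (hy : y ≤ y') {c : ℝ}
    (h : ∀ X ∈ Co RL y y', P (St RL y y' X) → P (St RL y y' (X + 1)) ∧
      ‖H (St RL y y' (X + 1)) - H (St RL y y' X)‖ ≤ c) (hP : P (Be RL y)) :
    P (Be RL y') ∧ ‖H (Be RL y') - H (Be RL y)‖ ≤ (Co RL y y').card * c := by
  obtain ⟨x0, hx0⟩ : ∃ x0 : ℤ, ∀ t ∈ RL, x0 ≤ t.1 := by
    obtain ⟨m, hm⟩ := (RL.image Prod.fst).bddBelow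
    exact ⟨m, fun t ht => hm (by simpa using ⟨t.2, ht⟩)⟩
  obtain ⟨x1, hx1⟩ : ∃ x1 : ℤ, ∀ t ∈ RL, t.1 < x1 := by
    obtain ⟨m, hm⟩ := (RL.image Prod.fst).bddAbove
    exact ⟨m + 1, fun t ht => Int.lt_add_one_iff.2 (hm (by simpa using ⟨t.2, ht⟩))⟩
  have key : ∀ m : ℕ, P (St RL y y' (x0 + m)) ∧ ‖H (St RL y y' (x0 + m)) - H (St RL y y' x0)‖ ≤
      ((Co RL y y').filter fun X => X < x0 + m).card * c := by
    intro m
    induction m with
    | zero =>
      have : (Co RL y y').filter (fun X => X < x0 + (0 : ℕ)) = ∅ := by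
        rw [Finset.eq_empty_iff_forall_notMem]
        intro X hX
        rw [Finset.mem_filter] at hX
        obtain ⟨t, h1, h2, -⟩ := mem_Co.1 hX.1
        have := hx0 t h1
        have := hX.2
        push_cast at this
        omega
      rw [this]
      refine ⟨?_, by simp⟩
      simp only [Nat.cast_zero, add_zero]
      rw [St_low hx0]
      exact hP
    | succ m ih =>
      obtain ⟨ihP, ih⟩ := ih
      have e : x0 + ((m + 1 : ℕ) : ℤ) = x0 + m + 1 := by push_cast; ring
      rw [e]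
      by_cases hX : x0 + (m : ℤ) ∈ Co RL y y'
      · have h1 : (Co RL y y').filter (fun X => X < x0 + m + 1) =
            insert (x0 + (m : ℤ)) ((Co RL y y').filter fun X => X < x0 + m) := by
          ext X
          simp only [Finset.mem_filter, Finset.mem_insert]
          constructor
          · rintro ⟨h2, h3⟩
            by_cases h4 : X = x0 + m
            · exact Or.inl h4
            · exact Or.inr ⟨h2, by omega⟩
          · rintro (rfl | ⟨h2, h3⟩)
            · exact ⟨hX, by omega⟩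
            · exact ⟨h2, by omega⟩
        have h2 : x0 + (m : ℤ) ∉ (Co RL y y').filter fun X => X < x0 + m := by
          simp
        rw [h1, Finset.card_insert_of_notMem h2]
        obtain ⟨h3P, h3⟩ := h _ hX ihP
        refine ⟨h3P, ?_⟩
        have h4 : H (St RL y y' (x0 + m + 1)) - H (St RL y y' x0) =
            (H (St RL y y' (x0 + m + 1)) - H (St RL y y' (x0 + m))) +
              (H (St RL y y' (x0 + m)) - H (St RL y y' x0)) := by abel
        rw [h4]
        refine (norm_add_le _ _).trans ?_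
        push_cast
        linarith
      · have h1 : (Co RL y y').filter (fun X => X < x0 + m + 1) =
            (Co RL y y').filter fun X => X < x0 + m := by
          ext X
          simp only [Finset.mem_filter]
          constructor
          · rintro ⟨h2, h3⟩
            refine ⟨h2, ?_⟩
            have : X ≠ x0 + m := fun e => hX (e ▸ h2)
            omega
          · rintro ⟨h2, h3⟩; exact ⟨h2, by omega⟩
        rw [h1, St_succ hy, Gr_empty hX, Finset.union_empty]
        exact ⟨ihP, ih⟩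
  obtain ⟨hP1, h1⟩ := key (x1 - x0).toNat
  by_cases hne : RL = ∅
  · subst hne
    have e1 : Be (∅ : Finset (ℤ × ℤ)) y' = Be ∅ y := by simp [Be]
    rw [e1, sub_self, norm_zero]
    refine ⟨hP, ?_⟩
    simp [Co]
  · obtain ⟨t, ht⟩ := Finset.nonempty_iff_ne_empty.2 hne
    have h2 : x0 ≤ x1 := by have := hx0 t ht; have := hx1 t ht; omega
    have e : x0 + ((x1 - x0).toNat : ℤ) = x1 := by omega
    rw [e, St_high hy hx1] at h1 hP1
    rw [St_low hx0] at h1
    have h3 : (Co RL y y').filter (fun X => X < x1) = Co RL y y' := by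
      rw [Finset.filter_eq_self]
      intro X hX
      obtain ⟨t, h4, h5, -⟩ := mem_Co.1 hX
      have := hx1 t h4
      omega
    rw [h3] at h1
    exact ⟨hP1, h1⟩

/-- several thin rows -/
theorem thinsI (P : Finset (ℤ × ℤ) → Prop) (H : Finset (ℤ × ℤ) → E) {c : ℝ} (y : ℤ) (m : ℕ)
    (h : ∀ z, y ≤ z → z < y + m → ∀ X ∈ Co RL z (z + 1), P (St RL z (z + 1) X) →
      P (St RL z (z + 1) (X + 1)) ∧ ‖H (St RL z (z + 1) (X + 1)) - H (St RL z (z + 1) X)‖ ≤ c)
    (hP : P (Be RL y)) :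
    P (Be RL (y + m)) ∧ ‖H (Be RL (y + m)) - H (Be RL y)‖ ≤
      (RL.filter fun t => y ≤ t.2 ∧ t.2 < y + m).card * c := by
  induction m with
  | zero =>
    have : RL.filter (fun t => y ≤ t.2 ∧ t.2 < y + (0 : ℕ)) = ∅ := by
      rw [Finset.eq_empty_iff_forall_notMem]
      intro t ht
      rw [Finset.mem_filter] at ht
      push_cast at ht
      omega
    rw [this]
    refine ⟨by simpa using hP, by simp⟩
  | succ m ih =>
    obtain ⟨ihP, ih'⟩ := ih fun z h1 h2 => h z h1 (by push_cast; omega)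
    obtain ⟨hrP, hr⟩ := rowI (RL := RL) (y := y + m) (y' := y + m + 1) P H (by omega) (c := c)
      (h (y + m) (by omega) (by push_cast; omega)) ihP
    rw [Co_thin_card] at hr
    have e : y + ((m + 1 : ℕ) : ℤ) = y + m + 1 := by push_cast; ring
    rw [e]
    have h1 : RL.filter (fun t => y ≤ t.2 ∧ t.2 < y + m + 1) =
        (RL.filter fun t => y ≤ t.2 ∧ t.2 < y + m) ∪ RL.filter fun t => t.2 = y + m := by
      ext t
      simp only [Finset.mem_filter, Finset.mem_union]
      constructor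
      · rintro ⟨h1, h2⟩
        by_cases h3 : t.2 = y + m
        · exact Or.inr ⟨h1, h3⟩
        · exact Or.inl ⟨h1, by omega⟩
      · rintro (⟨h1, h2⟩ | ⟨h1, h2⟩)
        · exact ⟨h1, by omega⟩
        · exact ⟨h1, by omega⟩
    have h2 : Disjoint (RL.filter fun t => y ≤ t.2 ∧ t.2 < y + m)
        (RL.filter fun t => t.2 = y + m) := by
      rw [Finset.disjoint_left]
      intro t ht ht'
      rw [Finset.mem_filter] at ht ht'
      omega
    rw [h1, Finset.card_union_of_disjoint h2]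
    have h4 : H (Be RL (y + m + 1)) - H (Be RL y) =
        (H (Be RL (y + m + 1)) - H (Be RL (y + m))) + (H (Be RL (y + m)) - H (Be RL y)) := by abel
    rw [h4]
    refine ⟨hrP, (norm_add_le _ _).trans ?_⟩
    push_cast
    linarith

/-- **the height-ordered chain with an invariant** -/
theorem chainI (P : Finset (ℤ × ℤ) → Prop) (H : Finset (ℤ × ℤ) → E) {L2 δ k0 : ℤ} {K : ℕ}
    (hδ : 0 ≤ δ) (hL : 2 * δ ≤ L2)
    (lo : ∀ t ∈ RL, k0 * L2 - δ ≤ t.2) (hi : ∀ t ∈ RL, t.2 < (k0 + K) * L2 - δ) {ε1 ε2 : ℝ}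
    (hε1 : 0 ≤ ε1) (hε2 : 0 ≤ ε2)
    (thin : ∀ k y X : ℤ, k * L2 + δ ≤ y → y < (k + 1) * L2 - δ → (X, y) ∈ RL →
      P (St RL y (y + 1) X) → P (insert (X, y) (St RL y (y + 1) X)) ∧
      ‖H (insert (X, y) (St RL y (y + 1) X)) - H (St RL y (y + 1) X)‖ ≤ ε1)
    (thick : ∀ k X : ℤ, (∃ t ∈ RL, t.1 = X ∧ k * L2 - δ ≤ t.2 ∧ t.2 < k * L2 + δ) →
      P (St RL (k * L2 - δ) (k * L2 + δ) X) →
      P (St RL (k * L2 - δ) (k * L2 + δ) X ∪ Gr RL (k * L2 - δ) (k * L2 + δ) X) ∧
      ‖H (St RL (k * L2 - δ) (k * L2 + δ) X ∪ Gr RL (k * L2 - δ) (k * L2 + δ) X) -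
        H (St RL (k * L2 - δ) (k * L2 + δ) X)‖ ≤ ε2) (hP : P ∅) :
    P RL ∧ ‖H RL - H ∅‖ ≤ RL.card * ε1 + K * (RL.image Prod.fst).card * ε2 := by
  have e2 : Be RL (k0 * L2 - δ) = ∅ := by
    rw [Finset.eq_empty_iff_forall_notMem]
    intro t ht
    obtain ⟨h2, h3⟩ := mem_Be.1 ht
    have := lo t h2
    omega
  -- blocks
  have key : ∀ m : ℕ, P (Be RL ((k0 + m) * L2 - δ)) ∧
      ‖H (Be RL ((k0 + m) * L2 - δ)) - H (Be RL (k0 * L2 - δ))‖ ≤
      (RL.filter fun t => t.2 < (k0 + m) * L2 - δ).card * ε1 +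
        m * (RL.image Prod.fst).card * ε2 := by
    intro m
    induction m with
    | zero =>
      simp only [Nat.cast_zero, add_zero, sub_self, norm_zero, zero_mul]
      refine ⟨by rw [e2]; exact hP, by positivity⟩
    | succ m ih =>
      obtain ⟨ihP, ih⟩ := ih
      obtain ⟨h1P, h1⟩ := rowI (RL := RL) (y := (k0 + m) * L2 - δ) (y' := (k0 + m) * L2 + δ) P H
        (by omega) (c := ε2) (fun X hX hS => by
          rw [St_succ (by omega)]
          exact thick (k0 + m) X (mem_Co.1 hX) hS) ihP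
      obtain ⟨h2P, h2⟩ := thinsI (RL := RL) P H (c := ε1) ((k0 + m) * L2 + δ) (L2 - 2 * δ).toNat
        (fun z hz1 hz2 X hX hS => by
          have e : (((L2 - 2 * δ).toNat : ℕ) : ℤ) = L2 - 2 * δ := by omega
          rw [e] at hz2
          obtain ⟨t, ht, h3, h4, h5⟩ := mem_Co.1 hX
          have ht' : (X, z) ∈ RL := by
            have : t = (X, z) := Prod.ext h3 (by show t.2 = z; omega)
            rwa [← this]
          have h6 := thin (k0 + m) z X hz1 (by
            have : (k0 + m + 1) * L2 = (k0 + m) * L2 + L2 := by ring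
            rw [this]; omega) ht' hS
          have h7 : St RL z (z + 1) (X + 1) = insert (X, z) (St RL z (z + 1) X) := by
            rw [St_succ (by omega)]
            ext t
            simp only [Finset.mem_union, Finset.mem_insert, mem_Gr]
            constructor
            · rintro (h8 | ⟨h8, h9, h10, h11⟩)
              · exact Or.inr h8
              · exact Or.inl (Prod.ext h9 (by show t.2 = z; omega))
            · rintro (rfl | h8)
              · exact Or.inr ⟨ht', rfl, le_refl _, by simp⟩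
              · exact Or.inl h8
          rw [h7]; exact h6) h1P
      have e : (k0 + m) * L2 + δ + (((L2 - 2 * δ).toNat : ℕ) : ℤ) =
          (k0 + ((m + 1 : ℕ) : ℤ)) * L2 - δ := by
        have : (((L2 - 2 * δ).toNat : ℕ) : ℤ) = L2 - 2 * δ := by omega
        rw [this]; push_cast; ring
      rw [e] at h2 h2P
      have hcard : (RL.filter fun t => t.2 < (k0 + m) * L2 - δ).card +
          (RL.filter fun t => (k0 + m) * L2 + δ ≤ t.2 ∧ t.2 < (k0 + ((m + 1 : ℕ) : ℤ)) * L2 - δ).card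
          ≤ (RL.filter fun t => t.2 < (k0 + ((m + 1 : ℕ) : ℤ)) * L2 - δ).card := by
        rw [← Finset.card_union_of_disjoint]
        · refine Finset.card_le_card fun t ht => ?_
          rw [Finset.mem_union, Finset.mem_filter, Finset.mem_filter] at ht
          rw [Finset.mem_filter]
          rcases ht with ⟨h3, h4⟩ | ⟨h3, h4⟩
          · refine ⟨h3, ?_⟩
            have : (k0 + ((m + 1 : ℕ) : ℤ)) * L2 = (k0 + m) * L2 + L2 := by push_cast; ring
            rw [this]; omega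
          · exact ⟨h3, h4.2⟩
        · rw [Finset.disjoint_left]
          intro t ht ht'
          rw [Finset.mem_filter] at ht ht'
          omega
      have h4 : H (Be RL ((k0 + ((m + 1 : ℕ) : ℤ)) * L2 - δ)) - H (Be RL (k0 * L2 - δ)) =
          (H (Be RL ((k0 + ((m + 1 : ℕ) : ℤ)) * L2 - δ)) - H (Be RL ((k0 + m) * L2 + δ))) +
          ((H (Be RL ((k0 + m) * L2 + δ)) - H (Be RL ((k0 + m) * L2 - δ))) +
          (H (Be RL ((k0 + m) * L2 - δ)) - H (Be RL (k0 * L2 - δ)))) := by abel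
      rw [h4]
      refine ⟨h2P, (norm_add_le _ _).trans ((add_le_add_right (norm_add_le _ _) _).trans ?_)⟩
      have h5 : ((Co RL ((k0 + m) * L2 - δ) ((k0 + m) * L2 + δ)).card : ℝ) * ε2 ≤
          (RL.image Prod.fst).card * ε2 :=
        mul_le_mul_of_nonneg_right (by exact_mod_cast Co_card_le) hε2
      have h6 : ((RL.filter fun t => t.2 < (k0 + m) * L2 - δ).card : ℝ) * ε1 +
          ((RL.filter fun t => (k0 + m) * L2 + δ ≤ t.2 ∧
            t.2 < (k0 + ((m + 1 : ℕ) : ℤ)) * L2 - δ).card : ℝ) * ε1 ≤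
          ((RL.filter fun t => t.2 < (k0 + ((m + 1 : ℕ) : ℤ)) * L2 - δ).card : ℝ) * ε1 := by
        rw [← add_mul]
        exact mul_le_mul_of_nonneg_right (by exact_mod_cast hcard) hε1
      push_cast at h2 h5 h6 ⊢
      nlinarith
  obtain ⟨h1P, h1⟩ := key K
  have e1 : Be RL ((k0 + K) * L2 - δ) = RL := by
    rw [Be, Finset.filter_eq_self]
    exact hi
  have e3 : RL.filter (fun t => t.2 < (k0 + K) * L2 - δ) = RL := by
    rw [Finset.filter_eq_self]
    exact hi
  rw [e1, e2, e3] at h1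
  rw [e1] at h1P
  exact ⟨h1P, h1⟩

/-! ### from the top to the bottom, from the right to the left -/

/-- rotation by 180 degrees -/
def rr (t : ℤ × ℤ) : ℤ × ℤ := (-1 - t.1, -1 - t.2)

@[simp] theorem rr_rr (t : ℤ × ℤ) : rr (rr t) = t := by
  obtain ⟨a, b⟩ := t
  simp [rr]

theorem rr_inj : Function.Injective rr := fun a b h => by rw [← rr_rr a, h, rr_rr]

theorem mem_image_rr {S : Finset (ℤ × ℤ)} {t : ℤ × ℤ} : t ∈ S.image rr ↔ rr t ∈ S := by
  rw [Finset.mem_image]
  constructor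
  · rintro ⟨a, ha, rfl⟩; simpa using ha
  · intro h; exact ⟨rr t, h, rr_rr t⟩

theorem image_rr_rr (S : Finset (ℤ × ℤ)) : (S.image rr).image rr = S := by
  ext t; rw [mem_image_rr, mem_image_rr, rr_rr]

/-- state before the group (rows `[y, y')`, column `X`), the order being from the top -/
def Sd (LL : Finset (ℤ × ℤ)) (y y' X : ℤ) : Finset (ℤ × ℤ) :=
  LL.filter fun t => y' ≤ t.2 ∨ (y ≤ t.2 ∧ X < t.1)

theorem mem_Sd {LL : Finset (ℤ × ℤ)} {t : ℤ × ℤ} :
    t ∈ Sd LL y y' X ↔ t ∈ LL ∧ (y' ≤ t.2 ∨ (y ≤ t.2 ∧ X < t.1)) := by simp [Sd]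

/-- **the chain from the top to the bottom** -/
theorem chainD {LL : Finset (ℤ × ℤ)} (P : Finset (ℤ × ℤ) → Prop) (H : Finset (ℤ × ℤ) → E)
    {L2 δ k0 : ℤ} {K : ℕ} (hδ : 0 ≤ δ) (hL : 2 * δ ≤ L2)
    (lo : ∀ t ∈ LL, k0 * L2 - δ ≤ t.2) (hi : ∀ t ∈ LL, t.2 < (k0 + K) * L2 - δ) {ε1 ε2 : ℝ}
    (hε1 : 0 ≤ ε1) (hε2 : 0 ≤ ε2)
    (thin : ∀ k y X : ℤ, k * L2 + δ ≤ y → y < (k + 1) * L2 - δ → (X, y) ∈ LL →
      P (Sd LL y (y + 1) X) → P (insert (X, y) (Sd LL y (y + 1) X)) ∧
      ‖H (insert (X, y) (Sd LL y (y + 1) X)) - H (Sd LL y (y + 1) X)‖ ≤ ε1)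
    (thick : ∀ k X : ℤ, (∃ t ∈ LL, t.1 = X ∧ k * L2 - δ ≤ t.2 ∧ t.2 < k * L2 + δ) →
      P (Sd LL (k * L2 - δ) (k * L2 + δ) X) →
      P (Sd LL (k * L2 - δ) (k * L2 + δ) X ∪ Gr LL (k * L2 - δ) (k * L2 + δ) X) ∧
      ‖H (Sd LL (k * L2 - δ) (k * L2 + δ) X ∪ Gr LL (k * L2 - δ) (k * L2 + δ) X) -
        H (Sd LL (k * L2 - δ) (k * L2 + δ) X)‖ ≤ ε2) (hP : P ∅) :
    P LL ∧ ‖H LL - H ∅‖ ≤ LL.card * ε1 + (K + 1) * (LL.image Prod.fst).card * ε2 := by
  have hmul : ∀ k : ℤ, -k * L2 = -(k * L2) := fun k => by ring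
  have e1 : ∀ y y' X : ℤ, (St (LL.image rr) y y' X).image rr = Sd LL (-y') (-y) (-1 - X) := by
    intro y y' X
    ext t
    rw [mem_image_rr, mem_St, mem_image_rr, rr_rr, mem_Sd]
    unfold rr
    simp only
    constructor
    · rintro ⟨h1, h2⟩; exact ⟨h1, by omega⟩
    · rintro ⟨h1, h2⟩; exact ⟨h1, by omega⟩
  have e2 : ∀ y y' X : ℤ, (Gr (LL.image rr) y y' X).image rr = Gr LL (-y') (-y) (-1 - X) := by
    intro y y' X
    ext t
    rw [mem_image_rr, mem_Gr, mem_image_rr, rr_rr, mem_Gr]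
    unfold rr
    simp only
    constructor
    · rintro ⟨h1, h2, h3, h4⟩; exact ⟨h1, by omega, by omega, by omega⟩
    · rintro ⟨h1, h2, h3, h4⟩; exact ⟨h1, by omega, by omega, by omega⟩
  have key := chainI (RL := LL.image rr) (fun S => P (S.image rr)) (fun S => H (S.image rr))
    (L2 := L2) (δ := δ) (k0 := -(k0 + K)) (K := K + 1) hδ hL ?_ ?_ hε1 hε2 ?_ ?_ (by simpa using hP)
  · obtain ⟨k1, k2⟩ := key
    simp only [image_rr_rr, Finset.image_empty] at k1 k2
    refine ⟨k1, k2.trans (le_of_eq ?_)⟩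
    rw [Finset.card_image_of_injective _ rr_inj]
    have e3 : (Finset.image Prod.fst (Finset.image rr LL)).card = (LL.image Prod.fst).card := by
      have : Finset.image Prod.fst (Finset.image rr LL) =
          (LL.image Prod.fst).image fun x => -1 - x := by
        rw [Finset.image_image, Finset.image_image]
        rfl
      rw [this, Finset.card_image_of_injective]
      intro a b h
      simp only at h
      omega
    rw [e3]
    push_cast
    ring
  · intro t ht
    have h1 := hi _ (mem_image_rr.1 ht)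
    unfold rr at h1
    simp only at h1
    rw [hmul]
    omega
  · intro t ht
    have h1 := lo _ (mem_image_rr.1 ht)
    unfold rr at h1
    simp only at h1
    have h2 : (-(k0 + (K : ℤ)) + ((K + 1 : ℕ) : ℤ)) * L2 = -(k0 * L2) + L2 := by push_cast; ring
    rw [h2]
    omega
  · intro k y X h1 h2 h3 h4
    have e0 : -(y + 1) = -1 - y := by ring
    have e5 : -y = -1 - y + 1 := by ring
    have e3 : (St (LL.image rr) y (y + 1) X).image rr =
        Sd LL (-1 - y) (-1 - y + 1) (-1 - X) := by rw [e1, e0, e5]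
    have e4 : (insert (X, y) (St (LL.image rr) y (y + 1) X)).image rr =
        insert (-1 - X, -1 - y) (Sd LL (-1 - y) (-1 - y + 1) (-1 - X)) := by
      rw [Finset.image_insert, e3]; rfl
    rw [e3] at h4
    rw [e3, e4]
    refine thin (-(k + 1)) (-1 - y) (-1 - X) ?_ ?_ (mem_image_rr.1 h3) h4
    · rw [hmul]; omega
    · have : (-(k + 1) + 1) * L2 = -(k * L2) := by ring
      rw [this]; omega
  · rintro k X ⟨t, ht, h1, h2, h3⟩ h4
    have e0 : -(k * L2 + δ) = -k * L2 - δ := by ring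
    have e5 : -(k * L2 - δ) = -k * L2 + δ := by ring
    have e3 : (St (LL.image rr) (k * L2 - δ) (k * L2 + δ) X).image rr =
        Sd LL (-k * L2 - δ) (-k * L2 + δ) (-1 - X) := by rw [e1, e0, e5]
    have e4 : (St (LL.image rr) (k * L2 - δ) (k * L2 + δ) X ∪
        Gr (LL.image rr) (k * L2 - δ) (k * L2 + δ) X).image rr =
        Sd LL (-k * L2 - δ) (-k * L2 + δ) (-1 - X) ∪
        Gr LL (-k * L2 - δ) (-k * L2 + δ) (-1 - X) := by
      rw [Finset.image_union, e3, e2, e0, e5]
    rw [e3] at h4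
    rw [e3, e4]
    refine thick (-k) (-1 - X) ⟨rr t, mem_image_rr.1 ht, ?_, ?_, ?_⟩ h4
    · show -1 - t.1 = -1 - X
      rw [h1]
    · show -k * L2 - δ ≤ -1 - t.2
      rw [hmul]; omega
    · show -1 - t.2 < -k * L2 + δ
      rw [hmul]; omega

end Crest.Agent.R158.Hc854
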