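import Crest.Agent.R158.Wd2_377

/-!
# R158, block BL (helper854), file Hc3: the order of the marks, both directions

* `MK_flip` : three distinct free ends are in one of the two orders
* `MK_anti` : not in both
* `Fr3 A b m1 m2 m3` : `(A, b)` has a word, `m1, m2, m3` are distinct free ends
* **`MK_back`**, **`step_both`** : a step theorem for both orders can be used backwards
-/

set_option autoImplicit false

noncomputable section

namespace Crest.Agent.R158.Hc854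

open Crest.Agent.R158.Sw300 (Port Wd L pos cyc)
open Crest.Agent.R158.Ob664 (GW HW HG)
open Crest.Agent.R158.Wd377 (MK HG_eq mem_L)

variable {T : Type*} [DecidableEq T]
variable {A A' : Finset T} {b b' : Port T → Port T} {w : Wd T} {m1 m2 m3 y1 y2 y3 : Port T}

theorem pos_ne {w : Wd T} (h : Sw300.Ok w) {x y : Port T} (hx : x ∈ L w) (hy : y ∈ L w)
    (hne : x ≠ y) : pos w x ≠ pos w y := by
  have hs := Sw300.sorted w h
  obtain ⟨i, hi, rfl⟩ := List.mem_iff_getElem.1 hx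
  obtain ⟨j, hj, rfl⟩ := List.mem_iff_getElem.1 hy
  rw [List.pairwise_iff_getElem] at hs
  rcases lt_trichotomy i j with h1 | h1 | h1
  · exact (hs i j hi hj h1).ne
  · subst h1; exact absurd rfl hne
  · exact (hs j i hj hi h1).ne'

theorem cyc_flip {a b c : ℤ} (h1 : a ≠ b) (h2 : b ≠ c) (h3 : c ≠ a) : cyc a b c ∨ cyc a c b := by
  unfold cyc; omega

theorem cyc_anti {a b c : ℤ} (h : cyc a b c) : ¬ cyc a c b := by
  unfold cyc at *; omega

theorem cyc_rot {a b c : ℤ} (h : cyc a b c) : cyc b c a := by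
  unfold cyc at *; omega

/-- three distinct free ends are in one of the two orders -/
theorem MK_flip (h : GW A b w) (h1 : m1 ∈ L w) (h2 : m2 ∈ L w) (h3 : m3 ∈ L w) (n12 : m1 ≠ m2)
    (n23 : m2 ≠ m3) (n31 : m3 ≠ m1) : MK A b m1 m2 m3 ∨ MK A b m1 m3 m2 := by
  have ok := h.word.1
  rcases cyc_flip (pos_ne ok h1 h2 n12) (pos_ne ok h2 h3 n23) (pos_ne ok h3 h1 n31) with h4 | h4
  · exact Or.inl ⟨w, h, h1, h2, h3, h4⟩
  · exact Or.inr ⟨w, h, h1, h3, h2, h4⟩

/-- not in both orders -/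
theorem MK_anti (h : MK A b m1 m2 m3) : ¬ MK A b m1 m3 m2 := by
  rintro ⟨w, h0, h1, h2, h3, h4⟩
  exact cyc_anti (h.word h0).2.2.2 h4

/-- `(A, b)` has a word, and `m1, m2, m3` are three distinct free ends -/
structure Fr3 (A : Finset T) (b : Port T → Port T) (m1 m2 m3 : Port T) : Prop where
  w : ∃ w, GW A b w
  f1 : ∃ t d, m1 = some (t, d) ∧ t ∈ A ∧ b m1 = m1
  f2 : ∃ t d, m2 = some (t, d) ∧ t ∈ A ∧ b m2 = m2
  f3 : ∃ t d, m3 = some (t, d) ∧ t ∈ A ∧ b m3 = m3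
  n12 : m1 ≠ m2
  n23 : m2 ≠ m3
  n31 : m3 ≠ m1

theorem mem_of_free (h : GW A b w) {m : Port T} (hm : ∃ t d, m = some (t, d) ∧ t ∈ A ∧ b m = m) :
    m ∈ L w := by
  obtain ⟨t, d, rfl, h1, h2⟩ := hm
  exact (mem_L h).2 ⟨h1, h2⟩

theorem Fr3.flip (h : Fr3 A b m1 m2 m3) : MK A b m1 m2 m3 ∨ MK A b m1 m3 m2 := by
  obtain ⟨w, hw⟩ := h.w
  exact MK_flip hw (mem_of_free hw h.f1) (mem_of_free hw h.f2) (mem_of_free hw h.f3) h.n12 h.n23
    h.n31

/-- **a step for the other order goes backwards for this order** -/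
theorem MK_back (hA : Fr3 A b m1 m2 m3) (hr : MK A b m1 m3 m2 → MK A' b' y1 y3 y2)
    (h : MK A' b' y1 y2 y3) : MK A b m1 m2 m3 := by
  rcases hA.flip with h1 | h1
  · exact h1
  · exact absurd (hr h1) (MK_anti h)

/-- **a step in both directions** -/
theorem step_both {ε : ℝ} (hA : Fr3 A b m1 m2 m3)
    (hf : MK A b m1 m2 m3 → MK A' b' y1 y2 y3 ∧ ‖HG A b m1 m2 m3 - HG A' b' y1 y2 y3‖ ≤ ε)
    (hr : MK A b m1 m3 m2 → MK A' b' y1 y3 y2) (h : MK A b m1 m2 m3 ∨ MK A' b' y1 y2 y3) :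
    MK A b m1 m2 m3 ∧ MK A' b' y1 y2 y3 ∧ ‖HG A b m1 m2 m3 - HG A' b' y1 y2 y3‖ ≤ ε := by
  have h1 : MK A b m1 m2 m3 := h.elim id (MK_back hA hr)
  exact ⟨h1, (hf h1).1, (hf h1).2⟩

end Crest.Agent.R158.Hc854
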