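import Crest.Agent.R158.Vw1_802
import Crest.Agent.R158.Hc1_854

/-!
# R158, block BL, leaf (B3) (helper802), file Vw2: windows of the layer of the left walls

The same as `Vw1_802` for `LL F H L δ`, order from the top (`Sd` of `Hc1_854`).  In this file the left
wall is between the cells `c` (outside) and `c + 1` (in `H`), the layer column is
`c * L + L + δ - 1`.
-/

set_option autoImplicit false

namespace Crest.Agent.R158.Vw802

open Crest.Agent.R158.Sp896 (V)
open Crest.Agent.R158.Env664 (D mem_D div_iff)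
open Crest.Agent.R158.Hb656
open Crest.Agent.R158.Bh679 (Gr mem_Gr)
open Crest.Agent.R158.Hc854 (Sd mem_Sd)

variable {F H : Finset V} {L δ : ℤ}

/-- the macroscopic wall behind a tile of the left layer -/
theorem ll_col (hL : 0 < L) (hs : H ⊆ F) {X y : ℤ} (h : (X, y) ∈ LL F H L δ) :
    ∃ c r : ℤ, X = c * L + L + δ - 1 ∧ r * L ≤ y ∧ y < r * L + L ∧ (c + 1, r) ∈ H ∧ (c, r) ∉ F := by
  rw [mem_LL] at h
  simp only at h
  obtain ⟨h1, h2⟩ := h
  obtain ⟨r, hr1, hr2⟩ : ∃ r : ℤ, r * L ≤ y ∧ y < r * L + L := ⟨y / L, (div_iff hL y _).1 rfl⟩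
  obtain ⟨c, hc1, hc2⟩ : ∃ c : ℤ, c * L ≤ X - δ ∧ X - δ < c * L + L :=
    ⟨_, (div_iff hL (X - δ) _).1 rfl⟩
  rw [mD hL hc1 hc2 hr1 hr2] at h2
  have h3 : ¬ (X + 1 - δ < c * L + L) := by
    intro h4
    rw [mD hL (by omega) h4 hr1 hr2] at h1
    exact h2 (hs h1)
  have e : (c + 1) * L = c * L + L := by ring
  refine ⟨c, r, by omega, hr1, hr2, ?_, h2⟩
  rwa [mD hL (q := c + 1) (by rw [e]; omega) (by rw [e]; omega) hr1 hr2] at h1

/-- the left layer near the macroscopic vertical line `x = (c + 1) L` -/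
theorem row_ll (hL : 8 ≤ L) (hs : H ⊆ F) {c r x y : ℤ} (hx1 : c * L + L + δ - L / 4 - 1 ≤ x)
    (hx2 : x ≤ c * L + L + δ + L / 4) (h3 : r * L ≤ y) (h4 : y < r * L + L) :
    (x, y) ∈ LL F H L δ ↔ x = c * L + L + δ - 1 ∧ (c + 1, r) ∈ H ∧ (c, r) ∉ F := by
  have hL0 : 0 < L := by omega
  have e : (c + 1) * L = c * L + L := by ring
  rw [mem_LL]
  simp only
  rcases lt_trichotomy x (c * L + L + δ - 1) with h | h | h
  · rw [mD (G := H) hL0 (q := c) (by omega) (by omega) h3 h4,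
      mD (G := F) hL0 (q := c) (by omega) (by omega) h3 h4]
    constructor
    · rintro ⟨h5, h6⟩; exact absurd (hs h5) h6
    · rintro ⟨h5, -⟩; omega
  · rw [mD (G := H) hL0 (q := c + 1) (by omega) (by omega) h3 h4,
      mD (G := F) hL0 (q := c) (by omega) (by omega) h3 h4]
    simp only [h, true_and]
  · rw [mD (G := H) hL0 (q := c + 1) (by omega) (by omega) h3 h4,
      mD (G := F) hL0 (q := c + 1) (by omega) (by omega) h3 h4]
    constructor
    · rintro ⟨h5, h6⟩; exact absurd (hs h5) h6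
    · rintro ⟨h5, -⟩; omega

/-- the moved region near the macroscopic vertical line, one more column to the left -/
theorem row_sh' (hL : 8 ≤ L) (hδ : -1 ≤ δ ∧ δ ≤ 1) {c r x y : ℤ}
    (hx1 : c * L + L + δ - L / 4 - 1 ≤ x)
    (hx2 : x ≤ c * L + L + δ + L / 4) (h3 : r * L ≤ y) (h4 : y < r * L + L) :
    (x, y) ∈ shD F H L δ ↔ InSh F H c r (c * L + L) δ x := by
  have hL0 : 0 < L := by omega
  have e : (c + 1) * L = c * L + L := by ring
  rw [mem_shD]
  simp only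
  unfold InSh
  refine or_congr ?_ ?_
  · split_ifs with h
    · rw [mD (G := F) hL0 (q := c) (by omega) h h3 h4, mD (G := H) hL0 (q := c) (by omega) h h3 h4]
    · rw [mD (G := F) hL0 (q := c + 1) (by omega) (by omega) h3 h4,
        mD (G := H) hL0 (q := c + 1) (by omega) (by omega) h3 h4]
  · split_ifs with h
    · rw [mD (G := H) hL0 (q := c) (by omega) (by omega) h3 h4]
    · rw [mD (G := H) hL0 (q := c + 1) (by omega) (by omega) h3 h4]

section types

variable {c r X0 x : ℤ}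

theorem inSh_iii (hs : H ⊆ F) (h1 : (c + 1, r) ∈ H) (h2 : (c, r) ∉ F) :
    InSh F H c r X0 δ x ↔ X0 + δ ≤ x := by
  have h3 := hs h1
  have h4 : (c, r) ∉ H := fun h => h2 (hs h)
  unfold InSh
  split_ifs <;> simp [*]
  · omega
  · omega

theorem inSh_vi (hs : H ⊆ F) (h1 : (c + 1, r) ∈ F) (h1' : (c + 1, r) ∉ H) (h2 : (c, r) ∉ F) :
    InSh F H c r X0 δ x ↔ X0 ≤ x := by
  have h4 : (c, r) ∉ H := fun h => h2 (hs h)
  unfold InSh
  split_ifs <;> simp [*] <;> omega

end types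

/-- **window of a flat segment** of a left wall: before and after the group of the column `X` -/
theorem flatL (hL : 8 ≤ L) (hδ : -1 ≤ δ ∧ δ ≤ 1) (hs : H ⊆ F) {c r y y' : ℤ} (h1 : (c + 1, r) ∈ H)
    (h2 : (c, r) ∉ F) (hy : y ≤ y') {x1 y1 : ℤ}
    (hx1 : c * L + L + δ - 1 - L / 4 ≤ x1) (hx2 : x1 ≤ c * L + L + δ - 1 + L / 4) (h3 : r * L ≤ y1)
    (h4 : y1 < r * L + L) :
    ((x1, y1) ∈ shD F H L δ ∪ Sd (LL F H L δ) y y' (c * L + L + δ - 1) ↔
      c * L + L + δ - 1 < x1 ∨ (x1 = c * L + L + δ - 1 ∧ y' ≤ y1)) ∧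
    ((x1, y1) ∈ shD F H L δ ∪ (Sd (LL F H L δ) y y' (c * L + L + δ - 1) ∪
        Gr (LL F H L δ) y y' (c * L + L + δ - 1)) ↔
      c * L + L + δ - 1 < x1 ∨ (x1 = c * L + L + δ - 1 ∧ y ≤ y1)) := by
  simp only [Finset.mem_union, mem_Sd, mem_Gr,
    row_sh' hL hδ (by omega : c * L + L + δ - L / 4 - 1 ≤ x1)
      (by omega : x1 ≤ c * L + L + δ + L / 4) h3 h4,
    row_ll (δ := δ) hL hs (by omega : c * L + L + δ - L / 4 - 1 ≤ x1)
      (by omega : x1 ≤ c * L + L + δ + L / 4) h3 h4, inSh_iii hs h1 h2, h1, h2,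
    not_false_eq_true, and_true]
  constructor <;> constructor <;> intro h5 <;> omega

/-- the pattern of a left wall with first column `a` at the height `Y` -/
def Pat.okL : Pat → ℤ → ℤ → ℤ → ℤ → Prop
  | .h1, a, Y, x, y => (Y ≤ y ∧ a - 1 ≤ x) ∨ (y < Y ∧ a ≤ x)
  | .h0, a, _, x, _ => a ≤ x
  | .qa, a, Y, x, y => Y ≤ y ∧ a ≤ x
  | .qb, a, Y, x, y => y < Y ∧ a ≤ x
  | .ta, a, Y, x, y => y < Y ∨ a ≤ x
  | .tb, a, Y, x, y => Y ≤ y ∨ a ≤ x

/-- reduction of the vertex picture to its two rows -/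
theorem vert_redL (hL : 8 ≤ L) (hδ : -1 ≤ δ ∧ δ ≤ 1) (hs : H ⊆ F) {c j g : ℤ} (hg : 0 ≤ g)
    {P : ℤ → ℤ → Prop}
    (hA : ∀ x1 y1 : ℤ, j * L ≤ y1 → ((InSh F H c j (c * L + L) δ x1 ∨
        (x1 = c * L + L + δ - 1 ∧ (c + 1, j) ∈ H ∧ (c, j) ∉ F)) ↔ P x1 y1))
    (hB : ∀ x1 y1 : ℤ, y1 < j * L → (InSh F H c (j - 1) (c * L + L) δ x1 ↔ P x1 y1)) (x1 y1 : ℤ)
    (hx1 : c * L + L + δ - 1 - L / 4 ≤ x1) (hx2 : x1 ≤ c * L + L + δ - 1 + L / 4)
    (hy1 : j * L - L / 4 ≤ y1) (hy2 : y1 ≤ j * L + L / 4)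
    (hout : y1 < j * L - g ∨ j * L + g ≤ y1 ∨ x1 ≠ c * L + L + δ - 1) :
    ((x1, y1) ∈ shD F H L δ ∪ Sd (LL F H L δ) (j * L - g) (j * L + g) (c * L + L + δ - 1) ↔
        P x1 y1) ∧
      ((x1, y1) ∈ shD F H L δ ∪ (Sd (LL F H L δ) (j * L - g) (j * L + g) (c * L + L + δ - 1) ∪
        Gr (LL F H L δ) (j * L - g) (j * L + g) (c * L + L + δ - 1)) ↔ P x1 y1) := by
  have e1 : (j - 1) * L = j * L - L := by ring
  have hx1' : c * L + L + δ - L / 4 - 1 ≤ x1 := by omega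
  have hx2' : x1 ≤ c * L + L + δ + L / 4 := by omega
  simp only [Finset.mem_union, mem_Sd, mem_Gr]
  rcases lt_or_ge y1 (j * L) with hy | hy
  · have h3 : (j - 1) * L ≤ y1 := by rw [e1]; omega
    have h4 : y1 < (j - 1) * L + L := by rw [e1]; omega
    rw [← hB x1 y1 hy, row_sh' hL hδ hx1' hx2' h3 h4, row_ll (δ := δ) hL hs hx1' hx2' h3 h4]
    constructor
    · refine or_iff_left ?_
      rintro ⟨⟨h5, -⟩, h6⟩
      omega
    · refine or_iff_left ?_
      rintro (⟨⟨h5, -⟩, h6⟩ | ⟨⟨h5, -⟩, h6⟩)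
      · omega
      · omega
  · have h3 : j * L ≤ y1 := hy
    have h4 : y1 < j * L + L := by omega
    rw [← hA x1 y1 hy, row_sh' hL hδ hx1' hx2' h3 h4, row_ll (δ := δ) hL hs hx1' hx2' h3 h4]
    constructor <;> refine or_congr_right ?_
    · constructor
      · rintro ⟨h5, -⟩; exact h5
      · intro h5
        refine ⟨h5, Or.inl ?_⟩
        have := h5.1
        omega
    · constructor
      · rintro (⟨h5, -⟩ | ⟨h5, -⟩) <;> exact h5
      · intro h5
        refine Or.inl ⟨h5, Or.inl ?_⟩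
        have := h5.1
        omega

/-- **pattern at a macroscopic vertex** of a left wall, before and after the thick group -/
theorem vertL (hL : 8 ≤ L) (hδ : δ = 0 ∨ δ = 1) {k i0 i1 : ℤ} {up : Bool} (hH : Hang F H k i0 i1 up)
    (hp : NoPinch F) {c j g : ℤ} (hg : 0 ≤ g)
    (h : ((c + 1, j) ∈ H ∧ (c, j) ∉ F) ∨ ((c + 1, j - 1) ∈ H ∧ (c, j - 1) ∉ F)) :
    ∃ (q : Pat) (a : ℤ), (a = c * L + L + δ - 1 ∨ a = c * L + L + δ) ∧ ∀ x1 y1 : ℤ,
      c * L + L + δ - 1 - L / 4 ≤ x1 → x1 ≤ c * L + L + δ - 1 + L / 4 → j * L - L / 4 ≤ y1 →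
      y1 ≤ j * L + L / 4 → (y1 < j * L - g ∨ j * L + g ≤ y1 ∨ x1 ≠ c * L + L + δ - 1) →
      ((x1, y1) ∈ shD F H L δ ∪ Sd (LL F H L δ) (j * L - g) (j * L + g) (c * L + L + δ - 1) ↔
        q.okL a (j * L) x1 y1) ∧
      ((x1, y1) ∈ shD F H L δ ∪ (Sd (LL F H L δ) (j * L - g) (j * L + g) (c * L + L + δ - 1) ∪
        Gr (LL F H L δ) (j * L - g) (j * L + g) (c * L + L + δ - 1)) ↔
          q.okL a (j * L) x1 y1) := by
  have hs := hH.sub
  have hδ' : -1 ≤ δ ∧ δ ≤ 1 := by omega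
  have main : ∀ (q : Pat) (a : ℤ), (a = c * L + L + δ - 1 ∨ a = c * L + L + δ) →
      (∀ x1 y1 : ℤ, j * L ≤ y1 → ((InSh F H c j (c * L + L) δ x1 ∨
        (x1 = c * L + L + δ - 1 ∧ (c + 1, j) ∈ H ∧ (c, j) ∉ F)) ↔ q.okL a (j * L) x1 y1)) →
      (∀ x1 y1 : ℤ, y1 < j * L → (InSh F H c (j - 1) (c * L + L) δ x1 ↔
        q.okL a (j * L) x1 y1)) → _ :=
    fun q a ha hA hB => (⟨q, a, ha, fun x1 y1 => vert_redL hL hδ' hs hg hA hB x1 y1⟩ :
      ∃ (q : Pat) (a : ℤ), (a = c * L + L + δ - 1 ∨ a = c * L + L + δ) ∧ ∀ x1 y1 : ℤ,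
      c * L + L + δ - 1 - L / 4 ≤ x1 → x1 ≤ c * L + L + δ - 1 + L / 4 → j * L - L / 4 ≤ y1 →
      y1 ≤ j * L + L / 4 → (y1 < j * L - g ∨ j * L + g ≤ y1 ∨ x1 ≠ c * L + L + δ - 1) →
      ((x1, y1) ∈ shD F H L δ ∪ Sd (LL F H L δ) (j * L - g) (j * L + g) (c * L + L + δ - 1) ↔
        q.okL a (j * L) x1 y1) ∧
      ((x1, y1) ∈ shD F H L δ ∪ (Sd (LL F H L δ) (j * L - g) (j * L + g) (c * L + L + δ - 1) ∪
        Gr (LL F H L δ) (j * L - g) (j * L + g) (c * L + L + δ - 1)) ↔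
          q.okL a (j * L) x1 y1))
  rcases h with ⟨h1, h2⟩ | ⟨h1, h2⟩
  · have hF := hs h1
    by_cases b1 : (c, j - 1) ∈ F <;> by_cases b2 : (c + 1, j - 1) ∈ F
    · refine main .ta (c * L + L + δ - 1) (Or.inl rfl) ?_ ?_
      · intro x1 y1 hy
        rw [inSh_iii hs h1 h2]
        simp only [Pat.okL, h1, h2, not_false_eq_true, and_true]; omega
      · intro x1 y1 hy
        have := inSh_all (X0 := c * L + L) (δ := δ) (x := x1) b1 b2 (hH.hor c (j - 1))
        simp only [this, Pat.okL, hy, true_or]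
    · exfalso
      have := hp.ne c (j - 1)
      rw [sub_add_cancel] at this
      rcases this b1 hF with h3 | h3
      · exact b2 h3
      · exact h2 h3
    · by_cases b3 : (c + 1, j - 1) ∈ H
      · refine main .h1 (c * L + L + δ) (Or.inr rfl) ?_ ?_
        · intro x1 y1 hy
          rw [inSh_iii hs h1 h2]
          simp only [Pat.okL, h1, h2, not_false_eq_true, and_true]; omega
        · intro x1 y1 hy
          rw [inSh_iii hs b3 b1]
          simp only [Pat.okL]; omega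
      · rcases hδ with rfl | rfl
        · refine main .h1 (c * L + L + 0) (Or.inr rfl) ?_ ?_
          · intro x1 y1 hy
            rw [inSh_iii hs h1 h2]
            simp only [Pat.okL, h1, h2, not_false_eq_true, and_true]; omega
          · intro x1 y1 hy
            rw [inSh_vi hs b2 b3 b1]
            simp only [Pat.okL]; omega
        · refine main .h0 (c * L + L + 1 - 1) (Or.inl rfl) ?_ ?_
          · intro x1 y1 hy
            rw [inSh_iii hs h1 h2]
            simp only [Pat.okL, h1, h2, not_false_eq_true, and_true]; omega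
          · intro x1 y1 hy
            rw [inSh_vi hs b2 b3 b1]
            simp only [Pat.okL]; omega
    · refine main .qa (c * L + L + δ - 1) (Or.inl rfl) ?_ ?_
      · intro x1 y1 hy
        rw [inSh_iii hs h1 h2]
        simp only [Pat.okL, h1, h2, not_false_eq_true, and_true]; omega
      · intro x1 y1 hy
        simp only [inSh_none hs b1 b2, Pat.okL, false_iff]; omega
  · have hF := hs h1
    by_cases b1 : (c, j) ∈ F <;> by_cases b2 : (c + 1, j) ∈ F
    · refine main .tb (c * L + L + δ) (Or.inr rfl) ?_ ?_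
      · intro x1 y1 hy
        have := inSh_all (X0 := c * L + L) (δ := δ) (x := x1) b1 b2 (hH.hor c j)
        simp only [this, Pat.okL, hy, true_or]
      · intro x1 y1 hy
        rw [inSh_iii hs h1 h2]
        simp only [Pat.okL]; omega
    · exfalso
      have := hp.se c (j - 1)
      rw [sub_add_cancel] at this
      rcases this b1 hF with h3 | h3
      · exact h2 h3
      · exact b2 h3
    · by_cases b3 : (c + 1, j) ∈ H
      · refine main .h1 (c * L + L + δ) (Or.inr rfl) ?_ ?_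
        · intro x1 y1 hy
          rw [inSh_iii hs b3 b1]
          simp only [Pat.okL, b3, b1, not_false_eq_true, and_true]; omega
        · intro x1 y1 hy
          rw [inSh_iii hs h1 h2]
          simp only [Pat.okL]; omega
      · rcases hδ with rfl | rfl
        · refine main .h0 (c * L + L + 0) (Or.inr rfl) ?_ ?_
          · intro x1 y1 hy
            rw [inSh_vi hs b2 b3 b1]
            simp only [Pat.okL, b3, false_and, and_false, or_false]; omega
          · intro x1 y1 hy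
            rw [inSh_iii hs h1 h2]
            simp only [Pat.okL]
        · refine main .h1 (c * L + L + 1) (Or.inr rfl) ?_ ?_
          · intro x1 y1 hy
            rw [inSh_vi hs b2 b3 b1]
            simp only [Pat.okL, b3, false_and, and_false, or_false]; omega
          · intro x1 y1 hy
            rw [inSh_iii hs h1 h2]
            simp only [Pat.okL]; omega
    · refine main .qb (c * L + L + δ) (Or.inr rfl) ?_ ?_
      · intro x1 y1 hy
        have h3 : (c + 1, j) ∉ H := fun h => b2 (hs h)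
        simp only [inSh_none hs b1 b2, Pat.okL, h3, false_and, and_false, or_false, false_iff]; omega
      · intro x1 y1 hy
        rw [inSh_iii hs h1 h2]
        simp only [Pat.okL]; omega

/-- **pattern in the middle of a left wall**, before and after the thick group (centre `Y`) -/
theorem midL (hL : 8 ≤ L) (hδ : -1 ≤ δ ∧ δ ≤ 1) (hs : H ⊆ F) {c r Y g : ℤ} (hg : 0 ≤ g)
    (h1 : (c + 1, r) ∈ H) (h2 : (c, r) ∉ F) (hY1 : r * L + L / 4 ≤ Y) (hY2 : Y + L / 4 < r * L + L)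
    (x1 y1 : ℤ) (hx1 : c * L + L + δ - 1 - L / 4 ≤ x1) (hx2 : x1 ≤ c * L + L + δ - 1 + L / 4)
    (hy1 : Y - L / 4 ≤ y1) (hy2 : y1 ≤ Y + L / 4)
    (hout : y1 < Y - g ∨ Y + g ≤ y1 ∨ x1 ≠ c * L + L + δ - 1) :
    ((x1, y1) ∈ shD F H L δ ∪ Sd (LL F H L δ) (Y - g) (Y + g) (c * L + L + δ - 1) ↔
      Pat.okL .h1 (c * L + L + δ) Y x1 y1) ∧
    ((x1, y1) ∈ shD F H L δ ∪ (Sd (LL F H L δ) (Y - g) (Y + g) (c * L + L + δ - 1) ∪
      Gr (LL F H L δ) (Y - g) (Y + g) (c * L + L + δ - 1)) ↔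
      Pat.okL .h1 (c * L + L + δ) Y x1 y1) := by
  obtain ⟨h3, h4⟩ := flatL (δ := δ) (y := Y - g) (y' := Y + g) hL hδ hs h1 h2 (by omega) hx1 hx2
    (y1 := y1) (by omega) (by omega)
  rw [h3, h4]
  simp only [Pat.okL]
  constructor <;> omega

end Crest.Agent.R158.Vw802
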