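import Crest.Agent.R158.Wd8_377

/-!
# R158, block WD (helper377), file Wd9: one tile at a flat wall for the official `HA`

* `beD_plain` : away from the slit `beD A p y0 xr` is the plain glueing
* `beD_far` : `beD (insert t A) p y0 xr` and `beD A p y0 xr` agree away from `t`
* `rgt_insert` : the right end of the run of `z` does not change
* `MH A p y0 m1 m2 m3` : marked region with the slit at `(p, y0)`
* **`HA_right_tile`, `HA_left_tile`**
-/

set_option autoImplicit false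
set_option linter.unusedSectionVars false

namespace Crest.Agent.R158.Wd377

open MeasureTheory
open Crest.Agent.R158.Sw300 (Port Wd L M S u be tls pos Ok Fc cyc Adj thru sd)
open Crest.Agent.R158.Ob664 (GW HW HV HG HG_spec Gl HA rgt)
open Crest.Agent.R158.Env664
open Crest.Agent.R158.Pj679 (nbt nbt_0 nbt_1 nbt_2 nbt_3)

variable {X Y : ℤ} {n : ℕ} {A A' : Finset (ℤ × ℤ)} {p y0 xr : ℤ}

/-- away from the slit the partner is the lattice partner -/
theorem nbD_nbt {t : ℤ × ℤ} (h : ¬ ((t.2 = y0 ∨ t.2 = y0 - 1) ∧ p ≤ t.1 ∧ t.1 ≤ xr + 1))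
    (hp : p ≤ xr + 1) (d : ZMod 4) : nbD p y0 xr (some (t, d)) = nbP (some (t, d)) := by
  obtain ⟨x, y⟩ := t
  simp only at h
  rcases Xr249.Reg.d4 d with rfl | rfl | rfl | rfl
  · rw [nbD_W, nbP_W]
  · rw [nbD_N (by omega), nbP_N]
  · rw [nbD_E, nbP_E]
  · rw [nbD_S (by omega), nbP_S]

/-- **away from the slit the glueing is plain** -/
theorem beD_plain {t : ℤ × ℤ} (h : ¬ ((t.2 = y0 ∨ t.2 = y0 - 1) ∧ p ≤ t.1 ∧ t.1 ≤ xr + 1))
    (hp : p ≤ xr + 1) (d : ZMod 4) : beD A p y0 xr (some (t, d)) = beP A (some (t, d)) := by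
  unfold beD beP res
  rw [nbD_nbt h hp d]

/-- **one more tile `t` away from the slit changes the glueing only next to `t`** -/
theorem beD_far {t : ℤ × ℤ} (h : ¬ ((t.2 = y0 ∨ t.2 = y0 - 1) ∧ p ≤ t.1 ∧ t.1 ≤ xr + 1))
    (hp : p ≤ xr + 1) {x : Port (ℤ × ℤ)} (hx : ∀ d, x ≠ some (t, d))
    (hnb : ∀ u d, x = some (u, d) → nbt u d = t → u ∉ A) :
    beD (insert t A) p y0 xr x = beD A p y0 xr x := by
  have h1 : PortOf (insert t A) x ↔ PortOf A x := by
    rcases x with _ | ⟨u, d⟩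
    · exact ⟨fun _ => portOf_none A, fun _ => portOf_none _⟩
    · rw [portOf_some, portOf_some, Finset.mem_insert]
      constructor
      · rintro (h2 | h2)
        · exact absurd (by rw [h2]) (hx d)
        · exact h2
      · exact Or.inr
  have h2 : PortOf A x → (PortOf (insert t A) (nbD p y0 xr x) ↔ PortOf A (nbD p y0 xr x)) := by
    intro hA
    have key : ∀ d, nbD p y0 xr x ≠ some (t, d) := by
      intro d' e'
      rcases x with _ | ⟨⟨x1, y1⟩, d⟩
      · rw [nbD_leg] at e'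
        simp only [Option.some.injEq, Prod.mk.injEq] at e'
        obtain ⟨rfl, -⟩ := e'
        exact h ⟨Or.inl rfl, le_refl _, hp⟩
      · have hA' := portOf_some.1 hA
        have key2 : nbP (some ((x1, y1), d)) ≠ some (t, d') := by
          intro e2
          rw [nbP_nbt] at e2
          simp only [Option.some.injEq, Prod.mk.injEq] at e2
          exact hnb _ _ rfl e2.1 hA'
        rcases Xr249.Reg.d4 d with rfl | rfl | rfl | rfl
        · rw [nbD_W] at e'
          rw [nbP_W] at key2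
          exact key2 e'
        · by_cases hc : y1 = y0 - 1 ∧ p ≤ x1 ∧ x1 ≤ xr
          · rw [nbD_N1 hc] at e'
            simp only [Option.some.injEq, Prod.mk.injEq] at e'
            obtain ⟨rfl, -⟩ := e'
            exact h ⟨Or.inl rfl, (by omega : p ≤ x1 + 1), (by omega : x1 + 1 ≤ xr + 1)⟩
          · rw [nbD_N hc] at e'
            rw [nbP_N] at key2
            exact key2 e'
        · rw [nbD_E] at e'
          rw [nbP_E] at key2
          exact key2 e'
        · by_cases hc1 : y1 = y0 ∧ x1 = p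
          · rw [nbD_Sleg hc1] at e'
            exact absurd e' (by simp)
          by_cases hc : y1 = y0 ∧ p < x1 ∧ x1 ≤ xr
          · rw [nbD_S1 hc] at e'
            simp only [Option.some.injEq, Prod.mk.injEq] at e'
            obtain ⟨rfl, -⟩ := e'
            exact h ⟨Or.inr rfl, (by omega : p ≤ x1 - 1), (by omega : x1 - 1 ≤ xr + 1)⟩
          · rw [nbD_S (by omega)] at e'
            rw [nbP_S] at key2
            exact key2 e'
    rcases hz : nbD p y0 xr x with _ | ⟨u, d⟩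
    · exact ⟨fun _ => portOf_none A, fun _ => portOf_none _⟩
    · rw [portOf_some, portOf_some, Finset.mem_insert]
      constructor
      · rintro (h3 | h3)
        · exact absurd (by rw [hz, h3]) (key d)
        · exact h3
      · exact Or.inr
  unfold beD res
  by_cases hA : PortOf A x
  · by_cases hB : PortOf A (nbD p y0 xr x)
    · rw [if_pos ⟨h1.2 hA, (h2 hA).2 hB⟩, if_pos ⟨hA, hB⟩]
    · rw [if_neg fun h3 => hB ((h2 hA).1 h3.2), if_neg fun h3 => hB h3.2]
  · rw [if_neg fun h3 => hA (h1.1 h3.1), if_neg fun h3 => hA h3.1]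

/-- the right end of the run of `z` does not change -/
theorem rgt_insert {t : ℤ × ℤ} (h : t ≠ (rgt A p y0 + 1, y0)) :
    rgt (insert t A) p y0 = rgt A p y0 := by
  classical
  unfold rgt at h ⊢
  have h1 : Nat.find (Ob664.ex_right (insert t A) p y0) = Nat.find (Ob664.ex_right A p y0) := by
    apply le_antisymm
    · refine Nat.find_min' _ ?_
      rw [Finset.mem_insert, not_or]
      refine ⟨fun e' => h ?_, Nat.find_spec (Ob664.ex_right A p y0)⟩
      rw [← e']
    · refine Nat.find_min' _ fun h2 => ?_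
      exact Nat.find_spec (Ob664.ex_right (insert t A) p y0) (Finset.mem_insert_of_mem h2)
  rw [h1]

/-- marked region with the slit at `(p, y0)` -/
def MH (A : Finset (ℤ × ℤ)) (p y0 : ℤ) (m1 m2 m3 : Port (ℤ × ℤ)) : Prop :=
  MK A (beD A p y0 (rgt A p y0)) m1 m2 m3

/-- **one tile at a right wall, official observable** -/
theorem HA_right_tile : ∃ C c : ℝ, 1 ≤ C ∧ 0 < c ∧ c ≤ 1 ∧ ∀ (X Y : ℤ) (n : ℕ)
    (A : Finset (ℤ × ℤ)) (p y0 : ℤ) (m1 m2 m3 : Port (ℤ × ℤ)), 2 ≤ n →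
    (∀ x y, X - n ≤ x → x ≤ X + 2 → Y - n - 1 ≤ y → y ≤ Y + n →
      ((x, y) ∈ A ↔ (y < Y → x ≤ X + 1) ∧ (Y ≤ y → x ≤ X))) →
    (∀ t, BxR X Y n t → ¬ ((t.2 = y0 ∨ t.2 = y0 - 1) ∧ p ≤ t.1 ∧ t.1 ≤ rgt A p y0 + 1)) →
    Off (BxR X Y n) m1 → Off (BxR X Y n) m2 → Off (BxR X Y n) m3 → MH A p y0 m1 m2 m3 →
    MH (insert (X + 1, Y) A) p y0 m1 m2 m3 ∧
      ‖HA A m1 m2 m3 p y0 - HA (insert (X + 1, Y) A) m1 m2 m3 p y0‖ ≤
        C * ((1 : ℝ) / n) ^ (1 + c) := by
  obtain ⟨C, c, hC, hc, hc1, h⟩ := right_tile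
  refine ⟨C, c, hC, hc, hc1, ?_⟩
  intro X Y n A p y0 m1 m2 m3 hn hs hsl f1 f2 f3 hM
  have hp : p ≤ rgt A p y0 + 1 := by have := Ob664.le_rgt A p y0; omega
  have ht : BxR X Y n (X + 1, Y) := by unfold BxR; simp only; omega
  have hnt := hsl _ ht
  have hr : rgt (insert (X + 1, Y) A) p y0 = rgt A p y0 := by
    refine rgt_insert fun e' => hnt ?_
    rw [e']
    exact ⟨Or.inl rfl, hp, le_refl _⟩
  unfold MH HA at *
  rw [hr]
  refine h X Y n A _ _ m1 m2 m3 hn hs (fun t ht d => beD_plain (hsl t ht) hp d)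
    (fun t ht d => beD_plain (hsl t ht) hp d) (fun x hx => ?_) f1 f2 f3 hM
  refine beD_far hnt hp (fun d e' => hx _ _ e' ht) fun u d e' hu hA => ?_
  have h1 := hx u d e'
  obtain ⟨x1, y1⟩ := u
  unfold BxR at h1
  simp only at h1
  rcases Xr249.Reg.d4 d with rfl | rfl | rfl | rfl
  · rw [nbt_0] at hu
    simp only [Prod.mk.injEq] at hu
    have h2 := (hs x1 y1 (by omega) (by omega) (by omega) (by omega)).1 hA
    omega
  · rw [nbt_1] at hu; simp only [Prod.mk.injEq] at hu; omega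
  · rw [nbt_2] at hu; simp only [Prod.mk.injEq] at hu; omega
  · rw [nbt_3] at hu; simp only [Prod.mk.injEq] at hu; omega

/-- **one tile at a left wall, official observable** -/
theorem HA_left_tile : ∃ C c : ℝ, 1 ≤ C ∧ 0 < c ∧ c ≤ 1 ∧ ∀ (X Y : ℤ) (n : ℕ)
    (A : Finset (ℤ × ℤ)) (p y0 : ℤ) (m1 m2 m3 : Port (ℤ × ℤ)), 2 ≤ n →
    (∀ x y, X - 2 ≤ x → x ≤ X + n → Y - n ≤ y → y ≤ Y + n + 1 →
      ((x, y) ∈ A ↔ (Y < y → X - 1 ≤ x) ∧ (y ≤ Y → X ≤ x))) →
    (∀ t, BxL X Y n t → ¬ ((t.2 = y0 ∨ t.2 = y0 - 1) ∧ p ≤ t.1 ∧ t.1 ≤ rgt A p y0 + 1)) →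
    Off (BxL X Y n) m1 → Off (BxL X Y n) m2 → Off (BxL X Y n) m3 → MH A p y0 m1 m2 m3 →
    MH (insert (X - 1, Y) A) p y0 m1 m2 m3 ∧
      ‖HA A m1 m2 m3 p y0 - HA (insert (X - 1, Y) A) m1 m2 m3 p y0‖ ≤
        C * ((1 : ℝ) / n) ^ (1 + c) := by
  obtain ⟨C, c, hC, hc, hc1, h⟩ := left_tile
  refine ⟨C, c, hC, hc, hc1, ?_⟩
  intro X Y n A p y0 m1 m2 m3 hn hs hsl f1 f2 f3 hM
  have hp : p ≤ rgt A p y0 + 1 := by have := Ob664.le_rgt A p y0; omega
  have ht : BxL X Y n (X - 1, Y) := by unfold BxL; simp only; omega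
  have hnt := hsl _ ht
  have hr : rgt (insert (X - 1, Y) A) p y0 = rgt A p y0 := by
    refine rgt_insert fun e' => hnt ?_
    rw [e']
    exact ⟨Or.inl rfl, hp, le_refl _⟩
  unfold MH HA at *
  rw [hr]
  refine h X Y n A _ _ m1 m2 m3 hn hs (fun t ht d => beD_plain (hsl t ht) hp d)
    (fun t ht d => beD_plain (hsl t ht) hp d) (fun x hx => ?_) f1 f2 f3 hM
  refine beD_far hnt hp (fun d e' => hx _ _ e' ht) fun u d e' hu hA => ?_
  have h1 := hx u d e'
  obtain ⟨x1, y1⟩ := u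
  unfold BxL at h1
  simp only at h1
  rcases Xr249.Reg.d4 d with rfl | rfl | rfl | rfl
  · rw [nbt_0] at hu; simp only [Prod.mk.injEq] at hu; omega
  · rw [nbt_1] at hu; simp only [Prod.mk.injEq] at hu; omega
  · rw [nbt_2] at hu
    simp only [Prod.mk.injEq] at hu
    have h2 := (hs x1 y1 (by omega) (by omega) (by omega) (by omega)).1 hA
    omega
  · rw [nbt_3] at hu; simp only [Prod.mk.injEq] at hu; omega

end Crest.Agent.R158.Wd377
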