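import Crest.Agent.R158.Hc1_854
import Crest.Agent.R158.Hc2_854
import Crest.Agent.R158.Wd9_377
import Crest.Agent.R158.Bh4_679
import Crest.Agent.R158.Vw2_802

/-!
# R158, block BL (helper854), file Hc4: tools for the chain of the left walls

* `chainDP` : the chain from the top to the bottom with an invariant, both directions
* `MkQ`, **`ball_iff`** : the ball step in both directions
* `beD_off` : two regions which agree off a box away from the slit are glued in the same way far off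
* `bridgeL` : helper802's patterns of left walls are helper161's patterns
* `card_LL_le`, `cols_LL_le` : counting
-/

set_option autoImplicit false
set_option linter.unusedSectionVars false

noncomputable section

namespace Crest.Agent.R158.Hc854

open Crest.Agent.R158.Bh679 (Gr mem_Gr)
open Crest.Agent.R158.Sp896 (V)
open Crest.Agent.R158.Sw300 (Port Wd)
open Crest.Agent.R158.Cb771 (dir)
open Crest.Agent.R158.Env664
open Crest.Agent.R158.Ob664 (GW HG)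
open Crest.Agent.R158.Hb656 (Hang shD RL LL mkS mem_shD mem_RL mem_LL)
open Crest.Agent.R158.Cw161 (Bx Sh pat FarM)
open Crest.Agent.R158.Wd377 (MK)
open Crest.Agent.R158.Vw802 (Pat Pat.okL)

/-! ### the chain -/

section chain

variable {E : Type*} [SeminormedAddCommGroup E]

/-- **the chain from the top to the bottom, both directions** -/
theorem chainDP {LL : Finset (ℤ × ℤ)} (P : Finset (ℤ × ℤ) → Prop) (H : Finset (ℤ × ℤ) → E)
    {L2 δ k0 : ℤ} {K : ℕ} (hδ : 0 ≤ δ) (hL : 2 * δ ≤ L2)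
    (lo : ∀ t ∈ LL, k0 * L2 - δ ≤ t.2) (hi : ∀ t ∈ LL, t.2 < (k0 + K) * L2 - δ) {ε1 ε2 : ℝ}
    (hε1 : 0 ≤ ε1) (hε2 : 0 ≤ ε2)
    (thin : ∀ k y X : ℤ, k * L2 + δ ≤ y → y < (k + 1) * L2 - δ → (X, y) ∈ LL →
      (P (Sd LL y (y + 1) X) ↔ P (insert (X, y) (Sd LL y (y + 1) X))) ∧
      (P (Sd LL y (y + 1) X) →
        ‖H (insert (X, y) (Sd LL y (y + 1) X)) - H (Sd LL y (y + 1) X)‖ ≤ ε1))
    (thick : ∀ k X : ℤ, (∃ t ∈ LL, t.1 = X ∧ k * L2 - δ ≤ t.2 ∧ t.2 < k * L2 + δ) →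
      (P (Sd LL (k * L2 - δ) (k * L2 + δ) X) ↔
        P (Sd LL (k * L2 - δ) (k * L2 + δ) X ∪ Gr LL (k * L2 - δ) (k * L2 + δ) X)) ∧
      (P (Sd LL (k * L2 - δ) (k * L2 + δ) X) →
      ‖H (Sd LL (k * L2 - δ) (k * L2 + δ) X ∪ Gr LL (k * L2 - δ) (k * L2 + δ) X) -
        H (Sd LL (k * L2 - δ) (k * L2 + δ) X)‖ ≤ ε2)) :
    (P ∅ ↔ P LL) ∧
      (P ∅ → ‖H LL - H ∅‖ ≤ LL.card * ε1 + (K + 1) * (LL.image Prod.fst).card * ε2) := by
  have f : P ∅ → P LL ∧ ‖H LL - H ∅‖ ≤ LL.card * ε1 + (K + 1) * (LL.image Prod.fst).card * ε2 :=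
    fun h => chainD P H hδ hL lo hi hε1 hε2
      (fun k y X h1 h2 h3 h4 => ⟨(thin k y X h1 h2 h3).1.1 h4, (thin k y X h1 h2 h3).2 h4⟩)
      (fun k X h1 h4 => ⟨(thick k X h1).1.1 h4, (thick k X h1).2 h4⟩) h
  refine ⟨⟨fun h => (f h).1, fun h => ?_⟩, fun h => (f h).2⟩
  by_contra h0
  refine (chainD (fun S => ¬ P S) (fun _ => (0 : ℝ)) (k0 := k0) (K := K) hδ hL lo hi
    (le_refl 0) (le_refl 0) (fun k y X h1 h2 h3 h4 => ⟨fun h5 => h4 ((thin k y X h1 h2 h3).1.2 h5), ?_⟩)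
    (fun k X h1 h4 => ⟨fun h5 => h4 ((thick k X h1).1.2 h5), ?_⟩) h0).1 h
  · simp
  · simp

end chain

/-! ### balls, both directions -/

/-- a mark `m` of the first region and its image `y` in the second region, symmetric -/
def MkQ (X Y : ℤ) (r : ℕ) (A : Finset (ℤ × ℤ)) (b : Port (ℤ × ℤ) → Port (ℤ × ℤ))
    (A' : Finset (ℤ × ℤ)) (b' : Port (ℤ × ℤ) → Port (ℤ × ℤ)) (m y : Port (ℤ × ℤ)) : Prop :=
  (y = m ∧ ∀ t d, m = some (t, d) → ¬ Bx X Y r t) ∨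
    ∃ t d t' d', m = some (t, d) ∧ Bx X Y r t ∧ t ∈ A ∧ b m = m ∧ y = some (t', d') ∧
      Bx X Y r t' ∧ t' ∈ A' ∧ b' y = y

theorem MkQ.mkP {X Y : ℤ} {r : ℕ} {A A' : Finset (ℤ × ℤ)} {b b' : Port (ℤ × ℤ) → Port (ℤ × ℤ)}
    {m y : Port (ℤ × ℤ)} (h : MkQ X Y r A b A' b' m y) : MkP X Y r A' b' m y := by
  rcases h with h | ⟨t, d, t', d', h1, h2, -, -, h5, h6, h7, h8⟩
  · exact Or.inl h
  · exact Or.inr ⟨t, d, t', d', h1, h2, h5, h6, h7, h8⟩

theorem MkQ.symm {X Y : ℤ} {r : ℕ} {A A' : Finset (ℤ × ℤ)} {b b' : Port (ℤ × ℤ) → Port (ℤ × ℤ)}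
    {m y : Port (ℤ × ℤ)} (h : MkQ X Y r A b A' b' m y) : MkQ X Y r A' b' A b y m := by
  rcases h with ⟨h1, h2⟩ | ⟨t, d, t', d', h1, h2, h3, h4, h5, h6, h7, h8⟩
  · exact Or.inl ⟨h1.symm, fun t d e => h2 t d (h1 ▸ e)⟩
  · exact Or.inr ⟨t', d', t, d, h5, h6, h7, h8, h1, h2, h3, h4⟩

theorem MkQ.far {X Y : ℤ} {r n : ℕ} (hrn : r ≤ n) {A A' : Finset (ℤ × ℤ)}
    {b b' : Port (ℤ × ℤ) → Port (ℤ × ℤ)}
    {m y : Port (ℤ × ℤ)} (h : MkQ X Y r A b A' b' m y) (hf : FarM X Y n m) : FarM X Y n y := by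
  rcases h with ⟨h1, h2⟩ | ⟨t, d, t', d', h1, h2, -⟩
  · rw [h1]; exact hf
  · exfalso
    refine hf t d h1 ?_
    unfold Bx at h2 ⊢
    omega

/-- **the ball theorem, both directions** -/
theorem ball_iff : ∃ C a : ℝ, 0 < C ∧ 0 < a ∧ ∀ (sh : Sh) (k : ZMod 4) (X Y : ℤ) (r n : ℕ),
    1 ≤ r → r + 1 ≤ n → ∀ {A A' : Finset (ℤ × ℤ)} {b b' : Port (ℤ × ℤ) → Port (ℤ × ℤ)},
    Cw161.Win sh k X Y r n A b → Cw161.Win sh k X Y r n A' b' →
    (∀ t, Bx X Y n t → ¬ Bx X Y r t → t ∈ A → pat X Y sh k t) →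
    (∀ x, FarM X Y n x → b' x = b x) → (∀ t, ¬ Bx X Y r t → (t ∈ A ↔ t ∈ A')) →
    (∃ w, GW A b w) → (∃ w', GW A' b' w') → ∀ {m1 m2 m3 y1 y2 y3 : Port (ℤ × ℤ)},
    MkQ X Y r A b A' b' m1 y1 → MkQ X Y r A b A' b' m2 y2 → MkQ X Y r A b A' b' m3 y3 →
    (FarM X Y n m1 ∨ FarM X Y n m2) → (FarM X Y n m2 ∨ FarM X Y n m3) →
    (FarM X Y n m3 ∨ FarM X Y n m1) →
    (MK A b m1 m2 m3 ↔ MK A' b' y1 y2 y3) ∧
      (MK A b m1 m2 m3 → ‖HG A' b' y1 y2 y3 - HG A b m1 m2 m3‖ ≤ C * ((r : ℝ) / n) ^ a) := by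
  obtain ⟨C, a, hC, ha, hX⟩ := ball_mk
  refine ⟨C, a, hC, ha, ?_⟩
  intro sh k X Y r n hr hn A A' b b' h h' hnp hF hAA hw hw' m1 m2 m3 y1 y2 y3 p1 p2 p3 f12 f23 f31
  have hrn : r ≤ n := by omega
  have f : MK A b m1 m2 m3 → _ := fun hm => hX sh k X Y r n hr hn h h' hnp hF
    (fun t ht hA => (hAA t ht).1 hA) hw' hm p1.mkP p2.mkP p3.mkP f12 f23 f31
  refine ⟨⟨fun hm => (f hm).1, fun hm => ?_⟩, fun hm => ?_⟩
  · exact (hX sh k X Y r n hr hn h' h (fun t h1 h2 h3 => hnp t h1 h2 ((hAA t h2).2 h3))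
      (fun x hx => (hF x hx).symm) (fun t ht hA => (hAA t ht).2 hA) hw hm p1.symm.mkP p2.symm.mkP
      p3.symm.mkP (f12.imp (p1.far hrn) (p2.far hrn)) (f23.imp (p2.far hrn) (p3.far hrn))
      (f31.imp (p3.far hrn) (p1.far hrn))).1
  · rw [norm_sub_rev]; exact (f hm).2

/-! ### glueings far from the box -/

/-- the tile is not on the slit -/
def OffS (p y0 xr : ℤ) (t : ℤ × ℤ) : Prop :=
  ¬ ((t.2 = y0 ∨ t.2 = y0 - 1) ∧ p ≤ t.1 ∧ t.1 ≤ xr + 1)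

theorem nbD_inv {p y0 xr : ℤ} {u : ℤ × ℤ} {d' : ZMod 4} (h : OffS p y0 xr u) (hp : p ≤ xr + 1)
    {x : Port (ℤ × ℤ)} (e : nbD p y0 xr x = some (u, d')) : x = nbP (some (u, d')) := by
  unfold OffS at h
  rcases x with _ | ⟨⟨x1, y1⟩, d⟩
  · rw [nbD_leg] at e
    simp only [Option.some.injEq, Prod.mk.injEq] at e
    obtain ⟨rfl, -⟩ := e
    exact absurd ⟨Or.inl rfl, le_refl _, hp⟩ h
  · rcases z4 d with rfl | rfl | rfl | rfl
    · rw [nbD_W] at e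
      rw [← e, nbP_E, sub_add_cancel]
    · by_cases hc : y1 = y0 - 1 ∧ p ≤ x1 ∧ x1 ≤ xr
      · rw [nbD_N1 hc] at e
        simp only [Option.some.injEq, Prod.mk.injEq] at e
        obtain ⟨rfl, -⟩ := e
        exact absurd ⟨Or.inl rfl, (by omega : p ≤ x1 + 1), (by omega : x1 + 1 ≤ xr + 1)⟩ h
      · rw [nbD_N hc] at e
        rw [← e, nbP_S, add_sub_cancel_right]
    · rw [nbD_E] at e
      rw [← e, nbP_W, add_sub_cancel_right]
    · by_cases hc1 : y1 = y0 ∧ x1 = p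
      · rw [nbD_Sleg hc1] at e
        exact absurd e (by simp)
      by_cases hc : y1 = y0 ∧ p < x1 ∧ x1 ≤ xr
      · rw [nbD_S1 hc] at e
        simp only [Option.some.injEq, Prod.mk.injEq] at e
        obtain ⟨rfl, -⟩ := e
        exact absurd ⟨Or.inr rfl, (by omega : p ≤ x1 - 1), (by omega : x1 - 1 ≤ xr + 1)⟩ h
      · rw [nbD_S (by omega)] at e
        rw [← e, nbP_N, sub_add_cancel]

/-- **the glueing far from a box where the regions differ** -/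
theorem beD_off {A A' : Finset (ℤ × ℤ)} {p y0 xr X Y : ℤ} {r n : ℕ} (hp : p ≤ xr + 1)
    (hrn : r + 1 ≤ n) (hQ : ∀ t, Bx X Y r t → OffS p y0 xr t)
    (hAA : ∀ t, ¬ Bx X Y r t → (t ∈ A ↔ t ∈ A')) (x : Port (ℤ × ℤ)) (hx : FarM X Y n x) :
    beD A' p y0 xr x = beD A p y0 xr x := by
  have hbx : ∀ {t : ℤ × ℤ}, ¬ Bx X Y n t → ¬ Bx X Y r t := by
    intro t ht h; apply ht; unfold Bx at *; omega
  have h1 : PortOf A' x ↔ PortOf A x := by
    rcases x with _ | ⟨t, d⟩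
    · exact ⟨fun _ => portOf_none A, fun _ => portOf_none _⟩
    · rw [portOf_some, portOf_some]
      exact (hAA t (hbx (hx t d rfl))).symm
  have h2 : PortOf A' (nbD p y0 xr x) ↔ PortOf A (nbD p y0 xr x) := by
    rcases hz : nbD p y0 xr x with _ | ⟨u, d⟩
    · exact ⟨fun _ => portOf_none A, fun _ => portOf_none _⟩
    · rw [portOf_some, portOf_some]
      by_cases hu : Bx X Y r u
      · exfalso
        have h3 := nbD_inv (hQ u hu) hp hz
        rw [Cw161.nbP_dir] at h3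
        refine hx _ _ h3 ?_
        have h4 := Cw161.bx_dir d hu
        unfold Bx at h4 ⊢
        push_cast at h4
        omega
      · exact (hAA u hu).symm
  unfold beD res
  by_cases hA : PortOf A x ∧ PortOf A (nbD p y0 xr x)
  · rw [if_pos ⟨h1.2 hA.1, h2.2 hA.2⟩, if_pos hA]
  · rw [if_neg fun h3 => hA ⟨h1.1 h3.1, h2.1 h3.2⟩, if_neg hA]

/-! ### patterns -/

/-- **the patterns of left walls in helper161's form** -/
theorem bridgeL (q : Pat) (a Y : ℤ) : ∃ (sh : Sh) (k : ZMod 4), ∀ t : ℤ × ℤ,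
    (pat (a - 1) (Y - 1) sh k t ↔ q.okL a Y t.1 t.2) := by
  cases q
  · refine ⟨.h1, 2, fun t => ?_⟩
    rw [Cw161.pat_s2]
    simp only [Pat.okL]
    constructor <;> intro h <;> omega
  · refine ⟨.h0, 2, fun t => ?_⟩
    rw [Cw161.pat_h2]
    simp only [Pat.okL]
    constructor <;> intro h <;> omega
  · refine ⟨.q, 0, fun t => ?_⟩
    rw [Cw161.pat_q0]
    simp only [Pat.okL]
    constructor <;> intro h <;> omega
  · refine ⟨.q, 3, fun t => ?_⟩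
    rw [Cw161.pat_q3]
    simp only [Pat.okL]
    constructor <;> intro h <;> omega
  · refine ⟨.t, 1, fun t => ?_⟩
    rw [Cw161.pat_t1]
    simp only [Pat.okL]
    constructor <;> intro h <;> omega
  · refine ⟨.t, 2, fun t => ?_⟩
    rw [Cw161.pat_t2]
    simp only [Pat.okL]
    constructor <;> intro h <;> omega

/-! ### counting -/

section count

variable {F H : Finset V} {L δ : ℤ}

theorem LL_sub (hL : 0 < L) (hs : H ⊆ F) : LL F H L δ ⊆
    F.biUnion fun c => (Finset.Ico (c.2 * L) (c.2 * L + L)).image fun y => (c.1 * L + δ - 1, y) := by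
  rintro ⟨X, y⟩ ht
  obtain ⟨c, r, h1, h2, h3, h4, h5⟩ := Vw802.ll_col hL hs ht
  rw [Finset.mem_biUnion]
  refine ⟨(c + 1, r), hs h4, ?_⟩
  rw [Finset.mem_image]
  refine ⟨y, Finset.mem_Ico.2 ⟨h2, h3⟩, ?_⟩
  rw [h1]
  simp only [Prod.mk.injEq, and_true]
  ring

theorem card_LL_le (hL : 0 < L) (hs : H ⊆ F) : ((LL F H L δ).card : ℝ) ≤ F.card * L := by
  have h1 : (LL F H L δ).card ≤ F.card * L.toNat := by
    refine (Finset.card_le_card (LL_sub hL hs)).trans (Finset.card_biUnion_le.trans ?_)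
    refine (Finset.sum_le_card_nsmul _ _ L.toNat fun c _ => ?_).trans (by simp)
    refine Finset.card_image_le.trans ?_
    rw [Int.card_Ico]
    omega
  have h2 : ((L.toNat : ℕ) : ℝ) = (L : ℝ) := by
    have : ((L.toNat : ℕ) : ℤ) = L := Int.toNat_of_nonneg hL.le
    exact_mod_cast this
  calc ((LL F H L δ).card : ℝ) ≤ ((F.card * L.toNat : ℕ) : ℝ) := by exact_mod_cast h1
    _ = F.card * L := by push_cast; rw [h2]

theorem cols_LL_le (hL : 0 < L) (hs : H ⊆ F) : ((LL F H L δ).image Prod.fst).card ≤ F.card := by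
  refine le_trans (Finset.card_le_card (t := F.image fun c => c.1 * L + δ - 1) ?_)
    Finset.card_image_le
  intro X hX
  obtain ⟨⟨X', y⟩, h1, rfl⟩ := Finset.mem_image.1 hX
  obtain ⟨c, r, h1, h2, h3, h4, h5⟩ := Vw802.ll_col hL hs h1
  refine Finset.mem_image.2 ⟨(c + 1, r), hs h4, ?_⟩
  simp only
  rw [h1]; ring

/-- vertical extent -/
theorem ext_LL (F : Finset V) : ∃ (k0 : ℤ) (K : ℕ), ∀ (H : Finset V) (L δ g : ℤ), 0 < L → H ⊆ F →
    0 ≤ g → 2 * g ≤ L → Even L → ∀ t ∈ LL F H L δ, k0 * (L / 2) - g ≤ t.2 ∧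
      t.2 < (k0 + K) * (L / 2) - g := by
  obtain ⟨m, hm⟩ := (F.image Prod.snd).bddBelow
  obtain ⟨M, hM⟩ := (F.image Prod.snd).bddAbove
  refine ⟨2 * m, (2 * (M - m) + 3).toNat, ?_⟩
  rintro H L δ g hL hs hg hgL ⟨s, rfl⟩ ⟨X, y⟩ ht
  obtain ⟨c, r, h1, h2, h3, h4, h5⟩ := Vw802.ll_col hL hs ht
  have h6 : m ≤ r := hm (by
    simp only [Finset.coe_image, Set.mem_image]
    exact ⟨(c + 1, r), hs h4, rfl⟩)
  have h7 : r ≤ M := hM (by
    simp only [Finset.coe_image, Set.mem_image]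
    exact ⟨(c + 1, r), hs h4, rfl⟩)
  have e1 : (s + s) / 2 = s := by omega
  have e2 : (((2 * (M - m) + 3).toNat : ℕ) : ℤ) = 2 * (M - m) + 3 := by omega
  rw [e1, e2]
  have hs0 : 0 < s := by omega
  constructor
  · show 2 * m * s - g ≤ y
    nlinarith
  · show y < (2 * m + (2 * (M - m) + 3)) * s - g
    nlinarith

end count

end Crest.Agent.R158.Hc854
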