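import Crest.Agent.R158.Hc4_854
import Crest.Agent.R158.Wd10_377
import Crest.Agent.R158.Hb1_656

/-!
# R158, block BL (helper854), file Hc5: the steps of the chain of the left walls

* `Ctx` : the data of the chain
* `mkS_pos` : position of the marks
* `thinL` : one flat tile
* `thickL` : a group at a vertex or at a mark
-/

set_option autoImplicit false
set_option linter.unusedSectionVars false

noncomputable section

namespace Crest.Agent.R158.Hc854

open Crest.Agent.R158.Bh679 (Gr mem_Gr NP Away Words)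
open Crest.Agent.R158.Sp896 (V)
open Crest.Agent.R158.Sw300 (Port Wd)
open Crest.Agent.R158.Cb771 (dir)
open Crest.Agent.R158.Env664
open Crest.Agent.R158.Ob664 (GW HG)
open Crest.Agent.R158.Hb656 (Hang shD RL LL mkS mem_shD mem_RL mem_LL mk2)
open Crest.Agent.R158.Cw161 (Bx Sh pat FarM)
open Crest.Agent.R158.Wd377 (MK Off BxL)
open Crest.Agent.R158.Vw802 (Pat Pat.okL NoPinch mD)

/-- the data of the chain of the left walls -/
structure Ctx (F H : Finset V) (L δ p y0 xr : ℤ) (g : ℕ) : Prop where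
  hang : ∃ k i0 i1 up, Hang F H k i0 i1 up
  np : NoPinch F
  ev : Even L
  dd : δ = 0 ∨ δ = 1
  hg : 8 ≤ g
  hgL : 32 * (g : ℤ) ≤ L
  hp : p ≤ xr + 1
  aw : Away H L p y0 xr
  wd : Words F H L δ p y0 xr (LL F H L δ)

/-- region of the state `S` -/
abbrev rg (F H : Finset V) (L δ : ℤ) (S : Finset V) : Finset V := shD F H L δ ∪ S

/-- mark of the boundary edge `e` in the state `S` -/
abbrev mq' (H : Finset V) (L δ : ℤ) (S : Finset V) (e : V × ZMod 4) : Port V :=
  some (mkS H L δ S (mk2 L e.1 e.2))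

variable {F H : Finset V} {L δ p y0 xr : ℤ} {g : ℕ}

theorem Ctx.sub (h : Ctx F H L δ p y0 xr g) : H ⊆ F := by
  obtain ⟨k, i0, i1, up, hh⟩ := h.hang
  exact hh.sub

/-- the tiles near the moved part are not on the slit -/
theorem Ctx.offS (h : Ctx F H L δ p y0 xr g) {s t : V} (hs : s ∈ D H L) {q : ℤ}
    (hq : 2 * q + 2 < L) (h1 : |t.1 - s.1| ≤ q) (h2 : |t.2 - s.2| ≤ q) : OffS p y0 xr t := by
  rintro ⟨h3, h4, h5⟩
  have := h.aw t.1 h4 h5 s hs
  rw [abs_le] at h1 h2
  rcases this with h6 | h6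
  · have : |t.1 - s.1| ≤ q := abs_le.2 h1
    omega
  · have : |y0 - s.2| ≤ q + 1 := by rw [abs_le]; omega
    omega

/-- the four sides of a boundary edge -/
theorem nbc_cases (c : V) (d : ZMod 4) : (d = 0 ∧ nbc c d = (c.1 - 1, c.2)) ∨
    (d = 1 ∧ nbc c d = (c.1, c.2 + 1)) ∨ (d = 2 ∧ nbc c d = (c.1 + 1, c.2)) ∨
    (d = 3 ∧ nbc c d = (c.1, c.2 - 1)) := by
  rcases z4 d with rfl | rfl | rfl | rfl
  · left; exact ⟨rfl, rfl⟩
  · right; left; exact ⟨rfl, rfl⟩
  · right; right; left; exact ⟨rfl, rfl⟩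
  · right; right; right; exact ⟨rfl, rfl⟩

theorem mk2_0 (L : ℤ) (c : V) : mk2 L c 0 = ((c.1 * L, c.2 * L + L / 2), 0) := rfl
theorem mk2_1 (L : ℤ) (c : V) : mk2 L c 1 = ((c.1 * L + L / 2, c.2 * L + L - 1), 1) := rfl
theorem mk2_2 (L : ℤ) (c : V) : mk2 L c 2 = ((c.1 * L + L - 1, c.2 * L + L / 2 - 1), 2) := rfl
theorem mk2_3 (L : ℤ) (c : V) : mk2 L c 3 = ((c.1 * L + L / 2 - 1, c.2 * L), 3) := rfl

/-- marks move by at most two columns -/
theorem mkS_near (H : Finset V) (L δ : ℤ) (hδ : δ = 0 ∨ δ = 1) (S : Finset V) (m : V × ZMod 4) :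
    |(mkS H L δ S m).1.1 - m.1.1| ≤ 2 ∧ (mkS H L δ S m).1.2 = m.1.2 ∧ (mkS H L δ S m).2 = m.2 := by
  unfold mkS
  split_ifs
  · refine ⟨?_, rfl, rfl⟩
    show |m.1.1 + δ + 1 - m.1.1| ≤ 2
    rw [abs_le]; omega
  · refine ⟨?_, rfl, rfl⟩
    show |m.1.1 + δ - 1 - m.1.1| ≤ 2
    rw [abs_le]; omega
  · refine ⟨?_, rfl, rfl⟩
    show |m.1.1 + δ - m.1.1| ≤ 2
    rw [abs_le]; omega
  · exact ⟨by simp, rfl, rfl⟩

/-- tiles of the left layer are never in front of a right mark -/
theorem LL_col' (hL : 1 < L) (hs : H ⊆ F) {S : Finset V} (hS : S ⊆ LL F H L δ) {c : V} :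
    ((c.1 * L + L - 1 + δ + 1, c.2 * L + L / 2 - 1) : V) ∉ S := by
  intro h
  obtain ⟨c', r, h1, -⟩ := Vw802.ll_col (by omega) hs (hS h)
  have h2 : (c.1 - c') * L = -1 := by linarith
  have h3 : (c.1 - c') = 0 ∨ 1 ≤ (c.1 - c') ∨ (c.1 - c') ≤ -1 := by omega
  rcases h3 with h3 | h3 | h3
  · rw [h3] at h2; omega
  · nlinarith
  · nlinarith

/-- **when the marks do not move** -/
theorem mkS_same (hL : 1 < L) (hs : H ⊆ F) {S S' : Finset V} (hS : S ⊆ LL F H L δ)
    (hS' : S' ⊆ LL F H L δ) {c : V} {d : ZMod 4}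
    (h : d = 0 → c ∈ H → (((c.1 * L + δ - 1, c.2 * L + L / 2) : V) ∈ S ↔
      ((c.1 * L + δ - 1, c.2 * L + L / 2) : V) ∈ S')) :
    mkS H L δ S (mk2 L c d) = mkS H L δ S' (mk2 L c d) := by
  have hmem : (mk2 L c d).1 ∈ D H L → c ∈ H := by
    intro h1
    rcases z4 d with rfl | rfl | rfl | rfl
    · rw [mk2_0] at h1
      exact (mD (by omega) (by omega) (by omega) (by omega) (by omega)).1 h1
    · rw [mk2_1] at h1
      exact (mD (by omega) (by omega) (by omega) (by omega) (by omega)).1 h1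
    · rw [mk2_2] at h1
      exact (mD (by omega) (by omega) (by omega) (by omega) (by omega)).1 h1
    · rw [mk2_3] at h1
      exact (mD (by omega) (by omega) (by omega) (by omega) (by omega)).1 h1
  unfold mkS
  by_cases h0 : (mk2 L c d).1 ∈ D H L
  · rw [if_pos h0, if_pos h0]
    have hc := hmem h0
    rcases z4 d with rfl | rfl | rfl | rfl
    · have e := h rfl hc
      rw [mk2_0]
      have n02 : ¬ ((0 : ZMod 4) = 2) := by decide
      simp only [n02, false_and, if_false, true_and]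
      by_cases h1 : ((c.1 * L + δ - 1, c.2 * L + L / 2) : V) ∈ S
      · rw [if_pos h1, if_pos (e.1 h1)]
      · rw [if_neg h1, if_neg (fun h2 => h1 (e.2 h2))]
    · rw [mk2_1]
      have n12 : ¬ ((1 : ZMod 4) = 2) := by decide
      have n10 : ¬ ((1 : ZMod 4) = 0) := by decide
      simp only [n12, n10, false_and, if_false]
    · rw [mk2_2]
      have n20 : ¬ ((2 : ZMod 4) = 0) := by decide
      simp only [n20, false_and, if_false, true_and]
      rw [if_neg (LL_col' hL hs hS), if_neg (LL_col' hL hs hS')]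
    · rw [mk2_3]
      have n12 : ¬ ((3 : ZMod 4) = 2) := by decide
      have n10 : ¬ ((3 : ZMod 4) = 0) := by decide
      simp only [n12, n10, false_and, if_false]
  · rw [if_neg h0, if_neg h0]

/-- the half row of a flat tile lies in its macroscopic row -/
theorem half_row {s k y r : ℤ} (hs : 0 < s) (h1 : k * s ≤ y) (h2 : y < (k + 1) * s)
    (h3 : r * (s + s) ≤ y) (h4 : y < r * (s + s) + (s + s)) :
    r * (s + s) ≤ k * s ∧ (k + 1) * s ≤ r * (s + s) + (s + s) := by
  have e1 : k < 2 * r + 2 := by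
    by_contra h
    have : (2 * r + 2) * s ≤ k * s := mul_le_mul_of_nonneg_right (by omega) hs.le
    nlinarith
  have e2 : 2 * r < k + 1 := by
    by_contra h
    have : (k + 1) * s ≤ (2 * r) * s := mul_le_mul_of_nonneg_right (by omega) hs.le
    nlinarith
  constructor
  · have : (2 * r) * s ≤ k * s := mul_le_mul_of_nonneg_right (by omega) hs.le
    nlinarith
  · have : (k + 1) * s ≤ (2 * r + 2) * s := mul_le_mul_of_nonneg_right (by omega) hs.le
    nlinarith

/-- a height between two lines is not near a line -/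
theorem no_line {s k y g m : ℤ} (hs : 0 < s) (h1 : k * s + g ≤ y) (h2 : y < (k + 1) * s - g) :
    m * s ≤ y - g ∨ y + g < m * s := by
  rcases le_or_gt m k with h | h
  · left
    have : m * s ≤ k * s := mul_le_mul_of_nonneg_right h hs.le
    linarith
  · right
    have : (k + 1) * s ≤ m * s := mul_le_mul_of_nonneg_right (by omega) hs.le
    linarith

/-- odd multiples of `s` are far from zero -/
theorem odd_far {s m : ℤ} (hs : 0 < s) : s ≤ m * (s + s) + s ∨ m * (s + s) + s ≤ -s := by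
  rcases le_or_gt 0 m with h | h
  · left; nlinarith
  · right; nlinarith

/-- the marked region of the state `S` -/
def PS (F H : Finset V) (L δ p y0 xr : ℤ) (e : Fin 3 → V × ZMod 4) (S : Finset V) : Prop :=
  MK (rg F H L δ S) (beD (rg F H L δ S) p y0 xr) (mq' H L δ S (e 0)) (mq' H L δ S (e 1))
    (mq' H L δ S (e 2))

/-- the observable of the state `S` -/
def GS (F H : Finset V) (L δ p y0 xr : ℤ) (e : Fin 3 → V × ZMod 4) (S : Finset V) : ℂ :=
  HG (rg F H L δ S) (beD (rg F H L δ S) p y0 xr) (mq' H L δ S (e 0)) (mq' H L δ S (e 1))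
    (mq' H L δ S (e 2))

theorem Sd_sub {LL : Finset V} {y y' X : ℤ} : Sd LL y y' X ⊆ LL := Finset.filter_subset _ _

/-- **one flat tile** -/
theorem thinL : ∃ C c : ℝ, 1 ≤ C ∧ 0 < c ∧ ∀ {F H : Finset V} {L δ p y0 xr : ℤ} {g : ℕ},
    Ctx F H L δ p y0 xr g → ∀ e : Fin 3 → V × ZMod 4, ∀ k y X : ℤ,
    k * (L / 2) + g ≤ y → y < (k + 1) * (L / 2) - g → (X, y) ∈ LL F H L δ →
    (PS F H L δ p y0 xr e (Sd (LL F H L δ) y (y + 1) X) ↔
      PS F H L δ p y0 xr e (insert (X, y) (Sd (LL F H L δ) y (y + 1) X))) ∧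
    (PS F H L δ p y0 xr e (Sd (LL F H L δ) y (y + 1) X) →
      ‖GS F H L δ p y0 xr e (insert (X, y) (Sd (LL F H L δ) y (y + 1) X)) -
        GS F H L δ p y0 xr e (Sd (LL F H L δ) y (y + 1) X)‖ ≤ C * (1 / ((g - 1 : ℕ) : ℝ)) ^ (1 + c)) := by
  obtain ⟨C, c, hC, hc, -, hX⟩ := Wd377.left_D
  refine ⟨C, c, hC, hc, ?_⟩
  intro F H L δ p y0 xr g h e k y X h1 h2 h3
  have hs := h.sub
  have hg := h.hg
  have hgL := h.hgL
  have hδ := h.dd
  obtain ⟨s, rfl⟩ := h.ev
  have e2 : (s + s) / 2 = s := by omega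
  rw [e2] at h1 h2
  have hs0 : 0 < s := by omega
  obtain ⟨c', r, hc1, hc2, hc3, hc4, hc5⟩ := Vw802.ll_col (by omega) hs h3
  obtain ⟨r1, r2⟩ := half_row (k := k) hs0 (by omega) (by omega) hc2 hc3
  have hL8 : 8 ≤ s + s := by omega
  have hδ' : -1 ≤ δ ∧ δ ≤ 1 := by omega
  have hsub : Sd (LL F H (s + s) δ) y (y + 1) X ⊆ LL F H (s + s) δ := Sd_sub
  have hsub' : insert (X, y) (Sd (LL F H (s + s) δ) y (y + 1) X) ⊆ LL F H (s + s) δ :=
    Finset.insert_subset h3 hsub
  have hn : ((g - 1 : ℕ) : ℤ) = g - 1 := by omega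
  -- the marks do not move
  have hmk : ∀ i, mq' H (s + s) δ (Sd (LL F H (s + s) δ) y (y + 1) X) (e i) =
      mq' H (s + s) δ (insert (X, y) (Sd (LL F H (s + s) δ) y (y + 1) X)) (e i) := by
    intro i
    unfold mq'
    congr 1
    refine mkS_same (by omega) hs hsub hsub' fun _ _ => ?_
    rw [Finset.mem_insert, e2]
    constructor
    · exact Or.inr
    · rintro (h4 | h4)
      · exfalso
        simp only [Prod.mk.injEq] at h4
        have h5 := no_line (m := 2 * (e i).1.2 + 1) hs0 h1 h2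
        have h6 : (2 * (e i).1.2 + 1) * s = (e i).1.2 * (s + s) + s := by ring
        rw [h6] at h5
        omega
      · exact h4
  -- the marks are far
  have hoff : ∀ i, Off (BxL (X + 1) y (g - 1)) (mq' H (s + s) δ (Sd (LL F H (s + s) δ) y (y + 1) X)
      (e i)) := by
    intro i t d ht hB
    unfold mq' at ht
    simp only [Option.some.injEq] at ht
    obtain ⟨n1, n2, -⟩ := mkS_near H (s + s) δ hδ (Sd (LL F H (s + s) δ) y (y + 1) X)
      (mk2 (s + s) (e i).1 (e i).2)
    rw [ht] at n1 n2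
    simp only at n1 n2
    rw [abs_le] at n1
    unfold BxL at hB
    rw [hn] at hB
    have h5 := no_line (m := 2 * (e i).1.2 + 1) hs0 h1 h2
    have h6 : (2 * (e i).1.2 + 1) * s = (e i).1.2 * (s + s) + s := by ring
    rw [h6] at h5
    have h7 := odd_far (s := s) (m := (e i).1.1 - c' - 1) hs0
    have h8 : ((e i).1.1 - c' - 1) * (s + s) = (e i).1.1 * (s + s) - c' * (s + s) - (s + s) := by
      ring
    rw [h8] at h7
    generalize he : e i = ei at *
    obtain ⟨c1, d1⟩ := ei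
    simp only at *
    rcases z4 d1 with rfl | rfl | rfl | rfl
    · rw [mk2_0, e2] at n1 n2
      simp only at n1 n2
      omega
    · rw [mk2_1, e2] at n1 n2
      simp only at n1 n2
      omega
    · rw [mk2_2, e2] at n1 n2
      simp only at n1 n2
      omega
    · rw [mk2_3, e2] at n1 n2
      simp only at n1 n2
      omega
  have hD : (X + 1 - δ, y) ∈ D H (s + s) := (mem_LL.1 h3).1
  have key := hX (X + 1) y (g - 1) (rg F H (s + s) δ (Sd (LL F H (s + s) δ) y (y + 1) X)) p y0 xr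
    _ _ _ (by omega) h.hp ?_ ?_ (hoff 0) (hoff 1) (hoff 2) (h.wd _ hsub)
  · have e3 : (X + 1 - 1, y) = ((X, y) : V) := by rw [add_sub_cancel_right]
    rw [e3] at key
    unfold PS GS
    rw [← hmk 0, ← hmk 1, ← hmk 2]
    have e4 : rg F H (s + s) δ (insert (X, y) (Sd (LL F H (s + s) δ) y (y + 1) X)) =
        insert (X, y) (rg F H (s + s) δ (Sd (LL F H (s + s) δ) y (y + 1) X)) :=
      Finset.union_insert _ _ _
    rw [e4, norm_sub_rev]
    exact key
  · intro x1 y1 a1 a2 a3 a4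
    rw [hn] at a2 a3 a4
    have h5 := (Vw802.flatL (δ := δ) (y := y) (y' := y + 1) (x1 := x1) (y1 := y1) hL8 hδ' hs hc4 hc5
      (by omega) (by omega) (by omega) (by omega) (by omega)).1
    rw [← hc1] at h5
    rw [h5]
    constructor <;> intro h6 <;> omega
  · intro t hB
    unfold BxL at hB
    rw [hn] at hB
    refine h.offS hD (q := g + 2) (by omega) ?_ ?_
    · rw [abs_le]; simp only; omega
    · rw [abs_le]; simp only; omega

end Crest.Agent.R158.Hc854
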