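import Crest.Agent.R158.Hc5_854

/-!
# R158, block BL (helper854), file Hc6: the thick groups of the chain of the left walls

* `mark_near` : the only mark near a group is the mark of its own wall
* **`thickL`** : a group at a vertex or at a mark
-/

set_option autoImplicit false
set_option linter.unusedSectionVars false

noncomputable section

namespace Crest.Agent.R158.Hc854

open Crest.Agent.R158.Bh679 (Gr mem_Gr NP Away Words)
open Crest.Agent.R158.Sp896 (V)
open Crest.Agent.R158.Sw300 (Port Wd)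
open Crest.Agent.R158.Cb771 (dir)
open Crest.Agent.R158.Env664
open Crest.Agent.R158.Ob664 (GW HG)
open Crest.Agent.R158.Hb656 (Hang shD RL LL mkS mem_shD mem_RL mem_LL mk2)
open Crest.Agent.R158.Cw161 (Bx Sh pat FarM)
open Crest.Agent.R158.Wd377 (MK)
open Crest.Agent.R158.Vw802 (Pat Pat.okL NoPinch mD)

variable {F H : Finset V} {L δ p y0 xr : ℤ} {g : ℕ}

theorem small_mul {s m : ℤ} (hs : 0 < s) (h1 : -s < m * s) (h2 : m * s < s) : m = 0 := by
  have h3 : m < 1 := by
    by_contra h
    have : 1 * s ≤ m * s := mul_le_mul_of_nonneg_right (by omega) hs.le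
    linarith
  have h4 : -1 < m := by
    by_contra h
    have : m * s ≤ -1 * s := mul_le_mul_of_nonneg_right (by omega) hs.le
    linarith
  omega

/-- **the only mark near a group of the left layer is the mark of its own wall** -/
theorem mark_near {s : ℤ} (hs : 128 ≤ s) (hδ : δ = 0 ∨ δ = 1) (hg : 8 * (g : ℤ) ≤ s)
    {c r X yt k : ℤ}
    (hX : X = c * (s + s) + (s + s) + δ - 1) (h2 : r * (s + s) ≤ yt) (h3 : yt < r * (s + s) + (s + s))
    (h5 : (c, r) ∉ F) (h6 : k * s - g ≤ yt) (h7 : yt < k * s + g) {e : V × ZMod 4}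
    (he : e.1 ∈ F) {S : Finset V}
    (n1 : |(mkS H (s + s) δ S (mk2 (s + s) e.1 e.2)).1.1 - X| ≤ (s + s) / 4)
    (n2 : |(mkS H (s + s) δ S (mk2 (s + s) e.1 e.2)).1.2 - k * s| ≤ (s + s) / 4) :
    e = ((c + 1, r), 0) ∧ k = 2 * r + 1 := by
  obtain ⟨m1, m2, -⟩ := mkS_near H (s + s) δ hδ S (mk2 (s + s) e.1 e.2)
  rw [m2] at n2
  rw [abs_le] at m1 n1 n2
  generalize (mkS H (s + s) δ S (mk2 (s + s) e.1 e.2)).1.1 = τ at m1 n1
  obtain ⟨⟨c1, r1⟩, d⟩ := e
  have e2 : (s + s) / 2 = s := by omega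
  have k1 := odd_far (s := s) (m := c1 - c - 1) (by omega)
  have k1' : (c1 - c - 1) * (s + s) = c1 * (s + s) - c * (s + s) - (s + s) := by ring
  -- the row
  have row : (|r1 * (s + s) + s - k * s| ≤ (s + s) / 4 + 1) → k = 2 * r1 + 1 ∧ r = r1 := by
    intro h
    rw [abs_le] at h
    have a1 : (2 * r1 + 1 - k) * s = r1 * (s + s) + s - k * s := by ring
    have a2 := small_mul (s := s) (m := 2 * r1 + 1 - k) (by omega) (by rw [a1]; omega)
      (by rw [a1]; omega)
    have a3 : k = 2 * r1 + 1 := by omega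
    refine ⟨a3, ?_⟩
    subst a3
    have a4 : (2 * r1 + 1) * s = r1 * (s + s) + s := by ring
    rw [a4] at h6 h7
    have a5 : (r - r1) * (s + s) = r * (s + s) - r1 * (s + s) := by ring
    have a6 := small_mul (s := s + s) (m := r - r1) (by omega) (by rw [a5]; omega)
      (by rw [a5]; omega)
    omega
  simp only at he
  rcases z4 d with rfl | rfl | rfl | rfl
  · rw [mk2_0, e2] at m1 n2
    simp only at m1 n1 n2
    have a1 : (c1 - c - 1) * (s + s) = c1 * (s + s) - c * (s + s) - (s + s) := by ring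
    have a2 := small_mul (s := s + s) (m := c1 - c - 1) (by omega) (by rw [a1]; omega)
      (by rw [a1]; omega)
    obtain ⟨a3, a4⟩ := row (by rw [abs_le]; omega)
    have a5 : c1 = c + 1 := by omega
    subst a5
    subst a4
    exact ⟨rfl, a3⟩
  · exfalso
    rw [mk2_1, e2] at m1 n2
    simp only at m1 n1 n2
    omega
  · exfalso
    rw [mk2_2, e2] at m1 n2
    simp only at m1 n1 n2
    have a1 : (c1 - c) * (s + s) = c1 * (s + s) - c * (s + s) := by ring
    have a2 := small_mul (s := s + s) (m := c1 - c) (by omega) (by rw [a1]; omega)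
      (by rw [a1]; omega)
    obtain ⟨a3, a4⟩ := row (by rw [abs_le]; omega)
    have a5 : c1 = c := by omega
    subst a5
    subst a4
    exact h5 he
  · exfalso
    rw [mk2_3, e2] at m1 n2
    simp only at m1 n1 n2
    omega

/-- the window of a thick group, vertex or middle of a side -/
theorem win_thick {s : ℤ} (hs : 128 ≤ s) (hδ : δ = 0 ∨ δ = 1) (hg : 8 * (g : ℤ) ≤ s)
    (hH : ∃ k i0 i1 up, Hang F H k i0 i1 up) (hp : NoPinch F) {c r yt k : ℤ}
    (h2 : r * (s + s) ≤ yt) (h3 : yt < r * (s + s) + (s + s)) (h4 : (c + 1, r) ∈ H)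
    (h5 : (c, r) ∉ F) (h6 : k * s - g ≤ yt) (h7 : yt < k * s + g) :
    ∃ (q : Pat) (a : ℤ), (a = c * (s + s) + (s + s) + δ - 1 ∨ a = c * (s + s) + (s + s) + δ) ∧
      ∀ x1 y1 : ℤ, c * (s + s) + (s + s) + δ - 1 - (s + s) / 4 ≤ x1 →
      x1 ≤ c * (s + s) + (s + s) + δ - 1 + (s + s) / 4 → k * s - (s + s) / 4 ≤ y1 →
      y1 ≤ k * s + (s + s) / 4 →
      (y1 < k * s - g ∨ k * s + g ≤ y1 ∨ x1 ≠ c * (s + s) + (s + s) + δ - 1) →
      ((x1, y1) ∈ shD F H (s + s) δ ∪
          Sd (LL F H (s + s) δ) (k * s - g) (k * s + g) (c * (s + s) + (s + s) + δ - 1) ↔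
        q.okL a (k * s) x1 y1) ∧
      ((x1, y1) ∈ shD F H (s + s) δ ∪
          (Sd (LL F H (s + s) δ) (k * s - g) (k * s + g) (c * (s + s) + (s + s) + δ - 1) ∪
        Gr (LL F H (s + s) δ) (k * s - g) (k * s + g) (c * (s + s) + (s + s) + δ - 1)) ↔
        q.okL a (k * s) x1 y1) := by
  obtain ⟨k', i0, i1, up, hh⟩ := hH
  have hsub := hh.sub
  rcases Int.even_or_odd' k with ⟨j, rfl | rfl⟩
  · have e1 : 2 * j * s = j * (s + s) := by ring
    rw [e1] at h6 h7 ⊢
    refine Vw802.vertL (by omega) hδ hh hp (by omega) ?_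
    have a1 : (r - j) * (s + s) = r * (s + s) - j * (s + s) := by ring
    rcases le_or_gt (j * (s + s)) yt with h | h
    · have a2 := small_mul (s := s + s) (m := r - j) (by omega) (by rw [a1]; omega)
        (by rw [a1]; omega)
      have : r = j := by omega
      subst this
      exact Or.inl ⟨h4, h5⟩
    · have a3 : (r - (j - 1)) * (s + s) = r * (s + s) - j * (s + s) + (s + s) := by ring
      have a2 := small_mul (s := s + s) (m := r - (j - 1)) (by omega) (by rw [a3]; omega)
        (by rw [a3]; omega)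
      have : r = j - 1 := by omega
      subst this
      exact Or.inr ⟨h4, h5⟩
  · have e1 : (2 * j + 1) * s = j * (s + s) + s := by ring
    rw [e1] at h6 h7 ⊢
    have a1 : (r - j) * (s + s) = r * (s + s) - j * (s + s) := by ring
    have a2 := small_mul (s := s + s) (m := r - j) (by omega) (by rw [a1]; omega)
      (by rw [a1]; omega)
    have : r = j := by omega
    subst this
    refine ⟨.h1, c * (s + s) + (s + s) + δ, Or.inr rfl, fun x1 y1 b1 b2 b3 b4 b5 => ?_⟩
    exact Vw802.midL (by omega) (by omega) hsub (by omega) h4 h5 (by omega) (by omega) x1 y1 b1 b2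
      b3 b4 b5

/-- the mark of a left wall -/
theorem mkS_left (hL : 1 < L) {c : V} (hc : c ∈ H) (S : Finset V) :
    mkS H L δ S (mk2 L c 0) = if ((c.1 * L + δ - 1, c.2 * L + L / 2) : V) ∈ S then
      ((c.1 * L + δ - 1, c.2 * L + L / 2), 0) else ((c.1 * L + δ, c.2 * L + L / 2), 0) := by
  have h1 : (mk2 L c 0).1 ∈ D H L := by
    rw [mk2_0]
    exact (mD (by omega) (by omega) (by omega) (by omega) (by omega)).2 hc
  unfold mkS
  rw [if_pos h1, mk2_0]
  have n02 : ¬ ((0 : ZMod 4) = 2) := by decide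
  simp only [n02, false_and, if_false, true_and]

/-- **a group at a vertex or at a mark** -/
theorem thickL : ∃ C a : ℝ, 0 < C ∧ 0 < a ∧ ∀ {F H : Finset V} {L δ p y0 xr : ℤ} {g : ℕ},
    Ctx F H L δ p y0 xr g → ∀ e : Fin 3 → V × ZMod 4, Function.Injective e →
    (∀ i, (e i).1 ∈ F) → ∀ k X : ℤ,
    (∃ t ∈ LL F H L δ, t.1 = X ∧ k * (L / 2) - g ≤ t.2 ∧ t.2 < k * (L / 2) + g) →
    (PS F H L δ p y0 xr e (Sd (LL F H L δ) (k * (L / 2) - g) (k * (L / 2) + g) X) ↔
      PS F H L δ p y0 xr e (Sd (LL F H L δ) (k * (L / 2) - g) (k * (L / 2) + g) X ∪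
        Gr (LL F H L δ) (k * (L / 2) - g) (k * (L / 2) + g) X)) ∧
    (PS F H L δ p y0 xr e (Sd (LL F H L δ) (k * (L / 2) - g) (k * (L / 2) + g) X) →
      ‖GS F H L δ p y0 xr e (Sd (LL F H L δ) (k * (L / 2) - g) (k * (L / 2) + g) X ∪
        Gr (LL F H L δ) (k * (L / 2) - g) (k * (L / 2) + g) X) -
        GS F H L δ p y0 xr e (Sd (LL F H L δ) (k * (L / 2) - g) (k * (L / 2) + g) X)‖ ≤
        C * (((g + 2 : ℕ) : ℝ) / ((L / 8).toNat : ℕ)) ^ a) := by
  obtain ⟨C, a, hC, ha, hX⟩ := ball_iff
  refine ⟨C, a, hC, ha, ?_⟩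
  rintro F H L δ p y0 xr g h e he heF k X ⟨⟨X', yt⟩, ht, rfl, h6, h7⟩
  have hs := h.sub
  have hg := h.hg
  have hgL := h.hgL
  have hδ := h.dd
  have hp := h.hp
  have hang := h.hang
  have hnp := h.np
  have hoffS := fun {s t : V} (hs : s ∈ D H L) {q : ℤ} (hq : 2 * q + 2 < L) => h.offS (t := t) hs hq
  have hwd := h.wd
  obtain ⟨s, rfl⟩ := h.ev
  have e2 : (s + s) / 2 = s := by omega
  rw [e2] at h6 h7 ⊢
  simp only at h6 h7 ⊢
  obtain ⟨c, r, hc1, h2, h3, h4, h5⟩ := Vw802.ll_col (by omega) hs ht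
  obtain ⟨q, a', ha', hw⟩ := win_thick (by omega) hδ (by omega) hang hnp h2 h3 h4 h5 h6 h7
  rw [← hc1] at ha' hw
  have ha'' : a' = X' ∨ a' = X' + 1 := by omega
  obtain ⟨sh, kk, hb⟩ := bridgeL q a' (k * s)
  obtain ⟨n, hn⟩ : ∃ n : ℕ, n = ((s + s) / 8).toNat := ⟨_, rfl⟩
  have hn' : (n : ℤ) = (s + s) / 8 := by rw [hn]; exact Int.toNat_of_nonneg (by omega)
  rw [← hn]
  set S := Sd (LL F H (s + s) δ) (k * s - g) (k * s + g) X' with hSd
  set S' := S ∪ Gr (LL F H (s + s) δ) (k * s - g) (k * s + g) X' with hSd'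
  have hsub : S ⊆ LL F H (s + s) δ := Sd_sub
  have hsub' : S' ⊆ LL F H (s + s) δ :=
    Finset.union_subset hsub (Finset.filter_subset _ _)
  -- windows
  have hA : ∀ t, Bx (a' - 1) (k * s - 1) (n + 1) t → ¬ Bx (a' - 1) (k * s - 1) (g + 2 - 1) t →
      (t ∈ rg F H (s + s) δ S ↔ pat (a' - 1) (k * s - 1) sh kk t) ∧
      (t ∈ rg F H (s + s) δ S' ↔ pat (a' - 1) (k * s - 1) sh kk t) := by
    intro t b1 b2
    rw [hb]
    have e3 : ((g + 2 - 1 : ℕ) : ℤ) = g + 1 := by omega
    unfold Bx at b1 b2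
    rw [e3] at b2
    push_cast at b1
    exact hw t.1 t.2 (by omega) (by omega) (by omega) (by omega) (by omega)
  have hoff : ∀ t, Bx (a' - 1) (k * s - 1) n t → OffS p y0 xr t := by
    intro t b1
    have hD : ((X' + 1 - δ, yt) : V) ∈ D H (s + s) := (mem_LL.1 ht).1
    unfold Bx at b1
    refine hoffS hD (q := n + g + 4) (by omega) ?_ ?_
    · rw [abs_le]; simp only; omega
    · rw [abs_le]; simp only; omega
  have hrn : g + 2 + 1 ≤ n := by omega
  have W : Cw161.Win sh kk (a' - 1) (k * s - 1) (g + 2) n (rg F H (s + s) δ S)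
      (beD (rg F H (s + s) δ S) p y0 xr) :=
    Cw161.win_plain (by omega) hrn (fun t b1 b2 => (hA t b1 b2).1)
      (fun t d b1 => Wd377.beD_plain (hoff t b1) hp d)
  have W' : Cw161.Win sh kk (a' - 1) (k * s - 1) (g + 2) n (rg F H (s + s) δ S')
      (beD (rg F H (s + s) δ S') p y0 xr) :=
    Cw161.win_plain (by omega) hrn (fun t b1 b2 => (hA t b1 b2).2)
      (fun t d b1 => Wd377.beD_plain (hoff t b1) hp d)
  have hbr : ∀ {t : V}, Bx (a' - 1) (k * s - 1) (g + 2) t → Bx (a' - 1) (k * s - 1) n t := by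
    intro t b1; unfold Bx at b1 ⊢; push_cast at b1; omega
  have hAA : ∀ t, ¬ Bx (a' - 1) (k * s - 1) (g + 2) t →
      (t ∈ rg F H (s + s) δ S ↔ t ∈ rg F H (s + s) δ S') := by
    intro t b1
    unfold rg
    rw [hSd', Finset.mem_union, Finset.mem_union, Finset.mem_union, mem_Gr]
    constructor
    · rintro (h8 | h8)
      · exact Or.inl h8
      · exact Or.inr (Or.inl h8)
    · rintro (h8 | h8 | ⟨-, h8, h9, h10⟩)
      · exact Or.inl h8
      · exact Or.inr h8
      · exfalso
        apply b1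
        unfold Bx
        push_cast
        omega
  have hF : ∀ x, FarM (a' - 1) (k * s - 1) n x →
      beD (rg F H (s + s) δ S') p y0 xr x = beD (rg F H (s + s) δ S) p y0 xr x :=
    fun x hx => beD_off hp hrn (fun t b1 => hoff t (hbr b1)) hAA x hx
  -- marks
  have near : ∀ (S0 : Finset V) i, Bx (a' - 1) (k * s - 1) n
      (mkS H (s + s) δ S0 (mk2 (s + s) (e i).1 (e i).2)).1 →
      e i = ((c + 1, r), 0) ∧ k = 2 * r + 1 := by
    intro S0 i b1
    unfold Bx at b1
    refine mark_near (F := F) (by omega) hδ (by omega) hc1 h2 h3 h5 h6 h7 (heF i) (S := S0)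
      (H := H) ?_ ?_
    · rw [abs_le]; omega
    · rw [abs_le]; omega
  have hQ : ∀ i, MkQ (a' - 1) (k * s - 1) (g + 2) (rg F H (s + s) δ S)
      (beD (rg F H (s + s) δ S) p y0 xr) (rg F H (s + s) δ S')
      (beD (rg F H (s + s) δ S') p y0 xr) (mq' H (s + s) δ S (e i)) (mq' H (s + s) δ S' (e i)) := by
    intro i
    by_cases hc : e i = ((c + 1, r), 0) ∧ k = 2 * r + 1
    · obtain ⟨hei, hk⟩ := hc
      have e4 : k * s = r * (s + s) + s := by rw [hk]; ring
      have e5 : (c + 1) * (s + s) + δ - 1 = X' := by rw [hc1]; ring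
      have e6 : (c + 1) * (s + s) + δ = X' + 1 := by rw [hc1]; ring
      have hfr : ((X', k * s) : V) ∈ LL F H (s + s) δ := by
        have := (Vw802.row_ll (F := F) (δ := δ) (c := c) (r := r) (x := X') (y := k * s)
          (by omega : 8 ≤ s + s) hs (by omega) (by omega) (by omega) (by omega)).2 ⟨by omega, h4, h5⟩
        exact this
      have hnS : ((X', k * s) : V) ∉ S := by
        rw [hSd, mem_Sd]
        simp only
        omega
      have hinS' : ((X', k * s) : V) ∈ S' := by
        rw [hSd', Finset.mem_union, mem_Gr]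
        exact Or.inr ⟨hfr, rfl, by simp only; omega, by simp only; omega⟩
      have v1 : mkS H (s + s) δ S (mk2 (s + s) (e i).1 (e i).2) = ((X' + 1, k * s), 0) := by
        rw [hei, mkS_left (by omega) h4]
        simp only [e2]
        rw [e5, e6, ← e4, if_neg hnS]
      have v2 : mkS H (s + s) δ S' (mk2 (s + s) (e i).1 (e i).2) = ((X', k * s), 0) := by
        rw [hei, mkS_left (by omega) h4]
        simp only [e2]
        rw [e5, e6, ← e4, if_pos hinS']
      have hfl : ∀ x1 : ℤ, X' - 1 ≤ x1 → x1 ≤ X' + 1 →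
          ((((x1, k * s) : V) ∈ rg F H (s + s) δ S ↔ X' < x1) ∧
          (((x1, k * s) : V) ∈ rg F H (s + s) δ S' ↔ X' ≤ x1)) := by
        intro x1 b1 b2
        have := Vw802.flatL (δ := δ) (y := k * s - g) (y' := k * s + g) (x1 := x1) (y1 := k * s)
          (by omega : 8 ≤ s + s) (by omega) hs h4 h5 (by omega) (by omega) (by omega) (by omega)
          (by omega)
        rw [← hc1] at this
        constructor
        · refine this.1.trans ?_
          constructor <;> intro h8 <;> omega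
        · refine this.2.trans ?_
          constructor <;> intro h8 <;> omega
      have b1 : Bx (a' - 1) (k * s - 1) (g + 2) (X' + 1, k * s) := by
        unfold Bx; push_cast; omega
      have b2 : Bx (a' - 1) (k * s - 1) (g + 2) (X', k * s) := by
        unfold Bx; push_cast; omega
      right
      refine ⟨(X' + 1, k * s), 0, (X', k * s), 0, ?_, b1, ?_, ?_, ?_, b2, ?_, ?_⟩
      · unfold mq'; rw [v1]
      · exact ((hfl (X' + 1) (by omega) (by omega)).1).2 (by omega)
      · unfold mq'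
        rw [v1, Wd377.beD_plain (hoff _ (hbr b1)) hp]
        refine Cw161.beP_free (Or.inr ?_)
        rw [Cw161.dir0, Prod.mk_add_mk, add_zero]
        intro h8
        have := ((hfl (X' + 1 + -1) (by omega) (by omega)).1).1 h8
        omega
      · unfold mq'; rw [v2]
      · exact ((hfl X' (by omega) (by omega)).2).2 (by omega)
      · unfold mq'
        rw [v2, Wd377.beD_plain (hoff _ (hbr b2)) hp]
        refine Cw161.beP_free (Or.inr ?_)
        rw [Cw161.dir0, Prod.mk_add_mk, add_zero]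
        intro h8
        have := ((hfl (X' + -1) (by omega) (by omega)).2).1 h8
        omega
    · left
      have e7 : mkS H (s + s) δ S (mk2 (s + s) (e i).1 (e i).2) =
          mkS H (s + s) δ S' (mk2 (s + s) (e i).1 (e i).2) := by
        refine mkS_same (by omega) hs hsub hsub' fun hd hH => ?_
        rw [hSd', Finset.mem_union]
        constructor
        · exact Or.inl
        · rintro (h8 | h8)
          · exact h8
          · exfalso
            rw [mem_Gr] at h8
            obtain ⟨-, h9, h10, h11⟩ := h8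
            simp only at h9 h10 h11
            rw [e2] at h10 h11
            refine hc (near ∅ i ?_)
            obtain ⟨n1, n2, -⟩ := mkS_near H (s + s) δ hδ ∅ (mk2 (s + s) (e i).1 (e i).2)
            rw [hd, mk2_0, e2] at n1 n2
            rw [hd]
            rw [mk2_0, e2]
            simp only at n1 n2
            rw [abs_le] at n1
            unfold Bx
            omega
      refine ⟨by unfold mq'; rw [e7], ?_⟩
      intro t d h8 h9
      unfold mq' at h8
      simp only [Option.some.injEq] at h8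
      refine hc (near S i ?_)
      rw [h8]
      exact hbr h9
  have hfar : ∀ i j, i ≠ j → FarM (a' - 1) (k * s - 1) n (mq' H (s + s) δ S (e i)) ∨
      FarM (a' - 1) (k * s - 1) n (mq' H (s + s) δ S (e j)) := by
    intro i j hij
    by_contra hcon
    have key : ∀ i, ¬ FarM (a' - 1) (k * s - 1) n (mq' H (s + s) δ S (e i)) →
        e i = ((c + 1, r), 0) := by
      intro i hi
      unfold FarM at hi
      push Not at hi
      obtain ⟨t, d, h8, h9⟩ := hi
      unfold mq' at h8
      simp only [Option.some.injEq] at h8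
      exact (near S i (by rw [h8]; exact h9)).1
    rw [not_or] at hcon
    exact hij (he ((key i hcon.1).trans (key j hcon.2).symm))
  exact hX sh kk (a' - 1) (k * s - 1) (g + 2) n (by omega) hrn W W'
    (Cw161.np_plain fun t b1 b2 => (hA t b1 b2).1) hF hAA (hwd _ hsub) (hwd _ hsub')
    (hQ 0) (hQ 1) (hQ 2) (hfar 0 1 (by decide)) (hfar 1 2 (by decide)) (hfar 2 0 (by decide))

end Crest.Agent.R158.Hc854
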