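import Crest.Agent.R158.Xr10_249

/-!
# Row 158, BL (helper896), file Hg1: cut along a segment, hanging parts, no pinch

* `CA A`, `CC A` : edge connected, edge connected complement; `CC.sc`, `CA.conn`
* **`cut_sep`** : the line under row `y`, columns `u..v`, whose two end faces touch the complement,
  separates
* **`no_pinch`** : `CA A`, `CC A` exclude diagonal contacts
* `baseT A u v q y` : the cells joined to `(q, y)` without crossing the line, `hangT` : the others
-/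

set_option autoImplicit false
set_option linter.unusedVariables false

noncomputable section

namespace Crest.Agent.R158.Hg896

open Crest.Agent.R158.Env664 (Adj4 Mac D mem_D div_iff Run CutAdj)
open Crest.Agent.R158.Xr249

variable {A : Finset (ℤ × ℤ)}

/-- edge connected -/
def CA (A : Finset (ℤ × ℤ)) : Prop := ∀ a ∈ A, ∀ b ∈ A, CPath {t | t ∈ A} a b

/-- edge connected complement -/
def CC (A : Finset (ℤ × ℤ)) : Prop := ∀ a ∉ A, ∀ b ∉ A, CPath {t | t ∉ A} a b

theorem CA.conn (h : CA A) : (full A).Conn := full_Conn h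

theorem exists_above (A : Finset (ℤ × ℤ)) : ∃ d : ℤ × ℤ, d ∉ A ∧ ∀ t ∈ A, t.2 ≤ d.2 := by
  obtain ⟨m, hm⟩ := (A.image Prod.snd).bddAbove
  refine ⟨(0, m + 1), fun h => ?_, fun t ht => ?_⟩
  · have := hm (Finset.mem_coe.2 (Finset.mem_image_of_mem Prod.snd h))
    simp only at this
    omega
  · have := hm (Finset.mem_coe.2 (Finset.mem_image_of_mem Prod.snd ht))
    simp only
    omega

theorem CC.sc (h : CC A) : (full A).SC := by
  obtain ⟨d, hd, hd2⟩ := exists_above A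
  exact full_SC fun c hc => ⟨d, h c hc d hd, hd2⟩

theorem _root_.Crest.Agent.R158.Env664.Mac.CA (M : Mac) : CA M.F := by
  intro a ha b hb
  exact M.conn a ha b hb

theorem _root_.Crest.Agent.R158.Env664.Mac.CC (M : Mac) : CC M.F := by
  intro a ha b hb
  exact M.cconn a ha b hb

/-- a face next to a tile outside `A` is joined to infinity -/
theorem out_of (hsc : (full A).SC) {c f : ℤ × ℤ} (hc : c ∉ A) (hf : Arnd c f) : (full A).Out f := by
  have h1 := arnd_out (x := c.1) (y := c.2) hc hf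
  obtain ⟨g, hg1, hg2⟩ : (full A).Out c := by
    refine hsc c.1 c.2 (Or.inl ?_)
    rw [full_h]
    exact fun h => hc h.1
  exact ⟨g, h1.trans hg1, hg2⟩

/-! ### a segment that separates -/

/-- **a crosscut separates**: the line under the row `y`, columns `u..v`, when its two end faces are
joined to infinity -/
theorem cut_sep (hsc : (full A).SC) {u v y x : ℤ} (o1 : (full A).Out (u - 1, y - 1))
    (o2 : (full A).Out (v, y - 1)) (hux : u ≤ x) (hxv : x ≤ v) (h3 : (x, y - 1) ∈ A)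
    (h4 : (x, y) ∈ A) : ¬ Relation.ReflTransGen (CutAdj A u v y) (x, y - 1) (x, y) := by
  intro h
  obtain ⟨N, hN, hN'⟩ := cut_walk h h3
  have hst : (full A).Stp (x, y) (x, y - 1) (fun _ => 0) := by
    have := Reg.Stp.down (R := full A) (a := x) (b := y - 1) ⟨h3, by simpa using h4⟩
    rwa [sub_add_cancel] at this
  have hcl := hN'.cons hst (by exact_mod_cast h3)
  have hz : ∀ {f : ℤ × ℤ}, (full A).Out f → N f = 0 := by
    intro f hf
    have := hcl.closed_out hf
    simpa using this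
  have step : ∀ a, u ≤ a + 1 → a + 1 ≤ v →
      N (a, y - 1) + N (a + 1, y - 1) = Reg.Cc (a + 1) (y - 1) (x, y - 1) +
        Reg.Cc (a + 1) (y - 1) (x, y) := by
    intro a h5 h6
    refine hN.hor (Or.inl ?_)
    rintro ⟨-, -, h7⟩
    exact h7 ⟨rfl, h5, h6⟩
  have s1 : ∀ n : ℕ, u - 1 + n ≤ v → N (u - 1 + n, y - 1) = if x ≤ u - 1 + n then 1 else 0 := by
    intro n
    induction n with
    | zero =>
      intro _
      rw [if_neg (by push_cast; omega)]
      simpa using hz o1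
    | succ n ih =>
      intro hn
      push_cast at hn
      have e1 := step (u - 1 + n) (by omega) (by omega)
      rw [ih (by omega)] at e1
      simp only [Reg.Cc] at e1
      rw [show u - 1 + ((n + 1 : ℕ) : ℤ) = u - 1 + n + 1 by push_cast; ring]
      have k1 : ¬ (x = u - 1 + ↑n + 1 ∧ y - 1 + 1 ≤ y - 1) := by omega
      rw [if_neg k1, zero_add] at e1
      have ea : ∀ a : ZMod 2, 1 + a = 0 → a = 1 := by decide
      have eb : ∀ a : ZMod 2, 0 + a = 0 → a = 0 := by decide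
      have ec : ∀ a : ZMod 2, 0 + a = 1 → a = 1 := by decide
      by_cases k2 : x ≤ u - 1 + n
      · rw [if_pos k2, if_neg (by omega)] at e1
        rw [if_pos (by omega)]
        exact ea _ e1
      · by_cases k3 : x = u - 1 + n + 1
        · rw [if_neg k2, if_pos ⟨k3, by omega⟩] at e1
          rw [if_pos (by omega)]
          exact ec _ e1
        · rw [if_neg k2, if_neg (by omega)] at e1
          rw [if_neg (by omega)]
          exact eb _ e1
  have s2 := s1 (v - (u - 1)).toNat (by omega)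
  rw [Int.toNat_of_nonneg (by omega), add_sub_cancel, if_pos hxv, hz o2] at s2
  exact zero_ne_one s2

/-! ### no pinch -/

theorem walk_of_path {X : Finset (ℤ × ℤ)} {a b : ℤ × ℤ} (h : CPath {t | t ∈ X} a b) (ha : a ∈ X) :
    ∃ N, (full X).WN (X : Set (ℤ × ℤ)) a b N := by
  induction h with
  | refl => exact ⟨0, .nil (by exact_mod_cast ha)⟩
  | @tail c d _ h2 ih =>
    obtain ⟨N, hN⟩ := ih
    obtain ⟨h3, h4, h5⟩ := h2
    obtain ⟨x, y⟩ := c
    obtain ⟨x', y'⟩ := d
    have h4' : (x, y) ∈ X := h4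
    have h5' : (x', y') ∈ X := h5
    have hs : ∃ M, (full X).Stp (x, y) (x', y') M := by
      rcases h3 with ⟨h1, h2 | h2⟩ | ⟨h1, h2 | h2⟩ <;> simp only at h1 h2 <;> subst h1 h2
      · exact ⟨_, .up ⟨h4', h5'⟩⟩
      · exact ⟨_, .down ⟨h5', h4'⟩⟩
      · exact ⟨_, .right ⟨h4', h5'⟩⟩
      · exact ⟨_, .left ⟨h5', h4'⟩⟩
    obtain ⟨M, hM⟩ := hs
    exact ⟨_, hN.cons hM h5⟩

/-- the crossing function of a closed walk is constant along a path of tiles outside the region,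
on the faces around its tiles -/
theorem const_path {X : Finset (ℤ × ℤ)} {p : ℤ × ℤ} {N : ℤ × ℤ → ZMod 2} {Q : Set (ℤ × ℤ)}
    (hw : (full X).WN Q p p N) {c d : ℤ × ℤ} (h : CPath {t | t ∉ X} c d) (hc : c ∉ X) {f g : ℤ × ℤ}
    (hf : Arnd c f) (hg : Arnd d g) : N f = N g := by
  have hN : ∀ {f g : ℤ × ℤ}, Relation.ReflTransGen (full X).FAdj f g → N f = N g := by
    intro f g h
    induction h with
    | refl => rfl
    | tail _ h4 ih => rw [ih, hw.closed_fadj h4]
  have hd : d ∉ X ∧ N c = N d := by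
    clear hg
    induction h with
    | refl => exact ⟨hc, rfl⟩
    | tail _ h2 ih =>
      refine ⟨h2.2.2, ?_⟩
      rw [ih.2]
      exact hN (adj_out h2.1 h2.2.1 h2.2.2)
  rw [hN (arnd_out (x := c.1) (y := c.2) hc hf), hd.2,
    ← hN (arnd_out (x := d.1) (y := d.2) hd.1 hg)]

theorem _root_.Crest.Agent.R158.Xr249.CPath.mono' {X Y : Set (ℤ × ℤ)} (h : X ⊆ Y) {a b : ℤ × ℤ}
    (hab : CPath X a b) : CPath Y a b := by
  induction hab with
  | refl => exact .refl
  | tail _ h2 ih => exact ih.tail ⟨h2.1, h h2.2.1, h h2.2.2⟩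

/-- the part of a path before its first visit of the end point -/
theorem first_hit {X : Set (ℤ × ℤ)} {a b : ℤ × ℤ} (h : CPath X a b) (hab : a ≠ b) :
    ∃ c, CPath {t | t ∈ X ∧ t ≠ b} a c ∧ Adj4 c b ∧ c ∈ X ∧ c ≠ b := by
  induction h using Relation.ReflTransGen.head_induction_on with
  | refl => exact absurd rfl hab
  | @head a c h1 h2 ih =>
    by_cases hc : c = b
    · subst hc
      exact ⟨a, .refl, h1.1, h1.2.1, hab⟩
    · obtain ⟨d, hd1, hd2⟩ := ih hc
      exact ⟨d, .head ⟨h1.1, ⟨h1.2.1, hab⟩, ⟨h1.2.2, hc⟩⟩ hd1, hd2⟩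

/-- **no pinch**, first diagonal -/
theorem no_pinch (h1 : CA A) (h2 : CC A) {x y : ℤ} (h3 : (x, y) ∈ A) (h4 : (x + 1, y + 1) ∈ A) :
    (x + 1, y) ∈ A ∨ (x, y + 1) ∈ A := by
  by_contra hcon
  push Not at hcon
  obtain ⟨h5, h6⟩ := hcon
  set X : Finset (ℤ × ℤ) := insert (x + 1, y) A with hX
  have hXi : ∀ t, t ∈ X ↔ t = (x + 1, y) ∨ t ∈ A := fun t => Finset.mem_insert
  have hAX : ∀ t, t ∈ A → t ∈ X := fun t ht => (hXi t).2 (Or.inr ht)
  -- the walk inside `A`, as a walk of `full X` that stays in `A`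
  have key : ∀ {b : ℤ × ℤ}, CPath {t | t ∈ A} (x, y) b →
      ∃ N, (full X).WN (A : Set (ℤ × ℤ)) (x, y) b N := by
    intro b h
    induction h with
    | refl => exact ⟨0, .nil (by exact_mod_cast h3)⟩
    | @tail c d _ h2 ih =>
      obtain ⟨N, hN⟩ := ih
      obtain ⟨g3, g4, g5⟩ := h2
      obtain ⟨x1, y1⟩ := c
      obtain ⟨x2, y2⟩ := d
      have g4' : (x1, y1) ∈ X := hAX _ g4
      have g5' : (x2, y2) ∈ X := hAX _ g5
      have hs : ∃ M, (full X).Stp (x1, y1) (x2, y2) M := by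
        rcases g3 with ⟨e1, e2 | e2⟩ | ⟨e1, e2 | e2⟩ <;> simp only at e1 e2 <;> subst e1 e2
        · exact ⟨_, .up ⟨g4', g5'⟩⟩
        · exact ⟨_, .down ⟨g5', g4'⟩⟩
        · exact ⟨_, .right ⟨g4', g5'⟩⟩
        · exact ⟨_, .left ⟨g5', g4'⟩⟩
      obtain ⟨M, hM⟩ := hs
      exact ⟨_, hN.cons hM g5⟩
  obtain ⟨N, hN⟩ := key (h1 _ h3 _ h4)
  have hX5 : (x + 1, y) ∈ X := (hXi _).2 (Or.inl rfl)
  have nA : (x + 1, y) ∉ (A : Set (ℤ × ℤ)) := fun h => h5 (by exact_mod_cast h)
  -- the two faces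
  have e1 : N (x, y - 1) = N (x, y) := by
    have := hN.ver (x := x) (y := y - 1) (Or.inr (Or.inr (by rw [sub_add_cancel]; exact nA)))
    rwa [sub_add_cancel] at this
  have e2 : N (x, y - 1) + N (x + 1, y - 1) = 1 := by
    have := hN.hor (x := x) (y := y - 1) (Or.inr (Or.inr (by rw [sub_add_cancel]; exact nA)))
    rw [this]
    have k1 : Reg.Cc (x + 1) (y - 1) (x, y) = 0 := if_neg fun h => by
      have := h.1
      simp only at this
      omega
    have k2 : Reg.Cc (x + 1) (y - 1) (x + 1, y + 1) = 1 := if_pos ⟨rfl, by simp only; omega⟩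
    rw [k1, k2, zero_add]
  have s1 : (full X).Stp (x + 1, y + 1) (x + 1, y) (fun _ => 0) := .down ⟨hX5, hAX _ h4⟩
  have s2 : (full X).Stp (x + 1, y) (x, y)
      (fun f => if f.1 = x ∧ f.2 + 1 ≤ y then 1 else 0) := .left ⟨hAX _ h3, hX5⟩
  have hQ : (A : Set (ℤ × ℤ)) ⊆ (X : Set (ℤ × ℤ)) := fun t ht => by exact_mod_cast hAX t ht
  have w1 := ((hN.mono hQ).cons s1 (by exact_mod_cast hX5)).cons s2 (by exact_mod_cast hAX _ h3)
  -- the path in the complement
  obtain ⟨c, hc1, hc2, hc3, hc4⟩ := first_hit (h2 _ h6 _ h5) (by simp)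
  have hcX : ∀ t, t ∈ {t : ℤ × ℤ | t ∈ {t | t ∉ A} ∧ t ≠ (x + 1, y)} → t ∈ {t | t ∉ X} := by
    rintro t ⟨ht1, ht2⟩ ht3
    rcases (hXi t).1 ht3 with ht | ht
    · exact ht2 ht
    · exact ht1 ht
  have n6 : (x, y + 1) ∉ X := by
    intro ht
    rcases (hXi _).1 ht with ht | ht
    · simp at ht
    · exact h6 ht
  have hgc : Arnd c (x + 1, y - 1) := by
    obtain ⟨cx, cy⟩ := c
    have f1 : ¬ (cx = x ∧ cy = y) := by rintro ⟨rfl, rfl⟩; exact hc3 h3
    have f2 : ¬ (cx = x + 1 ∧ cy = y + 1) := by rintro ⟨rfl, rfl⟩; exact hc3 h4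
    unfold Adj4 at hc2
    unfold Arnd
    simp only at hc2 ⊢
    omega
  have e3 := const_path w1 (hc1.mono' hcX) n6 (f := (x, y)) (g := (x + 1, y - 1))
    ⟨Or.inl rfl, Or.inr (by simp)⟩ hgc
  have e4 : N (x, y) = N (x + 1, y - 1) := by simpa using e3
  rw [e1, ← e4] at e2
  rw [Reg.two_eq] at e2
  exact zero_ne_one e2

/-- reflection in a vertical line -/
def rv (t : ℤ × ℤ) : ℤ × ℤ := (-t.1, t.2)

theorem rv_rv (t : ℤ × ℤ) : rv (rv t) = t := by unfold rv; simp

theorem rv_inj : Function.Injective rv := fun s t h => by rw [← rv_rv s, h, rv_rv]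

/-- reflected set -/
def rvA (A : Finset (ℤ × ℤ)) : Finset (ℤ × ℤ) := A.map ⟨rv, rv_inj⟩

theorem mem_rvA {t : ℤ × ℤ} : t ∈ rvA A ↔ rv t ∈ A := by
  unfold rvA
  rw [Finset.mem_map]
  constructor
  · rintro ⟨s, hs, rfl⟩
    show rv (rv s) ∈ A
    rwa [rv_rv]
  · intro h
    exact ⟨rv t, h, rv_rv t⟩

theorem cpath_rv {X Y : Set (ℤ × ℤ)} (h : ∀ t, t ∈ X → rv t ∈ Y) {a b : ℤ × ℤ} (hab : CPath X a b) :
    CPath Y (rv a) (rv b) := by
  induction hab with
  | refl => exact .refl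
  | tail _ h2 ih =>
    refine ih.tail ⟨?_, h _ h2.2.1, h _ h2.2.2⟩
    have := h2.1
    unfold Adj4 at this ⊢
    unfold rv
    simp only
    omega

theorem CA.rv (h : CA A) : CA (rvA A) := by
  intro a ha b hb
  have := cpath_rv (Y := {t | t ∈ rvA A}) (fun t ht => by
    show Hg896.rv t ∈ rvA A
    rw [mem_rvA, rv_rv]; exact ht) (h _ (mem_rvA.1 ha) _ (mem_rvA.1 hb))
  rwa [rv_rv, rv_rv] at this

theorem CC.rv (h : CC A) : CC (rvA A) := by
  intro a ha b hb
  rw [mem_rvA] at ha hb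
  have := cpath_rv (Y := {t | t ∉ rvA A}) (fun t ht => by
    show Hg896.rv t ∉ rvA A
    rw [mem_rvA, rv_rv]; exact ht) (h _ ha _ hb)
  rwa [rv_rv, rv_rv] at this

/-- **no pinch**, second diagonal -/
theorem no_pinch' (h1 : CA A) (h2 : CC A) {x y : ℤ} (h3 : (x + 1, y) ∈ A) (h4 : (x, y + 1) ∈ A) :
    (x, y) ∈ A ∨ (x + 1, y + 1) ∈ A := by
  have e1 : (-(x + 1), y) ∈ rvA A := by
    rw [mem_rvA]
    unfold Hg896.rv
    rw [neg_neg]
    exact h3
  have e2 : (-(x + 1) + 1, y + 1) ∈ rvA A := by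
    rw [mem_rvA]
    unfold Hg896.rv
    simpa using h4
  rcases no_pinch h1.rv h2.rv e1 e2 with h | h
  · left
    rw [mem_rvA] at h
    unfold Hg896.rv at h
    simpa using h
  · right
    rw [mem_rvA] at h
    unfold Hg896.rv at h
    simpa using h

end Crest.Agent.R158.Hg896
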