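import Crest.Agent.R158.Hb0_656

/-!
# R158, BL (helper748), file Hn1: counts and group facts of the layers `RL`, `LL`

* `wallR`, `wallL` : a layer tile lies at a macroscopic wall
* `cardR`, `cardL`, `colsR`, `colsL` : numbers of tiles and of columns
* `bands` : the half bands, uniformly in `H ⊆ F`
* `facts` : everything together, real form
-/

set_option autoImplicit false

namespace Crest.Agent.R158.Hn748

open Crest.Agent.R158.Hb656 (RL LL mem_RL mem_LL)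
open Crest.Agent.R158.Env664 (D mem_D div_iff)

variable {F H : Finset (ℤ × ℤ)} {L δ : ℤ}

/-- a layer tile of a right wall: wall between the columns `c` (inside) and `c + 1` -/
theorem wallR (hL : 0 < L) (hs : H ⊆ F) {t : ℤ × ℤ} (h : t ∈ RL F H L δ) :
    ∃ c, t.1 = (c + 1) * L + δ ∧ (c, t.2 / L) ∈ H ∧ (c + 1, t.2 / L) ∉ F := by
  rw [mem_RL, mem_D hL, mem_D hL] at h
  obtain ⟨h1, h2⟩ := h
  simp only at h1 h2
  set c := (t.1 - 1 - δ) / L with hc
  obtain ⟨k1, k2⟩ := (div_iff hL _ _).1 hc.symm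
  have e5 : (c + 1) * L = c * L + L := by ring
  by_cases h3 : t.1 - δ < c * L + L
  · have e : (t.1 - δ) / L = c := (div_iff hL _ _).2 ⟨by omega, h3⟩
    rw [e] at h2
    exact absurd (hs h1) h2
  · refine ⟨c, by omega, h1, ?_⟩
    have e : (t.1 - δ) / L = c + 1 := (div_iff hL _ _).2 ⟨by omega, by omega⟩
    rwa [e] at h2

/-- a layer tile of a left wall: wall between the columns `c` (inside) and `c - 1` -/
theorem wallL (hL : 0 < L) (hs : H ⊆ F) {t : ℤ × ℤ} (h : t ∈ LL F H L δ) :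
    ∃ c, t.1 = c * L - 1 + δ ∧ (c, t.2 / L) ∈ H ∧ (c - 1, t.2 / L) ∉ F := by
  rw [mem_LL, mem_D hL, mem_D hL] at h
  obtain ⟨h1, h2⟩ := h
  simp only at h1 h2
  set c := (t.1 + 1 - δ) / L with hc
  obtain ⟨k1, k2⟩ := (div_iff hL _ _).1 hc.symm
  have e5 : (c - 1) * L = c * L - L := by ring
  by_cases h3 : c * L ≤ t.1 - δ
  · have e : (t.1 - δ) / L = c := (div_iff hL _ _).2 ⟨h3, by omega⟩
    rw [e] at h2
    exact absurd (hs h1) h2
  · refine ⟨c, by omega, h1, ?_⟩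
    have e : (t.1 - δ) / L = c - 1 := (div_iff hL _ _).2 ⟨by omega, by omega⟩
    rwa [e] at h2

theorem row_dec (hL : 0 < L) (y : ℤ) : ∃ i ∈ Finset.range L.toNat, y = (y / L) * L + (i : ℤ) := by
  have h1 := Int.emod_nonneg y hL.ne'
  have h2 := Int.emod_lt_of_pos y hL
  have h3 := Int.mul_ediv_add_emod y L
  refine ⟨(y % L).toNat, Finset.mem_range.2 (by omega), ?_⟩
  rw [Int.toNat_of_nonneg h1]
  linarith [mul_comm (y / L) L]

theorem cardR (hL : 0 < L) (hs : H ⊆ F) : ((RL F H L δ).card : ℝ) ≤ H.card * (L : ℝ) := by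
  classical
  have h1 : RL F H L δ ⊆ (H ×ˢ Finset.range L.toNat).image
      fun q => ((q.1.1 + 1) * L + δ, q.1.2 * L + (q.2 : ℤ)) := by
    intro t ht
    obtain ⟨c, h1, h2, -⟩ := wallR hL hs ht
    obtain ⟨i, hi, e⟩ := row_dec hL t.2
    refine Finset.mem_image.2 ⟨((c, t.2 / L), i), Finset.mem_product.2 ⟨h2, hi⟩, ?_⟩
    exact Prod.ext h1.symm e.symm
  have h2 := (Finset.card_le_card h1).trans Finset.card_image_le
  rw [Finset.card_product, Finset.card_range] at h2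
  have h3 : ((L.toNat : ℕ) : ℝ) = (L : ℝ) := by
    rw [← Int.cast_natCast, Int.toNat_of_nonneg hL.le]
  rw [← h3]
  exact_mod_cast h2

theorem cardL (hL : 0 < L) (hs : H ⊆ F) : ((LL F H L δ).card : ℝ) ≤ H.card * (L : ℝ) := by
  classical
  have h1 : LL F H L δ ⊆ (H ×ˢ Finset.range L.toNat).image
      fun q => (q.1.1 * L - 1 + δ, q.1.2 * L + (q.2 : ℤ)) := by
    intro t ht
    obtain ⟨c, h1, h2, -⟩ := wallL hL hs ht
    obtain ⟨i, hi, e⟩ := row_dec hL t.2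
    refine Finset.mem_image.2 ⟨((c, t.2 / L), i), Finset.mem_product.2 ⟨h2, hi⟩, ?_⟩
    exact Prod.ext h1.symm e.symm
  have h2 := (Finset.card_le_card h1).trans Finset.card_image_le
  rw [Finset.card_product, Finset.card_range] at h2
  have h3 : ((L.toNat : ℕ) : ℝ) = (L : ℝ) := by
    rw [← Int.cast_natCast, Int.toNat_of_nonneg hL.le]
  rw [← h3]
  exact_mod_cast h2

theorem colsR (hL : 0 < L) (hs : H ⊆ F) : ((RL F H L δ).image Prod.fst).card ≤ H.card := by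
  classical
  refine (Finset.card_le_card (t := H.image fun q => (q.1 + 1) * L + δ) ?_).trans
    Finset.card_image_le
  intro x hx
  obtain ⟨t, ht, rfl⟩ := Finset.mem_image.1 hx
  obtain ⟨c, h1, h2, -⟩ := wallR hL hs ht
  exact Finset.mem_image.2 ⟨_, h2, h1.symm⟩

theorem colsL (hL : 0 < L) (hs : H ⊆ F) : ((LL F H L δ).image Prod.fst).card ≤ H.card := by
  classical
  refine (Finset.card_le_card (t := H.image fun q => q.1 * L - 1 + δ) ?_).trans
    Finset.card_image_le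
  intro x hx
  obtain ⟨t, ht, rfl⟩ := Finset.mem_image.1 hx
  obtain ⟨c, h1, h2, -⟩ := wallL hL hs ht
  exact Finset.mem_image.2 ⟨_, h2, h1.symm⟩

/-- the macroscopic rows of `F` -/
theorem rows (F : Finset (ℤ × ℤ)) : ∃ a b : ℤ, a ≤ b ∧ ∀ q ∈ F, a ≤ q.2 ∧ q.2 ≤ b := by
  classical
  obtain ⟨a, ha⟩ := (F.image Prod.snd).bddBelow
  obtain ⟨b, hb⟩ := (F.image Prod.snd).bddAbove
  refine ⟨min a b, max a b, min_le_max, fun q hq => ?_⟩
  have h1 : q.2 ∈ F.image Prod.snd := Finset.mem_image_of_mem _ hq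
  have h2 := ha (Finset.mem_coe.2 h1)
  have h3 := hb (Finset.mem_coe.2 h1)
  exact ⟨(min_le_left _ _).trans h2, h3.trans (le_max_right _ _)⟩

/-- **the half bands, uniformly in `H ⊆ F`** -/
theorem bands (F : Finset (ℤ × ℤ)) : ∃ k0 : ℤ, ∃ K : ℕ, ∀ H ⊆ F, ∀ L2 g δ : ℤ, 0 < L2 → 0 ≤ g →
    g ≤ L2 →
    (∀ t ∈ RL F H (2 * L2) δ, k0 * L2 - g ≤ t.2 ∧ t.2 < (k0 + K) * L2 - g) ∧
    (∀ t ∈ LL F H (2 * L2) δ, k0 * L2 - g ≤ t.2 ∧ t.2 < (k0 + K) * L2 - g) := by
  obtain ⟨a, b, hab, h⟩ := rows F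
  refine ⟨2 * a, (2 * b + 3 - 2 * a).toNat, fun H hs L2 g δ hL hg hg' => ?_⟩
  have hK : (((2 * b + 3 - 2 * a).toNat : ℕ) : ℤ) = 2 * b + 3 - 2 * a :=
    Int.toNat_of_nonneg (by omega)
  rw [hK]
  have key : ∀ y c : ℤ, (c, y / (2 * L2)) ∈ F →
      2 * a * L2 - g ≤ y ∧ y < (2 * a + (2 * b + 3 - 2 * a)) * L2 - g := by
    intro y c hc
    obtain ⟨h1, h2⟩ := h _ hc
    simp only at h1 h2
    obtain ⟨h3, h4⟩ := (div_iff (by omega : 0 < 2 * L2) y (y / (2 * L2))).1 rfl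
    constructor
    · nlinarith
    · nlinarith
  refine ⟨fun t ht => ?_, fun t ht => ?_⟩
  · obtain ⟨c, -, h2, -⟩ := wallR (by omega) hs ht
    exact key _ c (hs h2)
  · obtain ⟨c, -, h2, -⟩ := wallL (by omega) hs ht
    exact key _ c (hs h2)

end Crest.Agent.R158.Hn748
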