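import Mathlib
import Crest.Agent.R158.Fl5_440
import Crest.Agent.R158.Mr4_679

/-!
# R158, block HP1 (helper854), part 12: interface with the analytic part

`HP1in` : the inequality that the arrow reversal identity gives, for the events of 440 / 679.
`HP1out` : the boundary one-arm bound.
-/

set_option autoImplicit false

noncomputable section

namespace Crest.Agent.R158.Hp854

open MeasureTheory unitInterval
open Crest.Agent.R158.Rs689 Crest.Agent.R158.Mr679 Crest.Agent.R158.Fl440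
open Crest.Agent.R161.Geo729

/-- three gaps at distance `2 n` joined in the box of radius `20 n` -/
def J3 (n : ℕ) : Set TF :=
  {X | TP (OT X (-1) (20 * n)) (-1 - 2 * n, 0) (-1, 0) ∧
    TP (OT X (-1) (20 * n)) (-1, 0) (-1 + 2 * n, 0)}

/-- two adjacent gaps with arms -/
def E1 (n : ℕ) : Set TF := AT (-1) n ∩ AT 0 n

/-- radius of the three arms -/
def rr (n : ℕ) : ℕ := (n + 1) / 2

/-- three separated arms -/
def E2 (n : ℕ) : Set TF :=
  AT (-1 - 2 * n) (rr n) ∩ (AT (-1) (rr n) ∪ AT 0 (rr n)) ∩ AT (-1 + 2 * n) (rr n)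

/-- long crossing of a strip by either colour -/
def Cr (x0 x1 y : ℤ) : Set TF := LX 0 x0 x1 0 y ∪ {X | (fun t => !X t) ∈ LX 1 x0 x1 0 y}

/-- the input: arrow reversal on the cylinder -/
def HP1in : Prop := ∃ CL : ℝ, 1 ≤ CL ∧ ∀ R n : ℕ, 1 ≤ R → 2 ≤ n →
  ∃ (N : TF → ℕ) (x0 x1 a b : ℤ), 20 * (n : ℤ) ≤ x0 ∧ x0 + R * (20 * n) ≤ x1 ∧ x1 ≤ a ∧
    (∀ X X' : TF, (∀ t ∈ bxF a b 0 (20 * n), X t = X' t) → N X = N X') ∧
    ∫ X, (2 : ℝ) ^ N X ∂(tau hf) ≤ CL ∧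
    (tau hf).real (J3 n) ≤ ∫ X in E1 n, (2 : ℝ) ^ N X ∂(tau hf) +
      ∫ X in E2 n ∩ Cr x0 x1 (20 * n), (2 : ℝ) ^ N X ∂(tau hf)

/-- the output: boundary one-arm bound with exponent `1/3` -/
def HP1out : Prop := ∃ C : ℝ, 0 < C ∧ ∀ n : ℕ, 1 ≤ n → aw n ≤ C * (n : ℝ) ^ (-(1 / 3 : ℝ))

end Crest.Agent.R158.Hp854
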