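import Mathlib
import Crest.Agent.R158.Hp12_854
import Crest.Agent.R158.Hp11_854
import Crest.Agent.R158.Nm7_211

/-!
# R158, block HP1 (helper854), part 13: the cylinder read in a tile field; inclusions of events
-/

set_option autoImplicit false
set_option linter.unusedSectionVars false
set_option linter.unusedSimpArgs false
set_option linter.unusedVariables false

noncomputable section

namespace Crest.Agent.R158.Hp854

open MeasureTheory unitInterval Finset
open Crest.Agent.R158.Bk430 (ME HasPar par vp)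
open Crest.Agent.R158.Rs689 Crest.Agent.R158.Mr679 Crest.Agent.R158.Fl440
open Crest.Agent.R161.Geo729

section Win

variable {M L H : ℕ} [NeZero M] [NeZero L] [Fact (Even M)] [Fact (Even L)]

/-- lift of a tile of the cylinder to the window `[-K, 3K) × [1, H]` -/
def wn (K : ℕ) (v : ZMod M × ZMod L) : ℤ × ℤ :=
  (if v.1.val < 3 * K then (v.1.val : ℤ) else (v.1.val : ℤ) - M, (v.2.val : ℤ))

/-- the cylinder field of a tile field -/
def xw (K : ℕ) (ω : TF) : Ct M L H → Bool := fun v => ω (wn K v.1)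

theorem wn_inj (K : ℕ) (hK : M = 4 * K) : Function.Injective (wn K : ZMod M × ZMod L → ℤ × ℤ) := by
  rintro ⟨a, b⟩ ⟨a', b'⟩ h
  unfold wn at h
  simp only [Prod.mk.injEq] at h
  obtain ⟨h1, h2⟩ := h
  have ha := a.val_lt
  have ha' := a'.val_lt
  have e1 : a.val = a'.val := by
    split_ifs at h1 <;> omega
  have e2 : b.val = b'.val := by exact_mod_cast h2
  rw [ZMod.val_injective _ e1, ZMod.val_injective _ e2]

theorem XP_win (hL : L = 2 * H) (K : ℕ) (hK : M = 4 * K) (ω : TF) {t : ℤ × ℤ}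
    (h1 : -(K : ℤ) ≤ t.1) (h2 : t.1 < 3 * K) (h3 : 1 ≤ t.2) (h4 : t.2 ≤ H) :
    XP (M := M) hL (xw K ω) t = ω t := by
  obtain ⟨a, b⟩ := t
  simp only at h1 h2 h3 h4
  have hb : (((b : ZMod L)).val : ℤ) = b := by
    rw [ZMod.val_intCast, Int.emod_eq_of_lt (by omega) (by rw [hL]; push_cast; omega)]
  have hin : InC M L H ((a : ZMod M), (b : ZMod L)) := by
    unfold InC
    simp only
    omega
  unfold XP Xt
  rw [dif_pos hin]
  unfold xw
  congr 1
  unfold wn
  simp only [Prod.mk.injEq]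
  refine ⟨?_, hb⟩
  have hM : (M : ℤ) = 4 * K := by rw [hK]; push_cast; ring
  rcases lt_or_ge a 0 with h5 | h5
  · have e1 : (((a : ZMod M)).val : ℤ) = a + M := by
      rw [ZMod.val_intCast]
      rw [show a = (a + M) - M by ring, Int.sub_emod_right, Int.emod_eq_of_lt (by omega) (by omega)]
      ring
    have e2 : ¬ ((a : ZMod M)).val < 3 * K := by
      intro h6
      have : (((a : ZMod M)).val : ℤ) < 3 * K := by exact_mod_cast h6
      omega
    rw [if_neg e2, e1]; ring
  · have e1 : (((a : ZMod M)).val : ℤ) = a := by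
      rw [ZMod.val_intCast, Int.emod_eq_of_lt h5 (by omega)]
    have e2 : ((a : ZMod M)).val < 3 * K := by
      have : (((a : ZMod M)).val : ℤ) < 3 * K := by omega
      exact_mod_cast this
    rw [if_pos e2, e1]

open Classical in
/-- expectation of functions of the cylinder field -/
theorem int_cyl (K : ℕ) (hK : M = 4 * K) (f : (Ct M L H → Bool) → ℝ) :
    ∫ ω, f (xw K ω) ∂(tau hf) = (1 / 2) ^ Fintype.card (Ct M L H) * ∑ x, f x := by
  have h1 := Nm211.integral_transport (ι := P2) (κ := Ct M L H) (T := Finset.univ)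
    (g := fun v => wn K v.1) (fun a _ b _ h => Subtype.ext (wn_inj K hK h)) (fun _ => false)
    (f := f) (fun z z' hz => by
      have : z = z' := funext fun e => hz e (Finset.mem_univ e)
      rw [this])
  simp only [Bool.false_xor] at h1
  refine Eq.trans h1 ?_
  convert PB_half_integral f

/-! ### inclusions -/

variable {n R : ℕ}

theorem oc_m1 : oc (-1) = false := by simp [oc]
theorem oc_0 : oc 0 = true := by simp [oc]

theorem j3_good (hL : L = 2 * H) (K : ℕ) (hK : M = 4 * K) (hH : H = 20 * n) (hKn : 20 * n + 1 ≤ K)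
    (hn : 1 ≤ n) {ω : TF} (h : ω ∈ J3 n) : GoodLoc n (sgm (M := M) hL (xw K ω)) := by
  obtain ⟨h1, h2⟩ := h
  have mono : ∀ F G : P2, TP (OT ω (-1) (20 * n)) F G →
      TP (fun t => XP (M := M) hL (xw K ω) t = false ∧ (1 ≤ t.2 ∧ t.2 ≤ H)) F G := by
    intro F G h
    refine h.mono fun t ht => ?_
    obtain ⟨g1, g2⟩ := ht
    unfold InB at g2
    rw [oc_m1] at g1
    have g3 : (1 : ℤ) ≤ t.2 ∧ t.2 ≤ H := by
      rw [hH]; push_cast; omega
    refine ⟨?_, g3⟩
    rw [XP_win hL K hK ω (by omega) (by omega) g3.1 g3.2, g1]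
  have p1 := mono _ _ h1
  have p2 := mono _ _ h2
  constructor
  · intro i hi1 hi2
    obtain ⟨j, hj, hj1, hj2⟩ := joined hL (xw K ω) (c := false) (x1 := -1 - 2 * n) (x2 := -1)
      (by simp) (by simp) p1 (b := i) (by omega) (by omega)
    exact ⟨j, hj, by omega, by omega⟩
  · intro i hi1 hi2
    obtain ⟨j, hj, hj1, hj2⟩ := joined hL (xw K ω) (c := false) (x1 := -1) (x2 := -1 + 2 * n)
      (by simp) (by simp) p2 (b := i) (by omega) (by omega)
    exact ⟨j, hj, by omega, by omega⟩

/-- arms of the cylinder in the window are arms of the tile field -/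
theorem arm_win (hL : L = 2 * H) (K : ℕ) (hK : M = 4 * K) {ω : TF} {c : Bool} {g : ℤ} {r : ℕ}
    (hc : oc g = c) (hr : r ≤ H) (h1 : -(K : ℤ) ≤ g - r) (h2 : g + r < 3 * K)
    (h : ∃ G, TP (fun t => XP (M := M) hL (xw K ω) t = c ∧ InB (g - r) (g + r) 0 r t) (g, 0) G ∧
      Farb (g - r) (g + r) r G) : ω ∈ AT g r := by
  obtain ⟨G, h3, h4⟩ := h
  refine ⟨G, h4, h3.mono fun t ht => ?_⟩
  obtain ⟨g1, g2⟩ := ht
  refine ⟨?_, g2⟩
  unfold InB at g2
  rw [XP_win hL K hK ω (by omega) (by omega) (by omega) (by omega)] at g1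
  rw [g1, hc]

theorem leave_E1 (hL : L = 2 * H) (K : ℕ) (hK : M = 4 * K) (hH : H = 20 * n) (hKn : 20 * n + 1 ≤ K)
    (hn : 1 ≤ n) {ω : TF} (h : Leave n (sgm (M := M) hL (xw K ω))) : ω ∈ E1 n := by
  constructor
  · have h1 := (two_arms hL (xw (M := M) (L := L) (H := H) K ω) (i := 0) (x0 := -1 - n)
      (x1 := -1 + n) (r := n) (by norm_num) (by exact_mod_cast hn) (by rw [hH]; push_cast; omega)
      (by omega) (by omega) (fun j hj h5 h6 => h j hj (by omega) (by omega))).1
    exact arm_win hL K hK oc_m1 (by omega) (by omega) (by omega) h1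
  · have h1 := (two_arms hL (xw (M := M) (L := L) (H := H) K ω) (i := 0) (x0 := 0 - n)
      (x1 := 0 + n) (r := n) (by norm_num) (by exact_mod_cast hn) (by rw [hH]; push_cast; omega)
      (by omega) (by omega) (fun j hj h5 h6 => h j hj (by omega) (by omega))).2
    exact arm_win hL K hK oc_0 (by omega) (by omega) (by omega) h1

theorem noloc_E2 (hL : L = 2 * H) (K : ℕ) (hK : M = 4 * K) (hH : H = 20 * n)
    (hKn : 20 * n + 1 ≤ K) (hn : 2 ≤ n) {ω : TF} (h : NoLoc n (sgm (M := M) hL (xw K ω))) :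
    ω ∈ E2 n := by
  obtain ⟨n1, n2, n3⟩ := h
  have hr1 : 1 ≤ rr n := by unfold rr; omega
  have hrn : rr n ≤ n := by unfold rr; omega
  have hrH : ((rr n : ℕ) : ℤ) ≤ H := by rw [hH]; push_cast; omega
  have hr1' : (1 : ℤ) ≤ (rr n : ℕ) := by exact_mod_cast hr1
  have hrn' : ((rr n : ℕ) : ℤ) ≤ n := by exact_mod_cast hrn
  refine ⟨⟨?_, ?_⟩, ?_⟩
  · refine arm_win hL K hK (by simp [oc]) (by omega) (by omega) (by omega)
      (arm_odd hL (xw (M := M) (L := L) (H := H) K ω) (g := -1 - 2 * n) (r := (rr n : ℕ))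
      (by omega) hr1' hrH ?_)
    intro i j hij g1 g2 g3 g4
    exact n1 i j hij (by omega) (by omega) (by omega) (by omega)
  · by_cases hs : ∃ j, sgm (M := M) hL (xw K ω) 0 = some j ∧ j < 0
    · right
      obtain ⟨j0, hj0, hj0'⟩ := hs
      refine arm_win hL K hK oc_0 (by omega) (by omega) (by omega)
        (arm_even hL (xw (M := M) (L := L) (H := H) K ω) (g := 0) (r := (rr n : ℕ))
        (by omega) hr1' hrH ?_)
      intro i j hij g1 g2 g3 g4
      rcases eq_or_lt_of_le g2 with h0 | h0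
      · rw [h0, hj0] at hij
        have := Option.some.inj hij
        omega
      · exact n3 i j hij (by omega) (by omega) (by omega) (by omega)
    · left
      refine arm_win hL K hK oc_m1 (by omega) (by omega) (by omega)
        (arm_odd hL (xw (M := M) (L := L) (H := H) K ω) (g := -1) (r := (rr n : ℕ))
        (by omega) hr1' hrH ?_)
      intro i j hij g1 g2 g3 g4
      rcases lt_or_ge 0 j with h0 | h0
      · exact n3 i j hij (by omega) (by omega) (by omega) (by omega)
      · have h5 : j = 0 := by omega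
        rw [h5] at hij
        exact hs ⟨i, sgm_inv hL _ _ _ hij, by omega⟩
  · refine arm_win hL K hK (by simp [oc]) (by omega) (by omega) (by omega)
      (arm_odd hL (xw (M := M) (L := L) (H := H) K ω) (g := -1 + 2 * n) (r := (rr n : ℕ))
      (by omega) hr1' hrH ?_)
    intro i j hij g1 g2 g3 g4
    exact n2 i j hij (by omega) (by omega) (by omega) (by omega)

theorem world_Cr (hL : L = 2 * H) (K : ℕ) (hK : M = 4 * K) (hH : H = 20 * n)
    (hKn : 20 * n + 1 ≤ K) (hn : 1 ≤ n) {x1 : ℤ} (hx : 20 * (n : ℤ) < x1) (hx1 : x1 < K) {ω : TF}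
    (h : World M n (sgm (M := M) hL (xw K ω))) : ω ∈ Cr (20 * n) x1 H := by
  obtain ⟨i, j, hij, g1, g2, g3, g4⟩ := h
  have hM : (M : ℤ) = 4 * K := by rw [hK]; push_cast; ring
  obtain ⟨-, h1, -⟩ := arc_faces hL _ hij (by omega)
  rcases Int.emod_two_eq_zero_or_one i with hi | hi
  · left
    refine lx_of_path h1 hx (by simp only; omega) (by simp only; omega) (by simp only; omega) ?_
    intro t ht g5 g6
    obtain ⟨q1, q2, q3⟩ := ht
    refine ⟨by omega, q3, ?_⟩
    rw [XP_win hL K hK ω (by omega) (by omega) q2 q3] at q1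
    rw [q1]; simp [hi]
  · right
    refine lx_of_path h1 hx (by simp only; omega) (by simp only; omega) (by simp only; omega) ?_
    intro t ht g5 g6
    obtain ⟨q1, q2, q3⟩ := ht
    refine ⟨by omega, q3, ?_⟩
    rw [XP_win hL K hK ω (by omega) (by omega) q2 q3] at q1
    show (!ω t) = true
    rw [q1]; simp [hi]

end Win

end Crest.Agent.R158.Hp854
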