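import Crest.Agent.R158.Ts7_405

/-!
# R158, HP1 block: turning number of an arc of the half plane (helper405)

`arc_turn` : a strand of the upper half plane (rows `≥ 1`) from the leg `i` to the leg `j` has
turning number `-2` if `i < j` and `+2` if `j < i`.
-/

set_option autoImplicit false
set_option linter.unusedSimpArgs false
set_option linter.unnecessarySeqFocus false

namespace Crest.Agent.R158.Hr405

open Crest.Agent.R158.Bk430 (ME HasPar par vp ori hd tl kap turn)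
open Crest.Agent.R158.Ts405 (vp_int rfE rfS nx_rf T1_closed)

/-- `N` steps of the strand of `e`, ending at `e'`, turning `T`, all heads in the set `A` -/
def Go (s : ℤ × ℤ → Bool) (A : ℤ × ℤ → Prop) (e : ME ℤ ℤ) (N : ℕ) (e' : ME ℤ ℤ) (T : ℤ) : Prop :=
  (Bk430.nx s)^[N] e = e' ∧ (∑ t ∈ Finset.range N, turn s ((Bk430.nx s)^[t] e)) = T ∧
    ∀ t < N, A (hd ((Bk430.nx s)^[t] e))

theorem Go.zero (s : ℤ × ℤ → Bool) (A : ℤ × ℤ → Prop) (e : ME ℤ ℤ) : Go s A e 0 e 0 :=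
  ⟨rfl, by simp, by intro t ht; omega⟩

theorem Go.one {s : ℤ × ℤ → Bool} {A : ℤ × ℤ → Prop} {e : ME ℤ ℤ} (h : A (hd e)) :
    Go s A e 1 (Bk430.nx s e) (turn s e) := by
  refine ⟨rfl, by simp, ?_⟩
  intro t ht
  have : t = 0 := by omega
  subst this
  exact h

theorem Go.trans {s : ℤ × ℤ → Bool} {A : ℤ × ℤ → Prop} {e e' e'' : ME ℤ ℤ} {N N' : ℕ} {T T' : ℤ}
    (h : Go s A e N e' T) (h' : Go s A e' N' e'' T') : Go s A e (N + N') e'' (T + T') := by
  obtain ⟨h1, h2, h3⟩ := h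
  obtain ⟨g1, g2, g3⟩ := h'
  have key : ∀ t, (Bk430.nx s)^[N + t] e = (Bk430.nx s)^[t] e' := by
    intro t
    rw [add_comm, Function.iterate_add_apply, h1]
  refine ⟨by rw [key, g1], ?_, ?_⟩
  · rw [Finset.sum_range_add, h2, ← g2]
    congr 1
    refine Finset.sum_congr rfl fun t _ => ?_
    rw [key]
  · intro t ht
    by_cases hN : t < N
    · exact h3 t hN
    · obtain ⟨r, rfl⟩ : ∃ r, t = N + r := ⟨t - N, by omega⟩
      rw [key]
      exact g3 r (by omega)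

theorem nx_at {s s' : ℤ × ℤ → Bool} {e : ME ℤ ℤ} (h : s' (hd e) = s (hd e)) :
    Bk430.nx s' e = Bk430.nx s e := by
  unfold Bk430.nx
  rw [h]

theorem Go.congr {s s' : ℤ × ℤ → Bool} {A : ℤ × ℤ → Prop} (hss : ∀ v, A v → s' v = s v)
    {e e' : ME ℤ ℤ} {N : ℕ} {T : ℤ} (h : Go s A e N e' T) : Go s' A e N e' T := by
  obtain ⟨h1, h2, h3⟩ := h
  have key : ∀ t, t ≤ N → (Bk430.nx s')^[t] e = (Bk430.nx s)^[t] e := by
    intro t
    induction t with
    | zero => intro _; rfl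
    | succ t ih =>
      intro ht
      rw [Function.iterate_succ_apply', Function.iterate_succ_apply', ih (by omega)]
      exact nx_at (hss _ (h3 t (by omega)))
  refine ⟨by rw [key N le_rfl, h1], ?_, ?_⟩
  · rw [← h2]
    refine Finset.sum_congr rfl fun t ht => ?_
    have ht' := Finset.mem_range.1 ht
    rw [key t ht'.le]
    unfold turn kap
    rw [hss _ (h3 t ht')]
  · intro t ht
    rw [key t ht.le]
    exact h3 t ht

/-- the leg of column `i` -/
abbrev leg (i : ℤ) : ME ℤ ℤ := ((i, 0), true)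

def Up (v : ℤ × ℤ) : Prop := 1 ≤ v.2
def Dn (v : ℤ × ℤ) : Prop := v.2 ≤ 0

theorem vp_even {i j : ℤ} (h : (i + j) % 2 = 0) : vp ((i, j) : ℤ × ℤ) = false := by
  rw [vp_int]; simp; omega

theorem vp_odd {i j : ℤ} (h : (i + j) % 2 = 1) : vp ((i, j) : ℤ × ℤ) = true := by
  rw [vp_int]; simp [h]

theorem leg_odd {s : ℤ × ℤ → Bool} {i j : ℤ} {n : ℕ} (hn : 0 < n) {T : ℤ}
    (h : Go s Up (leg i) n (leg j) T) : j % 2 = 1 := by
  obtain ⟨h1, -, h3⟩ := h
  by_contra hj
  obtain ⟨n, rfl⟩ : ∃ r, n = r + 1 := ⟨n - 1, by omega⟩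
  have h4 := h3 n (by omega)
  rw [Function.iterate_succ_apply'] at h1
  have h5 := Bk430.tl_nx s ((Bk430.nx s)^[n] (leg i))
  rw [h1] at h5
  rw [← h5] at h4
  have hv : vp ((j, 0) : ℤ × ℤ) = false := vp_even (by omega)
  have : tl (leg j) = (j, 0) := by simp [tl, hv]
  rw [this] at h4
  unfold Up at h4
  simp at h4

theorem close {s s' : ℤ × ℤ → Bool} (hss : ∀ v, Up v → s' v = s v) {i j : ℤ} {n m : ℕ}
    (hn : 0 < n) {T T' : ℤ} (hi : i % 2 = 0)
    (h : Go s Up (leg i) n (leg j) T) (h' : Go s' Dn (leg j) m (leg i) T') :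
    T + T' = 4 ∨ T + T' = -4 := by
  have g := Go.congr hss h
  have hv : vp ((i, 0) : ℤ × ℤ) = false := vp_even (by omega)
  have htl : tl (leg i) = (i, 0) := by simp [tl, hv]
  have hhd : hd (leg i) = (i, 1) := by simp [hd, hv]
  have all : Go s' (fun _ => True) (leg i) (n + m) (leg i) (T + T') := by
    refine Go.trans (e' := leg j) ⟨g.1, g.2.1, fun _ _ => trivial⟩ ⟨h'.1, h'.2.1, fun _ _ => trivial⟩
  have hmin : ∀ t, 0 < t → t < n + m → (Bk430.nx s')^[t] (leg i) ≠ leg i := by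
    intro t ht1 ht2 hc
    by_cases htn : t ≤ n
    · obtain ⟨r, rfl⟩ : ∃ r, t = r + 1 := ⟨t - 1, by omega⟩
      rw [Function.iterate_succ_apply'] at hc
      have h5 := Bk430.tl_nx s' ((Bk430.nx s')^[r] (leg i))
      rw [hc, htl] at h5
      have h6 := g.2.2 r (by omega)
      rw [← h5] at h6
      unfold Up at h6
      simp at h6
    · obtain ⟨r, rfl⟩ : ∃ r, t = n + r := ⟨t - n, by omega⟩
      have h6 := h'.2.2 r (by omega)
      rw [add_comm, Function.iterate_add_apply, g.1] at hc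
      rw [hc, hhd] at h6
      unfold Dn at h6
      simp at h6
  obtain ⟨a, u, -, -, -, hcase⟩ := T1_closed s' (leg i) (n + m) (by omega) all.1 hmin
  rcases hcase with ⟨-, -, h4⟩ | ⟨-, -, h4⟩
  · left; rw [← all.2.1, h4]
  · right; rw [← all.2.1, h4]

/-! ### vertical reflection -/

/-- reflection `y ↦ 1 - y` of edges -/
def reV (e : ME ℤ ℤ) : ME ℤ ℤ := if e.2 then ((e.1.1, -e.1.2), true) else ((e.1.1, 1 - e.1.2), false)

theorem vp_re (i j : ℤ) : vp ((i, 1 - j) : ℤ × ℤ) = !vp ((i, j) : ℤ × ℤ) := by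
  rcases Int.emod_two_eq_zero_or_one (i + j) with h | h
  · rw [vp_even h, vp_odd (by omega)]; rfl
  · rw [vp_odd h, vp_even (by omega)]; rfl

theorem vp_re' (i j : ℤ) : vp ((i, -j) : ℤ × ℤ) = vp ((i, j) : ℤ × ℤ) := by
  rcases Int.emod_two_eq_zero_or_one (i + j) with h | h
  · rw [vp_even h, vp_even (by omega)]
  · rw [vp_odd h, vp_odd (by omega)]

theorem hd_re (e : ME ℤ ℤ) : hd (reV e) = ((tl e).1, 1 - (tl e).2) := by
  obtain ⟨⟨i, j⟩, c⟩ := e
  have g1 := vp_re i j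
  have g2 := vp_re' i j
  cases c <;> cases hv : vp ((i, j) : ℤ × ℤ) <;> simp [hd, tl, reV, g1, g2, hv] <;> ring

theorem tl_re (e : ME ℤ ℤ) : tl (reV e) = ((hd e).1, 1 - (hd e).2) := by
  obtain ⟨⟨i, j⟩, c⟩ := e
  have g1 := vp_re i j
  have g2 := vp_re' i j
  cases c <;> cases hv : vp ((i, j) : ℤ × ℤ) <;> simp [hd, tl, reV, g1, g2, hv] <;> ring

theorem reV_reV (e : ME ℤ ℤ) : reV (reV e) = e := by
  obtain ⟨⟨i, j⟩, c⟩ := e
  cases c <;> simp [reV]

/-- one step of the reflected reversed strand -/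
theorem nx_re {s s' : ℤ × ℤ → Bool} {e : ME ℤ ℤ}
    (h : s' ((hd e).1, 1 - (hd e).2) = !s (hd e)) :
    Bk430.nx s' (reV (Bk430.nx s e)) = reV e ∧ turn s' (reV (Bk430.nx s e)) = turn s e := by
  have h1 : hd (reV (Bk430.nx s e)) = ((hd e).1, 1 - (hd e).2) := by
    rw [hd_re, Bk430.tl_nx]
  have hvh : vp ((hd e).1, 1 - (hd e).2) = !vp (hd e) := vp_re _ _
  constructor
  · have key : ∀ b, Bk430.nx s' (reV (Bk430.nx s e)) = b ↔ reV (Bk430.nx s e) = Bk430.px s' b := by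
      intro b
      constructor
      · intro h; rw [← h, Bk430.px_nx]
      · intro h; rw [h, Bk430.nx_px]
    rw [key]
    obtain ⟨⟨i, j⟩, c⟩ := e
    have g1 := vp_re i j
    have g2 := vp_re' i j
    cases c <;> cases hv : vp ((i, j) : ℤ × ℤ)
    · have hh : hd (((i, j), false) : ME ℤ ℤ) = (i, j) := by simp [hd, hv]
      rw [hh] at h
      simp only at h
      cases hs : s (i, j)
      · rw [hs] at h
        simp [Bk430.nx, Bk430.px, reV, hh, hs, hv, tl, g1, h]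
      · rw [hs] at h
        simp [Bk430.nx, Bk430.px, reV, hh, hs, hv, tl, g1, h]
    · have hh : hd (((i, j), false) : ME ℤ ℤ) = (i + 1, j) := by simp [hd, hv]
      rw [hh] at h
      simp only at h
      cases hs : s (i + 1, j)
      · rw [hs] at h
        simp [Bk430.nx, Bk430.px, reV, hh, hs, hv, tl, g1, h]
      · rw [hs] at h
        simp [Bk430.nx, Bk430.px, reV, hh, hs, hv, tl, g1, h]
    · have hh : hd (((i, j), true) : ME ℤ ℤ) = (i, j + 1) := by simp [hd, hv]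
      rw [hh] at h
      simp only at h
      have e1 : 1 - (j + 1) = -j := by ring
      rw [e1] at h
      cases hs : s (i, j + 1)
      · rw [hs] at h
        simp [Bk430.nx, Bk430.px, reV, hh, hs, hv, tl, g2, h]
      · rw [hs] at h
        simp [Bk430.nx, Bk430.px, reV, hh, hs, hv, tl, g2, h]
    · have hh : hd (((i, j), true) : ME ℤ ℤ) = (i, j) := by simp [hd, hv]
      rw [hh] at h
      simp only at h
      have e1 : 1 - j = -j + 1 := by ring
      rw [e1] at h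
      cases hs : s (i, j)
      · rw [hs] at h
        simp [Bk430.nx, Bk430.px, reV, hh, hs, hv, tl, g2, h, e1]
      · rw [hs] at h
        simp [Bk430.nx, Bk430.px, reV, hh, hs, hv, tl, g2, h, e1]
  · unfold turn kap
    rw [h1, h, hvh]
    cases s (hd e) <;> cases vp (hd e) <;> simp

theorem refl_go {s s' : ℤ × ℤ → Bool} (h : ∀ v, Up v → s' (v.1, 1 - v.2) = !s v)
    {e e' : ME ℤ ℤ} {N : ℕ} {T : ℤ} (hg : Go s Up e N e' T) : Go s' Dn (reV e') N (reV e) T := by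
  induction N generalizing e' T with
  | zero =>
    obtain ⟨h1, h2, -⟩ := hg
    simp at h1 h2
    subst h1 h2
    exact Go.zero _ _ _
  | succ N ih =>
    obtain ⟨h1, h2, h3⟩ := hg
    have g1 : Go s Up e N ((Bk430.nx s)^[N] e)
        (∑ t ∈ Finset.range N, turn s ((Bk430.nx s)^[t] e)) :=
      ⟨rfl, rfl, fun t ht => h3 t (by omega)⟩
    have g2 := ih g1
    have g3 := h3 N (by omega)
    have g4 := nx_re (h _ g3)
    rw [Function.iterate_succ_apply'] at h1
    rw [h1] at g4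
    have g5 : Go s' Dn (reV e') 1 (reV ((Bk430.nx s)^[N] e)) (turn s ((Bk430.nx s)^[N] e)) := by
      rw [← g4.1, ← g4.2]
      refine Go.one ?_
      rw [hd_re, ← h1, Bk430.tl_nx]
      unfold Dn Up at *
      simp only
      omega
    have g6 := Go.trans g5 g2
    rw [Finset.sum_range_succ] at h2
    rw [show N + 1 = 1 + N by omega, ← h2, add_comm (∑ t ∈ Finset.range N, _)]
    exact g6

theorem turn_pm2 {s : ℤ × ℤ → Bool} {i j : ℤ} {n : ℕ} (hn : 0 < n) {T : ℤ} (hi : i % 2 = 0)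
    (h : Go s Up (leg i) n (leg j) T) : T = 2 ∨ T = -2 := by
  let s' : ℤ × ℤ → Bool := fun v => if 1 ≤ v.2 then s v else !s (v.1, 1 - v.2)
  have h1 : ∀ v, Up v → s' v = s v := by
    intro v hv
    have : 1 ≤ v.2 := hv
    simp [s', this]
  have h2 : ∀ v, Up v → s' (v.1, 1 - v.2) = !s v := by
    intro v hv
    have hv' : 1 ≤ v.2 := hv
    have : ¬ (1 : ℤ) ≤ 1 - v.2 := by omega
    simp [s', this]
  have h3 := refl_go h2 h
  have e1 : reV (leg j) = leg j := by simp [reV, leg]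
  have e2 : reV (leg i) = leg i := by simp [reV, leg]
  rw [e1, e2] at h3
  rcases close h1 hn hi h h3 with h4 | h4
  · left; omega
  · right; omega

/-! ### rainbow -/

theorem go_step {s : ℤ × ℤ → Bool} {A : ℤ × ℤ → Prop} {e e' : ME ℤ ℤ} {T : ℤ} (h : A (hd e))
    (h1 : Bk430.nx s e = e') (h2 : turn s e = T) : Go s A e 1 e' T := by
  subst h1 h2
  exact Go.one h

/-- down-left staircase -/
theorem stair_down {s : ℤ × ℤ → Bool} {c : ℤ} (hs : ∀ x y : ℤ, y ≤ 0 → s (x, y) = decide (x ≤ c))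
    {j : ℤ} (hj : j % 2 = 1) (k : ℕ) (hk : c + 1 ≤ j - k) :
    Go s Dn (leg j) (2 * k) ((j - k, -(k : ℤ)), true) 0 := by
  induction k with
  | zero =>
    have : ((j - ((0 : ℕ) : ℤ), -((0 : ℕ) : ℤ)), true) = leg j := by simp [leg]
    rw [this]
    exact Go.zero _ _ _
  | succ k ih =>
    have ih' := ih (by push_cast at hk; omega)
    push_cast at hk ⊢
    have v1 : vp ((j - (k : ℤ), -(k : ℤ)) : ℤ × ℤ) = true := vp_odd (by omega)
    have v2 : vp ((j - (k : ℤ) - 1, -(k : ℤ)) : ℤ × ℤ) = false := vp_even (by omega)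
    have s1 : s (j - (k : ℤ), -(k : ℤ)) = false := by rw [hs _ _ (by omega)]; simp; omega
    have s2 : s (j - (k : ℤ) - 1, -(k : ℤ)) = false := by rw [hs _ _ (by omega)]; simp; omega
    have g1 : Go s Dn ((j - (k : ℤ), -(k : ℤ)), true) 1 ((j - (k : ℤ) - 1, -(k : ℤ)), false) (-1) := by
      refine go_step ?_ ?_ ?_
      · simp [Dn, hd, v1]
      · simp [Bk430.nx, hd, v1, s1]
      · simp [turn, kap, hd, v1, s1]
    have g2 : Go s Dn ((j - (k : ℤ) - 1, -(k : ℤ)), false) 1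
        ((j - (k : ℤ) - 1, -(k : ℤ) - 1), true) 1 := by
      refine go_step ?_ ?_ ?_
      · simp [Dn, hd, v2]
      · simp [Bk430.nx, hd, v2, s2]
      · simp [turn, kap, hd, v2, s2]
    have g3 := Go.trans ih' (Go.trans g1 g2)
    have e1 : 2 * (k + 1) = 2 * k + (1 + 1) := by ring
    have e2 : j - ((k : ℤ) + 1) = j - k - 1 := by ring
    have e3 : -((k : ℤ) + 1) = -k - 1 := by ring
    rw [e1, e2, e3]
    simpa using g3

/-- up-left staircase -/
theorem stair_up {s : ℤ × ℤ → Bool} {c : ℤ} (hs : ∀ x y : ℤ, y ≤ 0 → s (x, y) = decide (x ≤ c))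
    {y0 : ℤ} (hy : (c + y0) % 2 = 0) (k : ℕ) (hk : y0 + k ≤ 0) :
    Go s Dn ((c, y0), true) (2 * k) ((c - k, y0 + k), true) 0 := by
  induction k with
  | zero =>
    have : ((c - ((0 : ℕ) : ℤ), y0 + ((0 : ℕ) : ℤ)), true) = (((c, y0), true) : ME ℤ ℤ) := by simp
    rw [this]
    exact Go.zero _ _ _
  | succ k ih =>
    have ih' := ih (by push_cast at hk; omega)
    push_cast at hk ⊢
    have v1 : vp ((c - (k : ℤ), y0 + (k : ℤ)) : ℤ × ℤ) = false := vp_even (by omega)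
    have v2 : vp ((c - (k : ℤ), y0 + (k : ℤ) + 1) : ℤ × ℤ) = true := vp_odd (by omega)
    have v3 : vp ((c - (k : ℤ) - 1, y0 + (k : ℤ) + 1) : ℤ × ℤ) = false := vp_even (by omega)
    have s1 : s (c - (k : ℤ), y0 + (k : ℤ) + 1) = true := by rw [hs _ _ (by omega)]; simp
    have s2 : s (c - (k : ℤ) - 1, y0 + (k : ℤ) + 1) = true := by rw [hs _ _ (by omega)]; simp; omega
    have g1 : Go s Dn ((c - (k : ℤ), y0 + (k : ℤ)), true) 1
        ((c - (k : ℤ) - 1, y0 + (k : ℤ) + 1), false) 1 := by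
      refine go_step ?_ ?_ ?_
      · simp [Dn, hd, v1]; omega
      · simp [Bk430.nx, hd, v1, s1]
      · simp [turn, kap, hd, v1, v2, s1]
    have g2 : Go s Dn ((c - (k : ℤ) - 1, y0 + (k : ℤ) + 1), false) 1
        ((c - (k : ℤ) - 1, y0 + (k : ℤ) + 1), true) (-1) := by
      refine go_step ?_ ?_ ?_
      · simp [Dn, hd, v3]; omega
      · simp [Bk430.nx, hd, v3, s2]
      · simp [turn, kap, hd, v3, s2]
    have g3 := Go.trans ih' (Go.trans g1 g2)
    have e1 : 2 * (k + 1) = 2 * k + (1 + 1) := by ring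
    have e2 : c - ((k : ℤ) + 1) = c - k - 1 := by ring
    have e3 : y0 + ((k : ℤ) + 1) = y0 + k + 1 := by ring
    rw [e1, e2, e3]
    simpa using g3

theorem rainbow {s : ℤ × ℤ → Bool} {c : ℤ} (hs : ∀ x y : ℤ, y ≤ 0 → s (x, y) = decide (x ≤ c))
    {i j : ℤ} (hj : j % 2 = 1) (hc : i + j = 2 * c + 1) (hij : i < j) :
    ∃ m, Go s Dn (leg j) m (leg i) (-2) := by
  obtain ⟨m, hm⟩ : ∃ m : ℕ, j - m = c + 1 := ⟨(j - c - 1).toNat, by omega⟩
  have g1 := stair_down hs hj m (by omega)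
  rw [hm] at g1
  have v1 : vp ((c + 1, -(m : ℤ)) : ℤ × ℤ) = true := vp_odd (by omega)
  have v2 : vp ((c, -(m : ℤ)) : ℤ × ℤ) = false := vp_even (by omega)
  have s1 : s (c + 1, -(m : ℤ)) = false := by rw [hs _ _ (by omega)]; simp
  have s2 : s (c, -(m : ℤ)) = true := by rw [hs _ _ (by omega)]; simp
  have g2 : Go s Dn ((c + 1, -(m : ℤ)), true) 1 ((c, -(m : ℤ)), false) (-1) := by
    refine go_step ?_ ?_ ?_
    · simp [Dn, hd, v1]
    · simp [Bk430.nx, hd, v1, s1]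
    · simp [turn, kap, hd, v1, s1]
  have g3 : Go s Dn ((c, -(m : ℤ)), false) 1 ((c, -(m : ℤ)), true) (-1) := by
    refine go_step ?_ ?_ ?_
    · simp [Dn, hd, v2]
    · simp [Bk430.nx, hd, v2, s2]
    · simp [turn, kap, hd, v2, s2]
  have g4 := stair_up hs (y0 := -(m : ℤ)) (by omega) m (by omega)
  have e1 : (((c - (m : ℤ), -(m : ℤ) + m), true) : ME ℤ ℤ) = leg i := by
    simp only [leg, Prod.mk.injEq, and_true]
    constructor <;> omega
  rw [e1] at g4
  have g5 := Go.trans g1 (Go.trans g2 (Go.trans g3 g4))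
  exact ⟨_, by simpa using g5⟩

theorem arc_lt {s : ℤ × ℤ → Bool} {i j : ℤ} {n : ℕ} (hn : 0 < n) {T : ℤ} (hi : i % 2 = 0)
    (h : Go s Up (leg i) n (leg j) T) (hij : i < j) : T = -2 := by
  have hj := leg_odd hn h
  obtain ⟨c, hc⟩ : ∃ c, i + j = 2 * c + 1 := ⟨(i + j) / 2, by omega⟩
  let s' : ℤ × ℤ → Bool := fun v => if 1 ≤ v.2 then s v else decide (v.1 ≤ c)
  have h1 : ∀ v, Up v → s' v = s v := by
    intro v hv
    have : 1 ≤ v.2 := hv
    simp [s', this]
  have h2 : ∀ x y : ℤ, y ≤ 0 → s' (x, y) = decide (x ≤ c) := by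
    intro x y hy
    have : ¬ (1 : ℤ) ≤ y := by omega
    simp [s', this]
  obtain ⟨m, h3⟩ := rainbow h2 hj hc hij
  have h4 := close h1 hn hi h h3
  have h5 := turn_pm2 hn hi h
  omega

theorem hd_rf (e : ME ℤ ℤ) : hd (rfE e) = (-(hd e).1, (hd e).2) := by
  obtain ⟨⟨i, j⟩, c⟩ := e
  have g1 := Ts405.vp_rf i j
  have g2 := Ts405.vp_rf' i j
  cases c <;> cases hv : vp ((i, j) : ℤ × ℤ) <;> simp [hd, rfE, g1, g2, hv] <;> ring

theorem rf_go {s : ℤ × ℤ → Bool} {e e' : ME ℤ ℤ} {N : ℕ} {T : ℤ} (h : Go s Up e N e' T) :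
    Go (rfS s) Up (rfE e) N (rfE e') (-T) := by
  obtain ⟨h1, h2, h3⟩ := h
  have key : ∀ t, (Bk430.nx (rfS s))^[t] (rfE e) = rfE ((Bk430.nx s)^[t] e) := by
    intro t
    induction t with
    | zero => rfl
    | succ t ih => rw [Function.iterate_succ_apply', Function.iterate_succ_apply', ih, (nx_rf s _).1]
  refine ⟨by rw [key, h1], ?_, ?_⟩
  · rw [← h2, ← Finset.sum_neg_distrib]
    refine Finset.sum_congr rfl fun t _ => ?_
    rw [key, (nx_rf s _).2]
  · intro t ht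
    rw [key, hd_rf]
    exact h3 t ht

theorem arc_gt {s : ℤ × ℤ → Bool} {i j : ℤ} {n : ℕ} (hn : 0 < n) {T : ℤ} (hi : i % 2 = 0)
    (h : Go s Up (leg i) n (leg j) T) (hij : j < i) : T = 2 := by
  have h1 := rf_go h
  have e1 : rfE (leg i) = leg (-i) := by simp [rfE, leg]
  have e2 : rfE (leg j) = leg (-j) := by simp [rfE, leg]
  rw [e1, e2] at h1
  have := arc_lt hn (by omega) h1 (by omega)
  omega

/-- **J1**: turning number of an arc of the half plane -/
theorem arc_turn (s : ℤ × ℤ → Bool) (i j : ℤ) (n : ℕ) (hn : 0 < n) (hi : i % 2 = 0)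
    (h : (Bk430.nx s)^[n] ((i, 0), true) = ((j, 0), true))
    (hup : ∀ t < n, 1 ≤ (hd ((Bk430.nx s)^[t] ((i, 0), true))).2) :
    j % 2 = 1 ∧
    (i < j → ∑ t ∈ Finset.range n, turn s ((Bk430.nx s)^[t] ((i, 0), true)) = -2) ∧
    (j < i → ∑ t ∈ Finset.range n, turn s ((Bk430.nx s)^[t] ((i, 0), true)) = 2) := by
  have hg : Go s Up (leg i) n (leg j)
      (∑ t ∈ Finset.range n, turn s ((Bk430.nx s)^[t] ((i, 0), true))) := ⟨h, rfl, hup⟩
  exact ⟨leg_odd hn hg, fun hij => arc_lt hn hi hg hij, fun hij => arc_gt hn hi hg hij⟩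

end Crest.Agent.R158.Hr405
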