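import Mathlib
import Crest.Agent.R158.Hp13_854
import Crest.Agent.R158.Hr1_405

/-!
# R158, block HP1 (helper854), part 14: `HP1in` from the arrow reversal identity and the bound
`nring ≤ LR` (helper405)
-/

set_option autoImplicit false
set_option linter.unusedSectionVars false
set_option linter.unusedSimpArgs false
set_option linter.unusedVariables false

noncomputable section

namespace Crest.Agent.R158.Hp854

open MeasureTheory unitInterval Finset
open Crest.Agent.R158.Bk430 (ME HasPar par vp)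
open Crest.Agent.R158.Rs689 Crest.Agent.R158.Mr679 Crest.Agent.R158.Fl440
open Crest.Agent.R161.Geo729
open Crest.Agent.R158.Nm211 (LR KK Dl Yl Xl DepF)

theorem arcTurn : ArcTurn := fun s i j n hn hi h hup =>
  (Crest.Agent.R158.Hr405.arc_turn s i j n hn hi h hup).2

/-- the number of ring loops is at most the number of strands through half of the ring (helper405) -/
def NringLR : Prop := ∀ (M L H : ℕ) [NeZero M] [NeZero L] [Fact (Even M)] [Fact (Even L)]
  (hL : L = 2 * H), 3 ≤ M → ∀ (x : Ct M L H → Bool) (τ : ZMod M),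
  nring hL x ≤ LR M 1 H (fun v : ZMod M × ℤ => sx hL x (v.1 + τ, (v.2 : ZMod L)))

section Shift

variable {M L H : ℕ} [NeZero M] [NeZero L] [Fact (Even M)] [Fact (Even L)]

/-- the shifted splitting of a tile field -/
def st (hL : L = 2 * H) (K : ℕ) (ω : TF) (v : ZMod M × ℤ) : Bool :=
  sx (M := M) hL (xw K ω) (v.1 + ((K - 1 : ℕ) : ZMod M), (v.2 : ZMod L))

/-- position in the window -/
def gt (K : ℕ) (v : ZMod M × ℤ) : ℤ × ℤ := ((v.1.val : ℤ) + K - 1, v.2)

/-- parity twist -/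
def ft (L K : ℕ) [NeZero L] [Fact (Even L)] (v : ZMod M × ℤ) : Bool :=
  !(vp (v.1 + ((K - 1 : ℕ) : ZMod M), (v.2 : ZMod L)))

theorem st_eq (hL : L = 2 * H) (K : ℕ) (hK : M = 4 * K) (hK1 : 1 ≤ K) (ω : TF) {v : ZMod M × ℤ}
    (h1 : 1 ≤ v.1.val) (h2 : v.1.val ≤ M / 2) (h3 : 1 ≤ v.2) (h4 : v.2 < 1 + H) :
    st hL K ω v = xor (ft L K v) (ω (gt K v)) := by
  obtain ⟨a, y⟩ := v
  simp only at h1 h2 h3 h4
  have hM2 : M / 2 = 2 * K := by omega
  have hy : (((y : ZMod L)).val : ℤ) = y := by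
    rw [ZMod.val_intCast, Int.emod_eq_of_lt (by omega) (by rw [hL]; push_cast; omega)]
  have hτ : (((K - 1 : ℕ) : ZMod M)).val = K - 1 := ZMod.val_cast_of_lt (by omega)
  have hcol : (a + ((K - 1 : ℕ) : ZMod M)).val = a.val + (K - 1) := by
    rw [ZMod.val_add_of_lt, hτ]
    rw [hτ]; omega
  have hin : InC M L H (a + ((K - 1 : ℕ) : ZMod M), (y : ZMod L)) := by
    unfold InC
    simp only
    omega
  unfold st sx spx Xt
  rw [dif_pos hin]
  unfold xw ft gt wn
  simp only [hcol, hy]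
  rw [if_pos (by omega)]
  have e1 : ((a.val + (K - 1) : ℕ) : ℤ) = (a.val : ℤ) + K - 1 := by omega
  rw [e1]
  cases vp (a + ((K - 1 : ℕ) : ZMod M), (y : ZMod L)) <;> cases ω ((a.val : ℤ) + K - 1, y) <;> rfl

theorem lr_eq (hL : L = 2 * H) (K : ℕ) (hK : M = 4 * K) (hK1 : 1 ≤ K) (ω : TF) :
    LR M 1 H (st hL K ω) = LR M 1 H (fun v => xor (ft L K v) (ω (gt K v))) := by
  unfold LR
  exact Nm211.gen_dep fun c hc => st_eq hL K hK hK1 ω hc.1.1 hc.1.2 hc.2.1 hc.2.2

/-- the states of the half ring -/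
def Th (M H : ℕ) [NeZero M] : Finset (ZMod M × ℤ) :=
  (Finset.univ.filter fun a : ZMod M => 1 ≤ a.val ∧ a.val ≤ M / 2) ×ˢ Finset.Ico 1 (1 + (H : ℤ))

theorem lr_dep {s s' : ZMod M × ℤ → Bool} (h : ∀ v ∈ Th M H, s v = s' v) :
    LR M 1 H s = LR M 1 H s' := by
  unfold LR
  refine Nm211.gen_dep fun c hc => h _ ?_
  unfold Th
  rw [Finset.mem_product, Finset.mem_filter, Finset.mem_Ico]
  exact ⟨⟨Finset.mem_univ _, hc.1⟩, hc.2⟩

theorem lr_int (hL : L = 2 * H) (K : ℕ) (hK : M = 4 * K) (hK1 : 1 ≤ K) :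
    ∫ ω, (2 : ℝ) ^ LR M 1 H (st hL K ω) ∂(tau hf) =
      ∫ s, (2 : ℝ) ^ LR M 1 H s ∂(PB fun _ : ZMod M × ℤ => hf) := by
  have h1 := Nm211.integral_transport (ι := P2) (κ := ZMod M × ℤ) (T := Th M H) (g := gt K)
    (by
      intro v _ v' _ h
      obtain ⟨a, y⟩ := v
      obtain ⟨a', y'⟩ := v'
      unfold gt at h
      simp only [Prod.mk.injEq] at h
      have e1 : a.val = a'.val := by omega
      rw [ZMod.val_injective _ e1, h.2]) (ft L K) (f := fun s => (2 : ℝ) ^ LR M 1 H s)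
    (fun s s' hs => by
      show (2 : ℝ) ^ LR M 1 H s = (2 : ℝ) ^ LR M 1 H s'
      rw [lr_dep hs])
  rw [← h1]
  refine integral_congr_ae (ae_of_all _ fun ω => ?_)
  simp only
  rw [lr_eq hL K hK hK1]

theorem lr_loc (hL : L = 2 * H) (K : ℕ) (hK : M = 4 * K) (hK1 : 1 ≤ K) {ω ω' : TF}
    (h : ∀ t ∈ bxF ((K : ℤ) - 1) (3 * K - 1) 0 H, ω t = ω' t) :
    LR M 1 H (st hL K ω) = LR M 1 H (st hL K ω') := by
  rw [lr_eq hL K hK hK1, lr_eq hL K hK hK1]
  refine lr_dep fun v hv => ?_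
  unfold Th at hv
  rw [Finset.mem_product, Finset.mem_filter, Finset.mem_Ico] at hv
  obtain ⟨⟨-, g1, g2⟩, g3, g4⟩ := hv
  have hM2 : M / 2 = 2 * K := by omega
  rw [h]
  rw [mem_bxF]
  unfold gt InB
  simp only
  omega

/-- functions of the cylinder field depend on finitely many tiles -/
theorem cyl_dep (K : ℕ) (f : (Ct M L H → Bool) → ℝ) :
    DepF (Finset.univ.image fun v : Ct M L H => wn K v.1) (fun ω : TF => f (xw K ω)) := by
  intro z z' hz
  show f (xw K z) = f (xw K z')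
  congr 1
  funext v
  exact hz _ (Finset.mem_image_of_mem _ (Finset.mem_univ v))

open Classical in
/-- comparison of one term of the inequality -/
theorem term_le (hL : L = 2 * H) (K : ℕ) (hK : M = 4 * K) (hK1 : 1 ≤ K) (hJ : NringLR) (hM : 3 ≤ M)
    (p : (Ct M L H → Bool) → Prop) {E : Set TF} {S : Finset P2} (hE : Dep S E)
    (hp : ∀ ω, p (xw K ω) → ω ∈ E) :
    (1 / 2) ^ Fintype.card (Ct M L H) * ∑ x with p x, (2 : ℝ) ^ nring hL x ≤
      ∫ ω in E, (2 : ℝ) ^ LR M 1 H (st hL K ω) ∂(tau hf) := by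
  rw [Finset.sum_filter]
  have h1 := int_cyl (M := M) (L := L) (H := H) K hK (fun x => if p x then (2 : ℝ) ^ nring hL x else 0)
  have h1' : (1 / 2) ^ Fintype.card (Ct M L H) * ∑ x : Ct M L H → Bool,
      (if p x then (2 : ℝ) ^ nring hL x else 0) =
      ∫ ω, (if p (xw K ω) then (2 : ℝ) ^ nring hL (xw (M := M) (L := L) (H := H) K ω) else 0)
        ∂(tau hf) := by
    rw [h1]
  rw [h1', ← integral_indicator hE.measurableSet]
  refine integral_mono ?_ ?_ ?_
  · exact (cyl_dep K (fun x => if p x then (2 : ℝ) ^ nring hL x else 0)).integrable (fun _ : P2 => hf)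
  · refine Nm211.DepF.integrable (S := S ∪ bxF ((K : ℤ) - 1) (3 * K - 1) 0 H) ?_ (fun _ : P2 => hf)
    intro z z' hz
    have e1 : z ∈ E ↔ z' ∈ E := hE z z' fun e he => hz e (Finset.mem_union_left _ he)
    have e2 := lr_loc (M := M) hL K hK hK1 (ω := z) (ω' := z')
      fun t ht => hz t (Finset.mem_union_right _ ht)
    show E.indicator _ z = E.indicator _ z'
    by_cases hz1 : z ∈ E
    · rw [Set.indicator_of_mem hz1, Set.indicator_of_mem (e1.1 hz1), e2]
    · rw [Set.indicator_of_notMem hz1, Set.indicator_of_notMem (fun h => hz1 (e1.2 h))]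
  · intro ω
    simp only
    split_ifs with hpω
    · rw [Set.indicator_of_mem (hp ω hpω)]
      refine pow_le_pow_right₀ (by norm_num) ?_
      exact hJ M L H hL hM (xw K ω) _
    · exact Set.indicator_nonneg (fun _ _ => by positivity) _

theorem J3_dep (n : ℕ) : Dep (bxF (-1 - (20 * n : ℤ)) (-1 + (20 * n : ℤ)) 0 (20 * n)) (J3 n) := by
  intro X X' h
  have h' : ∀ t ∈ bxF (-1 - (20 * n : ℤ)) (-1 + (20 * n : ℤ)) 0 (20 * n), X' t = X t :=
    fun t ht => (h t ht).symm
  constructor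
  · rintro ⟨h1, h2⟩
    exact ⟨h1.mono (OT_congr h), h2.mono (OT_congr h)⟩
  · rintro ⟨h1, h2⟩
    exact ⟨h1.mono (OT_congr h'), h2.mono (OT_congr h')⟩

theorem E1_ex (n : ℕ) : ∃ S, Dep S (E1 n) :=
  ⟨_, ((AT_dep (-1) n).mono (Finset.subset_union_left)).inter
    ((AT_dep 0 n).mono (Finset.subset_union_right))⟩

theorem Dep.ex_inter {S T : Finset P2} {A B : Set TF} (hA : Dep S A) (hB : Dep T B) :
    ∃ U, Dep U (A ∩ B) :=
  ⟨S ∪ T, (hA.mono Finset.subset_union_left).inter (hB.mono Finset.subset_union_right)⟩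

theorem Dep.ex_union {S T : Finset P2} {A B : Set TF} (hA : Dep S A) (hB : Dep T B) :
    ∃ U, Dep U (A ∪ B) :=
  ⟨S ∪ T, (hA.mono Finset.subset_union_left).union (hB.mono Finset.subset_union_right)⟩

theorem Cr_ex (x0 x1 y : ℤ) : ∃ U, Dep U (Cr x0 x1 y) := by
  have h2 : Dep (bxF x0 x1 0 y) {X : TF | (fun t => !X t) ∈ LX 1 x0 x1 0 y} := by
    intro X X' h
    exact lx_dep 1 x0 x1 0 y (fun t => !X t) (fun t => !X' t) fun t ht => by
      show (!X t) = !X' t
      rw [h t ht]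
  exact Dep.ex_union (lx_dep 0 x0 x1 0 y) h2

theorem E2_ex (n : ℕ) : ∃ S, Dep S (E2 n) := by
  obtain ⟨U1, h1⟩ := Dep.ex_union (AT_dep (-1) (rr n)) (AT_dep 0 (rr n))
  obtain ⟨U2, h2⟩ := Dep.ex_inter (AT_dep (-1 - 2 * n) (rr n)) h1
  exact Dep.ex_inter h2 (AT_dep (-1 + 2 * n) (rr n))

/-- the inequality on one cylinder -/
theorem main_ineq (hJ : NringLR) (hL : L = 2 * H) (K : ℕ) (hK : M = 4 * K) {n : ℕ} (hH : H = 20 * n)
    (hKn : 40 * n ≤ K) (hn : 2 ≤ n) {x1 : ℤ} (hx : 20 * (n : ℤ) < x1) (hx1 : x1 < K) :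
    (tau hf).real (J3 n) ≤ ∫ X in E1 n, (2 : ℝ) ^ LR M 1 H (st hL K X) ∂(tau hf) +
      ∫ X in E2 n ∩ Cr (20 * n) x1 (20 * n), (2 : ℝ) ^ LR M 1 H (st hL K X) ∂(tau hf) := by
  classical
  have hM3 : 3 ≤ M := by omega
  have hK1 : 1 ≤ K := by omega
  have hMn : 8 * n ≤ M := by omega
  set P : ℝ := (1 / 2) ^ Fintype.card (Ct M L H) with hP
  have hP0 : 0 ≤ P := by positivity
  have hARI := ari (M := M) (L := L) (H := H) arcTurn hL n
  have key := ari_ineq (M := M) (k := n) (by omega) hMn (Finset.univ : Finset (Ct M L H → Bool))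
    (fun _ => P) (fun _ _ => hP0) (fun x => sgm hL x) (fun x _ => pat hL x) (fun x => nring hL x)
    (by rw [← Finset.mul_sum, ← Finset.mul_sum, hARI])
  simp only [← Finset.mul_sum] at key
  -- left side
  have hleft : (tau hf).real (J3 n) ≤
      P * ∑ x : Ct M L H → Bool with GoodLoc n (sgm hL x), (2 : ℝ) ^ nring hL x := by
    rw [Finset.sum_filter]
    have h1 := int_cyl (M := M) (L := L) (H := H) K hK
      (fun x => if GoodLoc n (sgm hL x) then (2 : ℝ) ^ nring hL x else 0)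
    have h1' : P * ∑ x : Ct M L H → Bool,
        (if GoodLoc n (sgm hL x) then (2 : ℝ) ^ nring hL x else 0) =
        ∫ ω, (if GoodLoc n (sgm (M := M) hL (xw K ω)) then
          (2 : ℝ) ^ nring hL (xw (M := M) (L := L) (H := H) K ω) else 0) ∂(tau hf) := by
      rw [h1]
    rw [h1']
    have h2 : (tau hf).real (J3 n) = ∫ ω, (J3 n).indicator (fun _ => (1 : ℝ)) ω ∂(tau hf) := by
      rw [integral_indicator_const _ (J3_dep n).measurableSet]
      simp
    rw [h2]
    refine integral_mono ?_ ?_ ?_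
    · refine Nm211.DepF.integrable (S := bxF (-1 - (20 * n : ℤ)) (-1 + (20 * n : ℤ)) 0 (20 * n)) ?_
        (fun _ : P2 => hf)
      intro z z' hz
      have e1 : z ∈ J3 n ↔ z' ∈ J3 n := J3_dep n z z' hz
      show (J3 n).indicator _ z = (J3 n).indicator _ z'
      by_cases hz1 : z ∈ J3 n
      · rw [Set.indicator_of_mem hz1, Set.indicator_of_mem (e1.1 hz1)]
      · rw [Set.indicator_of_notMem hz1, Set.indicator_of_notMem (fun h => hz1 (e1.2 h))]
    · exact (cyl_dep K (fun x => if GoodLoc n (sgm hL x) then (2 : ℝ) ^ nring hL x else 0)).integrable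
        (fun _ : P2 => hf)
    · intro ω
      by_cases hω : ω ∈ J3 n
      · rw [Set.indicator_of_mem hω]
        simp only
        rw [if_pos (j3_good hL K hK hH (by omega) (by omega) hω)]
        exact one_le_pow₀ (by norm_num)
      · rw [Set.indicator_of_notMem hω]
        simp only
        split_ifs
        · positivity
        · exact le_rfl
  obtain ⟨S1, hS1⟩ := E1_ex n
  obtain ⟨S2, hS2⟩ := E2_ex n
  obtain ⟨S3, hS3⟩ := Cr_ex (20 * n) x1 (20 * n)
  obtain ⟨S4, hS4⟩ := Dep.ex_inter hS2 hS3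
  have t1 := term_le (M := M) hL K hK hK1 hJ hM3 (fun x => Leave n (sgm hL x)) hS1
    (fun ω hω => leave_E1 hL K hK hH (by omega) (by omega) hω)
  have t2 := term_le (M := M) hL K hK hK1 hJ hM3
    (fun x => NoLoc n (sgm hL x) ∧ World M n (sgm hL x)) hS4
    (fun ω hω => ⟨noloc_E2 hL K hK hH (by omega) hn hω.1, by
      have := world_Cr hL K hK hH (by omega) (by omega) hx hx1 hω.2
      rw [hH] at this
      push_cast at this
      exact this⟩)
  refine hleft.trans (key.trans (add_le_add ?_ ?_))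
  · refine le_trans (le_of_eq ?_) t1
    congr 1
  · refine le_trans (le_of_eq ?_) t2
    congr 1
    refine Finset.sum_congr ?_ fun _ _ => rfl
    ext x
    simp only [Finset.mem_filter]

end Shift

/-- **HP1in** -/
theorem hp1in (hJ : NringLR) : HP1in := by
  obtain ⟨CL, hCL, hC⟩ := Nm211.loop_moment 2 (by norm_num) 1
  refine ⟨CL, hCL, fun R n hR hn => ?_⟩
  set K : ℕ := 20 * n * (R + 2) with hK
  have hKn : 40 * n ≤ K := by rw [hK]; nlinarith
  have hKR : 20 * n + R * (20 * n) + 1 ≤ K := by rw [hK]; nlinarith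
  have : NeZero (4 * K) := ⟨by omega⟩
  have : NeZero (2 * (20 * n)) := ⟨by omega⟩
  have : Fact (Even (4 * K)) := ⟨⟨2 * K, by ring⟩⟩
  have : Fact (Even (2 * (20 * n))) := ⟨⟨20 * n, by ring⟩⟩
  have hL : 2 * (20 * n) = 2 * (20 * n) := rfl
  refine ⟨fun X => LR (4 * K) 1 (20 * n) (st hL K X), 20 * n, K - 1, K - 1, 3 * K - 1, le_rfl, ?_,
    le_rfl, ?_, ?_, ?_⟩
  · have : ((20 * n + R * (20 * n) + 1 : ℕ) : ℤ) ≤ K := by exact_mod_cast hKR
    push_cast at this
    omega
  · intro X X' h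
    refine lr_loc hL K rfl (by omega) fun t ht => h t ?_
    push_cast at ht
    exact ht
  · rw [lr_int hL K rfl (by omega)]
    exact hC (4 * K) (by omega) 1 (20 * n) (by omega)
  · refine main_ineq hJ hL K rfl rfl hKn hn ?_ (by omega)
    have : ((20 * n + R * (20 * n) + 1 : ℕ) : ℤ) ≤ K := by exact_mod_cast hKR
    push_cast at this
    have h2 : (0 : ℤ) < R * (20 * n) := by positivity
    omega

end Crest.Agent.R158.Hp854
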