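import Crest.Agent.R158.Hp1_814

/-!
# Row 158, Block HP (helper814): half annuli, planar topology

* `HA z s R` : half annulus `{v | z.2 ≤ v.2, s ≤ sd z v ≤ R}` (a finset)
* `BL z s R`, `BR z s R` : bottom sites on the left / right; `Inn z s` : inner boundary without corners
* `half_cross` : a walk of the half annulus from `BL` to `BR` meets each walk from `Inn` to `sd = R`
* `oc_last`, `oc_first` : restriction of connections to sub-annuli
-/

set_option autoImplicit false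

noncomputable section

namespace Crest.Agent.R158.Hp814

open MeasureTheory ProbabilityTheory unitInterval
open Crest.Agent.R161.Geo729 Crest.Agent.R161.Topo374 Crest.Agent.R161.Dual374
open Crest.Agent.R161.Tas682 Crest.Agent.R158.Rs689

/-- half annulus -/
def HA (z : P2) (s R : ℤ) : Finset P2 :=
  (Finset.Icc (z.1 - R) (z.1 + R) ×ˢ Finset.Icc z.2 (z.2 + R)).filter fun v => s ≤ sd z v

theorem mem_HA {z : P2} {s R : ℤ} {v : P2} :
    v ∈ HA z s R ↔ z.2 ≤ v.2 ∧ s ≤ sd z v ∧ sd z v ≤ R := by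
  simp only [HA, Finset.mem_filter, Finset.mem_product, Finset.mem_Icc, sd_le]
  omega

theorem HA_mono {z : P2} {s s' R R' : ℤ} (hs : s' ≤ s) (hR : R ≤ R') : HA z s R ⊆ HA z s' R' := by
  intro v hv
  rw [mem_HA] at hv ⊢
  omega

/-- bottom sites on the left -/
def BL (z : P2) (s R : ℤ) : Set P2 := {v | v.2 = z.2 ∧ z.1 - R ≤ v.1 ∧ v.1 ≤ z.1 - s}

/-- bottom sites on the right -/
def BR (z : P2) (s R : ℤ) : Set P2 := {v | v.2 = z.2 ∧ z.1 + s ≤ v.1 ∧ v.1 ≤ z.1 + R}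

/-- sites at distance `s` -/
def Sp (z : P2) (s : ℤ) : Set P2 := {v | sd z v = s}

/-- sites at distance `s` with a neighbour at a smaller distance (no corners) -/
def Inn (z : P2) (s : ℤ) : Set P2 := {v | sd z v = s ∧ ∃ u, Nbr u v ∧ sd z u < s ∧ z.2 ≤ u.2}

theorem sd_bot {z v : P2} (h : v.2 = z.2) : sd z v = |v.1 - z.1| := by
  unfold sd
  rw [h, sub_self, abs_zero, max_eq_left (abs_nonneg _)]

theorem sd_nonneg' (z v : P2) : 0 ≤ sd z v := by
  unfold sd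
  exact (abs_nonneg _).trans (le_max_left _ _)

theorem sd_comm (z v : P2) : sd z v = sd v z := by
  unfold sd
  rw [abs_sub_comm, abs_sub_comm z.2]

theorem le_sd {z v : P2} {k : ℤ} : k ≤ sd z v ↔ v.1 ≤ z.1 - k ∨ z.1 + k ≤ v.1 ∨
    v.2 ≤ z.2 - k ∨ z.2 + k ≤ v.2 ∨ k ≤ 0 := by
  unfold sd
  rw [le_max_iff, le_abs, le_abs]
  constructor
  · rintro ((h | h) | (h | h)) <;> omega
  · intro h
    have h1 := abs_nonneg (v.1 - z.1)
    rcases h with h | h | h | h | h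
    · left; right; omega
    · left; left; omega
    · right; right; omega
    · right; left; omega
    · by_cases h2 : 0 ≤ v.1 - z.1
      · left; left; omega
      · left; right; omega

/-- horizontal walks -/
theorem hwalk' {T : Set V} (y : ℤ) {x x' : ℤ} (hxx : x ≤ x')
    (h : ∀ k : ℤ, x ≤ k → k ≤ x' → ((k, y) : V) ∈ T) : Walk T (x, y) (x', y) := by
  obtain ⟨n, rfl⟩ : ∃ n : ℕ, x' = x + n := ⟨(x' - x).toNat, by omega⟩
  clear hxx
  induction n with
  | zero => simpa using Walk.refl (h x le_rfl (by simp))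
  | succ n ih =>
      have h1 := ih (fun k h1 h2 => h k h1 (by push_cast; omega))
      refine h1.trans (Walk.step h1.right (h _ (by push_cast; omega) le_rfl) ?_)
      left
      refine ⟨rfl, Or.inl ?_⟩
      push_cast
      ring

/-- horizontal walks in either direction -/
theorem hwalk2 {T : Set V} (y : ℤ) (x x' : ℤ)
    (h : ∀ k : ℤ, min x x' ≤ k → k ≤ max x x' → ((k, y) : V) ∈ T) : Walk T (x, y) (x', y) := by
  rcases le_total x x' with hx | hx
  · rw [min_eq_left hx, max_eq_right hx] at h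
    exact hwalk' y hx h
  · rw [min_eq_right hx, max_eq_left hx] at h
    exact (hwalk' y hx h).symm

/-- **Crossing lemma in the half annulus.** -/
theorem half_cross {z : P2} {s R : ℤ} (hs : 1 ≤ s) {T1 T2 : Set P2} {u w x v : P2}
    (h1 : Walk T1 u w) (h2 : Walk T2 x v)
    (hT1 : ∀ t ∈ T1, t ∈ HA z s R) (hT2 : ∀ t ∈ T2, t ∈ HA z s R)
    (hu : u ∈ BL z s R) (hw : w ∈ BR z s R) (hx : x ∈ Inn z s) (hv : v ∈ Sp z R) :
    (T1 ∩ T2).Nonempty := by
  obtain ⟨hu2, hu1, hu1'⟩ := hu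
  obtain ⟨hw2, hw1, hw1'⟩ := hw
  obtain ⟨hxs, x0, hx0, hx0s, hx02⟩ := hx
  have hR : 0 ≤ R := by
    have := sd_nonneg' z v
    have h3 : sd z v = R := hv
    omega
  -- extension of `T1`
  set A1 : Set P2 := {t | t.2 = z.2 - 1 ∧ z.1 - R - 1 ≤ t.1 ∧ t.1 ≤ z.1 + R + 1 ∧
    (t.1 ≤ z.1 - s ∨ z.1 + s ≤ t.1)} with hA1
  have w1 : Walk (T1 ∪ A1) (z.1 - R - 1, z.2 - 1) (z.1 + R + 1, z.2 - 1) := by
    have e1 : Walk (T1 ∪ A1) (z.1 - R - 1, z.2 - 1) (u.1, z.2 - 1) :=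
      hwalk' _ (by omega) fun k h3 h4 => Or.inr ⟨rfl, h3, by simp only; omega, by simp only; omega⟩
    have e2 : Walk (T1 ∪ A1) (u.1, z.2 - 1) u := by
      refine Walk.step e1.right (Or.inl h1.left) (Or.inr ⟨rfl, ?_⟩)
      simp only
      omega
    have e3 : Walk (T1 ∪ A1) u w := h1.mono Set.subset_union_left
    have e5 : Walk (T1 ∪ A1) (w.1, z.2 - 1) (z.1 + R + 1, z.2 - 1) :=
      hwalk' _ (by omega) fun k h3 h4 => Or.inr ⟨rfl, by simp only; omega, h4, by simp only; omega⟩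
    have e4 : Walk (T1 ∪ A1) w (w.1, z.2 - 1) := by
      refine Walk.step e3.right e5.left (Or.inr ⟨rfl, ?_⟩)
      simp only
      omega
    exact (((e1.trans e2).trans e3).trans e4).trans e5
  -- extension of `T2`
  set A2 : Set P2 := {t | (t.1 = z.1 ∧ t.2 = z.2 - 1) ∨ (sd z t < s ∧ z.2 ≤ t.2) ∨
    ((t.1 = z.1 - R - 1 ∨ t.1 = z.1 + R + 1) ∧ z.2 ≤ t.2 ∧ t.2 ≤ z.2 + R)} with hA2
  have hx0' := sd_le.1 (show sd z x0 ≤ s - 1 by omega)
  have e1 : Walk (T2 ∪ A2) (z.1, z.2 - 1) (z.1, z.2) := by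
    refine Walk.step (Or.inr (Or.inl ⟨rfl, rfl⟩)) (Or.inr (Or.inr (Or.inl ⟨?_, le_rfl⟩))) ?_
    · have : sd z (z.1, z.2) ≤ 0 := sd_le.2 (by simp)
      omega
    · unfold Nbr
      simp
  have e2 : Walk (T2 ∪ A2) (z.1, z.2) (x0.1, z.2) := by
    refine hwalk2 _ _ _ fun k h3 h4 => Or.inr (Or.inr (Or.inl ⟨?_, le_rfl⟩))
    have : sd z (k, z.2) ≤ s - 1 := sd_le.2 (by simp only; omega)
    omega
  have e3 : Walk (T2 ∪ A2) (x0.1, z.2) (x0.1, x0.2) := by
    refine vwalk' _ hx02 fun k h3 h4 => Or.inr (Or.inr (Or.inl ⟨?_, h3⟩))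
    have : sd z (x0.1, k) ≤ s - 1 := sd_le.2 (by simp only; omega)
    omega
  have e4 : Walk (T2 ∪ A2) x0 x :=
    Walk.step (Or.inr (Or.inr (Or.inl ⟨hx0s, hx02⟩))) (Or.inl h2.left) hx0
  have e5 : Walk (T2 ∪ A2) x v := h2.mono Set.subset_union_left
  have e6 : Walk (T2 ∪ A2) (z.1, z.2 - 1) v := (((e1.trans e2).trans e3).trans e4).trans e5
  have hvm := mem_HA.1 (hT2 v h2.right)
  have hv' := sd_le.1 hvm.2.2
  obtain ⟨q, hq, hq2⟩ : ∃ q : P2, q.2 = z.2 + R ∧ Walk (T2 ∪ A2) (z.1, z.2 - 1) q := by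
    have h3 : v.1 = z.1 - R ∨ v.1 = z.1 + R ∨ v.2 = z.2 + R := by
      rcases sd_eq (show sd z v = R from hv) with h | h | h | h
      · exact Or.inl h
      · exact Or.inr (Or.inl h)
      · right; right; omega
      · exact Or.inr (Or.inr h)
    rcases h3 with h3 | h3 | h3
    · have e7 : Walk (T2 ∪ A2) (z.1 - R - 1, v.2) (z.1 - R - 1, z.2 + R) := by
        refine vwalk' _ (by omega) fun k h4 h5 => Or.inr (Or.inr (Or.inr ⟨Or.inl rfl, ?_, h5⟩))
        simp only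
        omega
      have e8 : Walk (T2 ∪ A2) v (z.1 - R - 1, v.2) := by
        refine Walk.step (Or.inl h2.right) e7.left (Or.inl ⟨rfl, ?_⟩)
        simp only
        omega
      exact ⟨_, rfl, (e6.trans e8).trans e7⟩
    · have e7 : Walk (T2 ∪ A2) (z.1 + R + 1, v.2) (z.1 + R + 1, z.2 + R) := by
        refine vwalk' _ (by omega) fun k h4 h5 => Or.inr (Or.inr (Or.inr ⟨Or.inr rfl, ?_, h5⟩))
        simp only
        omega
      have e8 : Walk (T2 ∪ A2) v (z.1 + R + 1, v.2) := by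
        refine Walk.step (Or.inl h2.right) e7.left (Or.inl ⟨rfl, ?_⟩)
        simp only
        omega
      exact ⟨_, rfl, (e6.trans e8).trans e7⟩
    · exact ⟨v, h3, e6⟩
  obtain ⟨t, ht1, ht2⟩ := cross w1 hq2 (by
    rintro t (ht | ht)
    · have h3 := mem_HA.1 (hT1 t ht)
      have h4 := sd_le.1 h3.2.2
      simp only
      omega
    · have := ht.1
      simp only
      omega) (by
    rintro t (ht | ht)
    · have h3 := mem_HA.1 (hT2 t ht)
      have h4 := sd_le.1 h3.2.2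
      simp only
      omega
    · simp only
      rcases ht with ht | ht | ht
      · omega
      · have h4 := sd_le.1 (show sd z t ≤ s - 1 by omega)
        have h5 := sd_nonneg' z x
        have h6 : sd z x ≤ R := (mem_HA.1 (hT2 x h2.left)).2.2
        omega
      · omega)
  rcases ht1 with ht1 | ht1
  · have h3 := mem_HA.1 (hT1 t ht1)
    have h4 := sd_le.1 h3.2.2
    rcases ht2 with ht2 | ht2
    · exact ⟨t, ht1, ht2⟩
    · exfalso
      rcases ht2 with ht2 | ht2 | ht2 <;> omega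
  · exfalso
    obtain ⟨h3, h4, h5, h6⟩ := ht1
    rcases ht2 with ht2 | ht2
    · have h7 := mem_HA.1 (hT2 t ht2)
      omega
    · rcases ht2 with ht2 | ht2 | ht2 <;> omega

/-! ### restriction of connections -/

/-- a connection either stays in `{k ≤ f}` or visits `{f < k}` -/
theorem oc_stay {z : Cf} {S : Set P2} (f : P2 → ℤ) (k : ℤ) {u v : P2} (h : OC z S u v) :
    OC z (S ∩ {p | k ≤ f p}) u v ∨ ∃ t, f t < k ∧ OC z S u t := by
  by_cases h1 : ∃ t, f t < k ∧ OC z S u t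
  · exact Or.inr h1
  · left
    push Not at h1
    obtain ⟨hu, h⟩ := h
    have hku : k ≤ f u := by
      by_contra h2
      exact h1 u (by omega) (OC.refl hu)
    refine ⟨⟨hu, hku⟩, ?_⟩
    induction h with
    | refl => exact .refl
    | @tail b c h2 h3 ih =>
      have hb : k ≤ f b := by
        by_contra h4
        exact h1 b (by omega) ⟨hu, h2⟩
      have hc : k ≤ f c := by
        by_contra h4
        exact h1 c (by omega) ⟨hu, h2.tail h3⟩
      exact ih.tail ⟨h3.1, ⟨h3.2.1, hb⟩, ⟨h3.2.2, hc⟩⟩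

/-- last exit from `{sd z < k}`, with a neighbour inside -/
theorem last_exit_inn {y : Cf} {S : Set P2} {z : P2} {k : ℤ} {u v : P2} (h : OC y S u v)
    (hu : sd z u < k) (hv : k ≤ sd z v) (hS : ∀ t ∈ S, z.2 ≤ t.2) :
    ∃ w, w ∈ Inn z k ∧ OC y (S ∩ {p | k ≤ sd z p}) w v ∧ OC y S u w := by
  obtain ⟨huS, h⟩ := h
  induction h with
  | refl => omega
  | @tail b c h1 h2 ih =>
    by_cases hb : k ≤ sd z b
    · obtain ⟨w, h3, h4, h5⟩ := ih hb
      exact ⟨w, h3, ⟨h4.1, h4.2.tail ⟨h2.1, h4.right, ⟨h2.2.2, hv⟩⟩⟩, h5⟩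
    · have h3 := sd_nbr z b c (pstep_nbr h2.1)
      refine ⟨c, ⟨by omega, b, pstep_nbr h2.1, by omega, hS b h2.2.1⟩,
        OC.refl ⟨h2.2.2, hv⟩, ⟨huS, h1.tail h2⟩⟩

/-- first hit of `{sd z = k}` -/
theorem first_hit_sd {y : Cf} {S : Set P2} {z : P2} {k : ℤ} {u v : P2} (h : OC y S u v)
    (hu : sd z u ≤ k) (hv : k ≤ sd z v) :
    ∃ w, sd z w = k ∧ OC y (S ∩ {p | sd z p ≤ k}) u w :=
  first_hit (sd z) (sd_nbr z) k h hu hv

/-- crossing of a half annulus -/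
def HX (z : P2) (s R : ℤ) : Set Cf := EV (HA z s R) (Sp z s) (Sp z R)

/-- open half circuit -/
def HO (z : P2) (s : ℤ) : Set Cf := EV (HA z s (2 * s)) (BL z s (2 * s)) (BR z s (2 * s))

theorem HX_sub {z : P2} {s s' R R' : ℤ} (hs : s ≤ s') (hsR : s' ≤ R') (hR : R' ≤ R) :
    HX z s R ⊆ HX z s' R' := by
  rintro y ⟨u, hu, v, hv, h⟩
  obtain ⟨w, h1, h2, _⟩ := last_exit (sd z) (sd_nbr z) s' h
    (by have : sd z u = s := hu; omega) (by have : sd z v = R := hv; omega)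
  obtain ⟨w', h3, h4⟩ := first_hit (sd z) (sd_nbr z) R' h2
    (by omega) (by have : sd z v = R := hv; omega)
  refine ⟨w, h1, w', h3, h4.monoS ?_⟩
  rintro t ⟨⟨h5, h6⟩, h7⟩
  have h5' := mem_HA.1 h5
  have h6' : s' ≤ sd z t := h6
  have h7' : sd z t ≤ R' := h7
  exact mem_HA.2 ⟨h5'.1, h6', h7'⟩

/-- crossing of a full annulus -/
def FX (z : P2) (s R : ℤ) : Set Cf := EV {v | s ≤ sd z v ∧ sd z v ≤ R} (Sp z s) (Sp z R)

theorem HX_sub_FX (z : P2) (s R : ℤ) : HX z s R ⊆ FX z s R :=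
  EV_mono (fun _ hv => (mem_HA.1 hv).2) subset_rfl subset_rfl

/-- **RSW hypothesis**: open half circuits up to scale `N1`, no crossings of annuli up to scale
`N2`. -/
structure Rsw (p : I) (c : ℝ) (N1 N2 : ℤ) : Prop where
  pos : 0 < c
  ho : ∀ (z : P2) (n : ℤ), 1 ≤ n → n ≤ N1 → c ≤ (nu p).real (HO z n)
  fx : ∀ (z : P2) (n : ℤ), 1 ≤ n → n ≤ N2 → (nu p).real (FX z n (2 * n)) ≤ 1 - c

theorem Rsw.hx {p : I} {c : ℝ} {N1 N2 : ℤ} (h : Rsw p c N1 N2) (z : P2) (n : ℤ) (h1 : 1 ≤ n)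
    (h2 : n ≤ N2) : (nu p).real (HX z n (2 * n)) ≤ 1 - c :=
  (measureReal_mono (HX_sub_FX _ _ _)).trans (h.fx z n h1 h2)

theorem Rsw.c_lt_one {p : I} {c : ℝ} {N1 N2 : ℤ} (h : Rsw p c N1 N2) (hN : 1 ≤ N2) : c ≤ 1 := by
  have h1 := h.fx (0, 0) 1 le_rfl hN
  have h2 : 0 ≤ (nu p).real (FX (0, 0) 1 (2 * 1)) := measureReal_nonneg
  linarith

theorem EI_disj {S T : Finset P2} (h : Disjoint S T) : Disjoint (EI S) (EI T) := by
  rw [Finset.disjoint_left]
  intro e h1 h2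
  rw [mem_EI] at h1 h2
  exact (Finset.disjoint_left.1 h) h1.1 h2.1

theorem HX_dep (z : P2) (s R : ℤ) : Dep (EI (HA z s R)) (HX z s R) := ev_dep _ _ _

/-- one step of the one-arm bound -/
theorem HX_step {p : I} {c : ℝ} {N1 N2 : ℤ} (h : Rsw p c N1 N2) (z : P2) {s R : ℤ} (hs : 1 ≤ s)
    (hsN : s ≤ N2) (hR : 2 * s + 1 ≤ R) :
    (nu p).real (HX z s R) ≤ (1 - c) * (nu p).real (HX z (2 * s + 1) R) := by
  have h1 : HX z s R ⊆ HX z s (2 * s) ∩ HX z (2 * s + 1) R := fun y hy =>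
    ⟨HX_sub le_rfl (by omega) (by omega) hy, HX_sub (by omega) hR le_rfl hy⟩
  have h2 : (nu p).real (HX z s (2 * s) ∩ HX z (2 * s + 1) R) =
      (nu p).real (HX z s (2 * s)) * (nu p).real (HX z (2 * s + 1) R) := by
    refine PB_indep_real _ (EI_disj ?_) (HX_dep _ _ _) (HX_dep _ _ _)
    rw [Finset.disjoint_left]
    intro v h3 h4
    rw [mem_HA] at h3 h4
    omega
  calc (nu p).real (HX z s R) ≤ _ := measureReal_mono h1
    _ = _ := h2
    _ ≤ _ := mul_le_mul_of_nonneg_right (h.hx z s hs hsN) measureReal_nonneg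

end Crest.Agent.R158.Hp814
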