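import Crest.Agent.R158.Hp2_814
import Crest.Agent.R158.Rs5_689

/-!
# Row 158, Block HP (helper814): symmetries, one arm, segment form of the half-plane two arms

* `Sy` : symmetries of the lattice; `Sy.prob`, `Sy.oc`
* `HX_pow` : `P(crossing of the half annulus (s,R)) ≤ 4 (s/R)^a`
* `SegE z R` : `z` is joined to distance `R` in the half box and is the rightmost bottom site of its
  cluster; `segE_le : P(SegE z R) ≤ C / R`
-/

set_option autoImplicit false

noncomputable section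

namespace Crest.Agent.R158.Hp814

open MeasureTheory ProbabilityTheory unitInterval
open Crest.Agent.R161.Geo729 Crest.Agent.R161.Topo374 Crest.Agent.R161.Dual374
open Crest.Agent.R161.Tas682 Crest.Agent.R158.Rs689 Crest.Agent.R161.Sym597

/-! ### symmetries -/

/-- lattice symmetries -/
structure Sy where
  V : P2 ≃ P2
  E : Edge ≃ Edge
  ok : ∀ e, (src (E e) = V (src e) ∧ tgt (E e) = V (tgt e)) ∨
    (src (E e) = V (tgt e) ∧ tgt (E e) = V (src e))

namespace Sy

/-- inverse symmetry -/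
def symm (g : Sy) : Sy where
  V := g.V.symm
  E := g.E.symm
  ok e := by
    rcases g.ok (g.E.symm e) with ⟨h1, h2⟩ | ⟨h1, h2⟩
    · left
      rw [Equiv.apply_symm_apply] at h1 h2
      rw [h1, h2]
      simp
    · right
      rw [Equiv.apply_symm_apply] at h1 h2
      rw [h1, h2]
      simp

theorem pstep (g : Sy) {z : Cf} {a b : P2} (h : PStep (fun e => z (g.E e) = true) a b) :
    PStep (fun e => z e = true) (g.V a) (g.V b) := by
  obtain ⟨e, he, h1⟩ := h
  refine ⟨g.E e, he, ?_⟩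
  rcases h1 with ⟨rfl, rfl⟩ | ⟨rfl, rfl⟩ <;> rcases g.ok e with ⟨h2, h3⟩ | ⟨h2, h3⟩
  · exact Or.inl ⟨h2.symm, h3.symm⟩
  · exact Or.inr ⟨h3.symm, h2.symm⟩
  · exact Or.inr ⟨h3.symm, h2.symm⟩
  · exact Or.inl ⟨h2.symm, h3.symm⟩

theorem oc_map (g : Sy) {z : Cf} {S S' : Set P2} (hS : ∀ v ∈ S, g.V v ∈ S') {u v : P2}
    (h : OC (fun e => z (g.E e)) S u v) : OC z S' (g.V u) (g.V v) := by
  obtain ⟨hu, h⟩ := h
  refine ⟨hS u hu, ?_⟩
  induction h with
  | refl => exact .refl
  | tail h1 h2 ih => exact ih.tail ⟨g.pstep h2.1, hS _ h2.2.1, hS _ h2.2.2⟩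

theorem oc_iff (g : Sy) {z : Cf} {S S' : Set P2} (hS : ∀ v, v ∈ S ↔ g.V v ∈ S') {u v : P2} :
    OC (fun e => z (g.E e)) S u v ↔ OC z S' (g.V u) (g.V v) := by
  refine ⟨g.oc_map fun v hv => (hS v).1 hv, fun h => ?_⟩
  have h1 : (fun e => (fun e => z (g.E e)) (g.symm.E e)) = z := by
    funext e
    show z (g.E (g.E.symm e)) = z e
    rw [Equiv.apply_symm_apply]
  have h2 := g.symm.oc_map (z := fun e => z (g.E e)) (S := S') (S' := S) (u := g.V u)
    (v := g.V v) (fun v hv => by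
      rw [hS]
      show g.V (g.V.symm v) ∈ S'
      rwa [Equiv.apply_symm_apply]) (by rw [h1]; exact h)
  have h3 : ∀ v, g.symm.V (g.V v) = v := fun v => g.V.symm_apply_apply v
  rwa [h3, h3] at h2

theorem prob (g : Sy) (p : I) {A : Set Cf} (hA : MeasurableSet A) :
    (nu p).real {z | (fun e => z (g.E e)) ∈ A} = (nu p).real A := by
  have h := PB_map_equiv g.E.symm (fun _ : Edge => p)
  have hm : Measurable (fun (z : Cf) (e : Edge) => z (g.E e)) :=
    measurable_pi_lambda _ fun e => measurable_pi_apply _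
  have h2 : (nu p).map (fun (z : Cf) (e : Edge) => z (g.E e)) = nu p := h
  conv_rhs => rw [← h2]
  rw [measureReal_def, measureReal_def, Measure.map_apply hm hA]
  rfl

end Sy

/-- translations -/
def syT (a : P2) : Sy where
  V := Equiv.addRight a
  E := shE a
  ok e := Or.inl ⟨src_shE a e, tgt_shE a e⟩

/-- reflections of 597 -/
def syR (R : Refl) : Sy where
  V := R.VEquiv
  E := R.EEquiv
  ok e := R.edge_v e

theorem sd_add (a z v : P2) : sd (z + a) (v + a) = sd z v := by
  unfold sd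
  simp

/-! ### one arm -/

theorem Rsw.mono {p : I} {c c' : ℝ} {N1 N2 N1' N2' : ℤ} (h : Rsw p c N1 N2) (hc : 0 < c')
    (hcc : c' ≤ c) (hN1 : N1' ≤ N1) (hN2 : N2' ≤ N2) : Rsw p c' N1' N2' where
  pos := hc
  ho z n h1 h2 := hcc.trans (h.ho z n h1 (h2.trans hN1))
  fx z n h1 h2 := (h.fx z n h1 (h2.trans hN2)).trans (by linarith)

/-- the exponent -/
def aex (c : ℝ) : ℝ := Real.logb 2 (1 - c)⁻¹

theorem aex_pos {c : ℝ} (hc : 0 < c) (hc2 : c ≤ 1 / 2) : 0 < aex c := by
  unfold aex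
  apply Real.logb_pos (by norm_num)
  rw [one_lt_inv₀ (by linarith)]
  linarith

theorem aex_le_one {c : ℝ} (hc : 0 < c) (hc2 : c ≤ 1 / 2) : aex c ≤ 1 := by
  unfold aex
  have h1 : (1 - c)⁻¹ ≤ 2 := by
    rw [inv_le_comm₀ (by linarith) (by norm_num)]
    linarith
  have h2 : (0 : ℝ) < (1 - c)⁻¹ := inv_pos.2 (by linarith)
  calc Real.logb 2 (1 - c)⁻¹ ≤ Real.logb 2 2 :=
        Real.logb_le_logb_of_le (by norm_num) h2 h1
    _ = 1 := Real.logb_self_eq_one (by norm_num)

theorem two_rpow_aex {c : ℝ} (hc : 0 < c) (hc2 : c ≤ 1 / 2) : (2 : ℝ) ^ aex c = (1 - c)⁻¹ := by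
  unfold aex
  exact Real.rpow_logb (by norm_num) (by norm_num) (inv_pos.2 (by linarith))

theorem HX_pow_aux {p : I} {c : ℝ} {N1 N2 : ℤ} (h : Rsw p c N1 N2) (hc2 : c ≤ 1 / 2) (z : P2) (n : ℕ) :
    ∀ s R : ℤ, 1 ≤ s → R ≤ N2 → (R - s).toNat ≤ n →
      (nu p).real (HX z s R) ≤ 2 * (((s : ℝ) + 1) / (R + 1)) ^ aex c ∨ R < s := by
  have hc := h.pos
  induction n with
  | zero =>
    intro s R hs hR hn
    by_cases h1 : R < s
    · exact Or.inr h1
    · left
      have h2 : R = s := by omega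
      subst h2
      have h3 : (0 : ℝ) < (R : ℝ) + 1 := by
        have : (1 : ℝ) ≤ R := by exact_mod_cast hs
        linarith
      rw [div_self h3.ne', Real.one_rpow]
      exact measureReal_le_one.trans (by norm_num)
  | succ n ih =>
    intro s R hs hR hn
    by_cases h1 : R < s
    · exact Or.inr h1
    left
    have hs0 : (1 : ℝ) ≤ s := by exact_mod_cast hs
    have hR0 : (s : ℝ) ≤ R := by exact_mod_cast (not_lt.1 h1)
    have hRp : (0 : ℝ) < (R : ℝ) + 1 := by linarith
    by_cases h2 : 2 * s + 1 ≤ R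
    · have h3 := HX_step h z hs (by omega) h2
      rcases ih (2 * s + 1) R (by omega) hR (by omega) with h4 | h4
      · refine h3.trans ?_
        have h5 : ((((2 * s + 1 : ℤ) : ℝ) + 1) / (R + 1)) ^ aex c =
            (1 - c)⁻¹ * (((s : ℝ) + 1) / (R + 1)) ^ aex c := by
          rw [← two_rpow_aex hc hc2, ← Real.mul_rpow (by norm_num) (by positivity)]
          congr 1
          push_cast
          ring
        rw [h5] at h4
        have h6 : 0 < 1 - c := by linarith
        calc (1 - c) * (nu p).real (HX z (2 * s + 1) R)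
            ≤ (1 - c) * (2 * ((1 - c)⁻¹ * (((s : ℝ) + 1) / (R + 1)) ^ aex c)) :=
              mul_le_mul_of_nonneg_left h4 h6.le
          _ = 2 * (((s : ℝ) + 1) / (R + 1)) ^ aex c := by
              field_simp
      · omega
    · have h3 : (1 : ℝ) / 2 ≤ ((s : ℝ) + 1) / (R + 1) := by
        rw [div_le_div_iff₀ (by norm_num) hRp]
        have : (R : ℝ) ≤ 2 * s := by exact_mod_cast (show R ≤ 2 * s by omega)
        linarith
      have h4 : ((1 : ℝ) / 2) ^ aex c ≤ (((s : ℝ) + 1) / (R + 1)) ^ aex c :=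
        Real.rpow_le_rpow (by norm_num) h3 (aex_pos hc hc2).le
      have h5 : ((1 : ℝ) / 2) ^ aex c = 1 - c := by
        rw [one_div, Real.inv_rpow (by norm_num), two_rpow_aex hc hc2, inv_inv]
      have h6 : (nu p).real (HX z s R) ≤ 1 := measureReal_le_one
      linarith

/-- **One arm in the half annulus.** -/
theorem HX_pow {p : I} {c : ℝ} {N1 N2 : ℤ} (h : Rsw p c N1 N2) (hc2 : c ≤ 1 / 2) (z : P2) {s R : ℤ}
    (hs : 1 ≤ s) (hsR : s ≤ R) (hR : R ≤ N2) :
    (nu p).real (HX z s R) ≤ 4 * ((s : ℝ) / R) ^ aex c := by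
  have hc := h.pos
  rcases HX_pow_aux h hc2 z _ s R hs hR le_rfl with h1 | h1
  · refine h1.trans ?_
    have hs0 : (1 : ℝ) ≤ s := by exact_mod_cast hs
    have hR0 : (s : ℝ) ≤ R := by exact_mod_cast hsR
    have hsp : (0 : ℝ) < s := by linarith
    have hRp : (0 : ℝ) < R := by linarith
    have hq : (0 : ℝ) ≤ (s : ℝ) / R := by positivity
    have h2 : ((s : ℝ) + 1) / (R + 1) ≤ 2 * (s / R) := by
      rw [← mul_div_assoc, div_le_div_iff₀ (by linarith) (by linarith)]
      nlinarith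
    have h3 : (((s : ℝ) + 1) / (R + 1)) ^ aex c ≤ (2 * (s / R)) ^ aex c :=
      Real.rpow_le_rpow (by positivity) h2 (aex_pos hc hc2).le
    rw [Real.mul_rpow (by norm_num) (by positivity)] at h3
    have h4 : (2 : ℝ) ^ aex c ≤ 2 := by
      calc (2 : ℝ) ^ aex c ≤ 2 ^ (1 : ℝ) :=
            Real.rpow_le_rpow_of_exponent_le (by norm_num) (aex_le_one hc hc2)
        _ = 2 := Real.rpow_one _
    have h5 : 0 ≤ ((s : ℝ) / R) ^ aex c := by positivity
    nlinarith
  · omega

/-! ### segment form -/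

/-- `z` is joined to distance `R` in the half box, and is the rightmost bottom site of its cluster -/
def SegE (z : P2) (R : ℤ) : Set Cf :=
  {y | (∃ v ∈ Sp z R, OC y (HA z 0 R) z v) ∧ ∀ x : ℤ, z.1 < x → ¬ OC y (HA z 0 R) (x, z.2) z}

theorem segE_dep (z : P2) (R : ℤ) : Dep (EI (HA z 0 R)) (SegE z R) := by
  intro y y' h
  have h1 : ∀ a b, OC y (HA z 0 R) a b ↔ OC y' (HA z 0 R) a b := fun a b => oc_dep _ a b y y' h
  simp only [SegE, Set.mem_ofPred_eq, h1]

theorem segE_shift (p : I) (z a : P2) (R : ℤ) :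
    (nu p).real (SegE (z + a) R) = (nu p).real (SegE z R) := by
  rw [← (syT a).prob p (segE_dep z R).measurableSet]
  congr 1
  ext y
  have key : ∀ u v : P2, OC (fun e => y ((syT a).E e)) (HA z 0 R) u v ↔
      OC y (HA (z + a) 0 R) (u + a) (v + a) := by
    intro u v
    exact (syT a).oc_iff (fun v => by
      show v ∈ HA z 0 R ↔ v + a ∈ HA (z + a) 0 R
      rw [mem_HA, mem_HA, sd_add, Prod.snd_add, Prod.snd_add]
      omega)
  constructor
  · rintro ⟨⟨v, hv, h1⟩, h2⟩
    refine ⟨⟨v - a, ?_, ?_⟩, fun x hx h3 => h2 (x + a.1) ?_ ?_⟩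
    · have : sd (z + a) v = R := hv
      show sd z (v - a) = R
      rw [← sd_add a, sub_add_cancel]
      exact this
    · rw [key, sub_add_cancel]
      exact h1
    · rw [Prod.fst_add]
      omega
    · rw [key] at h3
      exact h3
  · rintro ⟨⟨v, hv, h1⟩, h2⟩
    refine ⟨⟨v + a, ?_, ?_⟩, fun x hx h3 => h2 (x - a.1) ?_ ?_⟩
    · show sd (z + a) (v + a) = R
      rw [sd_add]
      exact hv
    · rw [key] at h1
      exact h1
    · rw [Prod.fst_add] at hx
      omega
    · rw [key]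
      have : ((x - a.1, z.2) : P2) + a = (x, (z + a).2) := by
        ext <;> simp
      rw [this]
      exact h3

theorem EN_ge (w : Edge → I) (S : Finset P2) (F : Set P2) {e : ℝ} (l : List P2) :
    ∀ l0 : List P2, l.Pairwise (fun a b => b.1 < a.1) → (∀ y ∈ l0, ∀ x ∈ l, x.1 < y.1) →
      (∀ x ∈ l, ∀ l' : List P2, (∀ y ∈ l', x.1 < y.1 ∧ (y ∈ l0 ∨ y ∈ l)) →
        e ≤ (PB w).real (First S F l' x)) →
      l.length * e ≤ EN w S F l0 l := by
  induction l with
  | nil => intro l0 _ _ _; simp [EN]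
  | cons a l ih =>
    intro l0 hp h0 he
    rw [List.pairwise_cons] at hp
    have h1 := ih (a :: l0) hp.2 (by
      intro y hy x hx
      rcases List.mem_cons.1 hy with rfl | hy
      · exact hp.1 x hx
      · exact h0 y hy x (List.mem_cons_of_mem _ hx)) (by
      intro x hx l' hl'
      refine he x (List.mem_cons_of_mem _ hx) l' fun y hy => ?_
      obtain ⟨h2, h3⟩ := hl' y hy
      refine ⟨h2, ?_⟩
      rcases h3 with h3 | h3
      · rcases List.mem_cons.1 h3 with rfl | h3
        · exact Or.inr List.mem_cons_self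
        · exact Or.inl h3
      · exact Or.inr (List.mem_cons_of_mem _ h3))
    have h2 := he a List.mem_cons_self l0 fun y hy =>
      ⟨h0 y hy a List.mem_cons_self, Or.inl hy⟩
    simp only [EN, List.length_cons]
    push_cast
    linarith

/-- **Segment form of the half-plane two arms**, dyadic form. -/
theorem segE_count {p : I} {c : ℝ} {N1 N2 : ℤ} (h : Rsw p c N1 N2) (z : P2) (m : ℕ) (hm : 1 ≤ m)
    (hN : (m : ℤ) ≤ N2) :
    (2 * m + 1 : ℝ) * (nu p).real (SegE z (4 * m)) ≤ 1 / c := by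
  set l : List P2 := (List.range (2 * m + 1)).map fun k : ℕ => (z.1 + (m : ℤ) - (k : ℤ), z.2) with hl
  have hlen : l.length = 2 * m + 1 := by simp [hl]
  have hmem : ∀ x ∈ l, x.2 = z.2 ∧ z.1 - m ≤ x.1 ∧ x.1 ≤ z.1 + m := by
    intro x hx
    rw [hl, List.mem_map] at hx
    obtain ⟨k, hk, rfl⟩ := hx
    rw [List.mem_range] at hk
    refine ⟨rfl, ?_, ?_⟩
    · simp only; omega
    · simp only; omega
  have hpair : l.Pairwise (fun a b => b.1 < a.1) := by
    rw [hl, List.pairwise_map]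
    refine List.pairwise_lt_range.imp fun {a b} hab => ?_
    simp only
    omega
  have h1 : l.length * (nu p).real (SegE z (4 * m)) ≤
      EN (fun _ => p) (HA z 0 (2 * m)) (Sp z (2 * m)) [] l := by
    refine EN_ge _ _ _ l [] hpair (by simp) ?_
    intro x hx l' hl'
    obtain ⟨hx2, hx1, hx1'⟩ := hmem x hx
    have hxz : x = z + (x - z) := by simp
    have h2 : (nu p).real (SegE x (4 * m)) = (nu p).real (SegE z (4 * m)) := by
      conv_lhs => rw [hxz]
      exact segE_shift p z (x - z) _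
    rw [← h2]
    refine measureReal_mono ?_
    rintro y ⟨⟨v, hv, h3⟩, h4⟩
    have hsub : ((HA z 0 (2 * m) : Finset P2) : Set P2) ⊆ (HA x 0 (4 * m) : Finset P2) := by
      intro t ht
      have ht' := mem_HA.1 ht
      have h5 := sd_le.1 ht'.2.2
      refine mem_HA.2 ⟨by omega, sd_nonneg' _ _, sd_le.2 ⟨by omega, by omega, by omega, by omega⟩⟩
    have hxz0 : sd z x ≤ m := sd_le.2 ⟨by omega, by omega, by omega, by omega⟩
    have hvz : 2 * (m : ℤ) ≤ sd z v := by
      have h5 : sd x v = 4 * m := hv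
      have h6 : 4 * (m : ℤ) ≤ sd x v := h5.ge
      rw [le_sd] at h6 ⊢
      omega
    constructor
    · obtain ⟨w, h5, h6⟩ := first_hit_sd (z := z) (k := 2 * m) h3 (by omega) hvz
      refine ⟨w, h5, h6.monoS ?_⟩
      rintro t ⟨ht1, ht2⟩
      have ht1' := mem_HA.1 ht1
      have ht2' : sd z t ≤ 2 * m := ht2
      exact mem_HA.2 ⟨by omega, sd_nonneg' _ _, ht2'⟩
    · intro y' hy' h5
      obtain ⟨h6, h7⟩ := hl' y' hy'
      have h8 : y'.2 = z.2 := by
        rcases h7 with h7 | h7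
        · simp at h7
        · exact (hmem y' h7).1
      refine h4 y'.1 h6 ?_
      have h9 : ((y'.1, x.2) : P2) = y' := by
        ext
        · rfl
        · simp only; omega
      rw [h9]
      exact h5.monoS hsub
  have h2 : (PB fun _ : Edge => p).real (Some1 (HA z 0 (2 * m)) (Sp z (2 * m)) l) ≤ 1 - c := by
    refine le_trans (measureReal_mono ?_) (h.hx z m (by omega) hN)
    rintro y ⟨x, hx, v, hv, h3⟩
    obtain ⟨hx2, hx1, hx1'⟩ := hmem x hx
    have hv' : sd z v = 2 * m := hv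
    obtain ⟨w, h4, h5, _⟩ := last_exit (sd z) (sd_nbr z) m h3
      (sd_le.2 ⟨by omega, by omega, by omega, by omega⟩) (by omega)
    refine ⟨w, h4, v, hv, h5.monoS ?_⟩
    rintro t ⟨ht1, ht2⟩
    have ht1' := mem_HA.1 ht1
    have ht2' : (m : ℤ) ≤ sd z t := ht2
    exact mem_HA.2 ⟨by omega, ht2', by omega⟩
  have h3 := EN_le (fun _ => p) (q := 1 - c) (by linarith [h.pos]) (Sp z (2 * m)) l
    (HA z 0 (2 * m)) h2
  have hc := h.pos
  rw [hlen] at h1
  push_cast at h1
  refine h1.trans (h3.trans ?_)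
  rw [sub_sub_cancel]
  apply div_le_div_of_nonneg_right measureReal_le_one hc.le

theorem segE_mono (z : P2) {R R' : ℤ} (hR : 0 ≤ R') (h : R' ≤ R) : SegE z R ⊆ SegE z R' := by
  rintro y ⟨⟨v, hv, h3⟩, h4⟩
  have hsub : ((HA z 0 R' : Finset P2) : Set P2) ⊆ (HA z 0 R : Finset P2) := by
    exact_mod_cast HA_mono le_rfl h
  constructor
  · have hv' : sd z v = R := hv
    obtain ⟨w, h5, h6⟩ := first_hit_sd (z := z) (k := R') h3 (by
      have : sd z z ≤ 0 := sd_le.2 ⟨by omega, by omega, by omega, by omega⟩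
      omega) (by omega)
    refine ⟨w, h5, h6.monoS ?_⟩
    rintro t ⟨ht1, ht2⟩
    have ht1' := mem_HA.1 ht1
    have ht2' : sd z t ≤ R' := ht2
    exact mem_HA.2 ⟨by omega, sd_nonneg' _ _, ht2'⟩
  · intro x hx h5
    exact h4 x hx (h5.monoS hsub)

/-- **Segment form of the half-plane two arms.** -/
theorem segE_le {p : I} {c : ℝ} {N1 N2 : ℤ} (h : Rsw p c N1 N2) (z : P2) {R : ℤ} (hR : 1 ≤ R)
    (hN : R ≤ N2) : (nu p).real (SegE z R) ≤ 4 / (c * R) := by
  have hc := h.pos
  have hc1 := h.c_lt_one (hR.trans hN)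
  have hR0 : (1 : ℝ) ≤ R := by exact_mod_cast hR
  by_cases h4 : R < 4
  · refine measureReal_le_one.trans ?_
    rw [le_div_iff₀ (by positivity), one_mul]
    have h5 : (R : ℝ) ≤ 4 := by exact_mod_cast h4.le
    nlinarith
  · obtain ⟨m, hm⟩ : ∃ m : ℕ, (m : ℤ) = R / 4 := ⟨(R / 4).toNat, by omega⟩
    have h5 := segE_count h z m (by omega) (by omega)
    have h6 : (nu p).real (SegE z R) ≤ (nu p).real (SegE z (4 * m)) :=
      measureReal_mono (segE_mono z (by omega) (by omega))
    refine h6.trans ?_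
    have h7 : (R : ℝ) ≤ 4 * (2 * m + 1) := by
      have : R ≤ 4 * (2 * m + 1) := by omega
      exact_mod_cast this
    rw [le_div_iff₀ (by positivity)]
    rw [le_div_iff₀ hc] at h5
    have h8 : 0 ≤ (nu p).real (SegE z (4 * m)) := measureReal_nonneg
    nlinarith [mul_nonneg h8 hc.le]

end Crest.Agent.R158.Hp814
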