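import Crest.Agent.R158.Hp3_814

/-!
# Row 158, Block HP (helper814): half-plane two arms (ball form) and three arms

* `missR_le`, `missL_le` : `P(some crossing cluster of the half annulus misses the right (left) part
  of the bottom side) ≤ 40 c⁻³ s / R`
* `TTh`, `TWh` : two distinct crossing clusters / a crossing cluster missing the flat side
* `two_arm : P(TTh ∪ TWh) ≤ C s / R`, `three_arm : P(TTh) ≤ C (s/R)^(1+a)`
-/

set_option autoImplicit false

noncomputable section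

namespace Crest.Agent.R158.Hp814

open MeasureTheory ProbabilityTheory unitInterval
open Crest.Agent.R161.Geo729 Crest.Agent.R161.Topo374 Crest.Agent.R161.Dual374
open Crest.Agent.R161.Tas682 Crest.Agent.R158.Rs689 Crest.Agent.R161.Sym597

open Classical in
/-- list of the inner boundary sites -/
def innL (z : P2) (s R : ℤ) : List P2 := ((HA z s R).filter fun x => x ∈ Inn z s).toList

theorem mem_innL {z : P2} {s R : ℤ} {x : P2} : x ∈ innL z s R ↔ x ∈ HA z s R ∧ x ∈ Inn z s := by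
  classical
  simp [innL]

/-- some crossing cluster misses the right part of the bottom side -/
def MissR (z : P2) (s R : ℤ) : Set Cf := Miss (HA z s R) (Sp z R) (BR z s R) (innL z s R)

/-- some crossing cluster misses the left part of the bottom side -/
def MissL (z : P2) (s R : ℤ) : Set Cf := Miss (HA z s R) (Sp z R) (BL z s R) (innL z s R)

theorem mem_missR {z : P2} {s R : ℤ} {y : Cf} : y ∈ MissR z s R ↔
    ∃ x ∈ Inn z s, ∃ v ∈ Sp z R, OC y (HA z s R) x v ∧ ∀ b ∈ BR z s R, ¬ OC y (HA z s R) b x := by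
  constructor
  · rintro ⟨x, hx, v, hv, h⟩
    exact ⟨x, (mem_innL.1 hx).2, v, hv, h⟩
  · rintro ⟨x, hx, v, hv, h⟩
    exact ⟨x, mem_innL.2 ⟨h.1.left, hx⟩, v, hv, h⟩

theorem mem_missL {z : P2} {s R : ℤ} {y : Cf} : y ∈ MissL z s R ↔
    ∃ x ∈ Inn z s, ∃ v ∈ Sp z R, OC y (HA z s R) x v ∧ ∀ b ∈ BL z s R, ¬ OC y (HA z s R) b x := by
  constructor
  · rintro ⟨x, hx, v, hv, h⟩
    exact ⟨x, (mem_innL.1 hx).2, v, hv, h⟩
  · rintro ⟨x, hx, v, hv, h⟩
    exact ⟨x, mem_innL.2 ⟨h.1.left, hx⟩, v, hv, h⟩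

theorem miss_dep (S : Finset P2) (F B : Set P2) (l : List P2) : Dep (EI S) (Miss S F B l) := by
  intro y y' h
  have h1 : ∀ a b, OC y S a b ↔ OC y' S a b := fun a b => oc_dep _ a b y y' h
  simp only [Miss, Set.mem_ofPred_eq, h1]

/-- a cluster of `BL` sites reaches distance `R`, and no cluster of these sites reaches `BR` -/
def F1 (z : P2) (s R : ℤ) : Set Cf :=
  {y | (∃ u ∈ BL z s (2 * s), ∃ v ∈ Sp z R, OC y (HA z s R) u v) ∧
    ∀ u ∈ BL z s (2 * s), ∀ b ∈ BR z s R, ¬ OC y (HA z s R) b u}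

theorem oc_enter {y : Cf} {S W : Set P2} {u w : P2} (h : OC y S u w) (hu : u ∉ W) (hw : w ∈ W) :
    ∃ a b, OC y (S \ W) u a ∧ b ∈ W ∧ Nbr a b := by
  obtain ⟨huS, h⟩ := h
  have key : (∃ a b, OC y (S \ W) u a ∧ b ∈ W ∧ Nbr a b) ∨ OC y (S \ W) u w := by
    clear hw
    induction h with
    | refl => exact Or.inr (OC.refl ⟨huS, hu⟩)
    | @tail b c h1 h2 ih =>
      rcases ih with ih | ih
      · exact Or.inl ih
      · by_cases hc : c ∈ W
        · exact Or.inl ⟨b, c, ih, hc, pstep_nbr h2.1⟩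
        · exact Or.inr ⟨ih.1, ih.2.tail ⟨h2.1, ih.right, ⟨h2.2.2, hc⟩⟩⟩
  rcases key with h1 | h1
  · exact h1
  · exact absurd hw h1.right.2

theorem cl_walk {y : Cf} {S : Finset P2} {L : Set P2} {v : P2} (hv : v ∈ Cl y S L) :
    ∃ u ∈ L, u ∈ S ∧ Walk (Cl y S L : Set P2) u v := by
  have h := hv
  rw [mem_Cl] at h
  obtain ⟨u, hu, h1⟩ := h
  refine ⟨u, hu, h1.left, (h1.walk).mono ?_⟩
  rintro t ⟨ht, _⟩
  show t ∈ Cl y S L
  rw [mem_Cl]
  exact ⟨u, hu, ht⟩

theorem BR_sub {z : P2} {s s' R R' : ℤ} (hs : s' ≤ s) (hR : R ≤ R') : BR z s R ⊆ BR z s' R' := by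
  rintro v ⟨h1, h2, h3⟩
  exact ⟨h1, by omega, by omega⟩

theorem BL_sub {z : P2} {s s' R R' : ℤ} (hs : s' ≤ s) (hR : R ≤ R') : BL z s R ⊆ BL z s' R' := by
  rintro v ⟨h1, h2, h3⟩
  exact ⟨h1, by omega, by omega⟩

theorem BR_HA {z : P2} {s R : ℤ} {v : P2} (hs : 0 ≤ s) (h : v ∈ BR z s R) : v ∈ HA z s R := by
  obtain ⟨h1, h2, h3⟩ := h
  rw [mem_HA, sd_bot h1, abs_of_nonneg (by omega)]
  omega

theorem BL_HA {z : P2} {s R : ℤ} {v : P2} (hs : 0 ≤ s) (h : v ∈ BL z s R) : v ∈ HA z s R := by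
  obtain ⟨h1, h2, h3⟩ := h
  rw [mem_HA, sd_bot h1, abs_of_nonpos (by omega)]
  omega

/-- **Step 1.** The crossing cluster which misses `BR` can be joined to the bottom-left side. -/
theorem step1 (p : I) (z : P2) {s R : ℤ} (hs : 1 ≤ s) (hR : 2 * s ≤ R) :
    (nu p).real (MissR z s R) * (nu p).real (HO z s) ≤ (nu p).real (F1 z s R) := by
  classical
  set A := HA z s R with hA
  set B := BR z s R with hB
  set X : Finset P2 → Set Cf := fun W => Some1 (A \ W) (Sp z R) (innL z s R) with hX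
  set O : Finset P2 → Set Cf := fun W => EV ((A \ W) ∩ HA z s (2 * s) : Finset P2)
    (BL z s (2 * s)) {a | ∃ b ∈ W, Nbr a b} with hO
  have hXd : ∀ W, Dep (EI (A \ W)) (X W) := fun W => some1_dep _ _ _
  have hOd : ∀ W, Dep (EI (A \ W)) (O W) := fun W =>
    (ev_dep ((A \ W) ∩ HA z s (2 * s)) _ _).mono (EI_mono Finset.inter_subset_left)
  have e1 : (nu p).real (MissR z s R) =
      ∑ W ∈ A.powerset, (PB fun _ => p).real {y | Cl y A B = W} * (PB fun _ => p).real (X W) := by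
    rw [← expl_sum (fun _ => p) A B X hXd]
    congr 1
    ext y
    exact miss_iff
  have e2 : ∀ W ∈ A.powerset, (PB fun _ => p).real {y | Cl y A B = W} *
      (PB fun _ => p).real (X W) * (nu p).real (HO z s) ≤
      (PB fun _ => p).real {y | Cl y A B = W} * (PB fun _ => p).real (X W ∩ O W) := by
    intro W _
    by_cases hW : ∃ y0, Cl y0 A B = W
    swap
    · have : {y : Cf | Cl y A B = W} = ∅ := by
        ext y
        simp only [Set.mem_ofPred_eq, Set.mem_empty_iff_false, iff_false]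
        exact fun h => hW ⟨y, h⟩
      rw [this]
      simp
    obtain ⟨y0, hy0⟩ := hW
    rw [mul_assoc]
    refine mul_le_mul_of_nonneg_left ?_ measureReal_nonneg
    by_cases hU : ∃ u ∈ BL z s (2 * s), u ∈ W
    · obtain ⟨u, hu, huW⟩ := hU
      have h0 : X W = ∅ := by
        ext y
        simp only [Set.mem_empty_iff_false, iff_false]
        rintro ⟨x, hx, v, hv, h1⟩
        rw [← hy0] at huW
        obtain ⟨b, hb, hbA, hw⟩ := cl_walk huW
        have h2 := half_cross hs hw.symm h1.walk (fun t ht => Cl_sub ht) (fun t ht => by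
          have := ht.2
          simp only [Finset.coe_sdiff, Set.mem_sdiff, Finset.mem_coe] at this
          exact this.1) (BL_sub le_rfl hR hu) hb (mem_innL.1 hx).2 hv
        obtain ⟨t, ht1, ht2⟩ := h2
        have h3 := ht2.2
        simp only [Finset.coe_sdiff, Set.mem_sdiff, Finset.mem_coe] at h3
        exact h3.2 (hy0 ▸ ht1)
      rw [h0]
      simp
    · push Not at hU
      have h1 : (nu p).real (HO z s) ≤ (PB fun _ => p).real (O W) := by
        refine measureReal_mono ?_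
        rintro y ⟨u, hu, w, hw, h1⟩
        have hwW : w ∈ W := by
          rw [← hy0, mem_Cl]
          exact ⟨w, BR_sub le_rfl hR hw, OC.refl (HA_mono le_rfl hR h1.right)⟩
        obtain ⟨a, b, h2, h3, h4⟩ := oc_enter (W := (W : Set P2)) h1 (hU u hu) hwW
        refine ⟨u, hu, a, ⟨b, h3, h4⟩, h2.monoS ?_⟩
        rintro t ⟨ht1, ht2⟩
        simp only [Finset.coe_inter, Finset.coe_sdiff, Set.mem_inter_iff, Set.mem_sdiff,
          Finset.mem_coe]
        exact ⟨⟨HA_mono le_rfl hR ht1, ht2⟩, ht1⟩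
      calc (PB fun _ => p).real (X W) * (nu p).real (HO z s)
          ≤ (PB fun _ => p).real (X W) * (PB fun _ => p).real (O W) :=
            mul_le_mul_of_nonneg_left h1 measureReal_nonneg
        _ ≤ _ := harris _ (hXd W) (hOd W) (ev_inc _ _ _) (ev_inc _ _ _)
  have e3 := expl_ge (fun _ => p) A B (F1 z s R) (fun W => X W ∩ O W)
    (fun W => (hXd W).inter (hOd W)) (by
    rintro y ⟨⟨x, hx, v, hv, h1⟩, u, hu, a, ⟨b, hbW, hab⟩, h2⟩
    set W := Cl y A B with hW
    have h2' : OC y (A \ W : Finset P2) u a := h2.monoS (by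
      intro t ht
      simp only [Finset.coe_inter, Set.mem_inter_iff] at ht
      exact ht.1)
    obtain ⟨w, hw, hwA, hwalk⟩ := cl_walk hbW
    have hwm : ∀ t, t ∈ ((A \ W : Finset P2) : Set P2) → t ∈ A ∧ t ∉ W := by
      intro t ht
      simpa using ht
    -- the walk from the bottom left to the bottom right
    have w1 : Walk ({t | OC y (A \ W : Finset P2) u t ∧ t ∈ ((A \ W : Finset P2) : Set P2)} ∪
        (W : Set P2)) u w := by
      have e1 := h2'.walk.mono (T' := {t | OC y (A \ W : Finset P2) u t ∧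
        t ∈ ((A \ W : Finset P2) : Set P2)} ∪ (W : Set P2)) Set.subset_union_left
      have e2 := hwalk.symm.mono (T' := {t | OC y (A \ W : Finset P2) u t ∧
        t ∈ ((A \ W : Finset P2) : Set P2)} ∪ (W : Set P2)) Set.subset_union_right
      exact (e1.trans (Walk.step e1.right e2.left hab)).trans e2
    obtain ⟨t, ht1, ht2⟩ := half_cross hs w1 h1.walk (by
      rintro t (ht | ht)
      · exact (hwm t ht.2).1
      · exact Cl_sub ht) (fun t ht => (hwm t ht.2).1) (BL_sub le_rfl hR hu) hw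
      (mem_innL.1 hx).2 hv
    have h5 : OC y (A \ W : Finset P2) u t := by
      rcases ht1 with ht1 | ht1
      · exact ht1.1
      · exact absurd ht1 (hwm t ht2.2).2
    have h6 : OC y (A \ W : Finset P2) u v := (h5.trans ht2.1.symm).trans h1
    refine ⟨⟨u, hu, v, hv, oc_sdiff h6⟩, ?_⟩
    intro u' hu' b' hb' h7
    -- the cluster of `u'` would separate
    obtain ⟨t', ht3, ht4⟩ := half_cross hs h7.symm.walk h1.walk (fun t ht => ht.2)
      (fun t ht => (hwm t ht.2).1) (BL_sub le_rfl hR hu') hb' (mem_innL.1 hx).2 hv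
    have h8 : OC y A b' t' := h7.trans ht3.1
    exact (hwm t' ht4.2).2 (mem_Cl.2 ⟨b', hb', h8⟩))
  rw [e1, Finset.sum_mul]
  exact (Finset.sum_le_sum e2).trans e3

/-- a site of `BL z s (2s)` is joined to distance `R` in the half box, but to no bottom site on the
right of `z.1 + 2 s` -/
def F2 (z : P2) (s R : ℤ) : Set Cf :=
  {y | ∃ u ∈ BL z s (2 * s), (∃ v ∈ Sp z R, OC y (HA z 0 R) u v) ∧
    ∀ x : ℤ, z.1 + 2 * s < x → ¬ OC y (HA z 0 R) (x, z.2) u}

/-- **Step 2.** -/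
theorem step2 {p : I} {c : ℝ} (z : P2) {s R : ℤ} (hs : 1 ≤ s) (hR : 2 * s ≤ R)
    (hc : (nu p).real (HX z s (2 * s)) ≤ 1 - c) :
    (nu p).real (F1 z s R) * c ≤ (nu p).real (F2 z s R) := by
  classical
  set A := HA z s R with hA
  set B := BL z s (2 * s) with hB
  set Q : Finset P2 → Prop := fun W => (∃ v ∈ Sp z R, v ∈ W) ∧ ∀ b ∈ BR z s R, b ∉ W with hQ
  set Y : Finset P2 → Set Cf := fun W => if Q W then
    (EV (HA z s (2 * s) \ W : Finset P2) (Sp z s) (Sp z (2 * s)))ᶜ else ∅ with hY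
  have hAsub : ∀ W, HA z s (2 * s) \ W ⊆ A \ W := fun W =>
    Finset.sdiff_subset_sdiff (HA_mono le_rfl hR) (Finset.Subset.refl _)
  have hYd : ∀ W, Dep (EI (A \ W)) (Y W) := by
    intro W
    simp only [hY]
    split_ifs
    · exact ((ev_dep (HA z s (2 * s) \ W) _ _).mono (EI_mono (hAsub W))).compl
    · intro z z' _; rfl
  have e1 : (nu p).real (F1 z s R) = ∑ W ∈ A.powerset,
      (PB fun _ => p).real {y | Cl y A B = W} * (if Q W then 1 else 0) := by
    rw [sum_Cl (fun _ => p) A B Q]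
    congr 1
    ext y
    simp only [F1, hQ, Set.mem_ofPred_eq, mem_Cl]
    constructor
    · rintro ⟨⟨u, hu, v, hv, h1⟩, h2⟩
      refine ⟨⟨v, hv, u, hu, h1⟩, ?_⟩
      rintro b hb ⟨u', hu', h3⟩
      exact h2 u' hu' b hb h3.symm
    · rintro ⟨⟨v, hv, u, hu, h1⟩, h2⟩
      refine ⟨⟨u, hu, v, hv, h1⟩, ?_⟩
      intro u' hu' b hb h3
      exact h2 b hb ⟨u', hu', h3.symm⟩
  have e2 : ∀ W ∈ A.powerset, (PB fun _ => p).real {y | Cl y A B = W} *
      (if Q W then 1 else 0) * c ≤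
      (PB fun _ => p).real {y | Cl y A B = W} * (PB fun _ => p).real (Y W) := by
    intro W _
    rw [mul_assoc]
    refine mul_le_mul_of_nonneg_left ?_ measureReal_nonneg
    simp only [hY]
    split_ifs
    · rw [one_mul, probReal_compl_eq_one_sub (ev_dep _ _ _).measurableSet]
      have h1 : (PB fun _ : Edge => p).real
          (EV (HA z s (2 * s) \ W : Finset P2) (Sp z s) (Sp z (2 * s))) ≤
          (nu p).real (HX z s (2 * s)) := by
        refine measureReal_mono ?_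
        refine EV_mono ?_ subset_rfl subset_rfl
        simp
      linarith
    · simp
  have e3 := expl_ge (fun _ => p) A B (F2 z s R) Y hYd (by
    intro y hy
    set W := Cl y A B with hW
    simp only [hY] at hy
    split_ifs at hy with hq
    swap
    · exact absurd hy (by simp)
    obtain ⟨⟨v, hv, hvW⟩, hq2⟩ := hq
    rw [hW, mem_Cl] at hvW
    obtain ⟨u, hu, h1⟩ := hvW
    have hAD : ((A : Finset P2) : Set P2) ⊆ (HA z 0 R : Finset P2) := by
      exact_mod_cast HA_mono (by omega) le_rfl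
    refine ⟨u, hu, ⟨v, hv, h1.monoS hAD⟩, ?_⟩
    intro x hx h2
    have hxD := mem_HA.1 h2.left
    have hxB : ((x, z.2) : P2) ∈ BR z s R := by
      have := sd_le.1 hxD.2.2
      exact ⟨rfl, by simp only; omega, by simp only at this ⊢; omega⟩
    have hxW := hq2 _ hxB
    have hxs : 2 * s ≤ sd z (x, z.2) := by
      rw [le_sd]
      simp only
      omega
    have hmemA : ∀ t, t ∈ ((HA z 0 R : Finset P2) : Set P2) ∩ {q | s ≤ sd z q} → t ∈ A := by
      rintro t ⟨ht1, ht2⟩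
      have h3 := mem_HA.1 ht1
      have h4 : s ≤ sd z t := ht2
      exact mem_HA.2 ⟨h3.1, h4, h3.2.2⟩
    rcases oc_stay (sd z) s h2 with h3 | ⟨t, ht, h3⟩
    · apply hxW
      rw [hW, mem_Cl]
      exact ⟨u, hu, (h3.monoS (fun t ht => hmemA t ht)).symm⟩
    · obtain ⟨w', h4, h5, _⟩ := last_exit (sd z) (sd_nbr z) s h3.symm (by omega) (by omega)
      have h6 : OC y A w' (x, z.2) := h5.monoS (fun t ht => hmemA t ht)
      have h7 : w' ∉ Cl y A B := fun h8 => hxW (Cl_step h8 h6)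
      have h8 := oc_out h7 h6
      obtain ⟨w'', h9, h10⟩ := first_hit_sd (z := z) (k := 2 * s) h8 (by omega) hxs
      apply hy
      refine ⟨w', h4, w'', h9, h10.monoS ?_⟩
      rintro t ⟨ht1, ht2⟩
      simp only [Finset.coe_sdiff, Set.mem_sdiff, Finset.mem_coe] at ht1 ⊢
      have ht3 : sd z t ≤ 2 * s := ht2
      have ht4 := mem_HA.1 ht1.1
      exact ⟨mem_HA.2 ⟨ht4.1, ht4.2.1, ht3⟩, ht1.2⟩)
  rw [e1, Finset.sum_mul]
  exact (Finset.sum_le_sum e2).trans e3

/-- **Step 3.** -/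
theorem step3 (z : P2) {s R : ℤ} (hR : 4 * s ≤ R) (hR0 : 0 ≤ R) :
    F2 z s R ⊆ ⋃ i ∈ Finset.Icc (-(2 * s)) (2 * s), SegE (z.1 + i, z.2) (R - 2 * s) := by
  classical
  rintro y ⟨u, hu, ⟨v, hv, h1⟩, h2⟩
  obtain ⟨hu2, hu1, hu1'⟩ := hu
  set J : Finset ℤ := (Finset.Icc (-R) R).filter fun i => OC y (HA z 0 R) u (z.1 + i, z.2) with hJ
  have hJm : ∀ i, i ∈ J ↔ OC y (HA z 0 R) u (z.1 + i, z.2) := by
    intro i
    simp only [hJ, Finset.mem_filter, Finset.mem_Icc, and_iff_right_iff_imp]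
    intro h3
    have h4 := sd_le.1 (mem_HA.1 h3.right).2.2
    simp only at h4
    omega
  have hu' : u = (z.1 + (u.1 - z.1), z.2) := by
    ext
    · simp
    · exact hu2
  have huJ : u.1 - z.1 ∈ J := by
    rw [hJm, ← hu']
    exact OC.refl h1.left
  have hne : J.Nonempty := ⟨_, huJ⟩
  set i := J.max' hne with hi
  have hiJ : i ∈ J := J.max'_mem hne
  have hmax : ∀ j ∈ J, j ≤ i := fun j hj => J.le_max' j hj
  have hi1 : u.1 - z.1 ≤ i := hmax _ huJ
  have hi2 : i ≤ 2 * s := by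
    by_contra h3
    exact h2 (z.1 + i) (by omega) ((hJm i).1 hiJ).symm
  simp only [Set.mem_iUnion, Finset.mem_Icc]
  refine ⟨i, ⟨by omega, hi2⟩, ?_⟩
  have h3 : OC y (HA z 0 R) (z.1 + i, z.2) v := ((hJm i).1 hiJ).symm.trans h1
  have hv' : sd z v = R := hv
  have hvs : R - 2 * s ≤ sd (z.1 + i, z.2) v := by
    have h4 : R ≤ sd z v := hv'.ge
    rw [le_sd] at h4 ⊢
    simp only
    omega
  constructor
  · obtain ⟨w, h5, h6⟩ := first_hit_sd (z := ((z.1 + i, z.2) : P2)) (k := R - 2 * s) h3 (by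
      have : sd ((z.1 + i, z.2) : P2) (z.1 + i, z.2) ≤ 0 :=
        sd_le.2 ⟨by omega, by omega, by omega, by omega⟩
      omega) hvs
    refine ⟨w, h5, h6.monoS ?_⟩
    rintro t ⟨ht1, ht2⟩
    have ht1' := mem_HA.1 ht1
    have ht2' : sd ((z.1 + i, z.2) : P2) t ≤ R - 2 * s := ht2
    exact mem_HA.2 ⟨ht1'.1, sd_nonneg' _ _, ht2'⟩
  · intro x hx h5
    have hsub : ((HA (z.1 + i, z.2) 0 (R - 2 * s) : Finset P2) : Set P2) ⊆
        (HA z 0 R : Finset P2) := by
      intro t ht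
      have ht' := mem_HA.1 ht
      have h6 := sd_le.1 ht'.2.2
      simp only at h6 ht'
      exact mem_HA.2 ⟨ht'.1, sd_nonneg' _ _, sd_le.2 ⟨by omega, by omega, by omega, by omega⟩⟩
    have h6 : OC y (HA z 0 R) u (x, z.2) := ((hJm i).1 hiJ).trans (h5.monoS hsub).symm
    have h7 : x - z.1 ∈ J := by
      rw [hJm]
      have : ((z.1 + (x - z.1), z.2) : P2) = (x, z.2) := by
        ext <;> simp
      rw [this]
      exact h6
    have := hmax _ h7
    simp only at hx
    omega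

/-- **Half-plane two arms, ball form.** -/
theorem missR_le {p : I} {c : ℝ} {N1 N2 : ℤ} (h : Rsw p c N1 N2) (z : P2) {s R : ℤ} (hs : 1 ≤ s)
    (hsR : s ≤ R) (hsN : s ≤ N1) (hN : R ≤ N2) :
    (nu p).real (MissR z s R) ≤ 40 / c ^ 3 * ((s : ℝ) / R) := by
  have hc := h.pos
  have hc1 := h.c_lt_one (by omega)
  have hs0 : (1 : ℝ) ≤ s := by exact_mod_cast hs
  have hR0 : (s : ℝ) ≤ R := by exact_mod_cast hsR
  have hRp : (0 : ℝ) < R := by linarith
  have hc3 : c ^ 3 ≤ 1 := pow_le_one₀ hc.le hc1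
  by_cases h4 : 4 * s ≤ R
  · have h1 := step1 p z hs (by omega : 2 * s ≤ R)
    have h2 := step2 (p := p) (c := c) z hs (by omega : 2 * s ≤ R) (h.hx z s hs (by omega))
    have h3 : (nu p).real (F2 z s R) ≤ (4 * s + 1) * (4 / (c * (R - 2 * s : ℤ))) := by
      refine (measureReal_mono (step3 z h4 (by omega)) (measure_ne_top _ _)).trans ?_
      refine (measureReal_biUnion_finset_le _ _).trans ?_
      refine (Finset.sum_le_card_nsmul _ _ (4 / (c * (R - 2 * s : ℤ))) fun i _ =>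
        segE_le h _ (by omega) (by omega)).trans ?_
      rw [Int.card_Icc, nsmul_eq_mul]
      refine le_of_eq ?_
      congr 1
      have : (((2 * s + 1 - -(2 * s)).toNat : ℕ) : ℤ) = 4 * s + 1 := by omega
      exact_mod_cast this
    have h5 := h.ho z s hs hsN
    have h6 : 0 ≤ (nu p).real (MissR z s R) := measureReal_nonneg
    have h7 : (nu p).real (MissR z s R) * c ^ 2 ≤ (4 * s + 1) * (4 / (c * (R - 2 * s : ℤ))) := by
      calc (nu p).real (MissR z s R) * c ^ 2 = (nu p).real (MissR z s R) * c * c := by ring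
        _ ≤ (nu p).real (MissR z s R) * (nu p).real (HO z s) * c := by
            gcongr
        _ ≤ (nu p).real (F1 z s R) * c := mul_le_mul_of_nonneg_right h1 hc.le
        _ ≤ _ := h2.trans h3
    have h8 : (4 * (s : ℝ) + 1) * (4 / (c * (R - 2 * s : ℤ))) ≤ 40 * s / (c * R) := by
      have h9 : (R : ℝ) / 2 ≤ ((R - 2 * s : ℤ) : ℝ) := by
        push_cast
        have : (4 : ℝ) * s ≤ R := by exact_mod_cast h4
        linarith
      have h10 : (0 : ℝ) < R / 2 := by positivity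
      have h12 : (0 : ℝ) < ((R - 2 * s : ℤ) : ℝ) := lt_of_lt_of_le h10 h9
      have h13 : 4 * (s : ℝ) + 1 ≤ 5 * s := by linarith
      calc (4 * (s : ℝ) + 1) * (4 / (c * (R - 2 * s : ℤ)))
          ≤ (5 * s) * (4 / (c * (R / 2))) := by
            gcongr
        _ = 40 * s / (c * R) := by
            field_simp
            ring
    rw [← mul_div_assoc, ← mul_div_right_comm, div_div, le_div_iff₀ (by positivity)]
    have h11 := h7.trans h8
    rw [le_div_iff₀ (by positivity)] at h11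
    calc (nu p).real (MissR z s R) * (c ^ 3 * (R : ℝ)) =
        (nu p).real (MissR z s R) * c ^ 2 * (c * (R : ℝ)) := by ring
      _ ≤ 40 * (s : ℝ) := h11
  · refine measureReal_le_one.trans ?_
    have h5 : (R : ℝ) ≤ 4 * s := by exact_mod_cast (show R ≤ 4 * s by omega)
    rw [← mul_div_assoc, ← mul_div_right_comm, div_div, le_div_iff₀ (by positivity), one_mul]
    nlinarith

/-! ### reflection -/

/-- reflection in the vertical line through `z` -/
def syV (z : P2) : Sy := syR (Refl.vert (2 * z.1))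

theorem syV_V (z v : P2) : (syV z).V v = (2 * z.1 - v.1, v.2) := rfl

theorem sd_syV (z v : P2) : sd z ((syV z).V v) = sd z v := by
  rw [syV_V]
  unfold sd
  simp only
  have : 2 * z.1 - v.1 - z.1 = -(v.1 - z.1) := by ring
  rw [this, abs_neg]

theorem syV_VV (z v : P2) : (syV z).V ((syV z).V v) = v := by
  rw [syV_V, syV_V]
  ext
  · simp
  · rfl

theorem missL_eq (p : I) (z : P2) (s R : ℤ) :
    (nu p).real (MissL z s R) = (nu p).real (MissR z s R) := by
  have hm : MeasurableSet (MissR z s R) := (miss_dep _ _ _ _).measurableSet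
  rw [← (syV z).prob p hm]
  congr 1
  ext y
  have hS : ∀ v, v ∈ ((HA z s R : Finset P2) : Set P2) ↔
      (syV z).V v ∈ ((HA z s R : Finset P2) : Set P2) := by
    intro v
    rw [Finset.mem_coe, Finset.mem_coe, mem_HA, mem_HA, sd_syV]
    exact Iff.rfl
  have key : ∀ u v : P2, OC (fun e => y ((syV z).E e)) (HA z s R) u v ↔
      OC y (HA z s R) ((syV z).V u) ((syV z).V v) := fun u v => (syV z).oc_iff hS
  have hSp : ∀ v, v ∈ Sp z R → (syV z).V v ∈ Sp z R := by
    intro v hv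
    show sd z _ = R
    rw [sd_syV]
    exact hv
  have hInn : ∀ v, v ∈ Inn z s → (syV z).V v ∈ Inn z s := by
    rintro v ⟨h1, u, h2, h3, h4⟩
    refine ⟨by rw [sd_syV]; exact h1, (syV z).V u, ?_, by rw [sd_syV]; exact h3, h4⟩
    rw [syV_V, syV_V]
    unfold Nbr at h2 ⊢
    simp only
    omega
  have hRL : ∀ v, v ∈ BR z s R → (syV z).V v ∈ BL z s R := by
    rintro v ⟨h1, h2, h3⟩
    rw [syV_V]
    exact ⟨h1, by simp only; omega, by simp only; omega⟩
  have hLR : ∀ v, v ∈ BL z s R → (syV z).V v ∈ BR z s R := by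
    rintro v ⟨h1, h2, h3⟩
    rw [syV_V]
    exact ⟨h1, by simp only; omega, by simp only; omega⟩
  rw [mem_missL]
  simp only [Set.mem_ofPred_eq, mem_missR, key]
  constructor
  · rintro ⟨x, hx, v, hv, h1, h2⟩
    refine ⟨(syV z).V x, hInn x hx, (syV z).V v, hSp v hv, ?_, ?_⟩
    · rw [syV_VV, syV_VV]
      exact h1
    · intro b hb h3
      rw [syV_VV] at h3
      exact h2 _ (hRL b hb) h3
  · rintro ⟨x, hx, v, hv, h1, h2⟩
    refine ⟨(syV z).V x, hInn x hx, (syV z).V v, hSp v hv, h1, ?_⟩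
    intro b hb h3
    refine h2 ((syV z).V b) (hLR b hb) ?_
    rw [syV_VV]
    exact h3

theorem missL_le {p : I} {c : ℝ} {N1 N2 : ℤ} (h : Rsw p c N1 N2) (z : P2) {s R : ℤ} (hs : 1 ≤ s)
    (hsR : s ≤ R) (hsN : s ≤ N1) (hN : R ≤ N2) :
    (nu p).real (MissL z s R) ≤ 40 / c ^ 3 * ((s : ℝ) / R) := by
  rw [missL_eq]
  exact missR_le h z hs hsR hsN hN

/-! ### two crossing clusters -/

/-- two distinct crossing clusters of the half annulus -/
def TTh (z : P2) (s R : ℤ) : Set Cf :=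
  {y | ∃ x ∈ Sp z s, ∃ v ∈ Sp z R, ∃ x' ∈ Sp z s, ∃ v' ∈ Sp z R, OC y (HA z s R) x v ∧
    OC y (HA z s R) x' v' ∧ ¬ OC y (HA z s R) x x'}

/-- a crossing cluster of the half annulus which misses the flat side -/
def TWh (z : P2) (s R : ℤ) : Set Cf :=
  {y | ∃ x ∈ Sp z s, ∃ v ∈ Sp z R, OC y (HA z s R) x v ∧
    ∀ b : P2, b.2 = z.2 → ¬ OC y (HA z s R) b x}

/-- restriction of a crossing to `HA z (s+1) R` -/
theorem cross_shrink {y : Cf} {z : P2} {s R : ℤ} (hsR : s + 1 ≤ R) {x v : P2} (hx : x ∈ Sp z s)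
    (hv : v ∈ Sp z R) (h : OC y (HA z s R) x v) :
    ∃ w ∈ Inn z (s + 1), OC y (HA z (s + 1) R) w v ∧ OC y (HA z s R) x w := by
  have hx' : sd z x = s := hx
  have hv' : sd z v = R := hv
  obtain ⟨w, h1, h2, h3⟩ := last_exit_inn (z := z) (k := s + 1) h (by omega) (by omega)
    (fun t ht => (mem_HA.1 ht).1)
  refine ⟨w, h1, h2.monoS ?_, h3⟩
  rintro t ⟨ht1, ht2⟩
  have ht1' := mem_HA.1 ht1
  have ht2' : s + 1 ≤ sd z t := ht2
  exact mem_HA.2 ⟨ht1'.1, ht2', ht1'.2.2⟩

theorem TWh_sub {z : P2} {s R : ℤ} (hsR : s + 1 ≤ R) : TWh z s R ⊆ MissR z (s + 1) R := by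
  rintro y ⟨x, hx, v, hv, h1, h2⟩
  obtain ⟨w, hw, h3, h4⟩ := cross_shrink hsR hx hv h1
  rw [mem_missR]
  refine ⟨w, hw, v, hv, h3, ?_⟩
  intro b hb h5
  have hsub : ((HA z (s + 1) R : Finset P2) : Set P2) ⊆ (HA z s R : Finset P2) := by
    exact_mod_cast HA_mono (by omega) le_rfl
  exact h2 b hb.1 ((h5.monoS hsub).trans h4.symm)

theorem TTh_sub {z : P2} {s R : ℤ} (hs : 0 ≤ s) (hsR : s + 1 ≤ R) : TTh z s R ⊆
    Two (HA z (s + 1) R) (Sp z R) (BR z (s + 1) R) (innL z (s + 1) R) ∪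
    Two (HA z (s + 1) R) (Sp z R) (BL z (s + 1) R) (innL z (s + 1) R) := by
  rintro y ⟨x, hx, v, hv, x', hx', v', hv', h1, h1', h2⟩
  obtain ⟨w, hw, h3, h4⟩ := cross_shrink hsR hx hv h1
  obtain ⟨w', hw', h3', h4'⟩ := cross_shrink hsR hx' hv' h1'
  have hsub : ((HA z (s + 1) R : Finset P2) : Set P2) ⊆ (HA z s R : Finset P2) := by
    exact_mod_cast HA_mono (by omega) le_rfl
  have hne : ¬ OC y (HA z (s + 1) R) w w' := by
    intro h5
    exact h2 ((h4.trans (h5.monoS hsub)).trans h4'.symm)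
  have hwl : w ∈ innL z (s + 1) R := mem_innL.2 ⟨h3.left, hw⟩
  have hwl' : w' ∈ innL z (s + 1) R := mem_innL.2 ⟨h3'.left, hw'⟩
  by_cases hb : ∀ b ∈ BR z (s + 1) R, ¬ OC y (HA z (s + 1) R) b w
  · left
    exact ⟨w, hwl, v, hv, h3, hb, w', hwl', v', hv', h3', hne⟩
  · right
    refine ⟨w, hwl, v, hv, h3, ?_, w', hwl', v', hv', h3', hne⟩
    push Not at hb
    obtain ⟨b, hb, hbw⟩ := hb
    intro a ha haw
    have h6 : OC y (HA z (s + 1) R) a b := haw.trans hbw.symm
    obtain ⟨t, ht1, ht2⟩ := half_cross (by omega : 1 ≤ s + 1) h6.walk h3'.walk (fun t ht => ht.2)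
      (fun t ht => ht.2) ha hb hw' hv'
    exact hne ((haw.symm.trans ht1.1).trans ht2.1.symm)

theorem some1_sub {z : P2} {s R : ℤ} : Some1 (HA z s R) (Sp z R) (innL z s R) ⊆ HX z s R := by
  rintro y ⟨x, hx, v, hv, h⟩
  exact ⟨x, (mem_innL.1 hx).2.1, v, hv, h⟩

theorem two_sub_miss {S : Finset P2} {F B : Set P2} {l : List P2} : Two S F B l ⊆ Miss S F B l := by
  rintro y ⟨x, hx, v, hv, h1, h2, _⟩
  exact ⟨x, hx, v, hv, h1, h2⟩

theorem ratio_bound {s R : ℝ} (hs : 1 ≤ s) (hR : 0 < R) : (s + 1) / R ≤ 2 * (s / R) := by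
  rw [← mul_div_assoc, div_le_div_iff_of_pos_right hR]
  linarith

/-- **Half-plane two arms.** -/
theorem two_arm {p : I} {c : ℝ} {N1 N2 : ℤ} (h : Rsw p c N1 N2) (z : P2) {s R : ℤ} (hs : 1 ≤ s)
    (hsR : s ≤ R) (hsN : s + 1 ≤ N1) (hN : R ≤ N2) :
    (nu p).real (TTh z s R ∪ TWh z s R) ≤ 160 / c ^ 3 * ((s : ℝ) / R) := by
  have hc := h.pos
  have hc1 := h.c_lt_one (by omega)
  have hs0 : (1 : ℝ) ≤ s := by exact_mod_cast hs
  have hR0 : (s : ℝ) ≤ R := by exact_mod_cast hsR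
  have hRp : (0 : ℝ) < R := by linarith
  have hc3 : c ^ 3 ≤ 1 := pow_le_one₀ hc.le hc1
  by_cases h4 : s + 1 ≤ R
  · have h1 : TTh z s R ∪ TWh z s R ⊆ MissR z (s + 1) R ∪ MissL z (s + 1) R := by
      rintro y (hy | hy)
      · rcases TTh_sub (by omega) h4 hy with hy | hy
        · exact Or.inl (two_sub_miss hy)
        · exact Or.inr (two_sub_miss hy)
      · exact Or.inl (TWh_sub h4 hy)
    have h2 := missR_le h z (by omega : 1 ≤ s + 1) h4 hsN hN
    have h3 := missL_le h z (by omega : 1 ≤ s + 1) h4 hsN hN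
    have h5 := ratio_bound hs0 hRp
    push_cast at h2 h3
    have h6 : 0 ≤ 40 / c ^ 3 := by positivity
    calc (nu p).real (TTh z s R ∪ TWh z s R)
        ≤ (nu p).real (MissR z (s + 1) R) + (nu p).real (MissL z (s + 1) R) :=
          (measureReal_mono h1).trans (measureReal_union_le _ _)
      _ ≤ 80 / c ^ 3 * (((s : ℝ) + 1) / R) := by
          have : 80 / c ^ 3 * (((s : ℝ) + 1) / R) =
            40 / c ^ 3 * (((s : ℝ) + 1) / R) + 40 / c ^ 3 * (((s : ℝ) + 1) / R) := by ring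
          linarith
      _ ≤ 80 / c ^ 3 * (2 * ((s : ℝ) / R)) := mul_le_mul_of_nonneg_left h5 (by positivity)
      _ = _ := by ring
  · refine measureReal_le_one.trans ?_
    have h5 : s = R := by omega
    rw [h5, div_self hRp.ne', mul_one, le_div_iff₀ (by positivity)]
    linarith

/-- **Half-plane three arms.** -/
theorem three_arm {p : I} {c : ℝ} {N1 N2 : ℤ} (h : Rsw p c N1 N2) (hc2 : c ≤ 1 / 2) (z : P2) {s R : ℤ}
    (hs : 1 ≤ s) (hsR : s ≤ R) (hsN : s + 1 ≤ N1) (hN : R ≤ N2) :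
    (nu p).real (TTh z s R) ≤ 1280 / c ^ 4 * ((s : ℝ) / R) ^ (1 + aex c) := by
  have hc := h.pos
  have hs0 : (1 : ℝ) ≤ s := by exact_mod_cast hs
  have hR0 : (s : ℝ) ≤ R := by exact_mod_cast hsR
  have hsp : (0 : ℝ) < s := by linarith
  have hRp : (0 : ℝ) < R := by linarith
  have hc4 : c ^ 4 ≤ 1 := pow_le_one₀ hc.le (by linarith)
  have ha := aex_pos hc hc2
  have ha1 := aex_le_one hc hc2
  have hq : 0 < (s : ℝ) / R := by positivity
  by_cases h4 : 2 * (s + 1) ≤ R
  · set S := HA z (s + 1) R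
    set l := innL z (s + 1) R
    have h1 : (nu p).real (Some1 S (Sp z R) l) ≤ 1 - c :=
      (measureReal_mono (some1_sub.trans (HX_sub le_rfl (by omega) h4))).trans
        (h.hx z (s + 1) (by omega) (by omega))
    have h2 : (nu p).real (Some1 S (Sp z R) l) ≤ 4 * (((s + 1 : ℤ) : ℝ) / R) ^ aex c :=
      (measureReal_mono some1_sub).trans (HX_pow h hc2 z (by omega) (by omega) hN)
    have h3 := two_le (fun _ => p) (q := 1 - c) (by linarith) S (Sp z R) (BR z (s + 1) R) l h1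
    have h3' := two_le (fun _ => p) (q := 1 - c) (by linarith) S (Sp z R) (BL z (s + 1) R) l h1
    rw [sub_sub_cancel] at h3 h3'
    have h5 := missR_le h z (by omega : 1 ≤ s + 1) (by omega : s + 1 ≤ R) hsN hN
    have h6 := missL_le h z (by omega : 1 ≤ s + 1) (by omega : s + 1 ≤ R) hsN hN
    push_cast at h2 h5 h6
    have h7 := ratio_bound hs0 hRp
    set t : ℝ := (s : ℝ) / R with ht
    have h8 : (((s : ℝ) + 1) / R) ^ aex c ≤ 2 * t ^ aex c := by
      calc (((s : ℝ) + 1) / R) ^ aex c ≤ (2 * t) ^ aex c :=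
            Real.rpow_le_rpow (by positivity) h7 ha.le
        _ = 2 ^ aex c * t ^ aex c := Real.mul_rpow (by norm_num) hq.le
        _ ≤ 2 * t ^ aex c := by
            refine mul_le_mul_of_nonneg_right ?_ (by positivity)
            calc (2 : ℝ) ^ aex c ≤ 2 ^ (1 : ℝ) :=
                  Real.rpow_le_rpow_of_exponent_le (by norm_num) ha1
              _ = 2 := Real.rpow_one _
    have h9 : (nu p).real (Some1 S (Sp z R) l) ≤ 8 * t ^ aex c := by linarith
    have key : ∀ M : ℝ, 0 ≤ M → M ≤ 40 / c ^ 3 * (((s : ℝ) + 1) / R) →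
        M / c * (nu p).real (Some1 S (Sp z R) l) ≤ 640 / c ^ 4 * (t * t ^ aex c) := by
      intro M hM0 hM
      have h10 : M ≤ 80 / c ^ 3 * t := by
        refine hM.trans ?_
        calc 40 / c ^ 3 * (((s : ℝ) + 1) / R) ≤ 40 / c ^ 3 * (2 * t) :=
              mul_le_mul_of_nonneg_left h7 (by positivity)
          _ = 80 / c ^ 3 * t := by ring
      calc M / c * (nu p).real (Some1 S (Sp z R) l)
          ≤ (80 / c ^ 3 * t) / c * (8 * t ^ aex c) := by
            gcongr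
        _ = 640 / c ^ 4 * (t * t ^ aex c) := by
            field_simp
            ring
    have h10 : (nu p).real (TTh z s R) ≤
        (nu p).real (Two S (Sp z R) (BR z (s + 1) R) l) +
        (nu p).real (Two S (Sp z R) (BL z (s + 1) R) l) :=
      (measureReal_mono (TTh_sub (by omega) (by omega))).trans (measureReal_union_le _ _)
    have h11 := h3.trans (key _ measureReal_nonneg h5)
    have h12 := h3'.trans (key _ measureReal_nonneg h6)
    rw [Real.rpow_add hq, Real.rpow_one]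
    have h13 : 1280 / c ^ 4 * (t * t ^ aex c) =
        640 / c ^ 4 * (t * t ^ aex c) + 640 / c ^ 4 * (t * t ^ aex c) := by ring
    rw [h13]
    exact h10.trans (add_le_add h11 h12)
  · refine measureReal_le_one.trans ?_
    have h5 : (R : ℝ) ≤ 4 * s := by exact_mod_cast (show R ≤ 4 * s by omega)
    have h6 : (1 : ℝ) / 4 ≤ (s : ℝ) / R := by
      rw [div_le_div_iff₀ (by norm_num) hRp]
      linarith
    have h7 : (s : ℝ) / R ≤ 1 := by
      rw [div_le_one hRp]
      exact hR0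
    have h8 : ((1 : ℝ) / 4) ^ (2 : ℝ) ≤ ((s : ℝ) / R) ^ (1 + aex c) := by
      calc ((1 : ℝ) / 4) ^ (2 : ℝ) ≤ ((s : ℝ) / R) ^ (2 : ℝ) :=
            Real.rpow_le_rpow (by norm_num) h6 (by norm_num)
        _ ≤ ((s : ℝ) / R) ^ (1 + aex c) :=
            Real.rpow_le_rpow_of_exponent_ge hq h7 (by linarith)
    have h9 : ((1 : ℝ) / 4) ^ (2 : ℝ) = 1 / 16 := by
      rw [Real.rpow_two]
      norm_num
    rw [h9] at h8
    have h10 : (1280 : ℝ) ≤ 1280 / c ^ 4 := by
      rw [le_div_iff₀ (by positivity)]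
      nlinarith
    nlinarith

end Crest.Agent.R158.Hp814
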