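import Crest.Agent.R158.Hp4_814
import Crest.Agent.R158.Os5_488
import Crest.Agent.R158.Rs8_689

/-!
# Row 158, Block HP (helper814): the hypothesis `Rsw` from crossings of rectangles

* `cR c = (c/2)^32`
* `rsw_of_rs` : `RS (nu p) c N1` and `RS (nu (σ p)) c N2` give `Rsw p (cR c) N1 N2`
* `rsw_of_rscale`, `rsw_half`, `rsw_below` (`p ≤ 1/2`: `N2` arbitrary)
-/

set_option autoImplicit false

noncomputable section

namespace Crest.Agent.R158.Hp814

open MeasureTheory ProbabilityTheory unitInterval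
open Crest.ProbabilityR.Percolation
open Crest.Agent.R161.Geo729 Crest.Agent.R161.Topo374 Crest.Agent.R161.Dual374
open Crest.Agent.R161.Tas682 Crest.Agent.R158.Rs689 Crest.Agent.R161.Sym597
open Crest.Agent.R158.Qm522 Crest.Agent.R158.Os488

theorem incEV (S : Finset P2) (A B : Set P2) : Inc (EV S A B) := ev_inc _ _ _

theorem lr_dep (a b c d : ℤ) : ∃ T : Finset Edge, Dep T {z : Cf | LRc z a b c d} := by
  classical
  refine ⟨EI (Finset.Icc a b ×ˢ Finset.Icc c d), ?_⟩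
  have h : Rect a b c d = ((Finset.Icc a b ×ˢ Finset.Icc c d : Finset P2) : Set P2) := by
    ext v
    simp only [mem_rect, Finset.coe_product, Finset.coe_Icc, Set.mem_prod, Set.mem_Icc]
    tauto
  rw [setOf_LRc, h]
  exact ev_dep _ _ _

theorem bt_dep (a b c d : ℤ) : ∃ T : Finset Edge, Dep T {z : Cf | BTc z a b c d} := by
  classical
  refine ⟨EI (Finset.Icc a b ×ˢ Finset.Icc c d), ?_⟩
  have h : Rect a b c d = ((Finset.Icc a b ×ˢ Finset.Icc c d : Finset P2) : Set P2) := by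
    ext v
    simp only [mem_rect, Finset.coe_product, Finset.coe_Icc, Set.mem_prod, Set.mem_Icc]
    tauto
  rw [setOf_BTc, h]
  exact ev_dep _ _ _

theorem ev_inc' (S A B : Set P2) : Inc (EV S A B) := by
  rintro z z' h ⟨u, hu, v, hv, h1⟩
  refine ⟨u, hu, v, hv, h1.mono ?_ subset_rfl⟩
  intro e
  by_cases he : z e = true
  · rw [he, h e he]
  · rw [Bool.not_eq_true] at he
    rw [he]
    exact bot_le

theorem lr_inc (a b c d : ℤ) : Inc {z : Cf | LRc z a b c d} := by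
  rw [setOf_LRc]; exact ev_inc' _ _ _

theorem bt_inc (a b c d : ℤ) : Inc {z : Cf | BTc z a b c d} := by
  rw [setOf_BTc]; exact ev_inc' _ _ _

/-- three crossings make a half circuit -/
theorem HO_of {z : P2} {n : ℤ} (hn : 1 ≤ n) {y : Cf}
    (h1 : BTc y (z.1 - 2 * n) (z.1 - n) z.2 (z.2 + 2 * n))
    (h2 : LRc y (z.1 - 2 * n) (z.1 + 2 * n) (z.2 + n) (z.2 + 2 * n))
    (h3 : BTc y (z.1 + n) (z.1 + 2 * n) z.2 (z.2 + 2 * n)) : y ∈ HO z n := by
  obtain ⟨a, a', ha, ha', h1⟩ := h1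
  obtain ⟨b, b', hb, hb', h2⟩ := h2
  obtain ⟨d, d', hd, hd', h3⟩ := h3
  have sL : Rect (z.1 - 2 * n) (z.1 - n) z.2 (z.2 + 2 * n) ⊆ (HA z n (2 * n) : Finset P2) := by
    rintro v ⟨h4, h5, h6, h7⟩
    refine mem_HA.2 ⟨h6, le_sd.2 (by omega), sd_le.2 (by omega)⟩
  have sR : Rect (z.1 + n) (z.1 + 2 * n) z.2 (z.2 + 2 * n) ⊆ (HA z n (2 * n) : Finset P2) := by
    rintro v ⟨h4, h5, h6, h7⟩
    refine mem_HA.2 ⟨h6, le_sd.2 (by omega), sd_le.2 (by omega)⟩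
  have sT : Rect (z.1 - 2 * n) (z.1 + 2 * n) (z.2 + n) (z.2 + 2 * n) ⊆
      (HA z n (2 * n) : Finset P2) := by
    rintro v ⟨h4, h5, h6, h7⟩
    refine mem_HA.2 ⟨by omega, le_sd.2 (by omega), sd_le.2 (by omega)⟩
  obtain ⟨w, hw, hw'⟩ := glue h2 h1
    (by rintro v ⟨h4, h5, h6, h7⟩; constructor <;> omega)
    (by rintro v ⟨h4, h5, h6, h7⟩; constructor <;> omega)
  obtain ⟨x, hx, hx'⟩ := glue h2 h3
    (by rintro v ⟨h4, h5, h6, h7⟩; constructor <;> omega)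
    (by rintro v ⟨h4, h5, h6, h7⟩; constructor <;> omega)
  obtain ⟨hl1, hl2, _, _⟩ := h1.left
  obtain ⟨hr1, hr2, _, _⟩ := h3.left
  refine ⟨a, ⟨ha, hl1, hl2⟩, d, ⟨hd, hr1, hr2⟩, ?_⟩
  exact ((hw'.monoS sL).trans (hw.monoS sT).symm).trans ((hx.monoS sT).trans (hx'.monoS sR).symm)

theorem HO_ge (p : I) {c : ℝ} (hc : 0 ≤ c) (z : P2) {n : ℤ} (hn : 1 ≤ n)
    (h : c ≤ xpr p (4 * n) n) : c ^ 3 ≤ (nu p).real (HO z n) := by
  obtain ⟨T1, hT1⟩ := bt_dep (z.1 - 2 * n) (z.1 - n) z.2 (z.2 + 2 * n)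
  obtain ⟨T2, hT2⟩ := lr_dep (z.1 - 2 * n) (z.1 + 2 * n) (z.2 + n) (z.2 + 2 * n)
  obtain ⟨T3, hT3⟩ := bt_dep (z.1 + n) (z.1 + 2 * n) z.2 (z.2 + 2 * n)
  classical
  have i1 := bt_inc (z.1 - 2 * n) (z.1 - n) z.2 (z.2 + 2 * n)
  have i2 := lr_inc (z.1 - 2 * n) (z.1 + 2 * n) (z.2 + n) (z.2 + 2 * n)
  have i3 := bt_inc (z.1 + n) (z.1 + 2 * n) z.2 (z.2 + 2 * n)
  have f1 := harris (fun _ : Edge => p) hT1 hT2 i1 i2
  have f2 := harris (fun _ : Edge => p) ((hT1.mono Finset.subset_union_left).inter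
    (hT2.mono Finset.subset_union_right)) hT3 (i1.inter i2) i3
  have p1 : c ≤ (nu p).real {y | BTc y (z.1 - 2 * n) (z.1 - n) z.2 (z.2 + 2 * n)} := by
    rw [bt_eq_xpr]
    refine h.trans (xpr_mono p (by omega) (by omega) (by omega))
  have p2 : c ≤ (nu p).real {y | LRc y (z.1 - 2 * n) (z.1 + 2 * n) (z.2 + n) (z.2 + 2 * n)} := by
    rw [lr_eq_xpr]
    refine h.trans (xpr_mono p (by omega) (by omega) (by omega))
  have p3 : c ≤ (nu p).real {y | BTc y (z.1 + n) (z.1 + 2 * n) z.2 (z.2 + 2 * n)} := by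
    rw [bt_eq_xpr]
    refine h.trans (xpr_mono p (by omega) (by omega) (by omega))
  have hsub : (({y | BTc y (z.1 - 2 * n) (z.1 - n) z.2 (z.2 + 2 * n)} ∩
      {y | LRc y (z.1 - 2 * n) (z.1 + 2 * n) (z.2 + n) (z.2 + 2 * n)}) ∩
      {y | BTc y (z.1 + n) (z.1 + 2 * n) z.2 (z.2 + 2 * n)} : Set Cf) ⊆ HO z n := by
    rintro y ⟨⟨h1, h2⟩, h3⟩
    exact HO_of hn h1 h2 h3
  refine le_trans ?_ (measureReal_mono hsub)
  refine le_trans ?_ f2
  calc c ^ 3 = (c * c) * c := by ring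
    _ ≤ _ := by
      refine mul_le_mul (le_trans ?_ f1) p3 hc measureReal_nonneg
      exact mul_le_mul p1 p2 hc measureReal_nonneg

/-- a crossing of the annulus crosses one of four rectangles the easy way -/
theorem FX_sub (z : P2) {n : ℤ} (hn : 1 ≤ n) : FX z n (2 * n) ⊆
    ({y | LRc y (z.1 - 2 * n) (z.1 - n) (z.2 - 2 * n) (z.2 + 2 * n)} ∪
      {y | LRc y (z.1 + n) (z.1 + 2 * n) (z.2 - 2 * n) (z.2 + 2 * n)}) ∪
    ({y | BTc y (z.1 - 2 * n) (z.1 + 2 * n) (z.2 - 2 * n) (z.2 - n)} ∪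
      {y | BTc y (z.1 - 2 * n) (z.1 + 2 * n) (z.2 + n) (z.2 + 2 * n)}) := by
  rintro y ⟨u, hu, v, hv, h⟩
  have hu' : sd z u = n := hu
  have hv' : sd z v = 2 * n := hv
  have hu2 := sd_le.1 hu'.le
  have hS : ∀ w ∈ {w : P2 | n ≤ sd z w ∧ sd z w ≤ 2 * n}, z.1 - 2 * n ≤ w.1 ∧
      w.1 ≤ z.1 + 2 * n ∧ z.2 - 2 * n ≤ w.2 ∧ w.2 ≤ z.2 + 2 * n := fun w hw => sd_le.1 hw.2
  rcases sd_eq hv' with h1 | h1 | h1 | h1
  · left; left
    obtain ⟨w, h3, h4, _⟩ := last_exit (fun p => - p.1)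
      (fun a b hab => by unfold Nbr at hab; omega) (-(z.1 - n)) h (by omega) (by omega)
    refine ⟨v, w, h1, by omega, h4.symm.monoS ?_⟩
    rintro t ⟨ht1, ht2⟩
    have h5 := hS t ht1
    have h6 : -(z.1 - n) ≤ - t.1 := ht2
    exact ⟨by omega, by omega, by omega, by omega⟩
  · left; right
    obtain ⟨w, h3, h4, _⟩ := last_exit (fun p => p.1)
      (fun a b hab => by unfold Nbr at hab; omega) (z.1 + n) h (by omega) (by omega)
    refine ⟨w, v, by omega, h1, h4.monoS ?_⟩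
    rintro t ⟨ht1, ht2⟩
    have h5 := hS t ht1
    have h6 : z.1 + n ≤ t.1 := ht2
    exact ⟨by omega, by omega, by omega, by omega⟩
  · right; left
    obtain ⟨w, h3, h4, _⟩ := last_exit (fun p => - p.2)
      (fun a b hab => by unfold Nbr at hab; omega) (-(z.2 - n)) h (by omega) (by omega)
    refine ⟨v, w, h1, by omega, h4.symm.monoS ?_⟩
    rintro t ⟨ht1, ht2⟩
    have h5 := hS t ht1
    have h6 : -(z.2 - n) ≤ - t.2 := ht2
    exact ⟨by omega, by omega, by omega, by omega⟩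
  · right; right
    obtain ⟨w, h3, h4, _⟩ := last_exit (fun p => p.2)
      (fun a b hab => by unfold Nbr at hab; omega) (z.2 + n) h (by omega) (by omega)
    refine ⟨w, v, by omega, h1, h4.monoS ?_⟩
    rintro t ⟨ht1, ht2⟩
    have h5 := hS t ht1
    have h6 : z.2 + n ≤ t.2 := ht2
    exact ⟨by omega, by omega, by omega, by omega⟩

theorem union_le_aux (w : Edge → I) {c : ℝ} (hc : 0 ≤ c) {A B : Set Cf} {T U : Finset Edge}
    {a b : ℝ} (hA : Dep T A) (hB : Dep U B) (iA : Inc A) (iB : Inc B)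
    (h1 : (PB w).real A ≤ 1 - a) (h2 : (PB w).real B ≤ 1 - b) (ha : 0 ≤ a) (hb : 0 ≤ b)
    (hab : c ≤ a * b) : (PB w).real (A ∪ B) ≤ 1 - c := by
  classical
  have h := harris_dec w hA.compl hB.compl iA.compl iB.compl
  have hAB : Dep (T ∪ U) (A ∪ B) := (hA.mono Finset.subset_union_left).union
    (hB.mono Finset.subset_union_right)
  rw [← Set.compl_union, PB_compl w hA, PB_compl w hB, PB_compl w hAB] at h
  have h3 : a * b ≤ (1 - (PB w).real A) * (1 - (PB w).real B) :=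
    mul_le_mul (by linarith) (by linarith) hb (by linarith)
  linarith

theorem FX_le (p : I) {c : ℝ} (hc : 0 ≤ c) (z : P2) {n : ℤ} (hn : 1 ≤ n)
    (h : xpr p n (4 * n) ≤ 1 - c) : (nu p).real (FX z n (2 * n)) ≤ 1 - c ^ 4 := by
  classical
  obtain ⟨T1, hT1⟩ := lr_dep (z.1 - 2 * n) (z.1 - n) (z.2 - 2 * n) (z.2 + 2 * n)
  obtain ⟨T2, hT2⟩ := lr_dep (z.1 + n) (z.1 + 2 * n) (z.2 - 2 * n) (z.2 + 2 * n)
  obtain ⟨T3, hT3⟩ := bt_dep (z.1 - 2 * n) (z.1 + 2 * n) (z.2 - 2 * n) (z.2 - n)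
  obtain ⟨T4, hT4⟩ := bt_dep (z.1 - 2 * n) (z.1 + 2 * n) (z.2 + n) (z.2 + 2 * n)
  have p1 : (nu p).real {y | LRc y (z.1 - 2 * n) (z.1 - n) (z.2 - 2 * n) (z.2 + 2 * n)} ≤
      1 - c := by
    rw [lr_eq_xpr]
    refine le_trans (xpr_mono p (by omega) (by omega) (by omega)) h
  have p2 : (nu p).real {y | LRc y (z.1 + n) (z.1 + 2 * n) (z.2 - 2 * n) (z.2 + 2 * n)} ≤
      1 - c := by
    rw [lr_eq_xpr]
    refine le_trans (xpr_mono p (by omega) (by omega) (by omega)) h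
  have p3 : (nu p).real {y | BTc y (z.1 - 2 * n) (z.1 + 2 * n) (z.2 - 2 * n) (z.2 - n)} ≤
      1 - c := by
    rw [bt_eq_xpr]
    refine le_trans (xpr_mono p (by omega) (by omega) (by omega)) h
  have p4 : (nu p).real {y | BTc y (z.1 - 2 * n) (z.1 + 2 * n) (z.2 + n) (z.2 + 2 * n)} ≤
      1 - c := by
    rw [bt_eq_xpr]
    refine le_trans (xpr_mono p (by omega) (by omega) (by omega)) h
  refine (measureReal_mono (FX_sub z hn)).trans ?_
  have q1 := union_le_aux (fun _ : Edge => p) (c := c ^ 2) (by positivity) hT1 hT2 (lr_inc _ _ _ _)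
    (lr_inc _ _ _ _) p1 p2 hc hc (by rw [sq])
  have q2 := union_le_aux (fun _ : Edge => p) (c := c ^ 2) (by positivity) hT3 hT4 (bt_inc _ _ _ _)
    (bt_inc _ _ _ _) p3 p4 hc hc (by rw [sq])
  exact union_le_aux (fun _ : Edge => p) (c := c ^ 4) (by positivity)
    ((hT1.mono Finset.subset_union_left).union (hT2.mono Finset.subset_union_right))
    ((hT3.mono Finset.subset_union_left).union (hT4.mono Finset.subset_union_right))
    ((lr_inc _ _ _ _).union (lr_inc _ _ _ _)) ((bt_inc _ _ _ _).union (bt_inc _ _ _ _))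
    q1 q2 (by positivity) (by positivity) (le_of_eq (by ring))

/-- the constant -/
def cR (c : ℝ) : ℝ := (c / 2) ^ 32

theorem cR_pos {c : ℝ} (hc : 0 < c) : 0 < cR c := by unfold cR; positivity

theorem cR_le_half {c : ℝ} (hc : 0 < c) (hc1 : c ≤ 1) : cR c ≤ 1 / 2 := by
  unfold cR
  calc (c / 2) ^ 32 ≤ (c / 2) ^ 1 :=
        pow_le_pow_of_le_one (by positivity) (by linarith) (by norm_num)
    _ ≤ 1 / 2 := by rw [pow_one]; linarith

/-- hard-way crossings of the law at parameter `p` -/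
abbrev RSp (p : I) (c : ℝ) (N : ℤ) : Prop := RS (fun A => ((nu p) A).toReal) c N

theorem rsp_iff {p : I} {c : ℝ} {N : ℤ} :
    RSp p c N ↔ ∀ n : ℤ, 1 ≤ n → n ≤ N → c ≤ xpr p (3 * n) n := Iff.rfl

theorem easy_of_rs {p : I} {c : ℝ} (hc : 0 < c) (hc1 : c ≤ 1) {N : ℤ} (h : RSp (σ p) c N) {n : ℤ}
    (h1 : 1 ≤ n) (h2 : n ≤ N) : xpr p n (4 * n) ≤ 1 - (c / 2) ^ 8 := by
  have h3 := xpr_dual p n (4 * n) (by omega) (by omega)
  have h4 : (c / 2) ^ 8 ≤ xpr (σ p) (4 * n + 1) (n - 1) := by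
    by_cases hn : n = 1
    · subst hn
      have h5 : c ≤ lr (fun A => ((nu (σ p)) A).toReal) 0 1 0 1 :=
        (h 1 le_rfl h2).trans ((perc (σ p)).h_mono (by omega) (by omega) le_rfl)
      have h6 := (perc (σ p)).h_edge h5
      have h7 := (perc (σ p)).h_line (e0 := c / 2) (by positivity) h6 4
      norm_num at h7
      have h8 : (c / 2) ^ 8 ≤ (c / 2) ^ 5 :=
        pow_le_pow_of_le_one (by positivity) (by linarith) (by norm_num)
      refine h8.trans ?_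
      have h9 : xpr (σ p) (4 * 1 + 1) (1 - 1) = lr (fun A => ((nu (σ p)) A).toReal) 0 5 0 0 := by
        norm_num [xpr]
      rw [h9]
      exact h7
    · have h5 := lr_long (perc (σ p)) hc h (n := n - 1) (by omega) (by omega) 3
      have h6 : xpr (σ p) ((2 * (3 : ℕ) + 3) * (n - 1)) (n - 1) ≤
          xpr (σ p) (4 * n + 1) (n - 1) := by
        refine xpr_mono _ (by omega) ?_ le_rfl
        push_cast
        omega
      refine le_trans ?_ (h5.trans h6)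
      calc (c / 2) ^ 8 ≤ c ^ 8 := pow_le_pow_left₀ (by positivity) (by linarith) 8
        _ = (c ^ 2) ^ (3 + 1) := by ring
  linarith

/-- **`Rsw` from hard-way crossings of both colours.** -/
theorem rsw_of_rs (p : I) {c : ℝ} (hc : 0 < c) (hc1 : c ≤ 1) {N1 N2 : ℤ} (h1 : RSp p c N1)
    (h2 : RSp (σ p) c N2) : Rsw p (cR c) N1 N2 where
  pos := cR_pos hc
  ho z n hn hn1 := by
    have h3 : c ^ 4 ≤ xpr p (4 * n) n := (lr_five (perc p) hc h1 hn hn1).trans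
      ((perc p).h_mono (by omega) (by omega) le_rfl)
    have h4 := HO_ge p (c := c ^ 4) (by positivity) z hn h3
    refine le_trans ?_ h4
    unfold cR
    calc (c / 2) ^ 32 ≤ c ^ 32 := pow_le_pow_left₀ (by positivity) (by linarith) 32
      _ ≤ c ^ 12 := pow_le_pow_of_le_one hc.le hc1 (by norm_num)
      _ = (c ^ 4) ^ 3 := by ring
  fx z n hn hn2 := by
    have h3 := FX_le p (c := (c / 2) ^ 8) (by positivity) z hn (easy_of_rs hc hc1 h2 hn hn2)
    refine h3.trans (le_of_eq ?_)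
    unfold cR
    ring

theorem rsp_mono {p q : I} (hpq : p ≤ q) {c : ℝ} {N : ℤ} (h : RSp p c N) : RSp q c N := by
  intro n h1 h2
  refine (h n h1 h2).trans ?_
  exact PB_mono (fun _ => hpq) (measurableSet_lr _ _ _ _) (lr_inc _ _ _ _)

/-- hard-way crossings at `1/2` -/
theorem rsp_half : ∃ c : ℝ, 0 < c ∧ c ≤ 1 ∧ ∀ N : ℤ, RSp hf c N := by
  obtain ⟨c, hc, h⟩ := rsw_long 3
  refine ⟨min c 1, lt_min hc one_pos, min_le_right _ _, fun N n h1 _ => ?_⟩
  lift n to ℕ using (by omega)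
  refine (min_le_left _ _).trans ((h n (by exact_mod_cast h1)).trans (le_of_eq ?_))
  rfl

/-- **`Rsw` at `1/2`.** -/
theorem rsw_half : ∃ c : ℝ, 0 < c ∧ c ≤ 1 / 2 ∧ ∀ N1 N2 : ℤ, Rsw hf c N1 N2 := by
  obtain ⟨c, hc, hc1, h⟩ := rsp_half
  refine ⟨cR c, cR_pos hc, cR_le_half hc hc1, fun N1 N2 => rsw_of_rs hf hc hc1 (h N1) ?_⟩
  rw [sigma_hf]
  exact h N2

/-- below `1/2` the crossing bounds hold at all scales -/
theorem rsw_below : ∃ c0 : ℝ, 0 < c0 ∧ c0 ≤ 1 ∧ ∀ (p : I), p ≤ hf → ∀ (c : ℝ) (N1 : ℤ), 0 < c →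
    RSp p c N1 → ∀ N2 : ℤ, Rsw p (cR (min c c0)) N1 N2 := by
  obtain ⟨c0, hc0, hc1, h⟩ := rsp_half
  refine ⟨c0, hc0, hc1, fun p hp c N1 hc h1 N2 => ?_⟩
  refine rsw_of_rs p (lt_min hc hc0) ((min_le_right _ _).trans hc1) ?_ ?_
  · exact fun n hn hn1 => (min_le_left _ _).trans (h1 n hn hn1)
  · have h2 : hf ≤ σ p := by
      rw [← sigma_hf]
      exact unitInterval.symm_le_symm.2 hp
    intro n hn hn2
    exact (min_le_right _ _).trans (rsp_mono h2 (h N2) n hn hn2)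

/-- both colours from `RScale` -/
theorem rsw_of_rscale {c p : ℝ} {N : ℕ} (hc : 0 < c) (hN : 1 ≤ N) (h : RScale c p N) :
    Rsw (clampUnit p) (cR c) N N ∧ Rsw (σ (clampUnit p)) (cR c) N N := by
  have hc1 : c ≤ 1 := by linarith [h.two_le hN]
  have h1 : RSp (clampUnit p) c N := rs_primal h
  have h2 : RSp (σ (clampUnit p)) c N := rs_dual h
  refine ⟨rsw_of_rs _ hc hc1 h1 h2, rsw_of_rs _ hc hc1 h2 ?_⟩
  rw [unitInterval.symm_symm]
  exact h1

end Crest.Agent.R158.Hp814
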