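import Crest.Agent.R158.Hp5_814
import Crest.Agent.R158.Ru2_874

/-!
# Row 158, Block HP (helper814): positions on a flat side

* `FX_pow` : one arm in the full annulus
* `Bad D X s r` : two distinct clusters of `D` cross the annulus `(s, r)` around some `x ∈ X`
* `pos_bound` : one position on a flat side at distance `d` from the corners
* `side_bound` : all positions of one side
-/

set_option autoImplicit false

noncomputable section

namespace Crest.Agent.R158.Hp814

open MeasureTheory ProbabilityTheory unitInterval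
open Crest.Agent.R161.Geo729 Crest.Agent.R161.Topo374 Crest.Agent.R161.Dual374
open Crest.Agent.R161.Tas682 Crest.Agent.R158.Rs689 Crest.Agent.R161.Sym597
open Crest.Agent.R158.Ru874

/-! ### one arm in the full annulus -/

theorem FX_dep (z : P2) (s R : ℤ) : Dep (edF (An z s R)) (FX z s R) := dep_EV (an_finite z s R) _ _

theorem FX_shrink {z : P2} {s s' R R' : ℤ} (hs : s ≤ s') (hsR : s' ≤ R') (hR : R' ≤ R) :
    FX z s R ⊆ FX z s' R' := by
  refine (EV_shrink (sd z) (sd_nbr z) hsR (A := Sp z s) (B := Sp z R) ?_ ?_).trans ?_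
  · intro a ha
    have : sd z a = s := ha
    omega
  · intro b hb
    have : sd z b = R := hb
    omega
  · exact EV_mono (fun v hv => hv.2) subset_rfl subset_rfl

theorem FX_step {p : I} {c : ℝ} {N1 N2 : ℤ} (h : Rsw p c N1 N2) (z : P2) {s R : ℤ} (hs : 1 ≤ s)
    (hsN : s ≤ N2) (hR : 2 * s + 1 ≤ R) :
    (nu p).real (FX z s R) ≤ (1 - c) * (nu p).real (FX z (2 * s + 1) R) := by
  have h1 : FX z s R ⊆ FX z s (2 * s) ∩ FX z (2 * s + 1) R := fun y hy =>
    ⟨FX_shrink le_rfl (by omega) (by omega) hy, FX_shrink (by omega) hR le_rfl hy⟩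
  have h2 : (nu p).real (FX z s (2 * s) ∩ FX z (2 * s + 1) R) =
      (nu p).real (FX z s (2 * s)) * (nu p).real (FX z (2 * s + 1) R) := by
    refine PB_indep_real _ (edF_disj ?_) (FX_dep _ _ _) (FX_dep _ _ _)
    rw [Set.disjoint_left]
    intro v h3 h4
    have h3' := h3.2
    have h4' := h4.1
    omega
  calc (nu p).real (FX z s R) ≤ _ := measureReal_mono h1
    _ = _ := h2
    _ ≤ _ := mul_le_mul_of_nonneg_right (h.fx z s hs hsN) measureReal_nonneg

theorem FX_pow_aux {p : I} {c : ℝ} {N1 N2 : ℤ} (h : Rsw p c N1 N2) (hc2 : c ≤ 1 / 2) (z : P2)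
    (n : ℕ) : ∀ s R : ℤ, 1 ≤ s → R ≤ N2 → (R - s).toNat ≤ n →
      (nu p).real (FX z s R) ≤ 2 * (((s : ℝ) + 1) / (R + 1)) ^ aex c ∨ R < s := by
  have hc := h.pos
  induction n with
  | zero =>
    intro s R hs hR hn
    by_cases h1 : R < s
    · exact Or.inr h1
    · left
      have h2 : R = s := by omega
      subst h2
      have h3 : (0 : ℝ) < (R : ℝ) + 1 := by
        have : (1 : ℝ) ≤ R := by exact_mod_cast hs
        linarith
      rw [div_self h3.ne', Real.one_rpow]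
      exact measureReal_le_one.trans (by norm_num)
  | succ n ih =>
    intro s R hs hR hn
    by_cases h1 : R < s
    · exact Or.inr h1
    left
    have hs0 : (1 : ℝ) ≤ s := by exact_mod_cast hs
    have hR0 : (s : ℝ) ≤ R := by exact_mod_cast (not_lt.1 h1)
    have hRp : (0 : ℝ) < (R : ℝ) + 1 := by linarith
    by_cases h2 : 2 * s + 1 ≤ R
    · have h3 := FX_step h z hs (by omega) h2
      rcases ih (2 * s + 1) R (by omega) hR (by omega) with h4 | h4
      · refine h3.trans ?_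
        have h5 : ((((2 * s + 1 : ℤ) : ℝ) + 1) / (R + 1)) ^ aex c =
            (1 - c)⁻¹ * (((s : ℝ) + 1) / (R + 1)) ^ aex c := by
          rw [← two_rpow_aex hc hc2, ← Real.mul_rpow (by norm_num) (by positivity)]
          congr 1
          push_cast
          ring
        rw [h5] at h4
        have h6 : 0 < 1 - c := by linarith
        calc (1 - c) * (nu p).real (FX z (2 * s + 1) R)
            ≤ (1 - c) * (2 * ((1 - c)⁻¹ * (((s : ℝ) + 1) / (R + 1)) ^ aex c)) :=
              mul_le_mul_of_nonneg_left h4 h6.le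
          _ = 2 * (((s : ℝ) + 1) / (R + 1)) ^ aex c := by
              field_simp
      · omega
    · have h3 : (1 : ℝ) / 2 ≤ ((s : ℝ) + 1) / (R + 1) := by
        rw [div_le_div_iff₀ (by norm_num) hRp]
        have : (R : ℝ) ≤ 2 * s := by exact_mod_cast (show R ≤ 2 * s by omega)
        linarith
      have h4 : ((1 : ℝ) / 2) ^ aex c ≤ (((s : ℝ) + 1) / (R + 1)) ^ aex c :=
        Real.rpow_le_rpow (by norm_num) h3 (aex_pos hc hc2).le
      have h5 : ((1 : ℝ) / 2) ^ aex c = 1 - c := by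
        rw [one_div, Real.inv_rpow (by norm_num), two_rpow_aex hc hc2, inv_inv]
      have h6 : (nu p).real (FX z s R) ≤ 1 := measureReal_le_one
      linarith

/-- **One arm in the full annulus.** -/
theorem FX_pow {p : I} {c : ℝ} {N1 N2 : ℤ} (h : Rsw p c N1 N2) (hc2 : c ≤ 1 / 2) (z : P2)
    {s R : ℤ} (hs : 1 ≤ s) (hsR : s ≤ R) (hR : R ≤ N2) :
    (nu p).real (FX z s R) ≤ 4 * ((s : ℝ) / R) ^ aex c := by
  have hc := h.pos
  rcases FX_pow_aux h hc2 z _ s R hs hR le_rfl with h1 | h1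
  · refine h1.trans ?_
    have hs0 : (1 : ℝ) ≤ s := by exact_mod_cast hs
    have hR0 : (s : ℝ) ≤ R := by exact_mod_cast hsR
    have hsp : (0 : ℝ) < s := by linarith
    have hRp : (0 : ℝ) < R := by linarith
    have hq : (0 : ℝ) ≤ (s : ℝ) / R := by positivity
    have h2 : ((s : ℝ) + 1) / (R + 1) ≤ 2 * (s / R) := by
      rw [← mul_div_assoc, div_le_div_iff₀ (by linarith) (by linarith)]
      nlinarith
    have h3 : (((s : ℝ) + 1) / (R + 1)) ^ aex c ≤ (2 * (s / R)) ^ aex c :=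
      Real.rpow_le_rpow (by positivity) h2 (aex_pos hc hc2).le
    rw [Real.mul_rpow (by norm_num) (by positivity)] at h3
    have h4 : (2 : ℝ) ^ aex c ≤ 2 := by
      calc (2 : ℝ) ^ aex c ≤ 2 ^ (1 : ℝ) :=
            Real.rpow_le_rpow_of_exponent_le (by norm_num) (aex_le_one hc hc2)
        _ = 2 := Real.rpow_one _
    have h5 : 0 ≤ ((s : ℝ) / R) ^ aex c := by positivity
    nlinarith
  · omega

/-! ### one position -/

/-- the local event around `x` -/
def LT (D : Set P2) (x : P2) (s r : ℤ) : Set Cf := TT (D ∩ An x s r) (Sp x s) (Sp x r)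

/-- two distinct clusters of `D` cross the annulus `(s, r)` around some `x ∈ X` -/
def Bad (D X : Set P2) (s r : ℤ) : Set Cf := {z | ∃ x ∈ X, z ∈ LT D x s r}

theorem LT_dep (D : Set P2) (x : P2) (s r : ℤ) : Dep (edF (D ∩ An x s r)) (LT D x s r) :=
  dep_TT ((an_finite x s r).subset Set.inter_subset_right) _ _

theorem LT_sub_FX (D : Set P2) (x : P2) (s r : ℤ) : LT D x s r ⊆ FX x s r :=
  (TT_sub_EV _ _ _).trans (EV_mono Set.inter_subset_right subset_rfl subset_rfl)

theorem sd_tri (x y v : P2) : sd x v ≤ sd x y + sd y v := by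
  have h1 := sd_le.1 (le_refl (sd x y))
  have h2 := sd_le.1 (le_refl (sd y v))
  exact sd_le.2 ⟨by omega, by omega, by omega, by omega⟩

/-- moving the centre -/
theorem LT_move (D : Set P2) {x x' : P2} {s r l m : ℤ} (h1 : sd x x' + s ≤ l)
    (h2 : m + sd x x' ≤ r) (hlm : l ≤ m) : LT D x s r ⊆ LT D x' l m := by
  have hs : ∀ a, sd x' a ≤ sd x x' + sd x a := by
    intro a
    have := sd_tri x' x a
    rw [sd_comm x' x] at this
    exact this
  have hs' : ∀ a, sd x a ≤ sd x x' + sd x' a := fun a => sd_tri x x' a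
  refine (TT_shrink (sd x') (sd_nbr x') hlm (A := Sp x s) (B := Sp x r) ?_ ?_).trans ?_
  · intro a ha
    have h3 : sd x a = s := ha
    have := hs a
    omega
  · intro b hb
    have h3 : sd x b = r := hb
    have := hs' b
    omega
  · have h3 : (D ∩ An x s r) ∩ {p | l ≤ sd x' p ∧ sd x' p ≤ m} = D ∩ An x' l m := by
      ext v
      constructor
      · rintro ⟨⟨h4, _⟩, h5⟩
        exact ⟨h4, h5⟩
      · rintro ⟨h4, h5⟩
        have h6 := hs v
        have h7 := hs' v
        have h8 := h5.1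
        have h9 := h5.2
        exact ⟨⟨h4, ⟨by omega, by omega⟩⟩, h5⟩
    rw [h3]
    exact subset_rfl

theorem LT_small (D : Set P2) {x : P2} {s r l m : ℤ} (h1 : s ≤ l) (h2 : m ≤ r) (hlm : l ≤ m) :
    LT D x s r ⊆ LT D x l m := by
  have h0 : sd x x = 0 := by unfold sd; simp
  exact LT_move D (by omega) (by omega) hlm

/-- one position on a flat side -/
theorem pos_split (p : I) (D : Set P2) (x : P2) {l ρ m : ℤ} (h1 : l ≤ ρ) (h2 : ρ + 1 ≤ m)
    (hD : D ∩ An x l ρ = (HA x l ρ : Finset P2)) :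
    (nu p).real (LT D x l m) ≤ (nu p).real (TTh x l ρ) * (nu p).real (FX x (ρ + 1) m) := by
  have e1 : LT D x l m ⊆ TTh x l ρ := by
    have h3 := LT_small D (x := x) (le_refl l) (by omega : ρ ≤ m) h1
    have h4 : LT D x l ρ = TTh x l ρ := by
      unfold LT
      rw [hD]
      rfl
    rw [← h4]
    exact h3
  have e2 : LT D x l m ⊆ FX x (ρ + 1) m :=
    (LT_sub_FX D x l m).trans (FX_shrink (by omega) h2 le_rfl)
  have e3 : (nu p).real (TTh x l ρ ∩ FX x (ρ + 1) m) =
      (nu p).real (TTh x l ρ) * (nu p).real (FX x (ρ + 1) m) := by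
    refine PB_indep_real _ (S := edF (HA x l ρ : Finset P2)) (T := edF (An x (ρ + 1) m))
      (edF_disj ?_) (dep_TT (Finset.finite_toSet _) _ _) (FX_dep _ _ _)
    rw [Set.disjoint_left]
    intro v h3 h4
    have h3' := (mem_HA.1 h3).2.2
    have h4' := h4.1
    omega
  rw [← e3]
  exact measureReal_mono fun y hy => ⟨e1 hy, e2 hy⟩

/-- the constant -/
def K0 (c : ℝ) : ℝ := 10240 / c ^ 4

theorem K0_pos {c : ℝ} (hc : 0 < c) : 0 < K0 c := by unfold K0; positivity

theorem K0_ge {c : ℝ} (hc : 0 < c) (hc2 : c ≤ 1 / 2) : 10240 ≤ K0 c := by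
  unfold K0
  have : c ^ 4 ≤ 1 := pow_le_one₀ hc.le (by linarith)
  rw [le_div_iff₀ (by positivity)]
  nlinarith

/-- one position at distance `> ρ` from the corners, `ρ < m` -/
theorem pos_bound1 {p : I} {c : ℝ} {N1 N2 : ℤ} (h : Rsw p c N1 N2) (hc2 : c ≤ 1 / 2) (D : Set P2)
    (x : P2) {l ρ m : ℤ} (hl : 1 ≤ l) (h1 : l ≤ ρ) (h2 : ρ + 1 ≤ m) (hN1 : l + 1 ≤ N1)
    (hN2 : m ≤ N2) (hD : D ∩ An x l ρ = (HA x l ρ : Finset P2)) :
    (nu p).real (LT D x l m) ≤
      K0 c * (((l : ℝ) / ρ) ^ (1 + aex c / 2) * ((l : ℝ) / m) ^ (aex c / 2)) := by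
  have hc := h.pos
  have ha := aex_pos hc hc2
  have ha1 := aex_le_one hc hc2
  have hl0 : (1 : ℝ) ≤ l := by exact_mod_cast hl
  have hρ0 : (l : ℝ) ≤ ρ := by exact_mod_cast h1
  have hm0 : (ρ : ℝ) + 1 ≤ m := by exact_mod_cast h2
  have hlp : (0 : ℝ) < l := by linarith
  have hρp : (0 : ℝ) < ρ := by linarith
  have hmp : (0 : ℝ) < m := by linarith
  have e1 := three_arm h hc2 x hl h1 hN1 (by omega)
  have e2 := FX_pow h hc2 x (s := ρ + 1) (R := m) (by omega) h2 hN2
  push_cast at e2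
  have e3 : ((((ρ : ℝ) + 1) / m) ^ aex c) ≤ 2 * ((ρ : ℝ) / m) ^ (aex c / 2) := by
    have h3 : ((ρ : ℝ) + 1) / m ≤ 2 * ((ρ : ℝ) / m) := ratio_bound (by linarith) hmp
    have h4 : ((ρ : ℝ) / m) ≤ 1 := by
      rw [div_le_one hmp]
      linarith
    calc (((ρ : ℝ) + 1) / m) ^ aex c ≤ (2 * ((ρ : ℝ) / m)) ^ aex c :=
          Real.rpow_le_rpow (by positivity) h3 ha.le
      _ = 2 ^ aex c * ((ρ : ℝ) / m) ^ aex c := Real.mul_rpow (by norm_num) (by positivity)
      _ ≤ 2 * ((ρ : ℝ) / m) ^ (aex c / 2) := by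
          have h5 : (2 : ℝ) ^ aex c ≤ 2 := by
            calc (2 : ℝ) ^ aex c ≤ 2 ^ (1 : ℝ) :=
                  Real.rpow_le_rpow_of_exponent_le (by norm_num) ha1
              _ = 2 := Real.rpow_one _
          have h6 : ((ρ : ℝ) / m) ^ aex c ≤ ((ρ : ℝ) / m) ^ (aex c / 2) :=
            Real.rpow_le_rpow_of_exponent_ge (by positivity) h4 (by linarith)
          exact mul_le_mul h5 h6 (by positivity) (by norm_num)
  have e4 : ((l : ℝ) / ρ) ^ (1 + aex c) * ((ρ : ℝ) / m) ^ (aex c / 2) =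
      ((l : ℝ) / ρ) ^ (1 + aex c / 2) * ((l : ℝ) / m) ^ (aex c / 2) := by
    have h3 : ((l : ℝ) / m) = ((l : ℝ) / ρ) * ((ρ : ℝ) / m) := by
      field_simp
    rw [h3, Real.mul_rpow (by positivity) (by positivity), ← mul_assoc,
      ← Real.rpow_add (by positivity)]
    congr 2
    ring
  refine (pos_split p D x h1 h2 hD).trans ?_
  calc (nu p).real (TTh x l ρ) * (nu p).real (FX x (ρ + 1) m)
      ≤ (1280 / c ^ 4 * ((l : ℝ) / ρ) ^ (1 + aex c)) *
          (4 * (2 * ((ρ : ℝ) / m) ^ (aex c / 2))) := by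
        refine mul_le_mul e1 (e2.trans ?_) measureReal_nonneg (by positivity)
        linarith
    _ = K0 c * (((l : ℝ) / ρ) ^ (1 + aex c) * ((ρ : ℝ) / m) ^ (aex c / 2)) := by
        unfold K0
        ring
    _ = _ := by rw [e4]

/-- one position at distance `> m` from the corners -/
theorem pos_bound2 {p : I} {c : ℝ} {N1 N2 : ℤ} (h : Rsw p c N1 N2) (hc2 : c ≤ 1 / 2) (D : Set P2)
    (x : P2) {l m : ℤ} (hl : 1 ≤ l) (h1 : l ≤ m) (hN1 : l + 1 ≤ N1)
    (hN2 : m ≤ N2) (hD : D ∩ An x l m = (HA x l m : Finset P2)) :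
    (nu p).real (LT D x l m) ≤ K0 c * ((l : ℝ) / m) ^ (1 + aex c) := by
  have hc := h.pos
  have e1 := three_arm h hc2 x hl h1 hN1 hN2
  have e2 : LT D x l m = TTh x l m := by
    unfold LT
    rw [hD]
    rfl
  rw [e2]
  refine e1.trans ?_
  have hl0 : (1 : ℝ) ≤ l := by exact_mod_cast hl
  have hm0 : (l : ℝ) ≤ m := by exact_mod_cast h1
  have hlp : (0 : ℝ) < l := by linarith
  have hmp : (0 : ℝ) < m := by linarith
  refine mul_le_mul_of_nonneg_right ?_ (by positivity)
  unfold K0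
  apply div_le_div_of_nonneg_right (by norm_num) (by positivity)

/-- any position -/
theorem pos_bound0 {p : I} {c : ℝ} {N1 N2 : ℤ} (h : Rsw p c N1 N2) (hc2 : c ≤ 1 / 2) (D : Set P2)
    (x : P2) {l m : ℤ} (hl : 1 ≤ l) (h1 : l ≤ m) (hN2 : m ≤ N2) :
    (nu p).real (LT D x l m) ≤ K0 c * ((l : ℝ) / m) ^ (aex c / 2) := by
  have hc := h.pos
  have ha := aex_pos hc hc2
  have hl0 : (1 : ℝ) ≤ l := by exact_mod_cast hl
  have hm0 : (l : ℝ) ≤ m := by exact_mod_cast h1
  have hlp : (0 : ℝ) < l := by linarith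
  have hmp : (0 : ℝ) < m := by linarith
  have e1 := FX_pow h hc2 x hl h1 hN2
  have h2 := K0_ge hc hc2
  have h3 : ((l : ℝ) / m) ^ aex c ≤ ((l : ℝ) / m) ^ (aex c / 2) := by
    apply Real.rpow_le_rpow_of_exponent_ge (by positivity) _ (by linarith)
    rw [div_le_one hmp]
    exact hm0
  have h4 : 0 ≤ ((l : ℝ) / m) ^ (aex c / 2) := by positivity
  calc (nu p).real (LT D x l m) ≤ 4 * ((l : ℝ) / m) ^ aex c :=
        (measureReal_mono (LT_sub_FX D x l m)).trans e1
    _ ≤ 4 * ((l : ℝ) / m) ^ (aex c / 2) := by linarith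
    _ ≤ K0 c * ((l : ℝ) / m) ^ (aex c / 2) := mul_le_mul_of_nonneg_right (by linarith) h4

end Crest.Agent.R158.Hp814
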