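import Crest.Agent.R158.Kd1_458

/-!
# Row 158 (helper458): four arms at an edge of a box; hole version

* `dual4` : if the two end points of `e0` are joined to the boundary of the box (at `x`, `x'`) but not to each
  other off `e0`, then the two faces of `e0` are joined, by dual paths off `e0`, to the two arcs of the ring.
* `hole4` : the same with `e0` replaced by a set `H` of edges.
* `arms_of_col` : 4-arc duality with an extra edge.
-/

set_option autoImplicit false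

noncomputable section

namespace Crest.Agent.R158.Kd458

open Crest.Agent.R161.Geo729 Crest.Agent.R161.Topo374 Crest.Agent.R161.Dual374 Finset

theorem rtg_pstep_symm {Z : Edge → Prop} {a b : P2} (h : Relation.ReflTransGen (PStep Z) a b) :
    Relation.ReflTransGen (PStep Z) b a := by
  induction h with
  | refl => exact .refl
  | tail _ hs ih => exact Relation.ReflTransGen.head hs.symm ih

theorem rtg_dstep_symm {Z : Edge → Prop} {a b : P2} (h : Relation.ReflTransGen (DStep Z) a b) :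
    Relation.ReflTransGen (DStep Z) b a := by
  induction h with
  | refl => exact .refl
  | tail _ hs ih => exact Relation.ReflTransGen.head hs.symm ih

theorem pstep_mono' {Z Z' : Edge → Prop} (h : ∀ e, Z e → Z' e) {a b : P2}
    (hp : Relation.ReflTransGen (PStep Z) a b) : Relation.ReflTransGen (PStep Z') a b := by
  induction hp with
  | refl => exact .refl
  | tail _ hs ih =>
      obtain ⟨e, he, hh⟩ := hs
      exact ih.tail ⟨e, h e he, hh⟩

theorem dstep_mono' {Z Z' : Edge → Prop} (h : ∀ e, Z e → Z' e) {a b : P2}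
    (hp : Relation.ReflTransGen (DStep Z) a b) : Relation.ReflTransGen (DStep Z') a b := by
  induction hp with
  | refl => exact .refl
  | tail _ hs ih =>
      obtain ⟨e, he, hh⟩ := hs
      exact ih.tail ⟨e, h e he, hh⟩

/-- cutting a dual path at its visits to the hole `H` -/
theorem cut_hole {C H : Edge → Prop} {f g : P2}
    (h : Relation.ReflTransGen (DStep (fun e => C e ∨ H e)) f g) :
    Relation.ReflTransGen (DStep C) f g ∨
    ∃ e1 e2 f0 g0, H e1 ∧ H e2 ∧ (f0 = fA e1 ∨ f0 = fB e1) ∧ (g0 = fA e2 ∨ g0 = fB e2) ∧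
      Relation.ReflTransGen (DStep C) f f0 ∧ Relation.ReflTransGen (DStep C) g0 g := by
  induction h with
  | refl => exact Or.inl .refl
  | @tail p q _ hs ih =>
      obtain ⟨e, he, hh⟩ := hs
      by_cases hC : C e
      · rcases ih with ih | ⟨e1, e2, f0, g0, h1, h2, h3, h4, h5, h6⟩
        · exact Or.inl (ih.tail ⟨e, hC, hh⟩)
        · exact Or.inr ⟨e1, e2, f0, g0, h1, h2, h3, h4, h5, h6.tail ⟨e, hC, hh⟩⟩
      · have hH : H e := he.resolve_left hC
        rcases ih with ih | ⟨e1, e2, f0, g0, h1, h2, h3, h4, h5, h6⟩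
        · refine Or.inr ⟨e, e, p, q, hH, hH, ?_, ?_, ih, .refl⟩
          · rcases hh with ⟨rfl, rfl⟩ | ⟨rfl, rfl⟩ <;> simp
          · rcases hh with ⟨rfl, rfl⟩ | ⟨rfl, rfl⟩ <;> simp
        · refine Or.inr ⟨e1, e, f0, q, h1, hH, h3, ?_, h5, .refl⟩
          rcases hh with ⟨rfl, rfl⟩ | ⟨rfl, rfl⟩ <;> simp

/-- cutting a primal path at its visits to the hole `H` -/
theorem cut_holeP {O H : Edge → Prop} {f g : P2}
    (h : Relation.ReflTransGen (PStep (fun e => O e ∨ H e)) f g) :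
    Relation.ReflTransGen (PStep O) f g ∨
    ∃ e1 e2 f0 g0, H e1 ∧ H e2 ∧ (f0 = src e1 ∨ f0 = tgt e1) ∧ (g0 = src e2 ∨ g0 = tgt e2) ∧
      Relation.ReflTransGen (PStep O) f f0 ∧ Relation.ReflTransGen (PStep O) g0 g := by
  induction h with
  | refl => exact Or.inl .refl
  | @tail p q _ hs ih =>
      obtain ⟨e, he, hh⟩ := hs
      by_cases hC : O e
      · rcases ih with ih | ⟨e1, e2, f0, g0, h1, h2, h3, h4, h5, h6⟩
        · exact Or.inl (ih.tail ⟨e, hC, hh⟩)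
        · exact Or.inr ⟨e1, e2, f0, g0, h1, h2, h3, h4, h5, h6.tail ⟨e, hC, hh⟩⟩
      · have hH : H e := he.resolve_left hC
        rcases ih with ih | ⟨e1, e2, f0, g0, h1, h2, h3, h4, h5, h6⟩
        · refine Or.inr ⟨e, e, p, q, hH, hH, ?_, ?_, ih, .refl⟩
          · rcases hh with ⟨rfl, rfl⟩ | ⟨rfl, rfl⟩ <;> simp
          · rcases hh with ⟨rfl, rfl⟩ | ⟨rfl, rfl⟩ <;> simp
        · refine Or.inr ⟨e1, e, f0, q, h1, hH, h3, ?_, h5, .refl⟩
          rcases hh with ⟨rfl, rfl⟩ | ⟨rfl, rfl⟩ <;> simp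

/-- cutting a dual path at its visits to one edge -/
theorem cut_edge {C : Edge → Prop} {e0 : Edge} {f g : P2}
    (h : Relation.ReflTransGen (DStep (fun e => C e ∨ e = e0)) f g) :
    Relation.ReflTransGen (DStep C) f g ∨
    ∃ f0 g0, ((f0 = fA e0 ∧ g0 = fB e0) ∨ (f0 = fB e0 ∧ g0 = fA e0)) ∧
      Relation.ReflTransGen (DStep C) f f0 ∧ Relation.ReflTransGen (DStep C) g0 g := by
  induction h with
  | refl => exact Or.inl .refl
  | @tail p q _ hs ih =>
      obtain ⟨e, he, hh⟩ := hs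
      by_cases hC : C e
      · rcases ih with ih | ⟨f0, g0, h1, h2, h3⟩
        · exact Or.inl (ih.tail ⟨e, hC, hh⟩)
        · exact Or.inr ⟨f0, g0, h1, h2, h3.tail ⟨e, hC, hh⟩⟩
      · have hH : e = e0 := he.resolve_left hC
        subst hH
        rcases ih with ih | ⟨f0, g0, h1, h2, h3⟩
        · exact Or.inr ⟨p, q, hh, ih, .refl⟩
        · rcases h1 with ⟨rfl, rfl⟩ | ⟨rfl, rfl⟩ <;> rcases hh with ⟨rfl, rfl⟩ | ⟨rfl, rfl⟩
          · exact Or.inr ⟨_, _, Or.inl ⟨rfl, rfl⟩, h2, .refl⟩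
          · exact Or.inl h2
          · exact Or.inl h2
          · exact Or.inr ⟨_, _, Or.inr ⟨rfl, rfl⟩, h2, .refl⟩

/-- cutting a primal path at its visits to one edge -/
theorem cut_edgeP {O : Edge → Prop} {e0 : Edge} {f g : P2}
    (h : Relation.ReflTransGen (PStep (fun e => O e ∨ e = e0)) f g) :
    Relation.ReflTransGen (PStep O) f g ∨
    ∃ f0 g0, ((f0 = src e0 ∧ g0 = tgt e0) ∨ (f0 = tgt e0 ∧ g0 = src e0)) ∧
      Relation.ReflTransGen (PStep O) f f0 ∧ Relation.ReflTransGen (PStep O) g0 g := by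
  induction h with
  | refl => exact Or.inl .refl
  | @tail p q _ hs ih =>
      obtain ⟨e, he, hh⟩ := hs
      by_cases hC : O e
      · rcases ih with ih | ⟨f0, g0, h1, h2, h3⟩
        · exact Or.inl (ih.tail ⟨e, hC, hh⟩)
        · exact Or.inr ⟨f0, g0, h1, h2, h3.tail ⟨e, hC, hh⟩⟩
      · have hH : e = e0 := he.resolve_left hC
        subst hH
        rcases ih with ih | ⟨f0, g0, h1, h2, h3⟩
        · exact Or.inr ⟨p, q, hh, ih, .refl⟩
        · rcases h1 with ⟨rfl, rfl⟩ | ⟨rfl, rfl⟩ <;> rcases hh with ⟨rfl, rfl⟩ | ⟨rfl, rfl⟩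
          · exact Or.inr ⟨_, _, Or.inl ⟨rfl, rfl⟩, h2, .refl⟩
          · exact Or.inl h2
          · exact Or.inl h2
          · exact Or.inr ⟨_, _, Or.inr ⟨rfl, rfl⟩, h2, .refl⟩

section box

variable {x0 x1 y0 y1 : ℤ}

/-- a colouring exists for every pair of joined boundary vertices -/
theorem exists_col (hx : x0 ≤ x1) (hy : y0 ≤ y1) {r r' : Edge} {x x' : P2}
    (hr : Out x0 x1 y0 y1 r x) (hr' : Out x0 x1 y0 y1 r' x') {O : Edge → Prop}
    (hP : Relation.ReflTransGen (PStep (fun e => O e ∧ IB x0 x1 y0 y1 e)) x x') :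
    ∃ F, IsCol x0 x1 y0 y1 r r' F := by
  obtain ⟨N, hN, hs⟩ := walk_parity hP
  obtain ⟨k, hk1, _⟩ := par hx hy hr hr' (fun e h => (hN e h).2) hs
  exact ⟨k, hk1⟩

/-- **Four arms.**  `e0 = uv` an edge of the box; `u` joined to the boundary vertex `x`, `v` to `x'`, by
open edges `≠ e0` of the box, `u` not joined to `v`.  Then the two faces of `e0` are joined to the two arcs
of the ring by dual paths off `e0`. -/
theorem dual4 (hx : x0 ≤ x1) (hy : y0 ≤ y1) {r r' : Edge} {x x' : P2}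
    (hr : Out x0 x1 y0 y1 r x) (hr' : Out x0 x1 y0 y1 r' x') {F : P2 → ZMod 2}
    (hF : IsCol x0 x1 y0 y1 r r' F) {Z : Edge → Prop} {e0 : Edge} (he0 : IB x0 x1 y0 y1 e0) {u v : P2}
    (huv : (u = src e0 ∧ v = tgt e0) ∨ (u = tgt e0 ∧ v = src e0))
    (hP : Relation.ReflTransGen (PStep (fun e => (Z e ∧ e ≠ e0) ∧ IB x0 x1 y0 y1 e)) x u)
    (hP' : Relation.ReflTransGen (PStep (fun e => (Z e ∧ e ≠ e0) ∧ IB x0 x1 y0 y1 e)) v x')
    (hne : ¬ Relation.ReflTransGen (PStep (fun e => (Z e ∧ e ≠ e0) ∧ IB x0 x1 y0 y1 e)) u v) :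
    ∃ f g f0 g0, RingF x0 x1 y0 y1 f ∧ RingF x0 x1 y0 y1 g ∧ F f = 1 ∧ F g = 0 ∧
      ((f0 = fA e0 ∧ g0 = fB e0) ∨ (f0 = fB e0 ∧ g0 = fA e0)) ∧
      Relation.ReflTransGen (DStep (fun e => (¬ Z e ∧ e ≠ e0) ∧ IB x0 x1 y0 y1 e)) f f0 ∧
      Relation.ReflTransGen (DStep (fun e => (¬ Z e ∧ e ≠ e0) ∧ IB x0 x1 y0 y1 e)) g0 g := by
  rcases arc_duality hx hy hr hr' hF (O := fun e => Z e ∧ e ≠ e0) (C := fun e => ¬ Z e ∨ e = e0) (by
    intro e _
    by_cases h1 : Z e <;> by_cases h2 : e = e0 <;> simp [h1, h2]) with h | ⟨f, g, hf, hg, hf1, hg0, hD⟩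
  · exact absurd ((rtg_pstep_symm hP).trans (h.trans (rtg_pstep_symm hP'))) hne
  · have hD2 : Relation.ReflTransGen
        (DStep (fun e => ((¬ Z e ∧ e ≠ e0) ∧ IB x0 x1 y0 y1 e) ∨ e = e0)) f g := by
      refine dstep_mono' ?_ hD
      rintro e ⟨h1 | h1, h2⟩
      · by_cases h3 : e = e0
        · exact Or.inr h3
        · exact Or.inl ⟨⟨h1, h3⟩, h2⟩
      · exact Or.inr h1
    rcases cut_edge hD2 with hC | ⟨f0, g0, h1, h2, h3⟩
    · exfalso
      have hPP : Relation.ReflTransGen (PStep (fun e => (Z e ∨ e = e0) ∧ IB x0 x1 y0 y1 e)) x x' := by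
        refine (pstep_mono' ?_ hP).trans (Relation.ReflTransGen.head ?_ (pstep_mono' ?_ hP'))
        · rintro e ⟨⟨h1, _⟩, h2⟩; exact ⟨Or.inl h1, h2⟩
        · exact ⟨e0, ⟨Or.inr rfl, he0⟩, huv⟩
        · rintro e ⟨⟨h1, _⟩, h2⟩; exact ⟨Or.inl h1, h2⟩
      have := no_both hx hy hr hr' hF (O := fun e => Z e ∨ e = e0) (C := fun e => ¬ Z e ∧ e ≠ e0) (by
        rintro e _ (h1 | h1) ⟨h2, h3⟩
        · exact h2 h1
        · exact h3 h1) hPP hf hg hC
      rw [hf1, hg0] at this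
      exact absurd this (by decide)
    · exact ⟨f, g, f0, g0, hf, hg, hf1, hg0, h1, h2, h3⟩

/-- **Hole version.**  `x` and `x'` are joined when the edges of `H` are opened, and not joined when they are
closed: the two arcs of the ring are joined to faces of the hole by dual paths off `H`. -/
theorem hole4 (hx : x0 ≤ x1) (hy : y0 ≤ y1) {r r' : Edge} {x x' : P2}
    (hr : Out x0 x1 y0 y1 r x) (hr' : Out x0 x1 y0 y1 r' x') {F : P2 → ZMod 2}
    (hF : IsCol x0 x1 y0 y1 r r' F) {Z H : Edge → Prop} (hH : ∀ e, H e → IB x0 x1 y0 y1 e)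
    (hP : Relation.ReflTransGen (PStep (fun e => (Z e ∨ H e) ∧ IB x0 x1 y0 y1 e)) x x')
    (hne : ¬ Relation.ReflTransGen (PStep (fun e => (Z e ∧ ¬ H e) ∧ IB x0 x1 y0 y1 e)) x x') :
    ∃ f g e1 e2 f0 g0, RingF x0 x1 y0 y1 f ∧ RingF x0 x1 y0 y1 g ∧ F f = 1 ∧ F g = 0 ∧ H e1 ∧ H e2 ∧
      (f0 = fA e1 ∨ f0 = fB e1) ∧ (g0 = fA e2 ∨ g0 = fB e2) ∧
      Relation.ReflTransGen (DStep (fun e => (¬ Z e ∧ ¬ H e) ∧ IB x0 x1 y0 y1 e)) f f0 ∧
      Relation.ReflTransGen (DStep (fun e => (¬ Z e ∧ ¬ H e) ∧ IB x0 x1 y0 y1 e)) g0 g := by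
  rcases arc_duality hx hy hr hr' hF (O := fun e => Z e ∧ ¬ H e) (C := fun e => ¬ Z e ∨ H e) (by
    intro e _
    by_cases h1 : Z e <;> by_cases h2 : H e <;> simp [h1, h2]) with h | ⟨f, g, hf, hg, hf1, hg0, hD⟩
  · exact absurd h hne
  · have hD2 : Relation.ReflTransGen
        (DStep (fun e => ((¬ Z e ∧ ¬ H e) ∧ IB x0 x1 y0 y1 e) ∨ H e)) f g := by
      refine dstep_mono' ?_ hD
      rintro e ⟨h1 | h1, h2⟩
      · by_cases h3 : H e
        · exact Or.inr h3
        · exact Or.inl ⟨⟨h1, h3⟩, h2⟩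
      · exact Or.inr h1
    rcases cut_hole hD2 with hC | ⟨e1, e2, f0, g0, h1, h2, h3, h4, h5, h6⟩
    · exfalso
      have := no_both hx hy hr hr' hF (O := fun e => Z e ∨ H e) (C := fun e => ¬ Z e ∧ ¬ H e) (by
        rintro e _ (h1 | h1) ⟨h2, h3⟩
        · exact h2 h1
        · exact h3 h1) hP hf hg hC
      rw [hf1, hg0] at this
      exact absurd this (by decide)
    · exact ⟨f, g, e1, e2, f0, g0, hf, hg, hf1, hg0, h1, h2, h3, h4, h5, h6⟩

end box

end Crest.Agent.R158.Kd458
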