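import Crest.Agent.R158.Sq1_200
import Crest.Agent.R158.Ru2_874
import Crest.Agent.R158.Cpl2_963
import Crest.Agent.R158.Kd2_458

/-!
# Row 158 (helper458), SEP: deterministic lemmas on "two distinct crossing clusters"

`TT D I O` (helper874) : two distinct open clusters of `D` join `I` to `O`; `An x a b` (helper963).

* `sepA1` : two different clusters of `S` landing at `x`, `x'` : `a < sd x x'`
* `sepA2` : they stay different when the boxes of radius `s` around `x`, `x'` are opened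
* `reroute` : a connection can be pushed off the box of radius `a` around `c`
* `reroute2` : off two boxes.
-/

set_option autoImplicit false

noncomputable section

namespace Crest.Agent.R158.Kd458

open Crest.Agent.R161.Geo729 Crest.Agent.R161.Topo374 Crest.Agent.R161.Dual374
open Crest.Agent.R161.Tas682
open Crest.Agent.R158.Ru874 hiding An
open Crest.Agent.R158.Cpl963

/-- no two distinct clusters of `S ∩ An x a b` cross the annulus -/
def Gd (z : Cf) (S : Set P2) (x : P2) (a b : ℤ) : Prop :=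
  z ∉ TT (S ∩ An x a b) {v | sd x v = a} {v | sd x v = b}

/-- both end points in the box of radius `s` around `x` -/
def NB (x : P2) (s : ℤ) (e : Edge) : Prop := sd x (src e) ≤ s ∧ sd x (tgt e) ≤ s

theorem gd_join {z : Cf} {S : Set P2} {x : P2} {a b : ℤ} (hG : Gd z S x a b) (hab : a ≤ b)
    {u v u' v' : P2} (h : OC z S u v) (hu : sd x u ≤ a) (hv : b ≤ sd x v)
    (h' : OC z S u' v') (hu' : sd x u' ≤ a) (hv' : b ≤ sd x v') : OC z S u u' := by
  obtain ⟨p, q, hp, hq, h1, h2⟩ := cross_sub x hab h hu hv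
  obtain ⟨p', q', hp', hq', h1', h2'⟩ := cross_sub x hab h' hu' hv'
  have : OC z (S ∩ An x a b) p p' := by
    by_contra hn
    exact hG ⟨p, hp, q, hq, p', hp', q', hq', h1, h1', hn⟩
  exact (h2.trans (this.monoS Set.inter_subset_left)).trans h2'.symm

theorem sd_self (x : P2) : sd x x = 0 := by simp [sd]

theorem sd_symm (x y : P2) : sd x y = sd y x := by
  unfold sd
  rw [abs_sub_comm, abs_sub_comm y.2]

theorem sd_tri (x y w : P2) : sd x w ≤ sd x y + sd y w := by
  unfold sd
  have h1 : |w.1 - x.1| ≤ |y.1 - x.1| + |w.1 - y.1| := by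
    calc |w.1 - x.1| = |(y.1 - x.1) + (w.1 - y.1)| := by ring_nf
      _ ≤ _ := abs_add_le _ _
  have h2 : |w.2 - x.2| ≤ |y.2 - x.2| + |w.2 - y.2| := by
    calc |w.2 - x.2| = |(y.2 - x.2) + (w.2 - y.2)| := by ring_nf
      _ ≤ _ := abs_add_le _ _
  have h3 := le_max_left |y.1 - x.1| |y.2 - x.2|
  have h4 := le_max_right |y.1 - x.1| |y.2 - x.2|
  have h5 := le_max_left |w.1 - y.1| |w.2 - y.2|
  have h6 := le_max_right |w.1 - y.1| |w.2 - y.2|
  apply max_le <;> omega

theorem sd_nonneg (x y : P2) : 0 ≤ sd x y := by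
  unfold sd
  exact le_max_of_le_left (abs_nonneg _)

/-- **Separation of the landing points.** -/
theorem sepA1 {z : Cf} {S : Set P2} {x x' p p' : P2} {a b : ℤ} (h : OC z S x p) (h' : OC z S x' p')
    (hn : ¬ OC z S p p') (ha : 0 ≤ a) (hab : a ≤ b) (hp : b ≤ sd x p) (hp' : b ≤ sd x p')
    (hG : Gd z S x a b) : a < sd x x' := by
  by_contra hle
  push Not at hle
  have := gd_join hG hab h (by rw [sd_self]; exact ha) hp h' hle hp'
  exact hn ((h.symm.trans this).trans h')

/-- **Opening the boxes around the landing points does not join the two clusters.** -/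
theorem sepA2 {z y : Cf} {S : Set P2} {x x' p p' : P2} {s c : ℤ} (h : OC z S x p) (h' : OC z S x' p')
    (hn : ¬ OC z S p p') (hs : 0 ≤ s) (hsc : s ≤ c) (hxx : s + c ≤ sd x x')
    (hp : c ≤ sd x p) (hp' : c ≤ sd x p') (hq : c ≤ sd x' p) (hq' : c ≤ sd x' p')
    (hG : Gd z S x s c) (hG' : Gd z S x' s c)
    (hy : ∀ e, y e = true → z e = true ∨ NB x s e ∨ NB x' s e) : ¬ OC y S p p' := by
  intro hc
  -- the cluster of the first box
  set K : P2 → Prop := fun w => OC z S p w ∨ ∃ w0, sd x w0 ≤ s ∧ OC z S w0 w with hK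
  -- a connection from the first box to far away is in the cluster of `p`
  have hfar : ∀ {w0 w : P2}, sd x w0 ≤ s → OC z S w0 w → c ≤ sd x w → OC z S p w := by
    intro w0 w hw0 hc0 hw
    have := gd_join hG hsc h (by rw [sd_self]; exact hs) hp hc0 hw0 hw
    exact h.symm.trans (this.trans hc0)
  have hfar' : ∀ {w0 w : P2}, sd x' w0 ≤ s → OC z S w0 w → c ≤ sd x' w → OC z S p' w := by
    intro w0 w hw0 hc0 hw
    have := gd_join hG' hsc h' (by rw [sd_self]; exact hs) hq' hc0 hw0 hw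
    exact h'.symm.trans (this.trans hc0)
  have hKx' : ∀ w, K w → sd x' w ≤ s → False := by
    intro w hw hws
    have hw1 : OC z S p w := by
      rcases hw with hw | ⟨w0, h0, hw⟩
      · exact hw
      · apply hfar h0 hw
        have h1 := sd_tri x w x'
        rw [sd_symm w x'] at h1
        omega
    have h2 := hfar' hws hw1.symm hq
    exact hn h2.symm
  have hKp' : ¬ K p' := by
    rintro (hw | ⟨w0, h0, hw⟩)
    · exact hn hw
    · exact hn (hfar h0 hw hp')
  have hstep : ∀ w, K w → ∀ w', OStep y S w w' → K w' := by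
    rintro w hw w' ⟨⟨e, he, hh⟩, hwS, hwS'⟩
    rcases hy e he with h1 | h1 | h1
    · have hst : OStep z S w w' := ⟨⟨e, h1, hh⟩, hwS, hwS'⟩
      rcases hw with hw | ⟨w0, h0, hw⟩
      · exact Or.inl ⟨hw.1, hw.2.tail hst⟩
      · exact Or.inr ⟨w0, h0, hw.1, hw.2.tail hst⟩
    · refine Or.inr ⟨w', ?_, OC.refl hwS'⟩
      rcases hh with ⟨_, rfl⟩ | ⟨_, rfl⟩
      · exact h1.2
      · exact h1.1
    · exfalso
      apply hKx' w hw
      rcases hh with ⟨rfl, _⟩ | ⟨rfl, _⟩
      · exact h1.1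
      · exact h1.2
  have hall : ∀ w, Relation.ReflTransGen (OStep y S) p w → K w := by
    intro w hw
    induction hw with
    | refl => exact Or.inl (OC.refl h.right)
    | tail _ hs ih => exact hstep _ ih _ hs
  exact hKp' (hall p' hc.2)

/-- a connection stays off a box or visits it -/
theorem stay_or_visit {z : Cf} {S : Set P2} (c : P2) (a : ℤ) {p q : P2} (h : OC z S p q)
    (hp : a ≤ sd c p) :
    OC z (S ∩ {v | a ≤ sd c v}) p q ∨ ∃ w, sd c w ≤ a ∧ OC z S p w ∧ OC z S w q := by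
  obtain ⟨hpS, h⟩ := h
  induction h with
  | refl => exact Or.inl (OC.refl ⟨hpS, hp⟩)
  | @tail b w h1 h2 ih =>
      have hbw : OC z S b w := ⟨h2.2.1, .single h2⟩
      rcases ih with ih | ⟨w', h3, h4, h5⟩
      · by_cases hw : a ≤ sd c w
        · exact Or.inl ⟨ih.1, ih.2.tail ⟨h2.1, ih.right, ⟨h2.2.2, hw⟩⟩⟩
        · exact Or.inr ⟨w, by omega, ⟨hpS, h1.tail h2⟩, OC.refl h2.2.2⟩
      · exact Or.inr ⟨w', h3, h4, h5.trans hbw⟩

/-- **Rerouting** (helper580): a connection between points outside `{sd c · < b}` can be pushed off the box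
of radius `a`, if only one cluster crosses the annulus. -/
theorem reroute {z : Cf} {S : Set P2} {c : P2} {a b : ℤ} (hab : a ≤ b) (hG : Gd z S c a b) {p q : P2}
    (h : OC z S p q) (hp : b ≤ sd c p) (hq : b ≤ sd c q) : OC z (S ∩ {v | a ≤ sd c v}) p q := by
  rcases stay_or_visit c a h (by omega) with h | ⟨w, hw, h1, h2⟩
  · exact h
  · -- first hits of the sphere of radius `a`
    have key : ∀ {u : P2}, OC z S u w → b ≤ sd c u →
        ∃ w1 v1, sd c w1 = a ∧ sd c v1 = b ∧ OC z (S ∩ {v | a ≤ sd c v}) u w1 ∧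
          OC z (S ∩ An c a b) w1 v1 := by
      intro u hu hub
      obtain ⟨w1, hw1, h3⟩ := first_hit (fun v => - sd c v) (fun s t hst => by
        have := sd_nbr c t s hst.symm
        omega) (-a) hu (by omega) (by omega)
      have hw1' : sd c w1 = a := by omega
      have h4 : OC z (S ∩ {v | a ≤ sd c v}) u w1 := h3.monoS (by
        rintro v ⟨hv1, hv2⟩
        refine ⟨hv1, ?_⟩
        have : - sd c v ≤ - a := hv2
        show a ≤ sd c v
        omega)
      obtain ⟨v1, hv1, h5⟩ := first_hit (sd c) (sd_nbr c) b h4.symm (by omega) hub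
      refine ⟨w1, v1, hw1', hv1, h4, h5.monoS ?_⟩
      rintro v ⟨⟨hv1, hv2⟩, hv3⟩
      exact ⟨hv1, hv2, hv3⟩
    obtain ⟨w1, v1, hw1, hv1, h3, h4⟩ := key h1 hp
    obtain ⟨w2, v2, hw2, hv2, h5, h6⟩ := key h2.symm hq
    have h7 : OC z (S ∩ An c a b) w1 w2 := by
      by_contra hn
      exact hG ⟨w1, hw1, v1, hv1, w2, hw2, v2, hv2, h4, h6, hn⟩
    have h8 : OC z (S ∩ {v | a ≤ sd c v}) w1 w2 := h7.monoS (by
      rintro v ⟨hv1, hv2⟩
      exact ⟨hv1, hv2.1⟩)
    exact (h3.trans h8).trans h5.symm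

/-- the hypothesis `Gd` is local -/
theorem Gd.congr {z : Cf} {S S' : Set P2} {c : P2} {a b : ℤ} (hG : Gd z S c a b)
    (h : S ∩ An c a b = S' ∩ An c a b) : Gd z S' c a b := by
  unfold Gd at *
  rwa [← h]

/-- rerouting off two boxes -/
theorem reroute2 {z : Cf} {S : Set P2} {c c' : P2} {a b : ℤ} (hab : a ≤ b) (hcc : a + b ≤ sd c c')
    (hG : Gd z S c a b) (hG' : Gd z S c' a b) {p q : P2} (h : OC z S p q)
    (hp : b ≤ sd c p) (hq : b ≤ sd c q) (hp' : b ≤ sd c' p) (hq' : b ≤ sd c' q) :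
    OC z (S ∩ {v | a ≤ sd c v} ∩ {v | a ≤ sd c' v}) p q := by
  have h1 := reroute hab hG h hp hq
  refine reroute hab (hG'.congr ?_) h1 hp' hq'
  ext v
  constructor
  · rintro ⟨hv1, hv2⟩
    refine ⟨⟨hv1, ?_⟩, hv2⟩
    have h3 := sd_tri c v c'
    rw [sd_symm v c'] at h3
    have h4 := hv2.2
    show a ≤ sd c v
    omega
  · rintro ⟨⟨hv1, _⟩, hv2⟩
    exact ⟨hv1, hv2⟩

end Crest.Agent.R158.Kd458
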