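import Crest.Agent.R158.It4_200
import Crest.Agent.R161.Tas1_682

/-!
# Row 158, SEP leaf S1 (helper200): four-arm duality in a rectangle

`dual4`: `e = vw` an edge of the rectangle `B`, `v` and `w` both joined to the boundary of `B` by open edges of
`B` other than `e`, but not joined to each other.  Then both faces of `e` are joined to faces outside `B`
across closed edges of `B` other than `e`.
-/

set_option autoImplicit false

noncomputable section

namespace Crest.Agent.R158.Sq200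

open Crest.Agent.R161.Geo729 Crest.Agent.R161.Dual374 Crest.Agent.R161.Tas682
open Crest.Agent.R158.It200

/-- the edge has both endpoints in `S` -/
def InE (S : Set P2) (e : Edge) : Prop := src e ∈ S ∧ tgt e ∈ S

/-- the face (lower-left corner `f`) is outside the rectangle -/
def OutF (x0 x1 y0 y1 : ℤ) (f : P2) : Prop := ¬ (x0 ≤ f.1 ∧ f.1 < x1 ∧ y0 ≤ f.2 ∧ f.2 < y1)

/-- boundary vertices of the rectangle -/
def BdV (x0 x1 y0 y1 : ℤ) (v : P2) : Prop := v.1 = x0 ∨ v.1 = x1 ∨ v.2 = y0 ∨ v.2 = y1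

/-- open connection in `S` off the edge `e` -/
def OCe (z : Cf) (S : Set P2) (e : Edge) (u v : P2) : Prop :=
  Relation.ReflTransGen (PStep (fun e' => z e' = true ∧ e' ≠ e ∧ InE S e')) u v

/-- dual connection across closed edges of `S` off the edge `e` -/
def DCe (z : Cf) (S : Set P2) (e : Edge) (f g : P2) : Prop :=
  Relation.ReflTransGen (DStep (fun e' => z e' = false ∧ e' ≠ e ∧ InE S e')) f g

theorem iter_of_mem {z : Cfz} {c d : Corner} (hfin : (Lp z c).Finite) (h : d ∈ Lp z c) :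
    ∃ n : ℕ, (nx z)^[n] c = d := by
  obtain ⟨n, hn⟩ := (sc_iff_pow (f := nxE z) hfin).1 h
  refine ⟨n, ?_⟩
  rw [← hn, ← Equiv.Perm.iterate_eq_pow]
  rfl

theorem iter_mem_Lp (z : Cfz) (c : Corner) (n : ℕ) : (nx z)^[n] c ∈ Lp z c := by
  induction n with
  | zero => exact mem_Lp_self z c
  | succ n ih => rw [Function.iterate_succ_apply']; exact nx_mem_Lp.2 ih

theorem src_ne_tgt (e : Edge) : src e ≠ tgt e := by
  obtain ⟨⟨x, y⟩, s⟩ := e
  cases s <;> simp [src, tgt]

theorem eq_of_ah {d i : Corner} (h : ah d = ah i) (h1 : d.1 = i.1) : d = i := by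
  rcases (ah_eq_iff d (ah i)).1 h with h2 | h2 <;> rcases (ah_eq_iff i (ah i)).1 rfl with h3 | h3
  · rw [h2, ← h3]
  · exfalso
    rw [h2, h3] at h1
    simp only [fst_i1, ah_i2, fst_i2] at h1
    exact src_ne_tgt _ h1
  · exfalso
    rw [h2, h3] at h1
    simp only [fst_i1, ah_i1, fst_i2] at h1
    exact src_ne_tgt _ h1.symm
  · rw [h2, ← h3]

/-- a boundary vertex has a corner whose face is outside and touches an outside vertex -/
theorem bd_corner {x0 x1 y0 y1 : ℤ} {b : P2} (hb : BdV x0 x1 y0 y1 b) :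
    ∃ (q q' : Fin 4) (v' : P2), v' ∉ Rect x0 x1 y0 y1 ∧ fc (b, q) = fc (v', q') ∧
      OutF x0 x1 y0 y1 (fc (b, q)) := by
  obtain ⟨a, b⟩ := b
  rcases hb with h | h | h | h
  · refine ⟨3, 0, (a - 1, b), ?_, ?_, ?_⟩
    · simp only [Rect, Set.mem_setOf_eq]; simp only at h; omega
    · simp [fc]
    · simp only [OutF, fc]; simp only at h; omega
  · refine ⟨0, 3, (a + 1, b), ?_, ?_, ?_⟩
    · simp only [Rect, Set.mem_setOf_eq]; simp only at h; omega
    · simp [fc]
    · simp only [OutF, fc]; simp only at h; omega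
  · refine ⟨1, 0, (a, b - 1), ?_, ?_, ?_⟩
    · simp only [Rect, Set.mem_setOf_eq]; simp only at h; omega
    · simp [fc]
    · simp only [OutF, fc]; simp only at h; omega
  · refine ⟨0, 1, (a, b + 1), ?_, ?_, ?_⟩
    · simp only [Rect, Set.mem_setOf_eq]; simp only at h; omega
    · simp [fc]
    · simp only [OutF, fc]; simp only at h; omega

/-- all edges of an inside face are inside -/
theorem inE_of_face {x0 x1 y0 y1 : ℤ} {d : Corner} (h : ¬ OutF x0 x1 y0 y1 (fc d)) :
    InE (Rect x0 x1 y0 y1) (ah d) := by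
  obtain ⟨⟨a, b⟩, q⟩ := d
  simp only [OutF, not_not] at h
  fin_cases q <;> simp [fc] at h <;> simp [InE, ah, Rect, src, tgt] <;> omega

theorem JL_01 (z : Cfz) (c d : Corner) : JL z c d = 0 ∨ JL z c d = 1 := by
  by_cases h : d ∈ Lp z c
  · exact Or.inr (JL_mem h)
  · exact Or.inl (JL_not_mem h)

/-- one half of the four-arm duality, at an incoming corner `i` of the edge `ah i` -/
theorem dual4_half {z : Cf} {x0 x1 y0 y1 : ℤ} {i : Corner} {a b : P2}
    (ha : BdV x0 x1 y0 y1 a) (hb : BdV x0 x1 y0 y1 b)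
    (h1 : OCe z (Rect x0 x1 y0 y1) (ah i) i.1 a) (h2 : OCe z (Rect x0 x1 y0 y1) (ah i) (wa i) b)
    (hi : i.1 ∈ Rect x0 x1 y0 y1)
    (hn : ¬ OCe z (Rect x0 x1 y0 y1) (ah i) i.1 (wa i)) :
    ∃ f', OutF x0 x1 y0 y1 f' ∧ DCe z (Rect x0 x1 y0 y1) (ah i) (fc (nxc i)) f' := by
  classical
  set B := Rect x0 x1 y0 y1 with hB
  set e := ah i with he
  set z1 : Cf := fun e' => if e' ≠ e ∧ InE B e' then z e' else false with hz1
  have hz1t : ∀ e', z1 e' = true ↔ z e' = true ∧ e' ≠ e ∧ InE B e' := by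
    intro e'
    simp only [hz1]
    split_ifs with h
    · exact ⟨fun h' => ⟨h', h⟩, fun h' => h'.1⟩
    · exact ⟨fun h' => by simp at h', fun h' => absurd h'.2 h⟩
  have hcl : ∀ u w, Relation.ReflTransGen (PStep (fun e' => z1 e' = true)) u w ↔ OCe z B e u w := by
    intro u w
    unfold OCe
    simp only [hz1t]
  have hOB : ∀ u w, u ∈ B → OCe z B e u w → w ∈ B := by
    intro u w hu hw
    induction hw with
    | refl => exact hu
    | tail _ hs _ =>
        obtain ⟨e', ⟨_, _, h3⟩, ⟨_, rfl⟩ | ⟨_, rfl⟩⟩ := hs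
        · exact h3.2
        · exact h3.1
  have hBfin : B.Finite := by
    have : B ⊆ (Set.Icc x0 x1) ×ˢ (Set.Icc y0 y1) := by
      intro v hv
      simp only [hB, Rect, Set.mem_setOf_eq] at hv
      simp only [Set.mem_prod, Set.mem_Icc]
      omega
    exact ((Set.finite_Icc x0 x1).prod (Set.finite_Icc y0 y1)).subset this
  have hclB : OCl z1 i.1 ⊆ B := fun w hw => hOB _ _ hi ((hcl _ _).1 hw)
  obtain ⟨c, hc, hfin, hval⟩ := outer_open (z := z1) (v := i.1) (hBfin.subset hclB)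
  have hsym : ∀ {u w : P2}, Relation.ReflTransGen (PStep (fun e' => z1 e' = true)) u w →
      Relation.ReflTransGen (PStep (fun e' => z1 e' = true)) w u :=
    fun h => rtg_symm (fun _ _ h => PStep.symm h) h
  have hLv : ∀ d ∈ Lp z1 c, d.1 ∈ OCl z1 i.1 := fun d hd =>
    Relation.ReflTransGen.trans hc (Lp_v d hd)
  have hsupp : ∀ d, JL z1 c d ≠ 0 → x0 ≤ d.1.1 ∧ d.1.1 ≤ x1 ∧ y0 ≤ d.1.2 ∧ d.1.2 ≤ y1 := by
    intro d hd
    have : d ∈ Lp z1 c := by
      by_contra h
      exact hd (JL_not_mem h)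
    have h3 := hclB (hLv d this)
    simpa [hB, Rect] using h3
  have hout : ∀ v', v' ∉ B → hv z1 c v' = 0 := by
    intro v' hv'
    refine Hv_out (JL_fs hfin) (JL_inv z1 c).cons hsupp ?_
    simp only [hB, Rect, Set.mem_setOf_eq] at hv'
    omega
  -- boundary vertices with height `-1`
  have hbd : ∀ b, BdV x0 x1 y0 y1 b → hv z1 c b = -1 →
      ∃ d ∈ Lp z1 c, d.1 = b ∧ OutF x0 x1 y0 y1 (fc d) := by
    intro b hb hvb
    obtain ⟨q, q', v', hv', hf', hof⟩ := bd_corner hb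
    have g1 := hv_grad hfin (b, q)
    have g2 := hv_grad hfin (v', q')
    rw [← hf', hout v' hv'] at g2
    have h3 : JL z1 c (v', q') = 0 := by
      by_contra h
      have := hsupp _ h
      simp only [hB, Rect, Set.mem_setOf_eq] at hv'
      exact hv' this
    rw [h3] at g2
    simp only at g1
    rw [hvb] at g1
    have h4 : JL z1 c (b, q) = 1 := by linarith
    refine ⟨(b, q), ?_, rfl, hof⟩
    by_contra h
    rw [JL_not_mem h] at h4
    exact absurd h4 (by norm_num)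
  have hInv := JL_inv z1 c
  have hFs := JL_fs hfin
  -- heights at the two endpoints
  have hvi : hv z1 c i.1 = -1 := hval _ .refl
  have hnw : wa i ∉ OCl z1 i.1 := fun h => hn ((hcl _ _).1 h)
  have hvw : hv z1 c (wa i) ≠ -1 := by
    intro h
    have h3 : hv z1 c b = -1 := by
      have := hInv.hv_path hFs ((hcl _ _).2 h2)
      unfold hv at h ⊢
      rw [← this, h]
    obtain ⟨d, hd, hdb, _⟩ := hbd b hb h3
    apply hnw
    have h4 := hLv d hd
    rw [hdb] at h4
    exact Relation.ReflTransGen.trans h4 (hsym ((hcl _ _).2 h2))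
  have hvw0 : hv z1 c (wa i) = 0 := by
    rcases sg_cases hfin with ⟨_, _, h3, _⟩ | ⟨_, _, h3, _⟩
    · exact (h3 (wa i)).resolve_left hvw
    · exfalso
      have := h3 i.1
      rw [hvi] at this
      omega
  -- the corner `i` is on the strand
  have hiL : i ∈ Lp z1 c := by
    have g1 := hv_grad hfin i
    have g2 := hv_grad hfin (nxo i)
    rw [fc_nxo, fst_nxo, hvw0] at g2
    rw [hvi] at g1
    by_contra h
    rw [JL_not_mem h] at g1
    have h3 : JL z1 c (nxo i) = -1 := by linarith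
    rcases JL_01 z1 c (nxo i) with h4 | h4 <;> rw [h4] at h3 <;> omega
  have hei : z1 e = false := by
    simp only [hz1]; rw [if_neg]; rintro ⟨h, _⟩; exact h rfl
  have hnxi : nx z1 i = nxc i := nx_closed hei
  have hoL : nxc i ∈ Lp z1 c := by rw [← hnxi]; exact nx_mem_Lp.2 hiL
  have hfin' : (Lp z1 (nxc i)).Finite := by rw [Lp_eq hoL]; exact hfin
  -- the strand visits an outside face
  have hex : ∃ n : ℕ, OutF x0 x1 y0 y1 (fc ((nx z1)^[n] (nxc i))) := by
    have h3 : hv z1 c a = -1 := by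
      have := hInv.hv_path hFs ((hcl _ _).2 h1)
      unfold hv at hvi ⊢
      rw [← this, hvi]
    obtain ⟨d, hd, _, hdo⟩ := hbd a ha h3
    have : d ∈ Lp z1 (nxc i) := by rw [Lp_eq hoL]; exact hd
    obtain ⟨n, hn⟩ := iter_of_mem hfin' this
    exact ⟨n, by rw [hn]; exact hdo⟩
  set n := Nat.find hex with hndef
  have hnout : OutF x0 x1 y0 y1 (fc ((nx z1)^[n] (nxc i))) := Nat.find_spec hex
  have hmin : ∀ j < n, ¬ OutF x0 x1 y0 y1 (fc ((nx z1)^[j] (nxc i))) := fun j hj =>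
    Nat.find_min hex hj
  have hne : ∀ j < n, ah ((nx z1)^[j] (nxc i)) ≠ e := by
    intro j hj h
    have hm : (nx z1)^[j] (nxc i) ∈ Lp z1 c := by
      have := iter_mem_Lp z1 (nxc i) j
      rw [Lp_eq hoL] at this
      exact this
    have hv1 : ((nx z1)^[j] (nxc i)).1 = i.1 := by
      rcases ah_ends ((nx z1)^[j] (nxc i)) with ⟨p1, -⟩ | ⟨p1, -⟩ <;> rw [h] at p1 <;>
        rcases ah_ends i with ⟨q1, q2⟩ | ⟨q1, q2⟩ <;> rw [← he] at q1 q2
      · rw [p1, q1]
      · exfalso; apply hnw; rw [q2, ← p1]; exact hLv _ hm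
      · exfalso; apply hnw; rw [q2, ← p1]; exact hLv _ hm
      · rw [p1, q1]
    have h5 : (nx z1)^[j] (nxc i) = i := eq_of_ah (h.trans he) hv1
    have h6 : (nx z1)^[j + 1] (nxc i) = nxc i := by
      rw [Function.iterate_succ_apply', h5, hnxi]
    apply hmin (n - (j + 1)) (by omega)
    have h7 : (nx z1)^[n] (nxc i) = (nx z1)^[n - (j + 1)] (nxc i) := by
      conv_lhs => rw [show n = (n - (j + 1)) + (j + 1) by omega]
      rw [Function.iterate_add_apply, h6]
    rw [← h7]; exact hnout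
  refine ⟨_, hnout, ?_⟩
  have hp := side_f' z1 (nxc i) n
  unfold DCe
  refine Relation.ReflTransGen.mono ?_ _ _ hp
  rintro f g ⟨e', ⟨h3, j, hj, h4⟩, h5⟩
  have h6 : InE B e' := by rw [h4]; exact inE_of_face (hmin j hj)
  have h7 : e' ≠ e := by rw [h4]; exact hne j hj
  refine ⟨e', ⟨?_, h7, h6⟩, h5⟩
  simp only [hz1] at h3
  rw [if_pos ⟨h7, h6⟩] at h3
  exact h3

/-- **four-arm duality**: if the two endpoints of `e` are joined to the boundary of the rectangle, but not to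
each other, off `e`, then both faces of `e` are dual-joined to the outside, off `e`. -/
theorem dual4 {z : Cf} {x0 x1 y0 y1 : ℤ} {e : Edge} {a b : P2}
    (he : InE (Rect x0 x1 y0 y1) e)
    (ha : BdV x0 x1 y0 y1 a) (hb : BdV x0 x1 y0 y1 b)
    (h1 : OCe z (Rect x0 x1 y0 y1) e (src e) a) (h2 : OCe z (Rect x0 x1 y0 y1) e (tgt e) b)
    (hn : ¬ OCe z (Rect x0 x1 y0 y1) e (src e) (tgt e)) :
    (∃ f', OutF x0 x1 y0 y1 f' ∧ DCe z (Rect x0 x1 y0 y1) e (fA e) f') ∧
      (∃ f', OutF x0 x1 y0 y1 f' ∧ DCe z (Rect x0 x1 y0 y1) e (fB e) f') := by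
  have w1 : wa (i1 e) = tgt e := by rw [← fst_nxo, nxo_i1, fst_o2]
  have w2 : wa (i2 e) = src e := by rw [← fst_nxo, nxo_i2, fst_o1]
  have hn' : ¬ OCe z (Rect x0 x1 y0 y1) e (tgt e) (src e) := fun h =>
    hn (rtg_symm (fun _ _ h => PStep.symm h) h)
  have A := dual4_half (z := z) (i := i1 e) ha hb (by rw [ah_i1, fst_i1]; exact h1)
    (by rw [ah_i1, w1]; exact h2) (by rw [fst_i1]; exact he.1) (by rw [ah_i1, fst_i1, w1]; exact hn)
  have B := dual4_half (z := z) (i := i2 e) hb ha (by rw [ah_i2, fst_i2]; exact h2)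
    (by rw [ah_i2, w2]; exact h1) (by rw [fst_i2]; exact he.2) (by rw [ah_i2, fst_i2, w2]; exact hn')
  rw [nxc_i1, ah_i1] at A
  rw [nxc_i2, ah_i2] at B
  have hf : (fc (o1 e) = fA e ∧ fc (o2 e) = fB e) ∨ (fc (o1 e) = fB e ∧ fc (o2 e) = fA e) := by
    obtain ⟨⟨x, y⟩, s⟩ := e
    cases s <;> simp [o1, o2, fc, fA, fB]
  rcases hf with ⟨q1, q2⟩ | ⟨q1, q2⟩
  · rw [q1] at A; rw [q2] at B; exact ⟨A, B⟩
  · rw [q1] at A; rw [q2] at B; exact ⟨B, A⟩

end Crest.Agent.R158.Sq200
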