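import Crest.Agent.R158.Hp7_814
import Crest.Agent.R158.Sp0_580
import Crest.Agent.R158.Kd3_458
import Crest.Agent.R158.Sq1_200

/-!
# Row 158, Block HP (helper814): the leaf (L3) of Block SEP

* `rsw_of_RSp` : `Rsw` for `p` and `σ p` from 580's `RSp c p N`
* `CL c`, `bL c` : constant and exponent
* `l3_in`, `l3_in_dual`, `l3_out`, `l3_out_dual` : no bad position on the boundary of a square /
  outside of a square, primal and dual
* `ball_in`, `ball_out`, `ball_in_dual`, `ball_out_dual` : the same around the ball `sd c0 ≤ R`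
-/

set_option autoImplicit false

noncomputable section

namespace Crest.Agent.R158.Hp814

open MeasureTheory ProbabilityTheory unitInterval
open Crest.Agent.R161.Geo729 Crest.Agent.R161.Topo374 Crest.Agent.R161.Dual374
open Crest.Agent.R161.Tas682 Crest.Agent.R158.Rs689 Crest.Agent.R161.Sym597
open Crest.Agent.R158.Ru874 Crest.Agent.R158.Kd458

theorem rsw_of_RSp {c : ℝ} {p : I} {N : ℕ} (hN : 1 ≤ N) (h : Sp580.RSp c p N) :
    Rsw p (cR c) N N ∧ Rsw (σ p) (cR c) N N := by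
  have hc1 := h.le_one hN
  have h1 : RSp p c N := by
    intro n hn hn2
    lift n to ℕ using (by omega)
    exact (h.2 n (by exact_mod_cast hn) (by exact_mod_cast hn2)).1
  have h2 : RSp (σ p) c N := by
    intro n hn hn2
    lift n to ℕ using (by omega)
    exact (h.2 n (by exact_mod_cast hn) (by exact_mod_cast hn2)).2
  refine ⟨rsw_of_rs _ h.1 hc1 h1 h2, rsw_of_rs _ h.1 hc1 h2 ?_⟩
  rw [unitInterval.symm_symm]
  exact h1

/-- constant of (L3) -/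
def CL (c : ℝ) : ℝ := 12 * K1 (cR c)

/-- exponent of (L3) -/
def bL (c : ℝ) : ℝ := aex (cR c) / 2

theorem CL_pos {c : ℝ} (hc : 0 < c) : 0 < CL c := by
  unfold CL
  have := K1_pos (cR_pos hc)
  positivity

theorem bL_pos {c : ℝ} (hc : 0 < c) (hc1 : c ≤ 1) : 0 < bL c := by
  unfold bL
  have := aex_pos (cR_pos hc) (cR_le_half hc hc1)
  positivity

theorem bad_eq (D X : Set P2) (s r : ℤ) : Bad D X s r = {z | ∃ x ∈ X, ¬ Gd z D x s r} := by
  ext z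
  simp only [Bad, LT, Sp, Gd, Set.mem_ofPred_eq, not_not]
  exact Iff.rfl

theorem bad_meas (D : Set P2) (x0 y0 L s r : ℤ) : MeasurableSet (Bad D (bdS x0 y0 L) s r) := by
  have hf : (bdS x0 y0 L).Finite := (rect_finite x0 (x0 + L) y0 (y0 + L)).subset fun v hv => hv.1
  have : Bad D (bdS x0 y0 L) s r = ⋃ x ∈ bdS x0 y0 L, LT D x s r := by
    ext z
    simp [Bad]
  rw [this]
  exact hf.measurableSet_biUnion fun x _ => (LT_dep D x s r).measurableSet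

section

variable {c : ℝ} {p : I} {N : ℕ} (h : Sp580.RSp c p N) (x0 y0 : ℤ) {L s r : ℤ} (hs : 1 ≤ s)
  (hsr : s ≤ r) (hrL : r ≤ L) (hN1 : 2 * s + 1 ≤ N) (hN2 : r ≤ N)
include h hs hsr hrL hN1 hN2

theorem l3_aux :
    (nu p).real (Bad (SqI x0 y0 L) (bdS x0 y0 L) s r) ≤
      4 * (K1 (cR c) * (((L : ℝ) / r) * ((s : ℝ) / r) ^ bL c)) ∧
    (nu p).real (Bad (SqO x0 y0 L) (bdS x0 y0 L) s r) ≤
      4 * (K1 (cR c) * (((L : ℝ) / r) * ((s : ℝ) / r) ^ bL c)) ∧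
    (nu (σ p)).real (Bad (SqI x0 y0 L) (bdS x0 y0 L) s r) ≤
      4 * (K1 (cR c) * (((L : ℝ) / r) * ((s : ℝ) / r) ^ bL c)) ∧
    (nu (σ p)).real (Bad (SqO x0 y0 L) (bdS x0 y0 L) s r) ≤
      4 * (K1 (cR c) * (((L : ℝ) / r) * ((s : ℝ) / r) ^ bL c)) := by
  have hN : 1 ≤ N := by omega
  obtain ⟨h1, h2⟩ := rsw_of_RSp hN h
  have h3 := cR_le_half h.1 (h.le_one hN)
  exact ⟨not_good_in h1 h3 x0 y0 hs hsr hrL hN1 hN2, not_good_out h1 h3 x0 y0 hs hsr hrL hN1 hN2,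
    not_good_in h2 h3 x0 y0 hs hsr hrL hN1 hN2, not_good_out h2 h3 x0 y0 hs hsr hrL hN1 hN2⟩

/-- (L3), inner domain -/
theorem l3_in : (nu p).real {z | ∃ w ∈ bdS x0 y0 L, ¬ Gd z (SqI x0 y0 L) w s r} ≤
    4 * (K1 (cR c) * (((L : ℝ) / r) * ((s : ℝ) / r) ^ bL c)) := by
  rw [← bad_eq]
  exact (l3_aux h x0 y0 hs hsr hrL hN1 hN2).1

/-- (L3), outer domain -/
theorem l3_out : (nu p).real {z | ∃ w ∈ bdS x0 y0 L, ¬ Gd z (SqO x0 y0 L) w s r} ≤
    4 * (K1 (cR c) * (((L : ℝ) / r) * ((s : ℝ) / r) ^ bL c)) := by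
  rw [← bad_eq]
  exact (l3_aux h x0 y0 hs hsr hrL hN1 hN2).2.1

/-- (L3), inner domain, dual colour -/
theorem l3_in_dual : (nu p).real {z | ∃ w ∈ bdS x0 y0 L, ¬ Gd (dual z) (SqI x0 y0 L) w s r} ≤
    4 * (K1 (cR c) * (((L : ℝ) / r) * ((s : ℝ) / r) ^ bL c)) := by
  have h1 := (l3_aux h x0 y0 hs hsr hrL hN1 hN2).2.2.1
  rw [← nu_dual p (bad_meas _ _ _ _ _ _), bad_eq] at h1
  exact h1

/-- (L3), outer domain, dual colour -/
theorem l3_out_dual : (nu p).real {z | ∃ w ∈ bdS x0 y0 L, ¬ Gd (dual z) (SqO x0 y0 L) w s r} ≤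
    4 * (K1 (cR c) * (((L : ℝ) / r) * ((s : ℝ) / r) ^ bL c)) := by
  have h1 := (l3_aux h x0 y0 hs hsr hrL hN1 hN2).2.2.2
  rw [← nu_dual p (bad_meas _ _ _ _ _ _), bad_eq] at h1
  exact h1

end

theorem sqI_ball (c0 : P2) (R : ℤ) : SqI (c0.1 - R) (c0.2 - R) (2 * R) = {v | sd c0 v ≤ R} := by
  ext v
  simp only [SqI, mem_rect, Set.mem_ofPred_eq, sd_le]
  omega

theorem sqO_ball (c0 : P2) {R : ℤ} (hR : 1 ≤ R) :
    SqO (c0.1 - R) (c0.2 - R) (2 * R) = {v | R ≤ sd c0 v} := by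
  ext v
  simp only [SqO, Set.mem_ofPred_eq, le_sd]
  omega

theorem bdS_ball (c0 : P2) {R : ℤ} (hR : 1 ≤ R) :
    bdS (c0.1 - R) (c0.2 - R) (2 * R) = {v | sd c0 v = R} := by
  ext v
  have h1 : v ∈ SqI (c0.1 - R) (c0.2 - R) (2 * R) ↔ sd c0 v ≤ R := by
    rw [sqI_ball]; exact Iff.rfl
  have h2 : R ≤ sd c0 v ↔ v.1 ≤ c0.1 - R ∨ c0.1 + R ≤ v.1 ∨ v.2 ≤ c0.2 - R ∨ c0.2 + R ≤ v.2 ∨
    R ≤ 0 := le_sd
  have h3 : sd c0 v ≤ R ↔ _ := sd_le
  simp only [bdS, Set.mem_ofPred_eq, h1]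
  constructor
  · rintro ⟨h4, h5⟩
    exact le_antisymm h4 (h2.2 (by omega))
  · intro h4
    have h5 := h2.1 h4.ge
    have h6 := h3.1 h4.le
    exact ⟨h4.le, by omega⟩

/-- faces inside the ball -/
def FIn (c0 : P2) (R : ℤ) : Set P2 := Rect (c0.1 - R) (c0.1 + R - 1) (c0.2 - R) (c0.2 + R - 1)

/-- faces outside the ball -/
def FOut (c0 : P2) (R : ℤ) : Set P2 := (FIn c0 R)ᶜ

theorem sqI_fin (c0 : P2) (R : ℤ) : SqI (c0.1 - R) (c0.2 - R) (2 * R - 1) = FIn c0 R := by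
  ext v
  simp only [SqI, FIn, mem_rect]
  omega

theorem sqO_fout (c0 : P2) {R : ℤ} :
    SqO (c0.1 - R - 1) (c0.2 - R - 1) (2 * R + 1) = FOut c0 R := by
  ext v
  simp only [SqO, FOut, FIn, Set.mem_compl_iff, mem_rect, Set.mem_ofPred_eq]
  omega

/-- boundary faces of `FIn` -/
def FInB (c0 : P2) (R : ℤ) : Set P2 := bdS (c0.1 - R) (c0.2 - R) (2 * R - 1)

/-- the ring of faces around the ball -/
def FRing (c0 : P2) (R : ℤ) : Set P2 := bdS (c0.1 - R - 1) (c0.2 - R - 1) (2 * R + 1)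

section

variable {c : ℝ} {p : I} {N : ℕ} (h : Sp580.RSp c p N) (c0 : P2) {R s r : ℤ} (hs : 1 ≤ s)
  (hsr : s ≤ r) (hrR : r ≤ R) (hN1 : 2 * s + 1 ≤ N) (hN2 : r ≤ N)
include h hs hsr hrR hN1 hN2

omit hrR hN1 hN2 in
theorem fin_aux {L : ℤ} (hL : L ≤ 3 * R) :
    4 * (K1 (cR c) * (((L : ℝ) / r) * ((s : ℝ) / r) ^ bL c)) ≤
      CL c * (((R : ℝ) / r) * ((s : ℝ) / r) ^ bL c) := by
  have h1 := K1_pos (cR_pos h.1)
  have hr0 : (0 : ℝ) < r := by exact_mod_cast (by omega : 0 < r)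
  have hs0 : (0 : ℝ) < s := by exact_mod_cast (by omega : 0 < s)
  have hL' : (L : ℝ) ≤ 3 * R := by exact_mod_cast hL
  have h2 : (L : ℝ) / r ≤ 3 * ((R : ℝ) / r) := by
    rw [← mul_div_assoc, div_le_div_iff_of_pos_right hr0]
    exact hL'
  have h3 : 0 ≤ ((s : ℝ) / r) ^ bL c := by positivity
  unfold CL
  calc 4 * (K1 (cR c) * (((L : ℝ) / r) * ((s : ℝ) / r) ^ bL c))
      ≤ 4 * (K1 (cR c) * ((3 * ((R : ℝ) / r)) * ((s : ℝ) / r) ^ bL c)) := by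
        gcongr
    _ = _ := by ring

/-- (L3) for balls, inner domain -/
theorem ball_in : (nu p).real {z | ∃ w, sd c0 w = R ∧ ¬ Gd z {v | sd c0 v ≤ R} w s r} ≤
    CL c * (((R : ℝ) / r) * ((s : ℝ) / r) ^ bL c) := by
  have h1 := l3_in h (c0.1 - R) (c0.2 - R) (L := 2 * R) hs hsr (by omega) hN1 hN2
  rw [sqI_ball, bdS_ball c0 (by omega)] at h1
  exact h1.trans (fin_aux h hs hsr (by omega))

/-- (L3) for balls, outer domain -/
theorem ball_out : (nu p).real {z | ∃ w, sd c0 w = R ∧ ¬ Gd z {v | R ≤ sd c0 v} w s r} ≤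
    CL c * (((R : ℝ) / r) * ((s : ℝ) / r) ^ bL c) := by
  have h1 := l3_out h (c0.1 - R) (c0.2 - R) (L := 2 * R) hs hsr (by omega) hN1 hN2
  rw [sqO_ball c0 (by omega), bdS_ball c0 (by omega)] at h1
  exact h1.trans (fin_aux h hs hsr (by omega))

/-- (L3) for balls, inner faces, dual colour -/
theorem ball_in_dual : (nu p).real {z | ∃ f ∈ FInB c0 R, ¬ Gd (dual z) (FIn c0 R) f s r} ≤
    CL c * (((R : ℝ) / r) * ((s : ℝ) / r) ^ bL c) := by
  have h1 := l3_in_dual h (c0.1 - R) (c0.2 - R) (L := 2 * R - 1) hs hsr (by omega) hN1 hN2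
  rw [sqI_fin] at h1
  exact h1.trans (fin_aux h hs hsr (by omega))

/-- (L3) for balls, outer faces, dual colour -/
theorem ball_out_dual : (nu p).real {z | ∃ f ∈ FRing c0 R, ¬ Gd (dual z) (FOut c0 R) f s r} ≤
    CL c * (((R : ℝ) / r) * ((s : ℝ) / r) ^ bL c) := by
  have h1 := l3_out_dual h (c0.1 - R - 1) (c0.2 - R - 1) (L := 2 * R + 1) hs hsr (by omega) hN1
    hN2
  rw [sqO_fout] at h1
  exact h1.trans (fin_aux h hs hsr (by omega))

/-- (L3) for the square of faces `[c0 - R - 1, c0 + R]²` (ring faces included), dual colour -/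
theorem fsq_in_dual : (nu p).real {z | ∃ f ∈ FRing c0 R,
    ¬ Gd (dual z) (Rect (c0.1 - R - 1) (c0.1 + R) (c0.2 - R - 1) (c0.2 + R)) f s r} ≤
    CL c * (((R : ℝ) / r) * ((s : ℝ) / r) ^ bL c) := by
  have h1 := l3_in_dual h (c0.1 - R - 1) (c0.2 - R - 1) (L := 2 * R + 1) hs hsr (by omega) hN1
    hN2
  have h2 : SqI (c0.1 - R - 1) (c0.2 - R - 1) (2 * R + 1) =
      Rect (c0.1 - R - 1) (c0.1 + R) (c0.2 - R - 1) (c0.2 + R) := by
    unfold SqI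
    congr 1 <;> ring
  rw [h2] at h1
  exact h1.trans (fin_aux h hs hsr (by omega))

end

end Crest.Agent.R158.Hp814
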