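import Crest.Agent.R158.Hb0_656
import Crest.Agent.R158.Dr7_945

/-!
R158, S0237, block BL, leaf (B8) of helper656's blueprint (helper689), part 1: the two literal slabs.

* `TH A B Y c0 c1 up` : the facts of a hanging part `B ⊆ A` on the level of tiles
* `Sx`, `Nt` : the tiles between the two slits, the notches
* `slabT_up`, `slabT_dn` : 945's `Slab` from `TH`
-/

set_option autoImplicit false

noncomputable section

namespace Crest.Agent.R158.Hs689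

open Crest.Agent.R158.Sp896 (V)
open Crest.Agent.R158.Dr945 (Slab gE)

/-- a hanging part `B` of `A` behind the crosscut `c0 ≤ x < c1` of the line `Y` -/
structure TH (A B : Finset V) (Y c0 c1 : ℤ) (up : Prop) : Prop where
  sub : ∀ x y : ℤ, (x, y) ∈ B → (x, y) ∈ A
  hr : ∀ x y : ℤ, (x, y) ∈ B → (x + 1, y) ∈ A → (x + 1, y) ∈ B
  hl : ∀ x y : ℤ, (x, y) ∈ B → (x - 1, y) ∈ A → (x - 1, y) ∈ B
  vu : ∀ x y : ℤ, (x, y) ∈ B → (x, y + 1) ∈ A →
    (x, y + 1) ∈ B ∨ (y + 1 = Y ∧ c0 ≤ x ∧ x < c1 ∧ ¬ up)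
  vd : ∀ x y : ℤ, (x, y) ∈ B → (x, y - 1) ∈ A → (x, y - 1) ∈ B ∨ (y = Y ∧ c0 ≤ x ∧ x < c1 ∧ up)
  gap : ∀ x y : ℤ, (x, y) ∈ A → (x - 1, y) ∉ A → (x - 2, y) ∉ A
  p1 : ∀ x y : ℤ, (x, y) ∈ A → (x + 1, y + 1) ∈ A → (x + 1, y) ∈ A ∨ (x, y + 1) ∈ A
  p2 : ∀ x y : ℤ, (x, y) ∈ A → (x + 1, y - 1) ∈ A → (x + 1, y) ∈ A ∨ (x, y - 1) ∈ A
  cutu : up → ∀ x : ℤ, c0 ≤ x → x < c1 →
    (x, Y - 1) ∈ A ∧ (x, Y - 1) ∉ B ∧ ((x, Y) ∈ A → (x, Y) ∈ B)
  cutd : ¬ up → ∀ x : ℤ, c0 ≤ x → x < c1 →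
    (x, Y) ∈ A ∧ (x, Y) ∉ B ∧ ((x, Y - 1) ∈ A → (x, Y - 1) ∈ B)
  e1 : ∀ x y : ℤ, (x, y) ∈ A → (x - 1, y) ∉ A → x < c1 → x + 1 < c1

/-- the tiles between the two slits -/
def Sx (p y0 y1 Y Xl Xu : ℤ) : Finset V :=
  (Finset.Ioo p Xl ×ˢ Finset.Ico y0 Y) ∪ (Finset.Ioo p Xu ×ˢ Finset.Ico Y y1)

theorem mem_Sx {p y0 y1 Y Xl Xu x y : ℤ} : (x, y) ∈ Sx p y0 y1 Y Xl Xu ↔
    (p < x ∧ x < Xl ∧ y0 ≤ y ∧ y < Y) ∨ (p < x ∧ x < Xu ∧ Y ≤ y ∧ y < y1) := by
  simp only [Sx, Finset.mem_union, Finset.mem_product, Finset.mem_Ioo, Finset.mem_Ico, and_assoc]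

/-- the notches -/
def Nt (y0 y1 Y Xl Xu : ℤ) : Finset V :=
  (({Xl - 1} : Finset ℤ) ×ˢ Finset.Ico y0 Y) ∪ (({Xu - 1} : Finset ℤ) ×ˢ Finset.Ico Y y1)

theorem mem_Nt {y0 y1 Y Xl Xu x y : ℤ} : (x, y) ∈ Nt y0 y1 Y Xl Xu ↔
    (x = Xl - 1 ∧ y0 ≤ y ∧ y < Y) ∨ (x = Xu - 1 ∧ Y ≤ y ∧ y < y1) := by
  simp only [Nt, Finset.mem_union, Finset.mem_product, Finset.mem_singleton, Finset.mem_Ico]

/-- `A` with `B` moved by `(δ, 0)` -/
def mv (A B : Finset V) (δ : ℤ) : Finset V := (A \ B) ∪ B.image fun t => (t.1 + δ, t.2)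

theorem mem_mv {A B : Finset V} {δ x y : ℤ} :
    (x, y) ∈ mv A B δ ↔ ((x, y) ∈ A ∧ (x, y) ∉ B) ∨ (x - δ, y) ∈ B := by
  unfold mv
  rw [Finset.mem_union, Finset.mem_sdiff, Finset.mem_image]
  refine or_congr_right ⟨?_, fun h => ⟨_, h, by simp⟩⟩
  rintro ⟨⟨a, b⟩, ha, h⟩
  simp only [Prod.mk.injEq] at h
  obtain ⟨rfl, rfl⟩ := h
  simpa using ha

theorem mem_im {B : Finset V} {δ x y : ℤ} :
    (x, y) ∈ B.image (fun t => (t.1 + δ, t.2)) ↔ (x - δ, y) ∈ B := by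
  rw [Finset.mem_image]
  refine ⟨?_, fun h => ⟨_, h, by simp⟩⟩
  rintro ⟨⟨a, b⟩, ha, h⟩
  simp only [Prod.mk.injEq] at h
  obtain ⟨rfl, rfl⟩ := h
  simpa using ha

/-- the two runs between the slits -/
structure TR (A B : Finset V) (p y0 y1 Y Xl Xu : ℤ) : Prop where
  l : ∀ x y : ℤ, p - 1 ≤ x → x < Xl → y0 - 1 ≤ y → y < Y → (x, y) ∈ A ∧ (x, y) ∉ B
  l' : ∀ y : ℤ, y0 - 1 ≤ y → y < Y → (Xl, y) ∉ A
  u : ∀ x y : ℤ, p - 1 ≤ x → x < Xu → Y ≤ y → y ≤ y1 → (x, y) ∈ A ∧ (x, y) ∉ B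
  u' : ∀ y : ℤ, Y ≤ y → y ≤ y1 → (Xu, y) ∉ A
  y0 : y0 < Y
  y1 : Y < y1
  pl : p + 1 < Xl
  pu : p + 1 < Xu

variable {A B : Finset V} {p y0 y1 Y Xl Xu : ℤ}

theorem slabT_up (h : TH A B Y Xu Xl True) (r : TR A B p y0 y1 Y Xl Xu) (hx : Xu ≤ Xl) :
    Slab A (Sx p y0 y1 Y Xl Xu ∪ B) (mv A B (-1) \ Nt y0 y1 Y Xl Xu) p y0 (y1 - y0)
      (Xl - 1) (Xu - 1) := by
  have y00 := r.y0
  have y11 := r.y1
  have pl := r.pl
  have pu := r.pu
  have cut := h.cutu trivial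
  have e1 : y0 + (y1 - y0) = y1 := by ring
  have mE : ∀ x y : ℤ, (x, y) ∈ Sx p y0 y1 Y Xl Xu ∪ B ↔
    ((p < x ∧ x < Xl ∧ y0 ≤ y ∧ y < Y) ∨ (p < x ∧ x < Xu ∧ Y ≤ y ∧ y < y1)) ∨ (x, y) ∈ B :=
    fun x y => by rw [Finset.mem_union, mem_Sx]
  have mA : ∀ x y : ℤ, (x, y) ∈ mv A B (-1) \ Nt y0 y1 Y Xl Xu ↔
    (((x, y) ∈ A ∧ (x, y) ∉ B) ∨ (x + 1, y) ∈ B) ∧
      ¬ ((x = Xl - 1 ∧ y0 ≤ y ∧ y < Y) ∨ (x = Xu - 1 ∧ Y ≤ y ∧ y < y1)) :=
    fun x y => by rw [Finset.mem_sdiff, mem_mv, mem_Nt, sub_neg_eq_add]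
  constructor
  · -- kpos
    omega
  · -- sub
    intro x y hm
    rw [mE] at hm
    have h1 := r.l x y
    have h2 := r.u x y
    have h3 := h.sub x y
    grind
  · -- colE
    intro y h1 h2 hm
    rw [mE] at hm
    have h3 := r.l p y
    have h4 := r.u p y
    grind
  · -- start
    intro y h1 h2
    rw [mE]
    omega
  · -- right
    intro x y hm hA
    rw [mE] at hm ⊢
    have h1 := h.hr x y
    have h2 := r.l' y
    have h3 := r.u' y
    grind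
  · -- left
    intro x y hm hA
    rw [mE] at hm ⊢
    have h1 := h.hl x y
    grind
  · -- up
    intro x y hm hA
    rw [mE] at hm ⊢
    have h1 := h.vu x y
    have h2 := cut x
    have h3 := r.u x (y + 1)
    grind
  · -- down
    intro x y hm hA
    rw [mE] at hm ⊢
    have h1 := h.vd x y
    have h2 := cut x
    grind
  · -- low
    intro x h1 h2
    rw [mE]
    omega
  · -- low1
    intro x h1 h2 hm
    rw [mE] at hm
    have h3 := r.l x (y0 - 1)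
    grind
  · -- lowr
    rw [sub_add_cancel]
    exact r.l' y0 (by omega) (by omega)
  · -- hi
    intro x h1 h2
    rw [e1, mE]
    have h3 := r.u x y1
    grind
  · -- hi1
    intro x h1 h2 hA
    rw [e1] at hA ⊢
    rw [mE]
    omega
  · -- hir
    rw [sub_add_cancel, e1]
    exact r.u' y1 (by omega) le_rfl
  · -- gap
    intro x y hm hA
    rw [mE] at hm
    have h1 := h.gap x y
    have h2 := h.sub x y
    have h3 := r.l (x - 1) y
    have h4 := r.u (x - 1) y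
    grind
  · -- pinch1
    intro x y hm hA
    rw [mE] at hm
    have h1 := h.p1 (x - 1) (y - 1)
    have h2 := h.sub x y
    have h3 := r.l (x - 1) y
    have h4 := r.u (x - 1) y
    rw [sub_add_cancel, sub_add_cancel] at h1
    grind
  · -- pinch2
    intro x y hm hA
    rw [mE] at hm
    have h1 := h.p2 (x - 1) (y + 1)
    have h2 := h.sub x y
    have h3 := r.l (x - 1) y
    have h4 := r.u (x - 1) y
    rw [sub_add_cancel, add_sub_cancel_right] at h1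
    grind
  · -- mem'
    intro x y
    rw [mA, mE, mE, e1]
    have h1 := r.l x y
    have h2 := r.u x y
    have h3 := r.l (x + 1) y
    have h4 := r.u (x + 1) y
    have h5 := r.l' y
    have h6 := r.u' y
    have h7 := h.sub (x + 1) y
    grind

theorem slabT_dn (h : TH A B Y Xl Xu False) (r : TR A B p y0 y1 Y Xl Xu) (hx : Xl ≤ Xu) :
    Slab (mv A B 1) (Sx p y0 y1 Y Xl Xu ∪ B.image fun t => (t.1 + 1, t.2))
      (A \ Nt y0 y1 Y Xl Xu) p y0 (y1 - y0) (Xl - 1) (Xu - 1) := by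
  have y00 := r.y0
  have y11 := r.y1
  have pl := r.pl
  have pu := r.pu
  have cut := h.cutd not_false
  have e1 : y0 + (y1 - y0) = y1 := by ring
  have mE : ∀ x y : ℤ, (x, y) ∈ (Sx p y0 y1 Y Xl Xu ∪ B.image fun t => (t.1 + 1, t.2)) ↔
    ((p < x ∧ x < Xl ∧ y0 ≤ y ∧ y < Y) ∨ (p < x ∧ x < Xu ∧ Y ≤ y ∧ y < y1)) ∨ (x - 1, y) ∈ B :=
    fun x y => by rw [Finset.mem_union, mem_Sx, mem_im]
  have mA : ∀ x y : ℤ, (x, y) ∈ A \ Nt y0 y1 Y Xl Xu ↔
    (x, y) ∈ A ∧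
      ¬ ((x = Xl - 1 ∧ y0 ≤ y ∧ y < Y) ∨ (x = Xu - 1 ∧ Y ≤ y ∧ y < y1)) :=
    fun x y => by rw [Finset.mem_sdiff, mem_Nt]
  have mM : ∀ x y : ℤ, (x, y) ∈ mv A B 1 ↔ ((x, y) ∈ A ∧ (x, y) ∉ B) ∨ (x - 1, y) ∈ B :=
    fun x y => mem_mv
  constructor
  · -- kpos
    omega
  · -- sub
    intro x y hm
    rw [mE] at hm
    rw [mM]
    have h1 := r.l x y
    have h2 := r.u x y
    grind
  · -- colE
    intro y h1 h2 hm
    rw [mE] at hm
    have h3 := r.l (p - 1) y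
    have h4 := r.u (p - 1) y
    grind
  · -- start
    intro y h1 h2
    rw [mE]
    omega
  · -- right
    intro x y hm hA
    rw [mE] at hm ⊢
    rw [mM] at hA
    have h1 := h.hr (x - 1) y
    have h11 := h.hr x y
    have h2 := r.l' y
    have h3 := r.u' y
    have h4 := r.l x y
    have h5 := r.u x y
    have h6 := h.gap (x + 1) y
    have h7 := h.sub (x - 1) y
    have h8 := h.sub x y
    rw [sub_add_cancel] at h1
    rw [add_sub_cancel_right] at h6 hA ⊢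
    grind
  · -- left
    intro x y hm hA
    rw [mE] at hm ⊢
    rw [mM] at hA
    have h1 := h.hl (x - 1) y
    have h2 := h.hl x y
    grind
  · -- up
    intro x y hm hA
    rw [mE] at hm ⊢
    rw [mM] at hA
    have h1 := h.vu (x - 1) y
    have h2 := cut (x - 1)
    have h3 := h.p1 (x - 1) y
    have h4 := h.hr (x - 1) y
    have h5 := h.vu x y
    have h6 := h.sub (x - 1) y
    have h7 := r.u' (y + 1)
    have h8 := cut x
    grind
  · -- down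
    intro x y hm hA
    rw [mE] at hm ⊢
    rw [mM] at hA
    have h1 := h.vd (x - 1) y
    have h2 := cut x
    have h3 := h.p2 (x - 1) y
    have h4 := h.hr (x - 1) y
    have h5 := h.vd x y
    have h6 := h.sub (x - 1) y
    grind
  · -- low
    intro x h1 h2
    rw [mE]
    omega
  · -- low1
    intro x h1 h2 hm
    rw [mE] at hm
    have h3 := r.l (x - 1) (y0 - 1)
    grind
  · -- lowr
    rw [sub_add_cancel, mM]
    have h1 := r.l' y0
    have h2 := r.l (Xl - 1) y0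
    grind
  · -- hi
    intro x h1 h2
    rw [e1, mE, mM]
    have h3 := r.u x y1
    have h4 := r.u (x - 1) y1
    grind
  · -- hi1
    intro x h1 h2 hA
    rw [e1] at hA ⊢
    rw [mE]
    omega
  · -- hir
    rw [sub_add_cancel, e1, mM]
    have h1 := r.u' y1
    have h2 := r.u (Xu - 1) y1
    grind
  · -- gap
    intro x y hm hA
    rw [mE] at hm
    rw [mM] at hA ⊢
    have h1 := h.gap (x - 1) y
    have h2 := h.sub (x - 1) y
    have h3 := r.l (x - 1) y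
    have h4 := r.u (x - 1) y
    have h5 := h.hl (x - 1) y
    have h6 := h.sub (x - 3) y
    have e2 : x - 1 - 1 = x - 2 := by ring
    have e3 : x - 1 - 2 = x - 3 := by ring
    have e4 : x - 2 - 1 = x - 3 := by ring
    rw [e2, e3] at h1
    rw [e2] at h5 hA
    rw [e4]
    have h7 := h.hl (x - 2) y
    grind
  · -- pinch1
    intro x y hm hA
    rw [mE] at hm
    rw [mM] at hA ⊢
    rw [mM]
    have e2 : x - 1 - 1 = x - 2 := by ring
    rw [e2] at hA ⊢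
    have h1 := h.p1 (x - 2) (y - 1)
    have h2 := h.sub (x - 1) y
    have h3 := r.l (x - 1) y
    have h4 := r.u (x - 1) y
    have h5 := h.hl (x - 1) y
    have h6 := h.hr (x - 2) (y - 1)
    have h7 := h.sub (x - 2) (y - 1)
    have h8 := h.vd (x - 1) y
    have e3 : x - 2 + 1 = x - 1 := by ring
    have e4 : y - 1 + 1 = y := by ring
    rw [e3, e4] at h1
    rw [e3] at h6
    rw [e2] at h5
    have h9 := cut (x - 1)
    grind
  · -- pinch2
    intro x y hm hA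
    rw [mE] at hm
    rw [mM] at hA ⊢
    rw [mM]
    have e2 : x - 1 - 1 = x - 2 := by ring
    rw [e2] at hA ⊢
    have h1 := h.p2 (x - 2) (y + 1)
    have h2 := h.sub (x - 1) y
    have h3 := r.l (x - 1) y
    have h4 := r.u (x - 1) y
    have h5 := h.hl (x - 1) y
    have h6 := h.hr (x - 2) (y + 1)
    have h7 := h.sub (x - 2) (y + 1)
    have h8 := h.vu (x - 1) y
    have e3 : x - 2 + 1 = x - 1 := by ring
    have e4 : y + 1 - 1 = y := by ring
    rw [e3, e4] at h1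
    rw [e3] at h6
    rw [e2] at h5
    have h9 := cut (x - 1)
    have h10 := cut x
    have h11 := h.e1 (x - 1) y
    have e5 : x - 1 + 1 = x := by ring
    rw [e2, e5] at h11
    grind
  · -- mem'
    intro x y
    rw [mA, mE, mE, mM, e1]
    have h1 := r.l x y
    have h2 := r.u x y
    have h5 := r.l' y
    have h6 := r.u' y
    have h7 := h.sub x y
    have h8 := h.hr (x - 1) y
    rw [add_sub_cancel_right]
    rw [sub_add_cancel] at h8
    by_cases hB : (x, y) ∈ B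
    · have hA := h7 hB
      have h9 : ¬ ((x = Xl - 1 ∧ y0 ≤ y ∧ y < Y) ∨ (x = Xu - 1 ∧ Y ≤ y ∧ y < y1)) := by
        rintro (⟨a1, a2, a3⟩ | ⟨a1, a2, a3⟩)
        · exact (h1 (by omega) (by omega) (by omega) a3).2 hB
        · exact (h2 (by omega) (by omega) a2 a3.le).2 hB
      simp only [hA, hB, h9, not_false_eq_true, and_self, or_true]
    by_cases hB1 : (x - 1, y) ∈ B
    · have hA : (x, y) ∉ A := fun hA => hB (h8 hB1 hA)
      have h9 : ¬ ((p < x + 1 ∧ x + 1 < Xl ∧ y0 ≤ y ∧ y < Y) ∨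
          (p < x + 1 ∧ x + 1 < Xu ∧ Y ≤ y ∧ y < y1)) := by
        rintro (⟨a1, a2, a3, a4⟩ | ⟨a1, a2, a3, a4⟩)
        · exact hA (h1 (by omega) (by omega) (by omega) a4).1
        · exact hA (h2 (by omega) (by omega) a3 a4.le).1
      simp only [hA, hB, hB1, h9, false_and, or_false, or_true, not_true_eq_false, and_false]
    simp only [hB, hB1, not_false_eq_true, and_true, or_false]
    by_cases hA : (x, y) ∈ A
    · simp only [hA, true_and]
      omega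
    · simp only [hA, false_and, false_or, false_iff]
      rintro (⟨a1, a2, a3, a4⟩ | ⟨a1, a2, a3, a4⟩)
      · exact hA (h1 (by omega) (by omega) (by omega) a4).1
      · exact hA (h2 (by omega) (by omega) a3 a4.le).1

end Crest.Agent.R158.Hs689
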