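import Crest.Agent.R158.Hb2_656
import Crest.Agent.R158.Hs1_689

/-!
R158, S0237, block BL, leaf (B8) (helper689), part 2: the slabs of 656's regions.

* `TH_of` : `Hang` + `NP` at the scale of tiles
* `TR_of` : the two runs
* `slab_up`, `slab_dn` : 945's `Slab` for the regions of the blueprint
-/

set_option autoImplicit false

noncomputable section

namespace Crest.Agent.R158.Hs689

open Crest.Agent.R158.Sp896 (V)
open Crest.Agent.R158.Env664 (D Run Mac mark mem_D beD div_iff)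
open Crest.Agent.R158.Hb656 (Hang shD mkS Two succ_div)
open Crest.Agent.R158.Bh679 (NP)
open Crest.Agent.R158.Dr945 (Slab gE)

variable {F H : Finset V} {k i0 i1 L : ℤ} {up : Bool}

theorem pred_div {L : ℤ} (hL : 0 < L) (x : ℤ) : (x - 1) / L = x / L ∨
    ((x - 1) / L = x / L - 1 ∧ x = (x / L) * L) := by
  have h := succ_div hL (x - 1)
  rw [sub_add_cancel] at h
  rcases h with h | ⟨h1, h2⟩
  · exact Or.inl h.symm
  · right
    refine ⟨by omega, ?_⟩
    rw [h1]; exact h2

theorem lt_div {L : ℤ} (hL : 0 < L) {x i : ℤ} (h : x < i * L + L) : x / L ≤ i := by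
  have : x / L < i + 1 := Int.ediv_lt_of_lt_mul hL (by nlinarith)
  omega

theorem le_div {L : ℤ} (hL : 0 < L) {x i : ℤ} (h : i * L ≤ x) : i ≤ x / L :=
  Int.le_ediv_of_mul_le hL h

/-- the crosscut at the scale of tiles -/
theorem cutL (h : Hang F H k i0 i1 up) (hL : 0 < L) {x : ℤ} (h0 : i0 * L ≤ x)
    (h1 : x < i1 * L + L) :
    if up then (x, k * L - 1) ∈ D F L ∧ (x, k * L - 1) ∉ D H L ∧
        ((x, k * L) ∈ D F L → (x, k * L) ∈ D H L)
      else (x, k * L) ∈ D F L ∧ (x, k * L) ∉ D H L ∧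
        ((x, k * L - 1) ∈ D F L → (x, k * L - 1) ∈ D H L) := by
  have c := h.cut (x / L) (le_div hL h0) (lt_div hL h1)
  have e1 : k * L / L = k := (div_iff hL _ _).2 ⟨le_rfl, by omega⟩
  have e2 : (k * L - 1) / L = k - 1 := (div_iff hL _ _).2 (by constructor <;> nlinarith)
  simp only [mem_D hL, e1, e2]
  exact c

theorem TH_of (hL : 2 ≤ L) (h : Hang F H k i0 i1 up) (np : NP F) :
    TH (D F L) (D H L) (k * L) (i0 * L) (i1 * L + L) (up = true) := by
  have hL0 : 0 < L := by omega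
  constructor
  · intro x y hm
    exact h.subL hL0 hm
  · intro x y hm hA
    exact (h.horL hL0 (Or.inl ⟨hm, hA⟩)).2
  · intro x y hm hA
    have := h.horL hL0 (x := x - 1) (y := y) (Or.inr ⟨hA, by rwa [sub_add_cancel]⟩)
    exact this.1
  · intro x y hm hA
    have e : y + 1 - 1 = y := by ring
    rcases h.verL hL0 (x := x) (y := y + 1) (by rw [e]; exact h.subL hL0 hm) hA with g | ⟨g1, g2, g3⟩
    · rw [e] at g
      exact Or.inl (g.1 hm)
    · refine Or.inr ⟨g1, g2, g3, fun hup => ?_⟩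
      have c := cutL h hL0 g2 g3
      rw [if_pos hup, ← g1, e] at c
      exact c.2.1 hm
  · intro x y hm hA
    rcases h.verL hL0 (x := x) (y := y) hA (h.subL hL0 hm) with g | ⟨g1, g2, g3⟩
    · exact Or.inl (g.2 hm)
    · refine Or.inr ⟨g1, g2, g3, ?_⟩
      by_contra hup
      have c := cutL h hL0 g2 g3
      rw [if_neg hup, ← g1] at c
      exact c.2.1 hm
  · -- gap
    intro x y hA hB
    rw [mem_D hL0] at hA hB ⊢
    simp only at hA hB ⊢
    rcases pred_div hL0 x with e | ⟨e, e'⟩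
    · rw [e] at hB; exact absurd hA hB
    · have e2 : (x - 2) / L = x / L - 1 := (div_iff hL0 _ _).2 (by constructor <;> nlinarith)
      rw [e2, ← e]; exact hB
  · -- p1
    intro x y hA hB
    rw [mem_D hL0] at hA hB
    rw [mem_D hL0, mem_D hL0]
    simp only at hA hB ⊢
    rcases succ_div hL0 x with e | ⟨e, -⟩
    · rw [e] at hB ⊢; exact Or.inl hA
    rcases succ_div hL0 y with e' | ⟨e', -⟩
    · rw [e'] at hB ⊢; exact Or.inr hA
    rw [e, e'] at hB
    rw [e, e']
    by_contra hcon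
    push Not at hcon
    exact (np _ _).1 ⟨hA, hB, hcon.1, hcon.2⟩
  · -- p2
    intro x y hA hB
    rw [mem_D hL0] at hA hB
    rw [mem_D hL0, mem_D hL0]
    simp only at hA hB ⊢
    rcases succ_div hL0 x with e | ⟨e, -⟩
    · rw [e] at hB ⊢; exact Or.inl hA
    rcases pred_div hL0 y with e' | ⟨e', -⟩
    · rw [e'] at hB ⊢; exact Or.inr hA
    rw [e, e'] at hB
    rw [e, e']
    by_contra hcon
    push Not at hcon
    have := (np (x / L) (y / L - 1)).2
    rw [sub_add_cancel] at this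
    exact this ⟨hB, hA, hcon.2, hcon.1⟩
  · intro hup x h0 h1
    have c := cutL h hL0 h0 h1
    rwa [if_pos hup] at c
  · intro hup x h0 h1
    have c := cutL h hL0 h0 h1
    rwa [if_neg hup] at c
  · -- e1
    intro x y hA hB hx
    rw [mem_D hL0] at hA hB
    simp only at hA hB
    rcases pred_div hL0 x with e | ⟨e, e'⟩
    · rw [e] at hB; exact absurd hA hB
    · have h2 := lt_div hL0 hx
      have h3 : x / L * L ≤ i1 * L := by nlinarith
      omega

/-- the two runs at the scale of tiles -/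
theorem TR_of {a b a' b' p y0 y1 : ℤ} (hL : 2 ≤ L) (t : Two F H k a b a' b')
    (h1 : (k - 1) * L ≤ y0 - 1) (h2 : y0 < k * L) (h3 : k * L < y1) (h4 : y1 < k * L + L)
    (h5 : a * L ≤ p - 1) (h6 : a' * L ≤ p - 1) (h7 : p + 1 < b * L + L)
    (h8 : p + 1 < b' * L + L) :
    TR (D F L) (D H L) p y0 y1 (k * L) (b * L + L) (b' * L + L) := by
  have hL0 : 0 < L := by omega
  have el : ∀ y, y0 - 1 ≤ y → y < k * L → y / L = k - 1 := fun y g1 g2 =>
    (div_iff hL0 _ _).2 ⟨by linarith, by linarith⟩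
  have eu : ∀ y, k * L ≤ y → y ≤ y1 → y / L = k := fun y g1 g2 =>
    (div_iff hL0 _ _).2 ⟨by linarith, by linarith⟩
  have eb : ∀ b : ℤ, (b * L + L) / L = b + 1 := fun b =>
    (div_iff hL0 _ _).2 ⟨by nlinarith, by nlinarith⟩
  constructor
  · intro x y g1 g2 g3 g4
    rw [mem_D hL0, mem_D hL0]
    simp only [el y g3 g4]
    exact ⟨t.lo.mem _ (le_div hL0 (by linarith)) (lt_div hL0 g2),
      t.nlo _ (le_div hL0 (by linarith)) (lt_div hL0 g2)⟩
  · intro y g3 g4
    rw [mem_D hL0]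
    simp only [el y g3 g4, eb]
    exact t.lo.right
  · intro x y g1 g2 g3 g4
    rw [mem_D hL0, mem_D hL0]
    simp only [eu y g3 g4]
    exact ⟨t.up.mem _ (le_div hL0 (by linarith)) (lt_div hL0 g2),
      t.nup _ (le_div hL0 (by linarith)) (lt_div hL0 g2)⟩
  · intro y g3 g4
    rw [mem_D hL0]
    simp only [eu y g3 g4, eb]
    exact t.up.right
  · exact h2
  · exact h3
  · exact h7
  · exact h8

/-- **the slab of case UP** -/
theorem slab_up {a b a' b' p y0 y1 : ℤ} (hL : 2 ≤ L) (np : NP F) (hb : b' ≤ b)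
    (h : Hang F H k (b' + 1) b true) (t : Two F H k a b a' b')
    (h1 : (k - 1) * L ≤ y0 - 1) (h2 : y0 < k * L) (h3 : k * L < y1) (h4 : y1 < k * L + L)
    (h5 : a * L ≤ p - 1) (h6 : a' * L ≤ p - 1) (h7 : p + 1 < b * L + L)
    (h8 : p + 1 < b' * L + L) :
    Slab (D F L) (Hb656.Sx L k b b' p y0 y1 ∪ D H L)
      (shD F H L (-1) \ Hb656.Nt L k b b' y0 y1) p y0 (y1 - y0) (b * L + L - 1)
      (b' * L + L - 1) := by
  have e : (b' + 1) * L = b' * L + L := by ring
  have th := TH_of hL h np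
  rw [e] at th
  have th' : TH (D F L) (D H L) (k * L) (b' * L + L) (b * L + L) True := by
    simpa using th
  exact slabT_up th' (TR_of hL t h1 h2 h3 h4 h5 h6 h7 h8) (by nlinarith)

/-- **the slab of case DN** -/
theorem slab_dn {a b a' b' p y0 y1 : ℤ} (hL : 2 ≤ L) (np : NP F) (hb : b ≤ b')
    (h : Hang F H k (b + 1) b' false) (t : Two F H k a b a' b')
    (h1 : (k - 1) * L ≤ y0 - 1) (h2 : y0 < k * L) (h3 : k * L < y1) (h4 : y1 < k * L + L)
    (h5 : a * L ≤ p - 1) (h6 : a' * L ≤ p - 1) (h7 : p + 1 < b * L + L)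
    (h8 : p + 1 < b' * L + L) :
    Slab (shD F H L 1) (Hb656.Sx L k b b' p y0 y1 ∪ (D H L).image fun t => (t.1 + 1, t.2))
      (D F L \ Hb656.Nt L k b b' y0 y1) p y0 (y1 - y0) (b * L + L - 1)
      (b' * L + L - 1) := by
  have e : (b + 1) * L = b * L + L := by ring
  have th := TH_of hL h np
  rw [e] at th
  have th' : TH (D F L) (D H L) (k * L) (b * L + L) (b' * L + L) False := by
    simpa using th
  exact slabT_dn th' (TR_of hL t h1 h2 h3 h4 h5 h6 h7 h8) (by nlinarith)

end Crest.Agent.R158.Hs689
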