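import Crest.Agent.R158.Hc2_854
import Crest.Agent.R158.Hb1_656

/-!
R158, S0237, block BL (helper689), part 3: moving marks inside flat windows.

* `MvW A b r n m y` : a window of helper161 with the old and the new place of a mark in its inner box
* **`move3`** : the observable changes by at most `3 C (r / n)^a` if the three marks are moved
* `mvw_ceil`, `mvw_floor` : windows at a flat ceiling / floor
-/

set_option autoImplicit false

noncomputable section

namespace Crest.Agent.R158.Hs689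

open Crest.Agent.R158.Sp896 (V)
open Crest.Agent.R158.Sw300 (Port)
open Crest.Agent.R158.Ob664 (GW HG)
open Crest.Agent.R158.Wd377 (MK)
open Crest.Agent.R158.Cw161 (Bx Sh pat FarM)
open Crest.Agent.R158.Hc854 (MkP ball_mk)
open Crest.Agent.R158.Cb771 (dir)

/-- a window of `161` with the old place `m` and the new place `y` of a mark in its inner box -/
def MvW (A : Finset V) (b : Port V → Port V) (r n : ℕ) (m y : V × ZMod 4) : Prop :=
  ∃ (sh : Sh) (k : ZMod 4) (X Y : ℤ), Cw161.Win sh k X Y r n A b ∧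
    (∀ t, Bx X Y n t → ¬ Bx X Y r t → t ∈ A → pat X Y sh k t) ∧ Bx X Y r m.1 ∧ Bx X Y r y.1 ∧
    y.1 ∈ A ∧ b (some y) = some y

/-- the tiles of two marks are at sup distance at least `d` -/
def FarQ (d : ℤ) (m m' : V × ZMod 4) : Prop :=
  d ≤ |m.1.1 - m'.1.1| ∨ d ≤ |m.1.2 - m'.1.2|

theorem FarQ.mono {d d' : ℤ} {m m' : V × ZMod 4} (h : FarQ d m m') (hd : d' ≤ d) :
    FarQ d' m m' := h.imp hd.trans hd.trans

theorem FarQ.symm {d : ℤ} {m m' : V × ZMod 4} (h : FarQ d m m') : FarQ d m' m := by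
  unfold FarQ at *
  rwa [abs_sub_comm m'.1.1, abs_sub_comm m'.1.2]

theorem farM_of {X Y : ℤ} {r n : ℕ} {m m' : V × ZMod 4} (h : FarQ (n + r) m m')
    (hm : Bx X Y r m.1) : FarM X Y n (some m') := by
  intro t d e
  simp only [Option.some.injEq] at e
  subst e
  unfold FarQ at h
  unfold Bx at hm ⊢
  simp only at h
  rw [le_abs, le_abs] at h
  omega

theorem not_bx_of_far {X Y : ℤ} {r n : ℕ} {m : Port V} (h : FarM X Y n m) (hrn : r ≤ n) :
    ∀ t d, m = some (t, d) → ¬ Bx X Y r t := by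
  intro t d e hb
  refine h t d e ?_
  unfold Bx at *
  omega

theorem mk_mkP {X Y : ℤ} {r n : ℕ} {A : Finset V} {b : Port V → Port V} {m : Port V}
    (h : FarM X Y n m) (hrn : r ≤ n) : MkP X Y r A b m m := Or.inl ⟨rfl, not_bx_of_far h hrn⟩

theorem mkP_mv {X Y : ℤ} {r : ℕ} {A : Finset V} {b : Port V → Port V} {m y : V × ZMod 4}
    (h1 : Bx X Y r m.1) (h2 : Bx X Y r y.1) (h3 : y.1 ∈ A) (h4 : b (some y) = some y) :
    MkP X Y r A b (some m) (some y) := Or.inr ⟨m.1, m.2, y.1, y.2, rfl, h1, rfl, h2, h3, h4⟩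

/-- **moving the three marks inside disjoint windows** -/
theorem move3 : ∃ C a : ℝ, 0 < C ∧ 0 < a ∧ ∀ {A : Finset V} {b : Port V → Port V} {r n : ℕ},
    1 ≤ r → r + 1 ≤ n → ∀ q q' : Fin 3 → V × ZMod 4,
    MK A b (some (q 0)) (some (q 1)) (some (q 2)) →
    (∀ i, q' i = q i ∨ MvW A b r n (q i) (q' i)) →
    (∀ i j, i ≠ j → FarQ (n + r) (q i) (q j) ∧ FarQ (n + r) (q i) (q' j)) →
    MK A b (some (q' 0)) (some (q' 1)) (some (q' 2)) ∧
      ‖HG A b (some (q 0)) (some (q 1)) (some (q 2)) -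
        HG A b (some (q' 0)) (some (q' 1)) (some (q' 2))‖ ≤ 3 * (C * ((r : ℝ) / n) ^ a) := by
  obtain ⟨C, a, hC, ha, hX⟩ := ball_mk
  refine ⟨C, a, hC, ha, ?_⟩
  intro A b r n hr hn q q' hm hw hd
  have hε : 0 ≤ C * ((r : ℝ) / n) ^ a := by positivity
  have hrn : r ≤ n := by omega
  -- first mark
  have s1 : MK A b (some (q' 0)) (some (q 1)) (some (q 2)) ∧
      ‖HG A b (some (q 0)) (some (q 1)) (some (q 2)) -
        HG A b (some (q' 0)) (some (q 1)) (some (q 2))‖ ≤ C * ((r : ℝ) / n) ^ a := by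
    rcases hw 0 with h | ⟨sh, k, X, Y, hW, hp, h1, h2, h3, h4⟩
    · rw [h, sub_self, norm_zero]
      exact ⟨hm, hε⟩
    · have f1 := farM_of (hd 0 1 (by decide)).1 h1
      have f2 := farM_of (hd 0 2 (by decide)).1 h1
      exact hX sh k X Y r n hr hn hW hW hp (fun _ _ => rfl) (fun _ _ h => h)
        ⟨_, hm.choose_spec.1⟩ hm (mkP_mv h1 h2 h3 h4) (mk_mkP f1 hrn) (mk_mkP f2 hrn)
        (Or.inr f1) (Or.inl f1) (Or.inl f2)
  have s2 : MK A b (some (q' 0)) (some (q' 1)) (some (q 2)) ∧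
      ‖HG A b (some (q' 0)) (some (q 1)) (some (q 2)) -
        HG A b (some (q' 0)) (some (q' 1)) (some (q 2))‖ ≤ C * ((r : ℝ) / n) ^ a := by
    rcases hw 1 with h | ⟨sh, k, X, Y, hW, hp, h1, h2, h3, h4⟩
    · rw [h, sub_self, norm_zero]
      exact ⟨s1.1, hε⟩
    · have f1 := farM_of (hd 1 0 (by decide)).2 h1
      have f2 := farM_of (hd 1 2 (by decide)).1 h1
      exact hX sh k X Y r n hr hn hW hW hp (fun _ _ => rfl) (fun _ _ h => h)
        ⟨_, hm.choose_spec.1⟩ s1.1 (mk_mkP f1 hrn) (mkP_mv h1 h2 h3 h4) (mk_mkP f2 hrn)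
        (Or.inl f1) (Or.inr f2) (Or.inl f2)
  have s3 : MK A b (some (q' 0)) (some (q' 1)) (some (q' 2)) ∧
      ‖HG A b (some (q' 0)) (some (q' 1)) (some (q 2)) -
        HG A b (some (q' 0)) (some (q' 1)) (some (q' 2))‖ ≤ C * ((r : ℝ) / n) ^ a := by
    rcases hw 2 with h | ⟨sh, k, X, Y, hW, hp, h1, h2, h3, h4⟩
    · rw [h, sub_self, norm_zero]
      exact ⟨s2.1, hε⟩
    · have f1 := farM_of (hd 2 0 (by decide)).2 h1
      have f2 := farM_of (hd 2 1 (by decide)).2 h1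
      exact hX sh k X Y r n hr hn hW hW hp (fun _ _ => rfl) (fun _ _ h => h)
        ⟨_, hm.choose_spec.1⟩ s2.1 (mk_mkP f1 hrn) (mk_mkP f2 hrn) (mkP_mv h1 h2 h3 h4)
        (Or.inl f1) (Or.inl f2) (Or.inr f1)
  refine ⟨s3.1, ?_⟩
  calc _ ≤ _ := norm_sub_le_norm_sub_add_norm_sub _
          (HG A b (some (q' 0)) (some (q 1)) (some (q 2))) _
    _ ≤ _ := add_le_add s1.2 (norm_sub_le_norm_sub_add_norm_sub _
          (HG A b (some (q' 0)) (some (q' 1)) (some (q 2))) _)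
    _ ≤ _ := add_le_add le_rfl (add_le_add s2.2 s3.2)
    _ = _ := by ring

end Crest.Agent.R158.Hs689
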