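import Crest.Agent.R158.Hw3_949
import Crest.Agent.R158.Hg2_896

/-!
# Row 158 (helper949), BLOCK BL: `hangEx : HangEx` (plug of 896's leaf B1)
-/

set_option autoImplicit false

noncomputable section

namespace Crest.Agent.R158.Hw949

open Crest.Agent.R158.Hb656

/-- **(B1)** -/
theorem hangEx : HangEx := by
  intro P k a b a' b' hl hu hc
  rw [max_le_iff, le_min_iff, le_min_iff] at hc
  obtain ⟨⟨c1, c2⟩, c3, c4⟩ := hc
  have q1 : a ≤ max a a' := le_max_left _ _
  have q2 : a' ≤ max a a' := le_max_right _ _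
  have q3 : max a a' ≤ b := max_le c1 c3
  have q4 : max a a' ≤ b' := max_le c2 c4
  have com : max a a' ≤ min b b' := le_min q3 q4
  constructor
  · intro hb
    obtain ⟨H, h1, h2, h3⟩ := Hg896.mac_hang_up (Mg949.mac P) (q := max a a') hl hu q1 q3 q2 q4 hb
    exact ⟨H, h1, hl, hu, com, h2, h3⟩
  · intro hb
    obtain ⟨H, h1, h2, h3⟩ := Hg896.mac_hang_dn (Mg949.mac P) (q := max a a') hl hu q1 q3 q2 q4 hb
    exact ⟨H, h1, hl, hu, com, h2, h3⟩

end Crest.Agent.R158.Hw949
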