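import Crest.Agent.R158.Hb2_656

/-!
# Row 158 (helper949), BLOCK BL: **`mk0 : MK0`**: words and clockwise order of the marks of `D^(z)`
-/

set_option autoImplicit false
set_option linter.unusedVariables false

noncomputable section

namespace Crest.Agent.R158.Hw949

open Crest.Agent.R158.Sw300 (Port Wd Ok pos cyc)
open Crest.Agent.R158.Env664
open Crest.Agent.R158.Ob664 (Gl GW HW HG cyc_idL)
open Crest.Agent.R158.Sp896 (V Adj Cyc Con lc rc)
open Crest.Agent.R158.Tj656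
open Crest.Agent.R158.Al194 (idL)
open Crest.Agent.R158.Mg949
open Crest.Agent.R158.Wd377 (MK)

section WD

variable {P : P4} {k : ℕ} {x y xr : ℤ} {q : ℕ} {w : Wd V}

theorem mta0 (P : P4) {k : ℕ} (hk : 0 < k) : some (mt P (Lz k) 0) = sU P k (nn P k - 1) := by
  rw [← mark0 P hk, mark_snd]; rfl

theorem mta1 (P : P4) {k : ℕ} (hk : 0 < k) :
    some (mt P (Lz k) 1) = sU P k (P.md * (2 * k) - 1) := by
  rw [← markD P hk, mark_snd]; rfl

theorem mta2 (P : P4) {k : ℕ} (hk : 0 < k) :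
    some (mt P (Lz k) 2) = sU P k (P.mc * (2 * k) - 1) := by
  rw [← markC P hk, mark_snd]; rfl

theorem mul_lta {a b k : ℕ} (hk : 0 < k) (h : a < b) : a * (2 * k) < b * (2 * k) :=
  Nat.mul_lt_mul_of_pos_right h (by omega)

/-- clockwise order of the three marks -/
theorem WD.mka (h : WD P k x y xr q w) : MK (D P.F (Lz k)) (beD (D P.F (Lz k)) x y xr)
    (some (mt P (Lz k) 0)) (some (mt P (Lz k) 1)) (some (mt P (Lz k) 2)) := by
  have hk := h.hk
  rw [mta0 P hk, mta1 P hk, mta2 P hk]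
  have q1 := P.h1; have q2 := P.h2; have q3 := P.h3; have q4 := P.h4
  have e1 := mul_lta hk (a := 0) (b := P.mc) (by omega)
  have e2 := mul_lta hk q3
  have e3 : P.md * (2 * k) < nn P k := mul_lta hk q4
  have m1 := m1_mem h.ok h.hL h.hq
  have m2 : sU P k (P.md * (2 * k) - 1) ∈ Sw300.L w :=
    (mem_L h.ok h.hL h.hq).2 ⟨_, by omega, Or.inl rfl⟩
  have m3 : sU P k (P.mc * (2 * k) - 1) ∈ Sw300.L w :=
    (mem_L h.ok h.hL h.hq).2 ⟨_, by omega, Or.inl rfl⟩
  refine ⟨w, h.gw, m1, m2, m3, ?_⟩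
  rw [cyc_idL h.ok m1 m1 m2 m3, idL_m1 h.ok h.hL h.hq,
    idL_step h.ok h.hL h.hq (by omega : P.md * (2 * k) - 1 < nn P k),
    idL_step h.ok h.hL h.hq (by omega : P.mc * (2 * k) - 1 < nn P k)]
  have hq := h.hq
  unfold cyc pu
  split_ifs <;> omega

end WD

/-- **clockwise order of the marks in `D^(z)`**, tile form -/
theorem mka_run (P : P4) {L : ℤ} (hL : 0 < L) (hev : Even L) {x y xl xr : ℤ}
    (r0 : Run (D P.F L) xl xr y) (r1 : Run (D P.F L) xl xr (y - 1)) (h1 : xl < x) (h2 : x ≤ xr) :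
    MK (D P.F L) (beD (D P.F L) x y xr) (some (mt P L 0)) (some (mt P L 1))
      (some (mt P L 2)) := by
  obtain ⟨m, hm⟩ := hev
  obtain ⟨k, rfl⟩ : ∃ k : ℕ, m = k := ⟨m.toNat, by omega⟩
  have e : L = Lz k := by rw [hm]; unfold Lz; push_cast; ring
  subst e
  have hk : 0 < k := by unfold Lz at hL; omega
  obtain ⟨q, w, hw⟩ := exists_word P hk r0 r1 h1 h2
  exact WD.mka hw

/-- **leaf MK0** -/
theorem mk0 : Hb656.MK0 := by
  intro P a b j hr
  refine ⟨1, fun L hL0 hev x y hs => ?_⟩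
  have hL : 0 < L := by omega
  have h1 := hs.hx
  have h2 := hs.hx'
  have h3 := hs.hy
  have h4 := hs.hy'
  have r0 : Run (D P.F L) (a * L) (b * L + L - 1) y := hr.scale hL (by omega) h4
  have r1 : Run (D P.F L) (a * L) (b * L + L - 1) (y - 1) :=
    hr.scale (y := y - 1) hL (by omega) (by omega)
  have g1 : a * L < x := by omega
  have g2 : x ≤ b * L + L - 1 := by omega
  exact mka_run P hL hev r0 r1 g1 g2

end Crest.Agent.R158.Hw949
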