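import Crest.Agent.R161.Dual_374

/-!
# Row 158, BLOCK IT (helper200), part 1: interfaces (medial strands) of a bond configuration of `ℤ²`

A *corner* `(v, q)` is the medial edge between the vertex `v` (on its right) and the face `fc (v,q)`
(on its left); `q = 0,1,2,3` = NE, SE, SW, NW.  The medial edge `(v, q)` runs from the midpoint of the
edge `bh (v,q)` to the midpoint of `ah (v,q)`.  `nx z` is the successor map of the configuration `z`:
at an open edge the strand keeps its face and changes its vertex (left turn), at a closed edge it keeps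
its vertex and changes its face (right turn).

* `nxE z : Corner ≃ Corner`
* `side_v`, `side_f` : the right side of a strand is an open path, the left side a dual path
* `nx_congr`, `iter_congr`: locality
-/

set_option autoImplicit false

namespace Crest.Agent.R158.It200

open Crest.Agent.R161.Geo729 Crest.Agent.R161.Dual374

/-- bond configurations (same as `Rs689.Cfz`, `Tas682.Cf`) -/
abbrev Cfz : Type := Edge → Bool

/-- corners = medial edges -/
abbrev Corner : Type := P2 × Fin 4

/-- the face on the left of the corner -/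
def fc (c : Corner) : P2 :=
  match c.2 with
  | 0 => (c.1.1, c.1.2)
  | 1 => (c.1.1, c.1.2 - 1)
  | 2 => (c.1.1 - 1, c.1.2 - 1)
  | 3 => (c.1.1 - 1, c.1.2)

/-- the edge ahead -/
def ah (c : Corner) : Edge :=
  match c.2 with
  | 0 => ((c.1.1, c.1.2), false)
  | 1 => ((c.1.1, c.1.2 - 1), true)
  | 2 => ((c.1.1 - 1, c.1.2), false)
  | 3 => ((c.1.1, c.1.2), true)

/-- the edge behind -/
def bh (c : Corner) : Edge :=
  match c.2 with
  | 0 => ((c.1.1, c.1.2), true)
  | 1 => ((c.1.1, c.1.2), false)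
  | 2 => ((c.1.1, c.1.2 - 1), true)
  | 3 => ((c.1.1 - 1, c.1.2), false)

/-- the other endpoint of the edge ahead -/
def wa (c : Corner) : P2 :=
  match c.2 with
  | 0 => (c.1.1 + 1, c.1.2)
  | 1 => (c.1.1, c.1.2 - 1)
  | 2 => (c.1.1 - 1, c.1.2)
  | 3 => (c.1.1, c.1.2 + 1)

/-- the other endpoint of the edge behind -/
def wb (c : Corner) : P2 :=
  match c.2 with
  | 0 => (c.1.1, c.1.2 + 1)
  | 1 => (c.1.1 + 1, c.1.2)
  | 2 => (c.1.1, c.1.2 - 1)
  | 3 => (c.1.1 - 1, c.1.2)

/-- right turn (`q + 1`) -/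
def rr (q : Fin 4) : Fin 4 :=
  match q with
  | 0 => 1
  | 1 => 2
  | 2 => 3
  | 3 => 0

/-- left turn (`q - 1`) -/
def rl (q : Fin 4) : Fin 4 :=
  match q with
  | 0 => 3
  | 1 => 0
  | 2 => 1
  | 3 => 2

@[simp] theorem rl_rr (q : Fin 4) : rl (rr q) = q := by fin_cases q <;> rfl
@[simp] theorem rr_rl (q : Fin 4) : rr (rl q) = q := by fin_cases q <;> rfl
theorem rr_eq (q : Fin 4) : rr q = q + 1 := by fin_cases q <;> rfl
theorem rl_eq (q : Fin 4) : rl q = q - 1 := by fin_cases q <;> rfl

/-- successor through an open edge (left turn) -/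
def nxo (c : Corner) : Corner := (wa c, rl c.2)

/-- successor along a closed edge (right turn) -/
def nxc (c : Corner) : Corner := (c.1, rr c.2)

/-- predecessor through an open edge -/
def pvo (c : Corner) : Corner := (wb c, rr c.2)

/-- predecessor along a closed edge -/
def pvc (c : Corner) : Corner := (c.1, rl c.2)

/-- successor -/
def nx (z : Cfz) (c : Corner) : Corner := if z (ah c) = true then nxo c else nxc c

/-- predecessor -/
def pv (z : Cfz) (c : Corner) : Corner := if z (bh c) = true then pvo c else pvc c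

theorem bh_nxo (c : Corner) : bh (nxo c) = ah c := by
  obtain ⟨⟨a, b⟩, q⟩ := c
  fin_cases q <;> simp [nxo, wa, ah, bh, rl]

theorem bh_nxc (c : Corner) : bh (nxc c) = ah c := by
  obtain ⟨⟨a, b⟩, q⟩ := c
  fin_cases q <;> simp [nxc, ah, bh, rr]

theorem ah_pvo (c : Corner) : ah (pvo c) = bh c := by
  obtain ⟨⟨a, b⟩, q⟩ := c
  fin_cases q <;> simp [pvo, wb, ah, bh, rr]

theorem ah_pvc (c : Corner) : ah (pvc c) = bh c := by
  obtain ⟨⟨a, b⟩, q⟩ := c
  fin_cases q <;> simp [pvc, ah, bh, rl]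

theorem pvo_nxo (c : Corner) : pvo (nxo c) = c := by
  obtain ⟨⟨a, b⟩, q⟩ := c
  fin_cases q <;> simp [nxo, pvo, wa, wb, rl, rr]

theorem pvc_nxc (c : Corner) : pvc (nxc c) = c := by
  obtain ⟨⟨a, b⟩, q⟩ := c
  fin_cases q <;> simp [nxc, pvc, rl, rr]

theorem nxo_pvo (c : Corner) : nxo (pvo c) = c := by
  obtain ⟨⟨a, b⟩, q⟩ := c
  fin_cases q <;> simp [nxo, pvo, wa, wb, rl, rr]

theorem nxc_pvc (c : Corner) : nxc (pvc c) = c := by
  obtain ⟨⟨a, b⟩, q⟩ := c
  fin_cases q <;> simp [nxc, pvc, rl, rr]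

theorem pv_nx (z : Cfz) (c : Corner) : pv z (nx z c) = c := by
  unfold nx
  split_ifs with h
  · rw [pv, bh_nxo, if_pos h, pvo_nxo]
  · rw [pv, bh_nxc, if_neg h, pvc_nxc]

theorem nx_pv (z : Cfz) (c : Corner) : nx z (pv z c) = c := by
  unfold pv
  split_ifs with h
  · rw [nx, ah_pvo, if_pos h, nxo_pvo]
  · rw [nx, ah_pvc, if_neg h, nxc_pvc]

/-- the successor map as a permutation of the corners -/
def nxE (z : Cfz) : Equiv.Perm Corner where
  toFun := nx z
  invFun := pv z
  left_inv := pv_nx z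
  right_inv := nx_pv z

@[simp] theorem nxE_apply (z : Cfz) (c : Corner) : nxE z c = nx z c := rfl
@[simp] theorem nxE_symm_apply (z : Cfz) (c : Corner) : (nxE z).symm c = pv z c := rfl

theorem nx_open {z : Cfz} {c : Corner} (h : z (ah c) = true) : nx z c = nxo c := if_pos h

theorem nx_closed {z : Cfz} {c : Corner} (h : z (ah c) = false) : nx z c = nxc c :=
  if_neg (by rw [h]; simp)

theorem bh_nx (z : Cfz) (c : Corner) : bh (nx z c) = ah c := by
  unfold nx; split_ifs
  · exact bh_nxo c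
  · exact bh_nxc c

theorem ah_pv (z : Cfz) (c : Corner) : ah (pv z c) = bh c := by
  unfold pv; split_ifs
  · exact ah_pvo c
  · exact ah_pvc c

/-! ### sides -/

theorem fc_nxo (c : Corner) : fc (nxo c) = fc c := by
  obtain ⟨⟨a, b⟩, q⟩ := c
  fin_cases q <;> simp [nxo, wa, fc, rl]

@[simp] theorem fst_nxc (c : Corner) : (nxc c).1 = c.1 := rfl
@[simp] theorem fst_nxo (c : Corner) : (nxo c).1 = wa c := rfl

/-- the endpoints of the edge ahead are the vertex of the corner and `wa` -/
theorem ah_ends (c : Corner) :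
    (c.1 = src (ah c) ∧ wa c = tgt (ah c)) ∨ (c.1 = tgt (ah c) ∧ wa c = src (ah c)) := by
  obtain ⟨⟨a, b⟩, q⟩ := c
  fin_cases q <;> simp [wa, ah, src, tgt]

/-- the faces of the edge ahead are the face of the corner and that of `nxc` -/
theorem ah_faces (c : Corner) :
    (fc c = fA (ah c) ∧ fc (nxc c) = fB (ah c)) ∨ (fc c = fB (ah c) ∧ fc (nxc c) = fA (ah c)) := by
  obtain ⟨⟨a, b⟩, q⟩ := c
  fin_cases q <;> simp [fc, ah, fA, fB, nxc, rr]

theorem bh_ends (c : Corner) :
    (c.1 = src (bh c) ∧ wb c = tgt (bh c)) ∨ (c.1 = tgt (bh c) ∧ wb c = src (bh c)) := by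
  obtain ⟨⟨a, b⟩, q⟩ := c
  fin_cases q <;> simp [wb, bh, src, tgt]

theorem step_open {z : Cfz} {c : Corner} (h : z (ah c) = true) :
    PStep (fun e => z e = true) c.1 (nx z c).1 ∧ fc (nx z c) = fc c := by
  rw [nx_open h]
  exact ⟨⟨ah c, h, ah_ends c⟩, fc_nxo c⟩

theorem step_closed {z : Cfz} {c : Corner} (h : z (ah c) = false) :
    DStep (fun e => z e = false) (fc c) (fc (nx z c)) ∧ (nx z c).1 = c.1 := by
  rw [nx_closed h]
  exact ⟨⟨ah c, h, ah_faces c⟩, rfl⟩

/-- right side: the vertices along a strand are joined by open edges -/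
theorem side_v (z : Cfz) (c : Corner) (k : ℕ) :
    Relation.ReflTransGen (PStep (fun e => z e = true)) c.1 ((nx z)^[k] c).1 := by
  induction k with
  | zero => exact Relation.ReflTransGen.refl
  | succ k ih =>
      rw [Function.iterate_succ_apply']
      set d := (nx z)^[k] c
      cases h : z (ah d) with
      | true => exact ih.tail (step_open h).1
      | false => rw [(step_closed h).2]; exact ih

/-- left side: the faces along a strand are joined across closed edges -/
theorem side_f (z : Cfz) (c : Corner) (k : ℕ) :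
    Relation.ReflTransGen (DStep (fun e => z e = false)) (fc c) (fc ((nx z)^[k] c)) := by
  induction k with
  | zero => exact Relation.ReflTransGen.refl
  | succ k ih =>
      rw [Function.iterate_succ_apply']
      set d := (nx z)^[k] c
      cases h : z (ah d) with
      | true => rw [(step_open h).2]; exact ih
      | false => exact ih.tail (step_closed h).1

/-- right side, with control of the edges used: only edges ahead of corners of the strand -/
theorem side_v' (z : Cfz) (c : Corner) (k : ℕ) :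
    Relation.ReflTransGen (PStep (fun e => z e = true ∧ ∃ j < k, e = ah ((nx z)^[j] c)))
      c.1 ((nx z)^[k] c).1 := by
  induction k with
  | zero => exact Relation.ReflTransGen.refl
  | succ k ih =>
      rw [Function.iterate_succ_apply']
      have ih' : Relation.ReflTransGen (PStep (fun e => z e = true ∧
          ∃ j < k + 1, e = ah ((nx z)^[j] c))) c.1 ((nx z)^[k] c).1 :=
        Relation.ReflTransGen.mono
          (fun a b ⟨e, ⟨h1, j, hj, h2⟩, h3⟩ => ⟨e, ⟨h1, j, by omega, h2⟩, h3⟩) _ _ ih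
      cases h : z (ah ((nx z)^[k] c)) with
      | true =>
          refine ih'.tail ⟨ah ((nx z)^[k] c), ⟨h, k, by omega, rfl⟩, ?_⟩
          rw [nx_open h]
          exact ah_ends _
      | false => rw [(step_closed h).2]; exact ih'

/-- left side, with control of the edges crossed -/
theorem side_f' (z : Cfz) (c : Corner) (k : ℕ) :
    Relation.ReflTransGen (DStep (fun e => z e = false ∧ ∃ j < k, e = ah ((nx z)^[j] c)))
      (fc c) (fc ((nx z)^[k] c)) := by
  induction k with
  | zero => exact Relation.ReflTransGen.refl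
  | succ k ih =>
      rw [Function.iterate_succ_apply']
      have ih' : Relation.ReflTransGen (DStep (fun e => z e = false ∧
          ∃ j < k + 1, e = ah ((nx z)^[j] c))) (fc c) (fc ((nx z)^[k] c)) :=
        Relation.ReflTransGen.mono
          (fun a b ⟨e, ⟨h1, j, hj, h2⟩, h3⟩ => ⟨e, ⟨h1, j, by omega, h2⟩, h3⟩) _ _ ih
      cases h : z (ah ((nx z)^[k] c)) with
      | true => rw [(step_open h).2]; exact ih'
      | false =>
          refine ih'.tail ⟨ah ((nx z)^[k] c), ⟨h, k, by omega, rfl⟩, ?_⟩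
          rw [nx_closed h]
          exact ah_faces _

/-! ### locality -/

theorem nx_congr {z z' : Cfz} {c : Corner} (h : z (ah c) = z' (ah c)) : nx z c = nx z' c := by
  unfold nx; rw [h]

theorem pv_congr {z z' : Cfz} {c : Corner} (h : z (bh c) = z' (bh c)) : pv z c = pv z' c := by
  unfold pv; rw [h]

/-- the strand of length `k` only depends on the edges it visits -/
theorem iter_congr {z z' : Cfz} (c : Corner) (k : ℕ)
    (h : ∀ j < k, z (ah ((nx z)^[j] c)) = z' (ah ((nx z)^[j] c))) :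
    ∀ j ≤ k, (nx z')^[j] c = (nx z)^[j] c := by
  intro j
  induction j with
  | zero => intro _; rfl
  | succ j ih =>
      intro hj
      rw [Function.iterate_succ_apply', Function.iterate_succ_apply', ih (by omega)]
      exact (nx_congr (h j (by omega))).symm

/-! ### the four corners at an edge -/

/-- first incoming corner (at the source) -/
def i1 (e : Edge) : Corner := if e.2 then (e.1, 3) else (e.1, 0)
/-- second incoming corner (at the target) -/
def i2 (e : Edge) : Corner := if e.2 then ((e.1.1, e.1.2 + 1), 1) else ((e.1.1 + 1, e.1.2), 2)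
/-- first outgoing corner (at the source) -/
def o1 (e : Edge) : Corner := if e.2 then (e.1, 0) else (e.1, 1)
/-- second outgoing corner (at the target) -/
def o2 (e : Edge) : Corner := if e.2 then ((e.1.1, e.1.2 + 1), 2) else ((e.1.1 + 1, e.1.2), 3)

theorem ah_eq_iff (c : Corner) (e : Edge) : ah c = e ↔ c = i1 e ∨ c = i2 e := by
  obtain ⟨⟨a, b⟩, q⟩ := c
  obtain ⟨⟨x, y⟩, s⟩ := e
  fin_cases q <;> cases s <;> simp [ah, i1, i2] <;> omega

theorem bh_eq_iff (c : Corner) (e : Edge) : bh c = e ↔ c = o1 e ∨ c = o2 e := by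
  obtain ⟨⟨a, b⟩, q⟩ := c
  obtain ⟨⟨x, y⟩, s⟩ := e
  fin_cases q <;> cases s <;> simp [bh, o1, o2] <;> omega

@[simp] theorem ah_i1 (e : Edge) : ah (i1 e) = e := (ah_eq_iff _ _).2 (Or.inl rfl)
@[simp] theorem ah_i2 (e : Edge) : ah (i2 e) = e := (ah_eq_iff _ _).2 (Or.inr rfl)
@[simp] theorem bh_o1 (e : Edge) : bh (o1 e) = e := (bh_eq_iff _ _).2 (Or.inl rfl)
@[simp] theorem bh_o2 (e : Edge) : bh (o2 e) = e := (bh_eq_iff _ _).2 (Or.inr rfl)

theorem i1_ne_i2 (e : Edge) : i1 e ≠ i2 e := by
  obtain ⟨⟨x, y⟩, s⟩ := e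
  cases s <;> simp [i1, i2]

theorem o1_ne_o2 (e : Edge) : o1 e ≠ o2 e := by
  obtain ⟨⟨x, y⟩, s⟩ := e
  cases s <;> simp [o1, o2]

theorem nxo_i1 (e : Edge) : nxo (i1 e) = o2 e := by
  obtain ⟨⟨x, y⟩, s⟩ := e
  cases s <;> simp [i1, o2, nxo, wa, rl]

theorem nxo_i2 (e : Edge) : nxo (i2 e) = o1 e := by
  obtain ⟨⟨x, y⟩, s⟩ := e
  cases s <;> simp [i2, o1, nxo, wa, rl]

theorem nxc_i1 (e : Edge) : nxc (i1 e) = o1 e := by
  obtain ⟨⟨x, y⟩, s⟩ := e
  cases s <;> simp [i1, o1, nxc, rr]

theorem nxc_i2 (e : Edge) : nxc (i2 e) = o2 e := by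
  obtain ⟨⟨x, y⟩, s⟩ := e
  cases s <;> simp [i2, o2, nxc, rr]

@[simp] theorem fst_i1 (e : Edge) : (i1 e).1 = src e := by
  obtain ⟨⟨x, y⟩, s⟩ := e
  cases s <;> simp [i1]

@[simp] theorem fst_i2 (e : Edge) : (i2 e).1 = tgt e := by
  obtain ⟨⟨x, y⟩, s⟩ := e
  cases s <;> simp [i2, tgt]

@[simp] theorem fst_o1 (e : Edge) : (o1 e).1 = src e := by
  obtain ⟨⟨x, y⟩, s⟩ := e
  cases s <;> simp [o1]

@[simp] theorem fst_o2 (e : Edge) : (o2 e).1 = tgt e := by
  obtain ⟨⟨x, y⟩, s⟩ := e
  cases s <;> simp [o2, tgt]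

theorem nx_i1 (z : Cfz) (e : Edge) : nx z (i1 e) = if z e = true then o2 e else o1 e := by
  unfold nx; rw [ah_i1, nxo_i1, nxc_i1]

theorem nx_i2 (z : Cfz) (e : Edge) : nx z (i2 e) = if z e = true then o1 e else o2 e := by
  unfold nx; rw [ah_i2, nxo_i2, nxc_i2]

end Crest.Agent.R158.It200
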