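import Crest.Agent.R158.It3_200

/-!
# Row 158, BLOCK IT (helper200), part 4: strand surgery (flip of one edge)

`flip z e` flips the state of `e`.  If the two passages at `e` belong to the same finite strand, it is split
into two strands (`flip_split`), otherwise the two strands are merged (`flip_merge`).  The other strands do
not change (`flip_other`).  Heights add up (`hv_split`, `hf_split`), and the types are related by
`split_closed_open`, `split_open_closed` (nested or side by side).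
-/

set_option autoImplicit false

noncomputable section

namespace Crest.Agent.R158.It200

open Crest.Agent.R161.Geo729 Crest.Agent.R161.Dual374
open Finset

/-! ### permutations -/

section Perm

variable {α : Type*}

theorem app_inv (g : Equiv.Perm α) (w : α) : g (g⁻¹ w) = w := g.apply_symm_apply w
theorem inv_app (g : Equiv.Perm α) (w : α) : g⁻¹ (g w) = w := g.symm_apply_apply w

theorem sc_iff_pow {f : Equiv.Perm α} {x y : α} (hx : {d | f.SameCycle x d}.Finite) :
    f.SameCycle x y ↔ ∃ n : ℕ, (f ^ n) x = y := by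
  constructor
  · rintro ⟨m, hm⟩
    have hper : ∃ n : ℕ, 0 < n ∧ (f ^ n) x = x := by
      have hmaps : ∀ n : ℕ, (f ^ n) x ∈ {d | f.SameCycle x d} := fun n => ⟨n, by simp⟩
      obtain ⟨i, j, hij, h⟩ : ∃ i j : ℕ, i < j ∧ (f ^ i) x = (f ^ j) x := by
        have := Set.infinite_univ (α := ℕ)
        obtain ⟨i, -, j, -, hne, h⟩ := this.exists_ne_map_eq_of_mapsTo
          (f := fun n : ℕ => (f ^ n) x) (fun n _ => hmaps n) hx
        rcases lt_or_gt_of_ne hne with h' | h'
        · exact ⟨i, j, h', h⟩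
        · exact ⟨j, i, h', h.symm⟩
      refine ⟨j - i, by omega, ?_⟩
      have h2 : (f ^ i) ((f ^ (j - i)) x) = (f ^ i) x := by
        rw [← Equiv.Perm.mul_apply, ← pow_add, h]; congr 2; omega
      exact (f ^ i).injective h2
    obtain ⟨n, hn, hnx⟩ := hper
    -- replace `m` by `m + k n`
    have hz : ∀ k : ℕ, (f ^ (k * n : ℕ)) x = x := by
      intro k
      induction k with
      | zero => simp
      | succ k ih => rw [Nat.succ_mul, pow_add, Equiv.Perm.mul_apply, hnx, ih]
    refine ⟨(m + (m.natAbs * n : ℕ)).toNat, ?_⟩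
    have h1 : (0 : ℤ) ≤ m + (m.natAbs * n : ℕ) := by
      have : (m.natAbs : ℤ) ≤ (m.natAbs * n : ℕ) := by exact_mod_cast Nat.le_mul_of_pos_right _ hn
      omega
    rw [← zpow_natCast, Int.toNat_of_nonneg h1, zpow_add, Equiv.Perm.mul_apply, zpow_natCast, hz, hm]
  · rintro ⟨n, hn⟩
    exact ⟨n, by simpa using hn⟩

variable [DecidableEq α]

/-- the perturbed permutation -/
theorem swap_step {f g : Equiv.Perm α} {x y : α} (hg : ∀ d, g d = f (Equiv.swap x y d)) :
    g x = f y ∧ g y = f x ∧ ∀ d, d ≠ x → d ≠ y → g d = f d := by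
  refine ⟨by rw [hg, Equiv.swap_apply_left], by rw [hg, Equiv.swap_apply_right], fun d h1 h2 => ?_⟩
  rw [hg, Equiv.swap_apply_of_ne_of_ne h1 h2]

theorem swap_union_sub {f g : Equiv.Perm α} {x y : α} (hg : ∀ d, g d = f (Equiv.swap x y d))
    (d : α) (h : g.SameCycle x d ∨ g.SameCycle y d) : f.SameCycle x d ∨ f.SameCycle y d := by
  obtain ⟨h1, h2, h3⟩ := swap_step hg
  have hfwd : ∀ d, (f.SameCycle x d ∨ f.SameCycle y d) → (f.SameCycle x (g d) ∨ f.SameCycle y (g d)) := by
    intro d hd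
    by_cases e1 : d = x
    · right; rw [e1, h1]; exact Equiv.Perm.sameCycle_apply_right.2 (Equiv.Perm.SameCycle.refl _ _)
    · by_cases e2 : d = y
      · left; rw [e2, h2]; exact Equiv.Perm.sameCycle_apply_right.2 (Equiv.Perm.SameCycle.refl _ _)
      · rw [h3 d e1 e2]
        rcases hd with hd | hd
        · left; exact Equiv.Perm.sameCycle_apply_right.2 hd
        · right; exact Equiv.Perm.sameCycle_apply_right.2 hd
  have hbwd : ∀ d, (f.SameCycle x (g d) ∨ f.SameCycle y (g d)) → (f.SameCycle x d ∨ f.SameCycle y d) := by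
    intro d hd
    by_cases e1 : d = x
    · left; rw [e1]
    · by_cases e2 : d = y
      · right; rw [e2]
      · rw [h3 d e1 e2] at hd
        rcases hd with hd | hd
        · left; exact Equiv.Perm.sameCycle_apply_right.1 hd
        · right; exact Equiv.Perm.sameCycle_apply_right.1 hd
  have key : ∀ w, (f.SameCycle x w ∨ f.SameCycle y w) → ∀ n : ℤ,
      (f.SameCycle x ((g ^ n) w) ∨ f.SameCycle y ((g ^ n) w)) := by
    intro w hw n
    induction n using Int.induction_on with
    | zero => simpa using hw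
    | succ n ih =>
        rw [add_comm, zpow_add, zpow_one, Equiv.Perm.mul_apply]
        exact hfwd _ ih
    | pred n ih =>
        rw [sub_eq_add_neg, add_comm, zpow_add, zpow_neg_one, Equiv.Perm.mul_apply]
        refine hbwd _ ?_
        rw [app_inv]
        exact ih
  rcases h with ⟨n, rfl⟩ | ⟨n, rfl⟩
  · exact key x (Or.inl (Equiv.Perm.SameCycle.refl _ _)) n
  · exact key y (Or.inr (Equiv.Perm.SameCycle.refl _ _)) n

theorem swap_symm {f g : Equiv.Perm α} {x y : α} (hg : ∀ d, g d = f (Equiv.swap x y d)) :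
    ∀ d, f d = g (Equiv.swap x y d) := by
  intro d; rw [hg, Equiv.swap_apply_self]

theorem swap_union {f g : Equiv.Perm α} {x y : α} (hg : ∀ d, g d = f (Equiv.swap x y d)) (d : α) :
    (g.SameCycle x d ∨ g.SameCycle y d) ↔ (f.SameCycle x d ∨ f.SameCycle y d) :=
  ⟨swap_union_sub hg d, swap_union_sub (swap_symm hg) d⟩

/-- split -/
theorem swap_split {f g : Equiv.Perm α} {x y : α} (hxy : x ≠ y)
    (hg : ∀ d, g d = f (Equiv.swap x y d)) (hfin : {d | f.SameCycle x d}.Finite)
    (h : f.SameCycle x y) : ¬ g.SameCycle x y := by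
  obtain ⟨h1, h2, h3⟩ := swap_step hg
  have hfy : {d | f.SameCycle y d}.Finite := by
    refine hfin.subset fun d hd => ?_
    exact h.trans hd
  -- first return to `x` from `y`
  have hex : ∃ n : ℕ, (f ^ n) (f y) = x := by
    have : f.SameCycle (f y) x := Equiv.Perm.sameCycle_apply_left.2 h.symm
    refine (sc_iff_pow ?_).1 this
    refine hfy.subset fun d hd => ?_
    exact Equiv.Perm.sameCycle_apply_left.1 hd
  classical
  set n := Nat.find hex with hn
  have hnx : (f ^ n) (f y) = x := Nat.find_spec hex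
  have hmin : ∀ k < n, (f ^ k) (f y) ≠ x := fun k hk => Nat.find_min hex hk
  -- `y` is not hit before
  have hny : ∀ k < n, (f ^ k) (f y) ≠ y := by
    intro k hk hky
    apply hmin (n - (k + 1)) (by omega)
    have e1 : (f ^ n) (f y) = (f ^ (n - (k + 1))) ((f ^ (k + 1)) (f y)) := by
      have e0 : f ^ n = f ^ (n - (k + 1)) * f ^ (k + 1) := by
        rw [← pow_add]; congr 1; omega
      rw [e0, Equiv.Perm.mul_apply]
    have e2 : (f ^ (k + 1)) (f y) = f y := by
      rw [pow_succ', Equiv.Perm.mul_apply, hky]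
    rw [e2] at e1
    rw [← e1, hnx]
  have hyn : (f ^ n) (f y) ≠ y := by rw [hnx]; exact hxy
  have hgk : ∀ k ≤ n, (g ^ k) (f y) = (f ^ k) (f y) := by
    intro k
    induction k with
    | zero => intro _; rfl
    | succ k ih =>
        intro hk
        rw [pow_succ', Equiv.Perm.mul_apply, ih (by omega), pow_succ', Equiv.Perm.mul_apply]
        exact h3 _ (hmin k (by omega)) (hny k (by omega))
  -- the `g`-orbit of `x` is contained in the finite set
  set S : Set α := {d | ∃ k ≤ n, d = (f ^ k) (f y)} with hS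
  have hxS : x ∈ S := ⟨n, le_rfl, hnx.symm⟩
  have hyS : y ∉ S := by
    rintro ⟨k, hk, hy⟩
    rcases Nat.lt_or_ge k n with h' | h'
    · exact hny k h' hy.symm
    · have : k = n := by omega
      rw [this] at hy
      exact hyn hy.symm
  have hSg : ∀ d ∈ S, g d ∈ S := by
    rintro d ⟨k, hk, rfl⟩
    rcases Nat.lt_or_ge k n with h' | h'
    · refine ⟨k + 1, by omega, ?_⟩
      rw [h3 _ (hmin k h') (hny k h'), pow_succ', Equiv.Perm.mul_apply]
    · have : k = n := by omega
      rw [this, hnx, h1]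
      exact ⟨0, Nat.zero_le _, rfl⟩
  have hSg' : ∀ d ∈ S, g⁻¹ d ∈ S := by
    rintro d ⟨k, hk, rfl⟩
    rcases Nat.eq_zero_or_pos k with h' | h'
    · rw [h', pow_zero, Equiv.Perm.one_apply, ← h1, inv_app]
      exact hxS
    · obtain ⟨j, rfl⟩ : ∃ j, k = j + 1 := ⟨k - 1, by omega⟩
      refine ⟨j, by omega, ?_⟩
      rw [pow_succ', Equiv.Perm.mul_apply, ← h3 _ (hmin j (by omega)) (hny j (by omega)),
        inv_app]
  rintro ⟨m, hm⟩
  have key : ∀ m : ℤ, (g ^ m) x ∈ S := by
    intro m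
    induction m using Int.induction_on with
    | zero => simpa using hxS
    | succ m ih =>
        rw [add_comm, zpow_add, zpow_one, Equiv.Perm.mul_apply]
        exact hSg _ ih
    | pred m ih =>
        rw [sub_eq_add_neg, add_comm, zpow_add, zpow_neg_one, Equiv.Perm.mul_apply]
        exact hSg' _ ih
  exact hyS (hm ▸ key m)

/-- merge -/
theorem swap_merge {f g : Equiv.Perm α} {x y : α}
    (hg : ∀ d, g d = f (Equiv.swap x y d)) (hfin : {d | f.SameCycle y d}.Finite)
    (h : ¬ f.SameCycle x y) : g.SameCycle x y := by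
  obtain ⟨h1, h2, h3⟩ := swap_step hg
  -- `x → f y → ... → y`
  have hex : ∃ n : ℕ, (f ^ n) (f y) = y := by
    have : f.SameCycle (f y) y := Equiv.Perm.sameCycle_apply_left.2 (Equiv.Perm.SameCycle.refl _ _)
    refine (sc_iff_pow ?_).1 this
    refine hfin.subset fun d hd => ?_
    exact Equiv.Perm.sameCycle_apply_left.1 hd
  classical
  set n := Nat.find hex with hn
  have hnx : (f ^ n) (f y) = y := Nat.find_spec hex
  have hmin : ∀ k < n, (f ^ k) (f y) ≠ y := fun k hk => Nat.find_min hex hk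
  have hnx' : ∀ k, (f ^ k) (f y) ≠ x := by
    intro k hk
    apply h
    have h4 : f.SameCycle (f y) x := ⟨k, by simpa using hk⟩
    exact (Equiv.Perm.sameCycle_apply_left.1 h4).symm
  have hgk : ∀ k ≤ n, (g ^ k) (f y) = (f ^ k) (f y) := by
    intro k
    induction k with
    | zero => intro _; rfl
    | succ k ih =>
        intro hk
        rw [pow_succ', Equiv.Perm.mul_apply, ih (by omega), pow_succ', Equiv.Perm.mul_apply]
        exact h3 _ (hnx' k) (hmin k (by omega))
  have h5 : g.SameCycle (f y) y := ⟨n, by rw [zpow_natCast, hgk n le_rfl, hnx]⟩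
  have h6 : g.SameCycle (g x) y := by rw [h1]; exact h5
  exact Equiv.Perm.sameCycle_apply_left.1 h6

end Perm

/-! ### flips -/

/-- flip of one edge -/
def flip (z : Cfz) (e : Edge) : Cfz := Function.update z e (!(z e))

@[simp] theorem flip_same (z : Cfz) (e : Edge) : flip z e e = !(z e) := by
  unfold flip; rw [Function.update_self]

theorem flip_ne (z : Cfz) {e e' : Edge} (h : e' ≠ e) : flip z e e' = z e' := by
  unfold flip; rw [Function.update_of_ne h]

@[simp] theorem flip_flip (z : Cfz) (e : Edge) : flip (flip z e) e = z := by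
  funext e'
  by_cases h : e' = e
  · rw [h, flip_same, flip_same, Bool.not_not]
  · rw [flip_ne _ h, flip_ne _ h]

theorem nx_flip (z : Cfz) (e : Edge) (c : Corner) :
    nx (flip z e) c = nx z (Equiv.swap (i1 e) (i2 e) c) := by
  by_cases h1 : c = i1 e
  · rw [h1, Equiv.swap_apply_left, nx_i1, nx_i2, flip_same]
    cases z e <;> simp
  · by_cases h2 : c = i2 e
    · rw [h2, Equiv.swap_apply_right, nx_i1, nx_i2, flip_same]
      cases z e <;> simp
    · rw [Equiv.swap_apply_of_ne_of_ne h1 h2]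
      refine nx_congr (flip_ne _ fun h => ?_)
      rcases (ah_eq_iff _ _).1 h with h | h
      · exact h1 h
      · exact h2 h

theorem flip_union (z : Cfz) (e : Edge) :
    Lp (flip z e) (i1 e) ∪ Lp (flip z e) (i2 e) = Lp z (i1 e) ∪ Lp z (i2 e) := by
  ext d
  exact swap_union (f := nxE z) (g := nxE (flip z e)) (nx_flip z e) d

/-- **split** -/
theorem flip_split {z : Cfz} {e : Edge} (hfin : (Lp z (i1 e)).Finite) (h : i2 e ∈ Lp z (i1 e)) :
    i2 e ∉ Lp (flip z e) (i1 e) :=
  swap_split (f := nxE z) (g := nxE (flip z e)) (i1_ne_i2 e) (nx_flip z e) hfin h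

/-- **merge** -/
theorem flip_merge {z : Cfz} {e : Edge} (hfin : (Lp z (i2 e)).Finite) (h : i2 e ∉ Lp z (i1 e)) :
    i2 e ∈ Lp (flip z e) (i1 e) :=
  swap_merge (f := nxE z) (g := nxE (flip z e)) (nx_flip z e) hfin h

theorem flip_other {z : Cfz} {e : Edge} {c : Corner} (h1 : i1 e ∉ Lp z c) (h2 : i2 e ∉ Lp z c) :
    Lp (flip z e) c = Lp z c := by
  refine (Lp_congr fun e' he' => (flip_ne _ fun h => ?_).symm).symm
  obtain ⟨d, hd, hde⟩ := he'
  rw [h] at hde
  rcases (ah_eq_iff _ _).1 hde with h' | h'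
  · exact h1 (h' ▸ hd)
  · exact h2 (h' ▸ hd)

/-- indicators add up in a split -/
theorem JL_split {z : Cfz} {e : Edge} (hfin : (Lp z (i1 e)).Finite) (h : i2 e ∈ Lp z (i1 e)) :
    JL z (i1 e) = JL (flip z e) (i1 e) + JL (flip z e) (i2 e) := by
  have h1 := flip_split hfin h
  have h2 := flip_union z e
  rw [Lp_eq h, Set.union_self] at h2
  have h3 := Lp_disj h1
  funext d
  rw [Pi.add_apply]
  by_cases a : d ∈ Lp (flip z e) (i1 e)
  · have a' : d ∉ Lp (flip z e) (i2 e) := Set.disjoint_left.1 h3 a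
    rw [JL_mem a, JL_not_mem a', JL_mem (h2 ▸ Or.inl a)]; rfl
  · by_cases b : d ∈ Lp (flip z e) (i2 e)
    · rw [JL_not_mem a, JL_mem b, JL_mem (h2 ▸ Or.inr b)]; rfl
    · rw [JL_not_mem a, JL_not_mem b, JL_not_mem]
      · rfl
      · rw [← h2]; rintro (h | h)
        · exact a h
        · exact b h

theorem split_fin1 {z : Cfz} {e : Edge} (hfin : (Lp z (i1 e)).Finite) (h : i2 e ∈ Lp z (i1 e)) :
    (Lp (flip z e) (i1 e)).Finite := by
  have h2 := flip_union z e
  rw [Lp_eq h, Set.union_self] at h2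
  exact hfin.subset (h2 ▸ Set.subset_union_left)

theorem split_fin2 {z : Cfz} {e : Edge} (hfin : (Lp z (i1 e)).Finite) (h : i2 e ∈ Lp z (i1 e)) :
    (Lp (flip z e) (i2 e)).Finite := by
  have h2 := flip_union z e
  rw [Lp_eq h, Set.union_self] at h2
  exact hfin.subset (h2 ▸ Set.subset_union_right)

/-- **heights add up** -/
theorem hv_split {z : Cfz} {e : Edge} (hfin : (Lp z (i1 e)).Finite) (h : i2 e ∈ Lp z (i1 e))
    (v : P2) : hv z (i1 e) v = hv (flip z e) (i1 e) v + hv (flip z e) (i2 e) v := by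
  unfold hv
  rw [JL_split hfin h, Hv_add (JL_fs (split_fin1 hfin h)) (JL_fs (split_fin2 hfin h))]

theorem hf_split {z : Cfz} {e : Edge} (hfin : (Lp z (i1 e)).Finite) (h : i2 e ∈ Lp z (i1 e))
    (f : P2) : hf z (i1 e) f = hf (flip z e) (i1 e) f + hf (flip z e) (i2 e) f := by
  unfold hf
  rw [JL_split hfin h, Hf_add (JL_fs (split_fin1 hfin h)) (JL_fs (split_fin2 hfin h))]

theorem o2_mem_open {z : Cfz} {e : Edge} (h : z e = true) : o2 e ∈ Lp z (i1 e) := by
  have := nx_mem_Lp (z := z) (c := i1 e) (d := i1 e)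
  rw [nx_i1, if_pos h] at this
  exact this.2 (mem_Lp_self _ _)

theorem o1_mem_open {z : Cfz} {e : Edge} (h : z e = true) : o1 e ∈ Lp z (i2 e) := by
  have := nx_mem_Lp (z := z) (c := i2 e) (d := i2 e)
  rw [nx_i2, if_pos h] at this
  exact this.2 (mem_Lp_self _ _)

theorem o1_mem_closed {z : Cfz} {e : Edge} (h : z e = false) : o1 e ∈ Lp z (i1 e) := by
  have := nx_mem_Lp (z := z) (c := i1 e) (d := i1 e)
  rw [nx_i1, if_neg (by rw [h]; simp)] at this
  exact this.2 (mem_Lp_self _ _)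

theorem o2_mem_closed {z : Cfz} {e : Edge} (h : z e = false) : o2 e ∈ Lp z (i2 e) := by
  have := nx_mem_Lp (z := z) (c := i2 e) (d := i2 e)
  rw [nx_i2, if_neg (by rw [h]; simp)] at this
  exact this.2 (mem_Lp_self _ _)

/-- values of one piece along the other one, pieces of an open edge -/
theorem along_open {z : Cfz} {e : Edge} (he : z e = true) (h1 : (Lp z (i1 e)).Finite)
    (h2 : (Lp z (i2 e)).Finite) (hne : i2 e ∉ Lp z (i1 e)) :
    (∀ d ∈ Lp z (i2 e), hv z (i1 e) d.1 = hv z (i1 e) (src e)) ∧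
    (∀ d ∈ Lp z (i1 e), hv z (i2 e) d.1 = hv z (i2 e) (tgt e)) ∧
    hv z (i1 e) (tgt e) = hv z (i1 e) (src e) ∧ hv z (i2 e) (tgt e) = hv z (i2 e) (src e) := by
  have hne' : i1 e ∉ Lp z (i2 e) := fun h => hne h.symm
  have a1 := hv_along (c := i2 e) (d := i1 e) h1 hne
  have a2 := hv_along (c := i1 e) (d := i2 e) h2 hne'
  have b1 := (JL_inv z (i1 e)).hv_open (JL_fs h1) he
  have b2 := (JL_inv z (i2 e)).hv_open (JL_fs h2) he
  refine ⟨fun d hd => ?_, fun d hd => ?_, b1.symm, b2.symm⟩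
  · rw [(a1 d hd).1, fst_i2]; exact b1.symm
  · rw [(a2 d hd).1, fst_i1]; exact b2

/-- **split of a closed edge** (`z e = false`, `flip z e` has `e` open): with `a` the height of the strand
at its vertices and `a1, a2` those of the pieces, `a = a1 + a2`; the height of one piece along the other
one is its own vertex height.  So `a = 0`: both pieces have faces inside and lie side by side;
`a = -1`: one piece has vertices inside and contains the other one, which has faces inside. -/
theorem split_closed_open {z : Cfz} {e : Edge} (he : z e = false)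
    (hfin : (Lp z (i1 e)).Finite) (h : i2 e ∈ Lp z (i1 e)) :
    (sg z (i1 e) = 1 ∧ sg (flip z e) (i1 e) = 1 ∧ sg (flip z e) (i2 e) = 1 ∧
      (∀ d ∈ Lp (flip z e) (i2 e), hv (flip z e) (i1 e) d.1 = 0) ∧
      (∀ d ∈ Lp (flip z e) (i1 e), hv (flip z e) (i2 e) d.1 = 0)) ∨
    (sg z (i1 e) = -1 ∧ sg (flip z e) (i1 e) = -1 ∧ sg (flip z e) (i2 e) = 1 ∧
      (∀ d ∈ Lp (flip z e) (i2 e), hv (flip z e) (i1 e) d.1 = -1) ∧
      (∀ d ∈ Lp (flip z e) (i1 e), hv (flip z e) (i2 e) d.1 = 0)) ∨
    (sg z (i1 e) = -1 ∧ sg (flip z e) (i1 e) = 1 ∧ sg (flip z e) (i2 e) = -1 ∧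
      (∀ d ∈ Lp (flip z e) (i2 e), hv (flip z e) (i1 e) d.1 = 0) ∧
      (∀ d ∈ Lp (flip z e) (i1 e), hv (flip z e) (i2 e) d.1 = -1)) := by
  have f1 := split_fin1 hfin h
  have f2 := split_fin2 hfin h
  have he' : flip z e e = true := by rw [flip_same, he]; rfl
  have hne := flip_split hfin h
  obtain ⟨A1, A2, A3, A4⟩ := along_open he' f1 f2 hne
  have hs := hv_split hfin h (src e)
  have m0 : i1 e ∈ Lp z (i1 e) := mem_Lp_self _ _
  have m1 : i1 e ∈ Lp (flip z e) (i1 e) := mem_Lp_self _ _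
  have m2 : i2 e ∈ Lp (flip z e) (i2 e) := mem_Lp_self _ _
  rcases sg_cases hfin with ⟨s0, c0, -, -⟩ | ⟨s0, c0, -, -⟩ <;>
  rcases sg_cases f1 with ⟨s1, c1, -, -⟩ | ⟨s1, c1, -, -⟩ <;>
  rcases sg_cases f2 with ⟨s2, c2, -, -⟩ | ⟨s2, c2, -, -⟩ <;>
  · have v0 := (c0 _ m0).1
    have v1 := (c1 _ m1).1
    have v2 := (c2 _ m2).1
    rw [fst_i1] at v0 v1
    rw [fst_i2] at v2
    have v2' := A4.symm.trans v2
    rw [v0, v1, v2'] at hs
    first
      | (exfalso; revert hs; norm_num; done)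
      | (left; exact ⟨s0, s1, s2, fun d hd => (A1 d hd).trans v1, fun d hd => (A2 d hd).trans v2⟩)
      | (right; left
         exact ⟨s0, s1, s2, fun d hd => (A1 d hd).trans v1, fun d hd => (A2 d hd).trans v2⟩)
      | (right; right
         exact ⟨s0, s1, s2, fun d hd => (A1 d hd).trans v1, fun d hd => (A2 d hd).trans v2⟩)

/-- values of one piece along the other one, pieces at a closed edge (at the faces) -/
theorem along_closed {z : Cfz} {e : Edge} (he : z e = false) (h1 : (Lp z (i1 e)).Finite)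
    (h2 : (Lp z (i2 e)).Finite) (hne : i2 e ∉ Lp z (i1 e)) :
    (∀ d ∈ Lp z (i2 e), hv z (i1 e) d.1 = hf z (i1 e) (fc (i1 e))) ∧
    (∀ d ∈ Lp z (i1 e), hv z (i2 e) d.1 = hf z (i2 e) (fc (i2 e))) := by
  have hne' : i1 e ∉ Lp z (i2 e) := fun h => hne h.symm
  have a1 := hv_along (c := i2 e) (d := i1 e) h1 hne
  have a2 := hv_along (c := i1 e) (d := i2 e) h2 hne'
  -- the faces of the edge
  have e12 : fc (o2 e) = fc (i1 e) := by rw [← nxo_i1, fc_nxo]
  have e21 : fc (o1 e) = fc (i2 e) := by rw [← nxo_i2, fc_nxo]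
  refine ⟨fun d hd => ?_, fun d hd => ?_⟩
  · rw [(a1 d hd).1, ← (a1 (o2 e) (o2_mem_closed he)).2, e12]
  · rw [(a2 d hd).1, ← (a2 (o1 e) (o1_mem_closed he)).2, e21]

/-- **split of an open edge** (`z e = true`, `flip z e` has `e` closed): `a + 1 = (a1 + 1) + (a2 + 1)`; the
height of one piece along the other one is its own face height.  So `a = -1`: both pieces have vertices
inside and lie side by side; `a = 0`: one piece has faces inside and contains the other one, which has
vertices inside. -/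
theorem split_open_closed {z : Cfz} {e : Edge} (he : z e = true)
    (hfin : (Lp z (i1 e)).Finite) (h : i2 e ∈ Lp z (i1 e)) :
    (sg z (i1 e) = -1 ∧ sg (flip z e) (i1 e) = -1 ∧ sg (flip z e) (i2 e) = -1 ∧
      (∀ d ∈ Lp (flip z e) (i2 e), hv (flip z e) (i1 e) d.1 = 0) ∧
      (∀ d ∈ Lp (flip z e) (i1 e), hv (flip z e) (i2 e) d.1 = 0)) ∨
    (sg z (i1 e) = 1 ∧ sg (flip z e) (i1 e) = 1 ∧ sg (flip z e) (i2 e) = -1 ∧
      (∀ d ∈ Lp (flip z e) (i2 e), hv (flip z e) (i1 e) d.1 = 1) ∧
      (∀ d ∈ Lp (flip z e) (i1 e), hv (flip z e) (i2 e) d.1 = 0)) ∨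
    (sg z (i1 e) = 1 ∧ sg (flip z e) (i1 e) = -1 ∧ sg (flip z e) (i2 e) = 1 ∧
      (∀ d ∈ Lp (flip z e) (i2 e), hv (flip z e) (i1 e) d.1 = 0) ∧
      (∀ d ∈ Lp (flip z e) (i1 e), hv (flip z e) (i2 e) d.1 = 1)) := by
  have f1 := split_fin1 hfin h
  have f2 := split_fin2 hfin h
  have he' : flip z e e = false := by rw [flip_same, he]; rfl
  have hne := flip_split hfin h
  obtain ⟨A1, A2⟩ := along_closed he' f1 f2 hne
  have hs := hf_split hfin h (fc (i1 e))
  have m0 : i1 e ∈ Lp z (i1 e) := mem_Lp_self _ _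
  have m1 : i1 e ∈ Lp (flip z e) (i1 e) := mem_Lp_self _ _
  have m2 : o2 e ∈ Lp (flip z e) (i2 e) := o2_mem_closed he'
  have m2' : i2 e ∈ Lp (flip z e) (i2 e) := mem_Lp_self _ _
  have e12 : fc (o2 e) = fc (i1 e) := by rw [← nxo_i1, fc_nxo]
  rcases sg_cases hfin with ⟨s0, c0, -, -⟩ | ⟨s0, c0, -, -⟩ <;>
  rcases sg_cases f1 with ⟨s1, c1, -, -⟩ | ⟨s1, c1, -, -⟩ <;>
  rcases sg_cases f2 with ⟨s2, c2, -, -⟩ | ⟨s2, c2, -, -⟩ <;>
  · have v0 := (c0 _ m0).2
    have v1 := (c1 _ m1).2
    have v2 := (c2 _ m2).2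
    have v2' := (c2 _ m2').2
    rw [e12] at v2
    rw [v0, v1, v2] at hs
    first
      | (exfalso; revert hs; norm_num; done)
      | (left; exact ⟨s0, s1, s2, fun d hd => (A1 d hd).trans v1, fun d hd => (A2 d hd).trans v2'⟩)
      | (right; left
         exact ⟨s0, s1, s2, fun d hd => (A1 d hd).trans v1, fun d hd => (A2 d hd).trans v2'⟩)
      | (right; right
         exact ⟨s0, s1, s2, fun d hd => (A1 d hd).trans v1, fun d hd => (A2 d hd).trans v2'⟩)

end Crest.Agent.R158.It200
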