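import Mathlib
import Crest.Agent.R158.Jt1_785
import Crest.Prelude.Def_PlanarPerc

/-! R158 (helper785) BLOCK J, file 2: `jordanInterior` through winding numbers, frontier of the inner
and outer regions of a Jordan curve. -/

set_option autoImplicit false

open Set Topology Filter Metric
open Crest.ProbabilityR.Percolation

namespace Crest.Agent.R158.Jt785

open Crest.Agent.R036.Sweep Crest.Agent.R144.Geo268

theorem tr_eq (γ : ℝ → ℂ) : tr γ = curveTrace γ := rfl

theorem lp_of {γ : ℝ → ℂ} (h : IsJordanCurve γ) : Lp γ := ⟨h.1, h.2.2⟩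

/-- injectivity up to the endpoints -/
theorem inj_of {γ : ℝ → ℂ} (h : IsJordanCurve γ) {s t : ℝ} (hs : s ∈ Icc (0:ℝ) 1)
    (ht : t ∈ Icc (0:ℝ) 1) (e : γ s = γ t) : s = t ∨ (s = 0 ∧ t = 1) ∨ (s = 1 ∧ t = 0) := by
  rcases eq_or_lt_of_le hs.2 with h1 | h1
  · rcases eq_or_lt_of_le ht.2 with h2 | h2
    · left; rw [h1, h2]
    · right; right
      refine ⟨h1, ?_⟩
      rw [h1, ← h.2.2] at e
      exact (h.2.1 (left_mem_Ico.2 zero_lt_one) ⟨ht.1, h2⟩ e).symm
  · rcases eq_or_lt_of_le ht.2 with h2 | h2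
    · right; left
      refine ⟨?_, h2⟩
      rw [h2, ← h.2.2] at e
      exact h.2.1 ⟨hs.1, h1⟩ (left_mem_Ico.2 zero_lt_one) e
    · left
      exact h.2.1 ⟨hs.1, h1⟩ ⟨ht.1, h2⟩ e

/-- a continuous argument exists on closed subsets of the trace that miss a point, and on the whole
trace if the winding number vanishes -/
theorem exists_arg_off {γ : ℝ → ℂ} (h : IsJordanCurve γ) {z₀ : ℂ} (hz : z₀ ∉ tr γ) {K : Set ℂ}
    (hK : IsClosed K) (hKt : K ⊆ tr γ) {x₀ : ℂ} (hx : x₀ ∈ tr γ) (hxK : x₀ ∉ K) :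
    ∃ θ : ℂ → ℝ, ContinuousOn θ K ∧
      ∀ x ∈ K, x - z₀ = ‖x - z₀‖ * Complex.exp (θ x * Complex.I) := by
  classical
  have hc := lp_of h
  obtain ⟨t₀, ht₀, rfl⟩ : ∃ t ∈ Ico (0:ℝ) 1, γ t = x₀ := by
    obtain ⟨t, ht, rfl⟩ := hx
    rcases eq_or_lt_of_le ht.2 with h1 | h1
    · exact ⟨0, left_mem_Ico.2 zero_lt_one, by rw [h1]; exact h.2.2⟩
    · exact ⟨t, ⟨ht.1, h1⟩, rfl⟩
  obtain ⟨g, hgc, hg⟩ := exists_argOn_Icc zero_le_one (hc.subc z₀)
    (fun s hs => ne_of_notMem hz hs)
  have hwd : wd γ z₀ = g 1 - g 0 := sweep_eq zero_le_one (fun s hs => ne_of_notMem hz hs) hg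
  obtain ⟨k, hk⟩ := wd_int hc hz
  let P : Set ℝ := Icc (0:ℝ) 1 ∩ γ ⁻¹' K
  have hPc : IsCompact P := isCompact_Icc.of_isClosed_subset
    (hc.cont.preimage_isClosed_of_isClosed isClosed_Icc hK) inter_subset_left
  have hPt : ∀ s ∈ P, s ≠ t₀ := fun s hs e => hxK (e ▸ hs.2)
  let G : ℝ → ℝ := fun s => if s ≤ t₀ then g s + wd γ z₀ else g s
  have hGc : ContinuousOn G P := by
    intro s hs
    rcases lt_or_gt_of_ne (hPt s hs) with h1 | h1
    · have h2 : ContinuousWithinAt (fun s => g s + wd γ z₀) P s :=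
        (hgc.add continuous_const).continuousWithinAt
      refine h2.congr_of_eventuallyEq ?_ ?_
      · filter_upwards [mem_nhdsWithin_of_mem_nhds (Iio_mem_nhds h1)] with u hu
        simp only [G, if_pos (le_of_lt (show u < t₀ from hu))]
      · simp only [G, if_pos h1.le]
    · have h2 : ContinuousWithinAt g P s := hgc.continuousWithinAt
      refine h2.congr_of_eventuallyEq ?_ ?_
      · filter_upwards [mem_nhdsWithin_of_mem_nhds (Ioi_mem_nhds h1)] with u hu
        simp only [G, if_neg (not_le.2 (show t₀ < u from hu))]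
      · simp only [G, if_neg (not_le.2 h1)]
  have hGi : ∀ s ∈ P, ∀ t ∈ P, γ s = γ t → G s = G t := by
    have key : ∀ s ∈ P, ∀ t ∈ P, s = 0 → t = 1 → G s = G t := by
      intro s hs t ht h1 h2
      have h3 : 0 < t₀ := lt_of_le_of_ne ht₀.1 (by rw [← h1]; exact hPt s hs)
      rw [h1, h2]
      simp only [G]
      rw [if_pos h3.le, if_neg (not_le.2 ht₀.2), hwd]
      ring
    intro s hs t ht e
    rcases inj_of h hs.1 ht.1 e with h1 | ⟨h1, h2⟩ | ⟨h1, h2⟩
    · rw [h1]
    · exact key s hs t ht h1 h2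
    · exact (key t ht s hs h2 h1).symm
  obtain ⟨θ, h1, h2⟩ := exists_descent hPc (hc.cont.mono inter_subset_left) hGc hGi
  have hKP : K = γ '' P := by
    ext x
    constructor
    · intro hx
      obtain ⟨s, hs, rfl⟩ := hKt hx
      exact ⟨s, ⟨hs, hx⟩, rfl⟩
    · rintro ⟨s, hs, rfl⟩
      exact hs.2
  rw [hKP]
  refine ⟨θ, h1, ?_⟩
  rintro _ ⟨s, hs, rfl⟩
  rw [h2 s hs]
  have h3 : γ s - z₀ = ‖γ s - z₀‖ * Complex.exp (g s * Complex.I) := hg.2 s hs.1
  by_cases h4 : s ≤ t₀
  · simp only [G, if_pos h4]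
    have e : Complex.exp (((g s + wd γ z₀ : ℝ) : ℂ) * Complex.I) = Complex.exp (g s * Complex.I) := by
      rw [hk, Complex.exp_eq_exp_iff_exists_int]
      refine ⟨k, ?_⟩
      push_cast
      ring
    rw [e]
    exact h3
  · simp only [G, if_neg h4]
    exact h3

theorem exists_arg_loop {γ : ℝ → ℂ} (h : IsJordanCurve γ) {z₀ : ℂ} (hz : z₀ ∉ tr γ)
    (h0 : wd γ z₀ = 0) :
    ∃ θ : ℂ → ℝ, ContinuousOn θ (tr γ) ∧
      ∀ x ∈ tr γ, x - z₀ = ‖x - z₀‖ * Complex.exp (θ x * Complex.I) := by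
  have hc := lp_of h
  obtain ⟨g, hgc, hg⟩ := exists_argOn_Icc zero_le_one (hc.subc z₀)
    (fun s hs => ne_of_notMem hz hs)
  have hwd : wd γ z₀ = g 1 - g 0 := sweep_eq zero_le_one (fun s hs => ne_of_notMem hz hs) hg
  have h01 : g 1 = g 0 := by linarith
  obtain ⟨θ, h1, h2⟩ := exists_descent isCompact_Icc hc.cont hg.1 (fun s hs t ht e => by
    rcases inj_of h hs ht e with h1 | ⟨h1, h2⟩ | ⟨h1, h2⟩
    · rw [h1]
    · rw [h1, h2, h01]
    · rw [h1, h2, h01])
  refine ⟨θ, h1, ?_⟩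
  rintro _ ⟨s, hs, rfl⟩
  rw [h2 s hs]
  exact hg.2 s hs

/-! ### components -/

theorem frontier_component {U : Set ℂ} (hU : IsOpen U) (z : ℂ) :
    frontier (connectedComponentIn U z) ⊆ Uᶜ := by
  intro x hx hxU
  have ho : IsOpen (connectedComponentIn U z) := hU.connectedComponentIn
  have hox : IsOpen (connectedComponentIn U x) := hU.connectedComponentIn
  have hxm : x ∈ connectedComponentIn U x := mem_connectedComponentIn hxU
  rw [ho.frontier_eq] at hx
  obtain ⟨y, hy1, hy2⟩ := mem_closure_iff.1 hx.1 _ hox hxm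
  have e1 := connectedComponentIn_eq hy1
  have e2 := connectedComponentIn_eq hy2
  have e : connectedComponentIn U z = connectedComponentIn U x := e2.trans e1.symm
  exact hx.2 (by rw [e]; exact hxm)

theorem isPreconnected_far (M : ℝ) : IsPreconnected {z : ℂ | M < ‖z‖} := by
  rcases lt_or_ge M 0 with h | h
  · have : {z : ℂ | M < ‖z‖} = univ := by
      ext z
      simp only [mem_ofPred_eq, mem_univ, iff_true]
      exact h.trans_le (norm_nonneg z)
    rw [this]
    exact isPreconnected_univ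
  · have h1 : {z : ℂ | M < ‖z‖} =
        (fun p : ℝ × ℝ => (p.1 : ℂ) * Complex.exp (p.2 * Complex.I)) '' (Ioi M ×ˢ univ) := by
      ext z
      constructor
      · intro hz
        refine ⟨(‖z‖, Complex.arg z), ⟨hz, mem_univ _⟩, Complex.norm_mul_exp_arg_mul_I z⟩
      · rintro ⟨⟨r, t⟩, ⟨hr, -⟩, rfl⟩
        have hr' : M < r := hr
        simp only [mem_ofPred_eq, norm_mul, Complex.norm_exp_ofReal_mul_I, mul_one,
          Complex.norm_real]
        rwa [Real.norm_of_nonneg (h.trans hr'.le)]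
    rw [h1]
    refine IsPreconnected.image ?_ _ ?_
    · exact isPreconnected_Ioi.prod isPreconnected_univ
    · fun_prop

theorem not_isBounded_far (M : ℝ) : ¬ Bornology.IsBounded {z : ℂ | M < ‖z‖} := by
  intro h
  obtain ⟨R, hR⟩ := h.exists_norm_le
  have h1 : ((|M| + |R| + 1 : ℝ) : ℂ) ∈ {z : ℂ | M < ‖z‖} := by
    simp only [mem_ofPred_eq, Complex.norm_real]
    rw [Real.norm_of_nonneg (by positivity)]
    have := le_abs_self M
    have := abs_nonneg R
    linarith
  have h2 := hR _ h1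
  rw [Complex.norm_real, Real.norm_of_nonneg (by positivity)] at h2
  have := abs_nonneg M
  have := le_abs_self R
  linarith

/-- **`jordanInterior` through winding numbers** -/
theorem mem_ji {γ : ℝ → ℂ} (h : IsJordanCurve γ) (z : ℂ) :
    z ∈ jordanInterior γ ↔ z ∉ curveTrace γ ∧ wd γ z ≠ 0 := by
  have hc := lp_of h
  have hU : IsOpen (curveTrace γ)ᶜ := hc.isClosed.isOpen_compl
  constructor
  · rintro ⟨h1, h2⟩
    refine ⟨h1, fun h3 => ?_⟩
    obtain ⟨θ, h4, h5⟩ := exists_arg_loop h h1 h3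
    refine borsuk (C := connectedComponentIn (curveTrace γ)ᶜ z) hU.connectedComponentIn h2
      (mem_connectedComponentIn h1) ?_ hc.isClosed h4 h5
    have := frontier_component hU z
    rwa [compl_compl] at this
  · rintro ⟨h1, h2⟩
    refine ⟨h1, ?_⟩
    by_contra h3
    refine h2 (wd_unbounded hc isPreconnected_connectedComponentIn ?_ h3
      (mem_connectedComponentIn h1))
    exact disjoint_left.2 fun x hx => connectedComponentIn_subset _ _ hx

theorem isOpen_ji {γ : ℝ → ℂ} (h : IsJordanCurve γ) : IsOpen (jordanInterior γ) := by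
  have : jordanInterior γ = {z : ℂ | z ∉ tr γ ∧ wd γ z ≠ 0} := by
    ext z
    exact mem_ji h z
  rw [this]
  exact isOpen_wd (lp_of h) (fun x => x ≠ 0)

/-- the exterior -/
def ext (γ : ℝ → ℂ) : Set ℂ := {z : ℂ | z ∉ tr γ ∧ wd γ z = 0}

theorem isOpen_ext {γ : ℝ → ℂ} (h : IsJordanCurve γ) : IsOpen (ext γ) :=
  isOpen_wd (lp_of h) (fun x => x = 0)

theorem disj_ji_tr (γ : ℝ → ℂ) : Disjoint (jordanInterior γ) (tr γ) :=
  disjoint_left.2 fun _ h1 h2 => h1.1 h2

theorem disj_ext_tr (γ : ℝ → ℂ) : Disjoint (ext γ) (tr γ) :=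
  disjoint_left.2 fun _ h1 h2 => h1.1 h2

theorem disj_ji_ext {γ : ℝ → ℂ} (h : IsJordanCurve γ) : Disjoint (jordanInterior γ) (ext γ) :=
  disjoint_left.2 fun z h1 h2 => ((mem_ji h z).1 h1).2 h2.2

theorem cover {γ : ℝ → ℂ} (h : IsJordanCurve γ) (z : ℂ) :
    z ∈ tr γ ∨ z ∈ jordanInterior γ ∨ z ∈ ext γ := by
  by_cases h1 : z ∈ tr γ
  · exact Or.inl h1
  · by_cases h2 : wd γ z = 0
    · exact Or.inr (Or.inr ⟨h1, h2⟩)
    · exact Or.inr (Or.inl ((mem_ji h z).2 ⟨h1, h2⟩))

theorem far_mem_ext {γ : ℝ → ℂ} (h : IsJordanCurve γ) {M : ℝ}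
    (hM : ∀ s ∈ Icc (0:ℝ) 1, ‖γ s‖ < M) {z : ℂ} (hz : M ≤ ‖z‖) : z ∈ ext γ := by
  refine ⟨?_, wd_far (lp_of h) fun s hs => (hM s hs).trans_le hz⟩
  rintro ⟨s, hs, rfl⟩
  exact absurd (hM s hs) (not_lt.2 hz)

theorem isBounded_ji {γ : ℝ → ℂ} (h : IsJordanCurve γ) : Bornology.IsBounded (jordanInterior γ) := by
  obtain ⟨M, -, hM⟩ := (lp_of h).exists_bound
  refine isBounded_iff_forall_norm_le.2 ⟨M, fun z hz => ?_⟩
  by_contra h2
  exact disjoint_left.1 (disj_ji_ext h) hz (far_mem_ext h hM (le_of_lt (not_le.1 h2)))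

theorem closure_ji_subset {γ : ℝ → ℂ} (h : IsJordanCurve γ) :
    closure (jordanInterior γ) ⊆ jordanInterior γ ∪ tr γ := by
  intro z hz
  rcases cover h z with h1 | h1 | h1
  · exact Or.inr h1
  · exact Or.inl h1
  · obtain ⟨y, hy1, hy2⟩ := mem_closure_iff.1 hz _ (isOpen_ext h) h1
    exact absurd hy1 (disjoint_left.1 (disj_ji_ext h) hy2)

theorem closure_ext_subset {γ : ℝ → ℂ} (h : IsJordanCurve γ) :
    closure (ext γ) ⊆ ext γ ∪ tr γ := by
  intro z hz
  rcases cover h z with h1 | h1 | h1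
  · exact Or.inr h1
  · obtain ⟨y, hy1, hy2⟩ := mem_closure_iff.1 hz _ (isOpen_ji h) h1
    exact absurd hy2 (disjoint_left.1 (disj_ji_ext h) hy1)
  · exact Or.inl h1

/-- every exterior point has an unbounded component -/
theorem ext_unbounded {γ : ℝ → ℂ} (h : IsJordanCurve γ) {z : ℂ} (hz : z ∈ ext γ) :
    ¬ Bornology.IsBounded (connectedComponentIn (curveTrace γ)ᶜ z) := fun hb =>
  ((mem_ji h z).1 ⟨hz.1, hb⟩).2 hz.2

/-- the exterior is connected -/
theorem isPreconnected_ext {γ : ℝ → ℂ} (h : IsJordanCurve γ) : IsPreconnected (ext γ) := by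
  obtain ⟨M, hM0, hM⟩ := (lp_of h).exists_bound
  have hfar : {z : ℂ | M < ‖z‖} ⊆ ext γ := fun z hz => far_mem_ext h hM (le_of_lt hz)
  have hp := isPreconnected_far M
  have hne : ∃ w : ℂ, M < ‖w‖ := by
    refine ⟨((M + 1 : ℝ) : ℂ), ?_⟩
    rw [Complex.norm_real, Real.norm_of_nonneg (by linarith)]
    linarith
  obtain ⟨w, hw⟩ := hne
  have hsub : {z : ℂ | M < ‖z‖} ⊆ connectedComponentIn (curveTrace γ)ᶜ w :=
    hp.subset_connectedComponentIn hw (fun z hz => (hfar hz).1)
  have key : ext γ = connectedComponentIn (curveTrace γ)ᶜ w := by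
    ext z
    constructor
    · intro hz
      have h1 := ext_unbounded h hz
      obtain ⟨y, hy, hy2⟩ : ∃ y ∈ connectedComponentIn (curveTrace γ)ᶜ z, M < ‖y‖ := by
        by_contra h3
        push Not at h3
        exact h1 (isBounded_iff_forall_norm_le.2 ⟨M, h3⟩)
      have e1 := connectedComponentIn_eq hy
      have e2 := connectedComponentIn_eq (hsub hy2)
      rw [e2, ← e1]
      exact mem_connectedComponentIn hz.1
    · intro hz
      have h1 : z ∉ tr γ := connectedComponentIn_subset _ _ hz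
      refine ⟨h1, ?_⟩
      refine wd_unbounded (lp_of h) isPreconnected_connectedComponentIn
        (disjoint_left.2 fun x hx => connectedComponentIn_subset _ _ hx) ?_ hz
      exact fun hb => not_isBounded_far M (hb.subset hsub)
  rw [key]
  exact isPreconnected_connectedComponentIn

/-- **frontier of every bounded component is the whole curve** -/
theorem frontier_comp_eq {γ : ℝ → ℂ} (h : IsJordanCurve γ) {z : ℂ} (hz : z ∈ jordanInterior γ) :
    frontier (connectedComponentIn (curveTrace γ)ᶜ z) = curveTrace γ := by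
  have hc := lp_of h
  have hU : IsOpen (curveTrace γ)ᶜ := hc.isClosed.isOpen_compl
  have h1 := frontier_component hU z
  rw [compl_compl] at h1
  refine subset_antisymm h1 fun x hx => ?_
  by_contra hxf
  obtain ⟨θ, h4, h5⟩ := exists_arg_off h hz.1 isClosed_frontier h1 hx hxf
  exact borsuk hU.connectedComponentIn hz.2 (mem_connectedComponentIn hz.1) subset_rfl
    isClosed_frontier h4 h5

theorem comp_subset_ji {γ : ℝ → ℂ} {z : ℂ} (hz : z ∈ jordanInterior γ) :
    connectedComponentIn (curveTrace γ)ᶜ z ⊆ jordanInterior γ := fun w hw =>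
  ⟨connectedComponentIn_subset _ _ hw, by rw [← connectedComponentIn_eq hw]; exact hz.2⟩

/-- the trace is in the closure of the interior -/
theorem tr_subset_closure_ji {γ : ℝ → ℂ} (h : IsJordanCurve γ) (hne : (jordanInterior γ).Nonempty) :
    curveTrace γ ⊆ closure (jordanInterior γ) := by
  obtain ⟨z, hz⟩ := hne
  rw [← frontier_comp_eq h hz]
  exact frontier_subset_closure.trans (closure_mono (comp_subset_ji hz))

theorem closure_ji {γ : ℝ → ℂ} (h : IsJordanCurve γ) (hne : (jordanInterior γ).Nonempty) :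
    closure (jordanInterior γ) = jordanInterior γ ∪ curveTrace γ :=
  subset_antisymm (closure_ji_subset h) (union_subset subset_closure (tr_subset_closure_ji h hne))

theorem frontier_ji {γ : ℝ → ℂ} (h : IsJordanCurve γ) (hne : (jordanInterior γ).Nonempty) :
    frontier (jordanInterior γ) = curveTrace γ := by
  rw [(isOpen_ji h).frontier_eq, closure_ji h hne, union_sdiff_left]
  exact (disj_ji_tr γ).symm.sdiff_eq_left

/-- frontier of the exterior -/
theorem frontier_ext {γ : ℝ → ℂ} (h : IsJordanCurve γ) (hne : (jordanInterior γ).Nonempty) :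
    frontier (ext γ) = curveTrace γ := by
  have hc := lp_of h
  have hsub : frontier (ext γ) ⊆ curveTrace γ := by
    rw [(isOpen_ext h).frontier_eq]
    rintro x ⟨h1, h2⟩
    rcases closure_ext_subset h h1 with h3 | h3
    · exact absurd h3 h2
    · exact h3
  refine subset_antisymm hsub fun x hx => ?_
  by_contra hxf
  have hxe : x ∉ closure (ext γ) := fun h1 => by
    refine hxf ?_
    rw [(isOpen_ext h).frontier_eq]
    exact ⟨h1, fun h2 => h2.1 hx⟩
  obtain ⟨r, hr, hball⟩ := Metric.isOpen_iff.1 isClosed_closure.isOpen_compl x hxe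
  obtain ⟨z, hz⟩ := hne
  set K : Set ℂ := tr γ \ ball x r with hKdef
  have hK : IsClosed K := hc.isClosed.sdiff isOpen_ball
  obtain ⟨θ, h4, h5⟩ := exists_arg_off h hz.1 hK sdiff_subset hx
    (fun h1 => h1.2 (mem_ball_self hr))
  have hzK : z ∈ Kᶜ := fun h1 => hz.1 h1.1
  have hU : IsOpen Kᶜ := hK.isOpen_compl
  have hub : ¬ Bornology.IsBounded (connectedComponentIn Kᶜ z) := fun hb => by
    have h6 := frontier_component hU z
    rw [compl_compl] at h6
    exact borsuk hU.connectedComponentIn hb (mem_connectedComponentIn hzK) h6 hK h4 h5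
  obtain ⟨M, hM0, hM⟩ := hc.exists_bound
  obtain ⟨y, hy, hy2⟩ : ∃ y ∈ connectedComponentIn Kᶜ z, M < ‖y‖ := by
    by_contra h3
    push Not at h3
    exact hub (isBounded_iff_forall_norm_le.2 ⟨M, h3⟩)
  obtain ⟨w, -, hw1, hw2⟩ := (isPreconnected_connectedComponentIn (x := z) (F := Kᶜ))
    (jordanInterior γ ∪ ball x r) (ext γ) ((isOpen_ji h).union isOpen_ball) (isOpen_ext h)
    (fun w hw => by
      rcases cover h w with h6 | h6 | h6
      · left; right
        by_contra h7
        exact connectedComponentIn_subset _ _ hw ⟨h6, h7⟩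
      · exact Or.inl (Or.inl h6)
      · exact Or.inr h6)
    ⟨z, mem_connectedComponentIn hzK, Or.inl hz⟩ ⟨y, hy, far_mem_ext h hM hy2.le⟩
  rcases hw1 with h6 | h6
  · exact disjoint_left.1 (disj_ji_ext h) h6 hw2
  · exact hball h6 (subset_closure hw2)

end Crest.Agent.R158.Jt785
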