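import Mathlib
import Crest.Agent.R158.Jt2_785

/-! R158 (helper785) BLOCK J, file 3: the uniformising map `φ` of S0237 on the closed region: image of
the trace, connectedness of the interior, continuous inverse, angle function of the boundary. -/

set_option autoImplicit false

open Set Topology Filter Metric
open Crest.ProbabilityR.Percolation

namespace Crest.Agent.R158.Jt785

open Crest.Agent.R036.Sweep Crest.Agent.R144.Geo268

/-- the hypotheses of S0237 on the map (without holomorphy) -/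
structure Unif (γ : ℝ → ℂ) (φ : ℂ → ℂ) : Prop where
  jc : IsJordanCurve γ
  cont : ContinuousOn φ (closure (jordanInterior γ))
  inj : InjOn φ (closure (jordanInterior γ))
  img : φ '' jordanInterior γ = ball 0 1

namespace Unif

variable {γ : ℝ → ℂ} {φ : ℂ → ℂ}

theorem ne (h : Unif γ φ) : (jordanInterior γ).Nonempty := by
  have h0 : (0 : ℂ) ∈ φ '' jordanInterior γ := by
    rw [h.img]
    simp
  obtain ⟨z, hz, -⟩ := h0
  exact ⟨z, hz⟩

theorem isCompact (h : Unif γ φ) : IsCompact (closure (jordanInterior γ)) :=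
  (isBounded_ji h.jc).isCompact_closure

theorem img_closure (h : Unif γ φ) : φ '' closure (jordanInterior γ) = closedBall 0 1 := by
  apply subset_antisymm
  · refine (h.cont.image_closure).trans ?_
    rw [h.img]
    exact closure_ball_subset_closedBall
  · have h1 : IsClosed (φ '' closure (jordanInterior γ)) := (h.isCompact.image_of_continuousOn h.cont).isClosed
    have h2 : ball (0:ℂ) 1 ⊆ φ '' closure (jordanInterior γ) := by
      rw [← h.img]
      exact image_mono subset_closure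
    rw [← closure_ball (0:ℂ) one_ne_zero]
    exact closure_minimal h2 h1

theorem tr_subset (h : Unif γ φ) : curveTrace γ ⊆ closure (jordanInterior γ) :=
  tr_subset_closure_ji h.jc h.ne

theorem img_tr (h : Unif γ φ) : φ '' curveTrace γ = sphere 0 1 := by
  have h1 : curveTrace γ = closure (jordanInterior γ) \ jordanInterior γ := by
    rw [← frontier_ji h.jc h.ne, (isOpen_ji h.jc).frontier_eq]
  rw [h1, h.inj.image_sdiff_subset subset_closure, h.img_closure, h.img, closedBall_sdiff_ball]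

theorem norm_eq (h : Unif γ φ) {z : ℂ} (hz : z ∈ curveTrace γ) : ‖φ z‖ = 1 := by
  have : φ z ∈ sphere (0:ℂ) 1 := by
    rw [← h.img_tr]
    exact mem_image_of_mem _ hz
  simpa using this

theorem norm_lt (h : Unif γ φ) {z : ℂ} (hz : z ∈ jordanInterior γ) : ‖φ z‖ < 1 := by
  have : φ z ∈ ball (0:ℂ) 1 := by
    rw [← h.img]
    exact mem_image_of_mem _ hz
  simpa using this

/-- the continuous inverse -/
theorem exists_inv (h : Unif γ φ) : ∃ ψ : ℂ → ℂ, ContinuousOn ψ (closedBall 0 1) ∧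
    (∀ z ∈ closure (jordanInterior γ), ψ (φ z) = z) ∧
    (∀ w ∈ closedBall (0:ℂ) 1, φ (ψ w) = w ∧ ψ w ∈ closure (jordanInterior γ)) ∧
    ψ '' ball 0 1 = jordanInterior γ := by
  classical
  let ψ : ℂ → ℂ := Function.invFunOn φ (closure (jordanInterior γ))
  have hψ : ∀ z ∈ closure (jordanInterior γ), ψ (φ z) = z := fun z hz =>
    h.inj.leftInvOn_invFunOn hz
  have hc : ContinuousOn ψ (closedBall 0 1) := by
    rw [continuousOn_iff_isClosed]
    intro t ht
    have h1 : IsCompact (closure (jordanInterior γ) ∩ t) := h.isCompact.inter_right ht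
    refine ⟨φ '' (closure (jordanInterior γ) ∩ t),
      (h1.image_of_continuousOn (h.cont.mono inter_subset_left)).isClosed, ?_⟩
    ext w
    constructor
    · rintro ⟨hw1, hw2⟩
      rw [← h.img_closure] at hw2
      obtain ⟨z, hz, rfl⟩ := hw2
      rw [mem_preimage, hψ z hz] at hw1
      refine ⟨⟨z, ⟨hz, hw1⟩, rfl⟩, ?_⟩
      rw [← h.img_closure]
      exact mem_image_of_mem _ hz
    · rintro ⟨⟨z, ⟨hz, hzt⟩, rfl⟩, hw⟩
      exact ⟨by rw [mem_preimage, hψ z hz]; exact hzt, hw⟩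
  refine ⟨ψ, hc, hψ, fun w hw => ?_, ?_⟩
  · rw [← h.img_closure] at hw
    obtain ⟨z, hz, rfl⟩ := hw
    rw [hψ z hz]
    exact ⟨rfl, hz⟩
  · rw [← h.img]
    ext z
    constructor
    · rintro ⟨_, ⟨y, hy, rfl⟩, rfl⟩
      rwa [hψ y (subset_closure hy)]
    · intro hz
      exact ⟨φ z, ⟨z, hz, rfl⟩, hψ z (subset_closure hz)⟩

theorem isPreconnected_ji (h : Unif γ φ) : IsPreconnected (jordanInterior γ) := by
  obtain ⟨ψ, hc, -, -, himg⟩ := h.exists_inv
  rw [← himg]
  exact ((convex_ball (0:ℂ) 1).isPreconnected).image _ (hc.mono ball_subset_closedBall)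

/-- a continuous real function on a loop is not injective -/
theorem _root_.Crest.Agent.R158.Jt785.not_inj_loop {g : ℝ → ℝ} (hg : ContinuousOn g (Icc 0 1))
    (h01 : g 0 = g 1) : ∃ s ∈ Ico (0:ℝ) 1, ∃ t ∈ Ico (0:ℝ) 1, s ≠ t ∧ g s = g t := by
  by_cases hm : g 0 = g (1/2)
  · exact ⟨0, ⟨le_rfl, one_pos⟩, 1/2, ⟨by norm_num, by norm_num⟩, by norm_num, hm⟩
  have h1 := intermediate_value_uIcc (a := (0:ℝ)) (b := 1/2) (f := g)
    (hg.mono (by rw [uIcc_of_le (by norm_num)]; exact Icc_subset_Icc_right (by norm_num)))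
  have h2 := intermediate_value_uIcc (a := (1/2:ℝ)) (b := 1) (f := g)
    (hg.mono (by rw [uIcc_of_le (by norm_num)]; exact Icc_subset_Icc_left (by norm_num)))
  have hv1 : (g 0 + g (1/2)) / 2 ∈ uIcc (g 0) (g (1/2)) := by
    rw [mem_uIcc]
    rcases le_total (g 0) (g (1/2)) with h | h
    · left; constructor <;> linarith
    · right; constructor <;> linarith
  have hv2 : (g 0 + g (1/2)) / 2 ∈ uIcc (g (1/2)) (g 1) := by
    rw [← h01, uIcc_comm]
    exact hv1
  obtain ⟨s, hs, hgs⟩ := h1 hv1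
  obtain ⟨t, ht, hgt⟩ := h2 hv2
  rw [uIcc_of_le (by norm_num)] at hs ht
  have hs' : s ≠ 1/2 := by
    rintro rfl
    exact hm (by linarith)
  have ht' : t ≠ 1/2 := by
    rintro rfl
    exact hm (by linarith)
  have ht1 : t ≠ 1 := by
    rintro rfl
    exact hm (by linarith)
  refine ⟨s, ⟨hs.1, by linarith [hs.2]⟩, t, ⟨by linarith [ht.1], lt_of_le_of_ne ht.2 ht1⟩, ?_,
    by rw [hgs, hgt]⟩
  rintro rfl
  exact hs' (le_antisymm hs.2 ht.1)

/-- **angle function of the boundary** -/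
theorem exists_angle (h : Unif γ φ) : ∃ θ : ℝ → ℝ, ContinuousOn θ (Icc 0 1) ∧
    (∀ s ∈ Icc (0:ℝ) 1, φ (γ s) = Complex.exp (θ s * Complex.I)) ∧
    ((StrictMonoOn θ (Icc 0 1) ∧ θ 1 = θ 0 + 2 * Real.pi) ∨
      (StrictAntiOn θ (Icc 0 1) ∧ θ 1 = θ 0 - 2 * Real.pi)) := by
  have hsub : ∀ s ∈ Icc (0:ℝ) 1, γ s ∈ curveTrace γ := fun s hs => mem_image_of_mem _ hs
  have hfc : ContinuousOn (fun s => φ (γ s)) (Icc 0 1) :=
    h.cont.comp h.jc.1 (fun s hs => h.tr_subset (hsub s hs))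
  have hn : ∀ s ∈ Icc (0:ℝ) 1, ‖φ (γ s)‖ = 1 := fun s hs => h.norm_eq (hsub s hs)
  have h0 : ∀ s ∈ Icc (0:ℝ) 1, φ (γ s) ≠ 0 := fun s hs e => by
    have := hn s hs
    rw [e, norm_zero] at this
    exact zero_ne_one this
  obtain ⟨θ, hθc, hθ⟩ := exists_argOn_Icc zero_le_one hfc h0
  have hθ' : ∀ s ∈ Icc (0:ℝ) 1, φ (γ s) = Complex.exp (θ s * Complex.I) := fun s hs => by
    have := hθ.2 s hs
    simp only [hn s hs, Complex.ofReal_one, one_mul] at this
    exact this
  have hinj : ∀ s ∈ Icc (0:ℝ) 1, ∀ t ∈ Icc (0:ℝ) 1, φ (γ s) = φ (γ t) →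
      s = t ∨ (s = 0 ∧ t = 1) ∨ (s = 1 ∧ t = 0) := fun s hs t ht e =>
    inj_of h.jc hs ht (h.inj (h.tr_subset (hsub s hs)) (h.tr_subset (hsub t ht)) e)
  have hθ01 : θ 0 ≠ θ 1 := fun e => by
    obtain ⟨s, hs, t, ht, hst, hg⟩ := not_inj_loop hθ.1 e
    have h1 : φ (γ s) = φ (γ t) := by
      rw [hθ' s (Ico_subset_Icc_self hs), hθ' t (Ico_subset_Icc_self ht), hg]
    rcases hinj s (Ico_subset_Icc_self hs) t (Ico_subset_Icc_self ht) h1 with h2 | ⟨-, h2⟩ | ⟨h2, -⟩
    · exact hst h2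
    · exact ht.2.ne h2
    · exact hs.2.ne h2
  have hθi : InjOn θ (Icc 0 1) := fun s hs t ht e => by
    have h1 : φ (γ s) = φ (γ t) := by rw [hθ' s hs, hθ' t ht, e]
    rcases hinj s hs t ht h1 with h2 | ⟨h2, h3⟩ | ⟨h2, h3⟩
    · exact h2
    · rw [h2, h3] at e
      exact absurd e hθ01
    · rw [h2, h3] at e
      exact absurd e.symm hθ01
  have hk : ∃ k : ℤ, θ 1 - θ 0 = 2 * Real.pi * k := by
    have e1 := hθ' 0 (by simp)
    have e2 := hθ' 1 (by simp)
    rw [h.jc.2.2, e2, Complex.exp_eq_exp_iff_exists_int] at e1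
    obtain ⟨n, hn⟩ := e1
    refine ⟨n, ?_⟩
    have h1 : ((θ 1 : ℂ) - θ 0 - 2 * Real.pi * n) * Complex.I = 0 := by
      linear_combination hn
    have h2 := (mul_eq_zero.1 h1).resolve_right Complex.I_ne_zero
    have h3 : ((θ 1 - θ 0 - 2 * Real.pi * n : ℝ) : ℂ) = 0 := by push_cast; exact h2
    have h4 : (θ 1 - θ 0 - 2 * Real.pi * n : ℝ) = 0 := by exact_mod_cast h3
    linarith
  obtain ⟨k, hk⟩ := hk
  have hpi := Real.pi_pos
  -- no value `θ 0 + 2 π j` strictly between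
  have hno : ∀ s ∈ Ioo (0:ℝ) 1, ∀ j : ℤ, θ s ≠ θ 0 + 2 * Real.pi * j := fun s hs j e => by
    have h1 : φ (γ s) = φ (γ 0) := by
      rw [hθ' s (Ioo_subset_Icc_self hs), hθ' 0 (by simp), e, Complex.exp_eq_exp_iff_exists_int]
      refine ⟨j, ?_⟩
      push_cast
      ring
    rcases hinj s (Ioo_subset_Icc_self hs) 0 (by simp) h1 with h2 | ⟨h2, -⟩ | ⟨h2, -⟩
    · exact hs.1.ne' h2
    · exact hs.1.ne' h2
    · exact hs.2.ne h2
  refine ⟨θ, hθ.1, hθ', ?_⟩
  have hiv := intermediate_value_uIcc (a := (0:ℝ)) (b := 1) (f := θ)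
    (hθ.1.mono (by rw [uIcc_of_le zero_le_one]))
  rw [uIcc_of_le zero_le_one] at hiv
  rcases hθ.1.strictMonoOn_of_injOn_Icc' zero_le_one hθi with hm | hm
  · left
    refine ⟨hm, ?_⟩
    have hlt := hm (left_mem_Icc.2 zero_le_one) (right_mem_Icc.2 zero_le_one) zero_lt_one
    have hkpos : (0:ℝ) < k := by
      by_contra hneg
      rw [not_lt] at hneg
      nlinarith
    have hk1 : 1 ≤ k := by
      have : (0:ℤ) < k := by exact_mod_cast hkpos
      omega
    by_contra hne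
    have hk2 : 1 < k := lt_of_le_of_ne hk1 (fun e => hne (by rw [← e] at hk; push_cast at hk; linarith))
    have hk3 : (2:ℝ) ≤ k := by exact_mod_cast hk2
    obtain ⟨s, hs, hgs⟩ := hiv (show θ 0 + 2 * Real.pi * (1:ℤ) ∈ uIcc (θ 0) (θ 1) by
      rw [uIcc_of_le hlt.le]
      push_cast
      constructor <;> nlinarith)
    refine hno s ⟨lt_of_le_of_ne hs.1 ?_, lt_of_le_of_ne hs.2 ?_⟩ 1 hgs
    · rintro rfl
      push_cast at hgs
      linarith
    · rintro rfl
      push_cast at hgs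
      nlinarith
  · right
    refine ⟨hm, ?_⟩
    have hlt := hm (left_mem_Icc.2 zero_le_one) (right_mem_Icc.2 zero_le_one) zero_lt_one
    have hkneg : (k:ℝ) < 0 := by
      by_contra hneg
      rw [not_lt] at hneg
      nlinarith
    have hk1 : k ≤ -1 := by
      have : k < (0:ℤ) := by exact_mod_cast hkneg
      omega
    by_contra hne
    have hk2 : k < -1 := lt_of_le_of_ne hk1 (fun e => hne (by rw [e] at hk; push_cast at hk; linarith))
    have hk3 : (k:ℝ) ≤ -2 := by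
      have : k ≤ -2 := by omega
      exact_mod_cast this
    obtain ⟨s, hs, hgs⟩ := hiv (show θ 0 + 2 * Real.pi * (-1:ℤ) ∈ uIcc (θ 0) (θ 1) by
      rw [uIcc_of_ge hlt.le]
      push_cast
      constructor <;> nlinarith)
    refine hno s ⟨lt_of_le_of_ne hs.1 ?_, lt_of_le_of_ne hs.2 ?_⟩ (-1) hgs
    · rintro rfl
      push_cast at hgs
      linarith
    · rintro rfl
      push_cast at hgs
      nlinarith

/-- the boundary arc of parameters `[a, b]` is the circular arc of angles between `θ a` and `θ b` -/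
theorem img_arc (_h : Unif γ φ) {θ : ℝ → ℝ} (hc : ContinuousOn θ (Icc 0 1))
    (he : ∀ s ∈ Icc (0:ℝ) 1, φ (γ s) = Complex.exp (θ s * Complex.I))
    (hm : StrictMonoOn θ (Icc 0 1) ∨ StrictAntiOn θ (Icc 0 1)) {a b : ℝ} (ha : 0 ≤ a) (hab : a ≤ b)
    (hb : b ≤ 1) :
    φ '' (γ '' Icc a b) = (fun t : ℝ => Complex.exp (t * Complex.I)) '' uIcc (θ a) (θ b) := by
  have hsub : Icc a b ⊆ Icc (0:ℝ) 1 := Icc_subset_Icc ha hb
  have hiv := intermediate_value_uIcc (a := a) (b := b) (f := θ)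
    (hc.mono (by rw [uIcc_of_le hab]; exact hsub))
  rw [uIcc_of_le hab] at hiv
  ext w
  constructor
  · rintro ⟨_, ⟨s, hs, rfl⟩, rfl⟩
    refine ⟨θ s, ?_, (he s (hsub hs)).symm⟩
    rw [mem_uIcc]
    rcases hm with hm | hm
    · left
      exact ⟨hm.monotoneOn (hsub (left_mem_Icc.2 hab)) (hsub hs) hs.1,
        hm.monotoneOn (hsub hs) (hsub (right_mem_Icc.2 hab)) hs.2⟩
    · right
      exact ⟨hm.antitoneOn (hsub hs) (hsub (right_mem_Icc.2 hab)) hs.2,
        hm.antitoneOn (hsub (left_mem_Icc.2 hab)) (hsub hs) hs.1⟩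
  · rintro ⟨t, ht, rfl⟩
    obtain ⟨s, hs, rfl⟩ := hiv ht
    exact ⟨γ s, mem_image_of_mem _ hs, he s (hsub hs)⟩

end Unif

end Crest.Agent.R158.Jt785
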