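import Mathlib
import Crest.Agent.R158.Jt3_785

/-! R158 (helper785) BLOCK J, file 4: kernel convergence `γs n → γ` (uniformly on `[0,1]`), moduli of
the parameter, uniform local connectedness of the closed regions. -/

set_option autoImplicit false

open Set Topology Filter Metric
open Crest.ProbabilityR.Percolation

namespace Crest.Agent.R158.Jt785

open Crest.Agent.R036.Sweep Crest.Agent.R144.Geo268

/-! ### kernel convergence -/

/-- stability on closed sets off the limit curve -/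
theorem stable {γ : ℝ → ℂ} {γs : ℕ → ℝ → ℂ} (h : Lp γ) (hs : ∀ n, Lp (γs n))
    (hu : TendstoUniformlyOn γs γ atTop (Icc 0 1)) {K : Set ℂ} (hK : IsClosed K)
    (hd : Disjoint K (tr γ)) :
    ∀ᶠ n in atTop, ∀ z ∈ K, z ∉ tr (γs n) ∧ wd (γs n) z = wd γ z := by
  obtain ⟨r, hr, h0⟩ := hd.symm.exists_thickenings h.isCompact hK
  have h1 : ∀ z ∈ K, ∀ s ∈ Icc (0:ℝ) 1, r ≤ ‖γ s - z‖ := fun z hz s hs => by
    by_contra h2
    rw [not_le] at h2
    have h3 : γ s ∈ thickening r K := by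
      rw [mem_thickening_iff]
      exact ⟨z, hz, by rwa [dist_eq_norm]⟩
    have h4 : γ s ∈ thickening r (tr γ) := self_subset_thickening hr _ (mem_tr hs)
    exact disjoint_left.1 h0 h4 h3
  filter_upwards [Metric.tendstoUniformlyOn_iff.1 hu r hr] with n hn z hz
  have h2 : ∀ s ∈ Icc (0:ℝ) 1, ‖γs n s - γ s‖ < ‖γ s - z‖ := fun s hs => by
    have := hn s hs
    rw [dist_comm, dist_eq_norm] at this
    exact this.trans_le (h1 z hz s hs)
  obtain ⟨-, h3, h4⟩ := wd_close h (hs n) h2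
  exact ⟨h3, h4⟩

section seq

variable {γ : ℝ → ℂ} {γs : ℕ → ℝ → ℂ} (h : IsJordanCurve γ) (hs : ∀ n, IsJordanCurve (γs n))
  (hu : TendstoUniformlyOn γs γ atTop (Icc 0 1))

include h hs hu

/-- compact (closed) subsets of the interior are eventually inside -/
theorem eventually_inside {K : Set ℂ} (hK : IsClosed K) (hKi : K ⊆ jordanInterior γ) :
    ∀ᶠ n in atTop, K ⊆ jordanInterior (γs n) := by
  have hd : Disjoint K (tr γ) := disjoint_left.2 fun z hz => (hKi hz).1
  filter_upwards [stable (lp_of h) (fun n => lp_of (hs n)) hu hK hd] with n hn z hz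
  obtain ⟨h1, h2⟩ := hn z hz
  exact (mem_ji (hs n) z).2 ⟨h1, by rw [h2]; exact ((mem_ji h z).1 (hKi hz)).2⟩

/-- closed subsets of the exterior are eventually outside -/
theorem eventually_outside {K : Set ℂ} (hK : IsClosed K) (hKi : K ⊆ ext γ) :
    ∀ᶠ n in atTop, K ⊆ ext (γs n) := by
  have hd : Disjoint K (tr γ) := disjoint_left.2 fun z hz => (hKi hz).1
  filter_upwards [stable (lp_of h) (fun n => lp_of (hs n)) hu hK hd] with n hn z hz
  obtain ⟨h1, h2⟩ := hn z hz
  exact ⟨h1, by rw [h2]; exact (hKi hz).2⟩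

/-- the closed regions are eventually in any neighbourhood of the limit closed region -/
theorem eventually_thick {ε : ℝ} (hε : 0 < ε) :
    ∀ᶠ n in atTop, jordanInterior (γs n) ∪ curveTrace (γs n) ⊆
      thickening ε (jordanInterior γ ∪ curveTrace γ) := by
  have h1 : IsClosed (thickening ε (jordanInterior γ ∪ curveTrace γ))ᶜ :=
    isOpen_thickening.isClosed_compl
  have h2 : (thickening ε (jordanInterior γ ∪ curveTrace γ))ᶜ ⊆ ext γ := fun z hz => by
    have h3 : z ∉ jordanInterior γ ∪ curveTrace γ := fun h4 =>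
      hz (self_subset_thickening hε _ h4)
    rcases cover h z with h4 | h4 | h4
    · exact absurd (Or.inr h4) h3
    · exact absurd (Or.inl h4) h3
    · exact h4
  filter_upwards [eventually_outside h hs hu h1 h2] with n hn z hz
  by_contra h3
  have h4 := hn h3
  rcases hz with h5 | h5
  · exact disjoint_left.1 (disj_ji_ext (hs n)) h5 h4
  · exact h4.1 h5

/-- interiors are eventually nonempty -/
theorem eventually_ne (hne : (jordanInterior γ).Nonempty) :
    ∀ᶠ n in atTop, (jordanInterior (γs n)).Nonempty := by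
  obtain ⟨z, hz⟩ := hne
  filter_upwards [eventually_inside h hs hu (isClosed_singleton (x := z))
    (singleton_subset_iff.2 hz)] with n hn
  exact ⟨z, hn rfl⟩

end seq

theorem eventually_close {γ : ℝ → ℂ} {γs : ℕ → ℝ → ℂ}
    (hu : TendstoUniformlyOn γs γ atTop (Icc 0 1)) {ε : ℝ} (hε : 0 < ε) :
    ∀ᶠ n in atTop, ∀ s ∈ Icc (0:ℝ) 1, ‖γs n s - γ s‖ < ε := by
  filter_upwards [Metric.tendstoUniformlyOn_iff.1 hu ε hε] with n hn s hs
  have := hn s hs
  rwa [dist_comm, dist_eq_norm] at this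

/-! ### moduli -/

/-- modulus of the inverse parametrisation of one Jordan curve -/
theorem modulus {γ : ℝ → ℂ} (h : IsJordanCurve γ) {ε : ℝ} (hε : 0 < ε) :
    ∃ δ > 0, ∀ s ∈ Icc (0:ℝ) 1, ∀ t ∈ Icc (0:ℝ) 1, ‖γ s - γ t‖ < δ →
      |s - t| < ε ∨ 1 - ε < |s - t| := by
  let P : Set (ℝ × ℝ) := (Icc (0:ℝ) 1 ×ˢ Icc (0:ℝ) 1) ∩ {p | ε ≤ |p.1 - p.2| ∧ |p.1 - p.2| ≤ 1 - ε}
  have hPcl : IsClosed {p : ℝ × ℝ | ε ≤ |p.1 - p.2| ∧ |p.1 - p.2| ≤ 1 - ε} := by
    have hc : Continuous fun p : ℝ × ℝ => |p.1 - p.2| := by fun_prop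
    exact (isClosed_le continuous_const hc).inter (isClosed_le hc continuous_const)
  have hPc : IsCompact P := (isCompact_Icc.prod isCompact_Icc).inter_right hPcl
  have hf : ContinuousOn (fun p : ℝ × ℝ => ‖γ p.1 - γ p.2‖) P := by
    have h1 : ContinuousOn (fun p : ℝ × ℝ => γ p.1) P :=
      h.1.comp continuous_fst.continuousOn (fun p hp => hp.1.1)
    have h2 : ContinuousOn (fun p : ℝ × ℝ => γ p.2) P :=
      h.1.comp continuous_snd.continuousOn (fun p hp => hp.1.2)
    exact (h1.sub h2).norm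
  rcases P.eq_empty_or_nonempty with hP | hP
  · refine ⟨1, one_pos, fun s hs t ht _ => ?_⟩
    by_contra hne
    push Not at hne
    have : (s, t) ∈ P := ⟨⟨hs, ht⟩, hne.1, hne.2⟩
    rw [hP] at this
    exact this
  · obtain ⟨p, hp, hmin⟩ := hPc.exists_isMinOn hP hf
    have hpos : 0 < ‖γ p.1 - γ p.2‖ := by
      rw [norm_pos_iff, sub_ne_zero]
      intro e
      have h3 : ε ≤ |p.1 - p.2| ∧ |p.1 - p.2| ≤ 1 - ε := hp.2
      rcases inj_of h hp.1.1 hp.1.2 e with h4 | ⟨h4, h5⟩ | ⟨h4, h5⟩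
      · rw [h4] at h3
        have := h3.1
        simp at this
        linarith
      · rw [h4, h5] at h3
        have := h3.2
        norm_num at this
        linarith
      · rw [h4, h5] at h3
        have := h3.2
        norm_num at this
        linarith
    refine ⟨_, hpos, fun s hs t ht hst => ?_⟩
    by_contra hne
    push Not at hne
    have h1 : (s, t) ∈ P := ⟨⟨hs, ht⟩, hne.1, hne.2⟩
    exact absurd hst (not_lt.2 (hmin h1))

/-- modulus of the inverse parametrisation along the sequence -/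
theorem modulus_seq {γ : ℝ → ℂ} {γs : ℕ → ℝ → ℂ} (h : IsJordanCurve γ)
    (hu : TendstoUniformlyOn γs γ atTop (Icc 0 1)) {ε : ℝ} (hε : 0 < ε) :
    ∃ δ > 0, ∀ᶠ n in atTop, ∀ s ∈ Icc (0:ℝ) 1, ∀ t ∈ Icc (0:ℝ) 1, ‖γs n s - γs n t‖ < δ →
      |s - t| < ε ∨ 1 - ε < |s - t| := by
  obtain ⟨δ, hδ, hm⟩ := modulus h hε
  refine ⟨δ / 3, by positivity, ?_⟩
  filter_upwards [eventually_close hu (show (0:ℝ) < δ / 3 by positivity)] with n hn s hs t ht hst
  refine hm s hs t ht ?_
  have e : γ s - γ t = (γs n s - γs n t) - (γs n s - γ s) + (γs n t - γ t) := by ring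
  rw [e]
  have h1 := hn s hs
  have h2 := hn t ht
  calc ‖(γs n s - γs n t) - (γs n s - γ s) + (γs n t - γ t)‖
      ≤ ‖(γs n s - γs n t) - (γs n s - γ s)‖ + ‖γs n t - γ t‖ := norm_add_le _ _
    _ ≤ ‖γs n s - γs n t‖ + ‖γs n s - γ s‖ + ‖γs n t - γ t‖ := by
        gcongr
        exact norm_sub_le _ _
    _ < δ := by linarith

/-- equicontinuity along the sequence -/
theorem equi_seq {γ : ℝ → ℂ} {γs : ℕ → ℝ → ℂ} (h : Lp γ)
    (hu : TendstoUniformlyOn γs γ atTop (Icc 0 1)) {ε : ℝ} (hε : 0 < ε) :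
    ∃ δ > 0, ∀ᶠ n in atTop, ∀ s ∈ Icc (0:ℝ) 1, ∀ t ∈ Icc (0:ℝ) 1, |s - t| < δ →
      ‖γs n s - γs n t‖ < ε := by
  have huc : UniformContinuousOn γ (Icc 0 1) := isCompact_Icc.uniformContinuousOn_of_continuous h.cont
  obtain ⟨δ, hδ, hm⟩ := Metric.uniformContinuousOn_iff.1 huc (ε / 3) (by positivity)
  refine ⟨δ, hδ, ?_⟩
  filter_upwards [eventually_close hu (show (0:ℝ) < ε / 3 by positivity)] with n hn s hs t ht hst
  have h0 := hm s hs t ht (by rwa [Real.dist_eq])
  rw [dist_eq_norm] at h0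
  have e : γs n s - γs n t = (γ s - γ t) + (γs n s - γ s) - (γs n t - γ t) := by ring
  rw [e]
  have h1 := hn s hs
  have h2 := hn t ht
  calc ‖(γ s - γ t) + (γs n s - γ s) - (γs n t - γ t)‖
      ≤ ‖(γ s - γ t) + (γs n s - γ s)‖ + ‖γs n t - γ t‖ := norm_sub_le _ _
    _ ≤ ‖γ s - γ t‖ + ‖γs n s - γ s‖ + ‖γs n t - γ t‖ := by
        gcongr
        exact norm_add_le _ _
    _ < ε := by linarith

/-- the short arc of parameters between `s` and `t` (mod 1) -/
def arcP (s t : ℝ) : Set ℝ :=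
  if |s - t| ≤ 1 / 2 then uIcc s t else Icc 0 (min s t) ∪ Icc (max s t) 1

theorem left_mem_arcP {s t : ℝ} (hs : s ∈ Icc (0:ℝ) 1) (_ht : t ∈ Icc (0:ℝ) 1) : s ∈ arcP s t := by
  unfold arcP
  split_ifs with h
  · exact left_mem_uIcc
  · rcases le_total s t with h1 | h1
    · left
      rw [min_eq_left h1]
      exact ⟨hs.1, le_rfl⟩
    · right
      rw [max_eq_left h1]
      exact ⟨le_rfl, hs.2⟩

theorem arcP_comm (s t : ℝ) : arcP s t = arcP t s := by
  unfold arcP
  rw [abs_sub_comm, uIcc_comm, min_comm, max_comm]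

theorem right_mem_arcP {s t : ℝ} (hs : s ∈ Icc (0:ℝ) 1) (ht : t ∈ Icc (0:ℝ) 1) : t ∈ arcP s t := by
  rw [arcP_comm]
  exact left_mem_arcP ht hs

theorem arcP_subset {s t : ℝ} (hs : s ∈ Icc (0:ℝ) 1) (ht : t ∈ Icc (0:ℝ) 1) : arcP s t ⊆ Icc 0 1 := by
  unfold arcP
  split_ifs with h
  · exact uIcc_subset_Icc hs ht
  · refine union_subset (Icc_subset_Icc_right (min_le_of_left_le hs.2)) (Icc_subset_Icc_left ?_)
    exact le_max_of_le_left hs.1

/-- the short arc of the trace is path connected -/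
theorem isPathConnected_arc {γ : ℝ → ℂ} (h : Lp γ) {s t : ℝ} (hs : s ∈ Icc (0:ℝ) 1)
    (ht : t ∈ Icc (0:ℝ) 1) : IsPathConnected (γ '' arcP s t) := by
  unfold arcP
  split_ifs with h1
  · have hc : IsPathConnected (uIcc s t) := by
      rw [← segment_eq_uIcc]
      exact (convex_segment s t).isPathConnected ⟨s, left_mem_segment ℝ s t⟩
    exact hc.image' (h.cont.mono (uIcc_subset_Icc hs ht))
  · rw [image_union]
    have h01 : (0:ℝ) ≤ min s t := le_min hs.1 ht.1
    have h02 : max s t ≤ 1 := max_le hs.2 ht.2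
    have hc1 : IsPathConnected (γ '' Icc 0 (min s t)) :=
      ((convex_Icc 0 (min s t)).isPathConnected ⟨0, left_mem_Icc.2 h01⟩).image'
        (h.cont.mono (Icc_subset_Icc_right (min_le_of_left_le hs.2)))
    have hc2 : IsPathConnected (γ '' Icc (max s t) 1) :=
      ((convex_Icc (max s t) 1).isPathConnected ⟨1, right_mem_Icc.2 h02⟩).image'
        (h.cont.mono (Icc_subset_Icc_left (le_max_of_le_left hs.1)))
    refine hc1.union hc2 ⟨γ 0, mem_image_of_mem _ (left_mem_Icc.2 h01), ?_⟩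
    rw [h.eq]
    exact mem_image_of_mem _ (right_mem_Icc.2 h02)

/-- **small chords of the trace span small arcs, uniformly along the sequence** -/
theorem arc_small {γ : ℝ → ℂ} {γs : ℕ → ℝ → ℂ} (h : IsJordanCurve γ)
    (hs : ∀ n, IsJordanCurve (γs n))
    (hu : TendstoUniformlyOn γs γ atTop (Icc 0 1)) {ε : ℝ} (hε : 0 < ε) :
    ∃ δ > 0, ∀ᶠ n in atTop, ∀ s ∈ Icc (0:ℝ) 1, ∀ t ∈ Icc (0:ℝ) 1, ‖γs n s - γs n t‖ < δ →
      ∀ u ∈ arcP s t, ‖γs n u - γs n s‖ < ε := by
  obtain ⟨η, hη, hq⟩ := equi_seq (lp_of h) hu (show (0:ℝ) < ε / 2 by positivity)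
  obtain ⟨δ, hδ, hm⟩ := modulus_seq h hu (show (0:ℝ) < min (η / 2) (1 / 4) by positivity)
  refine ⟨δ, hδ, ?_⟩
  filter_upwards [hq, hm] with n hqn hmn s hs' t ht hst u hu'
  have hus := arcP_subset hs' ht hu'
  have hη1 : min (η / 2) (1 / 4) ≤ η / 2 := min_le_left _ _
  have hη2 : min (η / 2) (1 / 4) ≤ 1 / 4 := min_le_right _ _
  rcases hmn s hs' t ht hst with h1 | h1
  · have h2 : |s - t| ≤ 1 / 2 := by linarith
    unfold arcP at hu'
    rw [if_pos h2] at hu'
    have h3 : |u - s| ≤ |s - t| := by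
      rw [abs_sub_comm s t]
      exact abs_sub_left_of_mem_uIcc hu'
    have := hqn u hus s hs' (by linarith)
    linarith
  · have h2 : ¬ |s - t| ≤ 1 / 2 := by
      rw [not_le]
      linarith
    unfold arcP at hu'
    rw [if_neg h2] at hu'
    have e01 : γs n 0 = γs n 1 := (hs n).2.2
    -- both `u` and `s` are `η`-close to `0` or `1`
    have key : ∀ v ∈ Icc (0:ℝ) 1, (v ≤ η / 2 ∨ 1 - η / 2 ≤ v) → ‖γs n v - γs n 0‖ < ε / 2 := by
      intro v hv hv2
      rcases hv2 with h3 | h3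
      · exact hqn v hv 0 (by simp) (by rw [sub_zero, abs_of_nonneg hv.1]; linarith)
      · rw [e01]
        exact hqn v hv 1 (by simp) (by rw [abs_sub_comm, abs_of_nonneg (by linarith [hv.2])]; linarith)
    have hmn' : min s t ≤ η / 2 ∧ 1 - η / 2 ≤ max s t := by
      have h3 : |s - t| = max s t - min s t := by
        rcases le_total s t with h4 | h4
        · rw [max_eq_right h4, min_eq_left h4, abs_sub_comm, abs_of_nonneg (by linarith)]
        · rw [max_eq_left h4, min_eq_right h4, abs_of_nonneg (by linarith)]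
      have h4 : max s t ≤ 1 := max_le hs'.2 ht.2
      have h5 : 0 ≤ min s t := le_min hs'.1 ht.1
      constructor <;> linarith
    have hsn : s ≤ η / 2 ∨ 1 - η / 2 ≤ s := by
      rcases le_total s t with h4 | h4
      · rw [min_eq_left h4] at hmn'
        exact Or.inl hmn'.1
      · rw [max_eq_left h4] at hmn'
        exact Or.inr hmn'.2
    have hun : u ≤ η / 2 ∨ 1 - η / 2 ≤ u := by
      rcases hu' with h4 | h4
      · exact Or.inl (h4.2.trans hmn'.1)
      · exact Or.inr (hmn'.2.trans h4.1)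
    have k1 := key u hus hun
    have k2 := key s hs' hsn
    calc ‖γs n u - γs n s‖ = ‖(γs n u - γs n 0) - (γs n s - γs n 0)‖ := by congr 1; ring
      _ ≤ ‖γs n u - γs n 0‖ + ‖γs n s - γs n 0‖ := norm_sub_le _ _
      _ < ε := by linarith

end Crest.Agent.R158.Jt785
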