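import Crest.Agent.R158.Rf2_896
import Crest.Agent.R158.Pt3_266

/-!
# Row 158: reflection top-bottom (helper896), file 3: the local rule of the boundary

* `nxT_rev` : an orientation reversing map of ports turns `NxT G p r k` into `NxT G' (f r) (f p) k`
* `nxT_rp`, `nxT_rq` : for the reflections of the ports of `G` and of the plane
-/

set_option autoImplicit false

namespace Crest.Agent.R158.Rf896

open Crest.Agent.R158.Sw300 (Port)
open Crest.Agent.R158.Xr249 (rot)
open Crest.Agent.R158.Pt266 (NxT)
open Crest.Agent.R158.Env664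

theorem nxT_rev_aux {T T' : Type*} {G : Port T → Port T → Prop} {G' : Port T' → Port T' → Prop}
    {f : Port T → Port T'} (hrot : ∀ p, rot (f (rot p)) = f p) (hG : ∀ a b, G a b → G' (f b) (f a))
    {p r : Port T} {k : ℤ} (h : NxT G p r k) : ∀ (z : Port T') (j : ℤ),
    (∀ u, rot u = f p → NxT G' u z j) → NxT G' (f r) z (j + k - 1) := by
  induction h with
  | @stop p h =>
    intro z j hX
    exact (hX _ (hrot p)).cast (by ring)
  | @go p q r k h1 h2 ih =>
    intro z j hX
    refine (ih z (j - 1) fun u hu => ?_).cast (by ring)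
    refine NxT.go (q := f (rot p)) ?_ (hX _ (hrot p))
    rw [hu]
    exact hG _ _ h1

/-- an orientation reversing map reverses the boundary, with the same turning -/
theorem nxT_rev {T T' : Type*} {G : Port T → Port T → Prop} {G' : Port T' → Port T' → Prop}
    {f : Port T → Port T'} (hrot : ∀ p, rot (f (rot p)) = f p) (hG : ∀ a b, G a b → G' (f b) (f a))
    {p r : Port T} {k : ℤ} (h : NxT G p r k) (hp : ∀ q, ¬ G' (f p) q) : NxT G' (f r) (f p) k := by
  refine (nxT_rev_aux hrot hG h (f p) 1 fun u hu => ?_).cast (by ring)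
  have := NxT.stop (G := G') (p := u) (by rw [hu]; exact hp)
  rwa [hu] at this

theorem rot_rp (p : Port TG) : rot (rp (rot p)) = rp p := by
  rcases p with _ | ⟨t, d⟩
  · rfl
  · show some (_, _) = some (_, _)
    congr 2
    ring

theorem rot_rq (p : Port (ℤ × ℤ)) : rot (rq (rot p)) = rq p := by
  rcases p with _ | ⟨t, d⟩
  · rfl
  · show some (_, _) = some (_, _)
    congr 2
    ring

theorem nxT_rp {G : Port TG → Port TG → Prop} {p r : Port TG} {k : ℤ} (hs : ∀ a b, G a b → G b a)
    (h : NxT G p r k) (hp : ∀ q, ¬ G p q) : NxT (fun a b => G (rp a) (rp b)) (rp r) (rp p) k := by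
  refine nxT_rev rot_rp (fun a b hab => ?_) h fun q hq => ?_
  · rw [rp_rp, rp_rp]
    exact hs _ _ hab
  · rw [rp_rp] at hq
    exact hp _ hq

theorem nxT_rq {G : Port (ℤ × ℤ) → Port (ℤ × ℤ) → Prop} {p r : Port (ℤ × ℤ)} {k : ℤ}
    (hs : ∀ a b, G a b → G b a) (h : NxT G p r k) (hp : ∀ q, ¬ G p q) :
    NxT (fun a b => G (rq a) (rq b)) (rq r) (rq p) k := by
  refine nxT_rev rot_rq (fun a b hab => ?_) h fun q hq => ?_
  · rw [rq_rq, rq_rq]
    exact hs _ _ hab
  · rw [rq_rq] at hq
    exact hp _ hq

/-- the plain glueing of the reflected set -/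
theorem beP_rq (A : Finset (ℤ × ℤ)) (q : Port (ℤ × ℤ)) : beP (rA A) (rq q) = rq (beP A q) := by
  unfold beP
  by_cases h : PortOf A q ∧ PortOf A (nbP q)
  · rw [res_of h.1 h.2, res_of ((portOf_rq q).2 h.1) (by rw [nbP_rq, portOf_rq]; exact h.2), nbP_rq]
  · have h' : ¬ (PortOf (rA A) (rq q) ∧ PortOf (rA A) (nbP (rq q))) := by
      rw [nbP_rq, portOf_rq, portOf_rq]
      exact h
    unfold res
    rw [if_neg h, if_neg h']

/-- the marked gap of the reflected side: the two ends are exchanged -/
theorem mark_rf {L : ℤ} (hL : 2 ∣ L) (c : ℤ × ℤ) (d : ZMod 4) :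
    mark L (rz c) (-d) = (rq (mark L c d).2, rq (mark L c d).1) := by
  obtain ⟨m, rfl⟩ := hL
  have e3 : (-(3 : ZMod 4)) = 1 := by decide
  have e4 : (-(1 : ZMod 4)) = 3 := by decide
  have e2 : (-(2 : ZMod 4)) = 2 := by decide
  have h2 : 2 * m / 2 = m := by omega
  rcases z4 d with rfl | rfl | rfl | rfl
  · rw [neg_zero]
    simp only [mark, if_true, h2, rz, rq_some, neg_zero, Prod.mk.injEq, Option.some.injEq, and_true,
      true_and]
    constructor <;> ring
  · rw [e4]
    simp only [mark, h2, rz, rq_some, Prod.mk.injEq, Option.some.injEq, and_true,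
      true_and, if_neg n30, if_neg n31, if_neg n32, if_neg n10, if_true, e4]
    constructor <;> ring
  · rw [e2]
    simp only [mark, h2, rz, rq_some, Prod.mk.injEq, Option.some.injEq, and_true,
      true_and, if_neg n20, if_neg n21, if_true, e2]
    constructor <;> ring
  · rw [e3]
    simp only [mark, h2, rz, rq_some, Prod.mk.injEq, Option.some.injEq, and_true,
      true_and, if_neg n30, if_neg n31, if_neg n32, if_neg n10, if_true, e3]
    constructor <;> ring

end Crest.Agent.R158.Rf896
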