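import Crest.Agent.R158.Ka9_470
import Crest.Agent.R158.Xr11_249
import Crest.Agent.R158.Rf3_896

/-!
R158, leaf F1 (helper470), part 10: the two halves of `G^(z)` for a macroscopic polyomino.

* `lb_low` : `LB` for the lower half of a band strictly inside a macroscopic row
* `lb_up` : `LB` for the reflected band (helper896's `rB`), i.e. for the upper half
-/

set_option autoImplicit false

namespace Crest.Agent.R158.Ka470

open Crest.Agent.R158.Env664 (TG Mac D mem_D div_iff Run CutAdj Adj4 lowT upT Band)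
open Crest.Agent.R158.Xr249 (mem_lowT mem_upT split_mac adj_mac)
open Crest.Agent.R158.Ao857 (Split)
open Crest.Agent.R158.Rf896 (rA rB rz)

/-- a band strictly inside a macroscopic row -/
structure MB (M : Mac) (L a b c : ℤ) (B : Band (D M.F L)) : Prop where
  hL : 0 < L
  run : Run M.F a b c
  xl : B.xl = a * L
  xr : B.xr = b * L + L - 1
  h1 : c * L < B.y1
  h2 : B.y2 < c * L + L
  hy : B.y1 < B.y2

variable {M : Mac} {L a b c : ℤ} {B : Band (D M.F L)}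

theorem MB.split (m : MB M L a b c B) :
    Split B (lowT (D M.F L) B.xl B.xr B.y1) (upT (D M.F L) B.xl B.xr B.y2) :=
  split_mac M m.hL B m.run m.xl m.xr m.h1 m.h2 m.hy

theorem MB.adj (m : MB M L a b c B) :
    ∀ s ∈ lowT (D M.F L) B.xl B.xr B.y1, ∀ t ∈ upT (D M.F L) B.xl B.xr B.y2, ¬ Adj4 s t :=
  adj_mac M m.hL B m.run m.xl m.xr m.h1 m.h2 m.hy

/-- **the lower half with crosscut `y0`** -/
theorem lb_low (m : MB M L a b c B) {y0 : ℤ} (h1 : B.y1 < y0) (h2 : y0 ≤ B.y2) :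
    LB M L a b c y0 B (lowT (D M.F L) B.xl B.xr B.y1) (upT (D M.F L) B.xl B.xr B.y2) where
  d := ⟨m.hL, m.run, m.h1.le, h1, by have := m.h2; omega, B.hR⟩
  hY := m.h1
  xl := m.xl
  xr := m.xr
  hAl := by rw [m.xl, m.xr]
  hs := m.split
  hadj := m.adj
  hy2 := h2

/-- **the upper half**: the lower half of the reflected band, crosscut `y0` in reflected coordinates
(`y0 = -z`, `z` the crosscut in the original coordinates) -/
theorem lb_up (m : MB M L a b c B) {y0 : ℤ} (h1 : -B.y2 < y0) (h2 : y0 ≤ -B.y1) :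
    LB M.rf L a b (-c - 1) y0 (rB B) (rA (upT (D M.F L) B.xl B.xr B.y2))
      (rA (lowT (D M.F L) B.xl B.xr B.y1)) where
  d := by
    have g1 := m.h1
    have g2 := m.h2
    refine ⟨m.hL, Rf896.run_rA m.run, ?_, h1, ?_, ?_⟩
    · show (-c - 1) * L ≤ -B.y2
      nlinarith
    · nlinarith
    · show 0 < B.R + 1
      have := B.hR
      omega
  hY := by
    have g2 := m.h2
    show (-c - 1) * L < -B.y2
    nlinarith
  xl := m.xl
  xr := m.xr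
  hAl := by
    show rA (upT (D M.F L) B.xl B.xr B.y2) = lowT (D (rA M.F) L) (a * L) (b * L + L - 1) (-B.y2)
    rw [Rf896.D_rA m.hL, Rf896.lowT_rA, m.xl, m.xr]
  hs := Rf896.Split.rf m.split
  hadj := Rf896.hadj_rf m.adj
  hy2 := h2

/-- **scales of the lower half**: `ρ` small compared with the distances of the band from the
macroscopic lines, the height of the half band and the width of the strip -/
theorem sz_low (m : MB M L a b c B) {y0 : ℤ} (h1 : B.y1 < y0) (h2 : y0 ≤ B.y2) {ρ : ℕ} (h0 : 1 ≤ ρ)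
    (g1 : 5 * (ρ : ℤ) ≤ B.y1 - c * L) (g2 : 5 * (ρ : ℤ) ≤ c * L + L - y0) (g3 : 16 * (ρ : ℤ) ≤ B.R)
    (g4 : 5 * (ρ : ℤ) ≤ 2 * (y0 - B.y1)) :
    (lowHalf (lb_low m h1 h2).d).Sz ρ ∧ (lowHalf (lb_low m h1 h2).d).Sz' ρ L :=
  lowHalf_sz _ h0 g1 g2 g3 g4

theorem bd_low (m : MB M L a b c B) {y0 : ℤ} (h1 : B.y1 < y0) (h2 : y0 ≤ B.y2) {K X0 Y0 : ℤ}
    (hF : BoxF M.F K X0 Y0) {ρ κ : ℕ} (g1 : K * L ≤ κ * ρ) (g2 : B.R ≤ κ * ρ) :
    (lowHalf (lb_low m h1 h2).d).Bd ρ κ := lowHalf_bd _ hF g1 g2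

/-- scales of the upper half -/
theorem sz_up (m : MB M L a b c B) {y0 : ℤ} (h1 : -B.y2 < y0) (h2 : y0 ≤ -B.y1) {ρ : ℕ}
    (h0 : 1 ≤ ρ) (g1 : 5 * (ρ : ℤ) ≤ c * L + L - B.y2) (g2 : 5 * (ρ : ℤ) ≤ -y0 - c * L)
    (g3 : 16 * (ρ : ℤ) ≤ B.R + 1) (g4 : 5 * (ρ : ℤ) ≤ 2 * (y0 + B.y2)) :
    (lowHalf (lb_up m h1 h2).d).Sz ρ ∧ (lowHalf (lb_up m h1 h2).d).Sz' ρ L := by
  refine lowHalf_sz _ h0 ?_ ?_ g3 ?_
  · show 5 * (ρ : ℤ) ≤ -B.y2 - (-c - 1) * L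
    nlinarith
  · show 5 * (ρ : ℤ) ≤ (-c - 1) * L + L - y0
    nlinarith
  · show 5 * (ρ : ℤ) ≤ 2 * (y0 - -B.y2)
    omega

theorem boxF_rA {F : Finset (ℤ × ℤ)} {K X0 Y0 : ℤ} (hF : BoxF F K X0 Y0) :
    BoxF (rA F) K X0 (-Y0 - K) := by
  rintro ⟨x, y⟩ hq
  rw [Rf896.mem_rA] at hq
  have h := hF _ hq
  have e1 : (rz (x, y)).1 = x := rfl
  have e2 : (rz (x, y)).2 = -y - 1 := rfl
  rw [e1, e2] at h
  simp only
  omega

theorem bd_up (m : MB M L a b c B) {y0 : ℤ} (h1 : -B.y2 < y0) (h2 : y0 ≤ -B.y1) {K X0 Y0 : ℤ}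
    (hF : BoxF M.F K X0 Y0) {ρ κ : ℕ} (g1 : K * L ≤ κ * ρ) (g2 : B.R + 1 ≤ κ * ρ) :
    (lowHalf (lb_up m h1 h2).d).Bd ρ κ := lowHalf_bd _ (boxF_rA hF) g1 g2

end Crest.Agent.R158.Ka470
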