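import Crest.Agent.R158.Ka8_470
import Crest.Agent.R158.Nz4_399
import Crest.Agent.R158.Ao11_857

/-!
R158, leaf F1 (helper470), part 9: the double of helper399 (`dbe`) over the lower half environment of
helper857 (`lowM`, `beL`) is the glueing `Half.Gd`.

* `low_split` : the part below the crosscut `y0` = the part below `y1` and the run rows between
* `tH_low` : tiles of `lowHalf` = `lowM`
* `gd_iff` : `Gd q r ↔ dbe (beL B p z0) O (some q) = some r ∧ q ≠ r`
-/

set_option autoImplicit false

namespace Crest.Agent.R158.Ka470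

open Crest.Agent.R158.Nm211
open Crest.Agent.R158.Env664 (TG Mac D mem_D div_iff Run CutAdj Adj4 lowT upT Band)
open Crest.Agent.R158.Xr249 (mem_lowT mem_upT low_step up_step row_up row_low low_disj_up full
  up_not_low)
open Crest.Agent.R158.Sw300 (Port)
open Crest.Agent.R158.Nz399 (dbe un cp jm un_jm dbe_jm)
open Crest.Agent.R158.Ao857 (Split inlE mem_inlE not_inlE lowM rowsM mem_rowsM gI gI_le gI_gt nn
  topP beL legP beL_ne)

section

variable {M : Mac} {L a b c y1 y0 R : ℤ}

theorem LD.run1 (d : LD M L a b c y1 y0 R) {y : ℤ} (h1 : c * L ≤ y) (h2 : y < c * L + L) :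
    Run (D M.F L) (a * L) (b * L + L - 1) y := d.run.scale d.hL h1 h2

/-- the part below `y0` = the part below `y1` + the rows of the run between -/
theorem low_split (d : LD M L a b c y1 y0 R) (hy : c * L < y1) {x y : ℤ} :
    (x, y) ∈ lowT (D M.F L) (a * L) (b * L + L - 1) y0 ↔
      (x, y) ∈ lowT (D M.F L) (a * L) (b * L + L - 1) y1 ∨
        ((a * L ≤ x ∧ x ≤ b * L + L - 1) ∧ y1 ≤ y ∧ y < y0) := by
  have h1 := d.h1
  have h2 := d.h2
  have hab := d.ab
  have hL := d.hL
  have r1 := d.run1 (y := y1) (by omega) (by omega)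
  have r0 := d.run1 (y := y1 - 1) (by omega) (by omega)
  have hsc := Xr249.D_SC M d.hL
  -- the rows of the run above `y1` are in the upper part
  have hup : ∀ x y : ℤ, a * L ≤ x → x ≤ b * L + L - 1 → y1 ≤ y → y < c * L + L →
      (x, y) ∉ lowT (D M.F L) (a * L) (b * L + L - 1) y1 := by
    intro x y h3 h4 h5 h6 h
    refine low_disj_up hsc r1 h ?_
    refine vseg (y := y1) (fun s t => up_step) (fun z hz => d.memD ?_ ?_ h3 h4)
      (fun _ _ => ?_) (row_up r1 h3 h4)
    · omega
    · omega
    · omega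
  constructor
  · intro h
    obtain ⟨-, hpath⟩ := mem_lowT.1 h
    clear h
    have key : ∀ t : ℤ × ℤ, Relation.ReflTransGen (CutAdj (D M.F L) (a * L) (b * L + L - 1) y0)
        (a * L, y0 - 1) t → t ∈ lowT (D M.F L) (a * L) (b * L + L - 1) y1 ∨
        ((a * L ≤ t.1 ∧ t.1 ≤ b * L + L - 1) ∧ y1 ≤ t.2 ∧ t.2 < y0) := by
      intro t ht
      induction ht with
      | refl => right; exact ⟨⟨le_rfl, by simp only; omega⟩, by simp only; omega, by simp only; omega⟩
      | @tail s t _ hst ih =>
        obtain ⟨hadj, hs, ht, hc⟩ := hst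
        obtain ⟨x, y⟩ := s
        obtain ⟨x', y'⟩ := t
        simp only at ih hc ⊢
        by_cases hrect : (a * L ≤ x' ∧ x' ≤ b * L + L - 1) ∧ y1 ≤ y' ∧ y' < y0
        · exact Or.inr hrect
        left
        rcases ih with ih | ih
        · refine low_step ih ⟨hadj, hs, ht, ?_⟩
          rintro ⟨e1, e2, e3, e4 | e4⟩
          · simp only at e1 e2 e3 e4
            apply hrect; omega
          · simp only at e1 e2 e3 e4
            refine hup x y e1 e2 (by omega) (by omega) ih
        · obtain ⟨⟨i1, i2⟩, i3, i4⟩ := ih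
          have hrr := d.run1 (y := y) (by omega) (by omega)
          rcases hadj with ⟨e1, e2 | e2⟩ | ⟨e1, e2 | e2⟩ <;> simp only at e1 e2
          · exfalso
            subst e1
            by_cases h6 : y' < y0
            · apply hrect; omega
            · apply hc; omega
          · subst e1
            have e3 : y' = y1 - 1 := by
              by_contra hcon
              apply hrect; omega
            rw [e3]
            exact row_low r0 i1 i2
          · exfalso
            by_cases h6 : x' ≤ b * L + L - 1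
            · apply hrect; omega
            · have e3 : x' = b * L + L - 1 + 1 := by omega
              apply hrr.right
              rw [← e3, e1]; exact ht
          · exfalso
            by_cases h6 : a * L ≤ x'
            · apply hrect; omega
            · have e3 : x' = a * L - 1 := by omega
              apply hrr.left
              rw [← e3, e1]; exact ht
    exact key _ hpath
  · rintro (h | ⟨⟨h3, h4⟩, h5, h6⟩)
    · obtain ⟨-, hpath⟩ := mem_lowT.1 h
      clear h
      have key : ∀ t : ℤ × ℤ, Relation.ReflTransGen (CutAdj (D M.F L) (a * L) (b * L + L - 1) y1)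
          (a * L, y1 - 1) t → t ∈ lowT (D M.F L) (a * L) (b * L + L - 1) y1 ∧
          t ∈ lowT (D M.F L) (a * L) (b * L + L - 1) y0 := by
        intro t ht
        induction ht with
        | refl => exact ⟨row_low r0 le_rfl (by omega), d.row (by omega) (by omega) le_rfl (by omega)⟩
        | @tail s t _ hst ih =>
          refine ⟨low_step ih.1 hst, low_step ih.2 ⟨hst.1, hst.2.1, hst.2.2.1, ?_⟩⟩
          rintro ⟨e1, e2, e3, e4 | e4⟩
          · refine hup s.1 s.2 e1 e2 (by omega) (by omega) ih.1
          · refine hup s.1 s.2 e1 e2 (by omega) (by omega) ih.1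
      exact (key _ hpath).2
    · exact d.row (by omega) h6 h3 h4

end

theorem nb_ne (A : Half) (t : TG) (e : ZMod 4) : A.nb t e ≠ (t, e) := by
  have h : (A.nb t e).2 ≠ e := by
    rcases t with ⟨x, y⟩ | ⟨x, y⟩ <;> rcases Half.z4 e with rfl | rfl | rfl | rfl <;>
      simp only [Half.nb] <;> (try split_ifs) <;> simp only [ne_eq] <;> decide
  intro h'
  exact h (by rw [h'])

section

variable {M : Mac} {L a b c y0 : ℤ} {A : Finset (ℤ × ℤ)} {B : Band A}

/-- the band `B` with its lower part, seen as a half environment with crosscut `y0` -/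
structure LB (M : Mac) (L a b c y0 : ℤ) {A : Finset (ℤ × ℤ)} (B : Band A) (Al Au : Finset (ℤ × ℤ)) :
    Prop where
  d : LD M L a b c B.y1 y0 B.R
  hY : c * L < B.y1
  xl : B.xl = a * L
  xr : B.xr = b * L + L - 1
  hAl : Al = lowT (D M.F L) (a * L) (b * L + L - 1) B.y1
  hs : Split B Al Au
  hadj : ∀ s ∈ Al, ∀ t ∈ Au, ¬ Adj4 s t
  hy2 : y0 ≤ B.y2

variable {Al Au : Finset (ℤ × ℤ)}

theorem tH_inl (h : LB M L a b c y0 B Al Au) {x y : ℤ} :
    (lowHalf h.d).tH (Sum.inl (x, y)) ↔
      (x, y) ∈ Al ∨ ((B.xl ≤ x ∧ x ≤ B.xr) ∧ B.y1 ≤ y ∧ y < y0) := by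
  show (x, y) ∈ lowT (D M.F L) (a * L) (b * L + L - 1) y0 ↔ _
  rw [low_split h.d h.hY, h.hAl, h.xl, h.xr]

theorem tH_inr (h : LB M L a b c y0 B Al Au) {x y : ℤ} :
    (lowHalf h.d).tH (Sum.inr (x, y)) ↔ (0 ≤ x ∧ x < B.R) ∧ B.y1 ≤ y ∧ y < y0 := Iff.rfl

/-- tiles -/
theorem tH_low (h : LB M L a b c y0 B Al Au) {n : ℕ} (hn : y0 = B.y1 + n + 1) {t : TG} :
    (lowHalf h.d).tH t ↔ t ∈ lowM B Al n := by
  have hR := B.hR
  have hxx : B.xl ≤ B.xr := by
    have := h.d.ab; have := h.d.hL; rw [h.xl, h.xr]; omega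
  have hnn : (nn B : ℤ) = B.xr - B.xl + B.R := by
    unfold nn
    rw [Int.toNat_of_nonneg (by omega)]
  unfold lowM
  rw [Finset.mem_union, mem_rowsM]
  rcases t with ⟨x, y⟩ | ⟨x, y⟩
  · rw [tH_inl h, mem_inlE]
    refine or_congr Iff.rfl ?_
    constructor
    · rintro ⟨⟨h1, h2⟩, h3, h4⟩
      refine ⟨(x - B.xl).toNat, (y - B.y1).toNat, by omega, by omega, ?_⟩
      rw [gI_le B (by omega)]
      congr 2
      · omega
      · omega
    · rintro ⟨i, j, h1, h2, h3⟩
      by_cases hi : (i : ℤ) ≤ B.xr - B.xl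
      · rw [gI_le B hi, Sum.inl.injEq, Prod.mk.injEq] at h3
        omega
      · rw [gI_gt B hi] at h3
        exact absurd h3 (by simp)
  · rw [tH_inr h]
    constructor
    · rintro ⟨⟨h1, h2⟩, h3, h4⟩
      refine Or.inr ⟨(x + (B.xr - B.xl + 1)).toNat, (y - B.y1).toNat, by omega, by omega, ?_⟩
      rw [gI_gt B (by omega)]
      congr 2
      · omega
      · omega
    · rintro (h1 | ⟨i, j, h1, h2, h3⟩)
      · exact absurd h1 not_inlE
      · by_cases hi : (i : ℤ) ≤ B.xr - B.xl
        · rw [gI_le B hi] at h3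
          exact absurd h3 (by simp)
        · rw [gI_gt B hi, Sum.inr.injEq, Prod.mk.injEq] at h3
          omega

/-- open ports -/
theorem top_cut (h : LB M L a b c y0 B Al Au) {n : ℕ} (hn : y0 = B.y1 + n + 1) {t : TG}
    {e : ZMod 4} : (∃ i, topP B n i = some (t, e)) ↔ (lowHalf h.d).cutT t ∧ e = 1 := by
  have hR := B.hR
  have hxx : B.xl ≤ B.xr := by
    have := h.d.ab; have := h.d.hL; rw [h.xl, h.xr]; omega
  have hnn : (nn B : ℤ) = B.xr - B.xl + B.R := by
    unfold nn
    rw [Int.toNat_of_nonneg (by omega)]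
  unfold topP
  rcases t with ⟨x, y⟩ | ⟨x, y⟩
  · have hc : (lowHalf h.d).cutT (Sum.inl (x, y)) ↔ (B.xl ≤ x ∧ x ≤ B.xr) ∧ y = y0 - 1 := by
      rw [h.xl, h.xr]; exact Iff.rfl
    rw [hc]
    constructor
    · rintro ⟨i, h1⟩
      have hi2 := i.2
      rw [Option.some.injEq, Prod.mk.injEq] at h1
      obtain ⟨h1, rfl⟩ := h1
      by_cases hi : (i : ℤ) ≤ B.xr - B.xl
      · rw [gI_le B hi, Sum.inl.injEq, Prod.mk.injEq] at h1
        exact ⟨by omega, rfl⟩
      · rw [gI_gt B hi] at h1
        exact absurd h1 (by simp)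
    · rintro ⟨⟨⟨h1, h2⟩, h3⟩, rfl⟩
      refine ⟨⟨(x - B.xl).toNat, by omega⟩, ?_⟩
      rw [gI_le B (by simp only; omega)]
      simp only [Option.some.injEq, Prod.mk.injEq, Sum.inl.injEq, and_true]
      omega
  · have hc : (lowHalf h.d).cutT (Sum.inr (x, y)) ↔ (0 ≤ x ∧ x < B.R) ∧ y = y0 - 1 := Iff.rfl
    rw [hc]
    constructor
    · rintro ⟨i, h1⟩
      have hi2 := i.2
      rw [Option.some.injEq, Prod.mk.injEq] at h1
      obtain ⟨h1, rfl⟩ := h1
      by_cases hi : (i : ℤ) ≤ B.xr - B.xl
      · rw [gI_le B hi] at h1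
        exact absurd h1 (by simp)
      · rw [gI_gt B hi, Sum.inr.injEq, Prod.mk.injEq] at h1
        exact ⟨by omega, rfl⟩
    · rintro ⟨⟨⟨h1, h2⟩, h3⟩, rfl⟩
      refine ⟨⟨(x + (B.xr - B.xl + 1)).toNat, by omega⟩, ?_⟩
      rw [gI_gt B (by simp only; omega)]
      simp only [Option.some.injEq, Prod.mk.injEq, Sum.inr.injEq, and_true]
      omega

/-- **the partner in `G^(z)`** of a port of the lower half that is not open -/
theorem beG_low (h : LB M L a b c y0 B Al Au) {p z0 : ℤ} (hz : B.At p z0) (hzy : y0 ≤ z0)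
    {t : TG} {e : ZMod 4} (ht : (lowHalf h.d).tH t) (hce : ¬ ((lowHalf h.d).cutT t ∧ e = 1)) :
    ((lowHalf h.d).tH ((lowHalf h.d).nb t e).1 ∧
      B.beG p z0 (some (t, e)) = some ((lowHalf h.d).nb t e)) ∨
    (¬ (lowHalf h.d).tH ((lowHalf h.d).nb t e).1 ∧ B.beG p z0 (some (t, e)) = some (t, e)) := by
  obtain ⟨hz1, hz2, hp1, hp2⟩ := hz
  have hs := h.hs
  have hR := B.hR
  have h01 := h.d.h1
  have hy2 := h.hy2
  have exl : (lowHalf h.d).xl = B.xl := h.xl.symm
  have exr : (lowHalf h.d).xr = B.xr := h.xr.symm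
  have ey1 : (lowHalf h.d).y1 = B.y1 := rfl
  have ey0 : (lowHalf h.d).y0 = y0 := rfl
  have eR : (lowHalf h.d).R = B.R := rfl
  have hadj := h.hadj
  have hrun := B.run
  -- membership in `tG`
  have mem_l : ∀ x y : ℤ, (Sum.inl (x, y) : TG) ∈ B.tG z0 ↔ (x, y) ∈ Al ∨ (x, y) ∈ Au ∨
      (B.xl ≤ x ∧ x ≤ B.xr ∧ B.y1 ≤ y ∧ y < B.y2) := fun x y => by
    rw [B.inl_mem, hs.part]
  have mem_r : ∀ x y : ℤ, y < z0 → ((Sum.inr (x, y) : TG) ∈ B.tG z0 ↔
      B.y1 ≤ y ∧ y < B.y2 ∧ 0 ≤ x ∧ x < B.R) := fun x y hy => by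
    rw [B.inr_mem]
    have : B.wd z0 y = B.R := if_pos hy
    rw [this]
  -- the general step
  have fin : ∀ q : TG × ZMod 4, (lowHalf h.d).nb t e = q → B.nbG p z0 (some (t, e)) = some q →
      t ∈ B.tG z0 → (q.1 ∈ B.tG z0 ↔ (lowHalf h.d).tH q.1) →
      ((lowHalf h.d).tH ((lowHalf h.d).nb t e).1 ∧
        B.beG p z0 (some (t, e)) = some ((lowHalf h.d).nb t e)) ∨
      (¬ (lowHalf h.d).tH ((lowHalf h.d).nb t e).1 ∧
        B.beG p z0 (some (t, e)) = some (t, e)) := by
    intro q h1 h2 h3 h4
    by_cases hq : (lowHalf h.d).tH q.1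
    · left
      refine ⟨h1 ▸ hq, ?_⟩
      unfold Band.beG
      rw [Env664.res_of (Env664.portOf_some.2 h3) (by rw [h2]; exact Env664.portOf_some.2 (h4.2 hq)),
        h2, h1]
    · right
      refine ⟨h1 ▸ hq, ?_⟩
      unfold Band.beG Env664.res
      rw [if_neg]
      rintro ⟨-, h5⟩
      rw [h2] at h5
      exact hq (h4.1 (Env664.portOf_some.1 h5))
  rcases t with ⟨x, y⟩ | ⟨x, y⟩
  · rw [tH_inl h] at ht
    have htG : (Sum.inl (x, y) : TG) ∈ B.tG z0 := by
      rw [mem_l]
      rcases ht with ht | ht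
      · exact Or.inl ht
      · exact Or.inr (Or.inr (by omega))
    have hce' : ¬ ((B.xl ≤ x ∧ x ≤ B.xr) ∧ y = y0 - 1 ∧ e = 1) := by
      rintro ⟨e1, e2, e3⟩
      apply hce
      refine ⟨⟨?_, e2⟩, e3⟩
      show a * L ≤ x ∧ x ≤ b * L + L - 1
      rw [← h.xl, ← h.xr]; exact e1
    have hAl1 : (x, y) ∈ Al → (x, y) ∈ A := fun h5 => (hs.part x y).2 (Or.inl h5)
    rcases Half.z4 e with rfl | rfl | rfl | rfl
    · -- west
      by_cases hc : x = B.xl ∧ B.y1 ≤ y ∧ y < y0
      · refine fin (Sum.inr (B.R - 1, y), 2) ?_ ?_ htG ?_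
        · show (if x = (lowHalf h.d).xl ∧ (lowHalf h.d).y1 ≤ y ∧ y < (lowHalf h.d).y0 then _ else _) = _
          rw [exl, ey1, ey0, if_pos hc]; rfl
        · rw [B.nbG_W1 (by omega)]
          have : B.wd z0 y = B.R := if_pos (by omega)
          rw [this]
        · rw [mem_r _ _ (by omega), tH_inr h]
          omega
      · have hc2 : ¬ (x = B.xl ∧ B.y1 ≤ y ∧ y < B.y2) := by
          rintro ⟨e1, e2, e3⟩
          rcases ht with ht | ht
          · refine hs.dl _ _ ht ?_
            have := hs.nl
            have : B.xl ≤ B.xr := by omega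
            omega
          · omega
        refine fin (Sum.inl (x - 1, y), 2) ?_ (B.nbG_W hc2) htG ?_
        · show (if x = (lowHalf h.d).xl ∧ (lowHalf h.d).y1 ≤ y ∧ y < (lowHalf h.d).y0 then _ else _) = _
          rw [exl, ey1, ey0, if_neg hc]
        · rw [mem_l, tH_inl h]
          constructor
          · rintro (h5 | h5 | h5)
            · exact Or.inl h5
            · exfalso
              rcases ht with ht | ht
              · exact hadj _ ht _ h5 (Or.inr ⟨rfl, Or.inr (by simp)⟩)
              · refine hs.du _ _ h5 ?_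
                omega
            · rcases ht with ht | ht
              · exfalso
                have h6 := hs.dl _ _ ht
                have h7 := (hrun y h5.2.2.1 h5.2.2.2).right
                have e1 : x = B.xr + 1 := by omega
                exact h7 (e1 ▸ hAl1 ht)
              · exact Or.inr (by omega)
          · rintro (h5 | h5)
            · exact Or.inl h5
            · exact Or.inr (Or.inr (by omega))
    · -- north
      have hn : ¬ (y = z0 - 1 ∧ B.xl ≤ x ∧ x ≤ B.xr) := by
        rintro ⟨e1, e2, e3⟩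
        rcases ht with ht | ht
        · refine hs.dl _ _ ht ?_
          omega
        · apply hce'
          refine ⟨ht.1, ?_, rfl⟩
          omega
      refine fin (Sum.inl (x, y + 1), 3) rfl (B.nbG_N ⟨by omega, by omega⟩) htG ?_
      rw [mem_l, tH_inl h]
      constructor
      · rintro (h5 | h5 | h5)
        · exact Or.inl h5
        · exfalso
          rcases ht with ht | ht
          · exact hadj _ ht _ h5 (Or.inl ⟨rfl, Or.inl rfl⟩)
          · refine hs.du _ _ h5 ?_
            omega
        · rcases ht with ht | ht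
          · have h6 := hs.dl _ _ ht
            exact Or.inr (by omega)
          · refine Or.inr ⟨ht.1, by omega, ?_⟩
            by_contra hcon
            apply hce'
            refine ⟨ht.1, ?_, rfl⟩
            omega
      · rintro (h5 | h5)
        · exact Or.inl h5
        · exact Or.inr (Or.inr (by omega))
    · -- east
      by_cases hc : x = B.xr ∧ B.y1 ≤ y ∧ y < y0
      · refine fin (Sum.inr (0, y), 0) ?_ (B.nbG_E1 (by omega)) htG ?_
        · show (if x = (lowHalf h.d).xr ∧ (lowHalf h.d).y1 ≤ y ∧ y < (lowHalf h.d).y0 then _ else _) = _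
          rw [exr, ey1, ey0, if_pos hc]
        · rw [mem_r _ _ (by omega), tH_inr h]
          omega
      · have hc2 : ¬ (x = B.xr ∧ B.y1 ≤ y ∧ y < B.y2) := by
          rintro ⟨e1, e2, e3⟩
          rcases ht with ht | ht
          · refine hs.dl _ _ ht ?_
            omega
          · omega
        refine fin (Sum.inl (x + 1, y), 0) ?_ (B.nbG_E hc2) htG ?_
        · show (if x = (lowHalf h.d).xr ∧ (lowHalf h.d).y1 ≤ y ∧ y < (lowHalf h.d).y0 then _ else _) = _
          rw [exr, ey1, ey0, if_neg hc]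
        · rw [mem_l, tH_inl h]
          constructor
          · rintro (h5 | h5 | h5)
            · exact Or.inl h5
            · exfalso
              rcases ht with ht | ht
              · exact hadj _ ht _ h5 (Or.inr ⟨rfl, Or.inl rfl⟩)
              · refine hs.du _ _ h5 ?_
                omega
            · rcases ht with ht | ht
              · exfalso
                have h6 := hs.dl _ _ ht
                have h7 := (hrun y h5.2.2.1 h5.2.2.2).left
                have e1 : x = B.xl - 1 := by omega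
                exact h7 (e1 ▸ hAl1 ht)
              · exact Or.inr (by omega)
          · rintro (h5 | h5)
            · exact Or.inl h5
            · exact Or.inr (Or.inr (by omega))
    · -- south
      have hn : ¬ (y = z0 ∧ B.xl ≤ x ∧ x ≤ B.xr) := by
        rintro ⟨e1, e2, e3⟩
        rcases ht with ht | ht
        · refine hs.dl _ _ ht ?_
          omega
        · omega
      refine fin (Sum.inl (x, y - 1), 1) rfl (B.nbG_S ⟨by omega, by omega⟩) htG ?_
      rw [mem_l, tH_inl h]
      constructor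
      · rintro (h5 | h5 | h5)
        · exact Or.inl h5
        · exfalso
          rcases ht with ht | ht
          · exact hadj _ ht _ h5 (Or.inl ⟨rfl, Or.inr (by simp)⟩)
          · by_cases h6 : B.y1 ≤ y - 1
            · refine hs.du _ _ h5 ?_
              omega
            · have e1 : y = B.y1 := by omega
              rw [e1] at h5
              exact hs.nu x ht.1.1 ht.1.2 h5
        · rcases ht with ht | ht
          · exfalso
            have h6 := hs.dl _ _ ht
            have e1 : y = B.y2 := by omega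
            rw [e1] at ht
            exact hs.nl x h5.1 h5.2.1 ht
          · exact Or.inr (by omega)
      · rintro (h5 | h5)
        · exact Or.inl h5
        · exact Or.inr (Or.inr (by omega))
  · rw [tH_inr h] at ht
    have hxx : B.xl ≤ B.xr := by omega
    have htG : (Sum.inr (x, y) : TG) ∈ B.tG z0 := by
      rw [mem_r _ _ (by omega)]
      omega
    have hwd : B.wd z0 y = B.R := if_pos (by omega)
    rcases Half.z4 e with rfl | rfl | rfl | rfl
    · by_cases hc : x = 0
      · subst hc
        refine fin (Sum.inl (B.xr, y), 2) ?_ B.nbG_rW1 htG ?_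
        · have e1 : (lowHalf h.d).nb (Sum.inr (0, y)) 0 = (Sum.inl ((lowHalf h.d).xr, y), 2) := by
            simp [Half.nb]
          rw [e1, exr]
        · rw [mem_l, tH_inl h]
          constructor
          · intro _; exact Or.inr (by omega)
          · intro _; exact Or.inr (Or.inr (by omega))
      · refine fin (Sum.inr (x - 1, y), 2) (if_neg hc) (B.nbG_rW hc) htG ?_
        rw [mem_r _ _ (by omega), tH_inr h]
        omega
    · have hn : y ≠ y0 - 1 := by
        intro e1
        exact hce ⟨⟨ht.1, e1⟩, rfl⟩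
      refine fin (Sum.inr (x, y + 1), 3) rfl (B.nbG_rN (by omega)) htG ?_
      rw [mem_r _ _ (by omega), tH_inr h]
      omega
    · by_cases hc : x = B.R - 1
      · refine fin (Sum.inl (B.xl, y), 0) ?_ (B.nbG_rE1 (by rw [hwd]; exact hc)) htG ?_
        · have e1 : (lowHalf h.d).nb (Sum.inr (x, y)) 2 = (Sum.inl ((lowHalf h.d).xl, y), 0) :=
            if_pos hc
          rw [e1, exl]
        · rw [mem_l, tH_inl h]
          constructor
          · intro _; exact Or.inr (by omega)
          · intro _; exact Or.inr (Or.inr (by omega))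
      · refine fin (Sum.inr (x + 1, y), 0) ?_ (B.nbG_rE (by rw [hwd]; exact hc)) htG ?_
        · exact if_neg hc
        · rw [mem_r _ _ (by omega), tH_inr h]
          omega
    · refine fin (Sum.inr (x, y - 1), 1) rfl (B.nbG_rS (by omega)) htG ?_
      rw [mem_r _ _ (by omega), tH_inr h]
      omega

theorem jm_some (k : Bool) (t : TG) (e : ZMod 4) :
    jm k (some (t, e)) = some ((t, k), sg k e) := by
  cases k <;> rfl

/-- **the double of helper399 is `Gd`** -/
theorem gd_iff (h : LB M L a b c y0 B Al Au) {p z0 : ℤ} (hz : B.At p z0) (hzy : y0 ≤ z0)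
    {O : Finset (Port TG)}
    (hO : ∀ (t : TG) (e : ZMod 4), some (t, e) ∈ O ↔ (lowHalf h.d).cutT t ∧ e = 1)
    {q r : (TG × Bool) × ZMod 4} (hq : (lowHalf h.d).tH q.1.1) :
    (lowHalf h.d).Gd q r ↔ dbe (beL B p z0) O (some q) = some r ∧ q ≠ r := by
  obtain ⟨⟨t, k⟩, e'⟩ := q
  obtain ⟨e, rfl⟩ : ∃ e, e' = sg k e := ⟨sg k e', (sg_sg k e').symm⟩
  have hne : (some (t, e) : Port TG) ≠ none := by simp
  have e1 : dbe (beL B p z0) O (some ((t, k), sg k e)) =
      if (some (t, e) : Port TG) ∈ O then jm (!k) (some (t, e)) else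
        jm k (beL B p z0 (some (t, e))) := by
    rw [← jm_some, dbe_jm _ _ _ hne]
  rw [e1]
  change (lowHalf h.d).tH t at hq
  by_cases hc : (lowHalf h.d).cutT t ∧ e = 1
  · rw [if_pos ((hO t e).2 hc), jm_some]
    obtain ⟨hc, rfl⟩ := hc
    have s3 : sg true (1 : ZMod 4) = 3 := by decide
    constructor
    · intro hg
      have h2 : (lowHalf h.d).Gd ((t, k), sg k 1) ((t, !k), sg (!k) 1) := by
        cases k
        · exact Half.Gd.c1 hc
        · exact Half.Gd.c2 hc
      have h3 := (lowHalf h.d).gd_fn _ _ _ hg h2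
      refine ⟨by rw [h3], ?_⟩
      rw [h3]
      intro h4
      have h5 := congrArg (fun x : (TG × Bool) × ZMod 4 => x.1.2) h4
      cases k <;> simp at h5
    · rintro ⟨h2, -⟩
      rw [Option.some.injEq] at h2
      subst h2
      cases k
      · exact Half.Gd.c1 hc
      · exact Half.Gd.c2 hc
  · rw [if_neg fun h2 => hc ((hO t e).1 h2)]
    have hleg : (some (t, e) : Port TG) ≠ legP p z0 := by
      intro h2
      unfold legP at h2
      rw [Option.some.injEq, Prod.mk.injEq] at h2
      obtain ⟨rfl, -⟩ := h2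
      rw [tH_inl h] at hq
      obtain ⟨hz1, hz2, hp1, hp2⟩ := hz
      rcases hq with hq | hq
      · refine h.hs.dl _ _ hq ?_
        omega
      · omega
    rw [beL_ne B hleg]
    rcases beG_low h hz hzy hq hc with ⟨h2, h3⟩ | ⟨h2, h3⟩
    · rw [h3]
      rcases hnb : (lowHalf h.d).nb t e with ⟨u, g⟩
      rw [hnb] at h2
      rw [jm_some]
      have hG : (lowHalf h.d).Gd ((t, k), sg k e) ((u, k), sg k g) :=
        Half.Gd.base k ⟨hq, h2, hnb.symm⟩
      constructor
      · intro hg
        have h4 := (lowHalf h.d).gd_fn _ _ _ hg hG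
        refine ⟨by rw [h4], ?_⟩
        rw [h4]
        intro h5
        rw [Prod.mk.injEq, Prod.mk.injEq] at h5
        obtain ⟨⟨h6, -⟩, h7⟩ := h5
        have h8 := sg_inj _ h7
        subst h6 h8
        exact nb_ne _ _ _ hnb
      · rintro ⟨h4, -⟩
        rw [Option.some.injEq] at h4
        rw [← h4]
        exact hG
    · rw [h3, jm_some]
      constructor
      · intro hg
        exfalso
        have hf : (lowHalf h.d).FrH t e := by
          rintro q ⟨-, h4, rfl⟩
          exact h2 h4
        exact (lowHalf h.d).free_of (k := k) hf (fun h4 h5 => hc ⟨h5, h4⟩) _ hg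
      · rintro ⟨h4, h5⟩
        rw [Option.some.injEq] at h4
        exact absurd h4 h5

end

end Crest.Agent.R158.Ka470
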