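import Crest.Agent.R158.Lr1_158

/-!
R158, block Q1d, leaf LR (helper158), part 2: phases and charges of the sides of the four charts.

* `PhH A ch ps cc cl` : phases of the undoubled half environment (natural sign)
* `upp h i X` : port of the undoubled half behind the side `X` of the chart `i`
* `Phi ch O cl h i X`, `Cg cc cl h i X`, `eps h i X`
* **`phi_glue`**, **`local_rule`**
-/

set_option autoImplicit false

namespace Crest.Agent.R158.Lr158

open Crest.Agent.R158.Sw300 (Port)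
open Crest.Agent.R158.Env664 (TG)
open Crest.Agent.R158.Nm211 (Dir mv dx dy)
open Crest.Agent.R158.Ka470
open Crest.Agent.R158.Ka470.Half
open Crest.Agent.R158.Nz399 (dch un jm)
open Crest.Agent.R158.Pt266 (dir)

/-- seam at the left mouth -/
def sea (A : Half) : TG × ZMod 4 → ℤ
  | (Sum.inl v, d) => if d = 0 ∧ v.1 = A.xl ∧ A.y1 ≤ v.2 ∧ v.2 < A.y0 then -1 else 0
  | (Sum.inr v, d) => if d = 2 ∧ v.1 = A.R - 1 then 1 else 0

/-- tiles that are neither in a mouth nor on the crosscut -/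
def NM (A : Half) : Set (ℤ × ℤ) := {v | ¬ A.Mou v}

/-- **phases of an undoubled half environment**, natural sign: `ps` lifted direction, `cc` charge,
`cl` charge of the seam at the left mouth -/
structure PhH (A : Half) (ch : Port TG → ℝ) (ps cc : TG × ZMod 4 → ℤ) (cl : ℤ) : Prop where
  free : ∀ t d, A.tH t → A.FrH t d → (d = 1 → ¬ A.cutT t) →
    ch (some (t, d)) = Real.pi / 12 * ps (t, d) - Real.pi / 3 * cc (t, d)
  glue : ∀ p q, A.Gh p q → ch (some p) - ch (some q) = Real.pi / 3 * (cl * sea A p : ℤ)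
  wl : ∀ y, A.Y ≤ y → y < A.y1 → ps (Sum.inl (A.xl, y), 0) = 4
  wr : ∀ y, A.Y ≤ y → y < A.y1 → ps (Sum.inl (A.xr, y), 2) = 2
  fl : ∀ i, 0 ≤ i → i < A.R → ps (Sum.inr (i, A.y1), 3) = 3
  st : ∀ X X' k, Stp (A.H : Set (ℤ × ℤ)) (NM A) X X' k →
    ps (Sum.inl X'.1, X'.2) = ps (Sum.inl X.1, X.2) + k

/-- `O` = the open ports of the half -/
def OpenH (A : Half) (O : Finset (Port TG)) : Prop :=
  ∀ t d, A.tH t → ((some (t, d) : Port TG) ∈ O ↔ d = 1 ∧ A.cutT t)

/-- direction of `mv` -/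
theorem dir_mv (a : ZMod 4) : ∃ d : Dir, ex d = a ∧ en d = a + 2 ∧ ∀ v, mv v d = v + dir a := by
  rcases z4 a with rfl | rfl | rfl | rfl
  · refine ⟨3, rfl, rfl, fun v => ?_⟩
    rw [dir0]; obtain ⟨x, y⟩ := v; simp [mv, dx, dy]
  · refine ⟨0, rfl, rfl, fun v => ?_⟩
    rw [dir1]; obtain ⟨x, y⟩ := v; simp [mv, dx, dy]
  · refine ⟨1, rfl, rfl, fun v => ?_⟩
    rw [dir2]; obtain ⟨x, y⟩ := v; simp [mv, dx, dy]
  · refine ⟨2, rfl, rfl, fun v => ?_⟩
    rw [dir3]; obtain ⟨x, y⟩ := v; simp [mv, dx, dy]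

variable {A : Half} {ρ : ℕ}

/-- port of the undoubled half behind a side of the chart `i` -/
noncomputable def upp (h : A.Sz ρ) (i : Fin 4) (X : (ℤ × ℤ) × ZMod 4) : TG × ZMod 4 :=
  (((chf h i).emb X.1).1, Ka470.sg ((chf h i).emb X.1).2 X.2)

/-- gauge -/
noncomputable def gg (A : Half) (cl : ℤ) (i : Fin 4) (v : ℤ × ℤ) : ℝ :=
  if i = 2 ∧ v.1 < A.xl then -(Real.pi / 3 * cl) else 0

/-- **phase of a side of the chart `i`** -/
noncomputable def Phi (ch : Port TG → ℝ) (O : Finset (Port TG)) (cl : ℤ) (h : A.Sz ρ) (i : Fin 4)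
    (X : (ℤ × ℤ) × ZMod 4) : ℝ :=
  dch ch O (some ((chf h i).pt X.1 X.2)) + gg A cl i X.1

/-- `1` on the copy `false`, `-1` on the copy `true` -/
noncomputable def eps (h : A.Sz ρ) (i : Fin 4) (X : (ℤ × ℤ) × ZMod 4) : ℤ :=
  if ((chf h i).emb X.1).2 then -1 else 1

/-- **charge of a side of the chart `i`**, decreasing along a gap of charge `1` in the clockwise
order of the chart -/
noncomputable def Cg (cc : TG × ZMod 4 → ℤ) (cl : ℤ) (h : A.Sz ρ) (i : Fin 4)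
    (X : (ℤ × ℤ) × ZMod 4) : ℤ :=
  eps h i X * (cc (upp h i X) + if i = 2 ∧ X.1.1 < A.xl then cl else 0)

theorem pt_eq (h : A.Sz ρ) (i : Fin 4) (v : ℤ × ℤ) (a : ZMod 4) :
    (chf h i).pt v a = ((chf h i).emb v, a) := by
  unfold Ch.pt
  rw [chf_F]
  rfl

theorem un_pt (h : A.Sz ρ) (i : Fin 4) (v : ℤ × ℤ) (a : ZMod 4) :
    un (some ((chf h i).pt v a)) = some (upp h i (v, a)) := by
  rw [pt_eq]
  rfl

theorem dch_eq (ch : Port TG → ℝ) (O : Finset (Port TG)) (h : A.Sz ρ) (i : Fin 4) (v : ℤ × ℤ)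
    (a : ZMod 4) : dch ch O (some ((chf h i).pt v a)) =
      if (some (upp h i (v, a)) : Port TG) ∈ O then 0 else ch (some (upp h i (v, a))) := by
  unfold dch
  rw [un_pt]

/-! ### real ends -/

/-- a side facing a position seen by the chart outside its region -/
structure REnd (h : A.Sz ρ) (i : Fin 4) (B : Set (ℤ × ℤ)) (X : (ℤ × ℤ) × ZMod 4) : Prop where
  m : X.1 ∈ (chf h i).R
  n : X.1 + dir X.2 ∉ (chf h i).R
  b1 : X.1 ∈ B
  b2 : X.1 + dir X.2 ∈ B

theorem tH_emb (h : A.Sz ρ) (i : Fin 4) {v : ℤ × ℤ} (hv : v ∈ (chf h i).R) :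
    A.tH ((chf h i).emb v).1 := by
  fin_cases i
  · exact hv
  · exact A.mem_rf.1 hv
  · obtain ⟨x, y⟩ := v
    have h1 : (x, A.ry y) ∈ (A.picM _ h.r).P := (Pic.mem_R _).1 hv
    rw [mem_picM] at h1
    have hρ := h.pos
    have hr := h.r
    have hx := A.hx
    show A.tH (if x < A.xl then Sum.inr (A.R - (A.xl - x), A.ry y) else if x ≤ A.xr then
      Sum.inl (x, A.ry y) else Sum.inr (x - A.xr - 1, A.ry y))
    split_ifs with h2 h3
    · show (0 ≤ A.R - (A.xl - x) ∧ A.R - (A.xl - x) < A.R) ∧ A.y1 ≤ A.ry y ∧ A.ry y < A.y0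
      omega
    · exact A.row _ _ (by omega) (by omega) (by omega) (by omega)
    · show (0 ≤ x - A.xr - 1 ∧ x - A.xr - 1 < A.R) ∧ A.y1 ≤ A.ry y ∧ A.ry y < A.y0
      omega
  · obtain ⟨x, y⟩ := v
    have h1 : (x, A.ry y) ∈ A.picS.P := (Pic.mem_R _).1 hv
    exact A.mem_picS.1 h1

/-- ports that are free in the double are free in the half and not open -/
theorem free_dbl {t : TG} {k : Bool} {a : ZMod 4} (hf : Free A.Gd ((t, k), a)) :
    A.FrH t (Ka470.sg k a) ∧ (Ka470.sg k a = 1 → ¬ A.cutT t) := by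
  refine ⟨fun q hq => ?_, fun h1 hc => ?_⟩
  · have h2 := Gd.base k hq
    rw [sg_sg] at h2
    exact hf _ h2
  · have h2 : a = Ka470.sg k 1 := by rw [← h1, sg_sg]
    subst h2
    cases k
    · exact hf _ (Gd.c1 hc)
    · have h3 := Gd.c2 (A := A) hc
      rw [← Half.sg_three] at h3
      exact hf _ h3

theorem REnd.free {h : A.Sz ρ} {i : Fin 4} {B : Set (ℤ × ℤ)} (hB : A.Good ρ i B)
    {X : (ℤ × ℤ) × ZMod 4} (hX : REnd h i B X) :
    A.FrH (upp h i X).1 (upp h i X).2 ∧ ((upp h i X).2 = 1 → ¬ A.cutT (upp h i X).1) := by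
  obtain ⟨d, h1, -, h2⟩ := dir_mv X.2
  have hV := hB.view h X.1 hX.m hX.b1 d (by rw [h2]; exact hX.b2) (by rw [h2]; exact hX.n)
  rw [h1, pt_eq] at hV
  exact free_dbl hV

/-- **phase of a real end** -/
theorem phi_end {ch : Port TG → ℝ} {ps cc : TG × ZMod 4 → ℤ} {cl : ℤ} (H : PhH A ch ps cc cl)
    {O : Finset (Port TG)} (hO : OpenH A O) {h : A.Sz ρ} {i : Fin 4} {B : Set (ℤ × ℤ)}
    (hB : A.Good ρ i B) {X : (ℤ × ℤ) × ZMod 4} (hX : REnd h i B X) :
    Phi ch O cl h i X = Real.pi / 12 * ps (upp h i X) -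
      Real.pi / 3 * (eps h i X * Cg cc cl h i X : ℤ) := by
  obtain ⟨h1, h2⟩ := hX.free hB
  have ht : A.tH (upp h i X).1 := tH_emb h i hX.m
  unfold Phi
  rw [dch_eq]
  have h3 : (some (upp h i (X.1, X.2)) : Port TG) ∉ O := by
    intro hm
    have := (hO _ _ ht).1 hm
    exact h2 this.1 this.2
  rw [if_neg h3]
  have h4 : ch (some (upp h i (X.1, X.2))) = Real.pi / 12 * ps (upp h i X) -
      Real.pi / 3 * cc (upp h i X) := H.free _ _ ht h1 h2
  rw [h4]
  have h5 : eps h i X * Cg cc cl h i X =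
      cc (upp h i X) + if i = 2 ∧ X.1.1 < A.xl then cl else 0 := by
    unfold Cg eps
    split_ifs <;> ring
  rw [h5]
  unfold gg
  split_ifs <;> push_cast <;> ring

end Crest.Agent.R158.Lr158
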