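import Crest.Agent.R158.Nz8_399
import Crest.Agent.R158.Lr2_158
import Crest.Agent.R158.Cc1_841
import Crest.Agent.R158.Ka9_470

/-!
R158, block Q1d (helper470), part 11: the corners of a half environment as special points.

* `gcv`, `grf` : rotations of the convex and reflex corners
* `corner_ver` : a corner of the mirrored region is a macroscopic vertex or an end of the crosscut
* `XC` : the list of the corners of the second copy, `XC_ok` : they are admissible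
-/

set_option autoImplicit false

noncomputable section

namespace Crest.Agent.R158.Ka470

open Crest.Agent.R158.Nm211
open Crest.Agent.R158.Env664 (TG)
open Crest.Agent.R158.Cc841 (tA tB tC tD nt Vx mem_Vx cv rf dg)
open Crest.Agent.R158.Nz399 (Kind Tk mem_Tk qd pl rt patK patK_pl pl_Bv fe we Chg SpOk XOk Sp Fk
  Tf kd cnt mouth_l mouth_r)
open Crest.Agent.R158.Pt266 (dir)
open Crest.Agent.R158.Lr158 (REnd)

/-! ### rotated patterns -/

/-- rotated convex pattern -/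
def pcv (g : ℕ) (bx bz : Bool) : Bool :=
  match g with
  | 0 => bx && bz
  | 1 => !bx && bz
  | 2 => !bx && !bz
  | _ => bx && !bz

/-- rotated reflex pattern -/
def prf (g : ℕ) (bx bz : Bool) : Bool :=
  match g with
  | 0 => bx || bz
  | 1 => !bx || bz
  | 2 => !bx || !bz
  | _ => bx || !bz

theorem patK_cv (g : ℕ) (hg : g < 4) (bx bz : Bool) : patK .cv g bx bz = pcv g bx bz := by
  obtain rfl | rfl | rfl | rfl : g = 0 ∨ g = 1 ∨ g = 2 ∨ g = 3 := by omega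
  all_goals (clear hg; revert bx bz; decide)

theorem patK_rf (g : ℕ) (hg : g < 4) (bx bz : Bool) : patK .rf g bx bz = prf g bx bz := by
  obtain rfl | rfl | rfl | rfl : g = 0 ∨ g = 1 ∨ g = 2 ∨ g = 3 := by omega
  all_goals (clear hg; revert bx bz; decide)

/-- rotation of a convex corner -/
def gcv (R : Finset (ℤ × ℤ)) (p : ℤ × ℤ) : ℕ :=
  if tD p ∈ R then 0 else if tC p ∈ R then 1 else if tA p ∈ R then 2 else 3

/-- rotation of a reflex corner -/
def grf (R : Finset (ℤ × ℤ)) (p : ℤ × ℤ) : ℕ :=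
  if tA p ∉ R then 0 else if tB p ∉ R then 1 else if tD p ∉ R then 2 else 3

theorem gcv_lt (R : Finset (ℤ × ℤ)) (p : ℤ × ℤ) : gcv R p < 4 := by
  unfold gcv; split_ifs <;> omega

theorem grf_lt (R : Finset (ℤ × ℤ)) (p : ℤ × ℤ) : grf R p < 4 := by
  unfold grf; split_ifs <;> omega

/-- values of the pattern at the four tiles of the vertex -/
theorem pat_tiles {R : Finset (ℤ × ℤ)} {N : ℕ} (hN : 1 ≤ N) {p : ℤ × ℤ}
    {pat : Bool → Bool → Bool} (h : Patt R (Bv N p) p pat) :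
    (tD p ∈ R ↔ pat true true = true) ∧ (tC p ∈ R ↔ pat false true = true) ∧
      (tB p ∈ R ↔ pat true false = true) ∧ (tA p ∈ R ↔ pat false false = true) := by
  have hN' : (1 : ℤ) ≤ N := by exact_mod_cast hN
  have mem : ∀ u : ℤ × ℤ, p.1 - 1 ≤ u.1 → u.1 ≤ p.1 → p.2 - 1 ≤ u.2 → u.2 ≤ p.2 →
      u ∈ Bv N p := fun u h1 h2 h3 h4 => ⟨⟨by omega, by omega⟩, by omega, by omega⟩
  refine ⟨?_, ?_, ?_, ?_⟩
  · have := h (tD p) (mem _ (by simp [tD]) (by simp [tD]) (by simp [tD]) (by simp [tD]))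
    rw [this]
    simp [tD]
  · have := h (tC p) (mem _ (by simp [tC]) (by simp [tC]) (by simp [tC]) (by simp [tC]))
    rw [this]
    simp [tC]
  · have := h (tB p) (mem _ (by simp [tB]) (by simp [tB]) (by simp [tB]) (by simp [tB]))
    rw [this]
    simp [tB]
  · have := h (tA p) (mem _ (by simp [tA]) (by simp [tA]) (by simp [tA]) (by simp [tA]))
    rw [this]
    simp [tA]

theorem patt_congr {R : Finset (ℤ × ℤ)} {B : Set (ℤ × ℤ)} {p : ℤ × ℤ}
    {pat pat' : Bool → Bool → Bool} (h : Patt R B p pat) (he : ∀ a b, pat a b = pat' a b) :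
    Patt R B p pat' := by
  intro u hu
  rw [h u hu, he]

/-- **a vertex with one tile is a rotated convex corner** -/
theorem patt_cv {R : Finset (ℤ × ℤ)} {N : ℕ} (hN : 1 ≤ N) {p : ℤ × ℤ}
    {pat : Bool → Bool → Bool} (h : Patt R (Bv N p) p pat) (hp : p ∈ cv R) :
    Patt R (Bv N p) p (patK .cv (gcv R p)) := by
  obtain ⟨hD, hC, hB, hA⟩ := pat_tiles hN h
  have hnt := (Finset.mem_filter.1 hp).2
  unfold nt at hnt
  refine patt_congr h fun a b => ?_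
  rw [patK_cv _ (gcv_lt R p)]
  unfold gcv
  by_cases h1 : tD p ∈ R <;> by_cases h2 : tC p ∈ R <;> by_cases h3 : tB p ∈ R <;>
    by_cases h4 : tA p ∈ R <;> simp only [h1, h2, h3, h4, if_true, if_false, true_iff, false_iff,
      Bool.not_eq_true] at hnt hD hC hB hA ⊢ <;> first
    | omega
    | (cases a <;> cases b <;> simp [hA, hB, hC, hD, pcv])

/-- **a vertex with three tiles is a rotated reflex corner** -/
theorem patt_rfx {R : Finset (ℤ × ℤ)} {N : ℕ} (hN : 1 ≤ N) {p : ℤ × ℤ}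
    {pat : Bool → Bool → Bool} (h : Patt R (Bv N p) p pat) (hp : p ∈ rf R) :
    Patt R (Bv N p) p (patK .rf (grf R p)) := by
  obtain ⟨hD, hC, hB, hA⟩ := pat_tiles hN h
  have hnt := (Finset.mem_filter.1 hp).2
  unfold nt at hnt
  refine patt_congr h fun a b => ?_
  rw [patK_rf _ (grf_lt R p)]
  unfold grf
  by_cases h1 : tD p ∈ R <;> by_cases h2 : tC p ∈ R <;> by_cases h3 : tB p ∈ R <;>
    by_cases h4 : tA p ∈ R <;> simp only [h1, h2, h3, h4, if_true, if_false, true_iff, false_iff,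
      Bool.not_eq_true, not_true, not_false_iff] at hnt hD hC hB hA ⊢ <;> first
    | omega
    | (cases a <;> cases b <;> simp [hA, hB, hC, hD, prf])

/-- the converse: a rotated convex pattern is a vertex with one tile -/
theorem cv_of_patt {R : Finset (ℤ × ℤ)} {N : ℕ} (hN : 1 ≤ N) {p : ℤ × ℤ} {g : ℕ} (hg : g < 4)
    (h : Patt R (Bv N p) p (patK .cv g)) : p ∈ cv R ∧ gcv R p = g := by
  obtain ⟨hD, hC, hB, hA⟩ := pat_tiles hN h
  rw [patK_cv _ hg] at hD hC hB hA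
  obtain rfl | rfl | rfl | rfl : g = 0 ∨ g = 1 ∨ g = 2 ∨ g = 3 := by omega
  all_goals
    simp only [pcv, Bool.and_true, Bool.and_false, Bool.not_true,
      Bool.not_false, Bool.and_self, iff_true, Bool.false_eq_true, iff_false] at hD hC hB hA
  · refine ⟨Finset.mem_filter.2 ⟨mem_Vx.2 (Or.inr (Or.inr (Or.inr hD))), ?_⟩, ?_⟩
    · unfold nt; rw [if_neg hA, if_neg hB, if_neg hC, if_pos hD]
    · unfold gcv; rw [if_pos hD]
  · refine ⟨Finset.mem_filter.2 ⟨mem_Vx.2 (Or.inr (Or.inr (Or.inl hC))), ?_⟩, ?_⟩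
    · unfold nt; rw [if_neg hA, if_neg hB, if_pos hC, if_neg hD]
    · unfold gcv; rw [if_neg hD, if_pos hC]
  · refine ⟨Finset.mem_filter.2 ⟨mem_Vx.2 (Or.inl hA), ?_⟩, ?_⟩
    · unfold nt; rw [if_pos hA, if_neg hB, if_neg hC, if_neg hD]
    · unfold gcv; rw [if_neg hD, if_neg hC, if_pos hA]
  · refine ⟨Finset.mem_filter.2 ⟨mem_Vx.2 (Or.inr (Or.inl hB)), ?_⟩, ?_⟩
    · unfold nt; rw [if_neg hA, if_pos hB, if_neg hC, if_neg hD]
    · unfold gcv; rw [if_neg hD, if_neg hC, if_neg hA]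

/-! ### rotation of directions -/

theorem pl_dir (g : ℕ) (p v : ℤ × ℤ) (d : ZMod 4) :
    pl g p (v + dir d) = pl g p v + dir (d - (g : ZMod 4)) := by
  have key : ∀ g : ℕ, rt^[g] (v + dir d) = rt^[g] v + dir (d - (g : ZMod 4)) := by
    intro g
    induction g with
    | zero => simp
    | succ g ih =>
      rw [Function.iterate_succ_apply', Function.iterate_succ_apply', ih]
      have e : d - ((g + 1 : ℕ) : ZMod 4) = (d - (g : ZMod 4)) - 1 := by push_cast; ring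
      rw [e]
      generalize d - (g : ZMod 4) = d'
      generalize rt^[g] v = w
      have h1 : dir (d' - 1) = (-(dir d').2, (dir d').1) := by revert d'; decide
      rw [h1]
      unfold rt
      ext
      · simp; ring
      · simp
  unfold pl
  rw [key]
  abel

/-! ### the corners are macroscopic vertices -/

theorem ediv_pred {L x : ℤ} (hL : 0 < L) (h : ¬ L ∣ x) : (x - 1) / L = x / L := by
  have h1 := Int.mul_ediv_add_emod x L
  have h2 := Int.emod_nonneg x hL.ne'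
  have h3 := Int.emod_lt_of_pos x hL
  have h4 : x % L ≠ 0 := fun h5 => h (Int.dvd_of_emod_eq_zero h5)
  refine (Env664.div_iff hL _ _).2 ⟨?_, ?_⟩
  · have : x / L * L = L * (x / L) := mul_comm _ _
    omega
  · have : x / L * L = L * (x / L) := mul_comm _ _
    omega

/-- not a corner -/
def Flat (H : Finset (ℤ × ℤ)) (p : ℤ × ℤ) : Prop :=
  ((tA p ∈ H ↔ tB p ∈ H) ∧ (tC p ∈ H ↔ tD p ∈ H)) ∨
    ((tA p ∈ H ↔ tC p ∈ H) ∧ (tB p ∈ H ↔ tD p ∈ H))

theorem not_flat {H : Finset (ℤ × ℤ)} {p : ℤ × ℤ} (hp : p ∈ cv H ∨ p ∈ rf H ∨ p ∈ dg H) :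
    ¬ Flat H p := by
  unfold Flat
  rcases hp with hp | hp | hp
  · have h := (Finset.mem_filter.1 hp).2
    unfold nt at h
    split_ifs at h <;> simp_all
  · have h := (Finset.mem_filter.1 hp).2
    unfold nt at h
    split_ifs at h <;> simp_all
  · have h := (Finset.mem_filter.1 hp).2
    tauto

namespace Half

variable {A : Half}

theorem corner_ver {L a b c : ℤ} (m : A.Mc L a b c) {p : ℤ × ℤ} (hp : ¬ Flat A.H p) :
    (L ∣ p.1 ∧ L ∣ p.2) ∨ p = (A.xl, A.y0) ∨ p = (A.xr + 1, A.y0) := by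
  have hL := m.hL
  have same : ∀ t t' : ℤ × ℤ, t.1 / L = t'.1 / L → t.2 / L = t'.2 / L →
      (A.xl ≤ t.1 → t.1 ≤ A.xr → t.2 / L = c → (t.2 < A.y0 ↔ t'.2 < A.y0)) →
      (A.xl ≤ t'.1 → t'.1 ≤ A.xr → t'.2 / L = c → (t.2 < A.y0 ↔ t'.2 < A.y0)) →
      (t ∈ A.H ↔ t' ∈ A.H) := fun t t' h1 h2 h3 h4 =>
    ⟨m.same t t' h1 h2 h3, m.same t' t h1.symm h2.symm fun g1 g2 g3 => (h4 g1 g2 g3).symm⟩
  have h1 : L ∣ p.1 := by
    by_contra hcon
    have e := ediv_pred hL hcon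
    exact hp (Or.inl ⟨same _ _ e rfl (fun _ _ _ => Iff.rfl) (fun _ _ _ => Iff.rfl),
      same _ _ e rfl (fun _ _ _ => Iff.rfl) (fun _ _ _ => Iff.rfl)⟩)
  by_cases h2 : L ∣ p.2
  · exact Or.inl ⟨h1, h2⟩
  right
  have e := ediv_pred hL h2
  have h3 : p.2 = A.y0 := by
    by_contra hcon
    refine hp (Or.inr ⟨same _ _ rfl e (fun _ _ _ => ?_) (fun _ _ _ => ?_),
      same _ _ rfl e (fun _ _ _ => ?_) (fun _ _ _ => ?_)⟩) <;>
      (simp only [tA, tB, tC, tD]; omega)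
  have hx := A.hx
  have hY := A.hY
  have h01 := A.h1
  have hW := A.hW
  obtain ⟨x, y⟩ := p
  simp only at h3 e
  subst h3
  simp only [Prod.mk.injEq, and_true]
  by_cases g1 : A.xl ≤ x - 1 ∧ x - 1 ≤ A.xr <;> by_cases g2 : A.xl ≤ x ∧ x ≤ A.xr
  · exfalso
    refine hp (Or.inl ⟨iff_of_true ?_ ?_, iff_of_false ?_ ?_⟩)
    · exact A.row _ _ (by omega) (by omega) (by omega) (by omega)
    · exact A.row _ _ (by omega) (by omega) (by omega) (by omega)
    · exact A.top _ _ (by omega) (by omega) (by omega) (by omega)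
    · exact A.top _ _ (by omega) (by omega) (by omega) (by omega)
  · right; omega
  · left; omega
  · exfalso
    refine hp (Or.inr ⟨same _ _ rfl e (fun k1 k2 _ => absurd ⟨k1, k2⟩ g1)
      (fun k1 k2 _ => absurd ⟨k1, k2⟩ g1),
      same _ _ rfl e (fun k1 k2 _ => absurd ⟨k1, k2⟩ g2) (fun k1 k2 _ => absurd ⟨k1, k2⟩ g2)⟩)

/-- reflection of vertices -/
def mir (A : Half) (p : ℤ × ℤ) : ℤ × ℤ := (p.1, 2 * A.y0 - p.2)

theorem mir_mir (p : ℤ × ℤ) : A.mir (A.mir p) = p := by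
  obtain ⟨x, y⟩ := p
  simp [mir]

/-- the mirrored region -/
def Hm (A : Half) : Finset (ℤ × ℤ) := A.H.image A.rf

theorem mem_Hm {u : ℤ × ℤ} : u ∈ A.Hm ↔ A.rf u ∈ A.H := A.mem_rf

theorem tiles_mir (p : ℤ × ℤ) : (tA p ∈ A.Hm ↔ tC (A.mir p) ∈ A.H) ∧
    (tC p ∈ A.Hm ↔ tA (A.mir p) ∈ A.H) ∧ (tB p ∈ A.Hm ↔ tD (A.mir p) ∈ A.H) ∧
    (tD p ∈ A.Hm ↔ tB (A.mir p) ∈ A.H) := by
  have e1 : A.rf (tA p) = tC (A.mir p) := by
    simp only [Half.rf, tA, tC, mir, Prod.mk.injEq]; constructor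
    · trivial
    · ring
  have e2 : A.rf (tC p) = tA (A.mir p) := by
    simp only [Half.rf, tA, tC, mir, Prod.mk.injEq]; constructor
    · trivial
    · ring
  have e3 : A.rf (tB p) = tD (A.mir p) := by
    simp only [Half.rf, tB, tD, mir, Prod.mk.injEq]; constructor
    · trivial
    · ring
  have e4 : A.rf (tD p) = tB (A.mir p) := by
    simp only [Half.rf, tB, tD, mir, Prod.mk.injEq]; constructor
    · trivial
    · ring
  rw [mem_Hm, mem_Hm, mem_Hm, mem_Hm, e1, e2, e3, e4]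
  exact ⟨Iff.rfl, Iff.rfl, Iff.rfl, Iff.rfl⟩

theorem flat_mir {p : ℤ × ℤ} (h : Flat A.H (A.mir p)) : Flat A.Hm p := by
  obtain ⟨h1, h2, h3, h4⟩ := A.tiles_mir p
  unfold Flat at h ⊢
  rw [h1, h2, h3, h4]
  tauto

theorem nt_mir (p : ℤ × ℤ) : nt A.Hm p = nt A.H (A.mir p) := by
  obtain ⟨h1, h2, h3, h4⟩ := A.tiles_mir p
  unfold nt
  simp only [h1, h2, h3, h4]
  ring

theorem dg_mir {p : ℤ × ℤ} (h : p ∈ dg A.Hm) : A.mir p ∈ dg A.H := by
  obtain ⟨h1, h2, h3, h4⟩ := A.tiles_mir p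
  have h5 := (Finset.mem_filter.1 h).2
  rw [h1, h2, h3, h4] at h5
  refine Finset.mem_filter.2 ⟨mem_Vx.2 ?_, ?_⟩ <;> tauto

/-- **the corners of the mirrored region** -/
theorem corner_ver' {L a b c : ℤ} (m : A.Mc L a b c) {p : ℤ × ℤ}
    (hp : p ∈ cv A.Hm ∨ p ∈ Cc841.rf A.Hm ∨ p ∈ dg A.Hm) :
    p ∈ A.Ver L 1 ∨ p = (A.xl, A.y0) ∨ p = (A.xr + 1, A.y0) := by
  have h1 := not_flat hp
  rcases corner_ver m fun h => h1 (flat_mir h) with h | h | h
  · exact Or.inl h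
  · right; left
    rw [← A.mir_mir p, h]
    simp only [mir, Prod.mk.injEq, true_and]; ring
  · right; right
    rw [← A.mir_mir p, h]
    simp only [mir, Prod.mk.injEq, true_and]; ring

theorem tiles_l : tA (A.xl, A.y0) ∉ A.H ∧ tB (A.xl, A.y0) ∈ A.H ∧ tC (A.xl, A.y0) ∉ A.H ∧
    tD (A.xl, A.y0) ∉ A.H := by
  have hx := A.hx
  have hY := A.hY
  have h01 := A.h1
  have hW := A.hW
  refine ⟨?_, ?_, ?_, ?_⟩
  · exact A.left _ _ (by omega) (by omega) (by omega) (by omega)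
  · exact A.row _ _ (by omega) (by omega) (by omega) (by omega)
  · exact A.left _ _ (by omega) (by omega) (by omega) (by omega)
  · exact A.top _ _ (by omega) (by omega) (by omega) (by omega)

theorem tiles_r : tA (A.xr + 1, A.y0) ∈ A.H ∧ tB (A.xr + 1, A.y0) ∉ A.H ∧
    tC (A.xr + 1, A.y0) ∉ A.H ∧ tD (A.xr + 1, A.y0) ∉ A.H := by
  have hx := A.hx
  have hY := A.hY
  have h01 := A.h1
  have hW := A.hW
  refine ⟨?_, ?_, ?_, ?_⟩
  · exact A.row _ _ (by omega) (by omega) (by omega) (by omega)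
  · exact A.right _ _ (by omega) (by omega) (by omega) (by omega)
  · exact A.top _ _ (by omega) (by omega) (by omega) (by omega)
  · exact A.right _ _ (by omega) (by omega) (by omega) (by omega)

theorem mir_l : A.mir (A.xl, A.y0) = (A.xl, A.y0) := by
  simp only [mir, Prod.mk.injEq, true_and]; ring

theorem mir_r : A.mir (A.xr + 1, A.y0) = (A.xr + 1, A.y0) := by
  simp only [mir, Prod.mk.injEq, true_and]; ring

theorem mem_cv_iff {R : Finset (ℤ × ℤ)} {p : ℤ × ℤ} : p ∈ cv R ↔ nt R p = 1 := by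
  unfold cv
  rw [Finset.mem_filter]
  refine ⟨fun h => h.2, fun h => ⟨mem_Vx.2 ?_, h⟩⟩
  by_contra hcon
  push Not at hcon
  unfold nt at h
  rw [if_neg hcon.1, if_neg hcon.2.1, if_neg hcon.2.2.1, if_neg hcon.2.2.2] at h
  omega

theorem mem_rf_iff {R : Finset (ℤ × ℤ)} {p : ℤ × ℤ} : p ∈ Cc841.rf R ↔ nt R p = 3 := by
  unfold Cc841.rf
  rw [Finset.mem_filter]
  refine ⟨fun h => h.2, fun h => ⟨mem_Vx.2 ?_, h⟩⟩
  by_contra hcon
  push Not at hcon
  unfold nt at h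
  rw [if_neg hcon.1, if_neg hcon.2.1, if_neg hcon.2.2.1, if_neg hcon.2.2.2] at h
  omega

theorem cut_l : (A.xl, A.y0) ∈ cv A.Hm := by
  obtain ⟨h1, h2, h3, h4⟩ := A.tiles_l
  rw [mem_cv_iff, nt_mir, mir_l]
  unfold nt
  rw [if_neg h1, if_pos h2, if_neg h3, if_neg h4]

theorem cut_r : (A.xr + 1, A.y0) ∈ cv A.Hm := by
  obtain ⟨h1, h2, h3, h4⟩ := A.tiles_r
  rw [mem_cv_iff, nt_mir, mir_r]
  unfold nt
  rw [if_pos h1, if_neg h2, if_neg h3, if_neg h4]

theorem ver_of_rf {L a b c : ℤ} (m : A.Mc L a b c) {p : ℤ × ℤ} (hp : p ∈ Cc841.rf A.Hm) :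
    p ∈ A.Ver L 1 := by
  rcases corner_ver' m (Or.inr (Or.inl hp)) with h | h | h
  · exact h
  · have h1 := mem_cv_iff.1 A.cut_l
    rw [mem_rf_iff, h, h1] at hp
    omega
  · have h1 := mem_cv_iff.1 A.cut_r
    rw [mem_rf_iff, h, h1] at hp
    omega

theorem ver_of_cv {L a b c : ℤ} (m : A.Mc L a b c) {p : ℤ × ℤ} (hp : p ∈ cv A.Hm)
    (h1 : p ≠ (A.xl, A.y0)) (h2 : p ≠ (A.xr + 1, A.y0)) : p ∈ A.Ver L 1 :=
  (corner_ver' m (Or.inl hp)).resolve_right fun h => h.elim h1 h2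

/-- **the corners of the second copy** -/
def XC (A : Half) : Finset Sp :=
  (((cv A.Hm).erase (A.xl, A.y0)).erase (A.xr + 1, A.y0)).image
      (fun p => (⟨1, .cv, gcv A.Hm p, p⟩ : Sp)) ∪
    ((Cc841.rf A.Hm).image (fun p => (⟨1, .rf, grf A.Hm p, p⟩ : Sp)) ∪
      {⟨2, .rf, 3, (A.xl, 2 * A.y0 - A.y1)⟩, ⟨2, .rf, 2, (A.xr + 1, 2 * A.y0 - A.y1)⟩})

theorem mem_XC {x : Sp} : x ∈ A.XC ↔
    (∃ p, p ∈ cv A.Hm ∧ p ≠ (A.xl, A.y0) ∧ p ≠ (A.xr + 1, A.y0) ∧
      x = ⟨1, .cv, gcv A.Hm p, p⟩) ∨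
    (∃ p, p ∈ Cc841.rf A.Hm ∧ x = ⟨1, .rf, grf A.Hm p, p⟩) ∨
    x = ⟨2, .rf, 3, (A.xl, 2 * A.y0 - A.y1)⟩ ∨ x = ⟨2, .rf, 2, (A.xr + 1, 2 * A.y0 - A.y1)⟩ := by
  unfold XC
  simp only [Finset.mem_union, Finset.mem_image, Finset.mem_erase, Finset.mem_insert,
    Finset.mem_singleton]
  constructor
  · rintro (⟨p, ⟨h1, h2, h3⟩, rfl⟩ | ⟨p, h1, rfl⟩ | h | h)
    · exact Or.inl ⟨p, h3, h2, h1, rfl⟩
    · exact Or.inr (Or.inl ⟨p, h1, rfl⟩)
    · exact Or.inr (Or.inr (Or.inl h))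
    · exact Or.inr (Or.inr (Or.inr h))
  · rintro (⟨p, h1, h2, h3, rfl⟩ | ⟨p, h1, rfl⟩ | h | h)
    · exact Or.inl ⟨p, ⟨h3, h2, h1⟩, rfl⟩
    · exact Or.inr (Or.inl ⟨p, h1, rfl⟩)
    · exact Or.inr (Or.inr (Or.inl h))
    · exact Or.inr (Or.inr (Or.inr h))

/-- location of the members -/
theorem XC_loc {L a b c : ℤ} (m : A.Mc L a b c) {x : Sp} (hx : x ∈ A.XC) :
    (x.i = 1 ∧ x.p ∈ A.Ver L 1 ∧ (x.f = .cv ∨ x.f = .rf)) ∨
      (x.i = 2 ∧ x.f = .rf ∧
        (x.p = (A.xl, 2 * A.y0 - A.y1) ∨ x.p = (A.xr + 1, 2 * A.y0 - A.y1))) := by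
  rcases mem_XC.1 hx with ⟨p, h1, h2, h3, rfl⟩ | ⟨p, h1, rfl⟩ | rfl | rfl
  · exact Or.inl ⟨rfl, ver_of_cv m h1 h2 h3, Or.inl rfl⟩
  · exact Or.inl ⟨rfl, ver_of_rf m h1, Or.inr rfl⟩
  · exact Or.inr ⟨rfl, rfl, Or.inl rfl⟩
  · exact Or.inr ⟨rfl, rfl, Or.inr rfl⟩

/-- members at the same place of the same chart are equal -/
theorem XC_inj {x y : Sp} (hx : x ∈ A.XC) (hy : y ∈ A.XC) (hi : x.i = y.i) (hp : x.p = y.p) :
    x = y := by
  have hlr := A.hx
  rcases mem_XC.1 hx with ⟨p, h1, h2, h3, rfl⟩ | ⟨p, h1, rfl⟩ | rfl | rfl <;>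
    rcases mem_XC.1 hy with ⟨q, g1, g2, g3, rfl⟩ | ⟨q, g1, rfl⟩ | rfl | rfl
  · cases hp; rfl
  · cases hp
    rw [mem_cv_iff] at h1
    rw [mem_rf_iff, h1] at g1
    omega
  · cases hi
  · cases hi
  · cases hp
    rw [mem_cv_iff] at g1
    rw [mem_rf_iff, g1] at h1
    omega
  · cases hp; rfl
  · cases hi
  · cases hi
  · cases hi
  · cases hi
  · rfl
  · have := congrArg Prod.fst hp
    simp only at this
    omega
  · cases hi
  · cases hi
  · have := congrArg Prod.fst hp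
    simp only at this
    omega
  · rfl

end Half

end Crest.Agent.R158.Ka470
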