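import Crest.Agent.R158.Ka11_470
import Crest.Agent.R158.Cc3_841

/-!
R158, block Q1d (helper470), part 12: the corners of the second copy are admissible special points.

* `rend_fe`, `rend_we` : ends of the rotated floor and wall are real
* `CvC`, `RfC'` : charges across the vertices of the second copy; `XC_ok`
* `XC_comp`, `XC_nodg`, `cnt_cv`, `cnt_rf`, `cnt_le`, `card_XC`
-/

set_option autoImplicit false

noncomputable section

namespace Crest.Agent.R158.Ka470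

open Crest.Agent.R158.Nm211
open Crest.Agent.R158.Env664 (TG D mem_D)
open Crest.Agent.R158.Cc841 (tA tB tC tD nt Vx mem_Vx cv dg HConn cvh mem_cvh)
open Crest.Agent.R158.Nz399 (Kind Tk mem_Tk qd pl rt patK patK_pl pl_Bv fe we Chg SpOk XOk Sp Fk
  Tf kd cnt mouth_l mouth_r)
open Crest.Agent.R158.Pt266 (dir)
open Crest.Agent.R158.Lr158 (REnd)

namespace Half

variable {A : Half} {ρ : ℕ}

theorem pl_down (g : ℕ) (p : ℤ × ℤ) (x : ℤ) :
    pl g p (x, 0) + dir (3 - (g : ZMod 4)) = pl g p (x, -1) := by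
  rw [← pl_dir, Lr158.dir3]
  simp

theorem pl_left (g : ℕ) (p : ℤ × ℤ) (y : ℤ) :
    pl g p (0, y) + dir (-(g : ZMod 4)) = pl g p (-1, y) := by
  rw [show -(g : ZMod 4) = 0 - (g : ZMod 4) by ring, ← pl_dir, Lr158.dir0]
  simp

/-- ends of the floor are real -/
theorem rend_fe {h : A.Sz ρ} {i : Fin 4} {N : ℕ} {p : ℤ × ℤ} {k : Kind} {g : ℕ}
    (hP : Patt (chf h i).R (Bv N p) p (patK k g)) {x : ℤ} (h1 : -(N : ℤ) ≤ x) (h2 : x < N)
    (h3 : qd k (x, 0)) (h4 : ¬ qd k (x, -1)) : REnd h i (Bv N p) (fe g p x) := by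
  have b1 : pl g p (x, 0) ∈ Bv N p :=
    pl_Bv g p ⟨⟨h1, h2⟩, by simp only; omega, by simp only; omega⟩
  have b2 : pl g p (x, -1) ∈ Bv N p :=
    pl_Bv g p ⟨⟨h1, h2⟩, by simp only; omega, by simp only; omega⟩
  refine ⟨(hP _ b1).2 ((patK_pl k g p _).2 h3), ?_, b1, ?_⟩
  · show pl g p (x, 0) + dir (3 - (g : ZMod 4)) ∉ _
    rw [pl_down]
    exact fun hm => h4 ((patK_pl k g p _).1 ((hP _ b2).1 hm))
  · show pl g p (x, 0) + dir (3 - (g : ZMod 4)) ∈ _
    rw [pl_down]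
    exact b2

/-- ends of the wall are real -/
theorem rend_we {h : A.Sz ρ} {i : Fin 4} {N : ℕ} {p : ℤ × ℤ} {k : Kind} {g : ℕ}
    (hP : Patt (chf h i).R (Bv N p) p (patK k g)) {y : ℤ} (h1 : -(N : ℤ) ≤ y) (h2 : y < N)
    (h3 : qd k (0, y)) (h4 : ¬ qd k (-1, y)) : REnd h i (Bv N p) (we g p y) := by
  have b1 : pl g p (0, y) ∈ Bv N p :=
    pl_Bv g p ⟨⟨by simp only; omega, by simp only; omega⟩, h1, h2⟩
  have b2 : pl g p (-1, y) ∈ Bv N p :=
    pl_Bv g p ⟨⟨by simp only; omega, by simp only; omega⟩, h1, h2⟩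
  refine ⟨(hP _ b1).2 ((patK_pl k g p _).2 h3), ?_, b1, ?_⟩
  · show pl g p (0, y) + dir (-(g : ZMod 4)) ∉ _
    rw [pl_left]
    exact fun hm => h4 ((patK_pl k g p _).1 ((hP _ b2).1 hm))
  · show pl g p (0, y) + dir (-(g : ZMod 4)) ∈ _
    rw [pl_left]
    exact b2

/-- **charges across a convex vertex of the second copy** -/
def CvC (h : A.Sz ρ) (L : ℤ) (C : Fin 4 → (ℤ × ℤ) × ZMod 4 → ℤ) : Prop :=
  ∀ p ∈ A.Ver L 1, ∀ g < 4, Patt (chf h 1).R (Bv (5 * ρ) p) p (patK .cv g) →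
    ∀ a b : ℤ, 0 ≤ a → a < ((5 * ρ : ℕ) : ℤ) → 0 ≤ b → b < ((5 * ρ : ℕ) : ℤ) →
      C 1 (fe g p a) = C 1 (we g p b)

/-- **charges across a reflex vertex of the second copy** (= 808's `RfC`) -/
def RfC' (h : A.Sz ρ) (L : ℤ) (C : Fin 4 → (ℤ × ℤ) × ZMod 4 → ℤ) : Prop :=
  ∀ i : Fin 4, ∀ p ∈ A.Ver L i, i = 1 ∨ (i = 2 ∧ p.2 = 2 * A.y0 - A.y1) → ∀ g < 4,
    Patt (chf h i).R (Bv (5 * ρ) p) p (patK .rf g) → ∀ a b : ℤ, -((5 * ρ : ℕ) : ℤ) ≤ a →
      a < 0 → -((5 * ρ : ℕ) : ℤ) ≤ b → b < 0 → C i (we g p a) = C i (fe g p b)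

/-- charges that are constant on the real ends around the corners -/
theorem cvC_of {h : A.Sz ρ} {L : ℤ} {C : Fin 4 → (ℤ × ℤ) × ZMod 4 → ℤ}
    (hC : ∀ p ∈ A.Ver L 1, ∀ g < 4, Patt (chf h 1).R (Bv (5 * ρ) p) p (patK .cv g) →
      ∀ X Y, REnd h 1 (Bv (5 * ρ) p) X → REnd h 1 (Bv (5 * ρ) p) Y → C 1 X = C 1 Y) :
    CvC h L C := by
  intro p hp g hg hP a b ha ha' hb hb'
  refine hC p hp g hg hP _ _ (rend_fe hP ?_ ?_ ?_ ?_) (rend_we hP ?_ ?_ ?_ ?_)
  · omega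
  · omega
  · exact ⟨ha, le_refl _⟩
  · rintro ⟨-, h2⟩; simp only at h2; omega
  · omega
  · omega
  · exact ⟨le_refl _, hb⟩
  · rintro ⟨h1, -⟩; simp only at h1; omega

theorem rfC_of {h : A.Sz ρ} {L : ℤ} {C : Fin 4 → (ℤ × ℤ) × ZMod 4 → ℤ}
    (hC : ∀ i : Fin 4, ∀ p ∈ A.Ver L i, i = 1 ∨ (i = 2 ∧ p.2 = 2 * A.y0 - A.y1) → ∀ g < 4,
      Patt (chf h i).R (Bv (5 * ρ) p) p (patK .rf g) →
      ∀ X Y, REnd h i (Bv (5 * ρ) p) X → REnd h i (Bv (5 * ρ) p) Y → C i X = C i Y) :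
    RfC' h L C := by
  intro i p hp hi g hg hP a b ha ha' hb hb'
  refine hC i p hp hi g hg hP _ _ (rend_we hP ?_ ?_ ?_ ?_) (rend_fe hP ?_ ?_ ?_ ?_)
  · omega
  · omega
  · exact Or.inl (le_refl _)
  · rintro (h1 | h1) <;> simp only at h1 <;> omega
  · omega
  · omega
  · exact Or.inr (le_refl _)
  · rintro (h1 | h1) <;> simp only at h1 <;> omega

theorem chg_cv {h : A.Sz ρ} {L : ℤ} {C : Fin 4 → (ℤ × ℤ) × ZMod 4 → ℤ} (hC : CvC h L C) {n : ℕ}
    (hn : n ≤ 5 * ρ) {p : ℤ × ℤ} (hp : p ∈ A.Ver L 1) {g : ℕ} (hg : g < 4)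
    (hP : Patt (chf h 1).R (Bv (5 * ρ) p) p (patK .cv g)) : Chg (C 1) n g p .cv true :=
  ⟨rfl, fun a b ha ha' hb hb' => hC p hp g hg hP a b ha (by omega) hb (by omega)⟩

theorem chg_rf {h : A.Sz ρ} {L : ℤ} {C : Fin 4 → (ℤ × ℤ) × ZMod 4 → ℤ} (hC : RfC' h L C) {n : ℕ}
    (hn : n ≤ 5 * ρ) {i : Fin 4} {p : ℤ × ℤ} (hp : p ∈ A.Ver L i)
    (hi : i = 1 ∨ (i = 2 ∧ p.2 = 2 * A.y0 - A.y1)) {g : ℕ} (hg : g < 4)
    (hP : Patt (chf h i).R (Bv (5 * ρ) p) p (patK .rf g)) : Chg (C i) n g p .rf true :=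
  ⟨rfl, fun a b ha ha' hb hb' => hC i p hp hi g hg hP a b (by omega) ha' (by omega) hb'⟩

theorem R1 (h : A.Sz ρ) : (chf h 1).R = A.Hm := rfl

theorem copy1 (h : A.Sz ρ) (v : ℤ × ℤ) : ((chf h 1).emb v).2 = true := rfl

theorem copy2 (h : A.Sz ρ) {v : ℤ × ℤ} (hv : A.y0 ≤ v.2) : ((chf h 2).emb v).2 = true :=
  A.kk_ge hv

/-- **the corners are admissible** -/
theorem XC_ok {L a b c : ℤ} (m : A.Mc L a b c) (h : A.Sz ρ) (h' : A.Sz' ρ L)
    (h5 : 5 * (ρ : ℤ) ≤ A.y0 - A.y1) {C : Fin 4 → (ℤ × ℤ) × ZMod 4 → ℤ} (hC1 : CvC h L C)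
    (hC2 : RfC' h L C) {x : Sp} (hx : x ∈ A.XC) : SpOk h C x := by
  have hρ := h.pos
  have e3 : 3 * ρ ≤ 5 * ρ := by omega
  have e5 : 1 ≤ 5 * ρ := by omega
  rcases mem_XC.1 hx with ⟨p, h1, h2, h3, rfl⟩ | ⟨p, h1, rfl⟩ | rfl | rfl
  · have hv := ver_of_cv m h1 h2 h3
    obtain ⟨hg, pat, hpat⟩ := vert m h h' hv
    have hP : Patt (chf h 1).R (Bv (5 * ρ) p) p (patK .cv (gcv A.Hm p)) := patt_cv e5 hpat h1
    exact ⟨hg, hP, true, fun u _ _ => rfl, chg_cv hC1 e3 hv (gcv_lt _ _) hP⟩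
  · have hv := ver_of_rf m h1
    obtain ⟨hg, pat, hpat⟩ := vert m h h' hv
    have hP : Patt (chf h 1).R (Bv (5 * ρ) p) p (patK .rf (grf A.Hm p)) := patt_rfx e5 hpat h1
    exact ⟨hg, hP, true, fun u _ _ => rfl, chg_rf hC2 e3 hv (Or.inl rfl) (grf_lt _ _) hP⟩
  · obtain ⟨hg, hP⟩ := mouth_l m h h'
    refine ⟨hg, hP, true, fun u hu _ => copy2 h ?_, chg_rf (i := 2) hC2 e3
      ⟨Or.inl rfl, Or.inr rfl⟩ (Or.inr ⟨rfl, rfl⟩) (g := 3) (by norm_num) hP⟩
    obtain ⟨-, h1, -⟩ := hu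
    push_cast at h1
    omega
  · obtain ⟨hg, hP⟩ := mouth_r m h h'
    refine ⟨hg, hP, true, fun u hu _ => copy2 h ?_, chg_rf (i := 2) hC2 e3
      ⟨Or.inr rfl, Or.inr rfl⟩ (Or.inr ⟨rfl, rfl⟩) (g := 2) (by norm_num) hP⟩
    obtain ⟨-, h1, -⟩ := hu
    push_cast at h1
    omega

/-- **all the convex corners of the second copy are in the list** -/
theorem XC_comp {L a b c : ℤ} (m : A.Mc L a b c) (h : A.Sz ρ) {p : ℤ × ℤ} (hp : p ∈ A.Ver L 1)
    {g : ℕ} (hg : g < 4) (hP : Patt (chf h 1).R (Bv (5 * ρ) p) p (patK .cv g)) :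
    (⟨1, .cv, g, p⟩ : Sp) ∈ A.XC := by
  have hρ := h.pos
  obtain ⟨h1, h2⟩ := cv_of_patt (by omega) hg hP
  have h3 := hp.2
  refine mem_XC.2 (Or.inl ⟨p, h1, ?_, ?_, ?_⟩)
  · rintro rfl
    refine Cc841.not_mac m ?_
    simp only at h3
    rwa [show 2 * A.y0 - A.y0 = A.y0 by ring] at h3
  · rintro rfl
    refine Cc841.not_mac m ?_
    simp only at h3
    rwa [show 2 * A.y0 - A.y0 = A.y0 by ring] at h3
  · have h4 : gcv A.Hm p = g := h2
    rw [h4]

/-! ### counts -/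

theorem mem_mir {S : Finset (ℤ × ℤ)} {p : ℤ × ℤ} : p ∈ S.image A.mir ↔ A.mir p ∈ S := by
  rw [Finset.mem_image]
  constructor
  · rintro ⟨q, hq, rfl⟩
    rwa [A.mir_mir]
  · intro h
    exact ⟨_, h, A.mir_mir p⟩

theorem card_mir (S : Finset (ℤ × ℤ)) : (S.image A.mir).card = S.card :=
  Finset.card_image_of_injective _ fun p q e => by
    rw [← A.mir_mir p, e, A.mir_mir]

theorem erase_mir : ((cv A.Hm).erase (A.xl, A.y0)).erase (A.xr + 1, A.y0) = (cvh A).image A.mir := by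
  ext p
  have e : ∀ q : ℤ × ℤ, A.mir q = q → (A.mir p = q ↔ p = q) := fun q hq =>
    ⟨fun h => by rw [← A.mir_mir p, h, hq], fun h => by rw [h, hq]⟩
  rw [mem_mir, mem_cvh, Finset.mem_erase, Finset.mem_erase, mem_cv_iff, nt_mir, Ne, Ne, Ne, Ne,
    e _ A.mir_l, e _ A.mir_r]
  tauto

theorem rf_mir : Cc841.rf A.Hm = (Cc841.rf A.H).image A.mir := by
  ext p
  rw [mem_mir, mem_rf_iff, mem_rf_iff, nt_mir]

theorem cnt_cv : cnt A.XC .cv = (cvh A).card := by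
  have e : A.XC.filter (fun x => x.f = .cv) =
      (((cv A.Hm).erase (A.xl, A.y0)).erase (A.xr + 1, A.y0)).image
        (fun p => (⟨1, .cv, gcv A.Hm p, p⟩ : Sp)) := by
    ext x
    rw [Finset.mem_filter, mem_XC, Finset.mem_image]
    constructor
    · rintro ⟨⟨p, h1, h2, h3, rfl⟩ | ⟨p, h1, rfl⟩ | rfl | rfl, h4⟩
      · exact ⟨p, Finset.mem_erase.2 ⟨h3, Finset.mem_erase.2 ⟨h2, h1⟩⟩, rfl⟩
      all_goals cases h4
    · rintro ⟨p, hp, rfl⟩
      obtain ⟨h3, h4⟩ := Finset.mem_erase.1 hp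
      obtain ⟨h2, h1⟩ := Finset.mem_erase.1 h4
      exact ⟨Or.inl ⟨p, h1, h2, h3, rfl⟩, rfl⟩
  unfold cnt
  rw [e, Finset.card_image_of_injective, erase_mir, card_mir]
  intro p q hpq
  exact congrArg Sp.p hpq

theorem cnt_rf : cnt A.XC .rf = (Cc841.rf A.H).card + 2 := by
  have e : A.XC.filter (fun x => x.f = .rf) =
      (Cc841.rf A.Hm).image (fun p => (⟨1, .rf, grf A.Hm p, p⟩ : Sp)) ∪
        {⟨2, .rf, 3, (A.xl, 2 * A.y0 - A.y1)⟩, ⟨2, .rf, 2, (A.xr + 1, 2 * A.y0 - A.y1)⟩} := by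
    ext x
    rw [Finset.mem_filter, mem_XC, Finset.mem_union, Finset.mem_image, Finset.mem_insert,
      Finset.mem_singleton]
    constructor
    · rintro ⟨⟨p, h1, h2, h3, rfl⟩ | ⟨p, h1, rfl⟩ | rfl | rfl, h4⟩
      · cases h4
      · exact Or.inl ⟨p, h1, rfl⟩
      · exact Or.inr (Or.inl rfl)
      · exact Or.inr (Or.inr rfl)
    · rintro (⟨p, hp, rfl⟩ | rfl | rfl)
      · exact ⟨Or.inr (Or.inl ⟨p, hp, rfl⟩), rfl⟩
      · exact ⟨Or.inr (Or.inr (Or.inl rfl)), rfl⟩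
      · exact ⟨Or.inr (Or.inr (Or.inr rfl)), rfl⟩
  unfold cnt
  rw [e, Finset.card_union_of_disjoint, Finset.card_image_of_injective, rf_mir, card_mir,
    Finset.card_pair]
  · intro h
    cases h
  · intro p q hpq
    exact congrArg Sp.p hpq
  · rw [Finset.disjoint_left]
    intro x hx hx'
    obtain ⟨p, -, rfl⟩ := Finset.mem_image.1 hx
    rw [Finset.mem_insert, Finset.mem_singleton] at hx'
    rcases hx' with h | h <;> cases h

theorem cnt_zero {f : Fk} (h1 : f ≠ .cv) (h2 : f ≠ .rf) : cnt A.XC f = 0 := by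
  unfold cnt
  rw [Finset.card_eq_zero, Finset.filter_eq_empty_iff]
  intro x hx hf
  rcases mem_XC.1 hx with ⟨p, -, -, -, rfl⟩ | ⟨p, -, rfl⟩ | rfl | rfl
  · exact h1 hf.symm
  all_goals exact h2 hf.symm

/-- **at least as many reflex corners as convex ones** -/
theorem cnt_le (hc : HConn A.H) : cnt A.XC .cv ≤ cnt A.XC .rf := by
  have h := Cc841.half_count hc
  rw [cnt_cv, cnt_rf]
  omega

theorem cnt_union {X Y : Finset Sp} (hd : Disjoint X Y) (f : Fk) :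
    cnt (X ∪ Y) f = cnt X f + cnt Y f := by
  unfold cnt
  rw [Finset.filter_union, Finset.card_union_of_disjoint (Finset.disjoint_filter_filter hd)]

/-- **number of corners** -/
theorem card_XC {L a b c : ℤ} (m : A.Mc L a b c) {F : Finset (ℤ × ℤ)} (hF : A.H ⊆ D F L) :
    A.XC.card ≤ 4 * F.card + 2 := by
  classical
  have hL := m.hL
  have h1 : A.XC.card ≤ (cvh A).card + ((Cc841.rf A.H).card + 2) := by
    unfold XC
    refine (Finset.card_union_le _ _).trans (Nat.add_le_add ?_ ?_)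
    · refine Finset.card_image_le.trans ?_
      rw [erase_mir, card_mir]
    · refine (Finset.card_union_le _ _).trans (Nat.add_le_add ?_ Finset.card_le_two)
      refine Finset.card_image_le.trans ?_
      rw [rf_mir, card_mir]
  have h2 : (cvh A ∪ Cc841.rf A.H).card ≤ 4 * F.card := by
    have hsub : cvh A ∪ Cc841.rf A.H ⊆
        (F.image fun u => (L * (u.1 + 1), L * (u.2 + 1))) ∪
        ((F.image fun u => (L * u.1, L * (u.2 + 1))) ∪
        ((F.image fun u => (L * (u.1 + 1), L * u.2)) ∪ (F.image fun u => (L * u.1, L * u.2)))) := by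
      intro p hp
      have hv : L ∣ p.1 ∧ L ∣ p.2 := by
        rcases Finset.mem_union.1 hp with h | h
        · exact Cc841.cvh_ver m h
        · exact Cc841.rf_ver m h
      have hV : tA p ∈ A.H ∨ tB p ∈ A.H ∨ tC p ∈ A.H ∨ tD p ∈ A.H := by
        rcases Finset.mem_union.1 hp with h | h
        · have h3 := (mem_cvh.1 h).1
          rw [← Cc841.mem_cv] at h3
          exact mem_Vx.1 (Finset.mem_filter.1 h3).1
        · exact mem_Vx.1 (Finset.mem_filter.1 h).1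
      obtain ⟨⟨i, hi⟩, j, hj⟩ := hv
      obtain ⟨e1, e2, e3, e4⟩ := Cc841.cell_eq hL i j
      obtain ⟨x, y⟩ := p
      simp only at hi hj
      subst hi hj
      simp only [Finset.mem_union, Finset.mem_image]
      rcases hV with h | h | h | h
      · left
        have h4 := (mem_D hL _).1 (hF h)
        simp only [tA] at h4
        rw [e4] at h4
        exact ⟨_, h4, by simp⟩
      · right; left
        have h4 := (mem_D hL _).1 (hF h)
        simp only [tB] at h4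
        rw [e3] at h4
        exact ⟨_, h4, by simp⟩
      · right; right; left
        have h4 := (mem_D hL _).1 (hF h)
        simp only [tC] at h4
        rw [e2] at h4
        exact ⟨_, h4, by simp⟩
      · right; right; right
        have h4 := (mem_D hL _).1 (hF h)
        simp only [tD] at h4
        rw [e1] at h4
        exact ⟨_, h4, rfl⟩
    refine (Finset.card_le_card hsub).trans ?_
    refine (Finset.card_union_le _ _).trans ?_
    have k1 := Finset.card_image_le (s := F) (f := fun u : ℤ × ℤ => (L * (u.1 + 1), L * (u.2 + 1)))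
    have k2 := Finset.card_image_le (s := F) (f := fun u : ℤ × ℤ => (L * u.1, L * (u.2 + 1)))
    have k3 := Finset.card_image_le (s := F) (f := fun u : ℤ × ℤ => (L * (u.1 + 1), L * u.2))
    have k4 := Finset.card_image_le (s := F) (f := fun u : ℤ × ℤ => (L * u.1, L * u.2))
    have k5 := Finset.card_union_le (F.image fun u => (L * u.1, L * (u.2 + 1)))
      ((F.image fun u => (L * (u.1 + 1), L * u.2)) ∪ (F.image fun u => (L * u.1, L * u.2)))
    have k6 := Finset.card_union_le (F.image fun u => (L * (u.1 + 1), L * u.2))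
      (F.image fun u => (L * u.1, L * u.2))
    omega
  have h3 : (cvh A ∪ Cc841.rf A.H).card = (cvh A).card + (Cc841.rf A.H).card := by
    refine Finset.card_union_of_disjoint (Finset.disjoint_left.2 fun p hp hp' => ?_)
    have g1 := (mem_cvh.1 hp).1
    rw [Cc841.mem_rf, g1] at hp'
    omega
  omega

end Half

end Crest.Agent.R158.Ka470
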