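import Crest.Agent.R158.Xd1_841

/-!
# R158, NormP (helper841), Xd2: disjointness of two arbitrary special points

* `Apart N p q` : the boxes of radius `N` around the vertices `p`, `q` do not meet
* `Sep A N x y` : sufficient condition, by charts; `dis_gen` : the supports are disjoint
-/

set_option autoImplicit false

noncomputable section

namespace Crest.Agent.R158.Xd841

open Crest.Agent.R158.Env664 (TG)
open Crest.Agent.R158.Ka470
open Crest.Agent.R158.Ka470.Half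
open Crest.Agent.R158.Nz399

variable {A : Half} {ρ : ℕ}

/-- the boxes of radius `N` around `p` and `q` do not meet -/
def Apart (N : ℤ) (p q : ℤ × ℤ) : Prop := 2 * N ≤ |p.1 - q.1| ∨ 2 * N ≤ |p.2 - q.2|

theorem Apart.symm {N : ℤ} {p q : ℤ × ℤ} (h : Apart N p q) : Apart N q p := by
  unfold Apart at *
  rwa [abs_sub_comm q.1, abs_sub_comm q.2]

theorem Apart.mono {N N' : ℤ} {p q : ℤ × ℤ} (h : Apart N p q) (hN : N' ≤ N) : Apart N' p q := by
  unfold Apart at *
  omega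

theorem apart_false {N : ℤ} {n k : ℕ} {p q u : ℤ × ℤ} (h : Apart N p q) (hn : (n : ℤ) ≤ N)
    (hk : (k : ℤ) ≤ N) (h1 : u ∈ Bv n p) (h2 : u ∈ Bv k q) : False := by
  obtain ⟨⟨a1, a2⟩, a3, a4⟩ := h1
  obtain ⟨⟨b1, b2⟩, b3, b4⟩ := h2
  rcases h with h | h
  · rcases abs_cases (p.1 - q.1) with ⟨h7, -⟩ | ⟨h7, -⟩ <;> omega
  · rcases abs_cases (p.2 - q.2) with ⟨h7, -⟩ | ⟨h7, -⟩ <;> omega

/-- separated special points (`N` = radius of the boxes) -/
def Sep (A : Half) (N : ℤ) (i j : Fin 4) (p q : ℤ × ℤ) : Prop :=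
  match i, j with
  | 0, 1 => True
  | 1, 0 => True
  | 0, 3 => True
  | 3, 0 => True
  | 1, 3 => True
  | 3, 1 => True
  | 2, 3 => Apart N (p.1 + (A.R - A.xl), p.2) q ∧ Apart N (p.1 - (A.xr + 1), p.2) q
  | 3, 2 => Apart N (q.1 + (A.R - A.xl), q.2) p ∧ Apart N (q.1 - (A.xr + 1), q.2) p
  | _, _ => Apart N p q

theorem Bv_shift {n : ℕ} {p u : ℤ × ℤ} (s : ℤ) (h : u ∈ Bv n p) :
    (u.1 + s, u.2) ∈ Bv n (p.1 + s, p.2) := by
  obtain ⟨⟨a1, a2⟩, a3, a4⟩ := h
  exact ⟨⟨by simp only; omega, by simp only; omega⟩, a3, a4⟩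

/-- **supports of two separated special points** -/
theorem dis_gen (h : A.Sz ρ) {n : ℕ} {N : ℤ} {x y : Sp} (hx : x.In h n) (hy : y.In h n)
    (hN : (sz x.f n : ℤ) ≤ N) (hN' : (sz y.f n : ℤ) ≤ N) (hs : Sep A N x.i y.i x.p y.p) :
    Disjoint (x.sup h n) (y.sup h n) := by
  classical
  refine disj_of fun t h1 h2 => ?_
  obtain ⟨u, u1, u2, rfl⟩ := sup_pos hx h1
  obtain ⟨w, w1, w2, e⟩ := sup_pos hy h2
  obtain ⟨xi, xf, xg, xp⟩ := x
  obtain ⟨yi, yf, yg, yp⟩ := y
  simp only at *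
  have k23 : ∀ {u w p q : ℤ × ℤ} {n k : ℕ}, (chf h 2).emb u = (chf h 3).emb w →
      u ∈ Bv n p → w ∈ Bv k q → (n : ℤ) ≤ N → (k : ℤ) ≤ N →
      Apart N (p.1 + (A.R - A.xl), p.2) q ∧ Apart N (p.1 - (A.xr + 1), p.2) q → False := by
    intro u w p q n k e hu hw hn hk hs
    obtain ⟨e1, ⟨-, e2⟩ | ⟨-, e2⟩⟩ := pos23 h e
    · have h3 := Bv_shift (A.R - A.xl) hu
      have h4 : (u.1 + (A.R - A.xl), u.2) = w := Prod.ext (by simp only; omega) e1
      rw [h4] at h3
      exact apart_false hs.1 hn hk h3 hw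
    · have h3 := Bv_shift (-(A.xr + 1)) hu
      have h4 : (u.1 + -(A.xr + 1), u.2) = w := Prod.ext (by simp only; omega) e1
      rw [h4, ← sub_eq_add_neg] at h3
      exact apart_false hs.2 hn hk h3 hw
  fin_cases xi <;> fin_cases yi
  · have huw := (chf h 0).inj u2 w2 e
    subst huw
    exact apart_false hs hN hN' u1 w1
  · change (chf h 0).emb u = (chf h 1).emb w at e
    rw [emb0, emb1] at e
    simp at e
  · obtain ⟨rfl, -⟩ := pos02 h e
    exact apart_false hs hN hN' u1 w1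
  · change (chf h 0).emb u = (chf h 3).emb w at e
    rw [emb0, emb3] at e
    simp at e
  · change (chf h 1).emb u = (chf h 0).emb w at e
    rw [emb0, emb1] at e
    simp at e
  · have huw := (chf h 1).inj u2 w2 e
    subst huw
    exact apart_false hs hN hN' u1 w1
  · obtain ⟨rfl, -⟩ := pos12 h e
    exact apart_false hs hN hN' u1 w1
  · change (chf h 1).emb u = (chf h 3).emb w at e
    rw [emb1, emb3] at e
    simp at e
  · obtain ⟨rfl, -⟩ := pos02 h e.symm
    exact apart_false hs hN hN' u1 w1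
  · obtain ⟨rfl, -⟩ := pos12 h e.symm
    exact apart_false hs hN hN' u1 w1
  · have huw := (chf h 2).inj u2 w2 e
    subst huw
    exact apart_false hs hN hN' u1 w1
  · exact k23 e u1 w1 hN hN' hs
  · change (chf h 3).emb u = (chf h 0).emb w at e
    rw [emb0, emb3] at e
    simp at e
  · change (chf h 3).emb u = (chf h 1).emb w at e
    rw [emb1, emb3] at e
    simp at e
  · exact k23 e.symm w1 u1 hN' hN hs
  · have huw := (chf h 3).inj u2 w2 e
    subst huw
    exact apart_false hs hN hN' u1 w1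

/-- the radius `n + 1` always suffices -/
theorem dis_gen' (h : A.Sz ρ) {n : ℕ} {x y : Sp} (hx : x.In h n) (hy : y.In h n)
    (hs : Sep A ((n : ℤ) + 1) x.i y.i x.p y.p) : Disjoint (x.sup h n) (y.sup h n) :=
  dis_gen h hx hy (by exact_mod_cast sz_le x.f n) (by exact_mod_cast sz_le y.f n) hs

/-! ### counts of disjoint unions -/

theorem cnt_union {X Y : Finset Sp} (h : Disjoint X Y) (f : Fk) :
    cnt (X ∪ Y) f = cnt X f + cnt Y f := by
  classical
  unfold cnt
  rw [Finset.filter_union, Finset.card_union_of_disjoint]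
  exact Finset.disjoint_filter_filter h

theorem cnt_eq_zero {X : Finset Sp} {f : Fk} (h : ∀ x ∈ X, x.f ≠ f) : cnt X f = 0 := by
  unfold cnt
  rw [Finset.card_eq_zero, Finset.filter_eq_empty_iff]
  exact fun x hx => h x hx

/-- lists with different factors are disjoint -/
theorem disj_f {X Y : Finset Sp} (hX : ∀ x ∈ X, x.f = .cv ∨ x.f = .rf)
    (hY : ∀ y ∈ Y, y.f ≠ .cv ∧ y.f ≠ .rf) : Disjoint X Y := by
  classical
  refine disj_of fun t h1 h2 => ?_
  rcases hX t h1 with h | h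
  · exact (hY t h2).1 h
  · exact (hY t h2).2 h

/-- pairwise disjointness of a union -/
theorem dis_union {X Y : Finset Sp} {S : Sp → Finset (TG × Bool)}
    (h1 : ∀ x ∈ X, ∀ y ∈ X, x ≠ y → Disjoint (S x) (S y))
    (h2 : ∀ x ∈ Y, ∀ y ∈ Y, x ≠ y → Disjoint (S x) (S y))
    (h3 : ∀ x ∈ X, ∀ y ∈ Y, Disjoint (S x) (S y)) :
    ∀ x ∈ X ∪ Y, ∀ y ∈ X ∪ Y, x ≠ y → Disjoint (S x) (S y) := by
  intro x hx y hy hne
  rcases Finset.mem_union.1 hx with hx | hx <;> rcases Finset.mem_union.1 hy with hy | hy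
  · exact h1 x hx y hy hne
  · exact h3 x hx y hy
  · exact (h3 y hy x hx).symm
  · exact h2 x hx y hy hne

end Crest.Agent.R158.Xd841
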