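import Crest.Agent.R158.Ka12_470
import Crest.Agent.R158.Ka10_470
import Crest.Agent.R158.Xd2_841

/-!
R158, block Q1d (helper470), part 13: admissible lists.

* `xok` : corners of the second copy + the other special points form an admissible list
* `xok_ld`, `cnt_ld`, `card_ld` : the same for the halves `lowHalf d` of a macroscopic polyomino
-/

set_option autoImplicit false

noncomputable section

namespace Crest.Agent.R158.Ka470

open Crest.Agent.R158.Nm211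
open Crest.Agent.R158.Env664 (TG Mac D mem_D Band)
open Crest.Agent.R158.Xr249 (mem_lowT)
open Crest.Agent.R158.Cc841 (cv dg HConn)
open Crest.Agent.R158.Nz399 (SpOk XOk Sp Fk cnt)
open Crest.Agent.R158.Xd841 (Oth Loc)

namespace Half

variable {A : Half} {ρ : ℕ}

theorem XC_loc' {L a b c : ℤ} (m : A.Mc L a b c) {x : Sp} (hx : x ∈ A.XC) : Loc A L x :=
  XC_loc m hx

/-- **supports of the corners are disjoint** -/
theorem XC_dis {L a b c : ℤ} (m : A.Mc L a b c) (h : A.Sz ρ)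
    (h5 : 5 * (ρ : ℤ) ≤ A.y0 - A.y1) (h6 : 6 * (ρ : ℤ) ≤ A.y1 - A.Y)
    {x y : Sp} (hx : x ∈ A.XC) (hy : y ∈ A.XC) (ix : x.In h (3 * ρ)) (iy : y.In h (3 * ρ))
    (hne : x ≠ y) : Disjoint (x.sup h (3 * ρ)) (y.sup h (3 * ρ)) := by
  refine Xd841.sup_dis m h h5 h6 (le_refl _) ix iy (XC_loc m hx) (XC_loc m hy) ?_
  by_contra hcon
  push Not at hcon
  exact hne (XC_inj hx hy hcon.1 hcon.2)

/-- **admissible list** -/
theorem xok {L a b c : ℤ} (m : A.Mc L a b c) (h : A.Sz ρ) (h' : A.Sz' ρ L)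
    (h5 : 5 * (ρ : ℤ) ≤ A.y0 - A.y1) (h6 : 6 * (ρ : ℤ) ≤ A.y1 - A.Y) (hd : dg A.H = ∅)
    {C : Fin 4 → (ℤ × ℤ) × ZMod 4 → ℤ} (hC1 : CvC h L C) (hC2 : RfC' h L C) {XM : Finset Sp}
    (hok : ∀ x ∈ XM, SpOk h C x)
    (hdis : ∀ x ∈ XM, ∀ y ∈ XM, x ≠ y → Disjoint (x.sup h (3 * ρ)) (y.sup h (3 * ρ)))
    (hoth : ∀ x ∈ XM, Oth A L ρ x) : XOk h L C (A.XC ∪ XM) where
  ok x hx := by
    rcases Finset.mem_union.1 hx with hx | hx
    · exact XC_ok m h h' h5 hC1 hC2 hx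
    · exact hok x hx
  dis := by
    refine Xd841.dis_union ?_ hdis ?_
    · intro x hx y hy hne
      exact XC_dis m h h5 h6 hx hy (XC_ok m h h' h5 hC1 hC2 hx).in
        (XC_ok m h h' h5 hC1 hC2 hy).in hne
    · intro x hx y hy
      exact Xd841.dis_other m h h5 (le_refl _) (XC_ok m h h' h5 hC1 hC2 hx).in (hok y hy).in
        (XC_loc m hx) (hoth y hy)
  comp p hp g hg hP := Finset.mem_union_left _ (XC_comp m h hp hg hP)
  nodg p _ pat hP := Cc841.nodg_of hd h hP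

theorem XC_f {x : Sp} (hx : x ∈ A.XC) : x.f = .cv ∨ x.f = .rf := by
  rcases mem_XC.1 hx with ⟨p, -, -, -, rfl⟩ | ⟨p, -, rfl⟩ | rfl | rfl
  · exact Or.inl rfl
  all_goals exact Or.inr rfl

/-- counts of the whole list -/
theorem cnt_xok (hc : HConn A.H) {XM : Finset Sp} (hf : ∀ x ∈ XM, x.f ≠ .cv ∧ x.f ≠ .rf) :
    cnt (A.XC ∪ XM) .cv ≤ cnt (A.XC ∪ XM) .rf ∧
      ∀ f : Fk, f ≠ .cv → f ≠ .rf → cnt (A.XC ∪ XM) f = cnt XM f := by
  have hd : Disjoint A.XC XM := Xd841.disj_f (fun x hx => XC_f hx) hf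
  have e1 : cnt XM .cv = 0 := Xd841.cnt_eq_zero fun x hx => (hf x hx).1
  have e2 : cnt XM .rf = 0 := Xd841.cnt_eq_zero fun x hx => (hf x hx).2
  refine ⟨?_, fun f h1 h2 => ?_⟩
  · rw [cnt_union hd, cnt_union hd, e1, e2]
    exact cnt_le hc
  · rw [cnt_union hd, cnt_zero h1 h2, zero_add]

end Half

section

open Half

variable {M : Mac} {L a b c y1 y0 R : ℤ}

theorem lowHalf_sub (d : LD M L a b c y1 y0 R) : (lowHalf d).H ⊆ D M.F L :=
  fun _ ht => (mem_lowT.1 ht).1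

/-- **admissible list for a half of a macroscopic polyomino** -/
theorem xok_ld (d : LD M L a b c y1 y0 R) {ρ : ℕ} (h : (lowHalf d).Sz ρ) (h' : (lowHalf d).Sz' ρ L)
    (h5 : 5 * (ρ : ℤ) ≤ y0 - y1) (h6 : 6 * (ρ : ℤ) ≤ y1 - c * L)
    {C : Fin 4 → (ℤ × ℤ) × ZMod 4 → ℤ} (hC1 : CvC h L C) (hC2 : RfC' h L C) {XM : Finset Sp}
    (hok : ∀ x ∈ XM, SpOk h C x)
    (hdis : ∀ x ∈ XM, ∀ y ∈ XM, x ≠ y → Disjoint (x.sup h (3 * ρ)) (y.sup h (3 * ρ)))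
    (hoth : ∀ x ∈ XM, Oth (lowHalf d) L ρ x) : XOk h L C ((lowHalf d).XC ∪ XM) :=
  xok (lowHalf_mc d) h h' h5 h6 (Cc841.dg_low M d.hL _ _ _) hC1 hC2 hok hdis hoth

theorem cnt_ld (d : LD M L a b c y1 y0 R) {XM : Finset Sp}
    (hf : ∀ x ∈ XM, x.f ≠ .cv ∧ x.f ≠ .rf) :
    cnt ((lowHalf d).XC ∪ XM) .cv ≤ cnt ((lowHalf d).XC ∪ XM) .rf ∧
      ∀ f : Fk, f ≠ .cv → f ≠ .rf → cnt ((lowHalf d).XC ∪ XM) f = cnt XM f :=
  cnt_xok Cc841.low_hc hf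

theorem card_ld (d : LD M L a b c y1 y0 R) (XM : Finset Sp) :
    ((lowHalf d).XC ∪ XM).card ≤ 4 * M.F.card + 2 + XM.card :=
  (Finset.card_union_le _ _).trans
    (Nat.add_le_add_right (card_XC (lowHalf_mc d) (lowHalf_sub d)) _)

end

end Crest.Agent.R158.Ka470
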