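import Crest.Agent.R158.Ka1_470

/-!
R158, leaf F1 + deterministic half of F2 (helper470), part 2: windows.

`B1 ρ o` is the square `[o, o + ρ)²`, `B3 ρ o` the square of side `3ρ` around it.  A strand (arc or
loop) that visits a tile of `B1 ρ o` of a chart is contained in the part of the chart in `B3 ρ o` or
it crosses one of the four windows `[o.1 - ρ, o.1 + 2ρ) × [o.2 + ρ, o.2 + 2ρ)`, ... from the inner to
the outer side.  Hence all exponential moments of the number of such strands are bounded.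
-/

set_option autoImplicit false

namespace Crest.Agent.R158.Ka470

open Crest.Agent.R158.Nm211
open Crest.Agent.R158.Sw300 (thru)
open MeasureTheory

variable {T : Type*} {G : T × ZMod 4 → T × ZMod 4 → Prop}

/-- square of side `ρ` -/
def B1 (ρ : ℕ) (o : ℤ × ℤ) : Set (ℤ × ℤ) :=
  {v | (o.1 ≤ v.1 ∧ v.1 < o.1 + ρ) ∧ o.2 ≤ v.2 ∧ v.2 < o.2 + ρ}

/-- square of side `3ρ` -/
def B3 (ρ : ℕ) (o : ℤ × ℤ) : Set (ℤ × ℤ) :=
  {v | (o.1 - ρ ≤ v.1 ∧ v.1 < o.1 + 2 * ρ) ∧ o.2 - ρ ≤ v.2 ∧ v.2 < o.2 + 2 * ρ}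

theorem B1_sub (ρ : ℕ) (o : ℤ × ℤ) : B1 ρ o ⊆ B3 ρ o := by
  rintro ⟨x, y⟩ ⟨⟨h1, h2⟩, h3, h4⟩
  simp only at h1 h2 h3 h4
  refine ⟨⟨?_, ?_⟩, ?_, ?_⟩ <;> simp only <;> omega

/-- the chart sees the set `B` completely -/
def View (C : Ch T G) (B : Set (ℤ × ℤ)) : Prop :=
  ∀ v ∈ C.R, v ∈ B → ∀ d : Dir, mv v d ∈ B → mv v d ∉ C.R → Free G (C.pt v (ex d))

/-- windows -/
def WB (ρ : ℕ) (o : ℤ × ℤ) (d : Dir) : Set (ℤ × ℤ) :=
  match d with
  | 0 => {v | (o.1 - ρ ≤ v.1 ∧ v.1 < o.1 + 2 * ρ) ∧ o.2 + ρ ≤ v.2 ∧ v.2 < o.2 + 2 * ρ}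
  | 1 => {v | (o.1 + ρ ≤ v.1 ∧ v.1 < o.1 + 2 * ρ) ∧ o.2 - ρ ≤ v.2 ∧ v.2 < o.2 + 2 * ρ}
  | 2 => {v | (o.1 - ρ ≤ v.1 ∧ v.1 < o.1 + 2 * ρ) ∧ o.2 - ρ ≤ v.2 ∧ v.2 < o.2}
  | 3 => {v | (o.1 - ρ ≤ v.1 ∧ v.1 < o.1) ∧ o.2 - ρ ≤ v.2 ∧ v.2 < o.2 + 2 * ρ}

/-- states entering a window -/
noncomputable def XW (ρ : ℕ) (o : ℤ × ℤ) (d : Dir) : Finset (St ℤ) :=
  match d with
  | 0 => (Finset.Ico (o.1 - ρ) (o.1 + 2 * ρ)).image fun x => ((x, o.2 + ρ), (0 : Dir))
  | 1 => (Finset.Ico (o.2 - ρ) (o.2 + 2 * ρ)).image fun y => ((o.1 + ρ, y), (1 : Dir))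
  | 2 => (Finset.Ico (o.1 - ρ) (o.1 + 2 * ρ)).image fun x => ((x, o.2 - 1), (2 : Dir))
  | 3 => (Finset.Ico (o.2 - ρ) (o.2 + 2 * ρ)).image fun y => ((o.1 - 1, y), (3 : Dir))

/-- states beyond a window -/
def YW (ρ : ℕ) (o : ℤ × ℤ) (d : Dir) : Set (St ℤ) :=
  match d with
  | 0 => {c | o.2 + 2 * ρ ≤ c.1.2}
  | 1 => {c | o.1 + 2 * ρ ≤ c.1.1}
  | 2 => {c | c.1.2 < o.2 - ρ}
  | 3 => {c | c.1.1 < o.1 - ρ}

/-- states in the part of the window seen by the chart -/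
def DW (C : Ch T G) (ρ : ℕ) (o : ℤ × ℤ) (d : Dir) : Set (St ℤ) := {c | c.1 ∈ C.R ∧ c.1 ∈ WB ρ o d}

/-- `c` crosses the window -/
def Cross (C : Ch T G) (s : T → Bool) (ρ : ℕ) (o : ℤ × ℤ) (d : Dir) (c : St ℤ) : Prop :=
  c ∈ XW ρ o d ∧ Hit (C.f s) (DW C ρ o d) (YW ρ o d) c

theorem step_pos (C : Ch T G) (s : T → Bool) (c : St ℤ) :
    (C.f s c).1.1 = c.1.1 + dx (C.f s c).2 ∧ (C.f s c).1.2 = c.1.2 + dy (C.f s c).2 := by
  have h : (C.f s c).1 = mv c.1 (C.f s c).2 := rfl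
  rw [h]
  simp [mv]

theorem dxy (d : Dir) : (d = 0 ∧ dx d = 0 ∧ dy d = 1) ∨ (d = 1 ∧ dx d = 1 ∧ dy d = 0) ∨
    (d = 2 ∧ dx d = 0 ∧ dy d = -1) ∨ (d = 3 ∧ dx d = -1 ∧ dy d = 0) := by
  fin_cases d <;> simp [dx, dy]

/-- last time below a level -/
theorem last_low' {g : ℕ → ℤ} {A : ℤ} {m : ℕ} (h0 : g 0 ≤ A) (hm : A < g m) :
    ∃ j < m, g j ≤ A ∧ ∀ i, j < i → i ≤ m → A < g i := last_low h0 hm

/-- **leaving the big square means crossing a window**. -/
theorem exists_cross (C : Ch T G) (s : T → Bool) {ρ : ℕ} {o : ℤ × ℤ} {c : St ℤ}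
    (hc : c.1 ∈ B1 ρ o) {m : ℕ} (hR : ∀ j < m, ((C.f s)^[j] c).1 ∈ C.R)
    (hB : ∀ j < m, ((C.f s)^[j] c).1 ∈ B3 ρ o) (hm : ((C.f s)^[m] c).1 ∉ B3 ρ o) :
    ∃ d : Dir, ∃ j < m, Cross C s ρ o d ((C.f s)^[j] c) := by
  have hm0 : m ≠ 0 := by
    rintro rfl
    exact hm (B1_sub _ _ hc)
  obtain ⟨k, rfl⟩ := Nat.exists_eq_succ_of_ne_zero hm0
  set p : ℕ → St ℤ := fun j => (C.f s)^[j] c with hp
  have hstep : ∀ j, (p (j + 1)).1.1 = (p j).1.1 + dx (p (j + 1)).2 ∧
      (p (j + 1)).1.2 = (p j).1.2 + dy (p (j + 1)).2 := by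
    intro j
    have : p (j + 1) = C.f s (p j) := Function.iterate_succ_apply' _ _ _
    rw [this]
    exact step_pos C s (p j)
  have hk := hB k (Nat.lt_succ_self k)
  have hs := hstep k
  have hk' : p k ∈ {c : St ℤ | c.1 ∈ B3 ρ o} := hk
  have hm' : ¬ ((p (k + 1)).1 ∈ B3 ρ o) := hm
  simp only [B3, Set.mem_ofPred_eq] at hk' hm'
  simp only [B1, Set.mem_ofPred_eq] at hc
  have hp0 : p 0 = c := rfl
  have hin : ∀ j < k + 1, (o.1 - ρ ≤ (p j).1.1 ∧ (p j).1.1 < o.1 + 2 * ρ) ∧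
      o.2 - ρ ≤ (p j).1.2 ∧ (p j).1.2 < o.2 + 2 * ρ := hB
  -- the iterates after `j`
  have hit : ∀ (d : Dir) (j : ℕ), j < k + 1 → (∀ i, j ≤ i → i < k + 1 → (p i).1 ∈ WB ρ o d) →
      p (k + 1) ∈ YW ρ o d → Hit (C.f s) (DW C ρ o d) (YW ρ o d) (p j) := by
    intro d j hj h1 h2
    refine ⟨k + 1 - j, fun i hi => ?_, ?_⟩
    · have : (C.f s)^[i] (p j) = p (i + j) := by
        simp only [hp]; rw [Function.iterate_add_apply]
      rw [this]
      exact ⟨hR _ (by omega), h1 _ (by omega) (by omega)⟩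
    · have : (C.f s)^[k + 1 - j] (p j) = p (k + 1) := by
        simp only [hp]; rw [← Function.iterate_add_apply, Nat.sub_add_cancel hj.le]
      rw [this]; exact h2
  rcases dxy (p (k + 1)).2 with ⟨hd, h1, h2⟩ | ⟨hd, h1, h2⟩ | ⟨hd, h1, h2⟩ | ⟨hd, h1, h2⟩
  · -- north
    have hY : o.2 + 2 * ρ ≤ (p (k + 1)).1.2 := by
      by_contra h; exact hm' ⟨⟨by omega, by omega⟩, by omega, by omega⟩
    obtain ⟨j, hj, hj1, hj2⟩ := last_low (f := fun j => (p j).1.2) (A := o.2 + ρ - 1) (m := k + 1)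
      (by rw [hp0]; omega) (by omega)
    have hj' := hj2 (j + 1) (by omega) (by omega)
    have hsj := hstep j
    have hjk : j + 1 < k + 1 := by
      rcases Nat.lt_or_ge (j + 1) (k + 1) with h | h
      · exact h
      · exfalso
        have : j = k := by omega
        subst this
        have hρ : (0 : ℤ) < ρ := by omega
        omega
    have hin1 := hin (j + 1) hjk
    have hdir : (p (j + 1)).2 = 0 := by
      rcases dxy (p (j + 1)).2 with ⟨h, h3, h4⟩ | ⟨h, h3, h4⟩ | ⟨h, h3, h4⟩ | ⟨h, h3, h4⟩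
      · exact h
      all_goals (exfalso; omega)
    have hdy : dy (p (j + 1)).2 = 1 := by rw [hdir]; rfl
    refine ⟨0, j + 1, hjk, ?_, hit 0 (j + 1) hjk (fun i hi hi' => ?_) hY⟩
    · simp only [XW, Finset.mem_image, Finset.mem_Ico]
      refine ⟨(p (j + 1)).1.1, hin1.1, ?_⟩
      refine Prod.ext (Prod.ext rfl ?_) hdir.symm
      have e1 : ((C.f s)^[j + 1] c).1.1 = (p (j + 1)).1.1 := rfl
      have e2 : ((C.f s)^[j + 1] c).1.2 = (p (j + 1)).1.2 := rfl
      simp only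
      omega
    · have := hin i hi'
      have := hj2 i (by omega) (by omega)
      simp only [WB, Set.mem_ofPred_eq]
      omega
  · -- east
    have hY : o.1 + 2 * ρ ≤ (p (k + 1)).1.1 := by
      by_contra h; exact hm' ⟨⟨by omega, by omega⟩, by omega, by omega⟩
    obtain ⟨j, hj, hj1, hj2⟩ := last_low (f := fun j => (p j).1.1) (A := o.1 + ρ - 1) (m := k + 1)
      (by rw [hp0]; omega) (by omega)
    have hj' := hj2 (j + 1) (by omega) (by omega)
    have hsj := hstep j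
    have hjk : j + 1 < k + 1 := by
      rcases Nat.lt_or_ge (j + 1) (k + 1) with h | h
      · exact h
      · exfalso
        have : j = k := by omega
        subst this
        have hρ : (0 : ℤ) < ρ := by omega
        omega
    have hin1 := hin (j + 1) hjk
    have hdir : (p (j + 1)).2 = 1 := by
      rcases dxy (p (j + 1)).2 with ⟨h, h3, h4⟩ | ⟨h, h3, h4⟩ | ⟨h, h3, h4⟩ | ⟨h, h3, h4⟩
      · exfalso; omega
      · exact h
      all_goals (exfalso; omega)
    have hdy : dx (p (j + 1)).2 = 1 := by rw [hdir]; rfl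
    refine ⟨1, j + 1, hjk, ?_, hit 1 (j + 1) hjk (fun i hi hi' => ?_) hY⟩
    · simp only [XW, Finset.mem_image, Finset.mem_Ico]
      refine ⟨(p (j + 1)).1.2, hin1.2, ?_⟩
      refine Prod.ext (Prod.ext ?_ rfl) hdir.symm
      have e1 : ((C.f s)^[j + 1] c).1.1 = (p (j + 1)).1.1 := rfl
      have e2 : ((C.f s)^[j + 1] c).1.2 = (p (j + 1)).1.2 := rfl
      simp only
      omega
    · have := hin i hi'
      have := hj2 i (by omega) (by omega)
      simp only [WB, Set.mem_ofPred_eq]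
      omega
  · -- south
    have hY : (p (k + 1)).1.2 < o.2 - ρ := by
      by_contra h; exact hm' ⟨⟨by omega, by omega⟩, by omega, by omega⟩
    obtain ⟨j, hj, hj1, hj2⟩ := last_low (f := fun j => -(p j).1.2) (A := -o.2) (m := k + 1)
      (by rw [hp0]; omega) (by omega)
    have hj' := hj2 (j + 1) (by omega) (by omega)
    have hsj := hstep j
    have hjk : j + 1 < k + 1 := by
      rcases Nat.lt_or_ge (j + 1) (k + 1) with h | h
      · exact h
      · exfalso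
        have : j = k := by omega
        subst this
        have hρ : (0 : ℤ) < ρ := by omega
        omega
    have hin1 := hin (j + 1) hjk
    have hdir : (p (j + 1)).2 = 2 := by
      rcases dxy (p (j + 1)).2 with ⟨h, h3, h4⟩ | ⟨h, h3, h4⟩ | ⟨h, h3, h4⟩ | ⟨h, h3, h4⟩
      · exfalso; omega
      · exfalso; omega
      · exact h
      all_goals (exfalso; omega)
    have hdy : dy (p (j + 1)).2 = -1 := by rw [hdir]; rfl
    refine ⟨2, j + 1, hjk, ?_, hit 2 (j + 1) hjk (fun i hi hi' => ?_) hY⟩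
    · simp only [XW, Finset.mem_image, Finset.mem_Ico]
      refine ⟨(p (j + 1)).1.1, hin1.1, ?_⟩
      refine Prod.ext (Prod.ext rfl ?_) hdir.symm
      have e1 : ((C.f s)^[j + 1] c).1.1 = (p (j + 1)).1.1 := rfl
      have e2 : ((C.f s)^[j + 1] c).1.2 = (p (j + 1)).1.2 := rfl
      simp only
      omega
    · have := hin i hi'
      have := hj2 i (by omega) (by omega)
      simp only [WB, Set.mem_ofPred_eq]
      omega
  · -- west
    have hY : (p (k + 1)).1.1 < o.1 - ρ := by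
      by_contra h; exact hm' ⟨⟨by omega, by omega⟩, by omega, by omega⟩
    obtain ⟨j, hj, hj1, hj2⟩ := last_low (f := fun j => -(p j).1.1) (A := -o.1) (m := k + 1)
      (by rw [hp0]; omega) (by omega)
    have hj' := hj2 (j + 1) (by omega) (by omega)
    have hsj := hstep j
    have hjk : j + 1 < k + 1 := by
      rcases Nat.lt_or_ge (j + 1) (k + 1) with h | h
      · exact h
      · exfalso
        have : j = k := by omega
        subst this
        have hρ : (0 : ℤ) < ρ := by omega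
        omega
    have hin1 := hin (j + 1) hjk
    have hdir : (p (j + 1)).2 = 3 := by
      rcases dxy (p (j + 1)).2 with ⟨h, h3, h4⟩ | ⟨h, h3, h4⟩ | ⟨h, h3, h4⟩ | ⟨h, h3, h4⟩
      · exfalso; omega
      · exfalso; omega
      · exfalso; omega
      · exact h
    have hdy : dx (p (j + 1)).2 = -1 := by rw [hdir]; rfl
    refine ⟨3, j + 1, hjk, ?_, hit 3 (j + 1) hjk (fun i hi hi' => ?_) hY⟩
    · simp only [XW, Finset.mem_image, Finset.mem_Ico]
      refine ⟨(p (j + 1)).1.2, hin1.2, ?_⟩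
      refine Prod.ext (Prod.ext ?_ rfl) hdir.symm
      have e1 : ((C.f s)^[j + 1] c).1.1 = (p (j + 1)).1.1 := rfl
      have e2 : ((C.f s)^[j + 1] c).1.2 = (p (j + 1)).1.2 := rfl
      simp only
      omega
    · have := hin i hi'
      have := hj2 i (by omega) (by omega)
      simp only [WB, Set.mem_ofPred_eq]
      omega

/-- **dichotomy**: a walk of the complex that starts in `B1 ρ o` stays in the part of the chart in
`B3 ρ o`, or it crosses one of the four windows. -/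
theorem walk_dich {C : Ch T G} (hG : ∀ p q r, G p q → G p r → q = r) {s : T → Bool} {ρ : ℕ}
    {o : ℤ × ℤ} {c : St ℤ} (hc : c.1 ∈ C.R) (hc1 : c.1 ∈ B1 ρ o) (hV : View C (B3 ρ o))
    {y : T × ZMod 4} {l : List (T × ZMod 4)} (hw : Wk s G (C.pe c) y l) :
    (∃ m, (∀ j ≤ m, ((C.f s)^[j] c).1 ∈ C.R ∧ ((C.f s)^[j] c).1 ∈ B3 ρ o) ∧
      l = (List.range (m + 1)).map (fun j => C.pe ((C.f s)^[j] c)) ∧
      y = C.pt ((C.f s)^[m] c).1 (ex ((C.f s)^[m + 1] c).2)) ∨
    ∃ d : Dir, ∃ c', Cross C s ρ o d c' ∧ C.pe c' ∈ l := by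
  induction hw with
  | one =>
    left
    refine ⟨0, fun j hj => ?_, ?_, ?_⟩
    · have : j = 0 := by omega
      subst this
      exact ⟨hc, B1_sub _ _ hc1⟩
    · simp
    · exact C.exit_eq s c
  | @snoc q r l hw hg ih =>
    rcases ih with ⟨m, h1, h2, h3⟩ | ⟨d, c', h1, h2⟩
    swap
    · exact Or.inr ⟨d, c', h1, List.mem_append_left _ h2⟩
    have h4 : ((C.f s)^[m + 1] c).1 = mv ((C.f s)^[m] c).1 ((C.f s)^[m + 1] c).2 := by
      rw [Function.iterate_succ_apply']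
      rfl
    by_cases hB : ((C.f s)^[m + 1] c).1 ∈ B3 ρ o
    · left
      -- the next position is in the region
      have hnext : ((C.f s)^[m + 1] c).1 ∈ C.R := by
        by_contra hcon
        rw [h4] at hcon hB
        have h5 := hV _ (h1 m le_rfl).1 (h1 m le_rfl).2 _ hB hcon r
        rw [← h3] at h5
        exact h5 hg
      have h6 : G (C.pt ((C.f s)^[m] c).1 (ex ((C.f s)^[m + 1] c).2))
          (C.pe ((C.f s)^[m + 1] c)) := by
        rw [Function.iterate_succ_apply'] at hnext ⊢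
        exact C.glue_next s (h1 m le_rfl).1 hnext
      rw [← h3] at h6
      have hr : r = C.pe ((C.f s)^[m + 1] c) := hG _ _ _ hg h6
      refine ⟨m + 1, fun j hj => ?_, ?_, ?_⟩
      · rcases Nat.lt_or_ge j (m + 1) with h | h
        · exact h1 j (by omega)
        · have : j = m + 1 := by omega
          rw [this]; exact ⟨hnext, hB⟩
      · rw [h2, hr, List.range_succ (n := m + 1), List.map_append]
        rfl
      · rw [hr, C.exit_eq, ← Function.iterate_succ_apply' (C.f s)]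
    · right
      obtain ⟨d, j, hj, hx⟩ := exists_cross C s hc1 (m := m + 1) (fun j hj => (h1 j (by omega)).1)
        (fun j hj => (h1 j (by omega)).2) hB
      refine ⟨d, _, hx, List.mem_append_left _ ?_⟩
      rw [h2]
      exact List.mem_map.2 ⟨j, List.mem_range.2 hj, rfl⟩

/-- the port lists of the strands of a family are disjoint; every strand crosses a window -/
theorem card_le {β : Type*} [Fintype β] (ch : β → Ch T G) (oo : β → ℤ × ℤ) (s : T → Bool) (ρ : ℕ)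
    {Λ : Type*} [Fintype Λ] (P : Λ → Set (T × ZMod 4))
    (hdis : ∀ a b, a ≠ b → ∀ p ∈ P a, p ∉ P b)
    (hcr : ∀ a, ∃ w : β, ∃ d : Dir, ∃ c, Cross (ch w) s ρ (oo w) d c ∧ (ch w).pe c ∈ P a) :
    Fintype.card Λ ≤ ∑ w : β × Dir, KK ((ch w.1).f s) (DW (ch w.1) ρ (oo w.1) w.2)
      (YW ρ (oo w.1) w.2) (XW ρ (oo w.1) w.2) := by
  classical
  choose w d c h1 h2 using hcr
  have key : Fintype.card Λ ≤ (Finset.univ.sigma fun w : β × Dir =>
      (XW ρ (oo w.1) w.2).filter fun c => Hit ((ch w.1).f s) (DW (ch w.1) ρ (oo w.1) w.2)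
        (YW ρ (oo w.1) w.2) c).card := by
    rw [← Finset.card_univ]
    refine Finset.card_le_card_of_injOn
      (fun a => (⟨(w a, d a), c a⟩ : Sigma fun _ : β × Dir => St ℤ)) ?_ ?_
    · intro a _
      simp only [Finset.coe_sigma, Set.mem_sigma_iff, Finset.coe_univ, Set.mem_univ, true_and,
        Finset.coe_filter]
      exact ⟨(h1 a).1, (h1 a).2⟩
    · intro a _ b _ hab
      by_contra hne
      simp only [Sigma.mk.injEq, Prod.mk.injEq, heq_eq_eq] at hab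
      obtain ⟨⟨h3, -⟩, h5⟩ := hab
      refine hdis a b hne _ (h2 a) ?_
      rw [h3, h5]
      exact h2 b
  rw [Finset.card_sigma] at key
  exact key

end Crest.Agent.R158.Ka470
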