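import Crest.Agent.R158.Ka2_470
import Crest.Agent.R158.Env_664

/-!
R158, leaf F1 (helper470), part 3: half environments, their doubles, charts.

`Half` : a planar set of tiles `H` below a crosscut (row line `y0`, columns `xl..xr`) with a strip
glued to the two ends of the run in the rows `y1 ≤ y < y0`.  `Gd` : glueing of the double (copy
`true` = mirror image above the crosscut, side `d` becomes `-d`).
-/

set_option autoImplicit false

namespace Crest.Agent.R158.Ka470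

open Crest.Agent.R158.Nm211
open Crest.Agent.R158.Env664 (TG)

/-- half environment -/
structure Half where
  /-- planar tiles -/
  H : Finset (ℤ × ℤ)
  /-- left end of the run -/
  xl : ℤ
  /-- right end of the run -/
  xr : ℤ
  /-- bottom of the macroscopic row of the run -/
  Y : ℤ
  /-- floor of the strip -/
  y1 : ℤ
  /-- crosscut -/
  y0 : ℤ
  /-- width of the strip -/
  R : ℤ
  /-- width of the empty region beyond the run -/
  W : ℤ
  hY : Y ≤ y1
  h1 : y1 < y0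
  hx : xl ≤ xr
  hR : 0 < R
  hW : 0 < W
  row : ∀ x y, Y ≤ y → y < y0 → xl ≤ x → x ≤ xr → (x, y) ∈ H
  left : ∀ x y, Y ≤ y → y < y0 + W → xl - W ≤ x → x < xl → (x, y) ∉ H
  right : ∀ x y, Y ≤ y → y < y0 + W → xr < x → x ≤ xr + W → (x, y) ∉ H
  top : ∀ x y, xl ≤ x → x ≤ xr → y0 ≤ y → y < y0 + W → (x, y) ∉ H

namespace Half

variable (A : Half)

/-- tiles of the half environment -/
def tH : TG → Prop
  | Sum.inl v => v ∈ A.H
  | Sum.inr v => (0 ≤ v.1 ∧ v.1 < A.R) ∧ A.y1 ≤ v.2 ∧ v.2 < A.y0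

/-- neighbour -/
def nb : TG → ZMod 4 → TG × ZMod 4
  | Sum.inl v, 0 => if v.1 = A.xl ∧ A.y1 ≤ v.2 ∧ v.2 < A.y0 then (Sum.inr (A.R - 1, v.2), 2)
      else (Sum.inl (v.1 - 1, v.2), 2)
  | Sum.inl v, 1 => (Sum.inl (v.1, v.2 + 1), 3)
  | Sum.inl v, 2 => if v.1 = A.xr ∧ A.y1 ≤ v.2 ∧ v.2 < A.y0 then (Sum.inr (0, v.2), 0)
      else (Sum.inl (v.1 + 1, v.2), 0)
  | Sum.inl v, 3 => (Sum.inl (v.1, v.2 - 1), 1)
  | Sum.inr v, 0 => if v.1 = 0 then (Sum.inl (A.xr, v.2), 2) else (Sum.inr (v.1 - 1, v.2), 2)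
  | Sum.inr v, 1 => (Sum.inr (v.1, v.2 + 1), 3)
  | Sum.inr v, 2 => if v.1 = A.R - 1 then (Sum.inl (A.xl, v.2), 0)
      else (Sum.inr (v.1 + 1, v.2), 0)
  | Sum.inr v, 3 => (Sum.inr (v.1, v.2 - 1), 1)

/-- glueing of the half environment -/
def Gh (p q : TG × ZMod 4) : Prop := A.tH p.1 ∧ A.tH q.1 ∧ q = A.nb p.1 p.2

/-- tiles below the crosscut -/
def cutT : TG → Prop
  | Sum.inl v => (A.xl ≤ v.1 ∧ v.1 ≤ A.xr) ∧ v.2 = A.y0 - 1
  | Sum.inr v => (0 ≤ v.1 ∧ v.1 < A.R) ∧ v.2 = A.y0 - 1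

/-- glueing of the double -/
inductive Gd : (TG × Bool) × ZMod 4 → (TG × Bool) × ZMod 4 → Prop
  | base (k : Bool) {t t' : TG} {d d' : ZMod 4} : A.Gh (t, d) (t', d') →
      Gd ((t, k), sg k d) ((t', k), sg k d')
  | c1 {t : TG} : A.cutT t → Gd ((t, false), 1) ((t, true), 3)
  | c2 {t : TG} : A.cutT t → Gd ((t, true), 3) ((t, false), 1)

theorem gh_top {t : TG} (h : A.cutT t) (q : TG × ZMod 4) : ¬ A.Gh (t, 1) q := by
  rintro ⟨h1, h2, rfl⟩
  rcases t with v | v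
  · have h3 : (v.1, v.2 + 1) ∈ A.H := h2
    obtain ⟨h4, h5⟩ := h
    have hW := A.hW
    exact A.top _ _ h4.1 h4.2 (by omega) (by omega) h3
  · have h3 : (0 ≤ v.1 ∧ v.1 < A.R) ∧ A.y1 ≤ v.2 + 1 ∧ v.2 + 1 < A.y0 := h2
    obtain ⟨h4, h5⟩ := h
    omega

theorem sg_three : sg true (1 : ZMod 4) = 3 := by decide

/-- the glueing of the double is functional -/
theorem gd_fn : ∀ p q r, A.Gd p q → A.Gd p r → q = r := by
  intro p q r h1 h2
  cases h1 with
  | @base k t t' d d' h =>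
    generalize hp : (((t, k), sg k d) : (TG × Bool) × ZMod 4) = p at h2
    cases h2 with
    | @base k' u u' e e' h' =>
      simp only [Prod.mk.injEq] at hp
      obtain ⟨⟨rfl, rfl⟩, h3⟩ := hp
      have h4 := sg_inj _ h3
      subst h4
      have h5 := h.2.2
      have h6 := h'.2.2
      simp only at h5 h6
      rw [← h6] at h5
      simp only [Prod.mk.injEq] at h5
      rw [h5.1, h5.2]
    | @c1 u hu =>
      simp only [Prod.mk.injEq] at hp
      obtain ⟨⟨rfl, rfl⟩, h3⟩ := hp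
      have h4 : d = 1 := h3
      subst h4
      exact absurd h (A.gh_top hu _)
    | @c2 u hu =>
      simp only [Prod.mk.injEq] at hp
      obtain ⟨⟨rfl, rfl⟩, h3⟩ := hp
      rw [← sg_three] at h3
      have h4 := sg_inj _ h3
      subst h4
      exact absurd h (A.gh_top hu _)
  | @c1 t ht =>
    generalize hp : (((t, false), 1) : (TG × Bool) × ZMod 4) = p at h2
    cases h2 with
    | @base k' u u' e e' h' =>
      simp only [Prod.mk.injEq] at hp
      obtain ⟨⟨rfl, rfl⟩, h3⟩ := hp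
      have h4 : e = 1 := h3.symm
      subst h4
      exact absurd h' (A.gh_top ht _)
    | @c1 u hu =>
      simp only [Prod.mk.injEq] at hp
      obtain ⟨⟨rfl, -⟩, -⟩ := hp
      rfl
    | @c2 u hu => simp at hp
  | @c2 t ht =>
    generalize hp : (((t, true), 3) : (TG × Bool) × ZMod 4) = p at h2
    cases h2 with
    | @base k' u u' e e' h' =>
      simp only [Prod.mk.injEq] at hp
      obtain ⟨⟨rfl, rfl⟩, h3⟩ := hp
      rw [← sg_three] at h3
      have h4 := (sg_inj _ h3).symm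
      subst h4
      exact absurd h' (A.gh_top ht _)
    | @c1 u hu => simp at hp
    | @c2 u hu =>
      simp only [Prod.mk.injEq] at hp
      obtain ⟨⟨rfl, -⟩, -⟩ := hp
      rfl

theorem z4 (d : ZMod 4) : d = 0 ∨ d = 1 ∨ d = 2 ∨ d = 3 := by revert d; decide

theorem gh_symm : ∀ p q, A.Gh p q → A.Gh q p := by
  rintro ⟨t, d⟩ ⟨u, e⟩ ⟨h1, h2, h3⟩
  refine ⟨h2, h1, ?_⟩
  simp only at h1 h2 h3
  have hx := A.hx
  have hW := A.hW
  have hR := A.hR
  have hY := A.hY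
  rcases t with ⟨x, y⟩ | ⟨x, y⟩ <;> rcases z4 d with rfl | rfl | rfl | rfl
  · by_cases hc : x = A.xl ∧ A.y1 ≤ y ∧ y < A.y0
    · have e1 : A.nb (Sum.inl (x, y)) 0 = (Sum.inr (A.R - 1, y), 2) := if_pos hc
      rw [e1, Prod.mk.injEq] at h3
      obtain ⟨rfl, rfl⟩ := h3
      have e2 : A.nb (Sum.inr (A.R - 1, y)) 2 = (Sum.inl (A.xl, y), 0) := if_pos rfl
      rw [e2, hc.1]
    · have e1 : A.nb (Sum.inl (x, y)) 0 = (Sum.inl (x - 1, y), 2) := if_neg hc
      rw [e1, Prod.mk.injEq] at h3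
      obtain ⟨rfl, rfl⟩ := h3
      have e2 : A.nb (Sum.inl (x - 1, y)) 2 = (Sum.inl (x - 1 + 1, y), 0) := if_neg (by
        rintro ⟨e3, e4, e5⟩
        simp only at e3 e4 e5
        exact A.right x y (by omega) (by omega) (by omega) (by omega) h1)
      rw [e2, sub_add_cancel]
  · have e1 : A.nb (Sum.inl (x, y)) 1 = (Sum.inl (x, y + 1), 3) := rfl
    rw [e1, Prod.mk.injEq] at h3
    obtain ⟨rfl, rfl⟩ := h3
    show _ = (Sum.inl (x, y + 1 - 1), (1 : ZMod 4))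
    rw [add_sub_cancel_right]
  · by_cases hc : x = A.xr ∧ A.y1 ≤ y ∧ y < A.y0
    · have e1 : A.nb (Sum.inl (x, y)) 2 = (Sum.inr (0, y), 0) := if_pos hc
      rw [e1, Prod.mk.injEq] at h3
      obtain ⟨rfl, rfl⟩ := h3
      have e2 : A.nb (Sum.inr (0, y)) 0 = (Sum.inl (A.xr, y), 2) := by simp [nb]
      rw [e2, hc.1]
    · have e1 : A.nb (Sum.inl (x, y)) 2 = (Sum.inl (x + 1, y), 0) := if_neg hc
      rw [e1, Prod.mk.injEq] at h3
      obtain ⟨rfl, rfl⟩ := h3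
      have e2 : A.nb (Sum.inl (x + 1, y)) 0 = (Sum.inl (x + 1 - 1, y), 2) := if_neg (by
        rintro ⟨e3, e4, e5⟩
        simp only at e3 e4 e5
        exact A.left x y (by omega) (by omega) (by omega) (by omega) h1)
      rw [e2, add_sub_cancel_right]
  · have e1 : A.nb (Sum.inl (x, y)) 3 = (Sum.inl (x, y - 1), 1) := rfl
    rw [e1, Prod.mk.injEq] at h3
    obtain ⟨rfl, rfl⟩ := h3
    show _ = (Sum.inl (x, y - 1 + 1), (3 : ZMod 4))
    rw [sub_add_cancel]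
  · by_cases hc : x = 0
    · have e1 : A.nb (Sum.inr (x, y)) 0 = (Sum.inl (A.xr, y), 2) := if_pos hc
      rw [e1, Prod.mk.injEq] at h3
      obtain ⟨rfl, rfl⟩ := h3
      have e2 : A.nb (Sum.inl (A.xr, y)) 2 = (Sum.inr (0, y), 0) := if_pos ⟨rfl, h1.2⟩
      rw [e2, hc]
    · have e1 : A.nb (Sum.inr (x, y)) 0 = (Sum.inr (x - 1, y), 2) := if_neg hc
      rw [e1, Prod.mk.injEq] at h3
      obtain ⟨rfl, rfl⟩ := h3
      have h4 : (0 ≤ x ∧ x < A.R) ∧ A.y1 ≤ y ∧ y < A.y0 := h1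
      have e2 : A.nb (Sum.inr (x - 1, y)) 2 = (Sum.inr (x - 1 + 1, y), 0) := if_neg (by
        intro e3
        simp only at e3
        omega)
      rw [e2, sub_add_cancel]
  · have e1 : A.nb (Sum.inr (x, y)) 1 = (Sum.inr (x, y + 1), 3) := rfl
    rw [e1, Prod.mk.injEq] at h3
    obtain ⟨rfl, rfl⟩ := h3
    show _ = (Sum.inr (x, y + 1 - 1), (1 : ZMod 4))
    rw [add_sub_cancel_right]
  · by_cases hc : x = A.R - 1
    · have e1 : A.nb (Sum.inr (x, y)) 2 = (Sum.inl (A.xl, y), 0) := if_pos hc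
      rw [e1, Prod.mk.injEq] at h3
      obtain ⟨rfl, rfl⟩ := h3
      have e2 : A.nb (Sum.inl (A.xl, y)) 0 = (Sum.inr (A.R - 1, y), 2) := if_pos ⟨rfl, h1.2⟩
      rw [e2, hc]
    · have e1 : A.nb (Sum.inr (x, y)) 2 = (Sum.inr (x + 1, y), 0) := if_neg hc
      rw [e1, Prod.mk.injEq] at h3
      obtain ⟨rfl, rfl⟩ := h3
      have h4 : (0 ≤ x ∧ x < A.R) ∧ A.y1 ≤ y ∧ y < A.y0 := h1
      have e2 : A.nb (Sum.inr (x + 1, y)) 0 = (Sum.inr (x + 1 - 1, y), 2) := if_neg (by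
        intro e3
        simp only at e3
        omega)
      rw [e2, add_sub_cancel_right]
  · have e1 : A.nb (Sum.inr (x, y)) 3 = (Sum.inr (x, y - 1), 1) := rfl
    rw [e1, Prod.mk.injEq] at h3
    obtain ⟨rfl, rfl⟩ := h3
    show _ = (Sum.inr (x, y - 1 + 1), (3 : ZMod 4))
    rw [sub_add_cancel]

theorem gd_symm : ∀ p q, A.Gd p q → A.Gd q p := by
  intro p q h
  cases h with
  | base k h => exact Gd.base k (A.gh_symm _ _ h)
  | c1 h => exact Gd.c2 h
  | c2 h => exact Gd.c1 h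

/-! ### Charts of the double -/

/-- reflected height -/
def ry (y : ℤ) : ℤ := if y < A.y0 then y else 2 * A.y0 - 1 - y

/-- copy -/
def kk (y : ℤ) : Bool := decide (A.y0 ≤ y)

theorem ry_lt {y : ℤ} (h : y < A.y0) : A.ry y = y := if_pos h
theorem ry_ge {y : ℤ} (h : A.y0 ≤ y) : A.ry y = 2 * A.y0 - 1 - y := if_neg (by omega)
theorem kk_lt {y : ℤ} (h : y < A.y0) : A.kk y = false := by simp [kk, h]
theorem kk_ge {y : ℤ} (h : A.y0 ≤ y) : A.kk y = true := by simp [kk, h]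

theorem ry_kk_inj {y y' : ℤ} (h : A.ry y = A.ry y') (h' : A.kk y = A.kk y') : y = y' := by
  rcases lt_or_ge y A.y0 with h1 | h1 <;> rcases lt_or_ge y' A.y0 with h2 | h2
  · rwa [ry_lt _ h1, ry_lt _ h2] at h
  · rw [kk_lt _ h1, kk_ge _ h2] at h'; simp at h'
  · rw [kk_ge _ h1, kk_lt _ h2] at h'; simp at h'
  · rw [ry_ge _ h1, ry_ge _ h2] at h; omega

/-- lift of a picture `P : Set (ℤ × ℤ)`, `tile : ℤ × ℤ → TG` of the half environment, symmetric with
respect to the crosscut: neighbours in the picture are glued in the double -/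
theorem glue_sym {P : ℤ → ℤ → Prop} {tile : ℤ → ℤ → TG} (hP : ∀ x y, P x y → y < A.y0)
    (hE : ∀ x y, P x y → P (x + 1) y → A.Gh (tile x y, 2) (tile (x + 1) y, 0))
    (hN : ∀ x y, P x y → P x (y + 1) → A.Gh (tile x y, 1) (tile x (y + 1), 3))
    (hC : ∀ x, P x (A.y0 - 1) → A.cutT (tile x (A.y0 - 1))) (v : ℤ × ℤ) (d : Dir)
    (h1 : P v.1 (A.ry v.2)) (h2 : P (mv v d).1 (A.ry (mv v d).2)) :
    A.Gd ((tile v.1 (A.ry v.2), A.kk v.2), ex d)
      ((tile (mv v d).1 (A.ry (mv v d).2), A.kk (mv v d).2), en d) := by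
  obtain ⟨x, y⟩ := v
  have hW := fun x y (h : P x y ∧ P (x + 1) y) => A.gh_symm _ _ (hE x y h.1 h.2)
  have hS := fun x y (h : P x y ∧ P x (y + 1)) => A.gh_symm _ _ (hN x y h.1 h.2)
  have s0 : ∀ k, sg k (0 : ZMod 4) = 0 := by decide
  have s2 : ∀ k, sg k (2 : ZMod 4) = 2 := by decide
  have s1 : sg false (1 : ZMod 4) = 1 := rfl
  have s3 : sg false (3 : ZMod 4) = 3 := rfl
  have s1' : sg true (1 : ZMod 4) = 3 := by decide
  have s3' : sg true (3 : ZMod 4) = 1 := by decide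
  fin_cases d
  · -- north
    have e1 : mv (x, y) (0 : Dir) = (x, y + 1) := by simp [mv, dx, dy]
    change A.Gd ((tile x (A.ry y), A.kk y), 1)
      ((tile (mv (x, y) (0 : Dir)).1 (A.ry (mv (x, y) (0 : Dir)).2),
        A.kk (mv (x, y) (0 : Dir)).2), 3)
    change P (mv (x, y) (0 : Dir)).1 (A.ry (mv (x, y) (0 : Dir)).2) at h2
    rw [e1] at h2 ⊢
    simp only at h1 h2 ⊢
    rcases lt_or_ge (y + 1) A.y0 with h | h
    · rw [ry_lt _ h, kk_lt _ h, ry_lt _ (by omega : y < A.y0), kk_lt _ (by omega : y < A.y0)]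
      rw [ry_lt _ h] at h2
      rw [ry_lt _ (by omega : y < A.y0)] at h1
      exact Gd.base false (hN x y h1 h2)
    · rcases eq_or_lt_of_le h with h3 | h3
      · have h4 : y < A.y0 := by omega
        rw [ry_ge _ h, kk_ge _ h, ry_lt _ h4, kk_lt _ h4]
        have e2 : 2 * A.y0 - 1 - (y + 1) = A.y0 - 1 := by omega
        have e3 : y = A.y0 - 1 := by omega
        rw [e2, e3]
        rw [ry_lt _ h4, e3] at h1
        exact Gd.c1 (hC x h1)
      · have h4 : A.y0 ≤ y := by omega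
        rw [ry_ge _ h, kk_ge _ h, ry_ge _ h4, kk_ge _ h4]
        rw [ry_ge _ h] at h2
        rw [ry_ge _ h4] at h1
        have e2 : 2 * A.y0 - 1 - y = 2 * A.y0 - 1 - (y + 1) + 1 := by ring
        rw [e2] at h1 ⊢
        have := Gd.base true (hS x _ ⟨h2, h1⟩)
        rwa [s1', s3'] at this
  · -- east
    have e1 : mv (x, y) (1 : Dir) = (x + 1, y) := by simp [mv, dx, dy]
    change A.Gd ((tile x (A.ry y), A.kk y), 2)
      ((tile (mv (x, y) (1 : Dir)).1 (A.ry (mv (x, y) (1 : Dir)).2),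
        A.kk (mv (x, y) (1 : Dir)).2), 0)
    change P (mv (x, y) (1 : Dir)).1 (A.ry (mv (x, y) (1 : Dir)).2) at h2
    rw [e1] at h2 ⊢
    simp only at h1 h2 ⊢
    have := Gd.base (A.kk y) (hE x _ h1 h2)
    rwa [s0, s2] at this
  · -- south
    have e1 : mv (x, y) (2 : Dir) = (x, y - 1) := by simp [mv, dx, dy, sub_eq_add_neg]
    change A.Gd ((tile x (A.ry y), A.kk y), 3)
      ((tile (mv (x, y) (2 : Dir)).1 (A.ry (mv (x, y) (2 : Dir)).2),
        A.kk (mv (x, y) (2 : Dir)).2), 1)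
    change P (mv (x, y) (2 : Dir)).1 (A.ry (mv (x, y) (2 : Dir)).2) at h2
    rw [e1] at h2 ⊢
    simp only at h1 h2 ⊢
    rcases lt_or_ge y A.y0 with h | h
    · rw [ry_lt _ h, kk_lt _ h, ry_lt _ (by omega : y - 1 < A.y0),
        kk_lt _ (by omega : y - 1 < A.y0)]
      rw [ry_lt _ h] at h1
      rw [ry_lt _ (by omega : y - 1 < A.y0)] at h2
      have e2 : y = y - 1 + 1 := by ring
      have := Gd.base false (hS x (y - 1) ⟨h2, by rwa [← e2]⟩)
      rwa [← e2, s1, s3] at this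
    · rcases eq_or_lt_of_le h with h3 | h3
      · have h4 : y - 1 < A.y0 := by omega
        rw [ry_ge _ h, kk_ge _ h, ry_lt _ h4, kk_lt _ h4]
        have e2 : 2 * A.y0 - 1 - y = A.y0 - 1 := by omega
        have e3 : y - 1 = A.y0 - 1 := by omega
        rw [e2, e3]
        rw [ry_lt _ h4, e3] at h2
        exact Gd.c2 (hC x h2)
      · have h4 : A.y0 ≤ y - 1 := by omega
        rw [ry_ge _ h, kk_ge _ h, ry_ge _ h4, kk_ge _ h4]
        rw [ry_ge _ h4] at h2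
        rw [ry_ge _ h] at h1
        have e2 : 2 * A.y0 - 1 - (y - 1) = 2 * A.y0 - 1 - y + 1 := by ring
        rw [e2] at h2 ⊢
        have := Gd.base true (hN x _ h1 h2)
        rwa [s1', s3'] at this
  · -- west
    have e1 : mv (x, y) (3 : Dir) = (x - 1, y) := by simp [mv, dx, dy, sub_eq_add_neg]
    change A.Gd ((tile x (A.ry y), A.kk y), 0)
      ((tile (mv (x, y) (3 : Dir)).1 (A.ry (mv (x, y) (3 : Dir)).2),
        A.kk (mv (x, y) (3 : Dir)).2), 2)
    change P (mv (x, y) (3 : Dir)).1 (A.ry (mv (x, y) (3 : Dir)).2) at h2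
    rw [e1] at h2 ⊢
    simp only at h1 h2 ⊢
    have e2 : x = x - 1 + 1 := by ring
    have := Gd.base (A.kk y) (hW (x - 1) (A.ry y) ⟨h2, by rwa [← e2]⟩)
    rwa [← e2, s0, s2] at this

end Half

end Crest.Agent.R158.Ka470
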