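import Crest.Agent.R158.Ka3_470

/-!
R158, leaf F1 (helper470), part 4: the four charts of the double of a half environment.
-/

set_option autoImplicit false

namespace Crest.Agent.R158.Ka470

open Crest.Agent.R158.Nm211
open Crest.Agent.R158.Env664 (TG)

namespace Half

variable (A : Half)

/-- a port is free in the half environment -/
def FrH (t : TG) (a : ZMod 4) : Prop := ∀ q, ¬ A.Gh (t, a) q

theorem free_of {t : TG} {k : Bool} {a : ZMod 4} (h : A.FrH t a) (hc : a = 1 → ¬ A.cutT t) :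
    Free A.Gd ((t, k), sg k a) := by
  intro r hr
  generalize hp : (((t, k), sg k a) : (TG × Bool) × ZMod 4) = p at hr
  cases hr with
  | @base k' u u' e e' h' =>
    simp only [Prod.mk.injEq] at hp
    obtain ⟨⟨rfl, rfl⟩, h3⟩ := hp
    have h4 := sg_inj _ h3
    subst h4
    exact h _ h'
  | @c1 u hu =>
    simp only [Prod.mk.injEq] at hp
    obtain ⟨⟨rfl, rfl⟩, h3⟩ := hp
    exact hc h3 hu
  | @c2 u hu =>
    simp only [Prod.mk.injEq] at hp
    obtain ⟨⟨rfl, rfl⟩, h3⟩ := hp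
    rw [← sg_three] at h3
    exact hc (sg_inj _ h3) hu

/-! ### symmetric pictures -/

/-- a picture of the half environment below the crosscut -/
structure Pic where
  /-- positions -/
  P : Finset (ℤ × ℤ)
  /-- tiles -/
  tile : ℤ → ℤ → TG
  lt : ∀ x y, (x, y) ∈ P → y < A.y0
  inj : ∀ x y x' y', (x, y) ∈ P → (x', y') ∈ P → tile x y = tile x' y' → x = x' ∧ y = y'
  hE : ∀ x y, (x, y) ∈ P → (x + 1, y) ∈ P → A.Gh (tile x y, 2) (tile (x + 1) y, 0)
  hN : ∀ x y, (x, y) ∈ P → (x, y + 1) ∈ P → A.Gh (tile x y, 1) (tile x (y + 1), 3)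
  hC : ∀ x, (x, A.y0 - 1) ∈ P → A.cutT (tile x (A.y0 - 1))

variable {A}

/-- positions of the double -/
def Pic.R (p : A.Pic) : Finset (ℤ × ℤ) := p.P ∪ p.P.image fun v => (v.1, 2 * A.y0 - 1 - v.2)

theorem Pic.mem_R (p : A.Pic) {x y : ℤ} : (x, y) ∈ p.R ↔ (x, A.ry y) ∈ p.P := by
  unfold Pic.R
  rw [Finset.mem_union, Finset.mem_image]
  constructor
  · rintro (h | ⟨⟨a, b⟩, h, h'⟩)
    · rwa [ry_lt _ (p.lt _ _ h)]
    · have := p.lt _ _ h
      simp only [Prod.mk.injEq] at h'
      obtain ⟨rfl, rfl⟩ := h'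
      rw [ry_ge _ (by omega)]
      have e : 2 * A.y0 - 1 - (2 * A.y0 - 1 - b) = b := by ring
      rwa [e]
  · intro h
    rcases lt_or_ge y A.y0 with h1 | h1
    · left; rwa [ry_lt _ h1] at h
    · right
      rw [ry_ge _ h1] at h
      exact ⟨_, h, by simp⟩

/-- the chart of a picture -/
def Pic.ch (p : A.Pic) : Ch (TG × Bool) A.Gd where
  emb v := (p.tile v.1 (A.ry v.2), A.kk v.2)
  F _ := false
  R := p.R
  inj := by
    rintro ⟨x, y⟩ h1 ⟨x', y'⟩ h2 h
    have h1' := p.mem_R.1 h1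
    have h2' := p.mem_R.1 h2
    simp only [Prod.mk.injEq] at h
    obtain ⟨h3, h4⟩ := p.inj _ _ _ _ h1' h2' h.1
    rw [h3, A.ry_kk_inj h4 h.2]
  glue := by
    intro v hv d hd
    exact A.glue_sym (P := fun x y => (x, y) ∈ p.P) p.lt p.hE p.hN p.hC v d (p.mem_R.1 hv)
      (p.mem_R.1 hd)

theorem Pic.ch_emb (p : A.Pic) (v : ℤ × ℤ) :
    p.ch.emb v = (p.tile v.1 (A.ry v.2), A.kk v.2) := rfl

/-- the picture sees the neighbours allowed by `Bx` -/
structure Pic.Sees (p : A.Pic) (Bx : ℤ → ℤ → Prop) : Prop where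
  e : ∀ x y, (x, y) ∈ p.P → (x + 1, y) ∉ p.P → Bx (x + 1) y → A.FrH (p.tile x y) 2
  w : ∀ x y, (x, y) ∈ p.P → (x - 1, y) ∉ p.P → Bx (x - 1) y → A.FrH (p.tile x y) 0
  n : ∀ x y, (x, y) ∈ p.P → (x, y + 1) ∉ p.P → y + 1 < A.y0 → Bx x (y + 1) →
    A.FrH (p.tile x y) 1
  s : ∀ x y, (x, y) ∈ p.P → (x, y - 1) ∉ p.P → Bx x (y - 1) → A.FrH (p.tile x y) 3
  cut : ∀ x y, (x, y) ∈ p.P → A.cutT (p.tile x y) → y = A.y0 - 1

theorem Pic.view (p : A.Pic) {Bx : ℤ → ℤ → Prop} (hs : p.Sees Bx) {B : Set (ℤ × ℤ)}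
    (hB : ∀ v ∈ B, Bx v.1 (A.ry v.2)) : View p.ch B := by
  rintro ⟨x, y⟩ hv hvB d hd hn
  have hv' : (x, A.ry y) ∈ p.P := p.mem_R.1 hv
  have hn' : ((mv (x, y) d).1, A.ry (mv (x, y) d).2) ∉ p.P := fun h => hn (p.mem_R.2 h)
  have hBd := hB _ hd
  have s0 : ∀ k, sg k (0 : ZMod 4) = 0 := by decide
  have s2 : ∀ k, sg k (2 : ZMod 4) = 2 := by decide
  have s1 : sg false (1 : ZMod 4) = 1 := rfl
  have s3 : sg false (3 : ZMod 4) = 3 := rfl
  have s1' : sg true (1 : ZMod 4) = 3 := by decide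
  have s3' : sg true (3 : ZMod 4) = 1 := by decide
  fin_cases d
  · have e1 : mv (x, y) (0 : Dir) = (x, y + 1) := by simp [mv, dx, dy]
    change ((mv (x, y) (0 : Dir)).1, A.ry (mv (x, y) (0 : Dir)).2) ∉ p.P at hn'
    change Bx (mv (x, y) (0 : Dir)).1 (A.ry (mv (x, y) (0 : Dir)).2) at hBd
    rw [e1] at hn' hBd
    simp only at hn' hBd
    change Free A.Gd ((p.tile x (A.ry y), A.kk y), 1)
    rcases lt_or_ge (y + 1) A.y0 with h | h
    · have h4 : y < A.y0 := by omega
      rw [ry_lt _ h] at hn' hBd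
      rw [ry_lt _ h4] at hv' ⊢
      rw [kk_lt _ h4, ← s1]
      refine A.free_of (hs.n x y hv' hn' h hBd) fun _ hc => ?_
      have := hs.cut x y hv' hc
      omega
    · rcases eq_or_lt_of_le h with h3 | h3
      · exfalso
        have h4 : y < A.y0 := by omega
        rw [ry_ge _ h] at hn'
        rw [ry_lt _ h4] at hv'
        apply hn'
        have e2 : 2 * A.y0 - 1 - (y + 1) = y := by omega
        rwa [e2]
      · have h4 : A.y0 ≤ y := by omega
        have e2 : A.ry (y + 1) = A.ry y - 1 := by rw [ry_ge _ h, ry_ge _ h4]; ring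
        rw [e2] at hn' hBd
        rw [kk_ge _ h4, ← s3']
        exact A.free_of (hs.s x _ hv' hn' hBd) fun h5 => absurd h5 (by decide)
  · have e1 : mv (x, y) (1 : Dir) = (x + 1, y) := by simp [mv, dx, dy]
    change ((mv (x, y) (1 : Dir)).1, A.ry (mv (x, y) (1 : Dir)).2) ∉ p.P at hn'
    change Bx (mv (x, y) (1 : Dir)).1 (A.ry (mv (x, y) (1 : Dir)).2) at hBd
    rw [e1] at hn' hBd
    change Free A.Gd ((p.tile x (A.ry y), A.kk y), 2)
    rw [← s2 (A.kk y)]
    exact A.free_of (hs.e x _ hv' hn' hBd) fun h5 => absurd h5 (by decide)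
  · have e1 : mv (x, y) (2 : Dir) = (x, y - 1) := by simp [mv, dx, dy, sub_eq_add_neg]
    change ((mv (x, y) (2 : Dir)).1, A.ry (mv (x, y) (2 : Dir)).2) ∉ p.P at hn'
    change Bx (mv (x, y) (2 : Dir)).1 (A.ry (mv (x, y) (2 : Dir)).2) at hBd
    rw [e1] at hn' hBd
    simp only at hn' hBd
    change Free A.Gd ((p.tile x (A.ry y), A.kk y), 3)
    rcases lt_or_ge y A.y0 with h | h
    · rw [ry_lt _ (by omega : y - 1 < A.y0)] at hn' hBd
      rw [ry_lt _ h] at hv' ⊢
      rw [kk_lt _ h, ← s3]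
      exact A.free_of (hs.s x y hv' hn' hBd) fun h5 => absurd h5 (by decide)
    · rcases eq_or_lt_of_le h with h3 | h3
      · exfalso
        have h4 : y - 1 < A.y0 := by omega
        rw [ry_lt _ h4] at hn'
        rw [ry_ge _ h] at hv'
        apply hn'
        have e2 : 2 * A.y0 - 1 - y = y - 1 := by omega
        rwa [e2] at hv'
      · have h4 : A.y0 ≤ y - 1 := by omega
        have e2 : A.ry (y - 1) = A.ry y + 1 := by rw [ry_ge _ h, ry_ge _ h4]; ring
        rw [e2] at hn' hBd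
        rw [kk_ge _ h, ← s1']
        have h6 : A.ry y + 1 < A.y0 := by rw [ry_ge _ h]; omega
        refine A.free_of (hs.n x _ hv' hn' h6 hBd) fun _ hc => ?_
        have := hs.cut x _ hv' hc
        omega
  · have e1 : mv (x, y) (3 : Dir) = (x - 1, y) := by simp [mv, dx, dy, sub_eq_add_neg]
    change ((mv (x, y) (3 : Dir)).1, A.ry (mv (x, y) (3 : Dir)).2) ∉ p.P at hn'
    change Bx (mv (x, y) (3 : Dir)).1 (A.ry (mv (x, y) (3 : Dir)).2) at hBd
    rw [e1] at hn' hBd
    change Free A.Gd ((p.tile x (A.ry y), A.kk y), 0)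
    rw [← s0 (A.kk y)]
    exact A.free_of (hs.w x _ hv' hn' hBd) fun h5 => absurd h5 (by decide)

variable (A)

/-! ### the picture of the strip -/

/-- the strip -/
noncomputable def picS : A.Pic where
  P := Finset.Ico 0 A.R ×ˢ Finset.Ico A.y1 A.y0
  tile x y := Sum.inr (x, y)
  lt x y h := by
    rw [Finset.mem_product, Finset.mem_Ico, Finset.mem_Ico] at h
    exact h.2.2
  inj x y x' y' _ _ h := by simpa using h
  hE x y h h' := by
    rw [Finset.mem_product, Finset.mem_Ico, Finset.mem_Ico] at h h'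
    refine ⟨h, h', ?_⟩
    have : A.nb (Sum.inr (x, y)) 2 = (Sum.inr (x + 1, y), 0) := if_neg (by
      simp only at h' ⊢; omega)
    exact this.symm
  hN x y h h' := by
    rw [Finset.mem_product, Finset.mem_Ico, Finset.mem_Ico] at h h'
    exact ⟨h, h', rfl⟩
  hC x h := by
    rw [Finset.mem_product, Finset.mem_Ico, Finset.mem_Ico] at h
    exact ⟨h.1, rfl⟩

theorem mem_picS {x y : ℤ} : (x, y) ∈ A.picS.P ↔ (0 ≤ x ∧ x < A.R) ∧ A.y1 ≤ y ∧ y < A.y0 := by
  show (x, y) ∈ Finset.Ico 0 A.R ×ˢ Finset.Ico A.y1 A.y0 ↔ _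
  rw [Finset.mem_product, Finset.mem_Ico, Finset.mem_Ico]

theorem seesS : A.picS.Sees fun x _ => 0 ≤ x ∧ x < A.R where
  e x y h h' hb := by
    rw [mem_picS] at h h'
    exact absurd ⟨hb, h.2⟩ h'
  w x y h h' hb := by
    rw [mem_picS] at h h'
    exact absurd ⟨hb, h.2⟩ h'
  n x y h h' hy hb := by
    rw [mem_picS] at h h'
    exact absurd ⟨hb, by omega, hy⟩ h'
  s x y h h' hb := by
    rw [mem_picS] at h h'
    rintro q ⟨-, h2, rfl⟩
    have h3 : (0 ≤ x ∧ x < A.R) ∧ A.y1 ≤ y - 1 ∧ y - 1 < A.y0 := h2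
    exact h' h3
  cut x y h hc := hc.2

/-! ### the picture of the run with the two ends of the strip -/

/-- the run -/
noncomputable def picM (m : ℤ) (hm : 2 * m ≤ A.R) : A.Pic where
  P := (Finset.Icc (A.xl - m) (A.xr + m) ×ˢ Finset.Ico A.Y A.y0).filter fun v =>
    (A.xl ≤ v.1 ∧ v.1 ≤ A.xr) ∨ A.y1 ≤ v.2
  tile x y := if x < A.xl then Sum.inr (A.R - (A.xl - x), y) else if x ≤ A.xr then Sum.inl (x, y)
    else Sum.inr (x - A.xr - 1, y)
  lt x y h := by
    rw [Finset.mem_filter, Finset.mem_product, Finset.mem_Icc, Finset.mem_Ico] at h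
    exact h.1.2.2
  inj x y x' y' h h' e := by
    rw [Finset.mem_filter, Finset.mem_product, Finset.mem_Icc, Finset.mem_Ico] at h h'
    simp only at h h' e
    have hx := A.hx
    split_ifs at e <;> simp only [Sum.inr.injEq, Sum.inl.injEq, Prod.mk.injEq] at e <;>
      omega
  hE x y h h' := by
    rw [Finset.mem_filter, Finset.mem_product, Finset.mem_Icc, Finset.mem_Ico] at h h'
    simp only at h h'
    have hx := A.hx
    rcases lt_trichotomy (x + 1) A.xl with hc | hc | hc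
    · rw [if_pos (by omega), if_pos hc]
      refine ⟨?_, ?_, ?_⟩
      · exact ⟨⟨by simp only; omega, by simp only; omega⟩, by simp only; omega, by simp only; omega⟩
      · exact ⟨⟨by simp only; omega, by simp only; omega⟩, by simp only; omega, by simp only; omega⟩
      · have : A.nb (Sum.inr (A.R - (A.xl - x), y)) 2 =
            (Sum.inr (A.R - (A.xl - x) + 1, y), 0) := if_neg (by simp only; omega)
        rw [this]
        congr 3
        ring
    · rw [if_pos (by omega), if_neg (by omega), if_pos (by omega)]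
      refine ⟨?_, ?_, ?_⟩
      · exact ⟨⟨by simp only; omega, by simp only; omega⟩, by simp only; omega, by simp only; omega⟩
      · exact A.row _ _ (by omega) (by omega) (by omega) (by omega)
      · have : A.nb (Sum.inr (A.R - (A.xl - x), y)) 2 =
            (Sum.inl (A.xl, y), 0) := if_pos (by simp only; omega)
        rw [this, hc]
    · rcases lt_trichotomy x A.xr with hd | hd | hd
      · rw [if_neg (by omega), if_pos (by omega), if_neg (by omega), if_pos (by omega)]
        refine ⟨?_, ?_, ?_⟩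
        · exact A.row _ _ (by omega) (by omega) (by omega) (by omega)
        · exact A.row _ _ (by omega) (by omega) (by omega) (by omega)
        · have : A.nb (Sum.inl (x, y)) 2 = (Sum.inl (x + 1, y), 0) := if_neg (by simp only; omega)
          rw [this]
      · rw [if_neg (by omega), if_pos (by omega), if_neg (by omega), if_neg (by omega)]
        refine ⟨?_, ?_, ?_⟩
        · exact A.row _ _ (by omega) (by omega) (by omega) (by omega)
        · exact ⟨⟨by simp only; omega, by simp only; omega⟩, by simp only; omega, by simp only; omega⟩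
        · have : A.nb (Sum.inl (x, y)) 2 = (Sum.inr (0, y), 0) := if_pos (by simp only; omega)
          rw [this]
          congr 3
          omega
      · rw [if_neg (by omega), if_neg (by omega), if_neg (by omega), if_neg (by omega)]
        refine ⟨?_, ?_, ?_⟩
        · exact ⟨⟨by simp only; omega, by simp only; omega⟩, by simp only; omega, by simp only; omega⟩
        · exact ⟨⟨by simp only; omega, by simp only; omega⟩, by simp only; omega, by simp only; omega⟩
        · have : A.nb (Sum.inr (x - A.xr - 1, y)) 2 =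
            (Sum.inr (x - A.xr - 1 + 1, y), 0) := if_neg (by simp only; omega)
          rw [this]
          congr 3
          ring
  hN x y h h' := by
    rw [Finset.mem_filter, Finset.mem_product, Finset.mem_Icc, Finset.mem_Ico] at h h'
    simp only at h h'
    have hx := A.hx
    split_ifs with h1 h2
    · refine ⟨?_, ?_, rfl⟩
      · exact ⟨⟨by simp only; omega, by simp only; omega⟩, by simp only; omega, by simp only; omega⟩
      · exact ⟨⟨by simp only; omega, by simp only; omega⟩, by simp only; omega, by simp only; omega⟩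
    · refine ⟨?_, ?_, rfl⟩
      · exact A.row _ _ (by omega) (by omega) (by omega) (by omega)
      · exact A.row _ _ (by omega) (by omega) (by omega) (by omega)
    · refine ⟨?_, ?_, rfl⟩
      · exact ⟨⟨by simp only; omega, by simp only; omega⟩, by simp only; omega, by simp only; omega⟩
      · exact ⟨⟨by simp only; omega, by simp only; omega⟩, by simp only; omega, by simp only; omega⟩
  hC x h := by
    rw [Finset.mem_filter, Finset.mem_product, Finset.mem_Icc, Finset.mem_Ico] at h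
    simp only at h
    have hx := A.hx
    split_ifs with h1 h2
    · exact ⟨⟨by simp only; omega, by simp only; omega⟩, rfl⟩
    · exact ⟨⟨by simp only; omega, by simp only; omega⟩, rfl⟩
    · exact ⟨⟨by simp only; omega, by simp only; omega⟩, rfl⟩

theorem mem_picM {m : ℤ} {hm : 2 * m ≤ A.R} {x y : ℤ} : (x, y) ∈ (A.picM m hm).P ↔
    ((A.xl - m ≤ x ∧ x ≤ A.xr + m) ∧ A.Y ≤ y ∧ y < A.y0) ∧
      ((A.xl ≤ x ∧ x ≤ A.xr) ∨ A.y1 ≤ y) := by
  show (x, y) ∈ (Finset.Icc (A.xl - m) (A.xr + m) ×ˢ Finset.Ico A.Y A.y0).filter _ ↔ _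
  rw [Finset.mem_filter, Finset.mem_product, Finset.mem_Icc, Finset.mem_Ico]

theorem seesM {m : ℤ} (hm : 2 * m ≤ A.R) :
    (A.picM m hm).Sees fun x y => (A.xl - m ≤ x ∧ x ≤ A.xr + m) ∧ A.Y ≤ y where
  e x y h h' hb := by
    rw [mem_picM] at h h'
    have hx := A.hx
    have hW := A.hW
    have hR := A.hR
    -- `x = xr`, `y < y1`
    have h1 : x = A.xr ∧ y < A.y1 := by
      by_contra hcon
      exact h' ⟨⟨hb.1, hb.2, h.1.2.2⟩, by omega⟩
    obtain ⟨rfl, h2⟩ := h1
    rintro q ⟨-, h3, rfl⟩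
    have e1 : (A.picM m hm).tile A.xr y = Sum.inl (A.xr, y) := by
      show (if A.xr < A.xl then _ else if A.xr ≤ A.xr then _ else _) = _
      rw [if_neg (by omega), if_pos le_rfl]
    have e2 : A.nb (Sum.inl (A.xr, y)) 2 = (Sum.inl (A.xr + 1, y), 0) := if_neg (by
      simp only; omega)
    simp only [e1, e2] at h3
    exact A.right _ _ h.1.2.1 (by omega) (by omega) (by omega) h3
  w x y h h' hb := by
    rw [mem_picM] at h h'
    have hx := A.hx
    have hW := A.hW
    have hR := A.hR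
    have h1 : x = A.xl ∧ y < A.y1 := by
      by_contra hcon
      exact h' ⟨⟨hb.1, hb.2, h.1.2.2⟩, by omega⟩
    obtain ⟨rfl, h2⟩ := h1
    rintro q ⟨-, h3, rfl⟩
    have e1 : (A.picM m hm).tile A.xl y = Sum.inl (A.xl, y) := by
      show (if A.xl < A.xl then _ else if A.xl ≤ A.xr then _ else _) = _
      rw [if_neg (by omega), if_pos hx]
    have e2 : A.nb (Sum.inl (A.xl, y)) 0 = (Sum.inl (A.xl - 1, y), 2) := if_neg (by
      simp only; omega)
    simp only [e1, e2] at h3
    exact A.left _ _ h.1.2.1 (by omega) (by omega) (by omega) h3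
  n x y h h' hy hb := by
    rw [mem_picM] at h h'
    exact absurd ⟨⟨hb.1, hb.2, hy⟩, by omega⟩ h'
  s x y h h' hb := by
    rw [mem_picM] at h h'
    have hx := A.hx
    have hR := A.hR
    have hY := A.hY
    -- floor of the strip
    have h1 : y = A.y1 ∧ ¬ (A.xl ≤ x ∧ x ≤ A.xr) := by
      by_contra hcon
      exact h' ⟨⟨hb.1, hb.2, by omega⟩, by omega⟩
    obtain ⟨rfl, h2⟩ := h1
    rintro q ⟨-, h3, rfl⟩
    rcases lt_or_ge x A.xl with h4 | h4
    · have e1 : (A.picM m hm).tile x A.y1 = Sum.inr (A.R - (A.xl - x), A.y1) := if_pos h4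
      simp only [e1] at h3
      have h5 : (0 ≤ A.R - (A.xl - x) ∧ A.R - (A.xl - x) < A.R) ∧ A.y1 ≤ A.y1 - 1 ∧
        A.y1 - 1 < A.y0 := h3
      omega
    · have e1 : (A.picM m hm).tile x A.y1 = Sum.inr (x - A.xr - 1, A.y1) := by
        show (if x < A.xl then _ else if x ≤ A.xr then _ else _) = _
        rw [if_neg (by omega), if_neg (by omega)]
      simp only [e1] at h3
      have h5 : (0 ≤ x - A.xr - 1 ∧ x - A.xr - 1 < A.R) ∧ A.y1 ≤ A.y1 - 1 ∧
        A.y1 - 1 < A.y0 := h3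
      omega
  cut x y h hc := by
    have e1 : (A.picM m hm).tile x y = if x < A.xl then Sum.inr (A.R - (A.xl - x), y)
      else if x ≤ A.xr then Sum.inl (x, y) else Sum.inr (x - A.xr - 1, y) := rfl
    rw [e1] at hc
    split_ifs at hc
    · exact hc.2
    · exact hc.2
    · exact hc.2

/-! ### the two planar charts -/

/-- natural copy -/
def chA : Ch (TG × Bool) A.Gd where
  emb v := (Sum.inl v, false)
  F _ := false
  R := A.H
  inj := by
    rintro v _ w _ h
    simpa using h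
  glue := by
    rintro ⟨x, y⟩ hv d hd
    have hW := A.hW
    have hY := A.hY
    have s1 : ∀ a : ZMod 4, sg false a = a := fun _ => rfl
    simp only [s1]
    fin_cases d
    · have e1 : mv (x, y) (0 : Dir) = (x, y + 1) := by simp [mv, dx, dy]
      change mv (x, y) (0 : Dir) ∈ A.H at hd
      change A.Gd ((Sum.inl (x, y), false), 1) ((Sum.inl (mv (x, y) (0 : Dir)), false), 3)
      rw [e1] at hd ⊢
      exact Gd.base false ⟨hv, hd, rfl⟩
    · have e1 : mv (x, y) (1 : Dir) = (x + 1, y) := by simp [mv, dx, dy]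
      change mv (x, y) (1 : Dir) ∈ A.H at hd
      change A.Gd ((Sum.inl (x, y), false), 2) ((Sum.inl (mv (x, y) (1 : Dir)), false), 0)
      rw [e1] at hd ⊢
      refine Gd.base false ⟨hv, hd, ?_⟩
      have : A.nb (Sum.inl (x, y)) 2 = (Sum.inl (x + 1, y), 0) := if_neg (by
        rintro ⟨h1, h2, h3⟩
        simp only at h1 h2 h3
        exact A.right _ _ (by omega) (by omega) (by omega) (by omega) hd)
      exact this.symm
    · have e1 : mv (x, y) (2 : Dir) = (x, y - 1) := by simp [mv, dx, dy, sub_eq_add_neg]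
      change mv (x, y) (2 : Dir) ∈ A.H at hd
      change A.Gd ((Sum.inl (x, y), false), 3) ((Sum.inl (mv (x, y) (2 : Dir)), false), 1)
      rw [e1] at hd ⊢
      exact Gd.base false ⟨hv, hd, rfl⟩
    · have e1 : mv (x, y) (3 : Dir) = (x - 1, y) := by simp [mv, dx, dy, sub_eq_add_neg]
      change mv (x, y) (3 : Dir) ∈ A.H at hd
      change A.Gd ((Sum.inl (x, y), false), 0) ((Sum.inl (mv (x, y) (3 : Dir)), false), 2)
      rw [e1] at hd ⊢
      refine Gd.base false ⟨hv, hd, ?_⟩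
      have : A.nb (Sum.inl (x, y)) 0 = (Sum.inl (x - 1, y), 2) := if_neg (by
        rintro ⟨h1, h2, h3⟩
        simp only at h1 h2 h3
        exact A.left _ _ (by omega) (by omega) (by omega) (by omega) hd)
      exact this.symm

/-- reflection of a position -/
def rf (v : ℤ × ℤ) : ℤ × ℤ := (v.1, 2 * A.y0 - 1 - v.2)

theorem rf_rf (v : ℤ × ℤ) : A.rf (A.rf v) = v := by
  obtain ⟨x, y⟩ := v
  simp [rf]

theorem mem_rf {v : ℤ × ℤ} : v ∈ A.H.image A.rf ↔ A.rf v ∈ A.H := by
  rw [Finset.mem_image]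
  constructor
  · rintro ⟨w, hw, rfl⟩; rwa [rf_rf]
  · intro h; exact ⟨_, h, rf_rf _ _⟩

/-- mirrored copy -/
def chB : Ch (TG × Bool) A.Gd where
  emb v := (Sum.inl (A.rf v), true)
  F _ := false
  R := A.H.image A.rf
  inj := by
    rintro v _ w _ h
    simp only [Prod.mk.injEq, Sum.inl.injEq, and_true] at h
    rw [← A.rf_rf v, h, rf_rf]
  glue := by
    rintro ⟨x, y⟩ hv d hd
    have hW := A.hW
    have hY := A.hY
    rw [mem_rf] at hv hd
    have s1 : ∀ a : ZMod 4, sg false a = a := fun _ => rfl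
    have t0 : sg true (0 : ZMod 4) = 0 := by decide
    have t2 : sg true (2 : ZMod 4) = 2 := by decide
    have t1 : sg true (1 : ZMod 4) = 3 := by decide
    have t3 : sg true (3 : ZMod 4) = 1 := by decide
    simp only [s1]
    have e0 : A.rf (x, y) = (x, 2 * A.y0 - 1 - y) := rfl
    rw [e0] at hv
    fin_cases d
    · have e1 : A.rf (mv (x, y) (0 : Dir)) = (x, 2 * A.y0 - 1 - y - 1) := by
        simp only [mv, dx, dy, rf, Prod.mk.injEq]; constructor
        · simp
        · ring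
      change A.rf (mv (x, y) (0 : Dir)) ∈ A.H at hd
      change A.Gd ((Sum.inl (A.rf (x, y)), true), 1)
        ((Sum.inl (A.rf (mv (x, y) (0 : Dir))), true), 3)
      rw [e1] at hd ⊢
      rw [e0]
      have := Gd.base (A := A) true (t := Sum.inl (x, 2 * A.y0 - 1 - y)) (d := 3)
        (t' := Sum.inl (x, 2 * A.y0 - 1 - y - 1)) (d' := 1) ⟨hv, hd, rfl⟩
      rwa [t3, t1] at this
    · have e1 : A.rf (mv (x, y) (1 : Dir)) = (x + 1, 2 * A.y0 - 1 - y) := by
        simp [mv, dx, dy, rf]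
      change A.rf (mv (x, y) (1 : Dir)) ∈ A.H at hd
      change A.Gd ((Sum.inl (A.rf (x, y)), true), 2)
        ((Sum.inl (A.rf (mv (x, y) (1 : Dir))), true), 0)
      rw [e1] at hd ⊢
      rw [e0]
      have h4 : A.nb (Sum.inl (x, 2 * A.y0 - 1 - y)) 2 =
          (Sum.inl (x + 1, 2 * A.y0 - 1 - y), 0) := if_neg (by
        rintro ⟨h1, h2, h3⟩
        simp only at h1 h2 h3
        exact A.right _ _ (by omega) (by omega) (by omega) (by omega) hd)
      have := Gd.base (A := A) true (t := Sum.inl (x, 2 * A.y0 - 1 - y)) (d := 2)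
        (t' := Sum.inl (x + 1, 2 * A.y0 - 1 - y)) (d' := 0) ⟨hv, hd, h4.symm⟩
      rwa [t2, t0] at this
    · have e1 : A.rf (mv (x, y) (2 : Dir)) = (x, 2 * A.y0 - 1 - y + 1) := by
        simp only [mv, dx, dy, rf, Prod.mk.injEq]; constructor
        · simp
        · ring
      change A.rf (mv (x, y) (2 : Dir)) ∈ A.H at hd
      change A.Gd ((Sum.inl (A.rf (x, y)), true), 3)
        ((Sum.inl (A.rf (mv (x, y) (2 : Dir))), true), 1)
      rw [e1] at hd ⊢
      rw [e0]
      have := Gd.base (A := A) true (t := Sum.inl (x, 2 * A.y0 - 1 - y)) (d := 1)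
        (t' := Sum.inl (x, 2 * A.y0 - 1 - y + 1)) (d' := 3) ⟨hv, hd, rfl⟩
      rwa [t3, t1] at this
    · have e1 : A.rf (mv (x, y) (3 : Dir)) = (x - 1, 2 * A.y0 - 1 - y) := by
        simp [mv, dx, dy, rf, sub_eq_add_neg]
      change A.rf (mv (x, y) (3 : Dir)) ∈ A.H at hd
      change A.Gd ((Sum.inl (A.rf (x, y)), true), 0)
        ((Sum.inl (A.rf (mv (x, y) (3 : Dir))), true), 2)
      rw [e1] at hd ⊢
      rw [e0]
      have h4 : A.nb (Sum.inl (x, 2 * A.y0 - 1 - y)) 0 =
          (Sum.inl (x - 1, 2 * A.y0 - 1 - y), 2) := if_neg (by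
        rintro ⟨h1, h2, h3⟩
        simp only at h1 h2 h3
        exact A.left _ _ (by omega) (by omega) (by omega) (by omega) hd)
      have := Gd.base (A := A) true (t := Sum.inl (x, 2 * A.y0 - 1 - y)) (d := 0)
        (t' := Sum.inl (x - 1, 2 * A.y0 - 1 - y)) (d' := 2) ⟨hv, hd, h4.symm⟩
      rwa [t2, t0] at this

/-- positions of the mouths and of the crosscut -/
def Mou (v : ℤ × ℤ) : Prop :=
  ((A.xl ≤ v.1 ∧ v.1 ≤ A.xr) ∧ A.y1 ≤ v.2 ∧ v.2 < A.y0) ∧
    (v.1 = A.xl ∨ v.1 = A.xr ∨ v.2 = A.y0 - 1)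

theorem cut_mou {v : ℤ × ℤ} (h : A.cutT (Sum.inl v)) : A.Mou v := by
  have h1 := A.h1
  obtain ⟨h2, h3⟩ := h
  exact ⟨⟨h2, by omega, by omega⟩, Or.inr (Or.inr h3)⟩

/-- free sides of the planar part -/
theorem frH_inl {x y : ℤ} (hm : ¬ A.Mou (x, y)) :
    ((x + 1, y) ∉ A.H → A.FrH (Sum.inl (x, y)) 2) ∧ ((x - 1, y) ∉ A.H → A.FrH (Sum.inl (x, y)) 0) ∧
    ((x, y + 1) ∉ A.H → A.FrH (Sum.inl (x, y)) 1) ∧
    ((x, y - 1) ∉ A.H → A.FrH (Sum.inl (x, y)) 3) := by
  have hx := A.hx
  refine ⟨?_, ?_, ?_, ?_⟩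
  · rintro h q ⟨-, h2, rfl⟩
    have e : A.nb (Sum.inl (x, y)) 2 = (Sum.inl (x + 1, y), 0) := if_neg (by
      rintro ⟨h3, h4⟩
      simp only at h3 h4
      exact hm ⟨⟨by simp only; omega, h4⟩, Or.inr (Or.inl h3)⟩)
    simp only [e] at h2
    exact h h2
  · rintro h q ⟨-, h2, rfl⟩
    have e : A.nb (Sum.inl (x, y)) 0 = (Sum.inl (x - 1, y), 2) := if_neg (by
      rintro ⟨h3, h4⟩
      simp only at h3 h4
      exact hm ⟨⟨by simp only; omega, h4⟩, Or.inl h3⟩)
    simp only [e] at h2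
    exact h h2
  · rintro h q ⟨-, h2, rfl⟩
    exact h h2
  · rintro h q ⟨-, h2, rfl⟩
    exact h h2

theorem viewA {B : Set (ℤ × ℤ)} (hB : ∀ v ∈ B, ¬ A.Mou v) : View A.chA B := by
  rintro ⟨x, y⟩ hv hvB d hd hn
  have hm := hB _ hvB
  obtain ⟨f2, f0, f1, f3⟩ := A.frH_inl hm
  have s1 : ∀ a : ZMod 4, sg false a = a := fun _ => rfl
  change mv (x, y) d ∉ A.H at hn
  fin_cases d
  · have e1 : mv (x, y) (0 : Dir) = (x, y + 1) := by simp [mv, dx, dy]
    change mv (x, y) (0 : Dir) ∉ A.H at hn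
    rw [e1] at hn
    exact A.free_of (k := false) (f1 hn) fun _ hc => hm (A.cut_mou hc)
  · have e1 : mv (x, y) (1 : Dir) = (x + 1, y) := by simp [mv, dx, dy]
    change mv (x, y) (1 : Dir) ∉ A.H at hn
    rw [e1] at hn
    exact A.free_of (k := false) (f2 hn) fun _ hc => hm (A.cut_mou hc)
  · have e1 : mv (x, y) (2 : Dir) = (x, y - 1) := by simp [mv, dx, dy, sub_eq_add_neg]
    change mv (x, y) (2 : Dir) ∉ A.H at hn
    rw [e1] at hn
    exact A.free_of (k := false) (f3 hn) fun _ hc => hm (A.cut_mou hc)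
  · have e1 : mv (x, y) (3 : Dir) = (x - 1, y) := by simp [mv, dx, dy, sub_eq_add_neg]
    change mv (x, y) (3 : Dir) ∉ A.H at hn
    rw [e1] at hn
    exact A.free_of (k := false) (f0 hn) fun _ hc => hm (A.cut_mou hc)

theorem viewB {B : Set (ℤ × ℤ)} (hB : ∀ v ∈ B, ¬ A.Mou (A.rf v)) : View A.chB B := by
  rintro ⟨x, y⟩ hv hvB d hd hn
  have hm := hB _ hvB
  obtain ⟨f2, f0, f1, f3⟩ := A.frH_inl hm
  change mv (x, y) d ∉ A.H.image A.rf at hn
  rw [mem_rf] at hn
  have t0 : sg true (0 : ZMod 4) = 0 := by decide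
  have t2 : sg true (2 : ZMod 4) = 2 := by decide
  have t1 : sg true (1 : ZMod 4) = 3 := by decide
  have t3 : sg true (3 : ZMod 4) = 1 := by decide
  fin_cases d
  · have e1 : A.rf (mv (x, y) (0 : Dir)) = (x, 2 * A.y0 - 1 - y - 1) := by
      simp only [mv, dx, dy, rf, Prod.mk.injEq]; constructor
      · simp
      · ring
    change A.rf (mv (x, y) (0 : Dir)) ∉ A.H at hn
    rw [e1] at hn
    change Free A.Gd ((Sum.inl (A.rf (x, y)), true), 1)
    rw [← t3]
    exact A.free_of (k := true) (f3 hn) fun _ hc => hm (A.cut_mou hc)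
  · have e1 : A.rf (mv (x, y) (1 : Dir)) = (x + 1, 2 * A.y0 - 1 - y) := by
      simp [mv, dx, dy, rf]
    change A.rf (mv (x, y) (1 : Dir)) ∉ A.H at hn
    rw [e1] at hn
    change Free A.Gd ((Sum.inl (A.rf (x, y)), true), 2)
    rw [← t2]
    exact A.free_of (k := true) (f2 hn) fun _ hc => hm (A.cut_mou hc)
  · have e1 : A.rf (mv (x, y) (2 : Dir)) = (x, 2 * A.y0 - 1 - y + 1) := by
      simp only [mv, dx, dy, rf, Prod.mk.injEq]; constructor
      · simp
      · ring
    change A.rf (mv (x, y) (2 : Dir)) ∉ A.H at hn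
    rw [e1] at hn
    change Free A.Gd ((Sum.inl (A.rf (x, y)), true), 3)
    rw [← t1]
    exact A.free_of (k := true) (f1 hn) fun _ hc => hm (A.cut_mou hc)
  · have e1 : A.rf (mv (x, y) (3 : Dir)) = (x - 1, 2 * A.y0 - 1 - y) := by
      simp [mv, dx, dy, rf, sub_eq_add_neg]
    change A.rf (mv (x, y) (3 : Dir)) ∉ A.H at hn
    rw [e1] at hn
    change Free A.Gd ((Sum.inl (A.rf (x, y)), true), 0)
    rw [← t0]
    exact A.free_of (k := true) (f0 hn) fun _ hc => hm (A.cut_mou hc)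

end Half

end Crest.Agent.R158.Ka470
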