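import Crest.Agent.R158.Ka4_470

/-!
R158, leaf F1 / F2 (helper470), part 5: finite cover of the double of a half environment by charts
and cells; exponential moments of the number of strands that are not contained in a patch.
-/

set_option autoImplicit false

namespace Crest.Agent.R158.Ka470

open Crest.Agent.R158.Nm211
open Crest.Agent.R158.Rs689 (PB hf)
open Crest.Agent.R158.Env664 (TG)
open MeasureTheory

/-- lower left corner of the cell of `v` -/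
def cel (ρ : ℕ) (v : ℤ × ℤ) : ℤ × ℤ := (ρ * (v.1 / ρ), ρ * (v.2 / ρ))

theorem cel_bd {ρ : ℕ} (hρ : 1 ≤ ρ) (x : ℤ) : (ρ : ℤ) * (x / ρ) ≤ x ∧ x < ρ * (x / ρ) + ρ := by
  have h0 : (0 : ℤ) < ρ := by exact_mod_cast hρ
  have h1 := Int.mul_ediv_add_emod x ρ
  have h2 := Int.emod_nonneg x h0.ne'
  have h3 := Int.emod_lt_of_pos x h0
  constructor <;> linarith

theorem cel_mem {ρ : ℕ} (hρ : 1 ≤ ρ) (v : ℤ × ℤ) : v ∈ B1 ρ (cel ρ v) := by
  obtain ⟨h1, h2⟩ := cel_bd hρ v.1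
  obtain ⟨h3, h4⟩ := cel_bd hρ v.2
  exact ⟨⟨h1, h2⟩, h3, h4⟩

/-- square of side `5ρ` -/
def B5 (ρ : ℕ) (o : ℤ × ℤ) : Set (ℤ × ℤ) :=
  {v | (o.1 - 2 * ρ ≤ v.1 ∧ v.1 < o.1 + 3 * ρ) ∧ o.2 - 2 * ρ ≤ v.2 ∧ v.2 < o.2 + 3 * ρ}

theorem B3_sub (ρ : ℕ) (o : ℤ × ℤ) : B3 ρ o ⊆ B5 ρ o := by
  rintro ⟨x, y⟩ ⟨⟨h1, h2⟩, h3, h4⟩
  simp only at h1 h2 h3 h4
  refine ⟨⟨?_, ?_⟩, ?_, ?_⟩ <;> simp only <;> omega

theorem cel_B5 {ρ : ℕ} (hρ : 1 ≤ ρ) {v u : ℤ × ℤ} (hu : u ∈ B5 ρ (cel ρ v)) :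
    (v.1 - 3 * ρ < u.1 ∧ u.1 < v.1 + 3 * ρ) ∧ v.2 - 3 * ρ < u.2 ∧ u.2 < v.2 + 3 * ρ := by
  obtain ⟨h1, h2⟩ := cel_bd hρ v.1
  obtain ⟨h3, h4⟩ := cel_bd hρ v.2
  obtain ⟨⟨h5, h6⟩, h7, h8⟩ := hu
  simp only [cel] at h5 h6 h7 h8
  refine ⟨⟨?_, ?_⟩, ?_, ?_⟩ <;> linarith

theorem B5_diam {ρ : ℕ} {o u v : ℤ × ℤ} (hu : u ∈ B5 ρ o) (hv : v ∈ B5 ρ o) :
    (v.1 < u.1 + 5 * ρ ∧ u.1 < v.1 + 5 * ρ) ∧ v.2 < u.2 + 5 * ρ ∧ u.2 < v.2 + 5 * ρ := by
  obtain ⟨⟨h1, h2⟩, h3, h4⟩ := hu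
  obtain ⟨⟨h5, h6⟩, h7, h8⟩ := hv
  refine ⟨⟨?_, ?_⟩, ?_, ?_⟩ <;> linarith

theorem cel_mem5 {ρ : ℕ} (hρ : 1 ≤ ρ) (v : ℤ × ℤ) : v ∈ B5 ρ (cel ρ v) :=
  B3_sub _ _ (B1_sub _ _ (cel_mem hρ v))

/-- number of cells that meet a box -/
theorem card_cells {ρ κ : ℕ} (hρ : 1 ≤ ρ) {R : Finset (ℤ × ℤ)} {X0 Y0 : ℤ}
    (h : ∀ v ∈ R, (X0 ≤ v.1 ∧ v.1 < X0 + κ * ρ) ∧ Y0 ≤ v.2 ∧ v.2 < Y0 + κ * ρ) :
    (R.image (cel ρ)).card ≤ (κ + 1) ^ 2 := by
  classical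
  have h0 : (0 : ℤ) < ρ := by exact_mod_cast hρ
  have key : ∀ X x : ℤ, X ≤ x → x < X + κ * ρ → X / ρ ≤ x / ρ ∧ x / ρ < X / ρ + κ + 1 := by
    intro X x h1 h2
    refine ⟨Int.ediv_le_ediv h0 h1, ?_⟩
    have h3 : X < ρ * (X / ρ) + ρ := (cel_bd hρ X).2
    apply Int.ediv_lt_of_lt_mul h0
    nlinarith
  have h1 : R.image (cel ρ) ⊆ ((Finset.Ico (X0 / ρ) (X0 / ρ + κ + 1)) ×ˢ
      (Finset.Ico (Y0 / ρ) (Y0 / ρ + κ + 1))).image fun q => ((ρ : ℤ) * q.1, (ρ : ℤ) * q.2) := by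
    intro o ho
    rw [Finset.mem_image] at ho
    obtain ⟨v, hv, rfl⟩ := ho
    obtain ⟨⟨h2, h3⟩, h4, h5⟩ := h v hv
    rw [Finset.mem_image]
    refine ⟨(v.1 / ρ, v.2 / ρ), ?_, rfl⟩
    rw [Finset.mem_product, Finset.mem_Ico, Finset.mem_Ico]
    exact ⟨key _ _ h2 h3, key _ _ h4 h5⟩
  refine (Finset.card_le_card h1).trans (Finset.card_image_le.trans ?_)
  rw [Finset.card_product, Int.card_Ico, Int.card_Ico]
  have e1 : (X0 / (ρ : ℤ) + κ + 1 - X0 / ρ).toNat = κ + 1 := by omega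
  have e2 : (Y0 / (ρ : ℤ) + κ + 1 - Y0 / ρ).toNat = κ + 1 := by omega
  rw [e1, e2, sq]

namespace Half

variable (A : Half)

/-- all the scales are large compared with `ρ` -/
structure Sz (ρ : ℕ) : Prop where
  pos : 1 ≤ ρ
  y : 5 * (ρ : ℤ) ≤ A.y1 - A.Y
  w : 5 * (ρ : ℤ) ≤ A.W
  r : 2 * (8 * (ρ : ℤ)) ≤ A.R

/-- all the scales are comparable with `ρ` -/
structure Bd (ρ κ : ℕ) : Prop where
  hH : ∃ X0 Y0 : ℤ, ∀ v ∈ A.H, (X0 ≤ v.1 ∧ v.1 < X0 + κ * ρ) ∧ Y0 ≤ v.2 ∧ v.2 < Y0 + κ * ρ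
  hR : A.R ≤ κ * ρ

variable {A}

/-- the four charts -/
noncomputable def chf {ρ : ℕ} (h : A.Sz ρ) : Fin 4 → Ch (TG × Bool) A.Gd
  | 0 => A.chA
  | 1 => A.chB
  | 2 => (A.picM (8 * (ρ : ℤ)) h.r).ch
  | 3 => A.picS.ch

theorem chf_F {ρ : ℕ} (h : A.Sz ρ) (i : Fin 4) (v : ℤ × ℤ) : (chf h i).F v = false := by
  fin_cases i <;> rfl

theorem ry_le {y : ℤ} : A.ry y < A.y0 := by
  rcases lt_or_ge y A.y0 with h | h
  · rwa [ry_lt _ h]
  · rw [ry_ge _ h]; omega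

/-- chart `M` sees the cells near the mouths and the crosscut -/
theorem viewM {ρ : ℕ} (h : A.Sz ρ) {B : Set (ℤ × ℤ)}
    (hB : ∀ u ∈ B, (A.xl - 8 * ρ ≤ u.1 ∧ u.1 ≤ A.xr + 8 * ρ) ∧ A.Y ≤ A.ry u.2) :
    View (chf h 2) B :=
  (A.picM (8 * (ρ : ℤ)) h.r).view (A.seesM h.r) hB

theorem viewS {ρ : ℕ} (h : A.Sz ρ) {B : Set (ℤ × ℤ)} (hB : ∀ u ∈ B, 0 ≤ u.1 ∧ u.1 < A.R) :
    View (chf h 3) B :=
  A.picS.view A.seesS hB

variable (A) in
/-- sets of positions that are completely seen by the chart `i` -/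
def Good (ρ : ℕ) (i : Fin 4) (B : Set (ℤ × ℤ)) : Prop :=
  match i with
  | 0 => ∀ u ∈ B, ¬ A.Mou u
  | 1 => ∀ u ∈ B, ¬ A.Mou (A.rf u)
  | 2 => ∀ u ∈ B, (A.xl - 8 * (ρ : ℤ) ≤ u.1 ∧ u.1 ≤ A.xr + 8 * ρ) ∧ A.Y ≤ A.ry u.2
  | 3 => ∀ u ∈ B, 0 ≤ u.1 ∧ u.1 < A.R

theorem Good.view {ρ : ℕ} (h : A.Sz ρ) {i : Fin 4} {B : Set (ℤ × ℤ)} (hB : A.Good ρ i B) :
    View (chf h i) B := by
  fin_cases i
  · exact A.viewA hB
  · exact A.viewB hB
  · exact viewM h hB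
  · exact viewS h hB

theorem Good.mono {ρ : ℕ} {i : Fin 4} {B B' : Set (ℤ × ℤ)} (hB : A.Good ρ i B) (hs : B' ⊆ B) :
    A.Good ρ i B' := by
  fin_cases i <;> exact fun u hu => hB u (hs hu)

/-- the heights seen by chart `M` -/
theorem ry_ge_Y {ρ : ℕ} (h : A.Sz ρ) {y0' y : ℤ} (h1 : A.y1 ≤ y0') (h2 : y0' < A.y0)
    (h3 : y0' < y + 5 * ρ) (h4 : y < y0' + 5 * ρ) : A.Y ≤ A.ry y := by
  have hy := h.y
  rcases lt_or_ge y A.y0 with h5 | h5
  · rw [ry_lt _ h5]; omega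
  · rw [ry_ge _ h5]; omega

/-- natural tiles near a mouth or the crosscut belong to the run -/
theorem near_mou {ρ : ℕ} (h : A.Sz ρ) {v u : ℤ × ℤ} (hv : v ∈ A.H) (hu : A.Mou u)
    (hd : (v.1 < u.1 + 5 * ρ ∧ u.1 < v.1 + 5 * ρ) ∧ v.2 < u.2 + 5 * ρ ∧ u.2 < v.2 + 5 * ρ) :
    (A.xl ≤ v.1 ∧ v.1 ≤ A.xr) ∧ A.Y ≤ v.2 ∧ v.2 < A.y0 := by
  obtain ⟨⟨⟨h1, h2⟩, h3, h4⟩, -⟩ := hu
  have hy := h.y
  have hw := h.w
  obtain ⟨x, y⟩ := v
  simp only at hd ⊢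
  have hx : A.xl ≤ x ∧ x ≤ A.xr := by
    constructor
    · by_contra hcon
      exact A.left x y (by omega) (by omega) (by omega) (by omega) hv
    · by_contra hcon
      exact A.right x y (by omega) (by omega) (by omega) (by omega) hv
  refine ⟨hx, by omega, ?_⟩
  by_contra hcon
  exact A.top x y hx.1 hx.2 (by omega) (by omega) hv

/-- **cover**: every tile of the double is seen in one of the four charts. -/
theorem cover_good {ρ : ℕ} (h : A.Sz ρ) {t : TG} (ht : A.tH t) (k : Bool) :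
    ∃ i : Fin 4, ∃ v ∈ (chf h i).R, (chf h i).emb v = (t, k) ∧
      A.Good ρ i (B5 ρ (cel ρ v)) := by
  have hρ := h.pos
  have hy := h.y
  have hw := h.w
  have hr := h.r
  have hx := A.hx
  have h01 := A.h1
  rcases t with ⟨x, y⟩ | ⟨x, y⟩
  · -- planar tile
    have hv : (x, y) ∈ A.H := ht
    cases k
    · by_cases hM : ∀ u ∈ B5 ρ (cel ρ (x, y)), ¬ A.Mou u
      · exact ⟨0, (x, y), hv, rfl, hM⟩
      · push Not at hM
        obtain ⟨u, hu, hu'⟩ := hM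
        have hd := B5_diam hu (cel_mem5 hρ (x, y))
        obtain ⟨h1, h2, h3⟩ := near_mou h hv hu' hd
        simp only at h1 h2 h3
        refine ⟨2, (x, y), ?_, ?_, fun w hw => ?_⟩
        · refine (Pic.mem_R _).2 ?_
          rw [ry_lt _ h3]
          exact A.mem_picM.2 ⟨⟨by omega, h2, h3⟩, Or.inl h1⟩
        · show ((A.picM _ _).tile x (A.ry y), A.kk y) = _
          rw [ry_lt _ h3, kk_lt _ h3]
          have : (A.picM (8 * (ρ : ℤ)) h.r).tile x y = Sum.inl (x, y) := by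
            show (if x < A.xl then _ else if x ≤ A.xr then _ else _) = _
            rw [if_neg (by omega), if_pos h1.2]
          rw [this]
        · have hd' := B5_diam hu hw
          obtain ⟨⟨⟨h4, h5⟩, h6, h7⟩, -⟩ := hu'
          exact ⟨by omega, ry_ge_Y h h6 h7 (by omega) (by omega)⟩
    · -- mirrored
      set v : ℤ × ℤ := A.rf (x, y) with hvdef
      have hrf : A.rf v = (x, y) := A.rf_rf _
      by_cases hM : ∀ u ∈ B5 ρ (cel ρ v), ¬ A.Mou (A.rf u)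
      · refine ⟨1, v, ?_, ?_, hM⟩
        · exact A.mem_rf.2 (by rw [hrf]; exact hv)
        · show (Sum.inl (A.rf v), true) = _
          rw [hrf]
      · push Not at hM
        obtain ⟨u, hu, hu'⟩ := hM
        have hd := B5_diam hu (cel_mem5 hρ v)
        have hv1 : v.1 = x := rfl
        have hv2 : v.2 = 2 * A.y0 - 1 - y := rfl
        have hu1 : (A.rf u).1 = u.1 := rfl
        have hu2 : (A.rf u).2 = 2 * A.y0 - 1 - u.2 := rfl
        obtain ⟨h1, h2, h3⟩ := near_mou h (v := (x, y)) hv hu' (by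
          simp only; rw [hu1, hu2]; omega)
        simp only at h1 h2 h3
        have hge : A.y0 ≤ v.2 := by omega
        have hry : A.ry v.2 = y := by rw [ry_ge _ hge]; omega
        refine ⟨2, v, ?_, ?_, fun w hw => ?_⟩
        · have hmem : (v.1, A.ry v.2) ∈ (A.picM _ h.r).P := by
            rw [hry]
            exact A.mem_picM.2 ⟨⟨by omega, h2, h3⟩, Or.inl (by omega)⟩
          exact (Pic.mem_R _).2 hmem
        · show ((A.picM _ _).tile v.1 (A.ry v.2), A.kk v.2) = _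
          rw [hry, kk_ge _ hge, hv1]
          have : (A.picM (8 * (ρ : ℤ)) h.r).tile x y = Sum.inl (x, y) := by
            show (if x < A.xl then _ else if x ≤ A.xr then _ else _) = _
            rw [if_neg (by omega), if_pos h1.2]
          rw [this]
        · have hd' := B5_diam hu hw
          obtain ⟨⟨⟨h4, h5⟩, h6, h7⟩, -⟩ := hu'
          rw [hu1] at h4 h5
          rw [hu2] at h6 h7
          refine ⟨by omega, ?_⟩
          rcases lt_or_ge w.2 A.y0 with h8 | h8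
          · rw [ry_lt _ h8]; omega
          · rw [ry_ge _ h8]; omega
  · -- strip tile
    have hv : (0 ≤ x ∧ x < A.R) ∧ A.y1 ≤ y ∧ y < A.y0 := ht
    -- height in the picture
    obtain ⟨y', hy', hk⟩ : ∃ y', A.ry y' = y ∧ A.kk y' = k := by
      cases k
      · exact ⟨y, ry_lt _ hv.2.2, kk_lt _ hv.2.2⟩
      · refine ⟨2 * A.y0 - 1 - y, ?_, kk_ge _ (by omega)⟩
        rw [ry_ge _ (by omega)]; ring
    have hyr : ∀ y'' : ℤ, y' - 3 * ρ < y'' → y'' < y' + 3 * ρ → A.Y ≤ A.ry y'' := by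
      intro y'' h1 h2
      rcases lt_or_ge y' A.y0 with h3 | h3 <;> rcases lt_or_ge y'' A.y0 with h4 | h4
      · rw [ry_lt _ h3] at hy'; rw [ry_lt _ h4]; omega
      · rw [ry_lt _ h3] at hy'; rw [ry_ge _ h4]; omega
      · rw [ry_ge _ h3] at hy'; rw [ry_lt _ h4]; omega
      · rw [ry_ge _ h3] at hy'; rw [ry_ge _ h4]; omega
    by_cases hc : 3 * (ρ : ℤ) ≤ x ∧ x < A.R - 3 * ρ
    · refine ⟨3, (x, y'), ?_, ?_, fun u hu => ?_⟩
      · refine (Pic.mem_R _).2 ?_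
        rw [hy']
        exact A.mem_picS.2 hv
      · show (Sum.inr (x, A.ry y'), A.kk y') = _
        rw [hy', hk]
      · have := cel_B5 hρ hu
        simp only at this
        omega
    · have hc' : x < 3 * (ρ : ℤ) ∨ A.R - 3 * ρ ≤ x := by omega
      rcases hc' with hc' | hc'
      · refine ⟨2, (A.xr + 1 + x, y'), ?_, ?_, fun u hu => ?_⟩
        · refine (Pic.mem_R _).2 ?_
          rw [hy']
          exact A.mem_picM.2 ⟨⟨by omega, by omega, hv.2.2⟩, Or.inr hv.2.1⟩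
        · show ((A.picM _ _).tile (A.xr + 1 + x) (A.ry y'), A.kk y') = _
          rw [hy', hk]
          have : (A.picM (8 * (ρ : ℤ)) h.r).tile (A.xr + 1 + x) y = Sum.inr (x, y) := by
            show (if A.xr + 1 + x < A.xl then _ else if A.xr + 1 + x ≤ A.xr then _ else _) = _
            rw [if_neg (by omega), if_neg (by omega)]
            congr 2
            omega
          rw [this]
        · have := cel_B5 hρ hu
          simp only at this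
          exact ⟨by omega, hyr _ this.2.1 this.2.2⟩
      · refine ⟨2, (A.xl - (A.R - x), y'), ?_, ?_, fun u hu => ?_⟩
        · refine (Pic.mem_R _).2 ?_
          rw [hy']
          exact A.mem_picM.2 ⟨⟨by omega, by omega, hv.2.2⟩, Or.inr hv.2.1⟩
        · show ((A.picM _ _).tile (A.xl - (A.R - x)) (A.ry y'), A.kk y') = _
          rw [hy', hk]
          have : (A.picM (8 * (ρ : ℤ)) h.r).tile (A.xl - (A.R - x)) y = Sum.inr (x, y) := by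
            show (if A.xl - (A.R - x) < A.xl then _ else _) = _
            rw [if_pos (by omega)]
            congr 2
            omega
          rw [this]
        · have := cel_B5 hρ hu
          simp only at this
          exact ⟨by omega, hyr _ this.2.1 this.2.2⟩

theorem cover {ρ : ℕ} (h : A.Sz ρ) {t : TG} (ht : A.tH t) (k : Bool) :
    ∃ i : Fin 4, ∃ v ∈ (chf h i).R, (chf h i).emb v = (t, k) ∧
      View (chf h i) (B3 ρ (cel ρ v)) := by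
  obtain ⟨i, v, hv, he, hg⟩ := cover_good h ht k
  exact ⟨i, v, hv, he, (hg.mono (B3_sub _ _)).view h⟩

end Half

end Crest.Agent.R158.Ka470
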