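import Crest.Agent.R158.Ka5_470

/-!
R158, leaf F1 / F2 (helper470), part 6: exponential moments of the number of big strands.

* `Half.dich` : every walk of the double of a half environment stays in a box `B3` of side `3ρ` of
  one of the four charts, or it is big (`BigS`)
* `Half.big_moment` : all exponential moments of the number of disjoint big strands are bounded
-/

set_option autoImplicit false

namespace Crest.Agent.R158.Ka470

open Crest.Agent.R158.Nm211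
open Crest.Agent.R158.Rs689 (PB hf)
open Crest.Agent.R158.Sw300 (thru)
open Crest.Agent.R158.Env664 (TG)
open MeasureTheory

section window

variable {T : Type*} {G : T × ZMod 4 → T × ZMod 4 → Prop}

/-- the window is entered only from outside -/
theorem window_ent (C : Ch T G) (ρ : ℕ) (o : ℤ × ℤ) (d : Dir) :
    ∀ c ∈ DW C ρ o d, ∀ s : ℤ × ℤ → Bool, nx6 s c ∉ XW ρ o d := by
  rintro c ⟨-, hc⟩ s hx
  have hs : (nx6 s c).1 = mv c.1 (nx6 s c).2 := rfl
  have h1 : (nx6 s c).1.1 = c.1.1 + dx (nx6 s c).2 ∧ (nx6 s c).1.2 = c.1.2 + dy (nx6 s c).2 := by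
    rw [hs]; simp [mv]
  generalize nx6 s c = c' at hx h1
  fin_cases d
  · change c' ∈ (Finset.Ico (o.1 - ρ) (o.1 + 2 * ρ)).image
      (fun x => ((x, o.2 + ρ), (0 : Dir))) at hx
    rw [Finset.mem_image] at hx
    obtain ⟨x, -, rfl⟩ := hx
    change (o.1 - ρ ≤ c.1.1 ∧ c.1.1 < o.1 + 2 * ρ) ∧ o.2 + ρ ≤ c.1.2 ∧ c.1.2 < o.2 + 2 * ρ at hc
    have h2 : dy (0 : Dir) = 1 := rfl
    have h3 := h1.2
    simp only [h2] at h3
    omega
  · change c' ∈ (Finset.Ico (o.2 - ρ) (o.2 + 2 * ρ)).image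
      (fun y => ((o.1 + ρ, y), (1 : Dir))) at hx
    rw [Finset.mem_image] at hx
    obtain ⟨x, -, rfl⟩ := hx
    change (o.1 + ρ ≤ c.1.1 ∧ c.1.1 < o.1 + 2 * ρ) ∧ o.2 - ρ ≤ c.1.2 ∧ c.1.2 < o.2 + 2 * ρ at hc
    have h2 : dx (1 : Dir) = 1 := rfl
    have h3 := h1.1
    simp only [h2] at h3
    omega
  · change c' ∈ (Finset.Ico (o.1 - ρ) (o.1 + 2 * ρ)).image
      (fun x => ((x, o.2 - 1), (2 : Dir))) at hx
    rw [Finset.mem_image] at hx
    obtain ⟨x, -, rfl⟩ := hx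
    change (o.1 - ρ ≤ c.1.1 ∧ c.1.1 < o.1 + 2 * ρ) ∧ o.2 - ρ ≤ c.1.2 ∧ c.1.2 < o.2 at hc
    have h2 : dy (2 : Dir) = -1 := rfl
    have h3 := h1.2
    simp only [h2] at h3
    omega
  · change c' ∈ (Finset.Ico (o.2 - ρ) (o.2 + 2 * ρ)).image
      (fun y => ((o.1 - 1, y), (3 : Dir))) at hx
    rw [Finset.mem_image] at hx
    obtain ⟨x, -, rfl⟩ := hx
    change (o.1 - ρ ≤ c.1.1 ∧ c.1.1 < o.1) ∧ o.2 - ρ ≤ c.1.2 ∧ c.1.2 < o.2 + 2 * ρ at hc
    have h2 : dx (3 : Dir) = -1 := rfl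
    have h3 := h1.1
    simp only [h2] at h3
    omega

theorem window_box {ρ : ℕ} (hρ : 1 ≤ ρ) (o : ℤ × ℤ) (d : Dir) :
    ∀ c ∈ XW ρ o d, |c.1.1 - o.1| ≤ ((2 : ℕ) : ℤ) * ρ ∧ |c.1.2 - o.2| ≤ ((2 : ℕ) : ℤ) * ρ := by
  intro c hx
  have h0 : (1 : ℤ) ≤ ρ := by exact_mod_cast hρ
  rw [abs_le, abs_le]
  push_cast
  fin_cases d
  · change c ∈ (Finset.Ico (o.1 - ρ) (o.1 + 2 * ρ)).image
      (fun x => ((x, o.2 + ρ), (0 : Dir))) at hx
    rw [Finset.mem_image] at hx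
    obtain ⟨x, hx, rfl⟩ := hx
    rw [Finset.mem_Ico] at hx
    simp only
    omega
  · change c ∈ (Finset.Ico (o.2 - ρ) (o.2 + 2 * ρ)).image
      (fun y => ((o.1 + ρ, y), (1 : Dir))) at hx
    rw [Finset.mem_image] at hx
    obtain ⟨x, hx, rfl⟩ := hx
    rw [Finset.mem_Ico] at hx
    simp only
    omega
  · change c ∈ (Finset.Ico (o.1 - ρ) (o.1 + 2 * ρ)).image
      (fun x => ((x, o.2 - 1), (2 : Dir))) at hx
    rw [Finset.mem_image] at hx
    obtain ⟨x, hx, rfl⟩ := hx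
    rw [Finset.mem_Ico] at hx
    simp only
    omega
  · change c ∈ (Finset.Ico (o.2 - ρ) (o.2 + 2 * ρ)).image
      (fun y => ((o.1 - 1, y), (3 : Dir))) at hx
    rw [Finset.mem_image] at hx
    obtain ⟨x, hx, rfl⟩ := hx
    rw [Finset.mem_Ico] at hx
    simp only
    omega

theorem window_far {ρ : ℕ} (o : ℤ × ℤ) (d : Dir) :
    ∀ c ∈ XW ρ o d, ∀ c' ∈ YW ρ o d, Far ρ c c' := by
  intro c hx c' hy
  unfold Far
  rw [le_abs, le_abs]
  fin_cases d
  · change c ∈ (Finset.Ico (o.1 - ρ) (o.1 + 2 * ρ)).image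
      (fun x => ((x, o.2 + ρ), (0 : Dir))) at hx
    rw [Finset.mem_image] at hx
    obtain ⟨x, hx, rfl⟩ := hx
    change o.2 + 2 * ρ ≤ c'.1.2 at hy
    simp only
    omega
  · change c ∈ (Finset.Ico (o.2 - ρ) (o.2 + 2 * ρ)).image
      (fun y => ((o.1 + ρ, y), (1 : Dir))) at hx
    rw [Finset.mem_image] at hx
    obtain ⟨x, hx, rfl⟩ := hx
    change o.1 + 2 * ρ ≤ c'.1.1 at hy
    simp only
    omega
  · change c ∈ (Finset.Ico (o.1 - ρ) (o.1 + 2 * ρ)).image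
      (fun x => ((x, o.2 - 1), (2 : Dir))) at hx
    rw [Finset.mem_image] at hx
    obtain ⟨x, hx, rfl⟩ := hx
    change c'.1.2 < o.2 - ρ at hy
    simp only
    omega
  · change c ∈ (Finset.Ico (o.2 - ρ) (o.2 + 2 * ρ)).image
      (fun y => ((o.1 - 1, y), (3 : Dir))) at hx
    rw [Finset.mem_image] at hx
    obtain ⟨x, hx, rfl⟩ := hx
    change c'.1.1 < o.1 - ρ at hy
    simp only
    omega

end window

theorem en_surj (a : ZMod 4) : ∃ d : Dir, en d = a := by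
  revert a; decide

namespace Half

variable {A : Half}

/-- a set of ports is big if it contains a port through which a strand enters a window that it
crosses -/
def BigS {ρ : ℕ} (h : A.Sz ρ) (s : TG × Bool → Bool) (P : Set ((TG × Bool) × ZMod 4)) : Prop :=
  ∃ i : Fin 4, ∃ o ∈ (chf h i).R.image (cel ρ), ∃ (d : Dir) (c : St ℤ),
    Cross (chf h i) s ρ o d c ∧ (chf h i).pe c ∈ P

theorem BigS.mono {ρ : ℕ} {h : A.Sz ρ} {s : TG × Bool → Bool}
    {P Q : Set ((TG × Bool) × ZMod 4)} (hP : BigS h s P) (hPQ : P ⊆ Q) : BigS h s Q := by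
  obtain ⟨i, o, ho, d, c, hc, hp⟩ := hP
  exact ⟨i, o, ho, d, c, hc, hPQ hp⟩

/-- **dichotomy in the double of a half environment**: a walk stays in the box `B3 ρ (cel ρ v)` of
one of the four charts, or it is big. -/
theorem dich {ρ : ℕ} (h : A.Sz ρ) {s : TG × Bool → Bool} {x y : (TG × Bool) × ZMod 4}
    {l : List ((TG × Bool) × ZMod 4)} (hx : A.tH x.1.1) (hw : Wk s A.Gd x y l) :
    BigS h s {p | p ∈ l} ∨
    ∃ i : Fin 4, ∃ c : St ℤ, (chf h i).pe c = x ∧ c.1 ∈ (chf h i).R ∧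
      A.Good ρ i (B5 ρ (cel ρ c.1)) ∧ View (chf h i) (B5 ρ (cel ρ c.1)) ∧
      ∃ m, (∀ j ≤ m, (((chf h i).f s)^[j] c).1 ∈ (chf h i).R ∧
          (((chf h i).f s)^[j] c).1 ∈ B3 ρ (cel ρ c.1)) ∧
        l = (List.range (m + 1)).map (fun j => (chf h i).pe (((chf h i).f s)^[j] c)) ∧
        y = (chf h i).pt (((chf h i).f s)^[m] c).1 (ex (((chf h i).f s)^[m + 1] c).2) := by
  obtain ⟨⟨t, k⟩, a⟩ := x
  obtain ⟨i, v, hv, he, hgd⟩ := cover_good h hx k
  have hV := hgd.view h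
  obtain ⟨d, rfl⟩ := en_surj a
  have hpe : (chf h i).pe (v, d) = ((t, k), en d) := by
    show ((chf h i).emb v, sg ((chf h i).F v) (en d)) = _
    rw [he, chf_F]
    rfl
  rw [← hpe] at hw
  have hV3 := (hgd.mono (B3_sub _ _)).view h
  rcases walk_dich A.gd_fn (C := chf h i) (c := (v, d)) hv (cel_mem h.pos v) hV3 hw with
    ⟨m, h1, h2, h3⟩ | ⟨d', c', h1, h2⟩
  · exact Or.inr ⟨i, (v, d), hpe, hv, hgd, hV, m, h1, h2, h3⟩
  · exact Or.inl ⟨i, _, Finset.mem_image_of_mem _ hv, d', c', h1, h2⟩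

/-- number of cells -/
theorem cells {ρ κ : ℕ} (h : A.Sz ρ) (hb : A.Bd ρ κ) (i : Fin 4) :
    ((chf h i).R.image (cel ρ)).card ≤ (2 * κ + 16 + 1) ^ 2 := by
  have hρ := h.pos
  have hρ' : (1 : ℤ) ≤ ρ := by exact_mod_cast hρ
  obtain ⟨X0, Y0, hH⟩ := hb.hH
  have hκ : (0 : ℤ) ≤ (κ : ℤ) * ρ := by positivity
  have hx := A.hx
  have hY := A.hY
  have h01 := A.h1
  -- size of the run
  have hc1 := hH _ (A.row A.xl A.Y le_rfl (by omega) le_rfl hx)
  have hc2 := hH _ (A.row A.xr (A.y0 - 1) (by omega) (by omega) hx le_rfl)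
  simp only at hc1 hc2
  fin_cases i
  · refine card_cells hρ (X0 := X0) (Y0 := Y0) fun v hv => ?_
    have := hH v hv
    push_cast
    rw [add_mul, mul_assoc]
    omega
  · refine card_cells hρ (X0 := X0) (Y0 := 2 * A.y0 - Y0 - κ * ρ) fun v hv => ?_
    have h1 := hH _ (A.mem_rf.1 hv)
    have e1 : (A.rf v).1 = v.1 := rfl
    have e2 : (A.rf v).2 = 2 * A.y0 - 1 - v.2 := rfl
    rw [e1, e2] at h1
    push_cast
    rw [add_mul, mul_assoc]
    omega
  · refine card_cells hρ (X0 := A.xl - 8 * ρ) (Y0 := A.Y) fun v hv => ?_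
    obtain ⟨x, y⟩ := v
    have h1 := A.mem_picM.1 ((Pic.mem_R _).1 hv)
    simp only
    push_cast
    rw [add_mul, mul_assoc]
    rcases lt_or_ge y A.y0 with h2 | h2
    · rw [ry_lt _ h2] at h1
      omega
    · rw [ry_ge _ h2] at h1
      omega
  · refine card_cells hρ (X0 := 0) (Y0 := A.Y) fun v hv => ?_
    obtain ⟨x, y⟩ := v
    have h1 := A.mem_picS.1 ((Pic.mem_R _).1 hv)
    have h3 := hb.hR
    simp only
    push_cast
    rw [add_mul, mul_assoc]
    rcases lt_or_ge y A.y0 with h2 | h2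
    · rw [ry_lt _ h2] at h1
      omega
    · rw [ry_ge _ h2] at h1
      omega

/-- **all exponential moments of the number of big strands are bounded.**  `N s` = number of
pairwise disjoint sets of ports that are big for the splitting `s`. -/
theorem big_moment (a : ℝ) (ha : 1 ≤ a) (κ : ℕ) : ∃ C : ℝ, 1 ≤ C ∧
    ∀ (A : Half) (ρ : ℕ) (h : A.Sz ρ), A.Bd ρ κ →
      ∀ N : (TG × Bool → Bool) → ℕ,
      (∀ s, ∃ P : Fin (N s) → Set ((TG × Bool) × ZMod 4),
        (∀ i j, i ≠ j → ∀ p ∈ P i, p ∉ P j) ∧ ∀ i, BigS h s (P i)) →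
      ∫ s, a ^ (N s) ∂(PB fun _ : TG × Bool => hf) ≤ C := by
  classical
  choose C hC1 hC using fun J : ℕ => chart_moment.{0} a ha J 2
  set Jm : ℕ := 4 * (2 * κ + 16 + 1) ^ 2 * 4 with hJm
  have hnn : ∀ J, 0 ≤ C J := fun J => zero_le_one.trans (hC1 J)
  refine ⟨∑ J ∈ Finset.range (Jm + 1), C J, ?_, ?_⟩
  · exact (hC1 0).trans (Finset.single_le_sum (f := C) (fun J _ => hnn J)
      (Finset.mem_range.2 (Nat.succ_pos _)))
  intro A ρ h hb N hN
  -- charts and cells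
  let W : Finset (Fin 4 × (ℤ × ℤ)) := (Finset.univ : Finset (Fin 4)).biUnion fun i =>
    ((chf h i).R.image (cel ρ)).image fun o => (i, o)
  have hW : W.card ≤ 4 * (2 * κ + 16 + 1) ^ 2 := by
    refine Finset.card_biUnion_le.trans ?_
    refine (Finset.sum_le_card_nsmul _ _ ((2 * κ + 16 + 1) ^ 2) fun i _ => ?_).trans ?_
    · exact Finset.card_image_le.trans (cells h hb i)
    · simp
  let β := {w // w ∈ W}
  let e : Fin (Fintype.card (β × Dir)) ≃ β × Dir := (Fintype.equivFin _).symm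
  have hcard : Fintype.card (β × Dir) ≤ Jm := by
    rw [Fintype.card_prod, Fintype.card_coe, Fintype.card_fin]
    exact Nat.mul_le_mul_right _ hW
  refine (hC (Fintype.card (β × Dir)) ρ h.pos (TG × Bool)
    (fun b => (chf h (e b).1.1.1).emb) (fun b => (chf h (e b).1.1.1).Fn)
    (fun b => (e b).1.1.2)
    (fun b => DW (chf h (e b).1.1.1) ρ (e b).1.1.2 (e b).2)
    (fun b => YW ρ (e b).1.1.2 (e b).2) (fun b => XW ρ (e b).1.1.2 (e b).2)
    (fun b => (chf h (e b).1.1.1).R)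
    (fun b => (chf h (e b).1.1.1).inj) (fun b c hc => hc.1)
    (fun b => window_ent _ _ _ _) (fun b => window_box h.pos _ _)
    (fun b => window_far _ _) N fun s => ?_).trans ?_
  · obtain ⟨P, hdis, hbig⟩ := hN s
    have key := card_le (β := β) (fun w => chf h w.1.1) (fun w => w.1.2) s ρ P hdis (by
      intro i
      obtain ⟨j, o, ho, d, c, hc, hp⟩ := hbig i
      refine ⟨⟨(j, o), ?_⟩, d, c, hc, hp⟩
      exact Finset.mem_biUnion.2 ⟨j, Finset.mem_univ _, Finset.mem_image.2 ⟨o, ho, rfl⟩⟩)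
    rw [Fintype.card_fin] at key
    refine key.trans (le_of_eq ?_)
    exact (Fintype.sum_equiv e _ _ fun b => rfl).symm
  · exact Finset.single_le_sum (f := C) (fun J _ => hnn J)
      (Finset.mem_range.2 (Nat.lt_succ_of_le hcard))

end Half

end Crest.Agent.R158.Ka470
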