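import Crest.Agent.R158.Ka6_470

/-!
R158, leaf F1 (helper470), part 7: quadrant patterns.

In every box `B5 ρ o` of side `5ρ` that is completely seen by one of the four charts of the double
of a half environment, the region of the chart is a union of quadrants with respect to two lines
(`Half.patt`); if both lines cut the box, their intersection is one of the vertices `Ver`, and the
region is the same quadrant pattern in the box of radius `5ρ` around the vertex (`Half.vert`).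
-/

set_option autoImplicit false

namespace Crest.Agent.R158.Ka470

open Crest.Agent.R158.Nm211
open Crest.Agent.R158.Env664 (TG)

/-- box -/
def Bx (x1 x2 z1 z2 : ℤ) : Set (ℤ × ℤ) := {v | (x1 ≤ v.1 ∧ v.1 < x2) ∧ z1 ≤ v.2 ∧ v.2 < z2}

/-- box of radius `n` around a vertex `p` (= lower left corner of the tile `p`) -/
def Bv (n : ℕ) (p : ℤ × ℤ) : Set (ℤ × ℤ) := Bx (p.1 - n) (p.1 + n) (p.2 - n) (p.2 + n)

theorem B3_eq (ρ : ℕ) (o : ℤ × ℤ) : B3 ρ o = Bx (o.1 - ρ) (o.1 + 2 * ρ) (o.2 - ρ) (o.2 + 2 * ρ) :=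
  rfl

theorem B5_eq (ρ : ℕ) (o : ℤ × ℤ) :
    B5 ρ o = Bx (o.1 - 2 * ρ) (o.1 + 3 * ρ) (o.2 - 2 * ρ) (o.2 + 3 * ρ) := rfl

/-- the region is the union of quadrants `pat` at `p` inside `B`; `pat bx bz` : `bx` = right of the
vertical line, `bz` = above the horizontal line -/
def Patt (R : Finset (ℤ × ℤ)) (B : Set (ℤ × ℤ)) (p : ℤ × ℤ) (pat : Bool → Bool → Bool) : Prop :=
  ∀ u ∈ B, (u ∈ R ↔ pat (decide (p.1 ≤ u.1)) (decide (p.2 ≤ u.2)) = true)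

/-- both lines through `p` cut `B` -/
def Cuts (B : Set (ℤ × ℤ)) (p : ℤ × ℤ) : Prop :=
  ((∃ u ∈ B, u.1 < p.1) ∧ ∃ u ∈ B, p.1 ≤ u.1) ∧ (∃ u ∈ B, u.2 < p.2) ∧ ∃ u ∈ B, p.2 ≤ u.2

theorem Patt.mono {R : Finset (ℤ × ℤ)} {B B' : Set (ℤ × ℤ)} {p : ℤ × ℤ}
    {pat : Bool → Bool → Bool} (h : Patt R B p pat) (hs : B' ⊆ B) : Patt R B' p pat :=
  fun u hu => h u (hs hu)

theorem patt_of_same {R : Finset (ℤ × ℤ)} {B : Set (ℤ × ℤ)} {p : ℤ × ℤ}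
    (h : ∀ u ∈ B, ∀ v ∈ B, (p.1 ≤ u.1 ↔ p.1 ≤ v.1) → (p.2 ≤ u.2 ↔ p.2 ≤ v.2) →
      (u ∈ R → v ∈ R)) : ∃ pat, Patt R B p pat := by
  classical
  refine ⟨fun bx bz => decide (∃ u ∈ B, decide (p.1 ≤ u.1) = bx ∧ decide (p.2 ≤ u.2) = bz ∧ u ∈ R),
    fun u hu => ?_⟩
  simp only [decide_eq_true_eq]
  constructor
  · intro hR
    exact ⟨u, hu, rfl, rfl, hR⟩
  · rintro ⟨v, hv, h1, h2, h3⟩
    exact h v hv u hu (by simpa using h1) (by simpa using h2) h3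

namespace Half

variable (A : Half)

/-- macroscopic structure of the planar part: cells of side `L`, the run is `a..b` in the row `c` of
cells -/
structure Mc (L a b c : ℤ) : Prop where
  hL : 0 < L
  xl : A.xl = a * L
  xr : A.xr = b * L + L - 1
  Y : A.Y = c * L
  W : A.y0 + A.W ≤ c * L + L
  same : ∀ t t' : ℤ × ℤ, t.1 / L = t'.1 / L → t.2 / L = t'.2 / L →
    (A.xl ≤ t.1 → t.1 ≤ A.xr → t.2 / L = c → (t.2 < A.y0 ↔ t'.2 < A.y0)) → t ∈ A.H → t' ∈ A.H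

/-- further size conditions -/
structure Sz' (ρ : ℕ) (L : ℤ) : Prop where
  L : 5 * (ρ : ℤ) ≤ L
  h : 5 * (ρ : ℤ) ≤ 2 * (A.y0 - A.y1)

/-- vertices of the charts -/
def Ver (L : ℤ) (i : Fin 4) : Set (ℤ × ℤ) :=
  match i with
  | 0 => {p | L ∣ p.1 ∧ L ∣ p.2}
  | 1 => {p | L ∣ p.1 ∧ L ∣ 2 * A.y0 - p.2}
  | 2 => {p | (p.1 = A.xl ∨ p.1 = A.xr + 1) ∧ (p.2 = A.y1 ∨ p.2 = 2 * A.y0 - A.y1)}
  | 3 => ∅

variable {A}

theorem div_same {L : ℤ} (hL : 0 < L) {q x y : ℤ} (hq : L ∣ q) (h1 : q - L ≤ x) (h2 : x < q + L)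
    (h3 : q - L ≤ y) (h4 : y < q + L) (h : q ≤ x ↔ q ≤ y) : x / L = y / L := by
  obtain ⟨k, rfl⟩ := hq
  have key : ∀ z, L * k - L ≤ z → z < L * k + L → z / L = if L * k ≤ z then k else k - 1 := by
    intro z hz1 hz2
    split_ifs with hz
    · exact (Env664.div_iff hL _ _).2 ⟨by linarith, by linarith⟩
    · exact (Env664.div_iff hL _ _).2 ⟨by linarith, by linarith⟩
  rw [key x h1 h2, key y h3 h4]
  by_cases hx : L * k ≤ x
  · rw [if_pos hx, if_pos (h.1 hx)]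
  · rw [if_neg hx, if_neg fun h' => hx (h.2 h')]

/-- pattern of the planar part near a macroscopic vertex -/
theorem pattA {L a b c : ℤ} (m : A.Mc L a b c) {x1 x2 z1 z2 : ℤ}
    (hg : ∀ u ∈ Bx x1 x2 z1 z2, ¬ A.Mou u) {p : ℤ × ℤ} (hp : L ∣ p.1 ∧ L ∣ p.2)
    (h1 : p.1 - L ≤ x1) (h2 : x2 ≤ p.1 + L) (h3 : p.2 - L ≤ z1) (h4 : z2 ≤ p.2 + L) :
    ∃ pat, Patt A.H (Bx x1 x2 z1 z2) p pat := by
  refine patt_of_same fun u hu v hv hx hz hR => ?_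
  obtain ⟨⟨u1, u2⟩, u3, u4⟩ := hu
  obtain ⟨⟨v1, v2⟩, v3, v4⟩ := hv
  refine m.same u v (div_same m.hL hp.1 (by omega) (by omega) (by omega) (by omega) hx)
    (div_same m.hL hp.2 (by omega) (by omega) (by omega) (by omega) hz) ?_ hR
  intro hl hr hc
  have hW := A.hW
  have h01 := A.h1
  -- otherwise the box contains a tile of the crosscut
  by_contra hcon
  refine hg (u.1, A.y0 - 1) ⟨⟨u1, u2⟩, ?_, ?_⟩
    ⟨⟨⟨hl, hr⟩, by simp only; omega, by simp only; omega⟩, Or.inr (Or.inr rfl)⟩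
  · simp only; omega
  · simp only; omega

theorem Mc.ab {L a b c : ℤ} (m : A.Mc L a b c) : A.xl + L ≤ A.xr + 1 := by
  have h1 := m.xl
  have h2 := m.xr
  have h3 := A.hx
  have hL := m.hL
  have h4 : a ≤ b := by
    by_contra hcon
    have : b + 1 ≤ a := by omega
    nlinarith
  nlinarith

/-- the macroscopic vertices are far from the mouths and from the crosscut -/
theorem goodA {L a b c : ℤ} (m : A.Mc L a b c) {ρ : ℕ} (h : A.Sz ρ) {p : ℤ × ℤ} (hp : L ∣ p.2) :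
    ∀ u ∈ Bv (5 * ρ) p, ¬ A.Mou u := by
  rintro u ⟨-, h3, h4⟩ ⟨⟨-, h5, h6⟩, -⟩
  have hy := h.y
  have hw := h.w
  have hW := m.W
  have hY := m.Y
  have hL := m.hL
  obtain ⟨k, hk⟩ := hp
  push_cast at h3 h4
  have h7 : c * L < L * k := by omega
  have h8 : L * k < c * L + L := by omega
  have h9 : c < k := by
    by_contra hcon
    nlinarith
  have h10 : k < c + 1 := by
    by_contra hcon
    nlinarith
  omega

theorem vertA {L a b c : ℤ} (m : A.Mc L a b c) {ρ : ℕ} (h : A.Sz ρ) (h' : A.Sz' ρ L) {p : ℤ × ℤ}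
    (hp : L ∣ p.1 ∧ L ∣ p.2) : ∃ pat, Patt A.H (Bv (5 * ρ) p) p pat := by
  have hL := h'.L
  refine pattA m (goodA m h hp.2) hp ?_ ?_ ?_ ?_ <;> (push_cast; omega)

theorem rf_box {x1 x2 z1 z2 : ℤ} {u : ℤ × ℤ} :
    A.rf u ∈ Bx x1 x2 z1 z2 ↔ u ∈ Bx x1 x2 (2 * A.y0 - z2) (2 * A.y0 - z1) := by
  show (x1 ≤ u.1 ∧ u.1 < x2) ∧ z1 ≤ 2 * A.y0 - 1 - u.2 ∧ 2 * A.y0 - 1 - u.2 < z2 ↔
    (x1 ≤ u.1 ∧ u.1 < x2) ∧ 2 * A.y0 - z2 ≤ u.2 ∧ u.2 < 2 * A.y0 - z1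
  omega

/-- reflection of a pattern -/
theorem patt_rf {x1 x2 z1 z2 : ℤ} {p : ℤ × ℤ} {pat : Bool → Bool → Bool}
    (hp : Patt A.H (Bx x1 x2 (2 * A.y0 - z2) (2 * A.y0 - z1)) (p.1, 2 * A.y0 - p.2) pat) :
    Patt (A.H.image A.rf) (Bx x1 x2 z1 z2) p fun bx bz => pat bx (!bz) := by
  intro u hu
  rw [mem_rf]
  have h1 : A.rf u ∈ Bx x1 x2 (2 * A.y0 - z2) (2 * A.y0 - z1) := by
    rw [rf_box]
    have e1 : 2 * A.y0 - (2 * A.y0 - z1) = z1 := by ring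
    have e2 : 2 * A.y0 - (2 * A.y0 - z2) = z2 := by ring
    rwa [e1, e2]
  rw [hp _ h1]
  have e3 : (A.rf u).1 = u.1 := rfl
  have e4 : (A.rf u).2 = 2 * A.y0 - 1 - u.2 := rfl
  have e5 : decide (2 * A.y0 - p.2 ≤ (A.rf u).2) = !decide (p.2 ≤ u.2) := by
    rw [e4, ← decide_not]
    congr 1
    apply propext
    omega
  simp only [e3, e5]

/-- membership in the symmetric charts -/
theorem memM {ρ : ℕ} (h : A.Sz ρ) {u : ℤ × ℤ}
    (hu : (A.xl - 8 * (ρ : ℤ) ≤ u.1 ∧ u.1 ≤ A.xr + 8 * ρ) ∧ A.Y ≤ A.ry u.2) :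
    u ∈ (chf h 2).R ↔ (A.xl ≤ u.1 ∧ u.1 ≤ A.xr) ∨ A.y1 ≤ A.ry u.2 := by
  obtain ⟨x, y⟩ := u
  have h1 : (x, y) ∈ (chf h 2).R ↔ (x, A.ry y) ∈ (A.picM _ h.r).P := Pic.mem_R _
  rw [h1, mem_picM]
  exact ⟨fun h => h.2, fun h => ⟨⟨hu.1, hu.2, ry_le⟩, h⟩⟩

theorem memS {ρ : ℕ} (h : A.Sz ρ) {u : ℤ × ℤ} (hu : 0 ≤ u.1 ∧ u.1 < A.R) :
    u ∈ (chf h 3).R ↔ A.y1 ≤ A.ry u.2 := by
  obtain ⟨x, y⟩ := u
  have h1 : (x, y) ∈ (chf h 3).R ↔ (x, A.ry y) ∈ A.picS.P := Pic.mem_R _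
  rw [h1, mem_picS]
  exact ⟨fun h => h.2.1, fun h => ⟨hu, h, ry_le⟩⟩

theorem y1_ry {y : ℤ} : A.y1 ≤ A.ry y ↔ A.y1 ≤ y ∧ y < 2 * A.y0 - A.y1 := by
  have := A.h1
  rcases lt_or_ge y A.y0 with h | h
  · rw [ry_lt _ h]; omega
  · rw [ry_ge _ h]; omega

/-- **quadrant patterns**: in a box of side `5ρ` completely seen by a chart, the region of the chart
is a union of quadrants; if both lines cut the box, they meet at a vertex. -/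
theorem patt {L a b c : ℤ} (m : A.Mc L a b c) {ρ : ℕ} (h : A.Sz ρ) (h' : A.Sz' ρ L) {i : Fin 4}
    {o : ℤ × ℤ} (hg : A.Good ρ i (B5 ρ o)) :
    ∃ p pat, Patt (chf h i).R (B5 ρ o) p pat ∧ (Cuts (B5 ρ o) p → p ∈ A.Ver L i) := by
  have hρ : (1 : ℤ) ≤ ρ := by exact_mod_cast h.pos
  have hL := m.hL
  have h3 := h'.L
  have h4 := h'.h
  have hab := m.ab
  -- the last line of a lattice of mesh `L` before `x`
  have line : ∀ x : ℤ, L ∣ L * ((x + 3 * ρ - 1) / L) ∧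
      L * ((x + 3 * ρ - 1) / L) - L ≤ x - 2 * ρ ∧ x + 3 * ρ ≤ L * ((x + 3 * ρ - 1) / L) + L := by
    intro x
    have h5 := Int.mul_ediv_add_emod (x + 3 * ρ - 1) L
    have h6 := Int.emod_nonneg (x + 3 * ρ - 1) hL.ne'
    have h7 := Int.emod_lt_of_pos (x + 3 * ρ - 1) hL
    exact ⟨dvd_mul_right _ _, by omega, by omega⟩
  fin_cases i
  · obtain ⟨l1, l2, l3⟩ := line o.1
    obtain ⟨l4, l5, l6⟩ := line o.2
    obtain ⟨pat, hp⟩ := pattA m (x1 := o.1 - 2 * ρ) (x2 := o.1 + 3 * ρ) (z1 := o.2 - 2 * ρ)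
      (z2 := o.2 + 3 * ρ) hg
      (p := (L * ((o.1 + 3 * ρ - 1) / L), L * ((o.2 + 3 * ρ - 1) / L))) ⟨l1, l4⟩ l2 l3 l5 l6
    exact ⟨_, pat, hp, fun _ => ⟨l1, l4⟩⟩
  · -- the reflected box has the lower left corner `(o.1 - 2 * ρ, 2 y0 - o.2 - 2 ρ)`
    obtain ⟨l1, l2, l3⟩ := line o.1
    obtain ⟨l4, l5, l6⟩ := line (2 * A.y0 - o.2 - ρ)
    set q : ℤ := L * ((2 * A.y0 - o.2 - ρ + 3 * ρ - 1) / L) with hq
    have hg' : ∀ u ∈ Bx (o.1 - 2 * ρ) (o.1 + 3 * ρ) (2 * A.y0 - (o.2 + 3 * ρ))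
        (2 * A.y0 - (o.2 - 2 * ρ)), ¬ A.Mou u := by
      intro u hu
      have h5 := hg (A.rf u) (by
        rw [B5_eq, rf_box]
        exact hu)
      rwa [rf_rf] at h5
    obtain ⟨pat, hp⟩ := pattA m hg' (p := (L * ((o.1 + 3 * ρ - 1) / L), q)) ⟨l1, l4⟩ l2 l3
      (by simp only; omega) (by simp only; omega)
    refine ⟨(L * ((o.1 + 3 * ρ - 1) / L), 2 * A.y0 - q), fun bx bz => pat bx (!bz), ?_, fun _ => ?_⟩
    · refine patt_rf (p := (L * ((o.1 + 3 * ρ - 1) / L), 2 * A.y0 - q)) ?_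
      have e : 2 * A.y0 - (2 * A.y0 - q) = q := by ring
      simp only [e]
      exact hp
    · refine ⟨l1, ?_⟩
      have e : 2 * A.y0 - (2 * A.y0 - q) = q := by ring
      simp only [e]
      exact l4
  · set X : ℤ := if o.1 + 3 * ρ ≤ A.xr + 1 then A.xl else A.xr + 1 with hX
    set Z : ℤ := if o.2 + 3 * ρ ≤ 2 * A.y0 - A.y1 then A.y1 else 2 * A.y0 - A.y1 with hZ
    obtain ⟨pat, hp⟩ := patt_of_same (R := (chf h 2).R) (B := B5 ρ o) (p := (X, Z)) (by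
      intro u hu v hv hx hz hR
      rw [memM h (hg u hu)] at hR
      rw [memM h (hg v hv)]
      obtain ⟨⟨u1, u2⟩, u3, u4⟩ := hu
      obtain ⟨⟨v1, v2⟩, v3, v4⟩ := hv
      rw [y1_ry] at hR ⊢
      simp only at hx hz
      have e1 : (A.xl ≤ u.1 ∧ u.1 ≤ A.xr) ↔ (A.xl ≤ v.1 ∧ v.1 ≤ A.xr) := by
        rw [hX] at hx
        split_ifs at hx with hc
        · omega
        · omega
      have e2 : (A.y1 ≤ u.2 ∧ u.2 < 2 * A.y0 - A.y1) ↔ (A.y1 ≤ v.2 ∧ v.2 < 2 * A.y0 - A.y1) := by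
        rw [hZ] at hz
        split_ifs at hz with hc
        · omega
        · omega
      rwa [e1, e2] at hR)
    refine ⟨_, pat, hp, fun _ => ⟨?_, ?_⟩⟩
    · show X = A.xl ∨ X = A.xr + 1
      rw [hX]; split_ifs
      · exact Or.inl rfl
      · exact Or.inr rfl
    · show Z = A.y1 ∨ Z = 2 * A.y0 - A.y1
      rw [hZ]; split_ifs
      · exact Or.inl rfl
      · exact Or.inr rfl
  · set Z : ℤ := if o.2 + 3 * ρ ≤ 2 * A.y0 - A.y1 then A.y1 else 2 * A.y0 - A.y1 with hZ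
    obtain ⟨pat, hp⟩ := patt_of_same (R := (chf h 3).R) (B := B5 ρ o) (p := (0, Z)) (by
      intro u hu v hv hx hz hR
      rw [memS h (hg u hu)] at hR
      rw [memS h (hg v hv)]
      obtain ⟨⟨u1, u2⟩, u3, u4⟩ := hu
      obtain ⟨⟨v1, v2⟩, v3, v4⟩ := hv
      rw [y1_ry] at hR ⊢
      simp only at hz
      rw [hZ] at hz
      split_ifs at hz with hc
      · omega
      · omega)
    refine ⟨_, pat, hp, fun hc => ?_⟩
    obtain ⟨⟨⟨u, hu, hu'⟩, -⟩, -⟩ := hc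
    have := (hg u hu).1
    simp only at hu'
    omega

/-- **vertices**: the box of radius `5ρ` around a vertex is completely seen, and the region is a
quadrant pattern there. -/
theorem vert {L a b c : ℤ} (m : A.Mc L a b c) {ρ : ℕ} (h : A.Sz ρ) (h' : A.Sz' ρ L) {i : Fin 4}
    {p : ℤ × ℤ} (hp : p ∈ A.Ver L i) :
    A.Good ρ i (Bv (5 * ρ) p) ∧ ∃ pat, Patt (chf h i).R (Bv (5 * ρ) p) p pat := by
  have hρ : (1 : ℤ) ≤ ρ := by exact_mod_cast h.pos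
  have hL := m.hL
  have h3 := h'.L
  have h4 := h'.h
  have hy := h.y
  have h01 := A.h1
  have hab := m.ab
  have hx := A.hx
  fin_cases i
  · exact ⟨goodA m h hp.2, vertA m h h' hp⟩
  · obtain ⟨p1, p2⟩ := hp
    have hg : ∀ u ∈ Bv (5 * ρ) p, ¬ A.Mou (A.rf u) := by
      intro u hu
      refine goodA m h (p := (p.1, 2 * A.y0 - p.2)) p2 _ ?_
      show A.rf u ∈ Bx _ _ _ _
      rw [rf_box]
      have e1 : 2 * A.y0 - (2 * A.y0 - p.2 + ((5 * ρ : ℕ) : ℤ)) = p.2 - ((5 * ρ : ℕ) : ℤ) := by ring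
      have e2 : 2 * A.y0 - (2 * A.y0 - p.2 - ((5 * ρ : ℕ) : ℤ)) = p.2 + ((5 * ρ : ℕ) : ℤ) := by ring
      simp only [e1, e2]
      exact hu
    refine ⟨hg, ?_⟩
    obtain ⟨pat, hpat⟩ := vertA m h h' (p := (p.1, 2 * A.y0 - p.2)) ⟨p1, p2⟩
    refine ⟨_, patt_rf (p := p) (pat := pat) (x1 := p.1 - ((5 * ρ : ℕ) : ℤ)) (x2 := p.1 + ((5 * ρ : ℕ) : ℤ))
      (z1 := p.2 - ((5 * ρ : ℕ) : ℤ)) (z2 := p.2 + ((5 * ρ : ℕ) : ℤ)) ?_⟩
    have e1 : 2 * A.y0 - (p.2 + ((5 * ρ : ℕ) : ℤ)) = 2 * A.y0 - p.2 - ((5 * ρ : ℕ) : ℤ) := by ring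
    have e2 : 2 * A.y0 - (p.2 - ((5 * ρ : ℕ) : ℤ)) = 2 * A.y0 - p.2 + ((5 * ρ : ℕ) : ℤ) := by ring
    rw [e1, e2]
    exact hpat
  · obtain ⟨p1, p2⟩ := hp
    have hg : A.Good ρ 2 (Bv (5 * ρ) p) := by
      rintro u ⟨⟨u1, u2⟩, u3, u4⟩
      push_cast at u1 u2 u3 u4
      refine ⟨by omega, ?_⟩
      rcases lt_or_ge u.2 A.y0 with h5 | h5
      · rw [ry_lt _ h5]; omega
      · rw [ry_ge _ h5]; omega
    refine ⟨hg, patt_of_same fun u hu v hv hx hz hR => ?_⟩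
    change u ∈ (chf h 2).R at hR
    show v ∈ (chf h 2).R
    rw [memM h (hg u hu)] at hR
    rw [memM h (hg v hv)]
    obtain ⟨⟨u1, u2⟩, u3, u4⟩ := hu
    obtain ⟨⟨v1, v2⟩, v3, v4⟩ := hv
    push_cast at u1 u2 u3 u4 v1 v2 v3 v4
    rw [y1_ry] at hR ⊢
    have e1 : (A.xl ≤ u.1 ∧ u.1 ≤ A.xr) ↔ (A.xl ≤ v.1 ∧ v.1 ≤ A.xr) := by omega
    have e2 : (A.y1 ≤ u.2 ∧ u.2 < 2 * A.y0 - A.y1) ↔ (A.y1 ≤ v.2 ∧ v.2 < 2 * A.y0 - A.y1) := by
      omega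
    rwa [e1, e2] at hR
  · exact absurd hp id

end Half

end Crest.Agent.R158.Ka470
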