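import Crest.Agent.R161.Dual_374

/-!
# Row 158 (helper458): planar duality of a box for arbitrary boundary arcs

Box `[x0,x1] × [y0,y1]` of vertices; `IB` = edges inside; `Out r x` : `r` is an edge leaving the box at the
boundary vertex `x`; `IsCol r r' F` : `F` is a colouring of the faces which changes across the leaving edges
exactly at `r` and `r'`.

* `arc_duality` : either `x` and `x'` are joined by `O`-edges of the box, or the two arcs (colours) are joined
  by a dual path crossing `C`-edges of the box (if every edge of the box is in `O` or in `C`).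
* `par` : a primal walk from `x` to `x'` in the box has a face potential which agrees with the colouring
  outside.
* `no_both`, `cross_once`.
-/

set_option autoImplicit false

noncomputable section

namespace Crest.Agent.R158.Kd458

open Crest.Agent.R161.Geo729 Crest.Agent.R161.Topo374 Crest.Agent.R161.Dual374 Finset

/-! ### generalities -/

lemma ind_iff {p q : Prop} (h : p ↔ q) : ind p = ind q := by rw [propext h]

lemma zmod2_cases (x : ZMod 2) : x = 0 ∨ x = 1 := by revert x; decide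

/-- sum of a function on edges over the four edges at a vertex -/
def star (ψ : Edge → ZMod 2) (v : P2) : ZMod 2 :=
  ψ ((v.1, v.2), false) + ψ ((v.1 - 1, v.2), false) + ψ ((v.1, v.2), true) + ψ ((v.1, v.2 - 1), true)

lemma star_add (ψ φ : Edge → ZMod 2) (v : P2) :
    star (fun e => ψ e + φ e) v = star ψ v + star φ v := by
  unfold star; ring

/-- the indicator of one edge -/
def dl (e : Edge) (e' : Edge) : ZMod 2 := ind (e' = e)

lemma star_dl (e : Edge) (v : P2) : star (dl e) v = ind (v = src e) + ind (v = tgt e) := by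
  obtain ⟨⟨a, b⟩, c⟩ := e
  obtain ⟨x, y⟩ := v
  unfold star dl
  cases c
  · simp only [src_mk, tgt_h, Prod.mk.injEq]
    rw [ind_false (p := ((x = a ∧ y = b) ∧ true = false)) (by simp),
      ind_false (p := ((x = a ∧ y - 1 = b) ∧ true = false)) (by simp)]
    simp only [and_true]
    rw [ind_iff (p := (x - 1 = a ∧ y = b)) (q := (x = a + 1 ∧ y = b)) (by omega)]
    ring
  · simp only [src_mk, tgt_v, Prod.mk.injEq]
    rw [ind_false (p := ((x = a ∧ y = b) ∧ false = true)) (by simp),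
      ind_false (p := ((x - 1 = a ∧ y = b) ∧ false = true)) (by simp)]
    simp only [and_true]
    rw [ind_iff (p := (x = a ∧ y - 1 = b)) (q := (x = a ∧ y = b + 1)) (by omega)]
    ring

/-- edge parity of a walk -/
theorem walk_parity {Z : Edge → Prop} {a b : P2} (h : Relation.ReflTransGen (PStep Z) a b) :
    ∃ N : Edge → ZMod 2, (∀ e, N e ≠ 0 → Z e) ∧ ∀ v, star N v = ind (v = a) + ind (v = b) := by
  induction h with
  | refl => exact ⟨fun _ => 0, fun e h => absurd rfl h, fun v => by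
      rw [zmod2_add_self]; simp [star]⟩
  | @tail b c _ hs ih =>
      obtain ⟨N, h1, h2⟩ := ih
      obtain ⟨e, he, hh⟩ := hs
      refine ⟨fun e' => N e' + dl e e', ?_, ?_⟩
      · intro e' h'
        by_cases hee : e' = e
        · rw [hee]; exact he
        · apply h1
          intro h0
          apply h'
          simp only [h0, dl, ind_false hee, add_zero]
      · intro v
        rw [star_add, h2, star_dl]
        rcases hh with ⟨rfl, rfl⟩ | ⟨rfl, rfl⟩
        · have := zmod2_add_self (ind (v = src e))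
          linear_combination this
        · have := zmod2_add_self (ind (v = tgt e))
          linear_combination this

/-! ### potentials -/

theorem pot (X0 X1 Y0 Y1 : ℤ) (a b : ℤ → ℤ → ZMod 2)
    (hcl : ∀ i j, X0 < i → i ≤ X1 → Y0 < j → j ≤ Y1 → a i (j - 1) + b i j = b (i - 1) j + a i j) :
    ∃ k : ℤ → ℤ → ZMod 2,
      (∀ i j, X0 < i → i ≤ X1 → Y0 ≤ j → j ≤ Y1 → k (i - 1) j + k i j = a i j) ∧
      (∀ i j, X0 ≤ i → i ≤ X1 → Y0 < j → j ≤ Y1 → k i (j - 1) + k i j = b i j) := by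
  set k : ℤ → ℤ → ZMod 2 := fun i j => ∑ i' ∈ Ioc X0 i, a i' Y0 + ∑ j' ∈ Ioc Y0 j, b i j' with hk
  have hIoc : ∀ (A B : ℤ) (f : ℤ → ZMod 2), A < B → ∑ t ∈ Ioc A B, f t = ∑ t ∈ Ioc A (B - 1), f t + f B := by
    intro A B f hAB
    have : Ioc A B = insert B (Ioc A (B - 1)) := by
      ext t; simp only [mem_Ioc, mem_insert]; omega
    rw [this, Finset.sum_insert (by simp), add_comm]
  have hb : ∀ i j, Y0 < j → k i (j - 1) + k i j = b i j := by
    intro i j h
    simp only [hk]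
    rw [hIoc Y0 j (fun t => b i t) h]
    have h1 := zmod2_add_self (∑ i' ∈ Ioc X0 i, a i' Y0)
    have h2 := zmod2_add_self (∑ t ∈ Ioc Y0 (j - 1), b i t)
    linear_combination h1 + h2
  have ha : ∀ n : ℕ, ∀ i, X0 < i → i ≤ X1 → Y0 + n ≤ Y1 → k (i - 1) (Y0 + n) + k i (Y0 + n) = a i (Y0 + n) := by
    intro n
    induction n with
    | zero =>
        intro i h1 h2 _
        simp only [hk, Nat.cast_zero, add_zero, Finset.Ioc_self, Finset.sum_empty]
        rw [hIoc X0 i (fun t => a t Y0) h1]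
        have h2 := zmod2_add_self (∑ t ∈ Ioc X0 (i - 1), a t Y0)
        linear_combination h2
    | succ n ih =>
        intro i h1 h2 h3
        push_cast at h3 ⊢
        have e1 := ih i h1 h2 (by omega)
        have e2 := hb (i - 1) (Y0 + (n + 1)) (by omega)
        have e3 := hb i (Y0 + (n + 1)) (by omega)
        have e4 := hcl i (Y0 + (n + 1)) h1 h2 (by omega) (by omega)
        have e5 : Y0 + ((n : ℤ) + 1) - 1 = Y0 + n := by ring
        rw [e5] at e2 e3 e4
        have z1 := zmod2_add_self (k (i - 1) (Y0 + n))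
        have z2 := zmod2_add_self (k i (Y0 + n))
        have z3 := zmod2_add_self (b (i - 1) (Y0 + (n + 1)))
        have z4 := zmod2_add_self (a i (Y0 + n))
        linear_combination e1 + e2 + e3 + e4 - z1 - z2 + z3
  refine ⟨k, ?_, fun i j _ _ h _ => hb i j h⟩
  intro i j h1 h2 h3 h4
  have := ha (j - Y0).toNat i h1 h2 (by omega)
  have e : Y0 + ((j - Y0).toNat : ℤ) = j := by omega
  rwa [e] at this

/-! ### the box -/

/-- both end points in the box -/
def IB (x0 x1 y0 y1 : ℤ) (e : Edge) : Prop :=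
  (x0 ≤ (src e).1 ∧ (src e).1 ≤ x1 ∧ y0 ≤ (src e).2 ∧ (src e).2 ≤ y1) ∧
  (x0 ≤ (tgt e).1 ∧ (tgt e).1 ≤ x1 ∧ y0 ≤ (tgt e).2 ∧ (tgt e).2 ≤ y1)

/-- at least one end point in the box -/
def TB (x0 x1 y0 y1 : ℤ) (e : Edge) : Prop :=
  (x0 ≤ (src e).1 ∧ (src e).1 ≤ x1 ∧ y0 ≤ (src e).2 ∧ (src e).2 ≤ y1) ∨
  (x0 ≤ (tgt e).1 ∧ (tgt e).1 ≤ x1 ∧ y0 ≤ (tgt e).2 ∧ (tgt e).2 ≤ y1)

/-- `r` leaves the box at the vertex `x` -/
def Out (x0 x1 y0 y1 : ℤ) (r : Edge) (x : P2) : Prop :=
  (y0 ≤ x.2 ∧ x.2 ≤ y1 ∧ ((r = ((x0 - 1, x.2), false) ∧ x.1 = x0) ∨ (r = ((x1, x.2), false) ∧ x.1 = x1))) ∨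
  (x0 ≤ x.1 ∧ x.1 ≤ x1 ∧ ((r = ((x.1, y0 - 1), true) ∧ x.2 = y0) ∨ (r = ((x.1, y1), true) ∧ x.2 = y1)))

section box

variable {x0 x1 y0 y1 : ℤ}

theorem TB_cases (hx : x0 ≤ x1) (hy : y0 ≤ y1) {e : Edge} (h : TB x0 x1 y0 y1 e) :
    IB x0 x1 y0 y1 e ∨ ∃ x, Out x0 x1 y0 y1 e x := by
  obtain ⟨⟨a, b⟩, c⟩ := e
  cases c
  · simp only [TB, IB, Out, src_mk, tgt_h, Prod.mk.injEq] at *
    rcases lt_trichotomy a x0 with h1 | h1 | h1
    · right
      exact ⟨(x0, b), Or.inl ⟨by omega, by omega, Or.inl ⟨⟨⟨by omega, rfl⟩, trivial⟩, rfl⟩⟩⟩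
    · rcases lt_trichotomy a x1 with h2 | h2 | h2
      · left; omega
      · right
        exact ⟨(x1, b), Or.inl ⟨by omega, by omega, Or.inr ⟨⟨⟨by omega, rfl⟩, trivial⟩, rfl⟩⟩⟩
      · omega
    · rcases lt_trichotomy a x1 with h2 | h2 | h2
      · left; omega
      · right
        exact ⟨(x1, b), Or.inl ⟨by omega, by omega, Or.inr ⟨⟨⟨by omega, rfl⟩, trivial⟩, rfl⟩⟩⟩
      · omega
  · simp only [TB, IB, Out, src_mk, tgt_v, Prod.mk.injEq] at *
    rcases lt_trichotomy b y0 with h1 | h1 | h1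
    · right
      exact ⟨(a, y0), Or.inr ⟨by omega, by omega, Or.inl ⟨⟨⟨rfl, by omega⟩, trivial⟩, rfl⟩⟩⟩
    · rcases lt_trichotomy b y1 with h2 | h2 | h2
      · left; omega
      · right
        exact ⟨(a, y1), Or.inr ⟨by omega, by omega, Or.inr ⟨⟨⟨rfl, by omega⟩, trivial⟩, rfl⟩⟩⟩
      · omega
    · rcases lt_trichotomy b y1 with h2 | h2 | h2
      · left; omega
      · right
        exact ⟨(a, y1), Or.inr ⟨by omega, by omega, Or.inr ⟨⟨⟨rfl, by omega⟩, trivial⟩, rfl⟩⟩⟩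
      · omega

/-- face potential of an edge function which is closed at the vertices of the box -/
theorem face_pot (ψ : Edge → ZMod 2)
    (hψ : ∀ v : P2, x0 ≤ v.1 → v.1 ≤ x1 → y0 ≤ v.2 → v.2 ≤ y1 → star ψ v = 0) :
    ∃ k : P2 → ZMod 2, ∀ e, TB x0 x1 y0 y1 e → k (fA e) + k (fB e) = ψ e := by
  obtain ⟨k, h1, h2⟩ := pot (x0 - 1) x1 (y0 - 1) y1 (fun i j => ψ ((i, j), true)) (fun i j => ψ ((i, j), false))
    (by
      intro i j hi1 hi2 hj1 hj2
      have := hψ (i, j) (by simp only; omega) (by simp only; omega) (by simp only; omega) (by simp only; omega)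
      unfold star at this
      simp only at this
      have z := zmod2_add_self (ψ ((i - 1, j), false))
      have z2 := zmod2_add_self (ψ ((i, j), true))
      linear_combination this - z - z2)
  refine ⟨fun f => k f.1 f.2, ?_⟩
  rintro ⟨⟨i, j⟩, c⟩ he
  cases c
  · simp only [TB, src_mk, tgt_h, fA_mk, fB_h] at *
    rw [add_comm]
    exact h2 i j (by omega) (by omega) (by omega) (by omega)
  · simp only [TB, src_mk, tgt_v, fA_mk, fB_v] at *
    rw [add_comm]
    exact h1 i j (by omega) (by omega) (by omega) (by omega)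

/-- ring of faces around the box -/
def RingF (x0 x1 y0 y1 : ℤ) (f : P2) : Prop :=
  (x0 - 1 ≤ f.1 ∧ f.1 ≤ x1 ∧ y0 - 1 ≤ f.2 ∧ f.2 ≤ y1) ∧
    (f.1 = x0 - 1 ∨ f.1 = x1 ∨ f.2 = y0 - 1 ∨ f.2 = y1)

/-- the colouring changes across the leaving edges exactly at `r` and `r'` -/
def IsCol (x0 x1 y0 y1 : ℤ) (r r' : Edge) (F : P2 → ZMod 2) : Prop :=
  ∀ e x, Out x0 x1 y0 y1 e x → F (fA e) + F (fB e) = dl r e + dl r' e

/-- two functions with the same jumps across the leaving edges differ by a constant on the ring -/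
theorem ring_unique (hx : x0 ≤ x1) (hy : y0 ≤ y1) {F G : P2 → ZMod 2}
    (h : ∀ e x, Out x0 x1 y0 y1 e x → F (fA e) + F (fB e) = G (fA e) + G (fB e)) :
    ∀ f, RingF x0 x1 y0 y1 f → F f + G f = F (x0 - 1, y0 - 1) + G (x0 - 1, y0 - 1) := by
  set D : ℤ → ℤ → ZMod 2 := fun i j => F (i, j) + G (i, j) with hD
  have hv : ∀ i j, x0 ≤ i → i ≤ x1 → (j = y0 - 1 ∨ j = y1) → D i j = D (i - 1) j := by
    intro i j h1 h2 h3
    apply zmod2_eq_of_add
    have : F (i, j) + F (i - 1, j) = G (i, j) + G (i - 1, j) := by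
      rcases h3 with h3 | h3
      · subst h3
        exact h ((i, y0 - 1), true) (i, y0) (Or.inr ⟨h1, h2, Or.inl ⟨rfl, rfl⟩⟩)
      · subst h3
        exact h ((i, j), true) (i, j) (Or.inr ⟨h1, h2, Or.inr ⟨rfl, rfl⟩⟩)
    have z1 := zmod2_add_self (G (i, j))
    have z2 := zmod2_add_self (G (i - 1, j))
    simp only [hD]
    linear_combination this + z1 + z2
  have hh : ∀ i j, y0 ≤ j → j ≤ y1 → (i = x0 - 1 ∨ i = x1) → D i j = D i (j - 1) := by
    intro i j h1 h2 h3
    apply zmod2_eq_of_add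
    have : F (i, j) + F (i, j - 1) = G (i, j) + G (i, j - 1) := by
      rcases h3 with h3 | h3
      · subst h3
        exact h ((x0 - 1, j), false) (x0, j) (Or.inl ⟨h1, h2, Or.inl ⟨rfl, rfl⟩⟩)
      · subst h3
        exact h ((i, j), false) (i, j) (Or.inl ⟨h1, h2, Or.inr ⟨rfl, rfl⟩⟩)
    have z1 := zmod2_add_self (G (i, j))
    have z2 := zmod2_add_self (G (i, j - 1))
    simp only [hD]
    linear_combination this + z1 + z2
  -- along horizontal lines
  have hH : ∀ j, (j = y0 - 1 ∨ j = y1) → ∀ n : ℕ, x0 - 1 + n ≤ x1 → D (x0 - 1 + n) j = D (x0 - 1) j := by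
    intro j hj n
    induction n with
    | zero => intro _; simp
    | succ n ih =>
        intro hn
        push_cast at hn ⊢
        rw [hv (x0 - 1 + (n + 1)) j (by omega) (by omega) hj, ← ih (by omega)]
        congr 1; ring
  have hV : ∀ i, (i = x0 - 1 ∨ i = x1) → ∀ n : ℕ, y0 - 1 + n ≤ y1 → D i (y0 - 1 + n) = D i (y0 - 1) := by
    intro i hi n
    induction n with
    | zero => intro _; simp
    | succ n ih =>
        intro hn
        push_cast at hn ⊢
        rw [hh i (y0 - 1 + (n + 1)) (by omega) (by omega) hi, ← ih (by omega)]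
        congr 1; ring
  have hH' : ∀ i j, (j = y0 - 1 ∨ j = y1) → x0 - 1 ≤ i → i ≤ x1 → D i j = D (x0 - 1) j := by
    intro i j hj h1 h2
    have := hH j hj (i - (x0 - 1)).toNat (by omega)
    rwa [show x0 - 1 + ((i - (x0 - 1)).toNat : ℤ) = i by omega] at this
  have hV' : ∀ i j, (i = x0 - 1 ∨ i = x1) → y0 - 1 ≤ j → j ≤ y1 → D i j = D i (y0 - 1) := by
    intro i j hi h1 h2
    have := hV i hi (j - (y0 - 1)).toNat (by omega)
    rwa [show y0 - 1 + ((j - (y0 - 1)).toNat : ℤ) = j by omega] at this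
  rintro ⟨i, j⟩ ⟨⟨h1, h2, h3, h4⟩, h5⟩
  simp only at h1 h2 h3 h4 h5
  show D i j = D (x0 - 1) (y0 - 1)
  rcases h5 with h5 | h5 | h5 | h5
  · rw [hV' i j (Or.inl h5) h3 h4, h5]
  · rw [hV' i j (Or.inr h5) h3 h4, hH' i (y0 - 1) (Or.inl rfl) h1 h2]
  · rw [hH' i j (Or.inl h5) h1 h2, h5]
  · rw [hH' i j (Or.inr h5) h1 h2, hV' (x0 - 1) j (Or.inl rfl) h3 h4]

theorem out_ring {r : Edge} {x : P2} (hx : x0 ≤ x1) (hy : y0 ≤ y1) (h : Out x0 x1 y0 y1 r x) :
    RingF x0 x1 y0 y1 (fA r) ∧ RingF x0 x1 y0 y1 (fB r) := by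
  obtain ⟨a, b⟩ := x
  unfold Out at h
  simp only at h
  rcases h with ⟨h1, h2, ⟨rfl, h3⟩ | ⟨rfl, h3⟩⟩ | ⟨h1, h2, ⟨rfl, h3⟩ | ⟨rfl, h3⟩⟩ <;>
    simp only [RingF, fA_mk, fB_h, fB_v] <;>
    exact ⟨⟨⟨by omega, by omega, by omega, by omega⟩, by simp⟩,
      ⟨⟨by omega, by omega, by omega, by omega⟩, by simp⟩⟩

/-- **Parity potential** of a primal walk. -/
theorem par (hx : x0 ≤ x1) (hy : y0 ≤ y1) {r r' : Edge} {x x' : P2}
    (hr : Out x0 x1 y0 y1 r x) (hr' : Out x0 x1 y0 y1 r' x') {N : Edge → ZMod 2}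
    (hN : ∀ e, N e ≠ 0 → IB x0 x1 y0 y1 e) (hs : ∀ v, star N v = ind (v = x) + ind (v = x')) :
    ∃ k : P2 → ZMod 2, IsCol x0 x1 y0 y1 r r' k ∧
      ∀ e, IB x0 x1 y0 y1 e → k (fA e) + k (fB e) = N e := by
  have hout : ∀ e x, Out x0 x1 y0 y1 e x → ¬ IB x0 x1 y0 y1 e := by
    rintro e ⟨a, b⟩ h hI
    unfold Out at h
    simp only at h
    rcases h with ⟨h1, h2, ⟨rfl, h3⟩ | ⟨rfl, h3⟩⟩ | ⟨h1, h2, ⟨rfl, h3⟩ | ⟨rfl, h3⟩⟩ <;>
      simp only [IB, src_mk, tgt_h, tgt_v] at hI <;> omega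
  have hTB : ∀ e x, Out x0 x1 y0 y1 e x → TB x0 x1 y0 y1 e := by
    rintro e ⟨a, b⟩ h
    unfold Out at h
    simp only at h
    rcases h with ⟨h1, h2, ⟨rfl, h3⟩ | ⟨rfl, h3⟩⟩ | ⟨h1, h2, ⟨rfl, h3⟩ | ⟨rfl, h3⟩⟩ <;>
      simp only [TB, src_mk, tgt_h, tgt_v] <;> omega
  have hend : ∀ e x, Out x0 x1 y0 y1 e x → ∀ v : P2, x0 ≤ v.1 → v.1 ≤ x1 → y0 ≤ v.2 → v.2 ≤ y1 →
      star (dl e) v = ind (v = x) := by
    rintro e ⟨a, b⟩ h ⟨c, d⟩ hc1 hc2 hd1 hd2
    rw [star_dl]
    unfold Out at h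
    simp only at h hc1 hc2 hd1 hd2
    rcases h with ⟨h1, h2, ⟨rfl, h3⟩ | ⟨rfl, h3⟩⟩ | ⟨h1, h2, ⟨rfl, h3⟩ | ⟨rfl, h3⟩⟩
    · simp only [src_mk, tgt_h, Prod.mk.injEq]
      rw [ind_false (by omega), zero_add]
      apply ind_iff; omega
    · simp only [src_mk, tgt_h, Prod.mk.injEq]
      rw [ind_false (p := (c = x1 + 1 ∧ d = b)) (by omega), add_zero]
      apply ind_iff; omega
    · simp only [src_mk, tgt_v, Prod.mk.injEq]
      rw [ind_false (by omega), zero_add]
      apply ind_iff; omega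
    · simp only [src_mk, tgt_v, Prod.mk.injEq]
      rw [ind_false (p := (c = a ∧ d = y1 + 1)) (by omega), add_zero]
      apply ind_iff; omega
  obtain ⟨k, hk⟩ := face_pot (x0 := x0) (x1 := x1) (y0 := y0) (y1 := y1)
    (fun e => N e + (dl r e + dl r' e)) (by
      intro v h1 h2 h3 h4
      rw [star_add, star_add, hs, hend r x hr v h1 h2 h3 h4, hend r' x' hr' v h1 h2 h3 h4]
      exact zmod2_add_self _)
  refine ⟨k, ?_, ?_⟩
  · intro e y he
    rw [hk e (hTB e y he)]
    have : N e = 0 := by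
      by_contra h0
      exact hout e y he (hN e h0)
    rw [this, zero_add]
  · intro e he
    rw [hk e (Or.inl he.1)]
    have h1 : dl r e = 0 := ind_false (fun h => hout r x hr (h ▸ he))
    have h2 : dl r' e = 0 := ind_false (fun h => hout r' x' hr' (h ▸ he))
    rw [h1, h2]; ring

/-- a face function without jumps across the crossed edges is constant along a dual path -/
theorem dual_const {C : Edge → Prop} {k : P2 → ZMod 2} (hk : ∀ e, C e → k (fA e) + k (fB e) = 0) {f g : P2}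
    (h : Relation.ReflTransGen (DStep C) f g) : k f = k g := by
  induction h with
  | refl => rfl
  | tail _ hs ih =>
      obtain ⟨e, he, ⟨rfl, rfl⟩ | ⟨rfl, rfl⟩⟩ := hs
      · rw [ih]; exact zmod2_eq_of_add (hk e he)
      · rw [ih]; exact (zmod2_eq_of_add (hk e he)).symm

/-- colourings agree up to a constant on the ring -/
theorem col_unique (hx : x0 ≤ x1) (hy : y0 ≤ y1) {r r' : Edge} {F G : P2 → ZMod 2}
    (hF : IsCol x0 x1 y0 y1 r r' F) (hG : IsCol x0 x1 y0 y1 r r' G) {f g : P2}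
    (hf : RingF x0 x1 y0 y1 f) (hg : RingF x0 x1 y0 y1 g) : F f + F g = G f + G g := by
  have h := ring_unique hx hy (F := F) (G := G) (fun e x he => by rw [hF e x he, hG e x he])
  have h1 := h f hf
  have h2 := h g hg
  have z1 := zmod2_add_self (G f)
  have z2 := zmod2_add_self (G g)
  have z3 := zmod2_add_self (F (x0 - 1, y0 - 1) + G (x0 - 1, y0 - 1))
  linear_combination h1 + h2 + z3 - z1 - z2

/-- **A primal path and a dual path between separated boundary points cannot coexist.** -/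
theorem no_both (hx : x0 ≤ x1) (hy : y0 ≤ y1) {r r' : Edge} {x x' : P2}
    (hr : Out x0 x1 y0 y1 r x) (hr' : Out x0 x1 y0 y1 r' x') {F : P2 → ZMod 2}
    (hF : IsCol x0 x1 y0 y1 r r' F) {O C : Edge → Prop}
    (hOC : ∀ e, IB x0 x1 y0 y1 e → O e → C e → False)
    (hP : Relation.ReflTransGen (PStep (fun e => O e ∧ IB x0 x1 y0 y1 e)) x x')
    {f g : P2} (hf : RingF x0 x1 y0 y1 f) (hg : RingF x0 x1 y0 y1 g)
    (hD : Relation.ReflTransGen (DStep (fun e => C e ∧ IB x0 x1 y0 y1 e)) f g) : F f = F g := by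
  obtain ⟨N, hN, hs⟩ := walk_parity hP
  obtain ⟨k, hk1, hk2⟩ := par hx hy hr hr' (fun e h => (hN e h).2) hs
  have h1 : k f = k g := by
    apply dual_const _ hD
    rintro e ⟨hC, hI⟩
    rw [hk2 e hI]
    by_contra h0
    exact hOC e hI (hN e h0).1 hC
  have h2 := col_unique hx hy hF hk1 hf hg
  rw [h1, zmod2_add_self] at h2
  exact zmod2_eq_of_add h2

/-- **Crossing exactly once.** A primal path `x ⋯ u, v ⋯ x'` through the edge `e0 = uv` and a dual path
`f ⋯ fA e0, fB e0 ⋯ g` through the dual edge: the end points are interlaced. -/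
theorem cross_once (hx : x0 ≤ x1) (hy : y0 ≤ y1) {r r' : Edge} {x x' : P2}
    (hr : Out x0 x1 y0 y1 r x) (hr' : Out x0 x1 y0 y1 r' x') {F : P2 → ZMod 2}
    (hF : IsCol x0 x1 y0 y1 r r' F) {O C : Edge → Prop}
    (hOC : ∀ e, IB x0 x1 y0 y1 e → O e → C e → False)
    {e0 : Edge} (he0 : IB x0 x1 y0 y1 e0) (hO : ¬ O e0) (hC0 : ¬ C e0) {u v : P2}
    (huv : (u = src e0 ∧ v = tgt e0) ∨ (u = tgt e0 ∧ v = src e0))
    (hP : Relation.ReflTransGen (PStep (fun e => O e ∧ IB x0 x1 y0 y1 e)) x u)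
    (hP' : Relation.ReflTransGen (PStep (fun e => O e ∧ IB x0 x1 y0 y1 e)) v x')
    {f g f0 g0 : P2} (hf : RingF x0 x1 y0 y1 f) (hg : RingF x0 x1 y0 y1 g)
    (hfg : (f0 = fA e0 ∧ g0 = fB e0) ∨ (f0 = fB e0 ∧ g0 = fA e0))
    (hD : Relation.ReflTransGen (DStep (fun e => C e ∧ IB x0 x1 y0 y1 e)) f f0)
    (hD' : Relation.ReflTransGen (DStep (fun e => C e ∧ IB x0 x1 y0 y1 e)) g0 g) : F f ≠ F g := by
  obtain ⟨N, hN, hs⟩ := walk_parity hP
  obtain ⟨N', hN', hs'⟩ := walk_parity hP'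
  have hsum : ∀ w, star (fun e => (N e + N' e) + dl e0 e) w = ind (w = x) + ind (w = x') := by
    intro w
    rw [star_add, star_add, hs, hs', star_dl]
    rcases huv with ⟨rfl, rfl⟩ | ⟨rfl, rfl⟩
    · have z1 := zmod2_add_self (ind (w = src e0))
      have z2 := zmod2_add_self (ind (w = tgt e0))
      linear_combination z1 + z2
    · have z1 := zmod2_add_self (ind (w = src e0))
      have z2 := zmod2_add_self (ind (w = tgt e0))
      linear_combination z1 + z2
  obtain ⟨k, hk1, hk2⟩ := par hx hy hr hr' (N := fun e => (N e + N' e) + dl e0 e) (by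
    intro e h
    by_cases h1 : N e = 0
    · by_cases h2 : N' e = 0
      · by_cases h3 : e = e0
        · rw [h3]; exact he0
        · exfalso; apply h
          simp only [h1, h2, dl, ind_false h3, add_zero]
      · exact (hN' e h2).2
    · exact (hN e h1).2) hsum
  have hz : ∀ e, C e → IB x0 x1 y0 y1 e → e ≠ e0 → k (fA e) + k (fB e) = 0 := by
    intro e hC hI hne
    rw [hk2 e hI]
    have h1 : N e = 0 := by
      by_contra h0; exact hOC e hI (hN e h0).1 hC
    have h2 : N' e = 0 := by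
      by_contra h0; exact hOC e hI (hN' e h0).1 hC
    simp only [h1, h2, dl, ind_false hne, add_zero]
  have hN0 : N e0 = 0 := by
    by_contra h0; exact hO (hN e0 h0).1
  have hN0' : N' e0 = 0 := by
    by_contra h0; exact hO (hN' e0 h0).1
  have hjump : k (fA e0) + k (fB e0) = 1 := by
    rw [hk2 e0 he0]
    show (N e0 + N' e0) + dl e0 e0 = 1
    rw [hN0, hN0', show dl e0 e0 = 1 from ind_true rfl]
    decide
  have hstep : ∀ {p q : P2}, Relation.ReflTransGen (DStep (fun e => C e ∧ IB x0 x1 y0 y1 e)) p q →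
      k p = k q := by
    intro p q h
    apply dual_const _ h
    rintro e ⟨hC, hI⟩
    exact hz e hC hI (fun h => hC0 (h ▸ hC))
  intro hFF
  have h1 := hstep hD
  have h2 := hstep hD'
  have h3 := col_unique hx hy hF hk1 hf hg
  rw [hFF, zmod2_add_self, h1, ← h2] at h3
  rcases hfg with ⟨rfl, rfl⟩ | ⟨rfl, rfl⟩
  · rw [hjump] at h3
    exact absurd h3 (by decide)
  · rw [add_comm, hjump] at h3
    exact absurd h3 (by decide)

/-! ### duality -/

/-- sum over the leaving edges -/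
def Lf (x0 x1 y0 y1 : ℤ) (S : ℤ → ℤ → ZMod 2) (ψ : Edge → ZMod 2) : ZMod 2 :=
  ∑ j ∈ Icc y0 y1, (S x0 j * ψ ((x0 - 1, j), false) + S x1 j * ψ ((x1, j), false)) +
  ∑ i ∈ Icc x0 x1, (S i y0 * ψ ((i, y0 - 1), true) + S i y1 * ψ ((i, y1), true))

lemma Lf_add (S : ℤ → ℤ → ZMod 2) (ψ φ : Edge → ZMod 2) :
    Lf x0 x1 y0 y1 S (fun e => ψ e + φ e) = Lf x0 x1 y0 y1 S ψ + Lf x0 x1 y0 y1 S φ := by
  unfold Lf
  have h1 : ∀ j, (S x0 j * (ψ ((x0 - 1, j), false) + φ ((x0 - 1, j), false)) +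
      S x1 j * (ψ ((x1, j), false) + φ ((x1, j), false))) =
      (S x0 j * ψ ((x0 - 1, j), false) + S x1 j * ψ ((x1, j), false)) +
      (S x0 j * φ ((x0 - 1, j), false) + S x1 j * φ ((x1, j), false)) := fun j => by ring
  have h2 : ∀ i, (S i y0 * (ψ ((i, y0 - 1), true) + φ ((i, y0 - 1), true)) +
      S i y1 * (ψ ((i, y1), true) + φ ((i, y1), true))) =
      (S i y0 * ψ ((i, y0 - 1), true) + S i y1 * ψ ((i, y1), true)) +
      (S i y0 * φ ((i, y0 - 1), true) + S i y1 * φ ((i, y1), true)) := fun i => by ring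
  simp only [h1, h2, Finset.sum_add_distrib]
  ring

lemma Lf_congr (S : ℤ → ℤ → ZMod 2) (ψ φ : Edge → ZMod 2)
    (h : ∀ e x, Out x0 x1 y0 y1 e x → ψ e = φ e) :
    Lf x0 x1 y0 y1 S ψ = Lf x0 x1 y0 y1 S φ := by
  unfold Lf
  congr 1
  · apply Finset.sum_congr rfl
    intro j hj
    rw [mem_Icc] at hj
    rw [h ((x0 - 1, j), false) (x0, j) (Or.inl ⟨hj.1, hj.2, Or.inl ⟨rfl, rfl⟩⟩),
      h ((x1, j), false) (x1, j) (Or.inl ⟨hj.1, hj.2, Or.inr ⟨rfl, rfl⟩⟩)]
  · apply Finset.sum_congr rfl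
    intro i hi
    rw [mem_Icc] at hi
    rw [h ((i, y0 - 1), true) (i, y0) (Or.inr ⟨hi.1, hi.2, Or.inl ⟨rfl, rfl⟩⟩),
      h ((i, y1), true) (i, y1) (Or.inr ⟨hi.1, hi.2, Or.inr ⟨rfl, rfl⟩⟩)]

lemma sum_dl {a b : ℤ} {f : ℤ → ZMod 2} {g : ℤ → ZMod 2} {t : ℤ} (h1 : a ≤ t) (h2 : t ≤ b)
    (hg1 : g t = 1) (hg0 : ∀ s, s ≠ t → g s = 0) : ∑ s ∈ Icc a b, f s * g s = f t := by
  rw [Finset.sum_eq_single t]
  · rw [hg1, mul_one]
  · intro s _ hs
    rw [hg0 s hs, mul_zero]
  · intro h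
    exact absurd (mem_Icc.mpr ⟨h1, h2⟩) h

lemma sum_zero' {a b : ℤ} {f : ℤ → ZMod 2} {g : ℤ → ZMod 2} (hg0 : ∀ s, a ≤ s → s ≤ b → g s = 0) :
    ∑ s ∈ Icc a b, f s * g s = 0 := by
  apply Finset.sum_eq_zero
  intro s hs
  rw [mem_Icc] at hs
  rw [hg0 s hs.1 hs.2, mul_zero]

lemma Lf_dl (hx : x0 ≤ x1) (hy : y0 ≤ y1) (S : ℤ → ℤ → ZMod 2) {r : Edge} {x : P2}
    (hr : Out x0 x1 y0 y1 r x) : Lf x0 x1 y0 y1 S (dl r) = S x.1 x.2 := by
  obtain ⟨a, b⟩ := x
  unfold Lf
  simp only [Finset.sum_add_distrib]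
  unfold Out at hr
  simp only at hr
  have hd : ∀ e e' : Edge, e' ≠ e → dl e e' = 0 := fun e e' h => ind_false h
  have hd1 : ∀ e : Edge, dl e e = 1 := fun e => ind_true rfl
  rcases hr with ⟨h1, h2, ⟨rfl, h3⟩ | ⟨rfl, h3⟩⟩ | ⟨h1, h2, ⟨rfl, h3⟩ | ⟨rfl, h3⟩⟩
  · rw [sum_dl (f := fun s => S x0 s) (g := fun s => dl ((x0 - 1, b), false) ((x0 - 1, s), false)) h1 h2
        (hd1 _) (fun s hs => hd _ _ (by simpa using hs)),
      sum_zero' (f := fun s => S x1 s) (g := fun s => dl ((x0 - 1, b), false) ((x1, s), false))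
        (fun s _ _ => hd _ _ (by simp; omega)),
      sum_zero' (f := fun s => S s y0) (g := fun s => dl ((x0 - 1, b), false) ((s, y0 - 1), true))
        (fun s _ _ => hd _ _ (by simp)),
      sum_zero' (f := fun s => S s y1) (g := fun s => dl ((x0 - 1, b), false) ((s, y1), true))
        (fun s _ _ => hd _ _ (by simp)), h3]
    simp
  · rw [sum_zero' (f := fun s => S x0 s) (g := fun s => dl ((x1, b), false) ((x0 - 1, s), false))
        (fun s _ _ => hd _ _ (by simp; omega)),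
      sum_dl (f := fun s => S x1 s) (g := fun s => dl ((x1, b), false) ((x1, s), false)) h1 h2
        (hd1 _) (fun s hs => hd _ _ (by simpa using hs)),
      sum_zero' (f := fun s => S s y0) (g := fun s => dl ((x1, b), false) ((s, y0 - 1), true))
        (fun s _ _ => hd _ _ (by simp)),
      sum_zero' (f := fun s => S s y1) (g := fun s => dl ((x1, b), false) ((s, y1), true))
        (fun s _ _ => hd _ _ (by simp)), h3]
    simp
  · rw [sum_zero' (f := fun s => S x0 s) (g := fun s => dl ((a, y0 - 1), true) ((x0 - 1, s), false))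
        (fun s _ _ => hd _ _ (by simp)),
      sum_zero' (f := fun s => S x1 s) (g := fun s => dl ((a, y0 - 1), true) ((x1, s), false))
        (fun s _ _ => hd _ _ (by simp)),
      sum_dl (f := fun s => S s y0) (g := fun s => dl ((a, y0 - 1), true) ((s, y0 - 1), true)) h1 h2
        (hd1 _) (fun s hs => hd _ _ (by simpa using hs)),
      sum_zero' (f := fun s => S s y1) (g := fun s => dl ((a, y0 - 1), true) ((s, y1), true))
        (fun s _ _ => hd _ _ (by simp; omega)), h3]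
    simp
  · rw [sum_zero' (f := fun s => S x0 s) (g := fun s => dl ((a, y1), true) ((x0 - 1, s), false))
        (fun s _ _ => hd _ _ (by simp)),
      sum_zero' (f := fun s => S x1 s) (g := fun s => dl ((a, y1), true) ((x1, s), false))
        (fun s _ _ => hd _ _ (by simp)),
      sum_zero' (f := fun s => S s y0) (g := fun s => dl ((a, y1), true) ((s, y0 - 1), true))
        (fun s _ _ => hd _ _ (by simp; omega)),
      sum_dl (f := fun s => S s y1) (g := fun s => dl ((a, y1), true) ((s, y1), true)) h1 h2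
        (hd1 _) (fun s hs => hd _ _ (by simpa using hs)), h3]
    simp

/-- one line of the cup product identity -/
lemma line_sum {a b : ℤ} (hab : a ≤ b) (S h : ℤ → ZMod 2)
    (hS : ∀ i, a ≤ i → i < b → S i * h i = S (i + 1) * h i) :
    ∑ i ∈ Icc a b, S i * (h (i - 1) + h i) = S a * h (a - 1) + S b * h b := by
  have key : ∀ n : ℕ, a + n ≤ b → ∑ i ∈ Icc a (a + n), S i * (h (i - 1) + h i) =
      S a * h (a - 1) + S (a + n) * h (a + n) := by
    intro n
    induction n with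
    | zero => intro _; simp; ring
    | succ n ih =>
        intro hn
        push_cast at hn ⊢
        have h1 : Icc a (a + ((n : ℤ) + 1)) = insert (a + ((n : ℤ) + 1)) (Icc a (a + (n : ℤ))) := by
          ext t; simp only [mem_Icc, mem_insert]; omega
        rw [h1, Finset.sum_insert (by simp), ih (by omega)]
        have h2 := hS (a + n) (by omega) (by omega)
        have h3 : a + ((n : ℤ) + 1) - 1 = a + n := by ring
        rw [h3, show a + ((n : ℤ) + 1) = a + n + 1 by ring]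
        have z := zmod2_add_self (S (a + n) * h (a + n))
        linear_combination z - h2
  have := key (b - a).toNat (by omega)
  rwa [show a + ((b - a).toNat : ℤ) = b by omega] at this

/-- **Cup product identity** in the box. -/
theorem cup (hx : x0 ≤ x1) (hy : y0 ≤ y1) (S F : P2 → ZMod 2)
    (h : ∀ e, IB x0 x1 y0 y1 e → (S (src e) + S (tgt e)) * (F (fA e) + F (fB e)) = 0) :
    Lf x0 x1 y0 y1 (fun i j => S (i, j)) (fun e => F (fA e) + F (fB e)) = 0 := by
  have hrow : ∀ j ∈ Icc y0 y1, ∑ i ∈ Icc x0 x1, S (i, j) *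
      ((F (i - 1, j) + F (i - 1, j - 1)) + (F (i, j) + F (i, j - 1))) =
      S (x0, j) * (F (x0 - 1, j) + F (x0 - 1, j - 1)) + S (x1, j) * (F (x1, j) + F (x1, j - 1)) := by
    intro j hj
    rw [mem_Icc] at hj
    apply line_sum hx (fun i => S (i, j)) (fun i => F (i, j) + F (i, j - 1))
    intro i h1 h2
    have := h ((i, j), false) ⟨⟨h1, by simp only [src_mk]; omega, hj.1, hj.2⟩,
      ⟨by simp only [tgt_h]; omega, by simp only [tgt_h]; omega, hj.1, hj.2⟩⟩
    simp only [src_mk, tgt_h, fA_mk, fB_h] at this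
    have z := zmod2_add_self (S (i + 1, j) * (F (i, j) + F (i, j - 1)))
    linear_combination this - z
  have hcol : ∀ i ∈ Icc x0 x1, ∑ j ∈ Icc y0 y1, S (i, j) *
      ((F (i, j - 1) + F (i - 1, j - 1)) + (F (i, j) + F (i - 1, j))) =
      S (i, y0) * (F (i, y0 - 1) + F (i - 1, y0 - 1)) + S (i, y1) * (F (i, y1) + F (i - 1, y1)) := by
    intro i hi
    rw [mem_Icc] at hi
    apply line_sum hy (fun j => S (i, j)) (fun j => F (i, j) + F (i - 1, j))
    intro j h1 h2
    have := h ((i, j), true) ⟨⟨hi.1, hi.2, h1, by simp only [src_mk]; omega⟩,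
      ⟨hi.1, hi.2, by simp only [tgt_v]; omega, by simp only [tgt_v]; omega⟩⟩
    simp only [src_mk, tgt_v, fA_mk, fB_v] at this
    have z := zmod2_add_self (S (i, j + 1) * (F (i, j) + F (i - 1, j)))
    linear_combination this - z
  unfold Lf
  simp only [fA_mk, fB_h, fB_v]
  rw [← Finset.sum_congr rfl hrow, ← Finset.sum_congr rfl hcol, Finset.sum_comm (s := Icc x0 x1),
    ← Finset.sum_add_distrib]
  apply Finset.sum_eq_zero
  intro j _
  rw [← Finset.sum_add_distrib]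
  apply Finset.sum_eq_zero
  intro i _
  have z1 := zmod2_add_self (F (i, j))
  have z2 := zmod2_add_self (F (i - 1, j))
  have z3 := zmod2_add_self (F (i, j - 1))
  have z4 := zmod2_add_self (F (i - 1, j - 1))
  linear_combination S (i, j) * (z1 + z2 + z3 + z4)

/-- **Arc duality.** -/
theorem arc_duality (hx : x0 ≤ x1) (hy : y0 ≤ y1) {r r' : Edge} {x x' : P2}
    (hr : Out x0 x1 y0 y1 r x) (hr' : Out x0 x1 y0 y1 r' x') {F : P2 → ZMod 2}
    (hF : IsCol x0 x1 y0 y1 r r' F) {O C : Edge → Prop}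
    (hOC : ∀ e, IB x0 x1 y0 y1 e → O e ∨ C e) :
    Relation.ReflTransGen (PStep (fun e => O e ∧ IB x0 x1 y0 y1 e)) x x' ∨
    ∃ f g, RingF x0 x1 y0 y1 f ∧ RingF x0 x1 y0 y1 g ∧ F f = 1 ∧ F g = 0 ∧
      Relation.ReflTransGen (DStep (fun e => C e ∧ IB x0 x1 y0 y1 e)) f g := by
  by_contra hcon
  push Not at hcon
  obtain ⟨hP, hD⟩ := hcon
  set R : P2 → Prop := fun g => ∃ f, RingF x0 x1 y0 y1 f ∧ F f = 1 ∧
    Relation.ReflTransGen (DStep (fun e => C e ∧ IB x0 x1 y0 y1 e)) f g with hR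
  set G : P2 → ZMod 2 := fun f => ind (R f) with hG
  set S : P2 → ZMod 2 := fun v =>
    ind (Relation.ReflTransGen (PStep (fun e => O e ∧ IB x0 x1 y0 y1 e)) x v) with hS
  have hring : ∀ f, RingF x0 x1 y0 y1 f → G f = F f := by
    intro f hf
    rcases zmod2_cases (F f) with h0 | h1
    · rw [h0]
      apply ind_false
      rintro ⟨j, hj, hj1, hjf⟩
      exact hD j f hj hf hj1 h0 hjf
    · rw [h1]
      exact ind_true ⟨f, hf, h1, .refl⟩
  have hprod : ∀ e, IB x0 x1 y0 y1 e → (S (src e) + S (tgt e)) * (G (fA e) + G (fB e)) = 0 := by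
    intro e he
    rcases hOC e he with hO | hC
    · have : S (src e) = S (tgt e) := by
        apply ind_iff
        constructor
        · intro h; exact h.tail ⟨e, ⟨hO, he⟩, Or.inl ⟨rfl, rfl⟩⟩
        · intro h; exact h.tail ⟨e, ⟨hO, he⟩, Or.inr ⟨rfl, rfl⟩⟩
      rw [this, zmod2_add_self, zero_mul]
    · have : G (fA e) = G (fB e) := by
        apply ind_iff
        constructor
        · rintro ⟨j, hj, hj1, h⟩; exact ⟨j, hj, hj1, h.tail ⟨e, ⟨hC, he⟩, Or.inl ⟨rfl, rfl⟩⟩⟩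
        · rintro ⟨j, hj, hj1, h⟩; exact ⟨j, hj, hj1, h.tail ⟨e, ⟨hC, he⟩, Or.inr ⟨rfl, rfl⟩⟩⟩
      rw [this, zmod2_add_self, mul_zero]
  have hcup := cup hx hy S G hprod
  rw [Lf_congr (fun i j => S (i, j)) (fun e => G (fA e) + G (fB e)) (fun e => dl r e + dl r' e) (by
    intro e y he
    have hh := out_ring hx hy he
    rw [hring _ hh.1, hring _ hh.2]
    exact hF e y he), Lf_add, Lf_dl hx hy _ hr, Lf_dl hx hy _ hr'] at hcup
  have h1 : S (x.1, x.2) = 1 := ind_true .refl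
  have h2 : S (x'.1, x'.2) = 0 := ind_false hP
  rw [h1, h2] at hcup
  exact absurd hcup (by decide)

end box

end Crest.Agent.R158.Kd458
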