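import Crest.Agent.R158.Kd4_458

/-!
# Row 158 (helper458), SEP: the deterministic core, hole version

`L = Rect x0 x1 y0 y1`, hole `{v | sd c0 v < ρ}`, `So` = vertices of `L` outside the hole, `Fo` = inner faces of
`L` outside `Fi = [-ρ,ρ-1]² + c0`.

`core_hole` : `x`, `x'` on the circle `sd c0 · = ρ` (with a neighbour in the hole), joined in `So` to the boundary
vertices `p`, `p'` of `L`, `p` not joined to `p'` in `So`.  On "good circle" the two open arms and two dual arms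
can be chosen with separated landing points, each colour off the boxes around the landing points of the other.
-/

set_option autoImplicit false

noncomputable section

namespace Crest.Agent.R158.Kd458

open Crest.Agent.R161.Geo729 Crest.Agent.R161.Topo374 Crest.Agent.R161.Dual374
open Crest.Agent.R161.Tas682
open Crest.Agent.R158.Rs689
open Crest.Agent.R158.Ru874 hiding An
open Crest.Agent.R158.Cpl963 Crest.Agent.R158.Sq200

/-- vertices of the rectangle outside the hole -/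
def So (x0 x1 y0 y1 : ℤ) (c0 : P2) (ρ : ℤ) : Set P2 := Rect x0 x1 y0 y1 ∩ {v | ρ ≤ sd c0 v}

/-- faces inside the circle -/
def Fi (c0 : P2) (ρ : ℤ) : Set P2 := Rect (c0.1 - ρ) (c0.1 + ρ - 1) (c0.2 - ρ) (c0.2 + ρ - 1)

/-- inner faces of the rectangle outside the circle -/
def Fo (x0 x1 y0 y1 : ℤ) (c0 : P2) (ρ : ℤ) : Set P2 := Rect x0 (x1 - 1) y0 (y1 - 1) ∩ (Fi c0 ρ)ᶜ

/-- faces next to the circle -/
def NearC (c0 : P2) (ρ : ℤ) (f : P2) : Prop := ∃ w, sd c0 w = ρ ∧ sd f w ≤ 1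

theorem nbr_edge {a b : P2} (h : Nbr a b) : ∃ e : Edge, (a = src e ∧ b = tgt e) ∨ (a = tgt e ∧ b = src e) := by
  obtain ⟨i, j⟩ := a
  obtain ⟨k, l⟩ := b
  unfold Nbr at h
  simp only at h
  rcases h with ⟨h1, h2 | h2⟩ | ⟨h1, h2 | h2⟩
  · exact ⟨((i, j), false), Or.inl ⟨rfl, by simp [h1, h2]⟩⟩
  · exact ⟨((k, l), false), Or.inr ⟨by simp [h1, h2], rfl⟩⟩
  · exact ⟨((i, j), true), Or.inl ⟨rfl, by simp [h1, h2]⟩⟩
  · exact ⟨((k, l), true), Or.inr ⟨by simp [h1, h2], rfl⟩⟩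

theorem ball_conn (c0 : P2) (k : ℤ) : ∀ (n : ℕ) (v : P2), (v.1 - c0.1).natAbs + (v.2 - c0.2).natAbs = n →
    sd c0 v ≤ k → Relation.ReflTransGen (fun a b => Nbr a b ∧ sd c0 a ≤ k ∧ sd c0 b ≤ k) c0 v := by
  intro n
  induction n with
  | zero =>
      intro v h _
      have : v = c0 := by
        ext <;> omega
      rw [this]
  | succ n ih =>
      intro v h hv
      rw [sd_le] at hv
      rcases lt_trichotomy v.1 c0.1 with h1 | h1 | h1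
      · have h2 : sd c0 (v.1 + 1, v.2) ≤ k := by rw [sd_le]; simp only; omega
        exact (ih (v.1 + 1, v.2) (by simp only; omega) h2).tail
          ⟨by unfold Nbr; simp, h2, by rw [sd_le]; omega⟩
      · rcases lt_trichotomy v.2 c0.2 with h3 | h3 | h3
        · have h2 : sd c0 (v.1, v.2 + 1) ≤ k := by rw [sd_le]; simp only; omega
          exact (ih (v.1, v.2 + 1) (by simp only; omega) h2).tail
            ⟨by unfold Nbr; simp, h2, by rw [sd_le]; omega⟩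
        · omega
        · have h2 : sd c0 (v.1, v.2 - 1) ≤ k := by rw [sd_le]; simp only; omega
          exact (ih (v.1, v.2 - 1) (by simp only; omega) h2).tail
            ⟨by unfold Nbr; simp, h2, by rw [sd_le]; omega⟩
      · have h2 : sd c0 (v.1 - 1, v.2) ≤ k := by rw [sd_le]; simp only; omega
        exact (ih (v.1 - 1, v.2) (by simp only; omega) h2).tail
          ⟨by unfold Nbr; simp, h2, by rw [sd_le]; omega⟩

theorem hole_faces {c0 : P2} {ρ : ℤ} {e : Edge} (h : sd c0 (src e) < ρ ∨ sd c0 (tgt e) < ρ) :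
    fA e ∈ Fi c0 ρ ∧ fB e ∈ Fi c0 ρ := by
  obtain ⟨⟨i, j⟩, b⟩ := e
  have h' : sd c0 (src ((i, j), b)) ≤ ρ - 1 ∨ sd c0 (tgt ((i, j), b)) ≤ ρ - 1 := by omega
  rw [sd_le, sd_le] at h'
  cases b <;> simp only [Fi, mem_rect, src_mk, tgt_h, tgt_v, fA_mk, fB_h, fB_v] at * <;> omega

theorem corner_le {c0 : P2} {ρ : ℤ} {e : Edge} {g : P2} (hg : g ∈ Fi c0 ρ) (h : g = fA e ∨ g = fB e) :
    sd c0 (src e) ≤ ρ ∧ sd c0 (tgt e) ≤ ρ := by
  obtain ⟨⟨i, j⟩, b⟩ := e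
  rw [sd_le, sd_le]
  cases b <;> rcases h with rfl | rfl <;>
    simp only [Fi, mem_rect, src_mk, tgt_h, tgt_v, fA_mk, fB_h, fB_v] at * <;> omega

theorem corner_near {e : Edge} {g : P2} (h : g = fA e ∨ g = fB e) : sd g (src e) ≤ 1 := by
  obtain ⟨⟨i, j⟩, b⟩ := e
  rw [sd_le]
  cases b <;> rcases h with rfl | rfl <;>
    simp only [src_mk, fA_mk, fB_h, fB_v] at * <;> omega

section rect

variable {x0 x1 y0 y1 : ℤ}

theorem in_rect {c0 : P2} {k : ℤ} (h1 : x0 + k ≤ c0.1) (h2 : c0.1 + k ≤ x1) (h3 : y0 + k ≤ c0.2)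
    (h4 : c0.2 + k ≤ y1) {v : P2} (hv : sd c0 v ≤ k) : v ∈ Rect x0 x1 y0 y1 := by
  rw [sd_le] at hv
  rw [mem_rect]; omega

/-- joining two points of the circle through the hole -/
theorem through_hole {c0 : P2} {ρ : ℤ} (h1 : x0 + ρ ≤ c0.1) (h2 : c0.1 + ρ ≤ x1) (h3 : y0 + ρ ≤ c0.2)
    (h4 : c0.2 + ρ ≤ y1) {x : P2} (hx : sd c0 x = ρ) {q : P2} (hq : Nbr q x) (hq' : sd c0 q < ρ) :
    Relation.ReflTransGen (PStep (fun e => IB x0 x1 y0 y1 e ∧ ¬ InE (So x0 x1 y0 y1 c0 ρ) e)) c0 x := by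
  have hmem : ∀ {v : P2}, sd c0 v ≤ ρ → v ∈ Rect x0 x1 y0 y1 := fun hv => in_rect h1 h2 h3 h4 hv
  have hst : ∀ {a b : P2}, Nbr a b → sd c0 a < ρ → sd c0 b ≤ ρ →
      PStep (fun e => IB x0 x1 y0 y1 e ∧ ¬ InE (So x0 x1 y0 y1 c0 ρ) e) a b := by
    intro a b hab ha hb
    obtain ⟨e, he⟩ := nbr_edge hab
    refine ⟨e, ⟨?_, ?_⟩, he⟩
    · have ha' := hmem (show sd c0 a ≤ ρ by omega)
      have hb' := hmem hb
      rcases he with ⟨rfl, rfl⟩ | ⟨rfl, rfl⟩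
      · exact ⟨ha', hb'⟩
      · exact ⟨hb', ha'⟩
    · rintro ⟨h5, h6⟩
      have h5' : ρ ≤ sd c0 (src e) := h5.2
      have h6' : ρ ≤ sd c0 (tgt e) := h6.2
      rcases he with ⟨rfl, rfl⟩ | ⟨rfl, rfl⟩ <;> omega
  have hc := ball_conn c0 (ρ - 1) _ q rfl (by omega)
  refine (rtg_congr ?_ hc).tail (hst hq hq' (by omega))
  rintro a b ⟨hab, ha, hb⟩
  exact hst hab (by omega) (by omega)

/-- the circle is good: primal at the scales `(s1,b)`, `(s,c)`, `(t,r)`, dual at `(t1,b)` -/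
structure GoodH (z : Cf) (x0 x1 y0 y1 : ℤ) (c0 : P2) (ρ t r t1 s c s1 b : ℤ) : Prop where
  g1 : ∀ w, sd c0 w = ρ → Gd z (So x0 x1 y0 y1 c0 ρ) w s1 b
  g2 : ∀ w, sd c0 w = ρ → Gd z (So x0 x1 y0 y1 c0 ρ) w s c
  g3 : ∀ w, sd c0 w = ρ → Gd z (So x0 x1 y0 y1 c0 ρ) w t r
  g4 : ∀ f ∈ Fo x0 x1 y0 y1 c0 ρ, NearC c0 ρ f → Gd (dual z) (Fo x0 x1 y0 y1 c0 ρ) f t1 b

/-- one dual arm of the hole, in the inner faces outside the circle -/
theorem hole_arm {z z' : Cf} {c0 : P2} {ρ s : ℤ} {x x' : P2}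
    (hz' : ∀ e', z' e' = false → z e' = false ∧ ¬ NB x s e' ∧ ¬ NB x' s e')
    {f f0 : P2} (hf : f ∉ Rect x0 (x1 - 1) y0 (y1 - 1)) (hfi : f ∉ Fi c0 ρ) (hf0 : f0 ∈ Fi c0 ρ)
    (hsub : ∀ v, v ∈ Fi c0 (ρ + 1) → v ∈ Rect x0 (x1 - 1) y0 (y1 - 1))
    (h : Relation.ReflTransGen (DStep (fun e => z' e = false ∧ InE (So x0 x1 y0 y1 c0 ρ) e)) f f0) :
    ∃ w y g f', sd c0 w = ρ ∧ sd y w ≤ 1 ∧ y ∈ Fo x0 x1 y0 y1 c0 ρ ∧ y ∈ Fi c0 (ρ + 1) ∧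
      g ∈ Rect x0 (x1 - 1) y0 (y1 - 1) ∧ BdV x0 (x1 - 1) y0 (y1 - 1) g ∧
      RingF x0 x1 y0 y1 f' ∧
      OC (dual z) (Fo x0 x1 y0 y1 c0 ρ ∩ {v | s ≤ sd x v} ∩ {v | s ≤ sd x' v}) y g ∧
      DStep (fun e => z e = false ∧ InE (So x0 x1 y0 y1 c0 ρ) e) g f' ∧
      Relation.ReflTransGen (DStep (fun e => z e = false ∧ InE (So x0 x1 y0 y1 c0 ρ) e)) f f' := by
  -- first entrance into the circle
  obtain ⟨y, y', h1, hy, hy', hst⟩ := first_exit (D := fun v => v ∉ Fi c0 ρ) h hfi (by simpa using hf0)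
  have hy'' : y' ∈ Fi c0 ρ := by simpa using hy'
  obtain ⟨e3, ⟨h3a, h3b⟩, h3c⟩ := hst
  have hyf : y = fA e3 ∨ y = fB e3 := by rcases h3c with ⟨h4, _⟩ | ⟨h4, _⟩ <;> simp [h4]
  have hyf' : y' = fA e3 ∨ y' = fB e3 := by rcases h3c with ⟨_, h4⟩ | ⟨_, h4⟩ <;> simp [h4]
  have hc1 := corner_le hy'' hyf'
  have hw : sd c0 (src e3) = ρ := le_antisymm hc1.1 h3b.1.2
  have hn := corner_near hyf
  have hyF : y ∈ Fi c0 (ρ + 1) := by
    have h5 : sd c0 (src e3) ≤ ρ := hw.le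
    rw [sd_le] at h5 hn
    simp only [Fi, mem_rect]
    have h6 : y'.1 = y.1 ∧ (y'.2 = y.2 + 1 ∨ y'.2 = y.2 - 1) ∨ y'.2 = y.2 ∧ (y'.1 = y.1 + 1 ∨ y'.1 = y.1 - 1) := by
      obtain ⟨⟨i, j⟩, b⟩ := e3
      cases b <;> rcases h3c with ⟨rfl, rfl⟩ | ⟨rfl, rfl⟩ <;> simp
    simp only [Fi, mem_rect] at hy''
    omega
  have hyR : y ∈ Rect x0 (x1 - 1) y0 (y1 - 1) := hsub y hyF
  -- from `y` back to `f` : first exit from the inner faces outside the circle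
  have hrev : Relation.ReflTransGen (fun u v => DStep (fun e => z' e = false ∧ InE (So x0 x1 y0 y1 c0 ρ) e) u v ∧
      u ∉ Fi c0 ρ ∧ v ∉ Fi c0 ρ) y f := by
    clear hyR hyF hn hw hc1 hyf hyf' h3c h3a h3b hy''
    induction h1 with
    | refl => exact .refl
    | @tail a b hh hs ih => exact Relation.ReflTransGen.head ⟨hs.1.symm, hs.2.2, hs.2.1⟩ (ih hs.2.1)
  obtain ⟨g, f', h5, hg, hf', hgf⟩ := first_exit (D := fun v => v ∈ Rect x0 (x1 - 1) y0 (y1 - 1)) hrev hyR hf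
  obtain ⟨⟨e4, ⟨h6a, h6b⟩, h6c⟩, hgF, hfF⟩ := hgf
  have hcl : ∀ {u v : P2}, DStep (fun e => z' e = false ∧ InE (So x0 x1 y0 y1 c0 ρ) e) u v →
      DStep (fun e => z e = false ∧ InE (So x0 x1 y0 y1 c0 ρ) e) u v := by
    rintro u v ⟨e5, ⟨h7, h8⟩, h9⟩
    exact ⟨e5, ⟨(hz' e5 h7).1, h8⟩, h9⟩
  have hfar : ∀ {u v : P2}, DStep (fun e => z' e = false ∧ InE (So x0 x1 y0 y1 c0 ρ) e) u v →
      (s ≤ sd x u ∧ s ≤ sd x' u) ∧ (s ≤ sd x v ∧ s ≤ sd x' v) := by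
    rintro u v ⟨e5, ⟨h7, _⟩, h9⟩
    have h10 := hz' e5 h7
    have a1 := face_far h10.2.1
    have a2 := face_far h10.2.2
    rcases h9 with ⟨rfl, rfl⟩ | ⟨rfl, rfl⟩
    · exact ⟨⟨a1.1, a2.1⟩, a1.2, a2.2⟩
    · exact ⟨⟨a1.2, a2.2⟩, a1.1, a2.1⟩
  have hyfar := (hfar ⟨e3, ⟨h3a, h3b⟩, h3c⟩).1
  refine ⟨src e3, y, g, f', hw, hn, ⟨hyR, hy⟩, hyF, hg, bd_face h6c hg hf', ?_, ?_, hcl ⟨e4, ⟨h6a, h6b⟩, h6c⟩, ?_⟩
  · -- ring face
    have hI : IB x0 x1 y0 y1 e4 := ⟨h6b.1.1, h6b.2.1⟩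
    obtain ⟨⟨i, j⟩, b⟩ := e4
    rw [mem_rect] at hg hf'
    cases b <;> rcases h6c with ⟨rfl, rfl⟩ | ⟨rfl, rfl⟩ <;>
      simp only [IB, RingF, src_mk, tgt_h, tgt_v, fA_mk, fB_h, fB_v] at * <;> omega
  · refine ⟨⟨⟨⟨hyR, hy⟩, hyfar.1⟩, hyfar.2⟩, rtg_congr ?_ h5⟩
    rintro a b ⟨⟨hs, haF, hbF⟩, haR, hbR⟩
    have hff := hfar hs
    obtain ⟨e5, ⟨h7, _⟩, h9⟩ := hs
    refine ⟨dstep_dual.1 ⟨e5, ?_, h9⟩, ⟨⟨⟨haR, haF⟩, hff.1.1⟩, hff.1.2⟩, ⟨⟨⟨hbR, hbF⟩, hff.2.1⟩, hff.2.2⟩⟩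
    show ¬ z e5 = true
    rw [(hz' e5 h7).1]; simp
  · have h8 : Relation.ReflTransGen (DStep (fun e => z e = false ∧ InE (So x0 x1 y0 y1 c0 ρ) e)) f y :=
      rtg_congr (fun a b hh => hcl hh.1) h1
    have h9 : Relation.ReflTransGen (DStep (fun e => z e = false ∧ InE (So x0 x1 y0 y1 c0 ρ) e)) y g :=
      rtg_congr (fun a b hh => hcl hh.1.1) h5
    exact (h8.trans h9).tail (hcl ⟨e4, ⟨h6a, h6b⟩, h6c⟩)

/-- a dual step between inner faces outside the circle crosses an edge outside the hole -/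
theorem fo_step {z : Cf} {c0 : P2} {ρ : ℤ} {a b : P2} (h : OStep (dual z) (Fo x0 x1 y0 y1 c0 ρ) a b) :
    DStep (fun e => z e = false ∧ InE (So x0 x1 y0 y1 c0 ρ) e) a b := by
  obtain ⟨h1, ha, hb⟩ := h
  obtain ⟨e, he, h2⟩ := dstep_dual.2 h1
  refine ⟨e, ⟨by simpa using he, ?_⟩, h2⟩
  have h3 : ¬ (sd c0 (src e) < ρ ∨ sd c0 (tgt e) < ρ) := by
    intro h4
    have h5 := hole_faces h4
    rcases h2 with ⟨rfl, rfl⟩ | ⟨rfl, rfl⟩
    · exact ha.2 h5.1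
    · exact ha.2 h5.2
  push Not at h3
  have hR : src e ∈ Rect x0 x1 y0 y1 ∧ tgt e ∈ Rect x0 x1 y0 y1 := by
    have ha' := ha.1
    have hb' := hb.1
    rw [mem_rect] at ha' hb'
    rw [mem_rect, mem_rect]
    obtain ⟨⟨i, j⟩, c⟩ := e
    cases c <;> rcases h2 with ⟨rfl, rfl⟩ | ⟨rfl, rfl⟩ <;>
      simp only [src_mk, tgt_h, tgt_v, fA_mk, fB_h, fB_v] at * <;> omega
  exact ⟨⟨hR.1, h3.1⟩, ⟨hR.2, h3.2⟩⟩

/-- an open path of `So` as a path of primal steps of the rectangle -/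
theorem oc_step {z : Cf} {c0 : P2} {ρ : ℤ} {a b : P2} (h : OC z (So x0 x1 y0 y1 c0 ρ) a b) :
    Relation.ReflTransGen (PStep (fun e => z e = true ∧ InE (So x0 x1 y0 y1 c0 ρ) e)) a b := by
  refine rtg_congr ?_ h.2
  rintro u v ⟨⟨e, h1, h2⟩, hu, hv⟩
  refine ⟨e, ⟨h1, ?_⟩, h2⟩
  rcases h2 with ⟨rfl, rfl⟩ | ⟨rfl, rfl⟩
  · exact ⟨hu, hv⟩
  · exact ⟨hv, hu⟩

theorem step_oc {z : Cf} {c0 : P2} {ρ : ℤ} {a b : P2} (ha : a ∈ So x0 x1 y0 y1 c0 ρ)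
    (h : Relation.ReflTransGen (PStep (fun e => z e = true ∧ InE (So x0 x1 y0 y1 c0 ρ) e)) a b) :
    OC z (So x0 x1 y0 y1 c0 ρ) a b := by
  refine ⟨ha, rtg_congr ?_ h⟩
  rintro u v ⟨e, ⟨h1, h3⟩, h2⟩
  refine ⟨⟨e, h1, h2⟩, ?_⟩
  rcases h2 with ⟨rfl, rfl⟩ | ⟨rfl, rfl⟩
  · exact ⟨h3.1, h3.2⟩
  · exact ⟨h3.2, h3.1⟩

/-- **Deterministic core of the separation of arms (hole version).** -/
theorem core_hole {z : Cf} {c0 : P2} {ρ : ℤ} {t r t1 s c s1 b : ℤ}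
    (m1 : x0 + ρ + b + 2 ≤ c0.1) (m2 : c0.1 + ρ + b + 2 ≤ x1) (m3 : y0 + ρ + b + 2 ≤ c0.2)
    (m4 : c0.2 + ρ + b + 2 ≤ y1)
    (ht : 0 ≤ t) (htr : t ≤ r) (hrt : t + r + 1 ≤ t1) (ht1b : t1 ≤ b) (hrs : r + 1 ≤ s)
    (hsc : s ≤ c) (hcs : s + c ≤ s1) (hs1b : s1 ≤ b)
    {x x' : P2} (hx : sd c0 x = ρ) (hx' : sd c0 x' = ρ)
    {q q' : P2} (hq : Nbr q x) (hqh : sd c0 q < ρ) (hq' : Nbr q' x') (hqh' : sd c0 q' < ρ)
    {p p' : P2} {e e' : Edge} (hp : Out x0 x1 y0 y1 e p) (hp' : Out x0 x1 y0 y1 e' p')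
    {F : P2 → ZMod 2} (hF : IsCol x0 x1 y0 y1 e e' F)
    (h1 : OC z (So x0 x1 y0 y1 c0 ρ) x p) (h2 : OC z (So x0 x1 y0 y1 c0 ρ) x' p')
    (hn : ¬ OC z (So x0 x1 y0 y1 c0 ρ) p p')
    (hG : GoodH z x0 x1 y0 y1 c0 ρ t r t1 s c s1 b) :
    s1 < sd x x' ∧ ∃ y y' w w' g g' f f', sd c0 w = ρ ∧ sd y w ≤ 1 ∧ sd c0 w' = ρ ∧ sd y' w' ≤ 1 ∧
      y ∈ Fo x0 x1 y0 y1 c0 ρ ∧ y ∈ Fi c0 (ρ + 1) ∧ y' ∈ Fo x0 x1 y0 y1 c0 ρ ∧ y' ∈ Fi c0 (ρ + 1) ∧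
      g ∈ Rect x0 (x1 - 1) y0 (y1 - 1) ∧ BdV x0 (x1 - 1) y0 (y1 - 1) g ∧
      g' ∈ Rect x0 (x1 - 1) y0 (y1 - 1) ∧ BdV x0 (x1 - 1) y0 (y1 - 1) g' ∧
      RingF x0 x1 y0 y1 f ∧ RingF x0 x1 y0 y1 f' ∧ F f = 1 ∧ F f' = 0 ∧ t1 < sd y y' ∧
      DStep (fun e => z e = false ∧ InE (So x0 x1 y0 y1 c0 ρ) e) g f ∧
      DStep (fun e => z e = false ∧ InE (So x0 x1 y0 y1 c0 ρ) e) g' f' ∧
      OC (dual z) (Fo x0 x1 y0 y1 c0 ρ ∩ {v | s ≤ sd x v} ∩ {v | s ≤ sd x' v}) y g ∧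
      OC (dual z) (Fo x0 x1 y0 y1 c0 ρ ∩ {v | s ≤ sd x v} ∩ {v | s ≤ sd x' v}) y' g' ∧
      OC z (So x0 x1 y0 y1 c0 ρ ∩ {v | t ≤ sd w v} ∩ {v | t ≤ sd w' v}) x p ∧
      OC z (So x0 x1 y0 y1 c0 ρ ∩ {v | t ≤ sd w v} ∩ {v | t ≤ sd w' v}) x' p' := by
  classical
  have hρ : 0 ≤ ρ := by rw [← hx]; exact sd_nonneg _ _
  have hxx : x0 ≤ x1 := by omega
  have hyy : y0 ≤ y1 := by omega
  have hb0 : 0 ≤ b := by omega
  have hs0 : 0 ≤ s := by omega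
  -- the boundary is far
  have far : ∀ {v : P2}, BdV x0 x1 y0 y1 v → ρ + b + 2 ≤ sd c0 v := by
    intro v hv
    by_contra h3
    have h4 : sd c0 v ≤ ρ + b + 1 := by omega
    rw [sd_le] at h4
    rcases hv with h | h | h | h <;> omega
  have farf : ∀ {v : P2}, BdV x0 (x1 - 1) y0 (y1 - 1) v → ρ + b + 1 ≤ sd c0 v := by
    intro v hv
    by_contra h3
    have h4 : sd c0 v ≤ ρ + b := by omega
    rw [sd_le] at h4
    rcases hv with h | h | h | h <;> omega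
  have outbd : ∀ {e v}, Out x0 x1 y0 y1 e v → BdV x0 x1 y0 y1 v := by
    intro e v h
    unfold BdV
    rcases h with ⟨_, _, ⟨_, h⟩ | ⟨_, h⟩⟩ | ⟨_, _, ⟨_, h⟩ | ⟨_, h⟩⟩ <;> simp [h]
  have hbp := far (outbd hp)
  have hbp' := far (outbd hp')
  have dist : ∀ {u v : P2}, sd c0 v - sd c0 u ≤ sd u v := by
    intro u v
    have := sd_tri c0 u v
    omega
  have xp := dist (u := x) (v := p)
  have xp' := dist (u := x) (v := p')
  have x'p := dist (u := x') (v := p)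
  have x'p' := dist (u := x') (v := p')
  -- (1)
  have hsep : s1 < sd x x' := sepA1 h1 h2 hn (by omega) hs1b (by omega) (by omega) (hG.g1 x hx)
  -- (2)
  set z' : Cf := fun e' => decide (z e' = true ∨ NB x s e' ∨ NB x' s e') with hz'
  have hz't : ∀ e', z' e' = true ↔ (z e' = true ∨ NB x s e' ∨ NB x' s e') := by
    intro e'; simp [hz']
  have hn' : ¬ OC z' (So x0 x1 y0 y1 c0 ρ) p p' := by
    apply sepA2 (z := z) (s := s) (c := c) h1 h2 hn hs0 hsc (by omega) (by omega) (by omega)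
      (by omega) (by omega) (hG.g2 x hx) (hG.g2 x' hx')
    intro e' h
    exact (hz't e').1 h
  have hz'f : ∀ e', z' e' = false → z e' = false ∧ ¬ NB x s e' ∧ ¬ NB x' s e' := by
    intro e' h
    have h3 : ¬ (z e' = true ∨ NB x s e' ∨ NB x' s e') := by
      intro h4
      rw [(hz't e').2 h4] at h
      exact absurd h (by simp)
    push Not at h3
    exact ⟨by simpa using h3.1, h3.2⟩
  -- (3)
  have inS : ∀ {e}, InE (So x0 x1 y0 y1 c0 ρ) e → IB x0 x1 y0 y1 e := fun h => ⟨h.1.1, h.2.1⟩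
  have th1 := through_hole (x0 := x0) (x1 := x1) (y0 := y0) (y1 := y1) (by omega) (by omega) (by omega) (by omega)
    hx hq hqh
  have th2 := through_hole (x0 := x0) (x1 := x1) (y0 := y0) (y1 := y1) (by omega) (by omega) (by omega) (by omega)
    hx' hq' hqh'
  have hP : Relation.ReflTransGen (PStep (fun e => (z' e = true ∨
      (IB x0 x1 y0 y1 e ∧ ¬ InE (So x0 x1 y0 y1 c0 ρ) e)) ∧ IB x0 x1 y0 y1 e)) p p' := by
    refine ((pstep_mono' ?_ (oc_step h1.symm)).trans ((pstep_mono' ?_ (rtg_pstep_symm th1)).trans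
      (pstep_mono' ?_ th2))).trans (pstep_mono' ?_ (oc_step h2))
    · rintro e ⟨h3, h4⟩
      exact ⟨Or.inl ((hz't e).2 (Or.inl h3)), inS h4⟩
    · rintro e h3
      exact ⟨Or.inr h3, h3.1⟩
    · rintro e h3
      exact ⟨Or.inr h3, h3.1⟩
    · rintro e ⟨h3, h4⟩
      exact ⟨Or.inl ((hz't e).2 (Or.inl h3)), inS h4⟩
  have hne : ¬ Relation.ReflTransGen (PStep (fun e => (z' e = true ∧
      ¬ (IB x0 x1 y0 y1 e ∧ ¬ InE (So x0 x1 y0 y1 c0 ρ) e)) ∧ IB x0 x1 y0 y1 e)) p p' := by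
    intro h
    apply hn'
    apply step_oc h1.right
    refine pstep_mono' ?_ h
    rintro e ⟨⟨h3, h4⟩, h5⟩
    refine ⟨h3, ?_⟩
    by_contra h6
    exact h4 ⟨h5, h6⟩
  obtain ⟨f, g, e1, e2, f0, g0, hf, hg, hf1, hg0, he1, he2, hf0, hg0', hDf, hDg⟩ :=
    hole4 hxx hyy hp hp' hF (fun e h => h.1) hP hne
  have conv : ∀ {u v : P2}, Relation.ReflTransGen (DStep (fun e => (¬ z' e = true ∧
      ¬ (IB x0 x1 y0 y1 e ∧ ¬ InE (So x0 x1 y0 y1 c0 ρ) e)) ∧ IB x0 x1 y0 y1 e)) u v →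
      Relation.ReflTransGen (DStep (fun e => z' e = false ∧ InE (So x0 x1 y0 y1 c0 ρ) e)) u v := by
    intro u v h
    refine dstep_mono' ?_ h
    rintro e ⟨⟨h3, h4⟩, h5⟩
    refine ⟨by simpa using h3, ?_⟩
    by_contra h6
    exact h4 ⟨h5, h6⟩
  have inFi : ∀ {e : Edge} {g : P2}, (IB x0 x1 y0 y1 e ∧ ¬ InE (So x0 x1 y0 y1 c0 ρ) e) →
      (g = fA e ∨ g = fB e) → g ∈ Fi c0 ρ := by
    rintro e g ⟨h3, h4⟩ h5
    have h6 : sd c0 (src e) < ρ ∨ sd c0 (tgt e) < ρ := by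
      by_contra h7
      push Not at h7
      exact h4 ⟨⟨h3.1, h7.1⟩, ⟨h3.2, h7.2⟩⟩
    have h7 := hole_faces h6
    rcases h5 with rfl | rfl
    · exact h7.1
    · exact h7.2
  have ringR : ∀ {f : P2}, RingF x0 x1 y0 y1 f → f ∉ Rect x0 (x1 - 1) y0 (y1 - 1) := by
    intro f hf h3
    rw [mem_rect] at h3
    rcases hf.2 with h4 | h4 | h4 | h4 <;> omega
  have ringF : ∀ {f : P2}, RingF x0 x1 y0 y1 f → f ∉ Fi c0 ρ := by
    intro f hf h3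
    simp only [Fi, mem_rect] at h3
    rcases hf.2 with h4 | h4 | h4 | h4 <;> omega
  have hsubF : ∀ v, v ∈ Fi c0 (ρ + 1) → v ∈ Rect x0 (x1 - 1) y0 (y1 - 1) := by
    intro v hv
    simp only [Fi, mem_rect] at *
    omega
  obtain ⟨w, y, gg, ff, a1, a2, a3, a4, a5, a6, a7, a8, a9, a10⟩ := hole_arm hz'f (ringR hf) (ringF hf)
    (inFi he1 hf0) hsubF (conv hDf)
  obtain ⟨w', y', gg', ff', b1, b2, b3, b4, b5, b6, b7, b8, b9, b10⟩ := hole_arm hz'f (ringR hg) (ringF hg)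
    (inFi he2 hg0') hsubF (conv (rtg_dstep_symm hDg))
  -- primal connection through the hole and dual paths outside
  have hPz : Relation.ReflTransGen (PStep (fun e => (z e = true ∨
      (IB x0 x1 y0 y1 e ∧ ¬ InE (So x0 x1 y0 y1 c0 ρ) e)) ∧ IB x0 x1 y0 y1 e)) p p' := by
    refine ((pstep_mono' ?_ (oc_step h1.symm)).trans ((pstep_mono' ?_ (rtg_pstep_symm th1)).trans
      (pstep_mono' ?_ th2))).trans (pstep_mono' ?_ (oc_step h2))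
    · rintro e ⟨h3, h4⟩
      exact ⟨Or.inl h3, inS h4⟩
    · rintro e h3
      exact ⟨Or.inr h3, h3.1⟩
    · rintro e h3
      exact ⟨Or.inr h3, h3.1⟩
    · rintro e ⟨h3, h4⟩
      exact ⟨Or.inl h3, inS h4⟩
  have nob : ∀ {u v : P2}, RingF x0 x1 y0 y1 u → RingF x0 x1 y0 y1 v →
      Relation.ReflTransGen (DStep (fun e => z e = false ∧ InE (So x0 x1 y0 y1 c0 ρ) e)) u v → F u = F v := by
    intro u v hu hv h
    refine no_both hxx hyy hp hp' hF (O := fun e => z e = true ∨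
      (IB x0 x1 y0 y1 e ∧ ¬ InE (So x0 x1 y0 y1 c0 ρ) e))
      (C := fun e => z e = false ∧ InE (So x0 x1 y0 y1 c0 ρ) e) ?_ hPz hu hv (dstep_mono' ?_ h)
    · rintro e _ (h3 | h3) ⟨h4, h5⟩
      · rw [h4] at h3; exact absurd h3 (by simp)
      · exact h3.2 h5
    · rintro e h3
      exact ⟨h3, inS h3.2⟩
  have hff1 : F ff = 1 := by rw [← nob hf a7 a10]; exact hf1
  have hff0 : F ff' = 0 := by rw [← nob hg b7 b10]; exact hg0
  have cvt : ∀ {u v : P2}, OC (dual z) (Fo x0 x1 y0 y1 c0 ρ) u v →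
      Relation.ReflTransGen (DStep (fun e => z e = false ∧ InE (So x0 x1 y0 y1 c0 ρ) e)) u v :=
    fun h => rtg_congr (fun a b hh => fo_step hh) h.2
  have hsub : Fo x0 x1 y0 y1 c0 ρ ∩ {v | s ≤ sd x v} ∩ {v | s ≤ sd x' v} ⊆ Fo x0 x1 y0 y1 c0 ρ :=
    fun v hv => hv.1.1
  have hnd : ¬ OC (dual z) (Fo x0 x1 y0 y1 c0 ρ) gg gg' := by
    intro h
    have h3 := nob a7 b7 (Relation.ReflTransGen.head a9.symm ((cvt h).tail b9))
    rw [hff1, hff0] at h3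
    exact absurd h3 (by decide)
  -- distances
  have hy1 : sd c0 y ≤ ρ + 1 := by
    have h3 := sd_tri c0 w y
    rw [sd_symm w y] at h3
    omega
  have hy1' : sd c0 y' ≤ ρ + 1 := by
    have h3 := sd_tri c0 w' y'
    rw [sd_symm w' y'] at h3
    omega
  have dg := farf a6
  have dg' := farf b6
  have d1 := dist (u := y) (v := gg)
  have d2 := dist (u := y) (v := gg')
  have htt : t1 < sd y y' := sepA1 (a8.monoS hsub) (b8.monoS hsub) hnd (by omega) ht1b (by omega) (by omega)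
    (hG.g4 y a3 ⟨w, a1, a2⟩)
  have hxy : s ≤ sd x y := a8.left.1.2
  have hx'y : s ≤ sd x' y := a8.left.2
  have hxy' : s ≤ sd x y' := b8.left.1.2
  have hx'y' : s ≤ sd x' y' := b8.left.2
  have q1 : r ≤ sd w x := by
    have h3 := sd_tri x w y
    rw [sd_symm x w, sd_symm w y] at h3
    omega
  have q2 : r ≤ sd w x' := by
    have h3 := sd_tri x' w y
    rw [sd_symm x' w, sd_symm w y] at h3
    omega
  have q3 : r ≤ sd w' x := by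
    have h3 := sd_tri x w' y'
    rw [sd_symm x w', sd_symm w' y'] at h3
    omega
  have q4 : r ≤ sd w' x' := by
    have h3 := sd_tri x' w' y'
    rw [sd_symm x' w', sd_symm w' y'] at h3
    omega
  have q5 : t + r ≤ sd w w' := by
    have h3 := sd_tri y w y'
    have h4 := sd_tri w w' y'
    rw [sd_symm w' y'] at h4
    omega
  have p1 := dist (u := w) (v := p)
  have p2 := dist (u := w) (v := p')
  have p3 := dist (u := w') (v := p)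
  have p4 := dist (u := w') (v := p')
  refine ⟨hsep, y, y', w, w', gg, gg', ff, ff', a1, a2, b1, b2, a3, a4, b3, b4, a5, a6, b5, b6, a7, b7, hff1, hff0,
    htt, a9, b9, a8, b8, ?_, ?_⟩
  · exact reroute2 htr q5 (hG.g3 w a1) (hG.g3 w' b1) h1 q1 (by omega) q3 (by omega)
  · exact reroute2 htr q5 (hG.g3 w a1) (hG.g3 w' b1) h2 q2 (by omega) q4 (by omega)

end rect

end Crest.Agent.R158.Kd458
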