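import Crest.Agent.R158.Kd5_458
import Crest.Agent.R158.Ld2_570

/-!
# Row 158 (helper458), SEP: the two instances of `core_hole`

* `core_T2`  : two distinct open clusters cross the annulus `An c0 k l` (`ρ = k + 1`, `L` = ball of radius `l`)
* `core_piv` : the block of the edges in `B(c0, r0)` is pivotal for the left-right crossing of
  `Rect x0 x1 y0 y1` (`ρ = r0 + 1`)
-/

set_option autoImplicit false

noncomputable section

namespace Crest.Agent.R158.Kd458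

open Crest.Agent.R161.Geo729 Crest.Agent.R161.Topo374 Crest.Agent.R161.Dual374
open Crest.Agent.R161.Tas682
open Crest.Agent.R158.Rs689
open Crest.Agent.R158.Ru874 hiding An
open Crest.Agent.R158.Cpl963 Crest.Agent.R158.Sq200

theorem nbr_far {c a b : P2} {ρ : ℤ} (h : Nbr a b) (ha : sd c a < ρ) (hb : ρ ≤ sd c b) : sd c b = ρ := by
  have := sd_nbr c a b h
  omega

/-- change of configuration in `Gd` -/
theorem gd_of_far {z z' : Cf} {S : Set P2} {x : P2} {a b : ℤ}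
    (h : ∀ e, sd x (src e) ≤ b → sd x (tgt e) ≤ b → z e = z' e) (hG : Gd z S x a b) : Gd z' S x a b :=
  gd_congr (fun e h1 h2 => h e h1.2.2 h2.2.2) hG

section rect

variable {x0 x1 y0 y1 : ℤ}

/-- lower ring faces, upper ring faces: the colouring of a left-right pair -/
def lrF (x0 x1 y1 : ℤ) (p p' : P2) (f : P2) : ZMod 2 :=
  ind ((f.1 ≤ x0 - 1 ∧ p.2 ≤ f.2) ∨ (x1 ≤ f.1 ∧ p'.2 ≤ f.2) ∨ (x0 ≤ f.1 ∧ f.1 < x1 ∧ y1 ≤ f.2))

theorem lrF_col (hx : x0 < x1) {p p' : P2} (hp : p ∈ Rect x0 x1 y0 y1)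
    (hp' : p' ∈ Rect x0 x1 y0 y1) :
    IsCol x0 x1 y0 y1 ((x0 - 1, p.2), false) ((x1, p'.2), false) (lrF x0 x1 y1 p p') := by
  have one : ∀ q : Prop, q → ind q = 1 := fun q h => ind_true h
  have zero : ∀ q : Prop, ¬ q → ind q = 0 := fun q h => ind_false h
  rw [mem_rect] at hp hp'
  intro e v he
  unfold lrF dl
  rcases he with ⟨h1, h2, ⟨rfl, h3⟩ | ⟨rfl, h3⟩⟩ | ⟨h1, h2, ⟨rfl, h3⟩ | ⟨rfl, h3⟩⟩
  · simp only [fA_mk, fB_h]
    rw [zero ((((x0 - 1, v.2), false) : Edge) = ((x1, p'.2), false)) (by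
      simp only [Prod.mk.injEq]; omega), add_zero]
    rcases lt_trichotomy v.2 p.2 with h | h | h
    · rw [zero _ (by omega), zero _ (by omega), zero _ (by simp only [Prod.mk.injEq]; omega), add_zero]
    · rw [one _ (by omega), zero _ (by omega), one _ (by simp only [Prod.mk.injEq]; simp [h]), add_zero]
    · rw [one _ (by omega), one _ (by omega), zero _ (by simp only [Prod.mk.injEq]; omega)]
      decide
  · simp only [fA_mk, fB_h]
    rw [zero ((((x1, v.2), false) : Edge) = ((x0 - 1, p.2), false)) (by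
      simp only [Prod.mk.injEq]; omega), zero_add]
    rcases lt_trichotomy v.2 p'.2 with h | h | h
    · rw [zero _ (by omega), zero _ (by omega), zero _ (by simp only [Prod.mk.injEq]; omega), add_zero]
    · rw [one _ (by omega), zero _ (by omega), one _ (by simp only [Prod.mk.injEq]; simp [h]), add_zero]
    · rw [one _ (by omega), one _ (by omega), zero _ (by simp only [Prod.mk.injEq]; omega)]
      decide
  · simp only [fA_mk, fB_v]
    rw [zero ((((v.1, y0 - 1), true) : Edge) = ((x0 - 1, p.2), false)) (by simp),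
      zero ((((v.1, y0 - 1), true) : Edge) = ((x1, p'.2), false)) (by simp), add_zero,
      zero _ (by omega), zero _ (by omega), add_zero]
  · simp only [fA_mk, fB_v]
    rw [zero ((((v.1, y1), true) : Edge) = ((x0 - 1, p.2), false)) (by simp),
      zero ((((v.1, y1), true) : Edge) = ((x1, p'.2), false)) (by simp), add_zero,
      one _ (by omega), one _ (by omega)]
    decide

/-- the dual arm up to a ring face -/
theorem to_ring {z : Cf} {E : Edge → Prop} {D D' : Set P2} {y g f : P2}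
    (h : OC (dual z) D y g) (h2 : DStep (fun e => z e = false ∧ E e) g f)
    (hf : f ∈ D') (hsub : D ⊆ D') : OC (dual z) D' y f := by
  refine (h.monoS hsub).trans ⟨hsub h.right, .single ⟨dstep_dual.1 ?_, hsub h.right, hf⟩⟩
  obtain ⟨e, he, hh⟩ := h2
  refine ⟨e, ?_, hh⟩
  show ¬ z e = true
  rw [he.1]; simp

/-- arms of a pivotal block -/
theorem piv_arms {z : Cf} {c0 : P2} {r0 : ℤ} (m1 : x0 + r0 + 1 ≤ c0.1) (m2 : c0.1 + r0 + 1 ≤ x1)
    (hz : z ∈ Ld570.BPiv c0 r0 {z | LRc z x0 x1 y0 y1}) :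
    (∃ x q p x' q' p', Nbr q x ∧ sd c0 q < r0 + 1 ∧ sd c0 x = r0 + 1 ∧ Nbr q' x' ∧ sd c0 q' < r0 + 1 ∧
      sd c0 x' = r0 + 1 ∧ OC z (So x0 x1 y0 y1 c0 (r0 + 1)) x p ∧ p.1 = x0 ∧
      OC z (So x0 x1 y0 y1 c0 (r0 + 1)) x' p' ∧ p'.1 = x1) ∧
    ∀ u v : P2, u.1 = x0 → v.1 = x1 → ¬ OC z (So x0 x1 y0 y1 c0 (r0 + 1)) u v := by
  obtain ⟨z', hz', hn⟩ := hz
  have hoff : ∀ e, InE (So x0 x1 y0 y1 c0 (r0 + 1)) e → z' e = z e := by
    intro e he
    apply hz'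
    intro h
    have h1 : r0 + 1 ≤ sd c0 (src e) := he.1.2
    have h2 := h.1
    omega
  have hno : ∀ u v : P2, u.1 = x0 → v.1 = x1 → ¬ OC z (So x0 x1 y0 y1 c0 (r0 + 1)) u v := by
    intro u v hu hv h
    apply hn
    have h1 : z ∈ {z : Cf | LRc z x0 x1 y0 y1} := ⟨u, v, hu, hv, h.monoS Set.inter_subset_left⟩
    have h2 : z' ∈ {z : Cf | LRc z x0 x1 y0 y1} := by
      refine ⟨u, v, hu, hv, ?_⟩
      have h3 : OC z' (So x0 x1 y0 y1 c0 (r0 + 1)) u v :=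
        (oc_iff (z := z') (z' := z) (fun e h4 h5 => hoff e ⟨h4, h5⟩)).2 h
      exact h3.monoS Set.inter_subset_left
    exact ⟨fun _ => h1, fun _ => h2⟩
  refine ⟨?_, hno⟩
  -- a crossing with the hole open
  have hcr : ∃ u v : P2, u.1 = x0 ∧ v.1 = x1 ∧ u ∈ Rect x0 x1 y0 y1 ∧ v ∈ Rect x0 x1 y0 y1 ∧
      Relation.ReflTransGen (PStep (fun e => (z e = true ∧ InE (So x0 x1 y0 y1 c0 (r0 + 1)) e) ∨
        (IB x0 x1 y0 y1 e ∧ ¬ InE (So x0 x1 y0 y1 c0 (r0 + 1)) e))) u v := by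
    have key : ∀ z1 : Cf, (∀ e, InE (So x0 x1 y0 y1 c0 (r0 + 1)) e → z1 e = z e) →
        LRc z1 x0 x1 y0 y1 → ∃ u v : P2, u.1 = x0 ∧ v.1 = x1 ∧ u ∈ Rect x0 x1 y0 y1 ∧
        v ∈ Rect x0 x1 y0 y1 ∧
        Relation.ReflTransGen (PStep (fun e => (z e = true ∧ InE (So x0 x1 y0 y1 c0 (r0 + 1)) e) ∨
          (IB x0 x1 y0 y1 e ∧ ¬ InE (So x0 x1 y0 y1 c0 (r0 + 1)) e))) u v := by
      rintro z1 h1 ⟨u, v, hu, hv, h⟩
      refine ⟨u, v, hu, hv, h.left, h.right, rtg_congr ?_ h.2⟩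
      rintro a b ⟨⟨e, he, hh⟩, ha, hb⟩
      refine ⟨e, ?_, hh⟩
      have hI : IB x0 x1 y0 y1 e := by
        rcases hh with ⟨rfl, rfl⟩ | ⟨rfl, rfl⟩
        · exact ⟨ha, hb⟩
        · exact ⟨hb, ha⟩
      by_cases h2 : InE (So x0 x1 y0 y1 c0 (r0 + 1)) e
      · left
        exact ⟨by rw [← h1 e h2]; exact he, h2⟩
      · exact Or.inr ⟨hI, h2⟩
    by_cases h1 : LRc z x0 x1 y0 y1
    · exact key z (fun e _ => rfl) h1
    · have h2 : LRc z' x0 x1 y0 y1 := by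
        by_contra h3
        exact hn ⟨fun h => absurd h h3, fun h => absurd h h1⟩
      exact key z' hoff h2
  obtain ⟨u, v, hu, hv, huR, hvR, h⟩ := hcr
  have huS : u ∈ So x0 x1 y0 y1 c0 (r0 + 1) := by
    refine ⟨huR, ?_⟩
    show r0 + 1 ≤ sd c0 u
    by_contra h1
    have h2 : sd c0 u ≤ r0 := by omega
    rw [sd_le] at h2
    omega
  have hvS : v ∈ So x0 x1 y0 y1 c0 (r0 + 1) := by
    refine ⟨hvR, ?_⟩
    show r0 + 1 ≤ sd c0 v
    by_contra h1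
    have h2 : sd c0 v ≤ r0 := by omega
    rw [sd_le] at h2
    omega
  rcases cut_holeP (O := fun e => z e = true ∧ InE (So x0 x1 y0 y1 c0 (r0 + 1)) e)
    (H := fun e => IB x0 x1 y0 y1 e ∧ ¬ InE (So x0 x1 y0 y1 c0 (r0 + 1)) e) h with
    h1 | ⟨e1, e2, f0, g0, he1, he2, hf0, hg0, h1, h2⟩
  · exact absurd (step_oc huS h1) (hno u v hu hv)
  · have g1 := step_oc huS h1
    have g2 := step_oc hvS (rtg_pstep_symm h2)
    have fin : ∀ {e : Edge} {f : P2}, (IB x0 x1 y0 y1 e ∧ ¬ InE (So x0 x1 y0 y1 c0 (r0 + 1)) e) →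
        (f = src e ∨ f = tgt e) → f ∈ So x0 x1 y0 y1 c0 (r0 + 1) →
        ∃ q, Nbr q f ∧ sd c0 q < r0 + 1 ∧ sd c0 f = r0 + 1 := by
      rintro e f ⟨h3, h4⟩ h5 h6
      have h7 : sd c0 (src e) < r0 + 1 ∨ sd c0 (tgt e) < r0 + 1 := by
        by_contra h8
        push Not at h8
        exact h4 ⟨⟨h3.1, h8.1⟩, ⟨h3.2, h8.2⟩⟩
      have h8 : r0 + 1 ≤ sd c0 f := h6.2
      rcases h5 with rfl | rfl
      · have h9 : sd c0 (tgt e) < r0 + 1 := by omega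
        have h10 : Nbr (tgt e) (src e) := nbr_iff.2 ⟨e, Or.inr ⟨rfl, rfl⟩⟩
        exact ⟨tgt e, h10, h9, nbr_far h10 h9 h8⟩
      · have h9 : sd c0 (src e) < r0 + 1 := by omega
        have h10 : Nbr (src e) (tgt e) := nbr_iff.2 ⟨e, Or.inl ⟨rfl, rfl⟩⟩
        exact ⟨src e, h10, h9, nbr_far h10 h9 h8⟩
    obtain ⟨q, hq1, hq2, hq3⟩ := fin he1 hf0 g1.right
    obtain ⟨q', hq1', hq2', hq3'⟩ := fin he2 hg0 g2.right
    exact ⟨f0, q, u, g0, q', v, hq1, hq2, hq3, hq1', hq2', hq3', g1.symm, hu, g2.symm, hv⟩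

/-- first visit to a set containing the ends of all new edges -/
theorem first_col {z zo : Cf} {D : Set P2} {P : P2 → Prop} {u v : P2} (h : OC zo D u v) (hv : P v)
    (hz : ∀ e, zo e = true → z e = true ∨ (P (src e) ∧ P (tgt e))) : ∃ v', P v' ∧ OC z D u v' := by
  have key : ∀ w, Relation.ReflTransGen (OStep zo D) u w → (∃ v', P v' ∧ OC z D u v') ∨ OC z D u w := by
    intro w hw
    induction hw with
    | refl => exact Or.inr (OC.refl h.left)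
    | @tail a b _ hs ih =>
        rcases ih with ih | ih
        · exact Or.inl ih
        · obtain ⟨⟨e, he, hh⟩, ha, hb⟩ := hs
          rcases hz e he with h1 | h1
          · exact Or.inr (ih.trans ⟨ha, .single ⟨⟨e, h1, hh⟩, ha, hb⟩⟩)
          · refine Or.inl ⟨a, ?_, ih⟩
            rcases hh with ⟨rfl, _⟩ | ⟨rfl, _⟩
            · exact h1.1
            · exact h1.2
  rcases key v h.2 with h1 | h1
  · exact h1
  · exact ⟨v, hv, h1⟩

/-- top, bottom and inner faces outside the circle -/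
def FoT (x0 x1 y0 y1 : ℤ) (c0 : P2) (ρ : ℤ) : Set P2 := Rect x0 (x1 - 1) (y0 - 1) y1 ∩ (Fi c0 ρ)ᶜ

/-- **Instance 1: pivotal blocks.** -/
theorem core_piv {z : Cf} {c0 : P2} {r0 : ℤ} {t r t1 s c s1 b : ℤ} (hr0 : 0 ≤ r0)
    (m1 : x0 + (r0 + 1) + b + 2 ≤ c0.1) (m2 : c0.1 + (r0 + 1) + b + 2 ≤ x1)
    (m3 : y0 + (r0 + 1) + b + 2 ≤ c0.2) (m4 : c0.2 + (r0 + 1) + b + 2 ≤ y1)
    (ht : 0 ≤ t) (htr : t ≤ r) (hrt : t + r + 1 ≤ t1) (ht1b : t1 ≤ b) (hrs : r + 1 ≤ s)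
    (hsc : s ≤ c) (hcs : s + c ≤ s1) (hs1b : s1 ≤ b)
    (hz : z ∈ Ld570.BPiv c0 r0 {z | LRc z x0 x1 y0 y1})
    (hG : GoodH z x0 x1 y0 y1 c0 (r0 + 1) t r t1 s c s1 b) :
    ∃ x x' p p' y y' w w' f f', s1 < sd x x' ∧ t1 < sd y y' ∧
      sd c0 x = r0 + 1 ∧ sd c0 x' = r0 + 1 ∧ p.1 = x0 ∧ p'.1 = x1 ∧
      sd c0 w = r0 + 1 ∧ sd y w ≤ 1 ∧ sd c0 w' = r0 + 1 ∧ sd y' w' ≤ 1 ∧
      y ∈ Fo x0 x1 y0 y1 c0 (r0 + 1) ∧ y ∈ Fi c0 (r0 + 1 + 1) ∧
      y' ∈ Fo x0 x1 y0 y1 c0 (r0 + 1) ∧ y' ∈ Fi c0 (r0 + 1 + 1) ∧ f.2 = y1 ∧ f'.2 = y0 - 1 ∧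
      OC (dual z) (FoT x0 x1 y0 y1 c0 (r0 + 1) ∩ {v | s ≤ sd x v} ∩ {v | s ≤ sd x' v}) y f ∧
      OC (dual z) (FoT x0 x1 y0 y1 c0 (r0 + 1) ∩ {v | s ≤ sd x v} ∩ {v | s ≤ sd x' v}) y' f' ∧
      OC z (So x0 x1 y0 y1 c0 (r0 + 1) ∩ {v | t ≤ sd w v} ∩ {v | t ≤ sd w' v}) x p ∧
      OC z (So x0 x1 y0 y1 c0 (r0 + 1) ∩ {v | t ≤ sd w v} ∩ {v | t ≤ sd w' v}) x' p' := by
  classical
  obtain ⟨⟨x, q, p, x', q', p', hq, hqh, hx, hq', hqh', hx', h1, hp, h2, hp'⟩, hno⟩ :=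
    piv_arms (by omega) (by omega) hz
  set S := So x0 x1 y0 y1 c0 (r0 + 1) with hS
  set zo : Cf := fun e => decide (z e = true ∨ ((src e).1 = x0 ∧ (tgt e).1 = x0) ∨
    ((src e).1 = x1 ∧ (tgt e).1 = x1)) with hzo
  have hzot : ∀ e, zo e = true ↔ (z e = true ∨ ((src e).1 = x0 ∧ (tgt e).1 = x0) ∨
    ((src e).1 = x1 ∧ (tgt e).1 = x1)) := by
    intro e; simp [hzo]
  have hle : ∀ e, z e ≤ zo e := by
    intro e
    rcases hh : z e with _ | _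
    · exact Bool.false_le _
    · rw [(hzot e).2 (Or.inl hh)]
  have h1o : OC zo S x p := h1.mono hle le_rfl
  have h2o : OC zo S x' p' := h2.mono hle le_rfl
  -- no crossing with the columns opened
  have hno' : ¬ OC zo S p p' := by
    intro h
    have hinv : ∀ w, Relation.ReflTransGen (OStep zo S) p w → ∃ u : P2, u.1 = x0 ∧ OC z S u w := by
      intro w hw
      induction hw with
      | refl => exact ⟨p, hp, OC.refl h.left⟩
      | @tail a b _ hs ih =>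
          obtain ⟨u, hu, hua⟩ := ih
          obtain ⟨⟨e, he, hh⟩, ha, hb⟩ := hs
          rcases (hzot e).1 he with h3 | h3 | h3
          · exact ⟨u, hu, hua.trans ⟨ha, .single ⟨⟨e, h3, hh⟩, ha, hb⟩⟩⟩
          · refine ⟨b, ?_, OC.refl hb⟩
            rcases hh with ⟨_, rfl⟩ | ⟨_, rfl⟩
            · exact h3.2
            · exact h3.1
          · exfalso
            refine hno u a hu ?_ hua
            rcases hh with ⟨rfl, _⟩ | ⟨rfl, _⟩
            · exact h3.1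
            · exact h3.2
    obtain ⟨u, hu, h3⟩ := hinv p' h.2
    exact hno u p' hu hp' h3
  -- the configurations agree near the circle
  have hagree : ∀ e, sd c0 (src e) ≤ (r0 + 1) + b → z e = zo e := by
    intro e he
    rw [sd_le] at he
    have h3 : ¬ (((src e).1 = x0 ∧ (tgt e).1 = x0) ∨ ((src e).1 = x1 ∧ (tgt e).1 = x1)) := by omega
    rcases hh : z e with _ | _
    · symm
      by_contra h4
      have h5 : zo e = true := by simpa using h4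
      rcases (hzot e).1 h5 with h6 | h6
      · rw [hh] at h6; exact absurd h6 (by simp)
      · exact h3 h6
    · exact ((hzot e).2 (Or.inl hh)).symm
  have hd : ∀ e, sd c0 (src e) ≤ (r0 + 1) + b + 1 → sd c0 (tgt e) ≤ (r0 + 1) + b + 1 →
      dual z e = dual zo e := by
    intro e he he'
    rw [sd_le] at he he'
    have h3 : ¬ (((src (dE.symm e)).1 = x0 ∧ (tgt (dE.symm e)).1 = x0) ∨
        ((src (dE.symm e)).1 = x1 ∧ (tgt (dE.symm e)).1 = x1)) := by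
      obtain ⟨⟨i, j⟩, c'⟩ := e
      cases c'
      · rw [dE_symm_h]
        simp only [src_mk, tgt_v, tgt_h] at *
        omega
      · rw [dE_symm_v]
        simp only [src_mk, tgt_v, tgt_h] at *
        omega
    show (!z (dE.symm e)) = !zo (dE.symm e)
    congr 1
    rcases hh : z (dE.symm e) with _ | _
    · symm
      by_contra h4
      have h5 : zo (dE.symm e) = true := by simpa using h4
      rcases (hzot _).1 h5 with h6 | h6
      · rw [hh] at h6; exact absurd h6 (by simp)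
      · exact h3 h6
    · exact ((hzot _).2 (Or.inl hh)).symm
  have tri : ∀ {w v : P2} {k m : ℤ}, sd c0 w ≤ k → sd w v ≤ m → sd c0 v ≤ k + m := by
    intro w v k m h3 h4
    have := sd_tri c0 w v
    omega
  have hGo : GoodH zo x0 x1 y0 y1 c0 (r0 + 1) t r t1 s c s1 b := by
    refine ⟨fun w hw => ?_, fun w hw => ?_, fun w hw => ?_, fun f hf hfn => ?_⟩
    · refine gd_of_far (fun e he _ => hagree e ?_) (hG.g1 w hw)
      exact tri hw.le he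
    · refine gd_of_far (fun e he _ => hagree e ?_) (hG.g2 w hw)
      have := tri hw.le he
      omega
    · refine gd_of_far (fun e he _ => hagree e ?_) (hG.g3 w hw)
      have := tri hw.le he
      omega
    · obtain ⟨w, hw, hfw⟩ := id hfn
      rw [sd_symm] at hfw
      have h5 := tri hw.le hfw
      refine gd_of_far (fun e he he' => hd e ?_ ?_) (hG.g4 f hf hfn)
      · have h6 := tri h5 he
        omega
      · have h6 := tri h5 he'
        omega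
  have hpR : p ∈ Rect x0 x1 y0 y1 := h1.right.1
  have hpR' : p' ∈ Rect x0 x1 y0 y1 := h2.right.1
  have hout : Out x0 x1 y0 y1 ((x0 - 1, p.2), false) p := by
    rw [mem_rect] at hpR
    exact Or.inl ⟨hpR.2.2.1, hpR.2.2.2, Or.inl ⟨rfl, hp⟩⟩
  have hout' : Out x0 x1 y0 y1 ((x1, p'.2), false) p' := by
    rw [mem_rect] at hpR'
    exact Or.inl ⟨hpR'.2.2.1, hpR'.2.2.2, Or.inr ⟨rfl, hp'⟩⟩
  have hcol := lrF_col (y0 := y0) (y1 := y1) (show x0 < x1 by omega) hpR hpR'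
  obtain ⟨hs1, y, y', w, w', g, g', f, f', hw, hyw, hw', hyw', hy, hyF, hy', hyF', hg, hbg, hg', hbg', hf, hf',
    hff, hff', htt, hgf, hgf', a1, a2, a3, a4⟩ := core_hole (z := zo) m1 m2 m3 m4 ht htr hrt ht1b hrs hsc hcs hs1b
    hx hx' hq hqh hq' hqh' hout hout' hcol h1o h2o hno' hGo
  -- back to `z`
  have hdm : ∀ e, dual zo e ≤ dual z e := by
    intro e
    show (!zo (dE.symm e)) ≤ !z (dE.symm e)
    have := hle (dE.symm e)
    cases hh : z (dE.symm e) <;> cases hh' : zo (dE.symm e) <;> simp_all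
  have hcols : ∀ e, zo e = true → z e = true ∨
      (((src e).1 = x0 ∨ (src e).1 = x1) ∧ ((tgt e).1 = x0 ∨ (tgt e).1 = x1)) := by
    intro e he
    rcases (hzot e).1 he with h3 | h3 | h3
    · exact Or.inl h3
    · exact Or.inr ⟨Or.inl h3.1, Or.inl h3.2⟩
    · exact Or.inr ⟨Or.inr h3.1, Or.inr h3.2⟩
  obtain ⟨pp, hpp, b3⟩ := first_col (P := fun v : P2 => v.1 = x0 ∨ v.1 = x1) a3 (Or.inl hp) hcols
  obtain ⟨pp', hpp', b4⟩ := first_col (P := fun v : P2 => v.1 = x0 ∨ v.1 = x1) a4 (Or.inr hp') hcols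
  have hsubS : S ∩ {v | t ≤ sd w v} ∩ {v | t ≤ sd w' v} ⊆ S := fun v hv => hv.1.1
  have hpp0 : pp.1 = x0 := by
    rcases hpp with h3 | h3
    · exact h3
    · exact absurd (h1.symm.trans (b3.monoS hsubS)) (hno p pp hp h3)
  have hpp1 : pp'.1 = x1 := by
    rcases hpp' with h3 | h3
    · exact absurd ((b4.symm.monoS hsubS).trans h2) (hno pp' p' h3 hp')
    · exact h3
  -- the ring faces
  have ring : ∀ {g f : P2}, RingF x0 x1 y0 y1 f → DStep (fun e => zo e = false ∧ InE S e) g f →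
      x0 ≤ f.1 ∧ f.1 < x1 ∧ (f.2 = y1 ∨ f.2 = y0 - 1) := by
    rintro g f hf ⟨e, ⟨h3, h4⟩, h5⟩
    have h6 : ¬ (((src e).1 = x0 ∧ (tgt e).1 = x0) ∨ ((src e).1 = x1 ∧ (tgt e).1 = x1)) := by
      intro h7
      rw [(hzot e).2 (Or.inr h7)] at h3
      exact absurd h3 (by simp)
    have h7 : IB x0 x1 y0 y1 e := ⟨h4.1.1, h4.2.1⟩
    obtain ⟨⟨i, j⟩, c'⟩ := e
    cases c' <;> rcases h5 with ⟨rfl, rfl⟩ | ⟨rfl, rfl⟩ <;>
      simp only [IB, RingF, src_mk, tgt_h, tgt_v, fA_mk, fB_h, fB_v] at * <;> omega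
  have cvd : ∀ {g f : P2}, DStep (fun e => zo e = false ∧ InE S e) g f →
      DStep (fun e => z e = false ∧ InE S e) g f := by
    rintro g f ⟨e, ⟨h3, h4⟩, h5⟩
    refine ⟨e, ⟨?_, h4⟩, h5⟩
    have := hle e
    rw [h3] at this
    cases hh : z e
    · rfl
    · rw [hh] at this; exact absurd this (by decide)
  have r1 := ring hf hgf
  have r2 := ring hf' hgf'
  have hf1 : f.2 = y1 := by
    rcases r1.2.2 with h3 | h3
    · exact h3
    · exfalso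
      have h4 : ¬ ((f.1 ≤ x0 - 1 ∧ p.2 ≤ f.2) ∨ (x1 ≤ f.1 ∧ p'.2 ≤ f.2) ∨ (x0 ≤ f.1 ∧ f.1 < x1 ∧ y1 ≤ f.2)) := by
        omega
      have h5 : lrF x0 x1 y1 p p' f = 0 := ind_false h4
      rw [h5] at hff
      exact absurd hff (by decide)
  have hf2 : f'.2 = y0 - 1 := by
    rcases r2.2.2 with h3 | h3
    · exfalso
      have h5 : lrF x0 x1 y1 p p' f' = 1 := ind_true (Or.inr (Or.inr ⟨r2.1, r2.2.1, h3.ge⟩))
      rw [h5] at hff'
      exact absurd hff' (by decide)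
    · exact h3
  have hsT : Fo x0 x1 y0 y1 c0 (r0 + 1) ∩ {v | s ≤ sd x v} ∩ {v | s ≤ sd x' v} ⊆
      FoT x0 x1 y0 y1 c0 (r0 + 1) ∩ {v | s ≤ sd x v} ∩ {v | s ≤ sd x' v} := by
    rintro v ⟨⟨⟨hv1, hv2⟩, hv3⟩, hv4⟩
    refine ⟨⟨⟨?_, hv2⟩, hv3⟩, hv4⟩
    rw [mem_rect] at hv1 ⊢
    omega
  have fmem : ∀ {f : P2}, x0 ≤ f.1 → f.1 < x1 → (f.2 = y1 ∨ f.2 = y0 - 1) →
      f ∈ FoT x0 x1 y0 y1 c0 (r0 + 1) ∩ {v | s ≤ sd x v} ∩ {v | s ≤ sd x' v} := by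
    intro f h3 h4 h5
    have h6 : ∀ {v : P2}, sd c0 v = r0 + 1 → s ≤ sd v f := by
      intro v hv
      by_contra h7
      have h8 := tri hv.le (show sd v f ≤ s by omega)
      rw [sd_le] at h8
      omega
    refine ⟨⟨⟨?_, ?_⟩, h6 hx⟩, h6 hx'⟩
    · rw [mem_rect]; omega
    · intro h7
      simp only [Fi, mem_rect] at h7
      omega
  refine ⟨x, x', pp, pp', y, y', w, w', f, f', hs1, htt, hx, hx', hpp0, hpp1, hw, hyw, hw', hyw', hy, hyF, hy',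
    hyF', hf1, hf2, to_ring (a1.mono hdm le_rfl) (cvd hgf) (fmem r1.1 r1.2.1 r1.2.2) hsT,
    to_ring (a2.mono hdm le_rfl) (cvd hgf') (fmem r2.1 r2.2.1 r2.2.2) hsT, b3, b4⟩

/-- faces of the ring and inner faces outside the circle -/
def FoR (x0 x1 y0 y1 : ℤ) (c0 : P2) (ρ : ℤ) : Set P2 := Rect (x0 - 1) x1 (y0 - 1) y1 ∩ (Fi c0 ρ)ᶜ

theorem an_eq (c0 : P2) (ρ l : ℤ) : An c0 ρ l = So (c0.1 - l) (c0.1 + l) (c0.2 - l) (c0.2 + l) c0 ρ := by
  ext v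
  show (ρ ≤ sd c0 v ∧ sd c0 v ≤ l) ↔ (v ∈ Rect _ _ _ _ ∧ ρ ≤ sd c0 v)
  rw [sd_le, mem_rect]
  constructor <;> intro h <;> omega

/-- last visit of the inner circle -/
theorem an_exit {z : Cf} {c0 : P2} {k l : ℤ} (hkl : k < l) {u v : P2} (hu : sd c0 u = k) (hv : sd c0 v = l)
    (h : OC z (An c0 k l) u v) : ∃ x q, Nbr q x ∧ sd c0 q < k + 1 ∧ sd c0 x = k + 1 ∧
      OC z (An c0 (k + 1) l) x v := by
  obtain ⟨x, q, h1, h2, h3, ⟨h4, _, _⟩⟩ := first_exit (D := fun v => k + 1 ≤ sd c0 v) h.symm.2 (by omega)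
    (show ¬ k + 1 ≤ sd c0 u by omega)
  obtain ⟨e, _, he⟩ := h4
  have hn : Nbr q x := nbr_iff.2 ⟨e, by
    rcases he with ⟨h5, h6⟩ | ⟨h5, h6⟩
    · exact Or.inr ⟨h6, h5⟩
    · exact Or.inl ⟨h6, h5⟩⟩
  refine ⟨x, q, hn, by omega, nbr_far hn (by omega) h2, OC.symm ⟨⟨by omega, hv.le⟩, rtg_congr ?_ h1⟩⟩
  rintro a b ⟨⟨h5, h6, h7⟩, h8, h9⟩
  exact ⟨h5, ⟨h8, h6.2⟩, ⟨h9, h7.2⟩⟩

/-- **Instance 2: two distinct crossing clusters of an annulus.** -/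
theorem core_T2 {z : Cf} {c0 : P2} {k l : ℤ} {t r t1 s c s1 b : ℤ} (hk : 0 ≤ k)
    (hkl : (k + 1) + b + 2 ≤ l)
    (ht : 0 ≤ t) (htr : t ≤ r) (hrt : t + r + 1 ≤ t1) (ht1b : t1 ≤ b) (hrs : r + 1 ≤ s)
    (hsc : s ≤ c) (hcs : s + c ≤ s1) (hs1b : s1 ≤ b)
    (hz : z ∈ T2 c0 k l)
    (hG : GoodH z (c0.1 - l) (c0.1 + l) (c0.2 - l) (c0.2 + l) c0 (k + 1) t r t1 s c s1 b) :
    ∃ x x' p p' y y' w w' f f' e e' F, s1 < sd x x' ∧ t1 < sd y y' ∧
      sd c0 x = k + 1 ∧ sd c0 x' = k + 1 ∧ sd c0 p = l ∧ sd c0 p' = l ∧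
      Out (c0.1 - l) (c0.1 + l) (c0.2 - l) (c0.2 + l) e p ∧
      Out (c0.1 - l) (c0.1 + l) (c0.2 - l) (c0.2 + l) e' p' ∧
      IsCol (c0.1 - l) (c0.1 + l) (c0.2 - l) (c0.2 + l) e e' F ∧
      sd c0 w = k + 1 ∧ sd y w ≤ 1 ∧ sd c0 w' = k + 1 ∧ sd y' w' ≤ 1 ∧
      y ∈ Fo (c0.1 - l) (c0.1 + l) (c0.2 - l) (c0.2 + l) c0 (k + 1) ∧ y ∈ Fi c0 (k + 1 + 1) ∧
      y' ∈ Fo (c0.1 - l) (c0.1 + l) (c0.2 - l) (c0.2 + l) c0 (k + 1) ∧ y' ∈ Fi c0 (k + 1 + 1) ∧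
      RingF (c0.1 - l) (c0.1 + l) (c0.2 - l) (c0.2 + l) f ∧
      RingF (c0.1 - l) (c0.1 + l) (c0.2 - l) (c0.2 + l) f' ∧ F f = 1 ∧ F f' = 0 ∧
      OC (dual z) (FoR (c0.1 - l) (c0.1 + l) (c0.2 - l) (c0.2 + l) c0 (k + 1) ∩ {v | s ≤ sd x v} ∩
        {v | s ≤ sd x' v}) y f ∧
      OC (dual z) (FoR (c0.1 - l) (c0.1 + l) (c0.2 - l) (c0.2 + l) c0 (k + 1) ∩ {v | s ≤ sd x v} ∩
        {v | s ≤ sd x' v}) y' f' ∧
      OC z (An c0 (k + 1) l ∩ {v | t ≤ sd w v} ∩ {v | t ≤ sd w' v}) x p ∧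
      OC z (An c0 (k + 1) l ∩ {v | t ≤ sd w v} ∩ {v | t ≤ sd w' v}) x' p' := by
  obtain ⟨u, v, u', v', hu, hv, hu', hv', h1, h2, hn⟩ := hz
  obtain ⟨x, q, hq, hqh, hx, g1⟩ := an_exit (by omega) hu hv h1
  obtain ⟨x', q', hq', hqh', hx', g2⟩ := an_exit (by omega) hu' hv' h2
  have hsub : An c0 (k + 1) l ⊆ An c0 k l := fun w hw => ⟨by have := hw.1; omega, hw.2⟩
  have hn' : ¬ OC z (An c0 (k + 1) l) v v' := by
    intro h
    exact hn ((h1.trans (h.monoS hsub)).trans h2.symm)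
  have bd : ∀ {v : P2}, sd c0 v = l → v ∈ Rect (c0.1 - l) (c0.1 + l) (c0.2 - l) (c0.2 + l) ∧
      BdV (c0.1 - l) (c0.1 + l) (c0.2 - l) (c0.2 + l) v := by
    intro v hv
    have h3 := (sd_le (x := c0) (p := v) (k := l)).1 hv.le
    have h4 : ¬ sd c0 v ≤ l - 1 := by omega
    rw [sd_le] at h4
    rw [mem_rect]
    unfold BdV
    omega
  obtain ⟨e, he⟩ := exists_out (bd hv).1 (bd hv).2
  obtain ⟨e', he'⟩ := exists_out (bd hv').1 (bd hv').2
  rw [an_eq] at g1 g2 hn'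
  have th1 := through_hole (x0 := c0.1 - l) (x1 := c0.1 + l) (y0 := c0.2 - l) (y1 := c0.2 + l)
    (by omega) (by omega) (by omega) (by omega) hx hq hqh
  have th2 := through_hole (x0 := c0.1 - l) (x1 := c0.1 + l) (y0 := c0.2 - l) (y1 := c0.2 + l)
    (by omega) (by omega) (by omega) (by omega) hx' hq' hqh'
  have hP : Relation.ReflTransGen (PStep (fun e => True ∧ IB (c0.1 - l) (c0.1 + l) (c0.2 - l) (c0.2 + l) e))
      v v' := by
    refine ((pstep_mono' ?_ (oc_step g1.symm)).trans ((pstep_mono' ?_ (rtg_pstep_symm th1)).trans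
      (pstep_mono' ?_ th2))).trans (pstep_mono' ?_ (oc_step g2))
    · rintro e ⟨_, h4⟩
      exact ⟨trivial, h4.1.1, h4.2.1⟩
    · rintro e h3
      exact ⟨trivial, h3.1⟩
    · rintro e h3
      exact ⟨trivial, h3.1⟩
    · rintro e ⟨_, h4⟩
      exact ⟨trivial, h4.1.1, h4.2.1⟩
  obtain ⟨F, hF⟩ := exists_col (O := fun _ => True) (by omega) (by omega) he he' hP
  obtain ⟨hs1, y, y', w, w', g, g', f, f', hw, hyw, hw', hyw', hy, hyF, hy', hyF', hg, hbg, hg', hbg', hf, hf',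
    hff, hff', htt, hgf, hgf', a1, a2, a3, a4⟩ := core_hole (z := z) (by omega) (by omega) (by omega) (by omega)
    ht htr hrt ht1b hrs hsc hcs hs1b hx hx' hq hqh hq' hqh' he he' hF g1 g2 hn' hG
  have fmem : ∀ {f : P2}, RingF (c0.1 - l) (c0.1 + l) (c0.2 - l) (c0.2 + l) f →
      f ∈ FoR (c0.1 - l) (c0.1 + l) (c0.2 - l) (c0.2 + l) c0 (k + 1) ∩ {v | s ≤ sd x v} ∩
        {v | s ≤ sd x' v} := by
    intro f hf
    have hfar : ∀ {m : ℤ}, m < l → ¬ sd c0 f ≤ m := by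
      intro m hm h3
      rw [sd_le] at h3
      rcases hf.2 with h4 | h4 | h4 | h4 <;> omega
    have h6 : ∀ {v : P2}, sd c0 v = k + 1 → s ≤ sd v f := by
      intro v hv
      by_contra h7
      have h8 := sd_tri c0 v f
      exact hfar (show k + 1 + s < l by omega) (by omega)
    refine ⟨⟨⟨?_, ?_⟩, h6 hx⟩, h6 hx'⟩
    · have := hf.1
      rw [mem_rect]; omega
    · intro h7
      simp only [Fi, mem_rect] at h7
      apply hfar (show k + 1 < l by omega)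
      rw [sd_le]
      omega
  have hsT : Fo (c0.1 - l) (c0.1 + l) (c0.2 - l) (c0.2 + l) c0 (k + 1) ∩ {v | s ≤ sd x v} ∩
      {v | s ≤ sd x' v} ⊆ FoR (c0.1 - l) (c0.1 + l) (c0.2 - l) (c0.2 + l) c0 (k + 1) ∩
      {v | s ≤ sd x v} ∩ {v | s ≤ sd x' v} := by
    rintro v ⟨⟨⟨hv1, hv2⟩, hv3⟩, hv4⟩
    refine ⟨⟨⟨?_, hv2⟩, hv3⟩, hv4⟩
    rw [mem_rect] at hv1 ⊢
    omega
  rw [← an_eq] at a3 a4
  exact ⟨x, x', v, v', y, y', w, w', f, f', e, e', F, hs1, htt, hx, hx', hv, hv', he, he', hF, hw, hyw, hw', hyw',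
    hy, hyF, hy', hyF', hf, hf', hff, hff', to_ring a1 hgf (fmem hf) hsT, to_ring a2 hgf' (fmem hf') hsT, a3, a4⟩

end rect

end Crest.Agent.R158.Kd458
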