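import Crest.Agent.R158.Vn3_841
import Crest.Agent.R158.Vx5_107
import Crest.Agent.R158.Wf1_850
import Crest.Agent.R158.Rs10_689

/-!
# R158, leaf LB3 of doc 1912 (helper841), part 1: the main event of identity C, deterministic part

* `Prb V u` : `u : Face →₀ ℝ` is a probability on `V`
* `Cut z x s t` : no loop of `z` cuts `BF x s` and leaves `BF x t`; `cut_of_darm`
* `MainD` : deterministic form of the main event (helper468's `MainC`)
* `main_mass` : on the main event, `e` open, every loop contains either the base point and both charges,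
  or at most one of the charges, and at most the share `15/16` of the first one
* `main_closed` : on the main event, `e` closed, the weight vanishes
* `main_nab`, `main_weights`
-/

set_option autoImplicit false

noncomputable section

namespace Crest.Agent.R158.Lb841

open Crest.Agent.R161.Geo729 Crest.Agent.R161.Dual374
open Crest.Agent.R161.Tas682 (sd)
open Crest.Agent.R158.It200 Crest.Agent.R158.Wf850
open Crest.Agent.R158.Rs689 (DArm PArm)
open Crest.Agent.R158.Vx107 (Fw Sw mass tot Ntr W Rest RP mass_add mass_single mass_sub mass_neg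
  mass_smul AllFin nab op cl chv)
open Crest.Agent.R158.Vn841 (In In_spec mem_In In_mem sep_In eq_In Side Nest X1 X2 Y1 Y2 surg Rst
  rest_eq rst_flip rst_four)
open Real

/-! ### probability charges -/

/-- `u` is a probability on `V` -/
structure Prb (V : Finset Face) (u : Face →₀ ℝ) : Prop where
  nn : ∀ f, 0 ≤ u f
  off : ∀ f, f ∉ V → u f = 0
  sum : ∑ f ∈ V, u f = 1

section

variable {V : Finset Face} {u : Face →₀ ℝ}

theorem Prb.mass_nonneg (h : Prb V u) (A : Finset Face) : 0 ≤ mass u A :=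
  Finset.sum_nonneg fun f _ => h.nn f

theorem Prb.mass_mono (h : Prb V u) {A B : Finset Face} (hAB : A ⊆ B) : mass u A ≤ mass u B :=
  Finset.sum_le_sum_of_subset_of_nonneg hAB fun f _ _ => h.nn f

theorem Prb.mass_sub_one (h : Prb V u) {A : Finset Face} (hA : V ⊆ A) : mass u A = 1 := by
  unfold mass
  rw [← h.sum]
  exact (Finset.sum_subset hA fun f _ hf => h.off f hf).symm

theorem Prb.mass_le_one (h : Prb V u) (A : Finset Face) : mass u A ≤ 1 := by
  classical
  rw [← h.mass_sub_one (Finset.subset_union_right (s₁ := A) (s₂ := V))]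
  exact h.mass_mono Finset.subset_union_left

theorem Prb.mass_zero (h : Prb V u) {A : Finset Face} (hA : ∀ f ∈ V, f ∉ A) : mass u A = 0 :=
  Finset.sum_eq_zero fun f hf => h.off f fun h' => hA f h' hf

theorem Prb.exists_mem (h : Prb V u) {A : Finset Face} (hA : mass u A ≠ 0) : ∃ f ∈ V, f ∈ A := by
  by_contra hcon
  push Not at hcon
  exact hA (h.mass_zero hcon)

theorem Prb.exists_not (h : Prb V u) {A : Finset Face} (hA : mass u A ≠ 1) : ∃ f ∈ V, f ∉ A := by
  by_contra hcon
  push Not at hcon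
  exact hA (h.mass_sub_one hcon)

theorem Prb.mass_add_le (h : Prb V u) {A B : Finset Face} (hAB : Disjoint A B) :
    mass u A + mass u B ≤ 1 := by
  classical
  have h1 : mass u (A ∪ B) = mass u A + mass u B := by
    unfold mass; rw [Finset.sum_union hAB]
  rw [← h1]
  exact h.mass_le_one _

theorem Prb.tot (h : Prb V u) : tot u = 1 := by
  rw [← h.sum]
  refine Finsupp.sum_of_support_subset u ?_ _ (fun _ _ => rfl)
  intro f hf
  by_contra hcon
  exact (Finsupp.mem_support_iff.1 hf) (h.off f hcon)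

end

/-- the uniform charge on `V` -/
def uni (V : Finset Face) : Face →₀ ℝ := Finsupp.indicator V fun _ _ => ((V.card : ℝ))⁻¹

theorem uni_apply (V : Finset Face) (f : Face) [Decidable (f ∈ V)] :
    uni V f = if f ∈ V then ((V.card : ℝ))⁻¹ else 0 := by
  classical
  unfold uni
  rw [Finsupp.indicator_apply]
  split_ifs <;> rfl

theorem prb_uni {V : Finset Face} (hV : V.Nonempty) : Prb V (uni V) := by
  classical
  have hc : (V.card : ℝ) ≠ 0 := by exact_mod_cast hV.card_pos.ne'
  refine ⟨fun f => ?_, fun f hf => ?_, ?_⟩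
  · rw [uni_apply]; split_ifs
    · positivity
    · exact le_refl _
  · rw [uni_apply, if_neg hf]
  · rw [Finset.sum_congr rfl fun f hf => by rw [uni_apply, if_pos hf], Finset.sum_const,
      nsmul_eq_mul, mul_inv_cancel₀ hc]

theorem mass_uni (V A : Finset Face) [DecidablePred (· ∈ V)] :
    mass (uni V) A = ((A.filter (· ∈ V)).card : ℝ) * ((V.card : ℝ))⁻¹ := by
  classical
  unfold mass
  have e : ∀ f ∈ A, uni V f = if f ∈ V then ((V.card : ℝ))⁻¹ else 0 := fun f _ => uni_apply V f
  rw [Finset.sum_congr rfl e, ← Finset.sum_filter, Finset.sum_const, nsmul_eq_mul]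

/-! ### non-crossing -/

/-- no loop cuts the small box and leaves the large one -/
def Cut (z : Cfz) (x : P2) (s t : ℤ) : Prop := ∀ A ∈ Lps z, Splits A (BF x s) → A ⊆ BF x t

theorem cut_of_darm {z : Cfz} {x : P2} {s t : ℤ} (h : z ∉ DArm x s t) : Cut z x s t := by
  intro A hA hs
  by_contra hn
  obtain ⟨-, f, g, h1, h2, h3⟩ := cross2 hA hs hn
  exact h ⟨f, g, h1, h2, h3⟩

theorem sub_of_not_splits {A B : Finset Face} (h : ¬ Splits A B) {f : Face} (hf : f ∈ B)
    (hfA : f ∈ A) : B ⊆ A := by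
  intro g hg
  by_contra hcon
  exact h ⟨⟨f, hf, hfA⟩, g, hg, hcon⟩

theorem disj_of_not_splits {A B : Finset Face} (h : ¬ Splits A B) {f : Face} (hf : f ∈ B)
    (hfA : f ∉ A) : ∀ g ∈ B, g ∉ A := by
  intro g hg hcon
  exact h ⟨⟨g, hg, hcon⟩, f, hf, hfA⟩

/-! ### distances at the edge -/

theorem sd_tgt (e : Edge) : sd (src e) (tgt e) ≤ 1 := by
  obtain ⟨⟨a, b⟩, s⟩ := e
  cases s <;> simp [src, tgt, sd]

theorem sd_cf1 (e : Edge) : sd (src e) (fc (i1 e)) ≤ 1 := by
  have := (sd_corner (src e) (i1 e)).2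
  rw [fst_i1, sd_self] at this
  linarith

theorem sd_cf2 (e : Edge) : sd (src e) (fc (i2 e)) ≤ 1 := by
  have := (sd_corner (src e) (o1 e)).2
  rw [fst_o1, sd_self] at this
  have h2 : fc (o1 e) = fc (i2 e) := by rw [← nxo_i2, fc_nxo]
  rw [h2] at this
  linarith

/-! ### the main event -/

/-- deterministic form of the main event of identity C -/
structure MainD (z : Cfz) (e : Edge) (u u' y : P2) (n r R : ℤ) : Prop where
  fin : AllFin z
  ends : (u = src e ∧ u' = tgt e) ∨ (u = tgt e ∧ u' = src e)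
  dist : sd (src e) y = n
  r1 : 1 ≤ r
  rn : 16 * r + 16 ≤ n
  nR : 6 * n ≤ R
  joint : fB e ∈ DCl (op z e) (fA e)
  v : ∃ v ∈ OCl (cl z e) u, sd y v ≤ r
  v' : ∃ v' ∈ OCl (cl z e) u', 5 * R ≤ sd (src e) v'
  c0 : Cut (cl z e) y r (2 * r + 3)
  c1 : Cut (cl z e) y (4 * r) (8 * r + 3)
  c2 : Cut (cl z e) (src e) (2 * n - 1) (4 * n + 1)
  c3 : Cut (cl z e) (src e) (2 * R) (4 * R + 3)

section main

variable {z : Cfz} {e : Edge} {u u' y : P2} {n r R : ℤ}

theorem MainD.sdu (h : MainD z e u u' y n r R) : sd (src e) u ≤ 1 := by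
  rcases h.ends with ⟨rfl, -⟩ | ⟨rfl, -⟩
  · rw [sd_self]; norm_num
  · exact sd_tgt e

theorem MainD.sdyu (h : MainD z e u u' y n r R) : n - 1 ≤ sd y u := by
  have h1 := h.sdu
  have h2 := sd_tri (src e) u y
  rw [h.dist, sd_symm' u y] at h2
  linarith

/-- the state with `e` open has one strand at `e` -/
theorem one_of_joint (hz : AllFin z) (hj : fB e ∈ DCl (op z e) (fA e)) :
    i2 e ∈ Lp (op z e) (i1 e) := by
  by_contra hne
  have hzo := hz.op e
  have he : op z e e = true := Vx107.op_same z e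
  have key : ∀ A ∈ Lps (op z e), (cf (i1 e) ∈ A ↔ cf (i2 e) ∈ A) := by
    intro A hA
    rcases Vn841.cf_cases e with ⟨a, b⟩ | ⟨a, b⟩
    · rw [a, b]; exact lps_closed hA hj
    · rw [a, b]; exact (lps_closed hA hj).symm
  have hX1 : X1 (op z e) e = cf (i1 e) := by unfold X1; rw [he, if_pos rfl]
  have hX2 : X2 (op z e) e = cf (i2 e) := by unfold X2; rw [he, if_pos rfl]
  rcases surg (hzo (i1 e)) (hzo (i2 e)) hne with h | h | h
  · have x1 := h.x1
    rw [hX1] at x1
    have x2 := h.x2
    rw [hX2] at x2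
    exact Finset.disjoint_left.1 h.dis ((key _ (In_mem (hzo (i1 e)))).1 x1) x2
  · have x1 := h.xo
    rw [hX1] at x1
    have x2 := h.sub h.xi
    rw [hX2] at x2
    exact x1 ((key _ (In_mem (hzo (i1 e)))).2 x2)
  · have x1 := h.xo
    rw [hX2] at x1
    have x2 := h.sub h.xi
    rw [hX1] at x2
    exact x1 ((key _ (In_mem (hzo (i2 e)))).1 x2)

theorem flip_op (z : Cfz) (e : Edge) : It200.flip (op z e) e = cl z e := by
  unfold It200.flip Vx107.op Vx107.cl
  rw [Function.update_self, Function.update_idem]; rfl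

/-- the corner at the vertex `u` -/
theorem MainD.two (h : MainD z e u u' y n r R) : i2 e ∉ Lp (cl z e) (i1 e) := by
  have h1 := one_of_joint h.fin h.joint
  have h2 := flip_split (h.fin.op e (i1 e)) h1
  rwa [flip_op] at h2

theorem MainD.small (h : MainD z e u u' y n r R) {A : Finset Face} (hA : A ∈ Lps (cl z e))
    {c : Corner} (hc : c = i1 e ∨ c = i2 e) (hs : sepC A c) : A ⊆ BF (src e) (4 * n + 1) := by
  have hn : 1 ≤ 2 * n - 1 := by linarith [h.rn, h.r1]
  refine h.c2 A hA ?_
  have b1 : cv c ∈ BF (src e) (2 * n - 1) := by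
    rw [mem_BF]
    rcases hc with rfl | rfl
    · show sd (src e) (i1 e).1 ≤ _
      rw [fst_i1, sd_self]; linarith
    · show sd (src e) (i2 e).1 ≤ _
      rw [fst_i2]; linarith [sd_tgt e]
  have b2 : cf c ∈ BF (src e) (2 * n - 1) := by
    rw [mem_BF]
    rcases hc with rfl | rfl
    · show sd (src e) (fc (i1 e)) ≤ _
      linarith [sd_cf1 e]
    · show sd (src e) (fc (i2 e)) ≤ _
      linarith [sd_cf2 e]
  unfold sepC at hs
  by_cases hv : cv c ∈ A
  · exact ⟨⟨_, b1, hv⟩, _, b2, fun hf => hs ⟨fun _ => hf, fun _ => hv⟩⟩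
  · have hf : cf c ∈ A := by
      by_contra hf
      exact hs ⟨fun h' => absurd h' hv, fun h' => absurd h' hf⟩
    exact ⟨⟨_, b2, hf⟩, _, b1, hv⟩

/-- a loop inside `BF (src e) (4n+1)` does not contain `u'` -/
theorem MainD.not_u' (h : MainD z e u u' y n r R) {A : Finset Face} (hA : A ∈ Lps (cl z e))
    (hs : A ⊆ BF (src e) (4 * n + 1)) : (u', false) ∉ A := by
  intro hu
  obtain ⟨v', hv', hd⟩ := h.v'
  have h1 := hs ((lps_open hA hv').1 hu)
  rw [mem_BF] at h1
  have h2 : sd (src e) v' ≤ 4 * n + 1 := h1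
  linarith [h.rn, h.r1, h.nR]

/-- **structure of the loops at `e`** -/
theorem MainD.struct (h : MainD z e u u' y n r R) : ∃ Ao Ai : Finset Face,
    Ao ∈ Lps (cl z e) ∧ Ai ∈ Lps (cl z e) ∧
      Nest (u', false) (u, false) (cf (i1 e)) (cf (i2 e)) Ao Ai (In (op z e) (i1 e)) ∧
      Ao ⊆ BF (src e) (4 * n + 1) ∧
      ((Ao = In (cl z e) (i1 e) ∧ Ai = In (cl z e) (i2 e)) ∨
        (Ao = In (cl z e) (i2 e) ∧ Ai = In (cl z e) (i1 e))) := by
  have hne := h.two
  have hzc := h.fin.cl e
  have he : cl z e e = false := Vx107.cl_same z e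
  have hX1 : X1 (cl z e) e = (src e, false) := by
    unfold X1; rw [he, if_neg (by simp), Vn841.cv_i1]
  have hX2 : X2 (cl z e) e = (tgt e, false) := by
    unfold X2; rw [he, if_neg (by simp), Vn841.cv_i2]
  have hY1 : Y1 (cl z e) e = cf (i1 e) := by unfold Y1; rw [he, if_neg (by simp)]
  have hY2 : Y2 (cl z e) e = cf (i2 e) := by unfold Y2; rw [he, if_neg (by simp)]
  have hfl : It200.flip (cl z e) e = op z e := Vx107.flip_cl z e
  have m1 := In_mem (hzc (i1 e))
  have m2 := In_mem (hzc (i2 e))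
  have s1 := h.small m1 (Or.inl rfl) ((sep_In (hzc (i1 e)) _).2 (mem_Lp_self _ _))
  have s2 := h.small m2 (Or.inr rfl) ((sep_In (hzc (i2 e)) _).2 (mem_Lp_self _ _))
  have hs := surg (hzc (i1 e)) (hzc (i2 e)) hne
  rw [hX1, hX2, hY1, hY2, hfl] at hs
  rcases h.ends with ⟨rfl, rfl⟩ | ⟨rfl, rfl⟩
  · -- `u = src e`, `u' = tgt e`
    rcases hs with hs | hs | hs
    · exact absurd hs.x2 (h.not_u' m2 s2)
    · exact absurd hs.xi (h.not_u' m2 s2)
    · exact ⟨_, _, m2, m1, hs, s2, Or.inr ⟨rfl, rfl⟩⟩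
  · rcases hs with hs | hs | hs
    · exact absurd hs.x1 (h.not_u' m1 s1)
    · exact ⟨_, _, m1, m2, hs, s1, Or.inl ⟨rfl, rfl⟩⟩
    · exact absurd hs.xi (h.not_u' m1 s1)

/-- a loop around `u` contains the box `BF y (4r)` -/
theorem MainD.box (h : MainD z e u u' y n r R) {A : Finset Face} (hA : A ∈ Lps (cl z e))
    (hu : (u, false) ∈ A) : BF y (4 * r) ⊆ A := by
  obtain ⟨v, hv, hd⟩ := h.v
  have h1 : ¬ Splits A (BF y (4 * r)) := by
    intro hs
    have h2 := h.c1 A hA hs hu
    rw [mem_BF] at h2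
    have h3 : sd y u ≤ 8 * r + 3 := h2
    linarith [h.sdyu, h.rn, h.r1]
  refine sub_of_not_splits h1 (f := (v, false)) ?_ ((lps_open hA hv).1 hu)
  rw [mem_BF]
  show sd y v ≤ 4 * r
  linarith [h.r1]

/-- distance of the ring -/
theorem ring_far {o : P2} {R t : ℤ} (ht : t ≤ R) {A : Finset Face} (hA : A ⊆ BF o t) :
    ∀ f ∈ BF o (2 * R) \ BF o R, f ∉ A := by
  intro f hf hfA
  rw [Finset.mem_sdiff] at hf
  exact hf.2 (BF_mono ht (hA hfA))

variable {ub uw : Face →₀ ℝ}

/-- **masses on the main event**, `e` open -/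
theorem MainD.masses (h : MainD z e u u' y n r R) (hb : Prb (BF y (4 * r)) ub)
    (hw : Prb (BF (src e) (2 * R) \ BF (src e) R) uw) (hb1 : 1 / 16 ≤ mass ub (BF y r))
    (hb2 : mass ub (BF y (2 * r + 3)) ≤ 15 / 16) {A : Finset Face} (hA : A ∈ Lps (op z e)) :
    ((u, false) ∈ A ∧ mass ub A = 1 ∧ mass uw A = 1) ∨
    ((u, false) ∉ A ∧ (mass ub A = 0 ∨ mass uw A = 0) ∧ mass ub A ≤ 15 / 16) := by
  classical
  obtain ⟨Ao, Ai, mo, mi, hN, hsm, hcase⟩ := h.struct
  have hzo := h.fin.op e
  have hone := one_of_joint h.fin h.joint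
  by_cases hAe : sepC A (i1 e) ∨ sepC A (i2 e)
  · -- the merged loop
    have hAeq : A = In (op z e) (i1 e) := by
      rcases hAe with hs | hs
      · exact (eq_In hA hs).2
      · rw [(eq_In hA hs).2]
        exact Vn841.In_eq (hzo (i1 e)) hone
    right
    have hu1 : (u, false) ∈ Ai := hN.xi
    have hi : BF y (4 * r) ⊆ Ai := h.box mi hu1
    have hub : mass ub A = 0 := by
      refine hb.mass_zero fun f hf hfA => ?_
      rw [hAeq, hN.mem] at hfA
      exact hfA.2 (hi hf)
    have huw : mass uw A = 0 := by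
      refine hw.mass_zero (ring_far (t := 4 * n + 1) (by linarith [h.nR, h.rn, h.r1]) ?_)
      intro f hf
      rw [hAeq, hN.mem] at hf
      exact hsm hf.1
    refine ⟨?_, Or.inl hub, by rw [hub]; norm_num⟩
    intro hu
    rw [hAeq, hN.mem] at hu
    exact hu.2 hu1
  · -- a loop that does not visit `e`
    have hR : A ∈ Rst (op z e) e := ⟨hA, by rw [Vn841.mem_bdE']; exact hAe⟩
    have hR' : A ∈ Rst (cl z e) e := by
      rw [← flip_op, rst_flip]; exact hR
    have hAc : A ∈ Lps (cl z e) := hR'.1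
    obtain ⟨f1, f2, f3⟩ := rst_four hR'
    rw [Vn841.cv_i1, Vn841.cv_i2] at f3
    have huu : (u, false) ∈ A ↔ (u', false) ∈ A := by
      rcases h.ends with ⟨rfl, rfl⟩ | ⟨rfl, rfl⟩
      · exact f3.symm
      · exact f3
    by_cases hu : (u, false) ∈ A
    · left
      refine ⟨hu, hb.mass_sub_one (h.box hAc hu), hw.mass_sub_one ?_⟩
      obtain ⟨v', hv', hd⟩ := h.v'
      have h1 : ¬ Splits A (BF (src e) (2 * R)) := by
        intro hs
        have h2 := h.c3 A hAc hs ((lps_open hAc hv').1 (huu.1 hu))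
        rw [mem_BF] at h2
        have h3 : sd (src e) v' ≤ 4 * R + 3 := h2
        linarith [h.nR, h.rn, h.r1]
      have h2 : BF (src e) (2 * R) ⊆ A := by
        refine sub_of_not_splits h1 (f := (u, false)) ?_ hu
        rw [mem_BF]
        show sd (src e) u ≤ 2 * R
        linarith [h.sdu, h.nR, h.rn, h.r1]
      exact Finset.sdiff_subset.trans h2
    · right
      obtain ⟨v, hv, hd⟩ := h.v
      have hvA : (v, false) ∉ A := fun hvA => hu ((lps_open hAc hv).2 hvA)
      have hvb : (v, false) ∈ BF y r := by rw [mem_BF]; exact hd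
      refine ⟨hu, ?_, ?_⟩
      · by_cases hub : mass ub A = 0
        · exact Or.inl hub
        · right
          obtain ⟨f, hf, hfA⟩ := hb.exists_mem hub
          have h1 : A ⊆ BF y (8 * r + 3) :=
            h.c1 A hAc ⟨⟨f, hf, hfA⟩, _, BF_mono (by linarith [h.r1]) hvb, hvA⟩
          refine hw.mass_zero (ring_far (t := n + (8 * r + 3)) (by linarith [h.nR, h.rn, h.r1]) ?_)
          intro g hg
          have h2 := h1 hg
          rw [mem_BF] at h2 ⊢
          have h3 := sd_tri (src e) y g.1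
          rw [h.dist] at h3
          linarith
      · by_cases hs : Splits A (BF y r)
        · exact (hb.mass_mono (h.c0 A hAc hs)).trans hb2
        · have h1 := disj_of_not_splits hs hvb hvA
          have h2 : Disjoint A (BF y r) := by
            rw [Finset.disjoint_left]
            intro g hg hg'
            exact h1 g hg' hg
          have h3 := hb.mass_add_le h2
          linarith

/-- the charge of identity C (total `π`) -/
def muC (ub uw : Face →₀ ℝ) : Face →₀ ℝ := (5 * π / 6) • ub + (π / 6) • uw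

theorem mass_muC (ub uw : Face →₀ ℝ) (A : Finset Face) :
    Vx107.mass (muC ub uw) A = 5 * π / 6 * Vx107.mass ub A + π / 6 * Vx107.mass uw A := by
  unfold muC; rw [mass_add, mass_smul, mass_smul]

theorem tot_muC {V V' : Finset Face} (hb : Prb V ub) (hw : Prb V' uw) : tot (muC ub uw) = π := by
  unfold muC
  rw [Vx107.tot_add, Vx107.tot_smul, Vx107.tot_smul, hb.tot, hw.tot]; ring

theorem neg_chv (μ : Face →₀ ℝ) (v : P2) :
    -chv μ v = -μ + Finsupp.single (v, false) π := by
  unfold Vx107.chv; abel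

theorem mass_neg_chv (μ : Face →₀ ℝ) (v : P2) (A : Finset Face) [Decidable ((v, false) ∈ A)] :
    Vx107.mass (-chv μ v) A = if (v, false) ∈ A then π - Vx107.mass μ A else -Vx107.mass μ A := by
  rw [mass_neg, Vx107.mass_chv]
  split_ifs
  · ring
  · rfl

/-- **weights on the main event**, `e` open: all charges are in `[-(25π/32), 0]` -/
theorem MainD.range (h : MainD z e u u' y n r R) (hb : Prb (BF y (4 * r)) ub)
    (hw : Prb (BF (src e) (2 * R) \ BF (src e) R) uw) (hb1 : 1 / 16 ≤ Vx107.mass ub (BF y r))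
    (hb2 : Vx107.mass ub (BF y (2 * r + 3)) ≤ 15 / 16) {A : Finset Face}
    (hA : A ∈ Lps (op z e)) :
    -(25 * π / 32) ≤ Vx107.mass (-chv (muC ub uw) u) A ∧
      Vx107.mass (-chv (muC ub uw) u) A ≤ 0 := by
  classical
  have hpi := pi_pos
  have n1 := hb.mass_nonneg A
  have n2 := hw.mass_nonneg A
  have n3 := hw.mass_le_one A
  rw [mass_neg_chv, mass_muC]
  rcases h.masses hb hw hb1 hb2 hA with ⟨a, b, c⟩ | ⟨a, b, c⟩
  · rw [if_pos a, b, c]
    constructor <;> linarith
  · rw [if_neg a]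
    rcases b with b | b
    · rw [b]
      constructor
      · nlinarith
      · nlinarith
    · rw [b]
      constructor
      · nlinarith
      · nlinarith

/-- **the weight of the closed state vanishes on the main event** -/
theorem MainD.closed (h : MainD z e u u' y n r R) (hb : Prb (BF y (4 * r)) ub)
    (hw : Prb (BF (src e) (2 * R) \ BF (src e) R) uw) :
    W (-chv (muC ub uw) u) (cl z e) = 0 := by
  classical
  obtain ⟨Ao, Ai, mo, mi, hN, hsm, hcase⟩ := h.struct
  have hzc := h.fin.cl e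
  have hm : Ntr (-chv (muC ub uw) u) := (Vx107.ntr_chv (tot_muC hb hw) u).neg
  have hu : (u, false) ∈ Ao := hN.sub hN.xi
  have h0 : Fw (Vx107.mass (-chv (muC ub uw) u) Ao) = 0 := by
    rw [mass_neg_chv, if_pos hu, mass_muC, hb.mass_sub_one (h.box mo hu),
      hw.mass_zero (ring_far (t := 4 * n + 1) (by linarith [h.nR, h.rn, h.r1]) hsm)]
    unfold Fw
    rw [show π / 3 + (π - (5 * π / 6 * 1 + π / 6 * 0)) = π / 2 by ring, cos_pi_div_two, mul_zero]
  rw [Vn841.W_two' (hzc _) (hzc _) h.two hm]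
  rcases hcase with ⟨a, -⟩ | ⟨a, -⟩
  · rw [← a, h0]; ring
  · rw [← a, h0]; ring

/-- **the difference on the main event** -/
theorem MainD.nab_eq (h : MainD z e u u' y n r R) (hb : Prb (BF y (4 * r)) ub)
    (hw : Prb (BF (src e) (2 * R) \ BF (src e) R) uw) :
    nab (-chv (muC ub uw) u) e z = W (-chv (muC ub uw) u) (op z e) := by
  unfold Vx107.nab
  rw [h.closed hb hw, sub_zero]

end main

end Crest.Agent.R158.Lb841
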