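import Crest.Agent.R158.Lb1_841
import Crest.Agent.R158.Cpl6_963

/-!
# R158, leaf LB3 of doc 1912 (helper841), part 2: sign of the difference, bad events (deterministic)

* `fxC_in`, `fxC_out` : signs of the factors of the loops that do not visit `e`
* `neg_struct` : if `nab (-chv (muC ub uw) (src e)) e z < 0` then in the two-loop state both loops at `e`
  carry mass, no loop isolates the small charge or the two small scales, and some loop crosses one
  of the two annuli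
-/

set_option autoImplicit false

noncomputable section

namespace Crest.Agent.R158.Lb841

open Crest.Agent.R161.Geo729 Crest.Agent.R161.Dual374
open Crest.Agent.R161.Tas682 (sd)
open Crest.Agent.R158.It200 Crest.Agent.R158.Wf850
open Crest.Agent.R158.Rs689 (DArm PArm)
open Crest.Agent.R158.Vx107 (Fw Sw tot Ntr W Rest RP mass_add mass_single mass_sub mass_neg
  mass_smul AllFin nab op cl chv)
open Crest.Agent.R158.Vn841 (In In_spec mem_In In_mem sep_In eq_In Side Nest X1 X2 Y1 Y2 surg Rst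
  rest_eq rst_flip rst_four fx fx_in fx_out RX Bs)
open Real Function

/-! ### trigonometry -/

theorem tr_in {t : ℝ} (h0 : 0 ≤ t) (h1 : t ≤ 1) : 0 ≤ -Fw (-(5 * π / 6 * 1 + π / 6 * t)) := by
  have hpi := pi_pos
  have e : -Fw (-(5 * π / 6 * 1 + π / 6 * t)) = 2 * sin (π / 6 * t) := by
    unfold Fw
    rw [show π / 3 + -(5 * π / 6 * 1 + π / 6 * t) = -(π / 6 * t + π / 2) by ring, cos_neg,
      cos_add_pi_div_two]
    ring
  rw [e]
  have h2 : 0 ≤ sin (π / 6 * t) := sin_nonneg_of_nonneg_of_le_pi (by positivity) (by nlinarith)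
  linarith

theorem tr_in_zero : -Fw (-(5 * π / 6 * 1 + π / 6 * 0)) = 0 := by
  unfold Fw
  rw [show π / 3 + -(5 * π / 6 * 1 + π / 6 * 0) = -(π / 2) by ring, cos_neg, cos_pi_div_two]
  ring

theorem tr_out_s {s : ℝ} (h0 : 0 ≤ s) (h1 : s ≤ 1) : 0 ≤ Fw (-(5 * π / 6 * s + π / 6 * 0)) := by
  have hpi := pi_pos
  unfold Fw
  have h2 : 0 ≤ cos (π / 3 + -(5 * π / 6 * s + π / 6 * 0)) :=
    cos_nonneg_of_mem_Icc ⟨by nlinarith, by nlinarith⟩
  linarith

theorem tr_out_t {t : ℝ} (h0 : 0 ≤ t) (h1 : t ≤ 1) : 0 ≤ Fw (-(5 * π / 6 * 0 + π / 6 * t)) := by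
  have hpi := pi_pos
  unfold Fw
  have h2 : 0 ≤ cos (π / 3 + -(5 * π / 6 * 0 + π / 6 * t)) :=
    cos_nonneg_of_mem_Icc ⟨by nlinarith, by nlinarith⟩
  linarith

theorem sin_neg_mass {M : ℝ} (h0 : 0 ≤ M) (h1 : M ≤ π) : sin (-M) ≤ 0 := by
  rw [sin_neg]
  have := sin_nonneg_of_nonneg_of_le_pi h0 h1
  linarith

theorem sin_outer {M : ℝ} (h0 : 5 * π / 6 ≤ M) (h1 : M ≤ π) : 0 ≤ sin (-M - π / 3) := by
  have hpi := pi_pos
  have e : sin (-M - π / 3) = sin (M + π / 3 - π) := by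
    rw [show -M - π / 3 = -(M + π / 3) by ring, sin_neg, sin_sub_pi]
  rw [e]
  exact sin_nonneg_of_nonneg_of_le_pi (by linarith) (by linarith)

/-- a vanishing factor -/
theorem finprod_zero {α : Type*} {S : Set α} {f : α → ℝ} (hS : (S ∩ mulSupport f).Finite) {a : α}
    (ha : a ∈ S) (h0 : f a = 0) : ∏ᶠ i ∈ S, f i = 0 := by
  rw [finprod_mem_eq_prod _ hS]
  refine Finset.prod_eq_zero (i := a) ?_ h0
  rw [Set.Finite.mem_toFinset]
  refine ⟨ha, ?_⟩
  rw [mem_mulSupport, h0]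
  norm_num

theorem rx_fin {μ : Face →₀ ℝ} (h : tot μ = -π) (u : Face) (z : Cfz) (e : Edge) :
    (Rest z e ∩ mulSupport fun A => fx μ u A).Finite := by
  have hm : Ntr (μ + Finsupp.single u π) := by
    unfold Ntr
    rw [Vx107.tot_add, Vx107.tot_single, h]; ring
  have h1 := Vx107.fin_supp hm (z := z) (S := Rest z e) (fun A hA => hA.1)
  refine h1.subset fun A hA => ⟨hA.1, fun hcon => hA.2 ?_⟩
  dsimp only at hcon ⊢
  rw [← Vn841.Fw_base (Or.inl rfl)]
  exact hcon

section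

variable {V V' : Finset Face} {ub uw : Face →₀ ℝ}

/-- mass of `muC` -/
theorem muC_range (hb : Prb V ub) (hw : Prb V' uw) (A : Finset Face) :
    0 ≤ Vx107.mass (muC ub uw) A ∧ Vx107.mass (muC ub uw) A ≤ π := by
  have hpi := pi_pos
  have n1 := hb.mass_nonneg A
  have n2 := hw.mass_nonneg A
  have n3 := hw.mass_le_one A
  have n4 := hb.mass_le_one A
  rw [mass_muC]
  constructor
  · positivity
  · nlinarith

theorem muC_mono (hb : Prb V ub) (hw : Prb V' uw) {A B : Finset Face} (hAB : A ⊆ B) :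
    Vx107.mass (muC ub uw) A ≤ Vx107.mass (muC ub uw) B := by
  have hpi := pi_pos
  have h1 := hb.mass_mono hAB
  have h2 := hw.mass_mono hAB
  rw [mass_muC, mass_muC]
  nlinarith

theorem muC_zero_iff {A : Finset Face}
    (h : Vx107.mass (muC ub uw) A ≠ 0) : Vx107.mass ub A ≠ 0 ∨ Vx107.mass uw A ≠ 0 := by
  by_contra hcon
  push Not at hcon
  apply h
  rw [mass_muC, hcon.1, hcon.2]; ring

theorem fxC_in (hw : Prb V' uw) {u : Face} {A : Finset Face} (hu : u ∈ A)
    (hs : Vx107.mass ub A = 1) : 0 ≤ fx (-muC ub uw) u A := by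
  rw [fx_in hu, mass_neg, mass_muC, hs]
  exact tr_in (hw.mass_nonneg A) (hw.mass_le_one A)

theorem fxC_in_zero {u : Face} {A : Finset Face} (hu : u ∈ A)
    (hs : Vx107.mass ub A = 1) (ht : Vx107.mass uw A = 0) : fx (-muC ub uw) u A = 0 := by
  rw [fx_in hu, mass_neg, mass_muC, hs, ht]
  exact tr_in_zero

theorem fxC_out (hb : Prb V ub) (hw : Prb V' uw) {u : Face} {A : Finset Face} (hu : u ∉ A)
    (hs : Vx107.mass ub A = 0 ∨ Vx107.mass uw A = 0) : 0 ≤ fx (-muC ub uw) u A := by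
  rw [fx_out hu, mass_neg, mass_muC]
  rcases hs with hs | hs
  · rw [hs]; exact tr_out_t (hw.mass_nonneg A) (hw.mass_le_one A)
  · rw [hs]; exact tr_out_s (hb.mass_nonneg A) (hb.mass_le_one A)

theorem fxC_out_zero {u : Face} {A : Finset Face} (hu : u ∉ A)
    (hs : Vx107.mass ub A = 1) (ht : Vx107.mass uw A = 0) : fx (-muC ub uw) u A = 0 := by
  rw [fx_out hu, mass_neg, mass_muC, hs, ht]
  have := tr_in_zero
  linarith

end

/-- the geometry of identity C -/
structure Geo (e : Edge) (y : P2) (n r R ρ : ℤ) : Prop where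
  dist : sd (src e) y = n
  r1 : 1 ≤ r
  rρ : 4 * r ≤ ρ
  ρ1 : 1 ≤ ρ
  ρn : ρ + 2 ≤ n
  nR : 2 * n ≤ R

/-- what happens in the two-loop state `z'` if the difference is negative -/
structure Bad (z' : Cfz) (e : Edge) (y : P2) (n r R ρ : ℤ) : Prop where
  fin : AllFin z'
  two : i2 e ∉ Lp z' (i1 e)
  far1 : ¬ In z' (i1 e) ⊆ BF (src e) (n - 4 * r - 1)
  far2 : ¬ In z' (i2 e) ⊆ BF (src e) (n - 4 * r - 1)
  n1 : ∀ A ∈ Lps z', BF y (4 * r) ⊆ A → ¬ A ⊆ BF y ρ
  n2 : ∀ A ∈ Lps z', BF (src e) (2 * n - 1) ⊆ A → ¬ A ⊆ BF (src e) R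
  bad : (∃ A ∈ Lps z', Splits A (BF (src e) (2 * n - 1)) ∧ ¬ A ⊆ BF (src e) R) ∨
    (∃ A ∈ Lps z', Splits A (BF y (4 * r)) ∧ ¬ A ⊆ BF y ρ)

section

variable {e : Edge} {y : P2} {n r R ρ : ℤ} {ub uw : Face →₀ ℝ}

theorem Geo.far (g : Geo e y n r R ρ) {f : P2} (hf : sd (src e) f ≤ 1) : n - 1 ≤ sd y f := by
  have h2 := sd_tri (src e) f y
  rw [g.dist, sd_symm' f y] at h2
  linarith

/-- the four faces at `e` are near `src e` -/
theorem sd_four (e : Edge) : sd (src e) (cv (i1 e)).1 ≤ 1 ∧ sd (src e) (cf (i1 e)).1 ≤ 1 ∧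
    sd (src e) (cv (i2 e)).1 ≤ 1 ∧ sd (src e) (cf (i2 e)).1 ≤ 1 := by
  refine ⟨?_, sd_cf1 e, ?_, sd_cf2 e⟩
  · show sd (src e) (i1 e).1 ≤ 1
    rw [fst_i1, sd_self]; norm_num
  · show sd (src e) (i2 e).1 ≤ 1
    rw [fst_i2]; exact sd_tgt e

/-- faces of the small box are far from `e` -/
theorem Geo.boxfar (g : Geo e y n r R ρ) {f : Face} (hf : f ∈ BF y (4 * r)) :
    n - 4 * r ≤ sd (src e) f.1 ∧ sd (src e) f.1 ≤ 2 * n - 1 := by
  rw [mem_BF] at hf
  have h1 := sd_tri (src e) f.1 y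
  rw [g.dist, sd_symm' f.1 y] at h1
  have h2 := sd_tri (src e) y f.1
  rw [g.dist] at h2
  have h3 := g.rρ
  have h4 := g.ρn
  constructor <;> linarith

/-- a loop with mass is not small -/
theorem Geo.mass_far (g : Geo e y n r R ρ) (hb : Prb (BF y (4 * r)) ub)
    (hw : Prb (BF (src e) (2 * R) \ BF (src e) R) uw) {A : Finset Face}
    (h : Vx107.mass (muC ub uw) A ≠ 0) : ¬ A ⊆ BF (src e) (n - 4 * r - 1) := by
  intro hA
  rcases muC_zero_iff h with h | h
  · obtain ⟨f, hf, hfA⟩ := hb.exists_mem h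
    have h1 := hA hfA
    rw [mem_BF] at h1
    linarith [(g.boxfar hf).1]
  · obtain ⟨f, hf, hfA⟩ := hw.exists_mem h
    exact ring_far (t := n - 4 * r - 1) (by linarith [g.nR, g.r1, g.rρ, g.ρn]) hA f hf hfA

/-- a loop with ring mass leaves `BF (src e) R` -/
theorem ring_leaves (hw : Prb (BF (src e) (2 * R) \ BF (src e) R) uw) {A : Finset Face}
    (h : Vx107.mass uw A ≠ 0) : ¬ A ⊆ BF (src e) R := by
  intro hA
  obtain ⟨f, hf, hfA⟩ := hw.exists_mem h
  exact ring_far (t := R) le_rfl hA f hf hfA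

/-- a loop with a proper share of the small charge splits the small box -/
theorem splits_small (hb : Prb (BF y (4 * r)) ub) {A : Finset Face}
    (h0 : Vx107.mass ub A ≠ 0) (h1 : Vx107.mass ub A ≠ 1) : Splits A (BF y (4 * r)) :=
  ⟨hb.exists_mem h0, hb.exists_not h1⟩

/-- a loop that separates a corner at `e` splits the middle box -/
theorem Geo.splits_mid (g : Geo e y n r R ρ) {A : Finset Face} {f f' : Face}
    (hf : sd (src e) f.1 ≤ 1) (hf' : sd (src e) f'.1 ≤ 1) (h1 : f ∈ A) (h2 : f' ∉ A) :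
    Splits A (BF (src e) (2 * n - 1)) := by
  have h3 : 1 ≤ 2 * n - 1 := by linarith [g.r1, g.rρ, g.ρn]
  exact ⟨⟨f, mem_BF.2 (hf.trans h3), h1⟩, f', mem_BF.2 (hf'.trans h3), h2⟩

/-- **structure of the configurations with a negative difference** -/
theorem neg_struct (g : Geo e y n r R ρ) (hb : Prb (BF y (4 * r)) ub)
    (hw : Prb (BF (src e) (2 * R) \ BF (src e) R) uw) {z : Cfz} (hz : AllFin z)
    (hneg : nab (-chv (muC ub uw) (src e)) e z < 0) :
    ∃ z', (z' = z ∨ z' = It200.flip z e) ∧ Bad z' e y n r R ρ := by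
  classical
  have hpi := pi_pos
  set μ := muC ub uw with hμ
  have htot : tot μ = π := tot_muC hb hw
  have htotn : tot (-μ) = -π := by rw [Vx107.tot_neg, htot]
  have hbase : -chv μ (src e) = -μ + Finsupp.single (src e, false) π := neg_chv μ _
  have hntr : Ntr (-μ + Finsupp.single (src e, false) π) := by
    rw [← hbase]; exact (Vx107.ntr_chv htot _).neg
  have hneg' : Vn841.nab (-μ + Finsupp.single (src e, false) π) z e < 0 := by
    rw [← hbase]; exact hneg
  obtain ⟨z', hz', f1, f2, hne, hcase⟩ := Vn841.nab_cases (hz (i1 e)) (hz (i2 e))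
    (Or.inl rfl : Bs π) hntr (Or.inl (Vn841.cv_i1 e).symm)
  have hzz : AllFin z' := by
    rcases hz' with rfl | rfl
    · exact hz
    · exact hz.flip e
  have hrest : Rest z e = Rest z' e := by
    rcases hz' with rfl | rfl
    · rfl
    · rw [Vx107.rest_flip]
  have hRX : RX (-μ) (src e, false) z e = RX (-μ) (src e, false) z' e := by
    unfold Vn841.RX; rw [hrest]
  rw [hRX] at hcase
  set L1 := In z' (i1 e) with hL1
  set L2 := In z' (i2 e) with hL2
  have mL1 : L1 ∈ Lps z' := In_mem f1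
  have mL2 : L2 ∈ Lps z' := In_mem f2
  have sp1 : sepC L1 (i1 e) := (sep_In f1 _).2 (mem_Lp_self _ _)
  have sp2 : sepC L2 (i2 e) := (sep_In f2 _).2 (mem_Lp_self _ _)
  obtain ⟨d1, d2, d3, d4⟩ := sd_four e
  -- the value is not zero
  have hmne : Vx107.mass μ L1 ≠ 0 ∧ Vx107.mass μ L2 ≠ 0 ∧ RX (-μ) (src e, false) z' e ≠ 0 := by
    rcases hcase with ⟨-, h⟩ | ⟨hN, h⟩ | ⟨hN, h⟩ <;> rw [h] at hneg'
    · refine ⟨fun h0 => ?_, fun h0 => ?_, fun h0 => ?_⟩ <;> simp [mass_neg, h0] at hneg'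
    · have h2 : Vx107.mass μ L2 ≠ 0 := fun h0 => by simp [mass_neg, h0] at hneg'
      refine ⟨fun h0 => ?_, h2, fun h0 => ?_⟩
      · have h3 := muC_mono hb hw hN.sub
        have h4 := (muC_range hb hw L2).1
        exact h2 (le_antisymm (by rw [← hμ] at h3; linarith) h4)
      · simp [h0] at hneg'
    · have h2 : Vx107.mass μ L1 ≠ 0 := fun h0 => by simp [mass_neg, h0] at hneg'
      refine ⟨h2, fun h0 => ?_, fun h0 => ?_⟩
      · have h3 := muC_mono hb hw hN.sub
        have h4 := (muC_range hb hw L1).1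
        exact h2 (le_antisymm (by rw [← hμ] at h3; linarith) h4)
      · simp [h0] at hneg'
  obtain ⟨hM1, hM2, hRX0⟩ := hmne
  -- no vanishing factor
  have hnz : ∀ A ∈ Rest z' e, ¬ (Vx107.mass ub A = 1 ∧ Vx107.mass uw A = 0) := by
    rintro A hA ⟨hs, ht⟩
    apply hRX0
    unfold Vn841.RX
    refine finprod_zero (rx_fin htotn _ _ _) hA ?_
    by_cases hu : (src e, false) ∈ A
    · exact fxC_in_zero hu hs ht
    · exact fxC_out_zero hu hs ht
  -- loops which do not visit `e`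
  have hoff : ∀ A ∈ Lps z', (∀ f : Face, sd (src e) f.1 ≤ 1 → f ∉ A) → A ∈ Rest z' e := by
    intro A hA h
    refine ⟨hA, ?_, ?_⟩
    · intro hs; exact hs ⟨fun h' => absurd h' (h _ d1), fun h' => absurd h' (h _ d2)⟩
    · intro hs; exact hs ⟨fun h' => absurd h' (h _ d3), fun h' => absurd h' (h _ d4)⟩
  have hon : ∀ A ∈ Lps z', (∀ f : Face, sd (src e) f.1 ≤ 1 → f ∈ A) → A ∈ Rest z' e := by
    intro A hA h
    refine ⟨hA, ?_, ?_⟩
    · intro hs; exact hs ⟨fun _ => h _ d2, fun _ => h _ d1⟩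
    · intro hs; exact hs ⟨fun _ => h _ d4, fun _ => h _ d3⟩
  have hn1 : ∀ A ∈ Lps z', BF y (4 * r) ⊆ A → ¬ A ⊆ BF y ρ := by
    intro A hA hin hout
    refine hnz A (hoff A hA fun f hf hfA => ?_) ⟨hb.mass_sub_one hin, hw.mass_zero ?_⟩
    · have h1 := hout hfA
      rw [mem_BF] at h1
      linarith [g.far hf, g.ρn]
    · refine ring_far (t := n + ρ) (by linarith [g.ρn, g.nR]) ?_
      intro f hf
      have h1 := hout hf
      rw [mem_BF] at h1 ⊢
      have h3 := sd_tri (src e) y f.1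
      rw [g.dist] at h3
      linarith
  have hn2 : ∀ A ∈ Lps z', BF (src e) (2 * n - 1) ⊆ A → ¬ A ⊆ BF (src e) R := by
    intro A hA hin hout
    refine hnz A (hon A hA fun f hf => hin ?_) ⟨hb.mass_sub_one ?_, hw.mass_zero ?_⟩
    · rw [mem_BF]; linarith [g.r1, g.rρ, g.ρn]
    · intro f hf
      apply hin
      rw [mem_BF]
      exact (g.boxfar hf).2
    · exact ring_far (t := R) le_rfl hout
  refine ⟨z', hz', hzz, hne, g.mass_far hb hw hM1, g.mass_far hb hw hM2, hn1, hn2, ?_⟩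
  -- bad loops
  by_contra hbad
  rw [not_or] at hbad
  obtain ⟨hb1, hb2⟩ := hbad
  push Not at hb1 hb2
  -- a loop with small mass, with a face near `e`, contains the whole small charge
  have hfull : ∀ A ∈ Lps z', ∀ f : Face, sd (src e) f.1 ≤ 1 → f ∈ A →
      Vx107.mass ub A = 0 ∨ Vx107.mass ub A = 1 := by
    intro A hA f hf hfA
    by_contra hcon
    rw [not_or] at hcon
    have h1 := hb2 A hA (splits_small hb hcon.1 hcon.2) hfA
    rw [mem_BF] at h1
    linarith [g.far hf, g.ρn]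
  -- a loop at `e` has no ring mass
  have hnoring : ∀ A ∈ Lps z', (∃ f f' : Face, sd (src e) f.1 ≤ 1 ∧ sd (src e) f'.1 ≤ 1 ∧ f ∈ A ∧
      f' ∉ A) → Vx107.mass uw A = 0 := by
    rintro A hA ⟨f, f', hf, hf', h1, h2⟩
    by_contra hcon
    exact ring_leaves hw hcon (hb1 A hA (g.splits_mid hf hf' h1 h2))
  have sepEx : ∀ {A : Finset Face} {c : Corner}, sepC A c → sd (src e) (cv c).1 ≤ 1 →
      sd (src e) (cf c).1 ≤ 1 →
      ∃ f f' : Face, sd (src e) f.1 ≤ 1 ∧ sd (src e) f'.1 ≤ 1 ∧ f ∈ A ∧ f' ∉ A := by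
    intro A c hs h1 h2
    unfold sepC at hs
    by_cases hv : cv c ∈ A
    · exact ⟨_, _, h1, h2, hv, fun hf => hs ⟨fun _ => hf, fun _ => hv⟩⟩
    · have hf : cf c ∈ A := by
        by_contra hf
        exact hs ⟨fun h' => absurd h' hv, fun h' => absurd h' hf⟩
      exact ⟨_, _, h2, h1, hf, hv⟩
  have ex1 := sepEx sp1 d1 d2
  have ex2 := sepEx sp2 d3 d4
  have r1 := hnoring L1 mL1 ex1
  have r2 := hnoring L2 mL2 ex2
  -- both loops at `e` contain the whole small charge
  have s1 : Vx107.mass ub L1 = 1 := by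
    obtain ⟨f, f', hf, hf', h1, h2⟩ := ex1
    rcases hfull L1 mL1 f hf h1 with h | h
    · exfalso; apply hM1; rw [hμ, mass_muC, h, r1]; ring
    · exact h
  have s2 : Vx107.mass ub L2 = 1 := by
    obtain ⟨f, f', hf, hf', h1, h2⟩ := ex2
    rcases hfull L2 mL2 f hf h1 with h | h
    · exfalso; apply hM2; rw [hμ, mass_muC, h, r2]; ring
    · exact h
  -- all the other factors are nonnegative
  have hpos : 0 ≤ RX (-μ) (src e, false) z' e := by
    unfold Vn841.RX
    refine finprod_nonneg fun A => finprod_nonneg fun hA => ?_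
    by_cases hu : (src e, false) ∈ A
    · refine fxC_in hw hu ?_
      have hu1 : sd (src e) ((src e, false) : Face).1 ≤ 1 := by rw [sd_self]; norm_num
      rcases hfull A hA.1 _ hu1 hu with h | h
      · -- then `L1 ⊆ A`
        exfalso
        have hA' : A ∈ Rst z' e := by rw [← rest_eq]; exact hA
        obtain ⟨q1, q2, q3⟩ := rst_four hA'
        rw [Vn841.cv_i1] at q1 q2 q3
        have hsub : L1 ⊆ A := by
          rcases lam mL1 hA.1 with h' | h' | h'
          · exact h'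
          · exfalso
            apply sp1
            refine ⟨fun _ => h' (q1.2 hu), fun _ => h' ?_⟩
            rw [Vn841.cv_i1]; exact hu
          · exfalso
            rw [Finset.disjoint_right] at h'
            apply sp1
            refine ⟨fun hv => absurd hv (h' ?_), fun hf => absurd hf (h' (q1.2 hu))⟩
            rw [Vn841.cv_i1]; exact hu
        have h3 := hb.mass_mono hsub
        rw [s1, h] at h3
        linarith
      · exact h
    · refine fxC_out hb hw hu ?_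
      by_contra hcon
      rw [not_or] at hcon
      refine ring_leaves hw hcon.2 (hb1 A hA.1 ?_)
      obtain ⟨f, hf, hfA⟩ := hb.exists_mem hcon.1
      refine ⟨⟨f, ?_, hfA⟩, _, ?_, hu⟩
      · rw [mem_BF]; exact (g.boxfar hf).2
      · rw [mem_BF]
        show sd (src e) (src e) ≤ 2 * n - 1
        rw [sd_self]; linarith [g.r1, g.rρ, g.ρn]
  have ms : ∀ {L : Finset Face}, Vx107.mass ub L = 1 → Vx107.mass uw L = 0 →
      Vx107.mass μ L = 5 * π / 6 := by
    intro L h1 h2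
    rw [hμ, mass_muC, h1, h2]; ring
  have v1 := ms s1 r1
  have v2 := ms s2 r2
  have t1 : sin (-(5 * π / 6)) ≤ 0 := sin_neg_mass (by positivity) (by linarith)
  have t2 : 0 ≤ sin (-(5 * π / 6) - π / 3) := sin_outer le_rfl (by linarith)
  rcases hcase with ⟨-, h⟩ | ⟨-, h⟩ | ⟨-, h⟩
  · rw [h, mass_neg, mass_neg, v1, v2] at hneg'
    have : 0 ≤ 4 * sin (-(5 * π / 6)) * sin (-(5 * π / 6)) := by nlinarith
    have := mul_nonneg this hpos
    linarith
  · rw [h, mass_neg, mass_neg, v1, v2] at hneg'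
    have : 0 ≤ -4 * sin (-(5 * π / 6) - π / 3) * sin (-(5 * π / 6)) := by nlinarith
    have := mul_nonneg this hpos
    linarith
  · rw [h, mass_neg, mass_neg, v1, v2] at hneg'
    have : 0 ≤ -4 * sin (-(5 * π / 6) - π / 3) * sin (-(5 * π / 6)) := by nlinarith
    have := mul_nonneg this hpos
    linarith

end

end Crest.Agent.R158.Lb841
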