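import Crest.Agent.R158.Mc2_468

/-!
# Row 158, Block A4 / LB3 (helper468), part 3: the main event of identity C

* `MainC e m r R` : the facts used by the deterministic part of LB3 (charges `150 b + 30 w`,
  `b` uniform on `BF (256 m, 0) (4 r)`, `w` on the ring `R .. 2R`)
* `MainE e m r R s t = Nice ∩ Ep ∩ dual ⁻¹' Fd` : a local event; `mainE_sub : MainE ⊆ MainC`
* `mainE_prob` : `c P(Nice e m s t) P(AR 0 (4r) (256m)) P(AR 0 (256m) R) ≤ P(MainE e m r R s t)`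
-/

set_option autoImplicit false

noncomputable section

namespace Crest.Agent.R158.Mc468

open MeasureTheory ProbabilityTheory unitInterval
open Crest.Agent.R161.Geo729 Crest.Agent.R161.Topo374 Crest.Agent.R161.Dual374
open Crest.Agent.R161.Tas682 Crest.Agent.R161.Ring421 Crest.Agent.R161.Sym597
open Crest.Agent.R161.Ifc372 Crest.Agent.R161.Hull374 Crest.Agent.R161.Ann374
open Crest.Agent.R158.It200 (OCl DCl)
open Crest.Agent.R158.Qm522 Crest.Agent.R158.Rs689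
open Crest.Agent.R158.Ru874 Crest.Agent.R158.Sp580

/-- `u` is joined to distance `≤ r` of `y` and `u'` to distance `≥ 5R` of `0`, open edges -/
def Two (z : Cfz) (m r R : ℕ) (u u' : P2) : Prop :=
  (∃ v ∈ OCl z u, sd (yy m) v ≤ r) ∧ ∃ v ∈ OCl z u', 5 * (R : ℤ) ≤ sd (0, 0) v

/-- **main event of LB3** (facts) -/
def MainC (e : Edge) (m r R : ℕ) : Set Cfz :=
  {z | fB e ∈ DCl (frc e true z) (fA e) ∧
    (Two (frc e false z) m r R (src e) (tgt e) ∨ Two (frc e false z) m r R (tgt e) (src e)) ∧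
    ∀ c : Bool, frc e c z ∉ DArm (yy m) r (2 * r + 3) ∧
      frc e c z ∉ DArm (yy m) (4 * r) (8 * r + 3) ∧
      frc e c z ∉ DArm (0, 0) (512 * m - 1) (1024 * m + 1) ∧
      frc e c z ∉ DArm (0, 0) (2 * R) (4 * R + 3)}

/-- local version of the main event -/
def MainE (e : Edge) (m r R : ℕ) (s t : Bool) : Set Cfz :=
  (NiceP e m s ∩ NiceD e m t) ∩ (Ep m r R ∩ dual ⁻¹' Fd m)

/-- the path joining `fA e` to `fB e` -/
theorem dual_link {z : Cfz} {m : ℕ} {u u' : P2} (hz : z ∈ Fd m)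
    (h : (GArm z 1 m u ∧ GArm z 3 m u') ∨ (GArm z 3 m u ∧ GArm z 1 m u')) : Rch z u u' := by
  obtain ⟨⟨⟨a1, b1, ha1, hb1, h1⟩, ⟨a2, b2, ha2, hb2, h2⟩⟩, ⟨a3, b3, ha3, hb3, h3⟩,
    ⟨a4, b4, ha4, hb4, h4⟩, ⟨a5, b5, ha5, hb5, h5⟩⟩ := hz
  obtain ⟨w1, p1, q1⟩ := glue h2 h1
    (by rintro w ⟨k1, k2, k3, k4⟩; constructor <;> omega)
    (by rintro w ⟨k1, k2, k3, k4⟩; constructor <;> omega)
  obtain ⟨w2, p2, q2⟩ := glue h2 h3
    (by rintro w ⟨k1, k2, k3, k4⟩; constructor <;> omega)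
    (by rintro w ⟨k1, k2, k3, k4⟩; constructor <;> omega)
  obtain ⟨w3, p3, q3⟩ := glue h4 h3
    (by rintro w ⟨k1, k2, k3, k4⟩; constructor <;> omega)
    (by rintro w ⟨k1, k2, k3, k4⟩; constructor <;> omega)
  obtain ⟨w4, p4, q4⟩ := glue h4 h5
    (by rintro w ⟨k1, k2, k3, k4⟩; constructor <;> omega)
    (by rintro w ⟨k1, k2, k3, k4⟩; constructor <;> omega)
  -- a1 ~ a2 ~ a3 ~ a4 ~ a5
  have r12 : Rch z a1 a2 := (OC.rch q1).trans (rch_symm (OC.rch p1))
  have r23 : Rch z a2 a3 := (OC.rch p2).trans (rch_symm (OC.rch q2))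
  have r34 : Rch z a3 a4 := (OC.rch q3).trans (rch_symm (OC.rch p3))
  have r45 : Rch z a4 a5 := (OC.rch p4).trans (rch_symm (OC.rch q4))
  have r15 : Rch z a1 a5 := ((r12.trans r23).trans r34).trans r45
  rcases h with ⟨g1, g2⟩ | ⟨g1, g2⟩
  · have k1 := gateN g1 h1 ha1 hb1 (by omega)
    have k2 := gateS g2 h5 ha5 hb5 (by omega)
    exact (k1.trans r15).trans (rch_symm k2)
  · have k1 := gateS g1 h5 ha5 hb5 (by omega)
    have k2 := gateN g2 h1 ha1 hb1 (by omega)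
    exact (k1.trans (rch_symm r15)).trans (rch_symm k2)

/-- the open arm leaving through the east gate reaches `y` -/
theorem arm_y {z : Cfz} {m r R : ℕ} (hm : 1 ≤ m) (hr : 1 ≤ r) (hrm : r ≤ 2 * m) {u : P2}
    (hz : z ∈ Ep m r R) (hu : GArm z 0 m u) : ∃ v ∈ OCl z u, sd (yy m) v ≤ r := by
  obtain ⟨⟨⟨⟨a1, b1, ha1, hb1, h1⟩, c2⟩, ⟨a3, ha3, b3, hb3, h3⟩, c4, ⟨a5, b5, ha5, hb5, h5⟩, -⟩, -⟩ :=
    hz
  have k1 := gateE hu h1 ha1 hb1 (by omega)
  have l1 := h1.left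
  have l2 := h1.right
  have l5 := h5.left
  have l6 := h5.right
  rw [mem_rect] at l1 l2 l5 l6
  have s3 : sd (yy m) a3 ≤ 8 * r := ha3
  have t3 : 32 * (m : ℤ) ≤ sd (yy m) b3 := hb3
  -- corridor and arm
  have j1 : Rch z b1 a3 := join4 (by omega) (by omega) c2 (rch_symm (OC.rch h1))
    (by rw [sd_le]; simp only [yy]; omega) (by rw [le_sd]; simp only [yy]; omega)
    (OC.rch h3) (by omega) t3
  have j2 : Rch z a3 a5 := join4 (by omega) (by omega) c4 (OC.rch h3) s3 (by omega)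
    (OC.rch h5) (by rw [sd_le]; simp only [yy]; omega) (by rw [le_sd]; simp only [yy]; omega)
  refine ⟨a5, ((k1.trans (OC.rch h1)).trans j1).trans j2, ?_⟩
  rw [sd_le]; simp only [yy]; omega

/-- the open arm leaving through the west gate reaches distance `5R` -/
theorem arm_far {z : Cfz} {m r R : ℕ} (hm : 1 ≤ m) (hR : 4096 * m ≤ R) {u : P2}
    (hz : z ∈ Ep m r R) (hu : GArm z 2 m u) : ∃ v ∈ OCl z u, 5 * (R : ℤ) ≤ sd (0, 0) v := by
  obtain ⟨-, ⟨⟨a1, b1, ha1, hb1, h1⟩, c2⟩, ⟨a3, ha3, b3, hb3, h3⟩, c4, ⟨a5, b5, ha5, hb5, h5⟩, -⟩ :=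
    hz
  have k1 := gateW hu h1 ha1 hb1 (by omega)
  have l1 := h1.left
  have l2 := h1.right
  have l5 := h5.left
  have l6 := h5.right
  rw [mem_rect] at l1 l2 l5 l6
  have s3 : sd (0, 0) a3 ≤ 512 * m := ha3
  have t3 : (R : ℤ) ≤ sd (0, 0) b3 := hb3
  have j1 : Rch z b1 a3 := join4 (by omega) (by omega) c2 (rch_symm (OC.rch h1))
    (by rw [sd_le]; simp only; omega) (by rw [le_sd]; simp only; omega)
    (OC.rch h3) s3 (by omega)
  have j2 : Rch z a3 a5 := join4 (by omega) (by omega) c4 (OC.rch h3) (by omega) (by omega)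
    (OC.rch h5) (by rw [sd_le]; simp only; omega) (by rw [le_sd]; simp only; omega)
  refine ⟨b5, (((k1.trans (OC.rch h1)).trans j1).trans j2).trans (OC.rch h5), ?_⟩
  rw [le_sd]; simp only; omega

theorem Ep_dep {m r R : ℕ} (hm : 1 ≤ m) (hr : 1 ≤ r) (hrm : r ≤ 2 * m) (hR : 4096 * m ≤ R) :
    Dep (edF (VP m R)) (Ep m r R) := by
  obtain ⟨c, _, h⟩ := Ep_ge
  exact (h m r R hm hr hrm hR).dep

theorem Fd_dep {m : ℕ} (hm : 1 ≤ m) : Dep (edF (VD m)) (Fd m) := by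
  obtain ⟨c, _, h⟩ := Fd_ge
  exact (h m hm).dep

theorem mem_frc_of_dep {S : Finset Edge} {A : Set Cfz} (hA : Dep S A) {e : Edge} (he : e ∉ S)
    (b : Bool) {z : Cfz} (hz : z ∈ A) : frc e b z ∈ A := by
  have h := sec_eq_of_notMem hA he b
  have : z ∈ sec e b A := by rw [h]; exact hz
  exact this

/-- **the local event implies the facts** -/
theorem mainE_sub {e : Edge} (he : src e = (0, 0)) {m r R : ℕ} (hm : 1 ≤ m) (hr : 1 ≤ r)
    (hrm : r ≤ 2 * m) (hR : 4096 * m ≤ R) (s t : Bool) : MainE e m r R s t ⊆ MainC e m r R := by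
  rintro z ⟨⟨⟨hP1, hP2⟩, hD1, hD2⟩, hE, hF⟩
  have hEc : ∀ c : Bool, frc e c z ∈ Ep m r R := fun c =>
    mem_frc_of_dep (Ep_dep hm hr hrm hR) (e_notMem_VP he hm R) c hE
  have hFc : dual (frc e true z) ∈ Fd m :=
    mem_frc_of_dep (Fd_dep hm).dual (e_notMem_VD he hm) true hF
  refine ⟨?_, ?_, ?_⟩
  · rw [mem_dcl]
    refine dual_link hFc ?_
    cases t
    · exact Or.inr ⟨hD1, hD2⟩
    · exact Or.inl ⟨hD1, hD2⟩
  · cases s
    · exact Or.inr ⟨arm_y hm hr hrm (hEc false) hP2, arm_far hm hR (hEc false) hP1⟩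
    · exact Or.inl ⟨arm_y hm hr hrm (hEc false) hP1, arm_far hm hR (hEc false) hP2⟩
  · intro c
    obtain ⟨⟨-, -, -, -, g1, g2⟩, -, -, -, -, g3, g4⟩ := hEc c
    refine ⟨not_darm g1 (by push_cast; omega) (by push_cast; omega),
      not_darm g2 (by push_cast; omega) (by push_cast; omega),
      not_darm g3 (by push_cast; omega) (by push_cast; omega),
      not_darm g4 (by push_cast; omega) (by push_cast; omega)⟩

theorem mainE_dep (e : Edge) {m r R : ℕ} (hm : 1 ≤ m) (hr : 1 ≤ r) (hrm : r ≤ 2 * m)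
    (hR : 4096 * m ≤ R) (s t : Bool) : ∃ S : Finset Edge, Dep S (MainE e m r R s t) := by
  classical
  refine ⟨(edF (NVP m) ∪ (edF (NVD m)).map dE.symm.toEmbedding) ∪
    (edF (VP m R) ∪ (edF (VD m)).map dE.symm.toEmbedding), Dep.inter (Dep.mono
      Finset.subset_union_left (Dep.inter (Dep.mono Finset.subset_union_left (dep_NiceP e m s))
        (Dep.mono Finset.subset_union_right (dep_NiceD e m t))))
      (Dep.mono Finset.subset_union_right (Dep.inter (Dep.mono Finset.subset_union_left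
        (Ep_dep hm hr hrm hR)) (Dep.mono Finset.subset_union_right (Fd_dep hm).dual)))⟩

/-- **probability of the main event** -/
theorem mainE_prob : ∃ c : ℝ, 0 < c ∧ ∀ (e : Edge) (m r R : ℕ) (s t : Bool), 1 ≤ m → 1 ≤ r →
    r ≤ 2 * m → 4096 * m ≤ R →
    c * ((nu hf).real (Nice e m s t) * ((nu hf).real (AR (0, 0) (4 * r) (256 * m)) *
      (nu hf).real (AR (0, 0) (256 * m) R))) ≤ (nu hf).real (MainE e m r R s t) := by
  obtain ⟨c1, hc1, h1⟩ := Ep_ge
  obtain ⟨c2, hc2, h2⟩ := Fd_ge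
  refine ⟨c1 * c2, mul_pos hc1 hc2, fun e m r R s t hm hr hrm hR => ?_⟩
  have e1 := h1 m r R hm hr hrm hR
  have e2 := h2 m hm
  have g := gen_fkg_dual hf (dep_NiceP e m s) (dep_NiceD e m t) e1.dep e2.dep (disj1 hm)
    (disj2 hm R) (disj3 hm R) (inc_NiceP e m s) (decr_NiceD e m t) e1.inc e2.inc
  refine le_trans ?_ g
  have f1 : (nu hf).real (AR (0, 0) (4 * r) (256 * m)) ≤ (nu hf).real (AR (yy m) (8 * r) (32 * m)) := by
    rw [ar_prob hf (yy m) (by omega)]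
    refine measureReal_mono ((ar_mono_in (by omega)).trans (ar_anti (by omega) (by omega)))
  have f2 : (nu hf).real (AR (0, 0) (256 * m) R) ≤ (nu hf).real (AR (0, 0) (512 * m) R) :=
    measureReal_mono (ar_mono_in (by omega))
  have n0 : 0 ≤ (nu hf).real (Nice e m s t) := measureReal_nonneg
  have n1 : 0 ≤ (nu hf).real (AR (0, 0) (4 * r) (256 * m)) := measureReal_nonneg
  have n2 : 0 ≤ (nu hf).real (AR (0, 0) (256 * m) R) := measureReal_nonneg
  have n3 : (nu hf).real (AR (0, 0) (4 * r) (256 * m)) * (nu hf).real (AR (0, 0) (256 * m) R) ≤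
      (nu hf).real (AR (yy m) (8 * r) (32 * m)) * (nu hf).real (AR (0, 0) (512 * m) R) :=
    mul_le_mul f1 f2 n2 measureReal_nonneg
  have n4 : c1 * c2 * ((nu hf).real (AR (0, 0) (4 * r) (256 * m)) *
      (nu hf).real (AR (0, 0) (256 * m) R)) ≤ (nu hf).real (Ep m r R) * (nu (σ hf)).real (Fd m) := by
    rw [sigma_hf]
    calc c1 * c2 * ((nu hf).real (AR (0, 0) (4 * r) (256 * m)) *
          (nu hf).real (AR (0, 0) (256 * m) R))
        = (c1 * ((nu hf).real (AR (0, 0) (4 * r) (256 * m)) *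
          (nu hf).real (AR (0, 0) (256 * m) R))) * c2 := by ring
      _ ≤ _ := mul_le_mul ((mul_le_mul_of_nonneg_left n3 hc1.le).trans e1.le) e2.le hc2.le
          measureReal_nonneg
  calc c1 * c2 * ((nu hf).real (Nice e m s t) * ((nu hf).real (AR (0, 0) (4 * r) (256 * m)) *
        (nu hf).real (AR (0, 0) (256 * m) R)))
      = (nu hf).real (Nice e m s t) * (c1 * c2 * ((nu hf).real (AR (0, 0) (4 * r) (256 * m)) *
        (nu hf).real (AR (0, 0) (256 * m) R))) := by ring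
    _ ≤ _ := mul_le_mul_of_nonneg_left n4 n0

end Crest.Agent.R158.Mc468
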