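import Crest.Agent.R158.Ac1_109
import Crest.Agent.R158.Cpl8_963

/-!
# Row 158, Block A4 / LB3 (helper468), part 4: probability of the bad events

* `H1 x s R` : a crossing of some colour of the annulus, `H2 x s R` : crossings of both colours
* `H1_le : P(H1) ≤ 2 P1`, `H2_le : P(H2) ≤ P1 ^ 2`
* `three_indep` : `A4`, an event of the annulus around `y` and an event of the annulus around `0` are
  independent
* `bad_le` : `P(A4 ∩ ((H1 ∩ H2') ∪ (H2 ∩ H1'))) ≤ 2 P(A4) P1 P1' (P1 + P1')`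
-/

set_option autoImplicit false

noncomputable section

namespace Crest.Agent.R158.Mc468

open MeasureTheory ProbabilityTheory unitInterval
open Crest.Agent.R161.Geo729 Crest.Agent.R161.Topo374 Crest.Agent.R161.Dual374
open Crest.Agent.R161.Tas682 Crest.Agent.R161.Ring421 Crest.Agent.R161.Sym597
open Crest.Agent.R161.Ifc372 Crest.Agent.R161.Hull374 Crest.Agent.R161.Ann374
open Crest.Agent.R158.It200 (OCl DCl)
open Crest.Agent.R158.Qm522 Crest.Agent.R158.Rs689
open Crest.Agent.R158.Ru874 Crest.Agent.R158.Sp580 Crest.Agent.R158.Ac109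

/-- some crossing of the annulus -/
def H1 (x : P2) (s R : ℤ) : Set Cfz := PArm x s R ∪ DArm x s R

/-- crossings of both colours -/
def H2 (x : P2) (s R : ℤ) : Set Cfz := PArm x s R ∩ DArm x s R

theorem dep_H1 {x : P2} {s R : ℤ} (h : s ≤ R) : Dep (edF (An x (s - 1) (R + 1))) (H1 x s R) :=
  (dep_parm' h).union (dep_darm h)

theorem dep_H2 {x : P2} {s R : ℤ} (h : s ≤ R) : Dep (edF (An x (s - 1) (R + 1))) (H2 x s R) :=
  (dep_parm' h).inter (dep_darm h)

theorem H1_le (x : P2) {s R : ℤ} (h : s ≤ R) : (nu hf).real (H1 x s R) ≤ 2 * P1 s R :=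
  any_le h

theorem H2_le (x : P2) {s R : ℤ} (h : s ≤ R) : (nu hf).real (H2 x s R) ≤ P1 s R * P1 s R :=
  opp_le h h

theorem dep_A4 (e : Edge) (R : ℤ) : Dep (edF {v | sd (src e) v ≤ R}) (A4 e R) := by
  have hfin : {v : P2 | sd (src e) v ≤ R}.Finite := bl_finite _ _
  intro z z' h
  have h' := frc_congr (e := e) (b := false) h
  have key : ∀ u v : P2, OC (frc e false z) {v | sd (src e) v ≤ R} u v ↔
      OC (frc e false z') {v | sd (src e) v ≤ R} u v := fun u v =>
    oc_iff fun i h1 h2 => h' i ((mem_edF hfin).2 ⟨h1, h2⟩)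
  show (_ ∧ _ ∧ _) ↔ (_ ∧ _ ∧ _)
  unfold Sp580.Arm
  simp only [key]

/-- independence of the three regions -/
theorem three_indep {e : Edge} (he : src e = (0, 0)) {y : P2} {a s R s' R' : ℤ} {A B : Set Cfz}
    (hA : Dep (edF (An y (s - 1) (R + 1))) A) (hB : Dep (edF (An (0, 0) (s' - 1) (R' + 1))) B)
    (h1 : a + (R + 1) < sd (0, 0) y) (h2 : sd (0, 0) y + (R + 1) < s' - 1) (h3 : a < s' - 1) :
    (nu hf).real (A4 e a ∩ (A ∩ B)) =
      (nu hf).real (A4 e a) * ((nu hf).real A * (nu hf).real B) := by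
  classical
  have d1 : Disjoint (edF (An y (s - 1) (R + 1))) (edF (An (0, 0) (s' - 1) (R' + 1))) := by
    refine (an_disj_in (x := (0, 0)) (y := y) ?_).symm
    exact h2
  have d2 : Disjoint (edF {v | sd (src e) v ≤ a})
      (edF (An y (s - 1) (R + 1)) ∪ edF (An (0, 0) (s' - 1) (R' + 1))) := by
    rw [he, Finset.disjoint_left]
    intro i hi hi'
    have k1 := (of_mem_edF hi).1
    rw [Finset.mem_union] at hi'
    rcases hi' with hi' | hi'
    · have k2 := (of_mem_edF hi').1
      have k3 : sd (0, 0) (src i) ≤ a := k1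
      have k4 : sd y (src i) ≤ R + 1 := k2.2
      have k5 := Ac109.sd_tri (0, 0) (src i) y
      rw [Ac109.sd_symm' (src i) y] at k5
      omega
    · have k2 := (of_mem_edF hi').1
      have k3 : sd (0, 0) (src i) ≤ a := k1
      have k4 : s' - 1 ≤ sd (0, 0) (src i) := k2.1
      omega
  have e1 := PB_indep_real (fun _ : Edge => hf) d2 (dep_A4 e a)
    ((hA.mono Finset.subset_union_left).inter (hB.mono Finset.subset_union_right))
  have e2 := PB_indep_real (fun _ : Edge => hf) d1 hA hB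
  unfold Rs689.nu
  rw [e1, e2]

/-- **probability of the bad events of LB3** -/
theorem bad_le {e : Edge} (he : src e = (0, 0)) {y : P2} {a s R s' R' : ℤ} (hs : s ≤ R)
    (hs' : s' ≤ R') (h1 : a + (R + 1) < sd (0, 0) y) (h2 : sd (0, 0) y + (R + 1) < s' - 1)
    (h3 : a < s' - 1) :
    (nu hf).real (A4 e a ∩ ((H1 y s R ∩ H2 (0, 0) s' R') ∪ (H2 y s R ∩ H1 (0, 0) s' R'))) ≤
      2 * ((nu hf).real (A4 e a) * (P1 s R * P1 s' R' * (P1 s R + P1 s' R'))) := by
  rw [Set.inter_union_distrib_left]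
  refine (measureReal_union_le _ _).trans ?_
  rw [three_indep he (dep_H1 hs) (dep_H2 hs') h1 h2 h3,
    three_indep he (dep_H2 hs) (dep_H1 hs') h1 h2 h3]
  have p0 := P1_nonneg s R
  have p0' := P1_nonneg s' R'
  have a1 : (nu hf).real (H1 y s R) * (nu hf).real (H2 (0, 0) s' R') ≤
      (2 * P1 s R) * (P1 s' R' * P1 s' R') :=
    mul_le_mul (H1_le y hs) (H2_le _ hs') measureReal_nonneg (by positivity)
  have a2 : (nu hf).real (H2 y s R) * (nu hf).real (H1 (0, 0) s' R') ≤
      (P1 s R * P1 s R) * (2 * P1 s' R') :=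
    mul_le_mul (H2_le y hs) (H1_le _ hs') measureReal_nonneg (by positivity)
  have b := @measureReal_nonneg _ _ (nu hf) (A4 e a)
  have b1 := mul_le_mul_of_nonneg_left a1 b
  have b2 := mul_le_mul_of_nonneg_left a2 b
  calc _ ≤ _ := add_le_add b1 b2
    _ = _ := by ring

end Crest.Agent.R158.Mc468
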