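import Crest.Agent.R158.Lb2_841
import Crest.Agent.R158.Gx3_31
import Crest.Agent.R158.Mc4_468
import Crest.Agent.R158.Mc3_468
import Crest.Agent.R158.Vx6_107

/-!
# R158, leaf LB3 of doc 1912 (helper841), part 3: pointwise bounds of the weights of identity C

* `ring_full` : a loop which contains the ring contains the box inside
* `VC`, `kC`, `aC`, `mC` : the two objects, their levels, their amplitudes, the charge
* `sysC`      : the system
* `W_up`      : upper bound of `|W (-chv mC v) z|`, every `z`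
* `mainD_of`  : the main event of helper468 gives `MainD`
* `W_low`     : lower bound of the weight on the main event
-/

set_option autoImplicit false

noncomputable section

namespace Crest.Agent.R158.Lb841

open Crest.Agent.R161.Geo729 Crest.Agent.R161.Dual374
open Crest.Agent.R161.Tas682 (sd)
open Crest.Agent.R158.It200 Crest.Agent.R158.Wf850
open Crest.Agent.R158.Rs689 (DArm PArm)
open Crest.Agent.R158.Vx107 (Fw Sw tot Ntr W Rest RP mass_add mass_single mass_sub mass_neg
  mass_smul AllFin nab op cl chv)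
open Crest.Agent.R158.Cn109 (SS QQ lsW smalls mem_smalls VV)
open Crest.Agent.R158.Hd109 (Dens Err)
open Crest.Agent.R158.Gx31
open Real Function

/-! ### the ring -/

/-- a loop which contains a ring of width 3 contains the inside box -/
theorem ring_full {z : Cfz} {A : Finset Face} (hA : A ∈ Lps z) {x : P2} {R : ℤ}
    (h : ∀ f : Face, R < sd x f.1 → sd x f.1 ≤ R + 3 → f ∈ A) : BF x R ⊆ A := by
  by_contra hcon
  have hs : ∃ f ∈ BF x R, f ∉ A := by
    by_contra h'
    push Not at h'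
    exact hcon h'
  obtain ⟨f0, hf0, hf0A⟩ := hs
  have hfar : ∀ k : ℤ, 0 ≤ k → sd x ((x.1 + k, x.2) : P2) = k := by
    intro k hk
    unfold Crest.Agent.R161.Tas682.sd
    simp only [add_sub_cancel_left, sub_self, abs_zero]
    rw [abs_of_nonneg hk, max_eq_left hk]
  have hR0 : 0 ≤ R := by
    rw [mem_BF] at hf0
    exact (sd_nonneg' _ _).trans hf0
  -- a separating corner near the box
  have hsp : Splits A (BF x (R + 1)) := by
    refine ⟨⟨((x.1 + (R + 1), x.2), false), ?_, ?_⟩, f0, BF_mono (by linarith) hf0, hf0A⟩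
    · rw [mem_BF]
      show sd x (x.1 + (R + 1), x.2) ≤ R + 1
      rw [hfar _ (by linarith)]
    · refine h _ ?_ ?_
      · show R < sd x (x.1 + (R + 1), x.2)
        rw [hfar _ (by linarith)]; linarith
      · show sd x (x.1 + (R + 1), x.2) ≤ R + 3
        rw [hfar _ (by linarith)]; linarith
  obtain ⟨c, hc, hAc⟩ := hA
  obtain ⟨d, hd1, hd2, hd3⟩ := exists_sep hsp
  rw [sep_iff hc hAc] at hd3
  rw [mem_BF] at hd1 hd2
  have hd1' : sd x d.1 ≤ R + 1 := hd1
  rw [← Lp_eq hd3] at hc
  -- the strand stays inside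
  have key : ∀ d' ∈ Lp z d, sd x d'.1 ≤ R + 1 := by
    have stepc : ∀ d' : Corner, d' ∈ Lp z d → sd x d'.1 ≤ R + 2 → sd x d'.1 ≤ R + 1 := by
      intro d' hd' hle
      by_contra hgt
      have heq : sd x d'.1 = R + 2 := by omega
      have h1 := sd_corner x d'
      have hv : cv d' ∈ A := h _ (by show R < sd x d'.1; omega) (by show sd x d'.1 ≤ R + 3; omega)
      have hf : cf d' ∈ A := h _ (by show R < sd x (fc d'); omega)
        (by show sd x (fc d') ≤ R + 3; omega)
      have hsep : sepC A d' := (sep_iff (Lp_eq hd3 ▸ hc) hAc d').2 (by rw [← Lp_eq hd3]; exact hd')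
      exact hsep ⟨fun _ => hf, fun _ => hv⟩
    refine Lp_induct hd1' ?_ ?_
    · intro d' hd' hle
      refine stepc _ (nx_mem_Lp.2 hd') ?_
      have : sd x (nx z d').1 ≤ sd x d'.1 + 1 := by
        unfold nx
        split_ifs
        · obtain ⟨⟨a, b⟩, q⟩ := d'
          refine sd_near ?_ ?_ <;> fin_cases q <;> simp [nxo, wa]
        · show sd x d'.1 ≤ _
          linarith
      linarith
    · intro d' hd' hle
      refine stepc _ (pv_mem_Lp.2 hd') ?_
      have : sd x (pv z d').1 ≤ sd x d'.1 + 1 := by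
        unfold pv
        split_ifs
        · obtain ⟨⟨a, b⟩, q⟩ := d'
          refine sd_near ?_ ?_ <;> fin_cases q <;> simp [pvo, wb]
        · show sd x d'.1 ≤ _
          linarith
      linarith
  have hmem : (((x.1 + (R + 3), x.2), false) : Face) ∈ A := by
    refine h _ ?_ ?_
    · show R < sd x (x.1 + (R + 3), x.2)
      rw [hfar _ (by linarith)]; linarith
    · show sd x (x.1 + (R + 3), x.2) ≤ R + 3
      rw [hfar _ (by linarith)]
  have hc' := Lp_eq hd3 ▸ hc
  refine (hAc _).1 hmem (ht_out hc' (x := x) (m := R + 1) (fun d' hd' => key d' ?_) ?_)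
  · rw [Lp_eq hd3]; exact hd'
  · show R + 1 < sd x (x.1 + (R + 3), x.2)
    rw [hfar _ (by linarith)]; linarith


/-! ### the objects of identity C -/

theorem prb_ud {V : Finset Face} (hV : V.Nonempty) : Prb V (ud V) where
  nn := fun f => by
    classical
    by_cases h : f ∈ V
    · rw [ud_mem h]; positivity
    · rw [ud_not_mem h]
  off := fun f hf => ud_not_mem hf
  sum := by
    rw [← uf_sum hV]
    exact Finset.sum_congr rfl fun v hv => ud_mem hv

/-- admissible parameters: `n = 256 m`, small box of radius `4 r`, ring of radius `R` -/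
structure Par (m r R : ℕ) : Prop where
  m1 : 1 ≤ m
  r3 : 3 ≤ r
  rm : r ≤ 2 * m
  mR : 4096 * m ≤ R

/-- supports: `true` = the small box round `y`, `false` = the ring -/
def VC (m r R : ℕ) (i : Bool) : Finset Face :=
  if i then BF (Mc468.yy m) ((4 * r : ℕ) : ℤ) else rg (0, 0) R

/-- levels -/
def kC (r R : ℕ) (i : Bool) : ℕ := if i then Nat.log 2 (4 * r) else Nat.log 2 (R / 2)

/-- amplitudes -/
def aC (i : Bool) : ℝ := if i then -(5 * π / 6) else -(π / 6)

/-- the charge of identity C (total `π`) -/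
def cC (m r R : ℕ) : Face →₀ ℝ := muC (ud (VC m r R true)) (ud (VC m r R false))

section par

variable {m r R : ℕ}

theorem VC_true : VC m r R true = BF (Mc468.yy m) ((4 * r : ℕ) : ℤ) := rfl

theorem VC_false : VC m r R false = rg (0, 0) R := rfl

theorem VC_true' : VC m r R true = BF (Mc468.yy m) (4 * (r : ℤ)) := by
  rw [VC_true]; push_cast; rfl

theorem VC_false' : VC m r R false = BF (0, 0) (2 * (R : ℤ)) \ BF (0, 0) (R : ℤ) := by
  rw [VC_false]; unfold rg; push_cast; rfl

theorem Par.ne (h : Par m r R) (i : Bool) : (VC m r R i).Nonempty := by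
  cases i
  · exact rg_nonempty (by have := h.m1; have := h.mR; omega)
  · exact BF_nonempty _ _

theorem Par.prb (h : Par m r R) (i : Bool) : Prb (VC m r R i) (ud (VC m r R i)) := prb_ud (h.ne i)

theorem Par.tot (h : Par m r R) : Vx107.tot (cC m r R) = π := tot_muC (h.prb true) (h.prb false)

theorem sd_yy (m : ℕ) : sd (0, 0) (Mc468.yy m) = 256 * (m : ℤ) := by
  unfold Mc468.yy Crest.Agent.R161.Tas682.sd
  simp only [sub_zero, abs_zero]
  rw [abs_of_nonneg (by positivity), max_eq_left (by positivity)]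

/-- position of the small box -/
theorem Par.box_pos {f : Face} (hf : f ∈ VC m r R true) :
    256 * (m : ℤ) - 4 * r ≤ sd (0, 0) f.1 ∧ sd (0, 0) f.1 ≤ 256 * (m : ℤ) + 4 * r := by
  rw [VC_true', mem_BF] at hf
  have h1 := sd_tri (0, 0) f.1 (Mc468.yy m)
  have h2 := sd_tri (0, 0) (Mc468.yy m) f.1
  rw [sd_yy] at h1 h2
  rw [sd_symm' f.1] at h1
  constructor <;> linarith

theorem Par.ring_pos {f : Face} (hf : f ∈ VC m r R false) :
    (R : ℤ) + 1 ≤ sd (0, 0) f.1 ∧ sd (0, 0) f.1 ≤ 2 * (R : ℤ) := by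
  rw [VC_false, mem_rg] at hf
  omega

theorem pow_kC_true (h : Par m r R) : (2 : ℤ) ^ kC r R true ≤ 4 * r := by
  have h1 : 2 ^ Nat.log 2 (4 * r) ≤ 4 * r := Nat.pow_log_le_self 2 (by have := h.r3; omega)
  have h2 : ((2 ^ Nat.log 2 (4 * r) : ℕ) : ℤ) ≤ ((4 * r : ℕ) : ℤ) := by exact_mod_cast h1
  push_cast at h2
  exact h2

theorem pow_kC_false (h : Par m r R) : 2 * (2 : ℤ) ^ kC r R false ≤ R := by
  have h1 : 2 ^ Nat.log 2 (R / 2) ≤ R / 2 := Nat.pow_log_le_self 2 (by
    have := h.m1; have := h.mR; omega)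
  have h3 : 2 * 2 ^ Nat.log 2 (R / 2) ≤ R := by omega
  have h2 : ((2 * 2 ^ Nat.log 2 (R / 2) : ℕ) : ℤ) ≤ (R : ℤ) := by exact_mod_cast h3
  push_cast at h2
  exact h2

/-- **the system of identity C** -/
theorem sysC (h : Par m r R) {v : P2} (hv : sd (0, 0) v ≤ 1) :
    Sys (kC r R) (VC m r R) (fun i => uf (VC m r R i)) aC (-chv (cC m r R) v) := by
  have k1 := pow_kC_true h
  have k2 := pow_kC_false h
  have m1 := h.m1
  have r3 := h.r3
  have rm := h.rm
  have mR := h.mR
  have hvv : ∀ i : Bool, ∀ f ∈ VC m r R i, f ≠ (v, false) := by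
    rintro i f hf rfl
    cases i
    · have := (Par.ring_pos hf).1
      simp only at this
      omega
    · have := (Par.box_pos hf).1
      simp only at this
      omega
  refine Sys.of_ud (m0 := Finsupp.single (v, false) π) ?_ h.ne ?_ ?_ ?_ ?_
  · intro f
    rw [neg_chv, Fintype.sum_bool]
    unfold cC muC aC
    simp only [Finsupp.coe_add, Finsupp.coe_neg, Finsupp.coe_smul, Pi.add_apply, Pi.neg_apply,
      Pi.smul_apply, smul_eq_mul, if_true, Bool.false_eq_true, if_false]
    ring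
  · intro i j hij f hf hf'
    cases i <;> cases j
    · exact hij rfl
    · have a1 := Par.ring_pos hf
      have a2 := Par.box_pos hf'
      omega
    · have a1 := Par.ring_pos hf'
      have a2 := Par.box_pos hf
      omega
    · exact hij rfl
  · intro i j hij f hf g hg
    cases i <;> cases j
    · exact absurd rfl hij
    · have a1 := Par.ring_pos hf
      have a2 := Par.box_pos hg
      have a3 := sd_tri (0, 0) g.1 f.1
      rw [sd_symm' g.1 f.1] at a3
      omega
    · have a1 := Par.ring_pos hg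
      have a2 := Par.box_pos hf
      have a3 := sd_tri (0, 0) f.1 g.1
      omega
    · exact absurd rfl hij
  · intro i f hf
    rw [Finsupp.single_apply, if_neg]
    exact fun h' => hvv i f hf h'.symm
  · intro i f hf g hg
    have hgv : g = (v, false) := by
      by_contra h'
      apply hg
      rw [Finsupp.single_apply, if_neg fun h'' => h' h''.symm]
    subst hgv
    have a3 := sd_tri (0, 0) v f.1
    rw [sd_symm' v f.1] at a3
    show (2 : ℤ) ^ kC r R i ≤ sd f.1 v + 1
    cases i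
    · have a1 := Par.ring_pos hf
      omega
    · have a1 := Par.box_pos hf
      omega

/-- a loop which meets `VC i` is local or large -/
theorem loc_or_large {z : Cfz} {A : Finset Face} (hA : A ∈ Lps z)
    (hL : A ∉ Loc (kC r R) (VC m r R) z) (i : Bool) (hi : ∃ f ∈ VC m r R i, f ∈ A) :
    2 ^ kC r R i ≤ Cn109.dia A + 1 := by
  by_contra hcon
  exact hL (mem_Loc'.2 ⟨hA, i, hi, not_le.1 hcon⟩)

theorem cr_true {z : Cfz} {A : Finset Face} (hA : A ∈ Lps z)
    (hL : A ∉ Loc (kC r R) (VC m r R) z) (hs : Splits A (BF (Mc468.yy m) ((4 * r : ℕ) : ℤ))) :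
    A ∈ CR (Mc468.yy m) (4 * r) 2 z := by
  refine ⟨hA, hs, ?_⟩
  have h1 := loc_or_large hA hL true hs.1
  have h2 : 4 * r < 2 ^ (Nat.log 2 (4 * r) + 1) := Nat.lt_pow_succ_log_self (by norm_num) _
  have h3 : 2 ^ Nat.log 2 (4 * r) ≤ Cn109.dia A + 1 := h1
  rw [pow_succ] at h2
  omega

theorem cr_false {z : Cfz} {A : Finset Face} (hA : A ∈ Lps z)
    (hL : A ∉ Loc (kC r R) (VC m r R) z) (hi : ∃ f ∈ VC m r R false, f ∈ A)
    (hs : ∃ f ∈ BF (0, 0) ((2 * R : ℕ) : ℤ), f ∉ A) : A ∈ CR (0, 0) (2 * R) 8 z := by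
  have h1 := loc_or_large hA hL false hi
  refine ⟨hA, ⟨?_, hs⟩, ?_⟩
  · obtain ⟨f, hf, hfA⟩ := hi
    refine ⟨f, ?_, hfA⟩
    have := (Par.ring_pos hf).2
    rw [mem_BF]; push_cast; exact this
  · have h2 : R / 2 < 2 ^ (Nat.log 2 (R / 2) + 1) := Nat.lt_pow_succ_log_self (by norm_num) _
    have h3 : 2 ^ Nat.log 2 (R / 2) ≤ Cn109.dia A + 1 := h1
    rw [pow_succ] at h2
    omega


theorem abs_Fw_le_two (x : ℝ) : |Fw x| ≤ 2 := Wf850.abs_ff_le_two x

theorem Fw_of {x : ℝ} (h : x = 0 ∨ x = π ∨ x = -(5 * π / 6) ∨ x = π / 6) : |Fw x| ≤ 1 := by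
  have e3 : cos (π / 3) = 1 / 2 := cos_pi_div_three
  rcases h with rfl | rfl | rfl | rfl
  · unfold Fw; rw [add_zero, e3]; norm_num
  · unfold Fw; rw [cos_add_pi, e3]; norm_num
  · unfold Fw
    rw [show π / 3 + -(5 * π / 6) = -(π / 2) by ring, cos_neg, cos_pi_div_two]; norm_num
  · unfold Fw
    rw [show π / 3 + π / 6 = π / 2 by ring, cos_pi_div_two]; norm_num

/-- **upper bound of the weight** -/
theorem W_up (h : Par m r R) {v : P2} (hv : sd (0, 0) v ≤ 1) (z : Cfz) :
    |W (-chv (cC m r R) v) z| ≤ exp (-Lin aC (kC r R) + Err (fun i => √3 * aC i)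
      (fun i => 12 * aC i ^ 2) (kC r R) (VC m r R) (fun i => uf (VC m r R i)) z) *
      2 ^ ((CR (Mc468.yy m) (4 * r) 2 z).ncard + (CR (0, 0) (2 * R) 8 z).ncard) := by
  classical
  have hm : Ntr (-chv (cC m r R) v) := (Vx107.ntr_chv h.tot v).neg
  have h1 := GU (sysC h hv) (z := z) (S := Lps z) (fun A hA => Loc_sub hA)
    (g := fun A => Fw (Vx107.mass (-chv (cC m r R) v) A)) (Vx107.fin_supp hm subset_rfl)
    (fun _ _ => le_rfl)
  refine h1.trans (mul_le_mul_of_nonneg_left ?_ (exp_pos _).le)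
  have hF : (CR (Mc468.yy m) (4 * r) 2 z ∪ CR (0, 0) (2 * R) 8 z).Finite :=
    (CR_fin _ _ _ _).union (CR_fin _ _ _ _)
  refine (free_le' hF ?_ fun A _ => abs_Fw_le_two _).trans ?_
  · rintro A ⟨hA, hL⟩ hAF
    have hL' : A ∉ Loc (kC r R) (VC m r R) z := hL
    rw [Set.mem_union, not_or] at hAF
    have hb := h.prb true
    have hw := h.prb false
    -- the small box
    have c1 : (∀ f ∈ VC m r R true, f ∉ A) ∨ VC m r R true ⊆ A := by
      by_contra hcon
      rw [not_or] at hcon
      obtain ⟨a1, a2⟩ := hcon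
      push Not at a1
      obtain ⟨g, hg, hgA⟩ := Finset.not_subset.1 a2
      exact hAF.1 (cr_true hA hL' ⟨a1, g, hg, hgA⟩)
    have c2 : (∀ f ∈ VC m r R false, f ∉ A) ∨ VC m r R false ⊆ A := by
      by_contra hcon
      rw [not_or] at hcon
      obtain ⟨a1, a2⟩ := hcon
      push Not at a1
      obtain ⟨g, hg, hgA⟩ := Finset.not_subset.1 a2
      refine hAF.2 (cr_false hA hL' a1 ⟨g, ?_, hgA⟩)
      have := (Par.ring_pos hg).2
      rw [mem_BF]; push_cast; exact this
    rw [mass_neg_chv]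
    have m1 := h.m1
    have rm := h.rm
    have mR := h.mR
    rcases c2 with c2 | c2
    · have t0 := hw.mass_zero c2
      rcases c1 with c1 | c1
      · have s0 := hb.mass_zero c1
        have e0 : Vx107.mass (cC m r R) A = 0 := by
          unfold cC; rw [mass_muC, s0, t0]; ring
        rw [e0]
        split_ifs
        · exact Fw_of (Or.inr (Or.inl (by ring)))
        · exact Fw_of (Or.inl (by ring))
      · have s1 := hb.mass_sub_one c1
        have e0 : Vx107.mass (cC m r R) A = 5 * π / 6 := by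
          unfold cC; rw [mass_muC, s1, t0]; ring
        rw [e0]
        split_ifs
        · exact Fw_of (Or.inr (Or.inr (Or.inr (by ring))))
        · exact Fw_of (Or.inr (Or.inr (Or.inl (by ring))))
    · have hR : BF (0, 0) (R : ℤ) ⊆ A := by
        refine ring_full hA fun f hf1 hf2 => c2 ?_
        rw [VC_false, mem_rg]
        omega
      have t1 := hw.mass_sub_one c2
      have s1 : Vx107.mass (ud (VC m r R true)) A = 1 := by
        refine hb.mass_sub_one fun f hf => hR ?_
        have := (Par.box_pos hf).2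
        rw [mem_BF]
        omega
      have e0 : Vx107.mass (cC m r R) A = π := by
        unfold cC; rw [mass_muC, s1, t1]; ring
      have hvA : (v, false) ∈ A := by
        apply hR
        rw [mem_BF]
        show sd (0, 0) v ≤ R
        omega
      rw [e0, if_pos hvA]
      exact Fw_of (Or.inl (by ring))
  · exact pow_le_pow_right₀ (by norm_num) (Set.ncard_union_le _ _)

/-! ### the main event -/

theorem frc_op (z : Cfz) (e : Edge) : Ru874.frc e true z = op z e := by
  funext i
  by_cases h : i = e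
  · subst h; rw [Ru874.frc_self, Vx107.op_same]
  · rw [Ru874.frc_ne h]; unfold Vx107.op; rw [Function.update_of_ne h]

theorem frc_cl (z : Cfz) (e : Edge) : Ru874.frc e false z = cl z e := by
  funext i
  by_cases h : i = e
  · subst h; rw [Ru874.frc_self, Vx107.cl_same]
  · rw [Ru874.frc_ne h]; unfold Vx107.cl; rw [Function.update_of_ne h]

/-- **the main event of helper468 gives the deterministic main event** -/
theorem mainD_of (h : Par m r R) {e : Edge} (he : src e = (0, 0)) {z : Cfz} (hz : AllFin z)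
    (hM : z ∈ Mc468.MainC e m r R) :
    ∃ u u' : P2, MainD z e u u' (Mc468.yy m) (256 * (m : ℤ)) r R := by
  obtain ⟨h1, h2, h3⟩ := hM
  obtain ⟨d0, d1, d2, d3⟩ := h3 false
  rw [frc_op] at h1
  rw [frc_cl] at h2 d0 d1 d2 d3
  have m1 := h.m1
  have r3 := h.r3
  have rm := h.rm
  have mR := h.mR
  have e1 : 2 * (256 * (m : ℤ)) - 1 = 512 * m - 1 := by ring
  have e2 : 4 * (256 * (m : ℤ)) + 1 = 1024 * m + 1 := by ring
  rcases h2 with ⟨⟨v, hv1, hv2⟩, v', hv1', hv2'⟩ | ⟨⟨v, hv1, hv2⟩, v', hv1', hv2'⟩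
  · refine ⟨src e, tgt e, hz, Or.inl ⟨rfl, rfl⟩, ?_, ?_, ?_, ?_, h1, ⟨v, hv1, hv2⟩, ⟨v', hv1', ?_⟩,
      cut_of_darm d0, cut_of_darm d1, ?_, ?_⟩
    · rw [he, sd_yy]
    · omega
    · omega
    · omega
    · rw [he]; exact hv2'
    · rw [he, e1, e2]; exact cut_of_darm d2
    · rw [he]; exact cut_of_darm d3
  · refine ⟨tgt e, src e, hz, Or.inr ⟨rfl, rfl⟩, ?_, ?_, ?_, ?_, h1, ⟨v, hv1, hv2⟩, ⟨v', hv1', ?_⟩,
      cut_of_darm d0, cut_of_darm d1, ?_, ?_⟩
    · rw [he, sd_yy]
    · omega
    · omega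
    · omega
    · rw [he]; exact hv2'
    · rw [he, e1, e2]; exact cut_of_darm d2
    · rw [he]; exact cut_of_darm d3

theorem mass_box1 (hr : 3 ≤ r) :
    1 / 16 ≤ Vx107.mass (ud (VC m r R true)) (BF (Mc468.yy m) (r : ℤ)) := by
  classical
  rw [mass_ud_eq, VC_true, card_BF]
  have e1 : ((BF (Mc468.yy m) ((4 * r : ℕ) : ℤ)).filter fun v => v ∈ BF (Mc468.yy m) (r : ℤ)) =
      BF (Mc468.yy m) (r : ℤ) := by
    ext f
    rw [Finset.mem_filter]
    exact ⟨fun h => h.2, fun h => ⟨BF_mono (by push_cast; linarith) h, h⟩⟩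
  rw [e1, card_BF, le_div_iff₀ (by positivity)]
  push_cast
  nlinarith [show (0 : ℝ) ≤ r from Nat.cast_nonneg r]

theorem mass_box2 (hr : 3 ≤ r) :
    Vx107.mass (ud (VC m r R true)) (BF (Mc468.yy m) (2 * (r : ℤ) + 3)) ≤ 15 / 16 := by
  classical
  rw [mass_ud_eq, VC_true, card_BF]
  have e1 : ((BF (Mc468.yy m) ((4 * r : ℕ) : ℤ)).filter fun v =>
      v ∈ BF (Mc468.yy m) (2 * (r : ℤ) + 3)) = BF (Mc468.yy m) ((2 * r + 3 : ℕ) : ℤ) := by
    ext f
    rw [Finset.mem_filter, mem_BF, mem_BF, mem_BF]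
    push_cast
    omega
  rw [e1, card_BF, div_le_iff₀ (by positivity)]
  push_cast
  have : (3 : ℝ) ≤ r := by exact_mod_cast hr
  nlinarith

theorem shr_kC (h : Par m r R) {z : Cfz} (i : Bool) {A : Finset Face}
    (hA : A ∈ smalls lsW (VC m r R i) (kC r R i) z) :
    -(25 * π / 32) ≤ aC i * shr (uf (VC m r R i)) (VC m r R i) A ∧
      aC i * shr (uf (VC m r R i)) (VC m r R i) A ≤ 0 := by
  have hpi := pi_pos
  rw [mem_smalls] at hA
  have n0 : 0 ≤ shr (uf (VC m r R i)) (VC m r R i) A := shr_nonneg (fun v _ => uf_nonneg _ v) A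
  have n1 : shr (uf (VC m r R i)) (VC m r R i) A ≤ 1 / 4 := by
    cases i
    · have h1 := share_ud (h.ne false) (rg_card (x := (0, 0)) (R := R)
        (κ := kC r R false) ?_) hA.2.2
      · linarith
      · have := pow_kC_false h
        have h2 : ((2 ^ kC r R false : ℕ) : ℤ) ≤ R := by push_cast; linarith [show (0 : ℤ) ≤ 2 ^ kC r R false by positivity]
        exact_mod_cast h2
    · have h1 := share_ud (h.ne true) (bq_card (x := Mc468.yy m) (ρ := 4 * r)
        (κ := kC r R true) ?_) hA.2.2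
      · linarith
      · have := pow_kC_true h
        have h2 : ((2 ^ kC r R true : ℕ) : ℤ) ≤ ((4 * r : ℕ) : ℤ) := by push_cast; linarith
        exact_mod_cast h2
  cases i
  · show -(25 * π / 32) ≤ -(π / 6) * _ ∧ -(π / 6) * _ ≤ 0
    constructor <;> nlinarith
  · show -(25 * π / 32) ≤ -(5 * π / 6) * _ ∧ -(5 * π / 6) * _ ≤ 0
    constructor <;> nlinarith

/-- the constant of the free factors -/
def c0C : ℝ := 2 * cos (43 * π / 96)

theorem c0C_pos : 0 < c0C := by
  have hpi := pi_pos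
  unfold c0C
  have : 0 < cos (43 * π / 96) := cos_pos_of_mem_Ioo ⟨by linarith, by linarith⟩
  linarith

theorem c0C_le_Fw {x : ℝ} (h1 : -(25 * π / 32) ≤ x) (h2 : x ≤ 0) : c0C ≤ Fw x := by
  have hpi := pi_pos
  unfold c0C Fw
  have h3 : |π / 3 + x| ≤ 43 * π / 96 := by
    rw [abs_le]; constructor <;> linarith
  have h4 : cos (43 * π / 96) ≤ cos |π / 3 + x| :=
    cos_le_cos_of_nonneg_of_le_pi (abs_nonneg _) (by linarith) h3
  rw [cos_abs] at h4
  linarith

theorem c0C_le_one : c0C ≤ 1 := by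
  have h := c0C_le_Fw (x := 0) (by have := pi_pos; linarith) le_rfl
  rw [Vx107.Fw_zero] at h
  exact h

/-- **lower bound of the weight on the main event** -/
theorem W_low : ∃ C : ℝ, 0 ≤ C ∧ ∀ {m r R : ℕ}, Par m r R → ∀ {e : Edge}, src e = (0, 0) →
    ∀ {z : Cfz} {u u' : P2}, MainD z e u u' (Mc468.yy m) (256 * (m : ℤ)) r R →
    exp (-Lin aC (kC r R) - Err (fun i => √3 * aC i) (fun i => C * aC i ^ 2) (kC r R) (VC m r R)
      (fun i => uf (VC m r R i)) (op z e)) * c0C ^ ((CR (Mc468.yy m) (4 * r) 2 (op z e)).ncard +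
        (CR (0, 0) (2 * R) 8 (op z e)).ncard) ≤ W (-chv (cC m r R) u) (op z e) := by
  classical
  have hpi := pi_pos
  obtain ⟨C, hC, hG⟩ := GLow (lo := -(25 * π / 32)) (hi := 0) (by linarith) (by positivity)
  refine ⟨C, hC, fun {m r R} h {e} he {z u u'} hM => ?_⟩
  have hu : sd (0, 0) u ≤ 1 := by
    have := hM.sdu
    rwa [he] at this
  have hm : Ntr (-chv (cC m r R) u) := (Vx107.ntr_chv h.tot u).neg
  have hb : Prb (BF (Mc468.yy m) (4 * (r : ℤ))) (ud (VC m r R true)) := by
    rw [← VC_true' (R := R)]; exact h.prb true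
  have hw : Prb (BF (src e) (2 * (R : ℤ)) \ BF (src e) (R : ℤ)) (ud (VC m r R false)) := by
    rw [he, ← VC_false' (m := m) (r := r)]; exact h.prb false
  have hrange : ∀ A ∈ Lps (op z e), -(25 * π / 32) ≤ Vx107.mass (-chv (cC m r R) u) A ∧
      Vx107.mass (-chv (cC m r R) u) A ≤ 0 := fun A hA =>
    hM.range hb hw (mass_box1 h.r3) (mass_box2 h.r3) hA
  have hF : (CR (Mc468.yy m) (4 * r) 2 (op z e) ∪ CR (0, 0) (2 * R) 8 (op z e)).Finite :=
    (CR_fin _ _ _ _).union (CR_fin _ _ _ _)
  have hfree : c0C ^ ((CR (Mc468.yy m) (4 * r) 2 (op z e)).ncard +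
      (CR (0, 0) (2 * R) 8 (op z e)).ncard) ≤
      ∏ᶠ A ∈ Lps (op z e) \ (Loc (kC r R) (VC m r R) (op z e) : Set (Finset Face)),
        Fw (Vx107.mass (-chv (cC m r R) u) A) := by
    refine le_trans ?_ (free_ge hF ?_ c0C_pos.le c0C_le_one fun A hA =>
      c0C_le_Fw (hrange A hA.1).1 (hrange A hA.1).2)
    · exact pow_le_pow_of_le_one c0C_pos.le c0C_le_one (Set.ncard_union_le _ _)
    · rintro A ⟨hA, hL⟩ hAF
      have hL' : A ∉ Loc (kC r R) (VC m r R) (op z e) := hL
      rw [Set.mem_union, not_or] at hAF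
      rcases hM.masses hb hw (mass_box1 h.r3) (mass_box2 h.r3) hA with ⟨a, b, c⟩ | ⟨a, b, c⟩
      · rw [mass_neg_chv, if_pos a]
        unfold cC
        rw [mass_muC, b, c, show π - (5 * π / 6 * 1 + π / 6 * 1) = 0 by ring, Vx107.Fw_zero]
      · have hb0 : Vx107.mass (ud (VC m r R true)) A = 0 := by
          by_contra hne
          refine hAF.1 (cr_true hA hL' ⟨?_, ?_⟩)
          · have := hb.exists_mem hne
            push_cast; exact this
          · have := hb.exists_not (A := A) (fun h' => by rw [h'] at c; norm_num at c)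
            push_cast; exact this
        have hw0 : Vx107.mass (ud (VC m r R false)) A = 0 := by
          by_contra hne
          refine hAF.2 (cr_false hA hL' ((h.prb false).exists_mem hne) ⟨(u, false), ?_, a⟩)
          rw [mem_BF]
          show sd (0, 0) u ≤ _
          have := h.m1
          have := h.mR
          push_cast
          omega
        rw [mass_neg_chv, if_neg a]
        unfold cC
        rw [mass_muC, hb0, hw0, show -(5 * π / 6 * 0 + π / 6 * 0) = 0 by ring, Vx107.Fw_zero]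
  have h1 := hG (sysC h hu) (z := op z e) (fun i A hA => shr_kC h i hA) (S := Lps (op z e))
    (fun A hA => Loc_sub hA) (g := fun A => Fw (Vx107.mass (-chv (cC m r R) u) A))
    (Vx107.fin_supp hm subset_rfl) (fun _ _ => le_rfl) ((by
      have := c0C_pos
      positivity : (0 : ℝ) ≤ c0C ^ ((CR (Mc468.yy m) (4 * r) 2 (op z e)).ncard +
      (CR (0, 0) (2 * R) 8 (op z e)).ncard)).trans hfree)
  exact (mul_le_mul_of_nonneg_left hfree (exp_pos _).le).trans h1

end par

end Crest.Agent.R158.Lb841
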