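import Crest.Agent.R158.Lb4_841
import Crest.Agent.R158.Uc4_31

/-!
# R158, leaf LB3 of doc 1912 (helper841), part 5: helper31's normal form

* `mC_eq`    : `-chv (cC m r R) (0,0) = mC (256 m) r R (-1) (0,0)`
* `lin_conv` : `exp (-Lin) ≥ WC (256 m) (-1) exp (-c) (R / r)^(-c)`
* `LB3n`     : `LB3x` in helper31's notation
-/

set_option autoImplicit false

noncomputable section

namespace Crest.Agent.R158.Lb841

open Crest.Agent.R161.Geo729 Crest.Agent.R161.Dual374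
open Crest.Agent.R161.Tas682 (sd)
open Crest.Agent.R158.It200 Crest.Agent.R158.Wf850
open Crest.Agent.R158.Rs689 (nu hf)
open Crest.Agent.R158.Vx107 (chv)
open Crest.Agent.R158.Cn109 (VV)
open Crest.Agent.R158.Gx31
open Real Function MeasureTheory

variable {m r R : ℕ}

theorem Par.geo (h : Par m r R) : Uc31.Geo (256 * m) r R :=
  ⟨h.r3, by have := h.rm; omega, by have := h.mR; omega⟩

theorem yy_eq (m : ℕ) : Mc468.yy m = Uc31.y0 (256 * m) := by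
  unfold Mc468.yy Uc31.y0
  push_cast; rfl

theorem cC_eq (m r R : ℕ) : cC m r R = Uc31.mu (256 * m) r R := by
  unfold cC muC Uc31.mu Uc31.Vb
  rw [VC_true, VC_false, yy_eq]

theorem mC_eq (m r R : ℕ) : Uc31.mC (256 * m) r R (-1) (0, 0) = -chv (cC m r R) (0, 0) := by
  rw [neg_chv, cC_eq]
  unfold Uc31.mC
  rw [neg_one_smul, neg_one_mul, neg_neg]

theorem lin_eq (r R : ℕ) : -Lin aC (kC r R) = Lin Uc31.aC (Uc31.kC r R) := by
  unfold Gx31.Lin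
  rw [Fintype.sum_bool, Fintype.sum_bool]
  unfold aC Uc31.aC
  have e1 : kC r R = Uc31.kC r R := rfl
  rw [e1]
  simp only [if_true, Bool.false_eq_true, if_false]
  ring

/-- **conversion of the local factor** -/
theorem lin_conv : ∃ c : ℝ, 0 ≤ c ∧ ∀ m r R : ℕ, Par m r R →
    Uc31.WC (256 * m) (-1) * (exp (-c) * ((R : ℝ) / r) ^ (-c)) ≤ exp (-Lin aC (kC r R)) := by
  obtain ⟨c, hc, h⟩ := Uc31.lin_C
  refine ⟨c, hc, fun m r R hp => ?_⟩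
  have h1 := (abs_le.1 (h _ _ _ hp.geo)).1
  have hRr := hp.geo.ratio
  have hpos : (0 : ℝ) < (R : ℝ) / r := by linarith
  rw [lin_eq, rpow_def_of_pos hpos, ← exp_add]
  unfold Uc31.WC
  rw [← exp_add]
  apply exp_le_exp.2
  linarith

/-- **LB3x in helper31's notation** -/
theorem LB3n {δ : ℝ} (h0 : 0 < δ) (h1 : δ < 1) : ∃ C : ℝ, 1 ≤ C ∧ ∀ m r R : ℕ, Par m r R →
    ∀ e : Edge, src e = (0, 0) → ∀ s t : Bool,
      exp (Lin Uc31.aC (Uc31.kC r R)) * ((nu hf).real (Mc468.MainE e m r R s t) ^ (1 + δ) / C -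
        C * (nu hf).real (BAD e m r R) ^ (1 - δ)) ≤
      ∫ z, Vn841.nab (Uc31.mC (256 * m) r R (-1) (0, 0)) z e ∂(nu hf) := by
  obtain ⟨C, hC, h⟩ := LB3x h0 h1
  refine ⟨C, hC, fun m r R hp e he s t => ?_⟩
  have h2 := h m r R hp e he s t
  rw [lin_eq] at h2
  rw [mC_eq]
  refine h2.trans (le_of_eq ?_)
  exact integral_congr_ae (Filter.Eventually.of_forall fun z => Vx107.nab_eq' _ z e)

/-! ### the scales -/

/-- the inner radius -/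
def rr (τ : ℝ) (m : ℕ) : ℕ := ⌊((256 * m : ℕ) : ℝ) ^ (1 - τ)⌋₊

/-- the outer radius -/
def RR (τ : ℝ) (m : ℕ) : ℕ := ⌈((256 * m : ℕ) : ℝ) ^ (1 + τ)⌉₊

theorem rr_ge {τ : ℝ} {m : ℕ} (h : 2 ≤ ((256 * m : ℕ) : ℝ) ^ (1 - τ)) :
    ((256 * m : ℕ) : ℝ) ^ (1 - τ) / 2 ≤ rr τ m := by
  have h1 := (Nat.lt_floor_add_one (((256 * m : ℕ) : ℝ) ^ (1 - τ))).le
  unfold rr
  linarith

theorem RR_le {τ : ℝ} {m : ℕ} (h : 1 ≤ ((256 * m : ℕ) : ℝ) ^ (1 + τ)) :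
    (RR τ m : ℝ) ≤ 2 * ((256 * m : ℕ) : ℝ) ^ (1 + τ) := by
  have h1 := (Nat.ceil_lt_add_one (by linarith : 0 ≤ ((256 * m : ℕ) : ℝ) ^ (1 + τ))).le
  unfold RR
  linarith

theorem ratio_le {τ : ℝ} {m : ℕ} (hm : 1 ≤ m) (hτ : 0 ≤ τ) (h : 2 ≤ ((256 * m : ℕ) : ℝ) ^ (1 - τ)) :
    (RR τ m : ℝ) / rr τ m ≤ 4 * ((256 * m : ℕ) : ℝ) ^ (2 * τ) := by
  have hn : (1 : ℝ) ≤ ((256 * m : ℕ) : ℝ) := by exact_mod_cast (by omega : 1 ≤ 256 * m)
  have h1 : 1 ≤ ((256 * m : ℕ) : ℝ) ^ (1 + τ) := one_le_rpow hn (by linarith)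
  have h2 := rr_ge h
  have h3 := RR_le h1
  have h4 : (0 : ℝ) < rr τ m := by linarith
  rw [div_le_iff₀ h4]
  have h5 : ((256 * m : ℕ) : ℝ) ^ (1 + τ) =
      ((256 * m : ℕ) : ℝ) ^ (2 * τ) * ((256 * m : ℕ) : ℝ) ^ (1 - τ) := by
    rw [← rpow_add (by linarith)]; congr 1; ring
  have h6 : 0 ≤ ((256 * m : ℕ) : ℝ) ^ (2 * τ) := by positivity
  calc (RR τ m : ℝ) ≤ 2 * ((256 * m : ℕ) : ℝ) ^ (1 + τ) := h3
    _ = 4 * ((256 * m : ℕ) : ℝ) ^ (2 * τ) * (((256 * m : ℕ) : ℝ) ^ (1 - τ) / 2) := by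
        rw [h5]; ring
    _ ≤ _ := mul_le_mul_of_nonneg_left h2 (by positivity)

theorem tend_n : Filter.Tendsto (fun j : ℕ => ((256 * 2 ^ j : ℕ) : ℝ)) Filter.atTop Filter.atTop := by
  refine tendsto_natCast_atTop_atTop.comp ?_
  exact Filter.tendsto_atTop_mono (fun j => by
    have h1 := Nat.lt_two_pow_self (n := j)
    show j ≤ 256 * 2 ^ j
    generalize 2 ^ j = a at h1 ⊢
    omega) Filter.tendsto_id

/-- the factor of the conversion is `≥ n ^ (-ε)` -/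
theorem conv_small {c ε τ : ℝ} (hc : 0 ≤ c) (hε : 0 < ε) (hτ : 0 < τ) (hτ1 : τ < 1 / 2)
    (hτ2 : 2 * τ * c ≤ ε / 2) : ∀ᶠ j : ℕ in Filter.atTop,
    ((256 * 2 ^ j : ℕ) : ℝ) ^ (-ε) ≤
      exp (-c) * ((RR τ (2 ^ j) : ℝ) / rr τ (2 ^ j)) ^ (-c) := by
  have t1 : Filter.Tendsto (fun j : ℕ => ((256 * 2 ^ j : ℕ) : ℝ) ^ (1 - τ)) Filter.atTop
      Filter.atTop := (tendsto_rpow_atTop (by linarith)).comp tend_n
  have t2 : Filter.Tendsto (fun j : ℕ => ((256 * 2 ^ j : ℕ) : ℝ) ^ (ε / 2)) Filter.atTop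
      Filter.atTop := (tendsto_rpow_atTop (by linarith)).comp tend_n
  filter_upwards [t1.eventually_ge_atTop 2, t2.eventually_ge_atTop (exp c * 4 ^ c)] with j h1 h2
  set n : ℝ := ((256 * 2 ^ j : ℕ) : ℝ) with hn
  have hn1 : (1 : ℝ) ≤ n := by
    rw [hn]
    exact_mod_cast (by have := Nat.one_le_two_pow (n := j); omega : 1 ≤ 256 * 2 ^ j)
  have hn0 : 0 < n := by linarith
  have h3 := ratio_le (m := 2 ^ j) Nat.one_le_two_pow hτ.le h1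
  rw [← hn] at h3
  have hr0 : (0 : ℝ) < rr τ (2 ^ j) := by
    have := rr_ge (m := 2 ^ j) h1
    rw [← hn] at this
    linarith
  have hR0 : (0 : ℝ) < RR τ (2 ^ j) := by
    unfold RR
    exact_mod_cast Nat.ceil_pos.2 (by positivity)
  have hpos : 0 < (RR τ (2 ^ j) : ℝ) / rr τ (2 ^ j) := by positivity
  have h4 : (4 * n ^ (2 * τ)) ^ (-c) ≤ ((RR τ (2 ^ j) : ℝ) / rr τ (2 ^ j)) ^ (-c) :=
    rpow_le_rpow_of_nonpos hpos h3 (by linarith)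
  refine le_trans ?_ (mul_le_mul_of_nonneg_left h4 (exp_pos _).le)
  rw [mul_rpow (by norm_num) (by positivity), ← rpow_mul hn0.le]
  have h5 : n ^ (-(ε / 2)) ≤ n ^ (2 * τ * -c) :=
    rpow_le_rpow_of_exponent_le hn1 (by linarith)
  have h6 : n ^ (-(ε / 2)) * (exp c * 4 ^ c) ≤ 1 := by
    have h7 : n ^ (-(ε / 2)) * n ^ (ε / 2) = 1 := by
      rw [← rpow_add hn0]; simp
    calc n ^ (-(ε / 2)) * (exp c * 4 ^ c) ≤ n ^ (-(ε / 2)) * n ^ (ε / 2) :=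
          mul_le_mul_of_nonneg_left h2 (by positivity)
      _ = 1 := h7
  have h8 : n ^ (-(ε / 2)) ≤ exp (-c) * 4 ^ (-c) := by
    have h9 : exp (-c) * (4 : ℝ) ^ (-c) * (exp c * 4 ^ c) = 1 := by
      have e1 : exp (-c) * exp c = 1 := by rw [← exp_add]; simp
      have e2 : (4 : ℝ) ^ (-c) * 4 ^ c = 1 := by rw [← rpow_add (by norm_num)]; simp
      calc exp (-c) * (4 : ℝ) ^ (-c) * (exp c * 4 ^ c) =
          (exp (-c) * exp c) * ((4 : ℝ) ^ (-c) * 4 ^ c) := by ring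
        _ = 1 := by rw [e1, e2, one_mul]
    have h10 : 0 < exp c * (4 : ℝ) ^ c := mul_pos (exp_pos _) (rpow_pos_of_pos (by norm_num) _)
    exact le_of_mul_le_mul_right (by rw [h9]; exact h6) h10
  calc n ^ (-ε) = n ^ (-(ε / 2)) * n ^ (-(ε / 2)) := by rw [← rpow_add hn0]; congr 1; ring
    _ ≤ (exp (-c) * 4 ^ (-c)) * n ^ (2 * τ * -c) :=
        mul_le_mul h8 h5 (by positivity) (by positivity)
    _ = _ := by ring

end Crest.Agent.R158.Lb841
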