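import Crest.Agent.R158.Lb5_841

/-!
# R158, leaf LB3 of doc 1912 (helper841), part 6: the final form

* `Arith` : helper468's arithmetic
* `LB3`, `lb3_of`
-/

set_option autoImplicit false

noncomputable section

namespace Crest.Agent.R158.Lb841

open Crest.Agent.R161.Geo729 Crest.Agent.R161.Dual374
open Crest.Agent.R161.Tas682 (sd)
open Crest.Agent.R158.It200 Crest.Agent.R158.Wf850
open Crest.Agent.R158.Rs689 (nu hf)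
open Crest.Agent.R158.Gx31
open Real Function MeasureTheory Filter

/-- the arithmetic of LB3 (helper468) -/
def Arith : Prop := ∀ ε : ℝ, 0 < ε → ∃ τ0 : ℝ, 0 < τ0 ∧ τ0 < 1 / 2 ∧ ∀ τ : ℝ, 0 < τ → τ ≤ τ0 →
  ∃ δ : ℝ, 0 < δ ∧ δ < 1 ∧ ∀ C : ℝ, 1 ≤ C → ∀ᶠ j : ℕ in atTop,
    Par (2 ^ j) (rr τ (2 ^ j)) (RR τ (2 ^ j)) ∧ ∀ e : Edge, src e = (0, 0) → ∃ s t : Bool,
      ((256 * 2 ^ j : ℕ) : ℝ) ^ (-ε) * (nu hf).real (Sp580.A4 e (4 * 2 ^ j)) ≤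
        (nu hf).real (Mc468.MainE e (2 ^ j) (rr τ (2 ^ j)) (RR τ (2 ^ j)) s t) ^ (1 + δ) / C -
          C * (nu hf).real (BAD e (2 ^ j) (rr τ (2 ^ j)) (RR τ (2 ^ j))) ^ (1 - δ)

/-- **LB3** : the lower bound of identity C -/
def LB3 : Prop := ∀ ε : ℝ, 0 < ε → ∃ τ0 : ℝ, 0 < τ0 ∧ τ0 < 1 / 2 ∧ ∀ τ : ℝ, 0 < τ → τ ≤ τ0 →
  ∀ᶠ j : ℕ in atTop, Uc31.Geo (256 * 2 ^ j) (rr τ (2 ^ j)) (RR τ (2 ^ j)) ∧
    ∀ e : Edge, src e = (0, 0) →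
      ((256 * 2 ^ j : ℕ) : ℝ) ^ (-ε) * Uc31.WC (256 * 2 ^ j) (-1) *
        (nu hf).real (Sp580.A4 e (4 * 2 ^ j)) ≤
      ∫ z, Vn841.nab (Uc31.mC (256 * 2 ^ j) (rr τ (2 ^ j)) (RR τ (2 ^ j)) (-1) (0, 0)) z e ∂(nu hf)

theorem lb3_of (h : Arith) : LB3 := by
  intro ε hε
  obtain ⟨c, hc, hconv⟩ := lin_conv
  obtain ⟨τ1, h1, h1', harith⟩ := h (ε / 2) (by linarith)
  refine ⟨min τ1 (ε / (8 * (c + 1))), lt_min h1 (by positivity), (min_le_left _ _).trans_lt h1',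
    fun τ hτ hτ0 => ?_⟩
  have hτ1 : τ ≤ τ1 := hτ0.trans (min_le_left _ _)
  have hτ2 : τ ≤ ε / (8 * (c + 1)) := hτ0.trans (min_le_right _ _)
  obtain ⟨δ, hδ0, hδ1, hC⟩ := harith τ hτ hτ1
  obtain ⟨C, hC1, hlb⟩ := LB3n hδ0 hδ1
  have hsm : 2 * τ * c ≤ ε / 2 / 2 := by
    rw [le_div_iff₀ (by positivity)] at hτ2
    nlinarith
  filter_upwards [hC C hC1, conv_small hc (half_pos hε) hτ (hτ1.trans_lt h1') hsm] with j hj hcs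
  obtain ⟨hpar, hj⟩ := hj
  refine ⟨hpar.geo, fun e he => ?_⟩
  obtain ⟨s, t, hst⟩ := hj e he
  have k1 := hlb _ _ _ hpar e he s t
  refine le_trans ?_ k1
  rw [← lin_eq]
  have k2 := hconv _ _ _ hpar
  set n : ℝ := ((256 * 2 ^ j : ℕ) : ℝ) with hn
  have hn0 : (0 : ℝ) < n := by
    rw [hn]
    exact_mod_cast (by have := Nat.one_le_two_pow (n := j); omega : 0 < 256 * 2 ^ j)
  have hP : 0 ≤ (nu hf).real (Sp580.A4 e (4 * 2 ^ j)) := measureReal_nonneg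
  have hW := Uc31.WC_pos (256 * 2 ^ j) (-1)
  have e1 : n ^ (-ε) = n ^ (-(ε / 2)) * n ^ (-(ε / 2)) := by
    rw [← rpow_add hn0]; congr 1; ring
  calc n ^ (-ε) * Uc31.WC (256 * 2 ^ j) (-1) * (nu hf).real (Sp580.A4 e (4 * 2 ^ j))
      = (Uc31.WC (256 * 2 ^ j) (-1) * n ^ (-(ε / 2))) *
          (n ^ (-(ε / 2)) * (nu hf).real (Sp580.A4 e (4 * 2 ^ j))) := by rw [e1]; ring
    _ ≤ exp (-Lin aC (kC (rr τ (2 ^ j)) (RR τ (2 ^ j)))) *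
          ((nu hf).real (Mc468.MainE e (2 ^ j) (rr τ (2 ^ j)) (RR τ (2 ^ j)) s t) ^ (1 + δ) / C -
          C * (nu hf).real (BAD e (2 ^ j) (rr τ (2 ^ j)) (RR τ (2 ^ j))) ^ (1 - δ)) := by
        refine mul_le_mul ?_ hst (by positivity) (exp_pos _).le
        exact (mul_le_mul_of_nonneg_left hcs hW.le).trans k2

end Crest.Agent.R158.Lb841
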