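import Crest.Agent.R158.Mc6_468
import Crest.Agent.R158.Lb3_841

/-!
# Row 158, Block A4 / LB3 (helper468), part 7: choice of the scales (dyadic `m = 2 ^ j`)

* `rr τ m = ⌊(256 m)^(1-τ)⌋₊`, `RR τ m = ⌈(256 m)^(1+τ)⌉₊`
* `arith841` : the arithmetic of LB3 in helper841's literal form
-/

set_option autoImplicit false

noncomputable section

namespace Crest.Agent.R158.Mc468

open MeasureTheory ProbabilityTheory unitInterval Filter Topology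
open Crest.Agent.R161.Geo729 Crest.Agent.R161.Topo374 Crest.Agent.R161.Dual374
open Crest.Agent.R161.Tas682
open Crest.Agent.R158.Qm522 Crest.Agent.R158.Rs689
open Crest.Agent.R158.Ru874 Crest.Agent.R158.Sp580 Crest.Agent.R158.Ac109
open Crest.Agent.R158.Lb841 (Bad Par)

/-- inner scale -/
def rr (τ : ℝ) (m : ℕ) : ℕ := ⌊((256 * m : ℕ) : ℝ) ^ (1 - τ)⌋₊

/-- outer scale -/
def RR (τ : ℝ) (m : ℕ) : ℕ := ⌈((256 * m : ℕ) : ℝ) ^ (1 + τ)⌉₊

/-- the scales, eventually in the real variable `x` (`m = x`) -/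
theorem scales {τ : ℝ} (h0 : 0 < τ) (h1 : τ ≤ 1 / 4) : ∀ᶠ m : ℕ in atTop,
    3 ≤ rr τ m ∧ (rr τ m : ℝ) ≤ (m : ℝ) ^ (1 - τ / 2) ∧ (m : ℝ) ^ (1 + τ / 2) ≤ RR τ m ∧
      (RR τ m : ℝ) ≤ (m : ℝ) ^ (3 : ℝ) ∧ rr τ m ≤ 2 * m ∧ 4096 * m ≤ RR τ m ∧
      ((256 * m : ℕ) : ℝ) ^ (-(2 * τ)) / 4 ≤ (rr τ m : ℝ) / RR τ m := by
  have htc : Tendsto (fun m : ℕ => (m : ℝ)) atTop atTop := tendsto_natCast_atTop_atTop
  have t1 : Tendsto (fun m : ℕ => (m : ℝ) ^ (τ / 2)) atTop atTop :=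
    (tendsto_rpow_atTop (by positivity)).comp htc
  filter_upwards [t1.eventually_ge_atTop 4096, htc.eventually_ge_atTop 4096] with m h2 h3
  have m0 : (0 : ℝ) < m := by linarith
  have m1 : (1 : ℝ) ≤ m := by linarith
  set N : ℝ := ((256 * m : ℕ) : ℝ) with hN
  have hNm : N = 256 * m := by rw [hN]; push_cast; ring
  have N0 : 0 < N := by rw [hNm]; positivity
  have N1 : 1 ≤ N := by rw [hNm]; linarith
  have hmN : (m : ℝ) ≤ N := by rw [hNm]; linarith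
  -- N ^ (1 - τ)
  have a1 : N ^ (1 - τ) ≤ (m : ℝ) ^ (1 - τ / 2) := by
    rw [hNm, Real.mul_rpow (by norm_num) m0.le]
    have e1 : (m : ℝ) ^ (1 - τ / 2) = (m : ℝ) ^ (τ / 2) * (m : ℝ) ^ (1 - τ) := by
      rw [← Real.rpow_add m0]; congr 1; ring
    rw [e1]
    refine mul_le_mul_of_nonneg_right ?_ (by positivity)
    calc (256 : ℝ) ^ (1 - τ) ≤ 256 ^ (1 : ℝ) :=
          Real.rpow_le_rpow_of_exponent_le (by norm_num) (by linarith)
      _ = 256 := Real.rpow_one _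
      _ ≤ _ := by linarith
  have a2 : (16 : ℝ) ≤ N ^ (1 - τ) := by
    calc (16 : ℝ) ≤ (4096 : ℝ) ^ (1 / 2 : ℝ) := by
          rw [show (4096 : ℝ) = 64 ^ (2 : ℝ) by norm_num, ← Real.rpow_mul (by norm_num)]
          norm_num
      _ ≤ N ^ (1 / 2 : ℝ) := Real.rpow_le_rpow (by norm_num) (h3.trans hmN) (by norm_num)
      _ ≤ N ^ (1 - τ) := Real.rpow_le_rpow_of_exponent_le N1 (by linarith)
  have b1 : (rr τ m : ℝ) ≤ N ^ (1 - τ) := Nat.floor_le (by positivity)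
  have b2 : N ^ (1 - τ) < (rr τ m : ℝ) + 1 := Nat.lt_floor_add_one _
  have b3 : N ^ (1 + τ) ≤ (RR τ m : ℝ) := Nat.le_ceil _
  have b4 : (RR τ m : ℝ) < N ^ (1 + τ) + 1 := Nat.ceil_lt_add_one (by positivity)
  have c1 : 1 ≤ N ^ (1 + τ) := Real.one_le_rpow N1 (by linarith)
  have c2 : (RR τ m : ℝ) ≤ 2 * N ^ (1 + τ) := by linarith
  have c3 : N ^ (1 - τ) / 2 ≤ (rr τ m : ℝ) := by linarith
  -- lower bound of RR
  have d1 : (m : ℝ) ^ (1 + τ / 2) ≤ N ^ (1 + τ) :=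
    (Real.rpow_le_rpow m0.le hmN (by positivity)).trans
      (Real.rpow_le_rpow_of_exponent_le N1 (by linarith))
  have d2 : (m : ℝ) ^ (1 + τ / 2) = m * (m : ℝ) ^ (τ / 2) := by
    rw [Real.rpow_add m0, Real.rpow_one]
  have mτ : (m : ℝ) ^ (-(τ / 2)) ≤ 1 := Real.rpow_le_one_of_one_le_of_nonpos m1 (by linarith)
  refine ⟨?_, b1.trans a1, d1.trans b3, ?_, ?_, ?_, ?_⟩
  · have : (3 : ℝ) ≤ rr τ m := by linarith
    exact_mod_cast this
  · -- RR ≤ m ^ 3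
    have e1 : N ^ (1 + τ) ≤ N ^ (2 : ℝ) := Real.rpow_le_rpow_of_exponent_le N1 (by linarith)
    -- use N ^ (5/4) = 256 ^ (5/4) m ^ (5/4) ≤ 1024 m ^ (5/4)
    have e2 : N ^ (1 + τ) ≤ N ^ (5 / 4 : ℝ) := Real.rpow_le_rpow_of_exponent_le N1 (by linarith)
    have e3 : N ^ (5 / 4 : ℝ) = 1024 * (m : ℝ) ^ (5 / 4 : ℝ) := by
      rw [hNm, Real.mul_rpow (by norm_num) m0.le]
      congr 1
      rw [show (256 : ℝ) = 4 ^ (4 : ℝ) by norm_num, ← Real.rpow_mul (by norm_num)]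
      norm_num
    have e4 : (m : ℝ) ^ (5 / 4 : ℝ) ≤ (m : ℝ) ^ (2 : ℝ) :=
      Real.rpow_le_rpow_of_exponent_le m1 (by norm_num)
    have e5 : (m : ℝ) ^ (3 : ℝ) = m * (m : ℝ) ^ (2 : ℝ) := by
      rw [show (3 : ℝ) = 1 + 2 by norm_num, Real.rpow_add m0, Real.rpow_one]
    have e6 : (0 : ℝ) < (m : ℝ) ^ (2 : ℝ) := by positivity
    have e7 := mul_le_mul_of_nonneg_right h3 e6.le
    rw [e5]
    rw [e3] at e2
    linarith
  · have h5 : (rr τ m : ℝ) ≤ m := by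
      refine (b1.trans a1).trans ?_
      have : (m : ℝ) ^ (1 - τ / 2) = m * (m : ℝ) ^ (-(τ / 2)) := by
        rw [sub_eq_add_neg, Real.rpow_add m0, Real.rpow_one]
      rw [this]
      nlinarith
    have h6 : rr τ m ≤ m := by exact_mod_cast h5
    omega
  · have h5 : (4096 : ℝ) * m ≤ RR τ m := by
      refine le_trans ?_ (d1.trans b3)
      rw [d2]
      nlinarith
    exact_mod_cast h5
  · have R0 : (0 : ℝ) < RR τ m := by linarith
    rw [le_div_iff₀ R0]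
    have h5 : N ^ (-(2 * τ)) * N ^ (1 + τ) = N ^ (1 - τ) := by
      rw [← Real.rpow_add N0]; congr 1; ring
    have h6 : (0 : ℝ) < N ^ (-(2 * τ)) := by positivity
    calc N ^ (-(2 * τ)) / 4 * (RR τ m : ℝ) ≤ N ^ (-(2 * τ)) / 4 * (2 * N ^ (1 + τ)) :=
          mul_le_mul_of_nonneg_left c2 (by positivity)
      _ = N ^ (1 - τ) / 2 := by rw [← h5]; ring
      _ ≤ _ := c3

/-- **arithmetic of LB3** (`m = 2 ^ j`) -/
theorem arith841 : ∀ ε : ℝ, 0 < ε → ∃ τ0 : ℝ, 0 < τ0 ∧ τ0 < 1 / 2 ∧ ∀ τ : ℝ, 0 < τ → τ ≤ τ0 →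
    ∃ δ : ℝ, 0 < δ ∧ δ < 1 ∧ ∀ C : ℝ, 1 ≤ C → ∀ᶠ j : ℕ in atTop,
      Par (2 ^ j) (rr τ (2 ^ j)) (RR τ (2 ^ j)) ∧ ∀ e : Edge, src e = (0, 0) → ∃ s t : Bool,
        ((256 * 2 ^ j : ℕ) : ℝ) ^ (-ε) * (nu hf).real (A4 e (4 * (2 ^ j : ℕ))) ≤
          (nu hf).real (MainE e (2 ^ j) (rr τ (2 ^ j)) (RR τ (2 ^ j)) s t) ^ (1 + δ) / C -
            C * (nu hf).real (BadS e (2 ^ j) (rr τ (2 ^ j)) (RR τ (2 ^ j))) ^ (1 - δ) := by
  intro ε hε
  refine ⟨min (1 / 4) (ε / 8), lt_min (by norm_num) (by positivity),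
    lt_of_le_of_lt (min_le_left _ _) (by norm_num), fun τ hτ hττ => ?_⟩
  have τ1 : τ ≤ 1 / 4 := hττ.trans (min_le_left _ _)
  have τ2 : τ ≤ ε / 8 := hττ.trans (min_le_right _ _)
  obtain ⟨δ0, hδ0, hδ1, c, hc, c2, K2, hc2, hK2, hdom⟩ := dom (η := τ / 2) (A := 3)
    (by positivity) (by norm_num)
  refine ⟨min δ0 (ε / (4 * (K2 + 1))), lt_min hδ0 (by positivity),
    lt_of_le_of_lt (min_le_left _ _) (by linarith), fun C hC => ?_⟩
  set δ := min δ0 (ε / (4 * (K2 + 1))) with hδ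
  have δ0' : 0 < δ := lt_min hδ0 (by positivity)
  have δ1 : δ ≤ δ0 := min_le_left _ _
  have δ2 : δ * (4 * (K2 + 1)) ≤ ε := by
    have : δ ≤ ε / (4 * (K2 + 1)) := min_le_right _ _
    rwa [le_div_iff₀ (by positivity)] at this
  have δ3 : K2 * δ ≤ ε / 4 := by nlinarith
  have C0 : 0 < C := by linarith
  have hj1 := hdom δ δ0' δ1 (2 * C ^ 2) (by positivity)
  have htend : Tendsto (fun j : ℕ => (2 ^ j : ℕ)) atTop atTop :=
    tendsto_pow_atTop_atTop_of_one_lt (by norm_num)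
  have hj2 := htend.eventually (scales hτ τ1)
  have hlim : Tendsto (fun j : ℕ => ((256 * 2 ^ j : ℕ) : ℝ) ^ (-(ε / 2))) atTop (𝓝 0) := by
    refine (tendsto_rpow_neg_atTop (by positivity)).comp ?_
    refine tendsto_natCast_atTop_atTop.comp ?_
    refine tendsto_atTop_mono (fun j => ?_) htend
    exact Nat.le_mul_of_pos_left _ (by norm_num)
  have hj3 := hlim.eventually_lt_const (show (0 : ℝ) < c * c2 ^ δ / (8 * C) by positivity)
  filter_upwards [hj1, hj2, hj3] with j h1 h2 h3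
  obtain ⟨g1, g2, g3, g4, g5, g6, g7⟩ := h2
  refine ⟨⟨Nat.one_le_two_pow, g1, g5, g6⟩, fun e he => ?_⟩
  have hcast : ((2 ^ j : ℕ) : ℝ) = (2 : ℝ) ^ j := by push_cast; rfl
  rw [hcast] at g2 g3 g4
  obtain ⟨s, t, k1, k2, k3⟩ := h1 (rr τ (2 ^ j)) (RR τ (2 ^ j)) (by omega) g2 g3 g4 e he
  refine ⟨s, t, ?_⟩
  set M := (nu hf).real (MainE e (2 ^ j) (rr τ (2 ^ j)) (RR τ (2 ^ j)) s t) with hM
  set B := (nu hf).real (BadS e (2 ^ j) (rr τ (2 ^ j)) (RR τ (2 ^ j))) with hB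
  set p := (nu hf).real (A4 e (4 * (2 ^ j : ℕ))) with hp
  set x : ℝ := (2 : ℝ) ^ j with hx
  set N : ℝ := ((256 * 2 ^ j : ℕ) : ℝ) with hN
  have x1 : 1 ≤ x := one_le_pow₀ (by norm_num)
  have x0 : 0 < x := by linarith
  have hNx : N = 256 * x := by rw [hN]; push_cast; rfl
  have N0 : 0 < N := by rw [hNx]; positivity
  have N1 : 1 ≤ N := by rw [hNx]; linarith
  have hxN : x ≤ N := by rw [hNx]; linarith
  have p0 : 0 ≤ p := measureReal_nonneg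
  have M0 : 0 < M := lt_of_lt_of_le (by positivity) k3
  -- main side
  have m1 : M ^ (1 + δ) = M * M ^ δ := by rw [Real.rpow_add M0, Real.rpow_one]
  have m2 : c2 ^ δ * N ^ (-(ε / 4)) ≤ M ^ δ := by
    have q1 : (c2 * x ^ (-K2)) ^ δ ≤ M ^ δ := Real.rpow_le_rpow (by positivity) k3 δ0'.le
    refine le_trans ?_ q1
    rw [Real.mul_rpow hc2.le (by positivity), ← Real.rpow_mul x0.le]
    refine mul_le_mul_of_nonneg_left ?_ (by positivity)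
    calc N ^ (-(ε / 4)) ≤ N ^ (-K2 * δ) :=
          Real.rpow_le_rpow_of_exponent_le N1 (by linarith)
      _ ≤ x ^ (-K2 * δ) := Real.rpow_le_rpow_of_nonpos x0 hxN (by nlinarith)
  have m3 : c * (N ^ (-(ε / 4)) / 4) * p ≤ M := by
    refine le_trans ?_ k2
    refine mul_le_mul_of_nonneg_right (mul_le_mul_of_nonneg_left ?_ hc.le) p0
    refine le_trans ?_ g7
    have : N ^ (-(ε / 4)) ≤ N ^ (-(2 * τ)) :=
      Real.rpow_le_rpow_of_exponent_le N1 (by linarith)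
    linarith
  have m4 : c * (N ^ (-(ε / 4)) / 4) * p * (c2 ^ δ * N ^ (-(ε / 4))) ≤ M ^ (1 + δ) := by
    rw [m1]
    exact mul_le_mul m3 m2 (by positivity) M0.le
  have m5 : N ^ (-ε) = N ^ (-(ε / 4)) * N ^ (-(ε / 4)) * N ^ (-(ε / 2)) := by
    rw [← Real.rpow_add N0, ← Real.rpow_add N0]
    congr 1
    ring
  have m6 : N ^ (-ε) * p ≤ M ^ (1 + δ) / (2 * C) := by
    rw [le_div_iff₀ (by positivity)]
    refine le_trans ?_ m4
    rw [m5]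
    have h5 : N ^ (-(ε / 2)) * (8 * C) ≤ c * c2 ^ δ := by
      have := h3.le
      rwa [le_div_iff₀ (by positivity)] at this
    have h6 : 0 ≤ N ^ (-(ε / 4)) * N ^ (-(ε / 4)) * p / 4 := by positivity
    have h7 := mul_le_mul_of_nonneg_left h5 h6
    calc N ^ (-(ε / 4)) * N ^ (-(ε / 4)) * N ^ (-(ε / 2)) * p * (2 * C)
        = N ^ (-(ε / 4)) * N ^ (-(ε / 4)) * p / 4 * (N ^ (-(ε / 2)) * (8 * C)) := by ring
      _ ≤ _ := h7
      _ = _ := by ring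
  have m7 : C * B ^ (1 - δ) ≤ M ^ (1 + δ) / (2 * C) := by
    rw [le_div_iff₀ (by positivity)]
    refine le_trans (le_of_eq ?_) k1
    ring
  have m8 : M ^ (1 + δ) / C = M ^ (1 + δ) / (2 * C) + M ^ (1 + δ) / (2 * C) := by
    field_simp
    ring
  rw [m8]
  linarith

end Crest.Agent.R158.Mc468
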