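import Crest.Agent.R158.Lb6_841
import Crest.Agent.R158.Mc7_468

/-!
# R158, leaf LB3 of doc 1912 (helper841), part 7: `LB3`
-/

set_option autoImplicit false

noncomputable section

namespace Crest.Agent.R158.Lb841

open Crest.Agent.R161.Geo729 Crest.Agent.R161.Dual374
open Crest.Agent.R158.Rs689 (nu hf)
open Real Function MeasureTheory Filter

theorem arith : Arith := by
  intro ε hε
  obtain ⟨τ0, h1, h2, h⟩ := Mc468.arith841 ε hε
  refine ⟨τ0, h1, h2, fun τ hτ hτ0 => ?_⟩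
  obtain ⟨δ, h3, h4, h5⟩ := h τ hτ hτ0
  refine ⟨δ, h3, h4, fun C hC => ?_⟩
  filter_upwards [h5 C hC] with j hj
  refine ⟨hj.1, fun e he => ?_⟩
  obtain ⟨s, t, hst⟩ := hj.2 e he
  refine ⟨s, t, ?_⟩
  have e1 : (4 * 2 ^ j : ℤ) = 4 * ((2 ^ j : ℕ) : ℤ) := by push_cast; ring
  rw [e1]
  exact hst

/-- **LB3** (identity C, lower bound) -/
theorem lb3 : LB3 := lb3_of arith

end Crest.Agent.R158.Lb841
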