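import Crest.Agent.R158.Em2_522
import Crest.Agent.R158.It2_200

/-!
# Row 158 (helper522): (L7) = exponential moments of the number of macroscopic loops at `p = 1/2`

* `inj_in`, `inj_out` : a finite strand is determined by its inner cluster
* `exp_loops` : for all `a ≥ 1` and `κ` there is `C` such that for all `x` and `n ≥ 1` the number of
  finite strands with a corner in the ball `κ n` of `x` and with diameter `≥ n` is bounded by a
  number `K z` which only depends on the edges of the ball `(κ+1) n`, and `∫ a^K ≤ C`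
* `exp_loops_int` : the same for the interiors which split the ball `B(x,n)` and have `dia + 1 ≥ n/2`
-/

set_option autoImplicit false

noncomputable section

namespace Crest.Agent.R158.Lc522

open Finset unitInterval
open MeasureTheory hiding Lp
open Crest.Agent.R161.Geo729 Crest.Agent.R161.Topo374 Crest.Agent.R161.Dual374
open Crest.Agent.R161.Tas682
open Crest.Agent.R158.Rs689 Crest.Agent.R158.Em522
open Crest.Agent.R158.It200 hiding Cfz

/-! ### the maximal number of disjoint pieces -/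

/-- `k` pairwise edge-disjoint pieces made of open edges of `E` -/
def HasP (x : P2) (r n : ℤ) (E : Finset Edge) (z : Cfz) (k : ℕ) : Prop :=
  ∃ f : Fin k → Finset Edge, (∀ i, ∀ e ∈ f i, e ∈ E ∧ z e = true) ∧
    (∀ i j, i ≠ j → Disjoint (f i) (f j)) ∧ ∀ i, Piece x r n (f i)

/-- maximal number of pieces -/
def NP (x : P2) (r n : ℤ) (E : Finset Edge) (z : Cfz) : ℕ := sSup {k | HasP x r n E z k}

theorem hasP_zero (x : P2) (r n : ℤ) (E : Finset Edge) (z : Cfz) : HasP x r n E z 0 :=
  ⟨fun i => i.elim0, fun i => i.elim0, fun i => i.elim0, fun i => i.elim0⟩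

theorem hasP_bdd {x : P2} {r n : ℕ} (hn : 1 ≤ n) {E : Finset Edge} {z : Cfz} :
    BddAbove {k | HasP x r n E z k} := by
  refine ⟨(2 * r + 2) * (2 * r + 2) * 2, ?_⟩
  rintro k ⟨f, _, h2, h3⟩
  exact card_pieces hn f h2 h3

theorem hasP_NP {x : P2} {r n : ℕ} (hn : 1 ≤ n) {E : Finset Edge} {z : Cfz} :
    HasP x r n E z (NP x r n E z) :=
  Nat.sSup_mem ⟨0, hasP_zero _ _ _ _ _⟩ (hasP_bdd hn)

theorem le_NP {x : P2} {r n : ℕ} (hn : 1 ≤ n) {E : Finset Edge} {z : Cfz} {k : ℕ}
    (h : HasP x r n E z k) : k ≤ NP x r n E z :=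
  le_csSup (hasP_bdd hn) h

theorem NP_dep {x : P2} {r n : ℤ} {E : Finset Edge} {z z' : Cfz} (h : ∀ e ∈ E, z e = z' e) :
    NP x r n E z = NP x r n E z' := by
  unfold NP
  congr 1
  ext k
  constructor
  · rintro ⟨f, h1, h2, h3⟩
    exact ⟨f, fun i e he => ⟨(h1 i e he).1, (h e (h1 i e he).1) ▸ (h1 i e he).2⟩, h2, h3⟩
  · rintro ⟨f, h1, h2, h3⟩
    exact ⟨f, fun i e he => ⟨(h1 i e he).1, (h e (h1 i e he).1).symm ▸ (h1 i e he).2⟩, h2, h3⟩

theorem card_le_NP {x : P2} {r n : ℕ} (hn : 1 ≤ n) {E : Finset Edge} {z : Cfz} {ι : Type*}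
    (s : Finset ι) (g : ι → Finset Edge) (h1 : ∀ i ∈ s, ∀ e ∈ g i, e ∈ E ∧ z e = true)
    (h2 : ∀ i ∈ s, ∀ j ∈ s, i ≠ j → Disjoint (g i) (g j)) (h3 : ∀ i ∈ s, Piece x r n (g i)) :
    s.card ≤ NP x r n E z := by
  refine le_NP hn ⟨fun k => g (s.equivFin.symm k), fun k => h1 _ (s.equivFin.symm k).2, ?_,
    fun k => h3 _ (s.equivFin.symm k).2⟩
  intro i j hij
  refine h2 _ (s.equivFin.symm i).2 _ (s.equivFin.symm j).2 fun h => hij ?_
  exact s.equivFin.symm.injective (Subtype.ext h)

/-! ### a path to a far away point contains a piece -/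

open Classical in
/-- the open edges of the cluster of `v` in the ball of radius `R` -/
def cT (z : Cfz) (x : P2) (R : ℕ) (v : P2) : Finset Edge :=
  (starE x R).filter fun e => z e = true ∧ Rch z v (src e)

theorem mem_starE {x : P2} {R : ℕ} {e : Edge} (h : sd x (src e) ≤ R) : e ∈ starE x R := by
  rw [sd_le] at h
  obtain ⟨⟨i, j⟩, k⟩ := e
  rw [src_mk] at h
  unfold starE
  rw [mem_product, mem_product, mem_Icc, mem_Icc]
  simp only at h ⊢
  refine ⟨⟨⟨?_, ?_⟩, ?_, ?_⟩, mem_univ _⟩ <;> omega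

theorem sd_self (v : P2) : sd v v = 0 := by unfold sd; simp

theorem sd_nbr {v u w : P2} {Z : Edge → Prop} (h : PStep Z u w) : sd v w ≤ sd v u + 1 := by
  have h1 : |w.1 - u.1| ≤ 1 ∧ |w.2 - u.2| ≤ 1 := by
    obtain ⟨⟨⟨i, j⟩, k⟩, _, h⟩ := h
    cases k
    · rw [src_mk, tgt_h] at h
      rcases h with ⟨h6, h7⟩ | ⟨h6, h7⟩ <;> rw [h6, h7] <;> simp
    · rw [src_mk, tgt_v] at h
      rcases h with ⟨h6, h7⟩ | ⟨h6, h7⟩ <;> rw [h6, h7] <;> simp
  have h2 := sd_triangle u v w
  have h3 : sd u w ≤ 1 := max_le h1.1 h1.2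
  linarith

theorem piece_of_path {z : Cfz} {x v u : P2} {r n R : ℕ} (hv : sd x v ≤ r) (hR : r + n ≤ R)
    (h : Rch z v u) (hn : n ≤ sd v u) : Piece x r n (cT z x R v) := by
  classical
  have key : ∀ u, Rch z v u →
      (∃ u', (n : ℤ) ≤ sd v u' ∧ Relation.ReflTransGen (PStep (fun e => e ∈ cT z x R v)) v u') ∨
      (sd v u < n ∧ Relation.ReflTransGen (PStep (fun e => e ∈ cT z x R v)) v u) := by
    intro u hu
    induction hu with
    | refl =>
        rcases le_or_gt (n : ℤ) (sd v v) with h | h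
        · exact Or.inl ⟨v, h, .refl⟩
        · exact Or.inr ⟨h, .refl⟩
    | @tail a b hab hs ih =>
        rcases ih with h | ⟨h1, h2⟩
        · exact Or.inl h
        · have h3 : PStep (fun e => e ∈ cT z x R v) a b := by
            obtain ⟨e, he, hE⟩ := hs
            have h4 : Rch z v (src e) ∧ sd v (src e) ≤ n := by
              rcases hE with ⟨h5, h6⟩ | ⟨h5, h6⟩
              · rw [← h5]; exact ⟨hab, h1.le⟩
              · rw [← h6]
                refine ⟨hab.tail ⟨e, he, Or.inr ⟨h5, h6⟩⟩, ?_⟩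
                have := sd_nbr (v := v) (Z := fun _ => True) (u := a) (w := b)
                  ⟨e, trivial, Or.inr ⟨h5, h6⟩⟩
                linarith
            refine ⟨e, ?_, hE⟩
            refine mem_filter.2 ⟨mem_starE ?_, he, h4.1⟩
            have h5 := sd_triangle v x (src e)
            have h6 : ((r + n : ℕ) : ℤ) ≤ R := by exact_mod_cast hR
            push_cast at h6
            linarith [h4.2]
          rcases le_or_gt (n : ℤ) (sd v b) with h | h
          · exact Or.inl ⟨b, h, h2.tail h3⟩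
          · exact Or.inr ⟨h, h2.tail h3⟩
  rcases key u h with ⟨u', h1, h2⟩ | ⟨h1, _⟩
  · exact ⟨v, u', hv, h1, h2⟩
  · omega

theorem piece_mono {x : P2} {r r' n : ℤ} {T : Finset Edge} (h : Piece x r n T) (hr : r ≤ r') :
    Piece x r' n T := by
  obtain ⟨u, v, h1, h2, h3⟩ := h
  exact ⟨u, v, h1.trans hr, h2, h3⟩

theorem Rch.symm' {z : Cfz} {u v : P2} (h : Rch z u v) : Rch z v u := by
  induction h with
  | refl => exact .refl
  | tail _ hs ih =>
      refine Relation.ReflTransGen.head ?_ ih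
      obtain ⟨e, he, h | h⟩ := hs
      · exact ⟨e, he, Or.inr ⟨h.2, h.1⟩⟩
      · exact ⟨e, he, Or.inl ⟨h.2, h.1⟩⟩

theorem cT_disj {z : Cfz} {x : P2} {R : ℕ} {v v' : P2} (h : ¬ Rch z v v') :
    Disjoint (cT z x R v) (cT z x R v') := by
  classical
  rw [Finset.disjoint_left]
  intro e he he'
  unfold cT at he he'
  rw [mem_filter] at he he'
  exact h (Relation.ReflTransGen.trans he.2.2 (Rch.symm' he'.2.2))

/-! ### the interior of a finite strand -/

/-- height of a vertex (`false`) or a face (`true`) -/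
def Ht (J : Corner → ℤ) (p : P2 × Bool) : ℤ := if p.2 = true then Hf J p.1 else Hv J p.1

/-- interior of a strand -/
def inn (z : Cfz) (c : Corner) : Set (P2 × Bool) := {p | Ht (JL z c) p ≠ 0}

theorem mem_of_JL {z : Cfz} {c d : Corner} (h : JL z c d ≠ 0) : d ∈ Lp z c := by
  by_contra h'
  exact h (JL_not_mem h')

/-- bounding box of a finite strand, with its extremal corners -/
theorem exists_box {z : Cfz} {c : Corner} (hfin : (Lp z c).Finite) :
    ∃ dl ∈ Lp z c, ∃ dr ∈ Lp z c, ∃ db ∈ Lp z c, ∃ dt ∈ Lp z c,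
      (∀ d ∈ Lp z c, dl.1.1 ≤ d.1.1 ∧ d.1.1 ≤ dr.1.1 ∧ db.1.2 ≤ d.1.2 ∧ d.1.2 ≤ dt.1.2) ∧
      ∀ p ∈ inn z c, dl.1.1 ≤ p.1.1 ∧ p.1.1 ≤ dr.1.1 ∧ db.1.2 ≤ p.1.2 ∧ p.1.2 ≤ dt.1.2 := by
  have hne : (Lp z c).Nonempty := ⟨c, mem_Lp_self z c⟩
  obtain ⟨dl, hl, hl'⟩ := Set.exists_min_image _ (fun d : Corner => d.1.1) hfin hne
  obtain ⟨dr, hr, hr'⟩ := Set.exists_max_image _ (fun d : Corner => d.1.1) hfin hne
  obtain ⟨db, hb, hb'⟩ := Set.exists_min_image _ (fun d : Corner => d.1.2) hfin hne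
  obtain ⟨dt, ht, ht'⟩ := Set.exists_max_image _ (fun d : Corner => d.1.2) hfin hne
  have hbox : ∀ d ∈ Lp z c, dl.1.1 ≤ d.1.1 ∧ d.1.1 ≤ dr.1.1 ∧ db.1.2 ≤ d.1.2 ∧ d.1.2 ≤ dt.1.2 :=
    fun d hd => ⟨hl' d hd, hr' d hd, hb' d hd, ht' d hd⟩
  refine ⟨dl, hl, dr, hr, db, hb, dt, ht, hbox, ?_⟩
  have hB : ∀ d, JL z c d ≠ 0 → dl.1.1 ≤ d.1.1 ∧ d.1.1 ≤ dr.1.1 ∧ db.1.2 ≤ d.1.2 ∧
      d.1.2 ≤ dt.1.2 := fun d hd => hbox d (mem_of_JL hd)
  rintro ⟨v, b⟩ hp
  by_contra hcon
  have hcon' : v.1 < dl.1.1 ∨ dr.1.1 < v.1 ∨ v.2 < db.1.2 ∨ dt.1.2 < v.2 := by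
    by_contra h
    push Not at h
    exact hcon ⟨h.1, h.2.1, h.2.2.1, h.2.2.2⟩
  apply hp
  have e0 : fc (v, 0) = v := by simp [fc]
  cases b
  · exact Hv_out (JL_fs hfin) (JL_inv z c).cons hB hcon'
  · have := Hf_out (JL_fs hfin) (JL_inv z c).cons hB (c := (v, 0)) hcon'
    rw [e0] at this
    exact this

/-- two points of the interior are at most as far as two corners of the strand -/
theorem exists_far {z : Cfz} {c : Corner} (hfin : (Lp z c).Finite) {p p' : P2 × Bool}
    (hp : p ∈ inn z c) (hp' : p' ∈ inn z c) :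
    ∃ d ∈ Lp z c, ∃ d' ∈ Lp z c, sd p.1 p'.1 ≤ sd d.1 d'.1 := by
  obtain ⟨dl, hl, dr, hr, db, hb, dt, ht, _, h2⟩ := exists_box hfin
  obtain ⟨a1, a2, a3, a4⟩ := h2 p hp
  obtain ⟨b1, b2, b3, b4⟩ := h2 p' hp'
  rcases max_choice |p'.1.1 - p.1.1| |p'.1.2 - p.1.2| with h | h
  · refine ⟨dl, hl, dr, hr, ?_⟩
    unfold sd
    rw [h]
    refine le_max_of_le_left ?_
    rw [abs_le]
    have := le_abs_self (dr.1.1 - dl.1.1)
    constructor <;> linarith
  · refine ⟨db, hb, dt, ht, ?_⟩
    unfold sd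
    rw [h]
    refine le_max_of_le_right ?_
    rw [abs_le]
    have := le_abs_self (dt.1.2 - db.1.2)
    constructor <;> linarith

/-- the height is constant on a ball without corners of the strand -/
theorem ht_const {J : Corner → ℤ} (hF : Fs J) (hC : Cons J) {x : P2} {n : ℤ}
    (h0 : ∀ d : Corner, sd x d.1 ≤ n → J d = 0) :
    ∀ p : P2 × Bool, sd x p.1 ≤ n → Ht J p = Hv J x := by
  have key : ∀ k : ℕ, ∀ v : P2, sd x v ≤ n → |v.1 - x.1| + |v.2 - x.2| = k → Hv J v = Hv J x := by
    intro k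
    induction k with
    | zero =>
        intro v _ h
        have h1 := abs_nonneg (v.1 - x.1)
        have h2 := abs_nonneg (v.2 - x.2)
        have h3 : |v.1 - x.1| = 0 := by push_cast at h; linarith
        have h4 : |v.2 - x.2| = 0 := by push_cast at h; linarith
        rw [abs_eq_zero] at h3 h4
        congr 1
        exact Prod.ext (by linarith) (by linarith)
    | succ k ih =>
        intro v hv h
        obtain ⟨v1, v2⟩ := v
        simp only at h
        have hv' := hv
        rw [sd_le] at hv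
        simp only at hv
        push_cast at h
        rcases lt_trichotomy v1 x.1 with hx | hx | hx
        · have h5 : sd x (v1 + 1, v2) ≤ n := by
            rw [sd_le]; simp only; omega
          have := Hv_right hF hC (v := (v1, v2)) (h0 _ hv') (h0 ((v1 + 1, v2), 3) h5)
          rw [← this]
          refine ih _ h5 ?_
          rw [abs_of_neg (by linarith : v1 - x.1 < 0)] at h
          simp only
          rw [abs_of_nonpos (by linarith : v1 + 1 - x.1 ≤ 0)]
          linarith
        · subst hx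
          rcases lt_trichotomy v2 x.2 with hy | hy | hy
          · have h5 : sd x (x.1, v2 + 1) ≤ n := by
              rw [sd_le]; simp only; omega
            have := Hv_up hF hC (v := (x.1, v2)) (h0 _ hv') (h0 ((x.1, v2 + 1), 1) h5)
            rw [← this]
            refine ih _ h5 ?_
            rw [abs_of_neg (by linarith : v2 - x.2 < 0)] at h
            simp only
            rw [abs_of_nonpos (by linarith : v2 + 1 - x.2 ≤ 0)]
            linarith
          · subst hy; rfl
          · have h5 : sd x (x.1, v2 - 1) ≤ n := by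
              rw [sd_le]; simp only; omega
            have e : ((x.1, v2 - 1).1, (x.1, v2 - 1).2 + 1) = (x.1, v2) := by simp
            have := Hv_up hF hC (v := (x.1, v2 - 1)) (h0 _ h5)
              (h0 (((x.1, v2 - 1).1, (x.1, v2 - 1).2 + 1), 1) (by rw [e]; exact hv'))
            rw [e] at this
            rw [this]
            refine ih _ h5 ?_
            rw [abs_of_pos (by linarith : 0 < v2 - x.2)] at h
            simp only
            rw [abs_of_nonneg (by linarith : 0 ≤ v2 - 1 - x.2)]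
            linarith
        · have h5 : sd x (v1 - 1, v2) ≤ n := by
            rw [sd_le]; simp only; omega
          have e : ((v1 - 1, v2).1 + 1, (v1 - 1, v2).2) = (v1, v2) := by simp
          have := Hv_right hF hC (v := (v1 - 1, v2)) (h0 _ h5)
            (h0 (((v1 - 1, v2).1 + 1, (v1 - 1, v2).2), 3) (by rw [e]; exact hv'))
          rw [e] at this
          rw [this]
          refine ih _ h5 ?_
          rw [abs_of_pos (by linarith : 0 < v1 - x.1)] at h
          simp only
          rw [abs_of_nonneg (by linarith : 0 ≤ v1 - 1 - x.1)]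
          linarith
  have hv : ∀ v : P2, sd x v ≤ n → Hv J v = Hv J x := by
    intro v hv
    have h1 := abs_nonneg (v.1 - x.1)
    have h2 := abs_nonneg (v.2 - x.2)
    exact key (|v.1 - x.1| + |v.2 - x.2|).toNat v hv (Int.toNat_of_nonneg (by linarith)).symm
  rintro ⟨v, b⟩ hp
  cases b
  · exact hv v hp
  · have g := grad hF hC (v, 0)
    have e0 : fc (v, 0) = v := by simp [fc]
    rw [e0, h0 (v, 0) hp] at g
    simp only at g
    show Hf J v = _
    rw [← hv v hp]
    linarith

/-- a strand whose interior splits the ball has a corner in the ball -/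
theorem exists_near {z : Cfz} {c : Corner} (hfin : (Lp z c).Finite) {x : P2} {n : ℤ}
    {p p' : P2 × Bool} (hp : p ∈ inn z c) (hp' : p' ∉ inn z c) (h : sd x p.1 ≤ n)
    (h' : sd x p'.1 ≤ n) : ∃ d ∈ Lp z c, sd x d.1 ≤ n := by
  by_contra hcon
  push Not at hcon
  have h0 : ∀ d : Corner, sd x d.1 ≤ n → JL z c d = 0 := by
    intro d hd
    by_contra h1
    exact absurd hd (not_le.2 (hcon d (mem_of_JL h1)))
  have h1 := ht_const (JL_fs hfin) (JL_inv z c).cons h0
  apply hp
  have h2 : Ht (JL z c) p' = 0 := by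
    by_contra h3
    exact hp' h3
  rw [h1 p h, ← h1 p' h', h2]

/-! ### a finite strand is determined by its inner cluster -/

theorem JL_zero_or_one (z : Cfz) (c d : Corner) : JL z c d = 0 ∨ (JL z c d = 1 ∧ d ∈ Lp z c) := by
  by_cases h : d ∈ Lp z c
  · exact Or.inr ⟨JL_mem h, h⟩
  · exact Or.inl (JL_not_mem h)

/-- `a = -1`: a face inside: the face on its right is inside or on the left side of the strand -/
theorem step_in {z : Cfz} {c : Corner} (hfin : (Lp z c).Finite)
    (hv : ∀ v, Hv (JL z c) v = -1 ∨ Hv (JL z c) v = 0) {f : P2} (hf : Hf (JL z c) f = -1) :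
    Hf (JL z c) (f.1 + 1, f.2) = -1 ∨ ∃ d ∈ Lp z c, fc d = (f.1 + 1, f.2) := by
  have g3 := grad (JL_fs hfin) (JL_inv z c).cons ((f.1 + 1, f.2), 3)
  have g0 := grad (JL_fs hfin) (JL_inv z c).cons ((f.1 + 1, f.2), 0)
  have e3 : fc ((f.1 + 1, f.2), 3) = f := by simp [fc]
  have e0 : fc ((f.1 + 1, f.2), 0) = (f.1 + 1, f.2) := by simp [fc]
  rw [e3, hf] at g3
  rw [e0] at g0
  simp only at g3 g0
  have h1 : Hv (JL z c) (f.1 + 1, f.2) = -1 := by
    rcases hv (f.1 + 1, f.2) with h | h
    · exact h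
    · rcases JL_zero_or_one z c ((f.1 + 1, f.2), 3) with h2 | ⟨h2, _⟩
      · rw [h2, h] at g3; omega
      · rw [h2, h] at g3; omega
  rcases JL_zero_or_one z c ((f.1 + 1, f.2), 0) with h2 | ⟨h2, h3⟩
  · left; rw [h2, h1] at g0; linarith
  · right; exact ⟨_, h3, e0⟩

/-- `a = 0`: a vertex inside: the vertex on its right is inside or on the right side of the strand -/
theorem step_out {z : Cfz} {c : Corner} (hfin : (Lp z c).Finite)
    (hf : ∀ f, Hf (JL z c) f = 0 ∨ Hf (JL z c) f = 1) {v : P2} (hv : Hv (JL z c) v = 1) :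
    Hv (JL z c) (v.1 + 1, v.2) = 1 ∨ ∃ d ∈ Lp z c, d.1 = (v.1 + 1, v.2) := by
  have g3 := grad (JL_fs hfin) (JL_inv z c).cons ((v.1 + 1, v.2), 3)
  have g0 := grad (JL_fs hfin) (JL_inv z c).cons (v, 0)
  have e3 : fc ((v.1 + 1, v.2), 3) = v := by simp [fc]
  have e0 : fc (v, 0) = v := by simp [fc]
  rw [e3] at g3
  rw [e0, hv] at g0
  simp only at g3 g0
  have h1 : Hf (JL z c) v = 1 := by
    rcases hf v with h | h
    · rcases JL_zero_or_one z c (v, 0) with h2 | ⟨h2, _⟩
      · rw [h2, h] at g0; omega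
      · rw [h2, h] at g0; omega
    · exact h
  rcases JL_zero_or_one z c ((v.1 + 1, v.2), 3) with h2 | ⟨h2, h3⟩
  · left; rw [h2, h1] at g3; linarith
  · right; exact ⟨_, h3, rfl⟩

/-- heights vanish far to the right -/
theorem far_right {z : Cfz} {c : Corner} (hfin : (Lp z c).Finite) :
    ∃ M : ℤ, ∀ v : P2, M ≤ v.1 → Hv (JL z c) v = 0 ∧ Hf (JL z c) v = 0 := by
  obtain ⟨dl, hl, dr, hr, db, hb, dt, ht, _, h2⟩ := exists_box hfin
  refine ⟨dr.1.1 + 1, fun v hv => ⟨?_, ?_⟩⟩
  · by_contra h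
    have := (h2 (v, false) h).2.1
    simp only at this
    omega
  · by_contra h
    have := (h2 (v, true) h).2.1
    simp only at this
    omega

/-- no infinite horizontal line of inner points -/
theorem no_line {P : P2 → Prop} (h : ∀ v, P v → P (v.1 + 1, v.2)) {M : ℤ}
    (hM : ∀ v : P2, M ≤ v.1 → ¬ P v) (v : P2) : ¬ P v := by
  intro hv
  have key : ∀ k : ℕ, P (v.1 + k, v.2) := by
    intro k
    induction k with
    | zero => simpa using hv
    | succ k ih =>
        have := h _ ih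
        simp only at this
        push_cast
        rw [← add_assoc]
        exact this
  exact hM _ (by simp only; have := Int.self_le_toNat (M - v.1); linarith) (key (M - v.1).toNat)

theorem inj_in {z : Cfz} {c c' : Corner} (h : (Lp z c).Finite) (h' : (Lp z c').Finite)
    (ha : Hv (JL z c) c.1 ≠ 0) (ha' : Hv (JL z c') c'.1 ≠ 0) (hp : Rch z c.1 c'.1) :
    c' ∈ Lp z c := by
  by_contra hne
  have hne' : c ∉ Lp z c' := fun h1 => hne (Equiv.Perm.SameCycle.symm h1)
  obtain ⟨a, ha1, ha2, ha3, _⟩ := jordan h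
  obtain ⟨b, hb1, hb2, hb3, _⟩ := jordan h'
  have ea : a = -1 := by
    rcases ha1 with h1 | h1
    · exact absurd ((ha2 c (mem_Lp_self z c)).1.trans h1) ha
    · exact h1
  have eb : b = -1 := by
    rcases hb1 with h1 | h1
    · exact absurd ((hb2 c' (mem_Lp_self z c')).1.trans h1) ha'
    · exact h1
  subst ea eb
  simp only [Int.reduceNeg, Int.reduceAdd] at ha2 ha3 hb2 hb3
  have hF := JL_fs h
  have hF' := JL_fs h'
  have hI := JL_inv z c
  have hI' := JL_inv z c'
  -- the left faces of each strand are inside the other one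
  have k1 : ∀ d ∈ Lp z c, Hf (JL z c') (fc d) = -1 := by
    intro d hd
    rw [(hI'.const_strand hF' d hd).2.1]
    have g := grad hF' hI'.cons c
    rw [JL_not_mem hne', hI'.hv_path hF' hp, (hb2 c' (mem_Lp_self z c')).1] at g
    linarith
  have k2 : ∀ d ∈ Lp z c', Hf (JL z c) (fc d) = -1 := by
    intro d hd
    rw [(hI.const_strand hF d hd).2.1]
    have g := grad hF hI.cons c'
    rw [JL_not_mem hne, ← hI.hv_path hF hp, (ha2 c (mem_Lp_self z c)).1] at g
    linarith
  obtain ⟨M, hM⟩ := far_right h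
  obtain ⟨M', hM'⟩ := far_right h'
  refine no_line (P := fun f => Hf (JL z c) f = -1 ∨ Hf (JL z c') f = -1) (M := max M M') ?_ ?_
    (fc c) (Or.inr (k1 c (mem_Lp_self z c)))
  · rintro f (hf | hf)
    · rcases step_in h ha3 hf with h1 | ⟨d, hd, h1⟩
      · exact Or.inl h1
      · right; rw [← h1]; exact k1 d hd
    · rcases step_in h' hb3 hf with h1 | ⟨d, hd, h1⟩
      · exact Or.inr h1
      · left; rw [← h1]; exact k2 d hd
  · rintro f hf (h1 | h1)
    · rw [(hM f ((le_max_left _ _).trans hf)).2] at h1; omega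
    · rw [(hM' f ((le_max_right _ _).trans hf)).2] at h1; omega

theorem inj_out {z : Cfz} {c c' : Corner} (h : (Lp z c).Finite) (h' : (Lp z c').Finite)
    (ha : Hv (JL z c) c.1 = 0) (ha' : Hv (JL z c') c'.1 = 0)
    (hp : Relation.ReflTransGen (DStep (fun e => z e = false)) (fc c) (fc c')) :
    c' ∈ Lp z c := by
  by_contra hne
  have hne' : c ∉ Lp z c' := fun h1 => hne (Equiv.Perm.SameCycle.symm h1)
  obtain ⟨a, ha1, ha2, _, ha4⟩ := jordan h
  obtain ⟨b, hb1, hb2, _, hb4⟩ := jordan h'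
  have ea : a = 0 := by
    rw [← (ha2 c (mem_Lp_self z c)).1]; exact ha
  have eb : b = 0 := by
    rw [← (hb2 c' (mem_Lp_self z c')).1]; exact ha'
  subst ea eb
  simp only [zero_add] at ha2 ha4 hb2 hb4
  have hF := JL_fs h
  have hF' := JL_fs h'
  have hI := JL_inv z c
  have hI' := JL_inv z c'
  -- the right vertices of each strand are inside the other one
  have k1 : ∀ d ∈ Lp z c, Hv (JL z c') d.1 = 1 := by
    intro d hd
    rw [(hI'.const_strand hF' d hd).1]
    have g := grad hF' hI'.cons c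
    rw [JL_not_mem hne', hI'.hf_path hF' hp, (hb2 c' (mem_Lp_self z c')).2] at g
    linarith
  have k2 : ∀ d ∈ Lp z c', Hv (JL z c) d.1 = 1 := by
    intro d hd
    rw [(hI.const_strand hF d hd).1]
    have g := grad hF hI.cons c'
    rw [JL_not_mem hne, ← hI.hf_path hF hp, (ha2 c (mem_Lp_self z c)).2] at g
    linarith
  obtain ⟨M, hM⟩ := far_right h
  obtain ⟨M', hM'⟩ := far_right h'
  refine no_line (P := fun v => Hv (JL z c) v = 1 ∨ Hv (JL z c') v = 1) (M := max M M') ?_ ?_
    c.1 (Or.inr (k1 c (mem_Lp_self z c)))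
  · rintro v (hv | hv)
    · rcases step_out h ha4 hv with h1 | ⟨d, hd, h1⟩
      · exact Or.inl h1
      · right; rw [← h1]; exact k1 d hd
    · rcases step_out h' hb4 hv with h1 | ⟨d, hd, h1⟩
      · exact Or.inr h1
      · left; rw [← h1]; exact k2 d hd
  · rintro v hv (h1 | h1)
    · rw [(hM v ((le_max_left _ _).trans hv)).1] at h1; omega
    · rw [(hM' v ((le_max_right _ _).trans hv)).1] at h1; omega

/-! ### paths far away along a strand -/

/-- the right vertices of a strand are joined by open edges -/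
theorem rch_strand {z : Cfz} {c d : Corner} (hd : d ∈ Lp z c) : Rch z c.1 d.1 := by
  refine Lp_induct (P := fun d => Rch z c.1 d.1) Relation.ReflTransGen.refl ?_ ?_ d hd
  · intro d _ h
    cases hz : z (ah d) with
    | true => exact h.tail (step_open hz).1
    | false => rw [(step_closed hz).2]; exact h
  · intro d _ h
    have e := nx_pv z d
    cases hz : z (ah (pv z d)) with
    | true =>
        have h1 := (step_open hz).1
        rw [e] at h1
        exact h.trans (Rch.symm' (Relation.ReflTransGen.single h1))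
    | false =>
        have h1 := (step_closed hz).2
        rw [e] at h1
        rw [← h1]; exact h

theorem rchd_symm {z : Cfz} {u v : P2}
    (h : Relation.ReflTransGen (DStep (fun e => z e = false)) u v) :
    Relation.ReflTransGen (DStep (fun e => z e = false)) v u := by
  induction h with
  | refl => exact .refl
  | tail _ hs ih =>
      refine Relation.ReflTransGen.head ?_ ih
      obtain ⟨e, he, h | h⟩ := hs
      · exact ⟨e, he, Or.inr ⟨h.2, h.1⟩⟩
      · exact ⟨e, he, Or.inl ⟨h.2, h.1⟩⟩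

/-- the left faces of a strand are joined across closed edges -/
theorem rchd_strand {z : Cfz} {c d : Corner} (hd : d ∈ Lp z c) :
    Relation.ReflTransGen (DStep (fun e => z e = false)) (fc c) (fc d) := by
  refine Lp_induct
    (P := fun d => Relation.ReflTransGen (DStep (fun e => z e = false)) (fc c) (fc d))
    Relation.ReflTransGen.refl ?_ ?_ d hd
  · intro d _ h
    cases hz : z (ah d) with
    | true => rw [(step_open hz).2]; exact h
    | false => exact h.tail (step_closed hz).1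
  · intro d _ h
    have e := nx_pv z d
    cases hz : z (ah (pv z d)) with
    | true =>
        have h1 := (step_open hz).2
        rw [e] at h1
        rw [← h1]; exact h
    | false =>
        have h1 := (step_closed hz).1
        rw [e] at h1
        exact h.trans (rchd_symm (Relation.ReflTransGen.single h1))

theorem dstep_dual' {z : Cfz} {f g : P2} :
    DStep (fun e => z e = false) f g ↔ PStep (fun e => dual z e = true) f g := by
  rw [← dstep_dual]
  have : (fun e => z e = false) = fun e => ¬ z e = true := by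
    funext e; simp
  rw [this]

theorem rchd_iff {z : Cfz} {f g : P2} :
    Relation.ReflTransGen (DStep (fun e => z e = false)) f g ↔ Rch (dual z) f g := by
  have : DStep (fun e => z e = false) = PStep (fun e => dual z e = true) := by
    funext f g
    exact propext dstep_dual'
  rw [this]

theorem fc_near (c : Corner) : (fc c).1 ≤ c.1.1 ∧ c.1.1 ≤ (fc c).1 + 1 ∧ (fc c).2 ≤ c.1.2 ∧
    c.1.2 ≤ (fc c).2 + 1 := by
  obtain ⟨⟨a, b⟩, q⟩ := c
  fin_cases q <;> simp [fc]

theorem sd_fc_le (x : P2) (c : Corner) : sd x (fc c) ≤ sd x c.1 + 1 := by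
  obtain ⟨h1, h2, h3, h4⟩ := fc_near c
  have h5 := le_max_left |c.1.1 - x.1| |c.1.2 - x.2|
  have h6 := le_max_right |c.1.1 - x.1| |c.1.2 - x.2|
  rw [abs_le] at h5 h6
  unfold sd
  refine max_le (abs_le.2 ⟨?_, ?_⟩) (abs_le.2 ⟨?_, ?_⟩) <;> linarith [h5.1, h5.2, h6.1, h6.2]

theorem sd_fc_ge (c d : Corner) : sd c.1 d.1 ≤ sd (fc c) (fc d) + 1 := by
  obtain ⟨h1, h2, h3, h4⟩ := fc_near c
  obtain ⟨g1, g2, g3, g4⟩ := fc_near d
  have h5 := le_max_left |(fc d).1 - (fc c).1| |(fc d).2 - (fc c).2|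
  have h6 := le_max_right |(fc d).1 - (fc c).1| |(fc d).2 - (fc c).2|
  rw [abs_le] at h5 h6
  unfold sd
  refine max_le (abs_le.2 ⟨?_, ?_⟩) (abs_le.2 ⟨?_, ?_⟩) <;> linarith [h5.1, h5.2, h6.1, h6.2]

/-- a far corner on a strand of large diameter -/
theorem exists_half {z : Cfz} {c : Corner} {n : ℕ}
    (h : ∃ d ∈ Lp z c, ∃ d' ∈ Lp z c, (n : ℤ) ≤ sd d.1 d'.1) :
    ∃ d ∈ Lp z c, (n : ℤ) ≤ 2 * sd c.1 d.1 := by
  obtain ⟨d, hd, d', hd', h1⟩ := h
  have h2 := sd_triangle c.1 d.1 d'.1
  rw [sd_symm d.1 c.1] at h2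
  rcases le_total (sd c.1 d.1) (sd c.1 d'.1) with h3 | h3
  · exact ⟨d', hd', by linarith⟩
  · exact ⟨d, hd, by linarith⟩

/-! ### integrability of local powers -/

theorem integrable_pow {a : ℝ} (ha : 1 ≤ a) {N : Cfz → ℕ} {E : Finset Edge}
    (hdep : ∀ z z' : Cfz, (∀ e ∈ E, z e = z' e) → N z = N z') :
    Integrable (fun z : Cfz => a ^ N z) (nu hf) := by
  classical
  have ha0 : 0 < a := by linarith
  have hm : Measurable fun z : Cfz => a ^ N z := by
    have h3 : (fun z : Cfz => a ^ N z) = (fun y : E → Bool =>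
        a ^ N (fun e => if he : e ∈ E then y ⟨e, he⟩ else false)) ∘ E.restrict := by
      funext z
      simp only [Function.comp_apply, Finset.restrict]
      congr 1
      refine hdep _ _ fun e he => ?_
      rw [dif_pos he]
    rw [h3]
    exact Measurable.comp (Measurable.of_discrete) (Finset.measurable_restrict E)
  have hfin : (Set.range fun y : E → Bool =>
      N (fun e => if he : e ∈ E then y ⟨e, he⟩ else false)).Finite := Set.finite_range _
  obtain ⟨B, hB⟩ := hfin.bddAbove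
  refine Integrable.of_bound hm.aestronglyMeasurable (a ^ B) (Filter.Eventually.of_forall fun z => ?_)
  rw [Real.norm_of_nonneg (by positivity)]
  refine pow_le_pow_right₀ ha ?_
  have : N z = N (fun e => if he : e ∈ E then z e else false) :=
    hdep _ _ fun e he => by rw [dif_pos he]
  rw [this]
  exact hB ⟨fun e => z e, rfl⟩

theorem dual_congr {x : P2} {R : ℕ} {z z' : Cfz} (h : ∀ e ∈ starE x (R + 1), z e = z' e) :
    ∀ e ∈ starE x R, dual z e = dual z' e := by
  intro e he
  show (!z (dE.symm e)) = !z' (dE.symm e)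
  rw [h]
  obtain ⟨⟨i, j⟩, k⟩ := e
  unfold starE at he ⊢
  rw [mem_product, mem_product, mem_Icc, mem_Icc] at he
  cases k
  · rw [dE_symm_h, mem_product, mem_product, mem_Icc, mem_Icc]
    simp only at he ⊢
    refine ⟨⟨⟨?_, ?_⟩, ?_, ?_⟩, mem_univ _⟩ <;> push_cast <;> omega
  · rw [dE_symm_v, mem_product, mem_product, mem_Icc, mem_Icc]
    simp only at he ⊢
    refine ⟨⟨⟨?_, ?_⟩, ?_, ?_⟩, mem_univ _⟩ <;> push_cast <;> omega

theorem starE_mono {x : P2} {R R' : ℕ} (h : R ≤ R') : starE x R ⊆ starE x R' := by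
  intro e he
  have h' : (R : ℤ) ≤ R' := by exact_mod_cast h
  unfold starE at he ⊢
  rw [mem_product, mem_product, mem_Icc, mem_Icc] at he ⊢
  refine ⟨⟨⟨?_, ?_⟩, ?_, ?_⟩, mem_univ _⟩ <;> linarith [he.1.1.1, he.1.1.2, he.1.2.1, he.1.2.2]

/-- number of corners in a ball -/
theorem card_corners {x : P2} {r m : ℕ} (c : Fin m → Corner) (hinj : Function.Injective c)
    (h : ∀ i, sd x (c i).1 ≤ r) : m ≤ (2 * r + 1) * (2 * r + 1) * 4 := by
  classical
  have h1 : (univ : Finset (Fin m)).image c ⊆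
      (Finset.Icc (x.1 - r) (x.1 + r) ×ˢ Finset.Icc (x.2 - r) (x.2 + r)) ×ˢ
        (univ : Finset (Fin 4)) := by
    intro d hd
    obtain ⟨i, _, rfl⟩ := mem_image.1 hd
    have h2 := h i
    rw [sd_le] at h2
    rw [mem_product, mem_product, mem_Icc, mem_Icc]
    refine ⟨⟨⟨?_, ?_⟩, ?_, ?_⟩, mem_univ _⟩ <;> linarith [h2.1, h2.2.1, h2.2.2.1, h2.2.2.2]
  have h3 := card_le_card h1
  rw [card_image_of_injective _ hinj, card_univ, Fintype.card_fin, card_product, card_product,
    Int.card_Icc, Int.card_Icc, card_univ, Fintype.card_fin] at h3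
  refine h3.trans (le_of_eq ?_)
  congr 2 <;> omega

/-! ### the count -/

open Classical in
/-- **exponential moments of the number of macroscopic finite strands.** -/
theorem exp_loops (a : ℝ) (ha : 1 ≤ a) (κ : ℕ) : ∃ C : ℝ, 1 ≤ C ∧
    ∀ (x : P2) (n : ℕ), 1 ≤ n → ∃ K : Cfz → ℕ,
      (∀ z z' : Cfz, (∀ e ∈ starE x ((κ + 1) * n), z e = z' e) → K z = K z') ∧
      ∫ z, a ^ K z ∂(nu hf) ≤ C ∧
      ∀ (z : Cfz) (m : ℕ) (c : Fin m → Corner), (∀ i, (Lp z (c i)).Finite) →
        (∀ i j, i ≠ j → c j ∉ Lp z (c i)) → (∀ i, sd x (c i).1 ≤ (κ * n : ℕ)) →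
        (∀ i, ∃ d ∈ Lp z (c i), ∃ d' ∈ Lp z (c i), (n : ℤ) ≤ sd d.1 d'.1) → m ≤ K z := by
  have ha2 : (1 : ℝ) ≤ a ^ 2 := one_le_pow₀ ha
  obtain ⟨C1, hC1, h1⟩ := exp_pieces (a ^ 2) ha2 (5 * κ + 1)
  obtain ⟨C2, hC2, h2⟩ := exp_pieces_dual (a ^ 2) ha2 (5 * κ + 1)
  set D : ℕ := (2 * (κ * 4) + 1) * (2 * (κ * 4) + 1) * 4 with hD
  refine ⟨max (C1 + C2) (a ^ D), le_max_of_le_left (by linarith), fun x n hn => ?_⟩
  by_cases hn4 : n < 4
  · -- small scales
    refine ⟨fun _ => D, fun _ _ _ => rfl, ?_, ?_⟩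
    · refine le_max_of_le_right (le_of_eq ?_)
      simp [nu]
    · intro z m c _ hdis hnear _
      have hinj : Function.Injective c := by
        intro i j hij
        by_contra hne
        exact hdis i j hne (hij ▸ mem_Lp_self z (c i))
      refine (card_corners c hinj hnear).trans ?_
      have : κ * n ≤ κ * 4 := Nat.mul_le_mul_left _ hn4.le
      exact Nat.mul_le_mul (Nat.mul_le_mul (by omega) (by omega)) le_rfl
  · push Not at hn4
    obtain ⟨n', hn'1, hn'2, hn'3⟩ : ∃ n' : ℕ, 1 ≤ n' ∧ 2 * n' + 2 ≤ n ∧ n ≤ 5 * n' :=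
      ⟨n / 2 - 1, by omega, by omega, by omega⟩
    set r : ℕ := (5 * κ + 1) * n' with hr
    have hr1 : κ * n + 1 ≤ r := by
      have : κ * n ≤ κ * (5 * n') := Nat.mul_le_mul_left _ hn'3
      rw [hr]; nlinarith
    set R : ℕ := κ * n + 1 + n' with hR
    have hR1 : R + 1 ≤ (κ + 1) * n := by rw [hR]; nlinarith
    set E := starE x R with hE
    have hdep1 : ∀ z z' : Cfz, (∀ e ∈ E, z e = z' e) → NP x r n' E z = NP x r n' E z' :=
      fun z z' h => NP_dep h
    have hsub : starE x (R + 1) ⊆ starE x ((κ + 1) * n) := starE_mono hR1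
    have hsub' : E ⊆ starE x ((κ + 1) * n) := starE_mono (by omega)
    have hdep2 : ∀ z z' : Cfz, (∀ e ∈ starE x ((κ + 1) * n), z e = z' e) →
        NP x r n' E (dual z) = NP x r n' E (dual z') :=
      fun z z' h => NP_dep (dual_congr fun e he => h e (hsub he))
    refine ⟨fun z => NP x r n' E z + NP x r n' E (dual z), ?_, ?_, ?_⟩
    · intro z z' h
      simp only
      rw [hdep1 z z' fun e he => h e (hsub' he), hdep2 z z' h]
    · refine le_max_of_le_left ?_
      have i1 := integrable_pow ha2 (N := fun z => NP x r n' E z) hdep1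
      have i2 := integrable_pow ha2 (N := fun z => NP x r n' E (dual z)) hdep2
      have b1 := h1 x n' hn'1 E (fun z => NP x r n' E z) hdep1 (fun z => hasP_NP hn'1)
      have b2 := h2 x n' hn'1 E (fun z => NP x r n' E z) hdep1 (fun z => hasP_NP hn'1)
      calc ∫ z, a ^ (NP x r n' E z + NP x r n' E (dual z)) ∂(nu hf)
          ≤ ∫ z, ((a ^ 2) ^ NP x r n' E z + (a ^ 2) ^ NP x r n' E (dual z)) ∂(nu hf) := by
            refine integral_mono_of_nonneg (Filter.Eventually.of_forall fun z => by positivity)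
              (i1.add i2) (Filter.Eventually.of_forall fun z => ?_)
            simp only
            rw [pow_add, ← pow_mul, ← pow_mul, mul_comm 2, mul_comm 2, pow_mul, pow_mul]
            nlinarith [sq_nonneg (a ^ NP x r n' E z - a ^ NP x r n' E (dual z)),
              sq_nonneg (a ^ NP x r n' E z), sq_nonneg (a ^ NP x r n' E (dual z))]
        _ = _ := integral_add i1 i2
        _ ≤ C1 + C2 := add_le_add b1 b2
    · intro z m c hfin hdis hnear hfar
      have hm : m = ((univ : Finset (Fin m)).filter fun i => Hv (JL z (c i)) (c i).1 ≠ 0).card +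
          ((univ : Finset (Fin m)).filter fun i => ¬ Hv (JL z (c i)) (c i).1 ≠ 0).card := by
        rw [Finset.card_filter_add_card_filter_not]
        simp
      rw [hm]
      refine add_le_add ?_ ?_
      · refine card_le_NP hn'1 _ (fun i => cT z x R (c i).1) ?_ ?_ ?_
        · intro i _ e he
          exact ⟨(mem_filter.1 he).1, (mem_filter.1 he).2.1⟩
        · intro i hi j hj hij
          refine cT_disj fun hrch => hdis i j hij ?_
          exact inj_in (hfin i) (hfin j) (mem_filter.1 hi).2 (mem_filter.1 hj).2 hrch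
        · intro i _
          obtain ⟨d, hd, hd2⟩ := exists_half (hfar i)
          have p1 : Piece x ((κ * n + 1 : ℕ) : ℤ) n' (cT z x R (c i).1) := by
            refine piece_of_path ?_ (by omega) (rch_strand hd) ?_
            · have := hnear i
              push_cast at this ⊢
              linarith
            · have : (2 * n' + 2 : ℤ) ≤ n := by exact_mod_cast hn'2
              linarith
          exact piece_mono p1 (by exact_mod_cast hr1)
      · refine card_le_NP hn'1 _ (fun i => cT (dual z) x R (fc (c i))) ?_ ?_ ?_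
        · intro i _ e he
          exact ⟨(mem_filter.1 he).1, (mem_filter.1 he).2.1⟩
        · intro i hi j hj hij
          refine cT_disj fun hrch => hdis i j hij ?_
          exact inj_out (hfin i) (hfin j) (not_not.1 (mem_filter.1 hi).2)
            (not_not.1 (mem_filter.1 hj).2) (rchd_iff.2 hrch)
        · intro i _
          obtain ⟨d, hd, hd2⟩ := exists_half (hfar i)
          have p1 : Piece x ((κ * n + 1 : ℕ) : ℤ) n' (cT (dual z) x R (fc (c i))) := by
            refine piece_of_path ?_ (by omega) (rchd_iff.1 (rchd_strand hd)) ?_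
            · have := hnear i
              have h5 := sd_fc_le x (c i)
              push_cast at this ⊢
              linarith
            · have : (2 * n' + 2 : ℤ) ≤ n := by exact_mod_cast hn'2
              have h5 := sd_fc_ge (c i) d
              linarith
          exact piece_mono p1 (by exact_mod_cast hr1)

theorem inn_eq {z : Cfz} {c d : Corner} (h : d ∈ Lp z c) : inn z d = inn z c := by
  unfold inn
  rw [JL_eq h]

/-- `A` is the interior of a finite loop of `z`, meets the ball `B(x,n)` but does not contain it,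
and `dia A + 1 ≥ n/2` -/
def Big (z : Cfz) (x : P2) (n : ℕ) (A : Set (P2 × Bool)) : Prop :=
  (∃ c, (Lp z c).Finite ∧ A = inn z c) ∧ (∃ p ∈ A, sd x p.1 ≤ n) ∧ (∃ p, p ∉ A ∧ sd x p.1 ≤ n) ∧
    ∃ q ∈ A, ∃ q' ∈ A, (n : ℤ) ≤ 2 * (sd q.1 q'.1 + 1)

open Classical in
/-- **(L7)** exponential moments of the number of loops which split `B(x,n)` and have
`dia A + 1 ≥ n/2`. -/
theorem exp_loops_int (a : ℝ) (ha : 1 ≤ a) : ∃ C : ℝ, 1 ≤ C ∧
    ∀ (x : P2) (n : ℕ), 1 ≤ n → ∃ K : Cfz → ℕ,
      (∀ z z' : Cfz, (∀ e ∈ starE x (2 * n), z e = z' e) → K z = K z') ∧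
      ∫ z, a ^ K z ∂(nu hf) ≤ C ∧
      ∀ (z : Cfz) (s : Finset (Set (P2 × Bool))), (∀ A ∈ s, Big z x n A) → s.card ≤ K z := by
  obtain ⟨C1, hC1, h1⟩ := exp_loops a ha 7
  obtain ⟨D, hD⟩ : ∃ D : ℕ, 7 * 7 * 4 ≤ D := ⟨_, le_rfl⟩
  refine ⟨max C1 (a ^ D), le_max_of_le_left hC1, fun x n hn => ?_⟩
  -- corners of the strands
  have hch : ∀ (z : Cfz) (s : Finset (Set (P2 × Bool))), (∀ A ∈ s, Big z x n A) →
      ∃ c : Fin s.card → Corner, (∀ i, (Lp z (c i)).Finite) ∧
        (∀ i j, i ≠ j → c j ∉ Lp z (c i)) ∧ (∀ i, sd x (c i).1 ≤ n) ∧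
        ∀ i, ∃ d ∈ Lp z (c i), ∃ d' ∈ Lp z (c i), (n : ℤ) ≤ 2 * (sd d.1 d'.1 + 1) := by
    intro z s hs
    have hA : ∀ A ∈ s, ∃ c, (Lp z c).Finite ∧ A = inn z c ∧ sd x c.1 ≤ n ∧
        ∃ d ∈ Lp z c, ∃ d' ∈ Lp z c, (n : ℤ) ≤ 2 * (sd d.1 d'.1 + 1) := by
      intro A hA
      obtain ⟨⟨c, hc1, hc2⟩, ⟨p, hp1, hp2⟩, ⟨p', hp1', hp2'⟩, q, hq, q', hq', hqq⟩ := hs A hA
      subst hc2
      obtain ⟨d, hd, hd'⟩ := exists_near hc1 hp1 hp1' hp2 hp2'
      obtain ⟨e, he, e', he', hee⟩ := exists_far hc1 hq hq'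
      refine ⟨d, ?_, (inn_eq hd).symm, hd', e, ?_, e', ?_, by linarith⟩
      · rw [Lp_eq hd]; exact hc1
      · rw [Lp_eq hd]; exact he
      · rw [Lp_eq hd]; exact he'
    choose! c hc1 hc2 hc3 hc4 using hA
    refine ⟨fun i => c (s.equivFin.symm i), fun i => hc1 _ (s.equivFin.symm i).2, ?_,
      fun i => hc3 _ (s.equivFin.symm i).2, fun i => hc4 _ (s.equivFin.symm i).2⟩
    intro i j hij hm
    apply hij
    have h2 := inn_eq hm
    rw [← hc2 _ (s.equivFin.symm i).2, ← hc2 _ (s.equivFin.symm j).2] at h2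
    exact (s.equivFin.symm.injective (Subtype.ext h2)).symm
  by_cases hn4 : n < 4
  · refine ⟨fun _ => D, fun _ _ _ => rfl, ?_, ?_⟩
    · refine le_max_of_le_right (le_of_eq ?_)
      simp [nu]
    · intro z s hs
      obtain ⟨c, _, hdis, hnear, _⟩ := hch z s hs
      have hinj : Function.Injective c := by
        intro i j hij
        by_contra hne
        exact hdis i j hne (hij ▸ mem_Lp_self z (c i))
      have h7 : 2 * n + 1 ≤ 7 := by omega
      exact ((card_corners c hinj hnear).trans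
        (Nat.mul_le_mul (Nat.mul_le_mul h7 h7) le_rfl)).trans hD
  · push Not at hn4
    obtain ⟨n', hn'1, hn'2, hn'3⟩ : ∃ n' : ℕ, 1 ≤ n' ∧ 4 * n' ≤ n ∧ n ≤ 7 * n' :=
      ⟨n / 4, by omega, by omega, by omega⟩
    obtain ⟨K, hK1, hK2, hK3⟩ := h1 x n' hn'1
    refine ⟨K, fun z z' h => hK1 z z' fun e he => h e (starE_mono (by omega) he),
      le_max_of_le_left hK2, fun z s hs => ?_⟩
    obtain ⟨c, hfin, hdis, hnear, hfar⟩ := hch z s hs
    refine hK3 z _ c hfin hdis (fun i => (hnear i).trans (by exact_mod_cast hn'3)) fun i => ?_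
    obtain ⟨d, hd, d', hd', h2⟩ := hfar i
    exact ⟨d, hd, d', hd', by omega⟩

/-- set version -/
theorem ncard_le_of_finset {α : Type*} {S : Set α} {k : ℕ}
    (h : ∀ s : Finset α, (∀ A ∈ s, A ∈ S) → s.card ≤ k) : S.Finite ∧ S.ncard ≤ k := by
  have hfin : S.Finite := by
    by_contra hinf
    obtain ⟨t, ht, hcard⟩ := Set.Infinite.exists_subset_card_eq (hs := hinf) (k + 1)
    have := h t fun A hA => ht hA
    omega
  refine ⟨hfin, ?_⟩
  rw [Set.ncard_eq_toFinset_card S hfin]
  exact h _ fun A hA => hfin.mem_toFinset.1 hA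

end Crest.Agent.R158.Lc522
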