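import Crest.Agent.R158.Lc2_522
import Crest.Agent.R158.Wf1_850

/-!
# Row 158 (helper522): (L7) with control of the edges: majorants local in annuli

* `exp_loopsG` : as `Lc1_522.exp_loops`, for strands all of whose edges are in a given set `G`,
  with a majorant which only depends on the edges of `G`
* `l7G` : the same in the carrier of `Wf0_850`
-/

set_option autoImplicit false

noncomputable section

namespace Crest.Agent.R158.Lc522

open Finset unitInterval
open MeasureTheory hiding Lp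
open Crest.Agent.R161.Geo729 Crest.Agent.R161.Topo374 Crest.Agent.R161.Dual374
open Crest.Agent.R161.Tas682
open Crest.Agent.R158.Rs689 Crest.Agent.R158.Em522
open Crest.Agent.R158.It200 (Corner fc ah nx nxE Lp Hv JL nx_pv pv step_open step_closed Lp_induct
  mem_Lp_self Lp_eq)

/-! ### pieces along a set of edges -/

open Classical in
/-- the edges of the ball of radius `R` with property `Z` -/
def zT (Z : Edge → Prop) (x : P2) (R : ℕ) : Finset Edge := (starE x R).filter Z

theorem piece_of_zpath {Z : Edge → Prop} {x v u : P2} {r n R : ℕ} (hv : sd x v ≤ r)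
    (hR : r + n ≤ R) (h : Relation.ReflTransGen (PStep Z) v u) (hn : n ≤ sd v u) :
    Piece x r n (zT Z x R) := by
  classical
  have key : ∀ u, Relation.ReflTransGen (PStep Z) v u →
      (∃ u', (n : ℤ) ≤ sd v u' ∧ Relation.ReflTransGen (PStep (fun e => e ∈ zT Z x R)) v u') ∨
      (sd v u < n ∧ Relation.ReflTransGen (PStep (fun e => e ∈ zT Z x R)) v u) := by
    intro u hu
    induction hu with
    | refl =>
        rcases le_or_gt (n : ℤ) (sd v v) with h | h
        · exact Or.inl ⟨v, h, .refl⟩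
        · exact Or.inr ⟨h, .refl⟩
    | @tail a b hab hs ih =>
        rcases ih with h | ⟨h1, h2⟩
        · exact Or.inl h
        · have h3 : PStep (fun e => e ∈ zT Z x R) a b := by
            have h7 := sd_nbr (v := v) hs
            obtain ⟨e, he, hE⟩ := hs
            have h4 : sd v (src e) ≤ n := by
              rcases hE with ⟨h5, h6⟩ | ⟨h5, h6⟩
              · rw [← h5]; exact h1.le
              · rw [← h6]; linarith
            refine ⟨e, mem_filter.2 ⟨mem_starE ?_, he⟩, hE⟩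
            have h5 := sd_triangle v x (src e)
            have h6 : ((r + n : ℕ) : ℤ) ≤ R := by exact_mod_cast hR
            push_cast at h6
            linarith
          rcases le_or_gt (n : ℤ) (sd v b) with h | h
          · exact Or.inl ⟨b, h, h2.tail h3⟩
          · exact Or.inr ⟨h, h2.tail h3⟩
  rcases key u h with ⟨u', h1, h2⟩ | ⟨h1, _⟩
  · exact ⟨v, u', hv, h1, h2⟩
  · omega

/-- open edges visited by the strand of `c` -/
def Zo (z : Cfz) (c : Corner) (e : Edge) : Prop := z e = true ∧ ∃ d ∈ Lp z c, ah d = e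

/-- (dual edges of the) closed edges visited by the strand of `c` -/
def Zc (z : Cfz) (c : Corner) (e : Edge) : Prop :=
  z (dE.symm e) = false ∧ ∃ d ∈ Lp z c, ah d = dE.symm e

theorem pstep_symm {Z : Edge → Prop} {u v : P2} (h : PStep Z u v) : PStep Z v u := by
  obtain ⟨e, he, h | h⟩ := h
  · exact ⟨e, he, Or.inr ⟨h.2, h.1⟩⟩
  · exact ⟨e, he, Or.inl ⟨h.2, h.1⟩⟩

/-- right vertices are joined by open edges visited by the strand -/
theorem path_zo {z : Cfz} {c d : Corner} (hd : d ∈ Lp z c) :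
    Relation.ReflTransGen (PStep (Zo z c)) c.1 d.1 := by
  refine Lp_induct (P := fun d => Relation.ReflTransGen (PStep (Zo z c)) c.1 d.1)
    Relation.ReflTransGen.refl ?_ ?_ d hd
  · intro d hd h
    cases hz : z (ah d) with
    | true =>
        refine h.tail ?_
        obtain ⟨e, he⟩ := (It200.step_open hz)
        rw [It200.nx_open hz]
        exact ⟨ah d, ⟨hz, d, hd, rfl⟩, It200.ah_ends d⟩
    | false => rw [(step_closed hz).2]; exact h
  · intro d hd h
    have e := nx_pv z d
    have hd' : pv z d ∈ Lp z c := It200.pv_mem_Lp.2 hd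
    cases hz : z (ah (pv z d)) with
    | true =>
        have h1 : PStep (Zo z c) (pv z d).1 (nx z (pv z d)).1 := by
          rw [It200.nx_open hz]
          exact ⟨ah (pv z d), ⟨hz, _, hd', rfl⟩, It200.ah_ends _⟩
        rw [e] at h1
        exact h.tail (pstep_symm h1)
    | false =>
        have h1 := (step_closed hz).2
        rw [e] at h1
        rw [← h1]; exact h

/-- left faces are joined by dual edges of closed edges visited by the strand -/
theorem path_zc {z : Cfz} {c d : Corner} (hd : d ∈ Lp z c) :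
    Relation.ReflTransGen (PStep (Zc z c)) (fc c) (fc d) := by
  have key : ∀ d ∈ Lp z c, z (ah d) = false → PStep (Zc z c) (fc d) (fc (nx z d)) := by
    intro d hd hz
    have h1 : DStep (fun e => z e = false ∧ ∃ d ∈ Lp z c, ah d = e) (fc d) (fc (nx z d)) := by
      rw [It200.nx_closed hz]
      exact ⟨ah d, ⟨hz, d, hd, rfl⟩, It200.ah_faces d⟩
    rw [dstep_iff] at h1
    exact h1
  refine Lp_induct (P := fun d => Relation.ReflTransGen (PStep (Zc z c)) (fc c) (fc d))
    Relation.ReflTransGen.refl ?_ ?_ d hd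
  · intro d hd h
    cases hz : z (ah d) with
    | true => rw [(step_open hz).2]; exact h
    | false => exact h.tail (key d hd hz)
  · intro d hd h
    have e := nx_pv z d
    have hd' : pv z d ∈ Lp z c := It200.pv_mem_Lp.2 hd
    cases hz : z (ah (pv z d)) with
    | true =>
        have h1 := (step_open hz).2
        rw [e] at h1
        rw [← h1]; exact h
    | false =>
        have h1 := key _ hd' hz
        rw [e] at h1
        exact h.tail (pstep_symm h1)

theorem zo_rch {z : Cfz} {c c' : Corner} {e : Edge} (h : Zo z c e) (h' : Zo z c' e) :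
    Rch z c.1 c'.1 := by
  obtain ⟨he, d, hd, hd2⟩ := h
  obtain ⟨_, d', hd', hd2'⟩ := h'
  have h1 := rch_strand hd
  have h2 := rch_strand hd'
  have h3 := It200.ah_ends d
  have h4 := It200.ah_ends d'
  rw [hd2] at h3
  rw [hd2'] at h4
  have h5 : Rch z d.1 d'.1 := by
    have s1 : PStep (fun e => z e = true) (src e) (tgt e) := ⟨e, he, Or.inl ⟨rfl, rfl⟩⟩
    rcases h3 with ⟨h3, _⟩ | ⟨h3, _⟩ <;> rcases h4 with ⟨h4, _⟩ | ⟨h4, _⟩ <;> rw [h3, h4]
    · exact Relation.ReflTransGen.single s1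
    · exact Relation.ReflTransGen.single (pstep_symm s1)
  exact (h1.trans h5).trans (Rch.symm' h2)

theorem zc_rch {z : Cfz} {c c' : Corner} {e : Edge} (h : Zc z c e) (h' : Zc z c' e) :
    Relation.ReflTransGen (DStep (fun e => z e = false)) (fc c) (fc c') := by
  obtain ⟨he, d, hd, hd2⟩ := h
  obtain ⟨_, d', hd', hd2'⟩ := h'
  have h1 := rchd_strand hd
  have h2 := rchd_strand hd'
  have h3 := It200.ah_faces d
  have h4 := It200.ah_faces d'
  rw [hd2] at h3
  rw [hd2'] at h4
  have s1 : DStep (fun e => z e = false) (fA (dE.symm e)) (fB (dE.symm e)) :=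
    ⟨dE.symm e, he, Or.inl ⟨rfl, rfl⟩⟩
  have s2 : DStep (fun e => z e = false) (fB (dE.symm e)) (fA (dE.symm e)) :=
    ⟨dE.symm e, he, Or.inr ⟨rfl, rfl⟩⟩
  have h5 : Relation.ReflTransGen (DStep (fun e => z e = false)) (fc d) (fc d') := by
    rcases h3 with ⟨h3, _⟩ | ⟨h3, _⟩ <;> rcases h4 with ⟨h4, _⟩ | ⟨h4, _⟩ <;> rw [h3, h4]
    · exact Relation.ReflTransGen.single s1
    · exact Relation.ReflTransGen.single s2
  exact (h1.trans h5).trans (rchd_symm h2)

open Classical in
/-- **exponential moments of the number of macroscopic strands with edges in `G`**, with a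
majorant which only depends on the edges of `G`. -/
theorem exp_loopsG (a : ℝ) (ha : 1 ≤ a) (κ : ℕ) : ∃ C : ℝ, 1 ≤ C ∧
    ∀ (x : P2) (n : ℕ), 1 ≤ n → ∀ G : Set Edge, ∃ K : Cfz → ℕ,
      (∀ z z' : Cfz, (∀ e ∈ starE x ((κ + 1) * n), e ∈ G → z e = z' e) → K z = K z') ∧
      ∫ z, a ^ K z ∂(nu hf) ≤ C ∧
      ∀ (z : Cfz) (m : ℕ) (c : Fin m → Corner), (∀ i, (Lp z (c i)).Finite) →
        (∀ i j, i ≠ j → c j ∉ Lp z (c i)) → (∀ i, sd x (c i).1 ≤ (κ * n : ℕ)) →
        (∀ i, ∃ d ∈ Lp z (c i), ∃ d' ∈ Lp z (c i), (n : ℤ) ≤ sd d.1 d'.1) →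
        (∀ i, ∀ d ∈ Lp z (c i), ah d ∈ G) → m ≤ K z := by
  have ha2 : (1 : ℝ) ≤ a ^ 2 := one_le_pow₀ ha
  obtain ⟨C1, hC1, h1⟩ := exp_pieces (a ^ 2) ha2 (5 * κ + 1)
  obtain ⟨C2, hC2, h2⟩ := exp_pieces_dual (a ^ 2) ha2 (5 * κ + 1)
  set D : ℕ := (2 * (κ * 4) + 1) * (2 * (κ * 4) + 1) * 4 with hD
  refine ⟨max (C1 + C2) (a ^ D), le_max_of_le_left (by linarith), fun x n hn G => ?_⟩
  by_cases hn4 : n < 4
  · -- small scales
    refine ⟨fun _ => D, fun _ _ _ => rfl, ?_, ?_⟩
    · refine le_max_of_le_right (le_of_eq ?_)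
      simp [nu]
    · intro z m c _ hdis hnear _ _
      have hinj : Function.Injective c := by
        intro i j hij
        by_contra hne
        exact hdis i j hne (hij ▸ mem_Lp_self z (c i))
      refine (card_corners c hinj hnear).trans ?_
      have : κ * n ≤ κ * 4 := Nat.mul_le_mul_left _ hn4.le
      exact Nat.mul_le_mul (Nat.mul_le_mul (by omega) (by omega)) le_rfl
  · push Not at hn4
    obtain ⟨n', hn'1, hn'2, hn'3⟩ : ∃ n' : ℕ, 1 ≤ n' ∧ 2 * n' + 2 ≤ n ∧ n ≤ 5 * n' :=
      ⟨n / 2 - 1, by omega, by omega, by omega⟩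
    set r : ℕ := (5 * κ + 1) * n' with hr
    have hr1 : κ * n + 1 ≤ r := by
      have : κ * n ≤ κ * (5 * n') := Nat.mul_le_mul_left _ hn'3
      rw [hr]; nlinarith
    set R : ℕ := κ * n + 1 + n' with hR
    have hR1 : R + 1 ≤ (κ + 1) * n := by rw [hR]; nlinarith
    set E1 := (starE x R).filter fun e => e ∈ G with hE1
    set E2 := (starE x R).filter fun e => dE.symm e ∈ G with hE2
    have hsub : starE x (R + 1) ⊆ starE x ((κ + 1) * n) := starE_mono hR1
    have hsub' : starE x R ⊆ starE x ((κ + 1) * n) := starE_mono (by omega)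
    have hd1 : ∀ z z' : Cfz, (∀ e ∈ E1, z e = z' e) → NP x r n' E1 z = NP x r n' E1 z' :=
      fun z z' h => NP_dep h
    have hd2 : ∀ z z' : Cfz, (∀ e ∈ E2, z e = z' e) → NP x r n' E2 z = NP x r n' E2 z' :=
      fun z z' h => NP_dep h
    have hdep1 : ∀ z z' : Cfz, (∀ e ∈ starE x ((κ + 1) * n), e ∈ G → z e = z' e) →
        NP x r n' E1 z = NP x r n' E1 z' :=
      fun z z' h => hd1 z z' fun e he => h e (hsub' (mem_filter.1 he).1) (mem_filter.1 he).2
    have hdep2 : ∀ z z' : Cfz, (∀ e ∈ starE x ((κ + 1) * n), e ∈ G → z e = z' e) →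
        NP x r n' E2 (dual z) = NP x r n' E2 (dual z') := by
      intro z z' h
      refine NP_dep fun e he => ?_
      have h3 := mem_filter.1 he
      show (!z (dE.symm e)) = !z' (dE.symm e)
      rw [h _ (hsub ?_) h3.2]
      obtain ⟨⟨i, j⟩, k⟩ := e
      have he' := h3.1
      unfold starE at he' ⊢
      rw [mem_product, mem_product, mem_Icc, mem_Icc] at he'
      cases k
      · rw [dE_symm_h, mem_product, mem_product, mem_Icc, mem_Icc]
        simp only at he' ⊢
        refine ⟨⟨⟨?_, ?_⟩, ?_, ?_⟩, mem_univ _⟩ <;> push_cast <;> omega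
      · rw [dE_symm_v, mem_product, mem_product, mem_Icc, mem_Icc]
        simp only at he' ⊢
        refine ⟨⟨⟨?_, ?_⟩, ?_, ?_⟩, mem_univ _⟩ <;> push_cast <;> omega
    refine ⟨fun z => NP x r n' E1 z + NP x r n' E2 (dual z), ?_, ?_, ?_⟩
    · intro z z' h
      simp only
      rw [hdep1 z z' h, hdep2 z z' h]
    · refine le_max_of_le_left ?_
      have i1 := integrable_pow ha2 (N := fun z => NP x r n' E1 z) hd1
      have i2 := integrable_pow ha2 (N := fun z => NP x r n' E2 (dual z))
        (E := starE x ((κ + 1) * n)) (fun z z' h => hdep2 z z' fun e he _ => h e he)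
      have b1 := h1 x n' hn'1 E1 (fun z => NP x r n' E1 z) hd1 (fun z => hasP_NP hn'1)
      have b2 := h2 x n' hn'1 E2 (fun z => NP x r n' E2 z) hd2 (fun z => hasP_NP hn'1)
      calc ∫ z, a ^ (NP x r n' E1 z + NP x r n' E2 (dual z)) ∂(nu hf)
          ≤ ∫ z, ((a ^ 2) ^ NP x r n' E1 z + (a ^ 2) ^ NP x r n' E2 (dual z)) ∂(nu hf) := by
            refine integral_mono_of_nonneg (Filter.Eventually.of_forall fun z => by positivity)
              (i1.add i2) (Filter.Eventually.of_forall fun z => ?_)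
            simp only
            rw [pow_add, ← pow_mul, ← pow_mul, mul_comm 2, mul_comm 2, pow_mul, pow_mul]
            nlinarith [sq_nonneg (a ^ NP x r n' E1 z - a ^ NP x r n' E2 (dual z)),
              sq_nonneg (a ^ NP x r n' E1 z), sq_nonneg (a ^ NP x r n' E2 (dual z))]
        _ = _ := integral_add i1 i2
        _ ≤ C1 + C2 := add_le_add b1 b2
    · intro z m c hfin hdis hnear hfar hG
      have hm : m = ((univ : Finset (Fin m)).filter fun i => Hv (JL z (c i)) (c i).1 ≠ 0).card +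
          ((univ : Finset (Fin m)).filter fun i => ¬ Hv (JL z (c i)) (c i).1 ≠ 0).card := by
        rw [Finset.card_filter_add_card_filter_not]
        simp
      rw [hm]
      refine add_le_add ?_ ?_
      · refine card_le_NP hn'1 _ (fun i => zT (Zo z (c i)) x R) ?_ ?_ ?_
        · intro i _ e he
          obtain ⟨h3, h4, d, hd, h5⟩ := mem_filter.1 he
          exact ⟨mem_filter.2 ⟨h3, h5 ▸ hG i d hd⟩, h4⟩
        · intro i hi j hj hij
          rw [Finset.disjoint_left]
          intro e he he'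
          exact hdis i j hij (inj_in (hfin i) (hfin j) (mem_filter.1 hi).2 (mem_filter.1 hj).2
            (zo_rch (mem_filter.1 he).2 (mem_filter.1 he').2))
        · intro i _
          obtain ⟨d, hd, hd2⟩ := exists_half (hfar i)
          have p1 : Piece x ((κ * n + 1 : ℕ) : ℤ) n' (zT (Zo z (c i)) x R) := by
            refine piece_of_zpath ?_ (by omega) (path_zo hd) ?_
            · have := hnear i
              push_cast at this ⊢
              linarith
            · have : (2 * n' + 2 : ℤ) ≤ n := by exact_mod_cast hn'2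
              linarith
          exact piece_mono p1 (by exact_mod_cast hr1)
      · refine card_le_NP hn'1 _ (fun i => zT (Zc z (c i)) x R) ?_ ?_ ?_
        · intro i _ e he
          obtain ⟨h3, h4, d, hd, h5⟩ := mem_filter.1 he
          exact ⟨mem_filter.2 ⟨h3, h5 ▸ hG i d hd⟩, dual_eq_true.2 h4⟩
        · intro i hi j hj hij
          rw [Finset.disjoint_left]
          intro e he he'
          exact hdis i j hij (inj_out (hfin i) (hfin j) (not_not.1 (mem_filter.1 hi).2)
            (not_not.1 (mem_filter.1 hj).2) (zc_rch (mem_filter.1 he).2 (mem_filter.1 he').2))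
        · intro i _
          obtain ⟨d, hd, hd2⟩ := exists_half (hfar i)
          have p1 : Piece x ((κ * n + 1 : ℕ) : ℤ) n' (zT (Zc z (c i)) x R) := by
            refine piece_of_zpath ?_ (by omega) (path_zc hd) ?_
            · have := hnear i
              have h5 := sd_fc_le x (c i)
              push_cast at this ⊢
              linarith
            · have : (2 * n' + 2 : ℤ) ≤ n := by exact_mod_cast hn'2
              have h5 := sd_fc_ge (c i) d
              linarith
          exact piece_mono p1 (by exact_mod_cast hr1)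

theorem ht_eq (z : Cfz) (c : Corner) (p : P2 × Bool) : Ht (JL z c) p = Wf850.ht z c p := rfl

open Classical in
/-- **(L7) with control of the edges** : the number of loops `A` with `bdE A ⊆ G` which split
`BF x n` and have `n ≤ 2 (dia A + 1)` has a majorant depending only on the edges of `G` in
`starE x (2n)`, with bounded exponential moments (uniformly in `x, n, G`). -/
theorem l7G (a : ℝ) (ha : 1 ≤ a) : ∃ C : ℝ, 1 ≤ C ∧
    ∀ (x : P2) (n : ℕ), 1 ≤ n → ∀ G : Set Edge, ∃ K : Cfz → ℕ,
      (∀ z z' : Cfz, (∀ e ∈ starE x (2 * n), e ∈ G → z e = z' e) → K z = K z') ∧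
      ∫ z, a ^ K z ∂(nu hf) ≤ C ∧
      ∀ (z : Cfz) (s : Finset (Finset Wf850.Face)), (∀ A ∈ s, A ∈ Wf850.Lps z ∧
        Wf850.Splits A (Wf850.BF x n) ∧ n ≤ 2 * (Cn109.dia A + 1) ∧
          ∀ e ∈ Wf850.bdE A, e ∈ G) → s.card ≤ K z := by
  obtain ⟨C1, hC1, h1⟩ := exp_loopsG a ha 7
  obtain ⟨D, hD⟩ : ∃ D : ℕ, 7 * 7 * 4 ≤ D := ⟨_, le_rfl⟩
  refine ⟨max C1 (a ^ D), le_max_of_le_left hC1, fun x n hn G => ?_⟩
  -- corners of the strands
  have hch : ∀ (z : Cfz) (s : Finset (Finset Wf850.Face)), (∀ A ∈ s, A ∈ Wf850.Lps z ∧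
        Wf850.Splits A (Wf850.BF x n) ∧ n ≤ 2 * (Cn109.dia A + 1) ∧
          ∀ e ∈ Wf850.bdE A, e ∈ G) →
      ∃ c : Fin s.card → Corner, (∀ i, (Lp z (c i)).Finite) ∧
        (∀ i j, i ≠ j → c j ∉ Lp z (c i)) ∧ (∀ i, sd x (c i).1 ≤ n) ∧
        (∀ i, ∃ d ∈ Lp z (c i), ∃ d' ∈ Lp z (c i), (n : ℤ) ≤ 2 * (sd d.1 d'.1 + 1)) ∧
        ∀ i, ∀ d ∈ Lp z (c i), ah d ∈ G := by
    intro z s hs
    have hA : ∀ A ∈ s, ∃ c, (Lp z c).Finite ∧ (∀ f, f ∈ A ↔ Wf850.ht z c f ≠ 0) ∧
        sd x c.1 ≤ n ∧ (∃ d ∈ Lp z c, ∃ d' ∈ Lp z c, (n : ℤ) ≤ 2 * (sd d.1 d'.1 + 1)) ∧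
        ∀ d ∈ Lp z c, ah d ∈ G := by
      intro A hA
      obtain ⟨⟨c, hc1, hc2⟩, hsp, hdia, hG⟩ := hs A hA
      obtain ⟨⟨f, hf1, hf2⟩, g, hg1, hg2⟩ := hsp
      have hfi : f ∈ inn z c := (hc2 f).1 hf2
      have hgi : g ∉ inn z c := fun h => hg2 ((hc2 g).2 h)
      obtain ⟨d, hd, hd'⟩ := exists_near hc1 hfi hgi (Wf850.mem_BF.1 hf1) (Wf850.mem_BF.1 hg1)
      obtain ⟨v, hv, w, hw, h4⟩ := Cn109.exists_dia ⟨f, hf2⟩
      obtain ⟨e, he, e', he', hee⟩ := exists_far hc1 (p := v) (p' := w) ((hc2 v).1 hv)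
        ((hc2 w).1 hw)
      have h5 : (0 : ℤ) ≤ sd v.1 w.1 := le_max_of_le_left (abs_nonneg _)
      have hLp := Lp_eq hd
      refine ⟨d, by rw [hLp]; exact hc1, ?_, hd', ⟨e, by rw [hLp]; exact he, e',
        by rw [hLp]; exact he', by omega⟩, ?_⟩
      · intro p
        rw [hc2 p, ← ht_eq, ← ht_eq, It200.JL_eq hd]
      · intro d' hd'
        rw [hLp] at hd'
        exact hG _ (Wf850.mem_bdE.2 ⟨d', (Wf850.sep_iff hc1 hc2 d').2 hd', rfl⟩)
    choose! c hc1 hc2 hc3 hc4 hc5 using hA
    refine ⟨fun i => c (s.equivFin.symm i), fun i => hc1 _ (s.equivFin.symm i).2, ?_,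
      fun i => hc3 _ (s.equivFin.symm i).2, fun i => hc4 _ (s.equivFin.symm i).2,
      fun i => hc5 _ (s.equivFin.symm i).2⟩
    intro i j hij hm
    apply hij
    have h2 : (s.equivFin.symm i : Finset Wf850.Face) = s.equivFin.symm j := by
      ext p
      rw [hc2 _ (s.equivFin.symm i).2, hc2 _ (s.equivFin.symm j).2, ← ht_eq, ← ht_eq,
        It200.JL_eq hm]
    exact s.equivFin.symm.injective (Subtype.ext h2)
  by_cases hn4 : n < 4
  · refine ⟨fun _ => D, fun _ _ _ => rfl, ?_, ?_⟩
    · refine le_max_of_le_right (le_of_eq ?_)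
      simp [nu]
    · intro z s hs
      obtain ⟨c, _, hdis, hnear, _⟩ := hch z s hs
      have hinj : Function.Injective c := by
        intro i j hij
        by_contra hne
        exact hdis i j hne (hij ▸ mem_Lp_self z (c i))
      have h7 : 2 * n + 1 ≤ 7 := by omega
      exact ((card_corners c hinj hnear).trans
        (Nat.mul_le_mul (Nat.mul_le_mul h7 h7) le_rfl)).trans hD
  · push Not at hn4
    obtain ⟨n', hn'1, hn'2, hn'3⟩ : ∃ n' : ℕ, 1 ≤ n' ∧ 4 * n' ≤ n ∧ n ≤ 7 * n' :=
      ⟨n / 4, by omega, by omega, by omega⟩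
    obtain ⟨K, hK1, hK2, hK3⟩ := h1 x n' hn'1 G
    refine ⟨K, fun z z' h => hK1 z z' fun e he he' => h e (starE_mono (by omega) he) he',
      le_max_of_le_left hK2, fun z s hs => ?_⟩
    obtain ⟨c, hfin, hdis, hnear, hfar, hG⟩ := hch z s hs
    refine hK3 z _ c hfin hdis (fun i => (hnear i).trans (by exact_mod_cast hn'3))
      (fun i => ?_) hG
    obtain ⟨d, hd, d', hd', h2⟩ := hfar i
    exact ⟨d, hd, d', hd', by omega⟩

end Crest.Agent.R158.Lc522
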