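import Crest.Agent.R158.Ld2_570

/-!
# Row 158, Block G, Lemma D (helper570), part 3: `HypD` from OSSS, boundary blocks, gluing, `HypC`

* `os_lower` : block OSSS at all `q ≤ 1/2` and all scales
* `hypD_of`  : `HypC → HypBD → HypGl A4 → HypA4 A4 → HypD`
-/

set_option autoImplicit false

noncomputable section

namespace Crest.Agent.R158.Ld570

open MeasureTheory unitInterval Filter Topology Crest.Agent.R158.Rs689 Crest.Agent.R158.Fr158
open Crest.Agent.R158.Os488 Crest.Agent.R158.Ru874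
open Crest.Agent.R161.Geo729 Crest.Agent.R161.Topo374 Crest.Agent.R161.Dual374
open Crest.Agent.R161.Tas682
open Crest.ProbabilityR.Percolation (clampUnit)

theorem pr_XR (q : ℝ) (n : ℕ) : Pr q (XR 0 n 0 (3 * n)) = Pr q (BT n) := by
  have h := lr_eq_xpr (clampUnit q) 0 n 0 (3 * n)
  rw [sub_zero, sub_zero] at h
  rw [btn_eq]
  exact h

theorem xr_dep (a b c d : ℤ) : Dep (rS a b c d) (XR a b c d) := by
  unfold XR
  rw [lr_conS]
  exact dep_conS _ _

theorem xr_inc (a b c d : ℤ) : Inc (XR a b c d) := (lrc_incLoc a b c d).inc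

theorem xr_meas (a b c d : ℤ) : MeasurableSet (XR a b c d) := measurableSet_lr a b c d

/-- block OSSS at every `q ≤ 1/2` -/
theorem os_lower : ∃ C α : ℝ, 0 < C ∧ 0 < α ∧ α ≤ 1 ∧ ∀ q : ℝ, q ≤ 1 / 2 → ∀ m n : ℕ, 1 ≤ m →
    m ≤ n → Pr q (BT n) * (1 - Pr q (BT n)) ≤ C * ((m : ℝ) / n) ^ α *
      ∑ k ∈ (rS 0 n 0 (3 * n)).image (blk m), Pr q (PivS (blk m) k (XR 0 n 0 (3 * n))) := by
  obtain ⟨C, a, hC, ha, h⟩ := arm_half
  set a' := min a 1 with ha'
  have ha0 : 0 < a' := lt_min ha one_pos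
  refine ⟨2 * (C + 3), a' / 2, by positivity, by positivity, by
    have := min_le_right a 1
    linarith, fun q hq m n hm hmn => ?_⟩
  have h1 := piv_blocks_pow (clampUnit q) hC.le ha0 (min_le_right _ _) hm hmn (fun R hR1 hR2 => by
    have h2 : (Rs689.nu (clampUnit q)).real (ArmX (0, 0) m R) ≤
        (Rs689.nu hf).real (ArmX (0, 0) m R) := by
      rw [← clampUnit_half]
      refine Pr_mono_p hq ?_ ?_
      · rw [armX_zero]
        exact Crest.Agent.R161.Blk868.measurableSet_arm m R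
      · rintro z z' hz ⟨u, v, h1, h2, h3, h4⟩
        exact ⟨u, v, h1, h2, h3, rch_inc u v z z' hz h4⟩
    refine h2.trans ((h (0, 0) m R hm hR1).trans ?_)
    refine mul_le_mul_of_nonneg_left ?_ hC.le
    have hR0 : (0 : ℝ) < R := by exact_mod_cast hm.trans hR1
    refine Real.rpow_le_rpow_of_exponent_ge (by
      have : (0 : ℝ) < m := by exact_mod_cast hm
      positivity) ?_ (min_le_left _ _)
    rw [div_le_one hR0]
    exact_mod_cast hR1) (a := 0) (b := n) (c := 0) (d := 3 * n) (by simp)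
  have h3 : (Rs689.nu (clampUnit q)).real {z : Cf | LRc z 0 n 0 (3 * n)} = Pr q (BT n) :=
    pr_XR q n
  rw [h3] at h1
  have h4 : (∑ k ∈ (rS 0 n 0 (3 * n)).image (blk m),
      (Rs689.nu (clampUnit q)).real (PivS (blk m) k {z : Cf | LRc z 0 n 0 (3 * n)})) =
      ∑ k ∈ (rS 0 n 0 (3 * n)).image (blk m), Pr q (PivS (blk m) k (XR 0 n 0 (3 * n))) := rfl
  rw [h4] at h1
  nlinarith

/-- splitting of the blocks -/
theorem sum_split (q : ℝ) (m n : ℕ) (s : ℤ) (A : Set Cf) :
    ∑ k ∈ (rS 0 n 0 (3 * n)).image (blk m), Pr q (PivS (blk m) k A) =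
      ∑ k ∈ bulkK m 0 n 0 (3 * n) s, Pr q (PivS (blk m) k A) +
        ∑ k ∈ bdK m 0 n 0 (3 * n) s, Pr q (PivS (blk m) k A) := by
  classical
  unfold bulkK bdK
  exact (Finset.sum_filter_add_sum_filter_not _ _ _).symm

/-- increment from the number of pivotal edges -/
theorem incr {a b L : ℝ} (ha : 0 < a) (hab : a ≤ b) (hb : b < 1) (n : ℕ) (s : ℤ)
    (hL : ∀ q ∈ Set.Icc a b, L ≤ ∑ e ∈ bulkE 0 n 0 (3 * n) s, Pr q (Piv e (XR 0 n 0 (3 * n)))) :
    L * (b - a) ≤ 1 := by
  classical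
  set A : Set Cf := XR 0 n 0 (3 * n) with hA
  set S := rS 0 n 0 (3 * n) with hS
  have hD : Dep S A := xr_dep _ _ _ _
  have h1 : ∀ q ∈ Set.Icc a b, HasDerivAt (fun t : ℝ => (mu t).real A)
      (∑ e ∈ S, ((mu q).real (sec e true A) - (mu q).real (sec e false A))) q :=
    fun q hq => russo (ha.trans_le hq.1) (hq.2.trans_lt hb) S hD
  have h2 : ∀ q ∈ Set.Icc a b, L ≤
      ∑ e ∈ S, ((mu q).real (sec e true A) - (mu q).real (sec e false A)) := by
    intro q hq
    refine (hL q hq).trans ?_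
    have h3 : ∑ e ∈ S, ((mu q).real (sec e true A) - (mu q).real (sec e false A)) =
        ∑ e ∈ S, Pr q (Piv e A) :=
      Finset.sum_congr rfl fun e _ => sec_sub_eq q hD (xr_inc _ _ _ _) e
    rw [h3]
    refine Finset.sum_le_sum_of_subset_of_nonneg ?_ fun _ _ _ => Pr_nonneg _ _
    unfold bulkE
    exact Finset.filter_subset _ _
  have h4 : L * (b - a) ≤ (mu b).real A - (mu a).real A := by
    refine (convex_Icc a b).mul_sub_le_image_sub_of_le_deriv
      (f := fun t : ℝ => (mu t).real A) ?_ ?_ ?_ a (Set.left_mem_Icc.2 hab) b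
      (Set.right_mem_Icc.2 hab) hab
    · exact fun q hq => (h1 q hq).continuousAt.continuousWithinAt
    · exact fun q hq => (h1 q (interior_subset hq)).differentiableAt.differentiableWithinAt
    · intro q hq
      rw [(h1 q (interior_subset hq)).deriv]
      exact h2 q (interior_subset hq)
  have h5 : (mu b).real A ≤ 1 := measureReal_le_one
  have h6 : 0 ≤ (mu a).real A := measureReal_nonneg
  linarith

end Crest.Agent.R158.Ld570
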