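import Crest.Agent.R158.Ld3_570

/-!
# Row 158, Block G, Lemma D (helper570), part 4: asymptotics and `HypD`

* `ev_pow`, `ev_log` : comparison of powers
* `main_q` : at one parameter `q`: `w (m² X - 16 n² η^J) ≤ J K Σ_e P(e pivotal)`
* `hypD_of` : `HypC → HypBD → HypGl A4 → HypA4 A4 → HypD`
-/

set_option autoImplicit false

noncomputable section

namespace Crest.Agent.R158.Ld570

open MeasureTheory unitInterval Filter Topology Crest.Agent.R158.Rs689 Crest.Agent.R158.Fr158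
open Crest.Agent.R158.Os488 Crest.Agent.R158.Ru874
open Crest.Agent.R161.Geo729 Crest.Agent.R161.Topo374 Crest.Agent.R161.Dual374
open Crest.Agent.R161.Tas682
open Crest.ProbabilityR.Percolation (clampUnit)

theorem ev_pow (C : ℝ) {x y : ℝ} (h : x < y) : ∀ᶠ A : ℝ in atTop, C * A ^ x ≤ A ^ y := by
  have h1 : Tendsto (fun A : ℝ => A ^ (y - x)) atTop atTop :=
    tendsto_rpow_atTop (sub_pos.2 h)
  filter_upwards [h1.eventually_ge_atTop C, eventually_gt_atTop 0] with A hA hA0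
  have h2 : A ^ y = A ^ (y - x) * A ^ x := by
    rw [← Real.rpow_add hA0]
    congr 1
    ring
  rw [h2]
  exact mul_le_mul_of_nonneg_right hA (Real.rpow_nonneg hA0.le _)

theorem ev_log (C D : ℝ) {y : ℝ} (h : 0 < y) :
    ∀ᶠ A : ℝ in atTop, C * Real.log A + D ≤ A ^ y := by
  have h1 := (isLittleO_log_rpow_atTop h).bound (c := 1 / (2 * (|C| + 1))) (by positivity)
  have h2 : Tendsto (fun A : ℝ => A ^ y) atTop atTop := tendsto_rpow_atTop h
  filter_upwards [h1, h2.eventually_ge_atTop (2 * |D|), eventually_gt_atTop 0] with A h3 h4 h5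
  have h6 : 0 < A ^ y := Real.rpow_pos_of_pos h5 y
  rw [Real.norm_eq_abs, Real.norm_eq_abs, abs_of_pos h6] at h3
  have h7 : |C| * |Real.log A| ≤ A ^ y / 2 := by
    have h8 : 0 < |C| + 1 := by positivity
    calc |C| * |Real.log A| ≤ (|C| + 1) * (1 / (2 * (|C| + 1)) * A ^ y) :=
          mul_le_mul (by linarith) h3 (abs_nonneg _) h8.le
      _ = A ^ y / 2 := by field_simp
  have h9 : C * Real.log A ≤ |C| * |Real.log A| := by
    rw [← abs_mul]
    exact le_abs_self _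
  have h10 := le_abs_self D
  linarith

theorem mem_bulkE {a b c d s : ℤ} {e : Edge} :
    e ∈ bulkE a b c d s ↔ e ∈ rS a b c d ∧ Blk a b c d s e := by
  classical
  unfold bulkE
  rw [Finset.mem_filter]

/-- everything at one parameter -/
theorem main_q {A4 : Edge → ℕ → Set Cf} {c c' δ Cos α η K Y w : ℝ} {Λ B C r0 J m n s : ℕ} {q : ℝ}
    (hOS : ∀ q : ℝ, q ≤ 1 / 2 → ∀ m n : ℕ, 1 ≤ m → m ≤ n →
      Pr q (BT n) * (1 - Pr q (BT n)) ≤ Cos * ((m : ℝ) / n) ^ α *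
        ∑ k ∈ (rS 0 n 0 (3 * n)).image (blk m), Pr q (PivS (blk m) k (XR 0 n 0 (3 * n))))
    (hCos : 0 < Cos) (hδ : 0 < δ) (hc' : 0 < c')
    (hf1 : δ ≤ Pr q (BT n)) (hf2 : Pr q (BT n) ≤ 1 - c') (hq : q ≤ 1 / 2)
    (hm : 1 ≤ m) (hmn : m ≤ n)
    (hBD : ∑ k ∈ bdK m 0 n 0 (3 * n) s, Pr q (PivS (blk m) k (XR 0 n 0 (3 * n))) ≤ Y)
    (hB : Λ ^ 2 + 1 ≤ B) (hs : s = C * (m * B ^ J)) (hC : 1 ≤ C) (hr0 : r0 ≤ m)
    (hR : RScale c q s)
    (hG : ∀ r : ℕ, r0 ≤ r → RScale c q (C * r) →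
      ∀ (a b c' d : ℤ) (e : Edge), Blk a b c' d (C * r) e →
        ∃ (G : Set Cf) (T : Finset Edge), Dep T G ∧
          (∀ i ∈ T, (r : ℤ) ≤ Λ * sd (src e) (src i) ∧ sd (src e) (src i) ≤ Λ * r) ∧
          Pr q Gᶜ ≤ η ∧
          Pr q (Ld570.BPiv (src e) r (XR a b c' d) ∩ G) * Pr q (A4 e r) ≤
            K * Pr q (Piv e (XR a b c' d)))
    (hw : 0 ≤ w) (hA4 : ∀ j < J, ∀ e, w ≤ Pr q (A4 e (m * B ^ j))) (hη : 0 ≤ η) :
    w * ((m : ℝ) ^ 2 * (δ * c' / Cos * ((n : ℝ) / m) ^ α - Y) - 16 * (n : ℝ) ^ 2 * η ^ J) ≤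
      J * K * ∑ e ∈ bulkE 0 n 0 (3 * n) s, Pr q (Piv e (XR 0 n 0 (3 * n))) := by
  have hm0 : (0 : ℝ) < m := by exact_mod_cast hm
  have hn0 : (0 : ℝ) < n := by exact_mod_cast hm.trans hmn
  have hB1 : 1 ≤ B := by omega
  have hs1 : 1 ≤ s := by
    rw [hs]
    exact Nat.mul_pos hC (Nat.mul_pos hm (pow_pos (by omega) _))
  -- OSSS
  have h1 := hOS q hq m n hm hmn
  set X0 := ∑ k ∈ (rS 0 n 0 (3 * n)).image (blk m), Pr q (PivS (blk m) k (XR 0 n 0 (3 * n)))
    with hX0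
  have h2 : δ * c' ≤ Pr q (BT n) * (1 - Pr q (BT n)) :=
    mul_le_mul hf1 (by linarith) hc'.le (hδ.le.trans hf1)
  have h3 : δ * c' / Cos * ((n : ℝ) / m) ^ α ≤ X0 := by
    have h4 : ((m : ℝ) / n) ^ α * ((n : ℝ) / m) ^ α = 1 := by
      rw [← Real.mul_rpow (by positivity) (by positivity)]
      have : (m : ℝ) / n * (n / m) = 1 := by field_simp
      rw [this, Real.one_rpow]
    have h5 : 0 < ((n : ℝ) / m) ^ α := by positivity
    have h6 : δ * c' ≤ Cos * ((m : ℝ) / n) ^ α * X0 := h2.trans h1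
    rw [div_mul_eq_mul_div, div_le_iff₀ hCos]
    calc δ * c' * ((n : ℝ) / m) ^ α ≤ Cos * ((m : ℝ) / n) ^ α * X0 * ((n : ℝ) / m) ^ α :=
          mul_le_mul_of_nonneg_right h6 h5.le
      _ = Cos * X0 * (((m : ℝ) / n) ^ α * ((n : ℝ) / m) ^ α) := by ring
      _ = X0 * Cos := by rw [h4]; ring
  have h4 := sum_split q m n s (XR 0 n 0 (3 * n))
  rw [← hX0] at h4
  have h5 : δ * c' / Cos * ((n : ℝ) / m) ^ α - Y ≤
      ∑ k ∈ bulkK m 0 n 0 (3 * n) s, Pr q (PivS (blk m) k (XR 0 n 0 (3 * n))) := by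
    linarith
  have h6 := piv_lower (q := q) (η := η) (K := K) (w := w) (J := J) (B := B) (Λ := Λ) hm
    (s := (s : ℤ)) (by exact_mod_cast hs1) hB hw h5 (by
      intro e he j hj
      have hle : m * B ^ j ≤ m * B ^ J :=
        Nat.mul_le_mul_left _ (Nat.pow_le_pow_right hB1 hj.le)
      have hle2 : C * (m * B ^ j) ≤ s := by
        rw [hs]
        exact Nat.mul_le_mul_left _ hle
      have hr : r0 ≤ m * B ^ j := hr0.trans (Nat.le_mul_of_pos_right _ (pow_pos (by omega) _))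
      have hblk : Blk 0 n 0 (3 * n) ((C : ℤ) * (m * B ^ j : ℕ)) e := by
        have h7 := (mem_bulkE.1 he).2
        unfold Blk at h7 ⊢
        have h8 : ((C * (m * B ^ j) : ℕ) : ℤ) ≤ s := by exact_mod_cast hle2
        rw [Nat.cast_mul] at h8
        omega
      obtain ⟨G, T, g1, g2, g3, g4⟩ := hG (m * B ^ j) hr (hR.mono hle2) 0 n 0 (3 * n) e hblk
      refine ⟨G, T, g1, g2, g3, le_trans ?_ g4⟩
      rw [mul_comm]
      exact mul_le_mul_of_nonneg_left (hA4 j hj e) (Pr_nonneg _ _))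
  refine le_trans ?_ h6
  refine mul_le_mul_of_nonneg_left ?_ hw
  have h7 := card_bulkE n (hm.trans hmn) s
  have h8 : 0 ≤ η ^ J := pow_nonneg hη J
  have h9 := mul_le_mul_of_nonneg_right h7 h8
  linarith

/-- the powers of `B` and `η` at `J = ⌈κ log A⌉` -/
theorem pow_J {B : ℕ} (hB : 2 ≤ B) {τ D A : ℝ} (hτ : 0 < τ) (hD : 0 ≤ D) (hA : 1 ≤ A) :
    (B : ℝ) ^ (⌈τ / Real.log B * Real.log A⌉₊) ≤ B * A ^ τ ∧
      Real.exp (-(D / (τ / Real.log B))) ^ (⌈τ / Real.log B * Real.log A⌉₊) ≤ A ^ (-D) := by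
  have hB1 : (1 : ℝ) < B := by exact_mod_cast hB
  have hlB : 0 < Real.log B := Real.log_pos hB1
  have hlA : 0 ≤ Real.log A := Real.log_nonneg hA
  have hA0 : 0 < A := by linarith
  set κ := τ / Real.log B with hκ
  have hκ0 : 0 < κ := by positivity
  set J := ⌈κ * Real.log A⌉₊ with hJ
  have h1 : κ * Real.log A ≤ J := Nat.le_ceil _
  have h2 : (J : ℝ) < κ * Real.log A + 1 := Nat.ceil_lt_add_one (by positivity)
  constructor
  · rw [← Real.rpow_natCast, Real.rpow_def_of_pos (by linarith)]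
    have h3 : (B : ℝ) * A ^ τ = Real.exp (Real.log B + Real.log A * τ) := by
      rw [Real.exp_add, Real.exp_log (by linarith), Real.rpow_def_of_pos hA0]
    rw [h3, Real.exp_le_exp]
    have h4 : Real.log B * (J : ℝ) ≤ Real.log B * (κ * Real.log A + 1) :=
      mul_le_mul_of_nonneg_left h2.le hlB.le
    have h5 : Real.log B * (κ * Real.log A + 1) = Real.log B + Real.log A * τ := by
      rw [hκ]
      field_simp
      ring
    linarith
  · rw [← Real.exp_nat_mul, Real.rpow_def_of_pos hA0, Real.exp_le_exp]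
    have h3 : D / κ * (κ * Real.log A) ≤ D / κ * J :=
      mul_le_mul_of_nonneg_left h1 (by positivity)
    have h4 : D / κ * (κ * Real.log A) = Real.log A * D := by field_simp
    rw [h4] at h3
    nlinarith

end Crest.Agent.R158.Ld570
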