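import Crest.Agent.R158.Lr9_158

/-!
R158, block Q1d, leaf LR (helper158), part 10: **`Cg_step`**.
-/

set_option autoImplicit false

namespace Crest.Agent.R158.Lr158

open Crest.Agent.R158.Sw300 (Port)
open Crest.Agent.R158.Env664 (TG Mac D mem_D Run CutAdj Adj4 lowT upT Band)
open Crest.Agent.R158.Pt266 (dir)
open Crest.Agent.R158.Ka470
open Crest.Agent.R158.Ka470.Half

section half

variable {A : Half} {ρ : ℕ} {cc : TG × ZMod 4 → ℤ} {cl : ℤ} {J : TG × ZMod 4 → TG × ZMod 4 → ℤ}

theorem tM_l {x y : ℤ} (h : x < A.xl) : tM A x y = Sum.inr (A.R - (A.xl - x), y) := if_pos h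

theorem tM_m {x y : ℤ} (h1 : A.xl ≤ x) (h2 : x ≤ A.xr) : tM A x y = Sum.inl (x, y) := by
  unfold tM; rw [if_neg (by omega), if_pos h2]

theorem tM_r {x y : ℤ} (h1 : A.xr < x) : tM A x y = Sum.inr (x - A.xr - 1, y) := by
  have := A.hx
  unfold tM; rw [if_neg (by omega), if_neg (by omega)]

/-- step of the chart `2` -/
theorem Cg_stepM (H : ChH A cc cl J) {h : A.Sz ρ} {B : Set (ℤ × ℤ)} (hB : A.Good ρ 2 B)
    {X X' : (ℤ × ℤ) × ZMod 4} {k : ℤ} (hS : Stp ((chf h 2).R : Set (ℤ × ℤ)) B X X' k) :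
    Cg cc cl h 2 X' = Cg cc cl h 2 X + Jc J h 2 X X' := by
  obtain ⟨hX, hX'⟩ := hS.ends
  have p1 := posM hB hX
  have p2 := posM hB hX'
  clear hX hX'
  have h01 := A.h1
  have hx := A.hx
  have hr := h.r
  have hρ := h.pos
  have hy5 := h.y
  have n01 : (0 : ZMod 4) ≠ 1 := by decide
  have n02 : (0 : ZMod 4) ≠ 2 := by decide
  have n03 : (0 : ZMod 4) ≠ 3 := by decide
  have n12 : (1 : ZMod 4) ≠ 2 := by decide
  have n13 : (1 : ZMod 4) ≠ 3 := by decide
  have n23 : (2 : ZMod 4) ≠ 3 := by decide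
  have ng1 : -(1 : ZMod 4) = 3 := by decide
  have ng2 : -(2 : ZMod 4) = 2 := by decide
  cases hS with
  | @flat t d h1 h2 h3 h4 b1 b2 b3 b4 =>
    obtain ⟨x, y⟩ := t
    rcases z4 d with rfl | rfl | rfl | rfl
    · -- left wall
      have e1 : ((x, y) : ℤ × ℤ) + dir ((0 : ZMod 4) + 1) = (x, y + 1) := by
        rw [d4a.1, dir1]; simp
      rw [e1] at p2 ⊢
      unfold PosM at p1 p2
      simp only [n01, n02, n03, true_and, false_and, or_false] at p1 p2
      obtain ⟨rfl, p3, p4⟩ := p1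
      obtain ⟨-, p5, p6⟩ := p2
      have s1 := side_lt p4
      have s2 := side_lt p6
      rcases lt_or_ge y A.y0 with hy | hy
      · obtain ⟨u1, v1⟩ := uppM_lo h (x := A.xl) (d := 0) hy
        obtain ⟨u2, v2⟩ := uppM_lo h (x := A.xl) (y := y + 1) (d := 0) (by omega)
        refine step_lo v1 v2 ?_
        rw [u1, u2, tM_m le_rfl hx, tM_m le_rfl hx]
        simp only [lt_irrefl, and_false, if_false, add_zero]
        exact H.wl (by rw [ry_lt _ hy] at p3; exact p3) (by omega)
      · obtain ⟨u1, v1⟩ := uppM_hi h (x := A.xl) (d := 0) hy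
        obtain ⟨u2, v2⟩ := uppM_hi h (x := A.xl) (y := y + 1) (d := 0) (by omega)
        refine step_hi v1 v2 ?_
        rw [u1, u2, tM_m le_rfl hx, tM_m le_rfl hx]
        simp only [lt_irrefl, and_false, if_false, add_zero, neg_zero]
        have := H.wl (y := 2 * A.y0 - 1 - (y + 1)) (by
          rw [ry_ge _ (by omega)] at p5; exact p5) (by omega)
        rw [show 2 * A.y0 - 1 - (y + 1) + 1 = 2 * A.y0 - 1 - y by ring] at this
        exact this
    · -- ceiling of the copy `true`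
      have e1 : ((x, y) : ℤ × ℤ) + dir ((1 : ZMod 4) + 1) = (x + 1, y) := by
        rw [d4a.2.1, dir2]; simp
      rw [e1] at p2 ⊢
      unfold PosM at p1 p2
      simp only [n01.symm, n12, n13, true_and, false_and, or_false, false_or] at p1 p2
      obtain ⟨rfl, ⟨p3, p4⟩, p5⟩ := p1
      obtain ⟨-, ⟨p6, p7⟩, p8⟩ := p2
      have hy : A.y0 ≤ 2 * A.y0 - A.y1 - 1 := by omega
      obtain ⟨u1, v1⟩ := uppM_hi h (x := x) (d := 1) hy
      obtain ⟨u2, v2⟩ := uppM_hi h (x := x + 1) (d := 1) hy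
      refine step_hi v1 v2 ?_
      rw [u1, u2, ng1]
      have ey : 2 * A.y0 - 1 - (2 * A.y0 - A.y1 - 1) = A.y1 := by ring
      rw [ey]
      rcases p5 with p5 | p5
      · have p9 : x + 1 < A.xl := by omega
        rw [tM_l p5, tM_l p9]
        simp only [p5, p9, true_and, if_true]
        have := H.fl (A.R - (A.xl - (x + 1))) (by omega) (by omega)
        rw [show A.R - (A.xl - (x + 1)) - 1 = A.R - (A.xl - x) by ring] at this
        rw [this]
        ring
      · have p9 : A.xr < x + 1 := by omega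
        have p10 : ¬ x < A.xl := by omega
        have p11 : ¬ x + 1 < A.xl := by omega
        rw [tM_r p5, tM_r p9]
        simp only [p10, p11, and_false, if_false, add_zero]
        have := H.fl (x + 1 - A.xr - 1) (by omega) (by omega)
        rw [show x + 1 - A.xr - 1 - 1 = x - A.xr - 1 by ring] at this
        exact this
    · -- right wall
      have e1 : ((x, y) : ℤ × ℤ) + dir ((2 : ZMod 4) + 1) = (x, y - 1) := by
        rw [d4a.2.2.1, dir3]; simp [sub_eq_add_neg]
      rw [e1] at p2 ⊢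
      unfold PosM at p1 p2
      simp only [n02.symm, n12.symm, n23, true_and, false_and, or_false, false_or] at p1 p2
      obtain ⟨rfl, p3, p4⟩ := p1
      obtain ⟨-, p5, p6⟩ := p2
      have s1 := side_lt p4
      have s2 := side_lt p6
      have n10 : ¬ A.xr < A.xl := by omega
      rcases lt_or_ge y A.y0 with hy | hy
      · obtain ⟨u1, v1⟩ := uppM_lo h (x := A.xr) (d := 2) hy
        obtain ⟨u2, v2⟩ := uppM_lo h (x := A.xr) (y := y - 1) (d := 2) (by omega)
        refine step_lo v1 v2 ?_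
        rw [u1, u2, tM_m hx le_rfl, tM_m hx le_rfl]
        simp only [n10, and_false, if_false, add_zero]
        have := H.wr (y := y - 1) (by rw [ry_lt _ (by omega)] at p5; exact p5) (by omega)
        rw [sub_add_cancel] at this
        exact this
      · obtain ⟨u1, v1⟩ := uppM_hi h (x := A.xr) (d := 2) hy
        obtain ⟨u2, v2⟩ := uppM_hi h (x := A.xr) (y := y - 1) (d := 2) (by omega)
        refine step_hi v1 v2 ?_
        rw [u1, u2, tM_m hx le_rfl, tM_m hx le_rfl, ng2]
        simp only [n10, and_false, if_false, add_zero]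
        have := H.wr (y := 2 * A.y0 - 1 - y) (by
          rw [ry_ge _ hy] at p3; exact p3) (by omega)
        rw [show 2 * A.y0 - 1 - y + 1 = 2 * A.y0 - 1 - (y - 1) by ring] at this
        exact this
    · -- floor of the copy `false`
      have e1 : ((x, y) : ℤ × ℤ) + dir ((3 : ZMod 4) + 1) = (x - 1, y) := by
        rw [d4a.2.2.2, dir0]; simp [sub_eq_add_neg]
      rw [e1] at p2 ⊢
      unfold PosM at p1 p2
      simp only [n03.symm, n13.symm, n23.symm, true_and, false_and, or_false, false_or] at p1 p2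
      obtain ⟨rfl, ⟨p3, p4⟩, p5⟩ := p1
      obtain ⟨-, ⟨p6, p7⟩, p8⟩ := p2
      obtain ⟨u1, v1⟩ := uppM_lo h (x := x) (d := 3) h01
      obtain ⟨u2, v2⟩ := uppM_lo h (x := x - 1) (d := 3) h01
      refine step_lo v1 v2 ?_
      rw [u1, u2]
      rcases p5 with p5 | p5
      · have p9 : x - 1 < A.xl := by omega
        rw [tM_l p5, tM_l p9]
        simp only [p5, p9, true_and, if_true]
        have := H.fl (A.R - (A.xl - x)) (by omega) (by omega)
        rw [show A.R - (A.xl - x) - 1 = A.R - (A.xl - (x - 1)) by ring] at this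
        rw [this]
        ring
      · have p9 : A.xr < x - 1 := by omega
        have p10 : ¬ x < A.xl := by omega
        have p11 : ¬ x - 1 < A.xl := by omega
        rw [tM_r p5, tM_r p9]
        simp only [p10, p11, and_false, if_false, add_zero]
        have := H.fl (x - A.xr - 1) (by omega) (by omega)
        rw [show x - A.xr - 1 - 1 = x - 1 - A.xr - 1 by ring] at this
        exact this
  | @convex t d h1 h2 h3 b1 b2 b3 =>
    exfalso
    obtain ⟨x, y⟩ := t
    unfold PosM at p1 p2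
    simp only at p1 p2
    have q1 : A.y1 ≤ A.ry (2 * A.y0 - A.y1 - 1) := y1_ry.2 (by omega)
    have q2 : A.y1 ≤ A.ry A.y1 := y1_ry.2 (by omega)
    rcases z4 d with rfl | rfl | rfl | rfl
    · simp only [d4a.1, n01, n02, n03, n01.symm, n12, n13, true_and, false_and, or_false,
        false_or] at p1 p2
      obtain ⟨e, -, -⟩ := p2
      rw [e] at p1
      omega
    · simp only [d4a.2.1, n02.symm, n12.symm, n23, n01.symm, n12, n13, true_and, false_and,
        or_false, false_or] at p1 p2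
      obtain ⟨e, -, -⟩ := p1
      rw [e] at p2
      omega
    · simp only [d4a.2.2.1, n02.symm, n12.symm, n23, n03.symm, n13.symm, n23.symm, true_and,
        false_and, or_false, false_or] at p1 p2
      obtain ⟨e, -, -⟩ := p2
      rw [e] at p1
      omega
    · simp only [d4a.2.2.2, n01, n02, n03, n03.symm, n13.symm, n23.symm, true_and, false_and,
        or_false, false_or] at p1 p2
      obtain ⟨e, -, -⟩ := p1
      rw [e] at p2
      omega
  | @reflex t d h1 h2 h3 h4 b1 b2 b3 b4 =>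
    obtain ⟨x, y⟩ := t
    rcases z4 d with rfl | rfl | rfl | rfl
    · -- lower left mouth corner
      have e1 : ((x, y) : ℤ × ℤ) + dir ((0 : ZMod 4) + 1) + dir (0 : ZMod 4) = (x - 1, y + 1) := by
        rw [d4a.1, dir1, dir0]; simp [sub_eq_add_neg]
      rw [e1, flip0.1] at p2 ⊢
      unfold PosM at p1 p2
      simp only [n01, n02, n03, n03.symm, n13.symm, n23.symm, true_and, false_and, or_false,
        false_or] at p1 p2
      obtain ⟨rfl, p3, p4⟩ := p1
      obtain ⟨p5, -, -⟩ := p2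
      obtain rfl : y = A.y1 - 1 := by omega
      rw [sub_add_cancel]
      obtain ⟨u1, v1⟩ := uppM_lo h (x := A.xl) (y := A.y1 - 1) (d := 0) (by omega)
      obtain ⟨u2, v2⟩ := uppM_lo h (x := A.xl - 1) (y := A.y1) (d := 3) h01
      refine step_lo v1 v2 ?_
      have s1 : A.xl - 1 < A.xl := by omega
      rw [u1, u2, tM_m le_rfl hx, tM_l s1]
      simp only [lt_irrefl, and_false, if_false, s1, and_true, if_true, add_zero]
      rw [show A.R - (A.xl - (A.xl - 1)) = A.R - 1 by ring]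
      exact H.ml (by omega)
    · -- upper left mouth corner of the copy `true`
      have e1 : ((x, y) : ℤ × ℤ) + dir ((1 : ZMod 4) + 1) + dir (1 : ZMod 4) = (x + 1, y + 1) := by
        rw [d4a.2.1, dir2, dir1]; simp
      rw [e1, flip0.2.1] at p2 ⊢
      unfold PosM at p1 p2
      simp only [n01, n02, n03, n01.symm, n12, n13, true_and, false_and, or_false,
        false_or] at p1 p2
      obtain ⟨rfl, ⟨p3, p4⟩, p5⟩ := p1
      obtain ⟨p6, -, -⟩ := p2
      obtain rfl : x = A.xl - 1 := by omega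
      rw [sub_add_cancel]
      obtain ⟨u1, v1⟩ := uppM_hi h (x := A.xl - 1) (y := 2 * A.y0 - A.y1 - 1) (d := 1) (by omega)
      obtain ⟨u2, v2⟩ := uppM_hi h (x := A.xl) (y := 2 * A.y0 - A.y1 - 1 + 1) (d := 0) (by omega)
      refine step_hi v1 v2 ?_
      have s1 : A.xl - 1 < A.xl := by omega
      rw [u1, u2, tM_m le_rfl hx, tM_l s1, ng1]
      simp only [lt_irrefl, and_false, if_false, s1, and_true, if_true, add_zero, neg_zero]
      rw [show A.R - (A.xl - (A.xl - 1)) = A.R - 1 by ring,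
        show 2 * A.y0 - 1 - (2 * A.y0 - A.y1 - 1) = A.y1 by ring,
        show 2 * A.y0 - 1 - (2 * A.y0 - A.y1 - 1 + 1) = A.y1 - 1 by ring]
      exact H.ml (by omega)
    · -- upper right mouth corner of the copy `true`
      have e1 : ((x, y) : ℤ × ℤ) + dir ((2 : ZMod 4) + 1) + dir (2 : ZMod 4) = (x + 1, y - 1) := by
        rw [d4a.2.2.1, dir3, dir2]; simp [sub_eq_add_neg]
      rw [e1, flip0.2.2.1] at p2 ⊢
      unfold PosM at p1 p2
      simp only [n02.symm, n12.symm, n23, n01.symm, n12, n13, true_and, false_and, or_false,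
        false_or] at p1 p2
      obtain ⟨rfl, p3, p4⟩ := p1
      obtain ⟨p5, -, -⟩ := p2
      obtain rfl : y = 2 * A.y0 - A.y1 - 1 + 1 := by omega
      rw [add_sub_cancel_right]
      obtain ⟨u1, v1⟩ := uppM_hi h (x := A.xr) (y := 2 * A.y0 - A.y1 - 1 + 1) (d := 2) (by omega)
      obtain ⟨u2, v2⟩ := uppM_hi h (x := A.xr + 1) (y := 2 * A.y0 - A.y1 - 1) (d := 1) (by omega)
      refine step_hi v1 v2 ?_
      have s1 : A.xr < A.xr + 1 := by omega
      have s2 : ¬ A.xr < A.xl := by omega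
      have s3 : ¬ A.xr + 1 < A.xl := by omega
      rw [u1, u2, tM_m hx le_rfl, tM_r s1, ng1, ng2]
      simp only [s2, s3, and_false, if_false, add_zero]
      rw [show A.xr + 1 - A.xr - 1 = 0 by ring,
        show 2 * A.y0 - 1 - (2 * A.y0 - A.y1 - 1) = A.y1 by ring,
        show 2 * A.y0 - 1 - (2 * A.y0 - A.y1 - 1 + 1) = A.y1 - 1 by ring]
      exact H.mr (by omega)
    · -- lower right mouth corner
      have e1 : ((x, y) : ℤ × ℤ) + dir ((3 : ZMod 4) + 1) + dir (3 : ZMod 4) = (x - 1, y - 1) := by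
        rw [d4a.2.2.2, dir0, dir3]; simp [sub_eq_add_neg]
      rw [e1, flip0.2.2.2] at p2 ⊢
      unfold PosM at p1 p2
      simp only [n02.symm, n12.symm, n23, n03.symm, n13.symm, n23.symm, true_and, false_and,
        or_false, false_or] at p1 p2
      obtain ⟨rfl, ⟨p3, p4⟩, p5⟩ := p1
      obtain ⟨p6, -, -⟩ := p2
      obtain rfl : x = A.xr + 1 := by omega
      rw [add_sub_cancel_right]
      obtain ⟨u1, v1⟩ := uppM_lo h (x := A.xr + 1) (y := A.y1) (d := 3) h01
      obtain ⟨u2, v2⟩ := uppM_lo h (x := A.xr) (y := A.y1 - 1) (d := 2) (by omega)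
      refine step_lo v1 v2 ?_
      have s1 : A.xr < A.xr + 1 := by omega
      have s2 : ¬ A.xr < A.xl := by omega
      have s3 : ¬ A.xr + 1 < A.xl := by omega
      rw [u1, u2, tM_m hx le_rfl, tM_r s1]
      simp only [s2, s3, and_false, if_false, add_zero]
      rw [show A.xr + 1 - A.xr - 1 = 0 by ring]
      exact H.mr (by omega)

/-- step of the chart `3` -/
theorem Cg_stepS (H : ChH A cc cl J) {h : A.Sz ρ} {B : Set (ℤ × ℤ)} (hB : A.Good ρ 3 B)
    {X X' : (ℤ × ℤ) × ZMod 4} {k : ℤ} (hS : Stp ((chf h 3).R : Set (ℤ × ℤ)) B X X' k) :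
    Cg cc cl h 3 X' = Cg cc cl h 3 X + Jc J h 3 X X' := by
  obtain ⟨hX, hX'⟩ := hS.ends
  have p1 := posS hB hX
  have p2 := posS hB hX'
  clear hX hX'
  have h01 := A.h1
  have n01 : (0 : ZMod 4) ≠ 1 := by decide
  have n03 : (0 : ZMod 4) ≠ 3 := by decide
  have n13 : (1 : ZMod 4) ≠ 3 := by decide
  have n21 : (2 : ZMod 4) ≠ 1 := by decide
  have n23 : (2 : ZMod 4) ≠ 3 := by decide
  have n32 : ¬ (3 : Fin 4) = 2 := by decide
  have ng1 : -(1 : ZMod 4) = 3 := by decide
  cases hS with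
  | @flat t d h1 h2 h3 h4 b1 b2 b3 b4 =>
    obtain ⟨x, y⟩ := t
    obtain ⟨⟨p3, p4⟩, p5⟩ := p1
    rcases p5 with ⟨rfl, p5⟩ | ⟨rfl, p5⟩
    · have e1 : ((x, y) : ℤ × ℤ) + dir ((3 : ZMod 4) + 1) = (x - 1, y) := by
        rw [d4a.2.2.2, dir0]; simp [sub_eq_add_neg]
      rw [e1] at p2 ⊢
      obtain ⟨⟨p6, p7⟩, -⟩ := p2
      simp only at p3 p4 p5 p6 p7
      subst p5
      obtain ⟨u1, v1⟩ := uppS_lo h (x := x) (d := 3) h01
      obtain ⟨u2, v2⟩ := uppS_lo h (x := x - 1) (d := 3) h01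
      refine step_lo v1 v2 ?_
      rw [u1, u2]
      simp only [n32, false_and, if_false, add_zero]
      exact H.fl x (by omega) p4
    · have e1 : ((x, y) : ℤ × ℤ) + dir ((1 : ZMod 4) + 1) = (x + 1, y) := by
        rw [d4a.2.1, dir2]; simp
      rw [e1] at p2 ⊢
      obtain ⟨⟨p6, p7⟩, -⟩ := p2
      simp only at p3 p4 p5 p6 p7
      subst p5
      obtain ⟨u1, v1⟩ := uppS_hi h (x := x) (y := 2 * A.y0 - A.y1 - 1) (d := 1) (by omega)
      obtain ⟨u2, v2⟩ := uppS_hi h (x := x + 1) (y := 2 * A.y0 - A.y1 - 1) (d := 1) (by omega)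
      refine step_hi v1 v2 ?_
      rw [u1, u2, ng1, show 2 * A.y0 - 1 - (2 * A.y0 - A.y1 - 1) = A.y1 by ring]
      simp only [n32, false_and, if_false, add_zero]
      have := H.fl (x + 1) (by omega) p7
      rw [add_sub_cancel_right] at this
      exact this
  | @convex t d h1 h2 h3 b1 b2 b3 =>
    exfalso
    obtain ⟨-, p5⟩ := p1
    obtain ⟨-, p6⟩ := p2
    simp only at p5 p6
    rcases p5 with ⟨rfl, -⟩ | ⟨rfl, -⟩
    · rw [d4a.2.2.2] at p6
      rcases p6 with ⟨p6, -⟩ | ⟨p6, -⟩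
      · exact n03 p6
      · exact n01 p6
    · rw [d4a.2.1] at p6
      rcases p6 with ⟨p6, -⟩ | ⟨p6, -⟩
      · exact n23 p6
      · exact n21 p6
  | @reflex t d h1 h2 h3 h4 b1 b2 b3 b4 =>
    exfalso
    obtain ⟨-, p5⟩ := p1
    obtain ⟨-, p6⟩ := p2
    simp only at p5 p6
    rcases p5 with ⟨rfl, -⟩ | ⟨rfl, -⟩
    · rw [flip0.2.2.2] at p6
      rcases p6 with ⟨p6, -⟩ | ⟨p6, -⟩
      · exact n23 p6
      · exact n21 p6
    · rw [flip0.2.1] at p6
      rcases p6 with ⟨p6, -⟩ | ⟨p6, -⟩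
      · exact n03 p6
      · exact n01 p6

/-- **the step of the charges of a chart** -/
theorem Cg_step (H : ChH A cc cl J) {h : A.Sz ρ} {i : Fin 4} {B : Set (ℤ × ℤ)}
    (hB : A.Good ρ i B) {X X' : (ℤ × ℤ) × ZMod 4} {k : ℤ}
    (hS : Stp ((chf h i).R : Set (ℤ × ℤ)) B X X' k) :
    Cg cc cl h i X' = Cg cc cl h i X + Jc J h i X X' := by
  fin_cases i
  · have h1 : Stp (A.H : Set (ℤ × ℤ)) (NM A) X X' k := hS.mono (fun v _ => Iff.rfl) hB
    have h2 := H.st _ _ _ h1
    have g0 : ¬ ((0 : Fin 4) = 2) := by decide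
    refine step_lo (i := 0) rfl rfl ?_
    simp only [g0, false_and, if_false, add_zero]
    exact h2
  · have h1 : Stp (A.H : Set (ℤ × ℤ)) (NM A) (rfx (2 * A.y0 - 1) X') (rfx (2 * A.y0 - 1) X) k := by
      refine Stp.mirror (fun v _ => ?_) (fun v hv => hB v hv) hS
      exact A.mem_rf
    have h2 := H.st _ _ _ h1
    have g0 : ¬ ((1 : Fin 4) = 2) := by decide
    refine step_hi (i := 1) rfl rfl ?_
    simp only [g0, false_and, if_false, add_zero]
    exact h2
  · exact Cg_stepM H hB hS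
  · exact Cg_stepS H hB hS

end half

end Crest.Agent.R158.Lr158
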