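import Crest.Agent.R158.Lr10_158

/-!
R158, block Q1d, leaf LR (helper158), part 11: `ChH` for helper857's family.

* `JL m1 m2 e`, `JU b' m1 m2 e` : jumps of the lower and of the reflected upper half
* **`chH_low`**, **`chH_up`**
-/

set_option autoImplicit false

namespace Crest.Agent.R158.Lr158

open Crest.Agent.R158.Sw300 (Port)
open Crest.Agent.R158.Env664 (TG Mac D mem_D Run CutAdj Adj4 lowT upT Band)
open Crest.Agent.R158.Pt266 (dir RFree FFree rfree_full NxT nx_flat nx_convex nx_reflex adj_dir)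
open Crest.Agent.R158.Ka470
open Crest.Agent.R158.Ka470.Half
open Crest.Agent.R158.Xr249 (full mem_lowT low_step)
open Crest.Agent.R158.Rf896 (rA rB rz rp rt mem_rA rz_rz rp_some)
open Crest.Agent.R158.Fm857 (psD rD isLow blkG innG pG isLS clow ctw phi cb cp ge1 gt1 low1 freeG
  freeD flr cil mem_flr mem_cil mouth)

/-- steps of a part are steps of the boundary -/
theorem stp_nx {A : Finset (ℤ × ℤ)} {R B : Set (ℤ × ℤ)} (hA : ∀ v ∈ R, v ∈ B → v ∈ A)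
    (hN : ∀ v ∈ R, v ∈ B → ∀ e : ZMod 4, v + dir e ∈ B → v + dir e ∉ R → v + dir e ∉ A)
    {X X' : (ℤ × ℤ) × ZMod 4} {k : ℤ} (h : Stp R B X X' k) :
    FFree A X ∧ FFree A X' ∧ NxT (full A).gl (some X) (some X') k ∧ (X.1 ∈ R ∧ X.1 ∈ B) ∧
      X'.1 ∈ R ∧ X'.1 ∈ B := by
  cases h with
  | @flat t d h1 h2 h3 h4 b1 b2 b3 b4 =>
    exact ⟨⟨hA _ h1 b1, hN _ h1 b1 _ b3 h3⟩, ⟨hA _ h2 b2, hN _ h2 b2 _ b4 h4⟩,
      nx_flat (hA _ h1 b1) (hA _ h2 b2) (hN _ h2 b2 _ b4 h4), ⟨h1, b1⟩, h2, b2⟩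
  | @convex t d h1 h2 h3 b1 b2 b3 =>
    exact ⟨⟨hA _ h1 b1, hN _ h1 b1 _ b2 h2⟩, ⟨hA _ h1 b1, hN _ h1 b1 _ b3 h3⟩,
      nx_convex (hN _ h1 b1 _ b3 h3), ⟨h1, b1⟩, h1, b1⟩
  | @reflex t d h1 h2 h3 h4 b1 b2 b3 b4 =>
    have e1 : t + dir (d + 1) + dir d + dir (d + 3) = t + dir d := by
      have : ∀ d : ZMod 4, dir (d + 1) + dir d + dir (d + 3) = dir d := by decide
      rw [add_assoc, add_assoc, ← add_assoc (dir (d + 1)), this]
    exact ⟨⟨hA _ h1 b1, hN _ h1 b1 _ b4 h4⟩,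
      ⟨hA _ h3 b3, by show t + dir (d + 1) + dir d + dir (d + 3) ∉ A; rw [e1]; exact hN _ h1 b1 _ b4 h4⟩,
      nx_reflex (hA _ h1 b1) (hA _ h2 b2) (hA _ h3 b3) (hN _ h1 b1 _ b4 h4), ⟨h1, b1⟩, h3, b3⟩

theorem no_mouth {M : Mac} {L a b c y0 : ℤ} {A : Finset (ℤ × ℤ)} {B : Band A}
    {Al Au : Finset (ℤ × ℤ)} (h : LB M L a b c y0 B Al Au) (hy : B.y2 ≤ c * L + L) {v : ℤ × ℤ}
    (hH : v ∈ (lowHalf h.d).H) (hm : ¬ (lowHalf h.d).Mou v) :
    ¬ (B.y1 ≤ v.2 ∧ v.2 < B.y2 ∧ (v.1 = B.xl ∨ v.1 = B.xr)) := by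
  rintro ⟨h1, h2, h3⟩
  have exl : (lowHalf h.d).xl = B.xl := h.xl.symm
  have exr : (lowHalf h.d).xr = B.xr := h.xr.symm
  have hx := (lowHalf h.d).hx
  rw [exl, exr] at hx
  by_cases h4 : v.2 < y0
  · apply hm
    refine ⟨⟨⟨?_, ?_⟩, h1, h4⟩, ?_⟩
    · rw [exl]; omega
    · rw [exr]; omega
    · rw [exl, exr]; tauto
  · refine h.d.top (x := v.1) (y := v.2) (by omega) (by omega) ?_ ?_ hH
    · rw [← h.xl]; omega
    · rw [← h.xr]; omega

variable {M : Mac} {L a b c : ℤ} {B : Band (D M.F L)}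

/-- jumps of the lower half -/
def JL (m1 m2 : Port TG) (e : Option (Port TG)) (X X' : TG × ZMod 4) : ℤ :=
  Jn m1 m2 e (some X) (some X')

/-- the far gap -/
def jb (b' : ℤ) : TG × ZMod 4 → ℤ
  | (Sum.inl _, _) => 0
  | (Sum.inr v, _) => if v.1 = b' then 1 else 0

/-- jumps of the reflected upper half -/
def JU (b' : ℤ) (m1 m2 : Port TG) (e : Option (Port TG)) (X X' : TG × ZMod 4) : ℤ :=
  Jn m1 m2 e (rp (some X')) (rp (some X)) - jb b' X

/-- membership of the ends of the lower half in `freeG` -/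
theorem fG_low (m : MB M L a b c B) {t : ℤ × ℤ} {d : ZMod 4} (h1 : FFree (D M.F L) (t, d))
    (h2 : ¬ (B.y1 ≤ t.2 ∧ t.2 < B.y2 ∧ (t.1 = B.xl ∨ t.1 = B.xr))) :
    some (Sum.inl t, d) ∈ freeG B := by
  refine mem_freeG'.2 (Or.inl ⟨t, d, rfl, h1, ?_⟩)
  obtain ⟨x, y⟩ := t
  rintro ⟨⟨h3, h4⟩, ⟨-, h5⟩ | ⟨-, h5⟩⟩
  · exact h2 ⟨h3, h4, Or.inl h5⟩
  · exact h2 ⟨h3, h4, Or.inr h5⟩

/-- step of `cb` along the ends of `D` -/
theorem cb_D (m : MB M L a b c B) (b' : ℤ) {m1 m2 : Port TG} {e : Option (Port TG)}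
    (hm : Mks B m1 m2 e) {X X' : (ℤ × ℤ) × ZMod 4} {k : ℤ} (h1 : FFree (D M.F L) X)
    (h2 : FFree (D M.F L) X') (h3 : NxT (full (D M.F L)).gl (some X) (some X') k)
    (h4 : ¬ (B.y1 ≤ X.1.2 ∧ X.1.2 < B.y2 ∧ (X.1.1 = B.xl ∨ X.1.1 = B.xr)))
    (h5 : ¬ (B.y1 ≤ X'.1.2 ∧ X'.1.2 < B.y2 ∧ (X'.1.1 = B.xl ∨ X'.1.1 = B.xr))) :
    cp B b' m1 m2 e (some (Sum.inl X'.1, X'.2)) = cp B b' m1 m2 e (some (Sum.inl X.1, X.2)) +
      Jn m1 m2 e (some (Sum.inl X.1, X.2)) (some (Sum.inl X'.1, X'.2)) := by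
  obtain ⟨w, l, hw⟩ := mb_bw m
  have g1 := m.h1
  have g2 := m.h2
  have g3 := m.hy
  rw [cp_LS isLS_l, cp_LS isLS_l]
  refine cb_suc (suc_D hw (ff_r m (by omega) (by omega)) (fG_low m h1 h4) (fG_low m h2 h5) h3
    ?_ ?_) hm.h1 hm.h2 hm.he
  · rintro rfl
    exact h5 ⟨le_rfl, g3, Or.inl rfl⟩
  · rintro rfl
    exact h4 ⟨le_rfl, g3, Or.inr rfl⟩

/-- **charges of the lower half** -/
theorem chH_low (m : MB M L a b c B) {y0 : ℤ} (h1 : B.y1 < y0) (h2 : y0 ≤ B.y2) {b' : ℤ}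
    (hb1 : 0 < b') (hb2 : b' < B.R) {m1 m2 : Port TG} {e : Option (Port TG)}
    (hm : Mks B m1 m2 e) :
    ChH (lowHalf (lb_low m h1 h2).d) (fun q => cp B b' m1 m2 e (some q)) (clow B b' m1 m2 e)
      (JL m1 m2 e) where
  st X X' k h := by
    obtain ⟨k1, k2, k3, k4, k5⟩ := stp_nx (A := D M.F L) (fun v hv _ => (mem_lowT.1 hv).1)
      (fun v hv hn e _ he hD => he (H_adj (lb_low m h1 h2).d hv hn hD (adj_dir v e))) h
    have g2 := m.h2
    exact cb_D m b' hm k1 k2 k3 (no_mouth (lb_low m h1 h2) g2.le k4.1 k4.2)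
      (no_mouth (lb_low m h1 h2) g2.le k5.1 k5.2)
  fl i hi1 hi2 := by
    obtain ⟨w, l, hw⟩ := mb_bw m
    exact cp_fl hw hm hi1 hi2
  ml _ := by
    have exl : (lowHalf (lb_low m h1 h2).d).xl = B.xl := m.xl.symm
    rw [exl]
    exact cp_ml m hb2 hm
  mr _ := by
    have exr : (lowHalf (lb_low m h1 h2).d).xr = B.xr := m.xr.symm
    rw [exr]
    exact cp_mr m hb1 hm

/-- **charges of the reflected upper half** -/
theorem chH_up (m : MB M L a b c B) {y0 : ℤ} (h1 : -B.y2 < y0) (h2 : y0 ≤ -B.y1) {b' : ℤ}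
    (hb1 : 0 < b') (hb2 : b' < B.R) {m1 m2 : Port TG} {e : Option (Port TG)}
    (hm : Mks B m1 m2 e) :
    ChH (lowHalf (lb_up m h1 h2).d) (ccU B b' m1 m2 e) (-(clow B b' m1 m2 e + 1))
      (JU b' m1 m2 e) where
  st X X' k h := by
    set d := (lb_up m h1 h2).d with hd
    have hDr : D M.rf.F L = rA (D M.F L) := Rf896.D_rA m.hL
    have hr : ∀ v : ℤ × ℤ, (v.1, -1 - v.2) = rz v := fun v => by
      unfold rz
      rw [show -1 - v.2 = -v.2 - 1 by ring]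
    have hs : Stp {v | rz v ∈ (lowHalf d).H} {v | rz v ∈ NM (lowHalf d)} (rfx (-1) X')
        (rfx (-1) X) k := by
      refine Stp.mirror (c := -1) ?_ ?_ h
      · intro v _
        rw [hr, Set.mem_ofPred_eq, rz_rz]
        exact Finset.mem_coe
      · intro v hv
        rw [hr, Set.mem_ofPred_eq, rz_rz]
        exact hv
    rw [rfx_rz, rfx_rz] at hs
    obtain ⟨k1, k2, k3, k4, k5⟩ := stp_nx (A := D M.F L) (fun v hv _ => by
        have h3 : rz v ∈ D M.rf.F L := (mem_lowT.1 hv).1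
        rw [hDr, mem_rA, rz_rz] at h3
        exact h3) (fun v hv hn e _ he hD => by
        apply he
        have h3 : rz (v + dir e) ∈ D M.rf.F L := by rw [hDr, mem_rA, rz_rz]; exact hD
        refine H_adj d hv hn h3 ?_
        rw [dirZ]
        exact adj_dir _ _) hs
    have g1 := m.h1
    have g2 := m.h2
    have g3 := m.hy
    have nm : ∀ v : ℤ × ℤ, rz v ∈ (lowHalf d).H → rz v ∈ NM (lowHalf d) →
        ¬ (B.y1 ≤ v.2 ∧ v.2 < B.y2 ∧ (v.1 = B.xl ∨ v.1 = B.xr)) := by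
      rintro v h3 h4 ⟨h5, h6, h7⟩
      refine no_mouth (lb_up m h1 h2) ?_ h3 h4 ⟨?_, ?_, h7⟩
      · show -B.y1 ≤ (-c - 1) * L + L
        have : (-c - 1) * L + L = -(c * L) := by ring
        omega
      · show -B.y2 ≤ -v.2 - 1
        omega
      · show -v.2 - 1 < -B.y1
        omega
    have key := cb_D m b' hm k1 k2 k3 (nm _ k4.1 k4.2) (nm _ k5.1 k5.2)
    show 1 - cp B b' m1 m2 e (rp (some (Sum.inl X'.1, X'.2))) =
      1 - cp B b' m1 m2 e (rp (some (Sum.inl X.1, X.2))) +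
        (Jn m1 m2 e (rp (some (Sum.inl X'.1, X'.2))) (rp (some (Sum.inl X.1, X.2))) - 0)
    have e1 : rp (some (Sum.inl X'.1, X'.2)) = some (Sum.inl (rz X'.1), -X'.2) := rfl
    have e2 : rp (some (Sum.inl X.1, X.2)) = some (Sum.inl (rz X.1), -X.2) := rfl
    rw [e1, e2]
    simp only at key
    omega
  fl i hi1 hi2 := by
    obtain ⟨w, l, hw⟩ := mb_bw m
    have hi3 : i < B.R + 1 := hi2
    have hi4 : i - 1 < B.R := by omega
    have key := cp_cl (b := b') hw hm (i := i - 1) (by omega) hi4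
    rw [sub_add_cancel] at key
    have n31 : -(3 : ZMod 4) = 1 := by decide
    have e1 : rp (some (Sum.inr (i - 1, -B.y2), 3)) = some (Sum.inr (i - 1, B.y2 - 1), 1) := by
      rw [rp_some, n31]
      show some (Sum.inr (i - 1, - -B.y2 - 1), 1) = _
      rw [neg_neg]
    have e2 : rp (some (Sum.inr (i, -B.y2), 3)) = some (Sum.inr (i, B.y2 - 1), 1) := by
      rw [rp_some, n31]
      show some (Sum.inr (i, - -B.y2 - 1), 1) = _
      rw [neg_neg]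
    show (if i - 1 < b' then 1 else 2) - cp B b' m1 m2 e (rp (some (Sum.inr (i - 1, -B.y2), 3))) =
      (if i < b' then 1 else 2) - cp B b' m1 m2 e (rp (some (Sum.inr (i, -B.y2), 3))) +
        (Jn m1 m2 e (rp (some (Sum.inr (i - 1, -B.y2), 3))) (rp (some (Sum.inr (i, -B.y2), 3))) -
          if i = b' then 1 else 0)
    rw [e1, e2, key]
    split_ifs <;> omega
  ml _ := by
    have key := cp_ul m hb2 hm
    have n31 : -(3 : ZMod 4) = 1 := by decide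
    have e1 : rp (some (Sum.inr (B.R + 1 - 1, -B.y2), 3)) = some (Sum.inr (B.R, B.y2 - 1), 1) := by
      rw [rp_some, n31]
      show some (Sum.inr (B.R + 1 - 1, - -B.y2 - 1), 1) = _
      rw [neg_neg, add_sub_cancel_right]
    have e2 : rp (some (Sum.inl (B.xl, -B.y2 - 1), 0)) = some (Sum.inl (B.xl, B.y2), 0) := by
      rw [rp_some]
      show some (Sum.inl (B.xl, -(-B.y2 - 1) - 1), -0) = _
      rw [neg_zero, show -(-B.y2 - 1) - 1 = B.y2 by ring]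
    have exl : (lowHalf (lb_up m h1 h2).d).xl = B.xl := m.xl.symm
    rw [exl]
    show (if B.R + 1 - 1 < b' then 1 else 2) -
        cp B b' m1 m2 e (rp (some (Sum.inr (B.R + 1 - 1, -B.y2), 3))) +
          -(clow B b' m1 m2 e + 1) =
      1 - cp B b' m1 m2 e (rp (some (Sum.inl (B.xl, -B.y2 - 1), 0))) +
        (Jn m1 m2 e (rp (some (Sum.inr (B.R + 1 - 1, -B.y2), 3)))
          (rp (some (Sum.inl (B.xl, -B.y2 - 1), 0))) - 0)
    rw [e1, e2, key, if_neg (by omega)]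
    ring
  mr _ := by
    have key := cp_ur m hb1 hm
    have n31 : -(3 : ZMod 4) = 1 := by decide
    have n22 : -(2 : ZMod 4) = 2 := by decide
    have e1 : rp (some (Sum.inr (0, -B.y2), 3)) = some (Sum.inr (0, B.y2 - 1), 1) := by
      rw [rp_some, n31]
      show some (Sum.inr (0, - -B.y2 - 1), 1) = _
      rw [neg_neg]
    have e2 : rp (some (Sum.inl (B.xr, -B.y2 - 1), 2)) = some (Sum.inl (B.xr, B.y2), 2) := by
      rw [rp_some, n22]
      show some (Sum.inl (B.xr, -(-B.y2 - 1) - 1), 2) = _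
      rw [show -(-B.y2 - 1) - 1 = B.y2 by ring]
    have exr : (lowHalf (lb_up m h1 h2).d).xr = B.xr := m.xr.symm
    rw [exr]
    show 1 - cp B b' m1 m2 e (rp (some (Sum.inl (B.xr, -B.y2 - 1), 2))) =
      (if (0 : ℤ) < b' then 1 else 2) -
        cp B b' m1 m2 e (rp (some (Sum.inr (0, -B.y2), 3))) +
        (Jn m1 m2 e (rp (some (Sum.inl (B.xr, -B.y2 - 1), 2))) (rp (some (Sum.inr (0, -B.y2), 3))) -
          if (0 : ℤ) = b' then 1 else 0)
    rw [e1, e2, key, if_pos hb1, if_neg (by omega)]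
    ring

end Crest.Agent.R158.Lr158
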