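import Crest.Agent.R158.Ne4_808

/-!
# R158, block Q1d, leaf (E) (helper808), part 5: strands between real ends

* `PBox` : box seen by a chart with a pattern and one copy
* `PBox.arc` : value of a strand between two real ends with a given chain
* `PBox.arc2` : the two possible chains
* `rend_pl`, `fe_rend`, `we_rend`, `fe_chain` : real ends of the standard patterns
-/

set_option autoImplicit false
set_option linter.unusedSectionVars false
set_option synthInstance.maxSize 1000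

noncomputable section

namespace Crest.Agent.R158.Ne808

open Crest.Agent.R158.Nm211
open Crest.Agent.R158.Nz399
open Crest.Agent.R158.Ka470
open Crest.Agent.R158.Ad350 (Net tnet ports mem_ports mem_ports' tnet_ok)
open Crest.Agent.R158.Sw300 (Port thru)
open Crest.Agent.R158.Env664 (TG)
open Crest.Agent.R158.Lr158 (PhH OpenH Phi gg Cg Stp nxe REnd)
open Crest.Agent.R158.Pt266 (Quad quadB mp dir Rule Gauge CwR NxT val cg sgn wph RG)
open Crest.Agent.R158.Xr249 (full)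

/-! ### two inductives for walks -/

section wk

variable {T : Type*} {G : T × ZMod 4 → T × ZMod 4 → Prop} {s : T → Bool}

theorem kp {x y : T × ZMod 4} {l : List (T × ZMod 4)} (w : Ka470.Wk s G x y l) :
    Pt266.Wk s G x y l := by
  induction w with
  | one => exact .one
  | snoc _ h ih => exact .snoc ih h

theorem pk {x y : T × ZMod 4} {l : List (T × ZMod 4)} (w : Pt266.Wk s G x y l) :
    Ka470.Wk s G x y l := by
  induction w with
  | one => exact .one
  | snoc _ h ih => exact .snoc ih h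

end wk

/-! ### boxes -/

/-- box seen by a chart, with its pattern; the real ends belong to one copy (`b = true` : copy
`false`) -/
structure PBox {A : Half} {ρ : ℕ} (h : A.Sz ρ) (i : Fin 4) (x1 x2 z1 z2 : ℤ) (p : ℤ × ℤ)
    (pat : Bool → Bool → Bool) (b : Bool) : Prop where
  good : A.Good ρ i (Bx x1 x2 z1 z2)
  patt : Patt (Half.chf h i).R (Bx x1 x2 z1 z2) p pat
  cp : ∀ X, REnd h i (Bx x1 x2 z1 z2) X → Lr158.eps h i X = if b then 1 else -1

section

variable {A : Half} {ρ : ℕ} {h : A.Sz ρ} {i : Fin 4} {x1 x2 z1 z2 : ℤ} {p : ℤ × ℤ}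
  {pat : Bool → Bool → Bool} {b : Bool} {T : Finset TG} {be : Port TG → Port TG}
  {ch : Port TG → ℝ} {ps cc : TG × ZMod 4 → ℤ} {cl : ℤ} {O : Finset (Port TG)}
  {s : TG × Bool → Bool}

/-- a strand of the pattern is a strand of the complex -/
theorem PBox.lift (P : PBox h i x1 x2 z1 z2 p pat b) {X Y : (ℤ × ℤ) × ZMod 4}
    {L : List ((ℤ × ℤ) × ZMod 4)}
    (hw : Pt266.Wk (s ∘ (Half.chf h i).emb) (RG (full (quadB x1 x2 z1 z2 p pat).A)) X Y L) :
    Ka470.Wk s A.Gd (mp (Half.chf h i).emb X) (mp (Half.chf h i).emb Y)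
      (L.map (mp (Half.chf h i).emb)) := by
  refine pk (Pt266.Wk.map (Half.chf h i).emb (G := A.Gd) (fun a c hac => ?_) hw)
  rw [Pt266.rg_full] at hac
  obtain ⟨h1, h2, rfl⟩ := hac
  exact Pt266.chart_glue (C := Half.chf h i) (Half.chf_F h i)
    ((Pt266.mem_quadB P.patt).1 h1).1 ((Pt266.mem_quadB P.patt).1 h2).1

theorem PBox.free (P : PBox h i x1 x2 z1 z2 p pat b) {X : (ℤ × ℤ) × ZMod 4}
    (hX : REnd h i (Bx x1 x2 z1 z2) X) : Free A.Gd (mp (Half.chf h i).emb X) :=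
  Pt266.free_of_real (Half.chf_F h i) P.patt (P.good.view h) (rend_real P.patt hX)

theorem PBox.tH (_P : PBox h i x1 x2 z1 z2 p pat b) {X : (ℤ × ℤ) × ZMod 4}
    (hX : REnd h i (Bx x1 x2 z1 z2) X) : A.tH (mp (Half.chf h i).emb X).1.1 :=
  Lr158.tH_emb h i hX.m

/-- **value of a strand between the ends of a chain** -/
theorem PBox.arc (P : PBox h i x1 x2 z1 z2 p pat b) (E : DN A T be O) (H : PhH A ch ps cc cl)
    {X Y : (ℤ × ℤ) × ZMod 4} (hX : REnd h i (Bx x1 x2 z1 z2) X)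
    (hY : REnd h i (Bx x1 x2 z1 z2) Y) {L : List ((ℤ × ℤ) × ZMod 4)}
    (hw : Pt266.Wk (s ∘ (Half.chf h i).emb) (RG (full (quadB x1 x2 z1 z2 p pat).A)) X Y L)
    {D : ℤ} {l : List ((ℤ × ℤ) × ZMod 4)} (hc : ChD (quadB x1 x2 z1 z2 p pat) X Y D l) :
    ‖(nt T be O ch s).z ((nt T be O ch s).cls (some (mp (Half.chf h i).emb X)))‖ =
      |val b D (Cg cc cl h i X - Cg cc cl h i Y)| := by
  rw [E.z_arc (P.tH hX) (P.tH hY) (P.lift hw) (P.free hX) (P.free hY)]
  have h1 := val_chain (gauge_of E H P.patt) (rule_of H E.hO P.good P.patt P.cp)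
    (rend_real P.patt hX) (rend_real P.patt hY) hw hc
  rw [h1, cg_tele P.patt hc.cw (rend_real P.patt hX) hc.re]

/-- **the two possible chains** -/
theorem PBox.arc2 (P : PBox h i x1 x2 z1 z2 p pat b) (E : DN A T be O) (H : PhH A ch ps cc cl)
    {X Y : (ℤ × ℤ) × ZMod 4} (hX : REnd h i (Bx x1 x2 z1 z2) X)
    (hY : REnd h i (Bx x1 x2 z1 z2) Y) {L : List ((ℤ × ℤ) × ZMod 4)}
    (hw : Pt266.Wk (s ∘ (Half.chf h i).emb) (RG (full (quadB x1 x2 z1 z2 p pat).A)) X Y L) :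
    ∃ (D : ℤ), ((quadB x1 x2 z1 z2 p pat).Typ X Y D ∧
      ‖(nt T be O ch s).z ((nt T be O ch s).cls (some (mp (Half.chf h i).emb X)))‖ =
        |val b D (Cg cc cl h i X - Cg cc cl h i Y)|) ∨
      ((quadB x1 x2 z1 z2 p pat).Typ Y X D ∧
      ‖(nt T be O ch s).z ((nt T be O ch s).cls (some (mp (Half.chf h i).emb X)))‖ =
        |val b D (Cg cc cl h i Y - Cg cc cl h i X)|) := by
  rw [E.z_arc (P.tH hX) (P.tH hY) (P.lift hw) (P.free hX) (P.free hY)]
  obtain ⟨D, l, ⟨h1, h2, -, h4, h5⟩ | ⟨h1, h2, -, h4, h5⟩⟩ :=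
    Pt266.phase (gauge_of E H P.patt) (rule_of H E.hO P.good P.patt P.cp)
      (rend_real P.patt hX) (rend_real P.patt hY) hw
  · refine ⟨D, Or.inl ⟨h4, ?_⟩⟩
    rw [h5, cg_tele P.patt h1 (rend_real P.patt hX) h2]
  · refine ⟨D, Or.inr ⟨h4, ?_⟩⟩
    rw [h5, cg_tele P.patt h1 (rend_real P.patt hY) h2]

end

/-! ### standard patterns -/

theorem rt_dir (v : ℤ × ℤ) (a : ZMod 4) : rt (v + dir a) = rt v + dir (a - 1) := by
  obtain ⟨x, y⟩ := v
  have e0 : (0 : ZMod 4) - 1 = 3 := by decide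
  have e1 : (1 : ZMod 4) - 1 = 0 := by decide
  have e2 : (2 : ZMod 4) - 1 = 1 := by decide
  have e3 : (3 : ZMod 4) - 1 = 2 := by decide
  rcases Lr158.z4 a with rfl | rfl | rfl | rfl
  · rw [e0, Lr158.dir0, Lr158.dir3]; simp [rt, sub_eq_add_neg]
  · rw [e1, Lr158.dir1, Lr158.dir0]; simp [rt]; ring
  · rw [e2, Lr158.dir2, Lr158.dir1]; simp [rt]
  · rw [e3, Lr158.dir3, Lr158.dir2]; simp [rt]

theorem pl_dir (g : ℕ) (p v : ℤ × ℤ) (a : ZMod 4) :
    pl g p (v + dir a) = pl g p v + dir (a - g) := by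
  have key : ∀ (g : ℕ) (v : ℤ × ℤ) (a : ZMod 4), rt^[g] (v + dir a) = rt^[g] v + dir (a - g) := by
    intro g
    induction g with
    | zero => intro v a; simp
    | succ g ih =>
      intro v a
      rw [Function.iterate_succ_apply, rt_dir, ih, Function.iterate_succ_apply]
      congr 2
      push_cast
      ring
  unfold pl
  rw [key]
  abel

section

variable {A : Half} {ρ : ℕ} {h : A.Sz ρ} {i : Fin 4} {k : Kind} {g N : ℕ} {p : ℤ × ℤ}

/-- real ends of the standard patterns -/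
theorem rend_pl (hP : Patt (Half.chf h i).R (Bv N p) p (patK k g)) {v : ℤ × ℤ} {a : ZMod 4}
    (hv : (-(N : ℤ) ≤ v.1 ∧ v.1 < N) ∧ -(N : ℤ) ≤ v.2 ∧ v.2 < N)
    (hv' : (-(N : ℤ) ≤ (v + dir a).1 ∧ (v + dir a).1 < N) ∧
      -(N : ℤ) ≤ (v + dir a).2 ∧ (v + dir a).2 < N) (h1 : qd k v) (h2 : ¬ qd k (v + dir a)) :
    REnd h i (Bv N p) (pl g p v, a - g) := by
  refine ⟨?_, ?_, pl_Bv g p hv, ?_⟩
  · show pl g p v ∈ _
    rw [hP _ (pl_Bv g p hv), patK_pl]
    exact h1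
  · show pl g p v + dir (a - g) ∉ _
    rw [← pl_dir, hP _ (pl_Bv g p hv'), patK_pl]
    exact h2
  · show pl g p v + dir (a - g) ∈ _
    rw [← pl_dir]
    exact pl_Bv g p hv'

theorem fe_rend (hP : Patt (Half.chf h i).R (Bv N p) p (patK k g)) {x : ℤ} (hN : 1 ≤ N)
    (h1 : -(N : ℤ) ≤ x) (h2 : x < N) (h3 : qd k (x, 0)) (h4 : ¬ qd k (x, -1)) :
    REnd h i (Bv N p) (fe g p x) := by
  have hN' : (1 : ℤ) ≤ N := by exact_mod_cast hN
  have e : ((x, 0) : ℤ × ℤ) + dir 3 = (x, -1) := by rw [Lr158.dir3]; simp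
  refine rend_pl hP (v := (x, 0)) (a := 3) ⟨⟨h1, h2⟩, by simp only; omega⟩ ?_ h3 ?_
  · rw [e]; simp only; omega
  · rw [e]; exact h4

theorem we_rend (hP : Patt (Half.chf h i).R (Bv N p) p (patK k g)) {y : ℤ} (hN : 1 ≤ N)
    (h1 : -(N : ℤ) ≤ y) (h2 : y < N) (h3 : qd k (0, y)) (h4 : ¬ qd k (-1, y)) :
    REnd h i (Bv N p) (we g p y) := by
  have hN' : (1 : ℤ) ≤ N := by exact_mod_cast hN
  have e : ((0, y) : ℤ × ℤ) + dir 0 = (-1, y) := by rw [Lr158.dir0]; simp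
  have e2 : we g p y = (pl g p (0, y), 0 - (g : ZMod 4)) := by unfold we; rw [zero_sub]
  rw [e2]
  refine rend_pl hP (v := (0, y)) (a := 0) ⟨by simp only; omega, ⟨h1, h2⟩⟩ ?_ h3 ?_
  · rw [e]; simp only; omega
  · rw [e]; exact h4

/-- ends of the floor as a run -/
theorem run_fe (a : ℤ) (j : ℕ) :
    Pt266.run (pl g p (a, 0)) (3 - (g : ZMod 4)) j = fe g p (a - j) := by
  unfold Pt266.run fe
  congr 1
  induction j with
  | zero => simp
  | succ j ih =>
    have e1 : ((a - ((j + 1 : ℕ) : ℤ), 0) : ℤ × ℤ) = (a - j, 0) + dir 0 := by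
      rw [Lr158.dir0]; push_cast; ext <;> simp; ring
    rw [e1, pl_dir, ← ih, succ_nsmul, add_assoc]
    congr 3
    have : (3 : ZMod 4) + 1 = 0 := by decide
    linear_combination this

end

end Crest.Agent.R158.Ne808
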