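import Crest.Agent.R158.Lr11_158
import Crest.Agent.R158.Ne5_808

/-!
R158, block Q1d, leaf LR (helper158), part 12: charges across the standard patterns (Nz8's `Chg`).

* `stp_pl` : steps of the standard quadrant patterns, rotated and translated into a chart
* `step_fe`, `step_we`, `step_cv`, `step_rf`
* `NoJ J h i B` : no jump of the charge along the steps inside `B`
* **`chg_cv`**, **`chg_rf`**, `fe_const`, **`fe_jump`**, `chg_mk`, `chg_e2`, `chg_e1`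
* **`noJ_low`**, **`noJ_up`**
-/

set_option autoImplicit false

namespace Crest.Agent.R158.Lr158

open Crest.Agent.R158.Sw300 (Port)
open Crest.Agent.R158.Env664 (TG Mac D Band)
open Crest.Agent.R158.Pt266 (dir)
open Crest.Agent.R158.Ka470
open Crest.Agent.R158.Ka470.Half
open Crest.Agent.R158.Nz399 (Kind qd patK patK_pl pl pl_Bv fe we Chg)
open Crest.Agent.R158.Rf896 (rp)

/-- standard box -/
def Q0 (N : ℕ) : Set (ℤ × ℤ) := {v | (-(N : ℤ) ≤ v.1 ∧ v.1 < N) ∧ -(N : ℤ) ≤ v.2 ∧ v.2 < N}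

/-- **steps of the standard patterns** -/
theorem stp_pl {R : Finset (ℤ × ℤ)} {N : ℕ} {p : ℤ × ℤ} {k : Kind} {g : ℕ}
    (hP : Patt R (Bv N p) p (patK k g)) {X X' : (ℤ × ℤ) × ZMod 4} {n : ℤ}
    (h : Stp {v | qd k v} (Q0 N) X X' n) :
    Stp (R : Set (ℤ × ℤ)) (Bv N p) (pl g p X.1, X.2 - g) (pl g p X'.1, X'.2 - g) n := by
  have mem : ∀ v ∈ Q0 N, (pl g p v ∈ R ↔ qd k v) := fun v hv => by
    rw [hP _ (pl_Bv g p hv), patK_pl]
  have bx : ∀ v ∈ Q0 N, pl g p v ∈ Bv N p := fun v hv => pl_Bv g p hv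
  have a1 : ∀ v ∈ Q0 N, v ∈ {v | qd k v} → pl g p v ∈ (R : Set (ℤ × ℤ)) := fun v hv h' =>
    (mem v hv).2 h'
  have a2 : ∀ v ∈ Q0 N, v ∉ {v | qd k v} → pl g p v ∉ (R : Set (ℤ × ℤ)) := fun v hv h' h'' =>
    h' ((mem v hv).1 h'')
  cases h with
  | @flat t d h1 h2 h3 h4 b1 b2 b3 b4 =>
    have e1 : pl g p (t + dir (d + 1)) = pl g p t + dir (d - g + 1) := by
      rw [Ne808.pl_dir]; congr 2; ring
    have e2 : pl g p (t + dir d) = pl g p t + dir (d - g) := Ne808.pl_dir _ _ _ _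
    have e3 : pl g p (t + dir (d + 1) + dir d) = pl g p t + dir (d - g + 1) + dir (d - g) := by
      rw [Ne808.pl_dir, e1]
    show Stp (R : Set (ℤ × ℤ)) (Bv N p) (pl g p t, d - g) (pl g p (t + dir (d + 1)), d - g) 0
    have k2 := a1 _ b2 h2
    have k3 := a2 _ b3 h3
    have k4 := a2 _ b4 h4
    have c2 := bx _ b2
    have c3 := bx _ b3
    have c4 := bx _ b4
    rw [e1] at k2 c2 ⊢
    rw [e2] at k3 c3
    rw [e3] at k4 c4
    exact .flat (a1 _ b1 h1) k2 k3 k4 (bx _ b1) c2 c3 c4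
  | @convex t d h1 h2 h3 b1 b2 b3 =>
    have e1 : pl g p (t + dir (d + 1)) = pl g p t + dir (d - g + 1) := by
      rw [Ne808.pl_dir]; congr 2; ring
    have e2 : pl g p (t + dir d) = pl g p t + dir (d - g) := Ne808.pl_dir _ _ _ _
    have e4 : d + 1 - (g : ZMod 4) = d - g + 1 := by ring
    show Stp (R : Set (ℤ × ℤ)) (Bv N p) (pl g p t, d - g) (pl g p t, d + 1 - g) 1
    rw [e4]
    have k2 := a2 _ b2 h2
    have k3 := a2 _ b3 h3
    have c2 := bx _ b2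
    have c3 := bx _ b3
    rw [e2] at k2 c2
    rw [e1] at k3 c3
    exact .convex (a1 _ b1 h1) k2 k3 (bx _ b1) c2 c3
  | @reflex t d h1 h2 h3 h4 b1 b2 b3 b4 =>
    have e1 : pl g p (t + dir (d + 1)) = pl g p t + dir (d - g + 1) := by
      rw [Ne808.pl_dir]; congr 2; ring
    have e2 : pl g p (t + dir d) = pl g p t + dir (d - g) := Ne808.pl_dir _ _ _ _
    have e3 : pl g p (t + dir (d + 1) + dir d) = pl g p t + dir (d - g + 1) + dir (d - g) := by
      rw [Ne808.pl_dir, e1]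
    have e4 : d + 3 - (g : ZMod 4) = d - g + 3 := by ring
    show Stp (R : Set (ℤ × ℤ)) (Bv N p) (pl g p t, d - g)
      (pl g p (t + dir (d + 1) + dir d), d + 3 - g) (-1)
    rw [e4]
    have k2 := a1 _ b2 h2
    have k3 := a1 _ b3 h3
    have k4 := a2 _ b4 h4
    have c2 := bx _ b2
    have c3 := bx _ b3
    have c4 := bx _ b4
    rw [e1] at k2 c2
    rw [e3] at k3 c3 ⊢
    rw [e2] at k4 c4
    exact .reflex (a1 _ b1 h1) k2 k3 k4 (bx _ b1) c2 c3 c4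

section chart

variable {A : Half} {ρ : ℕ} {h : A.Sz ρ} {i : Fin 4} {g N : ℕ} {p : ℤ × ℤ}

/-- floor -/
theorem step_fe {k : Kind} (hP : Patt (chf h i).R (Bv N p) p (patK k g)) {x : ℤ} (hN : 1 ≤ N)
    (h1 : -(N : ℤ) ≤ x - 1) (h2 : x < N) (q1 : qd k (x, 0)) (q2 : qd k (x - 1, 0))
    (q3 : ¬ qd k (x, -1)) (q4 : ¬ qd k (x - 1, -1)) :
    Stp ((chf h i).R : Set (ℤ × ℤ)) (Bv N p) (fe g p x) (fe g p (x - 1)) 0 := by
  have hN' : (1 : ℤ) ≤ N := by exact_mod_cast hN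
  have e1 : ((x, 0) : ℤ × ℤ) + dir ((3 : ZMod 4) + 1) = (x - 1, 0) := by
    rw [d4a.2.2.2, dir0]; simp [sub_eq_add_neg]
  have e2 : ((x, 0) : ℤ × ℤ) + dir (3 : ZMod 4) = (x, -1) := by rw [dir3]; simp
  have e3 : ((x - 1, 0) : ℤ × ℤ) + dir (3 : ZMod 4) = (x - 1, -1) := by rw [dir3]; simp
  have hs : Stp {v | qd k v} (Q0 N) ((x, 0), 3) ((x, 0) + dir ((3 : ZMod 4) + 1), 3) 0 := by
    refine .flat q1 ?_ ?_ ?_ ?_ ?_ ?_ ?_
    · rw [e1]; exact q2
    · rw [e2]; exact q3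
    · rw [e1, e3]; exact q4
    · unfold Q0; simp only [Set.mem_ofPred_eq]; omega
    · rw [e1]; unfold Q0; simp only [Set.mem_ofPred_eq]; omega
    · rw [e2]; unfold Q0; simp only [Set.mem_ofPred_eq]; omega
    · rw [e1, e3]; unfold Q0; simp only [Set.mem_ofPred_eq]; omega
  have := stp_pl hP hs
  rw [e1] at this
  exact this

/-- wall -/
theorem step_we {k : Kind} (hP : Patt (chf h i).R (Bv N p) p (patK k g)) {y : ℤ} (hN : 1 ≤ N)
    (h1 : -(N : ℤ) ≤ y) (h2 : y + 1 < N) (q1 : qd k (0, y)) (q2 : qd k (0, y + 1))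
    (q3 : ¬ qd k (-1, y)) (q4 : ¬ qd k (-1, y + 1)) :
    Stp ((chf h i).R : Set (ℤ × ℤ)) (Bv N p) (we g p y) (we g p (y + 1)) 0 := by
  have hN' : (1 : ℤ) ≤ N := by exact_mod_cast hN
  have e1 : ((0, y) : ℤ × ℤ) + dir ((0 : ZMod 4) + 1) = (0, y + 1) := by
    rw [d4a.1, dir1]; simp
  have e2 : ((0, y) : ℤ × ℤ) + dir (0 : ZMod 4) = (-1, y) := by rw [dir0]; simp
  have e3 : ((0, y + 1) : ℤ × ℤ) + dir (0 : ZMod 4) = (-1, y + 1) := by rw [dir0]; simp
  have hs : Stp {v | qd k v} (Q0 N) ((0, y), 0) ((0, y) + dir ((0 : ZMod 4) + 1), 0) 0 := by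
    refine .flat q1 ?_ ?_ ?_ ?_ ?_ ?_ ?_
    · rw [e1]; exact q2
    · rw [e2]; exact q3
    · rw [e1, e3]; exact q4
    · unfold Q0; simp only [Set.mem_ofPred_eq]; omega
    · rw [e1]; unfold Q0; simp only [Set.mem_ofPred_eq]; omega
    · rw [e2]; unfold Q0; simp only [Set.mem_ofPred_eq]; omega
    · rw [e1, e3]; unfold Q0; simp only [Set.mem_ofPred_eq]; omega
  have := stp_pl hP hs
  rw [e1] at this
  have e4 : ∀ y, we g p y = (pl g p (0, y), 0 - (g : ZMod 4)) := fun y => by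
    unfold we; rw [zero_sub]
  rw [e4, e4]
  exact this

/-- convex corner -/
theorem step_cv (hP : Patt (chf h i).R (Bv N p) p (patK .cv g)) (hN : 1 ≤ N) :
    Stp ((chf h i).R : Set (ℤ × ℤ)) (Bv N p) (fe g p 0) (we g p 0) 1 := by
  have hN' : (1 : ℤ) ≤ N := by exact_mod_cast hN
  have e1 : ((0, 0) : ℤ × ℤ) + dir ((3 : ZMod 4) + 1) = (-1, 0) := by
    rw [d4a.2.2.2, dir0]; simp
  have e2 : ((0, 0) : ℤ × ℤ) + dir (3 : ZMod 4) = (0, -1) := by rw [dir3]; simp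
  have hs : Stp {v | qd .cv v} (Q0 N) ((0, 0), 3) ((0, 0), (3 : ZMod 4) + 1) 1 := by
    refine .convex ?_ ?_ ?_ ?_ ?_ ?_
    · simp [qd]
    · rw [e2]; simp [qd]
    · rw [e1]; simp [qd]
    · unfold Q0; simp only [Set.mem_ofPred_eq]; omega
    · rw [e2]; unfold Q0; simp only [Set.mem_ofPred_eq]; omega
    · rw [e1]; unfold Q0; simp only [Set.mem_ofPred_eq]; omega
  have := stp_pl hP hs
  have e4 : we g p 0 = (pl g p (0, 0), (3 : ZMod 4) + 1 - (g : ZMod 4)) := by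
    unfold we; rw [d4a.2.2.2, zero_sub]
  rw [e4]
  exact this

/-- reflex corner -/
theorem step_rf (hP : Patt (chf h i).R (Bv N p) p (patK .rf g)) (hN : 1 ≤ N) :
    Stp ((chf h i).R : Set (ℤ × ℤ)) (Bv N p) (we g p (-1)) (fe g p (-1)) (-1) := by
  have hN' : (1 : ℤ) ≤ N := by exact_mod_cast hN
  have e1 : ((0, -1) : ℤ × ℤ) + dir ((0 : ZMod 4) + 1) = (0, 0) := by
    rw [d4a.1, dir1]; simp
  have e2 : ((0, -1) : ℤ × ℤ) + dir (0 : ZMod 4) = (-1, -1) := by rw [dir0]; simp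
  have e3 : ((0, 0) : ℤ × ℤ) + dir (0 : ZMod 4) = (-1, 0) := by rw [dir0]; simp
  have hs : Stp {v | qd .rf v} (Q0 N) ((0, -1), 0)
      ((0, -1) + dir ((0 : ZMod 4) + 1) + dir (0 : ZMod 4), (0 : ZMod 4) + 3) (-1) := by
    refine .reflex ?_ ?_ ?_ ?_ ?_ ?_ ?_ ?_
    · simp [qd]
    · rw [e1]; simp [qd]
    · rw [e1, e3]; simp [qd]
    · rw [e2]; simp [qd]
    · unfold Q0; simp only [Set.mem_ofPred_eq]; omega
    · rw [e1]; unfold Q0; simp only [Set.mem_ofPred_eq]; omega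
    · rw [e1, e3]; unfold Q0; simp only [Set.mem_ofPred_eq]; omega
    · rw [e2]; unfold Q0; simp only [Set.mem_ofPred_eq]; omega
  have := stp_pl hP hs
  rw [e1, e3] at this
  have e4 : we g p (-1) = (pl g p (0, -1), 0 - (g : ZMod 4)) := by
    unfold we; rw [zero_sub]
  have e5 : fe g p (-1) = (pl g p (-1, 0), (0 : ZMod 4) + 3 - (g : ZMod 4)) := by
    unfold fe; rw [flip0.1]
  rw [e4, e5]
  exact this

variable {cc : TG × ZMod 4 → ℤ} {cl : ℤ} {J : TG × ZMod 4 → TG × ZMod 4 → ℤ}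

/-- no jump along the steps inside `B` -/
def NoJ (J : TG × ZMod 4 → TG × ZMod 4 → ℤ) (h : A.Sz ρ) (i : Fin 4) (B : Set (ℤ × ℤ)) : Prop :=
  ∀ X X' k, Stp ((chf h i).R : Set (ℤ × ℤ)) B X X' k → Jc J h i X X' = 0

/-- floor: the jumps add up -/
theorem fe_run {k : Kind} (H : ChH A cc cl J) (hB : A.Good ρ i (Bv N p))
    (hP : Patt (chf h i).R (Bv N p) p (patK k g)) (hN : 1 ≤ N) {a : ℤ} (ha : a < N) : ∀ n : ℕ,
    -(N : ℤ) ≤ a - n → (∀ x, a - n ≤ x → x ≤ a → qd k (x, 0) ∧ ¬ qd k (x, -1)) →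
    Cg cc cl h i (fe g p (a - n)) = Cg cc cl h i (fe g p a) +
      ∑ j ∈ Finset.range n, Jc J h i (fe g p (a - j)) (fe g p (a - j - 1)) := by
  intro n
  induction n with
  | zero => intro _ _; simp
  | succ n ih =>
    intro h1 hq
    push_cast at h1 hq ⊢
    have h2 := ih (by omega) fun x hx1 hx2 => hq x (by omega) hx2
    have q1 := hq (a - n) (by omega) (by omega)
    have q2 := hq (a - n - 1) (by omega) (by omega)
    have h3 := step_fe (h := h) (i := i) hP hN (x := a - n) (by omega) (by omega) q1.1 q2.1 q1.2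
      q2.2
    rw [Finset.sum_range_succ, ← add_assoc, ← h2, ← Cg_step H hB h3]
    congr 2
    ring

/-- floor: no jump -/
theorem fe_const {k : Kind} (H : ChH A cc cl J) (hB : A.Good ρ i (Bv N p))
    (hP : Patt (chf h i).R (Bv N p) p (patK k g)) (hN : 1 ≤ N) {a b : ℤ} (ha : a < N)
    (hb : -(N : ℤ) ≤ b) (hab : b ≤ a) (hq : ∀ x, b ≤ x → x ≤ a → qd k (x, 0) ∧ ¬ qd k (x, -1))
    (hJ : ∀ x, b < x → x ≤ a → Jc J h i (fe g p x) (fe g p (x - 1)) = 0) :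
    Cg cc cl h i (fe g p b) = Cg cc cl h i (fe g p a) := by
  obtain ⟨n, hn⟩ := Int.eq_ofNat_of_zero_le (a := a - b) (by omega)
  obtain rfl : b = a - n := by omega
  rw [fe_run H hB hP hN ha n hb hq]
  rw [Finset.sum_eq_zero, add_zero]
  intro j hj
  rw [Finset.mem_range] at hj
  exact hJ _ (by omega) (by omega)

/-- **floor: one jump** -/
theorem fe_jump {k : Kind} (H : ChH A cc cl J) (hB : A.Good ρ i (Bv N p))
    (hP : Patt (chf h i).R (Bv N p) p (patK k g)) (hN : 1 ≤ N) {a b z : ℤ} (ha : a < N)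
    (hb : -(N : ℤ) ≤ b) (hz1 : b < z) (hz2 : z ≤ a)
    (hq : ∀ x, b ≤ x → x ≤ a → qd k (x, 0) ∧ ¬ qd k (x, -1))
    (hJ : ∀ x, b < x → x ≤ a → x ≠ z → Jc J h i (fe g p x) (fe g p (x - 1)) = 0) :
    Cg cc cl h i (fe g p b) = Cg cc cl h i (fe g p a) +
      Jc J h i (fe g p z) (fe g p (z - 1)) := by
  have e1 := fe_const H hB hP hN (a := a) (b := z) ha (by omega) hz2
    (fun x h1 h2 => hq x (by omega) h2) (fun x h1 h2 => hJ x (by omega) h2 (by omega))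
  have e2 := fe_const H hB hP hN (a := z - 1) (b := b) (by omega) hb (by omega)
    (fun x h1 h2 => hq x h1 (by omega)) (fun x h1 h2 => hJ x h1 (by omega) (by omega))
  have q1 := hq z (by omega) hz2
  have q2 := hq (z - 1) (by omega) (by omega)
  have h3 := step_fe (h := h) (i := i) hP hN (x := z) (by omega) (by omega) q1.1 q2.1 q1.2 q2.2
  rw [e2, Cg_step H hB h3, e1]

/-- wall: the charge is constant -/
theorem we_const {k : Kind} (H : ChH A cc cl J) (hB : A.Good ρ i (Bv N p))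
    (hP : Patt (chf h i).R (Bv N p) p (patK k g)) (hN : 1 ≤ N) {a b : ℤ} (ha : a < N)
    (hb : -(N : ℤ) ≤ b) (hab : b ≤ a) (hq : ∀ y, b ≤ y → y ≤ a → qd k (0, y) ∧ ¬ qd k (-1, y))
    (hJ : ∀ y, b ≤ y → y < a → Jc J h i (we g p y) (we g p (y + 1)) = 0) :
    Cg cc cl h i (we g p a) = Cg cc cl h i (we g p b) := by
  have key : ∀ n : ℕ, b + n ≤ a → Cg cc cl h i (we g p (b + n)) = Cg cc cl h i (we g p b) := by
    intro n
    induction n with
    | zero => intro _; simp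
    | succ n ih =>
      intro h1
      push_cast at h1 ⊢
      have q1 := hq (b + n) (by omega) (by omega)
      have q2 := hq (b + n + 1) (by omega) (by omega)
      have h3 := step_we (h := h) (i := i) hP hN (y := b + n) (by omega) (by omega) q1.1 q2.1
        q1.2 q2.2
      rw [← add_assoc, Cg_step H hB h3, hJ _ (by omega) (by omega), add_zero, ih (by omega)]
  obtain ⟨n, hn⟩ := Int.eq_ofNat_of_zero_le (a := a - b) (by omega)
  obtain rfl : a = b + n := by omega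
  exact key n le_rfl

/-- **convex corner** -/
theorem chg_cv (H : ChH A cc cl J) (hB : A.Good ρ i (Bv N p))
    (hP : Patt (chf h i).R (Bv N p) p (patK .cv g)) (hJ : NoJ J h i (Bv N p)) {a b : ℤ}
    (ha1 : 0 ≤ a) (ha2 : a < N) (hb1 : 0 ≤ b) (hb2 : b < N) :
    Cg cc cl h i (fe g p a) = Cg cc cl h i (we g p b) := by
  have hN : 1 ≤ N := by omega
  have q1 : ∀ x : ℤ, 0 ≤ x → qd .cv (x, 0) ∧ ¬ qd .cv (x, -1) := fun x hx => by
    simp [qd, hx]
  have q2 : ∀ y : ℤ, 0 ≤ y → qd .cv (0, y) ∧ ¬ qd .cv (-1, y) := fun y hy => by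
    simp [qd, hy]
  have e1 := fe_const H hB hP hN (a := a) (b := 0) ha2 (by omega) ha1 (fun x h1 _ => q1 x h1)
    (fun x h1 h2 => hJ _ _ _ (step_fe hP hN (by omega) (by omega) (q1 x (by omega)).1
      (q1 (x - 1) (by omega)).1 (q1 x (by omega)).2 (q1 (x - 1) (by omega)).2))
  have e2 := we_const H hB hP hN (a := b) (b := 0) hb2 (by omega) hb1 (fun y h1 _ => q2 y h1)
    (fun y h1 h2 => hJ _ _ _ (step_we hP hN (by omega) (by omega) (q2 y (by omega)).1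
      (q2 (y + 1) (by omega)).1 (q2 y (by omega)).2 (q2 (y + 1) (by omega)).2))
  have h3 := step_cv (h := h) (i := i) hP hN
  have e3 := Cg_step H hB h3
  rw [hJ _ _ _ h3, add_zero] at e3
  rw [e2, ← e1, e3]

/-- **reflex corner** -/
theorem chg_rf (H : ChH A cc cl J) (hB : A.Good ρ i (Bv N p))
    (hP : Patt (chf h i).R (Bv N p) p (patK .rf g)) (hJ : NoJ J h i (Bv N p)) {a b : ℤ}
    (ha1 : -(N : ℤ) ≤ a) (ha2 : a < 0) (hb1 : -(N : ℤ) ≤ b) (hb2 : b < 0) :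
    Cg cc cl h i (we g p a) = Cg cc cl h i (fe g p b) := by
  have hN : 1 ≤ N := by omega
  have q1 : ∀ x : ℤ, x < 0 → qd .rf (x, 0) ∧ ¬ qd .rf (x, -1) := fun x hx => by
    simp [qd, hx]
  have q2 : ∀ y : ℤ, y < 0 → qd .rf (0, y) ∧ ¬ qd .rf (-1, y) := fun y hy => by
    simp [qd, hy]
  have e1 := fe_const H hB hP hN (a := -1) (b := b) (by omega) hb1 (by omega)
    (fun x _ h2 => q1 x (by omega))
    (fun x h1 h2 => hJ _ _ _ (step_fe hP hN (by omega) (by omega) (q1 x (by omega)).1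
      (q1 (x - 1) (by omega)).1 (q1 x (by omega)).2 (q1 (x - 1) (by omega)).2))
  have e2 := we_const H hB hP hN (a := -1) (b := a) (by omega) ha1 (by omega)
    (fun y _ h2 => q2 y (by omega))
    (fun y h1 h2 => hJ _ _ _ (step_we hP hN (by omega) (by omega) (q2 y (by omega)).1
      (q2 (y + 1) (by omega)).1 (q2 y (by omega)).2 (q2 (y + 1) (by omega)).2))
  have h3 := step_rf (h := h) (i := i) hP hN
  have e3 := Cg_step H hB h3
  rw [hJ _ _ _ h3, add_zero] at e3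
  rw [e1, ← e2, e3]

theorem qd_mk (x : ℤ) : qd .mk (x, 0) ∧ ¬ qd .mk (x, -1) := by simp [qd]

/-- **gap of a flat wall**: charge `-Jc` -/
theorem chg_gap (H : ChH A cc cl J) (hB : A.Good ρ i (Bv N p))
    (hP : Patt (chf h i).R (Bv N p) p (patK .mk g))
    (hJ : ∀ x : ℤ, -(N : ℤ) < x → x < N → x ≠ 0 → Jc J h i (fe g p x) (fe g p (x - 1)) = 0)
    {a b : ℤ} (ha1 : 0 ≤ a) (ha2 : a < N) (hb1 : -(N : ℤ) ≤ b) (hb2 : b < 0) :
    Cg cc cl h i (fe g p a) - Cg cc cl h i (fe g p b) = -Jc J h i (fe g p 0) (fe g p (0 - 1)) := by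
  have := fe_jump H hB hP (by omega) (a := a) (b := b) (z := 0) ha2 hb1 hb2 ha1
    (fun x _ _ => qd_mk x) (fun x h1 h2 h3 => hJ x (by omega) (by omega) h3)
  rw [this]
  ring

/-- the ends of a flat box, before the gap at `z` and after it -/
theorem chg_side (H : ChH A cc cl J) (hB : A.Good ρ i (Bv N p))
    (hP : Patt (chf h i).R (Bv N p) p (patK .mk g)) {a b : ℤ} (hab : b ≤ a) (ha2 : a < N)
    (hb1 : -(N : ℤ) ≤ b)
    (hJ : ∀ x : ℤ, b < x → x ≤ a → Jc J h i (fe g p x) (fe g p (x - 1)) = 0) :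
    Cg cc cl h i (fe g p b) = Cg cc cl h i (fe g p a) :=
  fe_const H hB hP (by omega) ha2 hb1 hab (fun x _ _ => qd_mk x) hJ

end chart

/-! ### no jump -/

theorem ind_ne {m q : Port TG} (h : q ≠ m) : ind m q = 0 := if_neg (Ne.symm h)

theorem Jn_zero {m1 m2 : Port TG} {e : Option (Port TG)} {q q' : Port TG}
    (h1 : q' ≠ m1) (h2 : q' ≠ m2) (h3 : ∀ e' ∈ e, q ≠ e' ∧ q' ≠ e') : Jn m1 m2 e q q' = 0 := by
  unfold Jn
  rw [ind_ne h1, ind_ne h2]
  cases e with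
  | none => simp
  | some e =>
    obtain ⟨h4, h5⟩ := h3 e rfl
    simp only
    rw [ind_ne h4, ind_ne h5]
    simp

/-- **no jump in the lower half** -/
theorem noJ_low {A : Half} {ρ : ℕ} {h : A.Sz ρ} {i : Fin 4} {B : Set (ℤ × ℤ)} {m1 m2 : Port TG}
    {e : Option (Port TG)} (hx : ∀ X, REnd h i B X → some (upp h i X) ≠ m1 ∧
      some (upp h i X) ≠ m2 ∧ ∀ e' ∈ e, some (upp h i X) ≠ e') : NoJ (JL m1 m2 e) h i B := by
  intro X X' k hS
  obtain ⟨r1, r2⟩ := hS.ends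
  obtain ⟨a1, a2, a3⟩ := hx X r1
  obtain ⟨b1, b2, b3⟩ := hx X' r2
  unfold Jc JL
  split_ifs
  · exact Jn_zero a1 a2 fun e' he => ⟨b3 e' he, a3 e' he⟩
  · exact Jn_zero b1 b2 fun e' he => ⟨a3 e' he, b3 e' he⟩

/-- **no jump in the reflected upper half** -/
theorem noJ_up {A : Half} {ρ : ℕ} {h : A.Sz ρ} {i : Fin 4} {B : Set (ℤ × ℤ)} {b' : ℤ}
    {m1 m2 : Port TG} {e : Option (Port TG)}
    (hx : ∀ X, REnd h i B X → rp (some (upp h i X)) ≠ m1 ∧ rp (some (upp h i X)) ≠ m2 ∧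
      (∀ e' ∈ e, rp (some (upp h i X)) ≠ e') ∧ jb b' (upp h i X) = 0) :
    NoJ (JU b' m1 m2 e) h i B := by
  intro X X' k hS
  obtain ⟨r1, r2⟩ := hS.ends
  obtain ⟨a1, a2, a3, a4⟩ := hx X r1
  obtain ⟨b1, b2, b3, b4⟩ := hx X' r2
  unfold Jc JU
  split_ifs
  · rw [Jn_zero b1 b2 fun e' he => ⟨a3 e' he, b3 e' he⟩, b4, sub_zero]
  · rw [Jn_zero a1 a2 fun e' he => ⟨b3 e' he, a3 e' he⟩, a4, sub_zero]

end Crest.Agent.R158.Lr158
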