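import Crest.Agent.R158.Lr12_158
import Crest.Agent.R158.Fm2_857

/-!
# R158, block Q1d, leaf LR (helper874), part 13: no jump of the charge near a vertex

* `NearV A L n X` : the port `X` of a half environment is within `n` of a macroscopic vertex or of a
  mouth corner
* **`near_end`** : the ends of the box of radius `N` around a vertex of a chart are `NearV`
* `NearG B L n q` : the same for the ports of `G^(z)`
* `not_near_far`, `not_near_mark` : the ends of the family and the marks are not near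
* **`noJ_ver_low`**, **`noJ_ver_up`** : no jump of the charges of the family near the vertices
* `notN_JP` : the hypothesis for the literal family
-/

set_option autoImplicit false

namespace Crest.Agent.R158.Lr874

open Crest.Agent.R158.Sw300 (Port)
open Crest.Agent.R158.Env664 (TG Mac D mem_D Run CutAdj Adj4 lowT upT Band mark)
open Crest.Agent.R158.Pt266 (dir)
open Crest.Agent.R158.Ka470
open Crest.Agent.R158.Ka470.Half
open Crest.Agent.R158.Lr158
open Crest.Agent.R158.Rf896 (rA rB rz rp rt mem_rA rz_rz rp_some rp_rp)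
open Crest.Agent.R158.Ao857 (tpm inlE)
open Crest.Agent.R158.Tj656 (P4)
open Crest.Agent.R158.Fm857 (freeG far Jd mem_Jd vertP mem_vertP mouthC mem_mouthC SpP mem_SpP DelP JP
  mkP mkG)

/-! ### near ports of a half environment -/

/-- within `n` of a macroscopic vertex or of a mouth corner -/
def NearV (A : Half) (L n : ℤ) : TG × ZMod 4 → Prop
  | (Sum.inl t, _) => (∃ p : ℤ × ℤ, (L ∣ p.1 ∧ L ∣ p.2) ∧ |t.1 - p.1| ≤ n ∧ |t.2 - p.2| ≤ n) ∨
      ((|t.1 - A.xl| ≤ n ∨ |t.1 - A.xr| ≤ n) ∧ |t.2 - A.y1| ≤ n)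
  | (Sum.inr v, _) => v.1 < n ∨ A.R - n ≤ v.1

theorem near_inl1 {A : Half} {L n : ℤ} {t p : ℤ × ℤ} {d : ZMod 4} (h1 : L ∣ p.1) (h2 : L ∣ p.2)
    (h3 : -n ≤ t.1 - p.1) (h4 : t.1 - p.1 ≤ n) (h5 : -n ≤ t.2 - p.2) (h6 : t.2 - p.2 ≤ n) :
    NearV A L n (Sum.inl t, d) :=
  Or.inl ⟨p, ⟨h1, h2⟩, abs_le.2 ⟨h3, h4⟩, abs_le.2 ⟨h5, h6⟩⟩

/-- **the ends near a vertex of a chart** -/
theorem near_end {A : Half} {ρ : ℕ} {h : A.Sz ρ} {L : ℤ} {i : Fin 4} {p : ℤ × ℤ} {N : ℕ}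
    (hp : p ∈ A.Ver L i) (hB : A.Good ρ i (Bv N p)) {X : (ℤ × ℤ) × ZMod 4}
    (hX : REnd h i (Bv N p) X) : NearV A L N (upp h i X) := by
  have hx := A.hx
  have h01 := A.h1
  obtain ⟨⟨x, y⟩, d⟩ := X
  obtain ⟨⟨b1, b2⟩, b3, b4⟩ := hX.b1
  simp only at b1 b2 b3 b4
  fin_cases i
  · obtain ⟨p1, p2⟩ := hp
    exact near_inl1 p1 p2 (by simp only; omega) (by simp only; omega) (by simp only; omega)
      (by simp only; omega)
  · obtain ⟨p1, p2⟩ := hp
    exact near_inl1 (p := (p.1, 2 * A.y0 - p.2)) p1 p2 (by simp only [Half.rf]; omega)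
      (by simp only [Half.rf]; omega) (by simp only [Half.rf]; omega)
      (by simp only [Half.rf]; omega)
  · obtain ⟨p1, p2⟩ := hp
    have key := posM (h := h) hB hX
    unfold PosM at key
    simp only at key
    rcases key with ⟨rfl, rfl, k1, k2⟩ | ⟨rfl, rfl, k1, k2⟩ | ⟨rfl, rfl, -, k1⟩ | ⟨rfl, k2, -, k1⟩
    · have e : (upp h 2 ((A.xl, y), 0)) = (tM A A.xl (A.ry y), Ka470.sg (A.kk y) 0) := rfl
      show NearV A L N (upp h 2 ((A.xl, y), 0))
      rw [e, tM_m le_rfl hx]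
      refine Or.inr ⟨Or.inl ?_, ?_⟩
      · simp
      · show |A.ry y - A.y1| ≤ N
        have key2 : -(N : ℤ) ≤ A.ry y - A.y1 ∧ A.ry y - A.y1 ≤ N := by
          rcases lt_or_ge y A.y0 with hy | hy
          · rw [ry_lt _ hy] at k2 ⊢; omega
          · rw [ry_ge _ hy] at k2 ⊢; omega
        exact abs_le.2 key2
    · have e : (upp h 2 ((A.xr, y), 2)) = (tM A A.xr (A.ry y), Ka470.sg (A.kk y) 2) := rfl
      show NearV A L N (upp h 2 ((A.xr, y), 2))
      rw [e, tM_m hx le_rfl]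
      refine Or.inr ⟨Or.inr ?_, ?_⟩
      · simp
      · show |A.ry y - A.y1| ≤ N
        have key2 : -(N : ℤ) ≤ A.ry y - A.y1 ∧ A.ry y - A.y1 ≤ N := by
          rcases lt_or_ge y A.y0 with hy | hy
          · rw [ry_lt _ hy] at k2 ⊢; omega
          · rw [ry_ge _ hy] at k2 ⊢; omega
        exact abs_le.2 key2
    · have e := (uppM_lo h (x := x) (y := A.y1) (d := 3) h01).1
      show NearV A L N (upp h 2 ((x, A.y1), 3))
      rw [e]
      by_cases c1 : x < A.xl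
      · rw [tM_l c1]
        show A.R - (A.xl - x) < N ∨ A.R - N ≤ A.R - (A.xl - x)
        omega
      · rw [tM_r (by omega)]
        show x - A.xr - 1 < N ∨ A.R - N ≤ x - A.xr - 1
        omega
    · have e := (uppM_hi h (x := x) (y := y) (d := 1) (by omega)).1
      show NearV A L N (upp h 2 ((x, y), 1))
      rw [e]
      by_cases c1 : x < A.xl
      · rw [tM_l c1]
        show A.R - (A.xl - x) < N ∨ A.R - N ≤ A.R - (A.xl - x)
        omega
      · rw [tM_r (by omega)]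
        show x - A.xr - 1 < N ∨ A.R - N ≤ x - A.xr - 1
        omega
  · exact absurd hp (Set.notMem_empty _)

/-! ### near ports of `G^(z)` -/

/-- within `n` of a macroscopic vertex or of a mouth corner -/
def NearG {A : Finset (ℤ × ℤ)} (B : Band A) (L n : ℤ) : Port TG → Prop
  | none => False
  | some (Sum.inl t, _) =>
      (∃ p : ℤ × ℤ, (L ∣ p.1 ∧ L ∣ p.2) ∧ |t.1 - p.1| ≤ n ∧ |t.2 - p.2| ≤ n) ∨
      ((|t.1 - B.xl| ≤ n ∨ |t.1 - B.xr| ≤ n) ∧ (|t.2 - B.y1| ≤ n ∨ |t.2 - (B.y2 - 1)| ≤ n))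
  | some (Sum.inr v, _) => v.1 < n ∨ B.R - n ≤ v.1

theorem two {L x q n : ℤ} (hL : 0 < L) (hq : L ∣ q) (h : |x - q| ≤ n) (hn : n < L) :
    q = x / L * L ∨ q = (x / L + 1) * L := by
  obtain ⟨k, rfl⟩ := hq
  have h1 := Int.mul_ediv_add_emod x L
  have h2 := Int.emod_nonneg x hL.ne'
  have h3 := Int.emod_lt_of_pos x hL
  rw [abs_le] at h
  have h4 : x / L - 1 < k := by
    by_contra hcon
    have : L * k ≤ L * (x / L - 1) := mul_le_mul_of_nonneg_left (not_lt.1 hcon) hL.le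
    have e : L * (x / L - 1) = L * (x / L) - L := by ring
    omega
  have h5 : k < x / L + 2 := by
    by_contra hcon
    have : L * (x / L + 2) ≤ L * k := mul_le_mul_of_nonneg_left (not_lt.1 hcon) hL.le
    have e : L * (x / L + 2) = L * (x / L) + 2 * L := by ring
    omega
  obtain rfl | rfl : k = x / L ∨ k = x / L + 1 := by omega
  · exact Or.inl (mul_comm _ _)
  · exact Or.inr (mul_comm _ _)

/-- **the ends of the family are not near** -/
theorem not_near_far {F : Finset (ℤ × ℤ)} {L n Δ a0 b0 : ℤ} {B : Band (D F L)}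
    {Sp : Finset (ℤ × ℤ)} {q : Port TG} (hL : 0 < L) (h1 : vertP F L ⊆ Sp) (h2 : mouthC B ⊆ Sp)
    (h3 : n + 2 ≤ Δ) (h4 : n < L) (h5 : a0 + 1 + n < B.R) (h6 : n ≤ b0) (hq : q ∈ freeG B)
    (hf : far B Sp Δ a0 b0 q) : ¬ NearG B L n q := by
  rcases mem_freeG'.1 hq with ⟨t, d, rfl, h7, -⟩ | ⟨i, -, -, rfl⟩ | ⟨i, -, -, rfl⟩
  · have hf' : ∀ v ∈ Sp, Δ ≤ |t.1 - v.1| ∨ Δ ≤ |t.2 - v.2| := hf
    rintro (⟨p, ⟨p1, p2⟩, p3, p4⟩ | ⟨g1, g2⟩)
    · have ht : (t.1 / L, t.2 / L) ∈ F := (mem_D hL _).1 h7.1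
      have hp : p ∈ vertP F L := by
        refine mem_vertP.2 ⟨_, ht, ?_⟩
        obtain ⟨px, py⟩ := p
        simp only [Prod.mk.injEq]
        have k1 := two hL p1 p3 h4
        have k2 := two hL p2 p4 h4
        simp only at k1 k2
        tauto
      have := hf' p (h1 hp)
      omega
    · have hm : ∀ v ∈ mouthC B, Δ ≤ |t.1 - v.1| ∨ Δ ≤ |t.2 - v.2| := fun v hv => hf' v (h2 hv)
      have m1 := hm (B.xl, B.y1) (mem_mouthC.2 (Or.inl rfl))
      have m2 := hm (B.xl, B.y2 - 1) (mem_mouthC.2 (Or.inr (Or.inl rfl)))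
      have m3 := hm (B.xr, B.y1) (mem_mouthC.2 (Or.inr (Or.inr (Or.inl rfl))))
      have m4 := hm (B.xr, B.y2 - 1) (mem_mouthC.2 (Or.inr (Or.inr (Or.inr rfl))))
      simp only at m1 m2 m3 m4
      omega
  · have hf' : (Δ ≤ (if (3 : ZMod 4) = 3 then i else i - 1) ∧
        (if (3 : ZMod 4) = 3 then i else i - 1) ≤ a0) ∨
      (b0 < (if (3 : ZMod 4) = 3 then i else i - 1) ∧
        (if (3 : ZMod 4) = 3 then i else i - 1) < B.R - Δ) := hf
    rw [if_pos rfl] at hf'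
    rintro (g | g) <;> simp only at g <;> omega
  · have hf' : (Δ ≤ (if (1 : ZMod 4) = 3 then i else i - 1) ∧
        (if (1 : ZMod 4) = 3 then i else i - 1) ≤ a0) ∨
      (b0 < (if (1 : ZMod 4) = 3 then i else i - 1) ∧
        (if (1 : ZMod 4) = 3 then i else i - 1) < B.R - Δ) := hf
    rw [if_neg (by decide : ¬ (1 : ZMod 4) = 3)] at hf'
    rintro (g | g) <;> simp only at g <;> omega

/-- numbers of a band: `n` is small -/
structure NumV {A : Finset (ℤ × ℤ)} (B : Band A) (L c n : ℤ) : Prop where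
  n0 : 0 ≤ n
  nL : 2 * n + 6 ≤ L
  y1 : c * L + n + 2 ≤ B.y1
  y2 : B.y2 + n + 2 ≤ c * L + L
  hm : B.y2 + n + 2 ≤ c * L + L / 2 ∨ c * L + L / 2 + n + 2 ≤ B.y1
  hy : B.y1 ≤ B.y2

theorem mark_pos (L : ℤ) (c : ℤ × ℤ) (d : ZMod 4) : ∃ t : ℤ × ℤ, (mark L c d).2 = some (t, d) ∧
    ((t.2 = c.2 * L + L / 2 ∨ t.2 = c.2 * L + L / 2 - 1) ∨
      ((t.1 = c.1 * L + L / 2 ∨ t.1 = c.1 * L + L / 2 - 1) ∧
        (t.2 = c.2 * L ∨ t.2 = c.2 * L + L - 1))) := by
  unfold mark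
  rcases Lr158.z4 d with rfl | rfl | rfl | rfl
  · exact ⟨(c.1 * L, c.2 * L + L / 2), rfl, Or.inl (Or.inl rfl)⟩
  · exact ⟨(c.1 * L + L / 2, c.2 * L + L - 1), rfl, Or.inr ⟨Or.inl rfl, Or.inr rfl⟩⟩
  · exact ⟨(c.1 * L + L - 1, c.2 * L + L / 2 - 1), rfl, Or.inl (Or.inr rfl)⟩
  · exact ⟨(c.1 * L + L / 2 - 1, c.2 * L), rfl, Or.inr ⟨Or.inr rfl, Or.inl rfl⟩⟩

theorem mid_far {L c k n x : ℤ} (hL : 2 * n + 6 ≤ L) (hn : 0 ≤ n)
    (hx : x = c * L + L / 2 ∨ x = c * L + L / 2 - 1) : ¬ |x - L * k| ≤ n := by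
  intro h
  rw [abs_le] at h
  rcases le_or_gt k c with h1 | h1
  · have : L * k ≤ L * c := mul_le_mul_of_nonneg_left h1 (by omega)
    have e : c * L = L * c := mul_comm _ _
    omega
  · have : L * (c + 1) ≤ L * k := mul_le_mul_of_nonneg_left h1 (by omega)
    have e : c * L = L * c := mul_comm _ _
    have e' : L * (c + 1) = L * c + L := by ring
    omega

/-- **the marks are not near** -/
theorem not_near_mark {A : Finset (ℤ × ℤ)} {B : Band A} {L c n : ℤ} (hN : NumV B L c n)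
    (q : ℤ × ℤ) (d : ZMod 4) : ¬ NearG B L n (tpm inlE (mark L q d).2) := by
  obtain ⟨t, ht, hpos⟩ := mark_pos L q d
  rw [ht]
  have n0 := hN.n0
  have nL := hN.nL
  have y1 := hN.y1
  have y2 := hN.y2
  have hm := hN.hm
  have hy := hN.hy
  have tri : (q.2 ≤ c - 1 ∧ q.2 * L + L ≤ c * L) ∨ (q.2 = c ∧ q.2 * L = c * L) ∨
      (c + 1 ≤ q.2 ∧ c * L + L ≤ q.2 * L) := by
    rcases lt_trichotomy q.2 c with h | h | h
    · left
      have : (q.2 + 1) * L ≤ c * L := mul_le_mul_of_nonneg_right h (by omega)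
      have e : (q.2 + 1) * L = q.2 * L + L := by ring
      omega
    · right; left; exact ⟨h, by rw [h]⟩
    · right; right
      have : (c + 1) * L ≤ q.2 * L := mul_le_mul_of_nonneg_right h (by omega)
      have e : (c + 1) * L = c * L + L := by ring
      omega
  rintro (⟨p, ⟨⟨k1, p1⟩, k2, p2⟩, p3, p4⟩ | ⟨-, g⟩)
  · change |t.1 - p.1| ≤ n at p3
    change |t.2 - p.2| ≤ n at p4
    rw [p1] at p3
    rw [p2] at p4
    rcases hpos with h | ⟨h, -⟩
    · exact mid_far nL n0 h p4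
    · exact mid_far nL n0 h p3
  · change |t.2 - B.y1| ≤ n ∨ |t.2 - (B.y2 - 1)| ≤ n at g
    simp only [abs_le] at g
    rcases hpos with h | ⟨-, h⟩
    · rcases tri with ⟨-, tri⟩ | ⟨-, tri⟩ | ⟨-, tri⟩ <;> rcases hm with hm | hm <;>
        rcases g with g | g <;> rcases h with h | h <;> omega
    · rcases tri with ⟨-, tri⟩ | ⟨-, tri⟩ | ⟨-, tri⟩ <;>
        rcases g with g | g <;> rcases h with h | h <;> omega

/-! ### the two halves -/

variable {M : Mac} {L a b c : ℤ} {B : Band (D M.F L)}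

theorem near_low (m : MB M L a b c B) {y0 : ℤ} (h1 : B.y1 < y0) (h2 : y0 ≤ B.y2) {n : ℤ}
    {X : TG × ZMod 4} (hX : NearV (lowHalf (lb_low m h1 h2).d) L n X) : NearG B L n (some X) := by
  have exl : (lowHalf (lb_low m h1 h2).d).xl = B.xl := m.xl.symm
  have exr : (lowHalf (lb_low m h1 h2).d).xr = B.xr := m.xr.symm
  obtain ⟨t | v, d⟩ := X
  · rcases hX with hX | ⟨hX, hX'⟩
    · exact Or.inl hX
    · rw [exl, exr] at hX
      exact Or.inr ⟨hX, Or.inl hX'⟩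
  · exact hX

theorem near_up (m : MB M L a b c B) {y0 : ℤ} (h1 : -B.y2 < y0) (h2 : y0 ≤ -B.y1) {n : ℤ}
    {X : TG × ZMod 4} (hX : NearV (lowHalf (lb_up m h1 h2).d) L n X) :
    NearG B L (n + 1) (rp (some X)) := by
  have exl : (lowHalf (lb_up m h1 h2).d).xl = B.xl := m.xl.symm
  have exr : (lowHalf (lb_up m h1 h2).d).xr = B.xr := m.xr.symm
  obtain ⟨t | v, d⟩ := X
  · rcases hX with ⟨p, ⟨p1, p2⟩, p3, p4⟩ | ⟨hX, hX'⟩
    · refine Or.inl ⟨(p.1, -p.2), ⟨p1, (dvd_neg).2 p2⟩, ?_, ?_⟩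
      · show |t.1 - p.1| ≤ n + 1
        exact p3.trans (by omega)
      · show |(-t.2 - 1) - -p.2| ≤ n + 1
        rw [abs_le] at p4 ⊢
        omega
    · rw [exl, exr] at hX
      refine Or.inr ⟨?_, Or.inr ?_⟩
      · show |t.1 - B.xl| ≤ n + 1 ∨ |t.1 - B.xr| ≤ n + 1
        omega
      · show |(-t.2 - 1) - (B.y2 - 1)| ≤ n + 1
        change |t.2 - -B.y2| ≤ n at hX'
        rw [abs_le] at hX' ⊢
        omega
  · change v.1 < n ∨ B.R + 1 - n ≤ v.1 at hX
    show v.1 < n + 1 ∨ B.R - (n + 1) ≤ v.1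
    omega

/-- the special ports are not near -/
structure NotN {A : Finset (ℤ × ℤ)} (B : Band A) (L n : ℤ) (m1 m2 : Port TG)
    (e : Option (Port TG)) : Prop where
  h1 : ¬ NearG B L n m1
  h2 : ¬ NearG B L n m2
  he : ∀ e' ∈ e, ¬ NearG B L n e'

/-- **no jump near a vertex, lower half** -/
theorem noJ_ver_low (m : MB M L a b c B) {y0 : ℤ} (h1 : B.y1 < y0) (h2 : y0 ≤ B.y2)
    {ρ : ℕ} {h : (lowHalf (lb_low m h1 h2).d).Sz ρ} {N : ℕ} {i : Fin 4} {p : ℤ × ℤ}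
    {m1 m2 : Port TG} {e : Option (Port TG)} (hN : NotN B L N m1 m2 e)
    (hp : p ∈ (lowHalf (lb_low m h1 h2).d).Ver L i)
    (hB : (lowHalf (lb_low m h1 h2).d).Good ρ i (Bv N p)) : NoJ (JL m1 m2 e) h i (Bv N p) := by
  refine noJ_low fun X hX => ?_
  have g := near_low m h1 h2 (near_end hp hB hX)
  exact ⟨fun hh => hN.h1 (hh ▸ g), fun hh => hN.h2 (hh ▸ g), fun e' he' hh => hN.he e' he' (hh ▸ g)⟩

/-- **no jump near a vertex, reflected upper half** -/
theorem noJ_ver_up (m : MB M L a b c B) {y0 : ℤ} (h1 : -B.y2 < y0) (h2 : y0 ≤ -B.y1)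
    {ρ : ℕ} {h : (lowHalf (lb_up m h1 h2).d).Sz ρ} {N : ℕ} {i : Fin 4} {p : ℤ × ℤ} {b' : ℤ}
    (hb1 : N ≤ b') (hb2 : b' < B.R + 1 - N)
    {m1 m2 : Port TG} {e : Option (Port TG)} (hN : NotN B L (N + 1) m1 m2 e)
    (hp : p ∈ (lowHalf (lb_up m h1 h2).d).Ver L i)
    (hB : (lowHalf (lb_up m h1 h2).d).Good ρ i (Bv N p)) : NoJ (JU b' m1 m2 e) h i (Bv N p) := by
  refine noJ_up fun X hX => ?_
  have hn := near_end hp hB hX
  have g := near_up m h1 h2 hn
  refine ⟨fun hh => hN.h1 (hh ▸ g), fun hh => hN.h2 (hh ▸ g),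
    fun e' he' hh => hN.he e' he' (hh ▸ g), ?_⟩
  generalize upp h i X = Y at hn
  obtain ⟨t | v, d⟩ := Y
  · rfl
  · change v.1 < (N : ℤ) ∨ B.R + 1 - N ≤ v.1 at hn
    exact if_neg (by omega)

/-! ### the literal family -/

/-- **the special ports of the family are not near the vertices** -/
theorem notN_JP {P : P4} {L c n : ℤ} {δ : ℝ} {B : Band (D P.F L)} (hN : NumV B L c n)
    (hR : B.R = L) (hΔ : n + 2 ≤ DelP L δ) {e : Option (Port TG)}
    (he : e ∈ Finset.insertNone (JP P L δ B)) :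
    NotN B L n (mkG P L 0) (mkG P L 1) e where
  h1 := not_near_mark hN _ _
  h2 := not_near_mark hN _ _
  he e' he' := by
    have h1 : e' ∈ JP P L δ B := Finset.mem_insertNone.1 he e' he'
    obtain ⟨h2, -, h3⟩ := (mem_Jd B).1 h1
    have n0 := hN.n0
    have nL := hN.nL
    refine not_near_far (by omega) (fun v hv => ?_) (fun v hv => ?_) hΔ (by omega) ?_ ?_ h2 h3
    · exact mem_SpP.2 (Or.inl hv)
    · exact mem_SpP.2 (Or.inr (Or.inr hv))
    · rw [hR]; omega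
    · omega

end Crest.Agent.R158.Lr874
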