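import Crest.Agent.R158.Ne6_808
import Crest.Agent.R158.Pt10_266

/-!
# R158, block Q1d, leaf (E) (helper808), part 7: corners

* `cuts_fw`, `cuts_wf` : a strand around a corner cuts both lines
* `patt_big` : the pattern in the large box around a vertex
* `pat_rf`, `pat_cv` : the pattern of a corner
* `RfC` : the charges are constant across the reflex vertices of the second copy
* `cv_counted`, `rf_const`
* `cls_cases` : every class is big, or of weight at most `1`, or counted at a convex corner of the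
  second copy
-/

set_option autoImplicit false
set_option linter.unusedSectionVars false
set_option synthInstance.maxSize 1000

noncomputable section

namespace Crest.Agent.R158.Ne808

open Crest.Agent.R158.Nm211
open Crest.Agent.R158.Nz399
open Crest.Agent.R158.Ka470
open Crest.Agent.R158.Ad350 (Net tnet ports mem_ports mem_ports' tnet_ok seam)
open Crest.Agent.R158.Sw300 (Port thru)
open Crest.Agent.R158.Env664 (TG)
open Crest.Agent.R158.Lr158 (PhH OpenH Phi gg Cg Stp nxe REnd)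
open Crest.Agent.R158.Pt266 (Quad quadB mp dir Gauge NxT val sgn wph RG RuleC ip op tt Cl comp
  rg_full pl_four qd_pl_eq qd_pl_inj fe_face we_face typ_cv typ_rf rg_glu stdf)
open Crest.Agent.R158.Xr249 (full)

/-! ### boxes around a vertex -/

theorem B5_Bv {ρ : ℕ} {o p : ℤ × ℤ} (hc : Cuts (B5 ρ o) p) : B5 ρ o ⊆ Bv (5 * ρ) p := by
  rintro ⟨x, y⟩ ⟨⟨h1, h2⟩, h3, h4⟩
  obtain ⟨⟨⟨u, ⟨⟨u1, u2⟩, u3, u4⟩, u5⟩, v, ⟨⟨v1, v2⟩, v3, v4⟩, v5⟩,
    ⟨w, ⟨⟨w1, w2⟩, w3, w4⟩, w5⟩, z, ⟨⟨z1, z2⟩, z3, z4⟩, z5⟩ := hc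
  simp only at h1 h2 h3 h4
  refine ⟨⟨?_, ?_⟩, ?_, ?_⟩ <;> simp only <;> push_cast <;> omega

theorem B3_Bv {ρ : ℕ} {o p : ℤ × ℤ} (hc : Cuts (B3 ρ o) p) : B3 ρ o ⊆ Bv (3 * ρ) p := by
  rintro ⟨x, y⟩ ⟨⟨h1, h2⟩, h3, h4⟩
  obtain ⟨⟨⟨u, ⟨⟨u1, u2⟩, u3, u4⟩, u5⟩, v, ⟨⟨v1, v2⟩, v3, v4⟩, v5⟩,
    ⟨w, ⟨⟨w1, w2⟩, w3, w4⟩, w5⟩, z, ⟨⟨z1, z2⟩, z3, z4⟩, z5⟩ := hc
  simp only at h1 h2 h3 h4
  refine ⟨⟨?_, ?_⟩, ?_, ?_⟩ <;> simp only <;> push_cast <;> omega

theorem cuts_mono {B B' : Set (ℤ × ℤ)} {p : ℤ × ℤ} (h : Cuts B p) (hs : B ⊆ B') : Cuts B' p := by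
  obtain ⟨⟨⟨u, hu, u'⟩, v, hv, v'⟩, ⟨w, hw, w'⟩, z, hz, z'⟩ := h
  exact ⟨⟨⟨u, hs hu, u'⟩, v, hs hv, v'⟩, ⟨w, hs hw, w'⟩, z, hs hz, z'⟩

section

variable {A : Half} {ρ : ℕ} {h : A.Sz ρ} {i : Fin 4} {x1 x2 z1 z2 : ℤ} {o p : ℤ × ℤ}
  {pat : Bool → Bool → Bool} {T : Finset TG} {be : Port TG → Port TG}
  {ch : Port TG → ℝ} {ps cc : TG × ZMod 4 → ℤ} {cl : ℤ} {O : Finset (Port TG)}
  {s : TG × Bool → Bool}

/-- the pattern in the large box -/
theorem patt_big {L a b c' : ℤ} (m : A.Mc L a b c') (h' : A.Sz' ρ L)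
    (hP : Patt (Half.chf h i).R (B5 ρ o) p pat) (hc : Cuts (B5 ρ o) p) (hv : p ∈ A.Ver L i) :
    A.Good ρ i (Bv (5 * ρ) p) ∧ Patt (Half.chf h i).R (Bv (5 * ρ) p) p pat := by
  obtain ⟨hg, pat', hP'⟩ := Half.vert m h h' hv
  refine ⟨hg, ?_⟩
  have hs := B5_Bv hc
  have key : ∀ bx bz, pat bx bz = pat' bx bz := by
    intro bx bz
    have h1 : ∃ u ∈ B5 ρ o, decide (p.1 ≤ u.1) = bx ∧ decide (p.2 ≤ u.2) = bz := by
      obtain ⟨⟨⟨u, ⟨⟨u1, u2⟩, u3, u4⟩, u5⟩, v, ⟨⟨v1, v2⟩, v3, v4⟩, v5⟩,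
        ⟨w, ⟨⟨w1, w2⟩, w3, w4⟩, w5⟩, z, ⟨⟨z1, z2⟩, z3, z4⟩, z5⟩ := hc
      cases bx <;> cases bz
      · exact ⟨(u.1, w.2), ⟨⟨u1, u2⟩, w3, w4⟩, by simpa using u5, by simpa using w5⟩
      · exact ⟨(u.1, z.2), ⟨⟨u1, u2⟩, z3, z4⟩, by simpa using u5, by simpa using z5⟩
      · exact ⟨(v.1, w.2), ⟨⟨v1, v2⟩, w3, w4⟩, by simpa using v5, by simpa using w5⟩
      · exact ⟨(v.1, z.2), ⟨⟨v1, v2⟩, z3, z4⟩, by simpa using v5, by simpa using z5⟩
    obtain ⟨u, hu, e1, e2⟩ := h1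
    have h2 := hP u hu
    have h3 := hP' u (hs hu)
    rw [e1, e2] at h2 h3
    exact Bool.eq_iff_iff.2 (h2.symm.trans h3)
  have e : pat = pat' := by funext bx bz; exact key bx bz
  rw [e]
  exact hP'

/-- both lines cut the box -/
theorem cuts_fw {g : ℕ} (hg : g < 4) {a b : ℤ} (hX : (quadB x1 x2 z1 z2 p pat).Real (fe g p a))
    (hY : (quadB x1 x2 z1 z2 p pat).Real (we g p b)) : Cuts (Bx x1 x2 z1 z2) p := by
  have k1 : pl g p (a, 0) ∈ Bx x1 x2 z1 z2 := ((Quad.mem_A _).1 hX.1).1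
  have k2 : pl g p (a, -1) ∈ Bx x1 x2 z1 z2 := by
    have := hX.2.1
    rw [fe_face] at this
    exact this
  have k3 : pl g p (0, b) ∈ Bx x1 x2 z1 z2 := ((Quad.mem_A _).1 hY.1).1
  have k4 : pl g p (-1, b) ∈ Bx x1 x2 z1 z2 := by
    have := hY.2.1
    rw [we_face] at this
    exact this
  have h0 := fun x y => (pl_four p x y).1
  have h1 := fun x y => (pl_four p x y).2.1
  have h2 := fun x y => (pl_four p x y).2.2.1
  have h3 := fun x y => (pl_four p x y).2.2.2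
  interval_cases g
  · rw [h0] at k1 k2 k3 k4
    exact ⟨⟨⟨_, k4, by simp⟩, _, k3, by simp⟩, ⟨_, k2, by simp⟩, _, k1, by simp⟩
  · rw [h1] at k1 k2 k3 k4
    exact ⟨⟨⟨_, k1, by simp⟩, _, k2, by simp⟩, ⟨_, k4, by simp⟩, _, k3, by simp⟩
  · rw [h2] at k1 k2 k3 k4
    exact ⟨⟨⟨_, k3, by simp⟩, _, k4, by simp⟩, ⟨_, k1, by simp⟩, _, k2, by simp⟩
  · rw [h3] at k1 k2 k3 k4
    exact ⟨⟨⟨_, k2, by simp⟩, _, k1, by simp⟩, ⟨_, k3, by simp⟩, _, k4, by simp⟩

/-! ### identification of the pattern -/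

/-- the value of the pattern in a quadrant of the standard picture -/
def pq (g : ℕ) (p : ℤ × ℤ) (pat : Bool → Bool → Bool) (v : ℤ × ℤ) : Bool :=
  pat (decide (p.1 ≤ (pl g p v).1)) (decide (p.2 ≤ (pl g p v).2))

theorem pq_cl (g : ℕ) (v : ℤ × ℤ) : (quadB x1 x2 z1 z2 p pat).cl (pl g p v) = pq g p pat v := rfl

theorem pq_congr {g : ℕ} {v w : ℤ × ℤ} (h1 : 0 ≤ v.1 ↔ 0 ≤ w.1) (h2 : 0 ≤ v.2 ↔ 0 ≤ w.2) :
    pq g p pat v = pq g p pat w := by
  have h3 := qd_pl_eq (x1 := 0) (x2 := 0) (z1 := 0) (z2 := 0) (p := p) (pat := pat) (g := g) h1 h2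
  rw [← pq_cl (x1 := 0) (x2 := 0) (z1 := 0) (z2 := 0), ← pq_cl (x1 := 0) (x2 := 0) (z1 := 0)
    (z2 := 0), Quad.cl_qd, Quad.cl_qd, h3]

theorem quad_surj {g : ℕ} (hg : g < 4) (p : ℤ × ℤ) (bx bz : Bool) : ∃ b1 b2 : Bool,
    decide (p.1 ≤ (pl g p (rq b1 b2)).1) = bx ∧ decide (p.2 ≤ (pl g p (rq b1 b2)).2) = bz := by
  have h0 := fun x y => (pl_four p x y).1
  have h1 := fun x y => (pl_four p x y).2.1
  have h2 := fun x y => (pl_four p x y).2.2.1
  have h3 := fun x y => (pl_four p x y).2.2.2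
  interval_cases g
  · refine ⟨bx, bz, ?_, ?_⟩ <;> unfold rq <;> rw [h0] <;> cases bx <;> cases bz <;> simp
  · refine ⟨bz, !bx, ?_, ?_⟩ <;> unfold rq <;> rw [h1] <;> cases bx <;> cases bz <;> simp
  · refine ⟨!bx, !bz, ?_, ?_⟩ <;> unfold rq <;> rw [h2] <;> cases bx <;> cases bz <;> simp
  · refine ⟨!bz, bx, ?_, ?_⟩ <;> unfold rq <;> rw [h3] <;> cases bx <;> cases bz <;> simp

/-- a pattern is determined by its four standard quadrants -/
theorem pat_eq {g : ℕ} (hg : g < 4) {k : Kind}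
    (hq : ∀ b1 b2, pq g p pat (rq b1 b2) = true ↔ qd k (rq b1 b2)) : pat = patK k g := by
  funext bx bz
  obtain ⟨b1, b2, e1, e2⟩ := quad_surj hg p bx bz
  have h1 := hq b1 b2
  have h2 := patK_pl k g p (rq b1 b2)
  unfold pq at h1
  rw [e1, e2] at h1 h2
  exact Bool.eq_iff_iff.2 (h1.trans h2.symm)

theorem pq_opp {g : ℕ} (hg : g < 4) : pq g p pat (0, 0) =
    pat (!decide (p.1 ≤ (pl g p (-1, -1)).1)) (!decide (p.2 ≤ (pl g p (-1, -1)).2)) := by
  unfold pq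
  have h0 := fun x y => (pl_four p x y).1
  have h1 := fun x y => (pl_four p x y).2.1
  have h2 := fun x y => (pl_four p x y).2.2.1
  have h3 := fun x y => (pl_four p x y).2.2.2
  interval_cases g
  · rw [h0, h0]; simp
  · rw [h1, h1]; simp
  · rw [h2, h2]; simp
  · rw [h3, h3]; simp

/-- **the pattern of a reflex corner** -/
theorem pat_rf {g : ℕ} (hg : g < 4) {a b : ℤ} (ha : a < 0) (hb : b < 0)
    (hX : (quadB x1 x2 z1 z2 p pat).Real (we g p a)) (hY : (quadB x1 x2 z1 z2 p pat).Real (fe g p b))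
    (ht : (quadB x1 x2 z1 z2 p pat).Typ (we g p a) (fe g p b) (-1)) : pat = patK .rf g := by
  have c1 : pq g p pat (0, a) = true := ((Quad.real_iff _).1 hX).2.1
  have c2 := ((Quad.real_iff _).1 hX).2.2.2
  have c3 : pq g p pat (b, 0) = true := ((Quad.real_iff _).1 hY).2.1
  rw [we_face, pq_cl] at c2
  have c4 : pq g p pat (0, 0) = true := by
    rcases ht with ⟨h1, -⟩ | ⟨h1, -⟩ | ⟨-, -, -, h4⟩
    · omega
    · omega
    · rw [we_face, qd_pl_eq (v := (-1, a)) (w := (-1, -1)) Iff.rfl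
        ⟨fun hh => absurd hh (not_le.2 ha), fun hh => absurd hh (by norm_num)⟩] at h4
      rw [pq_opp hg]
      exact h4
  refine pat_eq (p := p) hg fun b1 b2 => ?_
  cases b1 <;> cases b2
  · have e : pq g p pat (rq false false) = false :=
      (pq_congr (v := (-1, -1)) (w := (-1, a)) Iff.rfl
        ⟨fun hh => absurd hh (by norm_num), fun hh => absurd hh (not_le.2 ha)⟩).trans c2
    rw [e]
    simp [rq, qd]
  · have e : pq g p pat (rq false true) = true :=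
      (pq_congr (v := (-1, 0)) (w := (b, 0))
        ⟨fun hh => absurd hh (by norm_num), fun hh => absurd hh (not_le.2 hb)⟩ Iff.rfl).trans c3
    rw [e]
    simp [rq, qd]
  · have e : pq g p pat (rq true false) = true :=
      (pq_congr (v := (0, -1)) (w := (0, a)) Iff.rfl
        ⟨fun hh => absurd hh (by norm_num), fun hh => absurd hh (not_le.2 ha)⟩).trans c1
    rw [e]
    simp [rq, qd]
  · have e : pq g p pat (rq true true) = true := c4
    rw [e]
    simp [rq, qd]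

/-- **the pattern of a convex corner** is `patK .cv g` or diagonal -/
theorem pat_cv {g : ℕ} (hg : g < 4) {a b : ℤ} (ha : 0 ≤ a) (hb : 0 ≤ b)
    (hX : (quadB x1 x2 z1 z2 p pat).Real (fe g p a))
    (hY : (quadB x1 x2 z1 z2 p pat).Real (we g p b))
    (hd : ¬ (pat true true = true ∧ pat false false = true ∧ pat true false = false ∧
      pat false true = false) ∧
    ¬ (pat true true = false ∧ pat false false = false ∧ pat true false = true ∧
      pat false true = true)) : pat = patK .cv g := by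
  have c1 : pq g p pat (a, 0) = true := ((Quad.real_iff _).1 hX).2.1
  have c2 := ((Quad.real_iff _).1 hX).2.2.2
  have c3 := ((Quad.real_iff _).1 hY).2.2.2
  rw [fe_face, pq_cl] at c2
  rw [we_face, pq_cl] at c3
  have d1 : pq g p pat (0, 0) = true := (pq_congr (v := (0, 0)) (w := (a, 0))
    ⟨fun _ => ha, fun _ => le_rfl⟩ Iff.rfl).trans c1
  have d2 : pq g p pat (0, -1) = false := (pq_congr (v := (0, -1)) (w := (a, -1))
    ⟨fun _ => ha, fun _ => le_rfl⟩ Iff.rfl).trans c2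
  have d3 : pq g p pat (-1, 0) = false := (pq_congr (v := (-1, 0)) (w := (-1, b)) Iff.rfl
    ⟨fun _ => hb, fun _ => le_rfl⟩).trans c3
  have d4 : pq g p pat (-1, -1) = false := by
    by_contra hcon
    rw [Bool.not_eq_false] at hcon
    unfold pq at d1 d2 d3 hcon
    have h0 := fun x y => (pl_four p x y).1
    have h1 := fun x y => (pl_four p x y).2.1
    have h2 := fun x y => (pl_four p x y).2.2.1
    have h3 := fun x y => (pl_four p x y).2.2.2
    interval_cases g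
    · simp only [h0] at d1 d2 d3 hcon
      simp at d1 d2 d3 hcon
      exact hd.1 ⟨d1, hcon, d2, d3⟩
    · simp only [h1] at d1 d2 d3 hcon
      simp at d1 d2 d3 hcon
      exact hd.2 ⟨d2, d3, hcon, d1⟩
    · simp only [h2] at d1 d2 d3 hcon
      simp at d1 d2 d3 hcon
      exact hd.1 ⟨hcon, d1, d3, d2⟩
    · simp only [h3] at d1 d2 d3 hcon
      simp at d1 d2 d3 hcon
      exact hd.2 ⟨d3, d2, d1, hcon⟩
  refine pat_eq (p := p) hg fun b1 b2 => ?_
  cases b1 <;> cases b2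
  · have e : pq g p pat (rq false false) = false := d4
    rw [e]; simp [rq, qd]
  · have e : pq g p pat (rq false true) = false := d3
    rw [e]; simp [rq, qd]
  · have e : pq g p pat (rq true false) = false := d2
    rw [e]; simp [rq, qd]
  · have e : pq g p pat (rq true true) = true := d1
    rw [e]; simp [rq, qd]

/-! ### the vertices where the copy is `true` -/

/-- the row of a horizontal end at `p` -/
theorem row_fw {g : ℕ} (hg : g < 4) (a b : ℤ) :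
    ((fe g p a).1.2 = p.2 ∨ (fe g p a).1.2 = p.2 - 1) ∨
      ((we g p b).1.2 = p.2 ∨ (we g p b).1.2 = p.2 - 1) := by
  have h0 := fun x y => (pl_four p x y).1
  have h1 := fun x y => (pl_four p x y).2.1
  have h2 := fun x y => (pl_four p x y).2.2.1
  have h3 := fun x y => (pl_four p x y).2.2.2
  unfold fe we
  interval_cases g
  · rw [h0, h0]; simp only; omega
  · rw [h1, h1]; simp only; omega
  · rw [h2, h2]; simp only; omega
  · rw [h3, h3]; simp only; omega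

/-- **vertices of the second copy** -/
theorem ver_true {L : ℤ} (hv : p ∈ A.Ver L i) {g : ℕ} (hg : g < 4) {a b : ℤ}
    (h1 : cpb h i (fe g p a) = false) (h2 : cpb h i (we g p b) = false) :
    i = 1 ∨ (i = 2 ∧ (p.1 = A.xl ∨ p.1 = A.xr + 1) ∧ p.2 = 2 * A.y0 - A.y1) := by
  fin_cases i
  · exact absurd h1 (by
      have : cpb h 0 (fe g p a) = true := rfl
      intro hh
      exact absurd (this.symm.trans hh) (by decide))
  · exact Or.inl rfl
  · right
    refine ⟨rfl, hv.1, ?_⟩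
    rcases hv.2 with h3 | h3
    · exfalso
      have h01 := A.h1
      have k : ∀ X : (ℤ × ℤ) × ZMod 4, cpb h 2 X = false → A.y0 ≤ X.1.2 := by
        intro X hX
        by_contra hcon
        have e : ((Half.chf h 2).emb X.1).2 = A.kk X.1.2 := rfl
        have e2 : cpb h 2 X = !(A.kk X.1.2) := rfl
        rw [e2, Half.kk_lt _ (not_le.1 hcon)] at hX
        exact absurd hX (by decide)
      have k1 := k _ h1
      have k2 := k _ h2
      have k3 := row_fw (p := p) hg a b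
      omega
    · exact h3
  · exact absurd hv id

/-- **the charges are constant across the reflex vertices of the second copy** -/
def RfC (h : A.Sz ρ) (L : ℤ) (C : Fin 4 → (ℤ × ℤ) × ZMod 4 → ℤ) : Prop :=
  ∀ i : Fin 4, ∀ p ∈ A.Ver L i, i = 1 ∨ (i = 2 ∧ p.2 = 2 * A.y0 - A.y1) → ∀ g < 4,
    Patt (Half.chf h i).R (Bv (5 * ρ) p) p (patK .rf g) → ∀ a b : ℤ,
      -((5 * ρ : ℕ) : ℤ) ≤ a → a < 0 → -((5 * ρ : ℕ) : ℤ) ≤ b → b < 0 →
        C i (we g p a) = C i (fe g p b)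

theorem hit_ps {T : Type*} {G : T × ZMod 4 → T × ZMod 4 → Prop} {C : Ka470.Ch T G} {s : T → Bool}
    {g : ℕ} {D Y : Set (St ℤ)} {c : St ℤ} :
    Hit (C.f s) (Nz399.ps g p '' D) (Nz399.ps g p '' Y) (Nz399.ps g p c) ↔
      Hit (nx6 (stdf C s g p)) D Y c := by
  unfold Hit
  simp only [Pt266.iter_ps, (ps_inj g p).mem_set_image]

/-- counted states in standard coordinates -/
theorem mem_cs_ps {C : Fin 4 → Ka470.Ch (TG × Bool) A.Gd} {k : Kind} {g n : ℕ} {c : St ℤ} :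
    Nz399.ps g p c ∈ (⟨i, k, g, p⟩ : Spot (Fin 4)).cs C n s ↔
      c ∈ Xk k n ∧ Hit (nx6 (stdf (C i) s g p)) (Dk k n) (Yk k) c := by
  rw [Spot.mem_cs]
  have h1 : Nz399.ps g p c ∈ (⟨i, k, g, p⟩ : Spot (Fin 4)).X n ↔ c ∈ Xk k n := by
    constructor
    · intro hc
      obtain ⟨c', h1, h2⟩ := Finset.mem_image.1 hc
      rwa [← ps_inj _ _ h2]
    · intro hc
      exact Finset.mem_image_of_mem _ hc
  rw [h1]
  exact and_congr_right fun _ => hit_ps

/-- **convex strands of the second copy are counted** -/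
theorem cv_counted {L a' b' c' : ℤ} (m : A.Mc L a' b' c') (h : A.Sz ρ) (h' : A.Sz' ρ L)
    {C : Fin 4 → (ℤ × ℤ) × ZMod 4 → ℤ} {X : Finset Sp} (hX : XOk h L C X)
    (hP : Patt (Half.chf h i).R (B5 ρ o) p pat) (hcut : Cuts (B5 ρ o) p → p ∈ A.Ver L i)
    {x y : (ℤ × ℤ) × ZMod 4} {k : List ((ℤ × ℤ) × ZMod 4)}
    (hx : (quadB (o.1 - ρ) (o.1 + 2 * ρ) (o.2 - ρ) (o.2 + 2 * ρ) p pat).Real x)
    (hy : (quadB (o.1 - ρ) (o.1 + 2 * ρ) (o.2 - ρ) (o.2 + 2 * ρ) p pat).Real y)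
    (hw : Pt266.Wk (s ∘ (Half.chf h i).emb)
      (RG (full (quadB (o.1 - ρ) (o.1 + 2 * ρ) (o.2 - ρ) (o.2 + 2 * ρ) p pat).A)) x y k)
    (ht : (quadB (o.1 - ρ) (o.1 + 2 * ρ) (o.2 - ρ) (o.2 + 2 * ρ) p pat).Typ x y 1)
    (hcx : cpb h i x = false) (hcy : cpb h i y = false) :
    ∃ g < 4, (⟨1, .cv, g, p⟩ : Sp) ∈ X ∧
      ∃ c0 ∈ (⟨1, .cv, g, p⟩ : Spot (Fin 4)).cs (Half.chf h) (3 * ρ) s,
        some (mp (Half.chf h i).emb x) = some ((Half.chf h 1).pe c0) := by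
  obtain ⟨g, hg, a, b, ha, hb, rfl, rfl⟩ : ∃ g < 4, ∃ a b : ℤ, 0 ≤ a ∧ 0 ≤ b ∧
      x = fe g p a ∧ y = we g p b := by
    rcases ht with ⟨h1, -⟩ | ⟨-, h2, h3⟩ | ⟨h1, -⟩
    · omega
    · exact typ_cv hx hy h2 h3
    · omega
  have hP3 : Patt (Half.chf h i).R (Bx (o.1 - ρ) (o.1 + 2 * ρ) (o.2 - ρ) (o.2 + 2 * ρ)) p pat :=
    hP.mono (B3_sub _ _)
  have hc3 : Cuts (B3 ρ o) p := cuts_fw hg hx hy
  have hc5 : Cuts (B5 ρ o) p := cuts_mono hc3 (B3_sub _ _)
  have hv := hcut hc5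
  obtain ⟨hgood, hbig⟩ := patt_big m h' hP hc5 hv
  rcases ver_true hv hg hcx hcy with rfl | ⟨rfl, hp1, hp2⟩
  · -- the mirrored planar chart
    have hpat : pat = patK .cv g := pat_cv hg ha hb hx hy (hX.nodg p hv pat hbig)
    subst hpat
    refine ⟨g, hg, hX.comp p hv g hg hbig, Nz399.ps g p ((a, 0), 0), ?_, ?_⟩
    · rw [mem_cs_ps]
      have hip := Pt266.ip_floor g p a
      rw [← hip] at hw
      have hA : (Nz399.ps g p ((a, 0), 0)).1 ∈
          (quadB (o.1 - ρ) (o.1 + 2 * ρ) (o.2 - ρ) (o.2 + 2 * ρ) p (patK .cv g)).A := by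
        have : (ip (Nz399.ps g p ((a, 0), 0))).1 ∈
          (quadB (o.1 - ρ) (o.1 + 2 * ρ) (o.2 - ρ) (o.2 + 2 * ρ) p (patK .cv g)).A := by
          rw [hip]; exact hx.1
        exact this
      obtain ⟨m0, hin, hop, -⟩ := Pt266.wk_iter (Half.chf_F h 1) hA hw
      refine Pt266.count_cv hP3 hg (fun j hj => ?_) hx ha hy hb hip hop.symm
      obtain ⟨h1, h2⟩ := (Pt266.mem_quadB hP3).1 (hin j hj)
      exact ⟨h1, h2, B3_Bv hc3 h2⟩
    · rw [Pt266.pe_ip (Half.chf_F h 1), Pt266.ip_floor]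
  · -- the mouth corners are reflex
    exfalso
    have c2 := ((Quad.real_iff _).1 hx).2.2.2
    have c3 := ((Quad.real_iff _).1 hy).2.2.2
    rw [fe_face, pq_cl] at c2
    rw [we_face, pq_cl] at c3
    have hrf : pat = patK .rf 3 ∨ pat = patK .rf 2 := by
      have hpe : ∀ pat' : Bool → Bool → Bool, Patt (Half.chf h 2).R (Bv (5 * ρ) p) p pat' →
          pat = pat' := by
        intro pat' hP'
        have hρ : (1 : ℤ) ≤ ρ := by exact_mod_cast h.pos
        have key : ∀ g' < 4, ∀ v : ℤ × ℤ, (-1 ≤ v.1 ∧ v.1 ≤ 0) → (-1 ≤ v.2 ∧ v.2 ≤ 0) →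
            pl g' p v ∈ Bv (5 * ρ) p := by
          intro g' _ v hv1 hv2
          exact pl_Bv g' p (by push_cast; omega)
        funext bx bz
        obtain ⟨b1, b2, e1, e2⟩ := quad_surj (g := 0) (by omega) p bx bz
        have h1 := key 0 (by omega) (rq b1 b2)
          (by unfold rq; cases b1 <;> simp) (by unfold rq; cases b2 <;> simp)
        have h2 := hbig _ h1
        have h3 := hP' _ h1
        rw [e1, e2] at h2 h3
        exact Bool.eq_iff_iff.2 (h2.symm.trans h3)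
      obtain ⟨px, py⟩ := p
      simp only at hp1 hp2
      rcases hp1 with rfl | rfl
      · left
        subst hp2
        exact hpe _ (mouth_l m h h').2
      · right
        subst hp2
        exact hpe _ (mouth_r m h h').2
    rcases hrf with rfl | rfl
    · unfold pq at c2 c3
      rw [patK_rf3] at c2 c3
      simp only [Bool.or_eq_false_iff, decide_eq_false_iff_not, Bool.not_eq_false',
        decide_eq_true_eq] at c2 c3
      have h0 := fun x y => (pl_four p x y).1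
      have h1 := fun x y => (pl_four p x y).2.1
      have h2 := fun x y => (pl_four p x y).2.2.1
      have h3 := fun x y => (pl_four p x y).2.2.2
      interval_cases g
      · rw [h0] at c2 c3; simp only at c2 c3; omega
      · rw [h1] at c2 c3; simp only at c2 c3; omega
      · rw [h2] at c2 c3; simp only at c2 c3; omega
      · rw [h3] at c2 c3; simp only at c2 c3; omega
    · unfold pq at c2 c3
      rw [patK_rf2] at c2 c3
      simp only [Bool.or_eq_false_iff, Bool.not_eq_false', decide_eq_true_eq] at c2 c3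
      have h0 := fun x y => (pl_four p x y).1
      have h1 := fun x y => (pl_four p x y).2.1
      have h2 := fun x y => (pl_four p x y).2.2.1
      have h3 := fun x y => (pl_four p x y).2.2.2
      interval_cases g
      · rw [h0] at c2 c3; simp only at c2 c3; omega
      · rw [h1] at c2 c3; simp only at c2 c3; omega
      · rw [h2] at c2 c3; simp only at c2 c3; omega
      · rw [h3] at c2 c3; simp only at c2 c3; omega

/-- **the charges are constant along a reflex strand of the second copy** -/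
theorem rf_const {L a' b' c' : ℤ} (m : A.Mc L a' b' c') (h : A.Sz ρ) (h' : A.Sz' ρ L)
    {C : Fin 4 → (ℤ × ℤ) × ZMod 4 → ℤ} (hC : RfC h L C)
    (hP : Patt (Half.chf h i).R (B5 ρ o) p pat) (hcut : Cuts (B5 ρ o) p → p ∈ A.Ver L i)
    {x y : (ℤ × ℤ) × ZMod 4}
    (hx : (quadB (o.1 - ρ) (o.1 + 2 * ρ) (o.2 - ρ) (o.2 + 2 * ρ) p pat).Real x)
    (hy : (quadB (o.1 - ρ) (o.1 + 2 * ρ) (o.2 - ρ) (o.2 + 2 * ρ) p pat).Real y)
    (ht : (quadB (o.1 - ρ) (o.1 + 2 * ρ) (o.2 - ρ) (o.2 + 2 * ρ) p pat).Typ x y (-1))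
    (hcx : cpb h i x = false) (hcy : cpb h i y = false) : C i x = C i y := by
  obtain ⟨g, hg, a, b, ha, hb, rfl, rfl⟩ : ∃ g < 4, ∃ a b : ℤ, a < 0 ∧ b < 0 ∧
      x = we g p a ∧ y = fe g p b := by
    rcases ht with ⟨h1, -⟩ | ⟨h1, -⟩ | ⟨-, h2, h3, -⟩
    · omega
    · omega
    · exact typ_rf hx hy h2 h3
  have hc3 : Cuts (B3 ρ o) p := cuts_fw hg hy hx
  have hc5 : Cuts (B5 ρ o) p := cuts_mono hc3 (B3_sub _ _)
  have hv := hcut hc5
  obtain ⟨hgood, hbig⟩ := patt_big m h' hP hc5 hv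
  have hpat : pat = patK .rf g := pat_rf hg ha hb hx hy ht
  subst hpat
  have b1 : (fe g p b).1 ∈ Bv (5 * ρ) p := B5_Bv hc5 (B3_sub _ _ ((Quad.mem_A _).1 hy.1).1)
  have b2 : (we g p a).1 ∈ Bv (5 * ρ) p := B5_Bv hc5 (B3_sub _ _ ((Quad.mem_A _).1 hx.1).1)
  have e1 := Pt266.bv_pl hg b1
  have e2 := Pt266.bv_pl hg b2
  refine hC i p hv ?_ g hg hbig a b e2.2.1 ha e1.1.1 hb
  rcases ver_true hv hg hcy hcx with h1 | ⟨h1, -, h2⟩
  · exact Or.inl h1
  · exact Or.inr ⟨h1, h2⟩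

end

end Crest.Agent.R158.Ne808
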