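import Crest.Agent.R158.Lr13_874
import Crest.Agent.R158.Ne7_808

/-!
# R158, block Q1d, leaf LR (helper874), part 14: the charges are constant across the corners

* `VC h L C` : the charges `C` are constant across the convex and the reflex corners
* **`vc_low`**, **`vc_up`** : for the charges of the family
-/

set_option autoImplicit false

namespace Crest.Agent.R158.Lr874

open Crest.Agent.R158.Sw300 (Port)
open Crest.Agent.R158.Env664 (TG Mac D Band)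
open Crest.Agent.R158.Ka470
open Crest.Agent.R158.Ka470.Half
open Crest.Agent.R158.Lr158
open Crest.Agent.R158.Nz399 (Kind patK fe we)
open Crest.Agent.R158.Rf896 (rA rB rz rp rt)
open Crest.Agent.R158.Fm857 (cp clow)

/-- **the charges are constant across the corners** -/
structure VC {A : Half} {ρ : ℕ} (h : A.Sz ρ) (L : ℤ) (C : Fin 4 → (ℤ × ℤ) × ZMod 4 → ℤ) : Prop where
  cv : ∀ i : Fin 4, ∀ p ∈ A.Ver L i, ∀ g : ℕ,
    Patt (chf h i).R (Bv (5 * ρ) p) p (patK .cv g) → ∀ a b : ℤ, 0 ≤ a → a < ((5 * ρ : ℕ) : ℤ) →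
      0 ≤ b → b < ((5 * ρ : ℕ) : ℤ) → C i (fe g p a) = C i (we g p b)
  rf : ∀ i : Fin 4, ∀ p ∈ A.Ver L i, ∀ g : ℕ,
    Patt (chf h i).R (Bv (5 * ρ) p) p (patK .rf g) → ∀ a b : ℤ, -((5 * ρ : ℕ) : ℤ) ≤ a → a < 0 →
      -((5 * ρ : ℕ) : ℤ) ≤ b → b < 0 → C i (we g p a) = C i (fe g p b)

theorem VC.rfc {A : Half} {ρ : ℕ} {h : A.Sz ρ} {L : ℤ} {C : Fin 4 → (ℤ × ℤ) × ZMod 4 → ℤ}
    (H : VC h L C) : Ne808.RfC h L C :=
  fun i p hp _ g _ hP a b h1 h2 h3 h4 => H.rf i p hp g hP a b h1 h2 h3 h4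

theorem vc_of {A : Half} {ρ : ℕ} {h : A.Sz ρ} {L a b c : ℤ} (m : A.Mc L a b c) (h' : A.Sz' ρ L)
    {cc : TG × ZMod 4 → ℤ} {cl : ℤ} {J : TG × ZMod 4 → TG × ZMod 4 → ℤ} (H : ChH A cc cl J)
    (hJ : ∀ i : Fin 4, ∀ p ∈ A.Ver L i, A.Good ρ i (Bv (5 * ρ) p) → NoJ J h i (Bv (5 * ρ) p)) :
    VC h L (Cg cc cl h) where
  cv i p hp _ hP _ _ h1 h2 h3 h4 :=
    chg_cv H (vert m h h' hp).1 hP (hJ i p hp (vert m h h' hp).1) h1 h2 h3 h4
  rf i p hp _ hP _ _ h1 h2 h3 h4 :=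
    chg_rf H (vert m h h' hp).1 hP (hJ i p hp (vert m h h' hp).1) h1 h2 h3 h4

variable {M : Mac} {L a b c : ℤ} {B : Band (D M.F L)}

/-- **lower half** -/
theorem vc_low (m : MB M L a b c B) {y0 : ℤ} (h1 : B.y1 < y0) (h2 : y0 ≤ B.y2) {ρ : ℕ}
    (h : (lowHalf (lb_low m h1 h2).d).Sz ρ) (h' : (lowHalf (lb_low m h1 h2).d).Sz' ρ L) {b' : ℤ}
    (hb1 : 0 < b') (hb2 : b' < B.R) {m1 m2 : Port TG} {e : Option (Port TG)}
    (hm : Mks B m1 m2 e) (hN : NotN B L (5 * ρ : ℕ) m1 m2 e) :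
    VC h L (Cg (fun q => cp B b' m1 m2 e (some q)) (clow B b' m1 m2 e) h) :=
  vc_of (lowHalf_mc (lb_low m h1 h2).d) h' (chH_low m h1 h2 hb1 hb2 hm)
    fun _ _ hp hB => noJ_ver_low m h1 h2 hN hp hB

/-- **reflected upper half** -/
theorem vc_up (m : MB M L a b c B) {y0 : ℤ} (h1 : -B.y2 < y0) (h2 : y0 ≤ -B.y1) {ρ : ℕ}
    (h : (lowHalf (lb_up m h1 h2).d).Sz ρ) (h' : (lowHalf (lb_up m h1 h2).d).Sz' ρ L) {b' : ℤ}
    (hb1 : ((5 * ρ : ℕ) : ℤ) ≤ b') (hb2 : b' < B.R + 1 - (5 * ρ : ℕ)) {m1 m2 : Port TG}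
    {e : Option (Port TG)} (hm : Mks B m1 m2 e) (hN : NotN B L ((5 * ρ : ℕ) + 1) m1 m2 e) :
    VC h L (Cg (ccU B b' m1 m2 e) (-(clow B b' m1 m2 e + 1)) h) := by
  have hρ := h.pos
  push_cast at hb1 hb2
  exact vc_of (lowHalf_mc (lb_up m h1 h2).d) h'
    (chH_up m h1 h2 (by omega) (by omega) hm)
    fun _ _ hp hB => noJ_ver_up m h1 h2 (by push_cast; exact hb1) (by push_cast; exact hb2) hN hp hB

end Crest.Agent.R158.Lr874
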