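import Crest.Agent.R158.Ka10_470
import Crest.Agent.R158.Fm3_857
import Crest.Agent.R158.Mg2_949

/-!
# Row 158 (helper857): the numbers of the slice for the norm bound

* `Nums P a b c L δ B ρ κ yl yu p z0 a1 b1` : the scales of the two halves of the ring at the crosscuts
  `yl`, `yu`
* `nums` : for `0 < h`, `0 < δ ≤ h / 100`, band `OnB`, `ρ = ⌊(δ / 2000) L⌋₊`, `yl = ⌊(y - 2 h) L⌋`,
  `yu = ⌊(y + 2 h) L⌋`, `z0 = ⌊y L⌋`, `p = xr`
-/

set_option autoImplicit false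

namespace Crest.Agent.R158.Nn857

open Crest.Agent.R158.Ka470
open Crest.Agent.R158.Fm857 (DelP)
open Crest.Agent.R158.Env664 (TG Mac D mem_D Run Band)
open Crest.Agent.R158.Tj656 (P4)
open Crest.Agent.R158.Mg949 (mac)
open Crest.Agent.R158.Cs410 (InHalf OnB)
open Crest.Agent.R158.Rf896 (rA rB)

/-- **numbers of the two halves of the ring** -/
structure Nums (P : P4) (a b c L : ℤ) (δ : ℝ) (B : Band (D P.F L)) (ρ κ : ℕ)
    (yl yu p z0 : ℤ) (a1 b1 : ℕ) : Prop where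
  hL : 0 < L
  mb : MB (mac P) L a b c B
  ρ1 : 1 ≤ ρ
  ha : (a1 : ℤ) + 1 = yl - B.y1
  hb : (b1 : ℤ) + 1 = B.y2 - yu
  l1 : B.y1 < yl
  l2 : yl ≤ B.y2
  u1 : -B.y2 < -yu
  u2 : -yu ≤ -B.y1
  hz : B.At p z0
  hl : yl ≤ z0
  hzR : (rB B).At p (-z0)
  hu : -yu ≤ -z0
  szl : (lowHalf (lb_low mb l1 l2).d).Sz ρ ∧ (lowHalf (lb_low mb l1 l2).d).Sz' ρ L
  szu : (lowHalf (lb_up mb u1 u2).d).Sz ρ ∧ (lowHalf (lb_up mb u1 u2).d).Sz' ρ L
  bdl : (lowHalf (lb_low mb l1 l2).d).Bd ρ κ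
  bdu : (lowHalf (lb_up mb u1 u2).d).Bd ρ κ
  y5l : 64 * (ρ : ℤ) ≤ yl - B.y1
  y5u : 64 * (ρ : ℤ) ≤ B.y2 - yu
  R64 : B.R = L
  L64 : 64 * (ρ : ℤ) ≤ L
  D64 : 64 * (ρ : ℤ) + 64 ≤ DelP L δ
  Dle : 64 * DelP L δ ≤ L
  Dy : 16 * DelP L δ ≤ yl - B.y1
  Dyu : 16 * DelP L δ ≤ B.y2 - yu
  c1 : 64 * (ρ : ℤ) ≤ B.y1 - c * L
  c2 : 64 * (ρ : ℤ) ≤ c * L + L - B.y2
  half : B.y2 + 64 * (ρ : ℤ) ≤ c * L + L / 2 ∨ c * L + L / 2 + 64 * (ρ : ℤ) ≤ B.y1
  k1 : L ≤ κ * (3 * (ρ : ℤ))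
  k2 : 3 * (ρ : ℤ) ≤ L

/-- **the numbers** -/
theorem nums {P : P4} {a b r : ℤ} (hrun : Run P.F a b r) {h y δ : ℝ} (_hh : 0 < h) (hδ : 0 < δ)
    (hδh : δ ≤ h / 100) (hy : InHalf r (y - 4 * h) (y + 4 * h)) :
    ∃ (κ : ℕ) (L0 : ℤ), 1 ≤ κ ∧ 1 ≤ L0 ∧ ∀ L : ℤ, L0 ≤ L → ∀ B : Band (D P.F L),
      OnB a b L h y B → ∃ a1 b1 : ℕ,
        Nums P a b r L δ B ⌊δ / 2000 * L⌋₊ κ ⌊(y - 2 * h) * L⌋ ⌊(y + 2 * h) * L⌋ B.xr ⌊y * L⌋
          a1 b1 := by
  have hr1 : (r : ℝ) < y - 4 * h := by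
    rcases hy with ⟨h1, -⟩ | ⟨h1, -⟩ <;> linarith
  have hr2 : y + 4 * h < (r : ℝ) + 1 := by
    rcases hy with ⟨-, h1⟩ | ⟨-, h1⟩ <;> linarith
  have hh8 : 8 * h < 1 := by linarith
  obtain ⟨K, X0, Y0, hK, hF⟩ := exists_boxF P.F
  set q : ℝ := δ / 2000 with hq
  have hq0 : 0 < q := by positivity
  set κ : ℕ := ⌈2 * ((K : ℝ) + 2) / q⌉₊ + 1 with hκ
  have hκr : 2 * ((K : ℝ) + 2) / q ≤ κ := by
    have := Nat.le_ceil (2 * ((K : ℝ) + 2) / q)
    rw [hκ]; push_cast; linarith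
  have hKr : (0 : ℝ) ≤ K := by exact_mod_cast hK
  refine ⟨κ, ⌈(1000000 : ℝ) / q⌉ + 1, by omega, ?_, fun L hL B hB => ?_⟩
  · have : (0 : ℝ) ≤ 1000000 / q := by positivity
    have := Int.ceil_nonneg this
    omega
  have hLr : (1000000 : ℝ) / q + 1 ≤ L := by
    have h1 := Int.le_ceil ((1000000 : ℝ) / q)
    have h2 : ((⌈(1000000 : ℝ) / q⌉ + 1 : ℤ) : ℝ) ≤ L := by exact_mod_cast hL
    push_cast at h2
    linarith
  have hqL : 1000000 ≤ q * L := by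
    have h1 : 1000000 / q ≤ L := by linarith
    rw [div_le_iff₀ hq0] at h1
    linarith
  have hL0r : (0 : ℝ) < L := by
    have : 0 < 1000000 / q := by positivity
    linarith
  have hL0 : 0 < L := by exact_mod_cast hL0r
  have hδq : δ = 2000 * q := by rw [hq]; ring
  have hhq : 200000 * q ≤ h := by linarith
  -- the real bounds
  set ρ : ℕ := ⌊q * L⌋₊ with hρ
  have ρa : (ρ : ℝ) ≤ q * L := Nat.floor_le (by positivity)
  have ρb : q * L < ρ + 1 := Nat.lt_floor_add_one _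
  have ρ1 : (999999 : ℝ) ≤ ρ := by linarith
  have ρ2 : q * L ≤ 2 * ρ := by linarith
  have e1 : (B.y1 : ℝ) ≤ (y - 3 * h) * L := by rw [hB.y1]; exact Int.floor_le _
  have e2 : (y - 3 * h) * L < B.y1 + 1 := by rw [hB.y1]; exact Int.lt_floor_add_one _
  have e3 : (B.y2 : ℝ) ≤ (y + 3 * h) * L := by rw [hB.y2]; exact Int.floor_le _
  have e4 : (y + 3 * h) * L < B.y2 + 1 := by rw [hB.y2]; exact Int.lt_floor_add_one _
  set yl : ℤ := ⌊(y - 2 * h) * L⌋ with hyl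
  set yu : ℤ := ⌊(y + 2 * h) * L⌋ with hyu
  set z0 : ℤ := ⌊y * L⌋ with hz0
  have e5 : (yl : ℝ) ≤ (y - 2 * h) * L := Int.floor_le _
  have e6 : (y - 2 * h) * L < yl + 1 := Int.lt_floor_add_one _
  have e7 : (yu : ℝ) ≤ (y + 2 * h) * L := Int.floor_le _
  have e8 : (y + 2 * h) * L < yu + 1 := Int.lt_floor_add_one _
  have e9 : (z0 : ℝ) ≤ y * L := Int.floor_le _
  have e10 : y * L < z0 + 1 := Int.lt_floor_add_one _
  have f1 : (DelP L δ : ℝ) < δ * L + 1 := Int.ceil_lt_add_one _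
  have f2 : δ * L ≤ DelP L δ := Int.le_ceil _
  clear_value ρ yl yu z0 κ
  have f3 : δ * L = 2000 * (q * L) := by rw [hδq]; ring
  have hhL : 200000 * (q * L) ≤ h * L := by
    have := mul_le_mul_of_nonneg_right hhq hL0r.le
    linarith
  have hhL1 : 8 * (h * L) < L := by
    have := mul_lt_mul_of_pos_right hh8 hL0r
    linarith
  have g1 : (y - 3 * h) * L = y * L - 3 * (h * L) := by ring
  have g2 : (y + 3 * h) * L = y * L + 3 * (h * L) := by ring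
  have g3 : (y - 2 * h) * L = y * L - 2 * (h * L) := by ring
  have g4 : (y + 2 * h) * L = y * L + 2 * (h * L) := by ring
  rw [g1] at e1 e2
  rw [g2] at e3 e4
  rw [g3] at e5 e6
  rw [g4] at e7 e8
  have r1 : (r : ℝ) * L + 4 * (h * L) < y * L := by
    have := mul_lt_mul_of_pos_right hr1 hL0r
    linarith
  have r2 : y * L + 4 * (h * L) < r * L + L := by
    have := mul_lt_mul_of_pos_right hr2 hL0r
    linarith
  have hKL0 : (0 : ℝ) ≤ (K : ℝ) * L := mul_nonneg hKr hL0r.le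
  -- integer versions
  have i1 : 64 * (ρ : ℤ) ≤ yl - B.y1 := by
    have : ((64 * (ρ : ℤ) : ℤ) : ℝ) ≤ ((yl - B.y1 : ℤ) : ℝ) := by push_cast; linarith
    exact_mod_cast this
  have i2 : 64 * (ρ : ℤ) ≤ B.y2 - yu := by
    have : ((64 * (ρ : ℤ) : ℤ) : ℝ) ≤ ((B.y2 - yu : ℤ) : ℝ) := by push_cast; linarith
    exact_mod_cast this
  have i3 : 64 * (ρ : ℤ) ≤ L := by
    have : ((64 * (ρ : ℤ) : ℤ) : ℝ) ≤ ((L : ℤ) : ℝ) := by push_cast; linarith
    exact_mod_cast this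
  have i4 : 64 * (ρ : ℤ) + 64 ≤ DelP L δ := by
    have : ((64 * (ρ : ℤ) + 64 : ℤ) : ℝ) ≤ ((DelP L δ : ℤ) : ℝ) := by push_cast; linarith
    exact_mod_cast this
  have i5 : 64 * DelP L δ ≤ L := by
    have : ((64 * DelP L δ : ℤ) : ℝ) ≤ ((L : ℤ) : ℝ) := by push_cast; linarith
    exact_mod_cast this
  have i6 : 16 * DelP L δ ≤ yl - B.y1 := by
    have : ((16 * DelP L δ : ℤ) : ℝ) ≤ ((yl - B.y1 : ℤ) : ℝ) := by push_cast; linarith
    exact_mod_cast this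
  have i7 : 16 * DelP L δ ≤ B.y2 - yu := by
    have : ((16 * DelP L δ : ℤ) : ℝ) ≤ ((B.y2 - yu : ℤ) : ℝ) := by push_cast; linarith
    exact_mod_cast this
  have i8 : 64 * (ρ : ℤ) ≤ B.y1 - r * L := by
    have : ((64 * (ρ : ℤ) : ℤ) : ℝ) ≤ ((B.y1 - r * L : ℤ) : ℝ) := by push_cast; linarith
    exact_mod_cast this
  have i9 : 64 * (ρ : ℤ) ≤ r * L + L - B.y2 := by
    have : ((64 * (ρ : ℤ) : ℤ) : ℝ) ≤ ((r * L + L - B.y2 : ℤ) : ℝ) := by push_cast; linarith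
    exact_mod_cast this
  have ih : B.y2 + 64 * (ρ : ℤ) ≤ r * L + L / 2 ∨ r * L + L / 2 + 64 * (ρ : ℤ) ≤ B.y1 := by
    rcases hy with ⟨-, hy⟩ | ⟨hy, -⟩
    · left
      have r3 := mul_lt_mul_of_pos_right hy hL0r
      have : ((2 * B.y2 + 128 * (ρ : ℤ) : ℤ) : ℝ) ≤ ((2 * (r * L) + L - 1 : ℤ) : ℝ) := by
        push_cast; linarith
      have : 2 * B.y2 + 128 * (ρ : ℤ) ≤ 2 * (r * L) + L - 1 := by exact_mod_cast this
      omega
    · right
      have r3 := mul_lt_mul_of_pos_right hy hL0r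
      have : ((2 * (r * L) + L + 128 * (ρ : ℤ) : ℤ) : ℝ) ≤ ((2 * B.y1 : ℤ) : ℝ) := by
        push_cast; linarith
      have : 2 * (r * L) + L + 128 * (ρ : ℤ) ≤ 2 * B.y1 := by exact_mod_cast this
      omega
  have i10 : yl ≤ z0 := by
    have : ((yl : ℤ) : ℝ) < ((z0 + 1 : ℤ) : ℝ) := by push_cast; linarith
    have : yl < z0 + 1 := by exact_mod_cast this
    omega
  have i11 : z0 ≤ yu := by
    have : ((z0 : ℤ) : ℝ) < ((yu + 1 : ℤ) : ℝ) := by push_cast; linarith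
    have : z0 < yu + 1 := by exact_mod_cast this
    omega
  have i12 : (1 : ℤ) ≤ ρ := by
    have : (1 : ℝ) ≤ ρ := by linarith
    exact_mod_cast this
  have i13 : L ≤ κ * (ρ : ℤ) := by
    have h1 : ((K : ℝ) + 2) * L ≤ κ * ρ := by
      rw [div_le_iff₀ hq0] at hκr
      have h2 : 2 * ((K : ℝ) + 2) * L ≤ κ * q * L := mul_le_mul_of_nonneg_right hκr hL0r.le
      have h3 : (κ : ℝ) * q * L ≤ κ * (2 * ρ) := by
        rw [mul_assoc]
        exact mul_le_mul_of_nonneg_left ρ2 (Nat.cast_nonneg _)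
      linarith
    have : ((L : ℤ) : ℝ) ≤ ((κ * (ρ : ℤ) : ℤ) : ℝ) := by push_cast; linarith
    exact_mod_cast this
  have i14 : (K + 1) * L + 1 ≤ κ * (ρ : ℤ) := by
    have h1 : ((K : ℝ) + 2) * L ≤ κ * ρ := by
      rw [div_le_iff₀ hq0] at hκr
      have h2 : 2 * ((K : ℝ) + 2) * L ≤ κ * q * L := mul_le_mul_of_nonneg_right hκr hL0r.le
      have h3 : (κ : ℝ) * q * L ≤ κ * (2 * ρ) := by
        rw [mul_assoc]
        exact mul_le_mul_of_nonneg_left ρ2 (Nat.cast_nonneg _)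
      linarith
    have hL1 : (1 : ℝ) ≤ L := by exact_mod_cast hL0
    have : (((K + 1) * L + 1 : ℤ) : ℝ) ≤ ((κ * (ρ : ℤ) : ℤ) : ℝ) := by push_cast; linarith
    exact_mod_cast this
  have hρ0 : 1 ≤ ρ := by exact_mod_cast i12
  have hab := hrun.le
  have habL : a * L ≤ b * L := mul_le_mul_of_nonneg_right hab hL0.le
  have mb : MB (mac P) L a b r B := ⟨hL0, hrun, hB.xl, hB.xr, by omega, by omega, by omega⟩
  have l1 : B.y1 < yl := by omega
  have l2 : yl ≤ B.y2 := by omega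
  have u1 : -B.y2 < -yu := by omega
  have u2 : -yu ≤ -B.y1 := by omega
  have hR := hB.R
  have hKL : 0 ≤ K * L := mul_nonneg hK hL0.le
  refine ⟨(yl - B.y1 - 1).toNat, (B.y2 - yu - 1).toNat, ?_⟩
  exact
    { hL := hL0
      mb := mb
      ρ1 := hρ0
      ha := by omega
      hb := by omega
      l1 := l1
      l2 := l2
      u1 := u1
      u2 := u2
      hz := ⟨by omega, by omega, by rw [hB.xl, hB.xr]; omega, le_rfl⟩
      hl := i10
      hzR := ⟨by show -B.y2 < -z0; omega, by show -z0 < -B.y1; omega, by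
        show B.xl < B.xr
        rw [hB.xl, hB.xr]; omega, le_rfl⟩
      hu := by omega
      szl := sz_low mb l1 l2 hρ0 (by omega) (by omega) (by omega) (by omega)
      szu := sz_up mb u1 u2 hρ0 (by omega) (by omega) (by omega) (by omega)
      bdl := bd_low mb l1 l2 hF (by linarith) (by linarith)
      bdu := bd_up mb u1 u2 hF (by linarith) (by linarith)
      y5l := i1
      y5u := i2
      R64 := hR
      L64 := i3
      D64 := i4
      Dle := i5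
      Dy := i6
      Dyu := i7
      c1 := i8
      c2 := i9
      half := ih
      k1 := by
        have h0 : (0 : ℤ) ≤ κ * (ρ : ℤ) := by positivity
        calc L ≤ κ * (ρ : ℤ) := i13
          _ ≤ 3 * (κ * (ρ : ℤ)) := by omega
          _ = κ * (3 * (ρ : ℤ)) := by ring
      k2 := by omega }

end Crest.Agent.R158.Nn857
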