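import Crest.Agent.R158.Lr14_874
import Crest.Agent.R158.Ka12_470
import Crest.Agent.R158.Nn2_857

/-!
# R158, block Q1d, leaf LR (helper874), part 15: the corner facts for the literal family

* **`vc_nums_low`**, **`vc_nums_up`** : `VC` for the charges of helper857's family, from `Nums`
* `cvc`, `rfc'` : in helper470's form
-/

set_option autoImplicit false

namespace Crest.Agent.R158.Lr874

open Crest.Agent.R158.Sw300 (Port)
open Crest.Agent.R158.Env664 (TG Mac D Band)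
open Crest.Agent.R158.Ka470
open Crest.Agent.R158.Ka470.Half
open Crest.Agent.R158.Lr158
open Crest.Agent.R158.Nz399 (Kind patK fe we)
open Crest.Agent.R158.Rf896 (rA rB rz rp rt)
open Crest.Agent.R158.Tj656 (P4)
open Crest.Agent.R158.Nn857 (Nums)
open Crest.Agent.R158.Fm857 (cp clow JP DelP mkG)

theorem VC.cvc {A : Half} {ρ : ℕ} {h : A.Sz ρ} {L : ℤ} {C : Fin 4 → (ℤ × ℤ) × ZMod 4 → ℤ}
    (H : VC h L C) : CvC h L C :=
  fun p hp g _ hP a b h1 h2 h3 h4 => H.cv 1 p hp g hP a b h1 h2 h3 h4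

theorem VC.rfc' {A : Half} {ρ : ℕ} {h : A.Sz ρ} {L : ℤ} {C : Fin 4 → (ℤ × ℤ) × ZMod 4 → ℤ}
    (H : VC h L C) : RfC' h L C :=
  fun i p hp _ g _ hP a b h1 h2 h3 h4 => H.rf i p hp g hP a b h1 h2 h3 h4

variable {P : P4} {a b c L : ℤ} {δ : ℝ} {B : Band (D P.F L)} {ρ κ : ℕ} {yl yu p z0 : ℤ} {a1 b1 : ℕ}

theorem numV (N : Nums P a b c L δ B ρ κ yl yu p z0 a1 b1) {n : ℤ} (h0 : 0 ≤ n)
    (hn : n ≤ 5 * (ρ : ℤ) + 1) : NumV B L c n := by
  have g1 : (1 : ℤ) ≤ ρ := by exact_mod_cast N.ρ1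
  have g2 := N.L64
  have g3 := N.c1
  have g4 := N.c2
  have g5 := N.half
  have g6 := N.mb.hy
  exact ⟨h0, by omega, by omega, by omega, by omega, by omega⟩

theorem notN_nums (N : Nums P a b c L δ B ρ κ yl yu p z0 a1 b1) {n : ℤ} (h0 : 0 ≤ n)
    (hn : n ≤ 5 * (ρ : ℤ) + 1) {e : Option (Port TG)} (he : e ∈ Finset.insertNone (JP P L δ B)) :
    NotN B L n (mkG P L 0) (mkG P L 1) e := by
  have g1 : (1 : ℤ) ≤ ρ := by exact_mod_cast N.ρ1
  have g2 := N.D64
  exact notN_JP (numV N h0 hn) N.R64 (by omega) he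

/-- **lower half** -/
theorem vc_nums_low (N : Nums P a b c L δ B ρ κ yl yu p z0 a1 b1) {e : Option (Port TG)}
    (hm : Mks B (mkG P L 0) (mkG P L 1) e) (he : e ∈ Finset.insertNone (JP P L δ B)) :
    VC N.szl.1 L (Cg (fun q => cp B (L / 2) (mkG P L 0) (mkG P L 1) e (some q))
      (clow B (L / 2) (mkG P L 0) (mkG P L 1) e) N.szl.1) := by
  have g1 : (1 : ℤ) ≤ ρ := by exact_mod_cast N.ρ1
  have g2 := N.L64
  have g3 := N.R64
  exact vc_low N.mb N.l1 N.l2 N.szl.1 N.szl.2 (by omega) (by omega) hm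
    (notN_nums N (by omega) (by push_cast; omega) he)

/-- **reflected upper half** -/
theorem vc_nums_up (N : Nums P a b c L δ B ρ κ yl yu p z0 a1 b1) {e : Option (Port TG)}
    (hm : Mks B (mkG P L 0) (mkG P L 1) e) (he : e ∈ Finset.insertNone (JP P L δ B)) :
    VC N.szu.1 L (Cg (ccU (M := Mg949.mac P) B (L / 2) (mkG P L 0) (mkG P L 1) e)
      (-(clow B (L / 2) (mkG P L 0) (mkG P L 1) e + 1)) N.szu.1) := by
  have g1 : (1 : ℤ) ≤ ρ := by exact_mod_cast N.ρ1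
  have g2 := N.L64
  have g3 := N.R64
  exact vc_up N.mb N.u1 N.u2 N.szu.1 N.szu.2 (by push_cast; omega) (by push_cast; omega) hm
    (notN_nums N (by omega) (by push_cast; omega) he)

end Crest.Agent.R158.Lr874
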