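import Crest.Agent.R158.Pt8_266
import Crest.Agent.R158.Nz8_399

/-!
# R158, patches (helper266), file Pt9: strands around the special points of a chart

* `wk470`, `wk_iter` : adapters
* `RuleC`, **`phaseC`** : local rule with charges, value of a strand between real ends
* `stdf`, `iter_ps` : standard picture at `p`, rotated `g` times; `ip_floor`, `ip_wall`
* `real_fe`, `real_we` : real ends of a pattern in terms of `fe`, `we` (helper399)
* **`corner_cv`, `corner_rf`** (E2): strands around a corner are counted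
* **`box_strand`** (E1): strands that stay in the box of a special point; `val_cv`, `val_rf`,
  `val_floor` : their values
-/

set_option autoImplicit false
set_option linter.unusedVariables false
set_option linter.unusedSectionVars false
set_option linter.unusedSimpArgs false

noncomputable section

namespace Crest.Agent.R158.Pt266

open Crest.Agent.R158.Sw300 (Port thru tn)
open Crest.Agent.R158.Xr249 (full CPath)
open Crest.Agent.R158.Nm211 (St Dir mv dx dy trn nx6 rd opp Hit KK)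
open Crest.Agent.R158.Ka470 (Patt View Free en ex sg B1 B3 Bv Cuts)
open Crest.Agent.R158.Ad350 (tnet tql seam)
open Crest.Agent.R158.Nz399 (Kind Tk Dk Yk Xk qd rt rs pl ps od fe we patK rq)

variable {T : Type*} {G : T × ZMod 4 → T × ZMod 4 → Prop} {C : Ka470.Ch T G} {s : T → Bool}

/-- strands of helper470 -/
lemma wk470 {x y : T × ZMod 4} {l : List (T × ZMod 4)} : Ka470.Wk s G x y l ↔ Wk s G x y l := by
  constructor
  · intro h
    induction h with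
    | one => exact Wk.one
    | snoc _ h2 ih => exact Wk.snoc ih h2
  · intro h
    induction h with
    | one => exact Ka470.Wk.one
    | snoc _ h2 ih => exact Ka470.Wk.snoc ih h2

/-- strands of a region are iterates of the chart walk -/
lemma wk_iter (hF : ∀ v, C.F v = false) {A : Finset (ℤ × ℤ)} {c : St ℤ} (hc : c.1 ∈ A)
    {y : (ℤ × ℤ) × ZMod 4} {l : List ((ℤ × ℤ) × ZMod 4)}
    (h : Wk (s ∘ C.emb) (RG (full A)) (ip c) y l) :
    ∃ m, (∀ j ≤ m, ((C.f s)^[j] c).1 ∈ A) ∧ y = op C s ((C.f s)^[m] c) ∧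
      l = (List.range (m + 1)).map fun j => ip ((C.f s)^[j] c) := by
  induction h with
  | one =>
    refine ⟨0, fun j hj => ?_, pass_ip hF s c, by simp⟩
    obtain rfl : j = 0 := by omega
    exact hc
  | @snoc q r l _ hr ih =>
    obtain ⟨m, h1, rfl, rfl⟩ := ih
    rw [rg_full] at hr
    obtain ⟨h2, h3, h4⟩ := hr
    have h5 : r = ip ((C.f s)^[m + 1] c) := by
      rw [h4, Function.iterate_succ_apply', ip_next]
    have h6 : r.1 ∈ A := by rw [h4]; exact h3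
    refine ⟨m + 1, fun j hj => ?_, ?_, ?_⟩
    · rcases Nat.lt_or_ge j (m + 1) with h | h
      · exact h1 j (by omega)
      · obtain rfl : j = m + 1 := by omega
        rw [h5] at h6
        exact h6
    · rw [h5, pass_ip hF]
    · rw [h5, List.range_succ (n := m + 1), List.map_append]
      rfl

/-! ### local rule with charges -/

/-- **local rule** : phases `Φ` (gauge included), copies `b`, charges `cc` -/
def RuleC (Q : Quad) (Φ : (ℤ × ℤ) × ZMod 4 → ℝ) (b : (ℤ × ℤ) × ZMod 4 → Bool)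
    (cc : (ℤ × ℤ) × ZMod 4 → ℤ) : Prop :=
  ∀ x z k, Q.Real x → Q.Real z → NxT (full Q.A).gl (some x) (some z) k →
    Φ z - Φ x = sgn (b x) * (Real.pi / 12 * k + Real.pi / 3 * ((cc x : ℝ) - cc z)) ∧ b z = b x

lemma ruleC_chain {Q : Quad} {Φ : (ℤ × ℤ) × ZMod 4 → ℝ} {b : (ℤ × ℤ) × ZMod 4 → Bool}
    {cc : (ℤ × ℤ) × ZMod 4 → ℤ} (hR : RuleC Q Φ b cc) {x y : (ℤ × ℤ) × ZMod 4} {D : ℤ}
    {l : List ((ℤ × ℤ) × ZMod 4)} (h : CwR (full Q.A).gl x y D l) (hx : Q.Real x)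
    (hl : ∀ z ∈ l, Q.Real z) :
    Φ y - Φ x = sgn (b x) * (Real.pi / 12 * D + Real.pi / 3 * ((cc x : ℝ) - cc y)) ∧
      b y = b x := by
  induction h with
  | nil x => simp
  | @cons x z y k D l h1 _ ih =>
    have hz := hl z (List.mem_cons_self ..)
    obtain ⟨h2, h2'⟩ := ih hz fun w hw => hl w (List.mem_cons_of_mem _ hw)
    obtain ⟨h3, h3'⟩ := hR x z k hx hz h1
    rw [h3'] at h2
    refine ⟨?_, h2'.trans h3'⟩
    push_cast
    linear_combination h2 + h3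

/-- **value of a strand between real ends of a pattern** -/
theorem phaseC {Q : Quad} {be : Port T → Port T} {ch : Port T → ℝ} {g : ℤ × ℤ → ℝ}
    {b : (ℤ × ℤ) × ZMod 4 → Bool} {cc : (ℤ × ℤ) × ZMod 4 → ℤ} (hg : Gauge C be ch g Q.A)
    (hR : RuleC Q (fun X => ch (some (mp C.emb X)) + g X.1) b cc)
    {X Y : (ℤ × ℤ) × ZMod 4} {L : List ((ℤ × ℤ) × ZMod 4)} (hX : Q.Real X) (hY : Q.Real Y)
    (hw : Wk (s ∘ C.emb) (RG (full Q.A)) X Y L) :
    ∃ D : ℤ,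
      (Q.Typ X Y D ∧ b Y = b X ∧
        2 * Real.cos (wph be ch s (mp C.emb X) (mp C.emb Y) (L.map (mp C.emb))) =
          val (b X) D (cc X - cc Y)) ∨
      (Q.Typ Y X D ∧ b Y = b X ∧
        2 * Real.cos (wph be ch s (mp C.emb X) (mp C.emb Y) (L.map (mp C.emb))) =
          val (b X) D (cc Y - cc X)) := by
  have hne : X ≠ Y := wk_ne Q.hole (hX.ffree) (hY.ffree) hw
  have e1 : (tt s (L.map (mp C.emb)) : ℝ) = tt (s ∘ C.emb) L := by rw [tt_map]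
  have e2 := seam_tele hg hw
  have e3 : wph be ch s (mp C.emb X) (mp C.emb Y) (L.map (mp C.emb)) =
      -(Real.pi / 12 * (tt (s ∘ C.emb) L : ℝ)) + ((ch (some (mp C.emb Y)) + g Y.1) -
        (ch (some (mp C.emb X)) + g X.1)) := by
    unfold wph
    rw [e1, e2]
    ring
  rcases Quad.arc hX hY hw hne with ⟨D, l, h1, h2, h3, h4, h5, -⟩ | ⟨D, l, h1, h2, h3, h4, h5, -⟩
  · obtain ⟨h6, h7⟩ := ruleC_chain hR h1 hX h2
    refine ⟨D, Or.inl ⟨h4, h7, cos_val ?_⟩⟩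
    rw [e3, h5, h6]
    push_cast
    ring
  · obtain ⟨h6, h7⟩ := ruleC_chain hR h1 hY h2
    refine ⟨D, Or.inr ⟨h4, h7.symm, ?_⟩⟩
    rw [← Real.cos_neg]
    refine cos_val ?_
    rw [h7, e3, h5]
    push_cast
    linear_combination h6

/-! ### the standard picture -/

/-- splitting field of the standard picture at `p`, rotated `g` times -/
def stdf (C : Ka470.Ch T G) (s : T → Bool) (g : ℕ) (p : ℤ × ℤ) (v : ℤ × ℤ) : Bool :=
  xor (od g) (rd C.emb C.Fn s (pl g p v))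

lemma iter_ps (s : T → Bool) (g : ℕ) (p : ℤ × ℤ) (j : ℕ) (c : St ℤ) :
    (C.f s)^[j] (ps g p c) = ps g p ((nx6 (stdf C s g p))^[j] c) := by
  induction j with
  | zero => rfl
  | succ j ih =>
    rw [Function.iterate_succ_apply', Function.iterate_succ_apply', ih]
    exact Nz399.nx_ps g p (rd C.emb C.Fn s) _

lemma en_rot : ∀ d : Dir, en (d + 3) = en d + 3 := by decide

lemma en_rs (g : ℕ) (c : St ℤ) : en (rs^[g] c).2 = en c.2 - (g : ZMod 4) := by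
  induction g with
  | zero => simp
  | succ g ih =>
    rw [Function.iterate_succ_apply']
    have h1 : (rs (rs^[g] c)).2 = (rs^[g] c).2 + 3 := rfl
    rw [h1, en_rot, ih]
    push_cast
    have : (3 : ZMod 4) = -1 := by decide
    rw [this]; ring

lemma ip_ps (g : ℕ) (p : ℤ × ℤ) (c : St ℤ) :
    ip (ps g p c) = (pl g p c.1, en c.2 - (g : ZMod 4)) := by
  have h1 : ip (ps g p c) = ((rs^[g] c).1 + p, en (rs^[g] c).2) := rfl
  rw [h1, en_rs, Nz399.rs_iter_fst]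
  rfl

lemma ip_floor (g : ℕ) (p : ℤ × ℤ) (a : ℤ) : ip (ps g p ((a, 0), 0)) = fe g p a := by
  rw [ip_ps]; rfl

lemma ip_wall (g : ℕ) (p : ℤ × ℤ) (a : ℤ) : ip (ps g p ((0, a), 1)) = we g p a := by
  rw [ip_ps, we]
  refine Prod.ext rfl ?_
  show (0 : ZMod 4) - g = -g
  ring

lemma rt_dir (v : ℤ × ℤ) (a : ZMod 4) : rt (v + dir a) = rt v + dir (a - 1) := by
  have h1 : ∀ a : ZMod 4, dir (a - 1) = (-(dir a).2, (dir a).1) := by decide
  rw [h1]
  simp only [rt, Prod.fst_add, Prod.snd_add]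
  refine Prod.ext ?_ ?_ <;> simp only [Prod.fst_add, Prod.snd_add]
  ring

lemma pl_dir (g : ℕ) (p v : ℤ × ℤ) (a : ZMod 4) :
    pl g p (v + dir a) = pl g p v + dir (a - (g : ZMod 4)) := by
  have key : ∀ g : ℕ, rt^[g] (v + dir a) = rt^[g] v + dir (a - (g : ZMod 4)) := by
    intro g
    induction g with
    | zero => simp
    | succ g ih =>
      rw [Function.iterate_succ_apply', Function.iterate_succ_apply', ih, rt_dir]
      congr 2
      push_cast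
      ring
  simp only [pl]
  rw [key]
  abel

lemma pl_dir_smul (g : ℕ) (p v : ℤ × ℤ) (a : ZMod 4) (n : ℕ) :
    pl g p (v + n • dir a) = pl g p v + n • dir (a - (g : ZMod 4)) := by
  induction n with
  | zero => simp
  | succ n ih => rw [succ_nsmul, ← add_assoc, pl_dir, ih, succ_nsmul, add_assoc]

variable {x1 x2 z1 z2 : ℤ} {p : ℤ × ℤ} {pat : Bool → Bool → Bool}

lemma qd_pl (g : ℕ) (v : ℤ × ℤ) : (quadB x1 x2 z1 z2 p pat).qd (pl g p v) =
    (decide (0 ≤ (rt^[g] v).1), decide (0 ≤ (rt^[g] v).2)) := by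
  simp [Quad.qd, quadB, pl]

/-- quadrants in standard coordinates -/
lemma qd_pl_inj {g : ℕ} {v w : ℤ × ℤ} (h : (quadB x1 x2 z1 z2 p pat).qd (pl g p v) =
    (quadB x1 x2 z1 z2 p pat).qd (pl g p w)) : (0 ≤ v.1 ↔ 0 ≤ w.1) ∧ (0 ≤ v.2 ↔ 0 ≤ w.2) := by
  rw [qd_pl, qd_pl, Prod.mk.injEq] at h
  have h1 := Nz399.rt_rq_iter g v
  have h2 := Nz399.rt_rq_iter g w
  rw [h.1, h.2] at h1
  have h3 := Nz399.rt_inj.iterate g (h1.trans h2.symm)
  obtain ⟨h4, h5⟩ := Nz399.rq_inj h3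
  exact ⟨decide_eq_decide.1 h4, decide_eq_decide.1 h5⟩

lemma qd_pl_eq {g : ℕ} {v w : ℤ × ℤ} (h1 : 0 ≤ v.1 ↔ 0 ≤ w.1) (h2 : 0 ≤ v.2 ↔ 0 ≤ w.2) :
    (quadB x1 x2 z1 z2 p pat).qd (pl g p v) = (quadB x1 x2 z1 z2 p pat).qd (pl g p w) := by
  rw [qd_pl, qd_pl]
  have h3 := Nz399.rt_rq_iter g v
  have h4 := Nz399.rt_rq_iter g w
  rw [decide_eq_decide.2 h1, decide_eq_decide.2 h2] at h3
  obtain ⟨h5, h6⟩ := Nz399.rq_inj (h3.symm.trans h4)
  rw [h5, h6]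

lemma fe_face (g : ℕ) (p : ℤ × ℤ) (a : ℤ) :
    (fe g p a).1 + dir (fe g p a).2 = pl g p (a, -1) := by
  have h := pl_dir g p (a, 0) 3
  have e : ((a, 0) : ℤ × ℤ) + dir 3 = (a, -1) := by
    rw [show dir 3 = (0, -1) from rfl]; simp
  rw [e] at h
  exact h.symm

lemma we_face (g : ℕ) (p : ℤ × ℤ) (a : ℤ) :
    (we g p a).1 + dir (we g p a).2 = pl g p (-1, a) := by
  have h := pl_dir g p (0, a) 0
  have e : ((0, a) : ℤ × ℤ) + dir 0 = (-1, a) := by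
    rw [show dir 0 = (-1, 0) from rfl]; simp
  rw [e, zero_sub] at h
  exact h.symm

/-- explicit positions -/
lemma pl_four (p : ℤ × ℤ) (x y : ℤ) : pl 0 p (x, y) = (x + p.1, y + p.2) ∧
    pl 1 p (x, y) = (-y - 1 + p.1, x + p.2) ∧ pl 2 p (x, y) = (-x - 1 + p.1, -y - 1 + p.2) ∧
    pl 3 p (x, y) = (y + p.1, -x - 1 + p.2) := by
  refine ⟨rfl, rfl, rfl, ?_⟩
  show ((-(-y - 1) - 1 : ℤ) + p.1, (-x - 1 : ℤ) + p.2) = _
  refine Prod.ext ?_ rfl
  simp only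
  ring

lemma real_pos {X : (ℤ × ℤ) × ZMod 4} (h : (quadB x1 x2 z1 z2 p pat).Real X) :
    (X.2 = 0 → X.1.1 = p.1) ∧ (X.2 = 1 → X.1.2 = p.2 - 1) ∧ (X.2 = 2 → X.1.1 = p.1 - 1) ∧
      (X.2 = 3 → X.1.2 = p.2) := by
  obtain ⟨⟨x, y⟩, d⟩ := X
  refine ⟨?_, ?_, ?_, ?_⟩ <;> (intro h2; simp only at h2; subst h2)
  · exact (Quad.real0 h).1
  · exact (Quad.real1 h).1
  · exact (Quad.real2 h).1
  · exact (Quad.real3 h).1

/-- real ends on a floor -/
lemma real_fe {X : (ℤ × ℤ) × ZMod 4} (h : (quadB x1 x2 z1 z2 p pat).Real X) {g : ℕ} (hg : g < 4)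
    (h2 : X.2 = 3 - (g : ZMod 4)) : ∃ a, X = fe g p a := by
  obtain ⟨r0, r1, r2, r3⟩ := real_pos h
  obtain ⟨⟨x, y⟩, d⟩ := X
  simp only at h2 r0 r1 r2 r3
  interval_cases g
  · have hd : d = 3 := by rw [h2]; decide
    refine ⟨x - p.1, ?_⟩
    have h3 := r3 hd
    unfold fe
    rw [(pl_four p _ _).1, ← h2]
    refine Prod.ext (Prod.ext ?_ ?_) rfl <;> simp only <;> omega
  · have hd : d = 2 := by rw [h2]; decide
    refine ⟨y - p.2, ?_⟩
    have h3 := r2 hd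
    unfold fe
    rw [(pl_four p _ _).2.1, ← h2]
    refine Prod.ext (Prod.ext ?_ ?_) rfl <;> simp only <;> omega
  · have hd : d = 1 := by rw [h2]; decide
    refine ⟨p.1 - 1 - x, ?_⟩
    have h3 := r1 hd
    unfold fe
    rw [(pl_four p _ _).2.2.1, ← h2]
    refine Prod.ext (Prod.ext ?_ ?_) rfl <;> simp only <;> omega
  · have hd : d = 0 := by rw [h2]; decide
    refine ⟨p.2 - 1 - y, ?_⟩
    have h3 := r0 hd
    unfold fe
    rw [(pl_four p _ _).2.2.2, ← h2]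
    refine Prod.ext (Prod.ext ?_ ?_) rfl <;> simp only <;> omega

/-- real ends on a wall -/
lemma real_we {X : (ℤ × ℤ) × ZMod 4} (h : (quadB x1 x2 z1 z2 p pat).Real X) {g : ℕ} (hg : g < 4)
    (h2 : X.2 = -(g : ZMod 4)) : ∃ a, X = we g p a := by
  obtain ⟨r0, r1, r2, r3⟩ := real_pos h
  obtain ⟨⟨x, y⟩, d⟩ := X
  simp only at h2 r0 r1 r2 r3
  interval_cases g
  · have hd : d = 0 := by rw [h2]; decide
    refine ⟨y - p.2, ?_⟩
    have h3 := r0 hd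
    unfold we
    rw [(pl_four p _ _).1, ← h2]
    refine Prod.ext (Prod.ext ?_ ?_) rfl <;> simp only <;> omega
  · have hd : d = 3 := by rw [h2]; decide
    refine ⟨p.1 - 1 - x, ?_⟩
    have h3 := r3 hd
    unfold we
    rw [(pl_four p _ _).2.1, ← h2]
    refine Prod.ext (Prod.ext ?_ ?_) rfl <;> simp only <;> omega
  · have hd : d = 2 := by rw [h2]; decide
    refine ⟨p.2 - 1 - y, ?_⟩
    have h3 := r2 hd
    unfold we
    rw [(pl_four p _ _).2.2.1, ← h2]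
    refine Prod.ext (Prod.ext ?_ ?_) rfl <;> simp only <;> omega
  · have hd : d = 1 := by rw [h2]; decide
    refine ⟨x - p.1, ?_⟩
    have h3 := r1 hd
    unfold we
    rw [(pl_four p _ _).2.2.2, ← h2]
    refine Prod.ext (Prod.ext ?_ ?_) rfl <;> simp only <;> omega

/-- number of quarter turns for a side -/
lemma exists_g (d : ZMod 4) : ∃ g : ℕ, g < 4 ∧ d = 3 - (g : ZMod 4) := by
  rcases Xr249.Reg.d4 d with rfl | rfl | rfl | rfl
  · exact ⟨3, by omega, by decide⟩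
  · exact ⟨2, by omega, by decide⟩
  · exact ⟨1, by omega, by decide⟩
  · exact ⟨0, by omega, by decide⟩

lemma exists_g' (d : ZMod 4) : ∃ g : ℕ, g < 4 ∧ d = -(g : ZMod 4) := by
  rcases Xr249.Reg.d4 d with rfl | rfl | rfl | rfl
  · exact ⟨0, by omega, by decide⟩
  · exact ⟨3, by omega, by decide⟩
  · exact ⟨2, by omega, by decide⟩
  · exact ⟨1, by omega, by decide⟩

/-- **convex chains in standard form** -/
lemma typ_cv {X Y : (ℤ × ℤ) × ZMod 4} (hX : (quadB x1 x2 z1 z2 p pat).Real X)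
    (hY : (quadB x1 x2 z1 z2 p pat).Real Y) (h2 : Y.2 = X.2 + 1)
    (hq : (quadB x1 x2 z1 z2 p pat).qd X.1 = (quadB x1 x2 z1 z2 p pat).qd Y.1) :
    ∃ g < 4, ∃ a b : ℤ, 0 ≤ a ∧ 0 ≤ b ∧ X = fe g p a ∧ Y = we g p b := by
  obtain ⟨g, hg, hd⟩ := exists_g X.2
  obtain ⟨a, ha⟩ := real_fe hX hg hd
  obtain ⟨b, hb⟩ := real_we hY hg (by
    rw [h2, hd]
    have : (3 : ZMod 4) = -1 := by decide
    rw [this]; ring)
  rw [ha, hb] at hq
  obtain ⟨h3, h4⟩ := qd_pl_inj hq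
  exact ⟨g, hg, a, b, h3.2 le_rfl, h4.1 le_rfl, ha, hb⟩

/-- **reflex chains in standard form** -/
lemma typ_rf {X Y : (ℤ × ℤ) × ZMod 4} (hX : (quadB x1 x2 z1 z2 p pat).Real X)
    (hY : (quadB x1 x2 z1 z2 p pat).Real Y) (h2 : Y.2 = X.2 + 3)
    (hq : (quadB x1 x2 z1 z2 p pat).qd (X.1 + dir X.2) =
      (quadB x1 x2 z1 z2 p pat).qd (Y.1 + dir Y.2)) :
    ∃ g < 4, ∃ a b : ℤ, a < 0 ∧ b < 0 ∧ X = we g p a ∧ Y = fe g p b := by
  obtain ⟨g, hg, hd⟩ := exists_g' X.2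
  obtain ⟨a, ha⟩ := real_we hX hg hd
  obtain ⟨b, hb⟩ := real_fe hY hg (by rw [h2, hd]; ring)
  rw [ha, hb, fe_face, we_face] at hq
  obtain ⟨h3, h4⟩ := qd_pl_inj hq
  simp only at h3 h4
  exact ⟨g, hg, a, b, by omega, by omega, ha, hb⟩

lemma z4_a (a : ZMod 4) : 3 - a ≠ -a ∧ 3 - a ≠ 3 - a + 1 ∧ 3 - a ≠ 3 - a + 3 ∧ -a ≠ 3 - a + 3 ∧
    3 - a ≠ -a + 1 ∧ -a = 3 - a + 1 ∧ -a ≠ -a + 1 ∧ -a ≠ -a + 3 ∧ 3 - a + 1 = 0 - a ∧
    -a + 1 = 1 - a := by
  revert a; decide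

/-- flat chains between floor ends go to the left (standard picture) -/
lemma typ_ff {g : ℕ} {a b D : ℤ} (h : (quadB x1 x2 z1 z2 p pat).Typ (fe g p a) (fe g p b) D) :
    D = 0 ∧ b ≤ a := by
  obtain ⟨e1, e2, e3, e4, e5, e6, e7, e8, e9, e10⟩ := z4_a (g : ZMod 4)
  rcases h with ⟨h1, h2, n, h3⟩ | ⟨h1, h2, h3⟩ | ⟨h1, h2, h3, h4⟩
  · refine ⟨h1, ?_⟩
    have h4 : pl g p (b, 0) = pl g p (a, 0) + n • dir (3 - (g : ZMod 4) + 1) := h3
    rw [e9, ← pl_dir_smul] at h4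
    have h5 := congrArg Prod.fst (Nz399.pl_inj g p h4)
    have e : dir 0 = (-1, 0) := rfl
    simp only [e, Prod.smul_mk, Prod.mk_add_mk, nsmul_eq_mul, mul_neg, mul_one] at h5
    omega
  · exact absurd h2 e2
  · exact absurd h2 e3

/-- chains from a floor to a wall -/
lemma typ_fw {g : ℕ} {a b D : ℤ} (h : (quadB x1 x2 z1 z2 p pat).Typ (fe g p a) (we g p b) D) :
    D = 1 ∧ 0 ≤ a ∧ 0 ≤ b := by
  obtain ⟨e1, e2, e3, e4, e5, e6, e7, e8, e9, e10⟩ := z4_a (g : ZMod 4)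
  rcases h with ⟨h1, h2, n, h3⟩ | ⟨h1, h2, h3⟩ | ⟨h1, h2, h3, h4⟩
  · exact absurd h2.symm e1
  · obtain ⟨h4, h5⟩ := qd_pl_inj h3
    exact ⟨h1, h4.2 le_rfl, h5.1 le_rfl⟩
  · exact absurd h2 e4

/-- chains from a wall to a floor -/
lemma typ_wf {g : ℕ} {a b D : ℤ} (h : (quadB x1 x2 z1 z2 p pat).Typ (we g p a) (fe g p b) D) :
    D = -1 ∧ a < 0 ∧ b < 0 := by
  obtain ⟨e1, e2, e3, e4, e5, e6, e7, e8, e9, e10⟩ := z4_a (g : ZMod 4)
  rcases h with ⟨h1, h2, n, h3⟩ | ⟨h1, h2, h3⟩ | ⟨h1, h2, h3, h4⟩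
  · exact absurd h2 e1
  · exact absurd h2 e5
  · rw [fe_face, we_face] at h3
    obtain ⟨h5, h6⟩ := qd_pl_inj h3
    simp only at h5 h6
    exact ⟨h1, by omega, by omega⟩

/-! ### the pattern of a special point -/

lemma bv_pl {g : ℕ} (hg : g < 4) {n : ℕ} {v : ℤ × ℤ} (h : pl g p v ∈ Bv n p) :
    (-(n : ℤ) ≤ v.1 ∧ v.1 < n) ∧ -(n : ℤ) ≤ v.2 ∧ v.2 < n := by
  obtain ⟨x, y⟩ := v
  obtain ⟨h0, h1, h2, h3⟩ := pl_four p x y
  have h' : (p.1 - n ≤ (pl g p (x, y)).1 ∧ (pl g p (x, y)).1 < p.1 + n) ∧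
    p.2 - n ≤ (pl g p (x, y)).2 ∧ (pl g p (x, y)).2 < p.2 + n := h
  interval_cases g
  · rw [h0] at h'; simp only at h' ⊢; omega
  · rw [h1] at h'; simp only at h' ⊢; omega
  · rw [h2] at h'; simp only at h' ⊢; omega
  · rw [h3] at h'; simp only at h' ⊢; omega

/-- the quadrant pattern of a chart in the box of radius `N` at `p` -/
def quadV (N : ℕ) (p : ℤ × ℤ) (pat : Bool → Bool → Bool) : Quad :=
  quadB (p.1 - N) (p.1 + N) (p.2 - N) (p.2 + N) p pat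

variable {k : Kind} {g N n : ℕ}

lemma mem_quadV (hP : Patt C.R (Bv N p) p (patK k g)) {v : ℤ × ℤ}
    (hv : (-(N : ℤ) ≤ v.1 ∧ v.1 < N) ∧ -(N : ℤ) ≤ v.2 ∧ v.2 < N) :
    pl g p v ∈ (quadV N p (patK k g)).A ↔ qd k v := by
  rw [quadV, mem_quadB hP]
  have h1 : pl g p v ∈ Bv N p := Nz399.pl_Bv g p hv
  have h2 := hP _ h1
  rw [Nz399.patK_pl] at h2
  exact ⟨fun h => h2.1 h.1, fun h => ⟨h2.2 h, h1⟩⟩

lemma real_fe_std (hP : Patt C.R (Bv N p) p (patK k g)) (hN : 1 ≤ N) {a : ℤ} (h1 : -(N : ℤ) ≤ a)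
    (h2 : a < N) (h3 : qd k (a, 0)) (h4 : ¬ qd k (a, -1)) :
    (quadV N p (patK k g)).Real (fe g p a) := by
  have hN' : (1 : ℤ) ≤ N := by exact_mod_cast hN
  refine ⟨(mem_quadV hP (v := (a, 0)) ⟨⟨h1, h2⟩, by simp only; omega, by simp only; omega⟩).2 h3,
    ?_, ?_⟩
  · rw [fe_face]
    exact Nz399.pl_Bv g p ⟨⟨h1, h2⟩, by simp only; omega, by simp only; omega⟩
  · rw [fe_face]
    exact fun h => h4 ((mem_quadV hP (v := (a, -1)) ⟨⟨h1, h2⟩, by simp only; omega,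
      by simp only; omega⟩).1 h)

lemma real_we_std (hP : Patt C.R (Bv N p) p (patK k g)) (hN : 1 ≤ N) {a : ℤ} (h1 : -(N : ℤ) ≤ a)
    (h2 : a < N) (h3 : qd k (0, a)) (h4 : ¬ qd k (-1, a)) :
    (quadV N p (patK k g)).Real (we g p a) := by
  have hN' : (1 : ℤ) ≤ N := by exact_mod_cast hN
  refine ⟨(mem_quadV hP (v := (0, a)) ⟨⟨by simp only; omega, by simp only; omega⟩, h1, h2⟩).2 h3,
    ?_, ?_⟩
  · rw [we_face]
    exact Nz399.pl_Bv g p ⟨⟨by simp only; omega, by simp only; omega⟩, h1, h2⟩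
  · rw [we_face]
    exact fun h => h4 ((mem_quadV hP (v := (-1, a)) ⟨⟨by simp only; omega, by simp only; omega⟩,
      h1, h2⟩).1 h)

lemma ex_rot : ∀ d : Dir, ex (d + 3) = ex d + 3 := by decide

lemma ex_rs (g : ℕ) (c : St ℤ) : ex (rs^[g] c).2 = ex c.2 - (g : ZMod 4) := by
  induction g with
  | zero => simp
  | succ g ih =>
    rw [Function.iterate_succ_apply']
    have h1 : (rs (rs^[g] c)).2 = (rs^[g] c).2 + 3 := rfl
    rw [h1, ex_rot, ih]
    push_cast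
    have : (3 : ZMod 4) = -1 := by decide
    rw [this]; ring

/-- the port through which the strand leaves, in standard coordinates -/
lemma op_ps (s : T → Bool) (g : ℕ) (p : ℤ × ℤ) (c : St ℤ) : op C s (ps g p c) =
    (pl g p c.1, ex (nx6 (stdf C s g p) c).2 - (g : ZMod 4)) := by
  have h1 : C.f s (ps g p c) = ps g p (nx6 (stdf C s g p) c) := Nz399.nx_ps g p _ c
  unfold op
  rw [h1]
  refine Prod.ext ?_ ?_
  · show (rs^[g] c).1 + p = _
    rw [Nz399.rs_iter_fst]; rfl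
  · show ex (rs^[g] (nx6 (stdf C s g p) c)).2 = _
    rw [ex_rs]

lemma ps_fst (g : ℕ) (p : ℤ × ℤ) (c : St ℤ) : (ps g p c).1 = pl g p c.1 := by
  show (rs^[g] c).1 + p = _
  rw [Nz399.rs_iter_fst]; rfl

lemma nx6_dir (s' : ℤ × ℤ → Bool) (c : St ℤ) :
    (nx6 s' c).1 = c.1 + dir (ex (nx6 s' c).2) := by
  have h : (nx6 s' c).1 = mv c.1 (nx6 s' c).2 := rfl
  rw [h, mv_dir]

/-- positions of a step -/
lemma step4 (s' : ℤ × ℤ → Bool) (c : St ℤ) :
    ((nx6 s' c).2 = 0 ∧ (nx6 s' c).1.1 = c.1.1 ∧ (nx6 s' c).1.2 = c.1.2 + 1) ∨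
    ((nx6 s' c).2 = 1 ∧ (nx6 s' c).1.1 = c.1.1 + 1 ∧ (nx6 s' c).1.2 = c.1.2) ∨
    ((nx6 s' c).2 = 2 ∧ (nx6 s' c).1.1 = c.1.1 ∧ (nx6 s' c).1.2 = c.1.2 - 1) ∨
    ((nx6 s' c).2 = 3 ∧ (nx6 s' c).1.1 = c.1.1 - 1 ∧ (nx6 s' c).1.2 = c.1.2) := by
  have h := nx6_dir s' c
  generalize nx6 s' c = c' at h ⊢
  obtain ⟨v, d⟩ := c'
  simp only at h ⊢
  subst h
  fin_cases d
  · left
    have e : dir (ex (0 : Dir)) = (0, 1) := rfl
    refine ⟨rfl, ?_, ?_⟩
    · show (c.1 + dir (ex (0 : Dir))).1 = _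
      rw [e]; simp
    · show (c.1 + dir (ex (0 : Dir))).2 = _
      rw [e]; simp
  · right; left
    have e : dir (ex (1 : Dir)) = (1, 0) := rfl
    refine ⟨rfl, ?_, ?_⟩
    · show (c.1 + dir (ex (1 : Dir))).1 = _
      rw [e]; simp
    · show (c.1 + dir (ex (1 : Dir))).2 = _
      rw [e]; simp
  · right; right; left
    have e : dir (ex (2 : Dir)) = (0, -1) := rfl
    refine ⟨rfl, ?_, ?_⟩
    · show (c.1 + dir (ex (2 : Dir))).1 = _
      rw [e]; simp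
    · show (c.1 + dir (ex (2 : Dir))).2 = _
      rw [e]; simp [sub_eq_add_neg]
  · right; right; right
    have e : dir (ex (3 : Dir)) = (-1, 0) := rfl
    refine ⟨rfl, ?_, ?_⟩
    · show (c.1 + dir (ex (3 : Dir))).1 = _
      rw [e]; simp [sub_eq_add_neg]
    · show (c.1 + dir (ex (3 : Dir))).2 = _
      rw [e]; simp

end Crest.Agent.R158.Pt266
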