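import Crest.Agent.R158.Ne5_808
import Crest.Agent.R158.Pt9_266

/-!
# R158, block Q1d, leaf (E) (helper808), part 6: small strands of the double

* `ruleC_of` : local rule of helper158 with the copy of every side
* `arcC` : value of a strand between real ends of a box, `loopC` : closed strands
* `small_cls` : every class is big, or a closed strand of value `1`, or a strand between real ends of
  a box of a chart
* `patt_big`, `cuts_wf`, `cuts_fw`, `pat_rf`, `pat_cv` : corners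
-/

set_option autoImplicit false
set_option linter.unusedSectionVars false
set_option synthInstance.maxSize 1000

noncomputable section

namespace Crest.Agent.R158.Ne808

open Crest.Agent.R158.Nm211
open Crest.Agent.R158.Nz399
open Crest.Agent.R158.Ka470
open Crest.Agent.R158.Ad350 (Net tnet ports mem_ports mem_ports' tnet_ok seam)
open Crest.Agent.R158.Sw300 (Port thru)
open Crest.Agent.R158.Env664 (TG)
open Crest.Agent.R158.Lr158 (PhH OpenH Phi gg Cg Stp nxe REnd)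
open Crest.Agent.R158.Pt266 (Quad quadB mp dir Gauge NxT val sgn wph RG RuleC ip op tt Cl comp
  mem_comp wk_comp rg_full seam_tele tt_map pl_four qd_pl_eq qd_pl_inj fe_face we_face)
open Crest.Agent.R158.Xr249 (full)

section

variable {A : Half} {ρ : ℕ} {h : A.Sz ρ} {i : Fin 4} {x1 x2 z1 z2 : ℤ} {p : ℤ × ℤ}
  {pat : Bool → Bool → Bool} {T : Finset TG} {be : Port TG → Port TG}
  {ch : Port TG → ℝ} {ps cc : TG × ZMod 4 → ℤ} {cl : ℤ} {O : Finset (Port TG)}
  {s : TG × Bool → Bool}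

/-- `true` on the copy `false` -/
def cpb (h : A.Sz ρ) (i : Fin 4) (X : (ℤ × ℤ) × ZMod 4) : Bool :=
  !((Half.chf h i).emb X.1).2

theorem eps_cpb (h : A.Sz ρ) (i : Fin 4) (X : (ℤ × ℤ) × ZMod 4) :
    (Lr158.eps h i X : ℝ) = sgn (cpb h i X) := by
  unfold Lr158.eps cpb sgn
  cases ((Half.chf h i).emb X.1).2 <;> simp

theorem eps_inj {X Y : (ℤ × ℤ) × ZMod 4} (e : Lr158.eps h i Y = Lr158.eps h i X) :
    cpb h i Y = cpb h i X := by
  unfold Lr158.eps at e
  unfold cpb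
  revert e
  cases ((Half.chf h i).emb X.1).2 <;> cases ((Half.chf h i).emb Y.1).2 <;> simp

/-- **local rule** -/
theorem ruleC_of (H : PhH A ch ps cc cl) (hO : OpenH A O)
    (hB : A.Good ρ i (Bx x1 x2 z1 z2)) (hP : Patt (Half.chf h i).R (Bx x1 x2 z1 z2) p pat) :
    RuleC (quadB x1 x2 z1 z2 p pat)
      (fun X => dch ch O (some (mp (Half.chf h i).emb X)) + gg A cl i X.1) (cpb h i)
      (Cg cc cl h i) := by
  intro X Z k hX hZ hn
  have hS := stp_of hP hX hZ hn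
  have h1 := Lr158.local_rule H hO hB hS
  have e : ∀ X : (ℤ × ℤ) × ZMod 4, Phi ch O cl h i X =
      dch ch O (some (mp (Half.chf h i).emb X)) + gg A cl i X.1 := by
    intro X
    unfold Lr158.Phi
    rw [Lr158.pt_eq]
    rfl
  rw [e, e, eps_cpb] at h1
  exact ⟨h1, eps_inj (Lr158.eps_step H hB hS)⟩

/-- a strand of the pattern is a strand of the complex -/
theorem lift_wk (hP : Patt (Half.chf h i).R (Bx x1 x2 z1 z2) p pat) {X Y : (ℤ × ℤ) × ZMod 4}
    {L : List ((ℤ × ℤ) × ZMod 4)}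
    (hw : Pt266.Wk (s ∘ (Half.chf h i).emb) (RG (full (quadB x1 x2 z1 z2 p pat).A)) X Y L) :
    Ka470.Wk s A.Gd (mp (Half.chf h i).emb X) (mp (Half.chf h i).emb Y)
      (L.map (mp (Half.chf h i).emb)) := by
  refine pk (Pt266.Wk.map (Half.chf h i).emb (G := A.Gd) (fun a c hac => ?_) hw)
  rw [Pt266.rg_full] at hac
  obtain ⟨h1, h2, rfl⟩ := hac
  exact Pt266.chart_glue (C := Half.chf h i) (Half.chf_F h i)
    ((Pt266.mem_quadB hP).1 h1).1 ((Pt266.mem_quadB hP).1 h2).1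

theorem real_free (hB : A.Good ρ i (Bx x1 x2 z1 z2))
    (hP : Patt (Half.chf h i).R (Bx x1 x2 z1 z2) p pat)
    {X : (ℤ × ℤ) × ZMod 4} (hX : (quadB x1 x2 z1 z2 p pat).Real X) :
    Free A.Gd (mp (Half.chf h i).emb X) :=
  Pt266.free_of_real (Half.chf_F h i) hP (hB.view h) hX

theorem real_tH (hP : Patt (Half.chf h i).R (Bx x1 x2 z1 z2) p pat)
    {X : (ℤ × ℤ) × ZMod 4} (hX : (quadB x1 x2 z1 z2 p pat).Real X) :
    A.tH (mp (Half.chf h i).emb X).1.1 :=
  Lr158.tH_emb h i (real_rend hP hX).m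

/-- **value of a strand between real ends** -/
theorem arcC (E : DN A T be O) (H : PhH A ch ps cc cl) (hB : A.Good ρ i (Bx x1 x2 z1 z2))
    (hP : Patt (Half.chf h i).R (Bx x1 x2 z1 z2) p pat)
    {X Y : (ℤ × ℤ) × ZMod 4} (hX : (quadB x1 x2 z1 z2 p pat).Real X)
    (hY : (quadB x1 x2 z1 z2 p pat).Real Y) {L : List ((ℤ × ℤ) × ZMod 4)}
    (hw : Pt266.Wk (s ∘ (Half.chf h i).emb) (RG (full (quadB x1 x2 z1 z2 p pat).A)) X Y L) :
    ∃ (D : ℤ), ((quadB x1 x2 z1 z2 p pat).Typ X Y D ∧ cpb h i Y = cpb h i X ∧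
      ‖(nt T be O ch s).z ((nt T be O ch s).cls (some (mp (Half.chf h i).emb X)))‖ =
        |val (cpb h i X) D (Cg cc cl h i X - Cg cc cl h i Y)|) ∨
      ((quadB x1 x2 z1 z2 p pat).Typ Y X D ∧ cpb h i Y = cpb h i X ∧
      ‖(nt T be O ch s).z ((nt T be O ch s).cls (some (mp (Half.chf h i).emb X)))‖ =
        |val (cpb h i X) D (Cg cc cl h i Y - Cg cc cl h i X)|) := by
  rw [E.z_arc (real_tH hP hX) (real_tH hP hY) (lift_wk hP hw) (real_free hB hP hX)
    (real_free hB hP hY)]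
  obtain ⟨D, ⟨h1, h2, h3⟩ | ⟨h1, h2, h3⟩⟩ :=
    Pt266.phaseC (gauge_of E H hP) (ruleC_of H E.hO hB hP) hX hY hw
  · exact ⟨D, Or.inl ⟨h1, h2, by rw [h3]⟩⟩
  · exact ⟨D, Or.inr ⟨h1, h2, by rw [h3]⟩⟩

/-- both ends of the strand -/
theorem arc_ends (E : DN A T be O) (hB : A.Good ρ i (Bx x1 x2 z1 z2))
    (hP : Patt (Half.chf h i).R (Bx x1 x2 z1 z2) p pat)
    {X Y : (ℤ × ℤ) × ZMod 4} (hX : (quadB x1 x2 z1 z2 p pat).Real X)
    (hY : (quadB x1 x2 z1 z2 p pat).Real Y) {L : List ((ℤ × ℤ) × ZMod 4)}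
    (hw : Pt266.Wk (s ∘ (Half.chf h i).emb) (RG (full (quadB x1 x2 z1 z2 p pat).A)) X Y L) :
    (nt T be O ch s).eds ((nt T be O ch s).cls (some (mp (Half.chf h i).emb X))) =
      {some (mp (Half.chf h i).emb X), some (mp (Half.chf h i).emb Y)} ∧
    (nt T be O ch s).cls (some (mp (Half.chf h i).emb X)) =
      (nt T be O ch s).cls (some (mp (Half.chf h i).emb Y)) := by
  have hN := E.ok ch s
  have hxp : some (mp (Half.chf h i).emb X) ∈ ports (T ×ˢ (Finset.univ : Finset Bool)) :=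
    mem_ports.2 (E.mem.2 (real_tH hP hX))
  have w := kwk_wa (A := T ×ˢ (Finset.univ : Finset Bool)) (ch := dch ch O) E.g1 (lift_wk hP hw)
  refine ⟨wa_eds hN hxp w ((E.free (real_tH hP hX)).1 (real_free hB hP hX))
    ((E.free (real_tH hP hY)).1 (real_free hB hP hY)), ?_⟩
  exact (Net.cls_eq_of_mem hN hxp (Net.mem_cls.2 ⟨Net.Cn.mem hN.clV hxp (wa_cn w).1,
    (wa_cn w).1⟩)).symm

/-- **closed strands of a pattern** -/
theorem loopC (E : DN A T be O) (H : PhH A ch ps cc cl)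
    (hP : Patt (Half.chf h i).R (Bx x1 x2 z1 z2) p pat)
    {X Y : (ℤ × ℤ) × ZMod 4} {L : List ((ℤ × ℤ) × ZMod 4)}
    (hw : Pt266.Wk (s ∘ (Half.chf h i).emb) (RG (full (quadB x1 x2 z1 z2 p pat).A)) X Y L)
    (hYX : RG (full (quadB x1 x2 z1 z2 p pat).A) Y X) (hL : (L.map (mp (Half.chf h i).emb)).Nodup) :
    ‖(nt T be O ch s).z ((nt T be O ch s).cls (some (mp (Half.chf h i).emb X)))‖ = 1 := by
  have hg := gauge_of (h := h) (i := i) E H hP
  have h1 := rg_full.1 hYX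
  have hX : X.1 ∈ (quadB x1 x2 z1 z2 p pat).A := by rw [h1.2.2]; exact h1.2.1
  have hXR := ((Pt266.mem_quadB hP).1 hX).1
  have hYR := ((Pt266.mem_quadB hP).1 h1.1).1
  have hglue : A.Gd (mp (Half.chf h i).emb Y) (mp (Half.chf h i).emb X) := by
    have h2 := ((Pt266.mem_quadB hP).1 h1.2.1).1
    have := Pt266.chart_glue (C := Half.chf h i) (Half.chf_F h i) hYR h2
    rw [h1.2.2]
    exact this
  rw [E.z_loop (y := mp (Half.chf h i).emb Y) (Lr158.tH_emb h i hXR) (lift_wk hP hw) hL hglue]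
  have e1 : (tt s (L.map (mp (Half.chf h i).emb)) : ℝ) = tt (s ∘ (Half.chf h i).emb) L := by
    rw [tt_map]
  have e2 := seam_tele hg hw
  have h2 := hg Y.1 h1.1 Y.2 h1.2.1
  have h3 : dbe be O (some (mp (Half.chf h i).emb Y)) = some (mp (Half.chf h i).emb X) :=
    (E.g1 _ _ hglue).1
  have h4 : ((Y.1, Y.2) : (ℤ × ℤ) × ZMod 4) = Y := rfl
  have h5 : X.1 = Y.1 + dir Y.2 := by rw [h1.2.2]
  rw [h4, h3, ← h5] at h2
  have hPA : ∀ p' ∈ L, p'.1 ∈ (quadB x1 x2 z1 z2 p pat).A := by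
    have key : ∀ {x y : (ℤ × ℤ) × ZMod 4} {l : List ((ℤ × ℤ) × ZMod 4)},
        Pt266.Wk (s ∘ (Half.chf h i).emb) (RG (full (quadB x1 x2 z1 z2 p pat).A)) x y l →
        x.1 ∈ (quadB x1 x2 z1 z2 p pat).A → ∀ q ∈ l, q.1 ∈ (quadB x1 x2 z1 z2 p pat).A := by
      intro x y l hl hx
      induction hl with
      | one => intro q hq; rw [List.mem_singleton] at hq; rw [hq]; exact hx
      | @snoc q' r l _ hr ih =>
        intro q hq
        rw [List.mem_append, List.mem_singleton] at hq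
        rcases hq with hq | rfl
        · exact ih q hq
        · rw [rg_full] at hr
          rw [hr.2.2]
          exact hr.2.1
    exact key hw hX
  have hcl : Cl (s ∘ (Half.chf h i).emb) (RG (full (quadB x1 x2 z1 z2 p pat).A)) L :=
    ⟨List.Nodup.of_map _ hL, X, Y, hw, hYX⟩
  have h6 := Pt266.Quad.loop hcl hPA
  have e4 : wph (dbe be O) (dch ch O) s (mp (Half.chf h i).emb X) (mp (Half.chf h i).emb Y)
      (L.map (mp (Half.chf h i).emb)) =
      -(Real.pi / 12 * (tt (s ∘ (Half.chf h i).emb) L : ℝ)) := by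
    unfold wph
    rw [e1, e2]
    linarith
  rw [e4]
  rcases h6 with h6 | h6 <;> rw [h6]
  · have : -(Real.pi / 12 * ((4 : ℤ) : ℝ)) = -(Real.pi / 3) := by push_cast; ring
    rw [this, Real.cos_neg, Real.cos_pi_div_three]; norm_num
  · have : -(Real.pi / 12 * ((-4 : ℤ) : ℝ)) = Real.pi / 3 := by push_cast; ring
    rw [this, Real.cos_pi_div_three]; norm_num

/-- **small classes**: every class is big, or a closed strand of value `1`, or a strand between real
ends of a box of side `3ρ` of a chart -/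
theorem small_cls (E : DN A T be O) (H : PhH A ch ps cc cl) (h : A.Sz ρ) {L a b c' : ℤ}
    (m : A.Mc L a b c') (h' : A.Sz' ρ L) {c : Finset (Port (TG × Bool))}
    (hc : c ∈ (nt T be O ch s).classes (ports (T ×ˢ (Finset.univ : Finset Bool)))) :
    Half.BigS h s {q | some q ∈ c} ∨ ‖(nt T be O ch s).z c‖ = 1 ∨
    ∃ (i : Fin 4) (o p : ℤ × ℤ) (pat : Bool → Bool → Bool) (X Y : (ℤ × ℤ) × ZMod 4)
      (k : List ((ℤ × ℤ) × ZMod 4)),
      A.Good ρ i (B5 ρ o) ∧ Patt (Half.chf h i).R (B5 ρ o) p pat ∧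
      (Cuts (B5 ρ o) p → p ∈ A.Ver L i) ∧
      (quadB (o.1 - ρ) (o.1 + 2 * ρ) (o.2 - ρ) (o.2 + 2 * ρ) p pat).Real X ∧
      (quadB (o.1 - ρ) (o.1 + 2 * ρ) (o.2 - ρ) (o.2 + 2 * ρ) p pat).Real Y ∧
      Pt266.Wk (s ∘ (Half.chf h i).emb)
        (RG (full (quadB (o.1 - ρ) (o.1 + 2 * ρ) (o.2 - ρ) (o.2 + 2 * ρ) p pat).A)) X Y k ∧
      c = (nt T be O ch s).cls (some (mp (Half.chf h i).emb X)) := by
  obtain ⟨x, y, l, hx, hy, hw, hnd, hcx, hl, hxy⟩ := E.class_walk hc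
  rcases Half.dich h hx hw with hb | ⟨i, c0, hpe, hcR, hgood, hview, m0, hin, hl', hy'⟩
  · exact Or.inl (hb.mono fun q hq => hl q hq)
  have hρ := h.pos
  have hρ' : (1 : ℤ) ≤ ρ := by exact_mod_cast hρ
  obtain ⟨p, pat, hP, hcut⟩ := Half.patt m h h' hgood
  set o := cel ρ c0.1 with ho
  have hP3 : Patt (Half.chf h i).R (B3 ρ o) p pat := hP.mono (B3_sub _ _)
  have hF := Half.chf_F h i
  have hc1 : c0.1 ∈ B1 ρ o := cel_mem hρ c0.1
  have hcross : (∃ d : Dir, ∃ j < m0 + 1, Cross (Half.chf h i) s ρ o d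
      (((Half.chf h i).f s)^[j] c0)) → Half.BigS h s {q | some q ∈ c} := by
    rintro ⟨d, j, hj, hd⟩
    refine ⟨i, o, Finset.mem_image_of_mem _ hcR, d, _, hd, ?_⟩
    refine hl _ ?_
    rw [hl', List.mem_map]
    exact ⟨j, List.mem_range.2 hj, rfl⟩
  rcases hxy with ⟨fx, fy⟩ | hg
  · -- arcs
    rw [← hpe] at fx
    rw [hy'] at fy
    rcases Pt266.small hF hρ hP3 hc1 hin fx fy with hbig | ⟨hX, hY, hW⟩
    · exact Or.inl (hcross hbig)
    · refine Or.inr (Or.inr ⟨i, o, p, pat, _, _, _, hgood, hP, hcut, hX, hY, hW, ?_⟩)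
      rw [hcx, ← hpe, Pt266.pe_ip hF]
  · -- loops
    by_cases hB : (((Half.chf h i).f s)^[m0 + 1] c0).1 ∈ B3 ρ o
    swap
    · left
      exact hcross (Ka470.exists_cross (Half.chf h i) s hc1 (m := m0 + 1)
        (fun j hj => (hin j (by omega)).1) (fun j hj => (hin j (by omega)).2) hB)
    right; left
    have hstep : (((Half.chf h i).f s)^[m0 + 1] c0).1 =
        mv (((Half.chf h i).f s)^[m0] c0).1 (((Half.chf h i).f s)^[m0 + 1] c0).2 := by
      rw [Function.iterate_succ_apply']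
      rfl
    have hR : (((Half.chf h i).f s)^[m0 + 1] c0).1 ∈ (Half.chf h i).R := by
      by_contra hcon
      have h6 := hview (((Half.chf h i).f s)^[m0] c0).1 (hin m0 le_rfl).1
        (B3_sub _ _ (hin m0 le_rfl).2) (((Half.chf h i).f s)^[m0 + 1] c0).2
        (by rw [← hstep]; exact B3_sub _ _ hB) (by rw [← hstep]; exact hcon)
      rw [← hy'] at h6
      exact h6 _ hg
    have hglue := (Half.chf h i).glue_next s (c := ((Half.chf h i).f s)^[m0] c0)
      (hin m0 le_rfl).1 (by rw [← Function.iterate_succ_apply' ((Half.chf h i).f s)]; exact hR)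
    rw [← Function.iterate_succ_apply' ((Half.chf h i).f s), ← hy'] at hglue
    have hx2 : x = (Half.chf h i).pe (((Half.chf h i).f s)^[m0 + 1] c0) :=
      A.gd_fn _ _ _ hg hglue
    have hceq : ((Half.chf h i).f s)^[m0 + 1] c0 = c0 :=
      (Half.chf h i).pe_inj hR hcR (by rw [← hx2, hpe])
    have hA : ∀ j ≤ m0, (((Half.chf h i).f s)^[j] c0).1 ∈
        (quadB (o.1 - ρ) (o.1 + 2 * ρ) (o.2 - ρ) (o.2 + 2 * ρ) p pat).A := fun j hj =>
      (Pt266.mem_quadB hP3).2 (hin j hj)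
    have hW := Pt266.iter_wk hF (A := (quadB (o.1 - ρ) (o.1 + 2 * ρ) (o.2 - ρ) (o.2 + 2 * ρ)
      p pat).A) s c0 m0 hA
    have hYX : RG (full (quadB (o.1 - ρ) (o.1 + 2 * ρ) (o.2 - ρ) (o.2 + 2 * ρ) p pat).A)
        (op (Half.chf h i) s (((Half.chf h i).f s)^[m0] c0)) (ip c0) := by
      have h7 := Pt266.ip_next (C := Half.chf h i) s (((Half.chf h i).f s)^[m0] c0)
      rw [← Function.iterate_succ_apply' ((Half.chf h i).f s), hceq] at h7
      rw [rg_full]
      refine ⟨hA m0 le_rfl, ?_, h7⟩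
      have h8 : c0.1 = (op (Half.chf h i) s (((Half.chf h i).f s)^[m0] c0)).1 +
          dir (op (Half.chf h i) s (((Half.chf h i).f s)^[m0] c0)).2 := congrArg Prod.fst h7
      rw [← h8]
      exact hA 0 (Nat.zero_le _)
    have hml : (List.range (m0 + 1)).map (fun j => (Half.chf h i).pe (((Half.chf h i).f s)^[j] c0)) =
        ((List.range (m0 + 1)).map fun j => ip (((Half.chf h i).f s)^[j] c0)).map
          (mp (Half.chf h i).emb) := by
      rw [List.map_map]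
      refine List.map_congr_left fun j _ => ?_
      exact Pt266.pe_ip hF _
    have := loopC (ch := ch) E H (hP3 : Patt _ (Bx (o.1 - ρ) (o.1 + 2 * ρ) (o.2 - ρ) (o.2 + 2 * ρ))
      p pat) hW hYX (by rw [← hml, ← hl']; exact hnd)
    rw [hcx, ← hpe, Pt266.pe_ip hF]
    exact this

end

end Crest.Agent.R158.Ne808
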