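import Crest.Agent.R158.Pt11_266
import Crest.Agent.R158.Ne6_808
import Crest.Agent.R158.Nz8_399

/-!
# R158, patches (helper266), file Pt12: special points of a half environment

* `boxP_of` : the box of an admissible special point, `sv_z` : value of a class
* **`zero_special`** : a factor `mk`, `e2`, `e1` of value `0` gives a class of value `0`
* **`cv_special`, `rf_special`** : values of the strands counted at the corners
-/

set_option autoImplicit false
set_option linter.unusedVariables false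
set_option linter.unusedSectionVars false
set_option linter.unusedSimpArgs false
set_option synthInstance.maxSize 1000

noncomputable section

namespace Crest.Agent.R158.Pt266

open Crest.Agent.R158.Sw300 (Port thru tn)
open Crest.Agent.R158.Xr249 (full CPath)
open Crest.Agent.R158.Nm211 (St Dir mv dx dy trn nx6 rd opp Hit KK Far)
open Crest.Agent.R158.Ka470 (Patt View Free en ex sg B1 B3 Bv Cuts Half)
open Crest.Agent.R158.Ad350 (tnet tql seam)
open Crest.Agent.R158.Env664 (TG)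
open Crest.Agent.R158.Lr158 (PhH OpenH gg Cg)
open Crest.Agent.R158.Ne808 (DN nt cpb)
open Crest.Agent.R158.Nz399 (Kind Tk Dk Yk Xk qd rt rs pl ps od fe we patK rq mem_Tk Kn Kp G1 Sp
  SpOk Chg kd Fk dbe dch fv)

variable {A : Half} {ρ : ℕ} {h : A.Sz ρ} {i : Fin 4} {p : ℤ × ℤ} {k : Kind} {g N n : ℕ}
  {T : Finset TG} {be : Port TG → Port TG} {ch : Port TG → ℝ} {ps' cc : TG × ZMod 4 → ℤ} {cl : ℤ}
  {O : Finset (Port TG)} {s : TG × Bool → Bool}

/-- box of a special point -/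
theorem boxP_of (E : DN A T be O) (H : PhH A ch ps' cc cl) (hB : A.Good ρ i (Bv N p))
    (hP : Patt (Half.chf h i).R (Bv N p) p (patK k g)) :
    BoxP (Half.chf h i) (dbe be O) (dch ch O) N p (patK k g) (cpb h i) (Cg cc cl h i) where
  F := Half.chf_F h i
  patt := hP
  view := hB.view h
  rule := ⟨gg A cl i, Ne808.gauge_of E H hP, Ne808.ruleC_of H E.hO hB hP⟩

/-- value of the class of a strand -/
theorem sv_z (E : DN A T be O) {x y : (TG × Bool) × ZMod 4} {v : ℝ} (hx : A.tH x.1.1)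
    (hy : A.tH y.1.1) (hv : SV A.Gd (dbe be O) (dch ch O) s x y v) :
    ‖(nt T be O ch s).z ((nt T be O ch s).cls (some x))‖ = |v| := by
  obtain ⟨l, h1, h2, h3, h4⟩ := hv
  rw [E.z_arc hx hy (Ne808.pk h1) h2 h3, h4]

lemma cpb_eq {b : Bool} {B : Set (ℤ × ℤ)} {X : (ℤ × ℤ) × ZMod 4}
    (hk : ∀ u ∈ B, u ∈ (Half.chf h i).R → ((Half.chf h i).emb u).2 = b)
    (h1 : X.1 ∈ B) (h2 : X.1 ∈ (Half.chf h i).R) : cpb h i X = !b := by
  unfold cpb
  rw [hk _ h1 h2]

/-- **a factor of value `0` gives a class of value `0`** -/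
theorem zero_special (E : DN A T be O) (H : PhH A ch ps' cc cl) (h : A.Sz ρ) {x : Sp}
    (hx : SpOk h (Cg cc cl h) x) (hf : kd x.f = .mk) (h0 : x.val h (3 * ρ) s = 0) :
    ∃ X : (ℤ × ℤ) × ZMod 4, X.1 ∈ (Half.chf h x.i).R ∧
      A.tH (mp (Half.chf h x.i).emb X).1.1 ∧
      (nt T be O ch s).z ((nt T be O ch s).cls (some (mp (Half.chf h x.i).emb X))) = 0 := by
  have hρ := h.pos
  obtain ⟨i, f, g, p⟩ := x
  obtain ⟨hgood, hpatt, k, hk, hchg⟩ := hx
  simp only at hgood hpatt hk hchg hf ⊢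
  rw [hf] at hpatt
  have hbox := boxP_of E H hgood hpatt
  have fin : ∀ {a a' : ℤ} {v : ℝ}, (quadV (5 * ρ) p (patK .mk g)).Real (fe g p a) →
      (quadV (5 * ρ) p (patK .mk g)).Real (fe g p a') →
      SV A.Gd (dbe be O) (dch ch O) s (mp (Half.chf h i).emb (fe g p a))
        (mp (Half.chf h i).emb (fe g p a')) v → v = 0 →
      ∃ X : (ℤ × ℤ) × ZMod 4, X.1 ∈ (Half.chf h i).R ∧
      A.tH (mp (Half.chf h i).emb X).1.1 ∧
      (nt T be O ch s).z ((nt T be O ch s).cls (some (mp (Half.chf h i).emb X))) = 0 := by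
    intro a a' v h1 h2 h3 h4
    refine ⟨fe g p a, ((mem_quadB hpatt).1 h1.1).1, Ne808.real_tH hpatt h1, ?_⟩
    rw [← norm_eq_zero, sv_z E (Ne808.real_tH hpatt h1) (Ne808.real_tH hpatt h2) h3, h4, abs_zero]
  have hcp : ∀ {a : ℤ}, (quadV (5 * ρ) p (patK .mk g)).Real (fe g p a) →
      cpb h i (fe g p a) = !k := fun h1 =>
    cpb_eq hk ((mem_quadB hpatt).1 h1.1).2 ((mem_quadB hpatt).1 h1.1).1
  have hval : fv f (3 * ρ) (stdf (Half.chf h i) s g p) = 0 := h0
  cases f with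
  | cv => simp [kd] at hf
  | rf => simp [kd] at hf
  | mk =>
    have h1 : Kn .mk (3 * ρ) (stdf (Half.chf h i) s g p) ≠ 0 := by
      intro h2
      have h3 : fv .mk (3 * ρ) (stdf (Half.chf h i) s g p) = 1 := by
        unfold Nz399.fv
        exact Set.indicator_of_mem (s := {s | Kn .mk (3 * ρ) s = 0}) h2 _
      rw [h3] at hval
      norm_num at hval
    obtain ⟨c0, hc, hh⟩ := kn_ex h1
    obtain ⟨a, a', rfl, ha, ha', hX, hY, hv⟩ := sv_mk hbox (by omega) hc hh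
    refine fin hX hY hv ?_
    have h2 := hchg a a' ha.1 ha.2 ha'.1 ha'.2
    rw [hcp hX]
    cases k
    · exact Ne808.val_true_zero (by simpa using h2)
    · exact Ne808.val_false0_zero (by simpa using h2)
  | e2 =>
    obtain ⟨rfl, hc1, hc2⟩ := hchg
    have h1 : stdf (Half.chf h i) s g p ∉ Tw440.E2 (3 * ρ) := by
      intro h2
      have h3 : fv .e2 (3 * ρ) (stdf (Half.chf h i) s g p) = 1 := by
        unfold Nz399.fv
        exact Set.indicator_of_mem h2 _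
      rw [h3] at hval
      norm_num at hval
    obtain ⟨a', ha', hX, hY, ⟨h4, hv⟩ | ⟨h4, hv⟩⟩ := sv_e2 hbox (by omega) (by omega) h1
    · refine fin hX hY hv ?_
      rw [hcp hX]
      exact Ne808.val_true_zero (hc2 a' ha'.1 h4)
    · refine fin hX hY hv ?_
      rw [hcp hX]
      exact Ne808.val_true_zero (hc1 a' h4 ha'.2)
  | e1 =>
    obtain ⟨rfl, hc1⟩ := hchg
    have h1 : stdf (Half.chf h i) s g p ∉ G1 (3 * ρ) := by
      intro h2
      have h3 : fv .e1 (3 * ρ) (stdf (Half.chf h i) s g p) = 1 := by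
        unfold Nz399.fv
        exact Set.indicator_of_mem h2 _
      rw [h3] at hval
      norm_num at hval
    obtain ⟨a, a', ha, ha', hX, hY, hv⟩ := sv_e1 hbox (by omega) h1
    refine fin hX hY hv ?_
    rw [hcp hX]
    exact Ne808.val_false0_zero (hc1 a a' (by omega) ha.2 ha'.1 ha'.2)

lemma val_cv : val false 1 0 = 2 := by
  unfold val
  simp only [Bool.false_eq_true, if_false]
  have e : Real.pi / 6 - Real.pi / 6 * ((1 : ℤ) : ℝ) - Real.pi / 3 * ((0 : ℤ) : ℝ) = 0 := by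
    push_cast; ring
  rw [e, Real.cos_zero]
  norm_num

/-- **convex corners** : the counted strands have value `2` -/
theorem cv_special (E : DN A T be O) (H : PhH A ch ps' cc cl) (h : A.Sz ρ) {i : Fin 4} {g : ℕ}
    {p : ℤ × ℤ} (hx : SpOk h (Cg cc cl h) ⟨i, .cv, g, p⟩) {c0 : St ℤ} (hc : c0 ∈ Xk .cv (3 * ρ))
    (hh : Hit (nx6 (stdf (Half.chf h i) s g p)) (Dk .cv (3 * ρ)) (Yk .cv) c0) :
    ∃ a a' : ℤ, c0 = ((a, 0), 0) ∧ (0 ≤ a ∧ a < (3 * ρ : ℕ)) ∧ (0 ≤ a' ∧ a' < (3 * ρ : ℕ)) ∧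
      (quadV (5 * ρ) p (patK .cv g)).Real (fe g p a) ∧
      (quadV (5 * ρ) p (patK .cv g)).Real (we g p a') ∧
      SV A.Gd (dbe be O) (dch ch O) s (mp (Half.chf h i).emb (fe g p a))
        (mp (Half.chf h i).emb (we g p a')) 2 := by
  have hρ := h.pos
  obtain ⟨hgood, hpatt, k, hk, rfl, hchg⟩ := hx
  have hpatt' : Patt (Half.chf h i).R (Bv (5 * ρ) p) p (patK .cv g) := hpatt
  obtain ⟨a, a', h1, h2, h3, h4, h5, h6⟩ := sv_cv (boxP_of E H hgood hpatt') (n := 3 * ρ)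
    (by omega) hc hh
  refine ⟨a, a', h1, h2, h3, h4, h5, ?_⟩
  have e1 : cpb h i (fe g p a) = !true :=
    cpb_eq hk ((mem_quadB hpatt').1 h4.1).2 ((mem_quadB hpatt').1 h4.1).1
  have e2 : Cg cc cl h i (fe g p a) - Cg cc cl h i (we g p a') = 0 := by
    rw [hchg a a' h2.1 h2.2 h3.1 h3.2, sub_self]
  rw [e1, e2, Bool.not_true, val_cv] at h6
  exact h6

/-- **reflex corners** : the counted strands have value `1` -/
theorem rf_special (E : DN A T be O) (H : PhH A ch ps' cc cl) (h : A.Sz ρ) {i : Fin 4} {g : ℕ}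
    {p : ℤ × ℤ} (hx : SpOk h (Cg cc cl h) ⟨i, .rf, g, p⟩) {c0 : St ℤ} (hc : c0 ∈ Xk .rf (3 * ρ))
    (hh : Hit (nx6 (stdf (Half.chf h i) s g p)) (Dk .rf (3 * ρ)) (Yk .rf) c0) :
    ∃ a a' : ℤ, c0 = ((0, a), 1) ∧ (-((3 * ρ : ℕ) : ℤ) ≤ a ∧ a < 0) ∧
      (-((3 * ρ : ℕ) : ℤ) ≤ a' ∧ a' < 0) ∧
      (quadV (5 * ρ) p (patK .rf g)).Real (we g p a) ∧
      (quadV (5 * ρ) p (patK .rf g)).Real (fe g p a') ∧
      ‖(nt T be O ch s).z ((nt T be O ch s).cls (some (mp (Half.chf h i).emb (we g p a))))‖ = 1 := by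
  have hρ := h.pos
  obtain ⟨hgood, hpatt, k, hk, rfl, hchg⟩ := hx
  have hpatt' : Patt (Half.chf h i).R (Bv (5 * ρ) p) p (patK .rf g) := hpatt
  obtain ⟨a, a', h1, h2, h3, h4, h5, h6⟩ := sv_rf (boxP_of E H hgood hpatt') (n := 3 * ρ)
    (by omega) hc hh
  refine ⟨a, a', h1, h2, h3, h4, h5, ?_⟩
  have e1 : cpb h i (we g p a) = !true :=
    cpb_eq hk ((mem_quadB hpatt').1 h4.1).2 ((mem_quadB hpatt').1 h4.1).1
  have e2 : Cg cc cl h i (we g p a) - Cg cc cl h i (fe g p a') = 0 := by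
    rw [hchg a a' h2.1 h2.2 h3.1 h3.2, sub_self]
  rw [e1, e2, Bool.not_true] at h6
  rw [sv_z E (Ne808.real_tH hpatt' h4) (Ne808.real_tH hpatt' h5) h6]
  exact Ne808.val_false_rf

end Crest.Agent.R158.Pt266
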