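import Crest.Agent.R158.Ne7_808
import Crest.Agent.R158.Pt12_266

/-!
# R158, block Q1d, leaf (E) (helper808), part 8: **the pointwise theorem**

* `cls_cases` : every class is big, or of weight at most `1`, or counted at a convex corner of the
  second copy
* `seen_of` : admissible special points are completely seen
* **`pw`** : `‖z‖ ≤ √3 ^ (#ends / 2) * ((∏ x ∈ X, x.val) * 2 ^ BN)`
-/

set_option autoImplicit false
set_option linter.unusedSectionVars false
set_option synthInstance.maxSize 1000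

noncomputable section

namespace Crest.Agent.R158.Ne808

open Crest.Agent.R158.Nm211
open Crest.Agent.R158.Nz399
open Crest.Agent.R158.Ka470
open Crest.Agent.R158.Ad350 (Net tnet ports mem_ports mem_ports' tnet_ok seam)
open Crest.Agent.R158.Sw300 (Port thru)
open Crest.Agent.R158.Env664 (TG)
open Crest.Agent.R158.Lr158 (PhH OpenH Phi gg Cg Stp nxe REnd)
open Crest.Agent.R158.Pt266 (Quad quadB mp dir Gauge NxT val sgn wph RG RuleC ip op tt Cl comp
  rg_full pl_four qd_pl_eq qd_pl_inj fe_face we_face typ_cv typ_rf rg_glu stdf)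
open Crest.Agent.R158.Xr249 (full)

section

variable {A : Half} {ρ : ℕ} {h : A.Sz ρ} {i : Fin 4} {x1 x2 z1 z2 : ℤ} {o p : ℤ × ℤ}
  {pat : Bool → Bool → Bool} {T : Finset TG} {be : Port TG → Port TG}
  {ch : Port TG → ℝ} {ps cc : TG × ZMod 4 → ℤ} {cl : ℤ} {O : Finset (Port TG)}
  {s : TG × Bool → Bool}

theorem cw_le_one {P : Type*} [DecidableEq P] {N : Net P} {c : Finset P}
    (he : (N.eds c).Nonempty) (hz : ‖N.z c‖ ≤ √3) : N.cw c ≤ 1 := by
  unfold Net.cw
  rw [if_pos he, div_le_one (by positivity)]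
  exact hz

/-- a strand between real ends of a small box is of weight at most `1` or counted -/
theorem arc_cases {L a' b' c' : ℤ}
    (m : A.Mc L a' b' c') (h : A.Sz ρ) (h' : A.Sz' ρ L) {X : Finset Sp}
    (hX : XOk h L (Cg cc cl h) X) (hC : RfC h L (Cg cc cl h))
    (hP : Patt (Half.chf h i).R (B5 ρ o) p pat) (hcut : Cuts (B5 ρ o) p → p ∈ A.Ver L i)
    {x y : (ℤ × ℤ) × ZMod 4} {k : List ((ℤ × ℤ) × ZMod 4)}
    (hx : (quadB (o.1 - ρ) (o.1 + 2 * ρ) (o.2 - ρ) (o.2 + 2 * ρ) p pat).Real x)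
    (hy : (quadB (o.1 - ρ) (o.1 + 2 * ρ) (o.2 - ρ) (o.2 + 2 * ρ) p pat).Real y)
    (hw : Pt266.Wk (s ∘ (Half.chf h i).emb)
      (RG (full (quadB (o.1 - ρ) (o.1 + 2 * ρ) (o.2 - ρ) (o.2 + 2 * ρ) p pat).A)) x y k)
    {D : ℤ} (ht : (quadB (o.1 - ρ) (o.1 + 2 * ρ) (o.2 - ρ) (o.2 + 2 * ρ) p pat).Typ x y D)
    (hb : cpb h i y = cpb h i x) :
    |val (cpb h i x) D (Cg cc cl h i x - Cg cc cl h i y)| ≤ √3 ∨
    ∃ g < 4, (⟨1, .cv, g, p⟩ : Sp) ∈ X ∧
      ∃ c0 ∈ (⟨1, .cv, g, p⟩ : Spot (Fin 4)).cs (Half.chf h) (3 * ρ) s,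
        some (mp (Half.chf h i).emb x) = some ((Half.chf h 1).pe c0) := by
  cases hcx : cpb h i x with
  | true => exact Or.inl val_true
  | false =>
    rw [hcx] at hb
    have hD : D = 0 ∨ D = 1 ∨ D = -1 := by
      rcases ht with ⟨h1, -⟩ | ⟨h1, -⟩ | ⟨h1, -⟩
      · exact Or.inl h1
      · exact Or.inr (Or.inl h1)
      · exact Or.inr (Or.inr h1)
    rcases hD with rfl | rfl | rfl
    · exact Or.inl val_false0
    · exact Or.inr (cv_counted m h h' hX hP hcut hx hy hw ht hcx hb)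
    · left
      rw [rf_const m h h' hC hP hcut hx hy ht hcx hb, sub_self, val_false_rf]
      exact Net.one_le_s3

/-- **the classes** -/
theorem cls_cases (E : DN A T be O) (H : PhH A ch ps cc cl) {L a' b' c' : ℤ}
    (m : A.Mc L a' b' c') (h : A.Sz ρ) (h' : A.Sz' ρ L) {X : Finset Sp}
    (hX : XOk h L (Cg cc cl h) X) (hC : RfC h L (Cg cc cl h)) {c : Finset (Port (TG × Bool))}
    (hc : c ∈ (nt T be O ch s).classes (ports (T ×ˢ (Finset.univ : Finset Bool)))) :
    Half.BigS h s {q | some q ∈ c} ∨ (nt T be O ch s).cw c ≤ 1 ∨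
    ∃ g < 4, ∃ p : ℤ × ℤ, (⟨1, .cv, g, p⟩ : Sp) ∈ X ∧
      ∃ c0 ∈ (⟨1, .cv, g, p⟩ : Spot (Fin 4)).cs (Half.chf h) (3 * ρ) s,
        (nt T be O ch s).cls (some ((Half.chf h 1).pe c0)) = c := by
  rcases small_cls E H h m h' hc with hb | hz | ⟨i, o, p, pat, x, y, k, hg, hP, hcut, hx, hy, hw, rfl⟩
  · exact Or.inl hb
  · exact Or.inr (Or.inl ((Net.cw_le_norm _).trans hz.le))
  right
  have hg3 : A.Good ρ i (Bx (o.1 - ρ) (o.1 + 2 * ρ) (o.2 - ρ) (o.2 + 2 * ρ)) :=
    hg.mono (B3_sub _ _)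
  have hP3 : Patt (Half.chf h i).R (Bx (o.1 - ρ) (o.1 + 2 * ρ) (o.2 - ρ) (o.2 + 2 * ρ)) p pat :=
    hP.mono (B3_sub _ _)
  obtain ⟨he, hcl⟩ := arc_ends (ch := ch) E hg3 hP3 hx hy hw
  have hne : ((nt T be O ch s).eds
      ((nt T be O ch s).cls (some (mp (Half.chf h i).emb x)))).Nonempty := by
    rw [he]
    exact Finset.insert_nonempty _ _
  obtain ⟨D, ⟨ht, hb, hv⟩ | ⟨ht, hb, hv⟩⟩ := arcC E H hg3 hP3 hx hy hw
  · rcases arc_cases m h h' hX hC hP hcut hx hy hw ht hb with h1 | ⟨g, hg4, hgX, c0, hc0, e⟩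
    · exact Or.inl (cw_le_one hne (by rw [hv]; exact h1))
    · exact Or.inr ⟨g, hg4, p, hgX, c0, hc0, by rw [← e]⟩
  · have hw' := Pt266.Wk.reverse (rg_glu (full (quadB (o.1 - ρ) (o.1 + 2 * ρ) (o.2 - ρ)
      (o.2 + 2 * ρ) p pat).A)).sym hw
    rcases arc_cases m h h' hX hC hP hcut hy hx hw' ht hb.symm with
      h1 | ⟨g, hg4, hgX, c0, hc0, e⟩
    · refine Or.inl (cw_le_one hne ?_)
      rw [hv]
      rwa [hb] at h1
    · exact Or.inr ⟨g, hg4, p, hgX, c0, hc0, by rw [← e, hcl]⟩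

/-! ### admissible points are completely seen -/

theorem yk_qd {k : Kind} {c : St ℤ} (hc : c ∈ Yk k) : ¬ qd k c.1 := by
  cases k
  · have hc' : c.1.1 < 0 := hc
    rintro ⟨h1, -⟩
    omega
  · have hc1 : c.1.1 < 0 := hc.1
    have hc2 : c.1.2 < 0 := hc.2.1
    rintro (h1 | h1) <;> omega
  · have hc2 : c.1.2 < 0 := hc.2
    intro h1
    have h1' : 0 ≤ c.1.2 := h1
    omega

theorem seen_of (E : DN A T be O) (h : A.Sz ρ) {k : Kind} {g : ℕ}
    (hB : A.Good ρ i (Bv (5 * ρ) p))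
    (hP : Patt (Half.chf h i).R (Bv (5 * ρ) p) p (patK k g)) :
    (⟨i, k, g, p⟩ : Spot (Fin 4)).Seen (Half.chf h) (dbe be O) (3 * ρ) := by
  have hρ := h.pos
  have hρ' : (1 : ℤ) ≤ ρ := by exact_mod_cast hρ
  have hF := Half.chf_F h i
  have hmem : ∀ c0 ∈ Dk k (3 * ρ), (Nz399.ps g p c0).1 ∈ (Half.chf h i).R ∧
      (Nz399.ps g p c0).1 ∈ Bv (5 * ρ) p := by
    intro c0 hc0
    obtain ⟨h1, h2⟩ := mem_Tk.1 hc0
    push_cast at h1
    have h3 : pl g p c0.1 ∈ Bv (5 * ρ) p := pl_Bv g p (by push_cast; omega)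
    rw [ps_pl]
    refine ⟨?_, h3⟩
    rw [hP _ h3, patK_pl]
    exact h2
  refine ⟨?_, ?_, ?_⟩
  · rintro c ⟨c0, hc0, rfl⟩
    exact (hmem c0 hc0).1
  · intro c hc
    obtain ⟨c0, hc0, rfl⟩ := Finset.mem_image.1 hc
    have hD := hmem c0 (Xk_Dk hc0)
    have hq : Free A.Gd ((Half.chf h i).pe (Nz399.ps g p c0)) := by
      rw [Pt266.pe_ip hF]
      have hreal : (Pt266.quadV (5 * ρ) p (patK k g)).Real (ip (Nz399.ps g p c0)) := by
        cases k
        · obtain ⟨x, hx, rfl⟩ := Finset.mem_image.1 hc0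
          rw [Finset.mem_Ico] at hx
          rw [Pt266.ip_floor]
          push_cast at hx
          exact Pt266.real_fe_std hP (by omega) (by push_cast; omega) (by push_cast; omega)
            ⟨hx.1, le_rfl⟩ (fun hq => absurd hq.2 (by norm_num))
        · obtain ⟨y, hy, rfl⟩ := Finset.mem_image.1 hc0
          rw [Finset.mem_Ico] at hy
          rw [Pt266.ip_wall]
          push_cast at hy
          refine Pt266.real_we_std hP (by omega) (by push_cast; omega) (by push_cast; omega)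
            (Or.inl le_rfl) ?_
          rintro (hq | hq)
          · exact absurd hq (by norm_num)
          · have hq' : 0 ≤ y := hq
            omega
        · obtain ⟨x, hx, rfl⟩ := Finset.mem_image.1 hc0
          rw [Finset.mem_Ico] at hx
          rw [Pt266.ip_floor]
          push_cast at hx
          refine Pt266.real_fe_std hP (by omega) (by push_cast; omega) (by push_cast; omega)
            (show (0 : ℤ) ≤ 0 from le_rfl) (fun hq => ?_)
          have hq' : (0 : ℤ) ≤ -1 := hq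
          omega
      exact Pt266.free_of_real hF hP (hB.view h) hreal
    exact (E.free (Lr158.tH_emb h i hD.1)).1 hq
  · rintro c ⟨c0, hc0, rfl⟩ c' ⟨c0', hc0', rfl⟩ hstep
    obtain ⟨hR, hBv⟩ := hmem c0 hc0
    have hstd := ps_step.1 hstep
    have h1 := (mem_Tk.1 hc0).1
    push_cast at h1
    have h2 : c0'.1.1 = c0.1.1 + dx c0'.2 ∧ c0'.1.2 = c0.1.2 + dy c0'.2 := by
      rw [hstd]; simp [mv]
    have h3 : (Nz399.ps g p c0').1 ∈ Bv (5 * ρ) p := by
      rw [ps_pl]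
      refine pl_Bv g p ?_
      rcases dxy c0'.2 with ⟨-, h3, h4⟩ | ⟨-, h3, h4⟩ | ⟨-, h3, h4⟩ | ⟨-, h3, h4⟩ <;>
        (push_cast; omega)
    have h4 : (Nz399.ps g p c0').1 ∉ (Half.chf h i).R := by
      rw [ps_pl] at h3 ⊢
      rw [hP _ h3, patK_pl]
      exact yk_qd hc0'
    have h5 := hB.view h (Nz399.ps g p c0).1 hR hBv (Nz399.ps g p c0').2
      (by rw [← hstep]; exact h3) (by rw [← hstep]; exact h4)
    have h6 : A.tH ((Half.chf h i).pt (Nz399.ps g p c0).1 (ex (Nz399.ps g p c0').2)).1.1 :=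
      Lr158.tH_emb h i hR
    exact (E.free h6).1 h5

/-! ### the pointwise theorem -/

/-- the spot of a special point -/
def spo (x : Sp) : Spot (Fin 4) := ⟨x.i, kd x.f, x.g, x.p⟩

/-- weight of the counted strands -/
def wt (v : Spot (Fin 4)) : ℝ := if v.k = .cv then 2 / √3 else 1 / √3

theorem wt_cv {v : Spot (Fin 4)} (hv : v.k = .cv) : wt v = 2 / √3 := if_pos hv

theorem wt_rf {v : Spot (Fin 4)} (hv : v.k = .rf) : wt v = 1 / √3 :=
  if_neg (by rw [hv]; decide)

theorem wt_nonneg (v : Spot (Fin 4)) : 0 ≤ wt v := by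
  unfold wt; split_ifs <;> positivity

theorem val_spo (h : A.Sz ρ) {x : Sp} (hf : x.f = .cv ∨ x.f = .rf) (n : ℕ) :
    x.val h n s = wt (spo x) ^ (spo x).K (Half.chf h) n s := by
  obtain ⟨i, f, g, p⟩ := x
  have e : ∀ k, Kp k g p n (rd (Half.chf h i).emb (Half.chf h i).Fn s) =
      Kn k n fun v => xor (od g) (rd (Half.chf h i).emb (Half.chf h i).Fn s (pl g p v)) :=
    fun k => Kp_eq k g p n _
  rcases hf with hf | hf
  · simp only at hf
    subst hf
    rw [wt_cv (v := spo ⟨i, .cv, g, p⟩) rfl]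
    show _ = (2 / √3) ^ Kp .cv g p n (rd (Half.chf h i).emb (Half.chf h i).Fn s)
    rw [e]
    rfl
  · simp only at hf
    subst hf
    rw [wt_rf (v := spo ⟨i, .rf, g, p⟩) rfl]
    show _ = (1 / √3) ^ Kp .rf g p n (rd (Half.chf h i).emb (Half.chf h i).Fn s)
    rw [e]
    rfl

theorem val_ind (h : A.Sz ρ) {x : Sp} (hf : ¬ (x.f = .cv ∨ x.f = .rf)) (n : ℕ) :
    x.val h n s = 0 ∨ x.val h n s = 1 := by
  obtain ⟨i, f, g, p⟩ := x
  have key : ∀ S : Set (ℤ × ℤ → Bool), ∀ z, S.indicator (fun _ => (1 : ℝ)) z = 0 ∨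
      S.indicator (fun _ => (1 : ℝ)) z = 1 := by
    intro S z
    by_cases hz : z ∈ S
    · right; exact Set.indicator_of_mem hz _
    · left; exact Set.indicator_of_notMem hz _
  cases f
  · exact absurd (Or.inl rfl) hf
  · exact absurd (Or.inr rfl) hf
  · exact key _ _
  · exact key _ _
  · exact key _ _

theorem spo_inj {x y : Sp} (hx : x.f = .cv ∨ x.f = .rf) (hy : y.f = .cv ∨ y.f = .rf)
    (e : spo x = spo y) : x = y := by
  obtain ⟨i, f, g, p⟩ := x
  obtain ⟨i', f', g', p'⟩ := y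
  unfold spo at e
  simp only [Spot.mk.injEq] at e
  obtain ⟨rfl, h1, rfl, rfl⟩ := e
  have : f = f' := by
    rcases hx with rfl | rfl <;> rcases hy with rfl | rfl
    · rfl
    · exact absurd h1 (by decide)
    · exact absurd h1 (by decide)
    · rfl
  rw [this]

theorem sup_spo (h : A.Sz ρ) {x : Sp} (hf : x.f = .cv ∨ x.f = .rf) (n : ℕ) {t : TG × Bool} :
    t ∈ (spo x).sup (Half.chf h) n ↔ t ∈ x.sup h n := by
  obtain ⟨i, f, g, p⟩ := x
  unfold Spot.sup Sp.sup Nz399.fS spo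
  rw [Finset.mem_image, Finset.mem_image]
  rcases hf with hf | hf <;> (simp only at hf; subst hf; rfl)

/-- number of big classes -/
theorem big_le (E : DN A T be O) (h : A.Sz ρ) (B : Finset (Finset (Port (TG × Bool))))
    (hB : ∀ c ∈ B, c ∈ (nt T be O ch s).classes (ports (T ×ˢ (Finset.univ : Finset Bool))) ∧
      Half.BigS h s {q | some q ∈ c}) : B.card ≤ BN h s := by
  have hN := E.ok ch s
  refine BN_le h s (fun j : Fin B.card => {q | some q ∈ (B.equivFin.symm j).1}) ?_ ?_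
  · intro j k hjk q hq hq'
    have h1 := hB _ (B.equivFin.symm j).2
    have h2 := hB _ (B.equivFin.symm k).2
    obtain ⟨x, hx, e1⟩ := Finset.mem_image.1 h1.1
    obtain ⟨y, hy, e2⟩ := Finset.mem_image.1 h2.1
    have hne : (nt T be O ch s).cls x ≠ (nt T be O ch s).cls y := by
      rw [e1, e2]
      intro hh
      exact hjk (B.equivFin.symm.injective (Subtype.ext hh))
    have h3 := Net.cls_disj hN (hN.clV.sub hx) (hN.clV.sub hy) hne
    rw [e1, e2] at h3
    exact Finset.disjoint_left.1 h3 hq hq'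
  · intro j
    exact (hB _ (B.equivFin.symm j).2).2

/-- **THE POINTWISE THEOREM** (`PW` of helper399) -/
theorem pw (E : DN A T be O) (H : PhH A ch ps cc cl) {L a' b' c' : ℤ}
    (m : A.Mc L a' b' c') (h : A.Sz ρ) (h' : A.Sz' ρ L) {X : Finset Sp}
    (hX : XOk h L (Cg cc cl h) X) (hC : RfC h L (Cg cc cl h)) :
    ∀ s, ‖(nt T be O ch s).z (ports (T ×ˢ (Finset.univ : Finset Bool)))‖ ≤
      √3 ^ (((nt T be O ch s).eds (ports (T ×ˢ (Finset.univ : Finset Bool)))).card / 2) *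
        ((∏ x ∈ X, x.val h (3 * ρ) s) * 2 ^ BN h s) := by
  classical
  intro s
  have hN := E.ok ch s
  have hρ := h.pos
  by_cases h0 : ∃ x ∈ X, ¬ (x.f = .cv ∨ x.f = .rf) ∧ x.val h (3 * ρ) s = 0
  · -- a factor of value `0`
    obtain ⟨x, hx, hf, hx0⟩ := h0
    have hkd : kd x.f = .mk := by
      cases hxf : x.f
      · exact absurd (Or.inl hxf) hf
      · exact absurd (Or.inr hxf) hf
      · rfl
      · rfl
      · rfl
    obtain ⟨Y, -, h2, h3⟩ := Pt266.zero_special E H h (hX.ok x hx) hkd hx0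
    have h4 : (some (mp (Half.chf h x.i).emb Y) : Port (TG × Bool)) ∈
        ports (T ×ˢ (Finset.univ : Finset Bool)) := mem_ports.2 (E.mem.2 h2)
    have h5 : (nt T be O ch s).z (ports (T ×ˢ (Finset.univ : Finset Bool))) = 0 := by
      have h6 := Net.z_classes hN hN.clV
      refine h6.trans (Finset.prod_eq_zero (Finset.mem_image_of_mem _ h4) h3)
    rw [h5, norm_zero, Finset.prod_eq_zero hx hx0]
    simp
  push Not at h0
  set X0 := X.filter fun x => x.f = .cv ∨ x.f = .rf with hX0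
  have hprod : ∏ x ∈ X, x.val h (3 * ρ) s = ∏ x ∈ X0, x.val h (3 * ρ) s := by
    rw [hX0, Finset.prod_filter]
    refine Finset.prod_congr rfl fun x hx => ?_
    by_cases hf : x.f = .cv ∨ x.f = .rf
    · rw [if_pos hf]
    · rw [if_neg hf]
      rcases val_ind (s := s) h hf (3 * ρ) with h1 | h1
      · exact absurd h1 (h0 x hx (not_or.1 hf))
      · exact h1
  have hX0f : ∀ x ∈ X0, x ∈ X ∧ (x.f = .cv ∨ x.f = .rf) := fun x hx => Finset.mem_filter.1 hx
  have hinj : Set.InjOn spo (X0 : Set Sp) := fun x hx y hy e =>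
    spo_inj (hX0f x hx).2 (hX0f y hy).2 e
  set I := X0.image spo with hI
  have hprod2 : ∏ x ∈ X0, x.val h (3 * ρ) s = ∏ v ∈ I, wt v ^ v.K (Half.chf h) (3 * ρ) s := by
    rw [hI, Finset.prod_image hinj]
    exact Finset.prod_congr rfl fun x hx => val_spo h (hX0f x hx).2 _
  have hIx : ∀ v ∈ I, ∃ x ∈ X, (x.f = .cv ∨ x.f = .rf) ∧ spo x = v := by
    intro v hv
    obtain ⟨x, hx, rfl⟩ := Finset.mem_image.1 hv
    exact ⟨x, (hX0f x hx).1, (hX0f x hx).2, rfl⟩
  have hseen : ∀ v ∈ I, v.Seen (Half.chf h) (dbe be O) (3 * ρ) := by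
    intro v hv
    obtain ⟨x, hx, hf, rfl⟩ := hIx v hv
    exact seen_of E h (hX.ok x hx).good (hX.ok x hx).patt
  have hdis : ∀ v ∈ I, ∀ v' ∈ I, v ≠ v' →
      Disjoint (v.sup (Half.chf h) (3 * ρ)) (v'.sup (Half.chf h) (3 * ρ)) := by
    intro v hv v' hv' hne
    obtain ⟨x, hx, hf, rfl⟩ := hIx v hv
    obtain ⟨x', hx', hf', rfl⟩ := hIx v' hv'
    have h1 := hX.dis x hx x' hx' fun e => hne (by rw [e])
    rw [Finset.disjoint_left] at h1 ⊢
    intro t ht ht'
    exact h1 ((sup_spo h hf _).1 ht) ((sup_spo h hf' _).1 ht')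
  have hG : ∀ a b, A.Gd a b → dbe be O (some a) = some b ∧ a ≠ b := E.g1
  have hA : ∀ i, ∀ u ∈ (Half.chf h i).R, (Half.chf h i).emb u ∈
      T ×ˢ (Finset.univ : Finset Bool) := fun i => E.emb h i
  set B := ((nt T be O ch s).classes (ports (T ×ˢ (Finset.univ : Finset Bool)))).filter
    fun c => Half.BigS h s {q | some q ∈ c} with hBdef
  have hBcard : B.card ≤ BN h s := big_le (ch := ch) E h B fun c hc => Finset.mem_filter.1 hc
  have hcw : ∀ v ∈ I, ∀ c ∈ v.cs (Half.chf h) (3 * ρ) s,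
      (nt T be O ch s).cw ((nt T be O ch s).cls (some ((Half.chf h v.i).pe c))) ≤ wt v := by
    intro v hv c hc
    obtain ⟨y, -, -, hport, heds, -⟩ := Spot.cs_eds (ch := dch ch O) hN hG hA (hseen v hv) hc
    have hne : ((nt T be O ch s).eds
        ((nt T be O ch s).cls (some ((Half.chf h v.i).pe c)))).Nonempty := by
      have heds' : (nt T be O ch s).eds ((nt T be O ch s).cls (some ((Half.chf h v.i).pe c))) =
        {some ((Half.chf h v.i).pe c), some y} := heds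
      rw [heds']
      exact Finset.insert_nonempty _ _
    have hcwv : (nt T be O ch s).cw ((nt T be O ch s).cls (some ((Half.chf h v.i).pe c))) =
        ‖(nt T be O ch s).z ((nt T be O ch s).cls (some ((Half.chf h v.i).pe c)))‖ / √3 := by
      unfold Net.cw
      rw [if_pos hne]
    rw [hcwv]
    obtain ⟨x, hx, hf, rfl⟩ := hIx v hv
    rcases hf with hf | hf
    · rw [wt_cv (v := spo x) (by show kd x.f = _; rw [hf]; rfl)]
      exact div_le_div_of_nonneg_right (Net.norm_cls_le hN (hN.clV.sub hport)) (by positivity)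
    · rw [wt_rf (v := spo x) (by show kd x.f = _; rw [hf]; rfl)]
      refine div_le_div_of_nonneg_right ?_ (by positivity)
      obtain ⟨i, f, g, p⟩ := x
      simp only at hf
      subst hf
      obtain ⟨c0, hc0, rfl⟩ := Finset.mem_image.1 ((Spot.mem_cs.1 hc).1)
      have hc1 := (mem_cs_ps (C := Half.chf h) (i := i) (k := .rf)).1 hc
      obtain ⟨a, a1, rfl, -, -, -, -, hz⟩ :=
        Pt266.rf_special (s := s) E H h (hX.ok _ hx) hc1.1 hc1.2
      have e2 : (Half.chf h i).pe (Nz399.ps g p ((0, a), 1)) =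
          mp (Half.chf h i).emb (we g p a) := by
        rw [Pt266.pe_ip (Half.chf_F h i), Pt266.ip_wall]
      have e3 : (Half.chf h (spo ⟨i, Fk.rf, g, p⟩).i).pe
          (Nz399.ps (spo ⟨i, Fk.rf, g, p⟩).g (spo ⟨i, Fk.rf, g, p⟩).p ((0, a), 1)) =
          mp (Half.chf h i).emb (we g p a) := e2
      rw [e3]
      exact hz.le
  have key := Spot.prod_bound (ch := dch ch O) (n := 3 * ρ) (s := s) hN hG hA I hseen hdis wt
    (fun v _ => wt_nonneg v) hcw B ?_
  · refine le_trans key ?_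
    rw [hprod, hprod2, mul_assoc]
    refine mul_le_mul_of_nonneg_left ?_ (by positivity)
    refine mul_le_mul_of_nonneg_left ?_ (Finset.prod_nonneg fun v _ => pow_nonneg (wt_nonneg v) _)
    exact pow_le_pow_right₀ (by norm_num) hBcard
  · intro c hc hnot hcB
    rcases cls_cases (ch := ch) E H m h h' hX hC hc with h1 | h1 | ⟨g, hg, p, hpX, c0, hc0, e⟩
    · exact absurd (Finset.mem_filter.2 ⟨hc, h1⟩) hcB
    · exact h1
    · exfalso
      refine hnot (spo ⟨1, .cv, g, p⟩) ?_ c0 hc0 e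
      exact Finset.mem_image_of_mem _ (Finset.mem_filter.2 ⟨hpX, Or.inl rfl⟩)

end

end Crest.Agent.R158.Ne808
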