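import Crest.Agent.R158.Nz10_399
import Crest.Agent.R158.Nn2_857
import Crest.Agent.R158.Fm3_857
import Crest.Agent.R158.Ne8_808

/-!
# R158, block Q1d (helper399), part 11: the members of the literal family

* `XD`, `XAll` : the lists of special points (932)
* `MemP`, `member : XAll P → MemP P` (with the pointwise theorem `Ne808.pw`)
-/

set_option autoImplicit false

noncomputable section

namespace Crest.Agent.R158.Nz399

open MeasureTheory ProbabilityTheory unitInterval Matrix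
open Crest.Agent.R158.Rs689
open Crest.Agent.R158.Nm211
open Crest.Agent.R158.Ka470
open Crest.Agent.R158.Env664 (TG D Run Band Mac lowT upT Adj4)
open Crest.Agent.R158.Sw300 (Port)
open Crest.Agent.R158.Ad350 (ports tnet mem_ports mem_ports')
open Crest.Agent.R158.Cs410 (nrm nrm_nonneg FZ NormP OnB InHalf InA OutA σ0)
open Crest.Agent.R158.Bd932 (That e3)
open Crest.Agent.R158.Ao857 (nn beL chL topO botO lowM upM InZ OutZ plainL Split mem_topO)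
open Crest.Agent.R158.Ne808 (DN nt RfC)
open Crest.Agent.R158.Rf896 (rA rB rp)
open Crest.Agent.R158.Fm857 (fz ctw phi clow JP mkG)
open Crest.Agent.R158.Lr158 (PhH Cg ccU psU phH_low phH_up)
open Crest.Agent.R158.Tj656 (P4)
open Crest.Agent.R158.Nn857 (Nums)

/-- **special points of one half** -/
structure XD {A : Half} {ρ : ℕ} (h : A.Sz ρ) (L : ℤ) (cc : TG × ZMod 4 → ℤ) (cl : ℤ) (M : ℕ)
    (X : Finset Sp) : Prop where
  ok : XOk h L (Cg cc cl h) X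
  rfc : RfC h L (Cg cc cl h)
  card : X.card ≤ M
  cnt : cnt X .cv ≤ cnt X .rf

/-- **special points of the literal family** -/
def XAll (P : P4) : Prop :=
  ∃ M : ℕ, ∀ (a b c L : ℤ) (δ : ℝ) (B : Band (D P.F L)) (ρ κ : ℕ) (yl yu p z0 : ℤ) (a1 b1 : ℕ)
    (N : Nums P a b c L δ B ρ κ yl yu p z0 a1 b1), Even L →
    ∀ e ∈ Finset.insertNone (JP P L δ B), ∃ Xl Xu : Finset Sp,
      XD N.szl.1 L (fun q => Fm857.cp B (L / 2) (mkG P L 0) (mkG P L 1) e (some q))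
        (clow B (L / 2) (mkG P L 0) (mkG P L 1) e) M Xl ∧
      XD N.szu.1 L (ccU (M := Mg949.mac P) B (L / 2) (mkG P L 0) (mkG P L 1) e)
        (-(clow B (L / 2) (mkG P L 0) (mkG P L 1) e + 1)) M Xu ∧
      cnt Xl .mk + cnt Xu .mk = 3 ∧ cnt Xl .e2 + cnt Xu .e2 = (if e = none then 0 else 1) ∧
      cnt Xl .e1 + cnt Xu .e1 = (if e = none then 0 else 1)

/-- **the members** -/
def MemP (P : P4) : Prop :=
  ∃ M : ℕ, ∀ (a b c L : ℤ) (δ : ℝ) (B : Band (D P.F L)) (ρ κ : ℕ) (yl yu p z0 : ℤ) (a1 b1 : ℕ),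
    Nums P a b c L δ B ρ κ yl yu p z0 a1 b1 → Even L → ∀ μ : (fz P L δ B).J,
      Mem (fz P L δ B) κ M ρ
        (Zl814.fe (lowM B (lowT (D P.F L) B.xl B.xr B.y1) a1) (beL B p z0) (topO B a1)).card
        (Zl814.fe (lowM (rB B) (rA (upT (D P.F L) B.xl B.xr B.y2)) b1) (beL (rB B) p (-z0))
          (topO (rB B) b1)).card
        (a1 + 1) (b1 + 1) (if μ.1 = none then 0 else 1) μ

theorem bd_mono {A : Half} {ρ κ κ' : ℕ} (h : A.Bd ρ κ) (hk : κ ≤ κ') : A.Bd ρ κ' := by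
  have h1 : (κ : ℤ) * ρ ≤ κ' * ρ := by gcongr
  obtain ⟨X0, Y0, h2⟩ := h.hH
  refine ⟨⟨X0, Y0, fun v hv => ?_⟩, h.hR.trans h1⟩
  have := h2 v hv
  omega

theorem HB.mono {κ κ' M ρ m a b c : ℕ} {V : ℝ} (h : HB κ M ρ m a b c V) (hk : κ ≤ κ') :
    HB κ' M ρ m a b c V := by
  obtain ⟨A, hs, hbd, h⟩ := h
  exact ⟨A, hs, bd_mono hbd hk, h⟩

theorem Mem.mono {F : Finset (ℤ × ℤ)} {L : ℤ} {B : Band (D F L)} {Fm : Cs410.FamZ B}
    {κ κ' M ρ ml mu a1 b1 k : ℕ} {μ : Fm.J} (h : Mem Fm κ M ρ ml mu a1 b1 k μ) (hk : κ ≤ κ') :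
    Mem Fm κ' M ρ ml mu a1 b1 k μ := by
  obtain ⟨a, a', b, b', c, c', h1, h2, h3, h4, h5⟩ := h
  exact ⟨a, a', b, b', c, c', h1, h2, h3, h4.mono hk, h5.mono hk⟩

theorem member {P : P4} (hX : XAll P) : MemP P := by
  obtain ⟨M, hX⟩ := hX
  refine ⟨M, fun a b c L δ B ρ κ yl yu p z0 a1 b1 N hev μ => ?_⟩
  obtain ⟨Xl, Xu, XL, XU, n1, n2, n3⟩ := hX a b c L δ B ρ κ yl yu p z0 a1 b1 N hev μ.1 μ.2
  refine ⟨_, _, _, _, _, _, n1, n2, n3, ?_, ?_⟩
  · have pw : PW N.szl.1 _ _ _ _ Xl := Ne808.pw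
      (dn_low (lb_low N.mb N.l1 N.l2) (n := a1) (by have := N.ha; omega) N.hz N.hl)
      (phH_low N.mb N.l1 N.l2 N.hz N.hl (L / 2) (mkG P L 0) (mkG P L 1) μ.1 0)
      (lowHalf_mc (lb_low N.mb N.l1 N.l2).d) N.szl.1 N.szl.2 XL.ok XL.rfc
    exact hb_low (lb_low N.mb N.l1 N.l2) (n := a1) (by have := N.ha; omega) N.hz N.hl N.szl.1
      N.bdl (ctw B (L / 2) (mkG P L 0) (mkG P L 1) μ.1) 0
      (phi B (L / 2) (mkG P L 0) (mkG P L 1) μ.1) XL.card XL.ok.dis (fun x hx => (XL.ok.ok x hx).in)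
      XL.cnt pw σ0
  · have pw : PW N.szu.1 _ _ _ _ Xu := Ne808.pw
      (dn_low (lb_up N.mb N.u1 N.u2) (n := b1) (by
        have := N.hb
        show -yu = -B.y2 + b1 + 1
        omega) N.hzR N.hu)
      (phH_up N.mb N.u1 N.u2 N.hzR N.hu (L / 2) (mkG P L 0) (mkG P L 1) μ.1 0)
      (lowHalf_mc (lb_up N.mb N.u1 N.u2).d) N.szu.1 N.szu.2 XU.ok XU.rfc
    exact hb_up N.mb N.u1 N.u2 (n := b1) (by have := N.hb; omega) N.hzR N.hu N.szu.1
      N.bdu (ctw B (L / 2) (mkG P L 0) (mkG P L 1) μ.1 + e3) 0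
      (phi B (L / 2) (mkG P L 0) (mkG P L 1) μ.1) XU.card XU.ok.dis (fun x hx => (XU.ok.ok x hx).in)
      XU.cnt pw σ0

end Crest.Agent.R158.Nz399
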