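import Crest.Agent.R158.Xa1_932
import Crest.Agent.R158.Ka13_470
import Crest.Agent.R158.Nz11_399

/-!
# R158, block Q1d, XAll (helper932), part 2: the lists of special points of the literal family

* `nv_nums` : numbers of the row from 857's `Nums`
* `oth_low`, `oth_up` : location of the points of `XMlow`, `XMup`
* `PlOk` : the planar points are admissible with disjoint supports (612)
* `xd_low`, `xd_up` : `XD` of the two lists
* `xall_of` : the union step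
-/

set_option autoImplicit false

noncomputable section

namespace Crest.Agent.R158.Xa932

open Crest.Agent.R158.Nm211
open Crest.Agent.R158.Ka470
open Crest.Agent.R158.Ka470.Half
open Crest.Agent.R158.Nz399
open Crest.Agent.R158.Lr158
open Crest.Agent.R158.Xs932
open Crest.Agent.R158.Sw300 (Port)
open Crest.Agent.R158.Env664 (TG Mac D Band Run lowT upT mark mem_D div_iff nbc)
open Crest.Agent.R158.Rf896 (rB rA rz rp)
open Crest.Agent.R158.Fm857 (freeG mem_Jd JP DelP mkG mkP clow)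
open Crest.Agent.R158.Tj656 (P4)
open Crest.Agent.R158.Xp612 (V XP)
open Crest.Agent.R158.Xd841 (FarV Oth)
open Crest.Agent.R158.Ne808 (RfC)
open Crest.Agent.R158.Nn857 (Nums)

theorem FarT.mono {L xl xr y1 D D' : ℤ} {t : ℤ × ℤ} (h : FarT L xl xr y1 D t) (hD : D' ≤ D) :
    FarT L xl xr y1 D' t :=
  ⟨fun i j => (h.1 i j).imp hD.trans hD.trans, h.2.1.imp hD.trans hD.trans,
    h.2.2.imp hD.trans hD.trans⟩

variable {P : P4} {a b c L : ℤ} {δ : ℝ} {B : Band (D P.F L)} {ρ κ : ℕ} {yl yu p z0 : ℤ} {a1 b1 : ℕ}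

/-- **numbers of the row** -/
theorem nv_nums (N : Nums P a b c L δ B ρ κ yl yu p z0 a1 b1) : NV B L c (8 * ρ + 4) := by
  have h1 : (1 : ℤ) ≤ ρ := by exact_mod_cast N.ρ1
  have h2 := N.L64
  have h3 := N.c1
  have h4 := N.c2
  have h5 := N.half
  have h6 := N.mb.hy
  exact ⟨by omega, by omega, by omega, by omega, h6, by omega⟩

/-- **points of the lower half** -/
theorem oth_low (N : Nums P a b c L δ B ρ κ yl yu p z0 a1 b1) (hev : Even L)
    {e : Option (Port TG)} (he : e ∈ Finset.insertNone (JP P L δ B)) :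
    ∀ x ∈ XMlow (lowHalf (lb_low N.mb N.l1 N.l2).d) (Hb656.mt P L 0) (Hb656.mt P L 1) e,
      Oth (lowHalf (lb_low N.mb N.l1 N.l2).d) L ρ x := by
  have hV := nv_nums N
  have h1 : (1 : ℤ) ≤ ρ := by exact_mod_cast N.ρ1
  have h2 := N.L64
  have h3 := N.D64
  obtain ⟨c1, -, -, -, -⟩ := col_JP N.R64 N.ρ1 (by omega) h2 he
  intro x hx
  rcases Finset.mem_union.1 hx with hx | hx
  · refine oth_XP (u := false) ?_ ?_ ?_ x hx
    · exact (farT_mark (P := P) hV hev 0 (Or.inl rfl)).mono (by omega)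
    · exact (farT_mark (P := P) hV hev 1 (Or.inl rfl)).mono (by omega)
    · intro t d hd
      rw [hd] at he
      have h5 := farT_e (D' := 8 * ρ + 1) (by omega) (by omega) (by omega)
        (Finset.some_mem_insertNone.1 he) (Or.inl rfl)
      rw [N.mb.xl, N.mb.xr] at h5
      exact h5
  · exact Or.inr (Or.inr ⟨chart_low hx, col_low c1 hx⟩)

/-- **points of the reflected upper half** -/
theorem oth_up (N : Nums P a b c L δ B ρ κ yl yu p z0 a1 b1) (hev : Even L)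
    {e : Option (Port TG)} (he : e ∈ Finset.insertNone (JP P L δ B)) :
    ∀ x ∈ XMup (lowHalf (lb_up N.mb N.u1 N.u2).d) (L / 2) (Hb656.mt P L 0) (Hb656.mt P L 1) e,
      Oth (lowHalf (lb_up N.mb N.u1 N.u2).d) L ρ x := by
  have hV := nv_nums N
  have h1 : (1 : ℤ) ≤ ρ := by exact_mod_cast N.ρ1
  have h2 := N.L64
  have h3 := N.D64
  obtain ⟨-, c1, -, c2, c3⟩ := col_JP N.R64 N.ρ1 (by omega) h2 he
  intro x hx
  rcases Finset.mem_union.1 hx with hx | hx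
  · refine oth_XP (u := true) ?_ ?_ ?_ x hx
    · exact farT_rz ((farT_mark (P := P) hV hev 0 (Or.inr rfl)).mono (by omega))
    · exact farT_rz ((farT_mark (P := P) hV hev 1 (Or.inr rfl)).mono (by omega))
    · intro t d hd
      rw [Option.map_eq_some_iff] at hd
      obtain ⟨q, rfl, hq⟩ := hd
      have h4 := Finset.some_mem_insertNone.1 he
      rcases q with _ | ⟨t' | t', d'⟩
      · exact absurd hq (by simp [rp])
      · rw [rp_inl] at hq
        simp only [Option.some.injEq, Prod.mk.injEq, Sum.inl.injEq] at hq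
        rw [← hq.1]
        have h5 := farT_e (D' := 8 * ρ + 1 + 1) (by omega) (by omega) (by omega) h4 (Or.inr rfl)
        rw [N.mb.xl, N.mb.xr] at h5
        exact farT_rz h5
      · rw [rp_inr] at hq
        simp at hq
  · exact Or.inr (Or.inr ⟨chart_up hx, col_up c1 c2 c3 hx⟩)

/-- **the planar points are admissible with disjoint supports** (612) -/
structure PlOk {A : Half} (h : A.Sz ρ) (C : Fin 4 → (ℤ × ℤ) × ZMod 4 → ℤ) (X : Finset Sp) :
    Prop where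
  ok : ∀ x ∈ X, SpOk h C x
  dis : ∀ x ∈ X, ∀ y ∈ X, x ≠ y → Disjoint (x.sup h (3 * ρ)) (y.sup h (3 * ρ))

/-- members of a list with no corner factors -/
theorem f_of_cnt {X : Finset Sp} {f : Fk} (h : cnt X f = 0) : ∀ x ∈ X, x.f ≠ f := by
  intro x hx hf
  unfold cnt at h
  rw [Finset.card_eq_zero, Finset.filter_eq_empty_iff] at h
  exact h hx hf

/-- **the list of one half**, abstract form -/
theorem xd_of {M' : Mac} {a b c y1 y0 R : ℤ} (d : LD M' L a b c y1 y0 R) (h : (lowHalf d).Sz ρ)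
    (h' : (lowHalf d).Sz' ρ L) (h5 : 5 * (ρ : ℤ) ≤ y0 - y1) (h6 : 6 * (ρ : ℤ) ≤ y1 - c * L)
    {cc : TG × ZMod 4 → ℤ} {cl : ℤ} (hC1 : CvC h L (Cg cc cl h)) (hC2 : RfC' h L (Cg cc cl h))
    (hC3 : RfC h L (Cg cc cl h)) {X S : Finset Sp} (hX : PlOk h (Cg cc cl h) X)
    (hXc : ∀ x ∈ X, x.i = 0 ∨ x.i = 1) (hS : ∀ x ∈ S, SpOk h (Cg cc cl h) x)
    (hSc : ∀ x ∈ S, x.i = 3)
    (hSd : ∀ x ∈ S, ∀ y ∈ S, x ≠ y → Disjoint (x.sup h (3 * ρ)) (y.sup h (3 * ρ)))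
    (hO : ∀ x ∈ X ∪ S, Oth (lowHalf d) L ρ x) (h7 : (X ∪ S).card ≤ 7)
    (h8 : ∀ f, f = Fk.cv ∨ f = Fk.rf → cnt (X ∪ S) f = 0) {M : ℕ} (hM : 4 * M'.F.card + 9 ≤ M) :
    XD h L cc cl M ((lowHalf d).XC ∪ (X ∪ S)) := by
  have hok : ∀ x ∈ X ∪ S, SpOk h (Cg cc cl h) x := by
    intro x hx
    rcases Finset.mem_union.1 hx with hx | hx
    · exact hX.ok x hx
    · exact hS x hx
  have hdis : ∀ x ∈ X ∪ S, ∀ y ∈ X ∪ S, x ≠ y →
      Disjoint (x.sup h (3 * ρ)) (y.sup h (3 * ρ)) :=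
    Xd841.dis_union hX.dis hSd fun x hx y hy' => (dis_planar (hSc y hy') (hXc x hx)).symm
  refine ⟨xok_ld d h h' h5 h6 hC1 hC2 hok hdis hO, hC3, ?_, ?_⟩
  · have h9 := card_ld d (X ∪ S)
    omega
  · exact (cnt_ld d fun x hx => ⟨f_of_cnt (h8 _ (Or.inl rfl)) x hx,
      f_of_cnt (h8 _ (Or.inr rfl)) x hx⟩).1

/-- **the list of the lower half** -/
theorem xd_low (N : Nums P a b c L δ B ρ κ yl yu p z0 a1 b1) (hev : Even L)
    {e : Option (Port TG)} (he : e ∈ Finset.insertNone (JP P L δ B))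
    (hC1 : CvC N.szl.1 L (Cg (fun q => Fm857.cp B (L / 2) (mkG P L 0) (mkG P L 1) e (some q))
      (clow B (L / 2) (mkG P L 0) (mkG P L 1) e) N.szl.1))
    (hC2 : RfC' N.szl.1 L (Cg (fun q => Fm857.cp B (L / 2) (mkG P L 0) (mkG P L 1) e (some q))
      (clow B (L / 2) (mkG P L 0) (mkG P L 1) e) N.szl.1))
    (hC3 : RfC N.szl.1 L (Cg (fun q => Fm857.cp B (L / 2) (mkG P L 0) (mkG P L 1) e (some q))
      (clow B (L / 2) (mkG P L 0) (mkG P L 1) e) N.szl.1))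
    (hP : PlOk N.szl.1 (Cg (fun q => Fm857.cp B (L / 2) (mkG P L 0) (mkG P L 1) e (some q))
      (clow B (L / 2) (mkG P L 0) (mkG P L 1) e) N.szl.1)
      (XP (lowHalf (lb_low N.mb N.l1 N.l2).d) false (Hb656.mt P L 0) (Hb656.mt P L 1) e)) {M : ℕ}
    (hM : 4 * P.F.card + 9 ≤ M) :
    XD N.szl.1 L (fun q => Fm857.cp B (L / 2) (mkG P L 0) (mkG P L 1) e (some q))
      (clow B (L / 2) (mkG P L 0) (mkG P L 1) e) M
      ((lowHalf (lb_low N.mb N.l1 N.l2).d).XC ∪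
        XMlow (lowHalf (lb_low N.mb N.l1 N.l2).d) (Hb656.mt P L 0) (Hb656.mt P L 1) e) := by
  have h1 : (1 : ℤ) ≤ ρ := by exact_mod_cast N.ρ1
  have h2 := N.L64
  have h3 := N.D64
  have h4 := N.y5l
  have h5 := N.c1
  have hy : 5 * (ρ : ℤ) ≤ (lowHalf (lb_low N.mb N.l1 N.l2).d).y0 -
      (lowHalf (lb_low N.mb N.l1 N.l2).d).y1 := by
    show 5 * (ρ : ℤ) ≤ yl - B.y1
    omega
  obtain ⟨c1, -, -, -, -⟩ := col_JP N.R64 N.ρ1 (by omega) h2 he
  have hne : Hb656.mt P L 0 ≠ Hb656.mt P L 1 := Hw949.mt_ne (P := P) (by omega) hev (by decide)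
  exact xd_of (lb_low N.mb N.l1 N.l2).d N.szl.1 N.szl.2 hy (by omega) hC1 hC2 hC3 hP
    (fun x hx => XP_chart hx)
    (ok_low (M := Mg949.mac P) (B := B) (A := lowHalf (lb_low N.mb N.l1 N.l2).d) rfl N.szl.1 hy
      (pla_mkG P L 0) (pla_mkG P L 1) c1 _)
    (fun x hx => chart_low hx) (dis_low hy) (oth_low N hev he) (card_XMlow _ _ _ _)
    (fun f hf => (cnt_XM_cr hne 0 e hf).1) hM

/-- **the list of the reflected upper half** -/
theorem xd_up (N : Nums P a b c L δ B ρ κ yl yu p z0 a1 b1) (hev : Even L)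
    {e : Option (Port TG)} (he : e ∈ Finset.insertNone (JP P L δ B))
    (hC1 : CvC N.szu.1 L (Cg (ccU (M := Mg949.mac P) B (L / 2) (mkG P L 0) (mkG P L 1) e)
      (-(clow B (L / 2) (mkG P L 0) (mkG P L 1) e + 1)) N.szu.1))
    (hC2 : RfC' N.szu.1 L (Cg (ccU (M := Mg949.mac P) B (L / 2) (mkG P L 0) (mkG P L 1) e)
      (-(clow B (L / 2) (mkG P L 0) (mkG P L 1) e + 1)) N.szu.1))
    (hC3 : RfC N.szu.1 L (Cg (ccU (M := Mg949.mac P) B (L / 2) (mkG P L 0) (mkG P L 1) e)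
      (-(clow B (L / 2) (mkG P L 0) (mkG P L 1) e + 1)) N.szu.1))
    (hP : PlOk N.szu.1 (Cg (ccU (M := Mg949.mac P) B (L / 2) (mkG P L 0) (mkG P L 1) e)
      (-(clow B (L / 2) (mkG P L 0) (mkG P L 1) e + 1)) N.szu.1)
      (XP (lowHalf (lb_up N.mb N.u1 N.u2).d) true (rX (Hb656.mt P L 0)) (rX (Hb656.mt P L 1))
        (e.map rp))) {M : ℕ}
    (hM : 4 * (Mg949.mac P).rf.F.card + 9 ≤ M) :
    XD N.szu.1 L (ccU (M := Mg949.mac P) B (L / 2) (mkG P L 0) (mkG P L 1) e)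
      (-(clow B (L / 2) (mkG P L 0) (mkG P L 1) e + 1)) M
      ((lowHalf (lb_up N.mb N.u1 N.u2).d).XC ∪
        XMup (lowHalf (lb_up N.mb N.u1 N.u2).d) (L / 2) (Hb656.mt P L 0) (Hb656.mt P L 1) e) := by
  have h1 : (1 : ℤ) ≤ ρ := by exact_mod_cast N.ρ1
  have h2 := N.L64
  have h3 := N.D64
  have h4 := N.y5u
  have h5 := N.c2
  have hy : 5 * (ρ : ℤ) ≤ (lowHalf (lb_up N.mb N.u1 N.u2).d).y0 -
      (lowHalf (lb_up N.mb N.u1 N.u2).d).y1 := by
    show 5 * (ρ : ℤ) ≤ -yu - -B.y2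
    omega
  obtain ⟨-, c1, c2, c3, c4⟩ := col_JP N.R64 N.ρ1 (by omega) h2 he
  have hne : Hb656.mt P L 0 ≠ Hb656.mt P L 1 := Hw949.mt_ne (P := P) (by omega) hev (by decide)
  have h6 : 6 * (ρ : ℤ) ≤ -B.y2 - (-c - 1) * L := by
    have : (-c - 1) * L = -(c * L) - L := by ring
    rw [this]
    omega
  exact xd_of (lb_up N.mb N.u1 N.u2).d N.szu.1 N.szu.2 hy h6 hC1 hC2 hC3 hP
    (fun x hx => XP_chart hx)
    (ok_up (M := Mg949.mac P) (B := B) (A := lowHalf (lb_up N.mb N.u1 N.u2).d) rfl N.szu.1 hy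
      (pla_mkG P L 0) (pla_mkG P L 1) c2 c1 c3 c4 _)
    (fun x hx => chart_up hx) (dis_up hy c1) (oth_up N hev he) (card_XMup _ _ _ _ _)
    (fun f hf => (cnt_XM_cr hne (L / 2) e hf).2) hM

/-! ### the union step -/

/-- charges at the corners (874) -/
def VcAll (P : P4) : Prop :=
  ∀ (a b c L : ℤ) (δ : ℝ) (B : Band (D P.F L)) (ρ κ : ℕ) (yl yu p z0 : ℤ) (a1 b1 : ℕ)
    (N : Nums P a b c L δ B ρ κ yl yu p z0 a1 b1), Even L →
    ∀ e ∈ Finset.insertNone (JP P L δ B),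
      (CvC N.szl.1 L (Cg (fun q => Fm857.cp B (L / 2) (mkG P L 0) (mkG P L 1) e (some q))
        (clow B (L / 2) (mkG P L 0) (mkG P L 1) e) N.szl.1) ∧
      RfC' N.szl.1 L (Cg (fun q => Fm857.cp B (L / 2) (mkG P L 0) (mkG P L 1) e (some q))
        (clow B (L / 2) (mkG P L 0) (mkG P L 1) e) N.szl.1) ∧
      RfC N.szl.1 L (Cg (fun q => Fm857.cp B (L / 2) (mkG P L 0) (mkG P L 1) e (some q))
        (clow B (L / 2) (mkG P L 0) (mkG P L 1) e) N.szl.1)) ∧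
      (CvC N.szu.1 L (Cg (ccU (M := Mg949.mac P) B (L / 2) (mkG P L 0) (mkG P L 1) e)
        (-(clow B (L / 2) (mkG P L 0) (mkG P L 1) e + 1)) N.szu.1) ∧
      RfC' N.szu.1 L (Cg (ccU (M := Mg949.mac P) B (L / 2) (mkG P L 0) (mkG P L 1) e)
        (-(clow B (L / 2) (mkG P L 0) (mkG P L 1) e + 1)) N.szu.1) ∧
      RfC N.szu.1 L (Cg (ccU (M := Mg949.mac P) B (L / 2) (mkG P L 0) (mkG P L 1) e)
        (-(clow B (L / 2) (mkG P L 0) (mkG P L 1) e + 1)) N.szu.1))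

/-- planar points (612) -/
def PlAll (P : P4) : Prop :=
  ∀ (a b c L : ℤ) (δ : ℝ) (B : Band (D P.F L)) (ρ κ : ℕ) (yl yu p z0 : ℤ) (a1 b1 : ℕ)
    (N : Nums P a b c L δ B ρ κ yl yu p z0 a1 b1), Even L →
    ∀ e ∈ Finset.insertNone (JP P L δ B),
      PlOk N.szl.1 (Cg (fun q => Fm857.cp B (L / 2) (mkG P L 0) (mkG P L 1) e (some q))
        (clow B (L / 2) (mkG P L 0) (mkG P L 1) e) N.szl.1)
        (XP (lowHalf (lb_low N.mb N.l1 N.l2).d) false (Hb656.mt P L 0) (Hb656.mt P L 1) e) ∧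
      PlOk N.szu.1 (Cg (ccU (M := Mg949.mac P) B (L / 2) (mkG P L 0) (mkG P L 1) e)
        (-(clow B (L / 2) (mkG P L 0) (mkG P L 1) e + 1)) N.szu.1)
        (XP (lowHalf (lb_up N.mb N.u1 N.u2).d) true (rX (Hb656.mt P L 0)) (rX (Hb656.mt P L 1))
          (e.map rp))

/-- **the union step** -/
theorem xall_of {P : P4} (hV : VcAll P) (hP : PlAll P) : XAll P := by
  refine ⟨4 * (P.F.card + (Mg949.mac P).rf.F.card) + 9, ?_⟩
  intro a b c L δ B ρ κ yl yu p z0 a1 b1 N hev e he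
  obtain ⟨⟨v1, v2, v3⟩, v4, v5, v6⟩ := hV a b c L δ B ρ κ yl yu p z0 a1 b1 N hev e he
  obtain ⟨p1, p2⟩ := hP a b c L δ B ρ κ yl yu p z0 a1 b1 N hev e he
  have h1 : (1 : ℤ) ≤ ρ := by exact_mod_cast N.ρ1
  have h2 := N.L64
  have hne : Hb656.mt P L 0 ≠ Hb656.mt P L 1 := Hw949.mt_ne (P := P) (by omega) hev (by decide)
  have hNV := nv_nums N
  have f0 := mt_freeG (P := P) hNV hev 0
  have f1 := mt_freeG (P := P) hNV hev 1
  have cl := cnt_ld (lb_low N.mb N.l1 N.l2).d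
    (XM := XMlow (lowHalf (lb_low N.mb N.l1 N.l2).d) (Hb656.mt P L 0) (Hb656.mt P L 1) e)
    (fun x hx => ⟨f_of_cnt (cnt_XM_cr hne 0 e (Or.inl rfl)).1 x hx,
      f_of_cnt (cnt_XM_cr hne 0 e (Or.inr rfl)).1 x hx⟩)
  have cu := cnt_ld (lb_up N.mb N.u1 N.u2).d
    (XM := XMup (lowHalf (lb_up N.mb N.u1 N.u2).d) (L / 2) (Hb656.mt P L 0) (Hb656.mt P L 1) e)
    (fun x hx => ⟨f_of_cnt (cnt_XM_cr hne (L / 2) e (Or.inl rfl)).2 x hx,
      f_of_cnt (cnt_XM_cr hne (L / 2) e (Or.inr rfl)).2 x hx⟩)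
  refine ⟨_, _, xd_low N hev he v1 v2 v3 p1 (by omega), xd_up N hev he v4 v5 v6 p2 (by omega),
    ?_, ?_, ?_⟩
  · rw [cl.2 _ (by decide) (by decide), cu.2 _ (by decide) (by decide)]
    exact tot_mk N.mb N.l1 N.l2 N.u1 N.u2 (L / 2) hne f0 f1 e
  · rw [cl.2 _ (by decide) (by decide), cu.2 _ (by decide) (by decide)]
    exact tot_e2 N.mb N.l1 N.l2 N.u1 N.u2 (L / 2) hne (free_JP he)
  · rw [cl.2 _ (by decide) (by decide), cu.2 _ (by decide) (by decide)]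
    exact tot_e1 N.mb N.l1 N.l2 N.u1 N.u2 (L / 2) hne (free_JP he)

end Crest.Agent.R158.Xa932
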