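import Crest.Agent.R158.Lr15_874
import Crest.Agent.R158.Xa2_932

/-!
# R158, block Q1d (helper874), part 16: the input `VcAll` of helper932's union step
-/

set_option autoImplicit false

namespace Crest.Agent.R158.Lr874

/-- **the charges at the corners, literal family** -/
theorem vc_all (P : Tj656.P4) : Xa932.VcAll P := by
  intro a b c L δ B ρ κ yl yu p z0 a1 b1 N hev e he
  have hm := Xa932.mks_JP (Xa932.nv_nums N) hev he
  have v := vc_nums_low N hm he
  have w := vc_nums_up N hm he
  exact ⟨⟨v.cvc, v.rfc', v.rfc⟩, w.cvc, w.rfc', w.rfc⟩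

end Crest.Agent.R158.Lr874
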