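import Crest.Agent.R158.Ka7_470
import Crest.Agent.R158.Nz4_399
import Crest.Agent.R158.Pt6_266

/-!
R158, block Q1d, leaf LR (helper158), part 1: the local rule of the phases in the four charts of the
double of a half environment.

* `Stp R B X X' k` : clockwise step between two free sides of the region `R` (`k = 0` flat, `1` convex,
  `-1` reflex), all the positions involved lie in `B`
* `nxe R X`, `tur R X` : the next side and the turning, as functions of `X`
* `PhH A ch ps cc cl` : the phases `ch` of the undoubled half environment are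
  `π/12 ps - π/3 cc` at the free ends (natural sign), the seam at the left mouth is `π/3 cl`,
  `ps` = lifted direction
* `Phi`, `Cg` : phase and charge of the sides of the chart `i`
* **`phi_glue`** : `Phi i (v, d) = Phi i (v + dir d, d + 2)` for neighbours of the chart
* **`local_rule`** : `Phi i X' - Phi i X = eps (π/12 k + π/3 (Cg i X - Cg i X'))`
-/

set_option autoImplicit false

namespace Crest.Agent.R158.Lr158

open Crest.Agent.R158.Sw300 (Port)
open Crest.Agent.R158.Env664 (TG)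
open Crest.Agent.R158.Ka470
open Crest.Agent.R158.Nz399 (dch un jm)
open Crest.Agent.R158.Pt266 (dir)

/-! ### directions -/

theorem z4 (d : ZMod 4) : d = 0 ∨ d = 1 ∨ d = 2 ∨ d = 3 := by revert d; decide

theorem dir0 : dir 0 = (-1, 0) := by decide
theorem dir1 : dir 1 = (0, 1) := by decide
theorem dir2 : dir 2 = (1, 0) := by decide
theorem dir3 : dir 3 = (0, -1) := by decide

theorem dir_neg (d : ZMod 4) : dir (-d) = ((dir d).1, -(dir d).2) := by
  revert d; decide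

theorem dir_opp (d : ZMod 4) : dir (d + 2) = -dir d := by
  revert d; decide

theorem dir_pm (d : ZMod 4) : dir (d - 1) + dir (d + 1) = 0 := by
  revert d; decide

theorem dir_bd (d : ZMod 4) : (-1 ≤ (dir d).1 ∧ (dir d).1 ≤ 1) ∧ -1 ≤ (dir d).2 ∧ (dir d).2 ≤ 1 := by
  revert d; decide

theorem dir_hv (d : ZMod 4) : ((dir d).2 = 0 ∨ (dir (d + 1)).2 = 0) ∧
    ((dir d).1 = 0 ∨ (dir (d + 1)).1 = 0) := by
  revert d; decide

/-! ### steps -/

/-- clockwise step between two sides of the region `R`, inside `B` -/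
inductive Stp (R B : Set (ℤ × ℤ)) : (ℤ × ℤ) × ZMod 4 → (ℤ × ℤ) × ZMod 4 → ℤ → Prop
  | flat {t : ℤ × ℤ} {d : ZMod 4} (h1 : t ∈ R) (h2 : t + dir (d + 1) ∈ R) (h3 : t + dir d ∉ R)
      (h4 : t + dir (d + 1) + dir d ∉ R) (b1 : t ∈ B) (b2 : t + dir (d + 1) ∈ B)
      (b3 : t + dir d ∈ B) (b4 : t + dir (d + 1) + dir d ∈ B) :
      Stp R B (t, d) (t + dir (d + 1), d) 0
  | convex {t : ℤ × ℤ} {d : ZMod 4} (h1 : t ∈ R) (h2 : t + dir d ∉ R) (h3 : t + dir (d + 1) ∉ R)
      (b1 : t ∈ B) (b2 : t + dir d ∈ B) (b3 : t + dir (d + 1) ∈ B) :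
      Stp R B (t, d) (t, d + 1) 1
  | reflex {t : ℤ × ℤ} {d : ZMod 4} (h1 : t ∈ R) (h2 : t + dir (d + 1) ∈ R)
      (h3 : t + dir (d + 1) + dir d ∈ R) (h4 : t + dir d ∉ R) (b1 : t ∈ B)
      (b2 : t + dir (d + 1) ∈ B) (b3 : t + dir (d + 1) + dir d ∈ B) (b4 : t + dir d ∈ B) :
      Stp R B (t, d) (t + dir (d + 1) + dir d, d + 3) (-1)

/-- reflection of a side -/
def rfx (c : ℤ) (X : (ℤ × ℤ) × ZMod 4) : (ℤ × ℤ) × ZMod 4 := ((X.1.1, c - X.1.2), -X.2)

theorem rfx_rfx (c : ℤ) (X : (ℤ × ℤ) × ZMod 4) : rfx c (rfx c X) = X := by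
  obtain ⟨⟨x, y⟩, d⟩ := X
  simp [rfx]

theorem rf_dir (c : ℤ) (t : ℤ × ℤ) (d : ZMod 4) :
    ((t + dir d).1, c - (t + dir d).2) = (t.1, c - t.2) + dir (-d) := by
  rw [dir_neg]
  ext
  · simp
  · simp; ring

/-- **a mirrored step is a step in the opposite order** -/
theorem Stp.mirror {R B R' B' : Set (ℤ × ℤ)} {c : ℤ}
    (hR : ∀ v : ℤ × ℤ, v ∈ B → (v ∈ R ↔ (v.1, c - v.2) ∈ R'))
    (hB : ∀ v : ℤ × ℤ, v ∈ B → (v.1, c - v.2) ∈ B') {X X' : (ℤ × ℤ) × ZMod 4} {k : ℤ}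
    (h : Stp R B X X' k) : Stp R' B' (rfx c X') (rfx c X) k := by
  have r1 := fun (v : ℤ × ℤ) hb (h : v ∈ R) => (hR v hb).1 h
  have r2 := fun (v : ℤ × ℤ) hb (h : v ∉ R) => fun h' => h ((hR v hb).2 h')
  cases h with
  | @flat t d h1 h2 h3 h4 b1 b2 b3 b4 =>
    have e1 : ((t + dir (d + 1)).1, c - (t + dir (d + 1)).2) = (t.1, c - t.2) + dir (-d - 1) := by
      rw [rf_dir]; congr 2; ring
    have e2 : ((t + dir d).1, c - (t + dir d).2) = (t.1, c - t.2) + dir (-d) := rf_dir _ _ _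
    have e3 : ((t + dir (d + 1) + dir d).1, c - (t + dir (d + 1) + dir d).2) =
        (t.1, c - t.2) + dir (-d - 1) + dir (-d) := by rw [rf_dir, e1]
    have e4 : (t.1, c - t.2) + dir (-d - 1) + dir (-d + 1) = (t.1, c - t.2) := by
      rw [add_assoc, dir_pm, add_zero]
    have r1' := r1 _ b1 h1
    have r2' := r1 _ b2 h2
    have r3' := r2 _ b3 h3
    have r4' := r2 _ b4 h4
    have c1 := hB _ b1
    have c2 := hB _ b2
    have c3 := hB _ b3
    have c4 := hB _ b4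
    rw [e1] at r2' c2
    rw [e2] at r3' c3
    rw [e3] at r4' c4
    have := Stp.flat (R := R') (B := B') (t := (t.1, c - t.2) + dir (-d - 1)) (d := -d)
      r2' (by rw [e4]; exact r1') r4' (by rw [e4]; exact r3') c2 (by rw [e4]; exact c1) c4
      (by rw [e4]; exact c3)
    rw [e4] at this
    show Stp R' B' (((t + dir (d + 1)).1, c - (t + dir (d + 1)).2), -d) ((t.1, c - t.2), -d) 0
    rw [e1]
    exact this
  | @convex t d h1 h2 h3 b1 b2 b3 =>
    have r1' := r1 _ b1 h1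
    have r2' := r2 _ b2 h2
    have r3' := r2 _ b3 h3
    have c1 := hB _ b1
    have c2 := hB _ b2
    have c3 := hB _ b3
    rw [rf_dir] at r2' c2 r3' c3
    have e : -(d + 1) + 1 = -d := by ring
    have := Stp.convex (R := R') (B := B') (t := (t.1, c - t.2)) (d := -(d + 1)) r1' r3'
      (by rw [e]; exact r2') c1 c3 (by rw [e]; exact c2)
    rw [e] at this
    exact this
  | @reflex t d h1 h2 h3 h4 b1 b2 b3 b4 =>
    have e1 : ((t + dir (d + 1)).1, c - (t + dir (d + 1)).2) = (t.1, c - t.2) + dir (-d - 1) := by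
      rw [rf_dir]; congr 2; ring
    have e2 : ((t + dir d).1, c - (t + dir d).2) = (t.1, c - t.2) + dir (-d) := rf_dir _ _ _
    have e3 : ((t + dir (d + 1) + dir d).1, c - (t + dir (d + 1) + dir d).2) =
        (t.1, c - t.2) + dir (-d - 1) + dir (-d) := by rw [rf_dir, e1]
    have f1 : dir (-d - 1) + dir (-d + 1) = 0 := dir_pm _
    have f2 : dir (-d + 2) = -dir (-d) := dir_opp _
    have g1 : (-d + 1 : ZMod 4) + 1 = -d + 2 := by ring
    have e4 : (t.1, c - t.2) + dir (-d - 1) + dir (-d) + dir (-d + 1 + 1) =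
        (t.1, c - t.2) + dir (-d - 1) := by
      rw [g1, f2]; abel
    have e5 : (t.1, c - t.2) + dir (-d - 1) + dir (-d) + dir (-d + 1 + 1) + dir (-d + 1) =
        (t.1, c - t.2) := by
      rw [e4, add_assoc, f1, add_zero]
    have e6 : (t.1, c - t.2) + dir (-d - 1) + dir (-d) + dir (-d + 1) =
        (t.1, c - t.2) + dir (-d) := by
      rw [add_right_comm, add_assoc (t.1, c - t.2), f1, add_zero]
    have r1' := r1 _ b1 h1
    have r2' := r1 _ b2 h2
    have r3' := r1 _ b3 h3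
    have r4' := r2 _ b4 h4
    have c1 := hB _ b1
    have c2 := hB _ b2
    have c3 := hB _ b3
    have c4 := hB _ b4
    rw [e1] at r2' c2
    rw [e3] at r3' c3
    rw [e2] at r4' c4
    have := Stp.reflex (R := R') (B := B') (t := (t.1, c - t.2) + dir (-d - 1) + dir (-d))
      (d := -d + 1) r3' (by rw [e4]; exact r2') (by rw [e5]; exact r1') (by rw [e6]; exact r4')
      c3 (by rw [e4]; exact c2) (by rw [e5]; exact c1) (by rw [e6]; exact c4)
    rw [e5] at this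
    have g2 : -(d + 3) = -d + 1 := by
      have : (4 : ZMod 4) = 0 := by decide
      linear_combination -this
    have g3 : (-d + 1 + 3 : ZMod 4) = -d := by
      have : (4 : ZMod 4) = 0 := by decide
      linear_combination this
    rw [g3] at this
    show Stp R' B' (((t + dir (d + 1) + dir d).1, c - (t + dir (d + 1) + dir d).2), -(d + 3))
      ((t.1, c - t.2), -d) (-1)
    rw [e3, g2]
    exact this

theorem Stp.mono {R B R' B' : Set (ℤ × ℤ)} (hR : ∀ v : ℤ × ℤ, v ∈ B → (v ∈ R ↔ v ∈ R'))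
    (hB : ∀ v : ℤ × ℤ, v ∈ B → v ∈ B') {X X' : (ℤ × ℤ) × ZMod 4} {k : ℤ}
    (h : Stp R B X X' k) : Stp R' B' X X' k := by
  have r1 := fun (v : ℤ × ℤ) hb (h : v ∈ R) => (hR v hb).1 h
  have r2 := fun (v : ℤ × ℤ) hb (h : v ∉ R) => fun h' => h ((hR v hb).2 h')
  cases h with
  | flat h1 h2 h3 h4 b1 b2 b3 b4 =>
    exact .flat (r1 _ b1 h1) (r1 _ b2 h2) (r2 _ b3 h3) (r2 _ b4 h4) (hB _ b1) (hB _ b2) (hB _ b3)
      (hB _ b4)
  | convex h1 h2 h3 b1 b2 b3 =>
    exact .convex (r1 _ b1 h1) (r2 _ b2 h2) (r2 _ b3 h3) (hB _ b1) (hB _ b2) (hB _ b3)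
  | reflex h1 h2 h3 h4 b1 b2 b3 b4 =>
    exact .reflex (r1 _ b1 h1) (r1 _ b2 h2) (r1 _ b3 h3) (r2 _ b4 h4) (hB _ b1) (hB _ b2)
      (hB _ b3) (hB _ b4)

open Classical in
/-- the next side, clockwise -/
noncomputable def nxe (R : Set (ℤ × ℤ)) (X : (ℤ × ℤ) × ZMod 4) : (ℤ × ℤ) × ZMod 4 :=
  if X.1 + dir (X.2 + 1) ∉ R then (X.1, X.2 + 1)
  else if X.1 + dir (X.2 + 1) + dir X.2 ∉ R then (X.1 + dir (X.2 + 1), X.2)
  else (X.1 + dir (X.2 + 1) + dir X.2, X.2 + 3)

theorem Stp.nxe {R B : Set (ℤ × ℤ)} {X X' : (ℤ × ℤ) × ZMod 4} {k : ℤ} (h : Stp R B X X' k) :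
    nxe R X = X' := by
  unfold Lr158.nxe
  cases h with
  | flat h1 h2 h3 h4 b1 b2 b3 b4 =>
    simp only
    rw [if_neg (not_not.2 h2), if_pos h4]
  | convex h1 h2 h3 b1 b2 b3 =>
    simp only
    rw [if_pos h3]
  | reflex h1 h2 h3 h4 b1 b2 b3 b4 =>
    simp only
    rw [if_neg (not_not.2 h2), if_neg (not_not.2 h3)]

end Crest.Agent.R158.Lr158
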