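import Crest.Agent.R158.Lr2_158

/-!
R158, block Q1d, leaf LR (helper158), part 3: the lifted direction along a step of each of the four
charts, and the **local rule**.
-/

set_option autoImplicit false

namespace Crest.Agent.R158.Lr158

open Crest.Agent.R158.Sw300 (Port)
open Crest.Agent.R158.Env664 (TG)
open Crest.Agent.R158.Nm211 (Dir mv dx dy)
open Crest.Agent.R158.Ka470
open Crest.Agent.R158.Ka470.Half
open Crest.Agent.R158.Nz399 (dch un jm)
open Crest.Agent.R158.Pt266 (dir)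

variable {A : Half} {ρ : ℕ}

theorem dir_cases (d : ZMod 4) : (d = 0 ∧ dir d = (-1, 0)) ∨ (d = 1 ∧ dir d = (0, 1)) ∨
    (d = 2 ∧ dir d = (1, 0)) ∨ (d = 3 ∧ dir d = (0, -1)) := by
  revert d; decide

theorem d4a : (0 : ZMod 4) + 1 = 1 ∧ (1 : ZMod 4) + 1 = 2 ∧ (2 : ZMod 4) + 1 = 3 ∧
    (3 : ZMod 4) + 1 = 0 := by decide

/-! ### the symmetric charts -/

/-- heights -/
theorem side_lt {y : ℤ} (h : A.ry y < A.y1) : y < A.y1 ∨ 2 * A.y0 - A.y1 ≤ y := by
  by_contra hc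
  push Not at hc
  exact absurd (y1_ry.2 ⟨hc.1, by omega⟩) (by omega)

/-- lifted direction of the real ends of the charts `M` and `S` -/
def psM (d : ZMod 4) : ℤ := if d = 0 then 4 else if d = 2 then 2 else 3

/-- **real ends of the chart `M`** -/
theorem endM {ch : Port TG → ℝ} {ps cc : TG × ZMod 4 → ℤ} {cl : ℤ} (H : PhH A ch ps cc cl)
    {h : A.Sz ρ} {B : Set (ℤ × ℤ)} (hB : A.Good ρ 2 B) {X : (ℤ × ℤ) × ZMod 4}
    (hX : REnd h 2 B X) : ps (upp h 2 X) = psM X.2 ∧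
      ((X.1.2 < A.y0 ∧ X.2 ≠ 1) ∨ (A.y0 ≤ X.1.2 ∧ X.2 ≠ 3)) ∧
      (((X.2 = 1 ∨ X.2 = 3) ∧ ¬ (A.xl ≤ X.1.1 ∧ X.1.1 ≤ A.xr)) ∨
        ((X.2 = 0 ∨ X.2 = 2) ∧ (A.xl ≤ X.1.1 ∧ X.1.1 ≤ A.xr) ∧ A.ry X.1.2 < A.y1)) := by
  obtain ⟨⟨x, y⟩, d⟩ := X
  have g1 := hB _ hX.b1
  have g2 := hB _ hX.b2
  have m1 := (memM h g1).1 hX.m
  have m2 : ¬ _ := fun hh => hX.n ((memM h g2).2 hh)
  have hx := A.hx
  have h01 := A.h1
  have hY := A.hY
  simp only at g1 g2 m1 m2 ⊢
  have hup : upp h 2 ((x, y), d) =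
      ((if x < A.xl then Sum.inr (A.R - (A.xl - x), A.ry y) else if x ≤ A.xr then
        Sum.inl (x, A.ry y) else Sum.inr (x - A.xr - 1, A.ry y)), Ka470.sg (A.kk y) d) := rfl
  have hr := h.r
  have hρ := h.pos
  rcases dir_cases d with ⟨rfl, hd⟩ | ⟨rfl, hd⟩ | ⟨rfl, hd⟩ | ⟨rfl, hd⟩
  · rw [hd] at g2 m2
    simp only [Prod.mk_add_mk, add_zero] at g2 m2
    push Not at m2
    have e1 : x = A.xl := by
      rcases m1 with m1 | m1
      · by_contra hne
        have := m2.1 (by omega)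
        omega
      · omega
    have e2 : A.ry y < A.y1 := m2.2
    refine ⟨?_, ?_, ?_⟩
    · rw [hup, e1, if_neg (lt_irrefl _), if_pos hx]
      have e3 : Ka470.sg (A.kk y) (0 : ZMod 4) = 0 := by
        cases A.kk y <;> decide
      rw [e3]
      exact H.wl _ g1.2 e2
    · rcases lt_or_ge y A.y0 with h3 | h3
      · exact Or.inl ⟨h3, by decide⟩
      · exact Or.inr ⟨h3, by decide⟩
    · exact Or.inr ⟨Or.inl rfl, ⟨by omega, by omega⟩, e2⟩
  · -- north
    rw [hd] at g2 m2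
    simp only [Prod.mk_add_mk, add_zero] at g2 m2
    push Not at m2
    have e2 : A.ry (y + 1) < A.y1 := m2.2
    have e1 : ¬ (A.xl ≤ x ∧ x ≤ A.xr) := fun hc => by have := m2.1 hc.1; omega
    have e3 : A.y1 ≤ A.ry y := by
      rcases m1 with m1 | m1
      · exact absurd m1 e1
      · exact m1
    have e4 := side_lt e2
    have e5 := y1_ry.1 e3
    have e6 : y = 2 * A.y0 - A.y1 - 1 := by omega
    have e7 : A.y0 ≤ y := by omega
    have e8 : A.ry y = A.y1 := by rw [ry_ge _ e7]; omega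
    refine ⟨?_, Or.inr ⟨e7, by decide⟩, Or.inl ⟨Or.inl rfl, e1⟩⟩
    rw [hup, kk_ge _ e7]
    have e9 : Ka470.sg true (1 : ZMod 4) = 3 := by decide
    rw [e9, e8]
    split_ifs with h1 h2
    · exact H.fl _ (by omega) (by omega)
    · exact absurd ⟨by omega, h2⟩ e1
    · exact H.fl _ (by omega) (by omega)
  · rw [hd] at g2 m2
    simp only [Prod.mk_add_mk, add_zero] at g2 m2
    push Not at m2
    have e1 : x = A.xr := by
      rcases m1 with m1 | m1
      · by_contra hne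
        have := m2.1 (by omega)
        omega
      · omega
    have e2 : A.ry y < A.y1 := m2.2
    refine ⟨?_, ?_, ?_⟩
    · rw [hup, e1, if_neg (by omega), if_pos le_rfl]
      have e3 : Ka470.sg (A.kk y) (2 : ZMod 4) = 2 := by
        cases A.kk y <;> decide
      rw [e3]
      exact H.wr _ g1.2 e2
    · rcases lt_or_ge y A.y0 with h3 | h3
      · exact Or.inl ⟨h3, by decide⟩
      · exact Or.inr ⟨h3, by decide⟩
    · exact Or.inr ⟨Or.inr rfl, ⟨by omega, by omega⟩, e2⟩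
  · -- south
    rw [hd] at g2 m2
    simp only [Prod.mk_add_mk, add_zero] at g2 m2
    push Not at m2
    have e2 : A.ry (y + -1) < A.y1 := m2.2
    have e1 : ¬ (A.xl ≤ x ∧ x ≤ A.xr) := fun hc => by have := m2.1 hc.1; omega
    have e3 : A.y1 ≤ A.ry y := by
      rcases m1 with m1 | m1
      · exact absurd m1 e1
      · exact m1
    have e4 := side_lt e2
    have e5 := y1_ry.1 e3
    have e6 : y = A.y1 := by omega
    have e7 : y < A.y0 := by omega
    have e8 : A.ry y = A.y1 := by rw [ry_lt _ e7, e6]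
    refine ⟨?_, Or.inl ⟨e7, by decide⟩, Or.inl ⟨Or.inr rfl, e1⟩⟩
    rw [hup, kk_lt _ e7]
    have e9 : Ka470.sg false (3 : ZMod 4) = 3 := by decide
    rw [e9, e8]
    split_ifs with h1 h2
    · exact H.fl _ (by omega) (by omega)
    · exact absurd ⟨by omega, h2⟩ e1
    · exact H.fl _ (by omega) (by omega)

/-- **real ends of the chart `S`** -/
theorem endS {ch : Port TG → ℝ} {ps cc : TG × ZMod 4 → ℤ} {cl : ℤ} (H : PhH A ch ps cc cl)
    {h : A.Sz ρ} {B : Set (ℤ × ℤ)} (hB : A.Good ρ 3 B) {X : (ℤ × ℤ) × ZMod 4}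
    (hX : REnd h 3 B X) : ps (upp h 3 X) = 3 ∧
      ((X.1.2 < A.y0 ∧ X.2 = 3) ∨ (A.y0 ≤ X.1.2 ∧ X.2 = 1)) := by
  obtain ⟨⟨x, y⟩, d⟩ := X
  have g1 := hB _ hX.b1
  have g2 := hB _ hX.b2
  have m1 := (memS h g1).1 hX.m
  have m2 : ¬ _ := fun hh => hX.n ((memS h g2).2 hh)
  have h01 := A.h1
  simp only at g1 g2 m1 m2 ⊢
  have hup : upp h 3 ((x, y), d) = (Sum.inr (x, A.ry y), Ka470.sg (A.kk y) d) := rfl
  rcases dir_cases d with ⟨rfl, hd⟩ | ⟨rfl, hd⟩ | ⟨rfl, hd⟩ | ⟨rfl, hd⟩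
  · rw [hd] at m2
    simp only [Prod.mk_add_mk, add_zero] at m2
    exact absurd m1 m2
  · rw [hd] at m2
    simp only [Prod.mk_add_mk, add_zero] at m2
    have e4 := side_lt (A := A) (by omega : A.ry (y + 1) < A.y1)
    have e5 := y1_ry.1 m1
    have e7 : A.y0 ≤ y := by omega
    have e8 : A.ry y = A.y1 := by rw [ry_ge _ e7]; omega
    refine ⟨?_, Or.inr ⟨e7, rfl⟩⟩
    have e9 : Ka470.sg true (1 : ZMod 4) = 3 := by decide
    rw [hup, kk_ge _ e7, e9, e8]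
    exact H.fl _ g1.1 g1.2
  · rw [hd] at m2
    simp only [Prod.mk_add_mk, add_zero] at m2
    exact absurd m1 m2
  · rw [hd] at m2
    simp only [Prod.mk_add_mk, add_zero] at m2
    have e4 := side_lt (A := A) (by omega : A.ry (y + -1) < A.y1)
    have e5 := y1_ry.1 m1
    have e7 : y < A.y0 := by omega
    have e8 : A.ry y = A.y1 := by rw [ry_lt _ e7]; omega
    refine ⟨?_, Or.inl ⟨e7, rfl⟩⟩
    have e9 : Ka470.sg false (3 : ZMod 4) = 3 := by decide
    rw [hup, kk_lt _ e7, e9, e8]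
    exact H.fl _ g1.1 g1.2

end Crest.Agent.R158.Lr158
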