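import Crest.Agent.R158.Lr4_158
import Crest.Agent.R158.Ka10_470
import Crest.Agent.R158.Ao12_857
import Crest.Agent.R158.Fm1_857
import Crest.Agent.R158.Xr14_249

/-!
R158, block Q1d, leaf LR (helper158), part 5: `PhH` for the phases of `G^(z)` over a half of a band.

* `openH` : `OpenH` for `topO B n`
* `psi_stp` : `Psi664.psi` along the steps of a part of `A`
* `phH_gen` : `PhH` for `s * chL B p z0 tw c' φ`
-/

set_option autoImplicit false

namespace Crest.Agent.R158.Lr158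

open Crest.Agent.R158.Sw300 (Port)
open Crest.Agent.R158.Env664 (TG Mac D mem_D Run CutAdj Adj4 lowT upT Band)
open Crest.Agent.R158.Ka470
open Crest.Agent.R158.Ka470.Half
open Crest.Agent.R158.Pt266 (dir RFree FFree rfree_full nx_flat nx_convex nx_reflex adj_dir)
open Crest.Agent.R158.Ao857 (Split topO mem_topO topP legP beL chL chG seamG beL_ne chL_ne)
open Crest.Agent.R158.Xr249 (full mem_lowT low_step)
open Crest.Agent.R158.Bd932 (e3)

section open_

variable {M : Mac} {L a b c y0 : ℤ} {A : Finset (ℤ × ℤ)} {B : Band A} {Al Au : Finset (ℤ × ℤ)}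

theorem openH (h : LB M L a b c y0 B Al Au) {n : ℕ} (hn : y0 = B.y1 + n + 1) :
    OpenH (lowHalf h.d) (topO B n) := by
  intro t d _
  rw [mem_topO, and_comm, ← top_cut h hn]
  exact exists_congr fun i => eq_comm

end open_

/-! ### the lifted direction along the steps of a part -/

/-- **`psi` along the steps of a part of `A`** -/
theorem psi_stp {A : Finset (ℤ × ℤ)} {xl y1 : ℤ} {w : Sw300.Wd (ℤ × ℤ)}
    {l : List (Port (ℤ × ℤ))} (hw : Psi664.BW (full A) xl y1 w l) {R B : Set (ℤ × ℤ)}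
    (hA : ∀ v ∈ R, v ∈ B → v ∈ A)
    (hN : ∀ v ∈ R, v ∈ B → ∀ e : ZMod 4, v + dir e ∈ B → v + dir e ∉ R → v + dir e ∉ A)
    (hb : (xl, y1) ∈ R → (xl, y1) ∉ B) {X X' : (ℤ × ℤ) × ZMod 4} {k : ℤ} (h : Stp R B X X' k) :
    Psi664.psi (full A) xl y1 X' = Psi664.psi (full A) xl y1 X + k := by
  have free : ∀ (v : ℤ × ℤ) (e : ZMod 4), v ∈ R → v ∈ B → v + dir e ∈ B → v + dir e ∉ R →
      RFree (full A) (v, e) := fun v e h1 h2 h3 h4 =>
    rfree_full.2 ⟨hA v h1 h2, hN v h1 h2 e h3 h4⟩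
  have nb : ∀ v : ℤ × ℤ, v ∈ R → v ∈ B → ∀ e : ZMod 4, (v, e) ≠ Psi664.bp xl y1 := by
    rintro v h1 h2 e he
    have h3 : v = (xl, y1) := congrArg Prod.fst he
    subst h3
    exact hb h1 h2
  cases h with
  | @flat t d h1 h2 h3 h4 b1 b2 b3 b4 =>
    exact Psi664.psi_next hw (free _ _ h1 b1 b3 h3) (free _ _ h2 b2 b4 h4)
      (nx_flat (hA _ h1 b1) (hA _ h2 b2) (hN _ h2 b2 _ b4 h4)) (nb _ h2 b2 _)
  | @convex t d h1 h2 h3 b1 b2 b3 =>
    exact Psi664.psi_next hw (free _ _ h1 b1 b2 h2) (free _ _ h1 b1 b3 h3)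
      (nx_convex (hN _ h1 b1 _ b3 h3)) (nb _ h1 b1 _)
  | @reflex t d h1 h2 h3 h4 b1 b2 b3 b4 =>
    have e1 : t + dir (d + 1) + dir d + dir (d + 3) = t + dir d := by
      have : ∀ d : ZMod 4, dir (d + 1) + dir d + dir (d + 3) = dir d := by decide
      rw [add_assoc, add_assoc, ← add_assoc (dir (d + 1)), this]
    exact Psi664.psi_next hw (free _ _ h1 b1 b4 h4)
      (free _ _ h3 b3 (by rw [e1]; exact b4) (by rw [e1]; exact h4))
      (nx_reflex (hA _ h1 b1) (hA _ h2 b2) (hA _ h3 b3) (hN _ h1 b1 _ b4 h4)) (nb _ h3 b3 _)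

section

variable {M : Mac} {L a b c y1 y0 R : ℤ}

/-- neighbours of a tile which is not in the mouth nor on the crosscut -/
theorem H_adj (d : LD M L a b c y1 y0 R) {v v' : ℤ × ℤ} (hv : v ∈ (lowHalf d).H)
    (hm : ¬ (lowHalf d).Mou v) (hv' : v' ∈ D M.F L) (ha : Adj4 v v') : v' ∈ (lowHalf d).H := by
  have hy := d.hY
  have h1 := d.h1
  have h2 := d.h2
  refine low_step (s := v) hv ⟨ha, (mem_lowT.1 hv).1, hv', ?_⟩
  rintro ⟨g1, g2, -, ⟨g4, -⟩ | ⟨g4, -⟩⟩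
  · apply hm
    refine ⟨⟨⟨g1, g2⟩, ?_, ?_⟩, Or.inr (Or.inr g4)⟩
    · show y1 ≤ v.2
      omega
    · show v.2 < y0
      omega
  · refine d.top (x := v.1) (y := v.2) (by omega) (by omega) g1 g2 hv

end

/-! ### ports -/

section

variable {M : Mac} {L a b c y0 : ℤ} {A : Finset (ℤ × ℤ)} {B : Band A} {Al Au : Finset (ℤ × ℤ)}

theorem ne_leg (h : LB M L a b c y0 B Al Au) {p z0 : ℤ} (hz : B.At p z0) (hzy : y0 ≤ z0)
    {t : TG} {d : ZMod 4} (ht : (lowHalf h.d).tH t) : (some (t, d) : Port TG) ≠ legP p z0 := by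
  intro h2
  unfold legP at h2
  rw [Option.some.injEq, Prod.mk.injEq] at h2
  obtain ⟨rfl, -⟩ := h2
  rw [tH_inl h] at ht
  obtain ⟨hz1, hz2, hp1, hp2⟩ := hz
  rcases ht with hq | hq
  · refine h.hs.dl _ _ hq ?_
    omega
  · omega

/-- free ports -/
theorem chL_free (h : LB M L a b c y0 B Al Au) {p z0 : ℤ} (hz : B.At p z0) (hzy : y0 ≤ z0)
    {tw c' : ℝ} {φ : Port TG → ℝ} {t : TG} {d : ZMod 4} (ht : (lowHalf h.d).tH t)
    (hf : (lowHalf h.d).FrH t d) (hc : d = 1 → ¬ (lowHalf h.d).cutT t) :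
    chL B p z0 tw c' φ (some (t, d)) = φ (some (t, d)) := by
  rw [chL_ne B (ne_leg h hz hzy ht)]
  unfold chG
  rcases beG_low h hz hzy ht (fun hh => hc hh.2 hh.1) with ⟨h2, -⟩ | ⟨-, h3⟩
  · exact absurd ⟨ht, h2, rfl⟩ (hf _)
  · rw [if_pos h3]

/-- ports of the seam -/
def sL (A : Half) : TG × ZMod 4 → ℤ
  | (Sum.inl v, d) => if d = 0 ∧ v.1 = A.xl ∧ A.y1 ≤ v.2 ∧ v.2 < A.y0 then 1 else 0
  | (Sum.inr _, _) => 0

theorem sL_sea {A : Half} {p q : TG × ZMod 4} (h : A.Gh p q) : sL A q - sL A p = sea A p := by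
  obtain ⟨h1, h2, rfl⟩ := h
  have n10 : (1 : ZMod 4) ≠ 0 := by decide
  have n20 : (2 : ZMod 4) ≠ 0 := by decide
  have n30 : (3 : ZMod 4) ≠ 0 := by decide
  have n02 : (0 : ZMod 4) ≠ 2 := by decide
  have n12 : (1 : ZMod 4) ≠ 2 := by decide
  have n32 : (3 : ZMod 4) ≠ 2 := by decide
  have hW := A.hW
  rcases p with ⟨⟨x, y⟩ | ⟨x, y⟩, d⟩
  · rcases z4 d with rfl | rfl | rfl | rfl
    · by_cases hc : x = A.xl ∧ A.y1 ≤ y ∧ y < A.y0
      · simp only [nb, sL, sea]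
        rw [if_pos hc]
        simp only [true_and]
        rw [if_pos hc, if_pos hc]
        simp
      · simp only [nb, sL, sea]
        rw [if_neg hc]
        simp only [true_and, n20, false_and, if_false]
        rw [if_neg hc, if_neg hc]
        simp
    · simp [nb, sL, sea, n10, n30]
    · by_cases hc : x = A.xr ∧ A.y1 ≤ y ∧ y < A.y0
      · simp only [nb, sL, sea]
        rw [if_pos hc]
        simp [n20]
      · simp only [nb, sL, sea]
        rw [if_neg hc]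
        simp only [true_and, n20, false_and, if_false]
        rw [if_neg]
        · simp
        · rintro ⟨e1, e2, e3⟩
          have h3 : (x, y) ∈ A.H := h1
          have hY := A.hY
          exact A.left x y (by omega) (by omega) (by omega) (by omega) h3
    · simp [nb, sL, sea, n10, n30]
  · rcases z4 d with rfl | rfl | rfl | rfl
    · by_cases hx : x = 0
      · simp [nb, sL, sea, n02, n20, hx]
      · simp [nb, sL, sea, n02, hx]
    · simp [nb, sL, sea, n12]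
    · by_cases hc : x = A.R - 1
      · have h4 : A.y1 ≤ y ∧ y < A.y0 := h1.2
        simp [nb, sL, sea, hc, h4]
      · simp [nb, sL, sea, hc]
    · simp [nb, sL, sea, n32]

/-- free ports of the strip are on the floor -/
theorem free_inr {A : Half} {v : ℤ × ℤ} {d : ZMod 4} (ht : A.tH (Sum.inr v))
    (hf : A.FrH (Sum.inr v) d) (hc : d = 1 → ¬ A.cutT (Sum.inr v)) : d = 3 ∧ v.2 = A.y1 := by
  obtain ⟨x, y⟩ := v
  have ht' : (0 ≤ x ∧ x < A.R) ∧ A.y1 ≤ y ∧ y < A.y0 := ht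
  have hY := A.hY
  have hx := A.hx
  have go : ∀ q, A.nb (Sum.inr (x, y)) d = q → A.tH q.1 → False := fun q hq hq2 =>
    hf q ⟨ht, hq2, hq.symm⟩
  rcases z4 d with rfl | rfl | rfl | rfl
  · exfalso
    by_cases h0 : x = 0
    · exact go (Sum.inl (A.xr, y), 2) (if_pos h0) (A.row _ _ (by omega) (by omega) hx le_rfl)
    · refine go (Sum.inr (x - 1, y), 2) (if_neg h0) ?_
      show (0 ≤ x - 1 ∧ x - 1 < A.R) ∧ A.y1 ≤ y ∧ y < A.y0
      omega
  · exfalso
    by_cases h0 : y = A.y0 - 1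
    · exact hc rfl ⟨ht'.1, h0⟩
    · refine go (Sum.inr (x, y + 1), 3) rfl ?_
      show (0 ≤ x ∧ x < A.R) ∧ A.y1 ≤ y + 1 ∧ y + 1 < A.y0
      omega
  · exfalso
    by_cases h0 : x = A.R - 1
    · exact go (Sum.inl (A.xl, y), 0) (if_pos h0) (A.row _ _ (by omega) (by omega) le_rfl hx)
    · refine go (Sum.inr (x + 1, y), 0) (if_neg h0) ?_
      show (0 ≤ x + 1 ∧ x + 1 < A.R) ∧ A.y1 ≤ y ∧ y < A.y0
      omega
  · refine ⟨rfl, ?_⟩
    by_contra h0
    refine go (Sum.inr (x, y - 1), 1) rfl ?_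
    show (0 ≤ x ∧ x < A.R) ∧ A.y1 ≤ y - 1 ∧ y - 1 < A.y0
    simp only at h0
    omega

/-- values of the seam -/
theorem seam_low (h : LB M L a b c y0 B Al Au) {p z0 : ℤ} (hz : B.At p z0) (hzy : y0 ≤ z0)
    {tw c' : ℝ} {t : TG} {d : ZMod 4} (ht : (lowHalf h.d).tH t)
    (hc : ¬ ((lowHalf h.d).cutT t ∧ d = 1)) :
    seamG B p z0 tw c' (some (t, d)) = tw * (sL (lowHalf h.d) (t, d) : ℤ) := by
  obtain ⟨hz1, hz2, hp1, hp2⟩ := hz
  have exl : (lowHalf h.d).xl = B.xl := h.xl.symm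
  have exr : (lowHalf h.d).xr = B.xr := h.xr.symm
  have ey1 : (lowHalf h.d).y1 = B.y1 := rfl
  have ey0 : (lowHalf h.d).y0 = y0 := rfl
  rcases t with ⟨x, y⟩ | ⟨x, y⟩
  · have ht2 := ht
    rw [tH_inl h] at ht2
    simp only [seamG, sL]
    rw [exl, ey1, ey0]
    by_cases h1 : d = 0 ∧ x = B.xl ∧ B.y1 ≤ y ∧ y < y0
    · obtain ⟨g1, g2, g3, g4⟩ := h1
      have g5 : y < z0 := by omega
      have g6 : y < B.y2 := by omega
      rw [if_pos ⟨g1, g2, g3, g6⟩, if_pos g5, if_pos ⟨g1, g2, g3, g4⟩]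
      simp
    · rw [if_neg h1]
      rw [if_neg, if_neg]
      · simp
      · rintro ⟨g1, g2, g3, g4⟩
        apply hc
        rcases ht2 with ht2 | ht2
        · exact absurd (h.hs.dl _ _ ht2) (by
            intro hh; apply hh; omega)
        · refine ⟨⟨⟨?_, ?_⟩, ?_⟩, g1⟩
          · rw [exl]; exact ht2.1.1
          · rw [exr]; exact ht2.1.2
          · rw [ey0]; simp only; omega
      · rintro ⟨g1, g2, g3, g4⟩
        rcases ht2 with ht2 | ht2
        · refine h.hs.dl _ _ ht2 ?_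
          have : B.xl ≤ B.xr := by omega
          omega
        · exact h1 ⟨g1, g2, g3, ht2.2.2⟩
  · simp [seamG, sL]

/-- glued ports -/
theorem chL_glue (h : LB M L a b c y0 B Al Au) {p z0 : ℤ} (hz : B.At p z0) (hzy : y0 ≤ z0)
    {tw c' : ℝ} {φ : Port TG → ℝ} {q r : TG × ZMod 4} (hg : (lowHalf h.d).Gh q r) :
    chL B p z0 tw c' φ (some q) - chL B p z0 tw c' φ (some r) =
      -(tw * (sea (lowHalf h.d) q : ℤ)) := by
  obtain ⟨h1, h2, h3⟩ := id hg
  have hs := sL_sea hg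
  rcases q with ⟨t, d⟩
  rcases r with ⟨u, f⟩
  have hc1 : ¬ ((lowHalf h.d).cutT t ∧ d = 1) := by
    rintro ⟨g1, rfl⟩
    exact (lowHalf h.d).gh_top g1 _ hg
  have hg2 : (lowHalf h.d).Gh (u, f) (t, d) := (lowHalf h.d).gh_symm _ _ hg
  have hc2 : ¬ ((lowHalf h.d).cutT u ∧ f = 1) := by
    rintro ⟨g1, rfl⟩
    exact (lowHalf h.d).gh_top g1 _ hg2
  have hne : (u, f) ≠ (t, d) := by rw [h3]; exact nb_ne _ _ _
  have b1 : B.beG p z0 (some (t, d)) = some (u, f) := by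
    rcases beG_low h hz hzy h1 hc1 with ⟨-, g⟩ | ⟨g, -⟩
    · rw [g, ← h3]
    · rw [← h3] at g; exact absurd h2 g
  have b2 : B.beG p z0 (some (u, f)) = some (t, d) := by
    rw [← b1, B.beG_invol hz]
  rw [chL_ne B (ne_leg h hz hzy h1), chL_ne B (ne_leg h hz hzy h2)]
  unfold chG
  rw [if_neg (by rw [b1]; exact fun e => hne (Option.some.inj e)),
    if_neg (by rw [b2]; exact fun e => hne (Option.some.inj e).symm),
    seam_low h hz hzy h1 hc1, seam_low h hz hzy h2 hc2, ← hs]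
  push_cast
  ring

/-- **`PhH` for the phases of `G^(z)`** -/
theorem phH_gen (h : LB M L a b c y0 B Al Au) {p z0 : ℤ} (hz : B.At p z0) (hzy : y0 ≤ z0)
    {tw c' s : ℝ} {φ : Port TG → ℝ} {ps cc : TG × ZMod 4 → ℤ} {cl : ℤ}
    (hφ : ∀ t d, (lowHalf h.d).tH t → (lowHalf h.d).FrH t d →
      (d = 1 → ¬ (lowHalf h.d).cutT t) → s * φ (some (t, d)) =
      Real.pi / 12 * ps (t, d) - Real.pi / 3 * cc (t, d))
    (htw : s * tw = -(Real.pi / 3 * cl))
    (wl : ∀ y, c * L ≤ y → y < B.y1 → ps (Sum.inl (B.xl, y), 0) = 4)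
    (wr : ∀ y, c * L ≤ y → y < B.y1 → ps (Sum.inl (B.xr, y), 2) = 2)
    (fl : ∀ i, 0 ≤ i → i < B.R → ps (Sum.inr (i, B.y1), 3) = 3)
    (st : ∀ X X' k, Stp ((lowHalf h.d).H : Set (ℤ × ℤ)) (NM (lowHalf h.d)) X X' k →
      ps (Sum.inl X'.1, X'.2) = ps (Sum.inl X.1, X.2) + k) :
    PhH (lowHalf h.d) (fun q => s * chL B p z0 tw c' φ q) ps cc cl where
  free t d ht hf hc := by
    rw [chL_free h hz hzy ht hf hc, hφ t d ht hf hc]
  glue q r hg := by
    rw [← mul_sub, chL_glue h hz hzy hg, mul_neg, ← mul_assoc, htw]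
    push_cast
    ring
  wl y h1 h2 := by
    have exl : (lowHalf h.d).xl = B.xl := h.xl.symm
    rw [exl]
    exact wl y h1 h2
  wr y h1 h2 := by
    have exr : (lowHalf h.d).xr = B.xr := h.xr.symm
    rw [exr]
    exact wr y h1 h2
  fl i h1 h2 := fl i h1 h2
  st := st

end

end Crest.Agent.R158.Lr158
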