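import Crest.Agent.R158.Lr5_158

/-!
R158, block Q1d, leaf LR (helper158), part 6: `PhH` for helper857's family (Fm1), both halves.

* **`phH_low`** : lower half of a band inside a macroscopic row, phases
  `-chL B p z0 ctw c' (phi B b' m1 m2 e)`, `ps = Fm857.ps`, charges `Fm857.cp`, `cl = clow`
* `psU`, `ccU` : lifted direction and charges of the reflected upper half
* **`phH_up`** : upper half (lower half of the reflected band `rB B`), phases
  `-chL (rB B) p z0 (-(ctw + e3)) c' (-phi ∘ rp)`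
* **`phH_up'`** : the same for `chL (rB B) p z0 (ctw + e3) c' (phi ∘ rp)`
-/

set_option autoImplicit false

namespace Crest.Agent.R158.Lr158

open Crest.Agent.R158.Sw300 (Port)
open Crest.Agent.R158.Env664 (TG Mac D mem_D Run CutAdj Adj4 lowT upT Band)
open Crest.Agent.R158.Ka470
open Crest.Agent.R158.Ka470.Half
open Crest.Agent.R158.Pt266 (dir RFree FFree rfree_full adj_dir)
open Crest.Agent.R158.Ao857 (Split topO mem_topO topP legP beL chL chG seamG)
open Crest.Agent.R158.Xr249 (full mem_lowT low_step)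
open Crest.Agent.R158.Rf896 (rA rB rz rp rt mem_rA rz_rz)
open Crest.Agent.R158.Bd932 (e3)
open Crest.Agent.R158.Fm857 (psD isLS clow ctw phi)

variable {M : Mac} {L a b c : ℤ} {B : Band (D M.F L)}

theorem e3_eq : e3 = Real.pi / 3 := rfl

/-- rows of the macroscopic row -/
theorem mb_run (m : MB M L a b c B) {y : ℤ} (h1 : c * L ≤ y) (h2 : y < c * L + L) :
    Run (D M.F L) B.xl B.xr y := by
  rw [m.xl, m.xr]
  exact m.run.scale m.hL h1 h2

/-- left wall -/
theorem psD_left (m : MB M L a b c B) {y : ℤ} (h1 : c * L ≤ y) (h2 : y < c * L + L) :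
    psD B ((B.xl, y), 0) = if B.y1 ≤ y then 0 else 4 := by
  have g1 := m.h1
  have g2 := m.h2
  have g3 := m.hy
  exact (Xr249.psi_left (Xr249.D_SC M m.hL) (Xr249.D_Conn M m.hL) (fun y => mb_run m)
    g1.le (by omega) h1 h2).1

/-- right wall -/
theorem psD_right (m : MB M L a b c B) {y : ℤ} (h1 : c * L ≤ y) (h2 : y < c * L + L) :
    psD B ((B.xr, y), 2) = 2 := by
  have g1 := m.h1
  have g2 := m.h2
  have g3 := m.hy
  exact (Xr249.psi_right (Xr249.D_SC M m.hL) (Xr249.D_Conn M m.hL) (fun y => mb_run m)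
    g1.le (by omega) h1 h2).1

theorem mb_bw (m : MB M L a b c B) :
    ∃ w l, Psi664.BW (full (D M.F L)) B.xl B.y1 w l := by
  have g1 := m.h1
  have g2 := m.h2
  have g3 := m.hy
  have hr := mb_run m (y := B.y1) g1.le (by omega)
  obtain ⟨w, l, -, -, h⟩ := Xr249.exists_BW (Xr249.D_SC M m.hL) (Xr249.D_Conn M m.hL)
    (hr.mem _ le_rfl hr.le) hr.left
  exact ⟨w, l, h⟩

/-- **steps of the lower half** -/
theorem st_low (m : MB M L a b c B) {y0 : ℤ} (h1 : B.y1 < y0) (h2 : y0 ≤ B.y2)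
    {X X' : (ℤ × ℤ) × ZMod 4} {k : ℤ}
    (h : Stp ((lowHalf (lb_low m h1 h2).d).H : Set (ℤ × ℤ)) (NM (lowHalf (lb_low m h1 h2).d))
      X X' k) : psD B X' = psD B X + k := by
  obtain ⟨w, l, hw⟩ := mb_bw m
  set d := (lb_low m h1 h2).d
  refine psi_stp hw ?_ ?_ ?_ h
  · intro v hv _
    exact (mem_lowT.1 (Finset.mem_coe.1 hv)).1
  · intro v hv hn e _ he hD
    exact he (Finset.mem_coe.2 (H_adj d (Finset.mem_coe.1 hv) hn hD (adj_dir v e)))
  · intro _ hn
    apply hn
    have hx := (lowHalf d).hx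
    have exl : (lowHalf d).xl = B.xl := m.xl.symm
    refine ⟨⟨⟨exl.le, ?_⟩, le_rfl, h1⟩, Or.inl exl.symm⟩
    show B.xl ≤ (lowHalf d).xr
    omega

/-- **phases of the lower half** -/
theorem phH_low (m : MB M L a b c B) {y0 p z0 : ℤ} (h1 : B.y1 < y0) (h2 : y0 ≤ B.y2)
    (hz : B.At p z0) (hzy : y0 ≤ z0) (b' : ℤ) (m1 m2 : Port TG) (e : Option (Port TG)) (c' : ℝ) :
    PhH (lowHalf (lb_low m h1 h2).d)
      (fun q => -chL B p z0 (ctw B b' m1 m2 e) c' (phi B b' m1 m2 e) q)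
      (fun q => Fm857.ps B b' (some q)) (fun q => Fm857.cp B b' m1 m2 e (some q))
      (clow B b' m1 m2 e) := by
  have g1 := m.h1
  have g2 := m.h2
  have key := phH_gen (lb_low m h1 h2) hz hzy (tw := ctw B b' m1 m2 e) (c' := c') (s := -1)
    (φ := phi B b' m1 m2 e) (ps := fun q => Fm857.ps B b' (some q))
    (cc := fun q => Fm857.cp B b' m1 m2 e (some q)) (cl := clow B b' m1 m2 e)
    (fun t d _ _ _ => by unfold phi; rw [e3_eq]; ring)
    (by unfold ctw; rw [e3_eq]; ring)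
    (fun y g3 g4 => by
      show psD B ((B.xl, y), 0) = 4
      rw [psD_left m g3 (by omega), if_neg (by omega)])
    (fun y g3 g4 => psD_right m g3 (by omega))
    (fun i _ _ => by simp [Fm857.ps])
    (fun X X' k h => st_low m h1 h2 h)
  simpa only [neg_mul, one_mul] using key

/-! ### The upper half -/

/-- lifted direction of the reflected upper half -/
noncomputable def psU (B : Band (D M.F L)) : TG × ZMod 4 → ℤ
  | (Sum.inl v, d) => 4 - psD B (rz v, -d)
  | (Sum.inr _, _) => 3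

/-- charges of the reflected upper half -/
noncomputable def ccU (B : Band (D M.F L)) (b' : ℤ) (m1 m2 : Port TG) (e : Option (Port TG)) :
    TG × ZMod 4 → ℤ
  | (Sum.inl v, d) => 1 - Fm857.cp B b' m1 m2 e (rp (some (Sum.inl v, d)))
  | (Sum.inr v, d) => (if v.1 < b' then 1 else 2) - Fm857.cp B b' m1 m2 e (rp (some (Sum.inr v, d)))

theorem dirZ (v : ℤ × ℤ) (e : ZMod 4) : rz (v + dir e) = rz v + dir (-e) := by
  rw [dir_neg]
  ext
  · simp [rz]
  · simp [rz]; ring

/-- the mirrored region -/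
theorem rfx_rz (X : (ℤ × ℤ) × ZMod 4) : rfx (-1) X = (rz X.1, -X.2) := by
  unfold rfx rz
  ext
  · rfl
  · simp only; ring
  · rfl

/-- **steps of the reflected upper half** -/
theorem st_up (m : MB M L a b c B) {y0 : ℤ} (h1 : -B.y2 < y0) (h2 : y0 ≤ -B.y1)
    {X X' : (ℤ × ℤ) × ZMod 4} {k : ℤ}
    (h : Stp ((lowHalf (lb_up m h1 h2).d).H : Set (ℤ × ℤ)) (NM (lowHalf (lb_up m h1 h2).d))
      X X' k) : psD B (rz X.1, -X.2) = psD B (rz X'.1, -X'.2) + k := by
  obtain ⟨w, l, hw⟩ := mb_bw m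
  set d := (lb_up m h1 h2).d with hd
  have hDr : D M.rf.F L = rA (D M.F L) := Rf896.D_rA m.hL
  have hr : ∀ v : ℤ × ℤ, (v.1, -1 - v.2) = rz v := fun v => by
    unfold rz
    rw [show -1 - v.2 = -v.2 - 1 by ring]
  have hm : Stp {v | rz v ∈ (lowHalf d).H} {v | rz v ∈ NM (lowHalf d)} (rfx (-1) X')
      (rfx (-1) X) k := by
    refine Stp.mirror (c := -1) ?_ ?_ h
    · intro v _
      rw [hr, Set.mem_ofPred_eq, rz_rz]
      exact Finset.mem_coe
    · intro v hv
      rw [hr, Set.mem_ofPred_eq, rz_rz]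
      exact hv
  rw [rfx_rz, rfx_rz] at hm
  refine psi_stp hw ?_ ?_ ?_ hm
  · intro v hv _
    have h3 : rz v ∈ D M.rf.F L := (mem_lowT.1 hv).1
    rw [hDr, mem_rA, rz_rz] at h3
    exact h3
  · intro v hv hn e _ he hD
    apply he
    have h3 : rz (v + dir e) ∈ D M.rf.F L := by rw [hDr, mem_rA, rz_rz]; exact hD
    refine H_adj d hv hn h3 ?_
    rw [dirZ]
    exact adj_dir _ _
  · intro hR hn
    have g1 := m.h1
    have g2 := m.h2
    have g3 := m.hy
    have hab := d.ab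
    have hL := m.hL
    have hR' : rz (B.xl, B.y1) ∈ lowT (D M.rf.F L) (a * L) (b * L + L - 1) y0 := hR
    have e1 : rz (B.xl, B.y1) = (B.xl, -B.y1 - 1) := rfl
    rw [e1] at hR'
    have hxl := m.xl
    by_cases h3 : -B.y1 - 1 < y0
    · apply hn
      show (lowHalf d).Mou (B.xl, -B.y1 - 1)
      refine ⟨⟨⟨?_, ?_⟩, ?_, h3⟩, Or.inl ?_⟩
      · show a * L ≤ B.xl
        omega
      · show B.xl ≤ b * L + L - 1
        omega
      · show -B.y2 ≤ -B.y1 - 1
        omega
      · show B.xl = a * L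
        exact hxl
    · refine d.top (x := B.xl) (y := -B.y1 - 1) (by omega) ?_ (by omega) (by omega) hR'
      have : (-c - 1) * L + L = -(c * L) := by ring
      omega

theorem neg_two' : -(2 : ZMod 4) = 2 := by decide
theorem neg_three' : -(3 : ZMod 4) = 1 := by decide

/-- phases of the reflected upper half -/
theorem phi_up (b' : ℤ) (m1 m2 : Port TG) (e : Option (Port TG)) {t : TG} {d : ZMod 4}
    (hd : ∀ v, t = Sum.inr v → d = 3) :
    phi B b' m1 m2 e (rp (some (t, d))) =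
      Real.pi / 12 * psU B (t, d) - Real.pi / 3 * ccU B b' m1 m2 e (t, d) := by
  rcases t with v | v
  · show phi B b' m1 m2 e (rp (some (Sum.inl v, d))) = Real.pi / 12 * ((4 - psD B (rz v, -d) : ℤ) : ℝ)
      - Real.pi / 3 * ((1 - Fm857.cp B b' m1 m2 e (rp (some (Sum.inl v, d))) : ℤ) : ℝ)
    have e1 : Fm857.ps B b' (rp (some (Sum.inl v, d))) = psD B (rz v, -d) := rfl
    unfold phi
    rw [e1, e3_eq]
    push_cast
    ring
  · obtain rfl := hd v rfl
    obtain ⟨i, y⟩ := v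
    show phi B b' m1 m2 e (rp (some (Sum.inr (i, y), 3))) = Real.pi / 12 * ((3 : ℤ) : ℝ)
      - Real.pi / 3 * (((if i < b' then 1 else 2) -
        Fm857.cp B b' m1 m2 e (rp (some (Sum.inr (i, y), 3))) : ℤ) : ℝ)
    have e1 : Fm857.ps B b' (rp (some (Sum.inr (i, y), 3))) = if i < b' then 1 else 5 := by
      show (if (-(3 : ZMod 4)) = 3 then (3 : ℤ) else if i < b' then 1 else 5) = _
      rw [if_neg (by decide)]
    unfold phi
    rw [e1, e3_eq]
    split_ifs
    · push_cast; ring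
    · push_cast; ring

theorem up_pre (m : MB M L a b c B) {y0 : ℤ} (h1 : -B.y2 < y0) (h2 : y0 ≤ -B.y1) :
    (∀ y, (-c - 1) * L ≤ y → y < (rB B).y1 → psU B (Sum.inl ((rB B).xl, y), 0) = 4) ∧
    (∀ y, (-c - 1) * L ≤ y → y < (rB B).y1 → psU B (Sum.inl ((rB B).xr, y), 2) = 2) ∧
    (∀ i, 0 ≤ i → i < (rB B).R → psU B (Sum.inr (i, (rB B).y1), 3) = 3) ∧
    ∀ X X' k, Stp ((lowHalf (lb_up m h1 h2).d).H : Set (ℤ × ℤ))
      (NM (lowHalf (lb_up m h1 h2).d)) X X' k →
      psU B (Sum.inl X'.1, X'.2) = psU B (Sum.inl X.1, X.2) + k := by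
  have g1 := m.h1
  have g2 := m.h2
  have g3 := m.hy
  have e1 : (-c - 1) * L = -(c * L) - L := by ring
  refine ⟨fun y g4 g5 => ?_, fun y g4 g5 => ?_, fun _ _ _ => rfl, fun X X' k h => ?_⟩
  · have g6 : y < -B.y2 := g5
    show 4 - psD B ((B.xl, -y - 1), -0) = 4
    rw [neg_zero, psD_left m (by omega) (by omega), if_pos (by omega)]
    rfl
  · have g6 : y < -B.y2 := g5
    show 4 - psD B ((B.xr, -y - 1), -2) = 2
    rw [neg_two', psD_right m (by omega) (by omega)]
    rfl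
  · have := st_up m h1 h2 h
    show 4 - psD B (rz X'.1, -X'.2) = 4 - psD B (rz X.1, -X.2) + k
    omega

/-- **phases of the upper half** (reflected band), positive form -/
theorem phH_up' (m : MB M L a b c B) {y0 p z0 : ℤ} (h1 : -B.y2 < y0) (h2 : y0 ≤ -B.y1)
    (hz : (rB B).At p z0) (hzy : y0 ≤ z0) (b' : ℤ) (m1 m2 : Port TG) (e : Option (Port TG))
    (c' : ℝ) :
    PhH (lowHalf (lb_up m h1 h2).d)
      (fun q => chL (rB B) p z0 (ctw B b' m1 m2 e + e3) c' (fun q => phi B b' m1 m2 e (rp q)) q)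
      (psU B) (ccU B b' m1 m2 e) (-(clow B b' m1 m2 e + 1)) := by
  obtain ⟨k1, k2, k3, k4⟩ := up_pre m h1 h2
  have key := phH_gen (lb_up m h1 h2) hz hzy (tw := ctw B b' m1 m2 e + e3) (c' := c') (s := 1)
    (φ := fun q => phi B b' m1 m2 e (rp q)) (ps := psU B)
    (cc := ccU B b' m1 m2 e) (cl := -(clow B b' m1 m2 e + 1))
    (fun t d ht hf hc => by
      rw [one_mul]
      exact phi_up b' m1 m2 e (fun v hv => by subst hv; exact (free_inr ht hf hc).1))
    (by unfold ctw; rw [e3_eq]; push_cast; ring) k1 k2 k3 k4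
  simpa only [one_mul] using key

/-- **phases of the upper half** (reflected band), negative form -/
theorem phH_up (m : MB M L a b c B) {y0 p z0 : ℤ} (h1 : -B.y2 < y0) (h2 : y0 ≤ -B.y1)
    (hz : (rB B).At p z0) (hzy : y0 ≤ z0) (b' : ℤ) (m1 m2 : Port TG) (e : Option (Port TG))
    (c' : ℝ) :
    PhH (lowHalf (lb_up m h1 h2).d)
      (fun q => -chL (rB B) p z0 (-(ctw B b' m1 m2 e + e3)) c'
        (fun q => -phi B b' m1 m2 e (rp q)) q)
      (psU B) (ccU B b' m1 m2 e) (-(clow B b' m1 m2 e + 1)) := by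
  obtain ⟨k1, k2, k3, k4⟩ := up_pre m h1 h2
  have key := phH_gen (lb_up m h1 h2) hz hzy (tw := -(ctw B b' m1 m2 e + e3)) (c' := c')
    (s := -1) (φ := fun q => -phi B b' m1 m2 e (rp q)) (ps := psU B)
    (cc := ccU B b' m1 m2 e) (cl := -(clow B b' m1 m2 e + 1))
    (fun t d ht hf hc => by
      rw [neg_mul_neg, one_mul]
      exact phi_up b' m1 m2 e (fun v hv => by subst hv; exact (free_inr ht hf hc).1))
    (by unfold ctw; rw [e3_eq]; push_cast; ring) k1 k2 k3 k4
  simpa only [neg_mul, one_mul] using key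

end Crest.Agent.R158.Lr158
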