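import Crest.Agent.R158.Lr6_158

/-!
R158, block Q1d, leaf LR (helper158), part 7: consecutive free ends in helper857's clockwise order
`pG` and the step of the charges `cb`, `cp`.

* `ind m q`, **`Jn m1 m2 e q q'`** : jump of the charge between the consecutive free ends `q`, `q'`
* `Suc B b q q'` : `q'` is the successor of `q` among the free ends `freeG B`
* **`cb_suc`** : `cb q' = cb q + Jn q q'`
-/

set_option autoImplicit false

namespace Crest.Agent.R158.Lr158

open Crest.Agent.R158.Sw300 (Port)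
open Crest.Agent.R158.Env664 (TG Mac D mem_D Run CutAdj Adj4 lowT upT Band PortOf portOf_some nbP
  nbP_W nbP_N nbP_E nbP_S)
open Crest.Agent.R158.Pt266 (dir RFree FFree rfree_full NxT)
open Crest.Agent.R158.Ad350 (ports mem_ports mem_ports')
open Crest.Agent.R158.Ao857 (inlE)
open Crest.Agent.R158.Xr249 (full)
open Crest.Agent.R158.Fm857 (psD rD isLow blkG innG pG isLS clow ctw phi cb cp ge1 gt1 low1 freeG
  freeD flr cil mem_flr mem_cil mouth)

variable {A : Finset (ℤ × ℤ)} {B : Band A} {b : ℤ}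

/-- indicator -/
def ind (m q : Port TG) : ℤ := if m = q then 1 else 0

/-- **jump of the charge** between the consecutive free ends `q` and `q'` -/
def Jn (m1 m2 : Port TG) (e : Option (Port TG)) (q q' : Port TG) : ℤ :=
  ind m1 q' + ind m2 q' -
    match e with
    | none => 2 * ind m2 q'
    | some e => ind e q' + ind e q

/-- `q'` is the successor of `q` -/
structure Suc (B : Band A) (b : ℤ) (q q' : Port TG) : Prop where
  lt : ∀ m ∈ freeG B, (pG B b m < pG B b q' ↔ pG B b m ≤ pG B b q)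
  i1 : ∀ m ∈ freeG B, pG B b m = pG B b q → m = q
  i2 : ∀ m ∈ freeG B, pG B b m = pG B b q' → m = q'

theorem ge1_suc {q q' m : Port TG} (h : Suc B b q q') (hm : m ∈ freeG B) :
    ge1 B b m q' = ge1 B b m q + ind m q' := by
  have h1 := h.lt m hm
  unfold ge1 ind
  by_cases h2 : m = q'
  · have h3 : ¬ pG B b m ≤ pG B b q := fun h4 => by
      have := h1.2 h4
      rw [h2] at this
      exact lt_irrefl _ this
    rw [if_pos (by rw [h2]), if_neg h3, if_pos h2]
    rfl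
  · rw [if_neg h2, add_zero]
    refine if_congr ?_ rfl rfl
    rw [← h1]
    exact ⟨fun h4 => lt_of_le_of_ne h4 fun h5 => h2 (h.i2 m hm h5), le_of_lt⟩

theorem gt1_suc {q q' m : Port TG} (h : Suc B b q q') (hm : m ∈ freeG B) :
    gt1 B b m q' = gt1 B b m q + ind m q := by
  have h1 := h.lt m hm
  unfold gt1 ind
  by_cases h2 : m = q
  · have h3 : ¬ pG B b m < pG B b q := by rw [h2]; exact lt_irrefl _
    rw [if_pos (h1.2 (by rw [h2])), if_neg h3, if_pos h2]
    rfl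
  · rw [if_neg h2, add_zero]
    refine if_congr ?_ rfl rfl
    rw [h1]
    exact ⟨fun h4 => lt_of_le_of_ne h4 fun h5 => h2 (h.i1 m hm h5), le_of_lt⟩

/-- **step of the charge** -/
theorem cb_suc {q q' m1 m2 : Port TG} {e : Option (Port TG)} (h : Suc B b q q')
    (h1 : m1 ∈ freeG B) (h2 : m2 ∈ freeG B) (he : ∀ e' ∈ e, e' ∈ freeG B) :
    cb B b m1 m2 e q' = cb B b m1 m2 e q + Jn m1 m2 e q q' := by
  unfold cb Jn
  rw [ge1_suc h h1, ge1_suc h h2]
  cases e with
  | none => simp only; ring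
  | some e =>
    have h3 := he e rfl
    simp only
    rw [ge1_suc h h3, gt1_suc h h3]
    ring

/-! ### The free ends -/

theorem nbP_dir (t : ℤ × ℤ) (d : ZMod 4) : ∃ f, nbP (some (t, d)) = some (t + dir d, f) := by
  obtain ⟨x, y⟩ := t
  rcases z4 d with rfl | rfl | rfl | rfl
  · exact ⟨2, by rw [nbP_W, dir0]; simp [sub_eq_add_neg]⟩
  · exact ⟨3, by rw [nbP_N, dir1]; simp⟩
  · exact ⟨0, by rw [nbP_E, dir2]; simp⟩
  · exact ⟨1, by rw [nbP_S, dir3]; simp [sub_eq_add_neg]⟩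

theorem mem_freeD {t : ℤ × ℤ} {d : ZMod 4} :
    (some (t, d) : Port (ℤ × ℤ)) ∈ freeD B ↔ FFree A (t, d) ∧ ¬ mouth B (some (t, d)) := by
  unfold freeD
  obtain ⟨f, hf⟩ := nbP_dir t d
  rw [Finset.mem_filter, mem_ports, hf, portOf_some]
  unfold FFree
  tauto

theorem mem_freeG' {m : Port TG} : m ∈ freeG B ↔
    (∃ (t : ℤ × ℤ) (d : ZMod 4), m = some (Sum.inl t, d) ∧ FFree A (t, d) ∧
      ¬ mouth B (some (t, d))) ∨
    (∃ i, 0 ≤ i ∧ i < B.R ∧ m = some (Sum.inr (i, B.y1), 3)) ∨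
    ∃ i, 0 ≤ i ∧ i < B.R + 1 ∧ m = some (Sum.inr (i, B.y2 - 1), 1) := by
  unfold freeG
  rw [Finset.mem_union, Finset.mem_union, mem_flr, mem_cil, Finset.mem_image]
  refine or_congr ?_ Iff.rfl
  constructor
  · rintro ⟨q0, h1, rfl⟩
    have h2 := (Finset.mem_filter.1 (show q0 ∈ freeD B from h1)).1
    obtain ⟨t, d, rfl, -⟩ := mem_ports' h2
    exact ⟨t, d, rfl, mem_freeD.1 h1⟩
  · rintro ⟨t, d, rfl, h1⟩
    exact ⟨some (t, d), mem_freeD.2 h1, rfl⟩

theorem pG_inl {t : ℤ × ℤ} {d : ZMod 4} : pG B b (some (Sum.inl t, d)) =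
    toLex (if isLow B (t, d) then 1 else 4, rD B (t, d)) := rfl

theorem pG_fl {i y : ℤ} : pG B b (some (Sum.inr (i, y), 3)) =
    toLex (if i < b then 0 else 2, -i) := by
  simp [pG, blkG, innG]

theorem pG_cl {i y : ℤ} : pG B b (some (Sum.inr (i, y), 1)) =
    toLex (if i < b then 5 else 3, i) := by
  have h13 : (1 : ZMod 4) ≠ 3 := by decide
  simp [pG, blkG, innG, h13]

theorem lex_lt {a b c d : ℤ} : (toLex (a, b) : ℤ ×ₗ ℤ) < toLex (c, d) ↔
    a < c ∨ a = c ∧ b < d := Prod.Lex.toLex_lt_toLex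

theorem lex_le {a b c d : ℤ} : (toLex (a, b) : ℤ ×ₗ ℤ) ≤ toLex (c, d) ↔
    a < c ∨ a = c ∧ b ≤ d := Prod.Lex.toLex_le_toLex

theorem lex_eq {a b c d : ℤ} : (toLex (a, b) : ℤ ×ₗ ℤ) = toLex (c, d) ↔ a = c ∧ b = d := by
  rw [toLex_inj, Prod.mk.injEq]

section bw

variable {w : Sw300.Wd (ℤ × ℤ)} {l : List (Port (ℤ × ℤ))}

theorem rD_inj (hw : Psi664.BW (full A) B.xl B.y1 w l) {x y : (ℤ × ℤ) × ZMod 4}
    (hx : FFree A x) (hy : FFree A y) (h : rD B x = rD B y) : x = y := by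
  unfold rD at h
  exact Psi664.rk_inj hw (rfree_full.2 hx) (rfree_full.2 hy) (by exact_mod_cast h)

theorem rD_next (hw : Psi664.BW (full A) B.xl B.y1 w l) {x y : (ℤ × ℤ) × ZMod 4} {k : ℤ}
    (hx : FFree A x) (hn : NxT (full A).gl (some x) (some y) k)
    (hb : y ≠ Psi664.bp B.xl B.y1) : rD B y = rD B x + 1 := by
  unfold rD
  rw [Psi664.rk_next hw (rfree_full.2 hx) hn hb]
  push_cast
  rfl

theorem rD_last (hw : Psi664.BW (full A) B.xl B.y1 w l) {x : (ℤ × ℤ) × ZMod 4} {k : ℤ}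
    (hx : FFree A x) (hn : NxT (full A).gl (some x) (some (Psi664.bp B.xl B.y1)) k) :
    ∀ y, FFree A y → rD B y ≤ rD B x := by
  intro y hy
  rcases hw.next (rfree_full.2 hx) hn with ⟨h1, -⟩ | ⟨-, ⟨l1, h2⟩, -⟩
  · exact absurd rfl h1
  · have h3 : (some x : Port (ℤ × ℤ)) ∉ l1 := by
      intro hm
      have hnd := hw.nd
      rw [h2, List.nodup_append] at hnd
      exact hnd.2.2 _ hm _ (by simp) rfl
    have e1 : Psi664.rk (full A) B.xl B.y1 x = l1.length := by
      unfold Psi664.rk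
      rw [Psi664.ends_eq hw]
      have h4 : (some (Psi664.bp B.xl B.y1) :: l : List (Port (ℤ × ℤ))) = l1 ++ [some x] := h2
      rw [h4, List.idxOf_append_of_notMem h3]
      simp
    have e2 := Psi664.rk_lt hw (rfree_full.2 hy)
    rw [Psi664.ends_eq hw] at e2
    have h4 : (some (Psi664.bp B.xl B.y1) :: l : List (Port (ℤ × ℤ))) = l1 ++ [some x] := h2
    rw [h4] at e2
    simp only [List.length_append, List.length_cons, List.length_nil] at e2
    unfold rD
    rw [e1]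
    omega

theorem pG_inj (hw : Psi664.BW (full A) B.xl B.y1 w l) {m q : Port TG} (hm : m ∈ freeG B)
    (hq : q ∈ freeG B) (h : pG B b m = pG B b q) : m = q := by
  rw [mem_freeG'] at hm hq
  rcases hm with ⟨t, d, rfl, h1, -⟩ | ⟨i, -, -, rfl⟩ | ⟨i, -, -, rfl⟩ <;>
    rcases hq with ⟨t', d', rfl, h2, -⟩ | ⟨i', -, -, rfl⟩ | ⟨i', -, -, rfl⟩ <;>
    simp only [pG_inl, pG_fl, pG_cl, lex_eq] at h
  · have h3 := rD_inj hw h1 h2 h.2
    rw [Prod.mk.injEq] at h3
    rw [h3.1, h3.2]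
  · exfalso; split_ifs at h <;> omega
  · exfalso; split_ifs at h <;> omega
  · exfalso; split_ifs at h <;> omega
  · obtain rfl : i = i' := by omega
    rfl
  · exfalso; split_ifs at h <;> omega
  · exfalso; split_ifs at h <;> omega
  · exfalso; split_ifs at h <;> omega
  · obtain rfl : i = i' := by omega
    rfl

theorem Suc.mk' (hw : Psi664.BW (full A) B.xl B.y1 w l) {q q' : Port TG} (hq : q ∈ freeG B)
    (hq' : q' ∈ freeG B) (h : ∀ m ∈ freeG B, (pG B b m < pG B b q' ↔ pG B b m ≤ pG B b q)) :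
    Suc B b q q' := ⟨h, fun _ hm => pG_inj hw hm hq, fun _ hm => pG_inj hw hm hq'⟩

/-- consecutive ends of `D` -/
theorem suc_D (hw : Psi664.BW (full A) B.xl B.y1 w l) (hr : FFree A ((B.xr, B.y1), 2))
    {x y : (ℤ × ℤ) × ZMod 4} {k : ℤ} (hx : some (Sum.inl x.1, x.2) ∈ freeG B)
    (hy : some (Sum.inl y.1, y.2) ∈ freeG B)
    (hn : NxT (full A).gl (some x) (some y) k) (hb : y ≠ Psi664.bp B.xl B.y1)
    (hbr : x ≠ ((B.xr, B.y1), 2)) :
    Suc B b (some (Sum.inl x.1, x.2)) (some (Sum.inl y.1, y.2)) := by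
  refine Suc.mk' hw hx hy fun m _ => ?_
  have hfx : FFree A x := by
    rcases mem_freeG'.1 hx with ⟨t, d, h1, h2, -⟩ | ⟨i, -, -, h1⟩ | ⟨i, -, -, h1⟩
    · simp only [Option.some.injEq, Prod.mk.injEq, Sum.inl.injEq] at h1
      obtain ⟨rfl, rfl⟩ := h1
      exact h2
    · simp at h1
    · simp at h1
  have e1 : rD B y = rD B x + 1 := rD_next hw hfx hn hb
  have e2 : isLow B y ↔ isLow B x := by
    unfold isLow
    constructor
    · intro h3
      by_contra h4
      exact hbr (rD_inj hw hfx hr (by omega))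
    · intro h3
      omega
  have e3 : pG B b (some (Sum.inl x.1, x.2)) = toLex (if isLow B x then 1 else 4, rD B x) := rfl
  have e4 : pG B b (some (Sum.inl y.1, y.2)) = toLex (if isLow B x then 1 else 4, rD B x + 1) := by
    have : pG B b (some (Sum.inl y.1, y.2)) = toLex (if isLow B y then 1 else 4, rD B y) := rfl
    rw [this, e1]
    simp only [e2]
  have e5 : pG B b m = toLex (blkG B b m, innG B m) := rfl
  rw [e3, e4, e5, lex_lt, lex_le]
  omega

/-! ### the strip -/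

/-- the floor, away from the far gap -/
theorem suc_fl (hw : Psi664.BW (full A) B.xl B.y1 w l) {i : ℤ} (h0 : 0 < i) (hR : i < B.R)
    (hb : i ≠ b) : Suc B b (some (Sum.inr (i, B.y1), 3)) (some (Sum.inr (i - 1, B.y1), 3)) := by
  refine Suc.mk' hw (mem_freeG'.2 (Or.inr (Or.inl ⟨i, by omega, hR, rfl⟩)))
    (mem_freeG'.2 (Or.inr (Or.inl ⟨i - 1, by omega, by omega, rfl⟩))) fun m _ => ?_
  have e5 : pG B b m = toLex (blkG B b m, innG B m) := rfl
  rw [e5, pG_fl, pG_fl, lex_lt, lex_le]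
  by_cases h1 : i < b
  · rw [if_pos h1, if_pos (by omega)]
    omega
  · rw [if_neg h1, if_neg (by omega)]
    omega

/-- the ceiling, away from the far gap -/
theorem suc_cl (hw : Psi664.BW (full A) B.xl B.y1 w l) {i : ℤ} (h0 : 0 ≤ i) (hR : i < B.R)
    (hb : i + 1 ≠ b) :
    Suc B b (some (Sum.inr (i, B.y2 - 1), 1)) (some (Sum.inr (i + 1, B.y2 - 1), 1)) := by
  refine Suc.mk' hw (mem_freeG'.2 (Or.inr (Or.inr ⟨i, by omega, by omega, rfl⟩)))
    (mem_freeG'.2 (Or.inr (Or.inr ⟨i + 1, by omega, by omega, rfl⟩))) fun m _ => ?_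
  have e5 : pG B b m = toLex (blkG B b m, innG B m) := rfl
  rw [e5, pG_cl, pG_cl, lex_lt, lex_le]
  by_cases h1 : i < b
  · rw [if_pos h1, if_pos (by omega)]
    omega
  · rw [if_neg h1, if_neg (by omega)]
    omega

end bw

end Crest.Agent.R158.Lr158
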