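import Crest.Agent.R158.Lr7_158

/-!
R158, block Q1d, leaf LR (helper158), part 8: the four mouth corners, the far gap, the step of `cp`.

`B` a band inside a macroscopic row (`MB`), `0 < b < B.R` the far gap.

* `suc_ml`, `suc_mr`, `suc_ul`, `suc_ur` : the four mouth corners
* **`cp_fl`**, **`cp_cl`** : step of `cp` along the floor and the ceiling (including the far gap)
* **`cp_D`** : step of `cp` along the ends of `D`
* `cp_ml`, `cp_mr`, `cp_ul`, `cp_ur` : the mouth corners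
-/

set_option autoImplicit false

namespace Crest.Agent.R158.Lr158

open Crest.Agent.R158.Sw300 (Port)
open Crest.Agent.R158.Env664 (TG Mac D mem_D Run CutAdj Adj4 lowT upT Band PortOf portOf_some nbP)
open Crest.Agent.R158.Pt266 (dir RFree FFree rfree_full NxT nx_flat nx_convex nx_reflex)
open Crest.Agent.R158.Ka470
open Crest.Agent.R158.Xr249 (full)
open Crest.Agent.R158.Fm857 (psD rD isLow blkG innG pG isLS clow ctw phi cb cp ge1 gt1 low1 freeG
  freeD flr cil mem_flr mem_cil mouth)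

variable {M : Mac} {L a b0 c : ℤ} {B : Band (D M.F L)} {b : ℤ}

/-! ### walls of the run -/

theorem ff_l (m : MB M L a b0 c B) {y : ℤ} (h1 : c * L ≤ y) (h2 : y < c * L + L) :
    FFree (D M.F L) ((B.xl, y), 0) := by
  have hr := mb_run m h1 h2
  refine ⟨hr.mem _ le_rfl hr.le, ?_⟩
  rw [dir0]
  have := hr.left
  simpa [sub_eq_add_neg] using this

theorem ff_r (m : MB M L a b0 c B) {y : ℤ} (h1 : c * L ≤ y) (h2 : y < c * L + L) :
    FFree (D M.F L) ((B.xr, y), 2) := by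
  have hr := mb_run m h1 h2
  refine ⟨hr.mem _ hr.le le_rfl, ?_⟩
  rw [dir2]
  have := hr.right
  simpa using this

theorem nx_l (m : MB M L a b0 c B) {y : ℤ} (h1 : c * L ≤ y) (h2 : y + 1 < c * L + L) :
    NxT (full (D M.F L)).gl (some ((B.xl, y), 0)) (some ((B.xl, y + 1), 0)) 0 := by
  have f1 := ff_l m h1 (by omega)
  have f2 := ff_l m (y := y + 1) (by omega) h2
  have e1 : ((B.xl, y) : ℤ × ℤ) + dir ((0 : ZMod 4) + 1) = (B.xl, y + 1) := by
    rw [d4a.1, dir1]; simp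
  have := nx_flat (A := D M.F L) (t := (B.xl, y)) (d := 0) f1.1 (by rw [e1]; exact f2.1)
    (by rw [e1]; exact f2.2)
  rwa [e1] at this

theorem nx_r (m : MB M L a b0 c B) {y : ℤ} (h1 : c * L ≤ y) (h2 : y + 1 < c * L + L) :
    NxT (full (D M.F L)).gl (some ((B.xr, y + 1), 2)) (some ((B.xr, y), 2)) 0 := by
  have f1 := ff_r m h1 (by omega)
  have f2 := ff_r m (y := y + 1) (by omega) h2
  have e1 : ((B.xr, y + 1) : ℤ × ℤ) + dir ((2 : ZMod 4) + 1) = (B.xr, y) := by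
    rw [d4a.2.2.1, dir3]; simp
  have := nx_flat (A := D M.F L) (t := (B.xr, y + 1)) (d := 2) f2.1 (by rw [e1]; exact f1.1)
    (by rw [e1]; exact f1.2)
  rwa [e1] at this

/-- ranks of the left wall -/
theorem rD_left (m : MB M L a b0 c B) : ∀ n : ℕ, (n : ℤ) ≤ B.y2 - B.y1 →
    rD B ((B.xl, B.y1 + n), 0) = n := by
  obtain ⟨w, l, hw⟩ := mb_bw m
  have g1 := m.h1
  have g2 := m.h2
  intro n
  induction n with
  | zero =>
    intro _
    have := Psi664.rk_base hw
    unfold rD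
    simp only [Nat.cast_zero, add_zero]
    rw [show (((B.xl, B.y1), (0 : ZMod 4)) : (ℤ × ℤ) × ZMod 4) = Psi664.bp B.xl B.y1 from rfl,
      this]
    rfl
  | succ n ih =>
    intro hn
    push_cast at hn ⊢
    have h1 := rD_next hw (ff_l m (y := B.y1 + n) (by omega) (by omega))
      (nx_l m (y := B.y1 + n) (by omega) (by omega)) (by
        simp only [Psi664.bp, ne_eq, Prod.mk.injEq, true_and, and_true]; omega)
    rw [ih (by omega)] at h1
    rw [← add_assoc]
    exact h1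

/-- ranks of the right wall -/
theorem rD_right (m : MB M L a b0 c B) : ∀ n : ℕ, (n : ℤ) ≤ B.y2 - B.y1 →
    rD B ((B.xr, B.y2 - n), 2) = rD B ((B.xr, B.y2), 2) + n := by
  obtain ⟨w, l, hw⟩ := mb_bw m
  have g1 := m.h1
  have g2 := m.h2
  intro n
  induction n with
  | zero => intro _; simp
  | succ n ih =>
    intro hn
    push_cast at hn ⊢
    have h0 := nx_r m (y := B.y2 - (n + 1)) (by omega) (by omega)
    have e : B.y2 - ((n : ℤ) + 1) + 1 = B.y2 - n := by ring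
    rw [e] at h0
    have n20 : (2 : ZMod 4) ≠ 0 := by decide
    have h1 := rD_next hw (ff_r m (y := B.y2 - n) (by omega) (by omega)) h0 (by
        simp [Psi664.bp, n20])
    rw [ih (by omega)] at h1
    rw [h1]
    ring

theorem mem_wl (m : MB M L a b0 c B) {y : ℤ} (h1 : c * L ≤ y) (h2 : y < c * L + L)
    (h3 : ¬ (B.y1 ≤ y ∧ y < B.y2)) : some (Sum.inl (B.xl, y), 0) ∈ freeG B := by
  refine mem_freeG'.2 (Or.inl ⟨(B.xl, y), 0, rfl, ff_l m h1 h2, ?_⟩)
  rintro ⟨h4, -⟩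
  exact h3 h4

theorem mem_wr (m : MB M L a b0 c B) {y : ℤ} (h1 : c * L ≤ y) (h2 : y < c * L + L)
    (h3 : ¬ (B.y1 ≤ y ∧ y < B.y2)) : some (Sum.inl (B.xr, y), 2) ∈ freeG B := by
  refine mem_freeG'.2 (Or.inl ⟨(B.xr, y), 2, rfl, ff_r m h1 h2, ?_⟩)
  rintro ⟨h4, -⟩
  exact h3 h4

theorem mem_f {A : Finset (ℤ × ℤ)} {B : Band A} {i : ℤ} (h1 : 0 ≤ i) (h2 : i < B.R) :
    some (Sum.inr (i, B.y1), 3) ∈ freeG B := mem_freeG'.2 (Or.inr (Or.inl ⟨i, h1, h2, rfl⟩))

theorem mem_c {A : Finset (ℤ × ℤ)} {B : Band A} {i : ℤ} (h1 : 0 ≤ i) (h2 : i < B.R + 1) :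
    some (Sum.inr (i, B.y2 - 1), 1) ∈ freeG B := mem_freeG'.2 (Or.inr (Or.inr ⟨i, h1, h2, rfl⟩))

/-! ### the mouth corners -/

/-- lower left mouth corner -/
theorem suc_ml (m : MB M L a b0 c B) (hb : b < B.R) :
    Suc B b (some (Sum.inl (B.xl, B.y1 - 1), 0)) (some (Sum.inr (B.R - 1, B.y1), 3)) := by
  obtain ⟨w, l, hw⟩ := mb_bw m
  have g1 := m.h1
  have g2 := m.h2
  have g3 := m.hy
  have hR := B.hR
  have hf := ff_l m (y := B.y1 - 1) (by omega) (by omega)
  have hn := nx_l m (y := B.y1 - 1) (by omega) (by omega)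
  rw [sub_add_cancel] at hn
  have hlast := rD_last hw hf hn
  have hr := ff_r m (y := B.y1) (by omega) (by omega)
  have n20 : (2 : ZMod 4) ≠ 0 := by decide
  have hlow : isLow B ((B.xl, B.y1 - 1), 0) := by
    unfold isLow
    have h1 := hlast _ hr
    rcases lt_or_eq_of_le h1 with h2 | h2
    · exact h2
    · have := rD_inj hw hr hf h2
      simp [n20] at this
  refine Suc.mk' hw (mem_wl m (by omega) (by omega) (by omega)) (mem_f (by omega) (by omega))
    fun q hq => ?_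
  rw [pG_fl, pG_inl, if_pos hlow, if_neg (by omega)]
  rcases mem_freeG'.1 hq with ⟨t, d, rfl, h1, -⟩ | ⟨i, h1, h2, rfl⟩ | ⟨i, h1, h2, rfl⟩
  · rw [pG_inl, lex_lt, lex_le]
    have := hlast _ h1
    split_ifs <;> omega
  · rw [pG_fl, lex_lt, lex_le]
    split_ifs <;> omega
  · rw [pG_cl, lex_lt, lex_le]
    split_ifs <;> omega

/-- lower right mouth corner -/
theorem suc_mr (m : MB M L a b0 c B) (hb : 0 < b) :
    Suc B b (some (Sum.inr (0, B.y1), 3)) (some (Sum.inl (B.xr, B.y1 - 1), 2)) := by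
  obtain ⟨w, l, hw⟩ := mb_bw m
  have g1 := m.h1
  have g2 := m.h2
  have g3 := m.hy
  have hR := B.hR
  have hr := ff_r m (y := B.y1) (by omega) (by omega)
  have hn := nx_r m (y := B.y1 - 1) (by omega) (by omega)
  rw [sub_add_cancel] at hn
  have n20 : (2 : ZMod 4) ≠ 0 := by decide
  have e1 : rD B ((B.xr, B.y1 - 1), 2) = rD B ((B.xr, B.y1), 2) + 1 :=
    rD_next hw hr hn (by simp [Psi664.bp, n20])
  have hlow : isLow B ((B.xr, B.y1 - 1), 2) := by
    unfold isLow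
    omega
  refine Suc.mk' hw (mem_f (by omega) (by omega)) (mem_wr m (by omega) (by omega) (by omega))
    fun q hq => ?_
  rw [pG_fl, pG_inl, if_pos hlow, if_pos hb, e1]
  rcases mem_freeG'.1 hq with ⟨t, d, rfl, h1, -⟩ | ⟨i, h1, h2, rfl⟩ | ⟨i, h1, h2, rfl⟩
  · rw [pG_inl, lex_lt, lex_le]
    unfold isLow
    split_ifs <;> omega
  · rw [pG_fl, lex_lt, lex_le]
    split_ifs <;> omega
  · rw [pG_cl, lex_lt, lex_le]
    split_ifs <;> omega

/-- upper left mouth corner -/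
theorem suc_ul (m : MB M L a b0 c B) (hb : b < B.R) :
    Suc B b (some (Sum.inr (B.R, B.y2 - 1), 1)) (some (Sum.inl (B.xl, B.y2), 0)) := by
  obtain ⟨w, l, hw⟩ := mb_bw m
  have g1 := m.h1
  have g2 := m.h2
  have g3 := m.hy
  have hR := B.hR
  have hr := ff_r m (y := B.y1) (by omega) (by omega)
  have n20 : (2 : ZMod 4) ≠ 0 := by decide
  have e0 : rD B ((B.xl, B.y2), 0) = B.y2 - B.y1 := by
    have := rD_left m (B.y2 - B.y1).toNat (by omega)
    rw [Int.toNat_of_nonneg (by omega)] at this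
    rwa [show B.y1 + (B.y2 - B.y1) = B.y2 by ring] at this
  -- a free end of rank less than `y2 - y1` is on the left mouth
  have key : ∀ x, FFree (D M.F L) x → rD B x < B.y2 - B.y1 →
      x = ((B.xl, B.y1 + rD B x), 0) := by
    intro x hx h1
    have h0 : 0 ≤ rD B x := by unfold rD; omega
    have h2 := rD_left m (rD B x).toNat (by omega)
    rw [Int.toNat_of_nonneg h0] at h2
    exact rD_inj hw hx (ff_l m (by omega) (by omega)) h2.symm
  have hlow : ¬ isLow B ((B.xl, B.y2), 0) := by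
    unfold isLow
    intro h1
    have h2 := key _ hr (by omega)
    have h3 := congrArg Prod.snd h2
    exact n20 h3
  refine Suc.mk' hw (mem_c (by omega) (by omega)) (mem_wl m (by omega) (by omega) (by omega))
    fun q hq => ?_
  rw [pG_cl, pG_inl, if_neg hlow, if_neg (by omega), e0]
  rcases mem_freeG'.1 hq with ⟨t, d, rfl, h1, h2⟩ | ⟨i, h1, h2, rfl⟩ | ⟨i, h1, h2, rfl⟩
  · rw [pG_inl, lex_lt, lex_le]
    have h3 : B.y2 - B.y1 ≤ rD B (t, d) := by
      by_contra h4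
      push Not at h4
      have h0 : 0 ≤ rD B (t, d) := by unfold rD; omega
      have h5 := key _ h1 h4
      apply h2
      rw [Prod.mk.injEq] at h5
      obtain ⟨h5, rfl⟩ := h5
      obtain ⟨x, y⟩ := t
      rw [Prod.mk.injEq] at h5
      exact ⟨⟨by omega, by omega⟩, Or.inl ⟨rfl, h5.1⟩⟩
    split_ifs <;> omega
  · rw [pG_fl, lex_lt, lex_le]
    split_ifs <;> omega
  · rw [pG_cl, lex_lt, lex_le]
    split_ifs <;> omega

/-- upper right mouth corner -/
theorem suc_ur (m : MB M L a b0 c B) (hb : 0 < b) :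
    Suc B b (some (Sum.inl (B.xr, B.y2), 2)) (some (Sum.inr (0, B.y2 - 1), 1)) := by
  obtain ⟨w, l, hw⟩ := mb_bw m
  have g1 := m.h1
  have g2 := m.h2
  have g3 := m.hy
  have hR := B.hR
  have e0 : rD B ((B.xr, B.y1), 2) = rD B ((B.xr, B.y2), 2) + (B.y2 - B.y1) := by
    have := rD_right m (B.y2 - B.y1).toNat (by omega)
    rw [Int.toNat_of_nonneg (by omega)] at this
    rwa [show B.y2 - (B.y2 - B.y1) = B.y1 by ring] at this
  have hlow : ¬ isLow B ((B.xr, B.y2), 2) := by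
    unfold isLow
    omega
  refine Suc.mk' hw (mem_wr m (by omega) (by omega) (by omega)) (mem_c (by omega) (by omega))
    fun q hq => ?_
  rw [pG_cl, pG_inl, if_neg hlow, if_pos hb]
  rcases mem_freeG'.1 hq with ⟨t, d, rfl, h1, h2⟩ | ⟨i, h1, h2, rfl⟩ | ⟨i, h1, h2, rfl⟩
  · rw [pG_inl, lex_lt, lex_le]
    have h3 : ¬ isLow B (t, d) → rD B (t, d) ≤ rD B ((B.xr, B.y2), 2) := by
      intro h4
      unfold isLow at h4
      by_contra h5
      push Not at h4 h5
      have h6 := rD_right m (rD B (t, d) - rD B ((B.xr, B.y2), 2)).toNat (by omega)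
      rw [Int.toNat_of_nonneg (by omega)] at h6
      have h7 := rD_inj hw h1 (ff_r m (y := B.y2 - (rD B (t, d) - rD B ((B.xr, B.y2), 2)))
        (by omega) (by omega)) (by rw [h6]; ring)
      apply h2
      rw [Prod.mk.injEq] at h7
      obtain ⟨h7, rfl⟩ := h7
      obtain ⟨x, y⟩ := t
      rw [Prod.mk.injEq] at h7
      exact ⟨⟨by omega, by omega⟩, Or.inr ⟨rfl, h7.1⟩⟩
    split_ifs with h8
    · omega
    · have := h3 h8
      omega
  · rw [pG_fl, lex_lt, lex_le]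
    split_ifs <;> omega
  · rw [pG_cl, lex_lt, lex_le]
    split_ifs <;> omega

/-! ### the far gap -/

section far

variable {A : Finset (ℤ × ℤ)} {B' : Band A} {w : Sw300.Wd (ℤ × ℤ)} {l : List (Port (ℤ × ℤ))}

theorem gt1_eq (hw : Psi664.BW (full A) B'.xl B'.y1 w l) {m q : Port TG} (hm : m ∈ freeG B')
    (hq : q ∈ freeG B') : gt1 B' b m q = ge1 B' b m q - ind m q := by
  unfold gt1 ge1 ind
  by_cases h : m = q
  · subst h
    rw [if_neg (lt_irrefl _), if_pos le_rfl, if_pos rfl]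
    rfl
  · rw [if_neg h, sub_zero]
    refine if_congr ⟨le_of_lt, fun h2 => lt_of_le_of_ne h2 fun h3 => h ?_⟩ rfl rfl
    exact pG_inj hw hm hq h3

theorem ge1_f1 {m : Port TG} (hm : m ∈ freeG B') :
    ge1 B' b m (some (Sum.inr (b, B'.y1), 3)) = low1 B' b m := by
  unfold ge1 low1
  refine if_congr ?_ rfl rfl
  rw [pG_fl, if_neg (by omega)]
  rcases mem_freeG'.1 hm with ⟨t, d, rfl, h1, h2⟩ | ⟨i, h1, h2, rfl⟩ | ⟨i, h1, h2, rfl⟩
  · rw [pG_inl, lex_le]
    show _ ↔ (if isLow B' (t, d) then (1 : ℤ) else 4) ≤ 2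
    split_ifs <;> omega
  · rw [pG_fl, lex_le]
    have : blkG B' b (some (Sum.inr (i, B'.y1), 3)) = if i < b then 0 else 2 := by simp [blkG]
    rw [this]
    split_ifs <;> omega
  · rw [pG_cl, lex_le]
    have h13 : (1 : ZMod 4) ≠ 3 := by decide
    have : blkG B' b (some (Sum.inr (i, B'.y2 - 1), 1)) = if i < b then 5 else 3 := by
      simp [blkG, h13]
    rw [this]
    split_ifs <;> omega

theorem ge1_f2 {m : Port TG} (hm : m ∈ freeG B') :
    ge1 B' b m (some (Sum.inr (b - 1, B'.y1), 3)) = ind m (some (Sum.inr (b - 1, B'.y1), 3)) := by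
  unfold ge1 ind
  refine if_congr ?_ rfl rfl
  rw [pG_fl, if_pos (by omega)]
  have h13 : (1 : ZMod 4) ≠ 3 := by decide
  rcases mem_freeG'.1 hm with ⟨t, d, rfl, h1, h2⟩ | ⟨i, h1, h2, rfl⟩ | ⟨i, h1, h2, rfl⟩
  · rw [pG_inl, lex_le]
    simp only [Option.some.injEq, Prod.mk.injEq, reduceCtorEq, false_and, iff_false]
    split_ifs <;> omega
  · rw [pG_fl, lex_le]
    simp only [Option.some.injEq, Prod.mk.injEq, Sum.inr.injEq, and_true]
    split_ifs <;> omega
  · rw [pG_cl, lex_le]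
    simp only [Option.some.injEq, Prod.mk.injEq, Sum.inr.injEq, h13, and_false, iff_false]
    split_ifs <;> omega

theorem ge1_c1 {m : Port TG} (hm : m ∈ freeG B') :
    ge1 B' b m (some (Sum.inr (b - 1, B'.y2 - 1), 1)) = 1 := by
  unfold ge1
  rw [if_pos]
  rw [pG_cl, if_pos (by omega)]
  rcases mem_freeG'.1 hm with ⟨t, d, rfl, h1, h2⟩ | ⟨i, h1, h2, rfl⟩ | ⟨i, h1, h2, rfl⟩
  · rw [pG_inl, lex_le]
    split_ifs <;> omega
  · rw [pG_fl, lex_le]
    split_ifs <;> omega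
  · rw [pG_cl, lex_le]
    split_ifs <;> omega

theorem ge1_c2 {m : Port TG} (hm : m ∈ freeG B') :
    ge1 B' b m (some (Sum.inr (b, B'.y2 - 1), 1)) =
      low1 B' b m + ind m (some (Sum.inr (b, B'.y2 - 1), 1)) := by
  have h13 : (1 : ZMod 4) ≠ 3 := by decide
  have h31 : (3 : ZMod 4) ≠ 1 := by decide
  have hk : (pG B' b m ≤ pG B' b (some (Sum.inr (b, B'.y2 - 1), 1)) ↔
      (blkG B' b m ≤ 2 ∨ m = some (Sum.inr (b, B'.y2 - 1), 1))) ∧
      (blkG B' b m ≤ 2 → m ≠ some (Sum.inr (b, B'.y2 - 1), 1)) := by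
    rw [pG_cl, if_neg (lt_irrefl b)]
    rcases mem_freeG'.1 hm with ⟨t, d, rfl, h1, h2⟩ | ⟨i, h1, h2, rfl⟩ | ⟨i, h1, h2, rfl⟩
    · rw [pG_inl, lex_le]
      have : blkG B' b (some (Sum.inl t, d)) = if isLow B' (t, d) then 1 else 4 := rfl
      rw [this]
      simp only [Option.some.injEq, Prod.mk.injEq, reduceCtorEq, false_and, or_false, ne_eq,
        not_false_eq_true, implies_true, and_true]
      split_ifs <;> omega
    · rw [pG_fl, lex_le]
      have : blkG B' b (some (Sum.inr (i, B'.y1), 3)) = if i < b then 0 else 2 := by simp [blkG]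
      rw [this]
      simp only [Option.some.injEq, Prod.mk.injEq, h31, and_false, or_false, ne_eq,
        not_false_eq_true, implies_true, and_true]
      split_ifs <;> omega
    · rw [pG_cl, lex_le]
      have : blkG B' b (some (Sum.inr (i, B'.y2 - 1), 1)) = if i < b then 5 else 3 := by
        simp [blkG, h13]
      rw [this]
      simp only [Option.some.injEq, Prod.mk.injEq, Sum.inr.injEq, and_true, ne_eq]
      split_ifs <;> omega
  obtain ⟨k1, k2⟩ := hk
  unfold ge1 low1 ind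
  by_cases h1 : blkG B' b m ≤ 2
  · rw [if_pos (k1.2 (Or.inl h1)), if_pos h1, if_neg (k2 h1)]
    rfl
  · by_cases h2 : m = some (Sum.inr (b, B'.y2 - 1), 1)
    · rw [if_pos (k1.2 (Or.inr h2)), if_neg h1, if_pos h2]
      rfl
    · rw [if_neg fun h3 => (k1.1 h3).elim h1 h2, if_neg h1, if_neg h2]
      rfl

/-- all the marks and `e` are free ends -/
structure Mks (B' : Band A) (m1 m2 : Port TG) (e : Option (Port TG)) : Prop where
  h1 : m1 ∈ freeG B'
  h2 : m2 ∈ freeG B'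
  he : ∀ e' ∈ e, e' ∈ freeG B'

variable {m1 m2 : Port TG} {e : Option (Port TG)}

theorem cp_LS {q : Port TG} (h : ¬ isLS b q) : cp B' b m1 m2 e q = cb B' b m1 m2 e q := by
  unfold cp; rw [if_neg h, sub_zero]

theorem cp_nLS {q : Port TG} (h : isLS b q) :
    cp B' b m1 m2 e q = cb B' b m1 m2 e q - clow B' b m1 m2 e := by
  unfold cp; rw [if_pos h]

theorem isLS_r {i y : ℤ} {d : ZMod 4} : isLS b (some (Sum.inr (i, y), d)) ↔ b ≤ i := Iff.rfl

theorem isLS_l {t : ℤ × ℤ} {d : ZMod 4} : ¬ isLS b (some (Sum.inl t, d)) := fun h => h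

/-- **floor** -/
theorem cp_fl (hw : Psi664.BW (full A) B'.xl B'.y1 w l) (hm : Mks B' m1 m2 e) {i : ℤ}
    (h0 : 0 < i) (hR : i < B'.R) :
    cp B' b m1 m2 e (some (Sum.inr (i - 1, B'.y1), 3)) =
      cp B' b m1 m2 e (some (Sum.inr (i, B'.y1), 3)) +
        Jn m1 m2 e (some (Sum.inr (i, B'.y1), 3)) (some (Sum.inr (i - 1, B'.y1), 3)) := by
  by_cases hb : i = b
  · subst hb
    rw [cp_LS (q := some (Sum.inr (i - 1, B'.y1), 3)) (by rw [isLS_r]; omega),
      cp_nLS (q := some (Sum.inr (i, B'.y1), 3)) (by rw [isLS_r])]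
    have q1 : (some (Sum.inr (i, B'.y1), 3) : Port TG) ∈ freeG B' := mem_f (by omega) hR
    have q2 : (some (Sum.inr (i - 1, B'.y1), 3) : Port TG) ∈ freeG B' := mem_f (by omega) (by omega)
    unfold cb Jn clow
    rw [ge1_f1 hm.h1, ge1_f1 hm.h2, ge1_f2 hm.h1, ge1_f2 hm.h2]
    cases e with
    | none => simp only; ring
    | some e =>
      have h3 := hm.he e rfl
      simp only
      rw [gt1_eq hw h3 q1, gt1_eq hw h3 q2, ge1_f1 h3, ge1_f2 h3]
      ring
  · have h1 := cb_suc (suc_fl hw h0 hR hb) hm.h1 hm.h2 hm.he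
    by_cases h2 : i < b
    · rw [cp_LS (q := some (Sum.inr (i - 1, B'.y1), 3)) (by rw [isLS_r]; omega),
        cp_LS (q := some (Sum.inr (i, B'.y1), 3)) (by rw [isLS_r]; omega), h1]
    · rw [cp_nLS (q := some (Sum.inr (i - 1, B'.y1), 3)) (by rw [isLS_r]; omega),
        cp_nLS (q := some (Sum.inr (i, B'.y1), 3)) (by rw [isLS_r]; omega), h1]
      ring

/-- **ceiling** -/
theorem cp_cl (hw : Psi664.BW (full A) B'.xl B'.y1 w l) (hm : Mks B' m1 m2 e) {i : ℤ}
    (h0 : 0 ≤ i) (hR : i < B'.R) :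
    cp B' b m1 m2 e (some (Sum.inr (i + 1, B'.y2 - 1), 1)) =
      cp B' b m1 m2 e (some (Sum.inr (i, B'.y2 - 1), 1)) +
        Jn m1 m2 e (some (Sum.inr (i, B'.y2 - 1), 1)) (some (Sum.inr (i + 1, B'.y2 - 1), 1)) := by
  by_cases hb : i + 1 = b
  · obtain rfl : i = b - 1 := by omega
    rw [sub_add_cancel]
    rw [cp_nLS (q := some (Sum.inr (b, B'.y2 - 1), 1)) (by rw [isLS_r]),
      cp_LS (q := some (Sum.inr (b - 1, B'.y2 - 1), 1)) (by rw [isLS_r]; omega)]
    have q1 : (some (Sum.inr (b - 1, B'.y2 - 1), 1) : Port TG) ∈ freeG B' := mem_c h0 (by omega)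
    have q2 : (some (Sum.inr (b, B'.y2 - 1), 1) : Port TG) ∈ freeG B' := mem_c (by omega) (by omega)
    unfold cb Jn clow
    rw [ge1_c1 hm.h1, ge1_c1 hm.h2, ge1_c2 hm.h1, ge1_c2 hm.h2]
    cases e with
    | none => simp only; ring
    | some e =>
      have h3 := hm.he e rfl
      simp only
      rw [gt1_eq hw h3 q1, gt1_eq hw h3 q2, ge1_c1 h3, ge1_c2 h3]
      ring
  · have h1 := cb_suc (suc_cl hw h0 hR hb) hm.h1 hm.h2 hm.he
    by_cases h2 : i < b
    · rw [cp_LS (q := some (Sum.inr (i + 1, B'.y2 - 1), 1)) (by rw [isLS_r]; omega),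
        cp_LS (q := some (Sum.inr (i, B'.y2 - 1), 1)) (by rw [isLS_r]; omega), h1]
    · rw [cp_nLS (q := some (Sum.inr (i + 1, B'.y2 - 1), 1)) (by rw [isLS_r]; omega),
        cp_nLS (q := some (Sum.inr (i, B'.y2 - 1), 1)) (by rw [isLS_r]; omega), h1]
      ring

end far

section corners

variable {m1 m2 : Port TG} {e : Option (Port TG)}

theorem cp_ml (m : MB M L a b0 c B) (hb : b < B.R) (hm : Mks B m1 m2 e) :
    cp B b m1 m2 e (some (Sum.inr (B.R - 1, B.y1), 3)) + clow B b m1 m2 e =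
      cp B b m1 m2 e (some (Sum.inl (B.xl, B.y1 - 1), 0)) +
        Jn m1 m2 e (some (Sum.inl (B.xl, B.y1 - 1), 0)) (some (Sum.inr (B.R - 1, B.y1), 3)) := by
  have h1 := cb_suc (suc_ml m hb) hm.h1 hm.h2 hm.he
  rw [cp_nLS (q := some (Sum.inr (B.R - 1, B.y1), 3)) (by rw [isLS_r]; omega), cp_LS isLS_l, h1]
  ring

theorem cp_mr (m : MB M L a b0 c B) (hb : 0 < b) (hm : Mks B m1 m2 e) :
    cp B b m1 m2 e (some (Sum.inl (B.xr, B.y1 - 1), 2)) =
      cp B b m1 m2 e (some (Sum.inr (0, B.y1), 3)) +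
        Jn m1 m2 e (some (Sum.inr (0, B.y1), 3)) (some (Sum.inl (B.xr, B.y1 - 1), 2)) := by
  have h1 := cb_suc (suc_mr m hb) hm.h1 hm.h2 hm.he
  rw [cp_LS isLS_l, cp_LS (q := some (Sum.inr (0, B.y1), 3)) (by rw [isLS_r]; omega), h1]

theorem cp_ul (m : MB M L a b0 c B) (hb : b < B.R) (hm : Mks B m1 m2 e) :
    cp B b m1 m2 e (some (Sum.inl (B.xl, B.y2), 0)) =
      cp B b m1 m2 e (some (Sum.inr (B.R, B.y2 - 1), 1)) + clow B b m1 m2 e +
        Jn m1 m2 e (some (Sum.inr (B.R, B.y2 - 1), 1)) (some (Sum.inl (B.xl, B.y2), 0)) := by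
  have h1 := cb_suc (suc_ul m hb) hm.h1 hm.h2 hm.he
  rw [cp_nLS (q := some (Sum.inr (B.R, B.y2 - 1), 1)) (by rw [isLS_r]; omega), cp_LS isLS_l, h1]
  ring

theorem cp_ur (m : MB M L a b0 c B) (hb : 0 < b) (hm : Mks B m1 m2 e) :
    cp B b m1 m2 e (some (Sum.inr (0, B.y2 - 1), 1)) =
      cp B b m1 m2 e (some (Sum.inl (B.xr, B.y2), 2)) +
        Jn m1 m2 e (some (Sum.inl (B.xr, B.y2), 2)) (some (Sum.inr (0, B.y2 - 1), 1)) := by
  have h1 := cb_suc (suc_ur m hb) hm.h1 hm.h2 hm.he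
  rw [cp_LS isLS_l, cp_LS (q := some (Sum.inr (0, B.y2 - 1), 1)) (by rw [isLS_r]; omega), h1]

end corners

end Crest.Agent.R158.Lr158
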