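import Crest.Agent.R158.Lr8_158

/-!
R158, block Q1d, leaf LR (helper158), part 9: **the step of the charges** in the four charts.

* `ChH A cc cl J` : `cc` changes by `J` between consecutive free ends of the half environment
* **`Cg_step`** : `Cg X' = Cg X + Jc X X'` along a clockwise step `X → X'` of a chart, `Jc` = `J` of
  the two ports behind (in the reversed order on the copy `true`)
* **`chH_low`**, **`chH_up`** : the instances for helper857's family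
-/

set_option autoImplicit false

namespace Crest.Agent.R158.Lr158

open Crest.Agent.R158.Sw300 (Port)
open Crest.Agent.R158.Env664 (TG Mac D mem_D Run CutAdj Adj4 lowT upT Band)
open Crest.Agent.R158.Pt266 (dir RFree FFree rfree_full NxT nx_flat nx_convex nx_reflex adj_dir)
open Crest.Agent.R158.Ka470
open Crest.Agent.R158.Ka470.Half
open Crest.Agent.R158.Xr249 (full mem_lowT low_step)
open Crest.Agent.R158.Rf896 (rA rB rz rp rt mem_rA rz_rz)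
open Crest.Agent.R158.Fm857 (psD rD isLow blkG innG pG isLS clow ctw phi cb cp ge1 gt1 low1 freeG
  freeD flr cil mem_flr mem_cil mouth)

/-- **charges of a half environment**: `cc` changes by `J` between consecutive free ends -/
structure ChH (A : Half) (cc : TG × ZMod 4 → ℤ) (cl : ℤ) (J : TG × ZMod 4 → TG × ZMod 4 → ℤ) :
    Prop where
  st : ∀ X X' k, Stp (A.H : Set (ℤ × ℤ)) (NM A) X X' k →
    cc (Sum.inl X'.1, X'.2) = cc (Sum.inl X.1, X.2) + J (Sum.inl X.1, X.2) (Sum.inl X'.1, X'.2)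
  fl : ∀ i, 0 < i → i < A.R → cc (Sum.inr (i - 1, A.y1), 3) =
    cc (Sum.inr (i, A.y1), 3) + J (Sum.inr (i, A.y1), 3) (Sum.inr (i - 1, A.y1), 3)
  ml : A.Y < A.y1 → cc (Sum.inr (A.R - 1, A.y1), 3) + cl = cc (Sum.inl (A.xl, A.y1 - 1), 0) +
    J (Sum.inl (A.xl, A.y1 - 1), 0) (Sum.inr (A.R - 1, A.y1), 3)
  mr : A.Y < A.y1 → cc (Sum.inl (A.xr, A.y1 - 1), 2) = cc (Sum.inr (0, A.y1), 3) +
    J (Sum.inr (0, A.y1), 3) (Sum.inl (A.xr, A.y1 - 1), 2)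

section half

variable {A : Half} {ρ : ℕ} {cc : TG × ZMod 4 → ℤ} {cl : ℤ} {J : TG × ZMod 4 → TG × ZMod 4 → ℤ}

theorem ChH.wl (H : ChH A cc cl J) {y : ℤ} (h1 : A.Y ≤ y) (h2 : y + 1 < A.y1) :
    cc (Sum.inl (A.xl, y + 1), 0) = cc (Sum.inl (A.xl, y), 0) +
      J (Sum.inl (A.xl, y), 0) (Sum.inl (A.xl, y + 1), 0) := by
  have h01 := A.h1
  have hx := A.hx
  have hW := A.hW
  have e1 : ((A.xl, y) : ℤ × ℤ) + dir ((0 : ZMod 4) + 1) = (A.xl, y + 1) := by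
    rw [d4a.1, dir1]; simp
  have e0 : ((A.xl, y) : ℤ × ℤ) + dir (0 : ZMod 4) = (A.xl - 1, y) := by
    rw [dir0]; simp [sub_eq_add_neg]
  have e2 : ((A.xl, y + 1) : ℤ × ℤ) + dir (0 : ZMod 4) = (A.xl - 1, y + 1) := by
    rw [dir0]; simp [sub_eq_add_neg]
  have hs : Stp (A.H : Set (ℤ × ℤ)) (NM A) ((A.xl, y), 0) ((A.xl, y) + dir ((0 : ZMod 4) + 1), 0) 0 := by
    refine .flat ?_ ?_ ?_ ?_ ?_ ?_ ?_ ?_
    · exact A.row _ _ h1 (by omega) le_rfl hx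
    · rw [e1]; exact A.row _ _ (by omega) (by omega) le_rfl hx
    · rw [e0]; exact A.left _ _ h1 (by omega) (by omega) (by omega)
    · rw [e1, e2]; exact A.left _ _ (by omega) (by omega) (by omega) (by omega)
    · rintro ⟨⟨-, h3, -⟩, -⟩; simp only at h3; omega
    · rw [e1]; rintro ⟨⟨-, h3, -⟩, -⟩; simp only at h3; omega
    · rw [e0]; rintro ⟨⟨-, h3, -⟩, -⟩; simp only at h3; omega
    · rw [e1, e2]; rintro ⟨⟨-, h3, -⟩, -⟩; simp only at h3; omega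
  have := H.st _ _ _ hs
  rwa [e1] at this

theorem ChH.wr (H : ChH A cc cl J) {y : ℤ} (h1 : A.Y ≤ y) (h2 : y + 1 < A.y1) :
    cc (Sum.inl (A.xr, y), 2) = cc (Sum.inl (A.xr, y + 1), 2) +
      J (Sum.inl (A.xr, y + 1), 2) (Sum.inl (A.xr, y), 2) := by
  have h01 := A.h1
  have hx := A.hx
  have hW := A.hW
  have e1 : ((A.xr, y + 1) : ℤ × ℤ) + dir ((2 : ZMod 4) + 1) = (A.xr, y) := by
    rw [d4a.2.2.1, dir3]; simp
  have e0 : ((A.xr, y + 1) : ℤ × ℤ) + dir (2 : ZMod 4) = (A.xr + 1, y + 1) := by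
    rw [dir2]; simp
  have e2 : ((A.xr, y) : ℤ × ℤ) + dir (2 : ZMod 4) = (A.xr + 1, y) := by
    rw [dir2]; simp
  have hs : Stp (A.H : Set (ℤ × ℤ)) (NM A) ((A.xr, y + 1), 2)
      ((A.xr, y + 1) + dir ((2 : ZMod 4) + 1), 2) 0 := by
    refine .flat ?_ ?_ ?_ ?_ ?_ ?_ ?_ ?_
    · exact A.row _ _ (by omega) (by omega) hx le_rfl
    · rw [e1]; exact A.row _ _ (by omega) (by omega) hx le_rfl
    · rw [e0]; exact A.right _ _ (by omega) (by omega) (by omega) (by omega)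
    · rw [e1, e2]; exact A.right _ _ (by omega) (by omega) (by omega) (by omega)
    · rintro ⟨⟨-, h3, -⟩, -⟩; simp only at h3; omega
    · rw [e1]; rintro ⟨⟨-, h3, -⟩, -⟩; simp only at h3; omega
    · rw [e0]; rintro ⟨⟨-, h3, -⟩, -⟩; simp only at h3; omega
    · rw [e1, e2]; rintro ⟨⟨-, h3, -⟩, -⟩; simp only at h3; omega
  have := H.st _ _ _ hs
  rwa [e1] at this

/-- jump of the charge of a chart along a step -/
noncomputable def Jc (J : TG × ZMod 4 → TG × ZMod 4 → ℤ) (h : A.Sz ρ) (i : Fin 4)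
    (X X' : (ℤ × ℤ) × ZMod 4) : ℤ :=
  if ((chf h i).emb X.1).2 then J (upp h i X') (upp h i X) else J (upp h i X) (upp h i X')

/-! ### positions of the ends of the charts 2 and 3 -/

/-- position of an end of the chart `2` -/
def PosM (A : Half) (ρ : ℕ) (X : (ℤ × ℤ) × ZMod 4) : Prop :=
  (X.2 = 0 ∧ X.1.1 = A.xl ∧ A.Y ≤ A.ry X.1.2 ∧ A.ry X.1.2 < A.y1) ∨
  (X.2 = 2 ∧ X.1.1 = A.xr ∧ A.Y ≤ A.ry X.1.2 ∧ A.ry X.1.2 < A.y1) ∨
  (X.2 = 3 ∧ X.1.2 = A.y1 ∧ (A.xl - 8 * (ρ : ℤ) ≤ X.1.1 ∧ X.1.1 ≤ A.xr + 8 * ρ) ∧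
    (X.1.1 < A.xl ∨ A.xr < X.1.1)) ∨
  (X.2 = 1 ∧ X.1.2 = 2 * A.y0 - A.y1 - 1 ∧
    (A.xl - 8 * (ρ : ℤ) ≤ X.1.1 ∧ X.1.1 ≤ A.xr + 8 * ρ) ∧ (X.1.1 < A.xl ∨ A.xr < X.1.1))

theorem posM {h : A.Sz ρ} {B : Set (ℤ × ℤ)} (hB : A.Good ρ 2 B) {X : (ℤ × ℤ) × ZMod 4}
    (hX : REnd h 2 B X) : PosM A ρ X := by
  obtain ⟨⟨x, y⟩, d⟩ := X
  have g1 := hB _ hX.b1
  have g2 := hB _ hX.b2
  have m1 := (memM h g1).1 hX.m
  have m2 : ¬ _ := fun hh => hX.n ((memM h g2).2 hh)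
  have hx := A.hx
  have h01 := A.h1
  unfold PosM
  simp only at g1 g2 m1 m2 ⊢
  rcases dir_cases d with ⟨rfl, hd⟩ | ⟨rfl, hd⟩ | ⟨rfl, hd⟩ | ⟨rfl, hd⟩
  · rw [hd] at g2 m2
    simp only [Prod.mk_add_mk, add_zero] at g2 m2
    push Not at m2
    refine Or.inl ⟨rfl, ?_, g1.2, m2.2⟩
    rcases m1 with m1 | m1
    · by_contra hne
      have := m2.1 (by omega)
      omega
    · omega
  · rw [hd] at g2 m2
    simp only [Prod.mk_add_mk, add_zero] at g2 m2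
    push Not at m2
    have e2 : A.ry (y + 1) < A.y1 := m2.2
    have e1 : ¬ (A.xl ≤ x ∧ x ≤ A.xr) := fun hc => by have := m2.1 hc.1; omega
    have e3 : A.y1 ≤ A.ry y := by
      rcases m1 with m1 | m1
      · exact absurd m1 e1
      · exact m1
    have e4 := side_lt e2
    have e5 := y1_ry.1 e3
    refine Or.inr (Or.inr (Or.inr ⟨rfl, by omega, g1.1, by omega⟩))
  · rw [hd] at g2 m2
    simp only [Prod.mk_add_mk, add_zero] at g2 m2
    push Not at m2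
    refine Or.inr (Or.inl ⟨rfl, ?_, g1.2, m2.2⟩)
    rcases m1 with m1 | m1
    · by_contra hne
      have := m2.1 (by omega)
      omega
    · omega
  · rw [hd] at g2 m2
    simp only [Prod.mk_add_mk, add_zero] at g2 m2
    push Not at m2
    have e2 : A.ry (y + -1) < A.y1 := m2.2
    have e1 : ¬ (A.xl ≤ x ∧ x ≤ A.xr) := fun hc => by have := m2.1 hc.1; omega
    have e3 : A.y1 ≤ A.ry y := by
      rcases m1 with m1 | m1
      · exact absurd m1 e1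
      · exact m1
    have e4 := side_lt e2
    have e5 := y1_ry.1 e3
    exact Or.inr (Or.inr (Or.inl ⟨rfl, by omega, g1.1, by omega⟩))

/-- position of an end of the chart `3` -/
theorem posS {h : A.Sz ρ} {B : Set (ℤ × ℤ)} (hB : A.Good ρ 3 B) {X : (ℤ × ℤ) × ZMod 4}
    (hX : REnd h 3 B X) : (0 ≤ X.1.1 ∧ X.1.1 < A.R) ∧
      ((X.2 = 3 ∧ X.1.2 = A.y1) ∨ (X.2 = 1 ∧ X.1.2 = 2 * A.y0 - A.y1 - 1)) := by
  obtain ⟨⟨x, y⟩, d⟩ := X
  have g1 := hB _ hX.b1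
  have g2 := hB _ hX.b2
  have m1 := (memS h g1).1 hX.m
  have m2 : ¬ _ := fun hh => hX.n ((memS h g2).2 hh)
  have h01 := A.h1
  simp only at g1 g2 m1 m2 ⊢
  have e5 := y1_ry.1 m1
  refine ⟨g1, ?_⟩
  rcases dir_cases d with ⟨rfl, hd⟩ | ⟨rfl, hd⟩ | ⟨rfl, hd⟩ | ⟨rfl, hd⟩
  · rw [hd] at m2
    simp only [Prod.mk_add_mk, add_zero] at m2
    exact absurd m1 m2
  · rw [hd] at m2
    simp only [Prod.mk_add_mk, add_zero] at m2
    have e4 := side_lt (A := A) (by omega : A.ry (y + 1) < A.y1)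
    exact Or.inr ⟨rfl, by omega⟩
  · rw [hd] at m2
    simp only [Prod.mk_add_mk, add_zero] at m2
    exact absurd m1 m2
  · rw [hd] at m2
    simp only [Prod.mk_add_mk, add_zero] at m2
    have e4 := side_lt (A := A) (by omega : A.ry (y + -1) < A.y1)
    exact Or.inl ⟨rfl, by omega⟩

/-! ### charges in coordinates -/

/-- tile of the chart `2` -/
def tM (A : Half) (x y : ℤ) : TG :=
  if x < A.xl then Sum.inr (A.R - (A.xl - x), y) else if x ≤ A.xr then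
    Sum.inl (x, y) else Sum.inr (x - A.xr - 1, y)

theorem uppM_lo (h : A.Sz ρ) {x y : ℤ} {d : ZMod 4} (hy : y < A.y0) :
    upp h 2 ((x, y), d) = (tM A x y, d) ∧ ((chf h 2).emb (x, y)).2 = false := by
  have e0 : upp h 2 ((x, y), d) = (tM A x (A.ry y), Ka470.sg (A.kk y) d) := rfl
  have e1 : ((chf h 2).emb (x, y)).2 = A.kk y := rfl
  rw [e0, e1, kk_lt _ hy, ry_lt _ hy]
  exact ⟨rfl, rfl⟩

theorem uppM_hi (h : A.Sz ρ) {x y : ℤ} {d : ZMod 4} (hy : A.y0 ≤ y) :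
    upp h 2 ((x, y), d) = (tM A x (2 * A.y0 - 1 - y), -d) ∧
      ((chf h 2).emb (x, y)).2 = true := by
  have e0 : upp h 2 ((x, y), d) = (tM A x (A.ry y), Ka470.sg (A.kk y) d) := rfl
  have e1 : ((chf h 2).emb (x, y)).2 = A.kk y := rfl
  rw [e0, e1, kk_ge _ hy, ry_ge _ hy]
  exact ⟨rfl, rfl⟩

theorem uppS_lo (h : A.Sz ρ) {x y : ℤ} {d : ZMod 4} (hy : y < A.y0) :
    upp h 3 ((x, y), d) = (Sum.inr (x, y), d) ∧ ((chf h 3).emb (x, y)).2 = false := by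
  have e0 : upp h 3 ((x, y), d) = (Sum.inr (x, A.ry y), Ka470.sg (A.kk y) d) := rfl
  have e1 : ((chf h 3).emb (x, y)).2 = A.kk y := rfl
  rw [e0, e1, kk_lt _ hy, ry_lt _ hy]
  exact ⟨rfl, rfl⟩

theorem uppS_hi (h : A.Sz ρ) {x y : ℤ} {d : ZMod 4} (hy : A.y0 ≤ y) :
    upp h 3 ((x, y), d) = (Sum.inr (x, 2 * A.y0 - 1 - y), -d) ∧
      ((chf h 3).emb (x, y)).2 = true := by
  have e0 : upp h 3 ((x, y), d) = (Sum.inr (x, A.ry y), Ka470.sg (A.kk y) d) := rfl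
  have e1 : ((chf h 3).emb (x, y)).2 = A.kk y := rfl
  rw [e0, e1, kk_ge _ hy, ry_ge _ hy]
  exact ⟨rfl, rfl⟩

/-- charge on the copy `false` -/
theorem Cg_lo (h : A.Sz ρ) (i : Fin 4) {X : (ℤ × ℤ) × ZMod 4} (he : ((chf h i).emb X.1).2 = false) :
    Cg cc cl h i X = cc (upp h i X) + if i = 2 ∧ X.1.1 < A.xl then cl else 0 := by
  unfold Cg eps
  rw [he]
  simp

/-- charge on the copy `true` -/
theorem Cg_hi (h : A.Sz ρ) (i : Fin 4) {X : (ℤ × ℤ) × ZMod 4} (he : ((chf h i).emb X.1).2 = true) :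
    Cg cc cl h i X = -(cc (upp h i X) + if i = 2 ∧ X.1.1 < A.xl then cl else 0) := by
  unfold Cg eps
  rw [he]
  simp

/-- the generic step on the copy `false` -/
theorem step_lo {h : A.Sz ρ} {i : Fin 4} {X X' : (ℤ × ℤ) × ZMod 4}
    (e : ((chf h i).emb X.1).2 = false) (e' : ((chf h i).emb X'.1).2 = false)
    (H : (cc (upp h i X') + if i = 2 ∧ X'.1.1 < A.xl then cl else 0) =
      (cc (upp h i X) + if i = 2 ∧ X.1.1 < A.xl then cl else 0) + J (upp h i X) (upp h i X')) :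
    Cg cc cl h i X' = Cg cc cl h i X + Jc J h i X X' := by
  rw [Cg_lo h i e, Cg_lo h i e', H]
  unfold Jc
  rw [e]
  rfl

/-- the generic step on the copy `true` -/
theorem step_hi {h : A.Sz ρ} {i : Fin 4} {X X' : (ℤ × ℤ) × ZMod 4}
    (e : ((chf h i).emb X.1).2 = true) (e' : ((chf h i).emb X'.1).2 = true)
    (H : (cc (upp h i X) + if i = 2 ∧ X.1.1 < A.xl then cl else 0) =
      (cc (upp h i X') + if i = 2 ∧ X'.1.1 < A.xl then cl else 0) + J (upp h i X') (upp h i X)) :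
    Cg cc cl h i X' = Cg cc cl h i X + Jc J h i X X' := by
  rw [Cg_hi h i e, Cg_hi h i e', H]
  unfold Jc
  rw [e, if_pos rfl]
  ring

end half

end Crest.Agent.R158.Lr158
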