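import Crest.Agent.R158.Cw4_161
import Crest.Agent.R158.Cb7_771

/-!
# R158, block BL (helper331): mark balls, general part

* `beD_plain` : away from the slit the glueing of `D^(z)` is plain
* `Flat A t d n` : flat ceiling (`d = 1`) / floor (`d = 3`) through the side `d` of `t`
* `cyc_next` : a mark may be replaced by the neighbouring free end
* `move_L`, `move_cyc` : the moved mark is a free end, the cyclic order of the marks is the same
* **`mark_move`** : one mark on a flat horizontal wall moves by one column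
-/

set_option autoImplicit false
set_option linter.unusedVariables false

noncomputable section

namespace Crest.Agent.R158.Mb331

open Crest.Agent.R158.Sw300 (Port Wd tls)
open Crest.Agent.R158.Env664
open Crest.Agent.R158.Ob664 (GW HW Gl)
open Crest.Agent.R158.Xr249 (Nx rot)
open Crest.Agent.R158.Cw161 (Bx Sh pat Win win_plain np_plain FarM MkB ball_win be_eq_of_gw)
open Crest.Agent.R158.Cb771 (dir)
open Crest.Agent.R158.Al194 (rotl idL enL idL_enL enL_idL idL_lt)

/-! ### glueing away from the slit -/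

/-- the tile does not touch the slit -/
def OffS (p y0 xr : ℤ) (t : ℤ × ℤ) : Prop := ¬ ((t.2 = y0 - 1 ∨ t.2 = y0) ∧ p ≤ t.1 ∧ t.1 ≤ xr)

theorem nbD_plain {p y0 xr : ℤ} (hp : p ≤ xr) {t : ℤ × ℤ} (h : OffS p y0 xr t) (d : ZMod 4) :
    nbD p y0 xr (some (t, d)) = nbP (some (t, d)) := by
  obtain ⟨x, y⟩ := t
  unfold OffS at h
  simp only at h
  rcases z4 d with rfl | rfl | rfl | rfl
  · rw [nbD_W, nbP_W]
  · rw [nbD_N (by omega), nbP_N]
  · rw [nbD_E, nbP_E]
  · rw [nbD_S (by omega), nbP_S]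

theorem beD_plain {A : Finset (ℤ × ℤ)} {p y0 xr : ℤ} (hp : p ≤ xr) {t : ℤ × ℤ}
    (h : OffS p y0 xr t) (d : ZMod 4) :
    beD A p y0 xr (some (t, d)) = beP A (some (t, d)) := by
  unfold beD beP res
  rw [nbD_plain hp h]

/-! ### flat walls -/

/-- flat ceiling (`d = 1`) or floor (`d = 3`) through the side `d` of the tile `t`, in the box of
radius `n` -/
def Flat (A : Finset (ℤ × ℤ)) (t : ℤ × ℤ) (d : ZMod 4) (n : ℕ) : Prop :=
  (d = 1 ∧ ∀ s : ℤ × ℤ, |s.1 - t.1| ≤ n → |s.2 - t.2| ≤ n → (s ∈ A ↔ s.2 ≤ t.2)) ∨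
  (d = 3 ∧ ∀ s : ℤ × ℤ, |s.1 - t.1| ≤ n → |s.2 - t.2| ≤ n → (s ∈ A ↔ t.2 ≤ s.2))

theorem Flat.mono {A : Finset (ℤ × ℤ)} {t : ℤ × ℤ} {d : ZMod 4} {n n' : ℕ} (h : Flat A t d n)
    (hn : n' ≤ n) : Flat A t d n' := by
  rcases h with ⟨hd, h⟩ | ⟨hd, h⟩
  · exact Or.inl ⟨hd, fun s h1 h2 => h s (h1.trans (by omega)) (h2.trans (by omega))⟩
  · exact Or.inr ⟨hd, fun s h1 h2 => h s (h1.trans (by omega)) (h2.trans (by omega))⟩

/-- a flat wall seen from a neighbouring tile -/
theorem Flat.shift {A : Finset (ℤ × ℤ)} {t : ℤ × ℤ} {d : ZMod 4} {n : ℕ} {e : ℤ} (he : |e| ≤ 1)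
    (h : Flat A t d (n + 1)) : Flat A (t.1 + e, t.2) d n := by
  rcases h with ⟨hd, h⟩ | ⟨hd, h⟩
  · refine Or.inl ⟨hd, fun s h1 h2 => ?_⟩
    refine h s ?_ ?_
    · rw [abs_le] at he h1 ⊢
      simp only at h1
      push_cast
      omega
    · exact h2.trans (by push_cast; simp)
  · refine Or.inr ⟨hd, fun s h1 h2 => ?_⟩
    refine h s ?_ ?_
    · rw [abs_le] at he h1 ⊢
      simp only at h1
      push_cast
      omega
    · exact h2.trans (by push_cast; simp)

/-- the tile belongs to the region -/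
theorem Flat.mem {A : Finset (ℤ × ℤ)} {t : ℤ × ℤ} {d : ZMod 4} {n : ℕ} (h : Flat A t d n) :
    t ∈ A := by
  rcases h with ⟨hd, h⟩ | ⟨hd, h⟩
  · exact (h t (by simp) (by simp)).2 le_rfl
  · exact (h t (by simp) (by simp)).2 le_rfl

/-- the side is free -/
theorem Flat.free {A : Finset (ℤ × ℤ)} {t : ℤ × ℤ} {d : ZMod 4} {n : ℕ} (h : Flat A t d n)
    (hn : 1 ≤ n) : beP A (some (t, d)) = some (t, d) := by
  refine Cw161.beP_free (Or.inr ?_)
  rcases h with ⟨rfl, h⟩ | ⟨rfl, h⟩
  · rw [Cw161.dir1]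
    intro hm
    have := (h (t + (0, 1)) (by simp) (by simp; omega)).1 hm
    simp at this
  · rw [Cw161.dir3]
    intro hm
    have := (h (t + (0, -1)) (by simp) (by simp; omega)).1 hm
    simp at this

/-- two neighbouring ends of a flat wall are neighbours in the clockwise list -/
theorem flat_nx {A : Finset (ℤ × ℤ)} {b : Port (ℤ × ℤ) → Port (ℤ × ℤ)} {t : ℤ × ℤ} {d : ZMod 4}
    {n : ℕ} (hn : 2 ≤ n) (h : Flat A t d n) (hb : ∀ d', b (some (t, d')) = beP A (some (t, d')))
    (hb' : ∀ d', b (some ((t.1 - 1, t.2), d')) = beP A (some ((t.1 - 1, t.2), d'))) :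
    (d = 1 → Nx (Gl b) (some ((t.1 - 1, t.2), 1)) (some (t, 1))) ∧
    (d = 3 → Nx (Gl b) (some (t, 3)) (some ((t.1 - 1, t.2), 3))) := by
  have ht := h.mem
  have hfr := h.free (by omega)
  have h2 := (Flat.shift (n := 1) (e := -1) (by simp) (h.mono hn))
  have ht' : (t.1 - 1, t.2) ∈ A := by
    have := h2.mem
    rwa [← sub_eq_add_neg] at this
  have hfr' : beP A (some ((t.1 - 1, t.2), d)) = some ((t.1 - 1, t.2), d) := by
    have := h2.free le_rfl
    rwa [← sub_eq_add_neg] at this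
  constructor
  · rintro rfl
    refine Nx.go (q := some (t, 0)) ?_ ?_
    · rw [Xr249.rot_some]
      have e : (1 : ZMod 4) + 1 = 2 := by decide
      rw [e]
      refine ⟨?_, by simp only [ne_eq, Option.some.injEq, Prod.mk.injEq, not_and]; intro _; decide⟩
      rw [hb', Cw161.beP_in ht' (by rw [Cw161.dir2]; simpa using ht)]
      rw [Cw161.dir2]
      have e2 : (2 : ZMod 4) + 2 = 0 := by decide
      rw [e2]
      simp
    · have := Nx.stop (G := Gl b) (p := some (t, 0)) (by
        intro q hq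
        rw [Xr249.rot_some] at hq
        have e : (0 : ZMod 4) + 1 = 1 := by decide
        rw [e] at hq
        have h3 := hq.1
        rw [hb, hfr] at h3
        exact hq.2 h3)
      rw [Xr249.rot_some] at this
      have e : (0 : ZMod 4) + 1 = 1 := by decide
      rwa [e] at this
  · rintro rfl
    refine Nx.go (q := some ((t.1 - 1, t.2), 2)) ?_ ?_
    · rw [Xr249.rot_some]
      have e : (3 : ZMod 4) + 1 = 0 := by decide
      rw [e]
      refine ⟨?_, by simp only [ne_eq, Option.some.injEq, Prod.mk.injEq, not_and]; intro _; decide⟩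
      rw [hb, Cw161.beP_in ht (by
        rw [Cw161.dir0]
        have : t + (-1, 0) = (t.1 - 1, t.2) := by ext <;> simp [sub_eq_add_neg]
        rw [this]; exact ht')]
      rw [Cw161.dir0]
      have e2 : (0 : ZMod 4) + 2 = 2 := by decide
      rw [e2]
      simp [sub_eq_add_neg]
      ext <;> simp
    · have := Nx.stop (G := Gl b) (p := some ((t.1 - 1, t.2), 2)) (by
        intro q hq
        rw [Xr249.rot_some] at hq
        have e : (2 : ZMod 4) + 1 = 3 := by decide
        rw [e] at hq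
        have h3 := hq.1
        rw [hb', hfr'] at h3
        exact hq.2 h3)
      rw [Xr249.rot_some] at this
      have e : (2 : ZMod 4) + 1 = 3 := by decide
      rwa [e] at this

/-! ### neighbours in the clockwise list -/

/-- a mark may be replaced by the next free end -/
theorem cyc_next {A : Finset (ℤ × ℤ)} {b : Port (ℤ × ℤ) → Port (ℤ × ℤ)} {w : Wd (ℤ × ℤ)}
    (hw : GW A b w) {m m' x y : Port (ℤ × ℤ)} (hm : m ∈ Sw300.L w) (hm' : m' ∈ Sw300.L w)
    (hx : x ∈ Sw300.L w) (hy : y ∈ Sw300.L w) (hN : Nx (Gl b) m m') (hmm : m ≠ m')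
    (h1 : x ≠ m) (h2 : x ≠ m') (h3 : y ≠ m) (h4 : y ≠ m') :
    Sw300.cyc (Sw300.pos w m) (Sw300.pos w x) (Sw300.pos w y) ↔
      Sw300.cyc (Sw300.pos w m') (Sw300.pos w x) (Sw300.pos w y) := by
  have hok : Sw300.Ok w := hw.word.1
  have z0 : idL (Sw300.L w) m m = 0 := by
    have e : idL (Sw300.L w) m m = (rotl (Sw300.L w) m).idxOf m := by unfold idL; congr!
    rw [e]
    exact Al194.idxOf_rotl_self (Sw300.nodup hok) hm
  have inj : ∀ {u v : Port (ℤ × ℤ)}, u ∈ Sw300.L w → v ∈ Sw300.L w →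
      (idL (Sw300.L w) m u = idL (Sw300.L w) m v ↔ u = v) := by
    intro u v hu hv
    refine ⟨fun e => ?_, fun e => by rw [e]⟩
    rw [← enL_idL (m1 := m) hu, e, enL_idL hv]
  have hlen : 1 < (Sw300.L w).length := by
    have a1 := idL_lt (m1 := m) hm
    have a2 := idL_lt (m1 := m) hm'
    rw [z0] at a1
    have a3 : idL (Sw300.L w) m m' ≠ 0 := by
      rw [← z0]
      exact fun e => hmm ((inj hm' hm).1 e).symm
    omega
  have z1 : idL (Sw300.L w) m m' = 1 := by
    have hc := Cb771.cyc_get (Cb771.GW.cyc hw m) (i := 0)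
      (by rw [Al194.rotl_length]; omega)
    have e0 : (rotl (Sw300.L w) m).getD 0 none = m := by
      have := enL_idL (m1 := m) hm
      rw [z0] at this
      have e : enL (Sw300.L w) m 0 = (rotl (Sw300.L w) m).getD 0 none := by
        unfold enL; congr!
      rw [← e]; exact this
    rw [e0] at hc
    have e1 : (rotl (Sw300.L w) m).getD (0 + 1) none = m' :=
      Xr249.Nx.det (fun x y z h h' => h.1.symm.trans h'.1) hc hN
    have e : enL (Sw300.L w) m 1 = (rotl (Sw300.L w) m).getD (0 + 1) none := by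
      unfold enL; congr!
    rw [← e1, ← e]
    exact idL_enL hok hlen
  rw [Ob664.cyc_idL hok hm hm hx hy, Ob664.cyc_idL hok hm hm' hx hy, z0, z1]
  have b1 : idL (Sw300.L w) m x ≠ 0 := by rw [← z0]; exact fun e => h1 ((inj hx hm).1 e)
  have b2 : idL (Sw300.L w) m x ≠ 1 := by rw [← z1]; exact fun e => h2 ((inj hx hm').1 e)
  have b3 : idL (Sw300.L w) m y ≠ 0 := by rw [← z0]; exact fun e => h3 ((inj hy hm).1 e)
  have b4 : idL (Sw300.L w) m y ≠ 1 := by rw [← z1]; exact fun e => h4 ((inj hy hm').1 e)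
  unfold Sw300.cyc
  omega

theorem cyc_rot {a b c : ℤ} : Sw300.cyc a b c ↔ Sw300.cyc b c a := by
  unfold Sw300.cyc; omega

end Crest.Agent.R158.Mb331
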