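import Crest.Agent.R158.Mb1_331
import Crest.Agent.R158.Hc2_854
import Crest.Agent.R158.Hb1_656
import Crest.Agent.R158.Hw1_949

/-!
# R158, block BL (helper331): mark balls

* `mk_box` : one mark moves inside the ball (`Hc854.ball_mk` for one region)
* `mk_step` : one mark on a flat horizontal wall moves by one column
* `mk_three` : three marks
* `near_D`, `flat_A`, `mark_case` : the region `shD δ ∪ RL δ = shD (δ+1) ∪ LL (δ+1)` near a mark
* **`mark_balls`** : marks `mkS δ RL` against marks `mkS (δ+1) LL`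
-/

set_option autoImplicit false
set_option linter.unusedVariables false

noncomputable section

namespace Crest.Agent.R158.Mb331

open Crest.Agent.R158.Sp896 (V)
open Crest.Agent.R158.Sw300 (Port Wd tls)
open Crest.Agent.R158.Env664
open Crest.Agent.R158.Ob664 (GW HW HG Gl)
open Crest.Agent.R158.Cw161 (Bx Sh pat Win win_plain np_plain FarM)
open Crest.Agent.R158.Cb771 (dir)
open Crest.Agent.R158.Hc854 (MkP ball_mk)
open Crest.Agent.R158.Wd377 (MK)
open Crest.Agent.R158.Hb656 (Hang shD RL LL mkS mk2 mem_shD mem_RL mem_LL)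

/-- marked region, marks as (tile, side) -/
def MKm (A : Finset (ℤ × ℤ)) (b : Port (ℤ × ℤ) → Port (ℤ × ℤ)) (m : Fin 3 → V × ZMod 4) : Prop :=
  MK A b (some (m 0)) (some (m 1)) (some (m 2))

/-- observable, marks as (tile, side) -/
def HGm (A : Finset (ℤ × ℤ)) (b : Port (ℤ × ℤ) → Port (ℤ × ℤ)) (m : Fin 3 → V × ZMod 4) : ℂ :=
  HG A b (some (m 0)) (some (m 1)) (some (m 2))

/-- one mark moves inside the ball -/
theorem mk_box : ∃ C a : ℝ, 0 < C ∧ 0 < a ∧ ∀ (n : ℕ), 3 ≤ n → ∀ {A : Finset (ℤ × ℤ)}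
    {b : Port (ℤ × ℤ) → Port (ℤ × ℤ)} {sh : Sh} {k : ZMod 4} {X Y : ℤ}, Win sh k X Y 2 n A b →
    (∀ t, Bx X Y n t → ¬ Bx X Y 2 t → t ∈ A → pat X Y sh k t) →
    ∀ {m y : Fin 3 → V × ZMod 4} (i : Fin 3), Bx X Y 2 (m i).1 → Bx X Y 2 (y i).1 → (y i).1 ∈ A →
    b (some (y i)) = some (y i) → (∀ j, j ≠ i → y j = m j ∧ ¬ Bx X Y n (m j).1) →
    MKm A b m → MKm A b y ∧ ‖HGm A b m - HGm A b y‖ ≤ C * ((2 : ℝ) / n) ^ a := by
  obtain ⟨C, a, hC, ha, h⟩ := ball_mk
  refine ⟨C, a, hC, ha, ?_⟩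
  intro n hn A b sh k X Y hW hnp m y i hm hy hyA hyb hj hM
  have hw : ∃ w', GW A b w' := by
    obtain ⟨w, hw, -⟩ := hM
    exact ⟨w, hw⟩
  have hP : ∀ j, MkP X Y 2 A b (some (m j)) (some (y j)) := by
    intro j
    by_cases hji : j = i
    · subst hji
      right
      refine ⟨(m j).1, (m j).2, (y j).1, (y j).2, rfl, hm, rfl, hy, hyA, hyb⟩
    · obtain ⟨h1, h2⟩ := hj j hji
      left
      refine ⟨by rw [h1], ?_⟩
      intro t d e hb
      simp only [Option.some.injEq] at e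
      apply h2
      rw [e]
      show Bx X Y n t
      unfold Bx at hb ⊢
      omega
  have hF : ∀ j, j ≠ i → FarM X Y n (some (m j)) := by
    intro j hji t d e
    simp only [Option.some.injEq] at e
    have := (hj j hji).2
    rwa [e] at this
  have hpair : ∀ j j' : Fin 3, j ≠ j' → FarM X Y n (some (m j)) ∨ FarM X Y n (some (m j')) := by
    intro j j' hjj
    by_cases hji : j = i
    · exact Or.inr (hF j' (fun e => hjj (hji.trans e.symm)))
    · exact Or.inl (hF j hji)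
  have := h sh k X Y 2 n (by norm_num) (by omega) hW hW hnp (fun _ _ => rfl) (fun _ _ h => h) hw hM
    (hP 0) (hP 1) (hP 2) (hpair 0 1 (by decide)) (hpair 1 2 (by decide)) (hpair 2 0 (by decide))
  exact_mod_cast this

/-- one mark on a flat horizontal wall moves by one column -/
theorem mk_step : ∃ C a : ℝ, 0 < C ∧ 0 < a ∧ ∀ (n : ℕ), 3 ≤ n → ∀ {A : Finset (ℤ × ℤ)}
    {b : Port (ℤ × ℤ) → Port (ℤ × ℤ)} {t : ℤ × ℤ} {d : ZMod 4} {e : ℤ}, |e| ≤ 1 →
    Flat A t d (n + 2) → (∀ s d', |s.1 - t.1| ≤ n + 1 → |s.2 - t.2| ≤ n + 1 →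
      b (some (s, d')) = beP A (some (s, d'))) →
    ∀ {m y : Fin 3 → V × ZMod 4} (i : Fin 3), m i = (t, d) → y i = ((t.1 + e, t.2), d) →
    (∀ j, j ≠ i → y j = m j ∧ ((n : ℤ) + 2 ≤ |(m j).1.1 - t.1| ∨ (n : ℤ) + 2 ≤ |(m j).1.2 - t.2|)) →
    (MKm A b m ↔ MKm A b y) ∧
      (MKm A b m → ‖HGm A b m - HGm A b y‖ ≤ C * ((2 : ℝ) / n) ^ a) := by
  obtain ⟨C, a, hC, ha, h⟩ := mk_box
  refine ⟨C, a, hC, ha, ?_⟩
  intro n hn A b t d e he hfl hb m y i hmi hyi hj
  obtain ⟨k, Y, hk, hY⟩ : ∃ (k : ZMod 4) (Y : ℤ), (Y = t.2 ∨ Y = t.2 - 1) ∧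
      ∀ s : ℤ × ℤ, |s.1 - t.1| ≤ n + 2 → |s.2 - t.2| ≤ n + 2 → (s ∈ A ↔ pat t.1 Y .h0 k s) := by
    rcases hfl with ⟨-, hfl⟩ | ⟨-, hfl⟩
    · refine ⟨1, t.2, Or.inl rfl, fun s h1 h2 => ?_⟩
      rw [Cw161.pat_h1]
      exact hfl s (by push_cast; exact h1) (by push_cast; exact h2)
    · refine ⟨3, t.2 - 1, Or.inr rfl, fun s h1 h2 => ?_⟩
      rw [Cw161.pat_h3, hfl s (by push_cast; exact h1) (by push_cast; exact h2)]
      omega
  have hA : ∀ s, Bx t.1 Y (n + 1) s → ¬ Bx t.1 Y (2 - 1) s → (s ∈ A ↔ pat t.1 Y .h0 k s) := by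
    intro s hs _
    unfold Bx at hs
    push_cast at hs
    refine hY s ?_ ?_
    · rw [abs_le]; omega
    · rw [abs_le]; omega
  have hW : Win .h0 k t.1 Y 2 n A b := by
    refine win_plain (by norm_num) (by omega) hA ?_
    intro s d' hs
    unfold Bx at hs
    refine hb s d' ?_ ?_
    · rw [abs_le]; omega
    · rw [abs_le]; omega
  have hnp := np_plain hA
  have far : ∀ s : ℤ × ℤ, ((n : ℤ) + 2 ≤ |s.1 - t.1| ∨ (n : ℤ) + 2 ≤ |s.2 - t.2|) →
      ¬ Bx t.1 Y n s := by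
    intro s hs hB
    unfold Bx at hB
    rw [le_abs, le_abs] at hs
    omega
  have b1 : Bx t.1 Y 2 t := by unfold Bx; push_cast; omega
  have b2 : Bx t.1 Y 2 (t.1 + e, t.2) := by
    rw [abs_le] at he
    unfold Bx; push_cast; omega
  have f1 : t ∈ A ∧ b (some (t, d)) = some (t, d) := by
    refine ⟨hfl.mem, ?_⟩
    rw [hb t d (by simp; omega) (by simp; omega)]
    exact hfl.free (by omega)
  have f2 : ((t.1 + e, t.2) : ℤ × ℤ) ∈ A ∧
      b (some ((t.1 + e, t.2), d)) = some ((t.1 + e, t.2), d) := by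
    have h2 := Flat.shift (e := e) he (hfl.mono (n' := 1 + 1) (by omega))
    refine ⟨h2.mem, ?_⟩
    rw [hb (t.1 + e, t.2) d (by show |t.1 + e - t.1| ≤ (n : ℤ) + 1; rw [add_sub_cancel_left]; omega)
      (by show |t.2 - t.2| ≤ (n : ℤ) + 1; rw [sub_self, abs_zero]; omega)]
    exact h2.free le_rfl
  have fwd := h n hn hW hnp (m := m) (y := y) i (by rw [hmi]; exact b1) (by rw [hyi]; exact b2)
    (by rw [hyi]; exact f2.1) (by rw [hyi]; exact f2.2)
    (fun j hji => ⟨(hj j hji).1, far _ (hj j hji).2⟩)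
  have bwd := h n hn hW hnp (m := y) (y := m) i (by rw [hyi]; exact b2) (by rw [hmi]; exact b1)
    (by rw [hmi]; exact f1.1) (by rw [hmi]; exact f1.2)
    (fun j hji => ⟨(hj j hji).1.symm, by rw [(hj j hji).1]; exact far _ (hj j hji).2⟩)
  exact ⟨⟨fun g => (fwd g).1, fun g => (bwd g).1⟩, fun g => (fwd g).2⟩

/-- the move of one mark, possibly trivial -/
def Mv (A : Finset (ℤ × ℤ)) (b : Port (ℤ × ℤ) → Port (ℤ × ℤ)) (n : ℕ) (m y : V × ZMod 4) : Prop :=
  y = m ∨ ∃ e : ℤ, |e| ≤ 1 ∧ y = ((m.1.1 + e, m.1.2), m.2) ∧ Flat A m.1 m.2 (n + 2) ∧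
    ∀ s d', |s.1 - m.1.1| ≤ n + 1 → |s.2 - m.1.2| ≤ n + 1 →
      b (some (s, d')) = beP A (some (s, d'))

/-- three marks move -/
theorem mk_three : ∃ C a : ℝ, 0 < C ∧ 0 < a ∧ ∀ (n : ℕ), 3 ≤ n → ∀ {A : Finset (ℤ × ℤ)}
    {b : Port (ℤ × ℤ) → Port (ℤ × ℤ)} {m y : Fin 3 → V × ZMod 4}, (∀ i, Mv A b n (m i) (y i)) →
    (∀ i j, i ≠ j → (n : ℤ) + 3 ≤ |(m j).1.1 - (m i).1.1| ∨ (n : ℤ) + 3 ≤ |(m j).1.2 - (m i).1.2|) →
    (MKm A b m ↔ MKm A b y) ∧
      (MKm A b m → ‖HGm A b m - HGm A b y‖ ≤ C * ((2 : ℝ) / n) ^ a) := by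
  obtain ⟨C, a, hC, ha, h⟩ := mk_step
  refine ⟨C + C + C, a, by positivity, ha, ?_⟩
  intro n hn A b m y hmv hd
  have hn0 : (0 : ℝ) < n := by exact_mod_cast (by omega : 0 < n)
  have hpos : (0 : ℝ) ≤ C * ((2 : ℝ) / n) ^ a := by positivity
  -- one step
  have step : ∀ (m' : Fin 3 → V × ZMod 4) (i : Fin 3), m' i = m i → (∀ j, m' j = m j ∨ m' j = y j) →
      (MKm A b m' ↔ MKm A b (Function.update m' i (y i))) ∧
      (MKm A b m' → ‖HGm A b m' - HGm A b (Function.update m' i (y i))‖ ≤ C * ((2 : ℝ) / n) ^ a) := by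
    intro m' i hi hj
    rcases hmv i with e | ⟨e, he, hy, hfl, hb⟩
    · have : Function.update m' i (y i) = m' := by
        rw [e, ← hi]; exact Function.update_eq_self i m'
      rw [this]
      refine ⟨Iff.rfl, fun _ => ?_⟩
      rw [sub_self, norm_zero]; exact hpos
    · refine h n hn (t := (m i).1) (d := (m i).2) he hfl hb i hi ?_ ?_
      · rw [Function.update_self]; exact hy
      · intro j hji
        refine ⟨Function.update_of_ne hji _ _, ?_⟩
        have hdj := hd i j (Ne.symm hji)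
        rcases hj j with e' | e'
        · rw [e']
          omega
        · rw [e']
          rcases hmv j with e2 | ⟨e2, he2, hy2, -, -⟩
          · rw [e2]; omega
          · rw [hy2]
            simp only
            rw [abs_le] at he2
            rw [le_abs, le_abs] at hdj ⊢
            omega
  set m1 := Function.update m 0 (y 0) with hm1
  set m2 := Function.update m1 1 (y 1) with hm2
  have e3 : Function.update m2 2 (y 2) = y := by
    funext j
    fin_cases j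
    · simp [hm2, hm1]
    · simp [hm2, hm1]
    · simp
  have s1 := step m 0 rfl (fun j => Or.inl rfl)
  have s2 := step m1 1 (by simp [hm1]) (fun j => by
    fin_cases j
    · right; simp [hm1]
    · left; simp [hm1]
    · left; simp [hm1])
  have s3 := step m2 2 (by simp [hm2, hm1]) (fun j => by
    fin_cases j
    · right; simp [hm2, hm1]
    · right; simp [hm2]
    · left; simp [hm2, hm1])
  rw [← hm1] at s1
  rw [← hm2] at s2
  rw [e3] at s3
  refine ⟨s1.1.trans (s2.1.trans s3.1), fun g => ?_⟩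
  have g1 := s1.1.1 g
  have g2 := s2.1.1 g1
  have k1 := s1.2 g
  have k2 := s2.2 g1
  have k3 := s3.2 g2
  have : HGm A b m - HGm A b y = (HGm A b m - HGm A b m1) + (HGm A b m1 - HGm A b m2) +
      (HGm A b m2 - HGm A b y) := by ring
  rw [this]
  refine (norm_add_le _ _).trans ?_
  have := norm_add_le (HGm A b m - HGm A b m1) (HGm A b m1 - HGm A b m2)
  linarith

end Crest.Agent.R158.Mb331
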