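import Crest.Agent.R158.Mb2_331

/-!
# R158, block BL (helper331): mark balls, the regions

* `near_D`, `flat_A` : the region `shD δ ∪ RL δ` near a mark on a horizontal side
* `mark_case` : marks `mkS δ RL`, `mkS (δ+1) LL`
* **`mark_balls`** : marks `mkS δ RL` against marks `mkS (δ+1) LL` in the same region
-/

set_option autoImplicit false
set_option linter.unusedVariables false

noncomputable section

namespace Crest.Agent.R158.Mb331

open Crest.Agent.R158.Sp896 (V)
open Crest.Agent.R158.Sw300 (Port Wd tls)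
open Crest.Agent.R158.Env664
open Crest.Agent.R158.Hb656 (Hang shD RL LL mkS mk2 mem_shD mem_RL mem_LL)

theorem dv {L x q : ℤ} (hL : 0 < L) (h1 : q * L ≤ x) (h2 : x < q * L + L) : x / L = q :=
  (div_iff hL x q).2 ⟨h1, h2⟩

theorem nbc0 (c : V) : nbc c 0 = (c.1 - 1, c.2) := rfl
theorem nbc1 (c : V) : nbc c 1 = (c.1, c.2 + 1) := by
  unfold nbc; rw [if_neg n10, if_pos rfl]
theorem nbc2 (c : V) : nbc c 2 = (c.1 + 1, c.2) := by
  unfold nbc; rw [if_neg n20, if_neg n21, if_pos rfl]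
theorem nbc3 (c : V) : nbc c 3 = (c.1, c.2 - 1) := by
  unfold nbc; rw [if_neg n30, if_neg n31, if_neg n32]

theorem mk2_0 (L : ℤ) (c : V) : mk2 L c 0 = ((c.1 * L, c.2 * L + L / 2), 0) := rfl
theorem mk2_1 (L : ℤ) (c : V) : mk2 L c 1 = ((c.1 * L + L / 2, c.2 * L + L - 1), 1) := by
  unfold mk2; rw [if_neg n10, if_pos rfl]
theorem mk2_2 (L : ℤ) (c : V) : mk2 L c 2 = ((c.1 * L + L - 1, c.2 * L + L / 2 - 1), 2) := by
  unfold mk2; rw [if_neg n20, if_neg n21, if_pos rfl]
theorem mk2_3 (L : ℤ) (c : V) : mk2 L c 3 = ((c.1 * L + L / 2 - 1, c.2 * L), 3) := by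
  unfold mk2; rw [if_neg n30, if_neg n31, if_neg n32]

/-- the region near the mark on a ceiling -/
theorem near_1 {F : Finset V} {L : ℤ} (hL : 4 ≤ L) {c : V} (hc : c ∈ F)
    (hn : nbc c 1 ∉ F) {x y : ℤ} (h1 : |x - (mk2 L c 1).1.1| ≤ L / 2 - 1)
    (h2 : |y - (mk2 L c 1).1.2| ≤ L / 2 - 1) : (x, y) ∈ D F L ↔ y ≤ (mk2 L c 1).1.2 := by
  rw [mk2_1] at h1 h2 ⊢
  rw [nbc1] at hn
  simp only at h1 h2 ⊢
  rw [abs_le] at h1 h2
  rw [mem_D (by omega)]
  have e1 : x / L = c.1 := dv (by omega) (by omega) (by omega)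
  simp only [e1]
  by_cases h : y ≤ c.2 * L + L - 1
  · have e2 : y / L = c.2 := dv (by omega) (by omega) (by omega)
    rw [e2]
    exact ⟨fun _ => h, fun _ => hc⟩
  · have e3 : (c.2 + 1) * L = c.2 * L + L := by ring
    have e2 : y / L = c.2 + 1 := dv (by omega) (by omega) (by omega)
    rw [e2]
    exact ⟨fun g => absurd g hn, fun g => absurd g h⟩

/-- the region near the mark on a floor -/
theorem near_3 {F : Finset V} {L : ℤ} (hL : 4 ≤ L) {c : V} (hc : c ∈ F)
    (hn : nbc c 3 ∉ F) {x y : ℤ} (h1 : |x - (mk2 L c 3).1.1| ≤ L / 2 - 1)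
    (h2 : |y - (mk2 L c 3).1.2| ≤ L / 2 - 1) : (x, y) ∈ D F L ↔ (mk2 L c 3).1.2 ≤ y := by
  rw [mk2_3] at h1 h2 ⊢
  rw [nbc3] at hn
  simp only at h1 h2 ⊢
  rw [abs_le] at h1 h2
  rw [mem_D (by omega)]
  have e1 : x / L = c.1 := dv (by omega) (by omega) (by omega)
  simp only [e1]
  by_cases h : c.2 * L ≤ y
  · have e2 : y / L = c.2 := dv (by omega) (by omega) (by omega)
    rw [e2]
    exact ⟨fun _ => h, fun _ => hc⟩
  · have e3 : (c.2 - 1) * L = c.2 * L - L := by ring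
    have e2 : y / L = c.2 - 1 := dv (by omega) (by omega) (by omega)
    rw [e2]
    exact ⟨fun g => absurd g hn, fun g => absurd g h⟩

/-- the region is flat near the mark -/
theorem flat_A {F H : Finset V} (hs : H ⊆ F) {L δ : ℤ} (hL : 16 ≤ L) (h1 : -1 ≤ δ) (h2 : δ ≤ 0)
    {c : V} {d : ZMod 4} (hc : c ∈ H) (hn : nbc c d ∉ F) (hd : d = 1 ∨ d = 3) {n : ℕ}
    (hnL : (n : ℤ) + 3 ≤ L / 2) :
    Flat (shD F H L δ ∪ RL F H L δ) ((mk2 L c d).1.1 + δ, (mk2 L c d).1.2) d n := by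
  rcases hd with rfl | rfl
  · refine Or.inl ⟨rfl, ?_⟩
    rintro ⟨x, y⟩ k1 k2
    simp only at k1 k2 ⊢
    rw [Finset.mem_union, mem_shD, mem_RL]
    simp only
    have kk : ∀ e : ℤ, -1 ≤ e → e ≤ 1 → ∀ F' : Finset V, c ∈ F' → nbc c 1 ∉ F' →
        ((x + e, y) ∈ D F' L ↔ y ≤ (mk2 L c 1).1.2) := by
      intro e he he' F' hc' hn'
      refine near_1 (by omega) hc' hn' ?_ ?_
      · rw [abs_le] at k1 ⊢; omega
      · rw [abs_le] at k2 ⊢; omega
    have hnH : nbc c 1 ∉ H := fun g => hn (hs g)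
    have a0 := kk 0 (by omega) (by omega) F (hs hc) hn
    have b0 := kk 0 (by omega) (by omega) H hc hnH
    have a1 := kk (-δ) (by omega) (by omega) F (hs hc) hn
    have b1 := kk (-δ) (by omega) (by omega) H hc hnH
    have b2 := kk (-1 - δ) (by omega) (by omega) H hc hnH
    rw [add_zero] at a0 b0
    rw [← sub_eq_add_neg] at a1 b1
    have e : x + (-1 - δ) = x - 1 - δ := by ring
    rw [e] at b2
    tauto
  · refine Or.inr ⟨rfl, ?_⟩
    rintro ⟨x, y⟩ k1 k2
    simp only at k1 k2 ⊢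
    rw [Finset.mem_union, mem_shD, mem_RL]
    simp only
    have kk : ∀ e : ℤ, -1 ≤ e → e ≤ 1 → ∀ F' : Finset V, c ∈ F' → nbc c 3 ∉ F' →
        ((x + e, y) ∈ D F' L ↔ (mk2 L c 3).1.2 ≤ y) := by
      intro e he he' F' hc' hn'
      refine near_3 (by omega) hc' hn' ?_ ?_
      · rw [abs_le] at k1 ⊢; omega
      · rw [abs_le] at k2 ⊢; omega
    have hnH : nbc c 3 ∉ H := fun g => hn (hs g)
    have a0 := kk 0 (by omega) (by omega) F (hs hc) hn
    have b0 := kk 0 (by omega) (by omega) H hc hnH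
    have a1 := kk (-δ) (by omega) (by omega) F (hs hc) hn
    have b1 := kk (-δ) (by omega) (by omega) H hc hnH
    have b2 := kk (-1 - δ) (by omega) (by omega) H hc hnH
    rw [add_zero] at a0 b0
    rw [← sub_eq_add_neg] at a1 b1
    have e : x + (-1 - δ) = x - 1 - δ := by ring
    rw [e] at b2
    tauto

theorem mk2_mem {F : Finset V} {L : ℤ} (hL : 4 ≤ L) {c : V} {d : ZMod 4} :
    (mk2 L c d).1 ∈ D F L ↔ c ∈ F := by
  rcases z4 d with rfl | rfl | rfl | rfl
  · rw [mk2_0]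
    rw [mem_D (by omega), dv (q := c.1) (by omega) (by simp only; omega) (by simp only; omega),
      dv (q := c.2) (by omega) (by simp only; omega) (by simp only; omega)]
  · rw [mk2_1]
    rw [mem_D (by omega), dv (q := c.1) (by omega) (by simp only; omega) (by simp only; omega),
      dv (q := c.2) (by omega) (by simp only; omega) (by simp only; omega)]
  · rw [mk2_2]
    rw [mem_D (by omega), dv (q := c.1) (by omega) (by simp only; omega) (by simp only; omega),
      dv (q := c.2) (by omega) (by simp only; omega) (by simp only; omega)]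
  · rw [mk2_3]
    rw [mem_D (by omega), dv (q := c.1) (by omega) (by simp only; omega) (by simp only; omega),
      dv (q := c.2) (by omega) (by simp only; omega) (by simp only; omega)]

/-- the two versions of a mark -/
theorem mark_case {F H : Finset V} (hs : H ⊆ F) {L δ : ℤ} (hL : 4 ≤ L) {c : V} {d : ZMod 4}
    (hc : c ∈ F) (hn : nbc c d ∉ F) :
    (mkS H L (δ + 1) (LL F H L (δ + 1)) (mk2 L c d) = mkS H L δ (RL F H L δ) (mk2 L c d) ∧
      (mkS H L δ (RL F H L δ) (mk2 L c d)).1.2 = (mk2 L c d).1.2 ∧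
      ((mkS H L δ (RL F H L δ) (mk2 L c d)).1.1 = (mk2 L c d).1.1 ∨
        (mkS H L δ (RL F H L δ) (mk2 L c d)).1.1 = (mk2 L c d).1.1 + δ ∨
        (mkS H L δ (RL F H L δ) (mk2 L c d)).1.1 = (mk2 L c d).1.1 + δ + 1)) ∨
    (c ∈ H ∧ (d = 1 ∨ d = 3) ∧
      mkS H L δ (RL F H L δ) (mk2 L c d) = (((mk2 L c d).1.1 + δ, (mk2 L c d).1.2), d) ∧
      mkS H L (δ + 1) (LL F H L (δ + 1)) (mk2 L c d) =
        (((mk2 L c d).1.1 + δ + 1, (mk2 L c d).1.2), d)) := by
  by_cases hH : c ∈ H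
  · have hm := (mk2_mem (F := H) hL (c := c) (d := d)).2 hH
    unfold mkS
    rw [if_pos hm, if_pos hm]
    rcases z4 d with rfl | rfl | rfl | rfl
    · -- west
      left
      rw [nbc0] at hn
      rw [mk2_0] at hm ⊢
      simp only at hm ⊢
      have x1 : (c.1 - 1) * L = c.1 * L - L := by ring
      have o1 : ∀ j : ℤ, 1 ≤ j → j ≤ 2 → ∀ F' : Finset V, (c.1 - 1, c.2) ∉ F' →
          (c.1 * L - j, c.2 * L + L / 2) ∉ D F' L := by
        intro j h1 h2 F' hF'
        rw [mem_D (by omega), dv (q := c.1 - 1) (by omega) (by simp only; omega) (by simp only; omega),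
          dv (q := c.2) (by omega) (by simp only; omega) (by simp only; omega)]
        exact hF'
      have hnH : (c.1 - 1, c.2) ∉ H := fun g => hn (hs g)
      have r1 : ((c.1 * L + δ - 1, c.2 * L + L / 2) : V) ∉ RL F H L δ := by
        rw [mem_RL]
        rintro ⟨g, -⟩
        refine o1 2 (by omega) (by omega) H hnH ?_
        have e : c.1 * L + δ - 1 - 1 - δ = c.1 * L - 2 := by ring
        simp only [e] at g
        exact g
      have l1 : ((c.1 * L + (δ + 1) - 1, c.2 * L + L / 2) : V) ∈ LL F H L (δ + 1) := by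
        rw [mem_LL]
        have e : c.1 * L + (δ + 1) - 1 + 1 - (δ + 1) = c.1 * L := by ring
        have e' : c.1 * L + (δ + 1) - 1 - (δ + 1) = c.1 * L - 1 := by ring
        simp only [e, e']
        exact ⟨hm, o1 1 (by omega) (by omega) F hn⟩
      have n02 : ¬ ((0 : ZMod 4) = 2) := by decide
      rw [if_neg (fun g => n02 g.1), if_pos ⟨trivial, l1⟩, if_neg (fun g => n02 g.1),
        if_neg (fun g => r1 g.2)]
      simp only
      refine ⟨?_, trivial, Or.inr (Or.inl trivial)⟩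
      congr 2
      ring
    · -- north
      right
      have n12 : ¬ ((1 : ZMod 4) = 2) := by decide
      have n10' : ¬ ((1 : ZMod 4) = 0) := by decide
      rw [mk2_1]
      simp only
      rw [if_neg (fun g => n12 g.1), if_neg (fun g => n10' g.1), if_neg (fun g => n12 g.1),
        if_neg (fun g => n10' g.1)]
      refine ⟨hH, Or.inl trivial, rfl, ?_⟩
      congr 2
      ring
    · -- east
      left
      rw [nbc2] at hn
      rw [mk2_2] at hm ⊢
      simp only at hm ⊢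
      have x1 : (c.1 + 1) * L = c.1 * L + L := by ring
      have o1 : ∀ j : ℤ, 0 ≤ j → j ≤ 1 → ∀ F' : Finset V, (c.1 + 1, c.2) ∉ F' →
          (c.1 * L + L + j, c.2 * L + L / 2 - 1) ∉ D F' L := by
        intro j h1 h2 F' hF'
        rw [mem_D (by omega), dv (q := c.1 + 1) (by omega) (by simp only; omega) (by simp only; omega),
          dv (q := c.2) (by omega) (by simp only; omega) (by simp only; omega)]
        exact hF'
      have hnH : (c.1 + 1, c.2) ∉ H := fun g => hn (hs g)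
      have r1 : ((c.1 * L + L - 1 + δ + 1, c.2 * L + L / 2 - 1) : V) ∈ RL F H L δ := by
        rw [mem_RL]
        have e : c.1 * L + L - 1 + δ + 1 - 1 - δ = c.1 * L + L - 1 := by ring
        have e' : c.1 * L + L - 1 + δ + 1 - δ = c.1 * L + L + 0 := by ring
        simp only [e, e']
        exact ⟨hm, o1 0 (by omega) (by omega) F hn⟩
      have l1 : ((c.1 * L + L - 1 + (δ + 1) + 1, c.2 * L + L / 2 - 1) : V) ∉ LL F H L (δ + 1) := by
        rw [mem_LL]
        rintro ⟨g, -⟩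
        refine o1 1 (by omega) (by omega) H hnH ?_
        have e : c.1 * L + L - 1 + (δ + 1) + 1 + 1 - (δ + 1) = c.1 * L + L + 1 := by ring
        simp only [e] at g
        exact g
      have n20' : ¬ ((2 : ZMod 4) = 0) := by decide
      rw [if_neg (fun g => l1 g.2), if_neg (fun g => n20' g.1), if_pos ⟨trivial, r1⟩]
      simp only
      refine ⟨?_, trivial, Or.inr (Or.inr trivial)⟩
      congr 2
      ring
    · -- south
      right
      have n32' : ¬ ((3 : ZMod 4) = 2) := by decide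
      have n30' : ¬ ((3 : ZMod 4) = 0) := by decide
      rw [mk2_3]
      simp only
      rw [if_neg (fun g => n32' g.1), if_neg (fun g => n30' g.1), if_neg (fun g => n32' g.1),
        if_neg (fun g => n30' g.1)]
      refine ⟨hH, Or.inr trivial, rfl, ?_⟩
      congr 2
      ring
  · left
    have hm : (mk2 L c d).1 ∉ D H L := fun g => hH ((mk2_mem hL).1 g)
    unfold mkS
    rw [if_neg hm, if_neg hm]
    exact ⟨rfl, rfl, Or.inl rfl⟩

/-- **mark balls** : the marks carried by the right layer of the part displaced by `δ` and by the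
left layer of the part displaced by `δ + 1`, in the same region -/
theorem mark_balls : ∃ C a : ℝ, 0 < C ∧ 0 < a ∧ ∀ {F H : Finset V}, H ⊆ F → ∀ {L δ p y0 xr : ℤ},
    Even L → 64 ≤ L → -1 ≤ δ → δ ≤ 0 → p ≤ xr → (∀ x, p ≤ x → x ≤ xr → ∀ t ∈ D H L,
      L ≤ 2 * |x - t.1| ∨ L ≤ 2 * |y0 - t.2|) →
    ∀ {c : Fin 3 → V × ZMod 4}, Function.Injective c →
    (∀ i, (c i).1 ∈ F ∧ nbc (c i).1 (c i).2 ∉ F) →
    (MKm (shD F H L δ ∪ RL F H L δ) (beD (shD F H L δ ∪ RL F H L δ) p y0 xr)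
        (fun i => mkS H L δ (RL F H L δ) (mk2 L (c i).1 (c i).2)) ↔
      MKm (shD F H L δ ∪ RL F H L δ) (beD (shD F H L δ ∪ RL F H L δ) p y0 xr)
        (fun i => mkS H L (δ + 1) (LL F H L (δ + 1)) (mk2 L (c i).1 (c i).2))) ∧
    (MKm (shD F H L δ ∪ RL F H L δ) (beD (shD F H L δ ∪ RL F H L δ) p y0 xr)
        (fun i => mkS H L δ (RL F H L δ) (mk2 L (c i).1 (c i).2)) →
      ‖HGm (shD F H L δ ∪ RL F H L δ) (beD (shD F H L δ ∪ RL F H L δ) p y0 xr)
          (fun i => mkS H L δ (RL F H L δ) (mk2 L (c i).1 (c i).2)) -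
        HGm (shD F H L δ ∪ RL F H L δ) (beD (shD F H L δ ∪ RL F H L δ) p y0 xr)
          (fun i => mkS H L (δ + 1) (LL F H L (δ + 1)) (mk2 L (c i).1 (c i).2))‖ ≤
        C * (1 / (L : ℝ)) ^ a) := by
  obtain ⟨C, a, hC, ha, h⟩ := mk_three
  refine ⟨C * (32 : ℝ) ^ a, a, by positivity, ha, ?_⟩
  intro F H hs L δ p y0 xr hev hL h1 h2 hp haw c hinj hc
  obtain ⟨n, hn⟩ : ∃ n : ℕ, (n : ℤ) = L / 8 := ⟨(L / 8).toNat, by omega⟩
  have hcase := fun i => mark_case hs (δ := δ) (by omega : 4 ≤ L) (hc i).1 (hc i).2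
  have hmv : ∀ i, Mv (shD F H L δ ∪ RL F H L δ) (beD (shD F H L δ ∪ RL F H L δ) p y0 xr) n
      (mkS H L δ (RL F H L δ) (mk2 L (c i).1 (c i).2))
      (mkS H L (δ + 1) (LL F H L (δ + 1)) (mk2 L (c i).1 (c i).2)) := by
    intro i
    rcases hcase i with ⟨e, -, -⟩ | ⟨hH, hd, e1, e2⟩
    · exact Or.inl e
    · right
      rw [e1, e2]
      refine ⟨1, by simp, rfl, ?_, ?_⟩
      · exact flat_A hs (by omega) h1 h2 hH (hc i).2 hd (by push_cast; omega)
      · intro s d' k1 k2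
        simp only at k1 k2
        refine beD_plain hp ?_ d'
        rintro ⟨g1, g2, g3⟩
        have g4 := haw s.1 g2 g3 _ ((mk2_mem (by omega : 4 ≤ L) (d := (c i).2)).2 hH)
        rw [abs_le] at k1 k2
        have g5 : 2 * |s.1 - (mk2 L (c i).1 (c i).2).1.1| < L := by
          have : |s.1 - (mk2 L (c i).1 (c i).2).1.1| ≤ n + 2 := by rw [abs_le]; omega
          omega
        have g6 : 2 * |y0 - (mk2 L (c i).1 (c i).2).1.2| < L := by
          have : |y0 - (mk2 L (c i).1 (c i).2).1.2| ≤ n + 2 := by rw [abs_le]; omega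
          omega
        omega
  have hnear : ∀ i, (mkS H L δ (RL F H L δ) (mk2 L (c i).1 (c i).2)).1.2 =
      (mk2 L (c i).1 (c i).2).1.2 ∧
      |(mkS H L δ (RL F H L δ) (mk2 L (c i).1 (c i).2)).1.1 - (mk2 L (c i).1 (c i).2).1.1| ≤ 1 := by
    intro i
    rcases hcase i with ⟨-, e1, e2⟩ | ⟨-, -, e1, -⟩
    · refine ⟨e1, ?_⟩
      rw [abs_le]
      omega
    · rw [e1]
      refine ⟨rfl, ?_⟩
      simp only [add_sub_cancel_left]
      rw [abs_le]
      omega
  have hdist : ∀ i j, i ≠ j → (n : ℤ) + 3 ≤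
      |(mkS H L δ (RL F H L δ) (mk2 L (c j).1 (c j).2)).1.1 -
        (mkS H L δ (RL F H L δ) (mk2 L (c i).1 (c i).2)).1.1| ∨ (n : ℤ) + 3 ≤
      |(mkS H L δ (RL F H L δ) (mk2 L (c j).1 (c j).2)).1.2 -
        (mkS H L δ (RL F H L δ) (mk2 L (c i).1 (c i).2)).1.2| := by
    intro i j hij
    have k := Hw949.mtl_dist (by omega : 2 ≤ L) hev (c := (c j).1) (c' := (c i).1)
      (d := (c j).2) (d' := (c i).2)
      (fun e => hij (hinj (by simpa only [Prod.mk.eta] using e.symm)))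
      (fun e => (hc j).2 (e ▸ (hc i).1))
    have k' : L / 2 ≤ |(mk2 L (c j).1 (c j).2).1.1 - (mk2 L (c i).1 (c i).2).1.1| ∨
      L / 2 ≤ |(mk2 L (c j).1 (c j).2).1.2 - (mk2 L (c i).1 (c i).2).1.2| := k
    obtain ⟨i1, i2⟩ := hnear i
    obtain ⟨j1, j2⟩ := hnear j
    rw [abs_le] at i2 j2
    rw [le_abs, le_abs] at k' ⊢
    omega
  have key := h n (by omega) hmv hdist
  refine ⟨key.1, fun g => (key.2 g).trans ?_⟩
  have hL0 : (0 : ℝ) < L := by exact_mod_cast (by omega : (0 : ℤ) < L)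
  have hn0 : (0 : ℝ) < n := by exact_mod_cast (by omega : (0 : ℤ) < n)
  have hnL : (L : ℝ) ≤ 16 * n := by
    have : L ≤ 16 * (n : ℤ) := by omega
    exact_mod_cast this
  rw [mul_assoc, ← Real.mul_rpow (by norm_num) (by positivity)]
  refine mul_le_mul_of_nonneg_left (Real.rpow_le_rpow (by positivity) ?_ ha.le) hC.le
  rw [mul_one_div, div_le_div_iff₀ hn0 hL0]
  linarith

end Crest.Agent.R158.Mb331
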