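import Crest.Agent.R158.Sp0_580
import Crest.Agent.R158.Rs10_689

/-!
# Row 158, Block A4 / LB3 (helper468), part 1: gluing tools at `p = 1/2`

* `not_darm` : an open circuit (`CircZ x k l`) forbids dual arms `DArm x s t`, `s < k`, `l < t`
* `annE_sub` : the edges of `CircZ` lie in the closed annulus `An`
* `rsw_rect`, `lr_ge`, `bt_ge`, `circ4_ge` : RSW lower bounds
* `GE S a A` : `A` is increasing, depends on `S`, has probability at least `a`; `GE.inter` (Harris)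
* `join4` : two open connections crossing the annulus of `Circ4` are joined
-/

set_option autoImplicit false

noncomputable section

namespace Crest.Agent.R158.Mc468

open MeasureTheory ProbabilityTheory unitInterval
open Crest.Agent.R161.Geo729 Crest.Agent.R161.Topo374 Crest.Agent.R161.Dual374
open Crest.Agent.R161.Tas682 Crest.Agent.R161.Ring421 Crest.Agent.R161.Sym597
open Crest.Agent.R161.Ifc372 Crest.Agent.R161.Hull374 Crest.Agent.R161.Ann374
open Crest.Agent.R158.It200 (OCl DCl)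
open Crest.Agent.R158.Qm522 Crest.Agent.R158.Rs689
open Crest.Agent.R158.Ru874 Crest.Agent.R158.Sp580

/-! ### distances -/

theorem le_sd {x p : P2} {k : ℤ} : k ≤ sd x p ↔
    p.1 ≤ x.1 - k ∨ x.1 + k ≤ p.1 ∨ p.2 ≤ x.2 - k ∨ x.2 + k ≤ p.2 := by
  unfold sd
  rw [le_max_iff, le_abs', le_abs']
  constructor
  · rintro ((h | h) | (h | h)) <;> omega
  · rintro (h | h | h | h)
    · left; left; omega
    · left; right; omega
    · right; left; omega
    · right; right; omega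

/-! ### circuits -/

theorem not_darm {z : Cfz} {x : P2} {k l : ℕ} {s t : ℤ} (h : z ∈ CircZ x k l) (hs : s + 1 ≤ k)
    (ht : l + 1 ≤ t) : z ∉ DArm x s t := by
  rintro ⟨f, g, hf, hg, hfg⟩
  rw [mem_dcl] at hfg
  have h1 := circ_block' h (f := f) (g := g) (by
    rw [sd_le] at hf
    rw [mem_ball]
    omega) hfg
  rw [mem_ball] at h1
  rw [le_sd] at hg
  omega

theorem annE_sub (x : P2) (n m : ℕ) : annE x n m ⊆ edF (An x n m) := by
  intro e he
  rw [mem_annE] at he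
  rw [mem_edF (an_finite _ _ _)]
  simp only [mem_ball] at he
  show ((n : ℤ) ≤ sd x (src e) ∧ sd x (src e) ≤ m) ∧ ((n : ℤ) ≤ sd x (tgt e) ∧ sd x (tgt e) ≤ m)
  rw [le_sd, le_sd, sd_le, sd_le]
  obtain ⟨⟨i, j⟩, c⟩ := e
  cases c <;> simp at he ⊢ <;> omega

/-! ### RSW lower bounds -/

theorem rsw_rect (k : ℕ) : ∃ c : ℝ, 0 < c ∧ c ≤ 1 ∧ ∀ L H : ℤ, 0 ≤ L → 1 ≤ H → L ≤ k * H →
    c ≤ xpr hf L H := by
  obtain ⟨c, hc, h⟩ := rsw_long k
  refine ⟨c, hc, (h 1 le_rfl).trans (xpr_le_one _ _ _), fun L H hL hH hLH => ?_⟩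
  have h1 := h H.toNat (by omega)
  have h2 : ((H.toNat : ℕ) : ℤ) = H := by omega
  rw [h2] at h1
  exact h1.trans (xpr_mono hf hL hLH le_rfl)

/-- increasing event supported by `S`, probability at least `a` -/
structure GE (S : Finset Edge) (a : ℝ) (A : Set Cfz) : Prop where
  dep : Dep S A
  inc : Inc A
  nn : 0 ≤ a
  le : a ≤ (nu hf).real A

theorem GE.inter {S : Finset Edge} {a b : ℝ} {A B : Set Cfz} (hA : GE S a A) (hB : GE S b B) :
    GE S (a * b) (A ∩ B) :=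
  ⟨hA.dep.inter hB.dep, hA.inc.inter hB.inc, mul_nonneg hA.nn hB.nn,
    (mul_le_mul hA.le hB.le hB.nn measureReal_nonneg).trans
      (harris (fun _ : Edge => hf) hA.dep hB.dep hA.inc hB.inc)⟩

theorem GE.mono {S T : Finset Edge} {a : ℝ} {A : Set Cfz} (hA : GE S a A) (h : S ⊆ T) :
    GE T a A := ⟨hA.dep.mono h, hA.inc, hA.nn, hA.le⟩

theorem GE.weaken {S : Finset Edge} {a b : ℝ} {A : Set Cfz} (hA : GE S a A) (h : b ≤ a)
    (hb : 0 ≤ b) : GE S b A := ⟨hA.dep, hA.inc, hb, h.trans hA.le⟩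

theorem rectE_eq (a b c d : ℤ) : rectE a b c d = edF (Rect a b c d) := by
  ext e
  rw [mem_rectE, mem_edF (rect_finite _ _ _ _)]

theorem lr_ge {c : ℝ} (hc : 0 ≤ c) {x0 x1 y0 y1 : ℤ} (h : c ≤ xpr hf (x1 - x0) (y1 - y0)) :
    GE (edF (Rect x0 x1 y0 y1)) c {z : Cfz | LRc z x0 x1 y0 y1} := by
  refine ⟨?_, lr_inc _ _ _ _, hc, ?_⟩
  · rw [← rectE_eq]; exact lr_dep _ _ _ _
  · rw [lr_eq_xpr]; exact h

theorem bt_ge {c : ℝ} (hc : 0 ≤ c) {x0 x1 y0 y1 : ℤ} (h : c ≤ xpr hf (y1 - y0) (x1 - x0)) :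
    GE (edF (Rect x0 x1 y0 y1)) c {z : Cfz | BTc z x0 x1 y0 y1} := by
  refine ⟨?_, bt_inc _ _ _ _, hc, ?_⟩
  · rw [← rectE_eq]; exact bt_dep _ _ _ _
  · rw [bt_eq_xpr]; exact h

theorem edF_sub {D D' : Set P2} (hD' : D'.Finite) (h : D ⊆ D') : edF D ⊆ edF D' :=
  edF_mono hD' h

/-- the four crossings of an annulus -/
theorem circ4_ge {c : ℝ} (hc : 0 ≤ c) {x : P2} {n m : ℤ} (hn : 0 ≤ n)
    (h : c ≤ xpr hf (2 * m) (m - n)) :
    GE (edF (An x n m)) (c ^ 4) {z : Cfz | Circ4 z x n m} := by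
  have e1 := lr_ge hc (x0 := x.1 - m) (x1 := x.1 + m) (y0 := x.2 + n) (y1 := x.2 + m)
    (by rw [show x.1 + m - (x.1 - m) = 2 * m by ring, show x.2 + m - (x.2 + n) = m - n by ring]
        exact h)
  have e2 := lr_ge hc (x0 := x.1 - m) (x1 := x.1 + m) (y0 := x.2 - m) (y1 := x.2 - n)
    (by rw [show x.1 + m - (x.1 - m) = 2 * m by ring, show x.2 - n - (x.2 - m) = m - n by ring]
        exact h)
  have e3 := bt_ge hc (x0 := x.1 + n) (x1 := x.1 + m) (y0 := x.2 - m) (y1 := x.2 + m)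
    (by rw [show x.2 + m - (x.2 - m) = 2 * m by ring, show x.1 + m - (x.1 + n) = m - n by ring]
        exact h)
  have e4 := bt_ge hc (x0 := x.1 - m) (x1 := x.1 - n) (y0 := x.2 - m) (y1 := x.2 + m)
    (by rw [show x.2 + m - (x.2 - m) = 2 * m by ring, show x.1 - n - (x.1 - m) = m - n by ring]
        exact h)
  have fin := an_finite x n m
  have f1 := e1.mono (edF_sub fin (fun v hv => by
    obtain ⟨h1, h2, h3, h4⟩ := hv
    exact ⟨le_sd.2 (by omega), sd_le.2 (by omega)⟩))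
  have f2 := e2.mono (edF_sub fin (fun v hv => by
    obtain ⟨h1, h2, h3, h4⟩ := hv
    exact ⟨le_sd.2 (by omega), sd_le.2 (by omega)⟩))
  have f3 := e3.mono (edF_sub fin (fun v hv => by
    obtain ⟨h1, h2, h3, h4⟩ := hv
    exact ⟨le_sd.2 (by omega), sd_le.2 (by omega)⟩))
  have f4 := e4.mono (edF_sub fin (fun v hv => by
    obtain ⟨h1, h2, h3, h4⟩ := hv
    exact ⟨le_sd.2 (by omega), sd_le.2 (by omega)⟩))
  have g := f1.inter (f2.inter (f3.inter f4))
  have e : c * (c * (c * c)) = c ^ 4 := by ring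
  rw [e] at g
  exact g

/-- circuits in `CircZ` form -/
theorem circz_ge {q : ℝ} (hq : 0 ≤ q) {x : P2} {n m : ℕ} (h : q ≤ (nu hf).real (CircZ x n m)) :
    GE (edF (An x n m)) q (CircZ x n m) :=
  ⟨(circ_dep x n m).mono (annE_sub x n m), circ_inc x n m, hq, h⟩

/-! ### arms -/

theorem ar_eq_annulus {x : P2} {a R : ℤ} (h : a ≤ R) :
    AR x a R = EV (An x a R) {p | sd x p = a} {p | sd x p = R} := by
  ext z
  constructor
  · intro hz
    have h1 := EV_shrink (S := Bl x R) (sd x) (sd_nbr x) h (A := Bl x a) (B := Fr x R)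
      (fun a ha => ha) (fun b hb => hb)
    have h2 := h1 hz
    exact EV_mono (fun p hp => hp.2) subset_rfl subset_rfl h2
  · intro hz
    exact EV_mono (fun p hp => hp.2) (fun p hp => le_of_eq hp) (fun p hp => ge_of_eq hp) hz

theorem ar_ge {x : P2} {a R : ℤ} (h : a ≤ R) :
    GE (edF (An x a R)) ((nu hf).real (AR x a R)) (AR x a R) := by
  refine ⟨?_, ?_, measureReal_nonneg, le_rfl⟩
  · rw [ar_eq_annulus h]
    exact dep_EV (an_finite _ _ _) _ _
  · exact inc_EV _ _ _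

/-- two open connections crossing the annulus of `Circ4` are joined -/
theorem join4 {z : Cfz} {x : P2} {n m : ℤ} (hn : 0 ≤ n) (hnm : n ≤ m) (hC : Circ4 z x n m)
    {u v u' v' : P2} (h : Rch z u v) (hu : sd x u ≤ n) (hv : m ≤ sd x v) (h' : Rch z u' v')
    (hu' : sd x u' ≤ n) (hv' : m ≤ sd x v') : Rch z u u' := by
  obtain ⟨t, _, ht⟩ := circ4_meet hn hnm hC
  obtain ⟨w, h1, h2⟩ := ht _ _ _ (oc_univ_of_rch h) hu hv
  obtain ⟨w', h1', h2'⟩ := ht _ _ _ (oc_univ_of_rch h') hu' hv'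
  have h3 : OC z Set.univ u u' :=
    ((h1.trans (h2.symm.monoS (Set.subset_univ _))).trans (h2'.monoS (Set.subset_univ _))).trans
      h1'.symm
  exact Relation.ReflTransGen.mono (fun _ _ h => h.1) _ _ h3.2

theorem OC.rch {z : Cfz} {S : Set P2} {u v : P2} (h : OC z S u v) : Rch z u v :=
  Relation.ReflTransGen.mono (fun _ _ h => h.1) _ _ h.2

theorem rch_symm {z : Cfz} {u v : P2} (h : Rch z u v) : Rch z v u :=
  OC.rch (oc_univ_of_rch h).symm

end Crest.Agent.R158.Mc468
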