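import Crest.Agent.R158.Mc1_468

/-!
# Row 158, Block A4 / LB3 (helper468), part 2: the gadget outside the nice four arms

Parameters: `m` = scale of `Nice` (580), `n = 256 m`, `y = (n, 0)`, `ρ = 4 r`, outer radius `R`.

* `yy m` : the point `y`;  `VP m R`, `VD m` : supports of the forced open / dual events
* `Ep m r R` : forced open event (corridors, circuits, one arm towards `y`, one arm to distance `5R`)
* `Fd m` : forced dual event (dual path joining the north gate to the south gate round `y`)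
* `gateE`, `gateN`, `gateW`, `gateS` : exits through the gates of `Nice`
-/

set_option autoImplicit false

noncomputable section

namespace Crest.Agent.R158.Mc468

open MeasureTheory ProbabilityTheory unitInterval
open Crest.Agent.R161.Geo729 Crest.Agent.R161.Topo374 Crest.Agent.R161.Dual374
open Crest.Agent.R161.Tas682 Crest.Agent.R161.Ring421 Crest.Agent.R161.Sym597
open Crest.Agent.R161.Ifc372 Crest.Agent.R161.Hull374 Crest.Agent.R161.Ann374
open Crest.Agent.R158.It200 (OCl DCl)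
open Crest.Agent.R158.Qm522 Crest.Agent.R158.Rs689
open Crest.Agent.R158.Ru874 Crest.Agent.R158.Sp580

/-! ### gates -/

theorem gateE {z : Cfz} {m : ℕ} {u a b : P2} {X : ℤ} (hu : GArm z 0 m u)
    (h : OC z (Rect (20 * m) X (-(4 * m)) (4 * m)) a b) (ha : a.1 = 20 * m) (hb : b.1 = X)
    (hX : 32 * (m : ℤ) ≤ X) : Rch z u a := by
  obtain ⟨A, B, h1, h2, h3, h4⟩ := hu
  simp only [co] at h1 h2
  obtain ⟨w, hw1, hw2⟩ := glue h h3
    (by rintro w ⟨k1, k2, k3, k4⟩; constructor <;> omega)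
    (by
      rintro w ⟨k1, k2, k3, k4⟩
      simp only [co] at k1 k2 k3 k4
      constructor <;> omega)
  exact ((OC.rch h4).trans (OC.rch hw2)).trans (rch_symm (OC.rch hw1))

theorem gateW {z : Cfz} {m : ℕ} {u a b : P2} {X : ℤ} (hu : GArm z 2 m u)
    (h : OC z (Rect X (-(20 * m)) (-(4 * m)) (4 * m)) a b) (ha : a.1 = X)
    (hb : b.1 = -(20 * m)) (hX : X ≤ -(32 * (m : ℤ))) : Rch z u a := by
  obtain ⟨A, B, h1, h2, h3, h4⟩ := hu
  simp only [co] at h1 h2
  obtain ⟨w, hw1, hw2⟩ := glue h h3.symm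
    (by rintro w ⟨k1, k2, k3, k4⟩; constructor <;> omega)
    (by
      rintro w ⟨k1, k2, k3, k4⟩
      simp only [co] at k1 k2 k3 k4
      constructor <;> omega)
  exact ((OC.rch h4).trans ((OC.rch h3).trans (OC.rch hw2))).trans (rch_symm (OC.rch hw1))

theorem gateN {z : Cfz} {m : ℕ} {u a b : P2} {X : ℤ} (hu : GArm z 1 m u)
    (h : OC z (Rect (-(4 * m)) (4 * m) (20 * m) X) a b) (ha : a.2 = 20 * m) (hb : b.2 = X)
    (hX : 32 * (m : ℤ) ≤ X) : Rch z u a := by
  obtain ⟨A, B, h1, h2, h3, h4⟩ := hu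
  simp only [co] at h1 h2
  obtain ⟨w, hw1, hw2⟩ := glue h3.symm h
    (by
      rintro w ⟨k1, k2, k3, k4⟩
      simp only [co] at k1 k2 k3 k4
      constructor <;> omega)
    (by rintro w ⟨k1, k2, k3, k4⟩; constructor <;> omega)
  exact (((OC.rch h4).trans (OC.rch h3)).trans (OC.rch hw1)).trans (rch_symm (OC.rch hw2))

theorem gateS {z : Cfz} {m : ℕ} {u a b : P2} {X : ℤ} (hu : GArm z 3 m u)
    (h : OC z (Rect (-(4 * m)) (4 * m) X (-(20 * m))) a b) (ha : a.2 = X)
    (hb : b.2 = -(20 * m)) (hX : X ≤ -(32 * (m : ℤ))) : Rch z u a := by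
  obtain ⟨A, B, h1, h2, h3, h4⟩ := hu
  simp only [co] at h1 h2
  obtain ⟨w, hw1, hw2⟩ := glue h3 h
    (by
      rintro w ⟨k1, k2, k3, k4⟩
      simp only [co] at k1 k2 k3 k4
      constructor <;> omega)
    (by rintro w ⟨k1, k2, k3, k4⟩; constructor <;> omega)
  exact ((OC.rch h4).trans (OC.rch hw1)).trans (rch_symm (OC.rch hw2))

/-! ### supports -/

/-- the point at distance `256 m` -/
def yy (m : ℕ) : P2 := (256 * (m : ℤ), 0)

/-- vertices used by the forced open event -/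
def VP (m R : ℕ) : Set P2 :=
  (Rect (20 * m) (256 * m) (-(4 * m)) (4 * m) ∪ Bl (yy m) (32 * m)) ∪
    (Rect (-(1024 * m)) (-(20 * m)) (-(4 * m)) (4 * m) ∪ An (0, 0) (512 * m) (5 * R))

/-- faces used by the forced dual event -/
def VD (m : ℕ) : Set P2 :=
  (Rect (-(4 * m)) (4 * m) (20 * m) (128 * m) ∪ Rect (-(4 * m)) (384 * m) (64 * m) (128 * m)) ∪
    (Rect (320 * m) (384 * m) (-(128 * m)) (128 * m) ∪
      (Rect (-(4 * m)) (384 * m) (-(128 * m)) (-(64 * m)) ∪
        Rect (-(4 * m)) (4 * m) (-(128 * m)) (-(20 * m))))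

theorem VP_finite (m R : ℕ) : (VP m R).Finite :=
  ((rect_finite _ _ _ _).union (bl_finite _ _)).union
    ((rect_finite _ _ _ _).union (an_finite _ _ _))

theorem VD_finite (m : ℕ) : (VD m).Finite :=
  ((rect_finite _ _ _ _).union (rect_finite _ _ _ _)).union
    ((rect_finite _ _ _ _).union ((rect_finite _ _ _ _).union (rect_finite _ _ _ _)))

theorem edF_disj_dual {D D' : Set P2}
    (h : ∀ v ∈ D, ∀ f ∈ D', |v.1 - f.1| ≤ 1 → |v.2 - f.2| ≤ 1 → False) :
    Disjoint (edF D) ((edF D').map dE.symm.toEmbedding) := by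
  rw [Finset.disjoint_left]
  intro e he he'
  rw [Finset.mem_map] at he'
  obtain ⟨e', he', rfl⟩ := he'
  have h1 := (of_mem_edF he).1
  have h2 := (of_mem_edF he').1
  refine h _ h1 _ h2 ?_ ?_ <;> obtain ⟨⟨i, j⟩, c⟩ := e' <;> cases c <;> simp [dE, src]

theorem disj1 {m : ℕ} (hm : 1 ≤ m) :
    Disjoint (edF (NVP m)) ((edF (VD m)).map dE.symm.toEmbedding) := by
  refine edF_disj_dual fun v hv f hf k1 k2 => ?_
  rw [abs_le] at k1 k2
  rcases hv with hv | hv | hv
  · rw [mem_Sq] at hv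
    rcases hf with (hf | hf) | hf | hf | hf <;> rw [mem_rect] at hf <;> omega
  · obtain ⟨g1, g2, g3, g4⟩ := hv
    simp only [co] at g1 g2 g3 g4
    rcases hf with (hf | hf) | hf | hf | hf <;> rw [mem_rect] at hf <;> omega
  · obtain ⟨g1, g2, g3, g4⟩ := hv
    simp only [co] at g1 g2 g3 g4
    rcases hf with (hf | hf) | hf | hf | hf <;> rw [mem_rect] at hf <;> omega

theorem disj2 {m : ℕ} (hm : 1 ≤ m) (R : ℕ) :
    Disjoint ((edF (NVD m)).map dE.symm.toEmbedding) (edF (VP m R)) := by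
  refine (edF_disj_dual fun v hv f hf k1 k2 => ?_).symm
  rw [abs_le] at k1 k2
  rcases hf with hf | hf | hf
  · rw [mem_Sq] at hf
    rcases hv with (hv | hv) | hv | hv
    · rw [mem_rect] at hv; omega
    · rw [mem_Bl, sd_le] at hv; simp only [yy] at hv; omega
    · rw [mem_rect] at hv; omega
    · have hv := hv.1
      rw [le_sd] at hv; simp only at hv; omega
  · obtain ⟨g1, g2, g3, g4⟩ := hf
    simp only [co] at g1 g2 g3 g4
    rcases hv with (hv | hv) | hv | hv
    · rw [mem_rect] at hv; omega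
    · rw [mem_Bl, sd_le] at hv; simp only [yy] at hv; omega
    · rw [mem_rect] at hv; omega
    · have hv := hv.1
      rw [le_sd] at hv; simp only at hv; omega
  · obtain ⟨g1, g2, g3, g4⟩ := hf
    simp only [co] at g1 g2 g3 g4
    rcases hv with (hv | hv) | hv | hv
    · rw [mem_rect] at hv; omega
    · rw [mem_Bl, sd_le] at hv; simp only [yy] at hv; omega
    · rw [mem_rect] at hv; omega
    · have hv := hv.1
      rw [le_sd] at hv; simp only at hv; omega

theorem disj3 {m : ℕ} (hm : 1 ≤ m) (R : ℕ) :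
    Disjoint (edF (VP m R)) ((edF (VD m)).map dE.symm.toEmbedding) := by
  refine edF_disj_dual fun v hv f hf k1 k2 => ?_
  rw [abs_le] at k1 k2
  rcases hv with (hv | hv) | hv | hv
  · rw [mem_rect] at hv
    rcases hf with (hf | hf) | hf | hf | hf <;> rw [mem_rect] at hf <;> omega
  · rw [mem_Bl, sd_le] at hv
    simp only [yy] at hv
    rcases hf with (hf | hf) | hf | hf | hf <;> rw [mem_rect] at hf <;> omega
  · rw [mem_rect] at hv
    rcases hf with (hf | hf) | hf | hf | hf <;> rw [mem_rect] at hf <;> omega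
  · have hv := hv.1
    rw [le_sd] at hv
    simp only at hv
    rcases hf with (hf | hf) | hf | hf | hf <;> rw [mem_rect] at hf <;> omega

theorem e_notMem_VP {e : Edge} (he : src e = (0, 0)) {m : ℕ} (hm : 1 ≤ m) (R : ℕ) :
    e ∉ edF (VP m R) := by
  intro h
  have h1 := (of_mem_edF h).1
  rw [he] at h1
  rcases h1 with (hv | hv) | hv | hv
  · rw [mem_rect] at hv; simp only at hv; omega
  · rw [mem_Bl, sd_le] at hv; simp only [yy] at hv; omega
  · rw [mem_rect] at hv; simp only at hv; omega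
  · have hv := hv.1
    rw [le_sd] at hv; simp only at hv; omega

theorem e_notMem_VD {e : Edge} (he : src e = (0, 0)) {m : ℕ} (hm : 1 ≤ m) :
    e ∉ (edF (VD m)).map dE.symm.toEmbedding := by
  intro h
  rw [Finset.mem_map] at h
  obtain ⟨e', he', rfl⟩ := h
  have h2 := (of_mem_edF he').1
  have k : |(src e').1| ≤ 1 ∧ |(src e').2| ≤ 1 := by
    obtain ⟨⟨i, j⟩, c⟩ := e'
    cases c <;> simp [dE, src] at he ⊢ <;> obtain ⟨k1, k2⟩ := he
    · have : i = -1 := by omega
      subst this; subst k2; simp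
    · have : j = -1 := by omega
      subst this; subst k1; simp
  rw [abs_le, abs_le] at k
  rcases h2 with (hf | hf) | hf | hf | hf <;> rw [mem_rect] at hf <;> omega

/-! ### the forced events -/

/-- forced open event -/
def Ep (m r R : ℕ) : Set Cfz :=
  (({z | LRc z (20 * m) (256 * m) (-(4 * m)) (4 * m)} ∩ {z | Circ4 z (yy m) (16 * m) (32 * m)}) ∩
    (AR (yy m) (8 * r) (32 * m) ∩ ({z | Circ4 z (yy m) (8 * r) (16 * r)} ∩
      ({z | LRc z (256 * m) (256 * m + 16 * r) (-r) r} ∩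
        (CircZ (yy m) (r + 1) (2 * (r + 1)) ∩ CircZ (yy m) (4 * r + 1) (2 * (4 * r + 1))))))) ∩
  (({z | LRc z (-(1024 * m)) (-(20 * m)) (-(4 * m)) (4 * m)} ∩
      {z | Circ4 z (0, 0) (512 * m) (1024 * m)}) ∩
    (AR (0, 0) (512 * m) R ∩ ({z | Circ4 z (0, 0) (R / 2) (2 * (R / 2))} ∩
      ({z | LRc z (R / 2) (5 * R) (-(R / 2)) (R / 2)} ∩
        (CircZ (0, 0) (512 * m) (2 * (512 * m)) ∩ CircZ (0, 0) (2 * R + 1) (2 * (2 * R + 1)))))))

/-- forced dual event -/
def Fd (m : ℕ) : Set Cfz :=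
  ({z | BTc z (-(4 * m)) (4 * m) (20 * m) (128 * m)} ∩
    {z | LRc z (-(4 * m)) (384 * m) (64 * m) (128 * m)}) ∩
  ({z | BTc z (320 * m) (384 * m) (-(128 * m)) (128 * m)} ∩
    ({z | LRc z (-(4 * m)) (384 * m) (-(128 * m)) (-(64 * m))} ∩
      {z | BTc z (-(4 * m)) (4 * m) (-(128 * m)) (-(20 * m))}))

theorem Fd_ge : ∃ c : ℝ, 0 < c ∧ ∀ m : ℕ, 1 ≤ m → GE (edF (VD m)) c (Fd m) := by
  obtain ⟨c, hc, _, h⟩ := rsw_rect 14
  refine ⟨(c * c) * (c * (c * c)), by positivity, fun m hm => ?_⟩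
  have fin := VD_finite m
  have e1 := (bt_ge hc.le (x0 := -(4 * m)) (x1 := 4 * m) (y0 := 20 * m) (y1 := 128 * m)
    (h _ _ (by omega) (by omega) (by omega))).mono
      (edF_sub fin (fun v hv => Or.inl (Or.inl hv)))
  have e2 := (lr_ge hc.le (x0 := -(4 * m)) (x1 := 384 * m) (y0 := 64 * m) (y1 := 128 * m)
    (h _ _ (by omega) (by omega) (by omega))).mono
      (edF_sub fin (fun v hv => Or.inl (Or.inr hv)))
  have e3 := (bt_ge hc.le (x0 := 320 * m) (x1 := 384 * m) (y0 := -(128 * m)) (y1 := 128 * m)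
    (h _ _ (by omega) (by omega) (by omega))).mono
      (edF_sub fin (fun v hv => Or.inr (Or.inl hv)))
  have e4 := (lr_ge hc.le (x0 := -(4 * m)) (x1 := 384 * m) (y0 := -(128 * m)) (y1 := -(64 * m))
    (h _ _ (by omega) (by omega) (by omega))).mono
      (edF_sub fin (fun v hv => Or.inr (Or.inr (Or.inl hv))))
  have e5 := (bt_ge hc.le (x0 := -(4 * m)) (x1 := 4 * m) (y0 := -(128 * m)) (y1 := -(20 * m))
    (h _ _ (by omega) (by omega) (by omega))).mono
      (edF_sub fin (fun v hv => Or.inr (Or.inr (Or.inr hv))))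
  exact (e1.inter e2).inter (e3.inter (e4.inter e5))

theorem Ep_ge : ∃ c : ℝ, 0 < c ∧ ∀ m r R : ℕ, 1 ≤ m → 1 ≤ r → r ≤ 2 * m → 4096 * m ≤ R →
    GE (edF (VP m R)) (c * ((nu hf).real (AR (yy m) (8 * r) (32 * m)) *
      (nu hf).real (AR (0, 0) (512 * m) R))) (Ep m r R) := by
  obtain ⟨c, hc, _, h⟩ := rsw_rect 130
  obtain ⟨q, hq, _, hq'⟩ := rsw_circ
  refine ⟨(c * c ^ 4) * (c ^ 4 * (c * (q * q))) * ((c * c ^ 4) * (c ^ 4 * (c * (q * q)))),
    by positivity, fun m r R hm hr hrm hR => ?_⟩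
  have fin := VP_finite m R
  have sB : ∀ (a b : ℤ), b ≤ 32 * m → An (yy m) a b ⊆ VP m R := fun a b hb v hv =>
    Or.inl (Or.inr (hv.2.trans hb))
  have sA : ∀ (a b : ℤ), 512 * (m : ℤ) ≤ a → b ≤ 5 * R → An (0, 0) a b ⊆ VP m R :=
    fun a b ha hb v hv => Or.inr (Or.inr ⟨ha.trans hv.1, hv.2.trans hb⟩)
  have a1 := (lr_ge hc.le (x0 := 20 * m) (x1 := 256 * m) (y0 := -(4 * m)) (y1 := 4 * m)
    (h _ _ (by omega) (by omega) (by omega))).mono
      (edF_sub fin (fun v hv => Or.inl (Or.inl hv)))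
  have a2 := (circ4_ge hc.le (x := yy m) (n := 16 * m) (m := 32 * m) (by omega)
    (h _ _ (by omega) (by omega) (by omega))).mono (edF_sub fin (sB _ _ le_rfl))
  have a3 := (ar_ge (x := yy m) (a := 8 * r) (R := 32 * m) (by omega)).mono
    (edF_sub fin (sB _ _ le_rfl))
  have a4 := (circ4_ge hc.le (x := yy m) (n := 8 * r) (m := 16 * r) (by omega)
    (h _ _ (by omega) (by omega) (by omega))).mono (edF_sub fin (sB _ _ (by omega)))
  have a5 := (lr_ge hc.le (x0 := 256 * m) (x1 := 256 * m + 16 * r) (y0 := -r) (y1 := r)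
    (h _ _ (by omega) (by omega) (by omega))).mono
      (edF_sub fin (fun v hv => by
        refine Or.inl (Or.inr ?_)
        rw [mem_rect] at hv
        rw [mem_Bl, sd_le]
        simp only [yy]
        omega))
  have a6 := (circz_ge hq.le (hq' (yy m) (r + 1) (by omega))).mono
    (edF_sub fin (sB _ _ (by push_cast; omega)))
  have a7 := (circz_ge hq.le (hq' (yy m) (4 * r + 1) (by omega))).mono
    (edF_sub fin (sB _ _ (by push_cast; omega)))
  have b1 := (lr_ge hc.le (x0 := -(1024 * m)) (x1 := -(20 * m)) (y0 := -(4 * m)) (y1 := 4 * m)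
    (h _ _ (by omega) (by omega) (by omega))).mono
      (edF_sub fin (fun v hv => Or.inr (Or.inl hv)))
  have b2 := (circ4_ge hc.le (x := (0, 0)) (n := 512 * m) (m := 1024 * m) (by omega)
    (h _ _ (by omega) (by omega) (by omega))).mono (edF_sub fin (sA _ _ le_rfl (by omega)))
  have b3 := (ar_ge (x := (0, 0)) (a := 512 * m) (R := R) (by omega)).mono
    (edF_sub fin (sA _ _ le_rfl (by omega)))
  have b4 := (circ4_ge hc.le (x := (0, 0)) (n := R / 2) (m := 2 * (R / 2)) (by omega)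
    (h _ _ (by omega) (by omega) (by omega))).mono (edF_sub fin (sA _ _ (by omega) (by omega)))
  have b5 := (lr_ge hc.le (x0 := R / 2) (x1 := 5 * R) (y0 := -(R / 2)) (y1 := R / 2)
    (h _ _ (by omega) (by omega) (by omega))).mono
      (edF_sub fin (fun v hv => by
        refine Or.inr (Or.inr ⟨?_, ?_⟩)
        · rw [mem_rect] at hv
          rw [le_sd]
          simp only
          omega
        · rw [mem_rect] at hv
          show sd (0, 0) v ≤ _
          rw [sd_le]
          simp only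
          omega))
  have b6 := (circz_ge hq.le (hq' (0, 0) (512 * m) (by omega))).mono
    (edF_sub fin (sA _ _ (by push_cast; omega) (by push_cast; omega)))
  have b7 := (circz_ge hq.le (hq' (0, 0) (2 * R + 1) (by omega))).mono
    (edF_sub fin (sA _ _ (by push_cast; omega) (by push_cast; omega)))
  have g := ((a1.inter a2).inter (a3.inter (a4.inter (a5.inter (a6.inter a7))))).inter
    ((b1.inter b2).inter (b3.inter (b4.inter (b5.inter (b6.inter b7)))))
  refine GE.weaken g (le_of_eq ?_) ?_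
  · ring
  · have := @measureReal_nonneg _ _ (nu hf) (AR (yy m) (8 * r) (32 * m))
    have := @measureReal_nonneg _ _ (nu hf) (AR (0, 0) (512 * m) R)
    positivity

end Crest.Agent.R158.Mc468
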