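import Crest.Agent.R158.Mc4_468
import Crest.Agent.R158.Mc2_468
import Crest.Agent.R158.Lb2_841
import Crest.Agent.R158.Vx7_107

/-!
# Row 158, Block A4 / LB3 (helper468), part 5: probability of 841's bad configurations

* `bad_H` : `Bad z'` implies crossings (`H1`/`H2`) of the two annuli, in both states at `e`
* `bad_four` : `Bad z'` implies four arms
* `bad_prob` : the literal bound
-/

set_option autoImplicit false

noncomputable section

namespace Crest.Agent.R158.Mc468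

open MeasureTheory ProbabilityTheory unitInterval
open Crest.Agent.R161.Geo729 Crest.Agent.R161.Topo374 Crest.Agent.R161.Dual374
open Crest.Agent.R161.Tas682
open Crest.Agent.R158.It200 (OCl DCl Lp fc Corner)
open Crest.Agent.R158.Qm522 Crest.Agent.R158.Rs689
open Crest.Agent.R158.Ru874 Crest.Agent.R158.Sp580 Crest.Agent.R158.Ac109
open Crest.Agent.R158.Wf850 (Face BF mem_BF Lps Splits cross2 loop_between Cl)
open Crest.Agent.R158.Lb841 (Bad)

/-- no loop between two boxes: some crossing -/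
theorem H1_of_noloop {z : Cfz} {x : P2} {s R : ℤ} (hs : 0 ≤ s)
    (h : ∀ A ∈ Lps z, BF x s ⊆ A → ¬ A ⊆ BF x R) : z ∈ H1 x s R := by
  by_contra hcon
  have h1 : ∀ f g : Face, f ∈ BF x s → Cl z f g → g ∈ BF x (R - 1) := by
    intro f g hf hfg
    by_contra hg
    rw [mem_BF] at hf hg
    apply hcon
    rcases hfg with ⟨_, ⟨_, h3⟩ | ⟨_, h3⟩⟩
    · exact Or.inl ⟨f.1, g.1, hf, by omega, h3⟩
    · exact Or.inr ⟨f.1, g.1, hf, by omega, h3⟩
  obtain ⟨A, hA, h2, h3⟩ := loop_between hs h1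
  rw [sub_add_cancel] at h3
  exact h A hA h2 h3

/-- a loop crossing the annulus: both colours cross -/
theorem H2_of_loop {z : Cfz} {x : P2} {s R : ℤ} {A : Finset Face} (hA : A ∈ Lps z)
    (h1 : Splits A (BF x s)) (h2 : ¬ A ⊆ BF x R) : z ∈ H2 x s R := by
  obtain ⟨⟨u, v, a1, a2, a3⟩, ⟨f, g, b1, b2, b3⟩⟩ := cross2 hA h1 h2
  exact ⟨⟨u, v, a1, by omega, a3⟩, ⟨f, g, b1, b2, b3⟩⟩

/-- the crossings -/
theorem bad_H {z' : Cfz} {e : Edge} {y : P2} {n r R ρ : ℤ} (hr : 0 ≤ r) (hn : 1 ≤ n)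
    (h : Bad z' e y n r R ρ) :
    z' ∈ (H1 y (4 * r) ρ ∩ H2 (src e) (2 * n - 1) R) ∪
      (H2 y (4 * r) ρ ∩ H1 (src e) (2 * n - 1) R) := by
  have a1 : z' ∈ H1 y (4 * r) ρ := H1_of_noloop (by omega) h.n1
  have a2 : z' ∈ H1 (src e) (2 * n - 1) R := H1_of_noloop (by omega) h.n2
  rcases h.bad with ⟨A, hA, h1, h2⟩ | ⟨A, hA, h1, h2⟩
  · exact Or.inl ⟨a1, H2_of_loop hA h1 h2⟩
  · exact Or.inr ⟨H2_of_loop hA h1 h2, a2⟩

/-- four arms -/
theorem bad_four {z z' : Cfz} {e : Edge} {y : P2} {n r R ρ : ℤ} (hz : z' = z ∨ z' = It200.flip z e)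
    (h : Bad z' e y n r R ρ) {N : ℕ} (hN : 1 ≤ N) (hNn : (N : ℤ) + 2 ≤ n - 4 * r) :
    z ∈ Sp580.A4 e N := by
  have hfin : Vx107.AllFin z := by
    rcases hz with rfl | rfl
    · exact h.fin
    · have := h.fin.flip e
      rwa [show It200.flip (It200.flip z e) e = z by
        unfold It200.flip; simp] at this
  have key : ∀ L : Finset Face, ¬ L ⊆ BF (src e) (n - 4 * r - 1) →
      ∃ f ∈ L, (N : ℤ) + 2 ≤ sd (src e) f.1 := by
    intro L hL
    rw [Finset.not_subset] at hL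
    obtain ⟨f, hf, hf'⟩ := hL
    refine ⟨f, hf, ?_⟩
    rw [mem_BF] at hf'
    omega
  exact Vx107.four_of_far hfin hz h.two hN (key _ h.far1) (key _ h.far2)

/-- flipping an edge outside the support -/
theorem mem_flip_of_dep {S : Finset Edge} {A : Set Cfz} (hA : Dep S A) {e : Edge} (he : e ∉ S)
    {z : Cfz} : It200.flip z e ∈ A ↔ z ∈ A := by
  refine hA _ _ fun i hi => ?_
  have h1 : i ≠ e := by
    rintro rfl
    exact he hi
  unfold It200.flip
  rw [Function.update_of_ne h1]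

theorem notMem_An {e : Edge} {x : P2} {s R : ℤ} (h : sd x (src e) < s ∨ R < sd x (src e)) :
    e ∉ edF (An x s R) := by
  intro he
  have h1 := (of_mem_edF he).1
  have h2 : s ≤ sd x (src e) ∧ sd x (src e) ≤ R := h1
  omega

/-- deterministic inclusion -/
theorem bad_sub {e : Edge} (he : src e = (0, 0)) {y : P2} {n r R ρ : ℤ} (hy : sd (0, 0) y = n)
    (hr : 1 ≤ r) (hrρ : 4 * r ≤ ρ) (hρ : ρ + 4 ≤ n) (hR : 2 * n ≤ R) {N : ℕ} (hN : 1 ≤ N)
    (hNn : (N : ℤ) + 2 ≤ n - 4 * r) :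
    {z | ∃ z', (z' = z ∨ z' = It200.flip z e) ∧ Bad z' e y n r R ρ} ⊆
      A4 e N ∩ ((H1 y (4 * r) ρ ∩ H2 (0, 0) (2 * n - 1) R) ∪
        (H2 y (4 * r) ρ ∩ H1 (0, 0) (2 * n - 1) R)) := by
  rintro z ⟨z', hz', hbad⟩
  refine ⟨bad_four hz' hbad hN hNn, ?_⟩
  have h1 := bad_H (by omega) (by omega) hbad
  rw [he] at h1
  have hye : sd y (src e) = n := by rw [he, Ac109.sd_symm', hy]
  have n1 : e ∉ edF (An y (4 * r - 1) (ρ + 1)) := notMem_An (Or.inr (by omega))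
  have n2 : e ∉ edF (An (0, 0) (2 * n - 1 - 1) (R + 1)) := by
    refine notMem_An (Or.inl ?_)
    rw [he]
    have : sd ((0, 0) : P2) (0, 0) = 0 := by simp [sd]
    rw [this]
    omega
  have d1 : ∀ z : Cfz, It200.flip z e ∈ H1 y (4 * r) ρ ↔ z ∈ H1 y (4 * r) ρ := fun _ =>
    mem_flip_of_dep (dep_H1 (by omega)) n1
  have d2 : ∀ z : Cfz, It200.flip z e ∈ H2 y (4 * r) ρ ↔ z ∈ H2 y (4 * r) ρ := fun _ =>
    mem_flip_of_dep (dep_H2 (by omega)) n1
  have d3 : ∀ z : Cfz, It200.flip z e ∈ H1 (0, 0) (2 * n - 1) R ↔ z ∈ H1 (0, 0) (2 * n - 1) R :=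
    fun _ => mem_flip_of_dep (dep_H1 (by omega)) n2
  have d4 : ∀ z : Cfz, It200.flip z e ∈ H2 (0, 0) (2 * n - 1) R ↔ z ∈ H2 (0, 0) (2 * n - 1) R :=
    fun _ => mem_flip_of_dep (dep_H2 (by omega)) n2
  rcases hz' with rfl | rfl
  · exact h1
  · rcases h1 with ⟨h1, h2⟩ | ⟨h1, h2⟩
    · exact Or.inl ⟨(d1 z).1 h1, (d4 z).1 h2⟩
    · exact Or.inr ⟨(d2 z).1 h1, (d3 z).1 h2⟩

/-- **probability of the bad configurations of LB3** -/
theorem bad_prob : ∃ C : ℝ, 0 < C ∧ ∀ (e : Edge) (m r R : ℕ), src e = (0, 0) → 1 ≤ m → 1 ≤ r →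
    r ≤ 2 * m → 4096 * m ≤ R →
    (nu hf).real {z | ∃ z', (z' = z ∨ z' = It200.flip z e) ∧
        Bad z' e (yy m) (256 * m) r R (128 * m)} ≤
      C * ((nu hf).real (A4 e (4 * m)) * (P1 (4 * r) (256 * m) * P1 (256 * m) R *
        (P1 (4 * r) (256 * m) + P1 (256 * m) R))) := by
  obtain ⟨c, hc, hext⟩ := P1_ext 1
  refine ⟨2 * (c⁻¹ * c⁻¹ * c⁻¹), by positivity, fun e m r R he hm hr hrm hR => ?_⟩
  have hy : sd (0, 0) (yy m) = 256 * m := by
    unfold sd yy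
    simp
  have h1 := bad_sub he hy (r := r) (R := R) (ρ := 128 * m) (by omega) (by omega) (by omega)
    (by omega) (N := 64 * m) (by omega) (by push_cast; omega)
  have h2 := bad_le he (y := yy m) (a := (64 * m : ℕ)) (s := 4 * r) (R := 128 * m)
    (s' := 2 * (256 * m) - 1) (R' := R) (by omega) (by omega) (by rw [hy]; push_cast; omega)
    (by rw [hy]; omega) (by push_cast; omega)
  refine ((measureReal_mono h1).trans h2).trans ?_
  -- radii
  have k1 : P1 (4 * r) (128 * m) ≤ c⁻¹ * P1 (4 * r) (256 * m) := by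
    have := hext (4 * r) (128 * m) (4 * r) (256 * m) (by omega) le_rfl (by omega) (by omega)
      (by omega) (by omega)
    rw [← div_eq_inv_mul, le_div_iff₀ hc, mul_comm]
    exact this
  have k2 : P1 (2 * (256 * m) - 1) R ≤ c⁻¹ * P1 (256 * m) R := by
    have := hext (2 * (256 * m) - 1) R (256 * m) R (by omega) (by omega) (by omega) (by omega)
      le_rfl (by omega)
    rw [← div_eq_inv_mul, le_div_iff₀ hc, mul_comm]
    exact this
  have k3 : (nu hf).real (A4 e (64 * m : ℕ)) ≤ (nu hf).real (A4 e (4 * m)) := by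
    refine measureReal_mono ?_
    rw [Cpl963.A4_eq, Cpl963.A4_eq]
    exact Cpl963.A4_shrink (by omega) (by push_cast; omega)
  have p0 := P1_nonneg (4 * r) (256 * m)
  have p1 := P1_nonneg (256 * m) R
  have p2 := P1_nonneg (4 * r) (128 * m)
  have p3 := P1_nonneg (2 * (256 * m) - 1) R
  have k4 : P1 (4 * r) (128 * m) * P1 (2 * (256 * m) - 1) R ≤
      (c⁻¹ * P1 (4 * r) (256 * m)) * (c⁻¹ * P1 (256 * m) R) :=
    mul_le_mul k1 k2 p3 (by positivity)
  have k5 : P1 (4 * r) (128 * m) * P1 (2 * (256 * m) - 1) R *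
      (P1 (4 * r) (128 * m) + P1 (2 * (256 * m) - 1) R) ≤
      ((c⁻¹ * P1 (4 * r) (256 * m)) * (c⁻¹ * P1 (256 * m) R)) *
        (c⁻¹ * P1 (4 * r) (256 * m) + c⁻¹ * P1 (256 * m) R) :=
    mul_le_mul k4 (add_le_add k1 k2) (add_nonneg p2 p3) (by positivity)
  have k6 := mul_le_mul k3 k5 (by positivity) measureReal_nonneg
  have k7 := mul_le_mul_of_nonneg_left k6 (show (0 : ℝ) ≤ 2 by norm_num)
  refine k7.trans (le_of_eq ?_)
  ring

end Crest.Agent.R158.Mc468
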