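import Crest.Agent.R158.Mc3_468
import Crest.Agent.R158.Mc5_468
import Crest.Agent.R158.Sp5_580

/-!
# Row 158, Block A4 / LB3 (helper468), part 6: the main event dominates the bad configurations

* `rsp` : `RSp c hf N` for every `N`
* `nice_poly` : `c m ^ (-K) ≤ P(NiceU e m)`, `m = 2 ^ j`
* `main_ge_four` : `c (r / R) P(A4 e (4 m)) ≤ P(MainE)` for some sides
* `arith` : real analysis
* `dom` : `C P(Bad) ^ (1 - δ) ≤ P(MainE) ^ (1 + δ)` eventually
-/

set_option autoImplicit false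

noncomputable section

namespace Crest.Agent.R158.Mc468

open MeasureTheory ProbabilityTheory unitInterval Filter Topology
open Crest.Agent.R161.Geo729 Crest.Agent.R161.Topo374 Crest.Agent.R161.Dual374
open Crest.Agent.R161.Tas682
open Crest.Agent.R158.Qm522 Crest.Agent.R158.Rs689
open Crest.Agent.R158.Ru874 Crest.Agent.R158.Sp580 Crest.Agent.R158.Ac109
open Crest.Agent.R158.Lb841 (Bad)

theorem rsp : ∃ c : ℝ, 0 < c ∧ c ≤ 1 ∧ ∀ N : ℕ, RSp c hf N := by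
  obtain ⟨c, hc, hc1, h⟩ := rsw_rect 3
  refine ⟨c, hc, hc1, fun N => ⟨hc, fun n hn _ => ?_⟩⟩
  have h1 := h (3 * n) n (by omega) (by omega) (by push_cast; omega)
  exact ⟨h1, by rw [sigma_hf]; exact h1⟩

/-- polynomial lower bound -/
theorem nice_poly : ∃ c K : ℝ, 0 < c ∧ 0 ≤ K ∧ ∀ (e : Edge) (j : ℕ), src e = (0, 0) →
    c * ((2 : ℝ) ^ j) ^ (-K) ≤ (nu hf).real (NiceU e (2 ^ j)) := by
  obtain ⟨c0, hc0, hc1, hR⟩ := rsp
  -- K with `2 ^ (-K) ≤ c0 ^ 352 / 4`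
  set q : ℝ := c0 ^ 352 / 4 with hq
  have hq0 : 0 < q := by positivity
  have hq1 : q ≤ 1 := by
    have : c0 ^ 352 ≤ 1 := pow_le_one₀ hc0.le hc1
    rw [hq]; linarith
  set K : ℝ := -Real.logb 2 q with hK
  have hK0 : 0 ≤ K := by
    have := Real.logb_nonpos (b := 2) (x := q) (by norm_num) hq0.le hq1
    rw [hK]; linarith
  have h2K : (2 : ℝ) ^ (-K) = q := by
    rw [hK, neg_neg]
    exact Real.rpow_logb (by norm_num) (by norm_num) hq0
  refine ⟨(c0 / 2) ^ (SN 1).card, K, by positivity, hK0, fun e j he => ?_⟩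
  have e1 : ∀ j : ℕ, ((2 : ℝ) ^ j) ^ (-K) = q ^ j := by
    intro j
    rw [← Real.rpow_natCast, ← Real.rpow_mul (by norm_num), mul_comm, Real.rpow_mul (by norm_num),
      h2K, Real.rpow_natCast]
  rw [e1]
  induction j with
  | zero =>
    have := nice_base (hR 1) le_rfl he
    simpa using this
  | succ j ih =>
    have h1 := niceU_ext (n := 2 ^ j) Nat.one_le_two_pow (hR _) he
    have h2 : (nu hf).real (NiceU e (2 ^ j)) * q ≤ (nu hf).real (NiceU e (2 * 2 ^ j)) := by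
      have h3 := mul_le_mul_of_nonneg_right h1 hq0.le
      refine h3.trans (le_of_eq ?_)
      rw [hq]
      field_simp
    rw [pow_succ (2 : ℕ) j, mul_comm (2 ^ j) 2]
    refine le_trans ?_ h2
    rw [pow_succ, ← mul_assoc]
    exact mul_le_mul_of_nonneg_right ih hq0.le

/-- lower bound of the main event by four arms -/
theorem main_ge : ∃ c : ℝ, 0 < c ∧ ∀ (e : Edge) (j r R : ℕ), src e = (0, 0) → 1 ≤ r →
    r ≤ 2 * 2 ^ j → 4096 * 2 ^ j ≤ R → ∃ s t : Bool,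
    c * ((nu hf).real (NiceU e (2 ^ j)) * (P1 (4 * r) (256 * (2 ^ j : ℕ)) *
      P1 (256 * (2 ^ j : ℕ)) R)) ≤ (nu hf).real (MainE e (2 ^ j) r R s t) := by
  obtain ⟨c, hc, h⟩ := mainE_prob
  refine ⟨c / 4, by positivity, fun e j r R he hr hrm hR => ?_⟩
  obtain ⟨s, t, hst⟩ := nice_choice hf e (2 ^ j)
  refine ⟨s, t, ?_⟩
  have h1 := h e (2 ^ j) r R s t Nat.one_le_two_pow hr hrm hR
  refine le_trans ?_ h1
  have p0 : 0 ≤ P1 (4 * r) (256 * (2 ^ j : ℕ)) * P1 (256 * (2 ^ j : ℕ)) R :=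
    mul_nonneg (P1_nonneg _ _) (P1_nonneg _ _)
  have k := mul_le_mul_of_nonneg_right hst p0
  have k' := mul_le_mul_of_nonneg_left k (show 0 ≤ c / 4 by positivity)
  refine k'.trans (le_of_eq ?_)
  unfold P1
  ring

/-- real analysis: the domination -/
theorem arith {a K0 : ℝ} (ha : 0 < a) (hK : 0 ≤ K0) : ∃ δ0 : ℝ, 0 < δ0 ∧ δ0 ≤ 1 / 2 ∧
    ∀ δ : ℝ, 0 < δ → δ ≤ δ0 → ∀ c C C2 : ℝ, 0 < c → 0 < C → 0 < C2 →
    ∀ᶠ x : ℝ in atTop, ∀ M B : ℝ, 0 ≤ B → c * x ^ (-K0) ≤ M →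
      B ≤ C2 * x ^ (-a) * M → C * B ^ (1 - δ) ≤ M ^ (1 + δ) := by
  refine ⟨min (1 / 2) (a / (8 * (K0 + 1))), lt_min (by norm_num) (by positivity), min_le_left _ _,
    fun δ hδ hδ0 c C C2 hc hC hC2 => ?_⟩
  have d1 : δ ≤ 1 / 2 := hδ0.trans (min_le_left _ _)
  have d2 : δ * (8 * (K0 + 1)) ≤ a := by
    have := hδ0.trans (min_le_right _ _)
    rwa [le_div_iff₀ (by positivity)] at this
  have d3 : 2 * δ * K0 ≤ a / 4 := by nlinarith
  have hlim : Tendsto (fun x : ℝ => (C * C2 ^ (1 - δ) * c ^ (-(2 * δ))) * x ^ (-(a / 4))) atTop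
      (𝓝 ((C * C2 ^ (1 - δ) * c ^ (-(2 * δ))) * 0)) :=
    (tendsto_rpow_neg_atTop (by positivity : 0 < a / 4)).const_mul _
  rw [mul_zero] at hlim
  filter_upwards [eventually_ge_atTop (1 : ℝ), hlim.eventually_lt_const one_pos] with x hx hx1
  intro M B hB hM hBM
  have x0 : 0 < x := by linarith
  have hM0 : 0 < M := lt_of_lt_of_le (by positivity) hM
  -- B ^ (1-δ)
  have b1 : B ^ (1 - δ) ≤ C2 ^ (1 - δ) * x ^ (-a * (1 - δ)) * M ^ (1 - δ) := by
    calc B ^ (1 - δ) ≤ (C2 * x ^ (-a) * M) ^ (1 - δ) :=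
          Real.rpow_le_rpow hB hBM (by linarith)
      _ = C2 ^ (1 - δ) * x ^ (-a * (1 - δ)) * M ^ (1 - δ) := by
          rw [Real.mul_rpow (by positivity) hM0.le, Real.mul_rpow hC2.le (by positivity),
            ← Real.rpow_mul x0.le]
  have b2 : M ^ (1 - δ) = M ^ (-(2 * δ)) * M ^ (1 + δ) := by
    rw [← Real.rpow_add hM0]
    congr 1
    ring
  have b3 : M ^ (-(2 * δ)) ≤ c ^ (-(2 * δ)) * x ^ (2 * δ * K0) := by
    calc M ^ (-(2 * δ)) ≤ (c * x ^ (-K0)) ^ (-(2 * δ)) :=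
          Real.rpow_le_rpow_of_nonpos (by positivity) hM (by linarith)
      _ = c ^ (-(2 * δ)) * x ^ (2 * δ * K0) := by
          rw [Real.mul_rpow hc.le (by positivity), ← Real.rpow_mul x0.le]
          congr 2
          ring
  have b4 : x ^ (-a * (1 - δ)) * x ^ (2 * δ * K0) ≤ x ^ (-(a / 4)) := by
    rw [← Real.rpow_add x0]
    refine Real.rpow_le_rpow_of_exponent_le hx ?_
    nlinarith
  have m1 : 0 ≤ M ^ (1 + δ) := by positivity
  calc C * B ^ (1 - δ)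
      ≤ C * (C2 ^ (1 - δ) * x ^ (-a * (1 - δ)) * M ^ (1 - δ)) :=
        mul_le_mul_of_nonneg_left b1 hC.le
    _ = (C * C2 ^ (1 - δ) * x ^ (-a * (1 - δ)) * M ^ (1 + δ)) * M ^ (-(2 * δ)) := by
        rw [b2]; ring
    _ ≤ (C * C2 ^ (1 - δ) * x ^ (-a * (1 - δ)) * M ^ (1 + δ)) *
          (c ^ (-(2 * δ)) * x ^ (2 * δ * K0)) :=
        mul_le_mul_of_nonneg_left b3 (by positivity)
    _ = (C * C2 ^ (1 - δ) * c ^ (-(2 * δ))) * (x ^ (-a * (1 - δ)) * x ^ (2 * δ * K0)) *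
          M ^ (1 + δ) := by ring
    _ ≤ (C * C2 ^ (1 - δ) * c ^ (-(2 * δ))) * x ^ (-(a / 4)) * M ^ (1 + δ) :=
        mul_le_mul_of_nonneg_right (mul_le_mul_of_nonneg_left b4 (by positivity)) m1
    _ ≤ 1 * M ^ (1 + δ) := mul_le_mul_of_nonneg_right hx1.le m1
    _ = M ^ (1 + δ) := one_mul _

/-- the bad configurations -/
def BadS (e : Edge) (m r R : ℕ) : Set Cfz :=
  {z | ∃ z', (z' = z ∨ z' = It200.flip z e) ∧ Bad z' e (yy m) (256 * m) r R (128 * m)}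

/-- **domination**: `m = 2 ^ j`, `r ≤ m ^ (1 - η)`, `m ^ (1 + η) ≤ R ≤ m ^ A` -/
theorem dom {η A : ℝ} (hη : 0 < η) (hA : 0 < A) : ∃ δ0 : ℝ, 0 < δ0 ∧ δ0 ≤ 1 / 2 ∧ ∃ c : ℝ, 0 < c ∧
    ∃ c2 K2 : ℝ, 0 < c2 ∧ 0 ≤ K2 ∧ ∀ δ : ℝ, 0 < δ → δ ≤ δ0 → ∀ C : ℝ, 0 < C → ∀ᶠ j : ℕ in atTop, ∀ r R : ℕ, 1 ≤ r →
      (r : ℝ) ≤ ((2 : ℝ) ^ j) ^ (1 - η) → ((2 : ℝ) ^ j) ^ (1 + η) ≤ R →
      (R : ℝ) ≤ ((2 : ℝ) ^ j) ^ A → ∀ e : Edge, src e = (0, 0) → ∃ s t : Bool,
        C * (nu hf).real (BadS e (2 ^ j) r R) ^ (1 - δ) ≤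
          (nu hf).real (MainE e (2 ^ j) r R s t) ^ (1 + δ) ∧
        c * ((r : ℝ) / R) * (nu hf).real (A4 e (4 * (2 ^ j : ℕ))) ≤
          (nu hf).real (MainE e (2 ^ j) r R s t) ∧
        c2 * ((2 : ℝ) ^ j) ^ (-K2) ≤ (nu hf).real (MainE e (2 ^ j) r R s t) := by
  obtain ⟨c0, hc0, hc01, hRS⟩ := rsp
  obtain ⟨K, hK, hsep⟩ := sep_in hc0
  obtain ⟨cn, Kn, hcn, hKn, hpoly⟩ := nice_poly
  obtain ⟨cm, hcm, hmain⟩ := main_ge
  obtain ⟨Cb, hCb, hbad⟩ := bad_prob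
  obtain ⟨C1, a, hC1, ha, hle⟩ := P1_le
  obtain ⟨c1, hc1, hge⟩ := P1_ge
  obtain ⟨δ0, hδ0, hδ01, har⟩ := arith (a := η * a) (K0 := Kn + A) (by positivity) (by positivity)
  refine ⟨δ0, hδ0, hδ01, cm * (K⁻¹ * (c1 * 4 * c1)), by positivity, cm * (cn * (c1 * 4 * c1)),
    Kn + A, by positivity, by positivity, fun δ hδ hδδ C hC => ?_⟩
  have h1 := har δ hδ hδδ (cm * (cn * (c1 * 4 * c1))) C
    (Cb * K / cm * (C1 * 1 + C1 * (256 : ℝ) ^ a)) (by positivity) hC (by positivity)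
  have htend : Tendsto (fun j : ℕ => (2 : ℝ) ^ j) atTop atTop :=
    tendsto_pow_atTop_atTop_of_one_lt (by norm_num)
  have hη' : Tendsto (fun j : ℕ => ((2 : ℝ) ^ j) ^ η) atTop atTop :=
    (tendsto_rpow_atTop hη).comp htend
  filter_upwards [htend.eventually h1, hη'.eventually_ge_atTop 4096] with j hj hj2
  intro r R hr hrj hRj hRA e he
  set x : ℝ := (2 : ℝ) ^ j with hx
  have x1 : 1 ≤ x := one_le_pow₀ (by norm_num)
  have x0 : 0 < x := by linarith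
  have hxm : ((2 ^ j : ℕ) : ℝ) = x := by push_cast; rfl
  have r0 : (1 : ℝ) ≤ r := by exact_mod_cast hr
  have hrx : (r : ℝ) ≤ x * x ^ (-η) := by
    have : x ^ (1 - η) = x * x ^ (-η) := by
      rw [sub_eq_add_neg, Real.rpow_add x0, Real.rpow_one]
    rw [← this]; exact hrj
  have hRx : x * x ^ η ≤ R := by
    have : x ^ (1 + η) = x * x ^ η := by rw [Real.rpow_add x0, Real.rpow_one]
    rw [← this]; exact hRj
  have hxη : x ^ (-η) ≤ 1 := Real.rpow_le_one_of_one_le_of_nonpos x1 (by linarith)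
  -- integer inequalities
  have hrm : r ≤ 2 * 2 ^ j := by
    have : (r : ℝ) ≤ ((2 * 2 ^ j : ℕ) : ℝ) := by
      push_cast
      rw [← hx]
      nlinarith
    exact_mod_cast this
  have hR : 4096 * 2 ^ j ≤ R := by
    have : ((4096 * 2 ^ j : ℕ) : ℝ) ≤ R := by
      push_cast
      rw [← hx]
      nlinarith
    exact_mod_cast this
  have R0 : (0 : ℝ) < R := by
    have : 0 < R := lt_of_lt_of_le (by positivity) hR
    exact_mod_cast this
  obtain ⟨s, t, hM⟩ := hmain e j r R he hr hrm hR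
  refine ⟨s, t, ?_⟩
  set M := (nu hf).real (MainE e (2 ^ j) r R s t) with hMdef
  set N := (nu hf).real (NiceU e (2 ^ j)) with hN
  set p := P1 (4 * r) (256 * (2 ^ j : ℕ)) with hp
  set p' := P1 (256 * (2 ^ j : ℕ)) R with hp'
  have hN0 : 0 ≤ N := measureReal_nonneg
  have hp0 : 0 ≤ p := P1_nonneg _ _
  have hp'0 : 0 ≤ p' := P1_nonneg _ _
  -- lower bounds for the one-arm probabilities
  have q1 : c1 * (4 * r / (256 * x)) ≤ p := by
    have := hge (4 * r) (256 * (2 ^ j : ℕ)) (by omega) (by omega)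
    push_cast at this
    rw [← hx] at this
    exact this
  have q2 : c1 * (256 * x / R) ≤ p' := by
    have := hge (256 * (2 ^ j : ℕ)) R (by
      have : 1 ≤ 2 ^ j := Nat.one_le_two_pow
      omega) (by omega)
    push_cast at this
    rw [← hx] at this
    exact this
  have q3 : c1 * 4 * c1 * ((r : ℝ) / R) ≤ p * p' := by
    refine le_trans (le_of_eq ?_) (mul_le_mul q1 q2 (by positivity) hp0)
    field_simp
  -- upper bounds
  have u1 : p ≤ C1 * 1 * x ^ (-(η * a)) := by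
    have := hle (4 * r) (256 * (2 ^ j : ℕ)) (by omega) (by omega)
    push_cast at this
    rw [← hx] at this
    refine this.trans ?_
    rw [mul_one]
    refine mul_le_mul_of_nonneg_left ?_ hC1.le
    rw [← neg_mul, Real.rpow_mul x0.le]
    refine Real.rpow_le_rpow (by positivity) ?_ ha.le
    rw [div_le_iff₀ (by positivity)]
    nlinarith [Real.rpow_pos_of_pos x0 (-η)]
  have u2 : p' ≤ C1 * (256 : ℝ) ^ a * x ^ (-(η * a)) := by
    have := hle (256 * (2 ^ j : ℕ)) R (by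
      have : 1 ≤ 2 ^ j := Nat.one_le_two_pow
      omega) (by omega)
    push_cast at this
    rw [← hx] at this
    refine this.trans ?_
    rw [mul_assoc]
    refine mul_le_mul_of_nonneg_left ?_ hC1.le
    rw [← neg_mul, Real.rpow_mul x0.le, ← Real.mul_rpow (by norm_num) (by positivity)]
    refine Real.rpow_le_rpow (by positivity) ?_ ha.le
    rw [div_le_iff₀ R0]
    have h3 : x ^ (-η) * (x * x ^ η) = x := by
      rw [← mul_assoc, mul_comm (x ^ (-η)) x, mul_assoc, ← Real.rpow_add x0, neg_add_cancel,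
        Real.rpow_zero, mul_one]
    have h4 := mul_le_mul_of_nonneg_left hRx (Real.rpow_pos_of_pos x0 (-η)).le
    rw [h3] at h4
    nlinarith
  -- four arms
  have f1 : (nu hf).real (A4 e (4 * (2 ^ j : ℕ))) ≤ K * N := by
    have := hsep hf j (hRS _) e he
    have e2 : ((2 : ℤ) ^ (j + 2)) = 4 * ((2 ^ j : ℕ) : ℤ) := by
      push_cast; rw [pow_add]; ring
    rw [e2] at this
    exact this
  have f0 : 0 ≤ (nu hf).real (A4 e (4 * (2 ^ j : ℕ))) := measureReal_nonneg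
  -- the bad set
  have g1 : (nu hf).real (BadS e (2 ^ j) r R) ≤
      (Cb * K / cm * (C1 * 1 + C1 * (256 : ℝ) ^ a)) * x ^ (-(η * a)) * M := by
    have h2 := hbad e (2 ^ j) r R he Nat.one_le_two_pow hr hrm hR
    have h3 : (nu hf).real (BadS e (2 ^ j) r R) ≤
        Cb * ((K * N) * (p * p' * (C1 * 1 * x ^ (-(η * a)) + C1 * (256 : ℝ) ^ a * x ^ (-(η * a))))) := by
      refine h2.trans (mul_le_mul_of_nonneg_left ?_ hCb.le)
      refine mul_le_mul f1 ?_ (by positivity) (by positivity)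
      exact mul_le_mul_of_nonneg_left (add_le_add u1 u2) (by positivity)
    refine h3.trans ?_
    have h4 : N * (p * p') ≤ M / cm := by
      rw [le_div_iff₀ hcm, mul_comm]
      exact hM
    have h5 : 0 ≤ Cb * K * (C1 * 1 * x ^ (-(η * a)) + C1 * (256 : ℝ) ^ a * x ^ (-(η * a))) := by
      positivity
    calc Cb * ((K * N) * (p * p' * (C1 * 1 * x ^ (-(η * a)) + C1 * (256 : ℝ) ^ a * x ^ (-(η * a)))))
        = Cb * K * (C1 * 1 * x ^ (-(η * a)) + C1 * (256 : ℝ) ^ a * x ^ (-(η * a))) *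
            (N * (p * p')) := by ring
      _ ≤ Cb * K * (C1 * 1 * x ^ (-(η * a)) + C1 * (256 : ℝ) ^ a * x ^ (-(η * a))) *
            (M / cm) := mul_le_mul_of_nonneg_left h4 h5
      _ = _ := by ring
  -- polynomial lower bound
  have g2 : cm * (cn * (c1 * 4 * c1)) * x ^ (-(Kn + A)) ≤ M := by
    refine le_trans ?_ hM
    have h2 : cn * x ^ (-Kn) ≤ N := hpoly e j he
    have h3 : x ^ (-A) ≤ (r : ℝ) / R := by
      rw [Real.rpow_neg x0.le, le_div_iff₀ R0]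
      have h5 : (x ^ A)⁻¹ * R ≤ 1 := by
        rw [inv_mul_le_iff₀ (by positivity), mul_one]
        exact hRA
      linarith
    have h4 : cn * x ^ (-Kn) * (c1 * 4 * c1 * x ^ (-A)) ≤ N * (p * p') :=
      mul_le_mul h2 ((mul_le_mul_of_nonneg_left h3 (by positivity)).trans q3) (by positivity) hN0
    refine le_trans (le_of_eq ?_) (mul_le_mul_of_nonneg_left h4 hcm.le)
    rw [neg_add, Real.rpow_add x0]
    ring
  refine ⟨hj M _ measureReal_nonneg g2 g1, ?_, g2⟩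
  · refine le_trans ?_ hM
    have h2 : K⁻¹ * (nu hf).real (A4 e (4 * (2 ^ j : ℕ))) ≤ N := by
      rw [inv_mul_le_iff₀ hK]
      exact f1
    have h4 : K⁻¹ * (nu hf).real (A4 e (4 * (2 ^ j : ℕ))) * (c1 * 4 * c1 * ((r : ℝ) / R)) ≤
        N * (p * p') := mul_le_mul h2 q3 (by positivity) hN0
    refine le_trans (le_of_eq ?_) (mul_le_mul_of_nonneg_left h4 hcm.le)
    ring

end Crest.Agent.R158.Mc468
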