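import Crest.Agent.R158.Mc7_468
import Crest.Agent.R158.Lb6_841

/-!
# R158, leaf LB3 of doc 1912: closing (helper468)

* `arith_lb : Lb841.Arith`
* `lb3 : Lb841.LB3` — the lower bound of identity C, with no open input
-/

set_option autoImplicit false

noncomputable section

namespace Crest.Agent.R158.Mc468

open Crest.Agent.R161.Geo729 Crest.Agent.R161.Dual374
open Crest.Agent.R161.Tas682 (sd)
open Crest.Agent.R158.It200 Crest.Agent.R158.Wf850
open Crest.Agent.R158.Rs689 (nu hf)
open Real Function MeasureTheory Filter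

/-- **the arithmetic of LB3** -/
theorem arith_lb : Lb841.Arith := by
  intro ε hε
  obtain ⟨τ0, h1, h2, h3⟩ := arith841 ε hε
  refine ⟨τ0, h1, h2, fun τ hτ hτ0 => ?_⟩
  obtain ⟨δ, h4, h5, h6⟩ := h3 τ hτ hτ0
  refine ⟨δ, h4, h5, fun C hC => ?_⟩
  filter_upwards [h6 C hC] with j hj
  exact hj

/-- **LB3** : the lower bound of identity C, complete -/
theorem lb3 : Lb841.LB3 := Lb841.lb3_of arith_lb

end Crest.Agent.R158.Mc468
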