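import Crest.Agent.R158.Mc2_468
import Crest.Agent.R158.Cpl2_963
import Crest.Agent.R158.Wf0_850

/-!
# Row 158, Block A4 / D (helper468), part 1: two nice two-arm points on the same strand

* `dO b`, `dD b` : exit directions of the open and the dual arm (`b = true` : open east, dual west)
* `NP2 m b`, `ND2 m f b`, `N2 m f b` : nice two arms at the origin (580's gates)
* `dep_shift`, `dual_shift` : translations
* `Tb m b` : tube joining the exits of the points `0` and `(0, 256 m)` on the side `b`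
-/

set_option autoImplicit false

noncomputable section

namespace Crest.Agent.R158.Mc468

open MeasureTheory ProbabilityTheory unitInterval
open Crest.Agent.R161.Geo729 Crest.Agent.R161.Topo374 Crest.Agent.R161.Dual374
open Crest.Agent.R161.Tas682 Crest.Agent.R161.Ring421 Crest.Agent.R161.Sym597
open Crest.Agent.R161.Ifc372 Crest.Agent.R161.Hull374 Crest.Agent.R161.Ann374
open Crest.Agent.R158.It200 (OCl DCl Lp fc Corner)
open Crest.Agent.R158.Qm522 Crest.Agent.R158.Rs689
open Crest.Agent.R158.Ru874 Crest.Agent.R158.Sp580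
open Crest.Agent.R158.Cpl963 (OC_shift_iff)

/-! ### same strand -/

/-- two corners with the same open cluster and the same dual cluster lie on the same strand -/
theorem same_strand {z : Cfz} {s e : Corner} (hfin : (Lp z s).Finite) (hv : e.1 ∈ OCl z s.1)
    (hf : fc e ∈ DCl z (fc s)) : e ∈ Lp z s := by
  obtain ⟨A, hA, hAf⟩ := Wf850.exists_int hfin
  have h1 : Wf850.sepC A s := (Wf850.sep_iff hfin hAf s).2 (It200.mem_Lp_self z s)
  have h2 : Wf850.cv s ∈ A ↔ Wf850.cv e ∈ A := Wf850.lps_cl hA ⟨rfl, Or.inl ⟨rfl, hv⟩⟩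
  have h3 : Wf850.cf s ∈ A ↔ Wf850.cf e ∈ A := Wf850.lps_cl hA ⟨rfl, Or.inr ⟨rfl, hf⟩⟩
  rw [← Wf850.sep_iff hfin hAf e]
  unfold Wf850.sepC at h1 ⊢
  rw [← h2, ← h3]
  exact h1

/-! ### translations -/

theorem dual_shift (a : P2) (z : Cfz) : dual (shiftZ a z) = shiftZ a (dual z) := by
  funext e
  obtain ⟨⟨i, j⟩, c⟩ := e
  obtain ⟨a1, a2⟩ := a
  cases c
  · show (!z ((i + 1 + a1, j + a2), true)) = !z ((i + a1 + 1, j + a2), true)
    rw [show i + 1 + a1 = i + a1 + 1 by ring]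
  · show (!z ((i + a1, j + 1 + a2), false)) = !z ((i + a1, j + a2 + 1), false)
    rw [show j + 1 + a2 = j + a2 + 1 by ring]

theorem dep_shift {S : Finset Edge} {A : Set Cfz} (hA : Dep S A) (a : P2) :
    Dep (S.map (shE a).toEmbedding) (shiftZ a ⁻¹' A) := by
  intro z z' h
  refine hA _ _ fun e he => ?_
  exact h (shE a e) (Finset.mem_map.2 ⟨e, he, rfl⟩)

theorem inc_shift {A : Set Cfz} (hA : Inc A) (a : P2) : Inc (shiftZ a ⁻¹' A) :=
  fun _ _ h hz => hA _ _ (fun _ he => h _ he) hz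

theorem decr_shift {A : Set Cfz} (hA : Decr A) (a : P2) : Decr (shiftZ a ⁻¹' A) :=
  fun _ _ h hz => hA _ _ (fun _ he => h _ he) hz

theorem prob_shift {A : Set Cfz} (hA : MeasurableSet A) (a : P2) :
    (nu hf).real (shiftZ a ⁻¹' A) = (nu hf).real A := by
  have ht := tInv hf a
  conv_rhs => rw [← ht]
  rw [measureReal_def, measureReal_def, Measure.map_apply (measurable_shiftZ a) hA]

/-! ### nice two arms -/

/-- direction of the open arm -/
def dO (b : Bool) : Fin 4 := if b then 0 else 2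

/-- direction of the dual arm -/
def dD (b : Bool) : Fin 4 := if b then 2 else 0

/-- open part -/
def NP2 (m : ℕ) (b : Bool) : Set Cfz := {z | GArm z (dO b) m (0, 0)}

/-- dual part -/
def ND2 (m : ℕ) (f : P2) (b : Bool) : Set Cfz := {z | GArm (dual z) (dD b) m f}

/-- nice two arms of the vertex `(0,0)` and the face `f` -/
def N2 (m : ℕ) (f : P2) (b : Bool) : Set Cfz := NP2 m b ∩ ND2 m f b

/-- support -/
def VS (d : Fin 4) (m : ℕ) : Set P2 := Sq (16 * m) ∪ Corr d m

theorem VS_finite (d : Fin 4) (m : ℕ) : (VS d m).Finite :=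
  (Sq_finite _).union ((Sq_finite _).subset (Corr_sub d m))

theorem dep_garm (d : Fin 4) (m : ℕ) (u : P2) : Dep (edF (VS d m)) {z : Cfz | GArm z d m u} :=
  fun _ _ h => garm_iff (VS_finite d m) subset_rfl h

theorem dep_NP2 (m : ℕ) (b : Bool) : Dep (edF (VS (dO b) m)) (NP2 m b) := dep_garm _ _ _

theorem dep_ND2 (m : ℕ) (f : P2) (b : Bool) :
    Dep ((edF (VS (dD b) m)).map dE.symm.toEmbedding) (ND2 m f b) := (dep_garm _ _ _).dual

theorem inc_NP2 (m : ℕ) (b : Bool) : Inc (NP2 m b) := fun _ _ h hz => GArm.mono h hz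

theorem decr_ND2 (m : ℕ) (f : P2) (b : Bool) : Decr (ND2 m f b) := fun _ _ h hz =>
  GArm.mono (dual_anti h) hz

/-! ### gates at a translate -/

theorem garm_E {z : Cfz} {a : P2} {m : ℕ} {u p q : P2} {X : ℤ} (hu : GArm (shiftZ a z) 0 m u)
    (h : OC z (Rect (a.1 + 20 * m) (a.1 + X) (a.2 - 4 * m) (a.2 + 4 * m)) p q)
    (hp : p.1 = a.1 + 20 * m) (hq : q.1 = a.1 + X) (hX : 32 * (m : ℤ) ≤ X) :
    Rch z (u + a) p := by
  have h1 : OC (shiftZ a z) (Rect (20 * m) X (-(4 * m)) (4 * m)) (p - a) (q - a) := by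
    rw [OC_shift_iff, sub_add_cancel, sub_add_cancel]
    refine h.monoS fun w hw => ?_
    rw [mem_rect] at hw
    show w - a ∈ Rect _ _ _ _
    rw [mem_rect, Prod.fst_sub, Prod.snd_sub]
    omega
  have h2 := gateE hu h1 (by rw [Prod.fst_sub]; omega) (by rw [Prod.fst_sub]; omega) hX
  have h3 := rch_shift a h2
  rwa [sub_add_cancel] at h3

theorem garm_W {z : Cfz} {a : P2} {m : ℕ} {u p q : P2} {X : ℤ} (hu : GArm (shiftZ a z) 2 m u)
    (h : OC z (Rect (a.1 + X) (a.1 - 20 * m) (a.2 - 4 * m) (a.2 + 4 * m)) p q)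
    (hp : p.1 = a.1 + X) (hq : q.1 = a.1 - 20 * m) (hX : X ≤ -(32 * (m : ℤ))) :
    Rch z (u + a) p := by
  have h1 : OC (shiftZ a z) (Rect X (-(20 * m)) (-(4 * m)) (4 * m)) (p - a) (q - a) := by
    rw [OC_shift_iff, sub_add_cancel, sub_add_cancel]
    refine h.monoS fun w hw => ?_
    rw [mem_rect] at hw
    show w - a ∈ Rect _ _ _ _
    rw [mem_rect, Prod.fst_sub, Prod.snd_sub]
    omega
  have h2 := gateW hu h1 (by rw [Prod.fst_sub]; omega) (by rw [Prod.fst_sub]; omega) hX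
  have h3 := rch_shift a h2
  rwa [sub_add_cancel] at h3

/-! ### the tubes -/

/-- tube joining the exits at `0` and at `(0, 256 m)`, east (`b = true`) or west -/
def Tb (m : ℕ) (b : Bool) : Set Cfz :=
  if b then
    {z | LRc z (20 * m) (128 * m) (-(4 * m)) (4 * m)} ∩
      ({z | BTc z (64 * m) (128 * m) (-(4 * m)) (260 * m)} ∩
        {z | LRc z (20 * m) (128 * m) (252 * m) (260 * m)})
  else
    {z | LRc z (-(128 * m)) (-(20 * m)) (-(4 * m)) (4 * m)} ∩
      ({z | BTc z (-(128 * m)) (-(64 * m)) (-(4 * m)) (260 * m)} ∩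
        {z | LRc z (-(128 * m)) (-(20 * m)) (252 * m) (260 * m)})

/-- support of the tube -/
def VT (m : ℕ) (b : Bool) : Set P2 :=
  if b then Rect (20 * m) (128 * m) (-(4 * m)) (260 * m)
  else Rect (-(128 * m)) (-(20 * m)) (-(4 * m)) (260 * m)

theorem VT_finite (m : ℕ) (b : Bool) : (VT m b).Finite := by
  cases b
  · exact rect_finite _ _ _ _
  · exact rect_finite _ _ _ _

/-- the second point -/
def y2 (m : ℕ) : P2 := (0, 256 * (m : ℤ))

theorem tube_link {z : Cfz} {m : ℕ} {b : Bool} {u u' : P2} (hz : z ∈ Tb m b)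
    (h : GArm z (dO b) m u) (h' : GArm (shiftZ (y2 m) z) (dO b) m u') : Rch z u (u' + y2 m) := by
  cases b
  · obtain ⟨⟨a1, b1, ha1, hb1, h1⟩, ⟨a2, b2, ha2, hb2, h2⟩, ⟨a3, b3, ha3, hb3, h3⟩⟩ := hz
    have g1 := gateW h h1 ha1 hb1 (by omega)
    have g2 := garm_W (X := -(128 * m)) h' (p := a3) (q := b3) (h3.monoS (fun w hw => by
      rw [mem_rect] at hw ⊢; simp only [y2]; omega)) (by simp only [y2]; omega)
      (by simp only [y2]; omega) (by omega)
    obtain ⟨w1, p1, q1⟩ := glue h1 h2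
      (by rintro w ⟨k1, k2, k3, k4⟩; constructor <;> omega)
      (by rintro w ⟨k1, k2, k3, k4⟩; constructor <;> omega)
    obtain ⟨w2, p2, q2⟩ := glue h3 h2
      (by rintro w ⟨k1, k2, k3, k4⟩; constructor <;> omega)
      (by rintro w ⟨k1, k2, k3, k4⟩; constructor <;> omega)
    exact (((((g1.trans (OC.rch p1)).trans (rch_symm (OC.rch q1))).trans (OC.rch q2)).trans
      (rch_symm (OC.rch p2)))).trans (rch_symm g2)
  · obtain ⟨⟨a1, b1, ha1, hb1, h1⟩, ⟨a2, b2, ha2, hb2, h2⟩, ⟨a3, b3, ha3, hb3, h3⟩⟩ := hz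
    have g1 := gateE h h1 ha1 hb1 (by omega)
    have g2 := garm_E (X := 128 * m) h' (p := a3) (q := b3) (h3.monoS (fun w hw => by
      rw [mem_rect] at hw ⊢; simp only [y2]; omega)) (by simp only [y2]; omega)
      (by simp only [y2]; omega) (by omega)
    obtain ⟨w1, p1, q1⟩ := glue h1 h2
      (by rintro w ⟨k1, k2, k3, k4⟩; constructor <;> omega)
      (by rintro w ⟨k1, k2, k3, k4⟩; constructor <;> omega)
    obtain ⟨w2, p2, q2⟩ := glue h3 h2
      (by rintro w ⟨k1, k2, k3, k4⟩; constructor <;> omega)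
      (by rintro w ⟨k1, k2, k3, k4⟩; constructor <;> omega)
    exact (((((g1.trans (OC.rch p1)).trans (rch_symm (OC.rch q1))).trans (OC.rch q2)).trans
      (rch_symm (OC.rch p2)))).trans (rch_symm g2)

theorem Tb_ge : ∃ c : ℝ, 0 < c ∧ ∀ (m : ℕ) (b : Bool), 1 ≤ m → GE (edF (VT m b)) c (Tb m b) := by
  obtain ⟨c, hc, _, h⟩ := rsw_rect 14
  refine ⟨c * (c * c), by positivity, fun m b hm => ?_⟩
  have fin := VT_finite m b
  cases b
  · have e1 := (lr_ge hc.le (x0 := -(128 * m)) (x1 := -(20 * m)) (y0 := -(4 * m)) (y1 := 4 * m)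
      (h _ _ (by omega) (by omega) (by omega))).mono (edF_sub fin (fun v hv => by
        show v ∈ Rect _ _ _ _
        rw [mem_rect] at hv ⊢; omega))
    have e2 := (bt_ge hc.le (x0 := -(128 * m)) (x1 := -(64 * m)) (y0 := -(4 * m)) (y1 := 260 * m)
      (h _ _ (by omega) (by omega) (by omega))).mono (edF_sub fin (fun v hv => by
        show v ∈ Rect _ _ _ _
        rw [mem_rect] at hv ⊢; omega))
    have e3 := (lr_ge hc.le (x0 := -(128 * m)) (x1 := -(20 * m)) (y0 := 252 * m) (y1 := 260 * m)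
      (h _ _ (by omega) (by omega) (by omega))).mono (edF_sub fin (fun v hv => by
        show v ∈ Rect _ _ _ _
        rw [mem_rect] at hv ⊢; omega))
    exact e1.inter (e2.inter e3)
  · have e1 := (lr_ge hc.le (x0 := 20 * m) (x1 := 128 * m) (y0 := -(4 * m)) (y1 := 4 * m)
      (h _ _ (by omega) (by omega) (by omega))).mono (edF_sub fin (fun v hv => by
        show v ∈ Rect _ _ _ _
        rw [mem_rect] at hv ⊢; omega))
    have e2 := (bt_ge hc.le (x0 := 64 * m) (x1 := 128 * m) (y0 := -(4 * m)) (y1 := 260 * m)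
      (h _ _ (by omega) (by omega) (by omega))).mono (edF_sub fin (fun v hv => by
        show v ∈ Rect _ _ _ _
        rw [mem_rect] at hv ⊢; omega))
    have e3 := (lr_ge hc.le (x0 := 20 * m) (x1 := 128 * m) (y0 := 252 * m) (y1 := 260 * m)
      (h _ _ (by omega) (by omega) (by omega))).mono (edF_sub fin (fun v hv => by
        show v ∈ Rect _ _ _ _
        rw [mem_rect] at hv ⊢; omega))
    exact e1.inter (e2.inter e3)

end Crest.Agent.R158.Mc468
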