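import Crest.Agent.R158.Mg2_949

/-!
# Row 158 (helper949): macro geometry of `D^(z)`, 3: boundary points near a flat point

* `ja P j`, `jb P j` : first and last marked edge of the arc `j`
* `edge_close` : a boundary point at sup distance `< min t (1 - t)` from the point `t` of an edge lies
  on this edge
* **`near_arc`**, **`near_idx`** : walk vertices near a flat point of the arc `j` have indices strictly
  inside `[ja L, jb L]`
* **`wU_arcT`** : indices in `[a L, b L]` give lattice points of the edges `a, ..., b`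
* `pt_tile`, `WD.at_tile`, `WD.gap_tile` : tiles and faces of the free ends and gaps
-/

set_option autoImplicit false
set_option linter.unusedVariables false

noncomputable section

namespace Crest.Agent.R158.Mg949

open Crest.Agent.R158.Sw300 (Port Wd L Ok)
open Crest.Agent.R158.Env664
open Crest.Agent.R158.Sp896 (V Adj Cyc Con lc rc)
open Crest.Agent.R158.Bl802 (sv sv_mk nN)
open Crest.Agent.R158.Tj656
open Crest.Agent.R158.Cb771 (off)

/-! ### distances of lattice edges -/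

theorem near_int {a c : ℤ} {r : ℝ} (hr : r ≤ 1) (h : |(c : ℝ) - a| < r) : c = a := by
  rw [abs_lt] at h
  have h1 : (c : ℝ) < a + 1 := by linarith
  have h2 : (a : ℝ) < c + 1 := by linarith
  have h3 : c < a + 1 := by exact_mod_cast h1
  have h4 : a < c + 1 := by exact_mod_cast h2
  omega

theorem near_0d {a c s : ℤ} (hs : s = 1 ∨ s = -1) {t : ℝ}
    (h : |(c : ℝ) - (a + t * s)| < min t (1 - t)) : False := by
  have m1 := min_le_left t (1 - t)
  have m2 := min_le_right t (1 - t)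
  rw [abs_lt] at h
  rcases hs with rfl | rfl
  · push_cast at h
    have h1 : (a : ℝ) < c := by linarith
    have h2 : (c : ℝ) < a + 1 := by linarith
    have h3 : a < c := by exact_mod_cast h1
    have h4 : c < a + 1 := by exact_mod_cast h2
    omega
  · push_cast at h
    have h1 : (c : ℝ) < a := by linarith
    have h2 : (a : ℝ) < c + 1 := by linarith
    have h3 : c < a := by exact_mod_cast h1
    have h4 : a < c + 1 := by exact_mod_cast h2
    omega

theorem near_1d {a c s s' : ℤ} (hs : s = 1 ∨ s = -1) (hs' : s' = 1 ∨ s' = -1) {t τ : ℝ}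
    (g0 : 0 ≤ τ) (g1 : τ ≤ 1) (h : |((c : ℝ) + τ * s') - (a + t * s)| < min t (1 - t)) :
    (s' = s ∧ c = a) ∨ (s' = -s ∧ c = a + s) := by
  have m1 := min_le_left t (1 - t)
  have m2 := min_le_right t (1 - t)
  rw [abs_lt] at h
  rcases hs with rfl | rfl <;> rcases hs' with rfl | rfl <;> push_cast at h
  · have h1 : (a : ℝ) < c + 1 := by linarith
    have h2 : (c : ℝ) < a + 1 := by linarith
    have h3 : a < c + 1 := by exact_mod_cast h1
    have h4 : c < a + 1 := by exact_mod_cast h2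
    left; omega
  · have h1 : (a : ℝ) < c := by linarith
    have h2 : (c : ℝ) < a + 2 := by linarith
    have h3 : a < c := by exact_mod_cast h1
    have h4 : c < a + 2 := by exact_mod_cast h2
    right; omega
  · have h1 : (c : ℝ) < a := by linarith
    have h2 : (a : ℝ) < c + 2 := by linarith
    have h3 : c < a := by exact_mod_cast h1
    have h4 : a < c + 2 := by exact_mod_cast h2
    right; omega
  · have h1 : (a : ℝ) < c + 1 := by linarith
    have h2 : (c : ℝ) < a + 1 := by linarith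
    have h3 : a < c + 1 := by exact_mod_cast h1
    have h4 : c < a + 1 := by exact_mod_cast h2
    left; omega

theorem ept_re (v : ℕ → V) (m : ℕ) (t : ℝ) :
    (ept v m t).re = (v m).1 + t * ((v (m + 1)).1 - (v m).1) := by
  unfold ept
  rw [Complex.add_re, Complex.re_ofReal_mul, Complex.sub_re, pt_re, pt_re]
  ring

theorem ept_im (v : ℕ → V) (m : ℕ) (t : ℝ) :
    (ept v m t).im = (v m).2 + t * ((v (m + 1)).2 - (v m).2) := by
  unfold ept
  rw [Complex.add_im, Complex.im_ofReal_mul, Complex.sub_im, pt_im, pt_im]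
  ring

/-- step vectors -/
theorem adj_vec {a b : V} (h : Adj a b) : ∃ s : ℤ, (s = 1 ∨ s = -1) ∧
    ((b = (a.1 + s, a.2)) ∨ (b = (a.1, a.2 + s))) := by
  obtain ⟨b1, b2⟩ := b
  rcases h with ⟨h1, h2⟩ | ⟨h1, h2⟩ | ⟨h1, h2⟩ | ⟨h1, h2⟩
  · exact ⟨1, Or.inl rfl, Or.inl (Prod.ext h1 h2)⟩
  · exact ⟨-1, Or.inr rfl, Or.inl (Prod.ext h1 h2)⟩
  · exact ⟨1, Or.inl rfl, Or.inr (Prod.ext h1 h2)⟩
  · exact ⟨-1, Or.inr rfl, Or.inr (Prod.ext h1 h2)⟩

/-- **a boundary point close to an inner point of an edge lies on this edge** -/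
theorem edge_close {N : ℕ} {F : Set V} {v : ℕ → V} (h : Cyc F N v) {k m : ℕ} {t τ : ℝ} (h0 : 0 < t)
    (h1 : t < 1) (g0 : 0 ≤ τ) (g1 : τ ≤ 1) {r : ℝ} (hr : r ≤ min t (1 - t))
    (hre : |(ept v k τ).re - (ept v m t).re| < r) (him : |(ept v k τ).im - (ept v m t).im| < r) :
    v k = v m ∧ |τ - t| < r := by
  have m1 := min_le_left t (1 - t)
  have hrev : ¬ (v k = v (m + 1) ∧ v (k + 1) = v m) := by
    rintro ⟨e1, e2⟩
    have h2 := h.left k
    rw [e1, e2, (Bl802.adj_rev (h.step m)).1] at h2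
    exact h.right m h2
  obtain ⟨s, hs, hB⟩ := adj_vec (h.step m)
  obtain ⟨s', hs', hE⟩ := adj_vec (h.step k)
  rw [ept_re, ept_re] at hre
  rw [ept_im, ept_im] at him
  have fin : ∀ {d : ℝ}, (s : ℝ) = d ∨ (s : ℝ) = -d → (d = 1) → ∀ x : ℝ, |x * s| < r → |x| < r := by
    rintro d (e | e) rfl x hx
    · rwa [e, mul_one] at hx
    · rwa [e, mul_neg, mul_one, abs_neg] at hx
  have hsr : (s : ℝ) = 1 ∨ (s : ℝ) = -1 := by
    rcases hs with rfl | rfl
    · left; norm_num
    · right; norm_num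
  rcases hB with hB | hB <;> rcases hE with hE | hE
  · -- both horizontal
    have e1 : (((v (m + 1)).1 : ℝ) - (v m).1) = s := by rw [hB]; push_cast; ring
    have e2 : (((v (m + 1)).2 : ℝ) - (v m).2) = 0 := by rw [hB]; ring
    have e3 : (((v (k + 1)).1 : ℝ) - (v k).1) = s' := by rw [hE]; push_cast; ring
    have e4 : (((v (k + 1)).2 : ℝ) - (v k).2) = 0 := by rw [hE]; ring
    rw [e1, e3] at hre
    rw [e2, e4, mul_zero, mul_zero, add_zero, add_zero] at him
    have i2 := near_int (by linarith : r ≤ 1) him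
    rcases near_1d hs hs' g0 g1 (hre.trans_le hr) with ⟨i0, i1⟩ | ⟨i0, i1⟩
    · refine ⟨Prod.ext i1 i2, ?_⟩
      refine fin hsr rfl (τ - t) ?_
      rw [i1, i0] at hre
      convert hre using 2; ring
    · exfalso
      apply hrev
      rw [hB, hE]
      refine ⟨Prod.ext i1 i2, Prod.ext ?_ i2⟩
      simp only; omega
  · exfalso
    have e1 : (((v (m + 1)).1 : ℝ) - (v m).1) = s := by rw [hB]; push_cast; ring
    have e3 : (((v (k + 1)).1 : ℝ) - (v k).1) = 0 := by rw [hE]; ring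
    rw [e1, e3, mul_zero, add_zero] at hre
    exact near_0d hs (hre.trans_le hr)
  · exfalso
    have e1 : (((v (m + 1)).2 : ℝ) - (v m).2) = s := by rw [hB]; push_cast; ring
    have e3 : (((v (k + 1)).2 : ℝ) - (v k).2) = 0 := by rw [hE]; ring
    rw [e1, e3, mul_zero, add_zero] at him
    exact near_0d hs (him.trans_le hr)
  · have e1 : (((v (m + 1)).2 : ℝ) - (v m).2) = s := by rw [hB]; push_cast; ring
    have e2 : (((v (m + 1)).1 : ℝ) - (v m).1) = 0 := by rw [hB]; ring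
    have e3 : (((v (k + 1)).2 : ℝ) - (v k).2) = s' := by rw [hE]; push_cast; ring
    have e4 : (((v (k + 1)).1 : ℝ) - (v k).1) = 0 := by rw [hE]; ring
    rw [e1, e3] at him
    rw [e2, e4, mul_zero, mul_zero, add_zero, add_zero] at hre
    have i2 := near_int (by linarith : r ≤ 1) hre
    rcases near_1d hs hs' g0 g1 (him.trans_le hr) with ⟨i0, i1⟩ | ⟨i0, i1⟩
    · refine ⟨Prod.ext i2 i1, ?_⟩
      refine fin hsr rfl (τ - t) ?_
      rw [i1, i0] at him
      convert him using 2; ring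
    · exfalso
      apply hrev
      rw [hB, hE]
      refine ⟨Prod.ext i2 i1, Prod.ext i2 ?_⟩
      simp only; omega

/-! ### arcs -/

/-- first marked edge of the arc `j` -/
def ja (P : P4) (j : Fin 4) : ℕ := ![0, P.mb, P.mc, P.md] j

/-- last marked edge of the arc `j` -/
def jb (P : P4) (j : Fin 4) : ℕ := ![P.mb, P.mc, P.md, P.N] j

@[simp] theorem ja_0 (P : P4) : ja P 0 = 0 := rfl
@[simp] theorem ja_1 (P : P4) : ja P 1 = P.mb := rfl
@[simp] theorem ja_2 (P : P4) : ja P 2 = P.mc := rfl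
@[simp] theorem ja_3 (P : P4) : ja P 3 = P.md := rfl
@[simp] theorem jb_0 (P : P4) : jb P 0 = P.mb := rfl
@[simp] theorem jb_1 (P : P4) : jb P 1 = P.mc := rfl
@[simp] theorem jb_2 (P : P4) : jb P 2 = P.md := rfl
@[simp] theorem jb_3 (P : P4) : jb P 3 = P.N := rfl

theorem jb_le (P : P4) (j : Fin 4) : jb P j ≤ P.N := by
  have := P.h1; have := P.h2; have := P.h3; have := P.h4
  fin_cases j
  · show P.mb ≤ P.N; omega
  · show P.mc ≤ P.N; omega
  · show P.md ≤ P.N; omega
  · show P.N ≤ P.N; omega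

theorem v_N (P : P4) : P.v P.N = P.v 0 := by
  have := P.cyc.per 0; rwa [zero_add] at this

theorem v_N1 (P : P4) : P.v (P.N + 1) = P.v 1 := by
  have := P.cyc.per 1; rwa [add_comm] at this

/-- normal form of a flat point -/
theorem hA_norm {P : P4} {j : Fin 4} {b : ℂ} (hb : b ∈ P.hA j) : ∃ (m : ℕ) (t : ℝ), 0 < t ∧ t < 1 ∧
    m ≤ P.N ∧ b = ept P.v m t ∧ (ja P j : ℝ) + 1 / 2 < m + t ∧ (m : ℝ) + t < jb P j + 1 / 2 := by
  obtain ⟨m, t, h0, h1, hon, rfl⟩ := hb
  have q1 := P.h1; have q2 := P.h2; have q3 := P.h3; have q4 := P.h4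
  have gen : ∀ a c : ℕ, c ≤ P.N → a < c →
      ((a < m ∧ m < c) ∨ (m = a ∧ 1 / 2 < t) ∨ (m = c ∧ t < 1 / 2)) →
      m ≤ P.N ∧ (a : ℝ) + 1 / 2 < m + t ∧ (m : ℝ) + t < c + 1 / 2 := by
    rintro a c hc hac (⟨e1, e2⟩ | ⟨e1, e2⟩ | ⟨e1, e2⟩)
    · have f1 : (a : ℝ) + 1 ≤ m := by exact_mod_cast e1
      have f2 : (m : ℝ) + 1 ≤ c := by exact_mod_cast e2
      exact ⟨by omega, by linarith, by linarith⟩
    · have f2 : (a : ℝ) + 1 ≤ c := by exact_mod_cast hac
      rw [e1]
      exact ⟨by omega, by linarith, by linarith⟩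
    · have f2 : (a : ℝ) + 1 ≤ c := by exact_mod_cast hac
      rw [e1]
      exact ⟨by omega, by linarith, by linarith⟩
  unfold P4.on at hon
  by_cases j0 : j = 0
  · subst j0
    rw [if_pos rfl] at hon
    obtain ⟨a1, a2, a3⟩ := gen 0 P.mb (by omega) (by omega) hon
    exact ⟨m, t, h0, h1, a1, rfl, a2, a3⟩
  rw [if_neg j0] at hon
  by_cases j1 : j = 1
  · subst j1
    rw [if_pos rfl] at hon
    obtain ⟨a1, a2, a3⟩ := gen P.mb P.mc (by omega) (by omega) hon
    exact ⟨m, t, h0, h1, a1, rfl, a2, a3⟩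
  rw [if_neg j1] at hon
  by_cases j2 : j = 2
  · subst j2
    rw [if_pos rfl] at hon
    obtain ⟨a1, a2, a3⟩ := gen P.mc P.md (by omega) (by omega) hon
    exact ⟨m, t, h0, h1, a1, rfl, a2, a3⟩
  rw [if_neg j2] at hon
  have j3 : j = 3 := by
    revert j0 j1 j2; revert j; decide
  subst j3
  rcases hon with e | e | ⟨e1, e2⟩
  · obtain ⟨a1, a2, a3⟩ := gen P.md P.N (by omega) (by omega) (Or.inl e)
    exact ⟨m, t, h0, h1, a1, rfl, a2, a3⟩
  · obtain ⟨a1, a2, a3⟩ := gen P.md P.N (by omega) (by omega) (Or.inr (Or.inl e))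
    exact ⟨m, t, h0, h1, a1, rfl, a2, a3⟩
  · refine ⟨P.N, t, h0, h1, le_rfl, ?_, ?_, ?_⟩
    · unfold ept
      rw [v_N, v_N1, e1]
    · have : (P.md : ℝ) + 1 ≤ P.N := by exact_mod_cast q4
      show (P.md : ℝ) + 1 / 2 < P.N + t
      linarith
    · show (P.N : ℝ) + t < P.N + 1 / 2
      linarith

/-! ### the walk near a flat point -/

theorem wU_mk {P : P4} {k : ℕ} {i κ r : ℕ} (hr : r < 2 * k) (h : i + k = κ * (2 * k) + r) :
    ((wU P k i).1 : ℝ) = Lz k * (ept P.v κ (r / Lz k)).re ∧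
      ((wU P k i).2 : ℝ) = Lz k * (ept P.v κ (r / Lz k)).im := by
  have hL : (Lz k : ℝ) ≠ 0 := by
    have : 0 < Lz k := by unfold Lz; omega
    exact_mod_cast this.ne'
  have key : ∀ A B : ℝ, (Lz k : ℝ) * (A + (r : ℝ) / Lz k * (B - A)) = Lz k * A + r * (B - A) := by
    intro A B
    field_simp
  rw [ept_re, ept_im, key, key]
  unfold wU
  rw [h, sv_mk hr]
  constructor
  · rw [Int.cast_add, Int.cast_mul, Int.cast_mul, Int.cast_sub]
    norm_cast
  · rw [Int.cast_add, Int.cast_mul, Int.cast_mul, Int.cast_sub]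
    norm_cast

/-- **vertices of the walk close to a flat point** (sup distance `< ρ L`) -/
theorem near_arc (P : P4) {j : Fin 4} {b : ℂ} (hb : b ∈ P.hA j) : ∃ ρ : ℝ, 0 < ρ ∧
    ∀ k : ℕ, 0 < k → ∀ i : ℕ, i ≤ nn P k → |((wU P k i).1 : ℝ) - Lz k * b.re| < ρ * Lz k →
      |((wU P k i).2 : ℝ) - Lz k * b.im| < ρ * Lz k →
      (ja P j : ℝ) * Lz k + ρ * Lz k < i ∧ (i : ℝ) + ρ * Lz k < jb P j * Lz k := by
  obtain ⟨m, t, h0, h1, hm, rfl, ha, hb⟩ := hA_norm hb
  obtain ⟨ρ, hρ⟩ : ∃ ρ, ρ = min (min t (1 - t))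
    (min (((m : ℝ) + t - ja P j - 1 / 2) / 2) ((jb P j + 1 / 2 - m - t) / 2)) := ⟨_, rfl⟩
  have p0 : 0 < ρ := by
    rw [hρ]
    refine lt_min (lt_min h0 (by linarith)) (lt_min ?_ ?_) <;> linarith
  have p1 : ρ ≤ min t (1 - t) := by rw [hρ]; exact min_le_left _ _
  have p2 : ρ ≤ ((m : ℝ) + t - ja P j - 1 / 2) / 2 := by
    rw [hρ]; exact (min_le_right _ _).trans (min_le_left _ _)
  have p3 : ρ ≤ (jb P j + 1 / 2 - m - t) / 2 := by
    rw [hρ]; exact (min_le_right _ _).trans (min_le_right _ _)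
  refine ⟨ρ, p0, fun k hk => ?_⟩
  have hL : (0 : ℝ) < (Lz k : ℝ) := by exact_mod_cast Lz_pos hk
  have hLk : (Lz k : ℝ) = 2 * (k : ℝ) := by simp [Lz]
  have hjb : (jb P j : ℝ) ≤ P.N := by exact_mod_cast jb_le P j
  have hja : (0 : ℝ) ≤ ja P j := Nat.cast_nonneg _
  -- indices smaller than the period
  have key : ∀ i : ℕ, i < nn P k → |((wU P k i).1 : ℝ) - Lz k * (ept P.v m t).re| < ρ * Lz k →
      |((wU P k i).2 : ℝ) - Lz k * (ept P.v m t).im| < ρ * Lz k →
      (ja P j : ℝ) * Lz k + ρ * Lz k < i ∧ (i : ℝ) + ρ * Lz k < jb P j * Lz k := by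
    intro i hi e1 e2
    obtain ⟨κ, r, hr, hκ⟩ := Bl802.idx (L := 2 * k) (by omega) (i + k)
    obtain ⟨w1, w2⟩ := wU_mk (P := P) hr hκ
    obtain ⟨τ, hτ⟩ : ∃ τ : ℝ, τ = r / Lz k := ⟨_, rfl⟩
    rw [← hτ] at w1 w2
    have hrL : (r : ℝ) = τ * Lz k := by rw [hτ]; field_simp
    have g0 : 0 ≤ τ := by rw [hτ]; positivity
    have g1 : τ ≤ 1 := by
      rw [hτ, div_le_one hL, hLk]
      exact_mod_cast hr.le
    have e1' : |(ept P.v κ τ).re - (ept P.v m t).re| < ρ := by
      rw [w1, ← mul_sub, abs_mul, abs_of_pos hL, mul_comm ρ] at e1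
      exact lt_of_mul_lt_mul_left e1 hL.le
    have e2' : |(ept P.v κ τ).im - (ept P.v m t).im| < ρ := by
      rw [w2, ← mul_sub, abs_mul, abs_of_pos hL, mul_comm ρ] at e2
      exact lt_of_mul_lt_mul_left e2 hL.le
    obtain ⟨c1, c2⟩ := edge_close P.cyc h0 h1 g0 g1 p1 e1' e2'
    rw [abs_lt] at c2
    have hκN : κ ≤ P.N := by
      by_contra hc
      push Not at hc
      have h3 : (P.N + 1) * (2 * k) ≤ κ * (2 * k) := Nat.mul_le_mul_right _ hc
      have h4 : (P.N + 1) * (2 * k) = P.N * (2 * k) + 2 * k := by ring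
      unfold nn at hi
      omega
    have hir : (i : ℝ) + k = κ * (2 * k) + r := by exact_mod_cast hκ
    have hi' : (i : ℝ) = (κ + τ - 1 / 2) * Lz k := by
      have h5 : (i : ℝ) = κ * (2 * k) + r - k := by linarith
      rw [h5, hrL, hLk]
      ring
    -- the edge
    have hκm : κ = m := by
      have hper : ∀ a : ℕ, a ≤ P.N → ∃ a' < P.N, P.v a = P.v a' ∧ (a = a' ∨ (a = P.N ∧ a' = 0)) := by
        intro a ha
        rcases Nat.lt_or_ge a P.N with h5 | h5
        · exact ⟨a, h5, rfl, Or.inl rfl⟩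
        · have : a = P.N := by omega
          subst this
          exact ⟨0, by have := P.cyc.four_le; omega, v_N P, Or.inr ⟨rfl, rfl⟩⟩
      obtain ⟨κ', k1, k2, k3⟩ := hper κ hκN
      obtain ⟨m', m1, m2, m3⟩ := hper m hm
      have h6 : κ' = m' := P.cyc.inj κ' k1 m' m1 (by rw [← k2, ← m2, c1])
      rcases k3 with k3 | ⟨k3, k4⟩ <;> rcases m3 with m3 | ⟨m3, m4⟩
      · omega
      · -- κ = 0, m = N
        exfalso
        have hκ0 : κ = 0 := by omega
        subst hκ0
        have hge : (k : ℝ) ≤ r := by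
          have : k ≤ r := by omega
          exact_mod_cast this
        have h7 : 1 / 2 ≤ τ := by
          rw [hτ, le_div_iff₀ hL, hLk]; linarith
        rw [m3] at p3
        linarith
      · exfalso
        have hm0 : m = 0 := by omega
        have hlt : (r : ℝ) < k := by
          have : r < k := by
            unfold nn at hi
            rw [k3] at hκ
            omega
          exact_mod_cast this
        have h7 : τ < 1 / 2 := by
          rw [hτ, div_lt_iff₀ hL, hLk]; linarith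
        rw [hm0] at p2
        push_cast at p2
        linarith
      · omega
    rw [hκm] at hi'
    rw [hi']
    constructor
    · rw [← add_mul]
      apply mul_lt_mul_of_pos_right _ hL
      linarith
    · rw [← add_mul]
      apply mul_lt_mul_of_pos_right _ hL
      linarith
  intro i hi e1 e2
  rcases Nat.lt_or_ge i (nn P k) with h5 | h5
  · exact key i h5 e1 e2
  · exfalso
    have h6 : i = 0 + nn P k := by omega
    rw [h6, wU_per P hk] at e1 e2
    have := (key 0 (nn_pos P hk) e1 e2).1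
    have h7 : 0 < ρ * Lz k := by positivity
    have h8 : 0 ≤ (ja P j : ℝ) * Lz k := by positivity
    rw [Nat.cast_zero] at this
    linarith

/-- **(G4')** walk vertices near `z`, `z` near a flat point of the arc `j` -/
theorem near_idx (P : P4) {j : Fin 4} {b : ℂ} (hb : b ∈ P.hA j) : ∃ ρ : ℝ, 0 < ρ ∧ ∃ k0 : ℕ,
    ∀ k : ℕ, 0 < k → k0 ≤ k → ∀ x y : ℤ, ‖mpos (Lz k) x y - b‖ < ρ → ∀ Rd : ℕ,
      (Rd : ℝ) ≤ ρ * Lz k → ∀ i ≤ nn P k, |(wU P k i).1 - x| ≤ (Rd : ℤ) + 8 →
        |(wU P k i).2 - y| ≤ (Rd : ℤ) + 8 →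
        ja P j * (2 * k) + 8 ≤ i ∧ i + 8 ≤ jb P j * (2 * k) := by
  obtain ⟨ρ, hρ, h⟩ := near_arc P hb
  refine ⟨ρ / 4, by positivity, ⌈16 / ρ⌉₊ + 1, fun k hk hk0 x y hz Rd hRd i hi e1 e2 => ?_⟩
  have hL : (0 : ℝ) < (Lz k : ℝ) := by exact_mod_cast Lz_pos hk
  have hLk : (Lz k : ℝ) = 2 * (k : ℝ) := by simp [Lz]
  have hbig : 32 < ρ * Lz k := by
    have h1 : 16 / ρ ≤ ⌈16 / ρ⌉₊ := Nat.le_ceil _
    have h2 : ((⌈16 / ρ⌉₊ + 1 : ℕ) : ℝ) ≤ k := by exact_mod_cast hk0
    push_cast at h2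
    have h3 : 16 / ρ < k := by linarith
    rw [div_lt_iff₀ hρ] at h3
    rw [hLk]; nlinarith
  have n1 := (Complex.abs_re_le_norm (mpos (Lz k) x y - b)).trans_lt hz
  have n2 := (Complex.abs_im_le_norm (mpos (Lz k) x y - b)).trans_lt hz
  rw [Complex.sub_re] at n1
  rw [Complex.sub_im] at n2
  have q1 : |(x : ℝ) - Lz k * b.re| < ρ / 4 * Lz k := by
    have : (x : ℝ) - Lz k * b.re = Lz k * ((mpos (Lz k) x y).re - b.re) := by
      simp only [mpos]; field_simp
    rw [this, abs_mul, abs_of_pos hL, mul_comm]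
    exact mul_lt_mul_of_pos_right n1 hL
  have q2 : |(y : ℝ) - Lz k * b.im| < ρ / 4 * Lz k := by
    have : (y : ℝ) - Lz k * b.im = Lz k * ((mpos (Lz k) x y).im - b.im) := by
      simp only [mpos]; field_simp
    rw [this, abs_mul, abs_of_pos hL, mul_comm]
    exact mul_lt_mul_of_pos_right n2 hL
  have f1 : |((wU P k i).1 : ℝ) - x| ≤ Rd + 8 := by
    have : ((|(wU P k i).1 - x| : ℤ) : ℝ) ≤ (((Rd : ℤ) + 8 : ℤ) : ℝ) := by exact_mod_cast e1
    push_cast at this
    exact this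
  have f2 : |((wU P k i).2 : ℝ) - y| ≤ Rd + 8 := by
    have : ((|(wU P k i).2 - y| : ℤ) : ℝ) ≤ (((Rd : ℤ) + 8 : ℤ) : ℝ) := by exact_mod_cast e2
    push_cast at this
    exact this
  have g1 : |((wU P k i).1 : ℝ) - Lz k * b.re| < ρ * Lz k := by
    have := abs_sub_le ((wU P k i).1 : ℝ) x (Lz k * b.re)
    linarith
  have g2 : |((wU P k i).2 : ℝ) - Lz k * b.im| < ρ * Lz k := by
    have := abs_sub_le ((wU P k i).2 : ℝ) y (Lz k * b.im)
    linarith
  obtain ⟨r1, r2⟩ := h k hk i hi g1 g2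
  rw [hLk] at r1 r2 hbig
  constructor
  · have : ((ja P j * (2 * k) + 8 : ℕ) : ℝ) ≤ i := by push_cast; linarith
    exact_mod_cast this
  · have : ((i + 8 : ℕ) : ℝ) ≤ ((jb P j * (2 * k) : ℕ) : ℝ) := by push_cast; linarith
    exact_mod_cast this

/-- **lattice points of the arcs** -/
theorem wU_arcT (P : P4) {k : ℕ} (hk : 0 < k) {a b i : ℕ} (h1 : a * (2 * k) ≤ i)
    (h2 : i ≤ b * (2 * k)) : wU P k i ∈ arcT (Lz k) P.v a b := by
  obtain ⟨κ, r, hr, hκ⟩ := Bl802.idx (L := 2 * k) (by omega) (i + k)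
  refine ⟨κ, r, ?_, ?_, by omega, by unfold Lz; omega, ?_⟩
  · by_contra hc
    push Not at hc
    have h3 : (κ + 1) * (2 * k) ≤ a * (2 * k) := Nat.mul_le_mul_right _ hc
    have h4 : (κ + 1) * (2 * k) = κ * (2 * k) + 2 * k := by ring
    omega
  · by_contra hc
    push Not at hc
    have h3 : (b + 1) * (2 * k) ≤ κ * (2 * k) := Nat.mul_le_mul_right _ hc
    have h4 : (b + 1) * (2 * k) = b * (2 * k) + 2 * k := by ring
    omega
  · unfold wU
    rw [hκ, sv_mk hr]

/-! ### tiles of the free ends -/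

/-- position of the face of the corner `(t, d)`, shifted by `e` -/
def fp (e : ℤ) (t : V) (d : ZMod 4) : V := (t.1 - e, t.2) + off d

/-- tile `t` near the vertex `c`, faces of its corner `d` near the vertex `c` -/
def Nr (x : Port V) (c : V) : Prop := ∃ t d, x = some (t, d) ∧ |t.1 - c.1| ≤ 1 ∧ |t.2 - c.2| ≤ 1 ∧
  ∀ e : ℤ, e = 0 ∨ e = 1 → |(fp e t d).1 - c.1| ≤ 3 ∧ |(fp e t d).2 - c.2| ≤ 3

theorem off_w : off 0 = (-1, -1) := rfl
theorem off_n : off 1 = (-1, 0) := rfl
theorem off_e : off 2 = (0, 0) := rfl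
theorem off_s : off 3 = (0, -1) := rfl

/-- tile and corner face of a step -/
theorem pt_tile {a b : V} (h : Adj a b) : ∃ t d, Bl802.pt a b = some (t, d) ∧ |t.1 - a.1| ≤ 1 ∧
    |t.2 - a.2| ≤ 1 ∧ |t.1 - b.1| ≤ 1 ∧ |t.2 - b.2| ≤ 1 ∧ fp 0 t d = (b.1 - 1, b.2 - 1) := by
  obtain ⟨a1, a2⟩ := a
  obtain ⟨b1, b2⟩ := b
  unfold Adj at h
  simp only at h
  rcases h with ⟨h1, h2⟩ | ⟨h1, h2⟩ | ⟨h1, h2⟩ | ⟨h1, h2⟩
  · subst h1 h2
    refine ⟨_, _, Bl802.pt_E a1 b2, ?_, ?_, ?_, ?_, ?_⟩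
    · rw [abs_le]; constructor <;> simp only <;> omega
    · rw [abs_le]; constructor <;> simp only <;> omega
    · rw [abs_le]; constructor <;> simp only <;> omega
    · rw [abs_le]; constructor <;> simp only <;> omega
    · unfold fp
      rw [off_s]
      ext <;> simp only [Prod.fst_add, Prod.snd_add] <;> omega
  · subst h1 h2
    refine ⟨_, _, Bl802.pt_W a1 b2, ?_, ?_, ?_, ?_, ?_⟩
    · rw [abs_le]; constructor <;> simp only <;> omega
    · rw [abs_le]; constructor <;> simp only <;> omega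
    · rw [abs_le]; constructor <;> simp only <;> omega
    · rw [abs_le]; constructor <;> simp only <;> omega
    · unfold fp
      rw [off_n]
      ext <;> simp only [Prod.fst_add, Prod.snd_add] <;> omega
  · subst h1 h2
    refine ⟨_, _, Bl802.pt_N b1 a2, ?_, ?_, ?_, ?_, ?_⟩
    · rw [abs_le]; constructor <;> simp only <;> omega
    · rw [abs_le]; constructor <;> simp only <;> omega
    · rw [abs_le]; constructor <;> simp only <;> omega
    · rw [abs_le]; constructor <;> simp only <;> omega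
    · unfold fp
      rw [off_e]
      ext <;> simp only [Prod.fst_add, Prod.snd_add] <;> omega
  · subst h1 h2
    refine ⟨_, _, Bl802.pt_S b1 a2, ?_, ?_, ?_, ?_, ?_⟩
    · rw [abs_le]; constructor <;> simp only <;> omega
    · rw [abs_le]; constructor <;> simp only <;> omega
    · rw [abs_le]; constructor <;> simp only <;> omega
    · rw [abs_le]; constructor <;> simp only <;> omega
    · unfold fp
      rw [off_w]
      ext <;> simp only [Prod.fst_add, Prod.snd_add] <;> omega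

theorem fp_e (e : ℤ) (t : V) (d : ZMod 4) : fp e t d = ((fp 0 t d).1 - e, (fp 0 t d).2) := by
  unfold fp
  ext <;> simp only [Prod.fst_add, Prod.snd_add] <;> ring

section

variable {P : P4} {k : ℕ} {x y xr : ℤ} {q : ℕ} {w : Wd V}

theorem step_Nr (hk : 0 < k) (i : ℕ) : Nr (sU P k i) (wU P k (i + 1)) ∧
    Nr (sU P k i) (wU P k i) := by
  have hadj := (cycU P hk).step i
  obtain ⟨t, d, h1, h2, h3, h4, h5, h6⟩ := pt_tile hadj
  have h1' : sU P k i = some (t, d) := h1
  have hA : |(wU P k (i + 1)).1 - (wU P k i).1| ≤ 1 ∧ |(wU P k (i + 1)).2 - (wU P k i).2| ≤ 1 := by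
    unfold Adj at hadj
    rw [abs_le, abs_le]; omega
  constructor
  · refine ⟨t, d, h1', h4, h5, fun e he => ?_⟩
    rw [fp_e, h6, abs_le, abs_le]
    simp only
    omega
  · refine ⟨t, d, h1', h2, h3, fun e he => ?_⟩
    rw [fp_e, h6]
    rw [abs_le, abs_le] at hA ⊢
    simp only
    omega

theorem WD.N_Nr (h : WD P k x y xr q w) : Nr (nN xr y) (wU P k q) := by
  rw [h.e0]
  refine ⟨_, _, rfl, ?_, ?_, fun e he => ?_⟩
  · rw [abs_le]; simp only; omega
  · rw [abs_le]; simp only; omega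
  · unfold fp
    rw [off_n, abs_le, abs_le]
    simp only [Prod.fst_add, Prod.snd_add]
    omega

/-- the tile of a free end at the step `i` is near the vertex `i` -/
theorem WD.at_Nr (h : WD P k x y xr q w) {u : Port V} {i : ℕ}
    (hu : AtE (sU P k) (nn P k) q (nN xr y) u i) : Nr u (wU P k i) := by
  obtain ⟨hi, rfl | ⟨rfl, rfl⟩⟩ := hu
  · exact (step_Nr h.hk i).2
  · exact h.N_Nr

/-- tile and faces at the gap `g` are near the vertex `vx g` -/
theorem WD.gap_Nr (h : WD P k x y xr q w) {g : ℕ} (hg : g < nn P k + 1) :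
    Nr ((LG (sU P k) (nn P k) q (nN xr y)).getD g none) (wU P k (vx (nn P k) q g)) := by
  rcases pos_cases h.hq hg with ⟨i, hi, e1, e2⟩ | ⟨e1, e2⟩
  · rw [e2, e1, LG_step h.hq hi]
    exact (step_Nr h.hk i).1
  · rw [e2, e1, LG_N]
    exact h.N_Nr

/-- the gap at the end of the list -/
theorem WD.gap_last (h : WD P k x y xr q w) :
    wU P k (vx (nn P k) q (nn P k + 1)) = wU P k (vx (nn P k) q 0) := by
  have h0 : vx (nn P k) q 0 = 0 + nn P k := by unfold vx; split_ifs <;> omega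
  have h1 : vx (nn P k) q (nn P k + 1) = 0 := by
    unfold vx; split_ifs
    · have := h.hq; omega
    · omega
  rw [h0, h1, wU_per P h.hk]

end

end Crest.Agent.R158.Mg949
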