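import Crest.Agent.R158.Cw5_161
import Crest.Agent.R158.Hb0_656

/-!
# Row 158, BLOCK BL (helper771), notch balls for one-run pairs, 1: the slit in the shear chart

* `shr y1 (-1)` : the chart, rows `≥ y1` moved one column to the left
* **`beD_chart`** : to the right of `p` the glueing of `D^(z)`, `z = (p, y1)`, is plain in the chart
* `ntc` : the notch
-/

set_option autoImplicit false
set_option linter.unusedVariables false

noncomputable section

namespace Crest.Agent.R158.Nb771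

open Crest.Agent.R158.Sw300 (Port Wd)
open Crest.Agent.R158.Cb771 (dir)
open Crest.Agent.R158.Cw161 (d4 dir0 dir1 dir2 dir3 shr TCh)
open Crest.Agent.R158.Env664

theorem shr_lt {y1 e : ℤ} {t : ℤ × ℤ} (h : t.2 < y1) : shr y1 e t = t := if_pos h

theorem shr_ge {y1 e : ℤ} {t : ℤ × ℤ} (h : y1 ≤ t.2) : shr y1 e t = (t.1 + e, t.2) :=
  if_neg (not_lt.2 h)

theorem shr_snd {y1 e : ℤ} {t : ℤ × ℤ} : (shr y1 e t).2 = t.2 := by
  unfold shr
  split_ifs <;> rfl

theorem tch (y1 : ℤ) : TCh (shr y1 (-1)) (shr y1 1) := TCh.shr y1 (-1)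

/-- neighbour in the chart -/
def nbS (y1 : ℤ) (t : ℤ × ℤ) (d : ZMod 4) : ℤ × ℤ := shr y1 1 (shr y1 (-1) t + dir d)

theorem nbS_W (y1 x y : ℤ) : nbS y1 (x, y) 0 = (x - 1, y) := by
  unfold nbS
  rw [dir0]
  by_cases h : y < y1
  · rw [shr_lt (t := (x, y)) h, shr_lt (by simpa using h)]
    ext <;> simp [sub_eq_add_neg]
  · rw [shr_ge (t := (x, y)) (not_lt.1 h), shr_ge (by simpa using h)]
    ext <;> simp [sub_eq_add_neg]

theorem nbS_E (y1 x y : ℤ) : nbS y1 (x, y) 2 = (x + 1, y) := by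
  unfold nbS
  rw [dir2]
  by_cases h : y < y1
  · rw [shr_lt (t := (x, y)) h, shr_lt (by simpa using h)]
    ext <;> simp
  · rw [shr_ge (t := (x, y)) (not_lt.1 h), shr_ge (by simpa using h)]
    ext <;> simp

theorem nbS_N1 (y1 x : ℤ) : nbS y1 (x, y1 - 1) 1 = (x + 1, y1) := by
  unfold nbS
  rw [dir1, shr_lt (t := (x, y1 - 1)) (by simp), shr_ge (by simp)]
  ext <;> simp

theorem nbS_N {y1 x y : ℤ} (h : y ≠ y1 - 1) : nbS y1 (x, y) 1 = (x, y + 1) := by
  unfold nbS
  rw [dir1]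
  by_cases h' : y < y1
  · rw [shr_lt (t := (x, y)) h', shr_lt (by simp; omega)]
    ext <;> simp
  · rw [shr_ge (t := (x, y)) (not_lt.1 h'), shr_ge (by simp; omega)]
    ext <;> simp

theorem nbS_S1 (y1 x : ℤ) : nbS y1 (x, y1) 3 = (x - 1, y1 - 1) := by
  unfold nbS
  rw [dir3, shr_ge (t := (x, y1)) (by simp), shr_lt (by simp)]
  ext <;> simp [sub_eq_add_neg]

theorem nbS_S {y1 x y : ℤ} (h : y ≠ y1) : nbS y1 (x, y) 3 = (x, y - 1) := by
  unfold nbS
  rw [dir3]
  by_cases h' : y < y1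
  · rw [shr_lt (t := (x, y)) h', shr_lt (by simp; omega)]
    ext <;> simp [sub_eq_add_neg]
  · rw [shr_ge (t := (x, y)) (not_lt.1 h'), shr_ge (by simp; omega)]
    ext <;> simp [sub_eq_add_neg]

/-- the glueing of `D^(z)` is plain in the chart -/
theorem beD_chart {A : Finset (ℤ × ℤ)} {p y1 xr : ℤ} {t : ℤ × ℤ} (hp : p < t.1)
    (hw : xr < t.1 → (t.2 = y1 - 1 ∨ t.2 = y1) → t ∉ A) (d : ZMod 4) :
    beD A p y1 xr (some (t, d)) =
      if t ∈ A ∧ nbS y1 t d ∈ A then some (nbS y1 t d, d + 2) else some (t, d) := by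
  have key : t ∈ A → nbD p y1 xr (some (t, d)) = some (nbS y1 t d, d + 2) := by
    intro ht
    obtain ⟨x, y⟩ := t
    simp only at hp hw
    have a0 : (0 : ZMod 4) + 2 = 2 := by decide
    have a1 : (1 : ZMod 4) + 2 = 3 := by decide
    have a2 : (2 : ZMod 4) + 2 = 0 := by decide
    have a3 : (3 : ZMod 4) + 2 = 1 := by decide
    rcases d4 d with rfl | rfl | rfl | rfl
    · rw [nbD_W, nbS_W, a0]
    · by_cases h : y = y1 - 1
      · subst h
        have hx : x ≤ xr := by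
          by_contra hc
          exact hw (by omega) (Or.inl rfl) ht
        rw [nbD_N1 ⟨rfl, by omega, hx⟩, nbS_N1, a1]
      · rw [nbD_N (by omega), nbS_N h, a1]
    · rw [nbD_E, nbS_E, a2]
    · by_cases h : y = y1
      · subst h
        have hx : x ≤ xr := by
          by_contra hc
          exact hw (by omega) (Or.inr rfl) ht
        rw [nbD_S1 ⟨rfl, hp, hx⟩, nbS_S1, a3]
      · rw [nbD_S ⟨by omega, by omega⟩, nbS_S h, a3]
  unfold beD
  by_cases ht : t ∈ A
  · have h1 := key ht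
    by_cases hn : nbS y1 t d ∈ A
    · rw [if_pos ⟨ht, hn⟩, res_of (portOf_some.2 ht) (by rw [h1]; exact portOf_some.2 hn), h1]
    · rw [if_neg (fun h => hn h.2)]
      unfold res
      rw [if_neg]
      rintro ⟨-, h2⟩
      rw [h1] at h2
      exact hn (portOf_some.1 h2)
  · rw [if_neg (fun h => ht h.1)]
    unfold res
    rw [if_neg]
    rintro ⟨h2, -⟩
    exact ht (portOf_some.1 h2)

end Crest.Agent.R158.Nb771
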