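import Crest.Agent.R158.Cw5_161
import Crest.Agent.R158.Hc2_854

/-!
# Row 158, BLOCK BL (helper771), notch balls, 2: balls in a chart, with marks

* **`winC_of`** : a window from the pattern and the plain glueing in the chart
* **`ball_mkC`** : helper161's `ball_chart` for regions with marks (`MK` in, `MK` out)
-/

set_option autoImplicit false
set_option linter.unusedVariables false

noncomputable section

namespace Crest.Agent.R158.Nb771

open Crest.Agent.R158.Sw300 (Port Wd)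
open Crest.Agent.R158.Cb771 (dir)
open Crest.Agent.R158.Xr249 (Nx Reg)
open Crest.Agent.R158.Ob664 (GW HW HG Gl)
open Crest.Agent.R158.Sl434
open Crest.Agent.R158.Cw161 (Bx Sh base pat rk rk_neg rk_neg' rk_dir bx_rk hth_k annD_exists
  WinC TCh ptc MkC FarC farC_iff pair_of_winC mm_of_mkC ball_chart FrC AnC bx_dir dir_back)
open Crest.Agent.R158.Wd377 (MK HG_eq mem_L)
open Crest.Agent.R158.Hc854 (cyc_pair)

/-- **a window from the pattern and the plain glueing in the chart** -/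
theorem winC_of {sh : Sh} {k : ZMod 4} {X Y : ℤ} {r n : ℕ} (hr : 1 ≤ r) (hn : r + 1 ≤ n)
    {φ : ℤ × ℤ → ℤ × ℤ} {A : Finset (ℤ × ℤ)} {b : Port (ℤ × ℤ) → Port (ℤ × ℤ)}
    (hA : ∀ c, Bx X Y (n + 1) c → ¬ Bx X Y (r - 1) c → (φ c ∈ A ↔ pat X Y sh k c))
    (hb : ∀ c d, Bx X Y n c → b (some (φ c, d)) =
      if φ c ∈ A ∧ φ (c + dir d) ∈ A then some (φ (c + dir d), d + 2) else some (φ c, d))
    {ψ : ℤ × ℤ → ℤ × ℤ} :
    WinC sh X Y r n (fun t => rk X Y k (ψ t)) (fun c => φ (rk X Y (-k) c)) k A b := by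
  have up : ∀ {t : ℤ × ℤ}, Bx X Y n t → Bx X Y (n + 1) t := by
    intro t ht; unfold Bx at *; push_cast; omega
  have dn : ∀ {t : ℤ × ℤ}, ¬ Bx X Y r t → ¬ Bx X Y (r - 1) t := by
    intro t ht h; apply ht; unfold Bx at *; omega
  have dd : ∀ {t : ℤ × ℤ} (d : ZMod 4), ¬ Bx X Y r t → ¬ Bx X Y (r - 1) (t + dir d) := by
    intro t d ht h
    apply ht
    have := bx_dir (d + 2) h
    rw [dir_back] at this
    have e : r - 1 + 1 = r := by omega
    rwa [e] at this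
  have hp : ∀ {c : ℤ × ℤ}, pat X Y sh k (rk X Y (-k) c) ↔ base X Y sh c := by
    intro c; unfold pat; rw [rk_neg']
  have step : ∀ (c : ℤ × ℤ) (d : ZMod 4), rk X Y (-k) c + dir (d - k) = rk X Y (-k) (c + dir d) := by
    intro c d
    rw [rk_dir, ← sub_eq_add_neg]
  have e2 : ∀ d : ZMod 4, d - k + 2 = d + 2 - k := by intro d; ring
  refine ⟨?_, ?_, ?_, ?_, ?_⟩
  · intro c h1 h2 h3
    exact (hA _ (bx_rk.2 (up h1)) (fun h => dn h2 (bx_rk.1 h))).2 (hp.2 h3)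
  · intro c d h1 h2 h3 h4
    have k1 := (hA (rk X Y (-k) c) (bx_rk.2 (up h1)) (fun h => dn h2 (bx_rk.1 h))).2 (hp.2 h3)
    have k2 := (hA (rk X Y (-k) (c + dir d)) (bx_rk.2 (bx_dir d h1))
      (fun h => dd d h2 (bx_rk.1 h))).2 (hp.2 h4)
    unfold ptc
    rw [hb _ _ (bx_rk.2 h1), step, if_pos ⟨k1, k2⟩, e2]
  · intro c d h1 h2 h3 h4
    have k2 := (hA (rk X Y (-k) (c + dir d)) (bx_rk.2 (bx_dir d h1))
      (fun h => dd d h2 (bx_rk.1 h)))
    unfold ptc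
    rw [hb _ _ (bx_rk.2 h1), step, if_neg]
    rintro ⟨-, h5⟩
    exact h4 (hp.1 (k2.1 h5))
  · intro c d h1 h2 h3
    have k1 := (hA (rk X Y (-k) c) (bx_rk.2 (up h1)) (fun h => dn h2 (bx_rk.1 h)))
    unfold ptc
    rw [hb _ _ (bx_rk.2 h1), if_neg]
    rintro ⟨h5, -⟩
    exact h3 (hp.1 (k1.1 h5))
  · intro c d h1
    have hn' : Bx X Y n c := by unfold Bx at *; omega
    have hn2 : Bx X Y n (c + dir d) := by
      have := bx_dir d h1
      unfold Bx at *; push_cast at this; omega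
    unfold ptc
    rw [hb _ _ (bx_rk.2 hn'), step]
    split_ifs with h
    · exact ⟨c + dir d, d + 2, hn2, by rw [e2]⟩
    · exact ⟨c, d, hn', rfl⟩

/-- the tile condition of the ball theorem -/
theorem npC {sh : Sh} {k : ZMod 4} {X Y : ℤ} {r n : ℕ} {ψ φ : ℤ × ℤ → ℤ × ℤ} (hc : TCh ψ φ)
    {A : Finset (ℤ × ℤ)}
    (hA : ∀ c, Bx X Y (n + 1) c → ¬ Bx X Y (r - 1) c → (φ c ∈ A ↔ pat X Y sh k c)) :
    ∀ t ∈ A, Bx X Y n (rk X Y k (ψ t)) → ¬ Bx X Y r (rk X Y k (ψ t)) →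
      base X Y sh (rk X Y k (ψ t)) := by
  intro t ht h1 h2
  have h3 := hA (ψ t) (by have := bx_rk.1 h1; unfold Bx at *; push_cast; omega)
    (fun h => h2 (bx_rk.2 (by unfold Bx at *; omega)))
  rw [hc.l] at h3
  exact h3.1 ht

/-- a mark `m` of the first region and its image `y` in the second region, in a chart -/
def MkPC (X Y : ℤ) (r : ℕ) (ψ : ℤ × ℤ → ℤ × ℤ) (A' : Finset (ℤ × ℤ))
    (b' : Port (ℤ × ℤ) → Port (ℤ × ℤ)) (m y : Port (ℤ × ℤ)) : Prop :=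
  (y = m ∧ ∀ t d, m = some (t, d) → ¬ Bx X Y r (ψ t)) ∨
    ∃ t d t' d', m = some (t, d) ∧ Bx X Y r (ψ t) ∧ y = some (t', d') ∧ Bx X Y r (ψ t') ∧
      t' ∈ A' ∧ b' y = y

/-- **the ball theorem in a chart, for regions with marks** -/
theorem ball_mkC : ∃ C a : ℝ, 0 < C ∧ 0 < a ∧ ∀ (sh : Sh) (X Y : ℤ) (r n : ℕ)
    (ψ φ : ℤ × ℤ → ℤ × ℤ) (δ : ZMod 4), TCh ψ φ → 1 ≤ r → r + 1 ≤ n →
    ∀ {A A' : Finset (ℤ × ℤ)} {b b' : Port (ℤ × ℤ) → Port (ℤ × ℤ)},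
    WinC sh X Y r n ψ φ δ A b → WinC sh X Y r n ψ φ δ A' b' →
    (∀ t ∈ A, Bx X Y n (ψ t) → ¬ Bx X Y r (ψ t) → base X Y sh (ψ t)) →
    (∀ x, FarC X Y n ψ x → b' x = b x) → (∀ t ∈ A, ¬ Bx X Y r (ψ t) → t ∈ A') →
    (∃ w', GW A' b' w') → ∀ {m1 m2 m3 y1 y2 y3 : Port (ℤ × ℤ)}, MK A b m1 m2 m3 →
    MkPC X Y r ψ A' b' m1 y1 → MkPC X Y r ψ A' b' m2 y2 → MkPC X Y r ψ A' b' m3 y3 →
    (FarC X Y n ψ m1 ∨ FarC X Y n ψ m2) → (FarC X Y n ψ m2 ∨ FarC X Y n ψ m3) →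
    (FarC X Y n ψ m3 ∨ FarC X Y n ψ m1) →
    MK A' b' y1 y2 y3 ∧ ‖HG A b m1 m2 m3 - HG A' b' y1 y2 y3‖ ≤ C * ((r : ℝ) / n) ^ a := by
  obtain ⟨C, a, hC, ha, hX⟩ := ball_chart
  refine ⟨C, a, hC, ha, ?_⟩
  intro sh X Y r n ψ φ δ hch hr hn A A' b b' h h' hnp hF hAA hw0 m1 m2 m3 y1 y2 y3 hm p1 p2 p3
    f12 f23 f31
  obtain ⟨w', hw'⟩ := hw0
  obtain ⟨w, hw, k1, k2, k3, kc, ke⟩ := hm.spec
  obtain ⟨n12, n23, n31⟩ := Wd377.cyc_ne kc
  have hMk : ∀ {m y mo : Port (ℤ × ℤ)}, m ∈ Sw300.L w → mo ∈ Sw300.L w → m ≠ mo →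
      MkPC X Y r ψ A' b' m y → MkC X Y r ψ w w' m y := by
    intro m y mo hm hmo hne hp
    rcases hp with ⟨rfl, h1⟩ | ⟨t, d, t', d', rfl, h1, rfl, h2, h3, h4⟩
    · refine ⟨hm, ?_, Or.inl ⟨rfl, h1⟩⟩
      have h2 := Wd377.mark_some hw.word.1 hw.leg hm hmo hne
      rcases y with - | ⟨t, d⟩
      · exact absurd rfl h2
      · obtain ⟨h3, h4⟩ := (mem_L hw).1 hm
        refine (mem_L hw').2 ⟨hAA t h3 (h1 t d rfl), ?_⟩
        have et : (some (t, d) : Port (ℤ × ℤ)) = ptc φ δ (ψ t) (d + δ) := by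
          unfold ptc; rw [hch.l, add_sub_cancel_right]
        by_cases hn' : Bx X Y n (ψ t)
        · have h5 := hnp t h3 hn' (h1 t d rfl)
          by_cases h6 : base X Y sh (ψ t + dir (d + δ))
          · have h7 := h.glue (ψ t) (d + δ) hn' (h1 t d rfl) h5 h6
            rw [← et, h4, et] at h7
            have h8 : φ (ψ t) = φ (ψ t + dir (d + δ)) := by
              unfold ptc at h7
              simp only [Option.some.injEq, Prod.mk.injEq] at h7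
              exact h7.1
            have h9 := congrArg ψ h8
            rw [hch.r, hch.r] at h9
            exfalso
            have : ∀ d : ZMod 4, dir d ≠ 0 := by decide
            exact this (d + δ) (by simpa using h9.symm)
          · rw [et]
            exact h'.free (ψ t) (d + δ) hn' (h1 t d rfl) h5 h6
        · rw [hF _ (fun t' d' e => by
            simp only [Option.some.injEq, Prod.mk.injEq] at e
            rw [← e.1]; exact hn'), h4]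
    · exact ⟨hm, (mem_L hw').2 ⟨h3, h4⟩, Or.inr ⟨t, d, t', d', rfl, h1, rfl, h2⟩⟩
  have q1 := hMk k1 k2 n12 p1
  have q2 := hMk k2 k3 n23 p2
  have q3 := hMk k3 k1 n31 p3
  have key := hX sh X Y r n ψ φ δ hch hr hn hw hw' h h' hnp hF q1 q2 q3 f12 f23 f31 kc
  obtain ⟨K, w0, N1, Jl, N2, Jo, Ob, a0, b0, hD⟩ := annD_exists sh X Y hr hn
  have hP := pair_of_winC hD (by omega) hch hw hw' h h' hF
  obtain ⟨l1, l2, l3, lc⟩ := cyc_pair hP (hth_k δ) (mm_of_mkC hw (by omega) hnp q1)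
    (mm_of_mkC hw (by omega) hnp q2) (mm_of_mkC hw (by omega) hnp q3) (f12.imp farC_iff.1 farC_iff.1)
    (f23.imp farC_iff.1 farC_iff.1) (f31.imp farC_iff.1 farC_iff.1) kc
  refine ⟨⟨w', hw', l1, l2, l3, lc⟩, ?_⟩
  rw [ke, HG_eq hw' l1 l2 l3 lc]
  exact key

end Crest.Agent.R158.Nb771
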