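import Crest.Agent.R158.Nb1_771
import Crest.Agent.R158.Nb2_771

/-!
# Row 158, BLOCK BL (helper771), notch balls, 3: a ball at the right end of the slit

* **`ball_slit`** : removing the tiles `N` inside the ball costs `C (s / n)^a`
-/

set_option autoImplicit false
set_option linter.unusedVariables false

noncomputable section

namespace Crest.Agent.R158.Nb771

open Crest.Agent.R158.Sw300 (Port Wd)
open Crest.Agent.R158.Cb771 (dir)
open Crest.Agent.R158.Ob664 (GW HW HG Gl)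
open Crest.Agent.R158.Cw161 (Bx Sh base pat rk rk_neg rk_neg' rk_dir bx_rk WinC TCh FarC shr d4)
open Crest.Agent.R158.Wd377 (MK HG_eq mem_L)
open Crest.Agent.R158.Env664

/-- free ends stay free -/
theorem free_mono {A N : Finset (ℤ × ℤ)} {nb : Port (ℤ × ℤ) → Port (ℤ × ℤ)} {x : Port (ℤ × ℤ)}
    (h : res A nb x = x) : res (A \ N) nb x = x := by
  unfold res at h ⊢
  by_cases h1 : PortOf (A \ N) x ∧ PortOf (A \ N) (nb x)
  · rw [if_pos h1]
    have h2 : PortOf A x ∧ PortOf A (nb x) :=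
      ⟨fun y hy => (Finset.mem_sdiff.1 (h1.1 y hy)).1, fun y hy => (Finset.mem_sdiff.1 (h1.2 y hy)).1⟩
    rwa [if_pos h2] at h
  · rw [if_neg h1]

/-- tiles adjacent to `N` are near -/
theorem near_nb {X Y p y1 xr : ℤ} {s : ℕ} {t t2 : ℤ × ℤ} {d d2 : ZMod 4}
    (h1 : Bx X Y s (shr y1 (-1) t2)) (h2 : p < t2.1) (h3 : t2.1 ≤ xr)
    (h : nbD p y1 xr (some (t, d)) = some (t2, d2)) : Bx X Y (s + 1) (shr y1 (-1) t) := by
  obtain ⟨x, y⟩ := t
  obtain ⟨x2, y2⟩ := t2
  simp only at h2 h3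
  have inj : ∀ {a b : ℤ} {e : ZMod 4}, (some ((a, b), e) : Port (ℤ × ℤ)) = some ((x2, y2), d2) →
      a = x2 ∧ b = y2 := by
    intro a b e h
    simp only [Option.some.injEq, Prod.mk.injEq] at h
    exact h.1
  rcases d4 d with rfl | rfl | rfl | rfl
  · rw [nbD_W] at h
    obtain ⟨rfl, rfl⟩ := inj h
    unfold shr Bx at *
    simp only at *
    push_cast
    split_ifs at h1 ⊢ <;> simp only at h1 ⊢ <;> omega
  · by_cases hc : y = y1 - 1 ∧ p ≤ x ∧ x ≤ xr
    · rw [nbD_N1 hc] at h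
      obtain ⟨rfl, rfl⟩ := inj h
      unfold shr Bx at *
      simp only at *
      push_cast
      split_ifs at h1 ⊢ <;> simp only at h1 ⊢ <;> omega
    · rw [nbD_N hc] at h
      obtain ⟨rfl, rfl⟩ := inj h
      unfold shr Bx at *
      simp only at *
      push_cast
      split_ifs at h1 ⊢ <;> simp only at h1 ⊢ <;> omega
  · rw [nbD_E] at h
    obtain ⟨rfl, rfl⟩ := inj h
    unfold shr Bx at *
    simp only at *
    push_cast
    split_ifs at h1 ⊢ <;> simp only at h1 ⊢ <;> omega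
  · by_cases hc : y = y1 ∧ x = p
    · rw [nbD_Sleg hc] at h
      exact absurd h (by simp)
    by_cases hc2 : y = y1 ∧ p < x ∧ x ≤ xr
    · rw [nbD_S1 hc2] at h
      obtain ⟨rfl, rfl⟩ := inj h
      unfold shr Bx at *
      simp only at *
      push_cast
      split_ifs at h1 ⊢ <;> simp only at h1 ⊢ <;> omega
    · rw [nbD_S ⟨by omega, hc⟩] at h
      obtain ⟨rfl, rfl⟩ := inj h
      unfold shr Bx at *
      simp only at *
      push_cast
      split_ifs at h1 ⊢ <;> simp only at h1 ⊢ <;> omega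

/-- **removing tiles at the right end of the slit** -/
theorem ball_slit : ∃ C a : ℝ, 0 < C ∧ 0 < a ∧ ∀ (A N : Finset (ℤ × ℤ)) (p y1 xr X Y : ℤ)
    (s n : ℕ) (sh : Sh) (k : ZMod 4), s + 2 ≤ n →
    (∀ c, Bx X Y (n + 1) c → ¬ Bx X Y s c → (shr y1 1 c ∈ A ↔ pat X Y sh k c)) →
    (∀ c, Bx X Y n c → p < (shr y1 1 c).1) →
    (∀ t ∈ A, Bx X Y n (shr y1 (-1) t) → xr < t.1 → t.2 ≠ y1 - 1 ∧ t.2 ≠ y1) →
    (∀ t ∈ N, Bx X Y s (shr y1 (-1) t) ∧ p < t.1 ∧ t.1 ≤ xr) →
    (∃ w, GW (A \ N) (beD (A \ N) p y1 xr) w) → ∀ m y : Fin 3 → (ℤ × ℤ) × ZMod 4,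
    MK A (beD A p y1 xr) (some (m 0)) (some (m 1)) (some (m 2)) →
    (∀ i, ((m i).1 ∉ N ∧ y i = m i) ∨ ((m i).1 ∈ N ∧ Bx X Y s (shr y1 (-1) (y i).1) ∧
      (y i).1 ∈ A \ N ∧ beD (A \ N) p y1 xr (some (y i)) = some (y i))) →
    (∀ i j, i ≠ j → ¬ Bx X Y n (shr y1 (-1) (m i).1) ∨ ¬ Bx X Y n (shr y1 (-1) (m j).1)) →
    MK (A \ N) (beD (A \ N) p y1 xr) (some (y 0)) (some (y 1)) (some (y 2)) ∧
      ‖HG A (beD A p y1 xr) (some (m 0)) (some (m 1)) (some (m 2)) -
        HG (A \ N) (beD (A \ N) p y1 xr) (some (y 0)) (some (y 1)) (some (y 2))‖ ≤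
      C * (((s + 1 : ℕ) : ℝ) / n) ^ a := by
  obtain ⟨C, a, hC, ha, H⟩ := ball_mkC
  refine ⟨C, a, hC, ha, ?_⟩
  intro A N p y1 xr X Y s n sh k hsn hwin hright hout hN hw m y hm hy hfar
  have hch := tch y1
  have hup : ∀ {c : ℤ × ℤ}, Bx X Y s c → Bx X Y n c := by
    intro c hc; unfold Bx at *; omega
  -- membership in the smaller region
  have hAN : ∀ t, ¬ Bx X Y s (shr y1 (-1) t) → (t ∈ A \ N ↔ t ∈ A) := by
    intro t ht
    rw [Finset.mem_sdiff]
    exact ⟨fun h => h.1, fun h => ⟨h, fun h' => ht (hN t h').1⟩⟩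
  have hwin' : ∀ c, Bx X Y (n + 1) c → ¬ Bx X Y s c → (shr y1 1 c ∈ A \ N ↔ pat X Y sh k c) := by
    intro c h1 h2
    rw [hAN _ (by rw [hch.r]; exact h2)]
    exact hwin c h1 h2
  -- the glueing in the chart
  have hb : ∀ (B : Finset (ℤ × ℤ)), B ⊆ A → ∀ c d, Bx X Y n c →
      beD B p y1 xr (some (shr y1 1 c, d)) =
        if shr y1 1 c ∈ B ∧ shr y1 1 (c + dir d) ∈ B then some (shr y1 1 (c + dir d), d + 2)
        else some (shr y1 1 c, d) := by
    intro B hB c d hc
    have h1 := beD_chart (A := B) (p := p) (y1 := y1) (xr := xr) (t := shr y1 1 c) (hright c hc)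
      (fun h2 h3 h4 => by
        have := hout _ (hB h4) (by rw [hch.r]; exact hc) h2
        tauto) d
    rw [h1]
    unfold nbS
    rw [hch.r]
  -- windows
  have e1 : s + 1 - 1 = s := by omega
  have W1 : WinC sh X Y (s + 1) n (fun t => rk X Y k (shr y1 (-1) t))
      (fun c => shr y1 1 (rk X Y (-k) c)) k A (beD A p y1 xr) :=
    winC_of (by omega) (by omega) (by rw [e1]; exact hwin) (hb A (Finset.Subset.refl _))
  have W2 : WinC sh X Y (s + 1) n (fun t => rk X Y k (shr y1 (-1) t))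
      (fun c => shr y1 1 (rk X Y (-k) c)) k (A \ N) (beD (A \ N) p y1 xr) :=
    winC_of (by omega) (by omega) (by rw [e1]; exact hwin') (hb _ Finset.sdiff_subset)
  have hT : TCh (fun t => rk X Y k (shr y1 (-1) t)) (fun c => shr y1 1 (rk X Y (-k) c)) :=
    hch.comp (TCh.rk X Y k)
  have hnp := npC (sh := sh) (k := k) (X := X) (Y := Y) (r := s + 1) (n := n) hch (A := A)
    (by rw [e1]; exact hwin)
  -- far ports
  have hF : ∀ x, FarC X Y n (fun t => rk X Y k (shr y1 (-1) t)) x →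
      beD (A \ N) p y1 xr x = beD A p y1 xr x := by
    intro x hx
    have hxN : PortOf (A \ N) x ↔ PortOf A x := by
      rcases x with - | ⟨t, d⟩
      · exact ⟨fun _ y hy => absurd hy (by simp), fun _ y hy => absurd hy (by simp)⟩
      · rw [portOf_some, portOf_some]
        have h1 : ¬ Bx X Y n (shr y1 (-1) t) := fun h => hx t d rfl (bx_rk.2 h)
        exact hAN t fun h => h1 (hup h)
    have hnN : PortOf (A \ N) (nbD p y1 xr x) ↔ PortOf A (nbD p y1 xr x) := by
      rcases hz : nbD p y1 xr x with - | ⟨t2, d2⟩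
      · exact ⟨fun _ y hy => absurd hy (by simp), fun _ y hy => absurd hy (by simp)⟩
      · rw [portOf_some, portOf_some]
        by_cases h2 : t2 ∈ N
        · exfalso
          obtain ⟨g1, g2, g3⟩ := hN t2 h2
          rcases x with - | ⟨t, d⟩
          · rw [nbD_leg] at hz
            simp only [Option.some.injEq, Prod.mk.injEq] at hz
            have : p = t2.1 := by rw [← hz.1]
            omega
          · have h3 := near_nb g1 g2 g3 hz
            refine hx t d rfl (bx_rk.2 ?_)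
            unfold Bx at *; push_cast at h3; omega
        · rw [Finset.mem_sdiff]
          exact ⟨fun h => h.1, fun h => ⟨h, h2⟩⟩
    unfold beD res
    by_cases h : PortOf A x ∧ PortOf A (nbD p y1 xr x)
    · rw [if_pos h, if_pos ⟨hxN.2 h.1, hnN.2 h.2⟩]
    · rw [if_neg h, if_neg (fun h' => h ⟨hxN.1 h'.1, hnN.1 h'.2⟩)]
  obtain ⟨w, hw1, k1, k2, k3, -, -⟩ := hm.spec
  have hmf : ∀ i, (m i).1 ∈ A ∧ beD A p y1 xr (some (m i)) = some (m i) := by
    intro i
    have hl : some (m i) ∈ Sw300.L w := by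
      fin_cases i
      · exact k1
      · exact k2
      · exact k3
    exact (mem_L hw1).1 hl
  have hMk : ∀ i, MkPC X Y (s + 1) (fun t => rk X Y k (shr y1 (-1) t)) (A \ N)
      (beD (A \ N) p y1 xr) (some (m i)) (some (y i)) := by
    intro i
    rcases hy i with ⟨h1, h2⟩ | ⟨h1, h2, h3, h4⟩
    · rw [h2]
      by_cases h5 : Bx X Y (s + 1) (shr y1 (-1) (m i).1)
      · right
        exact ⟨(m i).1, (m i).2, (m i).1, (m i).2, rfl, bx_rk.2 h5, rfl, bx_rk.2 h5,
          Finset.mem_sdiff.2 ⟨(hmf i).1, h1⟩, free_mono (hmf i).2⟩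
      · left
        refine ⟨rfl, fun t d e h6 => h5 ?_⟩
        simp only [Option.some.injEq] at e
        rw [e]
        exact bx_rk.1 h6
    · right
      have up1 : ∀ {c : ℤ × ℤ}, Bx X Y s c → Bx X Y (s + 1) c := by
        intro c hc; unfold Bx at *; push_cast; omega
      exact ⟨(m i).1, (m i).2, (y i).1, (y i).2, rfl, bx_rk.2 (up1 (hN _ h1).1), rfl,
        bx_rk.2 (up1 h2), h3, h4⟩
  have hFar : ∀ i j, i ≠ j → FarC X Y n (fun t => rk X Y k (shr y1 (-1) t)) (some (m i)) ∨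
      FarC X Y n (fun t => rk X Y k (shr y1 (-1) t)) (some (m j)) := by
    have key : ∀ i, ¬ Bx X Y n (shr y1 (-1) (m i).1) →
        FarC X Y n (fun t => rk X Y k (shr y1 (-1) t)) (some (m i)) := by
      intro i h t d e h6
      simp only [Option.some.injEq] at e
      rw [e] at h
      exact h (bx_rk.1 h6)
    intro i j hij
    exact (hfar i j hij).imp (key i) (key j)
  exact H sh X Y (s + 1) n _ _ k hT (by omega) (by omega) W1 W2 hnp hF
    (fun t ht h => (hAN t (fun h' => h (bx_rk.2 (by unfold Bx at *; push_cast; omega)))).2 ht)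
    hw hm (hMk 0) (hMk 1) (hMk 2) (hFar 0 1 (by decide)) (hFar 1 2 (by decide))
    (hFar 2 0 (by decide))

end Crest.Agent.R158.Nb771
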