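import Crest.Agent.R158.Nb3_771
import Crest.Agent.R158.Hb2_656
import Crest.Agent.R158.Hw1_949

/-!
# Row 158, BLOCK BL (helper771), notch balls, 4: windows at a right end

* `Prof` : rows near the height `Yc`
* `mem_prof` : tiles of `D F L` near `((b + 1) L, Yc)`
* **`pats`** : the pattern in the shear chart
-/

set_option autoImplicit false
set_option linter.unusedVariables false
set_option linter.unusedSimpArgs false

noncomputable section

namespace Crest.Agent.R158.Nb771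

open Crest.Agent.R158.Sp896 (V)
open Crest.Agent.R158.Cw161 (Bx Sh pat shr pat_q1 pat_q2 pat_t0 pat_t3 pat_s0)
open Crest.Agent.R158.Env664 (D mem_D div_iff)
open Crest.Agent.R158.Bh679 (NP)

/-- the macro rows above and below the height `Yc` -/
structure Prof (L Yc jL jU : ℤ) : Prop where
  adj : jL = jU ∨ jL + 1 = jU
  up : ∀ y, Yc ≤ y → 2 * y < 2 * Yc + L → y / L = jU
  lo : ∀ y, 2 * Yc ≤ 2 * y + L → y < Yc → y / L = jL

theorem prof_exists {L q : ℤ} (hL : 0 < L) (hev : Even L) :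
    ∃ Yc jL jU, 2 * Yc = q * L ∧ Prof L Yc jL jU := by
  obtain ⟨M, hM⟩ := hev
  rcases Int.even_or_odd q with ⟨k, hk⟩ | ⟨k, hk⟩
  · refine ⟨k * L, k - 1, k, by rw [hk]; ring, Or.inr (by ring), ?_, ?_⟩
    · intro y h1 h2
      exact (div_iff hL _ _).2 ⟨h1, by linarith⟩
    · intro y h1 h2
      refine (div_iff hL _ _).2 ⟨?_, ?_⟩ <;> rw [sub_mul, one_mul] <;> linarith
  · refine ⟨k * L + M, k, k, by rw [hk, hM]; ring, Or.inl rfl, ?_, ?_⟩
    · intro y h1 h2
      refine (div_iff hL _ _).2 ⟨by linarith, by linarith⟩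
    · intro y h1 h2
      refine (div_iff hL _ _).2 ⟨by linarith, by linarith⟩

variable {F : Finset V} {L b Yc jL jU : ℤ}

/-- tiles near `((b + 1) L, Yc)` -/
theorem mem_prof (hL : 0 < L) (hp : Prof L Yc jL jU) {t : V} (h1 : b * L ≤ t.1)
    (h2 : t.1 < b * L + L + L) (h3 : 2 * Yc ≤ 2 * t.2 + L) (h4 : 2 * t.2 < 2 * Yc + L) :
    t ∈ D F L ↔ (t.1 < b * L + L ∧ t.2 < Yc ∧ (b, jL) ∈ F) ∨
      (t.1 < b * L + L ∧ Yc ≤ t.2 ∧ (b, jU) ∈ F) ∨
      (b * L + L ≤ t.1 ∧ t.2 < Yc ∧ (b + 1, jL) ∈ F) ∨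
      (b * L + L ≤ t.1 ∧ Yc ≤ t.2 ∧ (b + 1, jU) ∈ F) := by
  rw [mem_D hL]
  by_cases c1 : t.1 < b * L + L
  · rw [(div_iff hL t.1 b).2 ⟨h1, c1⟩]
    by_cases c2 : t.2 < Yc
    · rw [hp.lo _ h3 c2]
      constructor
      · intro h; exact Or.inl ⟨c1, c2, h⟩
      · rintro (⟨-, -, h⟩ | ⟨-, h, -⟩ | ⟨h, -, -⟩ | ⟨h, -, -⟩)
        · exact h
        all_goals omega
    · rw [hp.up _ (not_lt.1 c2) h4]
      constructor
      · intro h; exact Or.inr (Or.inl ⟨c1, not_lt.1 c2, h⟩)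
      · rintro (⟨-, h, -⟩ | ⟨-, -, h⟩ | ⟨h, -, -⟩ | ⟨h, -, -⟩)
        · omega
        · exact h
        all_goals omega
  · have e : b * L + L = (b + 1) * L := by ring
    rw [(div_iff hL t.1 (b + 1)).2 ⟨by linarith, by linarith⟩]
    by_cases c2 : t.2 < Yc
    · rw [hp.lo _ h3 c2]
      constructor
      · intro h; exact Or.inr (Or.inr (Or.inl ⟨not_lt.1 c1, c2, h⟩))
      · rintro (⟨h, -, -⟩ | ⟨h, -, -⟩ | ⟨-, -, h⟩ | ⟨-, h, -⟩)
        · omega
        · omega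
        · exact h
        · omega
    · rw [hp.up _ (not_lt.1 c2) h4]
      constructor
      · intro h; exact Or.inr (Or.inr (Or.inr ⟨not_lt.1 c1, not_lt.1 c2, h⟩))
      · rintro (⟨h, -, -⟩ | ⟨h, -, -⟩ | ⟨-, h, -⟩ | ⟨-, -, h⟩)
        · omega
        · omega
        · omega
        · exact h

/-- **the pattern at the right end of the slit, in the shear chart** -/
theorem pats (np : NP F) (hL : 0 < L) (hp : Prof L Yc jL jU) {y0 y1 : ℤ} {s n : ℕ}
    (hlt : y0 < y1) (hs0 : Yc ≤ y0 + s - 2) (hs1 : y1 ≤ Yc + s - 2) (hsn : s + 2 ≤ n)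
    (hn : 2 * (n : ℤ) + 8 ≤ L)
    (hrow : ∀ y, y0 - 1 ≤ y → y ≤ y1 → (b * L + L - 1, y) ∈ D F L)
    (hout : ∀ y, y0 - 1 ≤ y → y ≤ y1 → (b * L + L, y) ∉ D F L) :
    ∃ (sh : Sh) (k : ZMod 4) (X : ℤ), (X = b * L + L - 2 ∨ X = b * L + L - 1) ∧
      ∀ c, Bx X (Yc - 1) (n + 1) c → ¬ Bx X (Yc - 1) s c →
        (shr y1 1 c ∈ D F L ↔ pat X (Yc - 1) sh k c) := by
  -- cells from the rows
  have cell : ∀ y, y0 - 1 ≤ y → y ≤ y1 →
      (y < Yc → (b, jL) ∈ F ∧ (b + 1, jL) ∉ F) ∧ (Yc ≤ y → (b, jU) ∈ F ∧ (b + 1, jU) ∉ F) := by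
    intro y h1 h2
    have g1 := (mem_prof (F := F) (b := b) hL hp (t := (b * L + L - 1, y)) (by simp only; omega)
      (by simp only; omega) (by simp only; omega) (by simp only; omega)).1 (hrow y h1 h2)
    have g2 := fun h => hout y h1 h2 ((mem_prof (F := F) (b := b) hL hp (t := (b * L + L, y))
      (by simp only; omega) (by simp only; omega) (by simp only; omega) (by simp only; omega)).2 h)
    simp only at g1 g2
    constructor
    · intro h
      constructor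
      · rcases g1 with ⟨-, -, g⟩ | ⟨-, g, -⟩ | ⟨g, -, -⟩ | ⟨g, -, -⟩
        · exact g
        all_goals omega
      · intro g; exact g2 (Or.inr (Or.inr (Or.inl ⟨le_rfl, h, g⟩)))
    · intro h
      constructor
      · rcases g1 with ⟨-, g, -⟩ | ⟨-, -, g⟩ | ⟨g, -, -⟩ | ⟨g, -, -⟩
        · omega
        · exact g
        all_goals omega
      · intro g; exact g2 (Or.inr (Or.inr (Or.inr ⟨le_rfl, h, g⟩)))
  -- membership in the chart
  have mem : ∀ {X : ℤ}, (X = b * L + L - 2 ∨ X = b * L + L - 1) → ∀ c, Bx X (Yc - 1) (n + 1) c →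
      (shr y1 1 c ∈ D F L ↔ ((shr y1 1 c).1 < b * L + L ∧ c.2 < Yc ∧ (b, jL) ∈ F) ∨
      ((shr y1 1 c).1 < b * L + L ∧ Yc ≤ c.2 ∧ (b, jU) ∈ F) ∨
      (b * L + L ≤ (shr y1 1 c).1 ∧ c.2 < Yc ∧ (b + 1, jL) ∈ F) ∨
      (b * L + L ≤ (shr y1 1 c).1 ∧ Yc ≤ c.2 ∧ (b + 1, jU) ∈ F)) := by
    intro X hX c hc
    have e2 : (shr y1 1 c).2 = c.2 := shr_snd
    have e1 : (shr y1 1 c).1 = c.1 ∨ (shr y1 1 c).1 = c.1 + 1 := by
      unfold shr; split_ifs <;> simp
    unfold Bx at hc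
    push_cast at hc
    rw [mem_prof (b := b) hL hp (by omega) (by omega) (by omega) (by omega), e2]
  have shc : ∀ c : V, (c.2 < y1 ∧ (shr y1 1 c).1 = c.1) ∨ (y1 ≤ c.2 ∧ (shr y1 1 c).1 = c.1 + 1) := by
    intro c
    unfold shr
    split_ifs with h
    · exact Or.inl ⟨h, rfl⟩
    · exact Or.inr ⟨not_lt.1 h, rfl⟩
  have hy1 := cell y1 (by omega) le_rfl
  have hy0 := cell (y0 - 1) le_rfl (by omega)
  by_cases flat : ((b, jL) ∈ F ∧ (b + 1, jL) ∉ F) ∧ ((b, jU) ∈ F ∧ (b + 1, jU) ∉ F)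
  · obtain ⟨⟨f1, f2⟩, f3, f4⟩ := flat
    refine ⟨.h1, 0, b * L + L - 2, Or.inl rfl, fun c h1 h2 => ?_⟩
    rw [mem (Or.inl rfl) c h1, pat_s0]
    have := shc c
    unfold Bx at h1 h2
    push_cast at h1 h2
    simp only [f1, f2, f3, f4, and_true, and_false, or_false]
    omega
  by_cases hpos : Yc ≤ y1
  · obtain ⟨f3, f4⟩ := hy1.2 hpos
    have hg : Yc ≤ y0 - 1 := by
      by_contra hc
      exact flat ⟨hy0.1 (by omega), f3, f4⟩
    by_cases f1 : (b, jL) ∈ F <;> by_cases f2 : (b + 1, jL) ∈ F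
    · refine ⟨.t, 0, b * L + L - 2, Or.inl rfl, fun c h1 h2 => ?_⟩
      rw [mem (Or.inl rfl) c h1, pat_t0]
      have := shc c
      unfold Bx at h1 h2
      push_cast at h1 h2
      simp only [f1, f2, f3, f4, and_true, and_false, or_false]
      omega
    · exact absurd ⟨⟨f1, f2⟩, f3, f4⟩ flat
    · exfalso
      rcases hp.adj with h | h
      · rw [h] at f1; exact f1 f3
      · have := (np b jL).2
        rw [h] at this
        exact this ⟨f2, f3, f1, f4⟩
    · refine ⟨.q, 1, b * L + L - 2, Or.inl rfl, fun c h1 h2 => ?_⟩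
      rw [mem (Or.inl rfl) c h1, pat_q1]
      have := shc c
      unfold Bx at h1 h2
      push_cast at h1 h2
      simp only [f1, f2, f3, f4, and_true, and_false, or_false, false_or]
      omega
  · obtain ⟨f1, f2⟩ := hy1.1 (by omega)
    by_cases f3 : (b, jU) ∈ F <;> by_cases f4 : (b + 1, jU) ∈ F
    · refine ⟨.t, 3, b * L + L - 1, Or.inr rfl, fun c h1 h2 => ?_⟩
      rw [mem (Or.inr rfl) c h1, pat_t3]
      have := shc c
      unfold Bx at h1 h2
      push_cast at h1 h2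
      simp only [f1, f2, f3, f4, and_true, and_false, or_false, false_or]
      omega
    · exact absurd ⟨⟨f1, f2⟩, f3, f4⟩ flat
    · exfalso
      rcases hp.adj with h | h
      · rw [← h] at f3; exact f3 f1
      · have := (np b jL).1
        rw [h] at this
        exact this ⟨f1, f4, f2, f3⟩
    · refine ⟨.q, 2, b * L + L - 1, Or.inr rfl, fun c h1 h2 => ?_⟩
      rw [mem (Or.inr rfl) c h1, pat_q2]
      have := shc c
      unfold Bx at h1 h2
      push_cast at h1 h2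
      simp only [f1, f2, f3, f4, and_true, and_false, or_false, false_or]
      omega

end Crest.Agent.R158.Nb771
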