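import Crest.Agent.R158.Ad3_350

/-!
# R158, block Q1d, leaf (E) (helper808), part 1: pointwise bound for a closed network

* `Net.eds C` : cut ends of `C`; `cls_eds` : a strand has two cut ends (arc) or none (loop)
* `Net.cw c` : weight of a strand (`‖z‖ / √3` for arcs, `‖z‖` for loops), `cw_le : cw ≤ 2`
* `norm_z_eq : ‖z C‖ = √3 ^ (#ends / 2) * ∏ cw`
* `norm_z_bound` : exact counted families (weight at most `a i`), bad strands (weight at most `2`)
-/

set_option autoImplicit false
set_option linter.unusedSectionVars false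

noncomputable section

open Finset

namespace Crest.Agent.R158.Ad350.Net

variable {P : Type*} [DecidableEq P] {N : Net P}

/-- cut ends -/
def eds (N : Net P) (C : Finset P) : Finset P := C.filter fun p => N.be p = p

lemma mem_eds {C : Finset P} {p : P} : p ∈ N.eds C ↔ p ∈ C ∧ N.be p = p := by
  unfold eds; rw [Finset.mem_filter]

/-- the two ends of an arc -/
lemma Strand.eds_arc (h : N.Ok) {x : P} (hx : x ∈ N.V) {n : ℕ} (hs : N.Strand x n)
    (h1 : N.be x = x) (h2 : N.be (N.al (N.g^[n] x)) = N.al (N.g^[n] x)) :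
    N.eds (N.cls x) = {x, N.al (N.g^[n] x)} ∧ x ≠ N.al (N.g^[n] x) := by
  have hne : x ≠ N.al (N.g^[n] x) := fun e => it_ne h hx hs.1 n 0 le_rfl (by omega) e.symm
  refine ⟨?_, hne⟩
  ext q
  rw [mem_eds, hs.cls h hx, Finset.mem_union, Finset.mem_insert, Finset.mem_singleton]
  constructor
  · rintro ⟨hq | hq, hb⟩
    · obtain ⟨i, hi, rfl⟩ := mem_Iw.1 hq
      left
      cases i with
      | zero => rfl
      | succ i =>
        exfalso
        rw [Function.iterate_succ_apply'] at hb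
        have e1 : N.be (N.g (N.g^[i] x)) = N.al (N.g^[i] x) :=
          h.be2 _ (h.alV _ (it_mem h hx i))
        rw [e1] at hb
        exact hs.1 i (by omega) hb.symm
    · obtain ⟨i, hi, rfl⟩ := mem_Ow.1 hq
      rcases Nat.lt_or_ge i n with hin | hin
      · exact absurd hb (hs.1 i hin)
      · obtain rfl : i = n := by omega
        exact Or.inr rfl
  · rintro (rfl | rfl)
    · exact ⟨Or.inl (mem_Iw.2 ⟨0, by omega, rfl⟩), h1⟩
    · exact ⟨Or.inr (mem_Ow.2 ⟨n, le_rfl, rfl⟩), h2⟩

lemma Strand.eds_loop (h : N.Ok) {x : P} (hx : x ∈ N.V) {n : ℕ} (hs : N.Strand x n)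
    (h1 : N.be (N.al (N.g^[n] x)) = x) : N.eds (N.cls x) = ∅ := by
  have hyV : N.al (N.g^[n] x) ∈ N.V := h.alV _ (it_mem h hx n)
  have hne : N.al (N.g^[n] x) ≠ x := it_ne h hx hs.1 n 0 le_rfl (by omega)
  rw [Finset.eq_empty_iff_forall_notMem]
  intro q hq
  rw [mem_eds, hs.cls h hx, Finset.mem_union] at hq
  obtain ⟨hq | hq, hb⟩ := hq
  · obtain ⟨i, hi, rfl⟩ := mem_Iw.1 hq
    cases i with
    | zero =>
      rw [Function.iterate_zero, id] at hb
      apply hne
      calc N.al (N.g^[n] x) = N.be (N.be (N.al (N.g^[n] x))) := (h.be2 _ hyV).symm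
        _ = N.be x := by rw [h1]
        _ = x := hb
    | succ i =>
      rw [Function.iterate_succ_apply'] at hb
      have e1 : N.be (N.g (N.g^[i] x)) = N.al (N.g^[i] x) :=
        h.be2 _ (h.alV _ (it_mem h hx i))
      rw [e1] at hb
      exact hs.1 i (by omega) hb.symm
  · obtain ⟨i, hi, rfl⟩ := mem_Ow.1 hq
    rcases Nat.lt_or_ge i n with hin | hin
    · exact hs.1 i hin hb
    · obtain rfl : i = n := by omega
      exact hne (hb.symm.trans h1)

/-- **a strand is an arc with exactly two cut ends, or a loop without cut ends** -/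
theorem cls_eds (h : N.Ok) {p : P} (hp : p ∈ N.V) :
    (N.eds (N.cls p)).card = 2 ∨ N.eds (N.cls p) = ∅ := by
  obtain ⟨x, hx, n, hs, e⟩ := exists_strand h hp
  rw [e]
  rcases hs.2 with ⟨h1, h2⟩ | ⟨h1, -⟩
  · left
    obtain ⟨e1, e2⟩ := hs.eds_arc h hx h1 h2
    rw [e1, Finset.card_pair e2]
  · exact Or.inr (hs.eds_loop h hx h1)

/-- arcs -/
def ars (N : Net P) (C : Finset P) : Finset (Finset P) :=
  (N.classes C).filter fun c => (N.eds c).Nonempty

/-- weight of a strand -/
def cw (N : Net P) (c : Finset P) : ℝ :=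
  if (N.eds c).Nonempty then ‖N.z c‖ / √3 else ‖N.z c‖

lemma cw_nonneg (c : Finset P) : 0 ≤ N.cw c := by
  unfold cw; split_ifs <;> positivity

lemma cw_arc {c : Finset P} (hc : (N.eds c).Nonempty) : ‖N.z c‖ = √3 * N.cw c := by
  unfold cw
  rw [if_pos hc]
  field_simp

lemma cw_loop {c : Finset P} (hc : ¬ (N.eds c).Nonempty) : ‖N.z c‖ = N.cw c := by
  unfold cw
  rw [if_neg hc]

lemma one_le_s3 : (1 : ℝ) ≤ √3 := by
  rw [Real.one_le_sqrt]; norm_num

lemma cw_le_norm (c : Finset P) : N.cw c ≤ ‖N.z c‖ := by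
  unfold cw
  split_ifs
  · exact div_le_self (norm_nonneg _) one_le_s3
  · exact le_rfl

lemma cw_le (h : N.Ok) {C : Finset P} (hC : N.Cl C) {c : Finset P} (hc : c ∈ N.classes C) :
    N.cw c ≤ 2 := by
  obtain ⟨p, hp, rfl⟩ := Finset.mem_image.1 hc
  exact (cw_le_norm _).trans (norm_cls_le h (hC.sub hp))

/-- number of ends -/
theorem card_eds (h : N.Ok) {C : Finset P} (hC : N.Cl C) :
    (N.eds C).card = 2 * (N.ars C).card := by
  have e1 : N.eds C = (N.classes C).biUnion fun c => N.eds c := by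
    ext q
    rw [mem_eds, Finset.mem_biUnion]
    constructor
    · rintro ⟨hq, hb⟩
      exact ⟨N.cls q, Finset.mem_image_of_mem _ hq, mem_eds.2 ⟨self_mem_cls (hC.sub hq), hb⟩⟩
    · rintro ⟨c, hc, hq⟩
      rw [mem_eds] at hq
      exact ⟨(classes_sub h hC hc).1 hq.1, hq.2⟩
  rw [e1, Finset.card_biUnion, ← Finset.sum_filter_add_sum_filter_not (N.classes C)
    (fun c => (N.eds c).Nonempty)]
  · have s1 : ∑ c ∈ (N.classes C).filter (fun c => (N.eds c).Nonempty), (N.eds c).card =
        ∑ _c ∈ (N.classes C).filter (fun c => (N.eds c).Nonempty), 2 := by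
      refine Finset.sum_congr rfl fun c hc => ?_
      rw [Finset.mem_filter] at hc
      obtain ⟨p, hp, rfl⟩ := Finset.mem_image.1 hc.1
      rcases cls_eds h (hC.sub hp) with k | k
      · exact k
      · rw [k] at hc; exact absurd hc.2 Finset.not_nonempty_empty
    have s2 : ∑ c ∈ (N.classes C).filter (fun c => ¬ (N.eds c).Nonempty), (N.eds c).card = 0 := by
      refine Finset.sum_eq_zero fun c hc => ?_
      rw [Finset.mem_filter, Finset.not_nonempty_iff_eq_empty] at hc
      rw [hc.2, Finset.card_empty]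
    rw [s1, s2, Finset.sum_const, smul_eq_mul, add_zero, mul_comm]
    rfl
  · intro c hc d hd hne
    rw [Function.onFun, Finset.disjoint_left]
    intro q hq hq'
    rw [mem_eds] at hq hq'
    obtain ⟨p, hp, rfl⟩ := Finset.mem_image.1 hc
    obtain ⟨p', hp', rfl⟩ := Finset.mem_image.1 hd
    exact Finset.disjoint_left.1 (cls_disj h (hC.sub hp) (hC.sub hp') hne) hq.1 hq'.1

/-- **normal form of the value** -/
theorem norm_z_eq (h : N.Ok) {C : Finset P} (hC : N.Cl C) :
    ‖N.z C‖ = √3 ^ ((N.eds C).card / 2) * ∏ c ∈ N.classes C, N.cw c := by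
  have hcard : (N.eds C).card / 2 = (N.ars C).card := by
    rw [card_eds h hC]; omega
  rw [hcard, z_classes h hC, norm_prod,
    ← Finset.prod_filter_mul_prod_filter_not (N.classes C) (fun c => (N.eds c).Nonempty)
      (fun c => ‖N.z c‖),
    ← Finset.prod_filter_mul_prod_filter_not (N.classes C) (fun c => (N.eds c).Nonempty)
      (fun c => N.cw c)]
  have s1 : ∏ c ∈ (N.classes C).filter (fun c => (N.eds c).Nonempty), ‖N.z c‖ =
      √3 ^ (N.ars C).card *
        ∏ c ∈ (N.classes C).filter (fun c => (N.eds c).Nonempty), N.cw c := by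
    unfold ars
    rw [← Finset.prod_const, ← Finset.prod_mul_distrib]
    refine Finset.prod_congr rfl fun c hc => ?_
    rw [Finset.mem_filter] at hc
    exact cw_arc hc.2
  have s2 : ∏ c ∈ (N.classes C).filter (fun c => ¬ (N.eds c).Nonempty), ‖N.z c‖ =
      ∏ c ∈ (N.classes C).filter (fun c => ¬ (N.eds c).Nonempty), N.cw c := by
    refine Finset.prod_congr rfl fun c hc => ?_
    rw [Finset.mem_filter] at hc
    exact cw_loop hc.2
  rw [s1, s2]
  ring

/-- **pointwise bound** : `S i` = starting ends of the strands counted at the special point `i`,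
`B` = bad strands -/
theorem norm_z_bound (h : N.Ok) {C : Finset P} (hC : N.Cl C) {ι : Type*} (I : Finset ι)
    (S : ι → Finset P) (a : ι → ℝ) (ha : ∀ i ∈ I, 0 ≤ a i)
    (hS : ∀ i ∈ I, ∀ x ∈ S i, x ∈ C ∧ N.cw (N.cls x) ≤ a i)
    (hinj : ∀ i ∈ I, ∀ j ∈ I, ∀ x ∈ S i, ∀ y ∈ S j, N.cls x = N.cls y → i = j ∧ x = y)
    (B : Finset (Finset P))
    (hB : ∀ c ∈ N.classes C, (∀ i ∈ I, ∀ x ∈ S i, N.cls x ≠ c) → c ∉ B → N.cw c ≤ 1) :
    ‖N.z C‖ ≤ √3 ^ ((N.eds C).card / 2) * (∏ i ∈ I, a i ^ (S i).card) * 2 ^ B.card := by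
  classical
  rw [norm_z_eq h hC, mul_assoc]
  refine mul_le_mul_of_nonneg_left ?_ (by positivity)
  set Q : Finset (Finset P) := (N.classes C).filter fun c => ∃ i ∈ I, ∃ x ∈ S i, N.cls x = c
    with hQ
  rw [← Finset.prod_filter_mul_prod_filter_not (N.classes C)
    (fun c => ∃ i ∈ I, ∃ x ∈ S i, N.cls x = c)]
  refine mul_le_mul ?_ ?_ (Finset.prod_nonneg fun _ _ => cw_nonneg _)
    (Finset.prod_nonneg fun i hi => pow_nonneg (ha i hi) _)
  · -- the counted strands
    have e1 : (N.classes C).filter (fun c => ∃ i ∈ I, ∃ x ∈ S i, N.cls x = c) =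
        (I.sigma S).image fun y => N.cls y.2 := by
      ext c
      rw [Finset.mem_filter, Finset.mem_image]
      constructor
      · rintro ⟨-, i, hi, x, hx, rfl⟩
        exact ⟨⟨i, x⟩, Finset.mem_sigma.2 ⟨hi, hx⟩, rfl⟩
      · rintro ⟨⟨i, x⟩, hy, rfl⟩
        obtain ⟨hi, hx⟩ := Finset.mem_sigma.1 hy
        exact ⟨Finset.mem_image_of_mem _ (hS i hi x hx).1, i, hi, x, hx, rfl⟩
    rw [e1, Finset.prod_image]
    · rw [Finset.prod_sigma]
      refine Finset.prod_le_prod (fun i _ => Finset.prod_nonneg fun _ _ => cw_nonneg _)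
        fun i hi => ?_
      rw [← Finset.prod_const]
      exact Finset.prod_le_prod (fun _ _ => cw_nonneg _) fun x hx => (hS i hi x hx).2
    · rintro ⟨i, x⟩ hy ⟨j, y⟩ hy' e
      obtain ⟨hi, hx⟩ := Finset.mem_sigma.1 (Finset.mem_coe.1 hy)
      obtain ⟨hj, hy2⟩ := Finset.mem_sigma.1 (Finset.mem_coe.1 hy')
      obtain ⟨rfl, rfl⟩ := hinj i hi j hj x hx y hy2 e
      rfl
  · -- the other strands
    calc ∏ c ∈ (N.classes C).filter (fun c => ¬ ∃ i ∈ I, ∃ x ∈ S i, N.cls x = c), N.cw c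
        ≤ ∏ c ∈ (N.classes C).filter (fun c => ¬ ∃ i ∈ I, ∃ x ∈ S i, N.cls x = c),
            (if c ∈ B then (2 : ℝ) else 1) := by
          refine Finset.prod_le_prod (fun _ _ => cw_nonneg _) fun c hc => ?_
          rw [Finset.mem_filter] at hc
          split_ifs with hcB
          · exact cw_le h hC hc.1
          · exact hB c hc.1 (fun i hi x hx e => hc.2 ⟨i, hi, x, hx, e⟩) hcB
      _ = 2 ^ (((N.classes C).filter
            (fun c => ¬ ∃ i ∈ I, ∃ x ∈ S i, N.cls x = c)).filter (fun c => c ∈ B)).card := by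
          rw [Finset.prod_ite, Finset.prod_const, Finset.prod_const_one, mul_one]
      _ ≤ 2 ^ B.card := by
          refine pow_le_pow_right₀ (by norm_num) (Finset.card_le_card fun c hc => ?_)
          exact (Finset.mem_filter.1 hc).2

end Crest.Agent.R158.Ad350.Net
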