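import Crest.Agent.R158.Ka6_470
import Crest.Agent.R158.Nz3_399

/-!
# R158, block Q1d (helper399), part 5: expectation of a product of local factors times `b ^ bad`

* `BN h s` : explicit number of strands crossing the windows of the four charts; `BN_le` : it
  dominates the number of disjoint big sets; `BN_dep`, `BN_moment`
* `tame_transport` : tameness is transported to charts
* `asm` : `∫ (∏ F p) b ^ BN ≤ C n ^ ε ∏ ∫ F p`
-/

set_option autoImplicit false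

noncomputable section

namespace Crest.Agent.R158.Nz399

open MeasureTheory ProbabilityTheory unitInterval
open Crest.Agent.R158.Rs689
open Crest.Agent.R158.Nm211
open Crest.Agent.R158.Ka470
open Crest.Agent.R158.Env664 (TG)

universe u

/-! ### tameness in charts -/

theorem DepF.bm {ι : Type*} {S : Finset ι} {f : (ι → Bool) → ℝ} (hf : DepF S f)
    (h0 : ∀ z, 0 ≤ f z) : BM f := by
  obtain ⟨C, hC⟩ := hf.bdd
  exact ⟨hf.measurable, h0, C, fun z => (le_abs_self _).trans (hC z)⟩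

theorem depF_rd {τ : Type u} [DecidableEq τ] {T : Finset (ℤ × ℤ)} (emb : ℤ × ℤ → τ)
    (F : ℤ × ℤ → Bool) {f : (ℤ × ℤ → Bool) → ℝ} (hf : DepF T f) :
    DepF (T.image emb) fun s => f (rd emb F s) := by
  intro s s' hs
  refine hf _ _ fun v hv => ?_
  simp only [rd]
  rw [hs _ (Finset.mem_image_of_mem _ hv)]

theorem tame_transport {τ : Type u} {N C : ℝ} {T : Finset (ℤ × ℤ)} {emb : ℤ × ℤ → τ}
    (hinj : Set.InjOn emb (T : Set (ℤ × ℤ))) (F : ℤ × ℤ → Bool) {f : (ℤ × ℤ → Bool) → ℝ}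
    (hfT : DepF T f) (ht : Tame (PB fun _ : ℤ × ℤ => hf) N C f) :
    Tame (PB fun _ : τ => hf) N C fun s => f (rd emb F s) := by
  classical
  have hd := depF_rd emb F hfT
  have key : ∀ t : ℝ, ∫ s, f (rd emb F s) ^ t ∂(PB fun _ : τ => hf) =
      ∫ s, f s ^ t ∂(PB fun _ : ℤ × ℤ => hf) := fun t =>
    integral_transport (f := fun s => f s ^ t) hinj F (DepF.rpow hfT t)
  have key1 : ∫ s, f (rd emb F s) ∂(PB fun _ : τ => hf) =
      ∫ s, f s ∂(PB fun _ : ℤ × ℤ => hf) := integral_transport hinj F hfT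
  refine ⟨DepF.bm hd fun s => ht.bm.nonneg _, fun δ h0 h1 => ?_, fun δ h0 h1 => ?_⟩
  · rw [key, key1]
    exact ht.up δ h0 h1
  · rw [key, key1]
    exact ht.lo δ h0 h1

/-! ### the number of big windows -/

section big

variable {A : Half} {ρ : ℕ}

/-- windows -/
def Wf (h : A.Sz ρ) : Finset (Fin 4 × (ℤ × ℤ)) :=
  (Finset.univ : Finset (Fin 4)).biUnion fun i =>
    ((Half.chf h i).R.image (cel ρ)).image fun o => (i, o)

/-- **number of strands crossing windows** -/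
def BN (h : A.Sz ρ) (s : TG × Bool → Bool) : ℕ :=
  ∑ w : {w // w ∈ Wf h} × Dir, KK ((Half.chf h w.1.1.1).f s)
    (DW (Half.chf h w.1.1.1) ρ w.1.1.2 w.2) (YW ρ w.1.1.2 w.2) (XW ρ w.1.1.2 w.2)

theorem BN_le (h : A.Sz ρ) (s : TG × Bool → Bool) {N : ℕ}
    (P : Fin N → Set ((TG × Bool) × ZMod 4)) (hdis : ∀ i j, i ≠ j → ∀ p ∈ P i, p ∉ P j)
    (hbig : ∀ i, Half.BigS h s (P i)) : N ≤ BN h s := by
  classical
  have key := card_le (β := {w // w ∈ Wf h}) (fun w => Half.chf h w.1.1) (fun w => w.1.2) s ρ P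
    hdis (by
      intro i
      obtain ⟨j, o, ho, d, c, hc, hp⟩ := hbig i
      refine ⟨⟨(j, o), ?_⟩, d, c, hc, hp⟩
      exact Finset.mem_biUnion.2 ⟨j, Finset.mem_univ _, Finset.mem_image.2 ⟨o, ho, rfl⟩⟩)
  rw [Fintype.card_fin] at key
  exact key

/-- tiles of the double seen by the charts -/
def TN (h : A.Sz ρ) : Finset (TG × Bool) := by
  classical exact (Finset.univ : Finset (Fin 4)).biUnion fun i =>
    (Half.chf h i).R.image (Half.chf h i).emb

theorem BN_dep (h : A.Sz ρ) {s s' : TG × Bool → Bool} (hs : ∀ t ∈ TN h, s t = s' t) :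
    BN h s = BN h s' := by
  classical
  unfold BN
  refine Finset.sum_congr rfl fun w _ => ?_
  refine plane_dep (T := (Half.chf h w.1.1.1).R) (fun c hc => hc.1) fun v hv => ?_
  simp only [rd]
  rw [hs]
  exact Finset.mem_biUnion.2 ⟨w.1.1.1, Finset.mem_univ _, Finset.mem_image_of_mem _ hv⟩

theorem BN_depF (h : A.Sz ρ) (f : ℕ → ℝ) : DepF (TN h) fun s => f (BN h s) := by
  intro s s' hs
  show f (BN h s) = f (BN h s')
  rw [BN_dep h hs]

end big

theorem BN_moment (a : ℝ) (ha : 1 ≤ a) (κ : ℕ) : ∃ C : ℝ, 1 ≤ C ∧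
    ∀ (A : Half) (ρ : ℕ) (h : A.Sz ρ), A.Bd ρ κ →
      ∫ s, a ^ (BN h s) ∂(PB fun _ : TG × Bool => hf) ≤ C := by
  classical
  choose C hC1 hC using fun J : ℕ => chart_moment.{0} a ha J 2
  set Jm : ℕ := 4 * (2 * κ + 16 + 1) ^ 2 * 4 with hJm
  have hnn : ∀ J, 0 ≤ C J := fun J => zero_le_one.trans (hC1 J)
  refine ⟨∑ J ∈ Finset.range (Jm + 1), C J, ?_, ?_⟩
  · exact (hC1 0).trans (Finset.single_le_sum (f := C) (fun J _ => hnn J)
      (Finset.mem_range.2 (Nat.succ_pos _)))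
  intro A ρ h hb
  have hW : (Wf h).card ≤ 4 * (2 * κ + 16 + 1) ^ 2 := by
    refine Finset.card_biUnion_le.trans ?_
    refine (Finset.sum_le_card_nsmul _ _ ((2 * κ + 16 + 1) ^ 2) fun i _ => ?_).trans ?_
    · exact Finset.card_image_le.trans (Half.cells h hb i)
    · simp
  let β := {w // w ∈ Wf h}
  let e : Fin (Fintype.card (β × Dir)) ≃ β × Dir := (Fintype.equivFin _).symm
  have hcard : Fintype.card (β × Dir) ≤ Jm := by
    rw [Fintype.card_prod, Fintype.card_coe, Fintype.card_fin]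
    exact Nat.mul_le_mul_right _ hW
  refine (hC (Fintype.card (β × Dir)) ρ h.pos (TG × Bool)
    (fun b => (Half.chf h (e b).1.1.1).emb) (fun b => (Half.chf h (e b).1.1.1).Fn)
    (fun b => (e b).1.1.2)
    (fun b => DW (Half.chf h (e b).1.1.1) ρ (e b).1.1.2 (e b).2)
    (fun b => YW ρ (e b).1.1.2 (e b).2) (fun b => XW ρ (e b).1.1.2 (e b).2)
    (fun b => (Half.chf h (e b).1.1.1).R)
    (fun b => (Half.chf h (e b).1.1.1).inj) (fun b c hc => hc.1)
    (fun b => window_ent _ _ _ _) (fun b => window_box h.pos _ _)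
    (fun b => window_far _ _) (BN h) fun s => ?_).trans ?_
  · refine le_of_eq ?_
    exact (Fintype.sum_equiv e _ _ fun b => rfl).symm
  · exact Finset.single_le_sum (f := C) (fun J _ => hnn J)
      (Finset.mem_range.2 (Nat.lt_succ_of_le hcard))

/-! ### assembly -/

/-- **expectation of a product of local tame factors times `b ^ BN`**, loss `n ^ ε` -/
theorem asm (κ M : ℕ) (b : ℝ) (hb1 : 1 ≤ b) (C0 : ℝ) (hC0 : 0 ≤ C0) (ε : ℝ) (hε : 0 < ε) :
    ∃ C : ℝ, 1 ≤ C ∧ ∀ (A : Half) (ρ : ℕ) (h : A.Sz ρ), A.Bd ρ κ → ∀ n : ℕ, 1 ≤ n →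
      ∀ {κ' : Type} (s : Finset κ'), s.card ≤ M → ∀ (S : κ' → Finset (TG × Bool)),
      (∀ i ∈ s, ∀ j ∈ s, i ≠ j → Disjoint (S i) (S j)) →
      ∀ F : κ' → (TG × Bool → Bool) → ℝ, (∀ i ∈ s, DepF (S i) (F i)) →
      (∀ i ∈ s, Tame (PB fun _ : TG × Bool => hf) n C0 (F i)) →
      ∫ z, (∏ i ∈ s, F i z) * b ^ BN h z ∂(PB fun _ : TG × Bool => hf) ≤
        C * (n : ℝ) ^ ε * ∏ i ∈ s, ∫ z, F i z ∂(PB fun _ : TG × Bool => hf) := by
  classical
  -- choice of `δ`
  set δ : ℝ := min (1 / 2) (ε / (M * C0 + 1)) with hδ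
  have hMC : 0 < (M : ℝ) * C0 + 1 := by positivity
  have hδ0 : 0 < δ := lt_min (by norm_num) (by positivity)
  have hδ1 : δ ≤ 1 / 2 := min_le_left _ _
  have hδε : M * (C0 * δ) ≤ ε := by
    have h1 : δ ≤ ε / (M * C0 + 1) := min_le_right _ _
    rw [le_div_iff₀ hMC] at h1
    nlinarith
  set t : ℝ := (1 + δ) / δ with ht
  have ht0 : 0 < t := by positivity
  -- integer exponent
  set q : ℕ := ⌈t⌉₊ with hq
  have hqt : t ≤ q := Nat.le_ceil _
  obtain ⟨C, hC1, hC⟩ := BN_moment (b ^ q) (one_le_pow₀ hb1) κ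
  refine ⟨C, hC1, ?_⟩
  intro A ρ h hBd n hn κ' s hs S hS F hD hF
  have hn1 : (1 : ℝ) ≤ n := by exact_mod_cast hn
  have hb0 : 0 ≤ b := zero_le_one.trans hb1
  have hG : BM fun z => b ^ BN h z :=
    DepF.bm (BN_depF h fun k => b ^ k) fun z => pow_nonneg hb0 _
  have key := loc_upper (w := fun _ : TG × Bool => hf) hn1 s S hS F hD hF hG hδ0 hδ1
  refine key.trans ?_
  have hprod : 0 ≤ ∏ i ∈ s, ∫ z, F i z ∂(PB fun _ : TG × Bool => hf) :=
    Finset.prod_nonneg fun i hi => (hF i hi).bm.int_nonneg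
  have h1 : (n : ℝ) ^ (s.card * (C0 * δ)) ≤ (n : ℝ) ^ ε := by
    refine Real.rpow_le_rpow_of_exponent_le hn1 (le_trans ?_ hδε)
    refine mul_le_mul_of_nonneg_right (by exact_mod_cast hs) (by positivity)
  have h2 : ∫ z, (b ^ BN h z) ^ t ∂(PB fun _ : TG × Bool => hf) ≤ C := by
    refine le_trans (integral_mono ?_ ?_ fun z => ?_) (hC A ρ h hBd)
    · exact (DepF.rpow (BN_depF h fun k => b ^ k) t).integrable _
    · exact (BN_depF h fun k => (b ^ q) ^ k).integrable _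
    · show (b ^ BN h z) ^ t ≤ (b ^ q) ^ BN h z
      rw [← pow_mul, mul_comm q, pow_mul, ← Real.rpow_natCast (b ^ BN h z) q]
      exact Real.rpow_le_rpow_of_exponent_le (one_le_pow₀ hb1) hqt
  have h3 : (∫ z, (b ^ BN h z) ^ t ∂(PB fun _ : TG × Bool => hf)) ^ (δ / (1 + δ)) ≤ C := by
    refine (Real.rpow_le_rpow (hG.rpow ht0.le).int_nonneg h2 (by positivity)).trans ?_
    have h4 : C ^ (δ / (1 + δ)) ≤ C ^ (1 : ℝ) := by
      refine Real.rpow_le_rpow_of_exponent_le hC1 ?_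
      rw [div_le_one (by linarith)]; linarith
    rwa [Real.rpow_one] at h4
  have h4 : 0 ≤ (∫ z, (b ^ BN h z) ^ t ∂(PB fun _ : TG × Bool => hf)) ^ (δ / (1 + δ)) :=
    Real.rpow_nonneg (hG.rpow ht0.le).int_nonneg _
  calc (n : ℝ) ^ (s.card * (C0 * δ)) * (∏ i ∈ s, ∫ z, F i z ∂(PB fun _ : TG × Bool => hf)) *
        (∫ z, (b ^ BN h z) ^ t ∂(PB fun _ : TG × Bool => hf)) ^ (δ / (1 + δ))
      ≤ (n : ℝ) ^ ε * (∏ i ∈ s, ∫ z, F i z ∂(PB fun _ : TG × Bool => hf)) * C := by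
        refine mul_le_mul (mul_le_mul_of_nonneg_right h1 hprod) h3 h4 (by positivity)
    _ = _ := by ring

end Crest.Agent.R158.Nz399
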