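import Crest.Agent.R158.Ne1_808
import Crest.Agent.R158.Nz5_399
import Crest.Agent.R158.Nz4_399

/-!
# R158, block Q1d, leaf (E) (helper808), part 2: strands counted at a special point

* `Spot` : chart, kind, rotation, position; `Spot.cs` : the states counted by `Kp`
* `kwk_wa`, `wa_wk` : walks of helper470 and walks of the network
* `Spot.cs_eds` : the class of a counted state has two cut ends: the entering port and a port on the
  second side
* `spot_inj` : different counted states of disjoint spots have different classes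
-/

set_option autoImplicit false
set_option linter.unusedSectionVars false

noncomputable section

namespace Crest.Agent.R158.Ne808

open Crest.Agent.R158.Nm211
open Crest.Agent.R158.Nz399
open Crest.Agent.R158.Ka470
open Crest.Agent.R158.Ad350 (Net tnet ports mem_ports mem_ports' tnet_ok)
open Crest.Agent.R158.Sw300 (Port thru)

/-! ### sides of the standard pictures -/

theorem Xk_Dk {k : Kind} {n : ℕ} {c : St ℤ} (h : c ∈ Xk k n) : c ∈ Dk k n := by
  cases k
  · obtain ⟨x, hx, rfl⟩ := Finset.mem_image.1 h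
    rw [Finset.mem_Ico] at hx
    refine mem_Tk.2 ⟨⟨⟨?_, ?_⟩, ?_, ?_⟩, ?_, ?_⟩ <;> simp only <;> omega
  · obtain ⟨x, hx, rfl⟩ := Finset.mem_image.1 h
    rw [Finset.mem_Ico] at hx
    refine mem_Tk.2 ⟨⟨⟨?_, ?_⟩, ?_, ?_⟩, Or.inl ?_⟩ <;> simp only <;> omega
  · obtain ⟨x, hx, rfl⟩ := Finset.mem_image.1 h
    rw [Finset.mem_Ico] at hx
    refine mem_Tk.2 ⟨⟨⟨?_, ?_⟩, ?_, ?_⟩, ?_⟩ <;> simp only [qd] <;> omega

theorem Xk_Yk {k : Kind} {n : ℕ} {c : St ℤ} (h : c ∈ Xk k n) : c ∉ Yk k := by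
  intro hy
  cases k
  · obtain ⟨x, hx, rfl⟩ := Finset.mem_image.1 h
    rw [Finset.mem_Ico] at hx
    have hy' : x < 0 := hy
    omega
  · obtain ⟨x, hx, rfl⟩ := Finset.mem_image.1 h
    have hy' : (0 : ℤ) < 0 := hy.1
    omega
  · obtain ⟨x, hx, rfl⟩ := Finset.mem_image.1 h
    rw [Finset.mem_Ico] at hx
    have hy' : x < 0 := hy.1
    omega

/-- the exit side of a counted strand is not an entering side -/
theorem side_std {k : Kind} {n : ℕ} {c c' c'' : St ℤ} (hc : c ∈ Dk k n)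
    (hs : c'.1 = mv c.1 c'.2) (hy : c' ∈ Yk k) (hx : c'' ∈ Xk k n) :
    ¬ (c''.1 = c.1 ∧ c''.2 = opp c'.2) := by
  rintro ⟨h1, h2⟩
  have hs1 : c'.1.1 = c.1.1 + dx c'.2 := by rw [hs]; simp [mv]
  have hs2 : c'.1.2 = c.1.2 + dy c'.2 := by rw [hs]; simp [mv]
  obtain ⟨-, hq⟩ := mem_Tk.1 hc
  cases k
  · obtain ⟨x, hx2, rfl⟩ := Finset.mem_image.1 hx
    have hy' : c'.1.1 < 0 := hy
    have hq' : 0 ≤ c.1.1 ∧ 0 ≤ c.1.2 := hq
    rcases dxy c'.2 with ⟨hd, h3, h4⟩ | ⟨hd, h3, h4⟩ | ⟨hd, h3, h4⟩ | ⟨hd, h3, h4⟩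
    · omega
    · omega
    · omega
    · rw [hd] at h2
      have h5 : (0 : Dir) = opp 3 := h2
      exact absurd h5 (by decide)
  · obtain ⟨x, hx2, rfl⟩ := Finset.mem_image.1 hx
    have hy' : c'.2 = 2 := hy.2.2
    rw [hy'] at h2
    have h5 : (1 : Dir) = opp 2 := h2
    exact absurd h5 (by decide)
  · obtain ⟨x, hx2, rfl⟩ := Finset.mem_image.1 hx
    rw [Finset.mem_Ico] at hx2
    have hy1 : c'.1.1 < 0 := hy.1
    have hy2 : c'.1.2 < 0 := hy.2
    have hq' : 0 ≤ c.1.2 := hq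
    have h5 : x = c.1.1 := congrArg Prod.fst h1
    rcases dxy c'.2 with ⟨hd, h3, h4⟩ | ⟨hd, h3, h4⟩ | ⟨hd, h3, h4⟩ | ⟨hd, h3, h4⟩ <;> omega

/-! ### rotations -/

theorem opp_add (d : Dir) : opp (d + 3) = opp d + 3 := by fin_cases d <;> rfl

theorem rs_step {c c' : St ℤ} : (rs c').1 = mv (rs c).1 (rs c').2 ↔ c'.1 = mv c.1 c'.2 := by
  show rt c'.1 = mv (rt c.1) (c'.2 + 3) ↔ _
  rw [mv_rot]
  exact rt_inj.eq_iff

theorem ps_step {g : ℕ} {p : ℤ × ℤ} {c c' : St ℤ} :
    (ps g p c').1 = mv (ps g p c).1 (ps g p c').2 ↔ c'.1 = mv c.1 c'.2 := by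
  have h1 : ∀ (g : ℕ) (c c' : St ℤ),
      (rs^[g] c').1 = mv (rs^[g] c).1 (rs^[g] c').2 ↔ c'.1 = mv c.1 c'.2 := by
    intro g
    induction g with
    | zero => intro c c'; rfl
    | succ g ih =>
      intro c c'
      rw [Function.iterate_succ_apply, Function.iterate_succ_apply, ih, rs_step]
  rw [← h1 g c c']
  show (rs^[g] c').1 + p = mv ((rs^[g] c).1 + p) (rs^[g] c').2 ↔ _
  rw [mv_add]
  exact add_left_inj p

theorem ps_opp {g : ℕ} {p : ℤ × ℤ} {c c' : St ℤ} :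
    (ps g p c).2 = opp (ps g p c').2 ↔ c.2 = opp c'.2 := by
  show (rs^[g] c).2 = opp (rs^[g] c').2 ↔ _
  induction g generalizing c c' with
  | zero => rfl
  | succ g ih =>
    rw [Function.iterate_succ_apply, Function.iterate_succ_apply, ih]
    show c.2 + 3 = opp (c'.2 + 3) ↔ _
    rw [opp_add, add_left_inj]

theorem ps_pos {g : ℕ} {p : ℤ × ℤ} {c c' : St ℤ} : (ps g p c).1 = (ps g p c').1 ↔ c.1 = c'.1 := by
  show (rs^[g] c).1 + p = (rs^[g] c').1 + p ↔ _
  rw [add_left_inj, rs_iter_fst, rs_iter_fst]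
  exact (rt_inj.iterate g).eq_iff

theorem ps_pl (g : ℕ) (p : ℤ × ℤ) (c : St ℤ) : (ps g p c).1 = pl g p c.1 := by
  show (rs^[g] c).1 + p = _
  rw [rs_iter_fst]
  rfl

theorem side_ps {k : Kind} {n g : ℕ} {p : ℤ × ℤ} {c c' c'' : St ℤ} (hc : c ∈ ps g p '' Dk k n)
    (hs : c'.1 = mv c.1 c'.2) (hy : c' ∈ ps g p '' Yk k) (hx : c'' ∈ (Xk k n).image (ps g p)) :
    ¬ (c''.1 = c.1 ∧ c''.2 = opp c'.2) := by
  obtain ⟨c, hc, rfl⟩ := hc
  obtain ⟨c', hy, rfl⟩ := hy
  obtain ⟨c'', hx2, rfl⟩ := Finset.mem_image.1 hx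
  rw [ps_opp, ps_pos]
  exact side_std hc (ps_step.1 hs) hy hx2

/-! ### walks -/

section walks

variable {T : Type*} {G : T × ZMod 4 → T × ZMod 4 → Prop}

/-- iterates inside the region are a walk -/
theorem iter_wk (C : Ch T G) (s : T → Bool) (c : St ℤ) (m : ℕ)
    (hin : ∀ j ≤ m, ((C.f s)^[j] c).1 ∈ C.R) :
    Wk s G (C.pe c) (C.pt ((C.f s)^[m] c).1 (ex ((C.f s)^[m + 1] c).2))
        ((List.range (m + 1)).map (fun j => C.pe ((C.f s)^[j] c))) := by
  induction m with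
  | zero =>
    have := Wk.one (s := s) (G := G) (x := C.pe c)
    rw [C.exit_eq] at this
    simpa using this
  | succ k ih =>
    have h1 := ih fun j hj => hin j (by omega)
    have h2 := C.glue_next s (c := (C.f s)^[k] c) (hin k (by omega)) (by
      rw [← Function.iterate_succ_apply' (C.f s)]; exact hin (k + 1) le_rfl)
    rw [← Function.iterate_succ_apply' (C.f s)] at h2
    have h3 := Wk.snoc h1 h2
    rw [C.exit_eq, ← Function.iterate_succ_apply' (C.f s)] at h3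
    rw [List.range_succ (n := k + 1), List.map_append]
    exact h3

variable [DecidableEq T]

/-- walks of helper470 are walks of the network -/
theorem kwk_wa {A : Finset T} {s : T → Bool} {be : Port T → Port T} {ch : Port T → ℝ}
    (hG : ∀ a b, G a b → be (some a) = some b ∧ a ≠ b)
    {x y : T × ZMod 4} {l : List (T × ZMod 4)} (w : Wk s G x y l) :
    (tnet A s be ch).Wa (some x) (some y) (l.map some) := by
  induction w with
  | one => exact Net.Wa.one _
  | @snoc q r l w hg ih =>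
    obtain ⟨h1, h2⟩ := hG q r hg
    rw [List.map_append, List.map_singleton]
    have := Net.Wa.snoc ih (by
      show be (some q) ≠ some q
      rw [h1]
      exact fun e => h2 (Option.some.inj e).symm)
    have e : (tnet A s be ch).be (some q) = some r := h1
    rw [e] at this
    exact this

/-- walks of the network are walks of helper470 -/
theorem wa_wk {A : Finset T} {s : T → Bool} {be : Port T → Port T} {ch : Port T → ℝ}
    (hb : ∀ p ∈ ports A, be p ∈ ports A)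
    (hG : ∀ a b : T × ZMod 4, a.1 ∈ A → be (some a) = some b → a ≠ b → G a b)
    {x y : Port T} {l : List (Port T)} (w : (tnet A s be ch).Wa x y l) (hx : x ∈ ports A) :
    ∃ x' y' l', x = some x' ∧ y = some y' ∧ l = l'.map some ∧ x'.1 ∈ A ∧ y'.1 ∈ A ∧
      Wk s G x' y' l' := by
  induction w with
  | one =>
    obtain ⟨t, d, rfl, ht⟩ := mem_ports' hx
    exact ⟨(t, d), _, [(t, d)], rfl, rfl, rfl, ht, ht, Wk.one⟩
  | @snoc q l w hne ih =>
    obtain ⟨x', q', l', rfl, rfl, rfl, hx', hq', w'⟩ := ih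
    have hm : be (some q') ∈ ports A := hb _ (mem_ports.2 hq')
    obtain ⟨t, d, hr, ht⟩ := mem_ports' hm
    have hr' : (tnet A s be ch).be (some q') = some (t, d) := hr
    have hg : G q' (t, d) := hG q' (t, d) hq' hr fun e => hne (by rw [hr', e])
    refine ⟨x', (t, thru (s t) d), l' ++ [(t, d)], rfl, ?_, ?_, hx', ht, Wk.snoc w' hg⟩
    · rw [hr']; rfl
    · rw [List.map_append, hr']; rfl

end walks

/-! ### ends of the class of a walk -/

theorem wa_eds {P : Type*} [DecidableEq P] {N : Net P} (h : N.Ok) {x y : P} (hx : x ∈ N.V)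
    {l : List P} (w : N.Wa x y l) (h1 : N.be x = x) (h2 : N.be y = y) :
    N.eds (N.cls x) = {x, y} := by
  obtain ⟨n, -, rfl, h3⟩ := w.data
  exact (Net.Strand.eds_arc h hx (n := n) ⟨h3, Or.inl ⟨h1, h2⟩⟩ h1 h2).1

/-! ### special points -/

/-- special point: chart, kind, number of quarter turns, position -/
structure Spot (ι : Type*) where
  i : ι
  k : Kind
  g : ℕ
  p : ℤ × ℤ

namespace Spot

variable {ι T : Type*} {G : T × ZMod 4 → T × ZMod 4 → Prop}

instance : DecidableEq (Spot ι) := Classical.decEq _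

/-- entering states -/
def X (v : Spot ι) (n : ℕ) : Finset (St ℤ) := (Xk v.k n).image (ps v.g v.p)

/-- states of the box -/
def D (v : Spot ι) (n : ℕ) : Set (St ℤ) := ps v.g v.p '' Dk v.k n

/-- states behind the second side -/
def Y (v : Spot ι) : Set (St ℤ) := ps v.g v.p '' Yk v.k

/-- counted states -/
def cs (C : ι → Ch T G) (v : Spot ι) (n : ℕ) (s : T → Bool) : Finset (St ℤ) := by
  classical exact (v.X n).filter fun c => Hit ((C v.i).f s) (v.D n) v.Y c

/-- the count -/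
def K (C : ι → Ch T G) (v : Spot ι) (n : ℕ) (s : T → Bool) : ℕ :=
  Kp v.k v.g v.p n (rd (C v.i).emb (C v.i).Fn s)

theorem card_cs (C : ι → Ch T G) (v : Spot ι) (n : ℕ) (s : T → Bool) :
    (v.cs C n s).card = v.K C n s := by
  classical
  unfold cs K Kp KK
  congr

theorem mem_cs {C : ι → Ch T G} {v : Spot ι} {n : ℕ} {s : T → Bool} {c : St ℤ} :
    c ∈ v.cs C n s ↔ c ∈ v.X n ∧ Hit ((C v.i).f s) (v.D n) v.Y c := by
  classical
  unfold cs
  rw [Finset.mem_filter]

/-- tiles of the box -/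
def sup [DecidableEq T] (C : ι → Ch T G) (v : Spot ι) (n : ℕ) : Finset T :=
  (Tk v.k n).image fun u => (C v.i).emb (pl v.g v.p u)

theorem X_D {v : Spot ι} {n : ℕ} {c : St ℤ} (h : c ∈ v.X n) : c ∈ v.D n := by
  obtain ⟨c, hc, rfl⟩ := Finset.mem_image.1 h
  exact ⟨c, Xk_Dk hc, rfl⟩

theorem D_sup [DecidableEq T] {C : ι → Ch T G} {v : Spot ι} {n : ℕ} {c : St ℤ} (h : c ∈ v.D n) :
    (C v.i).emb c.1 ∈ v.sup C n := by
  obtain ⟨c, hc, rfl⟩ := h
  rw [ps_pl]
  exact Finset.mem_image_of_mem _ hc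

/-- a counted strand leaves the box through the second side -/
theorem cs_exit {C : ι → Ch T G} {v : Spot ι} {n : ℕ} {s : T → Bool} {c : St ℤ}
    (h : c ∈ v.cs C n s) : ∃ m, (∀ j ≤ m, ((C v.i).f s)^[j] c ∈ v.D n) ∧
      ((C v.i).f s)^[m + 1] c ∈ v.Y := by
  obtain ⟨hx, n', h1, h2⟩ := mem_cs.1 h
  have hn : n' ≠ 0 := by
    rintro rfl
    obtain ⟨c0, hc0, rfl⟩ := Finset.mem_image.1 hx
    obtain ⟨c1, hc1, e⟩ := h2
    have := ps_inj _ _ e
    subst this
    exact Xk_Yk hc0 hc1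
  obtain ⟨m, rfl⟩ := Nat.exists_eq_succ_of_ne_zero hn
  exact ⟨m, fun j hj => h1 j (by omega), h2⟩

/-- the spot is completely seen: its tiles belong to the chart, the ports of both sides are free -/
structure Seen (C : ι → Ch T G) (be : Port T → Port T) (v : Spot ι) (n : ℕ) : Prop where
  mem : ∀ c ∈ v.D n, c.1 ∈ (C v.i).R
  first : ∀ c ∈ v.X n, be (some ((C v.i).pe c)) = some ((C v.i).pe c)
  second : ∀ c ∈ v.D n, ∀ c' ∈ v.Y, c'.1 = mv c.1 c'.2 →
    be (some ((C v.i).pt c.1 (ex c'.2))) = some ((C v.i).pt c.1 (ex c'.2))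

variable [DecidableEq T] {C : ι → Ch T G} {A : Finset T} {be : Port T → Port T}
  {ch : Port T → ℝ} {s : T → Bool} {n : ℕ}

theorem pe_inj {v : Spot ι} (hv : v.Seen C be n) {c c' : St ℤ} (hc : c ∈ v.X n)
    (hc' : c' ∈ v.X n) (e : (C v.i).pe c = (C v.i).pe c') : c = c' :=
  (C v.i).pe_inj (hv.mem c (X_D hc)) (hv.mem c' (X_D hc')) e

/-- **the class of a counted state** -/
theorem cs_eds (hN : (tnet A s be ch).Ok) (hG : ∀ a b, G a b → be (some a) = some b ∧ a ≠ b)
    (hA : ∀ i, ∀ u ∈ (C i).R, (C i).emb u ∈ A) {v : Spot ι} (hv : v.Seen C be n) {c : St ℤ}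
    (hc : c ∈ v.cs C n s) : ∃ y : T × ZMod 4, y.1 ∈ v.sup C n ∧
      (∀ c' ∈ v.X n, (C v.i).pe c' ≠ y) ∧ some ((C v.i).pe c) ∈ ports A ∧
      (tnet A s be ch).eds ((tnet A s be ch).cls (some ((C v.i).pe c))) =
        {some ((C v.i).pe c), some y} ∧
      ∃ l, Wk s G ((C v.i).pe c) y l ∧ ∃ m, l = (List.range (m + 1)).map
        (fun j => (C v.i).pe (((C v.i).f s)^[j] c)) ∧
        ∀ j ≤ m, ((C v.i).f s)^[j] c ∈ v.D n := by
  obtain ⟨m, h1, h2⟩ := cs_exit hc
  have hX := (mem_cs.1 hc).1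
  have hR : ∀ j ≤ m, (((C v.i).f s)^[j] c).1 ∈ (C v.i).R := fun j hj => hv.mem _ (h1 j hj)
  have hstep : (((C v.i).f s)^[m + 1] c).1 =
      mv (((C v.i).f s)^[m] c).1 (((C v.i).f s)^[m + 1] c).2 := by
    rw [Function.iterate_succ_apply']
    rfl
  have hw := iter_wk (C v.i) s c m hR
  have hb2 := hv.second _ (h1 m le_rfl) _ h2 hstep
  have hport : some ((C v.i).pe c) ∈ ports A := by
    show some ((C v.i).emb c.1, _) ∈ ports A
    exact mem_ports.2 (hA _ _ (hv.mem _ (X_D hX)))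
  refine ⟨_, D_sup (h1 m le_rfl), fun c' hc' e => ?_, hport, ?_, _, hw, m, rfl, h1⟩
  · have e' : (C v.i).pt c'.1 (en c'.2) =
      (C v.i).pt (((C v.i).f s)^[m] c).1 (ex (((C v.i).f s)^[m + 1] c).2) := e
    simp only [Ch.pt, Prod.mk.injEq] at e'
    have e1 := (C v.i).inj (hv.mem _ (X_D hc')) (hv.mem _ (h1 m le_rfl)) e'.1
    have e2 := e'.2
    rw [e1] at e2
    have e3 := sg_inj _ e2
    refine side_ps (h1 m le_rfl) hstep h2 hc' ⟨e1, ?_⟩
    rw [← ex_en] at e3
    have e4 := ex_inj e3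
    rw [← e4]
    generalize c'.2 = d
    fin_cases d <;> rfl
  · exact wa_eds hN hport (kwk_wa hG hw) (hv.first c hX) hb2

/-- **different counted states of disjoint spots have different classes** -/
theorem spot_inj (hN : (tnet A s be ch).Ok) (hG : ∀ a b, G a b → be (some a) = some b ∧ a ≠ b)
    (hA : ∀ i, ∀ u ∈ (C i).R, (C i).emb u ∈ A) {v v' : Spot ι} (hv : v.Seen C be n)
    (hv' : v'.Seen C be n) (hd : v ≠ v' → Disjoint (v.sup C n) (v'.sup C n)) {c c' : St ℤ}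
    (hc : c ∈ v.cs C n s) (hc' : c' ∈ v'.cs C n s)
    (e : (tnet A s be ch).cls (some ((C v.i).pe c)) =
      (tnet A s be ch).cls (some ((C v'.i).pe c'))) :
    v = v' ∧ some ((C v.i).pe c) = some ((C v'.i).pe c') := by
  obtain ⟨y, hy1, hy2, hy3, hy4, -⟩ := cs_eds (ch := ch) hN hG hA hv hc
  obtain ⟨y', hy1', hy2', hy3', hy4', -⟩ := cs_eds (ch := ch) hN hG hA hv' hc'
  have h1 : some ((C v'.i).pe c') ∈ ({some ((C v.i).pe c), some y} : Finset (Port T)) := by
    rw [← hy4, e, hy4']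
    exact Finset.mem_insert_self _ _
  have hc1 := (mem_cs.1 hc).1
  have hc1' := (mem_cs.1 hc').1
  rw [Finset.mem_insert, Finset.mem_singleton] at h1
  have hs1 : ((C v.i).pe c).1 ∈ v.sup C n := D_sup (X_D hc1)
  have hs2 : ((C v'.i).pe c').1 ∈ v'.sup C n := D_sup (X_D hc1')
  rcases h1 with h1 | h1
  · refine ⟨?_, h1.symm⟩
    by_contra hne
    have h2 := Option.some.inj h1
    rw [h2] at hs2
    exact Finset.disjoint_left.1 (hd hne) hs1 hs2
  · exfalso
    have h2 := Option.some.inj h1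
    by_cases hne : v = v'
    · subst hne
      exact hy2 c' hc1' h2
    · rw [h2] at hs2
      exact Finset.disjoint_left.1 (hd hne) hy1 hs2

/-! ### product over the spots -/

/-- **product bound**: corners counted by `Kp`, bad classes -/
theorem prod_bound (hN : (tnet A s be ch).Ok)
    (hG : ∀ a b, G a b → be (some a) = some b ∧ a ≠ b)
    (hA : ∀ i, ∀ u ∈ (C i).R, (C i).emb u ∈ A) (I : Finset (Spot ι))
    (hI : ∀ v ∈ I, v.Seen C be n)
    (hd : ∀ v ∈ I, ∀ v' ∈ I, v ≠ v' → Disjoint (v.sup C n) (v'.sup C n))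
    (a : Spot ι → ℝ) (ha : ∀ v ∈ I, 0 ≤ a v)
    (h1 : ∀ v ∈ I, ∀ c ∈ v.cs C n s,
      (tnet A s be ch).cw ((tnet A s be ch).cls (some ((C v.i).pe c))) ≤ a v)
    (B : Finset (Finset (Port T)))
    (hB : ∀ c ∈ (tnet A s be ch).classes (ports A),
      (∀ v ∈ I, ∀ c' ∈ v.cs C n s, (tnet A s be ch).cls (some ((C v.i).pe c')) ≠ c) →
      c ∉ B → (tnet A s be ch).cw c ≤ 1) :
    ‖(tnet A s be ch).z (ports A)‖ ≤
      √3 ^ (((tnet A s be ch).eds (ports A)).card / 2) * (∏ v ∈ I, a v ^ v.K C n s) *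
        2 ^ B.card := by
  have key := Net.norm_z_bound hN hN.clV I
    (fun v => (v.cs C n s).image fun c => some ((C v.i).pe c)) a ha
    (fun v hv x hx => by
      obtain ⟨c, hc, rfl⟩ := Finset.mem_image.1 hx
      obtain ⟨y, -, -, hy, -⟩ := cs_eds (ch := ch) hN hG hA (hI v hv) hc
      exact ⟨hy, h1 v hv c hc⟩)
    (fun v hv v' hv' x hx y hy e => by
      obtain ⟨c, hc, rfl⟩ := Finset.mem_image.1 hx
      obtain ⟨c', hc', rfl⟩ := Finset.mem_image.1 hy
      exact spot_inj (ch := ch) hN hG hA (hI v hv) (hI v' hv') (hd v hv v' hv') hc hc' e)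
    B (fun c hc hc' hcB => hB c hc (fun v hv c' hc'' => hc' v hv _
      (Finset.mem_image_of_mem _ hc'')) hcB)
  have hcard : ∀ v ∈ I, ((v.cs C n s).image fun c => some ((C v.i).pe c)).card = v.K C n s := by
    intro v hv
    rw [Finset.card_image_of_injOn, card_cs]
    intro c hc c' hc' e
    exact pe_inj (hI v hv) (mem_cs.1 (Finset.mem_coe.1 hc)).1 (mem_cs.1 (Finset.mem_coe.1 hc')).1
      (Option.some.inj e)
  rw [Finset.prod_congr rfl fun v hv => by rw [hcard v hv]] at key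
  exact key

end Spot

end Crest.Agent.R158.Ne808
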