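import Crest.Agent.R158.Pt7_266
import Crest.Agent.R158.Ka7_470
import Crest.Agent.R158.Ad5_350

/-!
# R158, patches (helper266), file Pt8: strands in the charts of helper470

* `ip c` : port through which the state `c` enters its tile; `dir`, `pass` in terms of `mv`, `trn`
* `quadB`, `mem_quadB` : the quadrant pattern of a chart in a box
* `iter_wk` : iterates of the chart walk = strand of the region
* `real_in`, `real_out`, `free_real` : free ends of the complex = real ends of the pattern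
* `small` : a strand of the complex between free ends that stays in a box is a strand of the
  pattern between real ends, or it crosses a window
* `Rule` : local rule of the phases, gauge on the box
* **`phase`** : phase of a strand between real ends; `phase_loop`
* `val` : values of the strands
-/

set_option autoImplicit false
set_option linter.unusedVariables false
set_option linter.unusedSectionVars false
set_option linter.unusedSimpArgs false

noncomputable section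

namespace Crest.Agent.R158.Pt266

open Crest.Agent.R158.Sw300 (Port thru tn)
open Crest.Agent.R158.Xr249 (full CPath)
open Crest.Agent.R158.Nm211 (St Dir mv dx dy trn nx6 rd opp Hit KK)
open Crest.Agent.R158.Ka470 (Patt View Free en ex sg B1 B3 Cross)
open Crest.Agent.R158.Ad350 (tnet tql seam)

/-! ### dictionary -/

lemma dxy_dir : ∀ d : Dir, dir (ex d) = (dx d, dy d) := by decide

lemma mv_dir (v : ℤ × ℤ) (d : Dir) : mv v d = v + dir (ex d) := by
  rw [dxy_dir]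
  simp only [mv, Int.cast_id]
  rfl

lemma ex_surj : ∀ a : ZMod 4, ∃ d : Dir, ex d = a := by decide

lemma en_ex (d : Dir) : en d = ex d + 2 := by revert d; decide

lemma ex_en2 (d : Dir) : ex d = en d + 2 := by revert d; decide

/-- port through which the state enters its tile -/
def ip (c : St ℤ) : (ℤ × ℤ) × ZMod 4 := (c.1, en c.2)

lemma ip_inj {c c' : St ℤ} (h : ip c = ip c') : c = c' := by
  have h1 := congrArg Prod.fst h
  have h2 := congrArg Prod.snd h
  exact Prod.ext h1 (Ka470.en_inj h2)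

lemma ip_surj (x : (ℤ × ℤ) × ZMod 4) : ∃ c, ip c = x := by
  obtain ⟨d, hd⟩ := Ka470.en_surj x.2
  exact ⟨(x.1, d), by simp only [ip, hd]⟩

variable {T : Type*} {G : T × ZMod 4 → T × ZMod 4 → Prop} {C : Ka470.Ch T G}

/-- port out of a tile of the chart -/
def op (C : Ka470.Ch T G) (s : T → Bool) (c : St ℤ) : (ℤ × ℤ) × ZMod 4 := (c.1, ex (C.f s c).2)

lemma pass_ip (hF : ∀ v, C.F v = false) (s : T → Bool) (c : St ℤ) :
    pass (s ∘ C.emb) (ip c) = op C s c := by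
  have h := Ka470.thru_sg (C.F c.1) (s (C.emb c.1)) c.2
  rw [hF] at h
  simp only [Ka470.sg, Bool.false_eq_true, if_false] at h
  simp only [pass, ip, op, Function.comp]
  rw [h, C.f_eq]
  simp only [Ka470.Ch.Fn, hF]

lemma ip_next (s : T → Bool) (c : St ℤ) :
    ip (C.f s c) = ((op C s c).1 + dir (op C s c).2, (op C s c).2 + 2) := by
  have h : (C.f s c).1 = mv c.1 (C.f s c).2 := rfl
  simp only [ip, op]
  rw [h, mv_dir, en_ex]

lemma pe_ip (hF : ∀ v, C.F v = false) (c : St ℤ) : C.pe c = mp C.emb (ip c) := by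
  simp only [Ka470.Ch.pe, mp, ip, hF, Ka470.sg, Bool.false_eq_true, if_false]

lemma pt_mp (hF : ∀ v, C.F v = false) (v : ℤ × ℤ) (a : ZMod 4) :
    C.pt v a = mp C.emb (v, a) := by
  simp only [Ka470.Ch.pt, mp, hF, Ka470.sg, Bool.false_eq_true, if_false]

/-- glueing inside the chart -/
lemma chart_glue (hF : ∀ v, C.F v = false) {v : ℤ × ℤ} {a : ZMod 4} (hv : v ∈ C.R)
    (hv' : v + dir a ∈ C.R) : G (mp C.emb (v, a)) (mp C.emb (v + dir a, a + 2)) := by
  obtain ⟨d, rfl⟩ := ex_surj a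
  have h := C.glue v hv d (by rw [mv_dir]; exact hv')
  rw [mv_dir, hF, hF, en_ex] at h
  exact h

/-! ### patterns of charts -/

/-- quadrant pattern in the box `[x1, x2) × [z1, z2)` -/
def quadB (x1 x2 z1 z2 : ℤ) (p : ℤ × ℤ) (pat : Bool → Bool → Bool) : Quad :=
  ⟨x1, x2, z1, z2, p.1, p.2, pat⟩

variable {x1 x2 z1 z2 : ℤ} {p : ℤ × ℤ} {pat : Bool → Bool → Bool} {s : T → Bool}

lemma bx_quadB {v : ℤ × ℤ} : (quadB x1 x2 z1 z2 p pat).Bx v ↔ v ∈ Ka470.Bx x1 x2 z1 z2 := Iff.rfl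

lemma mem_quadB (hP : Patt C.R (Ka470.Bx x1 x2 z1 z2) p pat) {v : ℤ × ℤ} :
    v ∈ (quadB x1 x2 z1 z2 p pat).A ↔ v ∈ C.R ∧ v ∈ Ka470.Bx x1 x2 z1 z2 := by
  rw [Quad.mem_A, bx_quadB]
  constructor
  · rintro ⟨h1, h2⟩
    exact ⟨(hP v h1).2 h2, h1⟩
  · rintro ⟨h1, h2⟩
    exact ⟨h2, (hP v h2).1 h1⟩

/-- **iterates of the chart walk are strands of the region** -/
lemma iter_wk (hF : ∀ v, C.F v = false) {A : Finset (ℤ × ℤ)} (s : T → Bool) (c : St ℤ) :
    ∀ m, (∀ j ≤ m, ((C.f s)^[j] c).1 ∈ A) →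
      Wk (s ∘ C.emb) (RG (full A)) (ip c) (op C s ((C.f s)^[m] c))
        ((List.range (m + 1)).map fun j => ip ((C.f s)^[j] c))
  | 0, h => by
    have := Wk.one (s := s ∘ C.emb) (G := RG (full A)) (x := ip c)
    rw [pass_ip hF] at this
    simpa using this
  | m + 1, h => by
    have ih := iter_wk hF (A := A) s c m fun j hj => h j (by omega)
    have h1 : ip ((C.f s)^[m + 1] c) = ((op C s ((C.f s)^[m] c)).1 +
        dir (op C s ((C.f s)^[m] c)).2, (op C s ((C.f s)^[m] c)).2 + 2) := by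
      rw [Function.iterate_succ_apply', ip_next]
    have h2 : ((C.f s)^[m + 1] c).1 = (op C s ((C.f s)^[m] c)).1 +
        dir (op C s ((C.f s)^[m] c)).2 := congrArg Prod.fst h1
    have h3 : RG (full A) (op C s ((C.f s)^[m] c)) (ip ((C.f s)^[m + 1] c)) := by
      rw [rg_full]
      refine ⟨h m (by omega), ?_, h1⟩
      rw [← h2]
      exact h (m + 1) le_rfl
    have h4 := Wk.snoc ih h3
    rw [pass_ip hF] at h4
    rw [List.range_succ (n := m + 1), List.map_append]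
    exact h4

lemma real_in (hF : ∀ v, C.F v = false) (hP : Patt C.R (Ka470.Bx x1 x2 z1 z2) p pat)
    {X : (ℤ × ℤ) × ZMod 4} (h1 : X.1 ∈ C.R) (h2 : X.1 ∈ Ka470.Bx x1 x2 z1 z2)
    (h3 : X.1 + dir X.2 ∈ Ka470.Bx x1 x2 z1 z2) (hfr : Free G (mp C.emb X)) :
    (quadB x1 x2 z1 z2 p pat).Real X := by
  refine ⟨(mem_quadB hP).2 ⟨h1, h2⟩, bx_quadB.2 h3, fun h4 => ?_⟩
  exact hfr _ (chart_glue hF h1 ((mem_quadB hP).1 h4).1)

/-- free ends seen by the chart -/
lemma free_of_real (hF : ∀ v, C.F v = false) (hP : Patt C.R (Ka470.Bx x1 x2 z1 z2) p pat)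
    (hV : View C (Ka470.Bx x1 x2 z1 z2)) {X : (ℤ × ℤ) × ZMod 4}
    (h : (quadB x1 x2 z1 z2 p pat).Real X) : Free G (mp C.emb X) := by
  obtain ⟨h1, h2, h3⟩ := h
  obtain ⟨h4, h5⟩ := (mem_quadB hP).1 h1
  obtain ⟨X1, a⟩ := X
  obtain ⟨d, rfl⟩ := ex_surj a
  have h6 := hV X1 h4 h5 d (by rw [mv_dir]; exact h2) (by
    rw [mv_dir]
    exact fun h => h3 ((mem_quadB hP).2 ⟨h, h2⟩))
  rwa [pt_mp hF] at h6

/-- a strand between free ends of a region with connected complement has different ends -/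
lemma wk_ne {A : Finset (ℤ × ℤ)} (hA : Hole A) {s : ℤ × ℤ → Bool} {x y : (ℤ × ℤ) × ZMod 4}
    {k : List ((ℤ × ℤ) × ZMod 4)} (hx : FFree A x) (hy : FFree A y)
    (hw : Wk s (RG (full A)) x y k) : x ≠ y := by
  obtain ⟨y', l', h1, h2, h3⟩ := full_end hA s hx
  have h4 : ∀ {y : (ℤ × ℤ) × ZMod 4}, FFree A y → Fr (RG (full A)) y := by
    rintro y ⟨h5, h6⟩ b hb
    rw [rg_full] at hb
    exact h6 hb.2.1
  have h5 := Wk.det (rg_glu (full A)).fn h1 (h4 h2) hw (h4 hy)
  rw [← h5.1]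
  exact h3.symm

/-- **small strands**: a strand of the complex between free ends that stays in the box `B3` of a
chart is a strand of the quadrant pattern between real ends, or it crosses a window -/
theorem small (hF : ∀ v, C.F v = false) {ρ : ℕ} (hρ : 1 ≤ ρ) {o : ℤ × ℤ}
    (hP : Patt C.R (B3 ρ o) p pat) {c : St ℤ} (hc1 : c.1 ∈ B1 ρ o) {m : ℕ}
    (hin : ∀ j ≤ m, ((C.f s)^[j] c).1 ∈ C.R ∧ ((C.f s)^[j] c).1 ∈ B3 ρ o)
    (hx : Free G (C.pe c)) (hy : Free G (C.pt ((C.f s)^[m] c).1 (ex ((C.f s)^[m + 1] c).2))) :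
    (∃ d : Dir, ∃ j < m + 1, Cross C s ρ o d ((C.f s)^[j] c)) ∨
    ((quadB (o.1 - ρ) (o.1 + 2 * ρ) (o.2 - ρ) (o.2 + 2 * ρ) p pat).Real (ip c) ∧
      (quadB (o.1 - ρ) (o.1 + 2 * ρ) (o.2 - ρ) (o.2 + 2 * ρ) p pat).Real
        (op C s ((C.f s)^[m] c)) ∧
      Wk (s ∘ C.emb) (RG (full (quadB (o.1 - ρ) (o.1 + 2 * ρ) (o.2 - ρ) (o.2 + 2 * ρ) p pat).A))
        (ip c) (op C s ((C.f s)^[m] c))
        ((List.range (m + 1)).map fun j => ip ((C.f s)^[j] c))) := by
  by_cases hB : ((C.f s)^[m + 1] c).1 ∈ B3 ρ o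
  swap
  · left
    exact Ka470.exists_cross C s hc1 (m := m + 1) (fun j hj => (hin j (by omega)).1)
      (fun j hj => (hin j (by omega)).2) hB
  right
  have h4 : ((C.f s)^[m + 1] c).1 = (op C s ((C.f s)^[m] c)).1 +
      dir (op C s ((C.f s)^[m] c)).2 := by
    have := congrArg Prod.fst (ip_next (C := C) s ((C.f s)^[m] c))
    rw [Function.iterate_succ_apply']
    exact this
  refine ⟨?_, ?_, ?_⟩
  · refine real_in hF hP (hin 0 (Nat.zero_le _)).1 (hin 0 (Nat.zero_le _)).2 ?_ ?_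
    · -- the neighbour of the first tile
      show c.1 + dir (en c.2) ∈ B3 ρ o
      obtain ⟨⟨b1, b2⟩, b3, b4⟩ := hc1
      have hd : ∀ d : ZMod 4, ((-1 ≤ (dir d).1 ∧ (dir d).1 ≤ 1) ∧ -1 ≤ (dir d).2 ∧
          (dir d).2 ≤ 1) := by
        intro d
        rcases Xr249.Reg.d4 d with rfl | rfl | rfl | rfl <;> decide
      obtain ⟨⟨d1, d2⟩, d3, d4⟩ := hd (en c.2)
      refine ⟨⟨?_, ?_⟩, ?_, ?_⟩ <;> simp only [Prod.fst_add, Prod.snd_add] <;> omega
    · rwa [pe_ip hF] at hx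
  · refine real_in hF hP (hin m le_rfl).1 (hin m le_rfl).2 ?_ ?_
    · rw [← h4]; exact hB
    · rw [pt_mp hF, Function.iterate_succ_apply'] at hy
      exact hy
  · refine iter_wk hF s c m fun j hj => ?_
    exact (mem_quadB hP).2 (hin j hj)

/-! ### phases -/

/-- charge of the gaps of a chain that starts at `x` -/
def cg (q : (ℤ × ℤ) × ZMod 4 → ℤ) (x : (ℤ × ℤ) × ZMod 4) (l : List ((ℤ × ℤ) × ZMod 4)) : ℤ :=
  ((x :: l).dropLast.map q).sum

/-- sign of the copy -/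
def sgn (b : Bool) : ℝ := if b then 1 else -1

/-- **local rule of the phases** `Φ` (gauge included) on a pattern; `b = true` : sign `+` -/
def Rule (Q : Quad) (Φ : (ℤ × ℤ) × ZMod 4 → ℝ) (b : Bool) (q : (ℤ × ℤ) × ZMod 4 → ℤ) : Prop :=
  ∀ x z k, Q.Real x → Q.Real z → NxT (full Q.A).gl (some x) (some z) k →
    Φ z - Φ x = sgn b * (Real.pi / 12 * k + Real.pi / 3 * q x)

lemma rule_chain {Q : Quad} {Φ : (ℤ × ℤ) × ZMod 4 → ℝ} {b : Bool} {q : (ℤ × ℤ) × ZMod 4 → ℤ}
    (hR : Rule Q Φ b q) {x y : (ℤ × ℤ) × ZMod 4} {D : ℤ} {l : List ((ℤ × ℤ) × ZMod 4)}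
    (h : CwR (full Q.A).gl x y D l) (hx : Q.Real x) (hl : ∀ z ∈ l, Q.Real z) :
    Φ y - Φ x = sgn b * (Real.pi / 12 * D + Real.pi / 3 * cg q x l) := by
  induction h with
  | nil x => simp [cg]
  | @cons x z y k D l h1 _ ih =>
    have hz := hl z (List.mem_cons_self ..)
    have h2 := ih hz fun w hw => hl w (List.mem_cons_of_mem _ hw)
    have h3 := hR x z k hx hz h1
    have h4 : cg q x (z :: l) = q x + cg q z l := by
      simp only [cg]
      rw [List.dropLast_cons_of_ne_nil (List.cons_ne_nil _ _), List.map_cons, List.sum_cons]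
    rw [h4]
    push_cast
    linear_combination h2 + h3

/-- the three elementary steps -/
lemma nxT_cases {A : Finset (ℤ × ℤ)} {x z : (ℤ × ℤ) × ZMod 4} {k : ℤ} (hx : FFree A x)
    (h : NxT (full A).gl (some x) (some z) k) :
    (k = 1 ∧ z = (x.1, x.2 + 1) ∧ x.1 + dir (x.2 + 1) ∉ A) ∨
    (k = 0 ∧ z = (x.1 + dir (x.2 + 1), x.2) ∧ x.1 + dir (x.2 + 1) ∈ A ∧
      x.1 + dir (x.2 + 1) + dir x.2 ∉ A) ∨
    (k = -1 ∧ z = (x.1 + dir (x.2 + 1) + dir x.2, x.2 + 3) ∧ x.1 + dir (x.2 + 1) ∈ A ∧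
      x.1 + dir (x.2 + 1) + dir x.2 ∈ A) := by
  obtain ⟨t, d⟩ := x
  obtain ⟨h0, h0'⟩ := hx
  simp only at h0 h0' ⊢
  have hdet : ∀ a b c, (full A).gl a b → (full A).gl a c → b = c := (full A).gl_glue.fn
  by_cases h1 : t + dir (d + 1) ∈ A
  · by_cases h2 : t + dir (d + 1) + dir d ∈ A
    · obtain ⟨e1, e2⟩ := NxT.det hdet h (nx_reflex h0 h1 h2 h0')
      exact Or.inr (Or.inr ⟨e2, Option.some.inj e1, h1, h2⟩)
    · obtain ⟨e1, e2⟩ := NxT.det hdet h (nx_flat h0 h1 h2)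
      exact Or.inr (Or.inl ⟨e2, Option.some.inj e1, h1, h2⟩)
  · obtain ⟨e1, e2⟩ := NxT.det hdet h (nx_convex h1)
    exact Or.inl ⟨e2, Option.some.inj e1, h1⟩

/-- the seams inside a box come from the gauge `g` -/
def Gauge (C : Ka470.Ch T G) (be : Port T → Port T) (ch : Port T → ℝ) (g : ℤ × ℤ → ℝ)
    (A : Finset (ℤ × ℤ)) : Prop :=
  ∀ v ∈ A, ∀ a, v + dir a ∈ A → ch (some (mp C.emb (v, a))) -
    ch (be (some (mp C.emb (v, a)))) = g (v + dir a) - g v

lemma seam_tele {be : Port T → Port T} {ch : Port T → ℝ} {g : ℤ × ℤ → ℝ}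
    {A : Finset (ℤ × ℤ)} (hg : Gauge C be ch g A) {s' : ℤ × ℤ → Bool}
    {x y : (ℤ × ℤ) × ZMod 4} {l : List ((ℤ × ℤ) × ZMod 4)} (hw : Wk s' (RG (full A)) x y l) :
    seam be ch ((l.map (mp C.emb)).map some).tail = g y.1 - g x.1 := by
  induction hw with
  | one => simp [seam, pass]
  | @snoc q r l hw hr ih =>
    rw [rg_full] at hr
    obtain ⟨h1, h2, rfl⟩ := hr
    have hl := hw.ne_nil
    have e1 : (((l ++ [(q.1 + dir q.2, q.2 + 2)]).map (mp C.emb)).map some).tail =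
        ((l.map (mp C.emb)).map some).tail ++ [some (mp C.emb (q.1 + dir q.2, q.2 + 2))] := by
      rw [List.map_append, List.map_append, List.tail_append_of_ne_nil (by simpa using hl)]
      rfl
    have e2 : q.1 + dir q.2 + dir (q.2 + 2) = q.1 := by
      have : dir (q.2 + 2) = - dir q.2 := by
        rcases Xr249.Reg.d4 q.2 with h | h | h | h <;> rw [h] <;> decide
      rw [this]; abel
    have h3 := hg (q.1 + dir q.2) h2 (q.2 + 2) (by rw [e2]; exact h1)
    rw [e2] at h3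
    have e3 : ∀ (a b : List (Port T)), seam be ch (a ++ b) = seam be ch a + seam be ch b := by
      intro a b
      simp [seam]
    rw [e1, e3, ih]
    simp only [seam, List.map_cons, List.map_nil, List.sum_cons, List.sum_nil, pass]
    linarith

/-- phase of a strand of the complex (`Wa_wl` of helper350) -/
def wph (be : Port T → Port T) (ch : Port T → ℝ) (s : T → Bool) (x y : T × ZMod 4)
    (l : List (T × ZMod 4)) : ℝ :=
  -(Real.pi / 12 * (tt s l : ℝ)) + (ch (some y) - ch (some x)) + seam be ch (l.map some).tail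

/-- values of the strands -/
def val (b : Bool) (D Q : ℤ) : ℝ :=
  2 * Real.cos (if b then Real.pi / 6 + Real.pi / 3 * Q
    else Real.pi / 6 - Real.pi / 6 * D - Real.pi / 3 * Q)

lemma cos_val {b : Bool} {D Q : ℤ} {w : ℝ}
    (h : w = -(Real.pi / 12 * ((D : ℝ) - 2)) + sgn b * (Real.pi / 12 * D + Real.pi / 3 * Q)) :
    2 * Real.cos w = val b D Q := by
  rw [h, val]
  congr 2
  cases b
  · simp only [sgn, Bool.false_eq_true, if_false]; ring
  · simp only [sgn, if_true]; ring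

/-- **phase of a strand between real ends of a pattern** -/
theorem phase {Q : Quad} {be : Port T → Port T} {ch : Port T → ℝ} {g : ℤ × ℤ → ℝ} {b : Bool}
    {q : (ℤ × ℤ) × ZMod 4 → ℤ} (hg : Gauge C be ch g Q.A)
    (hR : Rule Q (fun X => ch (some (mp C.emb X)) + g X.1) b q) {s : T → Bool}
    {X Y : (ℤ × ℤ) × ZMod 4} {L : List ((ℤ × ℤ) × ZMod 4)} (hX : Q.Real X) (hY : Q.Real Y)
    (hw : Wk (s ∘ C.emb) (RG (full Q.A)) X Y L) :
    ∃ (D : ℤ) (l : List ((ℤ × ℤ) × ZMod 4)),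
      (CwR (full Q.A).gl X Y D l ∧ (∀ z ∈ l, Q.Real z) ∧ X ∉ l ∧ Q.Typ X Y D ∧
        2 * Real.cos (wph be ch s (mp C.emb X) (mp C.emb Y) (L.map (mp C.emb))) =
          val b D (cg q X l)) ∨
      (CwR (full Q.A).gl Y X D l ∧ (∀ z ∈ l, Q.Real z) ∧ Y ∉ l ∧ Q.Typ Y X D ∧
        2 * Real.cos (wph be ch s (mp C.emb X) (mp C.emb Y) (L.map (mp C.emb))) =
          val b D (cg q Y l)) := by
  have hne : X ≠ Y := wk_ne Q.hole (hX.ffree) (hY.ffree) hw
  have e1 : (tt s (L.map (mp C.emb)) : ℝ) = tt (s ∘ C.emb) L := by rw [tt_map]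
  have e2 := seam_tele hg hw
  have e3 : wph be ch s (mp C.emb X) (mp C.emb Y) (L.map (mp C.emb)) =
      -(Real.pi / 12 * (tt (s ∘ C.emb) L : ℝ)) + ((ch (some (mp C.emb Y)) + g Y.1) -
        (ch (some (mp C.emb X)) + g X.1)) := by
    unfold wph
    rw [e1, e2]
    ring
  rcases Quad.arc hX hY hw hne with ⟨D, l, h1, h2, h3, h4, h5, -⟩ | ⟨D, l, h1, h2, h3, h4, h5, -⟩
  · refine ⟨D, l, Or.inl ⟨h1, h2, h3, h4, cos_val ?_⟩⟩
    have h6 := rule_chain hR h1 hX h2
    rw [e3, h5, h6]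
    push_cast
    ring
  · refine ⟨D, l, Or.inr ⟨h1, h2, h3, h4, ?_⟩⟩
    rw [← Real.cos_neg]
    refine cos_val ?_
    have h6 := rule_chain hR h1 hY h2
    rw [e3, h5]
    push_cast
    linear_combination h6

/-- **closed strands in a pattern** -/
theorem phase_loop {Q : Quad} {be : Port T → Port T} {ch : Port T → ℝ} {g : ℤ × ℤ → ℝ}
    (hg : Gauge C be ch g Q.A) {s : T → Bool} {X Y : (ℤ × ℤ) × ZMod 4}
    {L : List ((ℤ × ℤ) × ZMod 4)} (hw : Wk (s ∘ C.emb) (RG (full Q.A)) X Y L)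
    (hYX : RG (full Q.A) Y X) (hL : L.Nodup) (hb2 : ∀ q, q ≠ none → be (be q) = q)
    (hb : ∀ a c, RG (full Q.A) a c → be (some (mp C.emb a)) = some (mp C.emb c)) :
    2 * Real.cos (-(Real.pi / 12 * (tt s (L.map (mp C.emb)) : ℝ)) +
      (ch (some (mp C.emb Y)) - ch (some (mp C.emb X))) +
      seam be ch ((L.map (mp C.emb)).map some).tail) = 1 := by
  have e1 : (tt s (L.map (mp C.emb)) : ℝ) = tt (s ∘ C.emb) L := by rw [tt_map]
  have e2 := seam_tele hg hw
  have h1 := rg_full.1 hYX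
  have h2 := hg Y.1 h1.1 Y.2 h1.2.1
  have h3 := hb Y X hYX
  have h4 : ((Y.1, Y.2) : (ℤ × ℤ) × ZMod 4) = Y := rfl
  have h5 : X.1 = Y.1 + dir Y.2 := by rw [h1.2.2]
  rw [h4, h3, ← h5] at h2
  have hP : ∀ p ∈ L, p.1 ∈ Q.A := by
    intro p hp
    have hX : X.1 ∈ comp Q.A X.1 := mem_comp.2 ⟨by rw [h5]; exact h1.2.1, .refl⟩
    have hw' := (wk_comp hw hX).1
    -- every entered port is the first one or glued
    have key : ∀ {x y : (ℤ × ℤ) × ZMod 4} {l : List ((ℤ × ℤ) × ZMod 4)},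
        Wk (s ∘ C.emb) (RG (full Q.A)) x y l → x.1 ∈ Q.A → ∀ p ∈ l, p.1 ∈ Q.A := by
      intro x y l h hx
      induction h with
      | one => intro p hp; rw [List.mem_singleton] at hp; rw [hp]; exact hx
      | @snoc q r l _ hr ih =>
        intro p hp
        rw [List.mem_append, List.mem_singleton] at hp
        rcases hp with hp | rfl
        · exact ih p hp
        · rw [rg_full] at hr
          rw [hr.2.2]
          exact hr.2.1
    exact key hw (by rw [h5]; exact h1.2.1) p hp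
  have hcl : Cl (s ∘ C.emb) (RG (full Q.A)) L := ⟨hL, X, Y, hw, hYX⟩
  have h6 := Quad.loop hcl hP
  have e4 : -(Real.pi / 12 * (tt s (L.map (mp C.emb)) : ℝ)) +
      (ch (some (mp C.emb Y)) - ch (some (mp C.emb X))) +
      seam be ch ((L.map (mp C.emb)).map some).tail =
      -(Real.pi / 12 * (tt (s ∘ C.emb) L : ℝ)) := by
    rw [e1, e2]
    linarith
  rw [e4]
  rcases h6 with h6 | h6 <;> rw [h6]
  · have : -(Real.pi / 12 * ((4 : ℤ) : ℝ)) = -(Real.pi / 3) := by push_cast; ring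
    rw [this, Real.cos_neg, Real.cos_pi_div_three]; norm_num
  · have : -(Real.pi / 12 * ((-4 : ℤ) : ℝ)) = Real.pi / 3 := by push_cast; ring
    rw [this, Real.cos_pi_div_three]; norm_num

end Crest.Agent.R158.Pt266
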