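import Crest.Agent.R158.Ne2_808
import Crest.Agent.R158.Pt8_266
import Crest.Agent.R158.Lr4_158
import Crest.Agent.R158.Nz8_399

/-!
# R158, block Q1d, leaf (E) (helper808), part 3: the strands of the double of a half environment

* `DN` : the network of the double (`dbe`, `dch` of helper399 over `Half.Gd` of helper470)
* `class_walk` : every class is the set of ports of a walk
* `rule_of`, `gauge_of` : local rule and gauge of helper158 in the form of helper266
* `val` : values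
-/

set_option autoImplicit false
set_option linter.unusedSectionVars false
set_option synthInstance.maxSize 1000

noncomputable section

namespace Crest.Agent.R158.Ne808

open Crest.Agent.R158.Nm211
open Crest.Agent.R158.Nz399
open Crest.Agent.R158.Ka470
open Crest.Agent.R158.Ad350 (Net tnet ports mem_ports mem_ports' tnet_ok)
open Crest.Agent.R158.Sw300 (Port thru)
open Crest.Agent.R158.Env664 (TG)
open Crest.Agent.R158.Lr158 (PhH OpenH Phi gg Cg Stp nxe REnd)
open Crest.Agent.R158.Pt266 (quadB mp dir Rule Gauge CwR NxT val cg sgn wph)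
open Crest.Agent.R158.Xr249 (full)

/-! ### values -/

theorem cos_add_pi_mul (x : ℝ) (k : ℤ) : |Real.cos (x + Real.pi * k)| = |Real.cos x| := by
  have h : x + Real.pi * k = x + k * Real.pi := by ring
  rw [h, Real.cos_add_int_mul_pi, abs_mul]
  have : |((-1 : ℝ)) ^ k| = 1 := by rw [abs_zpow]; simp
  rw [this, one_mul]

theorem val_mod (b : Bool) (D Q : ℤ) : |val b D Q| = |val b D (Q % 3)| := by
  have hQ : (Q : ℝ) = 3 * ((Q / 3 : ℤ) : ℝ) + ((Q % 3 : ℤ) : ℝ) := by
    have h1 := Int.mul_ediv_add_emod Q 3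
    have h2 : ((3 * (Q / 3) + Q % 3 : ℤ) : ℝ) = (Q : ℝ) := by rw [h1]
    push_cast at h2 ⊢
    linarith
  unfold val
  rw [abs_mul, abs_mul]
  congr 1
  cases b
  · simp only [Bool.false_eq_true, if_false]
    have e : Real.pi / 6 - Real.pi / 6 * D - Real.pi / 3 * Q =
        Real.pi / 6 - Real.pi / 6 * D - Real.pi / 3 * ((Q % 3 : ℤ) : ℝ) +
          Real.pi * ((-(Q / 3) : ℤ) : ℝ) := by
      rw [hQ]; push_cast; ring
    rw [e, cos_add_pi_mul]
  · simp only [if_true]
    have e : Real.pi / 6 + Real.pi / 3 * Q =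
        Real.pi / 6 + Real.pi / 3 * ((Q % 3 : ℤ) : ℝ) + Real.pi * ((Q / 3 : ℤ) : ℝ) := by
      rw [hQ]; push_cast; ring
    rw [e, cos_add_pi_mul]

theorem val_le_two (b : Bool) (D Q : ℤ) : |val b D Q| ≤ 2 := by
  unfold val
  rw [abs_mul]
  have h := Real.abs_cos_le_one (if b then Real.pi / 6 + Real.pi / 3 * Q
    else Real.pi / 6 - Real.pi / 6 * D - Real.pi / 3 * Q)
  have h2 : |(2 : ℝ)| = 2 := by norm_num
  rw [h2]
  linarith

theorem emod3 (Q : ℤ) : Q % 3 = 0 ∨ Q % 3 = 1 ∨ Q % 3 = 2 := by omega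

theorem val_true {D Q : ℤ} : |val true D Q| ≤ √3 := by
  rw [val_mod]
  unfold val
  simp only [if_true]
  rcases emod3 Q with h | h | h
  · rw [h]
    have e : Real.pi / 6 + Real.pi / 3 * ((0 : ℤ) : ℝ) = Real.pi / 6 := by push_cast; ring
    rw [e, Real.cos_pi_div_six, abs_of_nonneg (by positivity)]
    linarith
  · rw [h]
    have e : Real.pi / 6 + Real.pi / 3 * ((1 : ℤ) : ℝ) = Real.pi / 2 := by push_cast; ring
    rw [e, Real.cos_pi_div_two]
    simp
  · rw [h]
    have e : Real.pi / 6 + Real.pi / 3 * ((2 : ℤ) : ℝ) = Real.pi - Real.pi / 6 := by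
      push_cast; ring
    rw [e, Real.cos_pi_sub, Real.cos_pi_div_six, abs_mul, abs_neg,
      abs_of_nonneg (a := √3 / 2) (by positivity)]
    norm_num
    linarith

theorem val_true_zero {D Q : ℤ} (h : (Q - 1) % 3 = 0) : val true D Q = 0 := by
  have h' : Q % 3 = 1 := by omega
  rw [← abs_eq_zero, val_mod, h']
  unfold val
  simp only [if_true]
  have e : Real.pi / 6 + Real.pi / 3 * ((1 : ℤ) : ℝ) = Real.pi / 2 := by push_cast; ring
  rw [e, Real.cos_pi_div_two]
  simp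

theorem val_false0 {Q : ℤ} : |val false 0 Q| ≤ √3 := by
  rw [val_mod]
  unfold val
  simp only [Bool.false_eq_true, if_false]
  rcases emod3 Q with h | h | h
  · rw [h]
    have e : Real.pi / 6 - Real.pi / 6 * ((0 : ℤ) : ℝ) - Real.pi / 3 * ((0 : ℤ) : ℝ) =
        Real.pi / 6 := by push_cast; ring
    rw [e, Real.cos_pi_div_six, abs_of_nonneg (by positivity)]
    linarith
  · rw [h]
    have e : Real.pi / 6 - Real.pi / 6 * ((0 : ℤ) : ℝ) - Real.pi / 3 * ((1 : ℤ) : ℝ) =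
        -(Real.pi / 6) := by push_cast; ring
    rw [e, Real.cos_neg, Real.cos_pi_div_six, abs_of_nonneg (by positivity)]
    linarith
  · rw [h]
    have e : Real.pi / 6 - Real.pi / 6 * ((0 : ℤ) : ℝ) - Real.pi / 3 * ((2 : ℤ) : ℝ) =
        -(Real.pi / 2) := by push_cast; ring
    rw [e, Real.cos_neg, Real.cos_pi_div_two]
    simp

theorem val_false0_zero {Q : ℤ} (h : (Q - 2) % 3 = 0) : val false 0 Q = 0 := by
  have h' : Q % 3 = 2 := by omega
  rw [← abs_eq_zero, val_mod, h']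
  unfold val
  simp only [Bool.false_eq_true, if_false]
  have e : Real.pi / 6 - Real.pi / 6 * ((0 : ℤ) : ℝ) - Real.pi / 3 * ((2 : ℤ) : ℝ) =
      -(Real.pi / 2) := by push_cast; ring
  rw [e, Real.cos_neg, Real.cos_pi_div_two]
  simp

theorem val_false_rf : |val false (-1) 0| = 1 := by
  unfold val
  simp only [Bool.false_eq_true, if_false]
  have e : Real.pi / 6 - Real.pi / 6 * ((-1 : ℤ) : ℝ) - Real.pi / 3 * ((0 : ℤ) : ℝ) =
      Real.pi / 3 := by push_cast; ring
  rw [e, Real.cos_pi_div_three]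
  norm_num

/-! ### the network of the double -/

/-- the network of the double of a half environment -/
structure DN (A : Half) (T : Finset TG) (be : Port TG → Port TG) (O : Finset (Port TG)) :
    Prop where
  hT : ∀ t, t ∈ T ↔ A.tH t
  hO : OpenH A O
  hb : ∀ p ∈ ports T \ O, be p ∈ ports T \ O
  hb2 : ∀ p ∈ ports T \ O, be (be p) = p
  gd : ∀ q r : (TG × Bool) × ZMod 4, A.tH q.1.1 →
    (A.Gd q r ↔ dbe be O (some q) = some r ∧ q ≠ r)

/-- the network -/
def nt (T : Finset TG) (be : Port TG → Port TG) (O : Finset (Port TG)) (ch : Port TG → ℝ)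
    (s : TG × Bool → Bool) : Net (Port (TG × Bool)) :=
  tnet (T ×ˢ Finset.univ) s (dbe be O) (dch ch O)

section

variable {A : Half} {T : Finset TG} {be : Port TG → Port TG} {O : Finset (Port TG)}
  {ch : Port TG → ℝ} {s : TG × Bool → Bool}

theorem gd_tH {q r : (TG × Bool) × ZMod 4} (h : A.Gd q r) : A.tH q.1.1 ∧ A.tH r.1.1 := by
  have hc : ∀ t, A.cutT t → A.tH t := by
    intro t ht
    have h1 := A.h1
    rcases t with ⟨x, y⟩ | ⟨x, y⟩
    · have ht' : (A.xl ≤ x ∧ x ≤ A.xr) ∧ y = A.y0 - 1 := ht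
      obtain ⟨⟨h1, h2⟩, rfl⟩ := ht'
      have hY := A.hY
      exact A.row x (A.y0 - 1) (by omega) (by omega) h1 h2
    · have ht' : (0 ≤ x ∧ x < A.R) ∧ y = A.y0 - 1 := ht
      obtain ⟨h2, rfl⟩ := ht'
      exact ⟨h2, by omega, by omega⟩
  cases h with
  | base k h => exact ⟨h.1, h.2.1⟩
  | c1 h => exact ⟨hc _ h, hc _ h⟩
  | c2 h => exact ⟨hc _ h, hc _ h⟩

theorem DN.ok (E : DN A T be O) (ch : Port TG → ℝ) (s : TG × Bool → Bool) :
    (nt T be O ch s).Ok :=
  tnet_ok (dbe_mem E.hb) (dbe_inv E.hb E.hb2)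

theorem DN.mem (E : DN A T be O) {t : TG × Bool} :
    t ∈ T ×ˢ (Finset.univ : Finset Bool) ↔ A.tH t.1 := by
  rw [Finset.mem_product, E.hT]
  simp

theorem DN.g1 (E : DN A T be O) (a b : (TG × Bool) × ZMod 4) (h : A.Gd a b) :
    dbe be O (some a) = some b ∧ a ≠ b := (E.gd a b (gd_tH h).1).1 h

theorem DN.g2 (E : DN A T be O) (a b : (TG × Bool) × ZMod 4)
    (ha : a.1 ∈ T ×ˢ (Finset.univ : Finset Bool)) (h1 : dbe be O (some a) = some b)
    (h2 : a ≠ b) : A.Gd a b := (E.gd a b (E.mem.1 ha)).2 ⟨h1, h2⟩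

theorem DN.free (E : DN A T be O) {q : (TG × Bool) × ZMod 4} (hq : A.tH q.1.1) :
    Free A.Gd q ↔ dbe be O (some q) = some q := by
  constructor
  · intro hf
    have h1 : dbe be O (some q) ∈ ports (T ×ˢ (Finset.univ : Finset Bool)) :=
      dbe_mem E.hb _ (mem_ports.2 (E.mem.2 hq))
    obtain ⟨t, d, h2, ht⟩ := mem_ports' h1
    by_cases h3 : q = (t, d)
    · rw [h2, h3]
    · exact absurd (E.g2 q (t, d) (E.mem.2 hq) h2 h3) (hf _)
  · intro h1 r hr
    obtain ⟨h2, h3⟩ := E.g1 q r hr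
    rw [h1] at h2
    exact h3 (Option.some.inj h2)

theorem DN.emb (E : DN A T be O) {ρ : ℕ} (h : A.Sz ρ) (i : Fin 4) :
    ∀ u ∈ (Half.chf h i).R, (Half.chf h i).emb u ∈ T ×ˢ (Finset.univ : Finset Bool) :=
  fun _ hu => E.mem.2 (Lr158.tH_emb h i hu)

/-! ### classes and walks -/

theorem wa_cn {P : Type*} [DecidableEq P] {N : Net P} {x y : P} {l : List P}
    (w : N.Wa x y l) : N.Cn x y ∧ ∀ p ∈ l, N.Cn x p := by
  induction w with
  | one =>
    refine ⟨Net.Cn.al x, fun p hp => ?_⟩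
    rw [List.mem_singleton] at hp
    rw [hp]
    exact Net.Cn.refl x
  | @snoc q l w hne ih =>
    obtain ⟨h1, h2⟩ := ih
    have h3 : N.Cn x (N.be q) := h1.trans (Net.Cn.be q)
    refine ⟨h3.trans (Net.Cn.al _), fun p hp => ?_⟩
    rw [List.mem_append, List.mem_singleton] at hp
    rcases hp with hp | rfl
    · exact h2 p hp
    · exact h3

/-- **every class is a strand** -/
theorem DN.class_walk (E : DN A T be O) {c : Finset (Port (TG × Bool))}
    (hc : c ∈ (nt T be O ch s).classes (ports (T ×ˢ (Finset.univ : Finset Bool)))) :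
    ∃ x y l, A.tH x.1.1 ∧ A.tH y.1.1 ∧ Wk s A.Gd x y l ∧ l.Nodup ∧
      c = (nt T be O ch s).cls (some x) ∧ (∀ p ∈ l, some p ∈ c) ∧
      ((Free A.Gd x ∧ Free A.Gd y) ∨ A.Gd y x) := by
  have hN := E.ok ch s
  obtain ⟨p, hp, rfl⟩ := Finset.mem_image.1 hc
  obtain ⟨x, hx, y, l, hw, hn, e, hxy⟩ := Net.exists_walk hN (p := p) hp
  obtain ⟨x', y', l', rfl, rfl, rfl, hx', hy', hw'⟩ :=
    wa_wk (dbe_mem E.hb) E.g2 hw hx
  refine ⟨x', y', l', E.mem.1 hx', E.mem.1 hy', hw', ?_, e, ?_, ?_⟩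
  · exact (List.nodup_map_iff (Option.some_injective _)).1 hn
  · intro p hp
    rw [e]
    have h1 := (wa_cn hw).2 (some p) (List.mem_map_of_mem hp)
    exact Net.mem_cls.2 ⟨Net.Cn.mem hN.clV hx h1, h1⟩
  · rcases hxy with ⟨h1, h2⟩ | h1
    · exact Or.inl ⟨(E.free (E.mem.1 hx')).2 h1, (E.free (E.mem.1 hy')).2 h2⟩
    · by_cases h2 : y' = x'
      · subst h2
        exact Or.inl ⟨(E.free (E.mem.1 hx')).2 h1, (E.free (E.mem.1 hx')).2 h1⟩
      · exact Or.inr (E.g2 y' x' hy' h1 h2)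

theorem norm_two_cos (x : ℝ) : ‖(2 * (Real.cos x : ℂ) : ℂ)‖ = |2 * Real.cos x| := by
  rw [norm_mul, Complex.norm_real, abs_mul]
  simp

/-- value of an arc -/
theorem DN.z_arc (E : DN A T be O) {x y : (TG × Bool) × ZMod 4} {l : List ((TG × Bool) × ZMod 4)}
    (hx : A.tH x.1.1) (hy : A.tH y.1.1) (hw : Wk s A.Gd x y l) (fx : Free A.Gd x)
    (fy : Free A.Gd y) : ‖(nt T be O ch s).z ((nt T be O ch s).cls (some x))‖ =
      |2 * Real.cos (wph (dbe be O) (dch ch O) s x y l)| := by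
  have hN := E.ok ch s
  have hxp : some x ∈ ports (T ×ˢ (Finset.univ : Finset Bool)) := mem_ports.2 (E.mem.2 hx)
  have w := kwk_wa (A := T ×ˢ (Finset.univ : Finset Bool)) (ch := dch ch O) E.g1 hw
  have h1 := (E.free hx).1 fx
  have h2 := (E.free hy).1 fy
  have h3 := (Net.z_arc hN (x := some x) hxp w h1 h2).2.2
  have h4 := (Ad350.Wa_wl (dbe_inv E.hb E.hb2) (dbe_mem E.hb) hxp w).2
  rw [h3, norm_two_cos]
  congr 3
  refine h4.trans ?_
  rw [Ad350.tql_tt]
  unfold wph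
  ring

/-- value of a loop -/
theorem DN.z_loop (E : DN A T be O) {x y : (TG × Bool) × ZMod 4} {l : List ((TG × Bool) × ZMod 4)}
    (hx : A.tH x.1.1) (hw : Wk s A.Gd x y l) (hl : l.Nodup) (hg : A.Gd y x) :
    ‖(nt T be O ch s).z ((nt T be O ch s).cls (some x))‖ =
      |2 * Real.cos (wph (dbe be O) (dch ch O) s x y l)| := by
  have hN := E.ok ch s
  have hxp : some x ∈ ports (T ×ˢ (Finset.univ : Finset Bool)) := mem_ports.2 (E.mem.2 hx)
  have w := kwk_wa (A := T ×ˢ (Finset.univ : Finset Bool)) (ch := dch ch O) E.g1 hw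
  have h1 := (E.g1 y x hg).1
  have h3 := (Net.z_loop hN (x := some x) hxp w h1
    ((List.nodup_map_iff (Option.some_injective _)).2 hl)).2
  have h4 := (Ad350.Wa_wl (dbe_inv E.hb E.hb2) (dbe_mem E.hb) hxp w).2
  rw [h3, norm_two_cos]
  congr 3
  refine h4.trans ?_
  rw [Ad350.tql_tt]
  unfold wph
  ring

end

end Crest.Agent.R158.Ne808
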