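import Crest.Agent.R158.Ne3_808

/-!
# R158, block Q1d, leaf (E) (helper808), part 4: values of small strands

* `rule_of`, `gauge_of` : local rule and gauge of helper158 in the form of helper266
* `cg_tele` : the charge of a chain `X → Y` is `Cg X - Cg Y`
* `val_chain` : value of a strand of a pattern between the ends of a chain
* `arc_val` : value of a strand between two real ends
-/

set_option autoImplicit false
set_option linter.unusedSectionVars false
set_option synthInstance.maxSize 1000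

noncomputable section

namespace Crest.Agent.R158.Ne808

open Crest.Agent.R158.Nm211
open Crest.Agent.R158.Nz399
open Crest.Agent.R158.Ka470
open Crest.Agent.R158.Ad350 (Net tnet ports mem_ports mem_ports' tnet_ok)
open Crest.Agent.R158.Sw300 (Port thru)
open Crest.Agent.R158.Env664 (TG)
open Crest.Agent.R158.Lr158 (PhH OpenH Phi gg Cg Stp nxe REnd)
open Crest.Agent.R158.Pt266 (Quad quadB mp dir Rule Gauge CwR NxT val cg sgn wph RG)
open Crest.Agent.R158.Xr249 (full)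

/-- clockwise chain of real ends with known turning -/
structure ChD (Q : Quad) (x y : (ℤ × ℤ) × ZMod 4) (D : ℤ) (l : List ((ℤ × ℤ) × ZMod 4)) :
    Prop where
  cw : CwR (full Q.A).gl x y D l
  ne : l ≠ []
  out : x ∉ l
  re : ∀ z ∈ l, Q.Real z

/-- **value of a strand between the ends of a chain** -/
theorem val_chain {T : Type*} {G : T × ZMod 4 → T × ZMod 4 → Prop} {C : Ka470.Ch T G} {Q : Quad}
    {be : Port T → Port T} {ch : Port T → ℝ} {g : ℤ × ℤ → ℝ} {b : Bool}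
    {q : (ℤ × ℤ) × ZMod 4 → ℤ} (hg : Gauge C be ch g Q.A)
    (hR : Rule Q (fun X => ch (some (mp C.emb X)) + g X.1) b q) {s : T → Bool}
    {X Y : (ℤ × ℤ) × ZMod 4} {L : List ((ℤ × ℤ) × ZMod 4)} (hX : Q.Real X) (hY : Q.Real Y)
    (hw : Pt266.Wk (s ∘ C.emb) (RG (full Q.A)) X Y L) {D : ℤ} {l : List ((ℤ × ℤ) × ZMod 4)}
    (hc : ChD Q X Y D l) :
    2 * Real.cos (wph be ch s (mp C.emb X) (mp C.emb Y) (L.map (mp C.emb))) =
      val b D (cg q X l) := by
  have hne : X ≠ Y := Pt266.wk_ne Q.hole (hX.ffree) (hY.ffree) hw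
  have e1 : (Pt266.tt s (L.map (mp C.emb)) : ℝ) = Pt266.tt (s ∘ C.emb) L := by
    rw [Pt266.tt_map]
  have e2 := Pt266.seam_tele hg hw
  obtain ⟨h6, h7⟩ := hc.cw.toC hc.ne
  obtain ⟨h8, -⟩ := Pt266.full_both Q.hole (Quad.Real.ffree Q hX) (Quad.Real.ffree Q hY) hw h6
    hne.symm (fun h => hc.out (List.mem_of_mem_dropLast h))
  refine Pt266.cos_val ?_
  have h9 := Pt266.rule_chain hR hc.cw hX hc.re
  unfold wph
  rw [e1, e2, h8]
  push_cast
  linear_combination h9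

section rule

variable {A : Half} {ρ : ℕ} {h : A.Sz ρ} {i : Fin 4} {x1 x2 z1 z2 : ℤ} {p : ℤ × ℤ}
  {pat : Bool → Bool → Bool}

theorem real_rend (hP : Patt (Half.chf h i).R (Bx x1 x2 z1 z2) p pat)
    {X : (ℤ × ℤ) × ZMod 4} (hX : (quadB x1 x2 z1 z2 p pat).Real X) :
    REnd h i (Bx x1 x2 z1 z2) X := by
  obtain ⟨h1, h2, h3⟩ := hX
  obtain ⟨h4, h5⟩ := (Pt266.mem_quadB hP).1 h1
  exact ⟨h4, fun h6 => h3 ((Pt266.mem_quadB hP).2 ⟨h6, h2⟩), h5, h2⟩

theorem rend_real (hP : Patt (Half.chf h i).R (Bx x1 x2 z1 z2) p pat)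
    {X : (ℤ × ℤ) × ZMod 4} (hX : REnd h i (Bx x1 x2 z1 z2) X) :
    (quadB x1 x2 z1 z2 p pat).Real X :=
  ⟨(Pt266.mem_quadB hP).2 ⟨hX.m, hX.b1⟩, hX.b2, fun h6 => hX.n ((Pt266.mem_quadB hP).1 h6).1⟩

/-- a boundary step of the pattern is a step of helper158 -/
theorem stp_of (hP : Patt (Half.chf h i).R (Bx x1 x2 z1 z2) p pat)
    {X Z : (ℤ × ℤ) × ZMod 4} {k : ℤ} (hX : (quadB x1 x2 z1 z2 p pat).Real X)
    (hZ : (quadB x1 x2 z1 z2 p pat).Real Z)
    (hn : NxT (full (quadB x1 x2 z1 z2 p pat).A).gl (some X) (some Z) k) :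
    Stp ((Half.chf h i).R : Set (ℤ × ℤ)) (Bx x1 x2 z1 z2) X Z k := by
  have rX := real_rend hP hX
  have rZ := real_rend hP hZ
  obtain ⟨t, d⟩ := X
  rcases Pt266.nxT_cases (Quad.Real.ffree _ hX) hn with ⟨rfl, rfl, -⟩ | ⟨rfl, rfl, h1, -⟩ |
    ⟨rfl, rfl, h1, -⟩
  · exact .convex rX.m rX.n rZ.n rX.b1 rX.b2 rZ.b2
  · obtain ⟨h4, h5⟩ := (Pt266.mem_quadB hP).1 h1
    exact .flat rX.m h4 rX.n rZ.n rX.b1 h5 rX.b2 rZ.b2
  · obtain ⟨h4, h5⟩ := (Pt266.mem_quadB hP).1 h1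
    exact .reflex rX.m h4 rZ.m rX.n rX.b1 h5 rZ.b1 rX.b2

variable {ch : Port TG → ℝ} {ps cc : TG × ZMod 4 → ℤ} {cl : ℤ} {O : Finset (Port TG)}

/-- charge of the gap after a side -/
def qg (cc : TG × ZMod 4 → ℤ) (cl : ℤ) (h : A.Sz ρ) (i : Fin 4) (X : (ℤ × ℤ) × ZMod 4) : ℤ :=
  Cg cc cl h i X - Cg cc cl h i (nxe ((Half.chf h i).R : Set (ℤ × ℤ)) X)

/-- **local rule** -/
theorem rule_of (H : PhH A ch ps cc cl) (hO : OpenH A O)
    (hB : A.Good ρ i (Bx x1 x2 z1 z2)) (hP : Patt (Half.chf h i).R (Bx x1 x2 z1 z2) p pat)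
    {b : Bool} (hc : ∀ X, REnd h i (Bx x1 x2 z1 z2) X →
      Lr158.eps h i X = if b then 1 else -1) :
    Rule (quadB x1 x2 z1 z2 p pat)
      (fun X => dch ch O (some (mp (Half.chf h i).emb X)) + gg A cl i X.1) b
      (qg cc cl h i) := by
  intro X Z k hX hZ hn
  have hS := stp_of hP hX hZ hn
  have h1 := Lr158.local_rule H hO hB hS
  have h2 := hc X (real_rend hP hX)
  have e : ∀ X : (ℤ × ℤ) × ZMod 4, Phi ch O cl h i X =
      dch ch O (some (mp (Half.chf h i).emb X)) + gg A cl i X.1 := by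
    intro X
    unfold Lr158.Phi
    rw [Lr158.pt_eq]
    rfl
  rw [e, e, h2] at h1
  simp only
  rw [h1]
  unfold qg
  rw [hS.nxe]
  cases b <;> simp [sgn]

/-- **gauge** -/
theorem gauge_of {T : Finset TG} {be : Port TG → Port TG} (E : DN A T be O)
    (H : PhH A ch ps cc cl) (hP : Patt (Half.chf h i).R (Bx x1 x2 z1 z2) p pat) :
    Gauge (Half.chf h i) (dbe be O) (dch ch O) (gg A cl i) (quadB x1 x2 z1 z2 p pat).A := by
  intro v hv a hv'
  have h1 := ((Pt266.mem_quadB hP).1 hv).1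
  have h2 := ((Pt266.mem_quadB hP).1 hv').1
  have h3 := Pt266.chart_glue (C := Half.chf h i) (Half.chf_F h i) h1 h2
  have h4 := (E.g1 _ _ h3).1
  have h5 := Lr158.phi_glue (h := h) (i := i) H E.hO h1 h2
  unfold Lr158.Phi at h5
  rw [Lr158.pt_eq, Lr158.pt_eq] at h5
  rw [h4]
  have e1 : mp (Half.chf h i).emb (v, a) = ((Half.chf h i).emb v, a) := rfl
  have e2 : mp (Half.chf h i).emb (v + dir a, a + 2) = ((Half.chf h i).emb (v + dir a), a + 2) :=
    rfl
  rw [e1, e2]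
  linarith

/-- **the charge of a chain telescopes** -/
theorem cg_tele (hP : Patt (Half.chf h i).R (Bx x1 x2 z1 z2) p pat)
    {X Y : (ℤ × ℤ) × ZMod 4} {D : ℤ} {l : List ((ℤ × ℤ) × ZMod 4)}
    (hc : CwR (full (quadB x1 x2 z1 z2 p pat).A).gl X Y D l)
    (hX : (quadB x1 x2 z1 z2 p pat).Real X)
    (hl : ∀ z ∈ l, (quadB x1 x2 z1 z2 p pat).Real z) :
    cg (qg cc cl h i) X l = Cg cc cl h i X - Cg cc cl h i Y := by
  induction hc with
  | nil x => simp [cg]
  | @cons x z y k D l h1 _ ih =>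
    have hz := hl z (List.mem_cons_self ..)
    have h2 := ih hz fun w hw => hl w (List.mem_cons_of_mem _ hw)
    have hS := stp_of hP hX hz h1
    have h4 : cg (qg cc cl h i) x (z :: l) = qg cc cl h i x + cg (qg cc cl h i) z l := by
      simp only [cg]
      rw [List.dropLast_cons_of_ne_nil (List.cons_ne_nil _ _), List.map_cons, List.sum_cons]
    rw [h4, h2]
    unfold qg
    rw [hS.nxe]
    ring

end rule

end Crest.Agent.R158.Ne808
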