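import Crest.Agent.R158.Fm2_857
import Crest.Agent.R158.Csh_410

/-!
# Row 158, Q1d (helper107): number of ends of the family

* `card_freeD` : at most `4 #F L` free ends of `D(F, L)`
* `card_freeG`, `card_JP` : at most `(4 #F + 3) L` ends of the family
-/

set_option autoImplicit false

noncomputable section

open Finset

namespace Crest.Agent.R158.Nj107

open Crest.Agent.R158.Sw300 (Port)
open Crest.Agent.R158.Env664 (TG Band Run D mem_D nbP nbP_W nbP_N nbP_E nbP_S PortOf portOf_some z4
  div_iff)
open Crest.Agent.R158.Fm857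
open Crest.Agent.R158.Tj656 (P4)

/-- free end number `s` of the side `d` of the cell `c` -/
def gE (L : ℤ) (x : (ℤ × ℤ) × ZMod 4 × ℤ) : Port (ℤ × ℤ) :=
  some (if x.2.1 = 0 then (x.1.1 * L, x.1.2 * L + x.2.2)
    else if x.2.1 = 1 then (x.1.1 * L + x.2.2, x.1.2 * L + L - 1)
    else if x.2.1 = 2 then (x.1.1 * L + L - 1, x.1.2 * L + x.2.2)
    else (x.1.1 * L + x.2.2, x.1.2 * L), x.2.1)

theorem freeD_sub {F : Finset (ℤ × ℤ)} {L : ℤ} (hL : 0 < L) (B : Band (D F L)) :
    freeD B ⊆ (F ×ˢ ((Finset.univ : Finset (ZMod 4)) ×ˢ Finset.Ico (0 : ℤ) L)).image (gE L) := by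
  intro q hq
  unfold freeD at hq
  rw [Finset.mem_filter] at hq
  obtain ⟨hq, hn, -⟩ := hq
  obtain ⟨⟨x, y⟩, d, rfl, ht⟩ := Ad350.mem_ports' hq
  have ht' := (mem_D hL _).1 ht
  simp only at ht'
  have hx := (div_iff hL x (x / L)).1 rfl
  have hy := (div_iff hL y (y / L)).1 rfl
  rw [Finset.mem_image]
  have z02 : ¬ ((1 : ZMod 4) = 0) := by decide
  have z20 : ¬ ((2 : ZMod 4) = 0) := by decide
  have z21 : ¬ ((2 : ZMod 4) = 1) := by decide
  have z30 : ¬ ((3 : ZMod 4) = 0) := by decide
  have z31 : ¬ ((3 : ZMod 4) = 1) := by decide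
  have z32 : ¬ ((3 : ZMod 4) = 2) := by decide
  rcases z4 d with rfl | rfl | rfl | rfl
  · refine ⟨((x / L, y / L), 0, y - y / L * L), ?_, ?_⟩
    · rw [Finset.mem_product, Finset.mem_product, Finset.mem_Ico]
      exact ⟨ht', Finset.mem_univ _, by simp only; omega, by simp only; omega⟩
    · have e : x = x / L * L := by
        by_contra hne
        apply hn
        rw [nbP_W, portOf_some, mem_D hL]
        simp only
        rw [(div_iff hL (x - 1) (x / L)).2 ⟨by omega, by omega⟩]
        exact ht'
      simp only [gE, if_true]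
      congr 3
      · exact e.symm
      · ring
  · refine ⟨((x / L, y / L), 1, x - x / L * L), ?_, ?_⟩
    · rw [Finset.mem_product, Finset.mem_product, Finset.mem_Ico]
      exact ⟨ht', Finset.mem_univ _, by simp only; omega, by simp only; omega⟩
    · have e : y = y / L * L + L - 1 := by
        by_contra hne
        apply hn
        rw [nbP_N, portOf_some, mem_D hL]
        simp only
        rw [(div_iff hL (y + 1) (y / L)).2 ⟨by omega, by omega⟩]
        exact ht'
      simp only [gE, if_neg z02, if_true]
      congr 3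
      · ring
      · exact e.symm
  · refine ⟨((x / L, y / L), 2, y - y / L * L), ?_, ?_⟩
    · rw [Finset.mem_product, Finset.mem_product, Finset.mem_Ico]
      exact ⟨ht', Finset.mem_univ _, by simp only; omega, by simp only; omega⟩
    · have e : x = x / L * L + L - 1 := by
        by_contra hne
        apply hn
        rw [nbP_E, portOf_some, mem_D hL]
        simp only
        rw [(div_iff hL (x + 1) (x / L)).2 ⟨by omega, by omega⟩]
        exact ht'
      simp only [gE, if_neg z20, if_neg z21, if_true]
      congr 3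
      · exact e.symm
      · ring
  · refine ⟨((x / L, y / L), 3, x - x / L * L), ?_, ?_⟩
    · rw [Finset.mem_product, Finset.mem_product, Finset.mem_Ico]
      exact ⟨ht', Finset.mem_univ _, by simp only; omega, by simp only; omega⟩
    · have e : y = y / L * L := by
        by_contra hne
        apply hn
        rw [nbP_S, portOf_some, mem_D hL]
        simp only
        rw [(div_iff hL (y - 1) (y / L)).2 ⟨by omega, by omega⟩]
        exact ht'
      simp only [gE, if_neg z30, if_neg z31, if_neg z32]
      congr 3
      · ring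
      · exact e.symm

theorem card_freeD {F : Finset (ℤ × ℤ)} {L : ℤ} (hL : 0 < L) (B : Band (D F L)) :
    (freeD B).card ≤ F.card * (4 * L.toNat) := by
  refine (Finset.card_le_card (freeD_sub hL B)).trans (Finset.card_image_le.trans ?_)
  rw [Finset.card_product, Finset.card_product, Int.card_Ico, Finset.card_univ, ZMod.card, sub_zero]

theorem card_freeG {F : Finset (ℤ × ℤ)} {L : ℤ} (hL : 0 < L) (B : Band (D F L)) (hR : B.R = L) :
    (freeG B).card ≤ (4 * F.card + 3) * L.toNat := by
  unfold freeG
  refine (Finset.card_union_le _ _).trans ?_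
  have h1 : ((freeD B).image (Ao857.tpm Ao857.inlE)).card ≤ F.card * (4 * L.toNat) :=
    Finset.card_image_le.trans (card_freeD hL B)
  have h2 : (flr B ∪ cil B).card ≤ L.toNat + (L + 1).toNat := by
    refine (Finset.card_union_le _ _).trans (add_le_add ?_ ?_)
    · unfold flr
      refine Finset.card_image_le.trans ?_
      rw [Int.card_Ico, hR, sub_zero]
    · unfold cil
      refine Finset.card_image_le.trans ?_
      rw [Int.card_Ico, hR, sub_zero]
  have h3 : (L + 1).toNat = L.toNat + 1 := by omega
  have h4 : 1 ≤ L.toNat := by omega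
  nlinarith

theorem card_JP (P : P4) {L : ℤ} (hL : 0 < L) (δ : ℝ) (B : Band (D P.F L)) (hR : B.R = L) :
    (JP P L δ B).card ≤ (4 * P.F.card + 3) * L.toNat :=
  (Finset.card_le_card (Finset.filter_subset _ _)).trans (card_freeG hL B hR)

end Crest.Agent.R158.Nj107
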