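import Crest.Agent.R158.Nj1_107
import Crest.Agent.R158.Fm3_857

/-!
# Row 158, Q1d (helper107): input (A) of `NormIn`

* `card_J` : number of members of `Fm857.fz`
* `co_le` : coefficients, `J0`, `card_J0`, `mem_J0` : the member `none`
-/

set_option autoImplicit false

noncomputable section

open Finset

namespace Crest.Agent.R158.Nj107

open Crest.Agent.R158.Env664 (TG Band D)
open Crest.Agent.R158.Fm857
open Crest.Agent.R158.Tj656 (P4)

/-- **number of members** -/
theorem card_J (P : P4) {L : ℤ} (hL : 0 < L) (δ : ℝ) (B : Band (D P.F L)) (hR : B.R = L) {κ : ℕ}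
    (hκ : 4 * P.F.card + 4 ≤ κ) : (Fintype.card (fz P L δ B).J : ℝ) ≤ κ * (L : ℝ) := by
  have h1 : Fintype.card (fz P L δ B).J = (insertNone (JP P L δ B)).card :=
    Fintype.card_coe (insertNone (JP P L δ B))
  have h2 : (insertNone (JP P L δ B)).card = (JP P L δ B).card + 1 := Finset.card_insertNone _
  have h3 := card_JP P hL δ B hR
  have h4 : Fintype.card (fz P L δ B).J ≤ κ * L.toNat := by
    rw [h1, h2]
    have h5 : 1 ≤ L.toNat := by omega
    nlinarith
  have h6 : ((L.toNat : ℕ) : ℝ) = (L : ℝ) := by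
    have : ((L.toNat : ℕ) : ℤ) = L := Int.toNat_of_nonneg hL.le
    exact_mod_cast this
  rw [← h6]
  exact_mod_cast h4

/-- **coefficients** -/
theorem co_le (P : P4) (L : ℤ) (δ : ℝ) (B : Band (D P.F L)) (μ : (fz P L δ B).J) :
    ‖(fz P L δ B).co μ‖ ≤ 1 := by
  have h : ‖(fz P L δ B).co μ‖ = 1 / 2 := norm_kap B _ _ _ _
  rw [h]
  norm_num

/-- the member `none` -/
def mu0 (P : P4) (L : ℤ) (δ : ℝ) (B : Band (D P.F L)) : (fz P L δ B).J :=
  (⟨none, Finset.none_mem_insertNone⟩ : {e : Option (Sw300.Port TG) // e ∈ insertNone (JP P L δ B)})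

/-- the member `none`, as a finite set -/
def J0 (P : P4) (L : ℤ) (δ : ℝ) (B : Band (D P.F L)) : Finset (fz P L δ B).J := {mu0 P L δ B}

theorem card_J0 (P : P4) (L : ℤ) (δ : ℝ) (B : Band (D P.F L)) : (J0 P L δ B).card = 1 :=
  Finset.card_singleton _

theorem mem_J0 {P : P4} {L : ℤ} {δ : ℝ} {B : Band (D P.F L)} {μ : (fz P L δ B).J} :
    μ ∈ J0 P L δ B ↔ μ.1 = none := by
  have h0 : μ ∈ J0 P L δ B ↔ μ = mu0 P L δ B := by
    unfold J0
    exact Finset.mem_singleton
  rw [h0]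
  constructor
  · rintro rfl
    rfl
  · intro h
    exact Subtype.ext h

/-- the other members -/
theorem notMem_J0 {P : P4} {L : ℤ} {δ : ℝ} {B : Band (D P.F L)} {μ : (fz P L δ B).J} :
    μ ∉ J0 P L δ B ↔ ∃ e, μ.1 = some e ∧ e ∈ JP P L δ B := by
  rw [mem_J0]
  constructor
  · intro h
    obtain ⟨e, he⟩ := Option.ne_none_iff_exists'.1 h
    refine ⟨e, he, ?_⟩
    have h2 : μ.1 ∈ insertNone (JP P L δ B) := μ.2
    rw [he] at h2
    exact Finset.some_mem_insertNone.1 h2
  · rintro ⟨e, he, -⟩ h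
    rw [he] at h
    exact absurd h (by simp)

end Crest.Agent.R158.Nj107
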