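import Crest.Agent.R158.Fm1_857
import Crest.Agent.R158.Ao12_857
import Crest.Agent.R158.Zc6_180
import Crest.Agent.R158.Zm2_180

/-!
# Row 158 (helper814): the normalisation `Z` of the ring, lower bound

* `fe A be O` : free ends of one half environment (399)
* `fe_low_up` : the free ends of the two halves are free ends of `G^(z)`, they are disjoint
* `Zs_ge` : `c * Pm n ≤ Zs` for `h ≤ n`
* `z_lower`
-/

set_option autoImplicit false

noncomputable section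

open Finset

namespace Crest.Agent.R158.Zl814

open Crest.Agent.R158.Ad350
open Crest.Agent.R158.Ao857
open Crest.Agent.R158.Sw300 (Port)
open Crest.Agent.R158.Fm857 (freeG mem_freeG)
open Crest.Agent.R158.Nz399 (Pm)
open Crest.Agent.R158.Env664 (TG Band Run PortOf portOf_some portOf_none nbP res res_of Adj4 z4)

/-- free ends of a half environment (one copy), `O` = open ports -/
def fe {T : Type*} [DecidableEq T] (A : Finset T) (be : Port T → Port T) (O : Finset (Port T)) :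
    Finset (Port T) := (ports A \ O).filter fun p => be p = p

lemma mem_fe {T : Type*} [DecidableEq T] {A : Finset T} {be : Port T → Port T}
    {O : Finset (Port T)} {q : Port T} : q ∈ fe A be O ↔ (q ∈ ports A ∧ q ∉ O) ∧ be q = q := by
  unfold fe
  rw [Finset.mem_filter, Finset.mem_sdiff]

variable {A : Finset (ℤ × ℤ)} {B : Band A}

lemma rows_sub {y0 : ℤ} {m k : ℕ} {z0 : ℤ} (h1 : B.y1 ≤ z0)
    (h2 : z0 + (k : ℤ) < B.y2)
    (hm : ∀ y, z0 ≤ y → y ≤ z0 + (k : ℤ) → (m : ℤ) + 1 ≤ (B.xr - B.xl + 1) + B.wd y0 y) {t : TG}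
    (ht : t ∈ rowsM B m k z0) : t ∈ B.tG y0 := by
  obtain ⟨i, j, hi, hj, rfl⟩ := (mem_rowsM B).1 ht
  by_cases h3 : (i : ℤ) ≤ B.xr - B.xl
  · rw [gI_le B h3, B.inl_mem]
    exact (B.run _ (by omega) (by omega)).mem _ (by omega) (by omega)
  · rw [gI_gt B h3, B.inr_mem]
    have := hm (z0 + (j : ℤ)) (by omega) (by omega)
    omega

/-- lower half -/
lemma low_sub {p y0 : ℤ} (h : B.At p y0) {Al Au : Finset (ℤ × ℤ)} (hs : Split B Al Au) {a : ℕ}
    (ha : B.y1 + (a : ℤ) < y0) {t : TG} (ht : t ∈ lowM B Al a) : t ∈ B.tG y0 := by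
  unfold lowM at ht
  rcases Finset.mem_union.1 ht with h1 | h1
  · rw [Finset.mem_map] at h1
    obtain ⟨v, hv, rfl⟩ := h1
    exact B.inl_mem.2 (hs.subl hv)
  · have hle := le_run B h
    have hR := B.hR
    refine rows_sub le_rfl (by have := h.hy2; omega) ?_ h1
    intro y _ hy
    have hw : B.wd y0 y = B.R := if_pos (by omega)
    rw [hw]
    unfold nn
    omega

/-- upper half -/
lemma up_sub {p y0 : ℤ} (h : B.At p y0) {Al Au : Finset (ℤ × ℤ)} (hs : Split B Al Au) {b : ℕ}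
    (hb : y0 ≤ B.y2 - 1 - (b : ℤ)) {t : TG} (ht : t ∈ upM B Au b) : t ∈ B.tG y0 := by
  unfold upM at ht
  rcases Finset.mem_union.1 ht with h1 | h1
  · rw [Finset.mem_map] at h1
    obtain ⟨v, hv, rfl⟩ := h1
    exact B.inl_mem.2 (hs.subu hv)
  · have hle := le_run B h
    have hR := B.hR
    refine rows_sub (by have := h.hy1; omega) (by omega) ?_ h1
    intro y hy _
    have hw : B.wd y0 y = B.R + 1 := if_neg (by omega)
    rw [hw]
    unfold nn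
    push_cast
    omega

lemma leg_low {p y0 : ℤ} (h : B.At p y0) {Al Au : Finset (ℤ × ℤ)} (hs : Split B Al Au) {a : ℕ}
    (ha : B.y1 + (a : ℤ) < y0) : legP p y0 ∉ ports (lowM B Al a) := by
  have h1 := h.hy1
  have h2 := h.hy2
  have h3 := h.hp1
  have h4 := h.hp2
  unfold legP
  rw [mem_ports]
  intro hq
  unfold lowM at hq
  rcases Finset.mem_union.1 hq with hq | hq
  · rw [mem_inlE] at hq
    exact hs.dl _ _ hq ⟨by omega, by omega, by omega, by omega⟩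
  · obtain ⟨i, j, hi, hj, he⟩ := (mem_rowsM B).1 hq
    by_cases h5 : (i : ℤ) ≤ B.xr - B.xl
    · rw [gI_le B h5] at he
      simp only [Sum.inl.injEq, Prod.mk.injEq] at he
      omega
    · rw [gI_gt B h5] at he
      exact absurd he (by simp)

lemma leg_up {p y0 : ℤ} (h : B.At p y0) {Al Au : Finset (ℤ × ℤ)} (hs : Split B Al Au) {b : ℕ}
    (hb : y0 ≤ B.y2 - 1 - (b : ℤ)) (hq : legP p y0 ∈ ports (upM B Au b)) :
    legP p y0 ∈ botO B b := by
  have h1 := h.hy1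
  have h2 := h.hy2
  have h3 := h.hp1
  have h4 := h.hp2
  unfold legP at hq ⊢
  rw [mem_ports] at hq
  unfold upM at hq
  rcases Finset.mem_union.1 hq with hq | hq
  · rw [mem_inlE] at hq
    exact absurd ⟨by omega, by omega, by omega, by omega⟩ (hs.du _ _ hq)
  · obtain ⟨i, j, hi, hj, he⟩ := (mem_rowsM B).1 hq
    rw [mem_botO]
    refine ⟨⟨i, by omega⟩, ?_⟩
    unfold botP
    by_cases h5 : (i : ℤ) ≤ B.xr - B.xl
    · rw [he]
      rw [gI_le B h5] at he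
      simp only [Sum.inl.injEq, Prod.mk.injEq] at he
      rw [show B.y2 - 1 - (b : ℤ) + (j : ℤ) = B.y2 - 1 - (b : ℤ) by omega]
    · rw [gI_gt B h5] at he
      exact absurd he (by simp)

theorem fe_low {p y0 : ℤ} (h : B.At p y0) {Al Au : Finset (ℤ × ℤ)} (hs : Split B Al Au) {a : ℕ}
    (ha : B.y1 + (a : ℤ) < y0) : fe (lowM B Al a) (beL B p y0) (topO B a) ⊆ freeG B := by
  intro q hq
  obtain ⟨⟨h1, h2⟩, h3⟩ := mem_fe.1 hq
  have hne : q ≠ legP p y0 := fun e => leg_low h hs ha (e ▸ h1)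
  rw [beL_ne B hne] at h3
  refine (mem_freeG B h).2 ⟨?_, h3⟩
  obtain ⟨t, d, rfl, ht⟩ := mem_ports' h1
  exact mem_ports.2 (low_sub h hs ha ht)

theorem fe_up {p y0 : ℤ} (h : B.At p y0) {Al Au : Finset (ℤ × ℤ)} (hs : Split B Al Au) {b : ℕ}
    (hb : y0 ≤ B.y2 - 1 - (b : ℤ)) : fe (upM B Au b) (beL B p y0) (botO B b) ⊆ freeG B := by
  intro q hq
  obtain ⟨⟨h1, h2⟩, h3⟩ := mem_fe.1 hq
  have hne : q ≠ legP p y0 := fun e => h2 (e ▸ leg_up h hs hb (e ▸ h1))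
  rw [beL_ne B hne] at h3
  refine (mem_freeG B h).2 ⟨?_, h3⟩
  obtain ⟨t, d, rfl, ht⟩ := mem_ports' h1
  exact mem_ports.2 (up_sub h hs hb ht)

lemma low_up_disj {p y0 : ℤ} (h : B.At p y0) {Al Au : Finset (ℤ × ℤ)} (hs : Split B Al Au)
    {a b : ℕ} (ha : B.y1 + (a : ℤ) < y0) (hb : y0 ≤ B.y2 - 1 - (b : ℤ)) :
    Disjoint (lowM B Al a) (upM B Au b) := by
  have h1 := h.hy1
  have h2 := h.hy2
  unfold lowM upM
  rw [Finset.disjoint_union_left, Finset.disjoint_union_right, Finset.disjoint_union_right]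
  refine ⟨⟨hs.disj_lu, hs.disj_low (by omega) (by omega)⟩,
    (hs.disj_up le_rfl (by omega)).symm, ?_⟩
  rw [Finset.disjoint_left]
  intro t ht1 ht2
  obtain ⟨i, j, hi, hj, rfl⟩ := (mem_rowsM B).1 ht1
  rw [gI_mem_rows B] at ht2
  omega

/-- **the free ends of the two halves** -/
theorem fe_low_up {p y0 : ℤ} (h : B.At p y0) {Al Au : Finset (ℤ × ℤ)} (hs : Split B Al Au)
    {a b : ℕ} (ha : B.y1 + (a : ℤ) < y0) (hb : y0 ≤ B.y2 - 1 - (b : ℤ)) :
    (fe (lowM B Al a) (beL B p y0) (topO B a)).card +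
      (fe (upM B Au b) (beL B p y0) (botO B b)).card ≤ (freeG B).card := by
  have hd : Disjoint (fe (lowM B Al a) (beL B p y0) (topO B a))
      (fe (upM B Au b) (beL B p y0) (botO B b)) := by
    rw [Finset.disjoint_left]
    intro q h1 h2
    exact ports_disj (low_up_disj h hs ha hb) (mem_fe.1 h1).1.1 (mem_fe.1 h2).1.1
  rw [← Finset.card_union_of_disjoint hd]
  exact Finset.card_le_card (Finset.union_subset (fe_low h hs ha) (fe_up h hs hb))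

/-- **lower bound of the far probability** -/
theorem Zs_ge : ∃ c q : ℝ, 0 < c ∧ 0 < q ∧ q < 1 ∧
    ∀ (A : Finset (ℤ × ℤ)) (B : Band A) (p y0 k b : ℤ) (h N : ℕ), B.At p y0 →
      Zc180.Par B k b h N → 2 * q ^ N ≤ 1 / 2 → ∀ n : ℕ, h ≤ n →
      c * Pm n ≤ Zc180.Zs B k b h := by
  obtain ⟨c, q, hc, hq, hq1, -, hm⟩ := Zc180.strip_main
  refine ⟨c, q, hc, hq, hq1, fun A B p y0 k b h N hz hP hN n hn => ?_⟩
  have h1 := (hm A B p y0 k b h N hz hP hN).1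
  have h3 := Zc180.nr_pos hP.h3
  have h4 := Zc180.nr_le h
  have h5 : Pm n ≤ Zb180.Pf (Zc180.nr h) := by
    rw [← Zm180.pm_eq (by omega)]
    exact Zm180.pm_anti (by omega) (by omega)
  exact (mul_le_mul_of_nonneg_left h5 hc.le).trans h1

/-- the normalisation of the family -/
def Zv (B : Band A) (L : ℤ) : ℝ :=
  (3 : ℝ) ^ ((((freeG B).card : ℝ) - 1) / 4) * Zc180.Zs B (L / 8) (L / 2) (B.y2 - B.y1).toNat

lemma norm_Zv {B : Band A} {L : ℤ} (h : 0 ≤ Zv B L) :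
    ‖star (ei (Real.pi / 12)) * (Zv B L : ℂ)‖ = Zv B L := by
  have h1 : ‖ei (Real.pi / 12)‖ = 1 := Complex.norm_exp_ofReal_mul_I _
  rw [norm_mul, norm_star, h1, one_mul, Complex.norm_real, Real.norm_of_nonneg h]

theorem sqrt3_pow {m g : ℕ} (h : m ≤ g) :
    (3 : ℝ) ^ (-(1 / 4 : ℝ)) * √3 ^ ((m : ℝ) / 2) ≤ (3 : ℝ) ^ (((g : ℝ) - 1) / 4) := by
  rw [Real.sqrt_eq_rpow, ← Real.rpow_mul (by norm_num), ← Real.rpow_add (by norm_num)]
  refine Real.rpow_le_rpow_of_exponent_le (by norm_num) ?_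
  have : (m : ℝ) ≤ g := by exact_mod_cast h
  linarith

/-- the geometric conditions -/
theorem par_ev (N : ℕ) : ∃ h0 : ℝ, 0 < h0 ∧ ∀ h : ℝ, 0 < h → h < h0 → ∃ L0 : ℤ, ∀ L : ℤ, L0 ≤ L →
    ∀ (y : ℝ) (A : Finset (ℤ × ℤ)) (B : Band A), B.R = L → B.y1 = ⌊(y - 3 * h) * L⌋ →
      B.y2 = ⌊(y + 3 * h) * L⌋ → Zc180.Par B (L / 8) (L / 2) (B.y2 - B.y1).toNat N ∧
        0 < L ∧ (B.y2 - B.y1).toNat ≤ L.toNat := by
  refine ⟨1 / (96 * ((N : ℝ) + 1)), by positivity, fun h hh hh0 => ?_⟩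
  refine ⟨max (⌈4 / (6 * h)⌉) (16 * ((N : ℤ) + 4)), fun L hL y A B hR h1 h2 => ?_⟩
  have hL1 : ⌈4 / (6 * h)⌉ ≤ L := (le_max_left _ _).trans hL
  have hL2 : 16 * ((N : ℤ) + 4) ≤ L := (le_max_right _ _).trans hL
  have hL1' : 4 / (6 * h) ≤ (L : ℝ) := Int.ceil_le.1 hL1
  have hL2' : 16 * ((N : ℝ) + 4) ≤ (L : ℝ) := by exact_mod_cast hL2
  have hN0 : (0 : ℝ) ≤ N := Nat.cast_nonneg N
  have hL0 : (0 : ℝ) < L := by linarith
  have e1 : 4 ≤ 6 * h * L := by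
    rw [div_le_iff₀ (by positivity)] at hL1'
    linarith
  have e2 : h * (96 * ((N : ℝ) + 1)) < 1 := by
    rwa [lt_div_iff₀ (by positivity)] at hh0
  -- the height
  set t : ℤ := B.y2 - B.y1 with ht
  have f1 := Int.floor_le ((y - 3 * h) * (L : ℝ))
  have f2 := Int.lt_floor_add_one ((y - 3 * h) * (L : ℝ))
  have f3 := Int.floor_le ((y + 3 * h) * (L : ℝ))
  have f4 := Int.lt_floor_add_one ((y + 3 * h) * (L : ℝ))
  rw [← h1] at f1 f2
  rw [← h2] at f3 f4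
  have g1 : (t : ℝ) ≤ 6 * h * L + 1 := by
    rw [ht]; push_cast; nlinarith
  have g2 : 6 * h * L - 1 ≤ (t : ℝ) := by
    rw [ht]; push_cast; nlinarith
  have t3 : 3 ≤ t := by
    have : (3 : ℝ) ≤ (t : ℝ) := by linarith
    exact_mod_cast this
  have g3 : 16 * ((N : ℝ) + 1) * (6 * h * L) ≤ L := by
    have : h * (96 * ((N : ℝ) + 1)) * L ≤ 1 * L := mul_le_mul_of_nonneg_right e2.le hL0.le
    linarith
  have g4 : 16 * (((N : ℝ) + 1) * t) ≤ L + 16 * ((N : ℝ) + 1) := by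
    have : ((N : ℝ) + 1) * t ≤ ((N : ℝ) + 1) * (6 * h * L + 1) :=
      mul_le_mul_of_nonneg_left g1 (by positivity)
    linarith
  have g5 : 16 * (((N : ℤ) + 1) * t) ≤ L + 16 * ((N : ℤ) + 1) := by exact_mod_cast g4
  have htn : ((t.toNat : ℕ) : ℤ) = t := Int.toNat_of_nonneg (by omega)
  have hNt : 0 ≤ (N : ℤ) * t := mul_nonneg (by omega) (by omega)
  have g6 : ((N : ℤ) + 1) * t = (N : ℤ) * t + t := by ring
  refine ⟨⟨?_, ?_, ?_, ?_, ?_, ?_⟩, ?_, ?_⟩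
  · rw [htn]; omega
  · omega
  · omega
  · rw [htn]; omega
  · rw [htn]; omega
  · rw [htn, hR]; omega
  · omega
  · omega

/-- **the lower bound of the normalisation** -/
theorem z_lower : ∃ h0 c : ℝ, 0 < h0 ∧ 0 < c ∧ ∀ h : ℝ, 0 < h → h < h0 → ∃ L0 : ℤ, ∀ L : ℤ,
    L0 ≤ L → ∀ (y : ℝ) (A : Finset (ℤ × ℤ)) (B : Band A), B.R = L → B.y1 = ⌊(y - 3 * h) * L⌋ →
      B.y2 = ⌊(y + 3 * h) * L⌋ → ∀ (p y0 : ℤ), B.At p y0 → ∀ (Al Au : Finset (ℤ × ℤ)),
      Split B Al Au → ∀ a b : ℕ, B.y1 + (a : ℤ) < y0 → y0 ≤ B.y2 - 1 - (b : ℤ) →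
      0 < Zv B L ∧
      c * √3 ^ (((fe (lowM B Al a) (beL B p y0) (topO B a)).card +
        (fe (upM B Au b) (beL B p y0) (botO B b)).card : ℝ) / 2) * Pm L.toNat ≤ Zv B L := by
  obtain ⟨c, q, hc, hq, hq1, hZ⟩ := Zs_ge
  obtain ⟨N, hN⟩ := exists_pow_lt_of_lt_one (show (0 : ℝ) < 1 / 4 by norm_num) hq1
  obtain ⟨h0, hh0, hP⟩ := par_ev N
  refine ⟨h0, 3 ^ (-(1 / 4 : ℝ)) * c, hh0, by positivity, fun h hh hlt => ?_⟩
  obtain ⟨L0, hL0⟩ := hP h hh hlt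
  refine ⟨L0, fun L hL y A B hR h1 h2 p y0 hz Al Au hs a b ha hb => ?_⟩
  obtain ⟨hPar, hLp, hn⟩ := hL0 L hL y A B hR h1 h2
  have hN2 : 2 * q ^ N ≤ 1 / 2 := by linarith
  have k1 := hZ A B p y0 (L / 8) (L / 2) _ N hz hPar hN2 _ hn
  have k2 := sqrt3_pow (fe_low_up hz hs ha hb)
  push_cast at k2
  have hPm : 0 < Pm L.toNat := by
    obtain ⟨c1, hc1, hl⟩ := Zm180.pm_lower
    have hL1 : 1 ≤ L.toNat := by omega
    refine lt_of_lt_of_le ?_ (hl L.toNat hL1)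
    have : (0 : ℝ) < (L.toNat : ℝ) := by exact_mod_cast hL1
    positivity
  have h3 : (0 : ℝ) < (3 : ℝ) ^ ((((freeG B).card : ℝ) - 1) / 4) := by positivity
  have hZs : 0 < Zc180.Zs B (L / 8) (L / 2) (B.y2 - B.y1).toNat :=
    lt_of_lt_of_le (mul_pos hc hPm) k1
  refine ⟨mul_pos h3 hZs, ?_⟩
  unfold Zv
  refine le_trans (le_of_eq ?_) (mul_le_mul k2 k1 (by positivity) h3.le)
  ring

end Crest.Agent.R158.Zl814
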