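import Crest.Agent.R158.Nz9_399
import Crest.Agent.R158.Ne3_808
import Crest.Agent.R158.Zl1_814
import Crest.Agent.R158.Ka10_470
import Crest.Agent.R158.Lr6_158
import Crest.Agent.R158.Rf3_896

/-!
# R158, block Q1d (helper399), part 10: `HB` for the two halves of a band

* `eds_double` : the double has `2 m` free ends
* `dn_low` : the network of the double of the lower half of a band
* `PW` : pointwise bound (808), `hb_half`, `hb_low`, `hb_up`
-/

set_option autoImplicit false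

noncomputable section

namespace Crest.Agent.R158.Nz399

open MeasureTheory ProbabilityTheory unitInterval Matrix
open Crest.Agent.R158.Rs689
open Crest.Agent.R158.Nm211
open Crest.Agent.R158.Ka470
open Crest.Agent.R158.Env664 (TG D Run Band Mac lowT upT Adj4)
open Crest.Agent.R158.Sw300 (Port)
open Crest.Agent.R158.Ad350 (ports tnet mem_ports mem_ports')
open Crest.Agent.R158.Cs410 (nrm nrm_nonneg)
open Crest.Agent.R158.Bd932 (That e3)
open Crest.Agent.R158.Ao857 (nn beL chL topO botO lowM upM InZ OutZ plainL Split mem_topO)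
open Crest.Agent.R158.Ne808 (DN nt)
open Crest.Agent.R158.Zl814 (mem_fe)
open Crest.Agent.R158.Rf896 (rA rB rp)

section double

variable {T : Type*} [DecidableEq T]

theorem jm_fix {be : Port T → Port T} {O : Finset (Port T)} {k : Bool} {p : Port T} (hp : p ≠ none) :
    dbe be O (jm k p) = jm k p ↔ p ∉ O ∧ be p = p := by
  rw [dbe_jm be O k hp]
  by_cases h : p ∈ O
  · rw [if_pos h]
    refine ⟨fun h1 => ?_, fun h1 => absurd h h1.1⟩
    have h2 := congrArg cp h1
    rw [cp_jm _ hp, cp_jm _ hp] at h2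
    cases k <;> simp at h2
  · rw [if_neg h]
    refine ⟨fun h1 => ⟨h, jm_inj k h1⟩, fun h1 => by rw [h1.2]⟩

/-- **free ends of the double** -/
theorem eds_double (A : Finset T) (be : Port T → Port T) (ch : Port T → ℝ) (O : Finset (Port T))
    (s : T × Bool → Bool) :
    ((tnet (A ×ˢ (Finset.univ : Finset Bool)) s (dbe be O) (dch ch O)).eds
      (ports (A ×ˢ (Finset.univ : Finset Bool)))).card = 2 * (Zl814.fe A be O).card := by
  classical
  have hne : ∀ p ∈ ports A, p ≠ none := fun p hp h => by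
    rw [h] at hp; exact Crest.Agent.R158.Ad350.none_ports hp
  have e1 : (tnet (A ×ˢ (Finset.univ : Finset Bool)) s (dbe be O) (dch ch O)).eds
      (ports (A ×ˢ (Finset.univ : Finset Bool))) =
      (Zl814.fe A be O).image (jm false) ∪ (Zl814.fe A be O).image (jm true) := by
    ext q
    rw [Ad350.Net.mem_eds, Finset.mem_union, Finset.mem_image, Finset.mem_image]
    constructor
    · rintro ⟨h1, h2⟩
      have h2' : dbe be O q = q := h2
      have h3 : un q ∈ ports A := mem_ports_double.1 h1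
      have h4 := hne _ h3
      have h5 : dbe be O (jm (cp q) (un q)) = jm (cp q) (un q) := by rw [jm_un]; exact h2'
      have h6 := (jm_fix h4).1 h5
      have h7 : un q ∈ Zl814.fe A be O := mem_fe.2 ⟨⟨h3, h6.1⟩, h6.2⟩
      cases hc : cp q
      · left; exact ⟨un q, h7, by rw [← hc, jm_un]⟩
      · right; exact ⟨un q, h7, by rw [← hc, jm_un]⟩
    · rintro (⟨p, hp, rfl⟩ | ⟨p, hp, rfl⟩) <;>
      · obtain ⟨⟨h1, h2⟩, h3⟩ := mem_fe.1 hp
        refine ⟨?_, (jm_fix (hne p h1)).2 ⟨h2, h3⟩⟩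
        rw [mem_ports_double, un_jm]
        exact h1
  rw [e1, Finset.card_union_of_disjoint, Finset.card_image_of_injective _ (jm_inj false),
    Finset.card_image_of_injective _ (jm_inj true)]
  · ring
  · rw [Finset.disjoint_left]
    intro q h1 h2
    obtain ⟨p, hp, rfl⟩ := Finset.mem_image.1 h1
    obtain ⟨p', hp', h3⟩ := Finset.mem_image.1 h2
    have h4 := congrArg cp h3
    rw [cp_jm _ (hne p (mem_fe.1 hp).1.1), cp_jm _ (hne p' (mem_fe.1 hp').1.1)] at h4
    simp at h4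

end double

/-- pointwise bound of the double of a half -/
def PW {A : Half} {ρ : ℕ} (h : A.Sz ρ) (T : Finset TG) (be : Port TG → Port TG)
    (O : Finset (Port TG)) (ch : Port TG → ℝ) (X : Finset Sp) : Prop :=
  ∀ s, ‖(nt T be O ch s).z (ports (T ×ˢ (Finset.univ : Finset Bool)))‖ ≤
    √3 ^ (((nt T be O ch s).eds (ports (T ×ˢ (Finset.univ : Finset Bool)))).card / 2) *
      ((∏ x ∈ X, x.val h (3 * ρ) s) * 2 ^ BN h s)

theorem hb_half {A : Half} {ρ κ M : ℕ} (h : A.Sz ρ) (hbd : A.Bd ρ κ) {T : Finset TG}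
    {be : Port TG → Port TG} {O : Finset (Port TG)} {ch : Port TG → ℝ} {X : Finset Sp}
    (h1 : X.card ≤ M)
    (h2 : ∀ x ∈ X, ∀ y ∈ X, x ≠ y → Disjoint (x.sup h (3 * ρ)) (y.sup h (3 * ρ)))
    (h3 : ∀ x ∈ X, x.In h (3 * ρ)) (h4 : cnt X .cv ≤ cnt X .rf)
    (pw : PW h T be O ch X) :
    HB κ M ρ (Zl814.fe T be O).card (cnt X .mk) (cnt X .e2) (cnt X .e1)
      (∫ s, zr (T ×ˢ Finset.univ) (dbe be O) (dch ch O) s ∂(PB fun _ : TG × Bool => hf)) := by
  refine ⟨A, h, hbd, X, h1, h2, h3, h4, rfl, rfl, rfl, T ×ˢ Finset.univ,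
    zr (T ×ˢ Finset.univ) (dbe be O) (dch ch O), zr_dep _ _ _, le_rfl, fun s => ?_⟩
  have h5 := pw s
  have h6 : ((nt T be O ch s).eds (ports (T ×ˢ (Finset.univ : Finset Bool)))).card / 2 =
      (Zl814.fe T be O).card := by
    have := eds_double T be ch O s
    unfold nt
    rw [this]; omega
  rw [h6] at h5
  refine le_trans ?_ h5
  exact Complex.re_le_norm _

section band

variable {M : Mac} {L a b c y0 : ℤ} {A : Finset (ℤ × ℤ)} {B : Band A} {Al Au : Finset (ℤ × ℤ)}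

/-- **the network of the double of the lower half** -/
theorem dn_low (h : LB M L a b c y0 B Al Au) {n : ℕ} (hn : y0 = B.y1 + n + 1) {p z0 : ℤ}
    (hz : B.At p z0) (hzy : y0 ≤ z0) :
    DN (lowHalf h.d) (lowM B Al n) (beL B p z0) (topO B n) where
  hT t := (tH_low h hn).symm
  hO := Lr158.openH h hn
  hb := (Ao857.low_rep B hz h.hs h.hadj 0 0 (fun _ => 0) (a := n) (by omega)).1
  hb2 q hq := Ao857.beL_invol B hz (Ao857.ports_ne_none (Finset.mem_sdiff.1 hq).1)
  gd q r hq := gd_iff h hz hzy (fun t e => by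
    rw [mem_topO, ← top_cut h hn]
    exact exists_congr fun i => eq_comm) hq

/-- **`HB` for the vector below** -/
theorem hb_low (h : LB M L a b c y0 B Al Au) {n : ℕ} (hn : y0 = B.y1 + n + 1) {p z0 : ℤ}
    (hz : B.At p z0) (hzy : y0 ≤ z0) {ρ κ M' : ℕ} (hs : (lowHalf h.d).Sz ρ)
    (hbd : (lowHalf h.d).Bd ρ κ) (tw c' : ℝ) (φ : Port TG → ℝ) {X : Finset Sp}
    (h1 : X.card ≤ M')
    (h2 : ∀ x ∈ X, ∀ y ∈ X, x ≠ y → Disjoint (x.sup hs (3 * ρ)) (y.sup hs (3 * ρ)))
    (h3 : ∀ x ∈ X, x.In hs (3 * ρ)) (h4 : cnt X .cv ≤ cnt X .rf)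
    (pw : PW hs (lowM B Al n) (beL B p z0) (topO B n) (fun q => -chL B p z0 tw c' φ q) X)
    (τ : Port TG → Bool) :
    HB κ M' ρ (Zl814.fe (lowM B Al n) (beL B p z0) (topO B n)).card (cnt X .mk) (cnt X .e2) (cnt X .e1)
      (nrm (That (nn B + 1) tw (1 / 2) ^ (n + 1) *ᵥ InZ B Al φ (plainL A Al φ) τ) ^ 2) := by
  have key := hb_half hs hbd h1 h2 h3 h4 pw
  have e1 := Ao857.low_nrm B hz h.hs h.hadj tw c' φ (a := n) (by omega) τ
  have E := dn_low h hn hz hzy
  have e2 : dch (fun q => -chL B p z0 tw c' φ q) (topO B n) =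
      fun q => -dch (chL B p z0 tw c' φ) (topO B n) q := by
    funext q
    unfold dch
    split_ifs <;> simp
  rw [e2, int_zr_neg (dbe_mem E.hb) (dbe_inv E.hb E.hb2), ← e1] at key
  exact key

end band

/-- **`HB` for the covector above** (through the reflected band) -/
theorem hb_up {M : Mac} {L a b c y0 : ℤ} {B : Band (D M.F L)} (m : MB M L a b c B)
    (g1 : -B.y2 < y0) (g2 : y0 ≤ -B.y1) {n : ℕ} (hn : y0 = -B.y2 + n + 1) {p z0 : ℤ}
    (hz : (rB B).At p z0) (hzy : y0 ≤ z0) {ρ κ M' : ℕ} (hs : (lowHalf (lb_up m g1 g2).d).Sz ρ)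
    (hbd : (lowHalf (lb_up m g1 g2).d).Bd ρ κ) (tw c' : ℝ) (φ : Port TG → ℝ) {X : Finset Sp}
    (h1 : X.card ≤ M')
    (h2 : ∀ x ∈ X, ∀ y ∈ X, x ≠ y → Disjoint (x.sup hs (3 * ρ)) (y.sup hs (3 * ρ)))
    (h3 : ∀ x ∈ X, x.In hs (3 * ρ)) (h4 : cnt X .cv ≤ cnt X .rf)
    (pw : PW hs (lowM (rB B) (rA (upT (D M.F L) B.xl B.xr B.y2)) n) (beL (rB B) p z0)
      (topO (rB B) n) (fun q => -chL (rB B) p z0 (-tw) c' (fun q => -φ (rp q)) q) X)
    (τ : Port TG → Bool) :
    HB κ M' ρ (Zl814.fe (lowM (rB B) (rA (upT (D M.F L) B.xl B.xr B.y2)) n) (beL (rB B) p z0)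
      (topO (rB B) n)).card (cnt X .mk) (cnt X .e2) (cnt X .e1)
      (nrm (OutZ B (upT (D M.F L) B.xl B.xr B.y2) φ
        (plainL (D M.F L) (upT (D M.F L) B.xl B.xr B.y2) φ) τ ᵥ*
          That (nn B + 2) tw (1 / 2) ^ (n + 1)) ^ 2) := by
  have hx : B.xl ≤ B.xr := by
    have := (lb_up m g1 g2).d.ab
    have h5 := m.xl
    have h6 := m.xr
    have h7 := m.hL
    omega
  rw [Rf896.nrm_out_plain' B hx (fun t ht => (m.split).subu ht) φ τ tw (n + 1)]
  exact hb_low (lb_up m g1 g2) hn hz hzy hs hbd (-tw) c' (fun q => -φ (rp q)) h1 h2 h3 h4 pw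
    fun q => τ (rp q)

end Crest.Agent.R158.Nz399
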