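import Crest.Agent.R158.Zl1_814
import Crest.Agent.R158.Fm2_857
import Crest.Agent.R158.Csh_410
import Crest.Agent.R158.Xr11_249
import Crest.Agent.R158.Mg2_949

/-!
# Row 158 (helper814): the normalisation `ZP`, lower bound in the names of `Csh_410`

* `norm_ZP`
* `nums` : the numbers of rows `a + 1 = ⌊(y - 2h)L⌋ - y1`, `b + 1 = y2 - ⌊(y + 2h)L⌋`
* `split_on` : `Split` of the band of a slice
* `zp_lower_card`, `zp_lower`
-/

set_option autoImplicit false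

noncomputable section

open Finset

namespace Crest.Agent.R158.Zl814

open Crest.Agent.R158.Ad350
open Crest.Agent.R158.Ao857
open Crest.Agent.R158.Fm857 (freeG ZP)
open Crest.Agent.R158.Nz399 (Pm)
open Crest.Agent.R158.Env664 (TG Band Run D lowT upT Adj4)
open Crest.Agent.R158.Cs410 (OnB InHalf)
open Crest.Agent.R158.Tj656 (P4)

theorem norm_ZP {P : P4} {L : ℤ} {B : Band (D P.F L)} (h : 0 ≤ Zv B L) :
    ‖ZP P L B‖ = Zv B L := by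
  have h1 : ‖Complex.exp (Complex.I * (Real.pi / 12))‖ = 1 := by
    have := Complex.norm_exp_ofReal_mul_I (Real.pi / 12)
    rw [mul_comm]
    push_cast at this
    exact this
  unfold ZP
  rw [norm_mul, norm_star, h1, one_mul, Complex.norm_real]
  exact Real.norm_of_nonneg h

/-- the rows -/
theorem nums {h : ℝ} (hh : 0 < h) : ∃ L0 : ℤ, ∀ L : ℤ, L0 ≤ L → ∀ (A B' : ℤ) (y : ℝ)
    {T : Finset (ℤ × ℤ)} (B : Band T), OnB A B' L h y B → 0 < L ∧ ∃ a b : ℕ,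
      (⌊(y - 2 * h) * L⌋ - B.y1).toNat = a + 1 ∧ (B.y2 - ⌊(y + 2 * h) * L⌋).toNat = b + 1 ∧
      (∀ y0 : ℤ, y - h ≤ (y0 : ℝ) / L → (y0 : ℝ) / L ≤ y + h →
        B.y1 + (a : ℤ) < y0 ∧ y0 ≤ B.y2 - 1 - (b : ℤ)) ∧
      h * L / 2 ≤ (a : ℝ) ∧ (a : ℝ) ≤ 2 * h * L ∧ h * L / 2 ≤ (b : ℝ) ∧ (b : ℝ) ≤ 2 * h * L ∧
      (A ≤ B' → ∃ p y0 : ℤ, B.At p y0 ∧ B.y1 + (a : ℤ) < y0 ∧ y0 ≤ B.y2 - 1 - (b : ℤ)) := by
  refine ⟨⌈8 / h⌉ + 2, fun L hL A B' y T B hB => ?_⟩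
  have hL1 : (8 / h : ℝ) + 2 ≤ (L : ℝ) := by
    have h1 := Int.le_ceil (8 / h : ℝ)
    have h2 : ((⌈8 / h⌉ + 2 : ℤ) : ℝ) ≤ (L : ℝ) := by exact_mod_cast hL
    push_cast at h2
    linarith
  have h8 : 0 < 8 / h := by positivity
  have hL0 : (0 : ℝ) < L := by linarith
  have hLz : 0 < L := by exact_mod_cast hL0
  have hL2 : (2 : ℝ) ≤ L := by linarith
  have e1 : 8 ≤ h * L := by
    have : 8 / h ≤ (L : ℝ) := by linarith
    rw [div_le_iff₀ hh] at this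
    linarith
  obtain ⟨hxl, hxr, hR, hy1, hy2⟩ := hB
  have f1 := Int.floor_le ((y - 3 * h) * (L : ℝ))
  have f2 := Int.lt_floor_add_one ((y - 3 * h) * (L : ℝ))
  have f3 := Int.floor_le ((y + 3 * h) * (L : ℝ))
  have f4 := Int.lt_floor_add_one ((y + 3 * h) * (L : ℝ))
  rw [← hy1] at f1 f2
  rw [← hy2] at f3 f4
  have g1 := Int.floor_le ((y - 2 * h) * (L : ℝ))
  have g2 := Int.lt_floor_add_one ((y - 2 * h) * (L : ℝ))
  have g3 := Int.floor_le ((y + 2 * h) * (L : ℝ))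
  have g4 := Int.lt_floor_add_one ((y + 2 * h) * (L : ℝ))
  set u : ℤ := ⌊(y - 2 * h) * (L : ℝ)⌋ with hu
  set v : ℤ := ⌊(y + 2 * h) * (L : ℝ)⌋ with hv
  have hA1 : (7 : ℝ) ≤ ((u - B.y1 : ℤ) : ℝ) := by push_cast; nlinarith
  have hB1 : (7 : ℝ) ≤ ((B.y2 - v : ℤ) : ℝ) := by push_cast; nlinarith
  have hA2 : 7 ≤ u - B.y1 := by exact_mod_cast hA1
  have hB2 : 7 ≤ B.y2 - v := by exact_mod_cast hB1
  obtain ⟨a, ha⟩ : ∃ a : ℕ, (u - B.y1).toNat = a + 1 := ⟨(u - B.y1).toNat - 1, by omega⟩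
  obtain ⟨b, hb⟩ : ∃ b : ℕ, (B.y2 - v).toNat = b + 1 := ⟨(B.y2 - v).toNat - 1, by omega⟩
  have ha' : (a : ℤ) = u - B.y1 - 1 := by omega
  have hb' : (b : ℤ) = B.y2 - v - 1 := by omega
  have haR : (a : ℝ) = u - B.y1 - 1 := by exact_mod_cast ha'
  have hbR : (b : ℝ) = B.y2 - v - 1 := by exact_mod_cast hb'
  have key : ∀ y0 : ℤ, y - h ≤ (y0 : ℝ) / L → (y0 : ℝ) / L ≤ y + h →
      B.y1 + (a : ℤ) < y0 ∧ y0 ≤ B.y2 - 1 - (b : ℤ) := by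
    intro y0 k1 k2
    rw [le_div_iff₀ hL0] at k1
    rw [div_le_iff₀ hL0] at k2
    have k3 : (u : ℝ) ≤ y0 := by nlinarith
    have k4 : (y0 : ℝ) ≤ v := by
      have : (y0 : ℝ) ≤ (v : ℝ) + 1 - 8 := by nlinarith
      linarith
    have k3' : u ≤ y0 := by exact_mod_cast k3
    have k4' : y0 ≤ v := by exact_mod_cast k4
    exact ⟨by omega, by omega⟩
  refine ⟨hLz, a, b, ha, hb, key, ?_, ?_, ?_, ?_, ?_⟩
  · rw [haR]; nlinarith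
  · rw [haR]; nlinarith
  · rw [hbR]; nlinarith
  · rw [hbR]; nlinarith
  · intro hAB
    have m1 := Int.floor_le (y * (L : ℝ))
    have m2 := Int.lt_floor_add_one (y * (L : ℝ))
    have k := key ⌊y * (L : ℝ)⌋ (by rw [le_div_iff₀ hL0]; nlinarith)
      (by rw [div_le_iff₀ hL0]; nlinarith)
    have hL2' : 2 ≤ L := by exact_mod_cast hL2
    have hABL : A * L ≤ B' * L := mul_le_mul_of_nonneg_right hAB hLz.le
    refine ⟨B.xr, ⌊y * (L : ℝ)⌋, ⟨by omega, by omega, ?_, le_refl _⟩, k.1, k.2⟩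
    rw [hxl, hxr]
    omega

/-- the band cuts the domain -/
theorem split_on {P : P4} {A B' r : ℤ} (hr : Run P.F A B' r) {L : ℤ} (hL : 0 < L) {h y : ℝ}
    (hh : 0 < h) (hLh : 1 < h * L) (h1 : (r : ℝ) ≤ y - 4 * h) (h2 : y + 4 * h ≤ r + 1)
    {B : Band (D P.F L)} (hB : OnB A B' L h y B) :
    Split B (lowT (D P.F L) B.xl B.xr B.y1) (upT (D P.F L) B.xl B.xr B.y2) := by
  have hLr : (0 : ℝ) < L := by exact_mod_cast hL
  have f1 := Int.floor_le ((y - 3 * h) * (L : ℝ))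
  have f2 := Int.lt_floor_add_one ((y - 3 * h) * (L : ℝ))
  have f3 := Int.floor_le ((y + 3 * h) * (L : ℝ))
  have f4 := Int.lt_floor_add_one ((y + 3 * h) * (L : ℝ))
  rw [← hB.y1] at f1 f2
  rw [← hB.y2] at f3 f4
  have g1 : (r : ℝ) * L ≤ (y - 4 * h) * L := mul_le_mul_of_nonneg_right h1 hLr.le
  have g2 : (y + 4 * h) * L ≤ ((r : ℝ) + 1) * L := mul_le_mul_of_nonneg_right h2 hLr.le
  refine Xr249.split_mac (Mg949.mac P) hL B hr hB.xl hB.xr ?_ ?_ ?_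
  · have : ((r * L : ℤ) : ℝ) < (B.y1 : ℝ) := by push_cast; nlinarith
    exact_mod_cast this
  · have : (B.y2 : ℝ) < ((r * L + L : ℤ) : ℝ) := by push_cast; nlinarith
    exact_mod_cast this
  · have : (B.y1 : ℝ) < (B.y2 : ℝ) := by nlinarith
    exact_mod_cast this

/-- **lower bound of the normalisation, any two numbers of free ends** -/
theorem zp_lower_card : ∃ h0 c : ℝ, 0 < h0 ∧ 0 < c ∧ ∀ h : ℝ, 0 < h → h < h0 → ∃ L0 : ℤ,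
    ∀ L : ℤ, L0 ≤ L → ∀ (P : P4) (A B' : ℤ) (y : ℝ) (B : Band (D P.F L)), OnB A B' L h y B →
      ∀ p y0 : ℤ, B.At p y0 → ZP P L B ≠ 0 ∧ ∀ ml mu : ℕ, ml + mu ≤ (freeG B).card →
      c * √3 ^ (((ml : ℝ) + mu) / 2) * Pm L.toNat ≤ ‖ZP P L B‖ := by
  obtain ⟨c, q, hc, hq, hq1, hZ⟩ := Zs_ge
  obtain ⟨N, hN⟩ := exists_pow_lt_of_lt_one (show (0 : ℝ) < 1 / 4 by norm_num) hq1
  obtain ⟨h0, hh0, hP⟩ := par_ev N
  refine ⟨h0, 3 ^ (-(1 / 4 : ℝ)) * c, hh0, by positivity, fun h hh hlt => ?_⟩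
  obtain ⟨L0, hL0⟩ := hP h hh hlt
  refine ⟨L0, fun L hL P A B' y B hB p y0 hz => ?_⟩
  obtain ⟨hPar, hLp, hn⟩ := hL0 L hL y (D P.F L) B hB.R hB.y1 hB.y2
  have hN2 : 2 * q ^ N ≤ 1 / 2 := by linarith
  have k1 := hZ (D P.F L) B p y0 (L / 8) (L / 2) _ N hz hPar hN2 _ hn
  have hPm : 0 < Pm L.toNat := by
    obtain ⟨c1, hc1, hl⟩ := Zm180.pm_lower
    have hL1 : 1 ≤ L.toNat := by omega
    refine lt_of_lt_of_le ?_ (hl L.toNat hL1)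
    have : (0 : ℝ) < (L.toNat : ℝ) := by exact_mod_cast hL1
    positivity
  have h3 : (0 : ℝ) < (3 : ℝ) ^ ((((freeG B).card : ℝ) - 1) / 4) := by positivity
  have hZs : 0 < Zc180.Zs B (L / 8) (L / 2) (B.y2 - B.y1).toNat :=
    lt_of_lt_of_le (mul_pos hc hPm) k1
  have hv : 0 < Zv B L := mul_pos h3 hZs
  have h4 := norm_ZP (P := P) hv.le
  refine ⟨fun h5 => ?_, fun ml mu hm => ?_⟩
  · rw [h5, norm_zero] at h4
    exact hv.ne h4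
  · have k2 := sqrt3_pow hm
    push_cast at k2
    rw [h4]
    unfold Zv
    refine le_trans (le_of_eq ?_) (mul_le_mul k2 k1 (by positivity) h3.le)
    ring

/-- **lower bound of the normalisation** -/
theorem zp_lower : ∃ h0 c : ℝ, 0 < h0 ∧ 0 < c ∧ ∀ h : ℝ, 0 < h → h < h0 → ∃ L0 : ℤ, ∀ L : ℤ,
    L0 ≤ L → ∀ (P : P4) (A B' : ℤ) (y : ℝ) (B : Band (D P.F L)), OnB A B' L h y B →
      ∀ Al Au : Finset (ℤ × ℤ), Split B Al Au → ∀ p y0 : ℤ, B.At p y0 →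
      ∀ a b : ℕ, B.y1 + (a : ℤ) < y0 → y0 ≤ B.y2 - 1 - (b : ℤ) →
      ZP P L B ≠ 0 ∧
      c * √3 ^ (((fe (lowM B Al a) (beL B p y0) (topO B a)).card +
        (fe (upM B Au b) (beL B p y0) (botO B b)).card : ℝ) / 2) * Pm L.toNat ≤ ‖ZP P L B‖ := by
  obtain ⟨h0, c, hh0, hc, hz⟩ := z_lower
  refine ⟨h0, c, hh0, hc, fun h hh hlt => ?_⟩
  obtain ⟨L0, hL0⟩ := hz h hh hlt
  refine ⟨L0, fun L hL P A B' y B hB Al Au hs p y0 hat a b ha hb => ?_⟩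
  obtain ⟨h1, h2⟩ := hL0 L hL y (D P.F L) B hB.R hB.y1 hB.y2 p y0 hat Al Au hs a b ha hb
  have h3 := norm_ZP (P := P) h1.le
  refine ⟨fun h4 => ?_, h3.symm ▸ h2⟩
  rw [h4, norm_zero] at h3
  exact h1.ne h3

end Crest.Agent.R158.Zl814
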