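import Crest.Agent.R158.Nj2_107
import Crest.Agent.R158.Nz10_399
import Crest.Agent.R158.Zl2_814

/-!
# Row 158, Q1d (helper107): `NormIn fz P` from the members

* `Bd.mono`, `HB.mono`, `Mem.mono` : monotone in `κ`, `M`
* `MemIn P` : for each slice there are `ρ`, `ml`, `mu` with `ml + mu ≤ #freeG` and `Mem` of all the
  members of `Fm857.fz`
* `normIn_of : MemIn P → NormIn fz P`
-/

set_option autoImplicit false

noncomputable section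

namespace Crest.Agent.R158.Nj107

open Crest.Agent.R158.Nz399
open Crest.Agent.R158.Ka470
open Crest.Agent.R158.Env664 (TG Band D Run)
open Crest.Agent.R158.Fm857
open Crest.Agent.R158.Tj656 (P4)
open Crest.Agent.R158.Cs410 (FamZ OnB InHalf)

theorem Bd.mono {A : Half} {ρ κ κ' : ℕ} (h : A.Bd ρ κ) (hk : κ ≤ κ') : A.Bd ρ κ' := by
  have h1 : (κ : ℤ) * ρ ≤ κ' * ρ := mul_le_mul_of_nonneg_right (by exact_mod_cast hk) (by positivity)
  obtain ⟨X0, Y0, h2⟩ := h.hH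
  refine ⟨⟨X0, Y0, fun v hv => ?_⟩, h.hR.trans h1⟩
  have := h2 v hv
  omega

theorem HB.mono {κ M κ' M' ρ m a b c : ℕ} {V : ℝ} (h : HB κ M ρ m a b c V) (hk : κ ≤ κ')
    (hM : M ≤ M') : HB κ' M' ρ m a b c V := by
  obtain ⟨A, hs, h1, X, h2, h3⟩ := h
  exact ⟨A, hs, Bd.mono h1 hk, X, h2.trans hM, h3⟩

theorem Mem.mono {F : Finset (ℤ × ℤ)} {L : ℤ} {B : Band (D F L)} {Fm : FamZ B}
    {κ M κ' M' ρ ml mu a1 b1 k : ℕ} {μ : Fm.J} (h : Mem Fm κ M ρ ml mu a1 b1 k μ) (hk : κ ≤ κ')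
    (hM : M ≤ M') : Mem Fm κ' M' ρ ml mu a1 b1 k μ := by
  obtain ⟨a, a', b, b', c, c', h1, h2, h3, h4, h5⟩ := h
  exact ⟨a, a', b, b', c, c', h1, h2, h3, HB.mono h4 hk hM, HB.mono h5 hk hM⟩

open Classical in
/-- **the members** -/
def MemIn (P : P4) : Prop :=
  ∃ h0 : ℝ, 0 < h0 ∧ ∀ A B' r : ℤ, Run P.F A B' r → ∀ h y δ : ℝ, 0 < h → h < h0 →
    0 < δ → δ ≤ h / 100 → InHalf r (y - 4 * h) (y + 4 * h) →
    ∃ (κ M : ℕ) (L0 : ℤ), ∀ L : ℤ, L0 ≤ L → Even L → ∀ B : Band (D P.F L), OnB A B' L h y B →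
      ∃ ρ ml mu : ℕ, 1 ≤ ρ ∧ L ≤ κ * (3 * ρ) ∧ 3 * (ρ : ℤ) ≤ L ∧ ml + mu ≤ (freeG B).card ∧
        ∀ μ : (fz P L δ B).J, Mem (fz P L δ B) κ M ρ ml mu (⌊(y - 2 * h) * L⌋ - B.y1).toNat
          (B.y2 - ⌊(y + 2 * h) * L⌋).toNat (if μ.1 = none then 0 else 1) μ

/-- existence of a point of the band -/
theorem exists_at {P : P4} {A B' r : ℤ} (hr : Run P.F A B' r) {h y : ℝ} (hh : 0 < h) :
    ∃ L0 : ℤ, ∀ L : ℤ, L0 ≤ L → 0 < L ∧ ∀ B : Band (D P.F L), OnB A B' L h y B →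
      ∃ p y0, B.At p y0 := by
  have hAB : A ≤ B' := hr.le
  obtain ⟨N, hN⟩ := exists_nat_gt (2 / h)
  refine ⟨N + 2, fun L hL => ?_⟩
  have hL0 : 0 < L := by omega
  refine ⟨hL0, fun B hB => ?_⟩
  have hLr : (0 : ℝ) < L := by exact_mod_cast hL0
  have hLh : 2 < h * L := by
    have h1 : ((N + 2 : ℤ) : ℝ) ≤ L := by exact_mod_cast hL
    push_cast at h1
    have h2 : 2 / h < L := by linarith
    rw [div_lt_iff₀ hh] at h2
    linarith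
  refine ⟨B.xr, ⌊y * L⌋, ?_, ?_, ?_, le_refl _⟩
  · rw [hB.y1]
    have h1 := Int.floor_le ((y - 3 * h) * (L : ℝ))
    have h2 := Int.lt_floor_add_one (y * (L : ℝ))
    have : ((⌊(y - 3 * h) * (L : ℝ)⌋ : ℤ) : ℝ) < ((⌊y * (L : ℝ)⌋ : ℤ) : ℝ) := by nlinarith
    exact_mod_cast this
  · rw [hB.y2]
    have h1 := Int.floor_le (y * (L : ℝ))
    have h2 := Int.lt_floor_add_one ((y + 3 * h) * (L : ℝ))
    have : ((⌊y * (L : ℝ)⌋ : ℤ) : ℝ) < ((⌊(y + 3 * h) * (L : ℝ)⌋ : ℤ) : ℝ) := by nlinarith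
    exact_mod_cast this
  · rw [hB.xl, hB.xr]
    have : A * L ≤ B' * L := mul_le_mul_of_nonneg_right hAB hL0.le
    omega

/-- **`NormIn` from the members** -/
theorem normIn_of {P : P4} (hM : MemIn P) : NormIn fz P := by
  obtain ⟨h1, hh1, hM⟩ := hM
  obtain ⟨h2, c, hh2, hc, hZ⟩ := Zl814.zp_lower_card
  refine ⟨min h1 h2, lt_min hh1 hh2, fun A B' r hr h y δ hh hlt hδ hδh hhalf => ?_⟩
  obtain ⟨κ, M, L1, hM⟩ := hM A B' r hr h y δ hh (hlt.trans_le (min_le_left _ _)) hδ hδh hhalf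
  obtain ⟨L2, hZ⟩ := hZ h hh (hlt.trans_le (min_le_right _ _))
  obtain ⟨L3, hat⟩ := exists_at (P := P) hr (y := y) hh
  refine ⟨max κ (4 * P.F.card + 4), M, c, max L1 (max L2 (max L3 1)), by omega, hc, by omega,
    fun L hL hev B hB => ?_⟩
  obtain ⟨hL0, hat⟩ := hat L (by omega)
  obtain ⟨p, y0, hz⟩ := hat B hB
  obtain ⟨ρ, ml, mu, g1, g2, g3, g4, g5⟩ := hM L (by omega) hev B hB
  obtain ⟨-, hZ⟩ := hZ L (by omega) P A B' y B hB p y0 hz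
  refine ⟨ρ, ml, mu, g1, ?_, g3, hZ ml mu g4, co_le P L δ B, J0 P L δ B, ?_, ?_, ?_, ?_⟩
  · refine g2.trans (mul_le_mul_of_nonneg_right ?_ (by positivity))
    exact_mod_cast le_max_left κ _
  · rw [card_J0]; omega
  · exact card_J P hL0 δ B hB.R (le_max_right _ _)
  · intro μ hμ
    have h3 := g5 μ
    rw [if_pos (mem_J0.1 hμ)] at h3
    exact Mem.mono h3 (le_max_left _ _) le_rfl
  · intro μ hμ
    have h3 := g5 μ
    rw [if_neg fun h => hμ (mem_J0.2 h)] at h3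
    exact Mem.mono h3 (le_max_left _ _) le_rfl

/-- **`NormP` from the members** -/
theorem normP_of_mem (hcp : CP) {P : P4} (hM : MemIn P) : Cs410.NormP fz P :=
  normP_of hcp (normIn_of hM)

end Crest.Agent.R158.Nj107
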