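import Crest.Agent.R158.Rf1_896
import Crest.Agent.R158.Ao11_857

/-!
# Row 158: reflection top-bottom (helper896), file 2

* `plain_rf` : the canonical list of the reflected part
* `ngO`, `opL_ng`, `InZ_ng`, `OutZ_ng`, `nrm_in_ng` : all phases negated
* `That_ng`
* `D_rA`, `Mac.rf`, `lowT_rA`, `upT_rA`, `Split.rf`
* `nrm_out_plain` : the norm of the upper covector = the norm of the lower vector of the reflected
  domain with the negated reflected phases
-/

set_option autoImplicit false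

noncomputable section

open Finset Matrix

namespace Crest.Agent.R158.Rf896

open Crest.Agent.R158.Ad350
open Crest.Agent.R158.Ao857
open Crest.Agent.R158.Sw300 (Port)
open Crest.Agent.R158.Bd932 (That)
open Crest.Agent.R158.Env664

/-! ### permutations and swaps -/

section

variable {P : Type*} [DecidableEq P]

/-- exchange of the two ends of a glueing -/
def swO : Op P → Op P
  | Sum.inl e => Sum.inl (-e.1, e.2.2, e.2.1)
  | Sum.inr e => Sum.inr e

theorem opL_sw (l : List (Op P)) (h : ∀ o ∈ l, o.pts.Nodup) : opL (l.map swO) = opL l := by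
  induction l with
  | nil => rfl
  | cons o l ih =>
    funext F
    rw [List.map_cons, opL_cons, opL_cons, ih fun o' ho' => h o' (List.mem_cons_of_mem _ ho')]
    congr 1
    have h1 := h o List.mem_cons_self
    rcases o with ⟨χ, a, b⟩ | e
    · have hab : a ≠ b := by
        simp only [Op.pts, List.nodup_cons, List.mem_cons, List.not_mem_nil, or_false] at h1
        exact h1.1
      show opF (Sum.inl (-χ, b, a)) F = opF (Sum.inl (χ, a, b)) F
      rw [opF_inl, opF_inl]
      exact (ctr_swap χ hab F).symm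
    · rfl

/-! ### negated phases -/

/-- negated phase -/
def ngO : Op P → Op P
  | Sum.inl e => Sum.inl (-e.1, e.2)
  | Sum.inr e => Sum.inr (-e.1, e.2)

theorem opF_ng (o : Op P) {F G : (P → Bool) → ℂ} (h : ∀ σ, G σ = star (F σ)) (σ : P → Bool) :
    opF (ngO o) G σ = star (opF o F σ) := by
  rcases o with ⟨χ, a, b⟩ | ⟨φ, p⟩
  · show opF (Sum.inl (-χ, a, b)) G σ = star (opF (Sum.inl (χ, a, b)) F σ)
    simp only [opF_inl, ctr, star_sum, star_mul', star_ei, h, neg_mul]
  · show opF (Sum.inr (-φ, p)) G σ = star (opF (Sum.inr (φ, p)) F σ)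
    simp only [opF_inr, cut, star_sum, star_mul', star_ei, h, neg_mul]

theorem opL_ng (l : List (Op P)) : ∀ {F G : (P → Bool) → ℂ}, (∀ σ, G σ = star (F σ)) →
    ∀ σ, opL (l.map ngO) G σ = star (opL l F σ) := by
  induction l with
  | nil => intro F G h σ; exact h σ
  | cons o l ih =>
    intro F G h σ
    rw [List.map_cons, opL_cons, opL_cons]
    exact ih (fun σ => opF_ng o h σ) σ

end

theorem star_tiles {T : Type*} [DecidableEq T] (A : Finset T) (σ : Port T → Bool) :
    star (tilesF A σ) = tilesF A σ := by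
  unfold tilesF
  rw [star_prod]
  exact Finset.prod_congr rfl fun t _ => Nz399.star_w6 _

theorem star_prod_ei {m : ℕ} (D : Fin m → Prop) [DecidablePred D] (φ : Fin m → ℝ)
    (s : Fin m → Bool) : (∏ i, if D i then (1 : ℂ) else ei (-φ i * sg (s i))) =
      star (∏ i, if D i then (1 : ℂ) else ei (φ i * sg (s i))) := by
  rw [star_prod]
  refine Finset.prod_congr rfl fun i _ => ?_
  split_ifs
  · simp
  · rw [star_ei, neg_mul]

variable {A : Finset (ℤ × ℤ)} (B : Band A)

theorem InZ_ng (Al : Finset (ℤ × ℤ)) (φ : Port TG → ℝ) (Ll : List (Op (Port TG)))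
    (σ : Port TG → Bool) (t : Fin (nn B + 1) → Bool) :
    InZ B Al (fun q => -φ q) (Ll.map ngO) σ t = star (InZ B Al φ Ll σ t) := by
  unfold InZ InV
  rw [star_mul', ← star_prod_ei]
  congr 1
  exact opL_ng Ll (fun σ => (star_tiles _ σ).symm) _

theorem OutZ_ng (Au : Finset (ℤ × ℤ)) (φ : Port TG → ℝ) (Lu : List (Op (Port TG)))
    (σ : Port TG → Bool) (s : Fin (nn B + 2) → Bool) :
    OutZ B Au (fun q => -φ q) (Lu.map ngO) σ s = star (OutZ B Au φ Lu σ s) := by
  unfold OutZ OutV
  rw [star_mul', ← star_prod_ei]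
  congr 1
  exact opL_ng Lu (fun σ => (star_tiles _ σ).symm) _

theorem star_v6 (l r d t : Bool) : star (Op857.v6 l r d t) = Op857.v6 l r d t := by
  unfold Op857.v6 Crest.Agent.R150.Base357.wt
  cases l <;> cases r <;> cases d <;> cases t <;> simp

theorem That_ng (m : ℕ) (c : ℝ) (s s' : Fin (m + 1) → Bool) :
    That (m + 1) (-c) (1 / 2) s s' = star (That (m + 1) c (1 / 2) s s') := by
  rw [That_ring, That_ring, star_sum]
  refine Finset.sum_congr rfl fun τ _ => ?_
  rw [star_mul', star_ei, star_prod, neg_mul]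
  congr 1
  exact Finset.prod_congr rfl fun j _ => (star_v6 _ _ _ _).symm

theorem rows_ng (m : ℕ) (c : ℝ) (a : ℕ) : ∀ {V W : (Fin (m + 1) → Bool) → ℂ},
    (∀ s, W s = star (V s)) → ∀ s, (That (m + 1) (-c) (1 / 2) ^ a *ᵥ W) s =
      star ((That (m + 1) c (1 / 2) ^ a *ᵥ V) s) := by
  induction a with
  | zero => intro V W h s; simpa using h s
  | succ a ih =>
    intro V W h s
    rw [pow_succ, pow_succ, ← Matrix.mulVec_mulVec, ← Matrix.mulVec_mulVec]
    refine ih (fun s => ?_) s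
    rw [Matrix.mulVec, Matrix.mulVec, dotProduct, dotProduct, star_sum]
    refine Finset.sum_congr rfl fun s' _ => ?_
    rw [star_mul', That_ng, h]

theorem nrm_star {k : Type*} [Fintype k] {V W : k → ℂ} (h : ∀ s, W s = star (V s)) :
    Cs410.nrm W = Cs410.nrm V := by
  unfold Cs410.nrm
  rw [EuclideanSpace.norm_eq, EuclideanSpace.norm_eq]
  congr 1
  refine Finset.sum_congr rfl fun s _ => ?_
  show ‖W s‖ ^ 2 = ‖V s‖ ^ 2
  rw [h, norm_star]

/-- norms do not see the sign of the phases -/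
theorem nrm_in_ng (Al : Finset (ℤ × ℤ)) (φ : Port TG → ℝ) (Ll : List (Op (Port TG)))
    (σ : Port TG → Bool) (c : ℝ) (a : ℕ) :
    Cs410.nrm (That (nn B + 1) (-c) (1 / 2) ^ a *ᵥ InZ B Al (fun q => -φ q) (Ll.map ngO) σ) =
      Cs410.nrm (That (nn B + 1) c (1 / 2) ^ a *ᵥ InZ B Al φ Ll σ) :=
  nrm_star (rows_ng _ c a fun s => InZ_ng B Al φ Ll σ s)

/-! ### the canonical lists -/

theorem plain_ng (A C : Finset (ℤ × ℤ)) (φ : Port TG → ℝ) :
    (plainL A C φ).map ngO = plainL A C fun q => -φ q := by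
  unfold plainL ewL nsL freeL
  simp only [List.map_append, List.map_map]
  congr 1
  · refine List.map_congr_left fun t _ => ?_
    simp [Function.comp, ngO]
  congr 1
  · refine List.map_congr_left fun t _ => ?_
    simp [Function.comp, ngO]

theorem toList_perm {α β : Type*} {S : Finset α} {S' : Finset β} {g : α → β} (hg : Function.Injective g)
    (h : ∀ b, b ∈ S' ↔ ∃ a ∈ S, g a = b) : (S.toList.map g).Perm S'.toList := by
  classical
  refine (List.perm_ext_iff_of_nodup ((Finset.nodup_toList _).map hg) (Finset.nodup_toList _)).2 ?_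
  intro b
  rw [List.mem_map, Finset.mem_toList, h]
  simp only [Finset.mem_toList]

theorem ewL_rf (C : Finset (ℤ × ℤ)) : ((ewL C).map (Op.ren rp)).Perm (ewL (rA C)) := by
  unfold ewL
  have h := (toList_perm (S := C.filter fun t => (t.1 + 1, t.2) ∈ C)
    (S' := (rA C).filter fun t => (t.1 + 1, t.2) ∈ rA C) rz_inj ?_).map
    (fun t : ℤ × ℤ => (Sum.inl (0, some (Sum.inl (t.1, t.2), 2), some (Sum.inl (t.1 + 1, t.2), 0)) :
      Op (Port TG)))
  · refine List.Perm.trans ?_ h
    rw [List.map_map, List.map_map]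
    refine List.Perm.of_eq (List.map_congr_left fun t _ => ?_)
    simp only [Function.comp, Op.ren, rp_some, rt_inl]
    rfl
  · rintro ⟨x, y⟩
    rw [Finset.mem_filter, mem_rA', mem_rA']
    constructor
    · rintro ⟨h1, h2⟩
      exact ⟨(x, -y - 1), Finset.mem_filter.2 ⟨h1, h2⟩, by unfold rz; simp⟩
    · rintro ⟨⟨x', y'⟩, h1, h2⟩
      rw [Finset.mem_filter] at h1
      unfold rz at h2
      simp only [Prod.mk.injEq] at h2
      obtain ⟨rfl, rfl⟩ := h2
      rw [show -(-y' - 1) - 1 = y' by ring]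
      exact h1

theorem nsL_rf (C : Finset (ℤ × ℤ)) :
    (((nsL C).map (Op.ren rp)).map swO).Perm (nsL (rA C)) := by
  unfold nsL
  have hg : Function.Injective fun t : ℤ × ℤ => ((t.1, -t.2 - 2) : ℤ × ℤ) := by
    rintro ⟨x, y⟩ ⟨x', y'⟩ h
    simp only [Prod.mk.injEq] at h
    exact Prod.ext h.1 (by show y = y'; omega)
  have h := (toList_perm (S := C.filter fun t => (t.1, t.2 + 1) ∈ C)
    (S' := (rA C).filter fun t => (t.1, t.2 + 1) ∈ rA C) hg ?_).map
    (fun t : ℤ × ℤ => (Sum.inl (0, some (Sum.inl (t.1, t.2), 1), some (Sum.inl (t.1, t.2 + 1), 3)) :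
      Op (Port TG)))
  · refine List.Perm.trans ?_ h
    rw [List.map_map, List.map_map, List.map_map]
    refine List.Perm.of_eq (List.map_congr_left fun t _ => ?_)
    simp only [Function.comp, Op.ren, swO, rp_some, rt_inl, rz, neg_zero]
    have e1 : -(t.2 + 1) - 1 = -t.2 - 2 := by ring
    have e2 : -t.2 - 2 + 1 = -t.2 - 1 := by ring
    have e3 : (-(3 : ZMod 4)) = 1 := by decide
    have e4 : (-(1 : ZMod 4)) = 3 := by decide
    rw [e1, e2, e3, e4]
  · rintro ⟨x, y⟩
    rw [Finset.mem_filter, mem_rA', mem_rA']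
    constructor
    · rintro ⟨h1, h2⟩
      refine ⟨(x, -y - 2), Finset.mem_filter.2 ⟨?_, ?_⟩, by ext <;> simp⟩
      · rwa [show -(y + 1) - 1 = -y - 2 by ring] at h2
      · show (x, -y - 2 + 1) ∈ C
        rwa [show -y - 2 + 1 = -y - 1 by ring]
    · rintro ⟨⟨x', y'⟩, h1, h2⟩
      rw [Finset.mem_filter] at h1
      simp only [Prod.mk.injEq] at h2
      obtain ⟨rfl, rfl⟩ := h2
      rw [show -(-y' - 2) - 1 = y' + 1 by ring]
      refine ⟨h1.2, ?_⟩
      rw [show -(-y' - 2 + 1) - 1 = y' by ring]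
      exact h1.1

/-- reflection of the ports of the plane -/
def rq : Port (ℤ × ℤ) → Port (ℤ × ℤ) := Option.map fun y => (rz y.1, -y.2)

@[simp] theorem rq_none : rq none = none := rfl
@[simp] theorem rq_some (t : ℤ × ℤ) (d : ZMod 4) : rq (some (t, d)) = some (rz t, -d) := rfl
@[simp] theorem rq_rq (q : Port (ℤ × ℤ)) : rq (rq q) = q := by
  rcases q with _ | ⟨t, d⟩
  · rfl
  · simp

theorem rq_inj : Function.Injective rq := fun s t h => by rw [← rq_rq s, h, rq_rq]

theorem rp_tpm (q : Port (ℤ × ℤ)) : rp (tpm inlE q) = tpm inlE (rq q) := by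
  rcases q with _ | ⟨t, d⟩ <;> rfl

/-- the plain neighbour commutes with the reflection -/
theorem nbP_rq (q : Port (ℤ × ℤ)) : nbP (rq q) = rq (nbP q) := by
  rcases q with _ | ⟨⟨x, y⟩, d⟩
  · rfl
  · have e3 : (-(3 : ZMod 4)) = 1 := by decide
    have e4 : (-(1 : ZMod 4)) = 3 := by decide
    have e2 : (-(2 : ZMod 4)) = 2 := by decide
    rcases z4 d with rfl | rfl | rfl | rfl
    · rw [nbP_W, rq_some, rq_some, neg_zero, e2]; rfl
    · rw [nbP_N, rq_some, rq_some, e4, e3]
      show nbP (some ((x, -y - 1), 3)) = _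
      rw [nbP_S]
      unfold rz
      congr 3
      ring
    · rw [nbP_E, rq_some, rq_some, neg_zero, e2]; rfl
    · rw [nbP_S, rq_some, rq_some, e4, e3]
      show nbP (some ((x, -y - 1), 1)) = _
      rw [nbP_N]
      unfold rz
      congr 3
      ring

theorem portOf_rq {A : Finset (ℤ × ℤ)} (q : Port (ℤ × ℤ)) : PortOf (rA A) (rq q) ↔ PortOf A q := by
  rcases q with _ | ⟨t, d⟩
  · exact iff_of_true (portOf_none _) (portOf_none _)
  · rw [rq_some, portOf_some, portOf_some, mem_rA, rz_rz]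

theorem mem_ports_rA {C : Finset (ℤ × ℤ)} {q : Port (ℤ × ℤ)} : q ∈ ports (rA C) ↔ rq q ∈ ports C := by
  rcases q with _ | ⟨t, d⟩
  · constructor <;> intro h <;> exact absurd h none_ports
  · rw [rq_some, mem_ports, mem_ports, mem_rA]

theorem freeL_rf (A C : Finset (ℤ × ℤ)) (φ : Port TG → ℝ) :
    ((freeL A C φ).map (Op.ren rp)).Perm (freeL (rA A) (rA C) fun q => φ (rp q)) := by
  unfold freeL
  have h := (toList_perm (S := (ports C).filter fun q => ¬ PortOf A (nbP q))
    (S' := (ports (rA C)).filter fun q => ¬ PortOf (rA A) (nbP q)) rq_inj ?_).map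
    (fun q : Port (ℤ × ℤ) => (Sum.inr (φ (rp (tpm inlE q)), tpm inlE q) : Op (Port TG)))
  · refine List.Perm.trans ?_ h
    rw [List.map_map, List.map_map]
    refine List.Perm.of_eq (List.map_congr_left fun t _ => ?_)
    simp only [Function.comp, Op.ren]
    rw [rp_tpm, rp_tpm, rq_rq]
  · intro q
    rw [Finset.mem_filter, mem_ports_rA]
    constructor
    · rintro ⟨h1, h2⟩
      refine ⟨rq q, Finset.mem_filter.2 ⟨h1, ?_⟩, rq_rq q⟩
      rwa [nbP_rq, ← portOf_rq, rq_rq]
    · rintro ⟨a, h1, rfl⟩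
      rw [Finset.mem_filter] at h1
      rw [rq_rq, nbP_rq, portOf_rq]
      exact h1

theorem pts_ren {P Q : Type*} (f : P → Q) (o : Op P) : (Op.ren f o).pts = o.pts.map f := by
  rcases o with e | e <;> rfl

theorem flat_ren {P Q : Type*} (f : P → Q) (l : List (Op P)) :
    flat (l.map (Op.ren f)) = (flat l).map f := by
  unfold flat
  induction l with
  | nil => rfl
  | cons o l ih =>
    simp only [List.map_cons, List.flatMap_cons, List.map_append, pts_ren, ih]

theorem disO_of_nodup {P : Type*} [DecidableEq P] {l : List (Op P)} (h : (flat l).Nodup) :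
    DisO l := by
  unfold flat at h
  rw [List.nodup_flatMap] at h
  exact h.2.imp fun {a b} hab q hq hq' => hab hq hq'

/-- **canonical list of the reflected part** -/
theorem plain_rf {A C : Finset (ℤ × ℤ)} (hCA : C ⊆ A) (φ : Port TG → ℝ) :
    opL ((plainL A C φ).map (Op.ren rp)) = opL (plainL (rA A) (rA C) fun q => φ (rp q)) := by
  have hnd := nodup_flat_plainL hCA φ
  have hnd' : (flat ((plainL A C φ).map (Op.ren rp))).Nodup := by
    rw [flat_ren]
    exact hnd.map rp_inj
  unfold plainL at hnd hnd' ⊢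
  rw [List.map_append, List.map_append] at hnd' ⊢
  have h1 : ∀ l m : List (Op (Port TG)), opL (l ++ m) = fun F => opL m (opL l F) := by
    intro l m; funext F; exact opL_append l m F
  have hns : ∀ o ∈ (nsL C).map (Op.ren rp), o.pts.Nodup := by
    intro o ho
    rw [List.mem_map] at ho
    obtain ⟨o', ho', rfl⟩ := ho
    unfold nsL at ho'
    rw [List.mem_map] at ho'
    obtain ⟨t, -, rfl⟩ := ho'
    rw [pts_ren]
    refine List.Nodup.map rp_inj ?_
    simp only [Op.pts, List.nodup_cons, List.mem_cons, List.not_mem_nil, or_false,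
      List.nodup_nil, not_false_eq_true, and_true]
    exact some_ne fun h => absurd h.2 (by decide)
  rw [flat_append, flat_append, List.nodup_append', List.nodup_append'] at hnd'
  have d1 : DisO ((ewL C).map (Op.ren rp)) := disO_of_nodup hnd'.1
  have d2 : DisO ((nsL C).map (Op.ren rp)) := disO_of_nodup hnd'.2.1.1
  have d3 : DisO ((freeL A C φ).map (Op.ren rp)) := disO_of_nodup hnd'.2.1.2.1
  have d2' : DisO (((nsL C).map (Op.ren rp)).map swO) := by
    unfold DisO at d2 ⊢
    rw [List.pairwise_map]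
    refine d2.imp fun {a b} hab q hq hq' => ?_
    have hs : ∀ (o : Op (Port TG)) (q : Port TG), q ∈ (swO o).pts ↔ q ∈ o.pts := by
      intro o q
      rcases o with ⟨χ, a, b⟩ | e
      · simp [swO, Op.pts, or_comm]
      · rfl
    exact hab q ((hs _ _).1 hq) ((hs _ _).1 hq')
  rw [h1, h1, h1, h1]
  have e1 : opL ((ewL C).map (Op.ren rp)) = opL (ewL (rA C)) := by
    funext F; exact opL_perm (ewL_rf C) d1 F
  have e2 : opL ((nsL C).map (Op.ren rp)) = opL (nsL (rA C)) := by
    rw [← opL_sw _ hns]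
    funext F; exact opL_perm (nsL_rf C) d2' F
  have e3 : opL ((freeL A C φ).map (Op.ren rp)) = opL (freeL (rA A) (rA C) fun q => φ (rp q)) := by
    funext F; exact opL_perm (freeL_rf A C φ) d3 F
  rw [e1, e2, e3]

/-! ### the reflected macroscopic data -/

theorem D_rA {F : Finset (ℤ × ℤ)} {L : ℤ} (hL : 0 < L) : D (rA F) L = rA (D F L) := by
  ext ⟨x, y⟩
  rw [mem_D hL, mem_rA', mem_rA', mem_D hL]
  show (x / L, -(y / L) - 1) ∈ F ↔ (x / L, (-y - 1) / L) ∈ F
  have e : (-y - 1) / L = -(y / L) - 1 := by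
    obtain ⟨h1, h2⟩ := (div_iff hL y (y / L)).1 rfl
    refine (div_iff hL _ _).2 ⟨?_, ?_⟩ <;> nlinarith
  rw [e]

theorem adj_rz {a b : ℤ × ℤ} (h : Adj4 a b) : Adj4 (rz a) (rz b) := by
  unfold Adj4 rz at *
  simp only
  omega

theorem chain_rz {R R' : ℤ × ℤ → ℤ × ℤ → Prop} (h : ∀ u v, R u v → R' (rz u) (rz v)) {a b : ℤ × ℤ}
    (hab : Relation.ReflTransGen R a b) : Relation.ReflTransGen R' (rz a) (rz b) := by
  induction hab with
  | refl => exact Relation.ReflTransGen.refl
  | tail _ h2 ih => exact ih.tail (h _ _ h2)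

/-- reflected macroscopic polyomino -/
def _root_.Crest.Agent.R158.Env664.Mac.rf (M : Mac) : Mac where
  F := rA M.F
  ne := M.ne.map
  conn := fun a ha b hb => by
    have h := M.conn _ (mem_rA.1 ha) _ (mem_rA.1 hb)
    have h2 := chain_rz (R' := fun u v => Adj4 u v ∧ u ∈ rA M.F ∧ v ∈ rA M.F) (fun u v h => ?_) h
    · rwa [rz_rz, rz_rz] at h2
    · exact ⟨adj_rz h.1, by rw [mem_rA, rz_rz]; exact h.2.1, by rw [mem_rA, rz_rz]; exact h.2.2⟩
  cconn := fun a ha b hb => by
    rw [mem_rA] at ha hb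
    have h := M.cconn _ ha _ hb
    have h2 := chain_rz (R' := fun u v => Adj4 u v ∧ u ∉ rA M.F ∧ v ∉ rA M.F) (fun u v h => ?_) h
    · rwa [rz_rz, rz_rz] at h2
    · exact ⟨adj_rz h.1, by rw [mem_rA, rz_rz]; exact h.2.1, by rw [mem_rA, rz_rz]; exact h.2.2⟩

theorem cutAdj_rA {A : Finset (ℤ × ℤ)} {xl xr y : ℤ} {s t : ℤ × ℤ} (h : CutAdj A xl xr y s t) :
    CutAdj (rA A) xl xr (-y) (rz s) (rz t) := by
  obtain ⟨h1, h2, h3, h4⟩ := h
  refine ⟨adj_rz h1, by rw [mem_rA, rz_rz]; exact h2, by rw [mem_rA, rz_rz]; exact h3, ?_⟩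
  unfold rz
  simp only
  omega

theorem cut_iff {A : Finset (ℤ × ℤ)} {xl xr y : ℤ} {s t : ℤ × ℤ} :
    Relation.ReflTransGen (CutAdj (rA A) xl xr (-y)) (rz s) (rz t) ↔
      Relation.ReflTransGen (CutAdj A xl xr y) s t := by
  constructor
  · intro h
    have h2 := chain_rz (R' := CutAdj (rA (rA A)) xl xr (-(-y))) (fun u v h => cutAdj_rA h) h
    rwa [rA_rA, neg_neg, rz_rz, rz_rz] at h2
  · exact fun h => chain_rz (fun u v h => cutAdj_rA h) h

/-- the upper part of the reflected region is the reflected lower part -/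
theorem upT_rA (A : Finset (ℤ × ℤ)) (xl xr y : ℤ) : upT (rA A) xl xr (-y) = rA (lowT A xl xr y) := by
  classical
  ext t
  rw [mem_rA]
  unfold upT lowT
  simp only [Finset.mem_filter, mem_rA]
  refine and_congr_right fun _ => ?_
  rw [← cut_iff (A := A) (t := rz t), rz_rz]
  have e : rz (xl, y - 1) = (xl, -y) := by
    unfold rz
    simp only
    congr 1
    ring
  rw [e]

/-- the lower part of the reflected region is the reflected upper part -/
theorem lowT_rA (A : Finset (ℤ × ℤ)) (xl xr y : ℤ) : lowT (rA A) xl xr (-y) = rA (upT A xl xr y) := by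
  have h := upT_rA (rA A) xl xr (-y)
  rw [rA_rA, neg_neg] at h
  rw [h, rA_rA]

/-- reflected splitting -/
theorem Split.rf {A : Finset (ℤ × ℤ)} {B : Band A} {Al Au : Finset (ℤ × ℤ)} (h : Split B Al Au) :
    Split (rB B) (rA Au) (rA Al) where
  part := fun x y => by
    rw [mem_rA', mem_rA', mem_rA', h.part]
    simp only [rB_xl, rB_xr, rB_y1, rB_y2]
    have e : (B.y1 ≤ -y - 1 ∧ -y - 1 < B.y2) ↔ (-B.y2 ≤ y ∧ y < -B.y1) := by omega
    constructor
    · rintro (h | h | h)
      · exact Or.inr (Or.inl h)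
      · exact Or.inl h
      · exact Or.inr (Or.inr ⟨h.1, h.2.1, e.1 h.2.2⟩)
    · rintro (h | h | h)
      · exact Or.inr (Or.inl h)
      · exact Or.inl h
      · exact Or.inr (Or.inr ⟨h.1, h.2.1, e.2 h.2.2⟩)
  disj := by
    rw [Finset.disjoint_left]
    intro t h1 h2
    exact Finset.disjoint_left.1 h.disj (mem_rA.1 h2) (mem_rA.1 h1)
  dl := fun x y hm hb => by
    simp only [rB_xl, rB_xr, rB_y1, rB_y2] at hb
    exact h.du x (-y - 1) (mem_rA'.1 hm) (by omega)
  du := fun x y hm hb => by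
    simp only [rB_xl, rB_xr, rB_y1, rB_y2] at hb
    exact h.dl x (-y - 1) (mem_rA'.1 hm) (by omega)
  nl := fun x h1 h2 hm => by
    simp only [rB_xl, rB_xr, rB_y2] at h1 h2 hm
    exact h.nu x h1 h2 (by rw [mem_rA', show -(-B.y1) - 1 = B.y1 - 1 by ring] at hm; exact hm)
  nu := fun x h1 h2 hm => by
    simp only [rB_xl, rB_xr, rB_y1] at h1 h2 hm
    exact h.nl x h1 h2 (by rw [mem_rA', show -(-B.y2 - 1) - 1 = B.y2 by ring] at hm; exact hm)

theorem hadj_rf {Al Au : Finset (ℤ × ℤ)} (h : ∀ s ∈ Al, ∀ t ∈ Au, ¬ Adj4 s t) :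
    ∀ s ∈ rA Au, ∀ t ∈ rA Al, ¬ Adj4 s t := by
  intro s hs t ht hst
  exact h _ (mem_rA.1 ht) _ (mem_rA.1 hs) (adj_rz hst.symm)

/-! ### the norm of the upper covector -/

/-- **Out = In of the reflected domain** (canonical lists, same phases) -/
theorem nrm_out_plain {A : Finset (ℤ × ℤ)} (B : Band A) (hx : B.xl ≤ B.xr) {Au : Finset (ℤ × ℤ)}
    (hAu : Au ⊆ A) (φ : Port TG → ℝ) (σ : Port TG → Bool) (c : ℝ) (b : ℕ) :
    Cs410.nrm (OutZ B Au φ (plainL A Au φ) σ ᵥ* That (nn B + 2) c (1 / 2) ^ b) =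
      Cs410.nrm (That (nn (rB B) + 1) c (1 / 2) ^ b *ᵥ
        InZ (rB B) (rA Au) (fun q => φ (rp q)) (plainL (rA A) (rA Au) fun q => φ (rp q))
          fun q => σ (rp q)) := by
  rw [nrm_out B hx]
  unfold InZ
  rw [plain_rf hAu]

/-- the same with the negated phases (orientation reversing reflection and arrow reversal) -/
theorem nrm_out_plain' {A : Finset (ℤ × ℤ)} (B : Band A) (hx : B.xl ≤ B.xr) {Au : Finset (ℤ × ℤ)}
    (hAu : Au ⊆ A) (φ : Port TG → ℝ) (σ : Port TG → Bool) (c : ℝ) (b : ℕ) :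
    Cs410.nrm (OutZ B Au φ (plainL A Au φ) σ ᵥ* That (nn B + 2) c (1 / 2) ^ b) =
      Cs410.nrm (That (nn (rB B) + 1) (-c) (1 / 2) ^ b *ᵥ
        InZ (rB B) (rA Au) (fun q => -φ (rp q)) (plainL (rA A) (rA Au) fun q => -φ (rp q))
          fun q => σ (rp q)) := by
  rw [nrm_out_plain B hx hAu, ← nrm_in_ng, plain_ng]

end Crest.Agent.R158.Rf896
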