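import Crest.Agent.R158.Zl1_814
import Crest.Agent.R158.Rf2_896

/-!
# Row 158 (helper857): free ends of the two halves, the upper one taken in the reflected band

* `mem_lowM_rB` : tiles of the reflected low half = reflected tiles of the upper half
* `rp_fe` : a free end of the reflected low half is a reflected free end of `G^(z)`
* `fe_low_rb` : the two numbers of free ends add up to at most `#freeG`
-/

set_option autoImplicit false

noncomputable section

open Finset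

namespace Crest.Agent.R158.Nn857

open Crest.Agent.R158.Ad350
open Crest.Agent.R158.Ao857
open Crest.Agent.R158.Fm857
open Crest.Agent.R158.Rf896
open Crest.Agent.R158.Zl814 (fe mem_fe fe_low low_up_disj)
open Crest.Agent.R158.Sw300 (Port)
open Crest.Agent.R158.Env664 (TG Band Run PortOf nbP)

variable {A : Finset (ℤ × ℤ)} {B : Band A}

lemma mem_rA_inlE {C : Finset (ℤ × ℤ)} {t : TG} : t ∈ (rA C).map inlE ↔ rt t ∈ C.map inlE := by
  rcases t with t | t
  · rw [rt_inl, mem_inlE, mem_inlE, mem_rA]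
  · rw [rt_inr]
    exact iff_of_false not_inlE not_inlE

lemma gI_rf' (i : ℕ) (y : ℤ) : gI (rB B) i y = rt (gI B i (-y - 1)) := by
  have h := gI_rf B i (-y - 1)
  rwa [show -(-y - 1) - 1 = y by ring] at h

lemma mem_rows_rB (hx : B.xl ≤ B.xr) {b : ℕ} {t : TG} :
    t ∈ rowsM (rB B) (nn (rB B)) b (rB B).y1 ↔
      rt t ∈ rowsM B (nn B + 1) b (B.y2 - 1 - (b : ℤ)) := by
  have hn := nn_rB B hx
  rw [mem_rowsM, mem_rowsM]
  constructor
  · rintro ⟨i, j, h1, h2, rfl⟩
    refine ⟨i, b - j, by omega, by omega, ?_⟩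
    rw [gI_rf', rt_rt]
    congr 1
    simp only [rB_y1]
    have : ((b - j : ℕ) : ℤ) = (b : ℤ) - j := by omega
    rw [this]
    ring
  · rintro ⟨i, j, h1, h2, h3⟩
    refine ⟨i, b - j, by omega, by omega, ?_⟩
    rw [gI_rf', ← rt_rt t, h3]
    congr 2
    simp only [rB_y1]
    have : ((b - j : ℕ) : ℤ) = (b : ℤ) - j := by omega
    rw [this]
    ring

/-- **tiles of the reflected low half** -/
theorem mem_lowM_rB (hx : B.xl ≤ B.xr) {Au : Finset (ℤ × ℤ)} {b : ℕ} {t : TG} :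
    t ∈ lowM (rB B) (rA Au) b ↔ rt t ∈ upM B Au b := by
  unfold lowM upM
  rw [Finset.mem_union, Finset.mem_union, mem_rA_inlE, mem_rows_rB hx]

lemma ports_lowM_rB (hx : B.xl ≤ B.xr) {Au : Finset (ℤ × ℤ)} {b : ℕ} {q : Port TG}
    (hq : q ∈ ports (lowM (rB B) (rA Au) b)) : rp q ∈ ports (upM B Au b) := by
  obtain ⟨t, d, rfl, ht⟩ := mem_ports' hq
  rw [rp_some, mem_ports]
  exact (mem_lowM_rB hx).1 ht

lemma mouth_rq {r : Port (ℤ × ℤ)} (h : mouth B (rq r)) : mouth (rB B) r := by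
  rcases r with _ | ⟨⟨x, y⟩, d⟩
  · exact h
  · have h' : (B.y1 ≤ -y - 1 ∧ -y - 1 < B.y2) ∧ ((-d = 0 ∧ x = B.xl) ∨ (-d = 2 ∧ x = B.xr)) := h
    show (-B.y2 ≤ y ∧ y < -B.y1) ∧ ((d = 0 ∧ x = B.xl) ∨ (d = 2 ∧ x = B.xr))
    refine ⟨by omega, ?_⟩
    rcases h'.2 with ⟨k1, k2⟩ | ⟨k1, k2⟩
    · exact Or.inl ⟨neg_eq_zero.1 k1, k2⟩
    · refine Or.inr ⟨?_, k2⟩
      rw [← neg_neg d, k1]
      decide

/-- **a free end of the reflected low half is a reflected free end of `G^(z)`** -/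
theorem rp_fe {p' z' : ℤ} (h : (rB B).At p' z') {Al Au : Finset (ℤ × ℤ)} (hs : Split B Al Au)
    {b : ℕ} (hb : -B.y2 + (b : ℤ) < z') {q : Port TG}
    (hq : q ∈ fe (lowM (rB B) (rA Au) b) (beL (rB B) p' z') (topO (rB B) b)) :
    rp q ∈ freeG B := by
  have h1 := fe_low h (Crest.Agent.R158.Rf896.Split.rf hs) hb hq
  have h2 := (mem_fe.1 hq).1.1
  unfold freeG at h1 ⊢
  rw [Finset.mem_union, Finset.mem_union] at h1 ⊢
  rcases h1 with h1 | h1 | h1
  · left
    rw [Finset.mem_image] at h1 ⊢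
    obtain ⟨r, hr, rfl⟩ := h1
    refine ⟨rq r, ?_, (rp_tpm r).symm⟩
    unfold freeD at hr ⊢
    rw [Finset.mem_filter] at hr ⊢
    refine ⟨mem_ports_rA.1 hr.1, fun k => hr.2.1 ?_, fun k => hr.2.2 (mouth_rq k)⟩
    rw [nbP_rq] at k
    have := (portOf_rq (A := A) (rq (nbP r))).2 k
    rwa [rq_rq] at this
  · right; right
    rw [mem_flr] at h1
    obtain ⟨i, k1, k2, rfl⟩ := h1
    rw [mem_cil]
    refine ⟨i, k1, k2, ?_⟩
    rw [rp_some, rt_inr]
    have e3 : (-(3 : ZMod 4)) = 1 := by decide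
    rw [e3]
    unfold rz
    simp only [rB_y1]
    rw [neg_neg]
  · exfalso
    rw [mem_cil] at h1
    obtain ⟨i, k1, k2, rfl⟩ := h1
    rw [mem_ports] at h2
    unfold lowM at h2
    rcases Finset.mem_union.1 h2 with h2 | h2
    · exact not_inlE h2
    · obtain ⟨i', j, hi, hj, he⟩ := (mem_rowsM (rB B)).1 h2
      have hy := h.hy2
      simp only [rB_y2] at hy
      by_cases h5 : (i' : ℤ) ≤ (rB B).xr - (rB B).xl
      · rw [gI_le (rB B) h5] at he
        exact absurd he (by simp)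
      · rw [gI_gt (rB B) h5] at he
        simp only [Sum.inr.injEq, Prod.mk.injEq, rB_y2, rB_y1] at he
        omega

/-- **the free ends of the lower half and of the reflected upper half** -/
theorem fe_low_rb {p z0 p' z' : ℤ} (h : B.At p z0) (h' : (rB B).At p' z')
    {Al Au : Finset (ℤ × ℤ)} (hs : Split B Al Au) {a b : ℕ} (ha : B.y1 + (a : ℤ) < z0)
    (hb : z0 ≤ B.y2 - 1 - (b : ℤ)) (hb' : -B.y2 + (b : ℤ) < z') :
    (fe (lowM B Al a) (beL B p z0) (topO B a)).card +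
      (fe (lowM (rB B) (rA Au) b) (beL (rB B) p' z') (topO (rB B) b)).card ≤ (freeG B).card := by
  have hd : Disjoint (fe (lowM B Al a) (beL B p z0) (topO B a))
      ((fe (lowM (rB B) (rA Au) b) (beL (rB B) p' z') (topO (rB B) b)).image rp) := by
    rw [Finset.disjoint_left]
    intro q h1 h2
    obtain ⟨r, hr, rfl⟩ := Finset.mem_image.1 h2
    exact ports_disj (low_up_disj h hs ha hb) (mem_fe.1 h1).1.1
      (ports_lowM_rB (le_run B h) (mem_fe.1 hr).1.1)
  rw [← Finset.card_image_of_injective (fe (lowM (rB B) (rA Au) b) (beL (rB B) p' z')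
    (topO (rB B) b)) rp_inj, ← Finset.card_union_of_disjoint hd]
  refine Finset.card_le_card (Finset.union_subset (fe_low h hs ha) ?_)
  intro q hq
  obtain ⟨r, hr, rfl⟩ := Finset.mem_image.1 hq
  exact rp_fe h' hs hb' hr

end Crest.Agent.R158.Nn857
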