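import Crest.Agent.R158.Nj3_107
import Crest.Agent.R158.Nn2_857
import Crest.Agent.R158.Nn3_857

/-!
# Row 158, Q1d (helper107): `MemIn` from 857's numbers and the members (399)

* `memIn_of`, `normP_mem`
-/

set_option autoImplicit false

noncomputable section

namespace Crest.Agent.R158.Nj107

open Crest.Agent.R158.Nz399
open Crest.Agent.R158.Ka470
open Crest.Agent.R158.Nn857
open Crest.Agent.R158.Env664 (TG Band D Run lowT upT)
open Crest.Agent.R158.Fm857
open Crest.Agent.R158.Ao857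
open Crest.Agent.R158.Rf896 (rA rB)
open Crest.Agent.R158.Tj656 (P4)
open Crest.Agent.R158.Cs410 (FamZ OnB InHalf)

open Classical in
/-- 399's literal -/
def MemP' (P : P4) : Prop :=
  ∃ M : ℕ, ∀ (a b c L : ℤ) (δ : ℝ) (B : Band (D P.F L)) (ρ κ : ℕ) (yl yu p z0 : ℤ) (a1 b1 : ℕ),
    Nums P a b c L δ B ρ κ yl yu p z0 a1 b1 → Even L → ∀ μ : (fz P L δ B).J,
      Mem (fz P L δ B) κ M ρ
        (Zl814.fe (lowM B (lowT (D P.F L) B.xl B.xr B.y1) a1) (beL B p z0) (topO B a1)).card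
        (Zl814.fe (lowM (rB B) (rA (upT (D P.F L) B.xl B.xr B.y2)) b1) (beL (rB B) p (-z0))
          (topO (rB B) b1)).card
        (a1 + 1) (b1 + 1) (if μ.1 = none then 0 else 1) μ

theorem memIn_of {P : P4} (hM : MemP' P) : MemIn P := by
  classical
  obtain ⟨M, hM⟩ := hM
  refine ⟨1, one_pos, fun A B' r hr h y δ hh _ hδ hδh hhalf => ?_⟩
  obtain ⟨κ, L0, -, -, hN⟩ := nums hr hh hδ hδh hhalf
  refine ⟨κ, M, L0, fun L hL hev B hB => ?_⟩
  obtain ⟨a1, b1, N⟩ := hN L hL B hB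
  have ha : (⌊(y - 2 * h) * L⌋ - B.y1).toNat = a1 + 1 := by
    have := N.ha
    omega
  have hb : (B.y2 - ⌊(y + 2 * h) * L⌋).toNat = b1 + 1 := by
    have := N.hb
    omega
  have h1 := N.ha
  have h2 := N.hb
  have h3 := N.hl
  have h4 := N.hu
  refine ⟨_, _, _, N.ρ1, N.k1, N.k2, fe_low_rb (a := a1) (b := b1) N.hz N.hzR N.mb.split (by omega)
    (by omega) (by omega), fun μ => ?_⟩
  rw [ha, hb]
  exact hM A B' r L δ B _ κ _ _ _ _ a1 b1 N hev μ

/-- **`NormP`** -/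
theorem normP_mem (hcp : CP) {P : P4} (hM : MemP' P) : Cs410.NormP fz P :=
  normP_of_mem hcp (memIn_of hM)

end Crest.Agent.R158.Nj107
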