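import Crest.Agent.R158.Nj4_107
import Crest.Agent.R158.Nz11_399
import Crest.Agent.R158.Dn12_211

/-!
# Row 158, Q1d (helper107): `NormP fz P` from `XAll P`
-/

set_option autoImplicit false

namespace Crest.Agent.R158.Nj107

open Crest.Agent.R158.Fm857
open Crest.Agent.R158.Tj656 (P4)

/-- **`NormP` from the lists of special points** -/
theorem normP_of_XAll {P : P4} (hX : Nz399.XAll P) : Cs410.NormP fz P :=
  normP_mem Dn211.cp_holds (Nz399.member hX)

theorem normP_all (hX : ∀ P, Nz399.XAll P) : ∀ P, Cs410.NormP fz P :=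
  fun P => normP_of_XAll (hX P)

end Crest.Agent.R158.Nj107
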