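import Crest.Agent.R158.Nm1_211
import Crest.Agent.R042.Menger_353

/-!
# Row 158, Block N (helper211): strands give disjoint arms, without planarity

* `Cn en S z u v` : `u`, `v` are joined by open edges of `S` (`en e` = end points of `e`)
* `CE en S A B` : the event that `A` is joined to `B`
* `cut_or_disj` : Menger: either `k` disjoint open connections from `A` to `B`, or a set of fewer
  than `k` open edges whose closing disconnects `A` from `B`
* `strands` : if `K z` strands run from the corners `X` to the corners `Y` through `D`, then there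
  are at least `K z / 2` pairwise disjoint open connections
-/

set_option autoImplicit false

noncomputable section

namespace Crest.Agent.R158.Nm211

open Crest.Agent.R158.Rs689
open Crest.Agent.R042

variable {ι V : Type*} [DecidableEq ι]

/-- `e` links `u` and `v` -/
def Lk (en : ι → V × V) (e : ι) (u v : V) : Prop := en e = (u, v) ∨ en e = (v, u)

/-- `v` is an end of `e` -/
def Tch (en : ι → V × V) (e : ι) (v : V) : Prop := (en e).1 = v ∨ (en e).2 = v

/-- connection by open edges of `S` -/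
def Cn (en : ι → V × V) (S : Set ι) (z : ι → Bool) (u v : V) : Prop :=
  Relation.ReflTransGen (fun u v => ∃ e ∈ S, z e = true ∧ Lk en e u v) u v

/-- connection event -/
def CE (en : ι → V × V) (S : Set ι) (A B : Set V) : Set (ι → Bool) :=
  {z | ∃ a ∈ A, ∃ b ∈ B, Cn en S z a b}

variable {en : ι → V × V} {S : Set ι} {A B : Set V}

omit [DecidableEq ι] in
theorem Lk.symm {e : ι} {u v : V} (h : Lk en e u v) : Lk en e v u := Or.symm h

omit [DecidableEq ι] in
theorem Lk.tch {e : ι} {u v : V} (h : Lk en e u v) : Tch en e u ∧ Tch en e v := by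
  rcases h with h | h
  · exact ⟨Or.inl (by rw [h]), Or.inr (by rw [h])⟩
  · exact ⟨Or.inr (by rw [h]), Or.inl (by rw [h])⟩

omit [DecidableEq ι] in
theorem Cn.mono {S' : Set ι} {z z' : ι → Bool} (hS : S ⊆ S')
    (hz : ∀ e ∈ S, z e = true → z' e = true) {u v : V} (h : Cn en S z u v) : Cn en S' z' u v := by
  induction h with
  | refl => exact Relation.ReflTransGen.refl
  | tail _ h ih =>
    obtain ⟨e, he, h1, h2⟩ := h
    exact ih.tail ⟨e, hS he, hz e he h1, h2⟩

omit [DecidableEq ι] in
theorem Cn.symm {z : ι → Bool} {u v : V} (h : Cn en S z u v) : Cn en S z v u := by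
  induction h with
  | refl => exact Relation.ReflTransGen.refl
  | tail _ h ih =>
    obtain ⟨e, he, h1, h2⟩ := h
    exact Relation.ReflTransGen.head ⟨e, he, h1, h2.symm⟩ ih

omit [DecidableEq ι] in
theorem Cn.trans {z : ι → Bool} {u v w : V} (h : Cn en S z u v) (h' : Cn en S z v w) :
    Cn en S z u w := Relation.ReflTransGen.trans h h'

omit [DecidableEq ι] in
theorem cn_tch {z : ι → Bool} {e : ι} {u v : V} (he : e ∈ S) (hz : z e = true)
    (hu : Tch en e u) (hv : Tch en e v) : Cn en S z u v := by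
  have h1 : Lk en e (en e).1 (en e).2 := Or.inl rfl
  rcases hu with rfl | rfl <;> rcases hv with rfl | rfl
  · exact Relation.ReflTransGen.refl
  · exact Relation.ReflTransGen.single ⟨e, he, hz, h1⟩
  · exact Relation.ReflTransGen.single ⟨e, he, hz, h1.symm⟩
  · exact Relation.ReflTransGen.refl

omit [DecidableEq ι] in
theorem CE_inc : Inc (CE en S A B) := by
  rintro z z' hz ⟨a, ha, b, hb, h⟩
  exact ⟨a, ha, b, hb, h.mono subset_rfl fun e _ he => hz e he⟩

omit [DecidableEq ι] in
theorem CE_dep (T : Finset ι) : Dep T (CE en (T : Set ι) A B) := by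
  have key : ∀ z z' : ι → Bool, (∀ e ∈ T, z e = z' e) → z ∈ CE en (T : Set ι) A B →
      z' ∈ CE en (T : Set ι) A B := by
    rintro z z' hz ⟨a, ha, b, hb, h⟩
    exact ⟨a, ha, b, hb, h.mono subset_rfl fun e he h1 => by rw [← hz e he]; exact h1⟩
  exact fun z z' hz => ⟨key z z' hz, key z' z fun e he => (hz e he).symm⟩

/-- line graph -/
def LG (en : ι → V × V) : SimpleGraph ι where
  Adj e e' := e ≠ e' ∧ ∃ v, Tch en e v ∧ Tch en e' v
  symm := ⟨fun _ _ ⟨h, v, h1, h2⟩ => ⟨h.symm, v, h2, h1⟩⟩
  loopless := ⟨fun _ h => h.1 rfl⟩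

omit [DecidableEq ι] in
theorem cn_of_chain {z : ι → Bool} : ∀ (l : List ι) (u v : V), l.IsChain (LG en).Adj →
    (∀ e ∈ l, e ∈ S ∧ z e = true) → (∃ a t, l = a :: t ∧ Tch en a u) →
    (∃ s b, l = s ++ [b] ∧ Tch en b v) → Cn en S z u v
  | [], _, _, _, _, ⟨_, _, h, _⟩, _ => by simp at h
  | [a], u, v, _, hl, ⟨a', t, h, hu⟩, ⟨s, b, h', hv⟩ => by
    have ha : a' = a := by
      rw [List.cons.injEq] at h; exact h.1.symm
    have hb : b = a := by
      have : s = [] ∧ b = a := by
        cases s with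
        | nil => simpa using h'.symm
        | cons c s => simp at h'
      exact this.2
    subst ha hb
    exact cn_tch (hl _ (by simp)).1 (hl _ (by simp)).2 hu hv
  | a :: c :: t, u, v, hc, hl, ⟨a', t', h, hu⟩, ⟨s, b, h', hv⟩ => by
    have ha : a' = a := by
      rw [List.cons.injEq] at h; exact h.1.symm
    subst ha
    rw [List.isChain_cons_cons] at hc
    obtain ⟨⟨_, w, hw1, hw2⟩, hc2⟩ := hc
    refine (cn_tch (hl a' (by simp)).1 (hl a' (by simp)).2 hu hw1).trans ?_
    refine cn_of_chain (c :: t) w v hc2 (fun e he => hl e (List.mem_cons_of_mem _ he))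
      ⟨c, t, rfl, hw2⟩ ?_
    cases s with
    | nil => simp at h'
    | cons d s =>
      rw [List.cons_append, List.cons.injEq] at h'
      exact ⟨s, b, h'.2, hv⟩

omit [DecidableEq ι] in
theorem chain_of_cn {z : ι → Bool} {a u : V} (h : Cn en S z a u) :
    a = u ∨ ∃ l : List ι, l.IsChain (LG en).Adj ∧ (∀ e ∈ l, e ∈ S ∧ z e = true) ∧
      (∃ e t, l = e :: t ∧ Tch en e a) ∧ (∃ s e, l = s ++ [e] ∧ Tch en e u) := by
  induction h with
  | refl => exact Or.inl rfl
  | @tail u w _ hs ih =>
    right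
    obtain ⟨e, he, hze, hl⟩ := hs
    rcases ih with rfl | ⟨l, h1, h2, h3, s, e', h4, h5⟩
    · exact ⟨[e], List.isChain_singleton e, by simp [he, hze], ⟨e, [], rfl, hl.tch.1⟩,
        [], e, rfl, hl.tch.2⟩
    · by_cases hee : e' = e
      · subst hee
        exact ⟨l, h1, h2, h3, s, e', h4, hl.tch.2⟩
      · subst h4
        refine ⟨(s ++ [e']) ++ [e], ?_, ?_, ?_, s ++ [e'], e, rfl, hl.tch.2⟩
        · rw [List.append_assoc, List.singleton_append, List.isChain_split]
          refine ⟨h1, ?_⟩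
          rw [List.isChain_pair]
          exact ⟨hee, u, h5, hl.tch.1⟩
        · intro x hx
          rcases List.mem_append.1 hx with hx | hx
          · exact h2 x hx
          · rw [List.mem_singleton] at hx
            subst hx
            exact ⟨he, hze⟩
        · obtain ⟨e0, t0, h6, h7⟩ := h3
          exact ⟨e0, t0 ++ [e], by rw [h6]; rfl, h7⟩

/-- close the edges of `X` -/
def cls (X : Finset ι) (z : ι → Bool) : ι → Bool := fun e => if e ∈ X then false else z e

open Classical in
/-- **Menger** (edge version) -/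
theorem cut_or_disj (T : Finset ι) (hAB : ∀ a ∈ A, a ∉ B) (z : ι → Bool) (k : ℕ) :
    DO (fun _ : Fin k => CE en (T : Set ι) A B) z ∨
      ∃ X : Finset ι, X.card < k ∧ cls X z ∉ CE en (T : Set ι) A B := by
  set W : Finset ι := T.filter fun e => z e = true with hW
  set A' : Finset ι := W.filter fun e => ∃ a ∈ A, Tch en e a with hA'
  set B' : Finset ι := W.filter fun e => ∃ b ∈ B, Tch en e b with hB'
  by_cases hsep : ∀ X, Menger353.Separates (LG en) W A' B' X → k ≤ X.card
  · left
    obtain ⟨Q, hQ, hc⟩ := Menger353.menger hsep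
    let f : Fin k ≃ Q := (Fin.castOrderIso hc.symm).toEquiv.trans (Q.equivFin.symm)
    refine ⟨fun i => (f i).1.toFinset, fun i e he => ?_, fun i j hij => ?_, fun i => ?_⟩
    · rw [List.mem_toFinset] at he
      exact (Finset.mem_filter.1 ((hQ.path _ (f i).2).sub e he)).2
    · refine Finset.disjoint_left.2 ?_
      intro e he he'
      rw [List.mem_toFinset] at he he'
      exact hQ.disj _ (f i).2 _ (f j).2 (fun h => hij (f.injective (Subtype.ext h))) e he he'
    · have hp := hQ.path _ (f i).2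
      obtain ⟨a, t, h1, h2, _⟩ := hp.start
      obtain ⟨s, b, h3, h4, _⟩ := hp.stop
      obtain ⟨_, u, hu, hau⟩ := Finset.mem_filter.1 h2
      obtain ⟨_, v, hv, hbv⟩ := Finset.mem_filter.1 h4
      refine ⟨u, hu, v, hv, cn_of_chain (f i).1 u v hp.chain (fun e he => ⟨?_, ?_⟩)
        ⟨a, t, h1, hau⟩ ⟨s, b, h3, hbv⟩⟩
      · exact (Finset.mem_filter.1 (hp.sub e he)).1
      · simpa [chi] using he
  · right
    push Not at hsep
    obtain ⟨X, hX, hXk⟩ := hsep
    refine ⟨X, hXk, ?_⟩
    rintro ⟨a, ha, b, hb, h⟩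
    rcases chain_of_cn h with rfl | ⟨l, h1, h2, ⟨e, t, h3, h3'⟩, s, e', h4, h4'⟩
    · exact hAB a ha hb
    · have hop : ∀ x ∈ l, x ∈ T ∧ x ∉ X ∧ z x = true := by
        intro x hx
        obtain ⟨h5, h6⟩ := h2 x hx
        unfold cls at h6
        by_cases hxX : x ∈ X
        · rw [if_pos hxX] at h6; exact absurd h6 (by decide)
        · rw [if_neg hxX] at h6
          exact ⟨h5, hxX, h6⟩
      have hWl : ∀ x ∈ l, x ∈ W := fun x hx =>
        Finset.mem_filter.2 ⟨(hop x hx).1, (hop x hx).2.2⟩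
      obtain ⟨l', hl', hsub⟩ := Menger353.exists_path_of_chain (G := LG en) (W := W) (A := A')
        (B := B') l.length l le_rfl hWl h1
        ⟨e, t, h3, Finset.mem_filter.2 ⟨hWl e (by rw [h3]; simp), a, ha, h3'⟩⟩
        ⟨s, e', h4, Finset.mem_filter.2 ⟨hWl e' (by rw [h4]; simp), b, hb, h4'⟩⟩
      obtain ⟨x, hx, hxX⟩ := hX l' hl'
      exact (hop x (hsub x hx)).2.1 hxX

/-! ### strands -/

section Strands

variable {C : Type*} [DecidableEq C]

/-- the strand from `x` through `D` reaches `Y` -/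
def Hit (nx : C → C) (D Y : Set C) (x : C) : Prop :=
  ∃ n, (∀ k < n, nx^[k] x ∈ D) ∧ nx^[n] x ∈ Y

/-- the strand from `x` visits `c` before leaving `D` -/
def Vis (nx : C → C) (D : Set C) (x c : C) : Prop :=
  ∃ n, (∀ k ≤ n, nx^[k] x ∈ D) ∧ nx^[n] x = c

omit [DecidableEq C] in
theorem iter_cancel {nx : C → C} {D : Set C} (hinj : Set.InjOn nx D) : ∀ (n m : ℕ) (x x' : C),
    (∀ k ≤ n, nx^[k] x ∈ D) → (∀ k ≤ n + m, nx^[k] x' ∈ D) → nx^[n] x = nx^[n + m] x' →
    x = nx^[m] x'
  | 0, m, x, x', _, _, h => by simpa using h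
  | n + 1, m, x, x', h1, h2, h => by
    refine iter_cancel hinj n m x x' (fun k hk => h1 k (by omega)) (fun k hk => h2 k (by omega)) ?_
    have h3 : n + 1 + m = (n + m) + 1 := by omega
    rw [h3, Function.iterate_succ_apply', Function.iterate_succ_apply'] at h
    exact hinj (h1 n (by omega)) (h2 (n + m) (by omega)) h

omit [DecidableEq C] in
theorem vis_unique {nx : C → C} {D : Set C} (hinj : Set.InjOn nx D) {X : Finset C}
    (hX : ∀ c ∈ D, nx c ∉ X) {x x' c : C} (hx : x ∈ X) (hx' : x' ∈ X) (h : Vis nx D x c)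
    (h' : Vis nx D x' c) : x = x' := by
  have key : ∀ (n n' : ℕ) (x x' : C), n ≤ n' → x ∈ X → (∀ k ≤ n, nx^[k] x ∈ D) →
      (∀ k ≤ n', nx^[k] x' ∈ D) → nx^[n] x = nx^[n'] x' → x = x' := by
    intro n n' x x' hn hx hk' hk h
    obtain ⟨m, rfl⟩ := Nat.exists_eq_add_of_le hn
    have h1 : x = nx^[m] x' := iter_cancel hinj n m x x' hk' hk h
    cases m with
    | zero => exact h1
    | succ m =>
      rw [Function.iterate_succ_apply'] at h1
      exact absurd (h1 ▸ hx) (hX _ (hk m (by omega)))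
  obtain ⟨n, h1, h2⟩ := h
  obtain ⟨n', h1', h2'⟩ := h'
  rcases le_total n n' with hn | hn
  · exact key n n' x x' hn hx h1 h1' (h2.trans h2'.symm)
  · exact (key n' n x' x hn hx' h1' h1 (h2'.trans h2.symm)).symm

/-- number of strands from `X` to `Y` through `D` -/
def KK (nx : C → C) (D Y : Set C) (X : Finset C) : ℕ := by
  classical exact (X.filter fun x => Hit nx D Y x).card

/-- the abstract strand system -/
structure SS (en : ι → V × V) (T : Finset ι) (nx : (ι → Bool) → C → C) (ah : C → ι) (ph : C → V)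
    (D Y : Set C) (X : Finset C) (r : ℕ) : Prop where
  loc : ∀ z z', ∀ c ∈ D, z (ah c) = z' (ah c) → nx z c = nx z' c
  inj : ∀ z, Set.InjOn (nx z) D
  ent : ∀ z, ∀ c ∈ D, nx z c ∉ X
  edge : ∀ c ∈ D, ah c ∈ T
  mult : ∀ e, ∃ R : Finset C, R.card ≤ r ∧ ∀ c ∈ D, ah c = e → c ∈ R
  clo : ∀ z, ∀ c ∈ D, z (ah c) = false → ph (nx z c) = ph c
  opn : ∀ z, ∀ c ∈ D, z (ah c) = true → Lk en (ah c) (ph c) (ph (nx z c))

variable {T : Finset ι} {nx : (ι → Bool) → C → C} {ah : C → ι} {ph : C → V} {D Y : Set C}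
  {X : Finset C} {r : ℕ}

omit [DecidableEq ι] [DecidableEq C] in
/-- right side of a strand -/
theorem SS.cn (h : SS en T nx ah ph D Y X r) (z : ι → Bool) (x : C) : ∀ n : ℕ,
    (∀ k < n, (nx z)^[k] x ∈ D) → Cn en (T : Set ι) z (ph x) (ph ((nx z)^[n] x))
  | 0, _ => Relation.ReflTransGen.refl
  | n + 1, hn => by
    refine (h.cn z x n fun k hk => hn k (by omega)).trans ?_
    rw [Function.iterate_succ_apply']
    have hc := hn n (by omega)
    by_cases hz : z (ah ((nx z)^[n] x)) = true
    · exact Relation.ReflTransGen.single ⟨_, h.edge _ hc, hz, h.opn z _ hc hz⟩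
    · rw [h.clo z _ hc (by simpa using hz)]
      exact Relation.ReflTransGen.refl

/-- flipping one edge changes the number of strands by at most `r` -/
theorem SS.flip (h : SS en T nx ah ph D Y X r) {z z' : ι → Bool} {e : ι}
    (hz : ∀ f, f ≠ e → z f = z' f) : KK (nx z) D Y X ≤ KK (nx z') D Y X + r := by
  classical
  obtain ⟨R, hR, hRe⟩ := h.mult e
  unfold KK
  -- strands that do not visit `e` before leaving
  have h1 : ∀ x, Hit (nx z) D Y x → (∀ c, ah c = e → ¬ Vis (nx z) D x c) → Hit (nx z') D Y x := by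
    rintro x ⟨n, hn, hy⟩ hv
    have h2 : ∀ k ≤ n, (nx z')^[k] x = (nx z)^[k] x := by
      intro k
      induction k with
      | zero => intro _; rfl
      | succ k ih =>
        intro hk
        rw [Function.iterate_succ_apply', Function.iterate_succ_apply', ih (by omega)]
        refine (h.loc z z' _ (hn k (by omega)) (hz _ fun h3 => ?_)).symm
        exact hv _ h3 ⟨k, fun j hj => hn j (by omega), rfl⟩
    refine ⟨n, fun k hk => ?_, ?_⟩
    · rw [h2 k hk.le]; exact hn k hk
    · rw [h2 n le_rfl]; exact hy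
  have h2 : (X.filter fun x => Hit (nx z) D Y x) ⊆
      (X.filter fun x => Hit (nx z') D Y x) ∪
        (X.filter fun x => ∃ c ∈ R, Vis (nx z) D x c) := by
    intro x hx
    rw [Finset.mem_filter] at hx
    rw [Finset.mem_union, Finset.mem_filter, Finset.mem_filter]
    by_cases h3 : ∃ c, ah c = e ∧ Vis (nx z) D x c
    · obtain ⟨c, hc, hv⟩ := h3
      have hcD : c ∈ D := by
        obtain ⟨n, hn, rfl⟩ := hv
        exact hn n le_rfl
      exact Or.inr ⟨hx.1, c, hRe c hcD hc, hv⟩
    · push Not at h3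
      exact Or.inl ⟨hx.1, h1 x hx.2 h3⟩
  refine (Finset.card_le_card h2).trans ((Finset.card_union_le _ _).trans ?_)
  refine Nat.add_le_add_left (le_trans ?_ hR) _
  refine Finset.card_le_card_of_forall_subsingleton (fun x c => Vis (nx z) D x c)
    (fun x hx => ?_) fun c _ x hx x' hx' => ?_
  · obtain ⟨_, c, hc, hv⟩ := Finset.mem_filter.1 hx
    exact ⟨c, hc, hv⟩
  · exact vis_unique (h.inj z) (h.ent z) (Finset.mem_filter.1 hx.1).1
      (Finset.mem_filter.1 hx'.1).1 hx.2 hx'.2

omit [DecidableEq ι] in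
/-- the number of strands depends only on the edges in `T` -/
theorem SS.dep (h : SS en T nx ah ph D Y X r) {z z' : ι → Bool} (hz : ∀ e ∈ T, z e = z' e) :
    KK (nx z) D Y X = KK (nx z') D Y X := by
  classical
  have key : ∀ z z' : ι → Bool, (∀ e ∈ T, z e = z' e) → ∀ x, Hit (nx z) D Y x →
      Hit (nx z') D Y x := by
    rintro z z' hz x ⟨n, hn, hy⟩
    have h2 : ∀ k ≤ n, (nx z')^[k] x = (nx z)^[k] x := by
      intro k
      induction k with
      | zero => intro _; rfl
      | succ k ih =>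
        intro hk
        rw [Function.iterate_succ_apply', Function.iterate_succ_apply', ih (by omega)]
        exact (h.loc z z' _ (hn k (by omega)) (hz _ (h.edge _ (hn k (by omega))))).symm
    refine ⟨n, fun k hk => ?_, ?_⟩
    · rw [h2 k hk.le]; exact hn k hk
    · rw [h2 n le_rfl]; exact hy
  unfold KK
  congr 1
  refine Finset.filter_congr fun x _ => ⟨key z z' hz x, key z' z (fun e he => (hz e he).symm) x⟩

theorem SS.close (h : SS en T nx ah ph D Y X r) (z : ι → Bool) (F : Finset ι) :
    KK (nx z) D Y X ≤ KK (nx (cls F z)) D Y X + r * F.card := by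
  classical
  induction F using Finset.induction_on with
  | empty =>
    have : cls ∅ z = z := by
      funext e; simp [cls]
    rw [this]; simp
  | insert a F ha ih =>
    have h1 := h.flip (z := cls F z) (z' := cls (insert a F) z) (e := a) fun f hf => by
      simp [cls, hf]
    rw [Finset.card_insert_of_notMem ha]
    calc KK (nx z) D Y X ≤ KK (nx (cls F z)) D Y X + r * F.card := ih
      _ ≤ KK (nx (cls (insert a F) z)) D Y X + r + r * F.card := Nat.add_le_add_right h1 _
      _ = KK (nx (cls (insert a F) z)) D Y X + r * (F.card + 1) := by ring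

omit [DecidableEq ι] in
theorem SS.zero (h : SS en T nx ah ph D Y X r) {z : ι → Bool} (hXA : ∀ x ∈ X, ph x ∈ A)
    (hYB : ∀ y ∈ Y, ph y ∈ B) (hz : z ∉ CE en (T : Set ι) A B) : KK (nx z) D Y X = 0 := by
  classical
  unfold KK
  rw [Finset.card_eq_zero, Finset.filter_eq_empty_iff]
  rintro x hx ⟨n, hn, hy⟩
  exact hz ⟨_, hXA x hx, _, hYB _ hy, h.cn z x n hn⟩

/-- **strands give disjoint arms** -/
theorem SS.disj (h : SS en T nx ah ph D Y X r) (hAB : ∀ a ∈ A, a ∉ B)
    (hXA : ∀ x ∈ X, ph x ∈ A) (hYB : ∀ y ∈ Y, ph y ∈ B) (z : ι → Bool) {k : ℕ}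
    (hk : r * (k - 1) < KK (nx z) D Y X) :
    DO (fun _ : Fin k => CE en (T : Set ι) A B) z := by
  rcases cut_or_disj (en := en) T hAB z k with h1 | ⟨F, hF, h2⟩
  · exact h1
  · exfalso
    have h3 := h.close z F
    rw [h.zero hXA hYB h2, zero_add] at h3
    have h4 : r * F.card ≤ r * (k - 1) := Nat.mul_le_mul_left r (by omega)
    omega

end Strands

end Crest.Agent.R158.Nm211
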