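import Crest.Agent.R158.Nm2_211

/-!
# Row 158, Block N (helper211): exponential moments of numbers of strands

* `integral_prod_disj` : independence of functions of disjoint finite sets of edges
* `strand_moment` : `∫ a ^ KK ≤ ∏ b, (1 - a ^ r * q b)⁻¹`
* `local_moment` : combination of local numbers of strands (Hölder over colour classes)
-/

set_option autoImplicit false

noncomputable section

namespace Crest.Agent.R158.Nm211

open MeasureTheory ProbabilityTheory unitInterval
open Crest.Agent.R158.Rs689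

variable {ι V : Type*}

/-- the function depends only on the coordinates in `S` -/
def DepF (S : Finset ι) (f : (ι → Bool) → ℝ) : Prop :=
  ∀ z z' : ι → Bool, (∀ e ∈ S, z e = z' e) → f z = f z'

open Classical in
/-- extension by `false` -/
def ext (S : Finset ι) (y : S → Bool) : ι → Bool := fun e => if h : e ∈ S then y ⟨e, h⟩ else false

theorem DepF.eq {S : Finset ι} {f : (ι → Bool) → ℝ} (hf : DepF S f) (z : ι → Bool) :
    f (ext S (S.restrict z)) = f z :=
  hf _ _ fun e he => by simp [ext, he]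

theorem DepF.mono {S T : Finset ι} (h : S ⊆ T) {f : (ι → Bool) → ℝ} (hf : DepF S f) : DepF T f :=
  fun z z' hz => hf z z' fun e he => hz e (h he)

theorem DepF.mul {S : Finset ι} {f g : (ι → Bool) → ℝ} (hf : DepF S f) (hg : DepF S g) :
    DepF S fun z => f z * g z := fun z z' hz => by
  show f z * g z = f z' * g z'
  rw [hf z z' hz, hg z z' hz]

theorem DepF.prod {κ : Type*} {S : Finset ι} (s : Finset κ) {f : κ → (ι → Bool) → ℝ}
    (hf : ∀ k ∈ s, DepF S (f k)) : DepF S fun z => ∏ k ∈ s, f k z := fun z z' hz =>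
  Finset.prod_congr rfl fun k hk => hf k hk z z' hz

theorem DepF.measurable {S : Finset ι} {f : (ι → Bool) → ℝ} (hf : DepF S f) : Measurable f := by
  have h : f = (fun y => f (ext S y)) ∘ S.restrict := by
    funext z
    exact (hf.eq z).symm
  rw [h]
  exact (Measurable.of_discrete).comp (Finset.measurable_restrict S)

theorem DepF.bdd {S : Finset ι} {f : (ι → Bool) → ℝ} (hf : DepF S f) : ∃ C, ∀ z, ‖f z‖ ≤ C := by
  obtain ⟨C, hC⟩ := (Set.finite_range fun y : S → Bool => ‖f (ext S y)‖).bddAbove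
  exact ⟨C, fun z => by rw [← hf.eq z]; exact hC ⟨S.restrict z, rfl⟩⟩

theorem DepF.integrable {S : Finset ι} {f : (ι → Bool) → ℝ} (hf : DepF S f) (w : ι → I) :
    Integrable f (PB w) := by
  obtain ⟨C, hC⟩ := hf.bdd
  exact Integrable.of_bound hf.measurable.aestronglyMeasurable C (ae_of_all _ hC)

theorem integral_mul_disj (w : ι → I) {S T : Finset ι} (hST : Disjoint S T)
    {f g : (ι → Bool) → ℝ} (hf : DepF S f) (hg : DepF T g) :
    ∫ z, f z * g z ∂(PB w) = (∫ z, f z ∂(PB w)) * ∫ z, g z ∂(PB w) := by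
  have h1 : iIndepFun (fun (e : ι) (z : ι → Bool) => z e) (PB w) := by
    have := iIndepFun_infinitePi (P := fun e => bern (w e)) (X := fun _ b => b)
      (fun _ => measurable_id)
    exact this
  have h2 := h1.indepFun_finset S T hST (fun e => measurable_pi_apply e)
  have h3 : IndepFun f g (PB w) := by
    have h4 := h2.comp (φ := fun y => f (ext S y)) (ψ := fun y => g (ext T y))
      Measurable.of_discrete Measurable.of_discrete
    have e1 : ((fun y => f (ext S y)) ∘ fun (a : ι → Bool) (i : S) => a i) = f := by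
      funext z
      exact hf.eq z
    have e2 : ((fun y => g (ext T y)) ∘ fun (a : ι → Bool) (i : T) => a i) = g := by
      funext z
      exact hg.eq z
    rw [e1, e2] at h4
    exact h4
  exact h3.integral_fun_mul_eq_mul_integral hf.measurable.aestronglyMeasurable
    hg.measurable.aestronglyMeasurable

/-- independence over disjoint finite sets -/
theorem integral_prod_disj (w : ι → I) {κ : Type*} (s : Finset κ) (S : κ → Finset ι)
    (hS : ∀ i ∈ s, ∀ j ∈ s, i ≠ j → Disjoint (S i) (S j)) (f : κ → (ι → Bool) → ℝ)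
    (hf : ∀ i ∈ s, DepF (S i) (f i)) :
    ∫ z, ∏ i ∈ s, f i z ∂(PB w) = ∏ i ∈ s, ∫ z, f i z ∂(PB w) := by
  classical
  induction s using Finset.induction_on with
  | empty => simp
  | insert a s ha ih =>
    have hd : Disjoint (S a) (s.biUnion S) := by
      rw [Finset.disjoint_biUnion_right]
      intro j hj
      exact hS a (Finset.mem_insert_self _ _) j (Finset.mem_insert_of_mem hj)
        (fun h => ha (h ▸ hj))
    have hD : DepF (s.biUnion S) fun z => ∏ i ∈ s, f i z :=
      DepF.prod s fun i hi => (hf i (Finset.mem_insert_of_mem hi)).mono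
        (Finset.subset_biUnion_of_mem S hi)
    rw [Finset.prod_insert ha,
      ← ih (fun i hi j hj => hS i (Finset.mem_insert_of_mem hi) j (Finset.mem_insert_of_mem hj))
        (fun i hi => hf i (Finset.mem_insert_of_mem hi)),
      ← integral_mul_disj w hd (hf a (Finset.mem_insert_self _ _)) hD]
    refine integral_congr_ae (ae_of_all _ fun z => ?_)
    show ∏ i ∈ insert a s, f i z = _
    rw [Finset.prod_insert ha]

/-! ### one local number of strands -/

section Moment

variable [DecidableEq ι] {C : Type*} [DecidableEq C] {en : ι → V × V} {B : Set V}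
variable {T : Finset ι} {nx : (ι → Bool) → C → C} {ah : C → ι} {ph : C → V} {D Y : Set C}
  {X : Finset C} {r : ℕ}

/-- **exponential moment of the number of strands** -/
theorem strand_moment (w : ι → I) (h : SS en T nx ah ph D Y X r) (hr : 0 < r) {β : Type*}
    [Fintype β] {A : β → Set V} (hXA : ∀ x ∈ X, ∃ b, ph x ∈ A b) (hYB : ∀ y ∈ Y, ph y ∈ B)
    (hAB : ∀ b, ∀ v ∈ A b, v ∉ B) {q : β → ℝ}
    (hq : ∀ b, (PB w).real (CE en (T : Set ι) (A b) B) ≤ q b) {a : ℝ} (ha : 1 ≤ a)
    (haq : ∀ b, a ^ r * q b < 1) :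
    ∫ z, a ^ (KK (nx z) D Y X) ∂(PB w) ≤ ∏ b, (1 - a ^ r * q b)⁻¹ := by
  classical
  set m : (ι → Bool) → ℕ := fun z => (KK (nx z) D Y X + (r - 1)) / r with hm
  have hmle : ∀ z, KK (nx z) D Y X ≤ r * m z := by
    intro z
    have h1 := Nat.div_add_mod (KK (nx z) D Y X + (r - 1)) r
    have h2 := Nat.mod_lt (KK (nx z) D Y X + (r - 1)) hr
    have h3 : m z = (KK (nx z) D Y X + (r - 1)) / r := rfl
    rw [← h3] at h1
    omega
  have hmS : ∀ z z' : ι → Bool, (∀ e ∈ T, z e = z' e) → m z = m z' := fun z z' hz => by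
    rw [hm]
    show (KK (nx z) D Y X + (r - 1)) / r = (KK (nx z') D Y X + (r - 1)) / r
    rw [h.dep hz]
  have hDO : ∀ z, ∃ c : Fin (m z) → β,
      DO (fun i => CE en (T : Set ι) (A (c i)) B) z := by
    intro z
    rcases Nat.eq_zero_or_pos (m z) with h0 | h0
    · rw [h0]
      exact ⟨fun i => i.elim0, fun i => i.elim0, fun i => i.elim0, fun i => i.elim0,
        fun i => i.elim0⟩
    · have hk : r * (m z - 1) < KK (nx z) D Y X := by
        have h3 : m z = (KK (nx z) D Y X + (r - 1)) / r := rfl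
        have h1 := Nat.div_mul_le_self (KK (nx z) D Y X + (r - 1)) r
        rw [← h3] at h1
        obtain ⟨m', hm'⟩ : ∃ m', m z = m' + 1 := ⟨m z - 1, by omega⟩
        rw [hm'] at h1 ⊢
        have h4 : (m' + 1) * r = r * m' + r := by ring
        rw [h4] at h1
        simp only [Nat.add_sub_cancel]
        omega
      obtain ⟨E, h1, h2, h3⟩ := h.disj (A := ⋃ b, A b) (B := B)
        (fun v hv => by
          obtain ⟨b, hb⟩ := Set.mem_iUnion.1 hv
          exact hAB b v hb)
        (fun x hx => Set.mem_iUnion.2 (hXA x hx)) hYB z hk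
      choose v hv b hb hc using h3
      choose c hcv using fun i => Set.mem_iUnion.1 (hv i)
      exact ⟨c, E, h1, h2, fun i => ⟨v i, hcv i, b i, hb i, hc i⟩⟩
  have ha0 : (0 : ℝ) ≤ a ^ r := pow_nonneg (zero_le_one.trans ha) _
  have h1 := exp_moment w (fun b => CE_dep (en := en) (A := A b) (B := B) T)
    (fun b => CE_inc) hq ha0 haq hmS hDO
  refine le_trans (integral_mono ?_ ?_ fun z => ?_) h1
  · refine DepF.integrable (S := T) (fun z z' hz => ?_) w
    rw [h.dep hz]
  · refine DepF.integrable (S := T) (fun z z' hz => ?_) w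
    rw [hmS z z' hz]
  · show a ^ KK (nx z) D Y X ≤ (a ^ r) ^ m z
    rw [← pow_mul]
    exact pow_le_pow_right₀ ha (hmle z)

end Moment

/-! ### combination -/

theorem prod_le_sum_pow {J : ℕ} (hJ : 0 < J) (y : Fin J → ℝ) (hy : ∀ j, 0 ≤ y j) :
    ∏ j, y j ≤ ∑ j, y j ^ J := by
  haveI : Nonempty (Fin J) := ⟨⟨0, hJ⟩⟩
  obtain ⟨j, hj⟩ := Finite.exists_max y
  calc ∏ i, y i ≤ ∏ _i : Fin J, y j := Finset.prod_le_prod (fun i _ => hy i) fun i _ => hj i
    _ = y j ^ J := by rw [Finset.prod_const, Finset.card_univ, Fintype.card_fin]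
    _ ≤ ∑ i, y i ^ J := Finset.single_le_sum (f := fun i => y i ^ J)
        (fun i _ => pow_nonneg (hy i) _) (Finset.mem_univ j)

/-- **combination of local numbers**: Hölder over the colour classes, independence inside -/
theorem local_moment (w : ι → I) {κ : Type*} [Fintype κ] {J : ℕ} (hJ : 0 < J) (col : κ → Fin J)
    (T : κ → Finset ι) (hT : ∀ k l, k ≠ l → col k = col l → Disjoint (T k) (T l))
    (N : κ → (ι → Bool) → ℕ)
    (hN : ∀ k, ∀ z z' : ι → Bool, (∀ e ∈ T k, z e = z' e) → N k z = N k z') {a : ℝ} (ha : 1 ≤ a)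
    {Q : κ → ℝ} (hQ : ∀ k, ∫ z, (a ^ J) ^ (N k z) ∂(PB w) ≤ Q k) (hQ1 : ∀ k, 1 ≤ Q k) :
    ∫ z, a ^ (∑ k, N k z) ∂(PB w) ≤ J * ∏ k, Q k := by
  classical
  have ha0 : 0 ≤ a := zero_le_one.trans ha
  have hdep : ∀ (k : κ) (b : ℝ), DepF (T k) fun z => b ^ (N k z) := fun k b z z' hz => by
    show b ^ (N k z) = b ^ (N k z')
    rw [hN k z z' hz]
  have hpt : ∀ z, a ^ (∑ k, N k z) ≤
      ∑ j : Fin J, ∏ k ∈ Finset.univ.filter (fun k => col k = j), (a ^ J) ^ (N k z) := by
    intro z
    have h1 : a ^ (∑ k, N k z) =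
        ∏ j : Fin J, ∏ k ∈ Finset.univ.filter (fun k => col k = j), a ^ (N k z) := by
      rw [Finset.prod_fiberwise, Finset.prod_pow_eq_pow_sum]
    rw [h1]
    refine (prod_le_sum_pow hJ _ fun j => Finset.prod_nonneg fun k _ => pow_nonneg ha0 _).trans
      (le_of_eq ?_)
    refine Finset.sum_congr rfl fun j _ => ?_
    rw [← Finset.prod_pow]
    refine Finset.prod_congr rfl fun k _ => ?_
    rw [← pow_mul, ← pow_mul, mul_comm]
  have hI : ∀ j : Fin J, ∫ z, ∏ k ∈ Finset.univ.filter (fun k => col k = j),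
      (a ^ J) ^ (N k z) ∂(PB w) ≤ ∏ k, Q k := by
    intro j
    rw [integral_prod_disj w _ T (fun k hk l hl hkl => hT k l hkl
      ((Finset.mem_filter.1 hk).2.trans (Finset.mem_filter.1 hl).2.symm)) _
      fun k _ => hdep k _]
    refine le_trans (Finset.prod_le_prod (fun k _ => integral_nonneg fun z =>
      pow_nonneg (pow_nonneg ha0 _) _) fun k _ => hQ k) ?_
    exact Finset.prod_le_prod_of_subset_of_one_le (Finset.filter_subset _ _)
      (fun k _ => zero_le_one.trans (hQ1 k)) fun k _ _ => hQ1 k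
  have hall : ∀ j : Fin J, DepF (Finset.univ.biUnion T) fun z =>
      ∏ k ∈ Finset.univ.filter (fun k => col k = j), (a ^ J) ^ (N k z) := fun j =>
    DepF.prod _ fun k _ => (hdep k _).mono (Finset.subset_biUnion_of_mem T (Finset.mem_univ k))
  calc ∫ z, a ^ (∑ k, N k z) ∂(PB w)
      ≤ ∫ z, ∑ j : Fin J, ∏ k ∈ Finset.univ.filter (fun k => col k = j),
          (a ^ J) ^ (N k z) ∂(PB w) := by
        refine integral_mono ?_ (integrable_finsetSum _ fun j _ => (hall j).integrable w) hpt
        refine DepF.integrable (S := Finset.univ.biUnion T) (fun z z' hz => ?_) w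
        rw [Finset.sum_congr rfl fun k _ => hN k z z' fun e he =>
          hz e (Finset.mem_biUnion.2 ⟨k, Finset.mem_univ k, he⟩)]
    _ = ∑ j : Fin J, ∫ z, ∏ k ∈ Finset.univ.filter (fun k => col k = j),
          (a ^ J) ^ (N k z) ∂(PB w) :=
        integral_finsetSum _ fun j _ => (hall j).integrable w
    _ ≤ ∑ _j : Fin J, ∏ k, Q k := Finset.sum_le_sum fun j _ => hI j
    _ = J * ∏ k, Q k := by simp

end Crest.Agent.R158.Nm211
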