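import Crest.Agent.R158.Nm4_211

/-!
# Row 158, Block N (helper211): exponential moments of the number of strands, plane

* `plane_moment` : for every `a ≥ 1` and `k` there is `C` such that for all `n ≥ 1` the number of
  strands from a set of states `X` in the box of radius `k n` through `D` to a set of states `Y` at
  distance `≥ n` from `X` satisfies `E [a ^ KK] ≤ C`
-/

set_option autoImplicit false

noncomputable section

namespace Crest.Agent.R158.Nm211

open MeasureTheory ProbabilityTheory unitInterval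
open Crest.Agent.R158.Rs689
open Crest.Agent.R161.Geo729 Crest.Agent.R161.Dual374

theorem abs_le_of_div_eq {s x y q : ℤ} (hs : 0 < s) (hx : x / s = q) (hy : y / s = q) :
    |x - y| ≤ s := by
  have h1 := Int.mul_ediv_add_emod x s
  have h2 := Int.mul_ediv_add_emod y s
  have h3 := Int.emod_nonneg x hs.ne'
  have h4 := Int.emod_nonneg y hs.ne'
  have h5 := Int.emod_lt_of_pos x hs
  have h6 := Int.emod_lt_of_pos y hs
  rw [hx] at h1
  rw [hy] at h2
  rw [abs_le]
  constructor <;> linarith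

/-- probability that a block is joined to a far set -/
theorem block_prob {T : Finset Edge} {A B : Set P2} {s R : ℕ}
    (hs : ∀ u ∈ A, ∀ v ∈ A, |u.1 - v.1| ≤ (s : ℤ) ∧ |u.2 - v.2| ≤ (s : ℤ))
    (hR : ∀ u ∈ A, ∀ v ∈ B, 2 * (R : ℤ) ≤ |v.1 - u.1| + |v.2 - u.2|) {q : ℝ} (hq0 : 0 ≤ q)
    (hq : ∀ x : P2, (nu hf).real (ArmX x s R) ≤ q) :
    (nu hf).real (CE enE (T : Set Edge) A B) ≤ q := by
  by_cases hne : A.Nonempty
  · obtain ⟨u0, hu0⟩ := hne
    refine le_trans (measureReal_mono ?_) (hq u0)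
    rintro z ⟨u, hu, v, hv, h⟩
    refine ⟨u, v, (hs u hu u0 hu0).1, (hs u hu u0 hu0).2, ?_, h.rch⟩
    have h1 := hR u0 hu0 v hv
    omega
  · rw [Set.not_nonempty_iff_eq_empty] at hne
    have : CE enE (T : Set Edge) A B = ∅ := by
      rw [hne]
      ext z
      simp [CE]
    rw [this, measureReal_empty]
    exact hq0

/-- distance of two primal vertices -/
theorem ph6_dist (c c' : St ℤ) :
    |c'.1.1 - c.1.1| ≤ |(ph6 c').1 - (ph6 c).1| + |(ph6 c').2 - (ph6 c).2| + 4 ∧
    |c'.1.2 - c.1.2| ≤ |(ph6 c').1 - (ph6 c).1| + |(ph6 c').2 - (ph6 c).2| + 4 := by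
  have h1 := ph6_far c' (ph6 c).1 (ph6 c).2
  have h2 := ph6_far c (ph6 c).1 (ph6 c).2
  simp only [sub_self, abs_zero, zero_add] at h2
  have h3 : |c'.1.1 - c.1.1| ≤ |c'.1.1 - ((ph6 c).1 + (ph6 c).2)| +
      |c.1.1 - ((ph6 c).1 + (ph6 c).2)| := by
    have := abs_sub_le c'.1.1 ((ph6 c).1 + (ph6 c).2) c.1.1
    rwa [abs_sub_comm ((ph6 c).1 + (ph6 c).2) c.1.1] at this
  have h4 : |c'.1.2 - c.1.2| ≤ |c'.1.2 - ((ph6 c).2 - (ph6 c).1)| +
      |c.1.2 - ((ph6 c).2 - (ph6 c).1)| := by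
    have := abs_sub_le c'.1.2 ((ph6 c).2 - (ph6 c).1) c.1.2
    rwa [abs_sub_comm ((ph6 c).2 - (ph6 c).1) c.1.2] at this
  constructor <;> linarith [h1.1, h1.2, h2.1, h2.2]

theorem KK_le_card {C : Type*} [DecidableEq C] (nx : C → C) (D Y : Set C) (X : Finset C) :
    KK nx D Y X ≤ X.card := by
  classical
  exact Finset.card_filter_le _ _

theorem exists_scale {C0 α b : ℝ} (hα : 0 < α) (hC0 : 0 < C0) (hb : 0 < b) :
    ∃ m : ℕ, 12 ≤ m ∧ b * (C0 * (8 / (m : ℝ)) ^ α) ≤ 1 / 2 := by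
  have h1 : Filter.Tendsto (fun m : ℕ => b * (C0 * (8 / (m : ℝ)) ^ α)) Filter.atTop (nhds 0) := by
    have h2 : Filter.Tendsto (fun m : ℕ => (8 : ℝ) / (m : ℝ)) Filter.atTop (nhds 0) :=
      tendsto_const_div_atTop_nhds_zero_nat 8
    have h3 := (h2.rpow_const (p := α) (Or.inr hα.le))
    rw [Real.zero_rpow hα.ne'] at h3
    have h4 := (h3.const_mul C0).const_mul b
    simpa using h4
  have h2 := (h1.eventually (ge_mem_nhds (by norm_num : (0 : ℝ) < 1 / 2))).and
    (Filter.eventually_ge_atTop 12)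
  obtain ⟨m, hm1, hm2⟩ := h2.exists
  exact ⟨m, hm2, hm1⟩

/-- **exponential moments, plane** -/
theorem plane_moment (a : ℝ) (ha : 1 ≤ a) (k : ℕ) : ∃ C : ℝ, 1 ≤ C ∧ ∀ n : ℕ, 1 ≤ n →
    ∀ (x : ℤ × ℤ) (D Y : Set (St ℤ)) (X : Finset (St ℤ)) (T : Finset (ℤ × ℤ)),
      (∀ c ∈ D, c.1 ∈ T) → (∀ c ∈ D, ∀ s : ℤ × ℤ → Bool, nx6 s c ∉ X) →
      (∀ c ∈ X, |c.1.1 - x.1| ≤ (k : ℤ) * n ∧ |c.1.2 - x.2| ≤ (k : ℤ) * n) →
      (∀ c ∈ X, ∀ c' ∈ Y, (n : ℤ) ≤ |c'.1.1 - c.1.1| ∨ (n : ℤ) ≤ |c'.1.2 - c.1.2|) →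
      ∫ s, a ^ (KK (nx6 s) D Y X) ∂(PB fun _ : ℤ × ℤ => hf) ≤ C := by
  classical
  obtain ⟨C0, α, hC0, hα, harm⟩ := arm_half
  have ha0 : 0 < a := zero_lt_one.trans_le ha
  obtain ⟨m, hm12, hm⟩ := exists_scale hα hC0 (pow_pos ha0 4)
  set L : ℕ := 4 * k * m + 12 * m + 1 with hL
  set C : ℝ := 2 ^ (L * L) + a ^ (4 * (2 * (k * m) + 1) ^ 2) with hC
  have hC1 : 1 ≤ C := by
    have h1 : (1 : ℝ) ≤ 2 ^ (L * L) := one_le_pow₀ (by norm_num)
    have h2 : (0 : ℝ) ≤ a ^ (4 * (2 * (k * m) + 1) ^ 2) := by positivity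
    linarith
  refine ⟨C, hC1, fun n hn x D Y X T hT hX hXn hYn => ?_⟩
  by_cases hnm : n < m
  · -- small scales
    have hcard : X.card ≤ 4 * (2 * (k * m) + 1) ^ 2 := by
      have hsub : X ⊆ ((Finset.Icc (x.1 - (k : ℤ) * m) (x.1 + (k : ℤ) * m)) ×ˢ
          (Finset.Icc (x.2 - (k : ℤ) * m) (x.2 + (k : ℤ) * m))) ×ˢ (Finset.univ : Finset Dir) := by
        intro c hc
        obtain ⟨h1, h2⟩ := hXn c hc
        have h3 : (k : ℤ) * n ≤ (k : ℤ) * m := by
          exact mul_le_mul_of_nonneg_left (by exact_mod_cast hnm.le) (by positivity)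
        rw [abs_le] at h1 h2
        simp only [Finset.mem_product, Finset.mem_Icc, Finset.mem_univ, and_true]
        constructor <;> constructor <;> linarith
      refine (Finset.card_le_card hsub).trans (le_of_eq ?_)
      rw [Finset.card_product, Finset.card_product, Int.card_Icc, Int.card_Icc, Finset.card_univ,
        Fintype.card_fin]
      have e1 : (x.1 + (k : ℤ) * m + 1 - (x.1 - (k : ℤ) * m)).toNat = 2 * (k * m) + 1 := by
        have : x.1 + (k : ℤ) * m + 1 - (x.1 - (k : ℤ) * m) = ((2 * (k * m) + 1 : ℕ) : ℤ) := by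
          push_cast; ring
        rw [this, Int.toNat_natCast]
      have e2 : (x.2 + (k : ℤ) * m + 1 - (x.2 - (k : ℤ) * m)).toNat = 2 * (k * m) + 1 := by
        have : x.2 + (k : ℤ) * m + 1 - (x.2 - (k : ℤ) * m) = ((2 * (k * m) + 1 : ℕ) : ℤ) := by
          push_cast; ring
        rw [this, Int.toNat_natCast]
      rw [e1, e2]
      ring
    have h1 : ∀ s : ℤ × ℤ → Bool, a ^ (KK (nx6 s) D Y X) ≤ a ^ (4 * (2 * (k * m) + 1) ^ 2) :=
      fun s => pow_le_pow_right₀ ha ((KK_le_card _ _ _ _).trans hcard)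
    have h2 : ∫ s, a ^ (KK (nx6 s) D Y X) ∂(PB fun _ : ℤ × ℤ => hf) ≤
        ∫ _s, a ^ (4 * (2 * (k * m) + 1) ^ 2) ∂(PB fun _ : ℤ × ℤ => hf) := by
      by_cases hi : Integrable (fun s : ℤ × ℤ → Bool => a ^ (KK (nx6 s) D Y X))
          (PB fun _ : ℤ × ℤ => hf)
      · exact integral_mono hi (integrable_const _) h1
      · rw [integral_undef hi]
        exact integral_nonneg fun _ => by positivity
    refine h2.trans ?_
    rw [integral_const, probReal_univ, one_smul]
    have : (0 : ℝ) ≤ 2 ^ (L * L) := by positivity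
    linarith
  · -- large scales
    push Not at hnm
    have hSS := plane_SS (D := D) (Y := Y) (X := X) (T := T) hT hX
    -- transport
    have htr : ∫ s, a ^ (KK (nx6 s) D Y X) ∂(PB fun _ : ℤ × ℤ => hf) =
        ∫ z, a ^ (KK (nx6 (spl z)) D Y X) ∂(PB fun _ : Edge => hf) := by
      refine (integral_transport (g := ed) (ed_inj.injOn (s := (T : Set (ℤ × ℤ)))) par
        (f := fun s => a ^ (KK (nx6 s) D Y X)) fun s s' hs => ?_).symm
      have h1 : ∀ e ∈ T.image ed, (fun e : Edge => if h : ∃ v, ed v = e then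
          xor (par h.choose) (s h.choose) else false) e = (fun e : Edge =>
          if h : ∃ v, ed v = e then xor (par h.choose) (s' h.choose) else false) e := by
        intro e he
        obtain ⟨v, hv, rfl⟩ := Finset.mem_image.1 he
        have h2 : ∃ w, ed w = ed v := ⟨v, rfl⟩
        have h3 : h2.choose = v := ed_inj h2.choose_spec
        simp only [h2, dite_true, h3, hs v hv]
      have h4 : ∀ s : ℤ × ℤ → Bool, spl (fun e : Edge => if h : ∃ v, ed v = e then
          xor (par h.choose) (s h.choose) else false) = s := by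
        intro s
        funext v
        have h2 : ∃ w, ed w = ed v := ⟨v, rfl⟩
        have h3 : h2.choose = v := ed_inj h2.choose_spec
        simp only [spl, h2, dite_true, h3]
        cases par v <;> cases s v <;> rfl
      have h5 := hSS.dep h1
      simp only [h4] at h5
      show a ^ (KK (nx6 s) D Y X) = a ^ (KK (nx6 s') D Y X)
      rw [h5]
    rw [htr]
    set s : ℕ := n / m with hs
    set R : ℕ := n / 4 with hR
    have hm0 : 0 < m := by omega
    have hs1 : 1 ≤ s := Nat.div_pos hnm hm0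
    have hsm : s * m ≤ n := Nat.div_mul_le_self n m
    have hns : n < (s + 1) * m := by
      have := Nat.lt_div_mul_add (a := n) hm0
      rw [← hs] at this
      linarith
    have hsR : s ≤ R := by
      rw [hR, Nat.le_div_iff_mul_le (by norm_num)]
      exact (Nat.mul_le_mul_left s (by omega : 4 ≤ m)).trans hsm
    -- probability of an arm
    set q : ℝ := C0 * (8 / (m : ℝ)) ^ α with hq
    have hq0 : 0 ≤ q := by positivity
    have harmq : ∀ y : P2, (nu hf).real (ArmX y s R) ≤ q := by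
      intro y
      refine (harm y s R hs1 hsR).trans ?_
      refine mul_le_mul_of_nonneg_left ?_ hC0.le
      refine Real.rpow_le_rpow (by positivity) ?_ hα.le
      have hR0 : (0 : ℝ) < R := by exact_mod_cast (hs1.trans hsR)
      have hm0' : (0 : ℝ) < m := by exact_mod_cast hm0
      rw [div_le_div_iff₀ hR0 hm0']
      have h1 : s * m ≤ 8 * R := by
        refine hsm.trans ?_
        omega
      exact_mod_cast h1
    have haq : a ^ 4 * q ≤ 1 / 2 := hm
    -- centre
    set p0 : P2 := ps x with hp0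
    have hp1 : |x.1 - (p0.1 + p0.2)| ≤ 1 := by
      rw [hp0]; simp only [ps]; simp only [abs_eq_max_neg]; omega
    have hp2 : |x.2 - (p0.2 - p0.1)| ≤ 1 := by
      rw [hp0]; simp only [ps]; simp only [abs_eq_max_neg]; omega
    set mm : ℤ := (k : ℤ) * n + 3 with hmm
    let A : Fin L × Fin L → Set P2 := fun b => {u | (∃ c ∈ X, ph6 c = u) ∧
      (u.1 - p0.1 + mm) / s = (b.1 : ℤ) ∧ (u.2 - p0.2 + mm) / s = (b.2 : ℤ)}
    let B : Set P2 := {u | ∃ c ∈ Y, ph6 c = u}
    have hs0 : (0 : ℤ) < s := by exact_mod_cast hs1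
    have hn12 : (12 : ℤ) ≤ n := by exact_mod_cast hm12.trans hnm
    have hidx : ∀ t : ℤ, 0 ≤ t → t ≤ 2 * mm → ∃ b : Fin L, t / s = (b : ℤ) := by
      intro t ht0 ht
      have h0 : 0 ≤ t / s := Int.ediv_nonneg ht0 hs0.le
      have h1 : t / s < L := by
        rw [Int.ediv_lt_iff_lt_mul hs0]
        have h2 : (2 * mm : ℤ) < L * s := by
          have h3 : (n : ℤ) < (s + 1) * m := by exact_mod_cast hns
          have hs1' : (1 : ℤ) ≤ s := by exact_mod_cast hs1
          have hk0 : (0 : ℤ) ≤ k := by positivity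
          have hm0' : (0 : ℤ) < m := by exact_mod_cast hm0
          have h4 : (n : ℤ) ≤ 2 * (s * m) := by nlinarith
          have h5 : (k : ℤ) * n ≤ k * (2 * (s * m)) := mul_le_mul_of_nonneg_left h4 hk0
          have h6 : (1 : ℤ) ≤ s * m := by nlinarith
          have h7 : ((L : ℕ) : ℤ) * s = 4 * k * (m * s) + 12 * (m * s) + s := by
            rw [hL]; push_cast; ring
          rw [h7, hmm]
          nlinarith
        linarith
      refine ⟨⟨(t / s).toNat, by omega⟩, ?_⟩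
      simp only
      rw [Int.toNat_of_nonneg h0]
    have hXA : ∀ c ∈ X, ∃ b, ph6 c ∈ A b := by
      intro c hc
      obtain ⟨h1, h2⟩ := hXn c hc
      have h3' : |(ph6 c).1 - p0.1| + |(ph6 c).2 - p0.2| ≤ mm := by
        have h4 : |c.1.1 - (p0.1 + p0.2)| ≤ |c.1.1 - x.1| + |x.1 - (p0.1 + p0.2)| :=
          abs_sub_le _ _ _
        have h5 : |c.1.2 - (p0.2 - p0.1)| ≤ |c.1.2 - x.2| + |x.2 - (p0.2 - p0.1)| :=
          abs_sub_le _ _ _
        rcases ph6_l1 c p0.1 p0.2 with h6 | h6 <;> linarith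
      have h6 := abs_le.1 ((le_add_of_nonneg_right (abs_nonneg ((ph6 c).2 - p0.2))).trans h3')
      have h7 := abs_le.1 ((le_add_of_nonneg_left (abs_nonneg ((ph6 c).1 - p0.1))).trans h3')
      obtain ⟨b1, hb1⟩ := hidx ((ph6 c).1 - p0.1 + mm) (by linarith) (by linarith)
      obtain ⟨b2, hb2⟩ := hidx ((ph6 c).2 - p0.2 + mm) (by linarith) (by linarith)
      exact ⟨(b1, b2), ⟨c, hc, rfl⟩, hb1, hb2⟩
    have hYB : ∀ c ∈ Y, ph6 c ∈ B := fun c hc => ⟨c, hc, rfl⟩
    have hdist : ∀ b, ∀ u ∈ A b, ∀ v ∈ B, (n : ℤ) - 4 ≤ |v.1 - u.1| + |v.2 - u.2| := by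
      rintro b u ⟨⟨c, hc, rfl⟩, _⟩ v ⟨c', hc', rfl⟩
      have h1 := ph6_dist c c'
      rcases hYn c hc c' hc' with h2 | h2 <;> linarith [h1.1, h1.2]
    have hAB : ∀ b, ∀ v ∈ A b, v ∉ B := by
      intro b v hv hv'
      have h1 := hdist b v hv v hv'
      simp only [sub_self, abs_zero, add_zero] at h1
      omega
    have hprob : ∀ b, (PB fun _ : Edge => hf).real
        (CE enE ((T.image ed : Finset Edge) : Set Edge) (A b) B) ≤ q := by
      intro b
      refine block_prob (s := s) (R := R) (fun u hu v hv => ?_) (fun u hu v hv => ?_)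
        hq0 harmq
      · obtain ⟨_, h1, h2⟩ := hu
        obtain ⟨_, h3, h4⟩ := hv
        have h5 := abs_le_of_div_eq hs0 h1 h3
        have h6 := abs_le_of_div_eq hs0 h2 h4
        have e1 : u.1 - p0.1 + mm - (v.1 - p0.1 + mm) = u.1 - v.1 := by ring
        have e2 : u.2 - p0.2 + mm - (v.2 - p0.2 + mm) = u.2 - v.2 := by ring
        rw [e1] at h5
        rw [e2] at h6
        exact ⟨h5, h6⟩
      · refine le_trans ?_ (hdist b u hu v hv)
        have : 4 * R ≤ n := Nat.mul_div_le n 4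
        omega
    refine (strand_moment (fun _ : Edge => hf) hSS (by norm_num) hXA hYB hAB
      (q := fun _ => q) hprob ha fun _ => by linarith).trans ?_
    have h1 : ∀ b : Fin L × Fin L, (1 - a ^ 4 * q)⁻¹ ≤ 2 := by
      intro _
      rw [inv_le_comm₀ (by linarith) (by norm_num)]
      linarith
    calc ∏ _b : Fin L × Fin L, (1 - a ^ 4 * q)⁻¹ ≤ ∏ _b : Fin L × Fin L, (2 : ℝ) :=
          Finset.prod_le_prod (fun _ _ => inv_nonneg.2 (by linarith)) fun b _ => h1 b
      _ = 2 ^ (L * L) := by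
          rw [Finset.prod_const, Finset.card_univ, Fintype.card_prod, Fintype.card_fin]
      _ ≤ C := by
          have : (0 : ℝ) ≤ a ^ (4 * (2 * (k * m) + 1) ^ 2) := by positivity
          linarith

end Crest.Agent.R158.Nm211
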