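import Crest.Agent.R158.Nm5_211

/-!
# Row 158, Block N (helper211): exponential moments of the number of strands, ring

* `prj` : projection of states of the plane to states of the ring `ZMod M × ℤ`
* `ring_moment` : strands from `X` through `D` to `Y` on the ring of circumference `M`,
  `3 n ≤ M ≤ k n`, vertical distance of `X` and `Y` at least `n` : `E [a ^ KK] ≤ C(a, k)`,
  every `M` (odd or even)
* `strip_moment` : strands crossing a strip of height `h` of the ring
-/

set_option autoImplicit false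

noncomputable section

namespace Crest.Agent.R158.Nm211

open MeasureTheory ProbabilityTheory unitInterval
open Crest.Agent.R158.Rs689

variable {M : ℕ}

/-- projection of vertices -/
def prv (M : ℕ) (v : ℤ × ℤ) : ZMod M × ℤ := ((v.1 : ZMod M), v.2)

/-- projection of states -/
def prj (M : ℕ) (c : St ℤ) : St (ZMod M) := (prv M c.1, c.2)

/-- lift of splittings -/
def lft (s : ZMod M × ℤ → Bool) (v : ℤ × ℤ) : Bool := s (prv M v)

theorem prv_mv (v : ℤ × ℤ) (d : Dir) : prv M (mv v d) = mv (prv M v) d := by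
  unfold prv mv
  simp

theorem prj_nx (s : ZMod M × ℤ → Bool) (c : St ℤ) :
    prj M (nx6 (lft s) c) = nx6 s (prj M c) := by
  unfold prj nx6
  rw [prv_mv]
  rfl

theorem prj_iter (s : ZMod M × ℤ → Bool) (c : St ℤ) (n : ℕ) :
    prj M ((nx6 (lft s))^[n] c) = (nx6 s)^[n] (prj M c) := by
  induction n with
  | zero => rfl
  | succ n ih =>
    rw [Function.iterate_succ_apply', Function.iterate_succ_apply', prj_nx, ih]

/-- first exit -/
theorem first_exit {C : Type*} (f : C → C) (D Y : Set C) (W : Set C) (x : C) {N : ℕ}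
    (h : ∀ k < N, f^[k] x ∈ D) (hY : f^[N] x ∈ Y) : Hit f (D ∩ W) (Y ∪ Wᶜ) x := by
  classical
  by_cases hex : ∃ k, k ≤ N ∧ f^[k] x ∉ W
  · have h1 := Nat.find_spec hex
    refine ⟨Nat.find hex, fun k hk => ⟨h k (lt_of_lt_of_le hk h1.1), ?_⟩, Or.inr h1.2⟩
    by_contra hW
    exact Nat.find_min hex hk ⟨(hk.le.trans h1.1), hW⟩
  · push Not at hex
    exact ⟨N, fun k hk => ⟨h k hk, hex k hk.le⟩, Or.inl hY⟩

theorem abs_vert {a b : ℤ} : |a - b| = |b - a| := abs_sub_comm a b

/-- **exponential moments, ring** -/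
theorem ring_moment (a : ℝ) (ha : 1 ≤ a) (k : ℕ) : ∃ C : ℝ, 1 ≤ C ∧ ∀ n : ℕ, 1 ≤ n →
    ∀ M : ℕ, 3 * n ≤ M → M ≤ k * n → ∀ (j0 lo hi : ℤ) (D Y : Set (St (ZMod M)))
      (X : Finset (St (ZMod M))),
      (∀ c ∈ D, lo ≤ c.1.2 ∧ c.1.2 ≤ hi) →
      (∀ c ∈ D, ∀ s : ZMod M × ℤ → Bool, nx6 s c ∉ X) →
      (∀ c ∈ X, |c.1.2 - j0| ≤ (k : ℤ) * n) →
      (∀ c ∈ X, ∀ c' ∈ Y, (n : ℤ) ≤ |c'.1.2 - c.1.2|) →
      ∫ s, a ^ (KK (nx6 s) D Y X) ∂(PB fun _ : ZMod M × ℤ => hf) ≤ C := by
  classical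
  obtain ⟨C, hC1, hC⟩ := plane_moment (a ^ k) (one_le_pow₀ ha) (k + 1)
  have ha0 : 0 ≤ a := zero_le_one.trans ha
  refine ⟨k * ∏ _b : Fin k, C + 1, ?_, ?_⟩
  · have h1 : (0 : ℝ) ≤ k * ∏ _b : Fin k, C := by
      have : (0 : ℝ) ≤ ∏ _b : Fin k, C := Finset.prod_nonneg fun _ _ => by linarith
      positivity
    linarith
  intro n hn M hM3 hMk j0 lo hi D Y X hD hX hXj hXY
  have hM0 : 0 < M := by omega
  haveI : NeZero M := ⟨hM0.ne'⟩
  have hk0 : 0 < k := by
    rcases Nat.eq_zero_or_pos k with h | h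
    · subst h; omega
    · exact h
  -- columns of the box of the block `b`
  let W : Fin k → Set (St ℤ) := fun b => {c | (b : ℤ) * n - n < c.1.1 ∧ c.1.1 < (b : ℤ) * n + 2 * n}
  let Db : Fin k → Set (St ℤ) := fun b => {c | prj M c ∈ D} ∩ W b
  let Yb : Fin k → Set (St ℤ) := fun b => {c | prj M c ∈ Y} ∪ (W b)ᶜ
  let Xb : Fin k → Finset (St ℤ) := fun b =>
    (((Finset.Ico ((b : ℤ) * n) ((b : ℤ) * n + n)) ×ˢ (X.image fun c => c.1.2)) ×ˢ
      (Finset.univ : Finset Dir)).filter fun c => prj M c ∈ X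
  let Tb : Fin k → Finset (ℤ × ℤ) := fun b =>
    (Finset.Ioo ((b : ℤ) * n - n) ((b : ℤ) * n + 2 * n)) ×ˢ (Finset.Icc lo hi)
  let N : Fin k → (ZMod M × ℤ → Bool) → ℕ := fun b s => KK (nx6 (lft s)) (Db b) (Yb b) (Xb b)
  have hmemX : ∀ b c, c ∈ Xb b ↔ (((b : ℤ) * n ≤ c.1.1 ∧ c.1.1 < (b : ℤ) * n + n) ∧
      prj M c ∈ X) := by
    intro b c
    simp only [Xb, Finset.mem_filter, Finset.mem_product, Finset.mem_Ico, Finset.mem_univ,
      and_true, Finset.mem_image]
    constructor
    · rintro ⟨⟨h1, _⟩, h3⟩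
      exact ⟨h1, h3⟩
    · rintro ⟨h1, h3⟩
      exact ⟨⟨h1, prj M c, h3, rfl⟩, h3⟩
  have hDT : ∀ b, ∀ c ∈ Db b, c.1 ∈ Tb b := by
    intro b c hc
    obtain ⟨h1, h2⟩ := hc
    have h3 := hD _ h1
    simp only [Tb, Finset.mem_product, Finset.mem_Ioo, Finset.mem_Icc]
    exact ⟨h2, h3⟩
  have hent : ∀ b, ∀ c ∈ Db b, ∀ s : ℤ × ℤ → Bool, nx6 s c ∉ Xb b := by
    intro b c hc s hmem
    have h1 := ((hmemX b _).1 hmem).2
    have h2 : nx6 s c = nx6 (lft fun _ : ZMod M × ℤ => s c.1) c := nx6_congr rfl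
    rw [h2, prj_nx] at h1
    exact hX _ hc.1 _ h1
  have hginj : ∀ b, Set.InjOn (prv M) (Tb b : Set (ℤ × ℤ)) := by
    intro b v hv w hw h
    simp only [Tb, Finset.coe_product, Set.mem_prod, Finset.mem_coe, Finset.mem_Ioo] at hv hw
    simp only [prv, Prod.mk.injEq] at h
    have h1 := (ZMod.intCast_eq_intCast_iff_dvd_sub _ _ _).1 h.1
    have h2 : |w.1 - v.1| < M := by
      rw [abs_lt]
      constructor <;> omega
    have h3 := Int.eq_zero_of_abs_lt_dvd h1 h2
    exact Prod.ext (by omega) h.2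
  -- pointwise bound
  have hpt : ∀ s, KK (nx6 s) D Y X ≤ ∑ b, N b s := by
    intro s
    have hsub : (X.filter fun x => Hit (nx6 s) D Y x) ⊆ Finset.univ.biUnion fun b : Fin k =>
        ((Xb b).filter fun c => Hit (nx6 (lft s)) (Db b) (Yb b) c).image (prj M) := by
      intro x hx
      rw [Finset.mem_filter] at hx
      obtain ⟨hx, m, hm, hmY⟩ := hx
      set t : ℕ := (x.1.1).val with ht
      have htM : t < M := ZMod.val_lt _
      have hbk : t / n < k := by
        rw [Nat.div_lt_iff_lt_mul (by omega)]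
        exact lt_of_lt_of_le htM hMk
      set c : St ℤ := (((t : ℤ), x.1.2), x.2) with hc
      have hcx : prj M c = x := by
        have e1 : ((t : ℤ) : ZMod M) = x.1.1 := by
          rw [Int.cast_natCast, ht, ZMod.natCast_zmod_val]
        show ((((t : ℤ) : ZMod M), x.1.2), x.2) = x
        rw [e1]
      have h1 : (t / n) * n ≤ t := Nat.div_mul_le_self t n
      have h2 : t < (t / n) * n + n := Nat.lt_div_mul_add (by omega)
      have hcX : c ∈ Xb ⟨t / n, hbk⟩ := by
        rw [hmemX]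
        refine ⟨⟨?_, ?_⟩, by rw [hcx]; exact hx⟩
        · simp only [hc]; exact_mod_cast h1
        · simp only [hc]; exact_mod_cast h2
      rw [Finset.mem_biUnion]
      refine ⟨⟨t / n, hbk⟩, Finset.mem_univ _, ?_⟩
      rw [Finset.mem_image]
      refine ⟨c, Finset.mem_filter.2 ⟨hcX, ?_⟩, hcx⟩
      refine first_exit (nx6 (lft s)) {c | prj M c ∈ D} {c | prj M c ∈ Y} _ c (N := m)
        (fun j hj => ?_) ?_
      · show prj M _ ∈ D
        rw [prj_iter, hcx]
        exact hm j hj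
      · show prj M _ ∈ Y
        rw [prj_iter, hcx]
        exact hmY
    have h1 : KK (nx6 s) D Y X = (X.filter fun x => Hit (nx6 s) D Y x).card := by
      unfold KK; rfl
    rw [h1]
    refine (Finset.card_le_card hsub).trans (Finset.card_biUnion_le.trans ?_)
    refine Finset.sum_le_sum fun b _ => ?_
    refine Finset.card_image_le.trans (le_of_eq ?_)
    show _ = KK _ _ _ _
    unfold KK; rfl
  -- moments of the blocks
  have hNb : ∀ b : Fin k, ∫ s, (a ^ k) ^ (N b s) ∂(PB fun _ : ZMod M × ℤ => hf) ≤ C := by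
    intro b
    have hSS := plane_SS (D := Db b) (Y := Yb b) (X := Xb b) (T := Tb b) (hDT b) (hent b)
    have hdep : DepF (Tb b) fun s : ℤ × ℤ → Bool => (a ^ k) ^ (KK (nx6 s) (Db b) (Yb b) (Xb b)) :=
      fun s s' hs => by
        have h1 := plane_dep (Y := Yb b) (X := Xb b) (hDT b) hs
        show (a ^ k) ^ (KK (nx6 s) (Db b) (Yb b) (Xb b)) =
          (a ^ k) ^ (KK (nx6 s') (Db b) (Yb b) (Xb b))
        rw [h1]
    have h1 := integral_transport (g := prv M) (hginj b) (fun _ => false) hdep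
    simp only [Bool.false_xor] at h1
    have h2 : ∫ s, (a ^ k) ^ (N b s) ∂(PB fun _ : ZMod M × ℤ => hf) =
        ∫ s, (a ^ k) ^ (KK (nx6 s) (Db b) (Yb b) (Xb b)) ∂(PB fun _ : ℤ × ℤ => hf) := h1
    rw [h2]
    refine hC n hn ((b : ℤ) * n, j0) (Db b) (Yb b) (Xb b) (Tb b) (hDT b) (hent b) ?_ ?_
    · intro c hc
      rw [hmemX] at hc
      obtain ⟨⟨h3, h4⟩, h5⟩ := hc
      have h6 := hXj _ h5
      have h7 : (0 : ℤ) ≤ k * n := by positivity
      have h8 : (0 : ℤ) ≤ n := by positivity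
      constructor
      · simp only
        rw [abs_le]
        push_cast
        constructor <;> nlinarith
      · simp only
        have h9 : |c.1.2 - j0| ≤ (k : ℤ) * n := h6
        push_cast
        nlinarith
    · intro c hc c' hc'
      rw [hmemX] at hc
      obtain ⟨⟨h3, h4⟩, h5⟩ := hc
      rcases hc' with h6 | h6
      · exact Or.inr (hXY _ h5 _ h6)
      · left
        simp only [W, Set.mem_compl_iff, Set.mem_ofPred_eq, not_and, not_lt] at h6
        rw [le_abs]
        by_cases h7 : (b : ℤ) * n - n < c'.1.1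
        · have := h6 h7
          left; omega
        · right; omega
  have hTd : ∀ b, ∀ s s' : ZMod M × ℤ → Bool, (∀ e ∈ (Tb b).image (prv M), s e = s' e) →
      N b s = N b s' := by
    intro b s s' hs
    exact plane_dep (Y := Yb b) (X := Xb b) (hDT b) fun e he =>
      hs _ (Finset.mem_image_of_mem _ he)
  have h1 := local_moment (fun _ : ZMod M × ℤ => hf) (J := k) hk0 (fun b : Fin k => b)
    (fun b => (Tb b).image (prv M)) (fun b b' h h' => absurd h' h) N hTd ha (Q := fun _ => C)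
    hNb fun _ => hC1
  refine le_trans ?_ (h1.trans (by linarith))
  have hdep : DepF (Finset.univ.biUnion fun b => (Tb b).image (prv M))
      fun s : ZMod M × ℤ → Bool => a ^ (∑ b, N b s) := by
    intro s s' hs
    show a ^ (∑ b, N b s) = a ^ (∑ b, N b s')
    rw [Finset.sum_congr rfl fun b _ => hTd b s s' fun e he =>
      hs e (Finset.mem_biUnion.2 ⟨b, Finset.mem_univ _, he⟩)]
  have hdep2 : Integrable (fun s : ZMod M × ℤ → Bool => a ^ (KK (nx6 s) D Y X))
      (PB fun _ : ZMod M × ℤ => hf) := by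
    refine DepF.integrable (S := (Finset.univ : Finset (ZMod M)) ×ˢ Finset.Icc lo hi)
      (fun s s' hs => ?_) _
    show a ^ (KK (nx6 s) D Y X) = a ^ (KK (nx6 s') D Y X)
    rw [gen_dep (D := D) (Y := Y) (X := X) fun c hc => hs c.1 ?_]
    have := hD c hc
    simp only [Finset.mem_product, Finset.mem_univ, Finset.mem_Icc, true_and]
    exact this
  exact integral_mono hdep2 (hdep.integrable _) fun s => pow_le_pow_right₀ ha (hpt s)

/-- states of a strip of rows -/
def strp (G : Type*) (j0 : ℤ) (h : ℕ) : Set (St G) := {c | j0 ≤ c.1.2 ∧ c.1.2 < j0 + h}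

/-- states that leave the strip through its top -/
def topY (G : Type*) (j0 : ℤ) (h : ℕ) : Set (St G) := {c | c.1.2 = j0 + h}

/-- the strands that enter the strip through its bottom -/
def botX (M : ℕ) [NeZero M] (j0 : ℤ) : Finset (St (ZMod M)) :=
  Finset.univ.image fun i : ZMod M => ((i, j0), (0 : Dir))

/-- number of strands that cross the strip of the rows `j0, …, j0 + h - 1` of the ring -/
def KR (M : ℕ) [NeZero M] (j0 : ℤ) (h : ℕ) (s : ZMod M × ℤ → Bool) : ℕ :=
  KK (nx6 s) (strp (ZMod M) j0 h) (topY (ZMod M) j0 h) (botX M j0)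

theorem strp_ent {G : Type*} [AddGroupWithOne G] {j0 : ℤ} {h : ℕ} {c : St G}
    (hc : c ∈ strp G j0 h) (s : G × ℤ → Bool) (i : G) : nx6 s c ≠ ((i, j0), (0 : Dir)) := by
  intro h1
  have h2 : trn (s c.1) c.2 = 0 := congrArg Prod.snd h1
  have h3 : (nx6 s c).1.2 = j0 := congrArg (fun x => x.1.2) h1
  simp only [nx6, mv, h2, dy] at h3
  have h4 := hc.1
  omega

/-- **exponential moments of the number of strands crossing a strip of the ring** -/
theorem strip_moment (a : ℝ) (ha : 1 ≤ a) (k : ℕ) : ∃ C : ℝ, 1 ≤ C ∧ ∀ h : ℕ, 1 ≤ h →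
    ∀ (M : ℕ) [NeZero M], M ≤ k * h → ∀ j0 : ℤ,
      ∫ s, a ^ (KR M j0 h s) ∂(PB fun _ : ZMod M × ℤ => hf) ≤ C := by
  obtain ⟨C, hC1, hC⟩ := ring_moment a ha (k + 6)
  have h22 : (1 : ℝ) ≤ a ^ 2 := one_le_pow₀ ha
  refine ⟨C + a ^ 2, by linarith, fun h hh M _ hM j0 => ?_⟩
  have hM0 : 0 < M := Nat.pos_of_ne_zero (NeZero.ne M)
  by_cases hM3 : M < 3
  · have h1 : ∀ s, a ^ (KR M j0 h s) ≤ a ^ 2 := fun s => by
      refine pow_le_pow_right₀ ha ((KK_le_card _ _ _ _).trans ?_)
      refine Finset.card_image_le.trans ?_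
      rw [Finset.card_univ, ZMod.card]
      omega
    have h2 : ∫ s, a ^ (KR M j0 h s) ∂(PB fun _ : ZMod M × ℤ => hf) ≤
        ∫ _s, a ^ 2 ∂(PB fun _ : ZMod M × ℤ => hf) := by
      by_cases hi : Integrable (fun s : ZMod M × ℤ → Bool => a ^ (KR M j0 h s))
          (PB fun _ : ZMod M × ℤ => hf)
      · exact integral_mono hi (integrable_const _) h1
      · rw [integral_undef hi]
        exact integral_nonneg fun _ => by positivity
    rw [integral_const, probReal_univ, one_smul] at h2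
    linarith
  · push Not at hM3
    set n := min h (M / 3) with hn
    have hn1 : 1 ≤ n := le_min hh (by omega)
    have hn3 : 3 * n ≤ M := by
      have : n ≤ M / 3 := min_le_right _ _
      omega
    have hnk : M ≤ (k + 6) * n := by
      rcases le_total h (M / 3) with h1 | h1
      · rw [hn, min_eq_left h1]
        nlinarith
      · rw [hn, min_eq_right h1]
        have : M ≤ 6 * (M / 3) := by omega
        nlinarith
    have hnh : (n : ℤ) ≤ h := by exact_mod_cast min_le_left _ _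
    refine (hC n hn1 M hn3 hnk j0 j0 (j0 + h) (strp (ZMod M) j0 h) (topY (ZMod M) j0 h)
      (botX M j0) (fun c hc => ⟨hc.1, hc.2.le⟩) ?_ ?_ ?_).trans (by linarith)
    · intro c hc s hmem
      obtain ⟨i, _, hi⟩ := Finset.mem_image.1 hmem
      exact strp_ent hc s i hi.symm
    · intro c hc
      obtain ⟨i, _, rfl⟩ := Finset.mem_image.1 hc
      simp only [sub_self, abs_zero]
      positivity
    · intro c hc c' hc'
      obtain ⟨i, _, rfl⟩ := Finset.mem_image.1 hc
      have h1 : c'.1.2 = j0 + h := hc'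
      rw [h1]
      simp only [add_sub_cancel_left]
      rw [abs_of_nonneg (by positivity)]
      exact hnh

end Crest.Agent.R158.Nm211
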