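import Crest.Agent.R158.Ad2_350

/-!
# Row 158, Block N (helper399): norm link

The squared norm of the vector of a network (any tile set, any glueing list, any cut list) is the
value of the doubled network: tiles `T × Bool`, copy `true` is the mirror image (side `d ↦ -d`),
same glueing phases, same cut phases, crosscut ports glued to their mirror images.

* `cutL` : list of cuts
* `Rev`, `Rev.star` : `star (F σ) = F (!σ)`
* `jm k` : ports of the copy `k`
* `norm_link`
-/

set_option autoImplicit false
set_option linter.unusedSectionVars false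
set_option linter.unusedSimpArgs false

noncomputable section

open Finset
open Crest.Agent.R158.Sw300 (Port)
open Crest.Agent.R158.Ad350

namespace Crest.Agent.R158.Nz399

section general

variable {P : Type*} [DecidableEq P]

/-- cut a list of ends -/
def cutL (c : List (ℝ × P)) (F : (P → Bool) → ℂ) : (P → Bool) → ℂ :=
  c.foldl (fun F e => cut e.1 e.2 F) F

@[simp] lemma cutL_nil (F : (P → Bool) → ℂ) : cutL [] F = F := rfl
@[simp] lemma cutL_cons (e : ℝ × P) (c : List (ℝ × P)) (F : (P → Bool) → ℂ) :
    cutL (e :: c) F = cutL c (cut e.1 e.2 F) := rfl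
lemma cutL_append (c c' : List (ℝ × P)) (F : (P → Bool) → ℂ) :
    cutL (c ++ c') F = cutL c' (cutL c F) := List.foldl_append ..
lemma glueL_append (l l' : List (ℝ × P × P)) (F : (P → Bool) → ℂ) :
    St.glueL (l ++ l') F = St.glueL l' (St.glueL l F) := List.foldl_append ..

/-! ### complex conjugation -/

/-- conjugation is arrow reversal -/
def Rev (F : (P → Bool) → ℂ) : Prop := ∀ σ, star (F σ) = F fun p => !σ p

lemma not_update (σ : P → Bool) (p : P) (b : Bool) :
    (fun q => !Function.update σ p b q) = Function.update (fun q => !σ q) p (!b) := by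
  funext q
  by_cases h : q = p
  · subst h; simp
  · simp [h]

lemma Rev.ctr {F : (P → Bool) → ℂ} (h : Rev F) (χ : ℝ) (a b : P) : Rev (ctr χ a b F) := by
  intro σ
  simp only [Ad350.ctr, star_add, star_mul', star_ei, h _, not_update, Fintype.sum_bool, sg_true,
    sg_false, Bool.not_true, Bool.not_false, mul_neg, neg_neg]
  ring

lemma Rev.cut {F : (P → Bool) → ℂ} (h : Rev F) (φ : ℝ) (p : P) : Rev (cut φ p F) := by
  intro σ
  simp only [Ad350.cut, star_add, star_mul', star_ei, h _, not_update, Fintype.sum_bool, sg_true,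
    sg_false, Bool.not_true, Bool.not_false, mul_neg, neg_neg]
  ring

lemma Rev.glueL {F : (P → Bool) → ℂ} (h : Rev F) (l : List (ℝ × P × P)) :
    Rev (St.glueL l F) := by
  induction l generalizing F with
  | nil => exact h
  | cons e l ih => rw [St.glueL_cons]; exact ih (h.ctr _ _ _)

lemma Rev.cutL {F : (P → Bool) → ℂ} (h : Rev F) (c : List (ℝ × P)) : Rev (cutL c F) := by
  induction c generalizing F with
  | nil => exact h
  | cons e l ih => rw [cutL_cons]; exact ih (h.cut _ _)

lemma star_w6 (o : ZMod 4 → Bool) : star (w6 o) = w6 o := by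
  unfold w6
  split_ifs <;> simp

lemma rev_tiles {T : Type*} [DecidableEq T] (A : Finset T) : Rev (tilesF A) := by
  intro σ
  unfold tilesF
  rw [star_prod]
  refine Finset.prod_congr rfl fun t _ => ?_
  rw [star_w6, ← w6_flip]

/-! ### dependence on finitely many ends -/

/-- `F` only sees the ends in `L` -/
def Sees (L : Finset P) (F : (P → Bool) → ℂ) : Prop :=
  ∀ σ σ' : P → Bool, (∀ p ∈ L, σ p = σ' p) → F σ = F σ'

lemma Sees.mono {L L' : Finset P} (h : L ⊆ L') {F : (P → Bool) → ℂ} (hF : Sees L F) : Sees L' F :=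
  fun σ σ' hs => hF σ σ' fun p hp => hs p (h hp)

lemma Sees.blind {L : Finset P} {F : (P → Bool) → ℂ} (hF : Sees L F) {p : P} (hp : p ∉ L) :
    Blind F p := fun σ τ => hF _ _ fun q hq => by
  rw [Function.update_of_ne]; rintro rfl; exact hp hq

lemma Sees.ctr {L : Finset P} {F : (P → Bool) → ℂ} (hF : Sees L F) (χ : ℝ) (a b : P) :
    Sees ((L.erase a).erase b) (ctr χ a b F) := by
  intro σ σ' hs
  refine Finset.sum_congr rfl fun τ _ => ?_
  congr 1
  refine hF _ _ fun q hq => ?_
  by_cases hb : q = b
  · subst hb; simp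
  · by_cases ha : q = a
    · subst ha; rw [Function.update_of_ne hb, Function.update_of_ne hb]; simp
    · rw [Function.update_of_ne hb, Function.update_of_ne hb, Function.update_of_ne ha,
        Function.update_of_ne ha]
      exact hs q (Finset.mem_erase.2 ⟨hb, Finset.mem_erase.2 ⟨ha, hq⟩⟩)

lemma Sees.cut {L : Finset P} {F : (P → Bool) → ℂ} (hF : Sees L F) (φ : ℝ) (a : P) :
    Sees (L.erase a) (cut φ a F) := by
  intro σ σ' hs
  refine Finset.sum_congr rfl fun τ _ => ?_
  congr 1
  refine hF _ _ fun q hq => ?_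
  by_cases ha : q = a
  · subst ha; simp
  · rw [Function.update_of_ne ha, Function.update_of_ne ha]
    exact hs q (Finset.mem_erase.2 ⟨ha, hq⟩)

/-- remaining ends -/
def remL (l : List (ℝ × P × P)) (L : Finset P) : Finset P :=
  l.foldl (fun L e => (L.erase e.2.1).erase e.2.2) L

/-- remaining ends after cuts -/
def remC (c : List (ℝ × P)) (L : Finset P) : Finset P := c.foldl (fun L e => L.erase e.2) L

lemma Sees.glueL {L : Finset P} {F : (P → Bool) → ℂ} (hF : Sees L F) (l : List (ℝ × P × P)) :
    Sees (remL l L) (St.glueL l F) := by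
  induction l generalizing F L with
  | nil => exact hF
  | cons e l ih => rw [St.glueL_cons]; exact ih (hF.ctr _ _ _)

lemma Sees.cutL {L : Finset P} {F : (P → Bool) → ℂ} (hF : Sees L F) (c : List (ℝ × P)) :
    Sees (remC c L) (cutL c F) := by
  induction c generalizing F L with
  | nil => exact hF
  | cons e l ih => rw [cutL_cons]; exact ih (hF.cut _ _)

lemma mem_remL {l : List (ℝ × P × P)} {L : Finset P} {p : P} :
    p ∈ remL l L ↔ p ∈ L ∧ ∀ e ∈ l, p ≠ e.2.1 ∧ p ≠ e.2.2 := by
  induction l generalizing L with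
  | nil => simp [remL]
  | cons e l ih =>
    have : remL (e :: l) L = remL l ((L.erase e.2.1).erase e.2.2) := rfl
    rw [this, ih]
    simp only [Finset.mem_erase, List.mem_cons, forall_eq_or_imp]
    tauto

lemma mem_remC {c : List (ℝ × P)} {L : Finset P} {p : P} :
    p ∈ remC c L ↔ p ∈ L ∧ ∀ e ∈ c, p ≠ e.2 := by
  induction c generalizing L with
  | nil => simp [remC]
  | cons e l ih =>
    have : remC (e :: l) L = remC l (L.erase e.2) := rfl
    rw [this, ih]
    simp only [Finset.mem_erase, List.mem_cons, forall_eq_or_imp]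
    tauto

lemma sees_tiles {T : Type*} [DecidableEq T] (A : Finset T) : Sees (ports A) (tilesF A) := by
  intro σ σ' hs
  unfold tilesF
  refine Finset.prod_congr rfl fun t ht => ?_
  congr 1
  funext d
  exact hs _ (mem_ports.2 ht)

/-! ### relabelling -/

variable {Q : Type*} [DecidableEq Q]

lemma update_comp {j : P → Q} (hj : Function.Injective j) (σ : Q → Bool) (p : P) (b : Bool) :
    (Function.update σ (j p) b) ∘ j = Function.update (σ ∘ j) p b := by
  funext q
  by_cases h : q = p
  · subst h; simp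
  · simp only [Function.comp]
    rw [Function.update_of_ne (fun e => h (hj e)), Function.update_of_ne h]
    rfl

lemma ctr_comp {j : P → Q} (hj : Function.Injective j) (χ : ℝ) (a b : P) (F : (P → Bool) → ℂ)
    (σ : Q → Bool) : ctr χ (j a) (j b) (fun σ => F (σ ∘ j)) σ = ctr χ a b F (σ ∘ j) := by
  simp only [Ad350.ctr, update_comp hj]

lemma cut_comp {j : P → Q} (hj : Function.Injective j) (φ : ℝ) (a : P) (F : (P → Bool) → ℂ)
    (σ : Q → Bool) : cut φ (j a) (fun σ => F (σ ∘ j)) σ = cut φ a F (σ ∘ j) := by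
  simp only [Ad350.cut, update_comp hj]

/-- relabelled glueing list -/
def mapL (j : P → Q) (l : List (ℝ × P × P)) : List (ℝ × Q × Q) :=
  l.map fun e => (e.1, j e.2.1, j e.2.2)

/-- relabelled cut list -/
def mapC (j : P → Q) (c : List (ℝ × P)) : List (ℝ × Q) := c.map fun e => (e.1, j e.2)

lemma glueL_comp {j : P → Q} (hj : Function.Injective j) (l : List (ℝ × P × P))
    (F : (P → Bool) → ℂ) (σ : Q → Bool) :
    St.glueL (mapL j l) (fun σ => F (σ ∘ j)) σ = St.glueL l F (σ ∘ j) := by
  induction l generalizing F with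
  | nil => rfl
  | cons e l ih =>
    show St.glueL (mapL j l) (ctr e.1 (j e.2.1) (j e.2.2) fun σ => F (σ ∘ j)) σ = _
    have : (ctr e.1 (j e.2.1) (j e.2.2) fun σ => F (σ ∘ j)) =
        fun σ => ctr e.1 e.2.1 e.2.2 F (σ ∘ j) := funext fun σ => ctr_comp hj _ _ _ _ _
    rw [this, ih, St.glueL_cons]

lemma cutL_comp {j : P → Q} (hj : Function.Injective j) (c : List (ℝ × P))
    (F : (P → Bool) → ℂ) (σ : Q → Bool) :
    cutL (mapC j c) (fun σ => F (σ ∘ j)) σ = cutL c F (σ ∘ j) := by
  induction c generalizing F with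
  | nil => rfl
  | cons e l ih =>
    show cutL (mapC j l) (cut e.1 (j e.2) fun σ => F (σ ∘ j)) σ = _
    have : (cut e.1 (j e.2) fun σ => F (σ ∘ j)) =
        fun σ => cut e.1 e.2 F (σ ∘ j) := funext fun σ => cut_comp hj _ _ _ _
    rw [this, ih, cutL_cons]

lemma cutL_mul (c : List (ℝ × P)) (F : (P → Bool) → ℂ) {G : (P → Bool) → ℂ}
    (h : ∀ e ∈ c, Blind G e.2) (σ : P → Bool) :
    cutL c (fun σ => F σ * G σ) σ = cutL c F σ * G σ := by
  induction c generalizing F with
  | nil => rfl
  | cons e l ih =>
    rw [cutL_cons, cutL_cons]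
    have h1 := h e (by simp)
    have e1 : cut e.1 e.2 (fun σ => F σ * G σ) = fun σ => cut e.1 e.2 F σ * G σ :=
      funext fun σ => cut_mul e.1 F h1 σ
    rw [e1]
    exact ih _ fun e' he' => h e' (by simp [he'])

lemma cut_glueL (φ : ℝ) (p : P) (l : List (ℝ × P × P)) (h : ∀ e ∈ l, e.2.1 ≠ p ∧ e.2.2 ≠ p)
    (F : (P → Bool) → ℂ) : cut φ p (St.glueL l F) = St.glueL l (cut φ p F) := by
  induction l generalizing F with
  | nil => rfl
  | cons e l ih =>
    rw [St.glueL_cons, St.glueL_cons, ih fun e' he' => h e' (by simp [he'])]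
    rw [cut_ctr _ _ (h e (by simp)).1 (h e (by simp)).2]

lemma cutL_glueL (c : List (ℝ × P)) (l : List (ℝ × P × P))
    (h : ∀ e ∈ l, ∀ f ∈ c, e.2.1 ≠ f.2 ∧ e.2.2 ≠ f.2) (F : (P → Bool) → ℂ) :
    cutL c (St.glueL l F) = St.glueL l (cutL c F) := by
  induction c generalizing F with
  | nil => rfl
  | cons f c ih =>
    rw [cutL_cons, cutL_cons, cut_glueL _ _ _ fun e he => h e he f (by simp)]
    exact ih (fun e he f' hf' => h e he f' (by simp [hf'])) _

end general

/-! ### the two copies -/

variable {T : Type*} [DecidableEq T]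

/-- ports of the copy `k`; the copy `true` is the mirror image -/
def jm (k : Bool) : Port T → Port (T × Bool) :=
  Option.map fun y => ((y.1, k), if k then -y.2 else y.2)

@[simp] lemma jm_none (k : Bool) : jm k (none : Port T) = none := rfl
@[simp] lemma jm_false (t : T) (d : ZMod 4) : jm false (some (t, d)) = some ((t, false), d) := rfl
@[simp] lemma jm_true (t : T) (d : ZMod 4) : jm true (some (t, d)) = some ((t, true), -d) := rfl

lemma jm_inj (k : Bool) : Function.Injective (jm k : Port T → Port (T × Bool)) := by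
  intro x y h
  cases x with
  | none => cases y with
    | none => rfl
    | some y => simp [jm] at h
  | some x => cases y with
    | none => simp [jm] at h
    | some y =>
      obtain ⟨t, d⟩ := x
      obtain ⟨t', d'⟩ := y
      cases k
      · simpa using h
      · simpa using h

lemma jm_ne {x y : Port T} (hx : x ≠ none) : jm false x ≠ jm true y := by
  cases x with
  | none => exact absurd rfl hx
  | some x => cases y with
    | none => simp [jm]
    | some y => simp [jm]

lemma w6_neg (o : ZMod 4 → Bool) : w6 (fun d => o (-d)) = w6 o := by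
  have h1 : (-1 : ZMod 4) = 3 := by decide
  have h2 : (-2 : ZMod 4) = 2 := by decide
  have h3 : (-3 : ZMod 4) = 1 := by decide
  unfold w6
  simp only [neg_zero, h1, h2, h3]
  cases o 0 <;> cases o 1 <;> cases o 2 <;> cases o 3 <;> simp

lemma tiles_copy (A : Finset T) (k : Bool) (σ : Port (T × Bool) → Bool) :
    tilesF (A ×ˢ {k}) σ = tilesF A (σ ∘ jm k) := by
  unfold tilesF
  rw [Finset.prod_product]
  refine Finset.prod_congr rfl fun t _ => ?_
  rw [Finset.prod_singleton]
  cases k
  · rfl
  · rw [← w6_neg]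
    rfl

lemma tiles_double (A : Finset T) (σ : Port (T × Bool) → Bool) :
    tilesF (A ×ˢ univ) σ = tilesF A (σ ∘ jm false) * tilesF A (σ ∘ jm true) := by
  have h : A ×ˢ (univ : Finset Bool) = A ×ˢ {false} ∪ A ×ˢ {true} := by
    rw [← Finset.product_union]
    congr 1
    ext b
    cases b <;> simp
  rw [h, tilesF_union, tiles_copy, tiles_copy]
  rw [Finset.disjoint_product]
  right
  simp

/-- crosscut pairs -/
def crossL {n : ℕ} (p : Fin n → Port T) : List (ℝ × Port (T × Bool) × Port (T × Bool)) :=
  List.ofFn fun i => (0, jm false (p i), jm true (p i))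

/-- doubled glueing list -/
def dblL {n : ℕ} (l : List (ℝ × Port T × Port T)) (p : Fin n → Port T) :
    List (ℝ × Port (T × Bool) × Port (T × Bool)) :=
  mapL (jm false) l ++ mapL (jm true) l ++ crossL p

/-- doubled cut list -/
def dblC (c : List (ℝ × Port T)) : List (ℝ × Port (T × Bool)) :=
  mapC (jm false) c ++ mapC (jm true) c

/-- vector of a network on its open ports `p` -/
def vecN (A : Finset T) (l : List (ℝ × Port T × Port T)) (c : List (ℝ × Port T)) {n : ℕ}
    (p : Fin n → Port T) (s : Fin n → Bool) : ℂ :=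
  cutL c (St.glueL l (tilesF A)) fun x => if h : ∃ i, p i = x then s h.choose else false

/-- the ports of the lists are ports of tiles of `A` -/
structure NetOk (A : Finset T) (l : List (ℝ × Port T × Port T)) (c : List (ℝ × Port T)) {n : ℕ}
    (p : Fin n → Port T) : Prop where
  inj : Function.Injective p
  mem : ∀ i, p i ∈ ports A
  lmem : ∀ e ∈ l, e.2.1 ∈ ports A ∧ e.2.2 ∈ ports A
  cmem : ∀ e ∈ c, e.2 ∈ ports A
  cp : ∀ e ∈ c, ∀ i, p i ≠ e.2
  all : ∀ x ∈ ports A, (∀ e ∈ l, x ≠ e.2.1 ∧ x ≠ e.2.2) → (∀ e ∈ c, x ≠ e.2) → ∃ i, p i = x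

lemma ne_none_of_mem {A : Finset T} {x : Port T} (h : x ∈ ports A) : x ≠ none := by
  rintro rfl; exact none_ports h

theorem norm_link {A : Finset T} {l : List (ℝ × Port T × Port T)} {c : List (ℝ × Port T)} {n : ℕ}
    {p : Fin n → Port T} (h : NetOk A l c p) (σ : Port (T × Bool) → Bool) :
    ((∑ s : Fin n → Bool, ‖vecN A l c p s‖ ^ 2 : ℝ) : ℂ) =
      cutL (dblC c) (St.glueL (dblL l p) (tilesF (A ×ˢ univ))) σ := by
  set I : (Port T → Bool) → ℂ := cutL c (St.glueL l (tilesF A)) with hI
  have hsees : Sees (remC c (remL l (ports A))) I := ((sees_tiles A).glueL l).cutL c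
  have hrev : Rev I := ((rev_tiles A).glueL l).cutL c
  have hdep : ∀ σ σ' : Port T → Bool, (∀ i, σ (p i) = σ' (p i)) → I σ = I σ' := by
    intro σ σ' hs
    refine hsees σ σ' fun x hx => ?_
    obtain ⟨h1, h2⟩ := mem_remC.1 hx
    obtain ⟨h3, h4⟩ := mem_remL.1 h1
    obtain ⟨i, rfl⟩ := h.all x h3 h4 h2
    exact hs i
  -- factorisation of the two copies
  have hbl : ∀ (G : (Port T → Bool) → ℂ) (x : Port T), x ≠ none →
      Blind (fun σ : Port (T × Bool) → Bool => G (σ ∘ jm true)) (jm false x) := by
    intro G x hx σ τ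
    show G _ = G _
    congr 1
    funext y
    simp only [Function.comp]
    rw [Function.update_of_ne (jm_ne hx).symm]
  have hbl' : ∀ (G : (Port T → Bool) → ℂ) (x : Port T), x ≠ none →
      Blind (fun σ : Port (T × Bool) → Bool => G (σ ∘ jm false)) (jm true x) := by
    intro G x hx σ τ
    show G _ = G _
    congr 1
    funext y
    simp only [Function.comp]
    rw [Function.update_of_ne]
    intro e
    cases y with
    | none => cases x with
      | none => exact hx rfl
      | some x => simp [jm] at e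
    | some y => cases x with
      | none => exact hx rfl
      | some x => simp [jm] at e
  have hglue : St.glueL (mapL (jm false) l ++ mapL (jm true) l) (tilesF (A ×ˢ univ)) =
      fun σ => St.glueL l (tilesF A) (σ ∘ jm false) * St.glueL l (tilesF A) (σ ∘ jm true) := by
    rw [glueL_append]
    have e1 : St.glueL (mapL (jm false) l) (tilesF (A ×ˢ univ)) =
        fun σ => St.glueL l (tilesF A) (σ ∘ jm false) * tilesF A (σ ∘ jm true) := by
      have e0 : tilesF (A ×ˢ (univ : Finset Bool)) =
          fun σ => tilesF A (σ ∘ jm false) * tilesF A (σ ∘ jm true) :=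
        funext fun σ => tiles_double A σ
      rw [e0]
      funext σ
      rw [glueL_mul]
      · rw [glueL_comp (jm_inj false)]
      · intro e he
        obtain ⟨f, hf, rfl⟩ := List.mem_map.1 he
        exact ⟨hbl _ _ (ne_none_of_mem (h.lmem f hf).1), hbl _ _ (ne_none_of_mem (h.lmem f hf).2)⟩
    rw [e1]
    funext σ
    have e2 : (fun σ : Port (T × Bool) → Bool =>
        St.glueL l (tilesF A) (σ ∘ jm false) * tilesF A (σ ∘ jm true)) =
        fun σ => tilesF A (σ ∘ jm true) * St.glueL l (tilesF A) (σ ∘ jm false) := by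
      funext σ; ring
    rw [e2, glueL_mul]
    · rw [glueL_comp (jm_inj true)]; ring
    · intro e he
      obtain ⟨f, hf, rfl⟩ := List.mem_map.1 he
      exact ⟨hbl' _ _ (ne_none_of_mem (h.lmem f hf).1), hbl' _ _ (ne_none_of_mem (h.lmem f hf).2)⟩
  have hcut : cutL (dblC c) (fun σ : Port (T × Bool) → Bool =>
      St.glueL l (tilesF A) (σ ∘ jm false) * St.glueL l (tilesF A) (σ ∘ jm true)) =
      fun σ => I (σ ∘ jm false) * I (σ ∘ jm true) := by
    rw [dblC, cutL_append]
    have e1 : cutL (mapC (jm false) c) (fun σ : Port (T × Bool) → Bool =>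
        St.glueL l (tilesF A) (σ ∘ jm false) * St.glueL l (tilesF A) (σ ∘ jm true)) =
        fun σ => I (σ ∘ jm false) * St.glueL l (tilesF A) (σ ∘ jm true) := by
      funext σ
      rw [cutL_mul]
      · rw [cutL_comp (jm_inj false)]
      · intro e he
        obtain ⟨f, hf, rfl⟩ := List.mem_map.1 he
        exact hbl _ _ (ne_none_of_mem (h.cmem f hf))
    rw [e1]
    funext σ
    have e2 : (fun σ : Port (T × Bool) → Bool =>
        I (σ ∘ jm false) * St.glueL l (tilesF A) (σ ∘ jm true)) =
        fun σ => St.glueL l (tilesF A) (σ ∘ jm true) * I (σ ∘ jm false) := by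
      funext σ; ring
    rw [e2, cutL_mul]
    · rw [cutL_comp (jm_inj true)]; ring
    · intro e he
      obtain ⟨f, hf, rfl⟩ := List.mem_map.1 he
      exact hbl' _ _ (ne_none_of_mem (h.cmem f hf))
  -- the crosscut
  have hmain : cutL (dblC c) (St.glueL (dblL l p) (tilesF (A ×ˢ univ))) =
      St.glueL (crossL p) fun σ => I (σ ∘ jm false) * I (σ ∘ jm true) := by
    rw [dblL, glueL_append, hglue, cutL_glueL, hcut]
    intro e he f hf
    obtain ⟨i, rfl⟩ := (List.mem_ofFn' _ _).1 he
    rw [dblC, List.mem_append] at hf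
    rcases hf with hf | hf
    · obtain ⟨g, hg, rfl⟩ := List.mem_map.1 hf
      refine ⟨fun e => h.cp g hg i (jm_inj false e), fun e => ?_⟩
      exact jm_ne (ne_none_of_mem (h.cmem g hg)) e.symm
    · obtain ⟨g, hg, rfl⟩ := List.mem_map.1 hf
      exact ⟨jm_ne (ne_none_of_mem (h.mem i)), fun e => h.cp g hg i (jm_inj true e)⟩
  rw [hmain]
  classical
  set σ' : (Fin n → Bool) → Port (T × Bool) → Bool := fun s x =>
    if h1 : ∃ i, jm false (p i) = x then s h1.choose
    else if h2 : ∃ i, jm true (p i) = x then !s h2.choose else σ x with hσ'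
  have hs1 : ∀ s i, σ' s (jm false (p i)) = s i := by
    intro s i
    have h1 : ∃ i', jm false (p i') = jm false (p i) := ⟨i, rfl⟩
    simp only [hσ', dif_pos h1]
    congr 1
    exact h.inj (jm_inj false h1.choose_spec)
  have hs2 : ∀ s i, σ' s (jm true (p i)) = !s i := by
    intro s i
    have h1 : ¬ ∃ i', jm false (p i') = jm true (p i) := by
      rintro ⟨i', e⟩
      exact jm_ne (ne_none_of_mem (h.mem i')) e
    have h2 : ∃ i', jm true (p i') = jm true (p i) := ⟨i, rfl⟩
    simp only [hσ', dif_neg h1, dif_pos h2]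
    congr 2
    exact h.inj (jm_inj true h2.choose_spec)
  rw [crossL, glueL_pairs (fun _ => (0 : ℝ)) (fun i => jm false (p i)) (fun i => jm true (p i))
    (fun i j e => h.inj (jm_inj false e)) (fun i j e => h.inj (jm_inj true e))
    (fun i j => jm_ne (ne_none_of_mem (h.mem i))) _ σ σ' hs1 hs2]
  · push_cast
    refine Finset.sum_congr rfl fun s _ => ?_
    have e0 : (∏ _i : Fin n, ei (0 * sg (s _i))) = 1 := by simp
    rw [e0, one_mul]
    have e1 : I (σ' s ∘ jm false) = vecN A l c p s := by
      refine hdep _ _ fun i => ?_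
      have h1 : ∃ i', p i' = p i := ⟨i, rfl⟩
      simp only [Function.comp, hs1, dif_pos h1]
      congr 1
      exact (h.inj h1.choose_spec).symm
    have e2 : I (σ' s ∘ jm true) = star (vecN A l c p s) := by
      unfold vecN
      rw [← hI, hrev]
      refine hdep _ _ fun i => ?_
      have h1 : ∃ i', p i' = p i := ⟨i, rfl⟩
      simp only [Function.comp, hs2, dif_pos h1]
      congr 2
      exact (h.inj h1.choose_spec).symm
    rw [e1, e2]
    have := Complex.mul_conj (vecN A l c p s)
    rw [Complex.normSq_eq_norm_sq] at this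
    rw [show star (vecN A l c p s) = (starRingEnd ℂ) (vecN A l c p s) from rfl, this]
    push_cast
    rfl
  · intro s x h1 h2
    simp only [hσ']
    rw [dif_neg (by rintro ⟨i, e⟩; exact h1 i e.symm), dif_neg (by rintro ⟨i, e⟩; exact h2 i e.symm)]

end Crest.Agent.R158.Nz399
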