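import Crest.Agent.R158.Nz8_399
import Crest.Agent.R158.Da1_570
import Crest.Agent.R158.Bu1_612
import Crest.Agent.R158.Csh_410

/-!
# R158, block Q1d (helper399), part 9: `NormP` from the norms of the two halves

* `int_zr_neg` : the expectation of a network does not change under `ch -> -ch`
* `HB κ M ρ m a b c V` : `V` is the integral of a function with the pointwise bound of a half
  environment with `a` marks, `b`, `c` factors `e2`, `e1`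
* `hb_le` : the resulting bound of `V`
* `NormIn`, `normP_of` : `CP → NormIn fz P → NormP fz P`
-/

set_option autoImplicit false

noncomputable section

namespace Crest.Agent.R158.Nz399

open MeasureTheory ProbabilityTheory unitInterval
open Crest.Agent.R158.Rs689
open Crest.Agent.R158.Nm211
open Crest.Agent.R158.Ka470
open Crest.Agent.R158.Env664 (TG D Run Band)
open Crest.Agent.R158.Sw300 (Port)
open Crest.Agent.R158.Ad350 (ports tnet)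
open Crest.Agent.R158.Cs410 (nrm nrm_nonneg FZ NormP OnB InHalf InA OutA)
open Crest.Agent.R158.Bd932 (That e3)
open Crest.Agent.R158.Ao857 (nn)
open Crest.Agent.R158.Tj656 (P4)
open Matrix

/-- arrow reversal -/
theorem int_zr_neg {T : Type*} [DecidableEq T] {A : Finset T} {be : Port T → Port T}
    (hbe : ∀ p ∈ ports A, be p ∈ ports A) (hb2 : ∀ p ∈ ports A, be (be p) = p)
    (ch : Port T → ℝ) :
    ∫ s, zr A be (fun p => -ch p) s ∂(PB fun _ : T => hf) =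
      ∫ s, zr A be ch s ∂(PB fun _ : T => hf) := by
  have key : ∀ ch : Port T → ℝ, Da570.Zc A be ch =
      ((∫ s, zr A be ch s ∂(PB fun _ : T => hf) : ℝ) : ℂ) := by
    intro ch
    rw [Da570.Zc_eq hbe, avg A (zr_dep A be ch)]
    push_cast
    congr 1
    exact Finset.sum_congr rfl fun S _ => zr_eq ch _ hbe hb2
  have h := Da570.Zc_neg hbe ch
  rw [key, key] at h
  exact_mod_cast h

/-- data for the norm of a half -/
def HB (κ M ρ m a b c : ℕ) (V : ℝ) : Prop :=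
  ∃ (A : Half) (h : A.Sz ρ), A.Bd ρ κ ∧ ∃ X : Finset Sp, X.card ≤ M ∧
    (∀ x ∈ X, ∀ y ∈ X, x ≠ y → Disjoint (x.sup h (3 * ρ)) (y.sup h (3 * ρ))) ∧
    (∀ x ∈ X, x.In h (3 * ρ)) ∧ cnt X .cv ≤ cnt X .rf ∧
    cnt X .mk = a ∧ cnt X .e2 = b ∧ cnt X .e1 = c ∧
    ∃ (T : Finset (TG × Bool)) (Z : (TG × Bool → Bool) → ℝ), DepF T Z ∧
      V ≤ ∫ s, Z s ∂(PB fun _ : TG × Bool => hf) ∧
      ∀ s, Z s ≤ √3 ^ m * ((∏ x ∈ X, x.val h (3 * ρ) s) * 2 ^ BN h s)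

theorem hb_le (hcp : CP) (κ M : ℕ) {ε : ℝ} (hε : 0 < ε) : ∃ C : ℝ, 1 ≤ C ∧
    ∀ (ρ m a b c : ℕ) (V : ℝ), HB κ M ρ m a b c V →
      V ≤ √3 ^ m * (C * ((3 * ρ : ℕ) : ℝ) ^ ε *
        (Pm (3 * ρ) ^ a * mean .e2 (3 * ρ) ^ b * mean .e1 (3 * ρ) ^ c)) := by
  obtain ⟨C, hC, h⟩ := asm3 hcp κ M (b := 2) (by norm_num) hε
  refine ⟨C, hC, ?_⟩
  rintro ρ m a b c V ⟨A, hs, hbd, X, h1, h2, h3, h4, rfl, rfl, rfl, T, Z, h5, h6, h7⟩
  have hρ := hs.pos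
  exact h6.trans (h A ρ hs hbd (3 * ρ) (by omega) X h1 h2 h3 h4 _ (by positivity) T Z h5 h7)

/-- norm below -/
def nI {F : Finset (ℤ × ℤ)} {L : ℤ} {B : Band (D F L)} (Fm : Cs410.FamZ B) (a1 : ℕ) (μ : Fm.J) :
    ℝ :=
  nrm (That (nn B + 1) (Fm.c μ) (1 / 2) ^ a1 *ᵥ InA B (Fm.φ μ))

/-- norm above -/
def nO {F : Finset (ℤ × ℤ)} {L : ℤ} {B : Band (D F L)} (Fm : Cs410.FamZ B) (b1 : ℕ) (μ : Fm.J) :
    ℝ :=
  nrm (OutA B (Fm.φ μ) ᵥ* That (nn B + 2) (Fm.c μ + e3) (1 / 2) ^ b1)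

/-- norms of a member with `k` ends with two charged gaps -/
def Mem {F : Finset (ℤ × ℤ)} {L : ℤ} {B : Band (D F L)} (Fm : Cs410.FamZ B) (κ M ρ ml mu a1 b1 : ℕ)
    (k : ℕ) (μ : Fm.J) : Prop :=
  ∃ a a' b b' c c' : ℕ, a + a' = 3 ∧ b + b' = k ∧ c + c' = k ∧
    HB κ M ρ ml a b c (nI Fm a1 μ ^ 2) ∧ HB κ M ρ mu a' b' c' (nO Fm b1 μ ^ 2)

/-- **geometric input of the norm estimate** -/
def NormIn (fz : FZ) (P : P4) : Prop :=
  ∃ h0 : ℝ, 0 < h0 ∧ ∀ A B' r : ℤ, Run P.F A B' r → ∀ h y δ : ℝ, 0 < h → h < h0 →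
    0 < δ → δ ≤ h / 100 → InHalf r (y - 4 * h) (y + 4 * h) →
    ∃ (κ M : ℕ) (c0 : ℝ) (L0 : ℤ), 1 ≤ κ ∧ 0 < c0 ∧ 1 ≤ L0 ∧ ∀ L : ℤ, L0 ≤ L →
      Even L → ∀ B : Band (D P.F L), OnB A B' L h y B →
      ∃ ρ ml mu : ℕ, 1 ≤ ρ ∧ L ≤ κ * (3 * ρ) ∧ 3 * (ρ : ℤ) ≤ L ∧
        c0 * √3 ^ (((ml : ℝ) + mu) / 2) * Pm L.toNat ≤ ‖(fz P L δ B).Z‖ ∧
        (∀ μ, ‖(fz P L δ B).co μ‖ ≤ 1) ∧
        ∃ J0 : Finset (fz P L δ B).J, J0.card ≤ κ ∧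
          (Fintype.card (fz P L δ B).J : ℝ) ≤ κ * (L : ℝ) ∧
          (∀ μ ∈ J0, Mem (fz P L δ B) κ M ρ ml mu (⌊(y - 2 * h) * L⌋ - B.y1).toNat
            (B.y2 - ⌊(y + 2 * h) * L⌋).toNat 0 μ) ∧
          ∀ μ ∉ J0, Mem (fz P L δ B) κ M ρ ml mu (⌊(y - 2 * h) * L⌋ - B.y1).toNat
            (B.y2 - ⌊(y + 2 * h) * L⌋).toNat 1 μ

theorem pm_pos {n : ℕ} (hn : 1 ≤ n) : 0 < Pm n := by
  obtain ⟨c, hc, h⟩ := Zm180.pm_lower
  have hn0 : (0 : ℝ) < n := by exact_mod_cast hn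
  exact lt_of_lt_of_le (by positivity) (h n hn)

theorem normP_of (hcp : CP) {fz : FZ} {P : P4} (hin : NormIn fz P) : NormP fz P := by
  classical
  obtain ⟨h0, hh0, hin⟩ := hin
  refine ⟨1 / 4, h0, by norm_num, hh0, fun A B' r hrun h y δ hh hlt hδ hδh hhalf => ?_⟩
  obtain ⟨κ, M, c0, L0, hκ, hc0, hL1, hin⟩ := hin A B' r hrun h y δ hh hlt hδ hδh hhalf
  obtain ⟨C1, hC1, hb1⟩ := hb_le hcp κ M (ε := 1 / 24) (by norm_num)
  obtain ⟨C2, hC2, hE2⟩ := Tw440.E2_le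
  -- constants of the budget
  set K0 : ℝ := C1 * C1 * (2 * C2 + 1) + 3 * κ * κ with hK0
  have hκr : (1 : ℝ) ≤ κ := by exact_mod_cast hκ
  have hK0pos : 0 < K0 := by positivity
  obtain ⟨D1, hD1, bud1⟩ := Bu612.budget.{0} (ε := 1 / 12) (by norm_num) hκ hK0pos hc0
  obtain ⟨D2, hD2, bud2⟩ := Bu612.budget_x2 (ε := 1 / 12) (by norm_num) hκ hK0pos hc0
  refine ⟨D1 + κ * D2, L0, fun L hL hev B hB => ?_⟩
  have hin' := hin L hL hev B hB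
  generalize fz P L δ B = Fm at hin' ⊢
  obtain ⟨ρ, ml, mu, hρ, hLκ, hρL, hZ, hco, J0, hJ0, hcard, hm0, hm1⟩ := hin'
  set a1 := (⌊(y - 2 * h) * L⌋ - B.y1).toNat
  set b1 := (B.y2 - ⌊(y + 2 * h) * L⌋).toNat
  set n : ℕ := 3 * ρ with hn
  have hn1 : 1 ≤ n := by omega
  have hnr : (1 : ℝ) ≤ n := by exact_mod_cast hn1
  have hn0 : (0 : ℝ) < n := by linarith
  have hLpos : (0 : ℤ) < L := by omega
  have hLr : (1 : ℝ) ≤ L := by exact_mod_cast (by omega : (1 : ℤ) ≤ L)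
  set S : ℝ := √3 ^ (((ml : ℝ) + mu) / 2) with hS
  have hSpos : 0 < S := by positivity
  have hS2 : S ^ 2 = √3 ^ ml * √3 ^ mu := by
    rw [hS, ← Real.rpow_natCast (√3 ^ (((ml : ℝ) + mu) / 2)) 2, ← Real.rpow_mul (by positivity),
      ← pow_add, ← Real.rpow_natCast √3 (ml + mu)]
    congr 1
    push_cast
    ring
  have hLn : L.toNat ≤ κ * n := by
    have : (L.toNat : ℤ) ≤ ((κ * n : ℕ) : ℤ) := by
      rw [Int.toNat_of_nonneg hLpos.le]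
      rw [hn]
      push_cast
      exact hLκ
    exact_mod_cast this
  have hL1' : 1 ≤ L.toNat := by omega
  have hZ' : c0 * S * Pm (κ * n) ≤ ‖Fm.Z‖ := by
    refine le_trans ?_ hZ
    exact mul_le_mul_of_nonneg_left (Zm180.pm_anti hL1' hLn) (by positivity)
  have hZpos : 0 < ‖Fm.Z‖ := lt_of_lt_of_le (mul_pos (mul_pos hc0 hSpos)
    (pm_pos (by nlinarith))) hZ'
  have hP0 := Bu612.pm_nonneg n
  -- bound of the product of the squares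
  have key : ∀ (k : ℕ) (μ : Fm.J), Mem Fm κ M ρ ml mu a1 b1 k μ →
      nI Fm a1 μ ^ 2 * nO Fm b1 μ ^ 2 ≤ S ^ 2 * (C1 * C1 * (n : ℝ) ^ (1 / 12 : ℝ) *
        (Pm n ^ 3 * mean .e2 n ^ k * mean .e1 n ^ k)) := by
    rintro k μ ⟨a, a', b, b', c, c', e1, e2, e3', h1, h2⟩
    have g1 := hb1 ρ ml a b c _ h1
    have g2 := hb1 ρ mu a' b' c' _ h2
    rw [← hn] at g1 g2
    have m2 := mean_nonneg .e2 n
    have m1 := mean_nonneg .e1 n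
    have g3 := mul_le_mul g1 g2 (sq_nonneg _) (by positivity)
    refine g3.trans (le_of_eq ?_)
    have e4 : (n : ℝ) ^ (1 / 12 : ℝ) = (n : ℝ) ^ (1 / 24 : ℝ) * (n : ℝ) ^ (1 / 24 : ℝ) := by
      rw [← Real.rpow_add hn0]; norm_num
    have e5 : Pm n ^ 3 = Pm n ^ a * Pm n ^ a' := by rw [← pow_add, e1]
    have e6 : mean .e2 n ^ k = mean .e2 n ^ b * mean .e2 n ^ b' := by rw [← pow_add, e2]
    have e7 : mean .e1 n ^ k = mean .e1 n ^ c * mean .e1 n ^ c' := by rw [← pow_add, e3']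
    rw [e4, e5, e6, e7, hS2]
    ring
  have hme2 : mean .e2 n ≤ C2 / n := by rw [mean_e2 hn1]; exact hE2 n hn1
  have hme1 := mean_e1 n
  have hone : ∀ μ ∈ (Finset.univ \ J0 : Finset Fm.J), nI Fm a1 μ ^ 2 * nO Fm b1 μ ^ 2 ≤
      S ^ 2 * (K0 * (n : ℝ) ^ (1 / 12 : ℝ) * Pm n ^ 4 * (n : ℝ)⁻¹) := by
    intro μ hμ
    have hμ' : μ ∉ J0 := (Finset.mem_sdiff.1 hμ).2
    refine (key 1 μ (hm1 μ hμ')).trans (mul_le_mul_of_nonneg_left ?_ (sq_nonneg S))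
    rw [pow_one, pow_one]
    have m2 := mean_nonneg .e2 n
    have m1 := mean_nonneg .e1 n
    have h3 : mean .e2 n * mean .e1 n ≤ (C2 / n) * (2 * Pm n) :=
      mul_le_mul hme2 hme1 m1 (by positivity)
    calc C1 * C1 * (n : ℝ) ^ (1 / 12 : ℝ) * (Pm n ^ 3 * mean .e2 n * mean .e1 n)
        = C1 * C1 * (n : ℝ) ^ (1 / 12 : ℝ) * Pm n ^ 3 * (mean .e2 n * mean .e1 n) := by ring
      _ ≤ C1 * C1 * (n : ℝ) ^ (1 / 12 : ℝ) * Pm n ^ 3 * ((C2 / n) * (2 * Pm n)) :=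
          mul_le_mul_of_nonneg_left h3 (by positivity)
      _ = (C1 * C1 * (2 * C2)) * ((n : ℝ) ^ (1 / 12 : ℝ) * Pm n ^ 4 * (n : ℝ)⁻¹) := by
          field_simp
      _ ≤ K0 * ((n : ℝ) ^ (1 / 12 : ℝ) * Pm n ^ 4 * (n : ℝ)⁻¹) := by
          refine mul_le_mul_of_nonneg_right ?_ (by positivity)
          rw [hK0]
          have : 0 ≤ C1 * C1 := by positivity
          nlinarith
      _ = _ := by ring
  have hzero : ∀ μ ∈ J0, nI Fm a1 μ ^ 2 * nO Fm b1 μ ^ 2 ≤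
      S ^ 2 * (K0 * (n : ℝ) ^ (1 / 12 : ℝ) * Pm n ^ 3) := by
    intro μ hμ
    refine (key 0 μ (hm0 μ hμ)).trans (mul_le_mul_of_nonneg_left ?_ (sq_nonneg S))
    rw [pow_zero, pow_zero, mul_one, mul_one]
    calc C1 * C1 * (n : ℝ) ^ (1 / 12 : ℝ) * Pm n ^ 3
        = (C1 * C1) * ((n : ℝ) ^ (1 / 12 : ℝ) * Pm n ^ 3) := by ring
      _ ≤ K0 * ((n : ℝ) ^ (1 / 12 : ℝ) * Pm n ^ 3) := by
          refine mul_le_mul_of_nonneg_right ?_ (by positivity)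
          rw [hK0]
          have h4 : 0 ≤ C1 * C1 := by positivity
          have h5 : 0 ≤ C1 * C1 * (2 * C2) := by positivity
          nlinarith
      _ = _ := by ring
  -- the sums
  have hJc : ((Finset.univ \ J0 : Finset Fm.J).card : ℝ) ≤ K0 * n := by
    have h1 : ((Finset.univ \ J0 : Finset Fm.J).card : ℝ) ≤ Fintype.card Fm.J := by
      have := Finset.card_le_univ (Finset.univ \ J0 : Finset Fm.J)
      exact_mod_cast this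
    refine h1.trans (hcard.trans ?_)
    have h2 : (L : ℝ) ≤ κ * n := by
      rw [hn]
      push_cast
      exact_mod_cast hLκ
    calc (κ : ℝ) * L ≤ κ * (κ * n) := mul_le_mul_of_nonneg_left h2 (by positivity)
      _ = (κ * κ) * n := by ring
      _ ≤ K0 * n := by
          refine mul_le_mul_of_nonneg_right ?_ hn0.le
          rw [hK0]
          have : 0 ≤ C1 * C1 * (2 * C2 + 1) := by positivity
          nlinarith
  have hs1 := bud1 n hn1 (Finset.univ \ J0 : Finset Fm.J) (nI Fm a1) (nO Fm b1) S ‖Fm.Z‖ hSpos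
    hJc hone hZ'
  have hs0 : ∀ μ ∈ J0, nI Fm a1 μ * nO Fm b1 μ ≤ D2 * (n : ℝ) ^ (1 / 12 : ℝ) * ‖Fm.Z‖ :=
    fun μ hμ => bud2 n hn1 _ _ S _ hSpos (hzero μ hμ) hZ'
  refine ⟨norm_pos_iff.1 hZpos, ?_⟩
  have hnL : (n : ℝ) ≤ L := by
    rw [hn]
    push_cast
    exact_mod_cast hρL
  have hI0 : ∀ μ, 0 ≤ nI Fm a1 μ := fun μ => nrm_nonneg _
  have hO0 : ∀ μ, 0 ≤ nO Fm b1 μ := fun μ => nrm_nonneg _
  have hnm : Fm.nm a1 b1 ≤ ∑ μ, nI Fm a1 μ * nO Fm b1 μ := by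
    unfold Cs410.FamZ.nm
    refine Finset.sum_le_sum fun μ _ => ?_
    have h1 : (0 : ℝ) ≤ nI Fm a1 μ * nO Fm b1 μ := mul_nonneg (hI0 μ) (hO0 μ)
    have h2 := mul_le_mul_of_nonneg_right (hco μ) h1
    rw [one_mul] at h2
    exact h2
  refine hnm.trans ?_
  rw [← Finset.sum_sdiff (Finset.subset_univ J0)]
  have hp1 : (n : ℝ) ^ (1 / 6 + 1 / 12 : ℝ) ≤ (L : ℝ) ^ (1 / 4 : ℝ) := by
    have e : (1 / 6 + 1 / 12 : ℝ) = 1 / 4 := by norm_num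
    rw [e]
    exact Real.rpow_le_rpow hn0.le hnL (by norm_num)
  have hp2 : (n : ℝ) ^ (1 / 12 : ℝ) ≤ (L : ℝ) ^ (1 / 4 : ℝ) :=
    (Real.rpow_le_rpow hn0.le hnL (by norm_num)).trans
      (Real.rpow_le_rpow_of_exponent_le hLr (by norm_num))
  have t1 : ∑ μ ∈ (Finset.univ \ J0 : Finset Fm.J), nI Fm a1 μ * nO Fm b1 μ ≤
      D1 * (L : ℝ) ^ (1 / 4 : ℝ) * ‖Fm.Z‖ := by
    refine hs1.trans ?_
    gcongr
  have t0 : ∑ μ ∈ J0, nI Fm a1 μ * nO Fm b1 μ ≤ κ * D2 * (L : ℝ) ^ (1 / 4 : ℝ) * ‖Fm.Z‖ := by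
    refine (Finset.sum_le_card_nsmul _ _ _ hs0).trans ?_
    rw [nsmul_eq_mul]
    have h1 : (J0.card : ℝ) ≤ κ := by exact_mod_cast hJ0
    calc (J0.card : ℝ) * (D2 * (n : ℝ) ^ (1 / 12 : ℝ) * ‖Fm.Z‖)
        ≤ κ * (D2 * (L : ℝ) ^ (1 / 4 : ℝ) * ‖Fm.Z‖) := by gcongr
      _ = _ := by ring
  calc _ ≤ D1 * (L : ℝ) ^ (1 / 4 : ℝ) * ‖Fm.Z‖ + κ * D2 * (L : ℝ) ^ (1 / 4 : ℝ) * ‖Fm.Z‖ :=
        add_le_add t1 t0
    _ = _ := by ring

end Crest.Agent.R158.Nz399
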