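import Crest.Agent.R158.Qc7_405

/-!
# R158, order of the ends of the region with stubs, part 1 (helper194): the successor table

`Suc A xl xr y1 y2 k y0 a b` : `b` is the free end of `Dp A xl xr y1 y2 k` (glueing
`beD .. p y0 (xr + k)`) which follows `a` clockwise (explicit table, any `z = (p, y0)`)

* **`suc_D`** : consecutive free ends are in the table
-/

set_option autoImplicit false
set_option linter.unusedVariables false
set_option linter.unusedSectionVars false
set_option linter.unusedSimpArgs false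

namespace Crest.Agent.R158.Oc194

open Crest.Agent.R158.Sw300
open Crest.Agent.R158.Gc748 (gl bs ts gd_wd pt)
open Crest.Agent.R158.Xr249 (rot rot_some rot_none Dp mem_Dp Free full full_h full_v Reg)
open Crest.Agent.R158.Pt266
open Crest.Agent.R158.Env664 (nbD beD res PortOf portOf_some portOf_none nbD_leg nbD_W nbD_E nbD_N1
  nbD_N nbD_Sleg nbD_S1 nbD_S)
open Crest.Agent.R158.Qc405

section

variable (A : Finset (ℤ × ℤ)) (xl xr y1 y2 k y0 : ℤ)

/-- **the successor table** -/
inductive Suc : Port (ℤ × ℤ) → Port (ℤ × ℤ) → Prop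
  | r1 {y : ℤ} : y = y2 - 1 ∨ y = y0 - 1 → Suc (some ((xr + k, y), 1)) (some ((xr + k, y), 2))
  | r2 {x : ℤ} : xr < x → x < xr + k → Suc (some ((x, y2 - 1), 1)) (some ((x + 1, y2 - 1), 1))
  | r3 : Suc (some ((xr + k, y1), 2)) (some ((xr + k, y1), 3))
  | r4 : Suc (some ((xr + k, y0), 2)) (some ((xr + k, y0 - 1), 1))
  | r5 {y : ℤ} : y1 < y → y < y2 → y ≠ y0 →
      Suc (some ((xr + k, y), 2)) (some ((xr + k, y - 1), 2))
  | r6 : Suc (some ((xr + 1, y1), 3)) (some ((xr, y1 - 1), 2))
  | r7 {x : ℤ} : xr + 1 < x → x ≤ xr + k → Suc (some ((x, y1), 3)) (some ((x - 1, y1), 3))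
  | l1 : Suc (some ((xl - k, y2 - 1), 0)) (some ((xl - k, y2 - 1), 1))
  | l2 {y : ℤ} : y1 ≤ y → y < y2 - 1 → Suc (some ((xl - k, y), 0)) (some ((xl - k, y + 1), 0))
  | l3 : Suc (some ((xl - 1, y2 - 1), 1)) (some ((xl, y2), 0))
  | l4 {x : ℤ} : xl - k ≤ x → x < xl - 1 → Suc (some ((x, y2 - 1), 1)) (some ((x + 1, y2 - 1), 1))
  | l5 : Suc (some ((xl - k, y1), 3)) (some ((xl - k, y1), 0))
  | l6 {x : ℤ} : xl - k < x → x < xl → Suc (some ((x, y1), 3)) (some ((x - 1, y1), 3))
  | a1 : Suc (some ((xl, y1 - 1), 0)) (some ((xl - 1, y1), 3))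
  | a2 : Suc (some ((xr, y2), 2)) (some ((xr + 1, y2 - 1), 1))
  | a3 {a b : (ℤ × ℤ) × ZMod 4} {κ : ℤ} : RFree (full A) a → RFree (full A) b →
      NxT (full A).gl (some a) (some b) κ → b ≠ ((xl, y1), 0) →
      (∀ y, y1 ≤ y → y < y2 → a ≠ ((xr, y), 2)) → (∀ y, y1 ≤ y → y < y2 → a ≠ ((xl, y), 0)) →
      Suc (some a) (some b)

end

variable {A : Finset (ℤ × ℤ)} {xl xr y1 y2 k p y0 : ℤ} {ψ : (ℤ × ℤ) × ZMod 4 → ℤ}

lemma Suc.cast {a b a' b' : Port (ℤ × ℤ)} (h : Suc A xl xr y1 y2 k y0 a b) (e1 : a = a')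
    (e2 : b = b') : Suc A xl xr y1 y2 k y0 a' b' := e1 ▸ e2 ▸ h

variable (H : TabH A xl xr y1 y2 k p y0 ψ)

include H

/-- the right stub -/
lemma suc_R {x y : ℤ} {d : ZMod 4} (hR : (xr + 1 ≤ x ∧ x < xr + k + 1) ∧ y1 ≤ y ∧ y < y2)
    (hfree : ∀ q, ¬ GD A xl xr y1 y2 k p y0 (some ((x, y), d)) q) {b : Port (ℤ × ℤ)} {κ : ℤ}
    (h : NxS (sgD xl p y0 y2) (GD A xl xr y1 y2 k p y0) (some ((x, y), d)) b κ) :
    Suc A xl xr y1 y2 k y0 (some ((x, y), d)) b := by
  have hk := H.hk
  have h1 := H.hy1
  have h2 := H.hy2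
  have h3 := H.hp1
  have h4 := H.hp2
  have hle := H.hf.le
  have hD : (x, y) ∈ Dp A xl xr y1 y2 k := H.band (by omega) (by omega) hR.2.1 hR.2.2
  have hxA : (x, y) ∉ A := H.nr (by omega) (by omega) (by omega) (by omega)
  have det : ∀ {b0 κ0}, NxS (sgD xl p y0 y2) (GD A xl xr y1 y2 k p y0) (some ((x, y), d)) b0 κ0 →
      Suc A xl xr y1 y2 k y0 (some ((x, y), d)) b0 →
      Suc A xl xr y1 y2 k y0 (some ((x, y), d)) b := by
    intro b0 κ0 h5 h6
    obtain ⟨rfl, rfl⟩ := NxS.det (fun a b c => GD_fn a b c) h h5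
    exact h6
  rcases Env664.z4 d with rfl | rfl | rfl | rfl
  · exact absurd (GD_of (pD hD) nbD_W (pD (H.band (by omega) (by omega) (by omega) (by omega))))
      (hfree _)
  · -- `N`
    have hy : y = y2 - 1 ∨ y = y0 - 1 ∧ x = xr + k := by
      by_contra hc
      rw [not_or] at hc
      by_cases c3 : y = y0 - 1
      · exact hfree _ (GD_of (pD hD) (nbD_N1 (by omega))
          (pD (H.band (by omega) (by omega) (by omega) (by omega))))
      · exact hfree _ (GD_of (pD hD) (nbD_N (by omega))
          (pD (H.band (by omega) (by omega) (by omega) (by omega))))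
    by_cases c1 : x = xr + k
    · have o1 : (x + 1, y) ∉ Dp A xl xr y1 y2 k :=
        H.out (H.nr (by omega) (by omega) (by omega) (by omega)) (by omega)
      refine det (stp (rN x y) (by rw [nbD_E]; exact pD' o1)) ?_
      subst c1
      exact .r1 (by omega)
    · have c2 : y = y2 - 1 := by omega
      have d1 : (x + 1, y) ∈ Dp A xl xr y1 y2 k :=
        H.band (by omega) (by omega) (by omega) (by omega)
      have o1 : (x + 1, y + 1) ∉ Dp A xl xr y1 y2 k :=
        H.out (H.nr (by omega) (by omega) (by omega) (by omega)) (by omega)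
      have hN := gop (y0 := y0) (p := p) (σ := sgD xl p y0 y2) (rN x y) (pD hD) nbD_E (pD d1)
        (stp (rW (x + 1) y) (by rw [nbD_N (by omega)]; exact pD' o1))
      refine det hN ?_
      subst c2
      exact .r2 (by omega) (by omega)
  · -- `E`
    by_cases c1 : x = xr + k
    · by_cases c2 : y = y1
      · have o1 : (x, y - 1) ∉ Dp A xl xr y1 y2 k :=
          H.out (H.nr (by omega) (by omega) (by omega) (by omega)) (by omega)
        refine det (stp (rE x y) (by rw [nbD_S (by omega)]; exact pD' o1)) ?_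
        subst c1 c2
        exact .r3
      by_cases c3 : y = y0
      · have d1 : (x - 1, y0 - 1) ∈ Dp A xl xr y1 y2 k :=
          H.band (by omega) (by omega) (by omega) (by omega)
        have d2 : (x - 1 + 1, y0 - 1) ∈ Dp A xl xr y1 y2 k :=
          H.band (by omega) (by omega) (by omega) (by omega)
        have o1 : (x - 1 + 1 + 1, y0) ∉ Dp A xl xr y1 y2 k :=
          H.out (H.nr (by omega) (by omega) (by omega) (by omega)) (by omega)
        have hN := gop (y0 := y0) (p := p) (σ := sgD xl p y0 y2) (rE x y) (pD hD)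
          (nbD_S1 (by omega)) (pD d1)
          (gop (rN (x - 1) (y0 - 1)) (pD d1) nbD_E (pD d2)
            (stp (rW (x - 1 + 1) (y0 - 1)) (by rw [nbD_N1 (by omega)]; exact pD' o1)))
        refine det hN ?_
        subst c3 c1
        exact Suc.r4.cast rfl (by rw [sub_add_cancel])
      · have d1 : (x, y - 1) ∈ Dp A xl xr y1 y2 k :=
          H.band (by omega) (by omega) (by omega) (by omega)
        have o1 : (x + 1, y - 1) ∉ Dp A xl xr y1 y2 k :=
          H.out (H.nr (by omega) (by omega) (by omega) (by omega)) (by omega)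
        have hN := gop (y0 := y0) (p := p) (σ := sgD xl p y0 y2) (rE x y) (pD hD)
          (nbD_S (by omega)) (pD d1)
          (stp (rN x (y - 1)) (by rw [nbD_E]; exact pD' o1))
        refine det hN ?_
        subst c1
        exact .r5 (by omega) (by omega) c3
    · exact absurd (GD_of (pD hD) nbD_E
        (pD (H.band (by omega) (by omega) (by omega) (by omega)))) (hfree _)
  · -- `S`
    by_cases c1 : y = y1
    · by_cases c2 : x = xr + 1
      · have d1 : (x - 1, y) ∈ Dp A xl xr y1 y2 k :=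
          H.band (by omega) (by omega) (by omega) (by omega)
        have e1 : ((x - 1, y - 1) : ℤ × ℤ) = (xr, y1 - 1) := by
          rw [c1, c2]; simp
        have d2 : (x - 1, y - 1) ∈ Dp A xl xr y1 y2 k := H.sub (by rw [e1]; exact H.c2)
        have o1 : (x - 1 + 1, y - 1) ∉ Dp A xl xr y1 y2 k :=
          H.out (H.nr (by omega) (by omega) (by omega) (by omega)) (by omega)
        have hN := gop (y0 := y0) (p := p) (σ := sgD xl p y0 y2) (rS x y) (pD hD)
          nbD_W (pD d1)
          (gop (rE (x - 1) y) (pD d1) (nbD_S (by omega)) (pD d2)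
            (stp (rN (x - 1) (y - 1)) (by rw [nbD_E]; exact pD' o1)))
        refine det hN ?_
        rw [e1]
        subst c1 c2
        exact .r6
      · have d1 : (x - 1, y) ∈ Dp A xl xr y1 y2 k :=
          H.band (by omega) (by omega) (by omega) (by omega)
        have o1 : (x - 1, y - 1) ∉ Dp A xl xr y1 y2 k :=
          H.out (H.nr (by omega) (by omega) (by omega) (by omega)) (by omega)
        have hN := gop (y0 := y0) (p := p) (σ := sgD xl p y0 y2) (rS x y) (pD hD)
          nbD_W (pD d1)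
          (stp (rE (x - 1) y) (by rw [nbD_S (by omega)]; exact pD' o1))
        refine det hN ?_
        subst c1
        exact .r7 (by omega) (by omega)
    · exfalso
      by_cases c3 : y = y0
      · exact hfree _ (GD_of (pD hD) (nbD_S1 (by omega))
          (pD (H.band (by omega) (by omega) (by omega) (by omega))))
      · exact hfree _ (GD_of (pD hD) (nbD_S (by omega))
          (pD (H.band (by omega) (by omega) (by omega) (by omega))))

/-- the left stub -/
lemma suc_L {x y : ℤ} {d : ZMod 4} (hR : (xl - k ≤ x ∧ x < xl) ∧ y1 ≤ y ∧ y < y2)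
    (hfree : ∀ q, ¬ GD A xl xr y1 y2 k p y0 (some ((x, y), d)) q) {b : Port (ℤ × ℤ)} {κ : ℤ}
    (h : NxS (sgD xl p y0 y2) (GD A xl xr y1 y2 k p y0) (some ((x, y), d)) b κ) :
    Suc A xl xr y1 y2 k y0 (some ((x, y), d)) b := by
  have hk := H.hk
  have h1 := H.hy1
  have h2 := H.hy2
  have h3 := H.hp1
  have h4 := H.hp2
  have hle := H.hf.le
  have hD : (x, y) ∈ Dp A xl xr y1 y2 k := H.band (by omega) (by omega) hR.2.1 hR.2.2
  have hxA : (x, y) ∉ A := H.nl (by omega) (by omega) (by omega) (by omega)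
  have det : ∀ {b0 κ0}, NxS (sgD xl p y0 y2) (GD A xl xr y1 y2 k p y0) (some ((x, y), d)) b0 κ0 →
      Suc A xl xr y1 y2 k y0 (some ((x, y), d)) b0 →
      Suc A xl xr y1 y2 k y0 (some ((x, y), d)) b := by
    intro b0 κ0 h5 h6
    obtain ⟨rfl, rfl⟩ := NxS.det (fun a b c => GD_fn a b c) h h5
    exact h6
  rcases Env664.z4 d with rfl | rfl | rfl | rfl
  · -- `W`
    by_cases c1 : x = xl - k
    · by_cases c2 : y = y2 - 1
      · have o1 : (x, y + 1) ∉ Dp A xl xr y1 y2 k :=
          H.out (H.nl (by omega) (by omega) (by omega) (by omega)) (by omega)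
        refine det (stp (rW x y) (by rw [nbD_N (by omega)]; exact pD' o1)) ?_
        subst c1 c2
        exact .l1
      · have d1 : (x, y + 1) ∈ Dp A xl xr y1 y2 k :=
          H.band (by omega) (by omega) (by omega) (by omega)
        have o1 : (x - 1, y + 1) ∉ Dp A xl xr y1 y2 k :=
          H.out (H.nl (by omega) (by omega) (by omega) (by omega)) (by omega)
        have hN := gop (y0 := y0) (p := p) (σ := sgD xl p y0 y2) (rW x y) (pD hD)
          (nbD_N (by omega)) (pD d1)
          (stp (rS x (y + 1)) (by rw [nbD_W]; exact pD' o1))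
        refine det hN ?_
        subst c1
        exact .l2 (by omega) (by omega)
    · exact absurd (GD_of (pD hD) nbD_W
        (pD (H.band (by omega) (by omega) (by omega) (by omega)))) (hfree _)
  · -- `N`
    by_cases c2 : y = y2 - 1
    · by_cases c1 : x = xl - 1
      · have d1 : (x + 1, y) ∈ Dp A xl xr y1 y2 k :=
          H.band (by omega) (by omega) (by omega) (by omega)
        have e1 : ((x + 1, y + 1) : ℤ × ℤ) = (xl, y2) := by rw [c1, c2]; simp
        have d2 : (x + 1, y + 1) ∈ Dp A xl xr y1 y2 k := H.sub (by rw [e1]; exact H.c3)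
        have o1 : (x + 1 - 1, y + 1) ∉ Dp A xl xr y1 y2 k :=
          H.out (H.nl (by omega) (by omega) (by omega) (by omega)) (by omega)
        have hN := gop (y0 := y0) (p := p) (σ := sgD xl p y0 y2) (rN x y) (pD hD)
          nbD_E (pD d1)
          (gop (rW (x + 1) y) (pD d1) (nbD_N (by omega)) (pD d2)
            (stp (rS (x + 1) (y + 1)) (by rw [nbD_W]; exact pD' o1)))
        refine det hN ?_
        rw [e1]
        subst c1 c2
        exact .l3
      · have d1 : (x + 1, y) ∈ Dp A xl xr y1 y2 k :=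
          H.band (by omega) (by omega) (by omega) (by omega)
        have o1 : (x + 1, y + 1) ∉ Dp A xl xr y1 y2 k :=
          H.out (H.nl (by omega) (by omega) (by omega) (by omega)) (by omega)
        have hN := gop (y0 := y0) (p := p) (σ := sgD xl p y0 y2) (rN x y) (pD hD)
          nbD_E (pD d1)
          (stp (rW (x + 1) y) (by rw [nbD_N (by omega)]; exact pD' o1))
        refine det hN ?_
        subst c2
        exact .l4 (by omega) (by omega)
    · exact absurd (GD_of (pD hD) (nbD_N (by omega))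
        (pD (H.band (by omega) (by omega) (by omega) (by omega)))) (hfree _)
  · -- `E`
    exact absurd (GD_of (pD hD) nbD_E
        (pD (H.band (by omega) (by omega) (by omega) (by omega)))) (hfree _)
  · -- `S`
    by_cases c1 : y = y1
    · by_cases c2 : x = xl - k
      · have o1 : (x - 1, y) ∉ Dp A xl xr y1 y2 k :=
          H.out (H.nl (by omega) (by omega) (by omega) (by omega)) (by omega)
        refine det (stp (rS x y) (by rw [nbD_W]; exact pD' o1)) ?_
        subst c1 c2
        exact .l5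
      · have d1 : (x - 1, y) ∈ Dp A xl xr y1 y2 k :=
          H.band (by omega) (by omega) (by omega) (by omega)
        have o1 : (x - 1, y - 1) ∉ Dp A xl xr y1 y2 k :=
          H.out (H.nl (by omega) (by omega) (by omega) (by omega)) (by omega)
        have hN := gop (y0 := y0) (p := p) (σ := sgD xl p y0 y2) (rS x y) (pD hD)
          nbD_W (pD d1)
          (stp (rE (x - 1) y) (by rw [nbD_S (by omega)]; exact pD' o1))
        refine det hN ?_
        subst c1
        exact .l6 (by omega) (by omega)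
    · exact absurd (GD_of (pD hD) (nbD_S (by omega))
        (pD (H.band (by omega) (by omega) (by omega) (by omega)))) (hfree _)

/-- the region itself -/
lemma suc_A {x y : ℤ} {d : ZMod 4} (hA : (x, y) ∈ A)
    (hfree : ∀ q, ¬ GD A xl xr y1 y2 k p y0 (some ((x, y), d)) q) {b : Port (ℤ × ℤ)} {κ : ℤ}
    (h : NxS (sgD xl p y0 y2) (GD A xl xr y1 y2 k p y0) (some ((x, y), d)) b κ) :
    Suc A xl xr y1 y2 k y0 (some ((x, y), d)) b := by
  have hk := H.hk
  have h1 := H.hy1
  have h2 := H.hy2
  have h3 := H.hp1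
  have h4 := H.hp2
  have hle := H.hf.le
  have hD : (x, y) ∈ Dp A xl xr y1 y2 k := H.sub hA
  have mr : ¬ (xr < x ∧ x ≤ xr + k + 1 ∧ y1 - 1 ≤ y ∧ y ≤ y2) := fun hc =>
    H.nr hc.1 hc.2.1 hc.2.2.1 hc.2.2.2 hA
  have ml : ¬ (x < xl ∧ xl - k - 1 ≤ x ∧ y1 - 1 ≤ y ∧ y ≤ y2) := fun hc =>
    H.nl hc.1 hc.2.1 hc.2.2.1 hc.2.2.2 hA
  have det : ∀ {b0 κ0}, NxS (sgD xl p y0 y2) (GD A xl xr y1 y2 k p y0) (some ((x, y), d)) b0 κ0 →
      Suc A xl xr y1 y2 k y0 (some ((x, y), d)) b0 →
      Suc A xl xr y1 y2 k y0 (some ((x, y), d)) b := by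
    intro b0 κ0 h5 h6
    obtain ⟨rfl, rfl⟩ := NxS.det (fun a b c => GD_fn a b c) h h5
    exact h6
  have hm2 : ∀ y', y1 ≤ y' → y' < y2 → (((x, y), d) : (ℤ × ℤ) × ZMod 4) ≠ ((xr, y'), 2) := by
    rintro y' g1 g2 e
    simp only [Prod.mk.injEq] at e
    obtain ⟨⟨rfl, rfl⟩, rfl⟩ := e
    exact hfree _ (GD_of (pD hD) nbD_E
      (pD (H.band (by omega) (by omega) (by omega) (by omega))))
  have hm0 : ∀ y', y1 ≤ y' → y' < y2 → (((x, y), d) : (ℤ × ℤ) × ZMod 4) ≠ ((xl, y'), 0) := by
    rintro y' g1 g2 e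
    simp only [Prod.mk.injEq] at e
    obtain ⟨⟨rfl, rfl⟩, rfl⟩ := e
    exact hfree _ (GD_of (pD hD) nbD_W
      (pD (H.band (by omega) (by omega) (by omega) (by omega))))
  -- good corners
  have good : ∀ X Y, cor ((x, y), d) = (X, Y) → GoodC A xl xr y1 y2 k y0 X Y →
      (∀ q, (full A).gl (some ((x, y), d)) q → ∃ u v e, nbD p y0 (xr + k) (some ((x, y), d)) =
        some ((u, v), e) ∧ (u, v) ∈ A) →
      Suc A xl xr y1 y2 k y0 (some ((x, y), d)) b := by
    intro X Y hc hg hnb
    obtain ⟨b', rfl, hb', hfr, hN, hq⟩ := far_step h3 h4 hk hg h (x, y) d rfl hA hc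
    have hra : RFree (full A) ((x, y), d) := by
      refine ⟨hA, fun q hq' => ?_⟩
      obtain ⟨u, v, e, h5, h6⟩ := hnb _ hq'
      exact hfree _ (GD_of (pD hD) h5 (pD (H.sub h6)))
    have hbase : b' ≠ ((xl, y1), 0) := by
      rintro rfl
      exact hq _ (GD_of (pD (H.band (by omega) (by omega) (by omega) (by omega))) nbD_W
        (pD (H.band (by omega) (by omega) (by omega) (by omega))))
    exact .a3 hra hfr hN hbase hm2 hm0
  rcases Env664.z4 d with rfl | rfl | rfl | rfl
  · -- `W`
    by_cases s1 : y1 ≤ y ∧ y < y2 ∧ xl ≤ x ∧ x ≤ xr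
    · exact absurd (GD_of (pD hD) nbD_W
        (pD (H.band (by omega) (by omega) (by omega) (by omega)))) (hfree _)
    by_cases s2 : x = xl ∧ y = y1 - 1
    · obtain ⟨rfl, rfl⟩ := s2
      have d1 : (x, y1 - 1 + 1) ∈ Dp A x xr y1 y2 k :=
        H.band (by omega) (by omega) (by omega) (by omega)
      have d2 : (x - 1, y1 - 1 + 1) ∈ Dp A x xr y1 y2 k :=
        H.band (by omega) (by omega) (by omega) (by omega)
      have o1 : (x - 1, y1 - 1 + 1 - 1) ∉ Dp A x xr y1 y2 k :=
        H.out (H.nl (by omega) (by omega) (by omega) (by omega)) (by omega)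
      have hN := gop (y0 := y0) (p := p) (σ := sgD x p y0 y2) (rW x (y1 - 1)) (pD hD)
        (nbD_N (by omega)) (pD d1)
        (gop (rS x (y1 - 1 + 1)) (pD d1) nbD_W (pD d2)
          (stp (rE (x - 1) (y1 - 1 + 1)) (by rw [nbD_S (by omega)]; exact pD' o1)))
      refine det hN ?_
      exact Suc.a1.cast rfl (by rw [sub_add_cancel])
    · refine good x (y + 1) rfl ⟨?_, by omega, by omega⟩ ?_
      · intro u v hu hv hm
        rw [mem_Dp] at hm
        rcases hm with hm | hm | hm
        · exact hm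
        · exfalso; omega
        · exfalso; omega
      · intro q hq
        have h5 := (full_h.1 (Reg.gl_0.1 hq).1).1
        exact ⟨_, _, _, nbD_W, h5⟩
  · -- `N`
    by_cases s1 : y1 ≤ y ∧ y + 1 < y2 ∧ xl ≤ x ∧ x ≤ xr
    · exfalso
      by_cases c3 : y = y0 - 1 ∧ p ≤ x
      · exact hfree _ (GD_of (pD hD) (nbD_N1 (by omega))
          (pD (H.band (by omega) (by omega) (by omega) (by omega))))
      · exact hfree _ (GD_of (pD hD) (nbD_N (by omega))
          (pD (H.band (by omega) (by omega) (by omega) (by omega))))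
    by_cases s2 : x = xr ∧ y = y1 - 1
    · exfalso
      exact hfree _ (GD_of (pD hD) (nbD_N (by omega))
        (pD (H.band (by omega) (by omega) (by omega) (by omega))))
    by_cases s3 : x = xr ∧ y = y2 - 1
    · exfalso
      refine hfree _ (GD_of (pD hD) (nbD_N (by omega)) (pD (H.sub ?_)))
      rw [s3.1, s3.2, sub_add_cancel]
      exact H.c4
    · refine good (x + 1) (y + 1) rfl ⟨?_, by omega, by omega⟩ ?_
      · intro u v hu hv hm
        rw [mem_Dp] at hm
        rcases hm with hm | hm | hm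
        · exact hm
        · exfalso; omega
        · exfalso; omega
      · intro q hq
        have h5 := (full_v.1 (Reg.gl_1.1 hq).1).2
        exact ⟨_, _, _, nbD_N (by omega), h5⟩
  · -- `E`
    by_cases s1 : y1 ≤ y ∧ y < y2 ∧ xl ≤ x ∧ x ≤ xr
    · exact absurd (GD_of (pD hD) nbD_E
        (pD (H.band (by omega) (by omega) (by omega) (by omega)))) (hfree _)
    by_cases s2 : x = xr ∧ y = y2
    · obtain ⟨rfl, rfl⟩ := s2
      have d1 : (x, y - 1) ∈ Dp A xl x y1 y k :=
        H.band (by omega) (by omega) (by omega) (by omega)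
      have d2 : (x + 1, y - 1) ∈ Dp A xl x y1 y k :=
        H.band (by omega) (by omega) (by omega) (by omega)
      have o1 : (x + 1, y - 1 + 1) ∉ Dp A xl x y1 y k :=
        H.out (H.nr (by omega) (by omega) (by omega) (by omega)) (by omega)
      have hN := gop (y0 := y0) (p := p) (σ := sgD xl p y0 y) (rE x y) (pD hD)
        (nbD_S (by omega)) (pD d1)
        (gop (rN x (y - 1)) (pD d1) nbD_E (pD d2)
          (stp (rW (x + 1) (y - 1)) (by rw [nbD_N (by omega)]; exact pD' o1)))
      refine det hN ?_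
      exact .a2
    · refine good (x + 1) y rfl ⟨?_, by omega, by omega⟩ ?_
      · intro u v hu hv hm
        rw [mem_Dp] at hm
        rcases hm with hm | hm | hm
        · exact hm
        · exfalso; omega
        · exfalso; omega
      · intro q hq
        have h5 := (full_h.1 (Reg.gl_2.1 hq).1).2
        exact ⟨_, _, _, nbD_E, h5⟩
  · -- `S`
    by_cases s1 : y1 < y ∧ y < y2 ∧ xl ≤ x ∧ x ≤ xr
    · exfalso
      by_cases c3 : y = y0 ∧ x = p
      · exact hfree _ (GD_of (pD hD) (nbD_Sleg c3) (portOf_none _))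
      by_cases c4 : y = y0 ∧ p < x
      · exact hfree _ (GD_of (pD hD) (nbD_S1 (by omega))
          (pD (H.band (by omega) (by omega) (by omega) (by omega))))
      · exact hfree _ (GD_of (pD hD) (nbD_S (by omega))
          (pD (H.band (by omega) (by omega) (by omega) (by omega))))
    by_cases s2 : x = xl ∧ y = y1
    · exfalso
      refine hfree _ (GD_of (pD hD) (nbD_S (by omega)) (pD (H.sub ?_)))
      rw [s2.1, s2.2]
      exact H.c1
    by_cases s3 : x = xl ∧ y = y2
    · exfalso
      exact hfree _ (GD_of (pD hD) (nbD_S (by omega))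
        (pD (H.band (by omega) (by omega) (by omega) (by omega))))
    · refine good x y rfl ⟨?_, by omega, by omega⟩ ?_
      · intro u v hu hv hm
        rw [mem_Dp] at hm
        rcases hm with hm | hm | hm
        · exact hm
        · exfalso; omega
        · exfalso; omega
      · intro q hq
        have h5 := (full_v.1 (Reg.gl_3.1 hq).1).1
        exact ⟨_, _, _, nbD_S (by omega), h5⟩

/-- **consecutive free ends are in the table** -/
theorem suc_D {a b : Port (ℤ × ℤ)} {κ : ℤ} {t : ℤ × ℤ} {d : ZMod 4} (ha : a = some (t, d))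
    (ht : t ∈ Dp A xl xr y1 y2 k) (hfree : ∀ q, ¬ GD A xl xr y1 y2 k p y0 a q)
    (h : NxS (sgD xl p y0 y2) (GD A xl xr y1 y2 k p y0) a b κ) :
    Suc A xl xr y1 y2 k y0 a b := by
  subst ha
  obtain ⟨x, y⟩ := t
  rcases mem_Dp.1 ht with h1 | h1 | h1
  · exact suc_A H h1 hfree h
  · exact suc_R H h1 hfree h
  · exact suc_L H h1 hfree h

end Crest.Agent.R158.Oc194
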