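import Crest.Agent.R158.Sq3_200
import Crest.Agent.R158.Sp4c_874
import Crest.Agent.R158.Sp0_580

/-!
# Row 158, SEP leaf L2 (helper200): from points of the circle to cells

* `cel_eq` : `cel` is 874's `cl`
* `Wc` : the coarse coordinate of a position on the fine ring (monotone, compatible with the periods)
* `near_W` : a cell `k` of the ring `N-1` near the ring face `cel R w` has a coordinate close to `Wc w`
* `order4` : cyclic order of the points gives the cyclic order of the cells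
-/

set_option autoImplicit false

noncomputable section

namespace Crest.Agent.R158.Sr200

open Crest.Agent.R161.Geo729 Crest.Agent.R161.Topo374 Crest.Agent.R161.Dual374
open Crest.Agent.R158.Sp874 (FarN nr Gd Gd')

theorem cel_eq (j w : ℤ) : cel j w = Sp874.cl j w := by
  unfold cel Sp874.cl rq Sp874.rt
  rfl

theorem rg_iff {j : ℤ} (_ : 0 ≤ j) {k : P2} : Rg j k ↔ nr k = j := by
  unfold Rg nr
  omega

theorem not_farN {F : ℤ} {c c' : P2} : ¬ FarN F c c' ↔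
    (c'.1 - c.1 < F ∧ c.1 - c'.1 < F ∧ c'.2 - c.2 < F ∧ c.2 - c'.2 < F) := by
  unfold FarN
  omega

/-- the sup distance is at most the ring distance -/
theorem dist_cl {j : ℤ} (hj : 0 ≤ j) (w : ℤ) (n : ℕ) {F : ℤ} (hF : n < F) :
    ¬ FarN F (Sp874.cl j w) (Sp874.cl j (w + n)) := by
  have key : ∀ n : ℕ, |(Sp874.cl j (w + n)).1 - (Sp874.cl j w).1| ≤ n ∧
      |(Sp874.cl j (w + n)).2 - (Sp874.cl j w).2| ≤ n := by
    intro n
    induction n with
    | zero => simp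
    | succ n ih =>
        have h := Sp874.adj_cl hj (w + n)
        rw [show w + ((n + 1 : ℕ) : ℤ) = w + n + 1 by push_cast; ring]
        unfold Rs689.CAdj at h
        rw [abs_le, abs_le] at *
        push_cast
        omega
  have h := key n
  rw [abs_le, abs_le] at h
  rw [not_farN]
  omega

theorem far_dist {j : ℤ} (hj : 0 ≤ j) {w w' F : ℤ} (h : FarN F (Sp874.cl j w) (Sp874.cl j w')) :
    w + F ≤ w' ∨ w' + F ≤ w := by
  by_contra hc
  rcases le_total w w' with h1 | h1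
  · have := dist_cl hj w (w' - w).toNat (F := F) (by omega)
    rw [show w + ((w' - w).toNat : ℤ) = w' by omega] at this
    exact this h
  · have := dist_cl hj w' (w - w').toNat (F := F) (by omega)
    rw [show w' + ((w - w').toNat : ℤ) = w by omega] at this
    apply this
    unfold FarN at h ⊢
    omega

/-- near cells have near coordinates -/
theorem near_coord {j F : ℤ} (hj : 0 ≤ j) (hF0 : 1 ≤ F) (hF : F ≤ 2 * j + 1) {k : P2} (hk : nr k = j) {w : ℤ}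
    (h : ¬ FarN F (Sp874.cl j w) k) :
    ∃ W, Sp874.cl j W = k ∧ W - w < 2 * F ∧ w - W < 2 * F := by
  obtain ⟨W, h1, h2, h3⟩ := exists_cel hj ((rg_iff hj).2 hk) w
  rw [cel_eq] at h3
  by_cases h4 : W - w < 2 * F
  · exact ⟨W, h3, h4, by omega⟩
  · by_cases h5 : w + 4 * (2 * j + 1) - W < 2 * F
    · refine ⟨W - 4 * (2 * j + 1), ?_, by omega, by omega⟩
      rw [← h3, ← Sp874.cl_period hj (W - 4 * (2 * j + 1))]
      congr 1
      ring
    · exfalso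
      apply h
      rw [← h3]
      exact Sp874.farN_cl_cl hj hF0 hF (by omega) (by omega)

/-- coarse coordinate -/
def Wc (n N w : ℤ) : ℤ :=
  (w + N * n) / (2 * (N * n) + 1) * (2 * (N - 1) + 1) +
    max (-(N - 1)) (min (N - 1) ((w - (w + N * n) / (2 * (N * n) + 1) * (2 * (N * n) + 1)) / n))

theorem Wc_mk {n N q t : ℤ} (h1 : -(N * n) ≤ t) (h2 : t ≤ N * n) :
    Wc n N (q * (2 * (N * n) + 1) + t) = q * (2 * (N - 1) + 1) + max (-(N - 1)) (min (N - 1) (t / n)) := by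
  unfold Wc
  rw [div_mk h1 h2]
  congr 3
  ring_nf

theorem Wc_mono {n N : ℤ} (hn : 1 ≤ n) (hN : 1 ≤ N) {w w' : ℤ} (h : w ≤ w') : Wc n N w ≤ Wc n N w' := by
  have hR : 0 ≤ N * n := by positivity
  obtain ⟨q, t, a1, a2, rfl⟩ := split hR w
  obtain ⟨q', t', b1, b2, rfl⟩ := split hR w'
  rw [Wc_mk a1 a2, Wc_mk b1 b2]
  rcases lt_trichotomy q q' with hq | hq | hq
  · have h3 : (q + 1) * (2 * (N - 1) + 1) ≤ q' * (2 * (N - 1) + 1) :=
      mul_le_mul_of_nonneg_right (by omega) (by omega)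
    have h4 : (q + 1) * (2 * (N - 1) + 1) = q * (2 * (N - 1) + 1) + (2 * (N - 1) + 1) := by ring
    omega
  · subst hq
    have h3 : t ≤ t' := by linarith
    have h4 : t / n ≤ t' / n := Int.ediv_le_ediv (by omega) h3
    omega
  · exfalso
    have h3 : (q' + 1) * (2 * (N * n) + 1) ≤ q * (2 * (N * n) + 1) :=
      mul_le_mul_of_nonneg_right (by omega) (by omega)
    have h4 : (q' + 1) * (2 * (N * n) + 1) = q' * (2 * (N * n) + 1) + (2 * (N * n) + 1) := by ring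
    linarith

theorem Wc_add {n N : ℤ} (hn : 1 ≤ n) (hN : 1 ≤ N) (w : ℤ) :
    Wc n N (w + 4 * (2 * (N * n) + 1)) = Wc n N w + 4 * (2 * (N - 1) + 1) := by
  have hR : 0 ≤ N * n := by positivity
  obtain ⟨q, t, a1, a2, rfl⟩ := split hR w
  rw [show q * (2 * (N * n) + 1) + t + 4 * (2 * (N * n) + 1) = (q + 4) * (2 * (N * n) + 1) + t by ring,
    Wc_mk a1 a2, Wc_mk a1 a2]
  ring

/-- the coarse cell of a point -/
def fl (n : ℤ) (p : P2) : P2 := (p.1 / n, p.2 / n)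

theorem neg_div' {n : ℤ} (hn : 1 ≤ n) (t : ℤ) : (-1 - t) / n = -1 - t / n := by
  have h1 := Int.emod_nonneg t (by omega : n ≠ 0)
  have h2 := Int.emod_lt_of_pos t (by omega : 0 < n)
  have h3 := Int.emod_add_mul_ediv t n
  rw [show -1 - t = (n - 1 - t % n) + n * (-1 - t / n) by linarith,
    Int.add_mul_ediv_left _ _ (by omega : n ≠ 0), Int.ediv_eq_zero_of_lt (by omega) (by omega), zero_add]

theorem fl_rq {n N : ℤ} (hn : 1 ≤ n) (q t : ℤ) : fl n (rq q (N * n) t) = rq q N (t / n) := by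
  have h1 : N * n / n = N := Int.mul_ediv_cancel _ (by omega)
  unfold fl rq
  split_ifs
  · simp only [h1]
  · simp only [h1, neg_div' hn]
  · simp only [h1, neg_div' hn]
  · simp only [h1, neg_div' hn]

theorem fl_cel {n N : ℤ} (hn : 1 ≤ n) (hN : 1 ≤ N) (w : ℤ) :
    ¬ FarN 2 (Sp874.cl (N - 1) (Wc n N w)) (fl n (cel (N * n) w)) := by
  have hR : 0 ≤ N * n := by positivity
  obtain ⟨q, t, a1, a2, rfl⟩ := split hR w
  rw [Wc_mk a1 a2, cel_mk a1 a2, fl_rq hn, ← cel_eq]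
  have hτ1 : -N ≤ t / n := by
    rw [Int.le_ediv_iff_mul_le (by omega)]
    linarith
  have hτ2 : t / n ≤ N := by
    have : t / n ≤ N * n / n := Int.ediv_le_ediv (by omega) a2
    rwa [Int.mul_ediv_cancel _ (by omega)] at this
  rw [cel_mk (by omega) (by omega), not_farN]
  unfold rq
  split_ifs <;> simp only <;> omega

/-- **near cells** : a cell near a ring face -/
theorem near_W {n N : ℤ} (hn : 1 ≤ n) (hN : 4 ≤ N) {k : P2} (hk : nr k = N - 1) {w : ℤ}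
    (h : ¬ FarN 3 k (fl n (cel (N * n) w))) :
    ∃ W, Sp874.cl (N - 1) W = k ∧ W - Wc n N w < 8 ∧ Wc n N w - W < 8 := by
  have h1 := fl_cel hn (by omega : 1 ≤ N) w
  have h2 : ¬ FarN 4 (Sp874.cl (N - 1) (Wc n N w)) k := by
    rw [not_farN] at *
    omega
  obtain ⟨W, h3, h4, h5⟩ := near_coord (by omega) (by omega) (by omega) hk h2
  exact ⟨W, h3, by omega, by omega⟩

/-- **order of the cells** -/
theorem order4 {n N g : ℤ} (hn : 1 ≤ n) (hN : 4 ≤ N) (hg : 15 ≤ g) {k1 k2 k3 k4 : P2}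
    (h1 : nr k1 = N - 1) (h2 : nr k2 = N - 1) (h3 : nr k3 = N - 1) (h4 : nr k4 = N - 1)
    (f12 : FarN g k1 k2) (f23 : FarN g k2 k3) (f34 : FarN g k3 k4) (f41 : FarN g k4 k1)
    {a b c d : ℤ} (hac : a ≤ c) (hcb : c ≤ b) (hbd : b ≤ d) (hda : d ≤ a + 4 * (2 * (N * n) + 1))
    (n1 : ¬ FarN 3 k1 (fl n (cel (N * n) a))) (n2 : ¬ FarN 3 k2 (fl n (cel (N * n) c)))
    (n3 : ¬ FarN 3 k3 (fl n (cel (N * n) b))) (n4 : ¬ FarN 3 k4 (fl n (cel (N * n) d))) :
    ∃ w : Fin 4 → ℤ, Sp874.cl (N - 1) (w 0) = k1 ∧ Sp874.cl (N - 1) (w 1) = k2 ∧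
      Sp874.cl (N - 1) (w 2) = k3 ∧ Sp874.cl (N - 1) (w 3) = k4 ∧ Gd (N - 1) g w := by
  obtain ⟨W1, p1, q1, r1⟩ := near_W hn hN h1 n1
  obtain ⟨W2, p2, q2, r2⟩ := near_W hn hN h2 n2
  obtain ⟨W3, p3, q3, r3⟩ := near_W hn hN h3 n3
  obtain ⟨W4, p4, q4, r4⟩ := near_W hn hN h4 n4
  have m1 := Wc_mono hn (by omega : 1 ≤ N) hac
  have m2 := Wc_mono hn (by omega : 1 ≤ N) hcb
  have m3 := Wc_mono hn (by omega : 1 ≤ N) hbd
  have m4 := Wc_mono hn (by omega : 1 ≤ N) hda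
  rw [Wc_add hn (by omega)] at m4
  refine ⟨![W1, W2, W3, W4], p1, p2, p3, p4, ?_⟩
  have e1 := far_dist (by omega : 0 ≤ N - 1) (w := W1) (w' := W2) (F := g) (by rw [p1, p2]; exact f12)
  have e2 := far_dist (by omega : 0 ≤ N - 1) (w := W2) (w' := W3) (F := g) (by rw [p2, p3]; exact f23)
  have e3 := far_dist (by omega : 0 ≤ N - 1) (w := W3) (w' := W4) (F := g) (by rw [p3, p4]; exact f34)
  have e4 := far_dist (by omega : 0 ≤ N - 1) (w := W4) (w' := W1 + 4 * (2 * (N - 1) + 1)) (F := g) (by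
    rw [p4, Sp874.cl_period (by omega : 0 ≤ N - 1), p1]; exact f41)
  refine ⟨?_, ?_, ?_, ?_⟩
  · show W1 + g ≤ W2
    omega
  · show W2 + g ≤ W3
    omega
  · show W3 + g ≤ W4
    omega
  · show W4 + g ≤ W1 + 4 * (2 * (N - 1) + 1)
    omega

/-- both cyclic orders -/
theorem order_both {n N g : ℤ} (hn : 1 ≤ n) (hN : 4 ≤ N) (hg : 15 ≤ g) {k1 k2 k3 k4 : P2}
    (h1 : nr k1 = N - 1) (h2 : nr k2 = N - 1) (h3 : nr k3 = N - 1) (h4 : nr k4 = N - 1)
    (f12 : FarN g k1 k2) (f23 : FarN g k2 k3) (f34 : FarN g k3 k4) (f41 : FarN g k4 k1)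
    {a b c d : ℤ} (hac : a ≤ c) (hca : c < a + 4 * (2 * (N * n) + 1)) (had : a ≤ d)
    (hda : d < a + 4 * (2 * (N * n) + 1)) (hs : (c < b ∧ b ≤ d) ∨ (d < b ∧ b ≤ c))
    (n1 : ¬ FarN 3 k1 (fl n (cel (N * n) a))) (n2 : ¬ FarN 3 k2 (fl n (cel (N * n) c)))
    (n3 : ¬ FarN 3 k3 (fl n (cel (N * n) b))) (n4 : ¬ FarN 3 k4 (fl n (cel (N * n) d))) :
    ∃ w : Fin 4 → ℤ, Sp874.cl (N - 1) (w 0) = k1 ∧ Sp874.cl (N - 1) (w 1) = k2 ∧
      Sp874.cl (N - 1) (w 2) = k3 ∧ Sp874.cl (N - 1) (w 3) = k4 ∧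
      (Gd (N - 1) g w ∨ Gd' (N - 1) g w) := by
  have hsym : ∀ {k k' : P2}, FarN g k k' → FarN g k' k := fun h => by unfold FarN at *; omega
  rcases hs with ⟨s1, s2⟩ | ⟨s1, s2⟩
  · obtain ⟨w, w1, w2, w3, w4, hw⟩ := order4 hn hN hg h1 h2 h3 h4 f12 f23 f34 f41 hac s1.le s2 hda.le
      n1 n2 n3 n4
    exact ⟨w, w1, w2, w3, w4, Or.inl hw⟩
  · obtain ⟨w, w1, w2, w3, w4, hw⟩ := order4 hn hN hg h1 h4 h3 h2 (hsym f41) (hsym f34) (hsym f23)
      (hsym f12) had s1.le s2 hca.le n1 n4 n3 n2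
    refine ⟨![w 0 + 4 * (2 * (N - 1) + 1), w 3, w 2, w 1], ?_, w4, w3, w2, Or.inr ?_⟩
    · show Sp874.cl (N - 1) (w 0 + 4 * (2 * (N - 1) + 1)) = k1
      rw [Sp874.cl_period (by omega : 0 ≤ N - 1), w1]
    · obtain ⟨g1, g2, g3, g4⟩ := hw
      refine ⟨?_, ?_, ?_, ?_⟩
      · show w 3 + g ≤ w 0 + 4 * (2 * (N - 1) + 1)
        omega
      · show w 2 + g ≤ w 3
        omega
      · show w 1 + g ≤ w 2
        omega
      · show w 0 + 4 * (2 * (N - 1) + 1) + g ≤ w 1 + 4 * (2 * (N - 1) + 1)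
        omega

end Crest.Agent.R158.Sr200
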