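import Crest.Agent.R158.Kd6_458
import Crest.Agent.R158.Sq4_200

/-!
# Row 158 (helper874), SEP: outer cells from points

* `kp n N x` : the cell of the ring `N - 1` next to the point `x` of the circle of radius `N n`
* `nr_kp`, `mem_kp`, `far_kp`, `bk_kp`
* `outP`, `outD` : the arms of 458's core give the landing events of `Uout`
-/

set_option autoImplicit false

noncomputable section

namespace Crest.Agent.R158.Oc874

open MeasureTheory ProbabilityTheory unitInterval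
open Crest.Agent.R161.Geo729 Crest.Agent.R161.Topo374 Crest.Agent.R161.Dual374
open Crest.Agent.R161.Tas682 hiding Sq
open Crest.Agent.R158.Rs689 Crest.Agent.R158.Ru874 Crest.Agent.R158.Sp580
open Crest.Agent.R158.Sp874 (FarN nr Gd' farN_cl_cl)
open Crest.Agent.R158.Kd458 (So Fo Fi FoT FoR)

/-- clamp -/
def cp (N k : ℤ) : ℤ := max (-N) (min (N - 1) k)

/-- ring cell of a point -/
def kp (n N : ℤ) (x : P2) : P2 := (cp N (x.1 / n), cp N (x.2 / n))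

theorem cp_bd {N : ℤ} (hN : 1 ≤ N) (k : ℤ) : -N ≤ cp N k ∧ cp N k ≤ N - 1 := by
  unfold cp
  omega

theorem cp_near {n N t : ℤ} (hn : 1 ≤ n) (hN : 1 ≤ N) (h1 : -(N * n) - n ≤ t) (h2 : t ≤ N * n + n) :
    (cp N (t / n) - 1) * n ≤ t ∧ t ≤ (cp N (t / n) + 2) * n := by
  have h3 := Int.emod_nonneg t (by omega : n ≠ 0)
  have h4 := Int.emod_lt_of_pos t (by omega : 0 < n)
  have h5 := Int.emod_add_mul_ediv t n
  unfold cp
  rcases le_total (t / n) (N - 1) with h6 | h6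
  · rw [min_eq_right h6]
    rcases le_total (-N) (t / n) with h7 | h7
    · rw [max_eq_right h7]
      constructor <;> nlinarith
    · rw [max_eq_left h7]
      constructor
      · nlinarith
      · nlinarith
  · rw [min_eq_left h6, max_eq_right (by omega)]
    constructor
    · nlinarith
    · nlinarith

/-- near the circle of radius `N n` -/
def NC (n N : ℤ) (x : P2) : Prop :=
  (-(N * n) - n ≤ x.1 ∧ x.1 ≤ N * n + n ∧ -(N * n) - n ≤ x.2 ∧ x.2 ≤ N * n + n) ∧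
    (x.1 < -(N * n) + n ∨ N * n - n ≤ x.1 ∨ x.2 < -(N * n) + n ∨ N * n - n ≤ x.2)

theorem nr_kp {n N : ℤ} (hn : 1 ≤ n) (hN : 1 ≤ N) {x : P2} (h : NC n N x) : nr (kp n N x) = N - 1 := by
  have b1 := cp_bd hN (x.1 / n)
  have b2 := cp_bd hN (x.2 / n)
  have lo : ∀ t : ℤ, t < -(N * n) + n → cp N (t / n) = -N := by
    intro t ht
    have : t / n < -N + 1 := by
      rw [Int.ediv_lt_iff_lt_mul (by omega)]
      nlinarith
    unfold cp
    omega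
  have hi : ∀ t : ℤ, N * n - n ≤ t → cp N (t / n) = N - 1 := by
    intro t ht
    have : N - 1 ≤ t / n := by
      rw [Int.le_ediv_iff_mul_le (by omega)]
      nlinarith
    unfold cp
    omega
  unfold nr kp
  simp only
  rcases h.2 with h | h | h | h
  · rw [lo _ h]; omega
  · rw [hi _ h]; omega
  · rw [lo _ h]; omega
  · rw [hi _ h]; omega

theorem mem_kp {n : ℕ} {N : ℤ} (hn : 1 ≤ n) (hN : 1 ≤ N) {x : P2} (h : NC n N x) :
    x ∈ Bk n (kp n N x) 1 := by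
  have hn' : (1 : ℤ) ≤ n := by exact_mod_cast hn
  obtain ⟨⟨h1, h2, h3, h4⟩, -⟩ := h
  have a := cp_near hn' hN h1 h2
  have b := cp_near hn' hN h3 h4
  rw [mem_Bk]
  unfold kp
  simp only
  refine ⟨a.1, ?_, b.1, ?_⟩
  · linarith [a.2]
  · linarith [b.2]

theorem far_kp {n : ℕ} {N F : ℤ} (hn : 1 ≤ n) (hN : 1 ≤ N) {x y : P2} (hx : NC n N x)
    (hy : NC n N y) (h : (F + 3) * n ≤ sd x y) : FarN F (kp n N x) (kp n N y) := by
  have hn' : (1 : ℤ) ≤ n := by exact_mod_cast hn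
  have a := mem_kp hn hN hx
  have b := mem_kp hn hN hy
  rw [mem_Bk] at a b
  by_contra hc
  rw [Sr200.not_farN] at hc
  obtain ⟨c1, c2, c3, c4⟩ := hc
  have h1 : ¬ sd x y ≤ (F + 3) * n - 1 := by omega
  apply h1
  rw [sd_le]
  obtain ⟨a1, a2, a3, a4⟩ := a
  obtain ⟨b1, b2, b3, b4⟩ := b
  refine ⟨?_, ?_, ?_, ?_⟩
  · nlinarith
  · nlinarith
  · nlinarith
  · nlinarith

/-- points of the block are near the point -/
theorem bk_kp {n : ℕ} {N : ℤ} (hn : 1 ≤ n) (hN : 1 ≤ N) {x v : P2} (hx : NC n N x)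
    (hv : v ∈ Bk n (kp n N x) 8) : sd x v ≤ 10 * n := by
  have a := mem_kp hn hN hx
  rw [mem_Bk] at a hv
  rw [sd_le]
  obtain ⟨a1, a2, a3, a4⟩ := a
  obtain ⟨b1, b2, b3, b4⟩ := hv
  refine ⟨?_, ?_, ?_, ?_⟩ <;> nlinarith

theorem nc_of_sd {n N : ℤ} (hn : 1 ≤ n) {x : P2} (h : sd (0, 0) x = N * n) : NC n N x := by
  have h1 := (sd_le (x := (0, 0)) (p := x) (k := N * n)).1 h.le
  have h2 : ¬ sd (0, 0) x ≤ N * n - 1 := by omega
  rw [sd_le] at h2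
  simp only at h1 h2
  unfold NC
  omega

theorem nc_of_face {n N : ℤ} (hn : 1 ≤ n) {y : P2} (h : y ∈ Fi (0, 0) (N * n + 1))
    (h' : y ∉ Fi (0, 0) (N * n)) : NC n N y := by
  simp only [Fi, mem_rect] at h h'
  unfold NC
  omega

theorem fo_eq {FL : Set P2} {ρ : ℤ} : OutF FL ρ = FL ∩ (Fi (0, 0) ρ)ᶜ := by
  ext f
  simp only [OutF, Fi, Set.mem_inter_iff, Set.mem_ofPred_eq, Set.mem_compl_iff, mem_rect, zero_sub,
    zero_add]

/-- primal landing -/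
theorem outP {n N : ℕ} (hn : 1 ≤ n) (hN : 1 ≤ N) {z : Cf} {L : Set P2} {x x' p p' w w' y y' : P2}
    {t : ℤ} (ht : 12 * (n : ℤ) ≤ t) (hx : NC n N x) (hx' : NC n N x') (hy : NC n N y)
    (hy' : NC n N y') (hw : sd y w ≤ 1) (hw' : sd y' w' ≤ 1) {P1 P3 : Set P2} (hp : p ∈ P1)
    (hp' : p' ∈ P3)
    (h1 : OC z (OutV L (N * n) ∩ {v | t ≤ sd w v} ∩ {v | t ≤ sd w' v}) x p)
    (h2 : OC z (OutV L (N * n) ∩ {v | t ≤ sd w v} ∩ {v | t ≤ sd w' v}) x' p') :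
    z ∈ UoutP L (N * n) n (kp n N x) (kp n N y) (kp n N x') (kp n N y') P1 P3 := by
  have hn' : (1 : ℤ) ≤ n := by exact_mod_cast hn
  have hN' : (1 : ℤ) ≤ N := by exact_mod_cast hN
  have hsub : OutV L (N * n) ∩ {v | t ≤ sd w v} ∩ {v | t ≤ sd w' v} ⊆
      OutV L (N * n) \ Bk2 n (kp n N y) (kp n N y') 8 := by
    rintro v ⟨⟨h1, h2⟩, h3⟩
    rw [Set.mem_ofPred_eq] at h2 h3
    refine ⟨h1, ?_⟩
    rintro (h4 | h4)
    · have h5 := bk_kp hn hN' hy h4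
      have h6 := Kd458.sd_tri w y v
      rw [Kd458.sd_symm w y] at h6
      omega
    · have h5 := bk_kp hn hN' hy' h4
      have h6 := Kd458.sd_tri w' y' v
      rw [Kd458.sd_symm w' y'] at h6
      omega
  exact ⟨⟨x, mem_kp hn hN' hx, p, hp, h1.monoS hsub⟩, ⟨x', mem_kp hn hN' hx', p', hp', h2.monoS hsub⟩⟩

/-- dual landing -/
theorem outD {n N : ℕ} (hn : 1 ≤ n) (hN : 1 ≤ N) {z : Cf} {FL : Set P2} {x x' f f' y y' : P2}
    {s : ℤ} (hs : 12 * (n : ℤ) ≤ s) (hx : NC n N x) (hx' : NC n N x') (hy : NC n N y)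
    (hy' : NC n N y') {Q2 Q4 : Set P2} (hf : f ∈ Q2) (hf' : f' ∈ Q4)
    (h1 : OC (dual z) (OutF FL (N * n) ∩ {v | s ≤ sd x v} ∩ {v | s ≤ sd x' v}) y f)
    (h2 : OC (dual z) (OutF FL (N * n) ∩ {v | s ≤ sd x v} ∩ {v | s ≤ sd x' v}) y' f') :
    z ∈ UoutD FL (N * n) n (kp n N x) (kp n N y) (kp n N x') (kp n N y') Q2 Q4 := by
  have hn' : (1 : ℤ) ≤ n := by exact_mod_cast hn
  have hN' : (1 : ℤ) ≤ N := by exact_mod_cast hN
  have hsub : OutF FL (N * n) ∩ {v | s ≤ sd x v} ∩ {v | s ≤ sd x' v} ⊆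
      OutF FL (N * n) \ Bk2 n (kp n N x) (kp n N x') 8 := by
    rintro v ⟨⟨h1, h2⟩, h3⟩
    rw [Set.mem_ofPred_eq] at h2 h3
    refine ⟨h1, ?_⟩
    rintro (h4 | h4)
    · have h5 := bk_kp hn hN' hx h4
      omega
    · have h5 := bk_kp hn hN' hx' h4
      omega
  exact ⟨⟨y, mem_kp hn hN' hy, f, hf, h1.monoS hsub⟩, ⟨y', mem_kp hn hN' hy', f', hf', h2.monoS hsub⟩⟩

/-! ### finitely many cells -/

theorem cl_add {j : ℤ} (hj : 0 ≤ j) (w m : ℤ) :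
    Sp874.cl j (w + 4 * (2 * j + 1) * m) = Sp874.cl j w := by
  rw [← Sr200.cel_eq, ← Sr200.cel_eq, Sr200.cel_add hj]

theorem norm_w {N g : ℤ} (hN : 1 ≤ N) (hg : 0 ≤ g) {w : Fin 4 → ℤ}
    (h : Sp874.Gd (N - 1) g w ∨ Gd' (N - 1) g w) :
    ∃ w' : Fin 4 → ℤ, (∀ i, 0 ≤ w' i ∧ w' i < 16 * N) ∧
      (∀ i, Sp874.cl (N - 1) (w' i) = Sp874.cl (N - 1) (w i)) ∧
      (Sp874.Gd (N - 1) g w' ∨ Gd' (N - 1) g w') := by
  obtain ⟨b, hb⟩ : ∃ b : Fin 4, ∀ i, w b ≤ w i ∧ w i ≤ w b + 4 * (2 * (N - 1) + 1) := by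
    rcases h with ⟨h1, h2, h3, h4⟩ | ⟨h1, h2, h3, h4⟩
    · exact ⟨0, by
        intro i
        fin_cases i <;> simp <;> omega⟩
    · exact ⟨3, by
        intro i
        fin_cases i <;> simp <;> omega⟩
  have hP : (0 : ℤ) < 4 * (2 * (N - 1) + 1) := by omega
  have e0 := Int.emod_add_mul_ediv (w b) (4 * (2 * (N - 1) + 1))
  have e1 := Int.emod_nonneg (w b) hP.ne'
  have e2 := Int.emod_lt_of_pos (w b) hP
  set m : ℤ := w b / (4 * (2 * (N - 1) + 1)) with hm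
  refine ⟨fun i => w i + 4 * (2 * (N - 1) + 1) * (-m), ?_, ?_, ?_⟩
  · intro i
    have := hb i
    show 0 ≤ w i + 4 * (2 * (N - 1) + 1) * (-m) ∧ w i + 4 * (2 * (N - 1) + 1) * (-m) < 16 * N
    rw [mul_neg]
    omega
  · intro i
    exact cl_add (by omega) _ _
  · generalize 4 * (2 * (N - 1) + 1) * (-m) = D
    simp only [Sp874.Gd, Gd']
    rcases h with ⟨h1, h2, h3, h4⟩ | ⟨h1, h2, h3, h4⟩
    · exact Or.inl ⟨by omega, by omega, by omega, by omega⟩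
    · exact Or.inr ⟨by omega, by omega, by omega, by omega⟩

/-- finite union over the cells -/
theorem cover_le {Ω : Type*} [MeasurableSpace Ω] {μ : Measure Ω} [IsFiniteMeasure μ] {A : Set Ω}
    {U : (Fin 4 → ℤ) → Set Ω} {Q : (Fin 4 → ℤ) → Prop} {M : ℕ}
    (h : ∀ z ∈ A, ∃ w : Fin 4 → ℤ, (∀ i, 0 ≤ w i ∧ w i < M) ∧ Q w ∧ z ∈ U w) {B : ℝ} (hB : 0 ≤ B)
    (hU : ∀ w, Q w → μ.real (U w) ≤ B) : μ.real A ≤ (M : ℝ) ^ 4 * B := by
  classical
  set S : Finset (Fin 4 → ℤ) := (Fintype.piFinset fun _ => Finset.Ico (0 : ℤ) M).filter Q with hS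
  have hc : S.card ≤ M ^ 4 := by
    refine (Finset.card_filter_le _ _).trans ?_
    rw [Fintype.card_piFinset]
    simp
  have h1 : A ⊆ ⋃ w ∈ S, U w := by
    intro z hz
    obtain ⟨w, h2, h3, h4⟩ := h z hz
    refine Set.mem_biUnion (x := w) ?_ h4
    rw [hS]
    refine Finset.mem_coe.2 (Finset.mem_filter.2 ⟨Fintype.mem_piFinset.2 fun i => ?_, h3⟩)
    exact Finset.mem_Ico.2 (h2 i)
  calc μ.real A ≤ μ.real (⋃ w ∈ S, U w) := measureReal_mono h1 (measure_ne_top _ _)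
    _ ≤ ∑ w ∈ S, μ.real (U w) := measureReal_biUnion_finset_le _ _
    _ ≤ ∑ _w ∈ S, B := Finset.sum_le_sum fun w hw => hU w (Finset.mem_filter.1 hw).2
    _ = S.card * B := by rw [Finset.sum_const, nsmul_eq_mul]
    _ ≤ (M : ℝ) ^ 4 * B := mul_le_mul_of_nonneg_right (by exact_mod_cast hc) hB

end Crest.Agent.R158.Oc874
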