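import Crest.Agent.R158.Oc1_194
import Crest.Agent.R158.Al6_194

/-!
# R158, order of the ends, part 2 (helper194): charges of the marks in any cyclic order

`K : Port T → β` (linear order) which increases along the cyclic list `L w`, except at the port `b0`.

* `srt` : the comparison of `K` = the comparison of the indices read from `b0`
* `cK`, `kK` : the cumulated charges and the constant in the order `K`
* **`cM_cK`, `cS_cK`** : `cM = kK + cK`, `cS = kK + cK`
* **`hL_cM`, `hL_cS`** : `hL s w cM = v2 ^ kK * hL s w cK`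
* **`HV_K`** : the observable in the order `K`
-/

set_option autoImplicit false
set_option linter.unusedVariables false
set_option linter.unusedSectionVars false
set_option linter.unusedSimpArgs false

namespace Crest.Agent.R158.Oc194

open Finset
open Crest.Agent.R158.Sw300
open Crest.Agent.R158.Al194
open Crest.Agent.R158.Vt300 (v2)
open Crest.Agent.R158.Qc405 (Cy)

section lists

variable {α β : Type*} [BEq α] [LawfulBEq α] [LinearOrder β]

lemma rotl_split {l1 l2 : List α} {b : α} (h : b ∉ l1) : rotl (l1 ++ b :: l2) b = b :: l2 ++ l1 := by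
  unfold rotl
  rw [List.idxOf_append_of_notMem h, List.idxOf_cons_self, add_zero, List.rotate_append_length_eq]

/-- the list read from `b0` is sorted by `K` -/
lemma sorted_rotl {l : List α} (hnd : l.Nodup) {r : α → α → Prop} (hcy : Cy r l) {K : α → β}
    {b0 : α} (hb : b0 ∈ l) (hr : ∀ a b, a ∈ l → b ∈ l → r a b → K a < K b ∨ b = b0) :
    (rotl l b0).Pairwise fun a b => K a < K b := by
  obtain ⟨l1, l2, rfl⟩ := List.append_of_mem hb
  have h1 := List.nodup_append.1 hnd
  have hb1 : b0 ∉ l1 := fun hm => h1.2.2 b0 hm b0 (by simp) rfl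
  have hb2 : b0 ∉ l2 := (List.nodup_cons.1 h1.2.1).1
  rw [rotl_split hb1]
  have h2 : Cy r (b0 :: (l2 ++ l1)) := by
    have := Cy.rotn hcy
    simpa using this
  have h3 : List.IsChain r (b0 :: ((l2 ++ l1) ++ [b0])) := h2
  have h4 : List.IsChain r (b0 :: (l2 ++ l1)) := by
    have e : b0 :: ((l2 ++ l1) ++ [b0]) = (b0 :: (l2 ++ l1)) ++ [b0] := by simp
    rw [e] at h3
    exact (List.isChain_append.1 h3).1
  have key : ∀ (m : List α) (x : α), List.IsChain r (x :: m) → b0 ∉ m →
      (∀ y ∈ x :: m, y ∈ l1 ++ b0 :: l2) → List.IsChain (fun a b => K a < K b) (x :: m) := by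
    intro m
    induction m with
    | nil => intro x _ _ _; exact List.isChain_singleton _
    | cons y m ih =>
      intro x hc hn hm
      rw [List.isChain_cons_cons] at hc ⊢
      simp only [List.mem_cons, not_or] at hn
      refine ⟨?_, ih y hc.2 hn.2 fun z hz => hm z (by simp only [List.mem_cons] at hz ⊢; tauto)⟩
      rcases hr x y (hm x (by simp)) (hm y (by simp)) hc.1 with h5 | h5
      · exact h5
      · exact absurd h5.symm hn.1
  have h5 := key _ _ h4 (by simp [hb1, hb2]) (fun y hy => by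
    simp only [List.mem_cons, List.mem_append] at hy ⊢; tauto)
  have h6 := h5.pairwise
  simpa using h6

lemma idx_lt_iff {l : List α} {K : α → β} (h : l.Pairwise fun a b => K a < K b) {x y : α}
    (hx : x ∈ l) (hy : y ∈ l) : K x < K y ↔ l.idxOf x < l.idxOf y := by
  have key : ∀ x y, x ∈ l → y ∈ l → l.idxOf x < l.idxOf y → K x < K y := by
    intro x y hx hy hlt
    have h1 := List.pairwise_iff_getElem.1 h _ _ (List.idxOf_lt_length_of_mem hx)
      (List.idxOf_lt_length_of_mem hy) hlt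
    rwa [List.getElem_idxOf, List.getElem_idxOf] at h1
  refine ⟨fun h1 => ?_, key x y hx hy⟩
  by_contra h2
  rcases lt_or_eq_of_le (not_lt.1 h2) with h3 | h3
  · exact absurd (key y x hy hx h3) (not_lt.2 h1.le)
  · have : x = y := by
      have e1 := List.getElem_idxOf (List.idxOf_lt_length_of_mem hx)
      have e2 := List.getElem_idxOf (List.idxOf_lt_length_of_mem hy)
      rw [← e1, ← e2]
      simp only [h3]
    rw [this] at h1
    exact lt_irrefl _ h1

lemma idx_le_iff {l : List α} {K : α → β} (h : l.Pairwise fun a b => K a < K b) {x y : α}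
    (hx : x ∈ l) (hy : y ∈ l) : K x ≤ K y ↔ l.idxOf x ≤ l.idxOf y := by
  rw [← not_lt, idx_lt_iff h hy hx, not_lt]

/-- the index read from `m` in terms of the index read from `b` -/
lemma idx_rotl_rotl {l : List α} (h : l.Nodup) {b m x : α} (hb : b ∈ l) (hm : m ∈ l) (hx : x ∈ l) :
    (rotl l m).idxOf x = sh l.length ((rotl l b).idxOf m) ((rotl l b).idxOf x) := by
  rw [idxOf_rotl h hm hx, idxOf_rotl h hb hm, idxOf_rotl h hb hx]
  have h1 := List.idxOf_lt_length_of_mem hb
  have h2 := List.idxOf_lt_length_of_mem hm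
  have h3 := List.idxOf_lt_length_of_mem hx
  unfold sh
  split_ifs <;> omega

lemma sh_le_ind {N r i j : ℕ} (hr : r < N) (hi : i < N) (hj : j < N) :
    (if sh N r i ≤ sh N r j then (1 : ℤ) else 0) =
      (if i ≤ j then 1 else 0) - (if r ≤ j then 1 else 0) + (if r ≤ i then 1 else 0) := by
  unfold sh
  split_ifs <;> omega

lemma sh_lt_ind {N r i j : ℕ} (hr : r < N) (hi : i < N) (hj : j < N) :
    (if sh N r i < sh N r j then (1 : ℤ) else 0) =
      (if i < j then 1 else 0) - (if r ≤ j then 1 else 0) + (if r ≤ i then 1 else 0) := by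
  unfold sh
  split_ifs <;> omega

end lists

section charges

variable {T β : Type*} [DecidableEq T] [LinearOrder β] {w : Wd T} {s : T → Bool}

/-- cumulated charge in the order `K` -/
def cK (K : Port T → β) (m1 m2 : Port T) (e : Option (Port T)) (x : Port T) : ℤ :=
  (if K m1 ≤ K x then 1 else 0) + (if K m2 ≤ K x then 1 else 0) -
    match e with
    | none => 2 * (if K m2 ≤ K x then 1 else 0)
    | some e => (if K e ≤ K x then 1 else 0) + (if K e < K x then 1 else 0)

/-- charge (from `m1`) at the start of the order `K` -/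
def kK (K : Port T → β) (m1 m2 : Port T) (e : Option (Port T)) : ℤ :=
  1 + (if K m1 ≤ K m2 then 1 else 0) -
    match e with
    | none => 2 * (if K m1 ≤ K m2 then 1 else 0)
    | some e => 2 * (if K m1 ≤ K e then 1 else 0)

/-- `K` increases along the list of the ends read from `b0` -/
structure Ord (w : Wd T) (K : Port T → β) (b0 : Port T) : Prop where
  ok : Ok w
  mem : b0 ∈ L w
  srt : (rotl (L w) b0).Pairwise fun a b => K a < K b

variable {K : Port T → β} {b0 : Port T}

lemma Ord.of_cy (h : Ok w) (hb : b0 ∈ L w) {r : Port T → Port T → Prop} (hcy : Cy r (L w))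
    (hr : ∀ a b, a ∈ L w → b ∈ L w → r a b → K a < K b ∨ b = b0) : Ord w K b0 :=
  ⟨h, hb, sorted_rotl (nodup h) hcy hb hr⟩

lemma Ord.lt (O : Ord w K b0) {x y : Port T} (hx : x ∈ L w) (hy : y ∈ L w) :
    K x < K y ↔ (rotl (L w) b0).idxOf x < (rotl (L w) b0).idxOf y :=
  idx_lt_iff O.srt (mem_rotl.2 hx) (mem_rotl.2 hy)

lemma Ord.le (O : Ord w K b0) {x y : Port T} (hx : x ∈ L w) (hy : y ∈ L w) :
    K x ≤ K y ↔ (rotl (L w) b0).idxOf x ≤ (rotl (L w) b0).idxOf y :=
  idx_le_iff O.srt (mem_rotl.2 hx) (mem_rotl.2 hy)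

lemma Ord.inj (O : Ord w K b0) {x y : Port T} (hx : x ∈ L w) (hy : y ∈ L w) (h : K x = K y) :
    x = y := by
  have h1 := (O.le hx hy).1 h.le
  have h2 := (O.le hy hx).1 h.ge
  exact idL_inj hx hy (le_antisymm h1 h2)

/-- **the charges, middle phase** -/
theorem Ord.cM_cK (O : Ord w K b0) {m1 m2 e x : Port T} (h1 : m1 ∈ L w) (h2 : m2 ∈ L w)
    (he : e ∈ L w) (hx : x ∈ L w) :
    cM (L w) m1 m2 (idL (L w) m1 e) x = kK K m1 m2 (some e) + cK K m1 m2 (some e) x := by
  have hnd := nodup O.ok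
  have l1 : (rotl (L w) b0).idxOf m1 < (L w).length := idL_lt (m1 := b0) h1
  have l2 : (rotl (L w) b0).idxOf m2 < (L w).length := idL_lt (m1 := b0) h2
  have l3 : (rotl (L w) b0).idxOf e < (L w).length := idL_lt (m1 := b0) he
  have l4 : (rotl (L w) b0).idxOf x < (L w).length := idL_lt (m1 := b0) hx
  unfold cM idL chm kK cK
  simp only [O.le h1 hx, O.le h2 hx, O.le he hx, O.lt he hx, O.le h1 h2, O.le h1 he]
  rw [idx_rotl_rotl hnd O.mem h1 h2, idx_rotl_rotl hnd O.mem h1 he, idx_rotl_rotl hnd O.mem h1 hx,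
    if_pos (Nat.zero_le _), sh_le_ind l1 l2 l4, sh_le_ind l1 l3 l4, sh_lt_ind l1 l3 l4]
  ring

/-- **the charges, sharp mark at `m2`** -/
theorem Ord.cS_cK (O : Ord w K b0) {m1 m2 x : Port T} (h1 : m1 ∈ L w) (h2 : m2 ∈ L w)
    (hx : x ∈ L w) :
    cS (L w) m1 m2 ((rotl (L w) m1).idxOf m2) x = kK K m1 m2 none + cK K m1 m2 none x := by
  have hnd := nodup O.ok
  have l1 : (rotl (L w) b0).idxOf m1 < (L w).length := idL_lt (m1 := b0) h1
  have l2 : (rotl (L w) b0).idxOf m2 < (L w).length := idL_lt (m1 := b0) h2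
  have l4 : (rotl (L w) b0).idxOf x < (L w).length := idL_lt (m1 := b0) hx
  unfold cS chg kK cK
  simp only [O.le h1 hx, O.le h2 hx, O.le h1 h2]
  rw [idx_rotl_rotl hnd O.mem h1 h2, idx_rotl_rotl hnd O.mem h1 hx, if_pos (Nat.zero_le _),
    sh_le_ind l1 l2 l4]
  ring

/-- between the marks -/
theorem Ord.mem_Ico (O : Ord w K b0) {m1 m2 m3 x : Port T} (hM : Mk w m1 m2 m3) (hx : x ∈ L w) :
    idL (L w) m1 x ∈ Ico ((rotl (L w) m1).idxOf m2) ((rotl (L w) m1).idxOf m3) ↔
      (x = m2 ∨ (K m2 < K x ∧ K x < K m3) ∨ (K x < K m3 ∧ K m3 < K m2) ∨ (K m3 < K m2 ∧ K m2 < K x)) := by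
  have hlt := hM.lt O.ok
  obtain ⟨h1, h2, h3, -⟩ := hM
  have hnd := nodup O.ok
  have l1 : (rotl (L w) b0).idxOf m1 < (L w).length := idL_lt (m1 := b0) h1
  have l2 : (rotl (L w) b0).idxOf m2 < (L w).length := idL_lt (m1 := b0) h2
  have l3 : (rotl (L w) b0).idxOf m3 < (L w).length := idL_lt (m1 := b0) h3
  have l4 : (rotl (L w) b0).idxOf x < (L w).length := idL_lt (m1 := b0) hx
  have hxe : x = m2 ↔ (rotl (L w) b0).idxOf x = (rotl (L w) b0).idxOf m2 :=
    ⟨fun e => by rw [e], fun e => idL_inj hx h2 e⟩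
  rw [hxe, O.lt h2 hx, O.lt hx h3, O.lt h3 h2, Finset.mem_Ico]
  unfold idL
  rw [idx_rotl_rotl hnd O.mem h1 h2, idx_rotl_rotl hnd O.mem h1 h3] at hlt ⊢
  rw [idx_rotl_rotl hnd O.mem h1 hx]
  unfold sh at hlt ⊢
  split_ifs at hlt ⊢ <;> omega

/-! ### the weights -/

lemma er_add (a b : ℝ) : er (a + b) = er a * er b := by
  unfold er
  rw [← Complex.exp_add]
  congr 1
  push_cast
  ring

lemma hL_const (h : Ok w) (a : ℝ) {c c' : Port T → ℝ} (e : ∀ x ∈ L w, c' x = a + c x) :
    hL s w c' = er a * hL s w c := by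
  unfold hL
  have hu := (Ok.inv s w h).um
  rw [e _ hu, er_add]
  have : (∏ x ∈ ((L w).toFinset).filter (fun x => x ≠ u s w ∧ S s w x = true),
      wr (c' (M s w x) - c' x)) = ∏ x ∈ ((L w).toFinset).filter
        (fun x => x ≠ u s w ∧ S s w x = true), wr (c (M s w x) - c x) := by
    refine prod_congr rfl fun x hx => ?_
    rw [mem_filter, List.mem_toFinset] at hx
    rw [e _ ((Ok.inv s w h).mem _ hx.1), e _ hx.1]
    congr 1
    ring
  rw [this]
  ring

theorem Ord.hL_cM (O : Ord w K b0) {m1 m2 e : Port T} (h1 : m1 ∈ L w) (h2 : m2 ∈ L w)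
    (he : e ∈ L w) :
    hL s w (fun x => (cM (L w) m1 m2 (idL (L w) m1 e) x : ℝ)) =
      v2 ^ kK K m1 m2 (some e) * hL s w (fun x => (cK K m1 m2 (some e) x : ℝ)) := by
  rw [← er_int]
  refine hL_const O.ok _ fun x hx => ?_
  rw [O.cM_cK h1 h2 he hx]
  push_cast
  rfl

theorem Ord.hL_cS (O : Ord w K b0) {m1 m2 : Port T} (h1 : m1 ∈ L w) (h2 : m2 ∈ L w) :
    hL s w (fun x => (cS (L w) m1 m2 ((rotl (L w) m1).idxOf m2) x : ℝ)) =
      v2 ^ kK K m1 m2 none * hL s w (fun x => (cK K m1 m2 none x : ℝ)) := by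
  rw [← er_int]
  refine hL_const O.ok _ fun x hx => ?_
  rw [O.cS_cK h1 h2 hx]
  push_cast
  rfl

/-- cyclic order in terms of `K` -/
theorem Ord.cyc_iff (O : Ord w K b0) {x y z : Port T} (hx : x ∈ L w) (hy : y ∈ L w) (hz : z ∈ L w) :
    cyc (pos w x) (pos w y) (pos w z) ↔
      (K x < K y ∧ K y < K z) ∨ (K y < K z ∧ K z < K x) ∨ (K z < K x ∧ K x < K y) := by
  rw [cyc_idL O.ok O.mem hx hy hz, O.lt hx hy, O.lt hy hz, O.lt hz hx]
  unfold cyc
  omega

end charges

end Crest.Agent.R158.Oc194
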