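import Crest.Agent.R158.Oc2_194
import Crest.Agent.R158.Fm1_857

/-!
# R158, order of the ends, part 3 (helper194): the clockwise order of the region with stubs

`B : Band A`, word `w` of `Dp A B.xl B.xr B.y1 B.y2 k`, glueing `beD .. p y0 (B.xr + k)`.

* `KD B x` : position of the free end `x` (lexicographic pair; blocks of 857's `pG`, the left cut in
  block `2` after the floor, the right cut in block `5` after the ceiling)
* **`ord_D`** : `KD` increases along the list `L w` read from the first end of the right floor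
-/

set_option autoImplicit false
set_option linter.unusedVariables false
set_option linter.unusedSectionVars false
set_option linter.unusedSimpArgs false

noncomputable section

namespace Crest.Agent.R158.Oc194

open Finset
open Crest.Agent.R158.Sw300
open Crest.Agent.R158.Al194
open Crest.Agent.R158.Pt266
open Crest.Agent.R158.Xr249 (rot rot_some rot_none Dp mem_Dp Free full full_h full_v Reg)
open Crest.Agent.R158.Qc405 (Cy NxS NS sgD TabH GD none_notin_L isLeg_of_bas)
open Crest.Agent.R158.Ob664 (GW)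
open Crest.Agent.R158.Env664 (beD TG Band Run)
open Crest.Agent.R158.Fm857 (rD isLow)

variable {A : Finset (ℤ × ℤ)} (B : Band A)

/-- block of a free end of the region with stubs -/
def blkD : Port (ℤ × ℤ) → ℤ
  | none => 6
  | some ((x, y), d) =>
      if (x, y) ∈ A then (if isLow B ((x, y), d) then 1 else 4)
      else if B.xr < x then (if d = 3 then 0 else 5)
      else if d = 3 then 2 else if d = 1 then 3 else 2

/-- position inside the block -/
def innD : Port (ℤ × ℤ) → ℤ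
  | none => 0
  | some ((x, y), d) =>
      if (x, y) ∈ A then rD B ((x, y), d)
      else if B.xr < x then
        (if d = 3 then -(x - B.xr - 1)
         else if y = B.y2 - 1 ∧ d = 1 then x - B.xr - 1
         else B.R + 2 + 2 * (B.y2 - y) - (if d = 1 then 1 else 0))
      else if d = 3 then -(B.R - (B.xl - x))
      else if d = 1 then B.R + 1 - (B.xl - x)
      else 1 + (y - B.y1)

/-- **position in the clockwise order of the region with stubs** -/
def KD (x : Port (ℤ × ℤ)) : ℤ ×ₗ ℤ := toLex (blkD B x, innD B x)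

variable {B} {x y : ℤ} {k p y0 : ℤ} {ψ : (ℤ × ℤ) × ZMod 4 → ℤ}

lemma KD_lt {a b : Port (ℤ × ℤ)} : KD B a < KD B b ↔
    blkD B a < blkD B b ∨ (blkD B a = blkD B b ∧ innD B a < innD B b) := by
  unfold KD; rw [Prod.Lex.toLex_lt_toLex]

lemma K_A {d : ZMod 4} (h : (x, y) ∈ A) :
    blkD B (some ((x, y), d)) = (if isLow B ((x, y), d) then 1 else 4) ∧
      innD B (some ((x, y), d)) = rD B ((x, y), d) := by
  simp only [blkD, innD]; rw [if_pos h, if_pos h]; exact ⟨rfl, rfl⟩

lemma z13 : (1 : ZMod 4) ≠ 3 := by decide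
lemma z23 : (2 : ZMod 4) ≠ 3 := by decide
lemma z21 : (2 : ZMod 4) ≠ 1 := by decide
lemma z03 : (0 : ZMod 4) ≠ 3 := by decide
lemma z01 : (0 : ZMod 4) ≠ 1 := by decide

lemma K_rS (h : (x, y) ∉ A) (hx : B.xr < x) : blkD B (some ((x, y), 3)) = 0 ∧
    innD B (some ((x, y), 3)) = -(x - B.xr - 1) := by
  simp only [blkD, innD]; rw [if_neg h, if_neg h, if_pos hx, if_pos hx]; exact ⟨rfl, rfl⟩

lemma K_rN (h : (x, B.y2 - 1) ∉ A) (hx : B.xr < x) : blkD B (some ((x, B.y2 - 1), 1)) = 5 ∧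
    innD B (some ((x, B.y2 - 1), 1)) = x - B.xr - 1 := by
  simp only [blkD, innD]
  rw [if_neg h, if_neg h, if_pos hx, if_pos hx, if_neg z13, if_neg z13, if_pos ⟨trivial, trivial⟩]
  exact ⟨rfl, rfl⟩

lemma K_rM (h : (x, y) ∉ A) (hx : B.xr < x) (hy : y ≠ B.y2 - 1) :
    blkD B (some ((x, y), 1)) = 5 ∧
      innD B (some ((x, y), 1)) = B.R + 2 + 2 * (B.y2 - y) - 1 := by
  simp only [blkD, innD]
  rw [if_neg h, if_neg h, if_pos hx, if_pos hx, if_neg z13, if_neg z13, if_neg fun e => hy e.1]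
  exact ⟨rfl, rfl⟩

lemma K_rE (h : (x, y) ∉ A) (hx : B.xr < x) : blkD B (some ((x, y), 2)) = 5 ∧
    innD B (some ((x, y), 2)) = B.R + 2 + 2 * (B.y2 - y) := by
  simp only [blkD, innD]
  rw [if_neg h, if_neg h, if_pos hx, if_pos hx, if_neg z23, if_neg z23, if_neg fun e => z21 e.2,
    if_neg z21, sub_zero]
  exact ⟨rfl, rfl⟩

lemma K_lS (h : (x, y) ∉ A) (hx : ¬ B.xr < x) : blkD B (some ((x, y), 3)) = 2 ∧
    innD B (some ((x, y), 3)) = -(B.R - (B.xl - x)) := by
  simp only [blkD, innD]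
  rw [if_neg h, if_neg h, if_neg hx, if_neg hx, if_pos trivial, if_pos trivial]
  exact ⟨rfl, rfl⟩

lemma K_lN (h : (x, y) ∉ A) (hx : ¬ B.xr < x) : blkD B (some ((x, y), 1)) = 3 ∧
    innD B (some ((x, y), 1)) = B.R + 1 - (B.xl - x) := by
  simp only [blkD, innD]
  rw [if_neg h, if_neg h, if_neg hx, if_neg hx, if_neg z13, if_neg z13, if_pos trivial,
    if_pos trivial]
  exact ⟨rfl, rfl⟩

lemma K_lW (h : (x, y) ∉ A) (hx : ¬ B.xr < x) : blkD B (some ((x, y), 0)) = 2 ∧
    innD B (some ((x, y), 0)) = 1 + (y - B.y1) := by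
  simp only [blkD, innD]
  rw [if_neg h, if_neg h, if_neg hx, if_neg hx, if_neg z03, if_neg z03, if_neg z01, if_neg z01]
  exact ⟨rfl, rfl⟩

/-! ### ranks in the list of `D` -/

section ranks

variable {w0 : Wd (ℤ × ℤ)} {l0 : List (Port (ℤ × ℤ))}

lemma rD_next (hB : Psi664.BW (full A) B.xl B.y1 w0 l0) {a b : (ℤ × ℤ) × ZMod 4} {κ : ℤ}
    (ha : RFree (full A) a) (h : NxT (full A).gl (some a) (some b) κ) (hb : b ≠ ((B.xl, B.y1), 0)) :
    rD B b = rD B a + 1 := by
  unfold rD
  rw [Psi664.rk_next hB ha h hb]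
  push_cast
  rfl

lemma rk_last {R : Reg} {a t : ℤ} {w : Wd (ℤ × ℤ)} {l : List (Port (ℤ × ℤ))}
    (h : Psi664.BW R a t w l) {x : (ℤ × ℤ) × ZMod 4} {κ : ℤ} (hx : RFree R x)
    (hxy : NxT R.gl (some x) (some ((a, t), 0)) κ) :
    Psi664.rk R a t x + 1 = (Psi664.ends R a t).length := by
  rcases h.next hx hxy with ⟨h1, -⟩ | ⟨-, ⟨l1, h1⟩, -⟩
  · exact absurd rfl h1
  · have hnd := h.nd
    unfold Psi664.rk
    rw [Psi664.ends_eq h]
    have h2 : some (Psi664.bp a t) :: l = l1 ++ [some x] := h1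
    rw [h2] at hnd ⊢
    have h3 : some x ∉ l1 := fun hm =>
      (List.nodup_append.1 hnd).2.2 _ hm _ (List.mem_singleton.2 rfl) rfl
    rw [List.idxOf_append_of_notMem h3, List.idxOf_cons_self, List.length_append,
      List.length_singleton, add_zero]

variable (H : TabH A B.xl B.xr B.y1 B.y2 k p y0 ψ)

include H

lemma v_mouthL {n : ℤ} (h1 : B.y1 - 1 ≤ n) (h2 : n < B.y2) :
    (full A).v (B.xl, n) ∧ ¬ (full A).h (B.xl - 1, n + 1) := by
  have hk := H.hk
  have hle := H.hf.le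
  have m : ∀ n, B.y1 - 1 ≤ n → n ≤ B.y2 → (B.xl, n) ∈ A := by
    intro n g1 g2
    by_cases g3 : n = B.y1 - 1
    · rw [g3]; exact H.c1
    by_cases g4 : n = B.y2
    · rw [g4]; exact H.c3
    · exact H.run _ _ le_rfl hle (by omega) (by omega)
  refine ⟨full_v.2 ⟨m _ h1 (by omega), m _ (by omega) (by omega)⟩, fun hc => ?_⟩
  exact H.nl (x := B.xl - 1) (by omega) (by omega) (by omega) (by omega) (full_h.1 hc).1

/-- ranks along the left mouth -/
lemma rk_mouthL (hB : Psi664.BW (full A) B.xl B.y1 w0 l0) : ∀ n : ℕ, B.y1 + n ≤ B.y2 →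
    RFree (full A) ((B.xl, B.y1 + n), 0) ∧ Psi664.rk (full A) B.xl B.y1 ((B.xl, B.y1 + n), 0) = n
  | 0, h => by
    simp only [Nat.cast_zero, add_zero]
    exact ⟨hB.bfree, Psi664.rk_base hB⟩
  | n + 1, h => by
    obtain ⟨i1, i2⟩ := rk_mouthL hB n (by push_cast at h; omega)
    obtain ⟨hv, hh⟩ := v_mouthL H (n := B.y1 + n) (by omega) (by push_cast at h; omega)
    have h1 := Psi664.nxt_left hv hh
    have hP := ((full A).vP _ _ hv).2
    have e : ((B.xl, B.y1 + ((n + 1 : ℕ) : ℤ)), (0 : ZMod 4)) = ((B.xl, B.y1 + n + 1), 0) := by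
      push_cast; rw [add_assoc]
    rw [e]
    refine ⟨Psi664.free_left hP hh, ?_⟩
    rw [Psi664.rk_next hB i1 h1 (by
      simp only [Psi664.bp, ne_eq, Prod.mk.injEq, true_and, and_true]; omega), i2]

/-- the last end of the right mouth and the next one -/
lemma mouthR : RFree (full A) ((B.xr, B.y1), 2) ∧ RFree (full A) ((B.xr, B.y1 - 1), 2) ∧
    NxT (full A).gl (some ((B.xr, B.y1), 2)) (some ((B.xr, B.y1 - 1), 2)) 0 := by
  have hk := H.hk
  have hle := H.hf.le
  have h1 := H.hy1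
  have h2 := H.hy2
  have m1 : (B.xr, B.y1) ∈ A := H.run _ _ hle le_rfl le_rfl (by omega)
  have hv : (full A).v (B.xr, B.y1 - 1) := full_v.2 ⟨H.c2, by rwa [sub_add_cancel]⟩
  have hh : ¬ (full A).h (B.xr, B.y1 - 1) := fun hc =>
    H.nr (x := B.xr + 1) (by omega) (by omega) (by omega) (by omega) (full_h.1 hc).2
  have hh' : ¬ (full A).h (B.xr, B.y1) := fun hc =>
    H.nr (x := B.xr + 1) (by omega) (by omega) (by omega) (by omega) (full_h.1 hc).2
  exact ⟨Psi664.free_right m1 hh', Psi664.free_right H.c2 hh, Psi664.nxt_right hv hh⟩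

lemma low_first (hB : Psi664.BW (full A) B.xl B.y1 w0 l0) : isLow B ((B.xr, B.y1 - 1), 2) := by
  obtain ⟨h1, -, h3⟩ := mouthR H
  have := rD_next hB h1 h3 (by
    intro e
    have : (2 : ZMod 4) = 0 := congrArg Prod.snd e
    exact absurd this (by decide))
  unfold isLow
  omega

lemma low_last (hB : Psi664.BW (full A) B.xl B.y1 w0 l0) : isLow B ((B.xl, B.y1 - 1), 0) := by
  have hk := H.hk
  have h1 := H.hy1
  have h2 := H.hy2
  obtain ⟨hv, hh⟩ := v_mouthL H (n := B.y1 - 1) (by omega) (by omega)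
  have hN := Psi664.nxt_left hv hh
  rw [sub_add_cancel] at hN
  have hfr : RFree (full A) ((B.xl, B.y1 - 1), 0) := Psi664.free_left ((full A).vP _ _ hv).1 fun hc =>
    H.nl (x := B.xl - 1) (by omega) (by omega) (by omega) (by omega) (full_h.1 hc).1
  have e1 := rk_last hB hfr hN
  obtain ⟨g1, -, -⟩ := mouthR H
  have e2 := Psi664.rk_lt hB g1
  have e3 : Psi664.rk (full A) B.xl B.y1 ((B.xr, B.y1), 2) ≠
      Psi664.rk (full A) B.xl B.y1 ((B.xl, B.y1 - 1), 0) := by
    intro e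
    have : (2 : ZMod 4) = 0 := congrArg Prod.snd (Psi664.rk_inj hB g1 hfr e)
    exact absurd this (by decide)
  unfold isLow rD
  omega

lemma up_first (hB : Psi664.BW (full A) B.xl B.y1 w0 l0) : ¬ isLow B ((B.xl, B.y2), 0) := by
  have h1 := H.hy1
  have h2 := H.hy2
  obtain ⟨g1, -, -⟩ := mouthR H
  obtain ⟨n, hn⟩ : ∃ n : ℕ, (n : ℤ) = B.y2 - B.y1 := ⟨(B.y2 - B.y1).toNat, by omega⟩
  obtain ⟨f1, f2⟩ := rk_mouthL H hB n (by omega)
  have e : B.y1 + (n : ℤ) = B.y2 := by omega
  rw [e] at f1 f2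
  unfold isLow rD
  rw [f2]
  intro hlt
  have hlt' : Psi664.rk (full A) B.xl B.y1 ((B.xr, B.y1), 2) < n := by exact_mod_cast hlt
  obtain ⟨f3, f4⟩ := rk_mouthL H hB (Psi664.rk (full A) B.xl B.y1 ((B.xr, B.y1), 2)) (by omega)
  have : (0 : ZMod 4) = 2 := congrArg Prod.snd (Psi664.rk_inj hB f3 g1 f4)
  exact absurd this (by decide)

/-- **the order increases along the table** -/
theorem suc_lt (hR : 2 * k < B.R) (hB : Psi664.BW (full A) B.xl B.y1 w0 l0)
    {a b : Port (ℤ × ℤ)} (h : Suc A B.xl B.xr B.y1 B.y2 k y0 a b) :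
    KD B a < KD B b ∨ b = some ((B.xr + k, B.y1), 3) := by
  have hk := H.hk
  have h1 := H.hy1
  have h2 := H.hy2
  have hle := H.hf.le
  have nr : ∀ x y, B.xr < x → x ≤ B.xr + k → B.y1 ≤ y → y < B.y2 → (x, y) ∉ A :=
    fun x y g1 g2 g3 g4 => H.nr g1 (by omega) (by omega) (by omega)
  have nl : ∀ x y, x < B.xl → B.xl - k ≤ x → B.y1 ≤ y → y < B.y2 → (x, y) ∉ A :=
    fun x y g1 g2 g3 g4 => H.nl g1 (by omega) (by omega) (by omega)
  rw [KD_lt]
  rcases h with hy | ⟨g1, g2⟩ | - | - | ⟨g1, g2, g3⟩ | - | ⟨g1, g2⟩ | - | ⟨g1, g2⟩ | - | ⟨g1, g2⟩ |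
    - | ⟨g1, g2⟩ | - | - | ⟨ha, hb, hN, hbase, hm2, hm0⟩
  · -- r1
    rename_i y
    have hn := nr (B.xr + k) y (by omega) (by omega) (by omega) (by omega)
    obtain ⟨e1, e2⟩ := K_rE (B := B) hn (by omega)
    by_cases hy2 : y = B.y2 - 1
    · subst hy2
      obtain ⟨e3, e4⟩ := K_rN (B := B) hn (by omega)
      left; right
      rw [e1, e2, e3, e4]; omega
    · obtain ⟨e3, e4⟩ := K_rM (B := B) hn (by omega) hy2
      left; right
      rw [e1, e2, e3, e4]; omega
  · -- r2
    rename_i x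
    obtain ⟨e1, e2⟩ := K_rN (B := B) (nr x (B.y2 - 1) (by omega) (by omega) (by omega) (by omega)) (by omega)
    obtain ⟨e3, e4⟩ := K_rN (B := B) (nr (x + 1) (B.y2 - 1) (by omega) (by omega) (by omega) (by omega))
      (by omega)
    left; right
    rw [e1, e2, e3, e4]; omega
  · -- r3
    right; rfl
  · -- r4
    obtain ⟨e1, e2⟩ := K_rE (B := B) (nr (B.xr + k) y0 (by omega) (by omega) (by omega) (by omega)) (by omega)
    obtain ⟨e3, e4⟩ := K_rM (B := B) (nr (B.xr + k) (y0 - 1) (by omega) (by omega) (by omega) (by omega))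
      (by omega) (by omega)
    left; right
    rw [e1, e2, e3, e4]; omega
  · -- r5
    rename_i y
    obtain ⟨e1, e2⟩ := K_rE (B := B) (nr (B.xr + k) y (by omega) (by omega) (by omega) (by omega)) (by omega)
    obtain ⟨e3, e4⟩ := K_rE (B := B) (nr (B.xr + k) (y - 1) (by omega) (by omega) (by omega) (by omega))
      (by omega)
    left; right
    rw [e1, e2, e3, e4]; omega
  · -- r6
    obtain ⟨e1, e2⟩ := K_rS (B := B) (nr (B.xr + 1) B.y1 (by omega) (by omega) (by omega) (by omega))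
      (by omega)
    obtain ⟨e3, e4⟩ := K_A (B := B) (d := 2) H.c2
    rw [if_pos (low_first H hB)] at e3
    left; left
    rw [e1, e3]; omega
  · -- r7
    rename_i x
    obtain ⟨e1, e2⟩ := K_rS (B := B) (nr x B.y1 (by omega) (by omega) (by omega) (by omega)) (by omega)
    obtain ⟨e3, e4⟩ := K_rS (B := B) (nr (x - 1) B.y1 (by omega) (by omega) (by omega) (by omega))
      (by omega)
    left; right
    rw [e1, e2, e3, e4]; omega
  · -- l1
    have hn := nl (B.xl - k) (B.y2 - 1) (by omega) (by omega) (by omega) (by omega)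
    obtain ⟨e1, e2⟩ := K_lW (B := B) hn (by omega)
    obtain ⟨e3, e4⟩ := K_lN (B := B) hn (by omega)
    left; left
    rw [e1, e3]; omega
  · -- l2
    rename_i y
    obtain ⟨e1, e2⟩ := K_lW (B := B) (nl (B.xl - k) y (by omega) (by omega) (by omega) (by omega)) (by omega)
    obtain ⟨e3, e4⟩ := K_lW (B := B) (nl (B.xl - k) (y + 1) (by omega) (by omega) (by omega) (by omega))
      (by omega)
    left; right
    rw [e1, e2, e3, e4]; omega
  · -- l3
    obtain ⟨e1, e2⟩ := K_lN (B := B) (nl (B.xl - 1) (B.y2 - 1) (by omega) (by omega) (by omega) (by omega))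
      (by omega)
    obtain ⟨e3, e4⟩ := K_A (B := B) (d := 0) H.c3
    rw [if_neg (up_first H hB)] at e3
    left; left
    rw [e1, e3]; omega
  · -- l4
    rename_i x
    obtain ⟨e1, e2⟩ := K_lN (B := B) (nl x (B.y2 - 1) (by omega) (by omega) (by omega) (by omega)) (by omega)
    obtain ⟨e3, e4⟩ := K_lN (B := B) (nl (x + 1) (B.y2 - 1) (by omega) (by omega) (by omega) (by omega))
      (by omega)
    left; right
    rw [e1, e2, e3, e4]; omega
  · -- l5
    have hn := nl (B.xl - k) B.y1 (by omega) (by omega) (by omega) (by omega)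
    obtain ⟨e1, e2⟩ := K_lS (B := B) hn (by omega)
    obtain ⟨e3, e4⟩ := K_lW (B := B) hn (by omega)
    left; right
    rw [e1, e2, e3, e4]; omega
  · -- l6
    rename_i x
    obtain ⟨e1, e2⟩ := K_lS (B := B) (nl x B.y1 (by omega) (by omega) (by omega) (by omega)) (by omega)
    obtain ⟨e3, e4⟩ := K_lS (B := B) (nl (x - 1) B.y1 (by omega) (by omega) (by omega) (by omega))
      (by omega)
    left; right
    rw [e1, e2, e3, e4]; omega
  · -- a1
    obtain ⟨e1, e2⟩ := K_A (B := B) (d := 0) H.c1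
    rw [if_pos (low_last H hB)] at e1
    obtain ⟨e3, e4⟩ := K_lS (B := B) (nl (B.xl - 1) B.y1 (by omega) (by omega) (by omega) (by omega))
      (by omega)
    left; left
    rw [e1, e3]; omega
  · -- a2
    obtain ⟨e1, e2⟩ := K_A (B := B) (d := 2) H.c4
    obtain ⟨e3, e4⟩ := K_rN (B := B) (nr (B.xr + 1) (B.y2 - 1) (by omega) (by omega) (by omega) (by omega))
      (by omega)
    left; left
    rw [e1, e3]; split_ifs <;> omega
  · -- a3
    rename_i a b κ
    obtain ⟨⟨x, y⟩, d⟩ := a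
    obtain ⟨⟨x', y'⟩, d'⟩ := b
    obtain ⟨e1, e2⟩ := K_A (B := B) (d := d) ha.1
    obtain ⟨e3, e4⟩ := K_A (B := B) (d := d') hb.1
    have e5 := rD_next hB ha hN hbase
    have e6 : rD B ((B.xr, B.y1), 2) ≠ rD B ((x, y), d) := by
      intro e
      unfold rD at e
      exact hm2 B.y1 le_rfl (by omega) (Psi664.rk_inj hB (mouthR H).1 ha (by exact_mod_cast e)).symm
    left
    rw [e1, e2, e3, e4]
    unfold isLow
    split_ifs <;> omega

end ranks

/-! ### the list of the ends of the word -/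

lemma Cy.of_map {α β : Type*} {r : β → β → Prop} {f : α → β} : ∀ {l : List α},
    Cy r (l.map f) → Cy (fun a b => r (f a) (f b)) l
  | [], _ => trivial
  | a :: m, h => by
    have h' : List.IsChain r ((a :: (m ++ [a])).map f) := by
      have : List.IsChain r (f a :: (m.map f ++ [f a])) := h
      simpa using this
    rw [List.isChain_map] at h'
    exact h'

/-- **`KD` increases along the list of the ends** -/
theorem ord_D {w0 : Wd (ℤ × ℤ)} {l0 : List (Port (ℤ × ℤ))}
    (H : TabH A B.xl B.xr B.y1 B.y2 k p y0 ψ) (hR : 2 * k < B.R)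
    (hB : Psi664.BW (full A) B.xl B.y1 w0 l0) {w : Wd (ℤ × ℤ)}
    (hw : GW (Dp A B.xl B.xr B.y1 B.y2 k) (beD (Dp A B.xl B.xr B.y1 B.y2 k) p y0 (B.xr + k)) w) :
    Ord w (KD B) (some ((B.xr + k, B.y1), 3)) := by
  have hk := H.hk
  have h1 := H.hy1
  have h2 := H.hy2
  have h3 := H.hp1
  have h4 := H.hp2
  have hle := H.hf.le
  have hok := hw.word.1
  have hleg := isLeg_of_bas hw.leg
  have hpD : (p, y0) ∈ Dp A B.xl B.xr B.y1 B.y2 k :=
    H.band (by omega) (by omega) (by omega) (by omega)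
  have hwl : w ≠ .leg := by
    rintro rfl
    have := (hw.word.2.2.1 (p, y0)).2 hpD
    simp [tls] at this
  have hnone := none_notin_L hok hleg hwl
  have hcc := (H.flw hw).2.2
  have hmem : some ((B.xr + k, B.y1), (3 : ZMod 4)) ∈ L w := by
    rw [Qc405.GW.memL hw]
    have o1 : (B.xr + k, B.y1 - 1) ∉ Dp A B.xl B.xr B.y1 B.y2 k :=
      H.out (H.nr (by omega) (by omega) (by omega) (by omega)) (by omega)
    refine ⟨H.band (by omega) (by omega) (by omega) (by omega), Qc405.GD_not ?_⟩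
    rw [Env664.nbD_S (by omega)]
    exact Qc405.pD' o1
  refine Ord.of_cy (r := fun a b => NS (sgD B.xl p y0 B.y2) (Gs w)
    (a, Qc405.psi (sgD B.xl p y0 B.y2) w a) (b, Qc405.psi (sgD B.xl p y0 B.y2) w b)) hok hmem
    (Cy.of_map hcc) fun a b ha hb hab => ?_
  rcases a with _ | ⟨t, d⟩
  · exact absurd ha hnone
  · obtain ⟨htD, hfr⟩ := (Qc405.GW.memL hw).1 ha
    have hG : Gs w = GD A B.xl B.xr B.y1 B.y2 k p y0 := by
      funext u v; exact propext (Qc405.GW.gs hw u v)
    have hab' : NxS (sgD B.xl p y0 B.y2) (Gs w) (some (t, d)) b _ := hab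
    rw [hG] at hab'
    exact suc_lt H hR hB (suc_D H rfl htD hfr hab')

end Crest.Agent.R158.Oc194
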