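import Crest.Agent.R158.Qf5_808
import Crest.Agent.R158.Kd5_458

/-!
# Row 158 (helper808), SEP: good scales give 458's `GoodH`

* `goodH_of_GO` : `z ∈ GO c0 D1 D2 D3 u` and margins `ρ + b + 3` give `GoodH` with `t1 = 2 D3 u - 1`,
  `b = 4 D1 D2 D3 u + 1`
* `goodH_radii` : the inequalities of `core_hole` for these radii
-/

set_option autoImplicit false

noncomputable section

namespace Crest.Agent.R158.Qf808

open MeasureTheory ProbabilityTheory unitInterval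
open Crest.Agent.R161.Geo729 Crest.Agent.R161.Topo374 Crest.Agent.R161.Dual374
open Crest.Agent.R161.Tas682 hiding Sq
open Crest.Agent.R158.Rs689 Crest.Agent.R158.Ru874 Crest.Agent.R158.Sp580
open Crest.Agent.R158.Hp814 (FIn FOut FInB FRing bdS SqI LT LT_move)
open Crest.Agent.R158.Kd458 (Gd GoodH So Fi Fo NearC)

theorem gd_move {z : Cf} {D : Set P2} {x x' : P2} {s r l m : ℤ} (h1 : sd x x' + s ≤ l)
    (h2 : m + sd x x' ≤ r) (hlm : l ≤ m) (hG : Gd z D x' l m) : Gd z D x s r := by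
  intro hT
  exact hG (LT_move D h1 h2 hlm hT)

theorem near_ring {c0 : P2} {ρ : ℤ} {f : P2} (hf : f ∉ Fi c0 ρ) (hn : NearC c0 ρ f) :
    ∃ f' ∈ FRing c0 ρ, sd f f' ≤ 1 ∧ sd c0 f ≤ ρ + 1 := by
  obtain ⟨w, hw, hfw⟩ := hn
  have hρ : 0 ≤ ρ := by rw [← hw]; exact Cpl963.sd_nonneg _ _
  have h1 : sd c0 w ≤ ρ := hw.le
  rw [sd_le] at h1 hfw
  unfold Fi at hf
  rw [mem_rect] at hf
  refine ⟨(min f.1 (c0.1 + ρ), min f.2 (c0.2 + ρ)), ⟨?_, ?_⟩, ?_, ?_⟩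
  · unfold SqI
    rw [mem_rect]
    simp only
    omega
  · simp only
    omega
  · rw [sd_le]
    simp only
    omega
  · rw [sd_le]
    omega

theorem goodH_of_GO {z : Cf} {x0 x1 y0 y1 : ℤ} {c0 : P2} {D1 D2 D3 : ℕ} {u : ℤ} (h1 : 2 ≤ D1)
    (h2 : 2 ≤ D2) (h3 : 2 ≤ D3) (hu : 1 ≤ u)
    (m1 : x0 + (32 * D1 * D2 * D3 * u + 4 * D1 * D2 * D3 * u + 3) ≤ c0.1)
    (m2 : c0.1 + (32 * D1 * D2 * D3 * u + 4 * D1 * D2 * D3 * u + 3) ≤ x1)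
    (m3 : y0 + (32 * D1 * D2 * D3 * u + 4 * D1 * D2 * D3 * u + 3) ≤ c0.2)
    (m4 : c0.2 + (32 * D1 * D2 * D3 * u + 4 * D1 * D2 * D3 * u + 3) ≤ y1)
    (hz : z ∈ GO c0 D1 D2 D3 u) :
    GoodH z x0 x1 y0 y1 c0 (32 * D1 * D2 * D3 * u) u (D3 * u) (2 * D3 * u - 1) (2 * D3 * u)
      (2 * D2 * D3 * u) (4 * D2 * D3 * u) (4 * D1 * D2 * D3 * u + 1) := by
  obtain ⟨r1, r2, r3, r4, r5⟩ := radii h1 h2 h3 hu
  obtain ⟨hz1, hz2⟩ := hz
  set ρ : ℤ := 32 * D1 * D2 * D3 * u with hρ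
  set b : ℤ := 4 * D1 * D2 * D3 * u with hb
  have hρb : ρ = 8 * b := by rw [hρ, hb]; ring
  have hcut : ∀ w, sd c0 w = ρ → ∀ a b' : ℤ, b' ≤ b + 1 →
      {v : P2 | ρ ≤ sd c0 v} ∩ Cpl963.An w a b' = So x0 x1 y0 y1 c0 ρ ∩ Cpl963.An w a b' := by
    intro w hw a b' hb'
    ext v
    constructor
    · rintro ⟨h5, h6⟩
      refine ⟨⟨?_, h5⟩, h6⟩
      have h7 := Cpl963.sd_tri c0 w v
      have h8 : sd w v ≤ b' := h6.2
      have h9 : sd c0 v ≤ ρ + b + 1 := by omega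
      rw [sd_le] at h9
      rw [mem_rect]
      omega
    · rintro ⟨h5, h6⟩
      exact ⟨h5.2, h6⟩
  refine ⟨fun w hw => ?_, fun w hw => gd_cut (hcut w hw _ _ (by omega)) (hz1 w hw).2.1,
    fun w hw => gd_cut (hcut w hw _ _ (by omega)) (hz1 w hw).2.2, ?_⟩
  · refine gd_cut (hcut w hw _ _ le_rfl) ?_
    refine gd_move (x' := w) ?_ ?_ (by omega) (hz1 w hw).1
    · rw [Cpl963.sd_self]; omega
    · rw [Cpl963.sd_self]; omega
  · intro f hf hn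
    obtain ⟨f', hf', hff, hfs⟩ := near_ring hf.2 hn
    have hG := gd_move (s := 2 * (D3 : ℤ) * u - 1) (r := b + 1) (x := f) (by omega) (by omega)
      (by omega) (hz2 f' hf')
    refine gd_cut ?_ hG
    ext v
    constructor
    · rintro ⟨h5, h6⟩
      refine ⟨⟨?_, h5⟩, h6⟩
      have h7 := Cpl963.sd_tri c0 f v
      have h8 : sd f v ≤ b + 1 := h6.2
      have h9 : sd c0 v ≤ ρ + b + 2 := by omega
      rw [sd_le] at h9
      rw [mem_rect]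
      omega
    · rintro ⟨h5, h6⟩
      exact ⟨h5.2, h6⟩

/-- the inequalities between the radii of `goodH_of_GO` -/
theorem goodH_radii {D1 D2 D3 : ℕ} (h1 : 2 ≤ D1) (h2 : 2 ≤ D2) (h3 : 2 ≤ D3) {u : ℤ} (hu : 2 ≤ u) :
    0 ≤ u ∧ u ≤ D3 * u ∧ u + D3 * u + 1 ≤ 2 * D3 * u - 1 ∧ 2 * D3 * u - 1 ≤ 4 * D1 * D2 * D3 * u + 1 ∧
      D3 * u + 1 ≤ 2 * D3 * u ∧ 2 * (D3 : ℤ) * u ≤ 2 * D2 * D3 * u ∧
      2 * (D3 : ℤ) * u + 2 * D2 * D3 * u ≤ 4 * D2 * D3 * u ∧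
      4 * (D2 : ℤ) * D3 * u ≤ 4 * D1 * D2 * D3 * u + 1 := by
  obtain ⟨r1, r2, r3, r4, r5⟩ := radii h1 h2 h3 (show 1 ≤ u by omega)
  have e1 : 2 * (D3 : ℤ) * u = 2 * (D3 * u) := by ring
  refine ⟨by omega, by omega, by omega, by omega, by omega, by omega, by omega, by omega⟩

end Crest.Agent.R158.Qf808
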