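import Crest.Agent.R158.Sq8_200

/-!
# Row 158, SEP leaf L2-out (helper200): the two literal forms

* `uout_alt` : dual arms inside the inner faces of `L`, then one closed edge to a ring face (458's Kd5 output)
* `uout_piv` : the pivotal event (left / right, bottom / top) directly from `Uout`
-/

set_option autoImplicit false

noncomputable section

namespace Crest.Agent.R158.Sr200

open Crest.Agent.R161.Geo729 Crest.Agent.R161.Topo374 Crest.Agent.R161.Dual374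
open Crest.Agent.R161.Tas682 hiding Sq
open Crest.Agent.R158.Rs689
open Crest.Agent.R158.Kd458 Finset
open Crest.Agent.R158.Sp874 (FarN nr Gd Gd')
open Crest.Agent.R158.Sp580
open Crest.Agent.R158.Ru874 (frc frc_self frc_ne)

section out

variable {x0 x1 y0 y1 : ℤ} {n : ℕ} {N : ℤ}

theorem mem_outF {FL : Set P2} {ρ : ℤ} {f : P2} : f ∈ OutF FL ρ ↔ f ∈ FL ∧ f ∉ HF ρ := Iff.rfl

theorem src_off (hn : 1 ≤ n) {k : P2} {e : Edge} (h : fA e ∉ Bk n k 8) : src e ∉ Bk n k 1 := by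
  intro hh
  have hfs := face_src e
  exact h (bk_mono (by norm_num) (bk_grow hn hh (by omega) (by omega) (by omega) (by omega)))

/-- the blocks are inside the ball of radius `(N+1) n` -/
theorem blk_in {k : P2} (hk : nr k = N - 1) {v : P2} (hv : v ∈ Bk n k 1) :
    -(N * n) - n ≤ v.1 ∧ v.1 ≤ N * n + n ∧ -(N * n) - n ≤ v.2 ∧ v.2 ≤ N * n + n := by
  rw [mem_Bk] at hv
  obtain ⟨-, g1, g2, g3, g4⟩ := nr_cases hk
  have hn : (0 : ℤ) ≤ n := by positivity
  have e1 : -(N * (n : ℤ)) - n ≤ (k.1 - 1) * n := by nlinarith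
  have e2 : (k.1 + 1 + 1) * (n : ℤ) ≤ N * n + n := by nlinarith
  have e3 : -(N * (n : ℤ)) - n ≤ (k.2 - 1) * n := by nlinarith
  have e4 : (k.2 + 1 + 1) * (n : ℤ) ≤ N * n + n := by nlinarith
  omega

/-- **L2-out**, 458's form of the dual arms. -/
theorem uout_alt (hn : 1 ≤ n) {g : ℤ} (hg : 15 ≤ g)
    (b1 : x0 ≤ -((N + 3) * n)) (b2 : (N + 3) * n ≤ x1) (b3 : y0 ≤ -((N + 3) * n)) (b4 : (N + 3) * n ≤ y1)
    {k1 k2 k3 k4 : P2} (h1 : nr k1 = N - 1) (h2 : nr k2 = N - 1) (h3 : nr k3 = N - 1) (h4 : nr k4 = N - 1)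
    (f12 : FarN g k1 k2) (f23 : FarN g k2 k3) (f34 : FarN g k3 k4) (f41 : FarN g k4 k1)
    (f13 : FarN g k1 k3) {z : Cf} {r r' : Edge} {p p' : P2} (hr : Out x0 x1 y0 y1 r p)
    (hr' : Out x0 x1 y0 y1 r' p') {F : P2 → ZMod 2} (hF : IsCol x0 x1 y0 y1 r r' F)
    {a b : P2} (ha : a ∈ Bk n k1 1) (hb : b ∈ Bk n k3 1)
    (hu : OC z (OutV (Rect x0 x1 y0 y1) (N * n) \ Bk2 n k2 k4 8) a p)
    (hv : OC z (OutV (Rect x0 x1 y0 y1) (N * n) \ Bk2 n k2 k4 8) b p')
    {f f' q q' s s' : P2} (hf : f ∈ Bk n k2 1) (hf' : f' ∈ Bk n k4 1)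
    (hd1 : OC (dual z) (OutF (Rect x0 (x1 - 1) y0 (y1 - 1)) (N * n) \ Bk2 n k1 k3 8) f s)
    (hd2 : OC (dual z) (OutF (Rect x0 (x1 - 1) y0 (y1 - 1)) (N * n) \ Bk2 n k1 k3 8) f' s')
    (hs : DStep (fun e => z e = false ∧ IB x0 x1 y0 y1 e) s q)
    (hs' : DStep (fun e => z e = false ∧ IB x0 x1 y0 y1 e) s' q')
    (hq : RingF x0 x1 y0 y1 q) (hq' : RingF x0 x1 y0 y1 q') (hne : F q ≠ F q') :
    ∃ w : Fin 4 → ℤ, Sp874.cl (N - 1) (w 0) = k1 ∧ Sp874.cl (N - 1) (w 1) = k2 ∧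
      Sp874.cl (N - 1) (w 2) = k3 ∧ Sp874.cl (N - 1) (w 3) = k4 ∧
      (Gd (N - 1) g w ∨ Gd' (N - 1) g w) := by
  have hN : 8 ≤ N := N_large hg h1 h2 f12
  have hn' : (1 : ℤ) ≤ n := by exact_mod_cast hn
  have hR1 : 1 ≤ N * (n : ℤ) := by nlinarith
  have c3 : (N + 3) * (n : ℤ) = N * n + 3 * n := by ring
  have c2 : (N + 2) * (n : ℤ) = N * n + 2 * n := by ring
  set C : Edge → Prop := fun e' => z e' = false ∧
      (IB x0 x1 y0 y1 e' ∨ ((∃ v, Out x0 x1 y0 y1 e' v) ∧ e' ≠ r ∧ e' ≠ r')) ∧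
      fA e' ∉ HF (N * n) ∧ fB e' ∉ HF (N * n) ∧
      (src e' ∉ Bk n k1 1 ∨ tgt e' ∉ Bk n k1 1) ∧ (src e' ∉ Bk n k3 1 ∨ tgt e' ∉ Bk n k3 1) with hC
  have hwalk : ∀ {f s : P2},
      OC (dual z) (OutF (Rect x0 (x1 - 1) y0 (y1 - 1)) (N * n) \ Bk2 n k1 k3 8) f s →
      Relation.ReflTransGen (DStep C) f s := by
    intro f s h
    refine dstep_mono' ?_ (oc_dwalk h)
    rintro e' ⟨p1, ⟨p2, p3⟩, p4, p5⟩
    rw [mem_outF] at p2 p4
    exact ⟨p1, Or.inl (ib_of_faces p2.1 p4.1), p2.2, p4.2,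
      Or.inl (src_off hn fun hh => p3 (Or.inl hh)), Or.inl (src_off hn fun hh => p3 (Or.inr hh))⟩
  have hlast : ∀ {s q : P2}, s ∉ HF (N * n) → RingF x0 x1 y0 y1 q →
      DStep (fun e => z e = false ∧ IB x0 x1 y0 y1 e) s q → DStep C s q := by
    rintro s q hsH hqR ⟨e', ⟨p1, p2⟩, p3⟩
    have hqH : q ∉ HF (N * n) := by
      unfold RingF at hqR
      rw [mem_HF]
      omega
    have hfs := face_src e'
    have hoff : ∀ k, nr k = N - 1 → src e' ∉ Bk n k 1 := by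
      intro k hk hh
      have := blk_in hk hh
      unfold RingF at hqR
      rcases p3 with ⟨rfl, rfl⟩ | ⟨rfl, rfl⟩ <;> omega
    refine ⟨e', ⟨p1, Or.inl p2, ?_, ?_, Or.inl (hoff k1 h1), Or.inl (hoff k3 h3)⟩, p3⟩
    · rcases p3 with ⟨rfl, rfl⟩ | ⟨rfl, rfl⟩
      · exact hsH
      · exact hqH
    · rcases p3 with ⟨rfl, rfl⟩ | ⟨rfl, rfl⟩
      · exact hqH
      · exact hsH
  have m1 := mem_outF.1 hd1.left.1
  have m2 := mem_outF.1 hd2.left.1
  have m3 := mem_outF.1 hd1.right.1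
  have m4 := mem_outF.1 hd2.right.1
  refine uout_alt_gen hn hg (by norm_num : (2 : ℤ) ≤ 8) (by omega) (by omega) (by omega) (by omega) h1 h2 h3 h4
    f12 f23 f34 f41 f13 hr hr' hF ha hb hu hv (C := C) (fun e' he' => he') hf hf' ?_ ?_ m1.2 m2.2
    ((hwalk hd1).tail (hlast m3.2 hq hs)) ((hwalk hd2).tail (hlast m4.2 hq' hs')) hq hq' hne
  · have := m1.1
    rw [mem_rect] at this ⊢
    omega
  · have := m2.1
    rw [mem_rect] at this ⊢
    omega

/-! ### left / right, bottom / top -/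

/-- a colouring with leaving edges on the left and on the right separates bottom from top -/
theorem col_piv {r r' : Edge} {p p' : P2} (hx : x0 ≤ x1) (hy : y0 ≤ y1)
    (hr : r = ((x0 - 1, p.2), false)) (hp : y0 ≤ p.2 ∧ p.2 ≤ y1)
    (hr' : r' = ((x1, p'.2), false)) (hp' : y0 ≤ p'.2 ∧ p'.2 ≤ y1) {F : P2 → ZMod 2}
    (hF : IsCol x0 x1 y0 y1 r r' F) {i i' : ℤ} (hi : x0 - 1 ≤ i ∧ i ≤ x1) (hi' : x0 - 1 ≤ i' ∧ i' ≤ x1) :
    F (i, y0 - 1) ≠ F (i', y1) := by
  -- rows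
  have hrow : ∀ j, (j = y0 - 1 ∨ j = y1) → ∀ i, x0 - 1 ≤ i → i ≤ x1 → F (i, j) = F (x1, j) := by
    intro j hj
    have key : ∀ m : ℕ, x0 - 1 ≤ x1 - m → F (x1 - m, j) = F (x1, j) := by
      intro m
      induction m with
      | zero => intro _; simp
      | succ m ih =>
          intro hm
          push_cast at hm
          have h1 := hF ((x1 - m, j), true) (x1 - m, if j = y1 then y1 else y0) (by
            right
            refine ⟨by simp only; omega, by simp only; omega, ?_⟩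
            rcases hj with rfl | rfl
            · left
              rw [if_neg (by omega)]
              exact ⟨rfl, rfl⟩
            · right
              rw [if_pos rfl]
              exact ⟨rfl, rfl⟩)
          have h2 : dl r ((x1 - m, j), true) = 0 := ind_false (by rw [hr]; simp)
          have h3 : dl r' ((x1 - m, j), true) = 0 := ind_false (by rw [hr']; simp)
          rw [h2, h3, add_zero, fA_mk, fB_v] at h1
          have h4 := ih (by omega)
          have h5 : F (x1 - (m : ℤ), j) = F (x1 - m - 1, j) := zmod2_eq_of_add h1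
          rw [show x1 - ((m + 1 : ℕ) : ℤ) = x1 - m - 1 by push_cast; ring, ← h5, h4]
    intro i h1 h2
    have := key (x1 - i).toNat (by omega)
    rwa [show x1 - ((x1 - i).toNat : ℤ) = i by omega] at this
  -- right column
  have hcol : ∀ m : ℕ, y0 - 1 + m ≤ y1 →
      F (x1, y0 - 1 + m) = F (x1, y0 - 1) + if p'.2 ≤ y0 - 1 + m then 1 else 0 := by
    intro m
    induction m with
    | zero => intro _; rw [if_neg (by push_cast; omega)]; simp
    | succ m ih =>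
        intro hm
        push_cast at hm ⊢
        have h1 := hF ((x1, y0 + m), false) (x1, y0 + m) (Or.inl ⟨by simp only; omega, by simp only; omega,
          Or.inr ⟨rfl, rfl⟩⟩)
        have h2 : dl r ((x1, y0 + m), false) = 0 := by
          apply ind_false
          rw [hr]
          simp only [Prod.mk.injEq, and_true]
          omega
        have h3 : dl r' ((x1, y0 + m), false) = if p'.2 = y0 + m then 1 else 0 := by
          by_cases h : p'.2 = y0 + m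
          · rw [if_pos h]; exact ind_true (by rw [hr', h])
          · rw [if_neg h]
            apply ind_false
            rw [hr']
            simp only [Prod.mk.injEq, and_true, true_and]
            exact fun h' => h h'.symm
        rw [h2, h3, zero_add, fA_mk, fB_h] at h1
        have h4 := ih (by omega)
        have e1 : y0 - 1 + ((m : ℤ) + 1) = y0 + m := by ring
        have e2 : y0 + (m : ℤ) - 1 = y0 - 1 + m := by ring
        rw [e2] at h1
        rw [e1]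
        have z := zmod2_add_self (F (x1, y0 - 1 + m))
        have h5 : F (x1, y0 + m) = F (x1, y0 - 1 + m) + if p'.2 = y0 + m then 1 else 0 := by
          linear_combination h1 - z
        rw [h5, h4]
        by_cases h6 : p'.2 ≤ y0 - 1 + m
        · rw [if_pos h6, if_neg (by omega), if_pos (by omega)]; ring
        · by_cases h7 : p'.2 = y0 + m
          · rw [if_neg h6, if_pos h7, if_pos (by omega)]; ring
          · rw [if_neg h6, if_neg h7, if_neg (by omega)]; ring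
  have h1 := hrow (y0 - 1) (Or.inl rfl) i hi.1 hi.2
  have h2 := hrow y1 (Or.inr rfl) i' hi'.1 hi'.2
  have h3 := hcol (y1 - (y0 - 1)).toNat (by omega)
  rw [show y0 - 1 + ((y1 - (y0 - 1)).toNat : ℤ) = y1 by omega, if_pos (by omega)] at h3
  rw [h1, h2, h3]
  intro h
  have z := zmod2_add_self (F (x1, y0 - 1))
  have : (1 : ZMod 2) = 0 := by linear_combination -h
  exact absurd this (by decide)

/-- **L2-out, pivotal case**: left / right and bottom / top, directly from `Uout`. -/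
theorem uout_piv (hn : 1 ≤ n) {g : ℤ} (hg : 15 ≤ g)
    (b1 : x0 ≤ -((N + 3) * n)) (b2 : (N + 3) * n ≤ x1) (b3 : y0 ≤ -((N + 3) * n)) (b4 : (N + 3) * n ≤ y1)
    {k1 k2 k3 k4 : P2} (h1 : nr k1 = N - 1) (h2 : nr k2 = N - 1) (h3 : nr k3 = N - 1) (h4 : nr k4 = N - 1)
    (f12 : FarN g k1 k2) (f23 : FarN g k2 k3) (f34 : FarN g k3 k4) (f41 : FarN g k4 k1)
    (f13 : FarN g k1 k3) {z : Cf}
    (hz : z ∈ Uout (Rect x0 x1 y0 y1) (Rect x0 (x1 - 1) (y0 - 1) y1) (N * n) n k1 k2 k3 k4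
      {v | v.1 = x0} {v | v.1 = x1} {v | v.2 = y0 - 1} {v | v.2 = y1}) :
    ∃ w : Fin 4 → ℤ, Sp874.cl (N - 1) (w 0) = k1 ∧ Sp874.cl (N - 1) (w 1) = k2 ∧
      Sp874.cl (N - 1) (w 2) = k3 ∧ Sp874.cl (N - 1) (w 3) = k4 ∧
      (Gd (N - 1) g w ∨ Gd' (N - 1) g w) := by
  have hN : 8 ≤ N := N_large hg h1 h2 f12
  have hn' : (1 : ℤ) ≤ n := by exact_mod_cast hn
  have hR1 : 1 ≤ N * (n : ℤ) := by nlinarith
  have c3 : (N + 3) * (n : ℤ) = N * n + 3 * n := by ring
  have c2 : (N + 2) * (n : ℤ) = N * n + 2 * n := by ring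
  obtain ⟨⟨⟨a, ha, p, hp, hu⟩, ⟨b, hb, p', hp', hv⟩⟩, ⟨f, hf, q, hq, hd1⟩, ⟨f', hf', q', hq', hd2⟩⟩ := hz
  rw [Set.mem_ofPred_eq] at hp hp' hq hq'
  have mp := hu.right.1.1
  have mp' := hv.right.1.1
  rw [mem_rect] at mp mp'
  have m1 := mem_outF.1 hd1.left.1
  have m2 := mem_outF.1 hd2.left.1
  have m3 := mem_outF.1 hd1.right.1
  have m4 := mem_outF.1 hd2.right.1
  have m1' := m1.1
  have m2' := m2.1
  have m3' := m3.1
  have m4' := m4.1
  rw [mem_rect] at m1' m2' m3' m4'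
  set r : Edge := ((x0 - 1, p.2), false) with hr
  set r' : Edge := ((x1, p'.2), false) with hr'
  have hor : Out x0 x1 y0 y1 r p := Or.inl ⟨mp.2.2.1, mp.2.2.2, Or.inl ⟨rfl, hp⟩⟩
  have hor' : Out x0 x1 y0 y1 r' p' := Or.inl ⟨mp'.2.2.1, mp'.2.2.2, Or.inr ⟨rfl, hp'⟩⟩
  -- a colouring
  obtain ⟨F, hF⟩ : ∃ F, IsCol x0 x1 y0 y1 r r' F := by
    have hpath : Relation.ReflTransGen (PStep (fun e => True ∧ IB x0 x1 y0 y1 e)) p p' := by
      have s1 := hseg (S := Rect x0 x1 y0 y1) (y := p.2) (x1 := p.1) (x2 := p'.1) (fun i hi => by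
        rw [mem_rect]; simp only; omega)
      have s2 := vseg (S := Rect x0 x1 y0 y1) (x := p'.1) (y1 := p.2) (y2 := p'.2) (fun i hi => by
        rw [mem_rect]; simp only; omega)
      refine pstep_mono' ?_ (s1.trans s2)
      rintro e ⟨h5, h6⟩
      exact ⟨trivial, h5, h6⟩
    exact exists_col (by omega) (by omega) hor hor' hpath
  set C : Edge → Prop := fun e' => z e' = false ∧
      (IB x0 x1 y0 y1 e' ∨ ((∃ v, Out x0 x1 y0 y1 e' v) ∧ e' ≠ r ∧ e' ≠ r')) ∧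
      fA e' ∉ HF (N * n) ∧ fB e' ∉ HF (N * n) ∧
      (src e' ∉ Bk n k1 1 ∨ tgt e' ∉ Bk n k1 1) ∧ (src e' ∉ Bk n k3 1 ∨ tgt e' ∉ Bk n k3 1) with hC
  have hedge : ∀ e' : Edge, fA e' ∈ Rect x0 (x1 - 1) (y0 - 1) y1 → fB e' ∈ Rect x0 (x1 - 1) (y0 - 1) y1 →
      (IB x0 x1 y0 y1 e' ∨ ((∃ v, Out x0 x1 y0 y1 e' v) ∧ e' ≠ r ∧ e' ≠ r')) := by
    intro e' p1 p2
    have hTB : TB x0 x1 y0 y1 e' := by
      obtain ⟨⟨u, v⟩, s⟩ := e'
      rw [mem_rect] at p1 p2
      cases s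
      · simp only [fA_mk, fB_h] at p1 p2
        simp only [TB, src_mk, tgt_h]
        omega
      · simp only [fA_mk, fB_v] at p1 p2
        simp only [TB, src_mk, tgt_v]
        omega
    rcases TB_cases (by omega) (by omega) hTB with h | ⟨v, h⟩
    · exact Or.inl h
    · refine Or.inr ⟨⟨v, h⟩, ?_, ?_⟩
      · rintro rfl
        rw [mem_rect] at p1
        simp only [hr, fA_mk] at p1
        omega
      · rintro rfl
        rw [mem_rect] at p1
        simp only [hr', fA_mk] at p1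
        omega
  have hwalk : ∀ {f s : P2},
      OC (dual z) (OutF (Rect x0 (x1 - 1) (y0 - 1) y1) (N * n) \ Bk2 n k1 k3 8) f s →
      Relation.ReflTransGen (DStep C) f s := by
    intro f s h
    refine dstep_mono' ?_ (oc_dwalk h)
    rintro e' ⟨p1, ⟨p2, p3⟩, p4, p5⟩
    rw [mem_outF] at p2 p4
    exact ⟨p1, hedge e' p2.1 p4.1, p2.2, p4.2,
      Or.inl (src_off hn fun hh => p3 (Or.inl hh)), Or.inl (src_off hn fun hh => p3 (Or.inr hh))⟩
  refine uout_alt_gen hn hg (by norm_num : (2 : ℤ) ≤ 8) (by omega) (by omega) (by omega) (by omega) h1 h2 h3 h4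
    f12 f23 f34 f41 f13 hor hor' hF ha hb hu hv (C := C) (fun e' he' => he') hf hf' ?_ ?_ m1.2 m2.2
    (hwalk hd1) (hwalk hd2) ?_ ?_ ?_
  · rw [mem_rect]; omega
  · rw [mem_rect]; omega
  · unfold RingF; omega
  · unfold RingF; omega
  · have e1 : q = (q.1, y0 - 1) := by ext <;> simp [hq]
    have e2 : q' = (q'.1, y1) := by ext <;> simp [hq']
    rw [e1, e2]
    exact col_piv (by omega) (by omega) hr ⟨mp.2.2.1, mp.2.2.2⟩ hr' ⟨mp'.2.2.1, mp'.2.2.2⟩ hF
      ⟨by omega, by omega⟩ ⟨by omega, by omega⟩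

end out

end Crest.Agent.R158.Sr200
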