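import Crest.Agent.R158.Oc1_874
import Crest.Agent.R158.Qf7_808
import Crest.Agent.R158.Sq9_200
import Crest.Agent.R158.Gl1_570

/-!
# Row 158 (helper874), SEP: the outer cover

`covPiv` : on the good event a pivotal ball of the crossing of a rectangle has four arms landing in four far
alternating cells (570's `CovPiv T0`, `500 ≤ T0`)
-/

set_option autoImplicit false

noncomputable section

namespace Crest.Agent.R158.Oc874

open MeasureTheory ProbabilityTheory unitInterval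
open Crest.Agent.R161.Geo729 Crest.Agent.R161.Topo374 Crest.Agent.R161.Dual374
open Crest.Agent.R161.Tas682 hiding Sq
open Crest.Agent.R158.Rs689 Crest.Agent.R158.Ru874 Crest.Agent.R158.Sp580
open Crest.Agent.R158.Sp874 (FarN nr Gd')
open Crest.Agent.R158.Kd458 (So Fo Fi FoT FoR GoodH)
open Crest.Agent.R158.Qf808 (GO)

/-- **Outer cover, pivotal case.** -/
theorem covPiv {T0 : ℕ} (hT : 500 ≤ T0) : Ld570.CovPiv T0 := by
  intro D1 D2 D3 N n h1 h2 h3 hNe hn x0 x1 y0 y1 hx0 hx1 hy0 hy1 z hz hGO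
  have hn' : (1 : ℤ) ≤ n := by exact_mod_cast hn
  have hT' : (500 : ℤ) ≤ T0 := by exact_mod_cast hT
  obtain ⟨u, hu⟩ : ∃ u : ℤ, u = T0 * n := ⟨_, rfl⟩
  rw [← hu] at hGO
  have hu500 : 500 * (n : ℤ) ≤ u := by rw [hu]; nlinarith
  have e1 : (2 : ℤ) ≤ D1 := by exact_mod_cast h1
  have e2 : (2 : ℤ) ≤ D2 := by exact_mod_cast h2
  have e3 : (2 : ℤ) ≤ D3 := by exact_mod_cast h3
  obtain ⟨a, ha⟩ : ∃ a : ℤ, a = D3 * u := ⟨_, rfl⟩
  obtain ⟨b, hb⟩ : ∃ b : ℤ, b = D2 * a := ⟨_, rfl⟩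
  obtain ⟨c, hc⟩ : ∃ c : ℤ, c = D1 * b := ⟨_, rfl⟩
  have f1 : 2 * u ≤ a := by rw [ha]; nlinarith
  have f2 : 2 * a ≤ b := by rw [hb]; nlinarith
  have f3 : 2 * b ≤ c := by rw [hc]; nlinarith
  have g1 : (2 : ℤ) * D3 * u = 2 * a := by rw [ha]; ring
  have g2 : (4 : ℤ) * D1 * D2 * D3 * u = 4 * c := by rw [hc, hb, ha]; ring
  have g3 : (2 : ℤ) * D2 * D3 * u = 2 * b := by rw [hb, ha]; ring
  have g4 : (4 : ℤ) * D2 * D3 * u = 4 * b := by rw [hb, ha]; ring
  have g5 : (32 : ℤ) * D1 * D2 * D3 * u = 32 * c := by rw [hc, hb, ha]; ring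
  have hρ : (N : ℤ) * n = 32 * c := by
    rw [← g5, hNe, hu]
    push_cast
    ring
  have hNpos : 1 ≤ N := by
    rw [hNe]
    have : 0 < 32 * D1 * D2 * D3 * T0 := by positivity
    omega
  have hN' : (1 : ℤ) ≤ N := by exact_mod_cast hNpos
  rw [hρ] at hx0 hx1 hy0 hy1
  have hG := Qf808.goodH_of_GO (z := z) (x0 := x0) (x1 := x1) (y0 := y0) (y1 := y1) (c0 := (0, 0))
    h1 h2 h3 (u := u) (by omega) (by rw [g5, g2]; simp only; omega) (by rw [g5, g2]; simp only; omega)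
    (by rw [g5, g2]; simp only; omega) (by rw [g5, g2]; simp only; omega) hGO
  rw [g1, g2, g3, g4, g5, ← ha] at hG
  have hG' : GoodH z x0 x1 y0 y1 (0, 0) (32 * c - 1 + 1) u a (2 * a - 1) (2 * a) (2 * b) (4 * b)
      (4 * c + 1) := by rw [sub_add_cancel]; exact hG
  rw [hρ] at hz
  obtain ⟨x, x', p, p', y, y', w, w', f, f', q1, q2, q3, q4, q5, q6, q7, q8, q9, q10, q11, q12, q13, q14,
    q15, q16, q17, q18, q19, q20⟩ := Kd458.core_piv (c0 := (0, 0)) (r0 := 32 * c - 1) (by omega)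
    (by simp only; omega) (by simp only; omega) (by simp only; omega) (by simp only; omega) (by omega)
    (by omega) (by omega) (by omega) (by omega) (by omega) (by omega) (by omega) hz hG'
  rw [sub_add_cancel] at q3 q4 q7 q9 q11 q12 q13 q14 q17 q18 q19 q20
  rw [← hρ] at q3 q4 q7 q9 q11 q12 q13 q14 q17 q18 q19 q20
  -- points near the circle
  have nx := nc_of_sd hn' q3
  have nx' := nc_of_sd hn' q4
  have ny := nc_of_face hn' q12 q11.2
  have ny' := nc_of_face hn' q14 q13.2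
  -- the landing events
  have hP : z ∈ UoutP (Rect x0 x1 y0 y1) (N * n) n (kp n N x) (kp n N y') (kp n N x') (kp n N y)
      {v | v.1 = x0} {v | v.1 = x1} := by
    refine outP hn hNpos (t := u) (by omega) nx nx' ny' ny q10 q8 q5 q6 ?_ ?_
    · refine q19.monoS ?_
      rintro v ⟨⟨a1, a2⟩, a3⟩
      exact ⟨⟨a1, a3⟩, a2⟩
    · refine q20.monoS ?_
      rintro v ⟨⟨a1, a2⟩, a3⟩
      exact ⟨⟨a1, a3⟩, a2⟩
  have hD : z ∈ UoutD (Rect x0 (x1 - 1) (y0 - 1) y1) (N * n) n (kp n N x) (kp n N y') (kp n N x')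
      (kp n N y) {f | f.2 = y0 - 1} {f | f.2 = y1} := by
    refine outD hn hNpos (s := 2 * a) (by omega) nx nx' ny' ny q16 q15 ?_ ?_
    · rw [fo_eq]
      exact q18
    · rw [fo_eq]
      exact q17
  -- distances
  have d1 : 2 * a ≤ sd x y := q17.1.1.2
  have d2 : 2 * a ≤ sd x' y := q17.1.2
  have d3 : 2 * a ≤ sd x y' := q18.1.1.2
  have d4 : 2 * a ≤ sd x' y' := q18.1.2
  have F1 : FarN 420 (kp n N x) (kp n N y') := far_kp hn hN' nx ny' (by omega)
  have F2 : FarN 420 (kp n N y') (kp n N x') := far_kp hn hN' ny' nx' (by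
    rw [Kd458.sd_symm]; omega)
  have F3 : FarN 420 (kp n N x') (kp n N y) := far_kp hn hN' nx' ny (by omega)
  have F4 : FarN 420 (kp n N y) (kp n N x) := far_kp hn hN' ny nx (by
    rw [Kd458.sd_symm]; omega)
  have F5 : FarN 420 (kp n N x) (kp n N x') := far_kp hn hN' nx nx' (by omega)
  obtain ⟨w, w1, w2, w3, w4, hw⟩ := Sr200.uout_piv (x0 := x0) (x1 := x1) (y0 := y0) (y1 := y1) hn
    (g := 420) (N := N) (by norm_num) (by linarith) (by linarith) (by linarith) (by linarith)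
    (nr_kp hn' hN' nx) (nr_kp hn' hN' ny') (nr_kp hn' hN' nx') (nr_kp hn' hN' ny) F1 F2 F3 F4 F5
    ⟨hP, hD⟩
  refine ⟨w, hw, ?_⟩
  simp only [Ld570.UR]
  rw [w1, w2, w3, w4]
  exact ⟨hP, hD⟩

end Crest.Agent.R158.Oc874
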