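import Crest.Agent.R158.Oc3_194
import Crest.Agent.R158.Qd1_300

/-!
# R158, order of the ends, part 4 (helper194): natural and artificial ends

* `FC` : the kinds of free ends of `Dp` (`D`, right floor / ceiling / cut / step port, left floor /
  ceiling / cut); **`fc_of`** : every end of the word is of one of these kinds, **`fc_mem`** the converse
* `Nat` ends : the kinds `D`, floor, ceiling; **`KD_nat`** : `KD B x = pG B b (pm (eD B y0 k) x)`
* **`art_R`, `art_L`, `not_art`** : 300's `Art` on the kinds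
-/

set_option autoImplicit false
set_option linter.unusedVariables false
set_option linter.unusedSectionVars false
set_option linter.unusedSimpArgs false

noncomputable section

namespace Crest.Agent.R158.Oc194

open Finset
open Crest.Agent.R158.Sw300
open Crest.Agent.R158.Al194
open Crest.Agent.R158.Pt266
open Crest.Agent.R158.Xr249 (rot rot_some rot_none Dp mem_Dp Free full full_h full_v Reg pm pm_some
  pm_none eD eD_A eD_r eD_l wd_cases pm_inj)
open Crest.Agent.R158.Qc405 (Cy NxS NS sgD TabH GD none_notin_L isLeg_of_bas GD_of GD_not pD pD')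
open Crest.Agent.R158.Ob664 (GW)
open Crest.Agent.R158.Env664 (beD nbD TG Band Run PortOf portOf_some portOf_none nbP nbP_W nbP_N nbP_E
  nbP_S nbD_W nbD_E nbD_N1 nbD_N nbD_Sleg nbD_S1 nbD_S)
open Crest.Agent.R158.Fm857 (rD isLow pG blkG innG freeG freeD flr cil mem_freeG mem_flr mem_cil mouth)
open Crest.Agent.R158.Ad350 (ports mem_ports mem_ports')
open Crest.Agent.R158.Ao857 (tpm inlE)
open Crest.Agent.R158.Qd300 (Art art_iff DB beC beC_ne)

variable {A : Finset (ℤ × ℤ)} {B : Band A} {k p y0 : ℤ} {ψ : (ℤ × ℤ) × ZMod 4 → ℤ}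

/-- the natural free ends in the stubs -/
def NatS (B : Band A) (k : ℤ) (x : Port (ℤ × ℤ)) : Prop :=
  (∃ u, (B.xr < u ∧ u ≤ B.xr + k) ∧ x = some ((u, B.y1), 3)) ∨
  (∃ u, (B.xr < u ∧ u ≤ B.xr + k) ∧ x = some ((u, B.y2 - 1), 1)) ∨
  (∃ u, (B.xl - k ≤ u ∧ u < B.xl) ∧ x = some ((u, B.y1), 3)) ∨
  (∃ u, (B.xl - k ≤ u ∧ u < B.xl) ∧ x = some ((u, B.y2 - 1), 1))

/-- a free end of `D` outside the mouths -/
def NatD (B : Band A) (x : Port (ℤ × ℤ)) : Prop := x ∈ freeD B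

/-- the right cut -/
def CutR (B : Band A) (k y0 : ℤ) (x : Port (ℤ × ℤ)) : Prop :=
  (∃ v, (B.y1 ≤ v ∧ v < B.y2) ∧ x = some ((B.xr + k, v), 2)) ∨ x = some ((B.xr + k, y0 - 1), 1)

/-- the left cut -/
def CutL (B : Band A) (k : ℤ) (x : Port (ℤ × ℤ)) : Prop :=
  ∃ v, (B.y1 ≤ v ∧ v < B.y2) ∧ x = some ((B.xl - k, v), 0)

section

variable (H : TabH A B.xl B.xr B.y1 B.y2 k p y0 ψ)

include H

lemma H_le : B.xl ≤ B.xr := H.hf.le

lemma freeD_of {x y : ℤ} {d : ZMod 4} (hA : (x, y) ∈ A)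
    (hfr : ∀ q, ¬ GD A B.xl B.xr B.y1 B.y2 k p y0 (some ((x, y), d)) q) :
    NatD B (some ((x, y), d)) := by
  have hk := H.hk
  have h1 := H.hy1
  have h2 := H.hy2
  have h3 := H.hp1
  have h4 := H.hp2
  have hle := H.hf.le
  have hD := H.sub hA
  have mr : ¬ (B.xr < x ∧ x ≤ B.xr + k + 1 ∧ B.y1 - 1 ≤ y ∧ y ≤ B.y2) := fun hc =>
    H.nr hc.1 hc.2.1 hc.2.2.1 hc.2.2.2 hA
  unfold NatD freeD
  rw [Finset.mem_filter]
  refine ⟨mem_ports.2 hA, ?_, ?_⟩
  · intro hn
    rcases Env664.z4 d with rfl | rfl | rfl | rfl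
    · rw [nbP_W] at hn
      exact hfr _ (GD_of (pD hD) nbD_W (pD (H.sub (portOf_some.1 hn))))
    · rw [nbP_N] at hn
      by_cases hc : y = y0 - 1 ∧ p ≤ x ∧ x ≤ B.xr + k
      · exact hfr _ (GD_of (pD hD) (nbD_N1 hc)
          (pD (H.band (by omega) (by omega) (by omega) (by omega))))
      · exact hfr _ (GD_of (pD hD) (nbD_N hc) (pD (H.sub (portOf_some.1 hn))))
    · rw [nbP_E] at hn
      exact hfr _ (GD_of (pD hD) nbD_E (pD (H.sub (portOf_some.1 hn))))
    · rw [nbP_S] at hn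
      by_cases hc : y = y0 ∧ x = p
      · exact hfr _ (GD_of (pD hD) (nbD_Sleg hc) (portOf_none _))
      by_cases hc2 : y = y0 ∧ p < x ∧ x ≤ B.xr + k
      · exact hfr _ (GD_of (pD hD) (nbD_S1 hc2)
          (pD (H.band (by omega) (by omega) (by omega) (by omega))))
      · exact hfr _ (GD_of (pD hD) (nbD_S (by omega)) (pD (H.sub (portOf_some.1 hn))))
  · unfold mouth
    rintro ⟨⟨k1, k2⟩, ⟨rfl, k3⟩ | ⟨rfl, k3⟩⟩
    · exact hfr _ (GD_of (pD hD) nbD_W (pD (H.band (by omega) (by omega) (by omega) (by omega))))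
    · exact hfr _ (GD_of (pD hD) nbD_E (pD (H.band (by omega) (by omega) (by omega) (by omega))))

/-- **the ends of the word** -/
theorem fc_of {w : Wd (ℤ × ℤ)}
    (hw : GW (Dp A B.xl B.xr B.y1 B.y2 k) (beD (Dp A B.xl B.xr B.y1 B.y2 k) p y0 (B.xr + k)) w)
    {x : Port (ℤ × ℤ)} (hx : x ∈ L w) : NatD B x ∨ NatS B k x ∨ CutR B k y0 x ∨ CutL B k x := by
  have hk := H.hk
  have h1 := H.hy1
  have h2 := H.hy2
  have h3 := H.hp1
  have h4 := H.hp2
  have hle := H.hf.le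
  have hok := hw.word.1
  have hleg := isLeg_of_bas hw.leg
  have hwl : w ≠ .leg := by
    rintro rfl
    have := (hw.word.2.2.1 (p, y0)).2 (H.band (by omega) (by omega) (by omega) (by omega))
    simp [tls] at this
  rcases x with _ | ⟨⟨x, y⟩, d⟩
  · exact absurd hx (none_notin_L hok hleg hwl)
  obtain ⟨hD, hfr⟩ := (Qc405.GW.memL hw).1 hx
  rcases mem_Dp.1 hD with hA | hR | hL
  · exact Or.inl (freeD_of H hA hfr)
  · rcases Env664.z4 d with rfl | rfl | rfl | rfl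
    · exact absurd (GD_of (pD hD) nbD_W (pD (H.band (by omega) (by omega) (by omega) (by omega))))
        (hfr _)
    · by_cases hy : y = B.y2 - 1
      · exact Or.inr (Or.inl (Or.inr (Or.inl ⟨x, by omega, by rw [hy]⟩)))
      by_cases hy' : y = y0 - 1 ∧ x = B.xr + k
      · exact Or.inr (Or.inr (Or.inl (Or.inr (by rw [hy'.1, hy'.2]))))
      exfalso
      by_cases c3 : y = y0 - 1
      · exact hfr _ (GD_of (pD hD) (nbD_N1 (by omega))
          (pD (H.band (by omega) (by omega) (by omega) (by omega))))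
      · exact hfr _ (GD_of (pD hD) (nbD_N (by omega))
          (pD (H.band (by omega) (by omega) (by omega) (by omega))))
    · by_cases hc : x = B.xr + k
      · exact Or.inr (Or.inr (Or.inl (Or.inl ⟨y, by omega, by rw [hc]⟩)))
      · exact absurd (GD_of (pD hD) nbD_E (pD (H.band (by omega) (by omega) (by omega) (by omega))))
          (hfr _)
    · by_cases hy : y = B.y1
      · exact Or.inr (Or.inl (Or.inl ⟨x, by omega, by rw [hy]⟩))
      exfalso
      by_cases c3 : y = y0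
      · exact hfr _ (GD_of (pD hD) (nbD_S1 (by omega))
          (pD (H.band (by omega) (by omega) (by omega) (by omega))))
      · exact hfr _ (GD_of (pD hD) (nbD_S (by omega))
          (pD (H.band (by omega) (by omega) (by omega) (by omega))))
  · rcases Env664.z4 d with rfl | rfl | rfl | rfl
    · by_cases hc : x = B.xl - k
      · exact Or.inr (Or.inr (Or.inr ⟨y, by omega, by rw [hc]⟩))
      · exact absurd (GD_of (pD hD) nbD_W (pD (H.band (by omega) (by omega) (by omega) (by omega))))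
          (hfr _)
    · by_cases hy : y = B.y2 - 1
      · exact Or.inr (Or.inl (Or.inr (Or.inr (Or.inr ⟨x, by omega, by rw [hy]⟩))))
      · exact absurd (GD_of (pD hD) (nbD_N (by omega))
          (pD (H.band (by omega) (by omega) (by omega) (by omega)))) (hfr _)
    · exact absurd (GD_of (pD hD) nbD_E (pD (H.band (by omega) (by omega) (by omega) (by omega))))
          (hfr _)
    · by_cases hy : y = B.y1
      · exact Or.inr (Or.inl (Or.inr (Or.inr (Or.inl ⟨x, by omega, by rw [hy]⟩))))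
      · exact absurd (GD_of (pD hD) (nbD_S (by omega))
          (pD (H.band (by omega) (by omega) (by omega) (by omega)))) (hfr _)

/-- **the converse for the natural ends of `D`** -/
theorem mem_of_natD {w : Wd (ℤ × ℤ)}
    (hw : GW (Dp A B.xl B.xr B.y1 B.y2 k) (beD (Dp A B.xl B.xr B.y1 B.y2 k) p y0 (B.xr + k)) w)
    {x : Port (ℤ × ℤ)} (hx : NatD B x) : x ∈ L w := by
  have hk := H.hk
  have h1 := H.hy1
  have h2 := H.hy2
  have h3 := H.hp1
  have h4 := H.hp2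
  have hle := H.hf.le
  unfold NatD freeD at hx
  rw [Finset.mem_filter] at hx
  obtain ⟨hp, hn, hm⟩ := hx
  obtain ⟨⟨x, y⟩, d, rfl, hA⟩ := mem_ports' hp
  have mr : ¬ (B.xr < x ∧ x ≤ B.xr + k + 1 ∧ B.y1 - 1 ≤ y ∧ y ≤ B.y2) := fun hc =>
    H.nr hc.1 hc.2.1 hc.2.2.1 hc.2.2.2 hA
  have ml : ¬ (x < B.xl ∧ B.xl - k - 1 ≤ x ∧ B.y1 - 1 ≤ y ∧ y ≤ B.y2) := fun hc =>
    H.nl hc.1 hc.2.1 hc.2.2.1 hc.2.2.2 hA
  rw [Qc405.GW.memL hw]
  refine ⟨H.sub hA, GD_not ?_⟩
  have hrun : ∀ v, B.y1 ≤ v → v < B.y2 → B.xl ≤ x → x ≤ B.xr → (x, v) ∈ A :=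
    fun v g1 g2 g3 g4 => H.run _ _ g3 g4 g1 g2
  unfold mouth at hm
  rcases Env664.z4 d with rfl | rfl | rfl | rfl
  · rw [nbP_W, portOf_some] at hn
    have hm' : ¬ (x = B.xl ∧ B.y1 ≤ y ∧ y < B.y2) := fun h => hm ⟨⟨h.2.1, h.2.2⟩, Or.inl ⟨rfl, h.1⟩⟩
    rw [nbD_W, portOf_some, mem_Dp]
    rintro (h | h | h)
    · exact hn h
    · omega
    · omega
  · rw [nbP_N, portOf_some] at hn
    by_cases hc : y = y0 - 1 ∧ p ≤ x ∧ x ≤ B.xr + k
    · exact absurd (hrun (y + 1) (by omega) (by omega) (by omega) (by omega)) hn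
    rw [nbD_N hc, portOf_some, mem_Dp]
    rintro (h | h | h)
    · exact hn h
    · omega
    · omega
  · rw [nbP_E, portOf_some] at hn
    have hm' : ¬ (x = B.xr ∧ B.y1 ≤ y ∧ y < B.y2) := fun h => hm ⟨⟨h.2.1, h.2.2⟩, Or.inr ⟨rfl, h.1⟩⟩
    rw [nbD_E, portOf_some, mem_Dp]
    rintro (h | h | h)
    · exact hn h
    · omega
    · omega
  · rw [nbP_S, portOf_some] at hn
    by_cases hc : y = y0 ∧ p ≤ x ∧ x ≤ B.xr + k
    · exact absurd (hrun (y - 1) (by omega) (by omega) (by omega) (by omega)) hn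
    rw [nbD_S (by omega), portOf_some, mem_Dp]
    rintro (h | h | h)
    · exact hn h
    · omega
    · omega

/-- **the converse for the natural ends of the stubs** -/
theorem mem_of_natS {w : Wd (ℤ × ℤ)}
    (hw : GW (Dp A B.xl B.xr B.y1 B.y2 k) (beD (Dp A B.xl B.xr B.y1 B.y2 k) p y0 (B.xr + k)) w)
    {x : Port (ℤ × ℤ)} (hx : NatS B k x) : x ∈ L w := by
  have hk := H.hk
  have h1 := H.hy1
  have h2 := H.hy2
  have h3 := H.hp1
  have h4 := H.hp2
  have hle := H.hf.le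
  rcases hx with ⟨u, hu, rfl⟩ | ⟨u, hu, rfl⟩ | ⟨u, hu, rfl⟩ | ⟨u, hu, rfl⟩
  · rw [Qc405.GW.memL hw]
    refine ⟨H.band (by omega) (by omega) (by omega) (by omega), GD_not ?_⟩
    rw [nbD_S (by omega), portOf_some]
    exact H.out (H.nr (by omega) (by omega) (by omega) (by omega)) (by omega)
  · rw [Qc405.GW.memL hw]
    refine ⟨H.band (by omega) (by omega) (by omega) (by omega), GD_not ?_⟩
    rw [nbD_N (by omega), portOf_some]
    exact H.out (H.nr (by omega) (by omega) (by omega) (by omega)) (by omega)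
  · rw [Qc405.GW.memL hw]
    refine ⟨H.band (by omega) (by omega) (by omega) (by omega), GD_not ?_⟩
    rw [nbD_S (by omega), portOf_some]
    exact H.out (H.nl (by omega) (by omega) (by omega) (by omega)) (by omega)
  · rw [Qc405.GW.memL hw]
    refine ⟨H.band (by omega) (by omega) (by omega) (by omega), GD_not ?_⟩
    rw [nbD_N (by omega), portOf_some]
    exact H.out (H.nl (by omega) (by omega) (by omega) (by omega)) (by omega)

/-! ### images -/

omit H in
lemma natD_some {x : Port (ℤ × ℤ)} (hx : NatD B x) : ∃ t d, x = some (t, d) ∧ t ∈ A := by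
  unfold NatD freeD at hx
  exact mem_ports' (Finset.mem_filter.1 hx).1

omit H in
lemma pm_A (hf : Free A B.xl B.xr B.y1 B.y2 k) {t : ℤ × ℤ} {d : ZMod 4} (ht : t ∈ A) :
    pm (eD B y0 k) (some (t, d)) = some (Sum.inl t, d) := by
  obtain ⟨x, y⟩ := t
  rw [pm_some, eD_A hf ht]

lemma pm_r {u v : ℤ} {d : ZMod 4} (hu : B.xr < u ∧ u ≤ B.xr + k) (hv : B.y1 ≤ v ∧ v < B.y2) :
    pm (eD B y0 k) (some ((u, v), d)) = some (Sum.inr (u - B.xr - 1, v), d) := by
  rw [pm_some, eD_r ⟨hv, hu⟩]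

lemma pm_l {u v : ℤ} {d : ZMod 4} (hu : B.xl - k ≤ u ∧ u < B.xl) (hv : B.y1 ≤ v ∧ v < B.y2) :
    pm (eD B y0 k) (some ((u, v), d)) = some (Sum.inr (B.wd y0 v - (B.xl - u), v), d) := by
  rw [pm_some, eD_l H.hf.le ⟨hv, hu⟩]

lemma wd1 : B.wd y0 B.y1 = B.R := by
  have := H.hy1
  rcases wd_cases B y0 B.y1 with h | h <;> omega

lemma wd2 : B.wd y0 (B.y2 - 1) = B.R + 1 := by
  have := H.hy2
  rcases wd_cases B y0 (B.y2 - 1) with h | h <;> omega

/-- the natural ends are free in `G^(z)` -/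
theorem nat_free (hR : 2 * k < B.R) {x : Port (ℤ × ℤ)} (hx : NatD B x ∨ NatS B k x) :
    pm (eD B y0 k) x ∈ freeG B := by
  have hk := H.hk
  have h1 := H.hy1
  have h2 := H.hy2
  unfold Fm857.freeG
  rw [Finset.mem_union, Finset.mem_union, mem_flr, mem_cil, Finset.mem_image]
  rcases hx with hx | ⟨u, hu, rfl⟩ | ⟨u, hu, rfl⟩ | ⟨u, hu, rfl⟩ | ⟨u, hu, rfl⟩
  · left
    refine ⟨x, hx, ?_⟩
    obtain ⟨t, d, rfl, ht⟩ := natD_some hx
    rw [pm_A H.hf ht]; rfl
  · right; left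
    rw [pm_r H hu ⟨le_rfl, by omega⟩]
    exact ⟨_, by omega, by omega, rfl⟩
  · right; right
    rw [pm_r H hu ⟨by omega, by omega⟩]
    exact ⟨_, by omega, by omega, rfl⟩
  · right; left
    rw [pm_l H hu ⟨le_rfl, by omega⟩, wd1 H]
    exact ⟨_, by omega, by omega, rfl⟩
  · right; right
    rw [pm_l H hu ⟨by omega, by omega⟩, wd2 H]
    exact ⟨_, by omega, by omega, rfl⟩

/-- the cuts are glued in `G^(z)` -/
theorem cut_glued (hR : 2 * k < B.R) {x : Port (ℤ × ℤ)} (hx : CutR B k y0 x ∨ CutL B k x) :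
    pm (eD B y0 k) x ∉ freeG B := by
  have hk := H.hk
  have h1 := H.hy1
  have h2 := H.hy2
  have n1 : (2 : ZMod 4) ≠ 3 := by decide
  have n2 : (2 : ZMod 4) ≠ 1 := by decide
  have n3 : (1 : ZMod 4) ≠ 3 := by decide
  have n4 : (0 : ZMod 4) ≠ 3 := by decide
  have n5 : (0 : ZMod 4) ≠ 1 := by decide
  have key : ∀ (a : ℤ × ℤ) (d : ZMod 4), (d = 0 ∨ d = 2 ∨ (d = 1 ∧ a.2 ≠ B.y2 - 1)) →
      (some (Sum.inr a, d) : Port TG) ∉ freeG B := by
    intro a d hd
    unfold Fm857.freeG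
    rw [Finset.mem_union, Finset.mem_union, mem_flr, mem_cil, Finset.mem_image]
    rintro (⟨q, hq, he⟩ | ⟨i, -, -, he⟩ | ⟨i, -, -, he⟩)
    · obtain ⟨t, d', rfl, -⟩ := natD_some hq
      have he' : (some (Sum.inl t, d') : Port TG) = some (Sum.inr a, d) := he
      simp at he'
    · simp only [Option.some.injEq, Prod.mk.injEq, Sum.inr.injEq] at he
      obtain ⟨rfl, rfl⟩ := he
      rcases hd with h | h | ⟨h, -⟩
      · exact n4 h.symm
      · exact n1 h.symm
      · exact n3 h.symm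
    · simp only [Option.some.injEq, Prod.mk.injEq, Sum.inr.injEq] at he
      obtain ⟨rfl, rfl⟩ := he
      rcases hd with h | h | ⟨-, h⟩
      · exact n5 h.symm
      · exact n2 h.symm
      · exact h rfl
  rcases hx with (⟨v, hv, rfl⟩ | rfl) | ⟨v, hv, rfl⟩
  · rw [pm_r H (by omega) hv]
    exact key _ _ (Or.inr (Or.inl rfl))
  · rw [pm_r H (by omega) ⟨by omega, by omega⟩]
    exact key _ _ (Or.inr (Or.inr ⟨rfl, by simp only; omega⟩))
  · rw [pm_l H (by omega) hv]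
    exact key _ _ (Or.inl rfl)

lemma mem_Dp_of {w : Wd (ℤ × ℤ)}
    (hw : GW (Dp A B.xl B.xr B.y1 B.y2 k) (beD (Dp A B.xl B.xr B.y1 B.y2 k) p y0 (B.xr + k)) w)
    {x : Port (ℤ × ℤ)} (hx : x ∈ L w) : x ∈ ports (DB B k) ∧ x ≠ some ((p, y0), 3) ∧
      beC B p y0 k x = x := by
  have hk := H.hk
  have h1 := H.hy1
  have h2 := H.hy2
  have h3 := H.hp1
  have h4 := H.hp2
  have hle := H.hf.le
  have hok := hw.word.1
  have hleg := isLeg_of_bas hw.leg
  have hpD : (p, y0) ∈ Dp A B.xl B.xr B.y1 B.y2 k :=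
    H.band (by omega) (by omega) (by omega) (by omega)
  have hwl : w ≠ .leg := by
    rintro rfl
    have := (hw.word.2.2.1 (p, y0)).2 hpD
    simp [tls] at this
  rcases x with _ | ⟨t, d⟩
  · exact absurd hx (none_notin_L hok hleg hwl)
  obtain ⟨hD, hfr⟩ := (Qc405.GW.memL hw).1 hx
  have hne : (some (t, d) : Port (ℤ × ℤ)) ≠ some ((p, y0), 3) := by
    intro e
    rw [e] at hfr
    exact hfr _ (GD_of (pD hpD) (nbD_Sleg ⟨rfl, rfl⟩) (portOf_none _))
  refine ⟨mem_ports.2 hD, hne, ?_⟩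
  rw [beC_ne hne]
  by_contra hc
  exact hfr _ ⟨rfl, Ne.symm hc⟩

/-- **natural ends are not artificial** -/
theorem not_art (hR : 2 * k < B.R) (hz : B.At p y0) {x : Port (ℤ × ℤ)}
    (hx : NatD B x ∨ NatS B k x) (hp : x ∈ ports (DB B k)) : ¬ Art B p y0 k x := by
  rw [art_iff H.hf hR hz hp]
  rintro ⟨-, -, h⟩
  exact h ((mem_freeG B hz).1 (nat_free H hR hx)).2

/-- **the cut ends are artificial** -/
theorem art_cut (hR : 2 * k < B.R) (hz : B.At p y0) {w : Wd (ℤ × ℤ)}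
    (hw : GW (Dp A B.xl B.xr B.y1 B.y2 k) (beD (Dp A B.xl B.xr B.y1 B.y2 k) p y0 (B.xr + k)) w)
    {x : Port (ℤ × ℤ)} (hx : CutR B k y0 x ∨ CutL B k x) (hp : x ∈ L w) : Art B p y0 k x := by
  obtain ⟨h1, h2, h3⟩ := mem_Dp_of H hw hp
  rw [art_iff H.hf hR hz h1]
  refine ⟨h2, h3, fun h4 => cut_glued H hR hx ((mem_freeG B hz).2 ⟨?_, h4⟩)⟩
  obtain ⟨t, d, rfl, ht⟩ := mem_ports' h1
  exact mem_ports.2 (portOf_some.1 (Xr249.pm_portOf H.hf hR (portOf_some.2 ht)))

/-! ### the order at the natural ends -/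

/-- **`KD` is 857's order at the natural ends** -/
theorem KD_nat (hR : 2 * k < B.R) {b : ℤ} (hb : k ≤ b) (hb' : b ≤ B.R - k) {x : Port (ℤ × ℤ)}
    (hx : NatD B x ∨ NatS B k x) : KD B x = pG B b (pm (eD B y0 k) x) := by
  have hk := H.hk
  have h1 := H.hy1
  have h2 := H.hy2
  have hle := H.hf.le
  unfold KD Fm857.pG
  rcases hx with hx | ⟨u, hu, rfl⟩ | ⟨u, hu, rfl⟩ | ⟨u, hu, rfl⟩ | ⟨u, hu, rfl⟩
  · obtain ⟨⟨x, y⟩, d, rfl, ht⟩ := natD_some hx
    obtain ⟨e1, e2⟩ := K_A (B := B) (d := d) ht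
    rw [pm_A H.hf ht, e1, e2]
    rfl
  · obtain ⟨e1, e2⟩ := K_rS (B := B) (H.nr (x := u) (y := B.y1) (by omega) (by omega) (by omega)
      (by omega)) hu.1
    rw [pm_r H hu ⟨le_rfl, by omega⟩, e1, e2]
    simp only [Fm857.blkG, Fm857.innG]
    rw [if_pos trivial, if_pos (by omega), if_pos trivial]
  · obtain ⟨e1, e2⟩ := K_rN (B := B) (H.nr (x := u) (y := B.y2 - 1) (by omega) (by omega) (by omega)
      (by omega)) hu.1
    rw [pm_r H hu ⟨by omega, by omega⟩, e1, e2]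
    simp only [Fm857.blkG, Fm857.innG]
    rw [if_neg z13, if_pos (by omega), if_neg z13]
  · obtain ⟨e1, e2⟩ := K_lS (B := B) (H.nl (x := u) (y := B.y1) (by omega) (by omega) (by omega)
      (by omega)) (by omega)
    rw [pm_l H hu ⟨le_rfl, by omega⟩, e1, e2, wd1 H]
    simp only [Fm857.blkG, Fm857.innG]
    rw [if_pos trivial, if_neg (by omega), if_pos trivial]
  · obtain ⟨e1, e2⟩ := K_lN (B := B) (H.nl (x := u) (y := B.y2 - 1) (by omega) (by omega) (by omega)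
      (by omega)) (by omega)
    rw [pm_l H hu ⟨by omega, by omega⟩, e1, e2, wd2 H]
    simp only [Fm857.blkG, Fm857.innG]
    rw [if_neg z13, if_neg (by omega), if_neg z13]

end

end Crest.Agent.R158.Oc194
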