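import Crest.Agent.R158.Oc5_194
import Crest.Agent.R158.Ad15_350
import Crest.Agent.R158.Dp3_440
import Crest.Agent.R158.Dr6_945
import Crest.Agent.R158.Fm2_857
import Crest.Agent.R158.Hw2_949

/-!
# R158, EvalP (helper194): `HW` of `Dp` against the mean of 350's `valD`

* **`HW_sub_VJ`** : `‖HW - ∫ VJ P‖ ≤ 7 / 2 * P(Bad)` if off `Bad` the ends in `P` do not contribute
* **`norm_VJ`** : `‖VJ‖ ≤ 9 / 2`
* `int_comp` : the mean of a function of the tiles of `w` read through an injection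
* **`valD_VJ`**, **`norm_valD`**, **`HW_valD`**; `valD_JP`, `HW_JP` : the same for 857's `JP`
-/

set_option autoImplicit false
set_option linter.unusedVariables false
set_option linter.unusedSectionVars false
set_option linter.unusedSimpArgs false

noncomputable section

namespace Crest.Agent.R158.Oc194

open Finset MeasureTheory
open Crest.Agent.R158.Sw300
open Crest.Agent.R158.Al194
open Crest.Agent.R158.Xr249 (Dp mem_Dp Free full pm pm_some eD eD_inj)
open Crest.Agent.R158.Qc405 (TabH)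
open Crest.Agent.R158.Ob664 (GW HW HV)
open Crest.Agent.R158.Env664 (beD TG Band D)
open Crest.Agent.R158.Fm857 (psD freeG mem_Jd JP mkP mkG SpP DelP inI far)
open Crest.Agent.R158.Ao857 (tpm inlE)
open Crest.Agent.R158.Qd300 (DB C0)
open Crest.Agent.R158.Qe249 (VJ SmP)
open Crest.Agent.R158.Ad350 (valD)
open Crest.Agent.R158.Rs689 (PB)
open Crest.Agent.R158.Tj656 (P4)

section generic

variable {T : Type*} [DecidableEq T] {w : Wd T}

/-- the dropped observable is bounded -/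
theorem norm_VJ (h : Ok w) {m1 m2 m3 : Port T} (hM : Mk w m1 m2 m3) (P : Port T → Prop)
    (s : T → Bool) : ‖VJ w m1 m2 m3 P s‖ ≤ 9 / 2 := by
  have h1 := Qe249.norm_HV_sub_VJ h hM P s
  have h2 : ‖HV w m1 m2 m3 s‖ ≤ 1 := Ob664.norm_le_of_Tri Ob664.HV_mem
  have h3 : VJ w m1 m2 m3 P s = HV w m1 m2 m3 s - (HV w m1 m2 m3 s - VJ w m1 m2 m3 P s) := by ring
  rw [h3]
  refine (norm_sub_le _ _).trans ?_
  linarith

/-- **dropping ends, mean form** -/
theorem HW_sub_VJ (h : Ok w) {m1 m2 m3 : Port T} (hM : Mk w m1 m2 m3) (P : Port T → Prop)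
    (Bad : Set (T → Bool))
    (hBad : ∀ s ∉ Bad, ∀ j ∈ Ico (idL (L w) m1 m2) (idL (L w) m1 m3), P (enL (L w) m1 j) →
      SmP w s m1 m2 j = 0) :
    ‖HW w m1 m2 m3 - ∫ s, VJ w m1 m2 m3 P s ∂(PB fun _ : T => Rs689.hf)‖ ≤
      7 / 2 * (PB fun _ : T => Rs689.hf).real Bad := by
  classical
  have key := drop_word h hM ((Ico ((rotl (L w) m1).idxOf m2) ((rotl (L w) m1).idxOf m3)).filter
    fun j => P (enL (L w) m1 j)) (filter_subset _ _) Bad (fun s hs e he => by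
      rw [mem_filter] at he
      exact hBad s hs e he.1 he.2)
  have e1 : ∫ s, VJ w m1 m2 m3 P s ∂(PB fun _ : T => Rs689.hf) =
      (∑ j ∈ Ico ((rotl (L w) m1).idxOf m2) ((rotl (L w) m1).idxOf m3) \
          ((Ico ((rotl (L w) m1).idxOf m2) ((rotl (L w) m1).idxOf m3)).filter
            fun j => P (enL (L w) m1 j)),
          ∫ s, hL s w (fun x => (cM (L w) m1 m2 j x : ℝ)) ∂(PB fun _ : T => Rs689.hf)) / 2
        + (∫ s, hL s w (fun x => (cS (L w) m1 m2 ((rotl (L w) m1).idxOf m2) x : ℝ))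
          ∂(PB fun _ : T => Rs689.hf)) / 2 := by
    have e2 : Ico ((rotl (L w) m1).idxOf m2) ((rotl (L w) m1).idxOf m3) \
        ((Ico ((rotl (L w) m1).idxOf m2) ((rotl (L w) m1).idxOf m3)).filter
          fun j => P (enL (L w) m1 j)) =
        (Ico ((rotl (L w) m1).idxOf m2) ((rotl (L w) m1).idxOf m3)).filter
          fun j => ¬ P (enL (L w) m1 j) := by
      ext j
      simp only [mem_sdiff, mem_filter]
      tauto
    rw [e2]
    unfold VJ
    rw [integral_add, integral_div, integral_div, integral_finsetSum]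
    · intro j _; exact integrable_hL w _
    · exact (integrable_finsetSum _ fun j _ => integrable_hL w _).div_const 2
    · exact (integrable_hL w _).div_const 2
  rw [e1]
  exact key

end generic

/-- the mean of a function of the tiles of `w` read through an injection -/
theorem int_comp {κ ι : Type*} [DecidableEq κ] (w : Wd κ) {f : (κ → Bool) → ℂ}
    (hf : ∀ s s' : κ → Bool, (∀ t ∈ tls w, s t = s' t) → f s = f s') {g : κ → ι}
    (hg : Set.InjOn g {t | t ∈ tls w}) :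
    ∫ s, f (s ∘ g) ∂(PB fun _ : ι => Rs689.hf) = ∫ s, f s ∂(PB fun _ : κ => Rs689.hf) := by
  classical
  let S0 : Finset κ := (tls w).toFinset
  let e : (S0 → Bool) → (κ → Bool) := fun z t => if h : t ∈ S0 then z ⟨t, h⟩ else false
  let G : (S0 → Bool) → ℂ := fun z => f (e z)
  have hG : ∀ s' : κ → Bool, f s' = G (fun t => s' t) := by
    intro s'
    refine hf _ _ fun t ht => ?_
    have : t ∈ S0 := List.mem_toFinset.2 ht
    simp only [e, dif_pos this]
  have hGm : ∀ {μ : Measure (S0 → Bool)}, AEStronglyMeasurable G μ := fun {μ} =>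
    (measurable_of_finite G).aestronglyMeasurable
  have j1 : Function.Injective (fun t : S0 => g t) := fun a c hac =>
    Subtype.ext (hg (List.mem_toFinset.1 a.2) (List.mem_toFinset.1 c.2) hac)
  have h1 := Rs689.PB_map_inj (ι := ι) (κ := S0) j1 (fun _ => Rs689.hf)
  have h2 := Rs689.PB_map_inj (ι := κ) (κ := S0) (j := fun t : S0 => (t : κ))
    Subtype.val_injective (fun _ => Rs689.hf)
  have m1' : Measurable (fun (z : ι → Bool) (k : S0) => z (g k)) :=
    measurable_pi_lambda _ fun k => measurable_pi_apply _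
  have m2' : Measurable (fun (z : κ → Bool) (k : S0) => z k) :=
    measurable_pi_lambda _ fun k => measurable_pi_apply _
  have e1 : (fun s : ι → Bool => f (s ∘ g)) = G ∘ fun (z : ι → Bool) (k : S0) => z (g k) := by
    funext s
    exact hG _
  have e2 : f = G ∘ fun (z : κ → Bool) (k : S0) => z k := by
    funext s
    exact hG _
  rw [e1]
  conv_rhs => rw [e2]
  have i1 := integral_map (μ := PB fun _ : ι => Rs689.hf) m1'.aemeasurable (f := G) hGm
  have i2 := integral_map (μ := PB fun _ : κ => Rs689.hf) m2'.aemeasurable (f := G) hGm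
  rw [h1] at i1
  rw [h2] at i2
  exact i1.symm.trans i2

lemma VJ_congr {T : Type*} [DecidableEq T] {w : Wd T} (m1 m2 m3 : Port T) (P : Port T → Prop)
    {s s' : T → Bool} (h : ∀ t ∈ tls w, s t = s' t) :
    VJ w m1 m2 m3 P s = VJ w m1 m2 m3 P s' := by
  have e1 : ∀ c : Port T → ℝ, hL s w c = hL s' w c := fun c => hL_congr h c
  unfold VJ
  simp only [e1]

variable {A : Finset (ℤ × ℤ)} {B : Band A} {k p y0 b : ℤ} {ψ : (ℤ × ℤ) × ZMod 4 → ℤ}

section

variable (H : TabH A B.xl B.xr B.y1 B.y2 k p y0 ψ) {w : Wd (ℤ × ℤ)}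
  (hw : GW (Dp A B.xl B.xr B.y1 B.y2 k) (beD (Dp A B.xl B.xr B.y1 B.y2 k) p y0 (B.xr + k)) w)
  (hR : 2 * k < B.R) (hz : B.At p y0) (hb : k ≤ b) (hb' : b + k ≤ B.R)
  {w0 : Wd (ℤ × ℤ)} {l0 : List (Port (ℤ × ℤ))} (hB : Psi664.BW (full A) B.xl B.y1 w0 l0)
  {m1 m2 m3 : Port (ℤ × ℤ)} (hM : Mk w m1 m2 m3)
  (hA : ∀ m, m = m1 ∨ m = m2 ∨ m = m3 → ∃ t d, m = some (t, d) ∧ t ∈ A)
  (J : Finset (Port TG))
  (hJ : ∀ q ∈ J, inI B b (pm (eD B y0 k) m2) (pm (eD B y0 k) m3) q ∧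
    ∃ x, (NatD B x ∨ NatS B k x) ∧ pm (eD B y0 k) x = q)

include H hw hR hz hb hb' hB hM hA hJ

/-- **350's `valD` is 249's `VJ`** -/
theorem valD_VJ (s : ℤ × ℤ → Bool) :
    valD B p y0 k b (pm (eD B y0 k) m1) (pm (eD B y0 k) m2) J w s =
      VJ w m1 m2 m3 (fun x => pm (eD B y0 k) x ∉ J) s :=
  (VJ_C0 H hw hR hz hb hb' (ord_D H hR hB hw) hM hA J hJ s).symm

theorem norm_valD (s : ℤ × ℤ → Bool) :
    ‖valD B p y0 k b (pm (eD B y0 k) m1) (pm (eD B y0 k) m2) J w s‖ ≤ 9 / 2 := by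
  rw [valD_VJ H hw hR hz hb hb' hB hM hA J hJ s]
  exact norm_VJ hw.word.1 hM _ s

/-- **the observable of `Dp` against the mean of `valD`** -/
theorem HW_valD (Bad : Set (ℤ × ℤ → Bool))
    (hBad : ∀ s ∉ Bad, ∀ j ∈ Ico (idL (L w) m1 m2) (idL (L w) m1 m3),
      pm (eD B y0 k) (enL (L w) m1 j) ∉ J → SmP w s m1 m2 j = 0) :
    ‖HW w m1 m2 m3 - ∫ s : TG → Bool, valD B p y0 k b (pm (eD B y0 k) m1) (pm (eD B y0 k) m2) J w
      (s ∘ eD B y0 k) ∂(PB fun _ : TG => Rs689.hf)‖ ≤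
      7 / 2 * (PB fun _ : ℤ × ℤ => Rs689.hf).real Bad := by
  have hinj : Set.InjOn (eD B y0 k) {t | t ∈ tls w} := by
    rintro ⟨x, y⟩ h1 ⟨x', y'⟩ h2 e
    exact eD_inj H.hf hR ((hw.word.2.2.1 _).1 h1) ((hw.word.2.2.1 _).1 h2) e
  have e1 : ∫ s : TG → Bool, valD B p y0 k b (pm (eD B y0 k) m1) (pm (eD B y0 k) m2) J w
      (s ∘ eD B y0 k) ∂(PB fun _ : TG => Rs689.hf) =
      ∫ s, VJ w m1 m2 m3 (fun x => pm (eD B y0 k) x ∉ J) s ∂(PB fun _ : ℤ × ℤ => Rs689.hf) := by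
    rw [← int_comp (ι := TG) w (f := VJ w m1 m2 m3 (fun x => pm (eD B y0 k) x ∉ J))
      (fun s s' h => VJ_congr m1 m2 m3 _ h) hinj]
    refine integral_congr_ae (Filter.Eventually.of_forall fun s => ?_)
    exact valD_VJ H hw hR hz hb hb' hB hM hA J hJ _
  rw [e1]
  exact HW_sub_VJ hw.word.1 hM _ Bad hBad

end

/-! ### the literal family of a marked polygon -/

section

variable {P : P4} {L' : ℤ} {δ : ℝ} {B : Band (D P.F L')} {p y0 : ℤ} {w : Wd (ℤ × ℤ)}

lemma mkP_A (hL : 2 ≤ L') (hev : Even L') (j : Fin 3) :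
    ∃ t d, mkP P L' j = some (t, d) ∧ t ∈ D P.F L' := by
  refine ⟨(Hw949.mt P L' j).1, (Hw949.mt P L' j).2, ?_, (Hw949.mt_out hL hev j).1⟩
  exact Hw949.mark_snd L' (P.cc j).1 (P.cc j).2

lemma pm_mkP {k : ℤ} (hf : Free (D P.F L') B.xl B.xr B.y1 B.y2 k) (hL : 2 ≤ L') (hev : Even L')
    (j : Fin 3) : pm (eD B y0 k) (mkP P L' j) = mkG P L' j := by
  obtain ⟨t, d, e, ht⟩ := mkP_A (P := P) hL hev j
  unfold mkG
  rw [e, pm_A hf ht]
  rfl

variable {ψ : (ℤ × ℤ) × ZMod 4 → ℤ} (H : TabH (D P.F L') B.xl B.xr B.y1 B.y2 (L' / 8) p y0 ψ)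
  (hw : GW (DB B (L' / 8)) (beD (DB B (L' / 8)) p y0 (B.xr + L' / 8)) w)
  (hR : B.R = L') (hL : 64 ≤ L') (hev : Even L') (hz : B.At p y0)
  {w0 : Wd (ℤ × ℤ)} {l0 : List (Port (ℤ × ℤ))} (hB : Psi664.BW (full (D P.F L')) B.xl B.y1 w0 l0)
  (hM : Mk w (mkP P L' 0) (mkP P L' 1) (mkP P L' 2))

include H hR hL hev hz

lemma JP_ok : ∀ q ∈ JP P L' δ B, inI B (L' / 2) (pm (eD B y0 (L' / 8)) (mkP P L' 1))
    (pm (eD B y0 (L' / 8)) (mkP P L' 2)) q ∧
    ∃ x, (NatD B x ∨ NatS B (L' / 8) x) ∧ pm (eD B y0 (L' / 8)) x = q := by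
  intro q hq
  unfold JP at hq
  rw [mem_Jd] at hq
  rw [pm_mkP H.hf (by omega) hev, pm_mkP H.hf (by omega) hev]
  exact ⟨hq.2.1, Jd_pre H (by omega) (by omega) (by omega) hq.1 hq.2.2⟩

include hw hB hM

/-- **`valD` of the family `JP`** -/
theorem valD_JP (s : ℤ × ℤ → Bool) :
    valD B p y0 (L' / 8) (L' / 2) (mkG P L' 0) (mkG P L' 1) (JP P L' δ B) w s =
      VJ w (mkP P L' 0) (mkP P L' 1) (mkP P L' 2)
        (fun x => pm (eD B y0 (L' / 8)) x ∉ JP P L' δ B) s := by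
  have := valD_VJ (b := L' / 2) H hw (by omega) hz (by omega) (by omega) hB hM (by
    rintro m (rfl | rfl | rfl)
    · exact mkP_A (by omega) hev 0
    · exact mkP_A (by omega) hev 1
    · exact mkP_A (by omega) hev 2) (JP P L' δ B) (JP_ok H hR hL hev hz) s
  rwa [pm_mkP H.hf (by omega) hev, pm_mkP H.hf (by omega) hev] at this

theorem norm_JP (s : ℤ × ℤ → Bool) :
    ‖valD B p y0 (L' / 8) (L' / 2) (mkG P L' 0) (mkG P L' 1) (JP P L' δ B) w s‖ ≤ 9 / 2 := by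
  rw [valD_JP H hw hR hL hev hz hB hM s]
  exact norm_VJ hw.word.1 hM _ s

/-- **`HW` of `Dp` against the mean of `valD`, family `JP`** -/
theorem HW_JP (Bad : Set (ℤ × ℤ → Bool))
    (hBad : ∀ s ∉ Bad, ∀ j ∈ Ico (idL (L w) (mkP P L' 0) (mkP P L' 1))
      (idL (L w) (mkP P L' 0) (mkP P L' 2)),
      pm (eD B y0 (L' / 8)) (enL (L w) (mkP P L' 0) j) ∉ JP P L' δ B →
        SmP w s (mkP P L' 0) (mkP P L' 1) j = 0) :
    ‖HW w (mkP P L' 0) (mkP P L' 1) (mkP P L' 2) - ∫ s : TG → Bool,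
      valD B p y0 (L' / 8) (L' / 2) (mkG P L' 0) (mkG P L' 1) (JP P L' δ B) w
        (s ∘ eD B y0 (L' / 8)) ∂(PB fun _ : TG => Rs689.hf)‖ ≤
      7 / 2 * (PB fun _ : ℤ × ℤ => Rs689.hf).real Bad := by
  have := HW_valD (b := L' / 2) H hw (by omega) hz (by omega) (by omega) hB hM (by
    rintro m (rfl | rfl | rfl)
    · exact mkP_A (by omega) hev 0
    · exact mkP_A (by omega) hev 1
    · exact mkP_A (by omega) hev 2) (JP P L' δ B) (JP_ok H hR hL hev hz) Bad hBad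
  rwa [pm_mkP H.hf (by omega) hev, pm_mkP H.hf (by omega) hev] at this

end

end Crest.Agent.R158.Oc194
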