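import Crest.Agent.R158.Fm2_857
import Crest.Agent.R158.Qe5_249

/-!
# Result R158, numbers of the dropped part (`EvB`)

* **`evb_num`** : `δ(h)`, `R1`, `R2` such that the four-arm bounds of the two annuli
  `Δ → R1 → R2 ≤ h L` are `≤ K h ^ 2`;
* **`gate_num`** : `N`, `a'`, `b'` such that the gates fail with probability `≤ K h ^ 2`.
-/

namespace Crest.Agent.R158.Oe194

open Crest.Agent.R158.Fm857 (DelP)
open Crest.Agent.R158.Qe249

/-- `q ^ n ≤ C / (n + 1) ^ 2` -/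
theorem qpow_sq {q : ℝ} (h0 : 0 < q) (h1 : q < 1) :
    ∃ C : ℝ, 0 ≤ C ∧ ∀ n : ℕ, q ^ n * ((n : ℝ) + 1) ^ 2 ≤ C := by
  have ht : Filter.Tendsto (fun n : ℕ => (n : ℝ) ^ 2 * q ^ n) Filter.atTop (nhds 0) :=
    tendsto_pow_const_mul_const_pow_of_lt_one 2 h0.le h1
  obtain ⟨C, hC⟩ := ht.bddAbove_range
  refine ⟨C / q, ?_, fun n => ?_⟩
  · refine div_nonneg ?_ h0.le
    have := hC ⟨0, rfl⟩
    simpa using this
  · have := hC ⟨n + 1, rfl⟩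
    rw [le_div_iff₀ h0]
    simp only [Nat.cast_add, Nat.cast_one] at this
    calc q ^ n * ((n : ℝ) + 1) ^ 2 * q = ((n : ℝ) + 1) ^ 2 * q ^ (n + 1) := by ring
      _ ≤ C := this

/-- **numbers of the windows** -/
theorem evb_num {C a : ℝ} (hC : 0 ≤ C) (ha : 0 < a) :
    ∃ K : ℝ, 0 ≤ K ∧ ∀ h : ℝ, 0 < h → h < 1 / 100 →
      ∃ δ : ℝ, 0 < δ ∧ δ ≤ h / 100 ∧ ∃ L0 : ℤ, ∀ L : ℤ, L0 ≤ L →
        ∃ R1 R2 : ℕ, 1 ≤ (DelP L δ).toNat ∧ (((DelP L δ).toNat : ℕ) : ℤ) = DelP L δ ∧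
          (DelP L δ).toNat + 20 ≤ R1 ∧ R1 + 20 ≤ R2 ∧ (R2 : ℝ) + 20 ≤ h * L ∧
          C * (((((DelP L δ).toNat : ℕ) : ℝ) + 20) / R1) ^ a +
            C * (((R1 : ℝ) + 20) / R2) ^ a ≤ K * h ^ 2 := by
  refine ⟨2 * C, by positivity, fun h h0 h1 => ?_⟩
  set θ : ℝ := h ^ (2 / a) with hθ
  have t0 : 0 < θ := Real.rpow_pos_of_pos h0 _
  have t1 : θ ≤ 1 := Real.rpow_le_one h0.le (by linarith) (by positivity)
  have ta : θ ^ a = h ^ 2 := by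
    rw [hθ, ← Real.rpow_mul h0.le, div_mul_cancel₀ _ ha.ne']
    norm_num
  have t2 : θ ^ 2 ≤ θ := by nlinarith
  have t3 : θ ^ 2 ≤ 1 := by nlinarith
  have hd0 : 0 < θ ^ 2 * h / 100 := by positivity
  refine ⟨θ ^ 2 * h / 100, hd0, by nlinarith [mul_nonneg h0.le (sub_nonneg.2 t3)],
    ⌈2100 / (θ ^ 2 * h / 100)⌉, fun L hL => ?_⟩
  have l0 : 2100 / (θ ^ 2 * h / 100) ≤ L := (Int.le_ceil _).trans (by exact_mod_cast hL)
  have l1 : 2100 ≤ θ ^ 2 * h / 100 * L := by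
    rw [div_le_iff₀ hd0] at l0
    linarith
  have lp : (0 : ℝ) < L := by
    by_contra hh
    push Not at hh
    nlinarith
  have hL0 : (0 : ℝ) ≤ h * L := by positivity
  have l2 : θ ^ 2 * h / 100 * L ≤ θ * h * L / 100 := by
    have : 0 ≤ (θ - θ ^ 2) * (h * L) := mul_nonneg (by linarith) hL0
    nlinarith
  have l3 : θ * h * L ≤ h * L := by
    have : 0 ≤ (1 - θ) * (h * L) := mul_nonneg (by linarith) hL0
    nlinarith
  -- Δ
  set Δ : ℤ := DelP L (θ ^ 2 * h / 100) with hΔ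
  have d1 : (Δ : ℝ) < θ ^ 2 * h / 100 * L + 1 := Int.ceil_lt_add_one _
  have d2 : θ ^ 2 * h / 100 * L ≤ (Δ : ℝ) := Int.le_ceil _
  have d3 : (1 : ℤ) ≤ Δ := by
    have : (1 : ℝ) ≤ Δ := by linarith
    exact_mod_cast this
  have d4 : ((Δ.toNat : ℕ) : ℤ) = Δ := Int.toNat_of_nonneg (by omega)
  have d5 : ((Δ.toNat : ℕ) : ℝ) = (Δ : ℝ) := by exact_mod_cast congrArg (Int.cast (R := ℝ)) d4
  -- R1, R2
  have r1 := Nat.floor_le (show (0 : ℝ) ≤ θ * h * L / 4 by positivity)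
  have r1' := Nat.lt_floor_add_one (θ * h * L / 4)
  have r2 := Nat.floor_le (show (0 : ℝ) ≤ h * L - 20 by nlinarith)
  have r2' := Nat.lt_floor_add_one (h * L - 20)
  set R1 : ℕ := ⌊θ * h * L / 4⌋₊ with hR1
  set R2 : ℕ := ⌊h * L - 20⌋₊ with hR2
  have e1 : θ * h * L / 8 ≤ (R1 : ℝ) := by linarith
  have e2 : h * L / 2 ≤ (R2 : ℝ) := by linarith
  have R1p : (0 : ℝ) < R1 := by linarith
  have R2p : (0 : ℝ) < R2 := by linarith
  refine ⟨R1, R2, by omega, d4, ?_, ?_, by linarith, ?_⟩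
  · have : ((Δ.toNat : ℕ) : ℝ) + 20 ≤ R1 := by rw [d5]; linarith
    exact_mod_cast this
  · have : (R1 : ℝ) + 20 ≤ R2 := by linarith
    exact_mod_cast this
  · have f1 : (((Δ.toNat : ℕ) : ℝ) + 20) / R1 ≤ θ := by
      rw [div_le_iff₀ R1p, d5]
      calc (Δ : ℝ) + 20 ≤ 2 * (θ ^ 2 * h / 100 * L) := by linarith
        _ ≤ θ * (θ * h * L / 8) := by
          have : 0 ≤ θ ^ 2 * h * L := by positivity
          nlinarith
        _ ≤ θ * R1 := mul_le_mul_of_nonneg_left e1 t0.le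
    have f2 : ((R1 : ℝ) + 20) / R2 ≤ θ := by
      rw [div_le_iff₀ R2p]
      calc (R1 : ℝ) + 20 ≤ θ * (h * L / 2) := by linarith
        _ ≤ θ * R2 := mul_le_mul_of_nonneg_left e2 t0.le
    have g1 := Real.rpow_le_rpow (by positivity) f1 ha.le
    have g2 := Real.rpow_le_rpow (by positivity) f2 ha.le
    rw [ta] at g1 g2
    nlinarith [mul_le_mul_of_nonneg_left g1 hC, mul_le_mul_of_nonneg_left g2 hC]

/-- **numbers of the gates** -/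
theorem gate_num {q : ℝ} (h0 : 0 < q) (h1 : q < 1) :
    ∃ K : ℝ, 0 ≤ K ∧ ∀ h : ℝ, 0 < h → h < 1 / 1000 → ∃ L0 : ℤ, ∀ L : ℤ, L0 ≤ L →
      ∀ ht : ℕ, 1 ≤ ht → (ht : ℝ) ≤ 6 * h * L + 1 → ∃ (N : ℕ) (a' b' : ℤ),
        (2 * (L / 8) < L ∧ 0 < a' ∧ a' < L / 16 ∧ L / 16 + 2 < L / 8 ∧
          L - L / 8 ≤ L - 1 - L / 16 ∧ L - 1 - L / 16 < b' ∧ b' < L - 2) ∧
        (N : ℤ) * ht ≤ a' ∧ (N : ℤ) * ht ≤ L / 16 - a' ∧
        (N : ℤ) * ht ≤ b' - (L - 1 - L / 16) ∧ (N : ℤ) * ht ≤ L - 2 - b' ∧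
        4 * q ^ N ≤ K * h ^ 2 := by
  obtain ⟨C, hC, hq⟩ := qpow_sq h0 h1
  refine ⟨4 * C * 250 ^ 2, by positivity, fun h hh hh1 => ⟨⌈1000 / h⌉ + 1000, fun L hL ht h3 h4 => ?_⟩⟩
  have l0 : (1000 : ℝ) / h ≤ (L : ℝ) - 1000 := by
    have : ⌈1000 / h⌉ ≤ L - 1000 := by omega
    have := (Int.le_ceil (1000 / h)).trans (by exact_mod_cast this : ((⌈1000 / h⌉ : ℤ) : ℝ) ≤ ((L - 1000 : ℤ) : ℝ))
    push_cast at this
    exact this
  have l1 : 1000 ≤ h * L := by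
    rw [div_le_iff₀ hh] at l0
    nlinarith
  have lp : (1000000 : ℝ) ≤ L := by nlinarith
  have lpz : (1000000 : ℤ) ≤ L := by exact_mod_cast lp
  have h5 : (ht : ℝ) ≤ 7 * h * L := by linarith
  set M : ℕ := (L / 16 - 1).toNat with hM
  have hM' : (M : ℤ) = L / 16 - 1 := Int.toNat_of_nonneg (by omega)
  set N : ℕ := M / (2 * ht) with hN
  have n1 : N * (2 * ht) ≤ M := Nat.div_mul_le_self _ _
  have n2 : M < (N + 1) * (2 * ht) := by
    have := Nat.lt_div_mul_add (a := M) (b := 2 * ht) (by omega)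
    rw [← hN] at this
    linarith
  have M1 : (L : ℝ) / 17 ≤ (M : ℝ) := by
    have : (17 * L : ℤ) ≤ 17 * (16 * (L / 16) + 16) := by omega
    have e : (L : ℤ) ≤ 17 * (M : ℤ) := by omega
    have : (L : ℝ) ≤ 17 * (M : ℝ) := by exact_mod_cast e
    linarith
  have n3 : (L : ℝ) / 17 ≤ ((N : ℝ) + 1) * (14 * h * L) := by
    have : (M : ℝ) ≤ ((N : ℝ) + 1) * (2 * ht) := by exact_mod_cast n2.le
    have e : ((N : ℝ) + 1) * (2 * ht) ≤ ((N : ℝ) + 1) * (14 * h * L) :=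
      mul_le_mul_of_nonneg_left (by linarith) (by positivity)
    linarith
  have n4 : 1 ≤ 250 * h * ((N : ℝ) + 1) := by
    have lp' : (0 : ℝ) < L := by linarith
    have : 1 / 17 * L ≤ (((N : ℝ) + 1) * 14 * h) * L := by nlinarith
    have := le_of_mul_le_mul_right this lp'
    nlinarith
  have n5 : 1 ≤ N := by
    have : (1 : ℝ) < (N : ℝ) + 1 := by
      by_contra hc
      push Not at hc
      have : 250 * h * ((N : ℝ) + 1) ≤ 250 * h * 1 := mul_le_mul_of_nonneg_left hc (by positivity)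
      linarith
    have : (0 : ℝ) < N := by linarith
    exact_mod_cast this
  have n6 : 1 ≤ N * ht := Nat.one_le_iff_ne_zero.2 (Nat.mul_ne_zero (by omega) (by omega))
  have n7 : 2 * (N * ht) ≤ M := by
    calc 2 * (N * ht) = N * (2 * ht) := by ring
      _ ≤ M := n1
  have n6z : (1 : ℤ) ≤ (N : ℤ) * ht := by exact_mod_cast n6
  have n7z : 2 * ((N : ℤ) * ht) ≤ L / 16 - 1 := by
    rw [← hM']
    exact_mod_cast n7
  refine ⟨N, (N : ℤ) * ht, L - 2 - (N : ℤ) * ht, ⟨by omega, by omega, by omega, by omega,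
    by omega, by omega, by omega⟩, le_rfl, by omega, by omega, by omega, ?_⟩
  have e1 := hq N
  have e2 : 1 ≤ (250 * h * ((N : ℝ) + 1)) ^ 2 := one_le_pow₀ n4
  calc 4 * q ^ N = 4 * q ^ N * 1 := by ring
    _ ≤ 4 * q ^ N * (250 * h * ((N : ℝ) + 1)) ^ 2 := mul_le_mul_of_nonneg_left e2 (by positivity)
    _ = 4 * 250 ^ 2 * h ^ 2 * (q ^ N * ((N : ℝ) + 1) ^ 2) := by ring
    _ ≤ 4 * 250 ^ 2 * h ^ 2 * C := mul_le_mul_of_nonneg_left e1 (by positivity)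
    _ = 4 * C * 250 ^ 2 * h ^ 2 := by ring

end Crest.Agent.R158.Oe194
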