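import Mathlib

/-!
# Row 158, Block OS (helper488): the OSSS inequality for block decision trees

Configurations `x : ι → Bool` (`ι` finite), product weight `W x = ∏ i, w i (x i)`, blocks
`β : ι → κ`.  `mix β k x a` = `x` with block `k` replaced by the values of `a`.
`Inf k g = E_x E_a |g (mix k x a) - g x|`.
* `osss` : `|E (f g) - E f * E g| ≤ C * ∑ k, δ k * Inf k g` for every decision tree determining `f`
* `osss_expl` : the same for explorations
-/

set_option autoImplicit false
set_option linter.unusedSectionVars false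
set_option linter.unusedFintypeInType false
set_option linter.unusedDecidableInType false

noncomputable section

namespace Crest.Agent.R158.Os488

open Finset

variable {ι κ : Type*} [Fintype ι] [DecidableEq ι] [Fintype κ] [DecidableEq κ]

/-- product weight -/
def W (w : ι → Bool → ℝ) (x : ι → Bool) : ℝ := ∏ i, w i (x i)

/-- expectation -/
def E (w : ι → Bool → ℝ) (h : (ι → Bool) → ℝ) : ℝ := ∑ x, W w x * h x

/-- weights of a product probability -/
structure IsW (w : ι → Bool → ℝ) : Prop where
  nn : ∀ i b, 0 ≤ w i b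
  one : ∀ i, w i true + w i false = 1

/-- replace block `k` of `x` by the one of `a` -/
def mix (β : ι → κ) (k : κ) (x a : ι → Bool) : ι → Bool := fun i => if β i = k then a i else x i

variable {w : ι → Bool → ℝ} {β : ι → κ}

theorem W_nonneg (hw : IsW w) (x : ι → Bool) : 0 ≤ W w x := Finset.prod_nonneg fun i _ => hw.nn i _

theorem sum_W (hw : IsW w) : ∑ x, W w x = 1 := by
  unfold W
  have h := (Finset.prod_univ_sum (fun _ : ι => (Finset.univ : Finset Bool)) w).symm
  rw [Fintype.piFinset_univ] at h
  rw [h]
  refine Finset.prod_eq_one fun i _ => ?_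
  rw [Fintype.sum_bool]
  exact hw.one i

theorem mix_mix (k : κ) (x a : ι → Bool) : mix β k (mix β k x a) (mix β k a x) = x := by
  funext i
  simp only [mix]
  split_ifs <;> rfl

theorem W_mix (k : κ) (x a : ι → Bool) :
    W w (mix β k x a) * W w (mix β k a x) = W w x * W w a := by
  unfold W
  rw [← Finset.prod_mul_distrib, ← Finset.prod_mul_distrib]
  refine Finset.prod_congr rfl fun i _ => ?_
  simp only [mix]
  split_ifs
  · exact mul_comm _ _
  · rfl

/-- swap of a block as a permutation of pairs -/
def swp (β : ι → κ) (k : κ) : ((ι → Bool) × (ι → Bool)) ≃ ((ι → Bool) × (ι → Bool)) where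
  toFun p := (mix β k p.1 p.2, mix β k p.2 p.1)
  invFun p := (mix β k p.1 p.2, mix β k p.2 p.1)
  left_inv p := by simp only [mix_mix]
  right_inv p := by simp only [mix_mix]

theorem sum_mix (k : κ) (H : (ι → Bool) → (ι → Bool) → ℝ) :
    ∑ x, ∑ a, W w x * W w a * H (mix β k x a) (mix β k a x) =
      ∑ x, ∑ a, W w x * W w a * H x a := by
  have h1 : ∀ G : (ι → Bool) → (ι → Bool) → ℝ, ∑ x, ∑ a, G x a =
      ∑ p : (ι → Bool) × (ι → Bool), G p.1 p.2 := fun G =>
    (Fintype.sum_prod_type' G).symm
  rw [h1, h1]
  refine Fintype.sum_equiv (swp β k) _ _ fun p => ?_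
  simp only [swp, Equiv.coe_fn_mk]
  rw [W_mix]

theorem E_mix (hw : IsW w) (k : κ) (h : (ι → Bool) → ℝ) :
    ∑ a, W w a * E w (fun x => h (mix β k x a)) = E w h := by
  have h1 := sum_mix (w := w) (β := β) k (fun x _ => h x)
  simp only [E]
  have h2 : ∑ a, W w a * ∑ x, W w x * h (mix β k x a) =
      ∑ x, ∑ a, W w x * W w a * h (mix β k x a) := by
    rw [Finset.sum_comm]
    refine Finset.sum_congr rfl fun a _ => ?_
    rw [Finset.mul_sum]
    refine Finset.sum_congr rfl fun x _ => ?_
    ring
  rw [h2, h1]
  refine Finset.sum_congr rfl fun x _ => ?_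
  rw [← Finset.sum_mul, ← Finset.mul_sum, sum_W hw, mul_one]

theorem E_mono (hw : IsW w) {f g : (ι → Bool) → ℝ} (h : ∀ x, f x ≤ g x) : E w f ≤ E w g :=
  Finset.sum_le_sum fun x _ => mul_le_mul_of_nonneg_left (h x) (W_nonneg hw x)

theorem E_nonneg (hw : IsW w) {f : (ι → Bool) → ℝ} (h : ∀ x, 0 ≤ f x) : 0 ≤ E w f :=
  Finset.sum_nonneg fun x _ => mul_nonneg (W_nonneg hw x) (h x)

theorem E_const (hw : IsW w) (c : ℝ) : E w (fun _ => c) = c := by
  unfold E
  rw [← Finset.sum_mul, sum_W hw, one_mul]

theorem E_abs (hw : IsW w) (f : (ι → Bool) → ℝ) : |E w f| ≤ E w fun x => |f x| := by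
  unfold E
  refine (Finset.abs_sum_le_sum_abs _ _).trans (le_of_eq ?_)
  refine Finset.sum_congr rfl fun x _ => ?_
  rw [abs_mul, abs_of_nonneg (W_nonneg hw x)]

theorem E_sub (f g : (ι → Bool) → ℝ) : E w (fun x => f x - g x) = E w f - E w g := by
  unfold E
  rw [← Finset.sum_sub_distrib]
  exact Finset.sum_congr rfl fun x _ => by ring

theorem E_smul (c : ℝ) (f : (ι → Bool) → ℝ) : E w (fun x => c * f x) = c * E w f := by
  unfold E
  rw [Finset.mul_sum]
  exact Finset.sum_congr rfl fun x _ => by ring

/-- influence of block `k` -/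
def Inf (w : ι → Bool → ℝ) (β : ι → κ) (k : κ) (g : (ι → Bool) → ℝ) : ℝ :=
  ∑ a, W w a * E w fun x => |g (mix β k x a) - g x|

theorem Inf_nonneg (hw : IsW w) (k : κ) (g : (ι → Bool) → ℝ) : 0 ≤ Inf w β k g :=
  Finset.sum_nonneg fun a _ => mul_nonneg (W_nonneg hw a) (E_nonneg hw fun _ => abs_nonneg _)

/-! ### decision trees -/

/-- decision tree reading blocks -/
inductive DT (X κ : Type*) : Type _
  | leaf : DT X κ
  | node (k : κ) (sub : X → DT X κ) : DT X κ

/-- blocks read on the configuration `x` -/
def reads {X : Type*} : DT X κ → X → Finset κ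
  | .leaf, _ => ∅
  | .node k sub, x => insert k (reads (sub x) x)

/-- the tree does not read the blocks of `R`, never reads a block twice, and its decisions depend
only on what has been read -/
def Ok (β : ι → κ) : DT (ι → Bool) κ → Finset κ → Prop
  | .leaf, _ => True
  | .node k sub, R => k ∉ R ∧ (∀ a, Ok β (sub a) (insert k R)) ∧
      ∀ a a' : ι → Bool, (∀ i, β i = k → a i = a' i) → sub a = sub a'

theorem ok_mix {T : DT (ι → Bool) κ} : ∀ {R : Finset κ}, Ok β T R → ∀ {r : κ}, r ∈ R →
    ∀ x a : ι → Bool, reads T (mix β r x a) = reads T x := by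
  induction T with
  | leaf => intro R _ r _ x a; rfl
  | node k sub ih =>
    intro R hT r hr x a
    obtain ⟨h1, h2, h3⟩ := hT
    have hk : k ≠ r := fun h => h1 (h ▸ hr)
    have h4 : sub (mix β r x a) = sub x := h3 _ _ fun i hi => by
      simp only [mix, hi, if_neg hk]
    simp only [reads]
    rw [h4, ih x (h2 x) (Finset.mem_insert_of_mem hr)]

theorem ok_reads {T : DT (ι → Bool) κ} : ∀ {R : Finset κ}, Ok β T R → ∀ {r : κ}, r ∈ R →
    ∀ x : ι → Bool, r ∉ reads T x := by
  induction T with
  | leaf => intro R _ r _ x h; exact absurd h (Finset.notMem_empty r)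
  | node k sub ih =>
    intro R hT r hr x h
    obtain ⟨h1, h2, h3⟩ := hT
    simp only [reads, Finset.mem_insert] at h
    rcases h with h | h
    · exact h1 (h ▸ hr)
    · exact ih x (h2 x) (Finset.mem_insert_of_mem hr) x h

open Classical in
/-- probability that block `k` is read -/
def δ (w : ι → Bool → ℝ) (T : DT (ι → Bool) κ) (k : κ) : ℝ :=
  E w fun x => if k ∈ reads T x then 1 else 0

theorem δ_nonneg (hw : IsW w) (T : DT (ι → Bool) κ) (k : κ) : 0 ≤ δ w T k :=
  E_nonneg hw fun _ => by split_ifs <;> norm_num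

theorem δ_node_self (hw : IsW w) (k : κ) (sub : (ι → Bool) → DT (ι → Bool) κ) :
    δ w (.node k sub) k = 1 := by
  unfold δ
  have h : (fun x => if k ∈ reads (.node k sub) x then (1 : ℝ) else 0) = fun _ => 1 := by
    funext x
    simp [reads]
  rw [h, E_const hw]

/-- the reading probabilities of a node are the averages of those of the subtrees -/
theorem δ_node (hw : IsW w) {k : κ} {sub : (ι → Bool) → DT (ι → Bool) κ} {R : Finset κ}
    (hT : Ok β (.node k sub) R) {j : κ} (hj : j ≠ k) :
    δ w (.node k sub) j = ∑ a, W w a * δ w (sub a) j := by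
  classical
  obtain ⟨h1, h2, h3⟩ := hT
  unfold δ
  rw [← E_mix (β := β) hw k]
  refine Finset.sum_congr rfl fun a _ => ?_
  congr 2
  funext x
  have h4 : sub (mix β k x a) = sub a := h3 _ _ fun i hi => by simp [mix, hi]
  have h5 : reads (.node k sub) (mix β k x a) = insert k (reads (sub a) x) := by
    simp only [reads]
    rw [h4, ok_mix (h2 a) (Finset.mem_insert_self _ _)]
  rw [h5]
  simp [hj]

/-- **OSSS inequality.** -/
theorem osss (hw : IsW w) (g : (ι → Bool) → ℝ) {C : ℝ} (T : DT (ι → Bool) κ) :
    ∀ (R : Finset κ), Ok β T R → ∀ f : (ι → Bool) → ℝ, (∀ x, |f x| ≤ C) →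
      (∀ x x', (∀ i, β i ∈ reads T x → x i = x' i) → f x = f x') →
      |E w (fun x => f x * g x) - E w f * E w g| ≤ C * ∑ k, δ w T k * Inf w β k g := by
  induction T with
  | leaf =>
    intro R _ f _ hf
    have h : ∀ x, f x = f fun _ => true := fun x => hf _ _ fun i hi => absurd hi (Finset.notMem_empty _)
    have h1 : f = fun _ => f fun _ => true := funext h
    have h2 : E w (fun x => f x * g x) = f (fun _ => true) * E w g := by
      rw [← E_smul]
      congr 1
      funext x
      rw [h x]
    rw [h2, h1, E_const hw]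
    have h3 : ∑ k, δ w (.leaf : DT (ι → Bool) κ) k * Inf w β k g = 0 := by
      refine Finset.sum_eq_zero fun k _ => ?_
      have : δ w (.leaf : DT (ι → Bool) κ) k = 0 := by
        unfold δ
        have : (fun x : ι → Bool => if k ∈ reads (.leaf : DT (ι → Bool) κ) x then (1 : ℝ) else 0) =
            fun _ => 0 := by
          funext x
          simp [reads]
        rw [this, E_const hw]
      rw [this, zero_mul]
    rw [h3]
    simp
  | node k sub ih =>
    intro R hT f hC hf
    have hT' := hT
    obtain ⟨h1, h2, h3⟩ := hT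
    set F : (ι → Bool) → (ι → Bool) → ℝ := fun a x => f (mix β k x a) with hF
    -- first term
    have e1 : E w (fun x => f x * g x) = ∑ a, W w a * E w (fun x => F a x * g (mix β k x a)) :=
      (E_mix (β := β) hw k fun x => f x * g x).symm
    have e2 : E w f * E w g = ∑ a, W w a * (E w (F a) * E w g) := by
      rw [← E_mix (β := β) hw k f, Finset.sum_mul]
      exact Finset.sum_congr rfl fun a _ => by ring
    have e3 : ∀ a, |E w (fun x => F a x * g x) - E w (F a) * E w g| ≤
        C * ∑ j, δ w (sub a) j * Inf w β j g := by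
      intro a
      refine ih a (insert k R) (h2 a) (F a) (fun x => hC _) fun x x' hx => ?_
      refine hf _ _ fun i hi => ?_
      have h4 : sub (mix β k x a) = sub a := h3 _ _ fun i hi => by simp [mix, hi]
      have h5 : reads (.node k sub) (mix β k x a) = insert k (reads (sub a) x) := by
        simp only [reads]
        rw [h4, ok_mix (h2 a) (Finset.mem_insert_self _ _)]
      rw [h5, Finset.mem_insert] at hi
      simp only [mix]
      rcases hi with hi | hi
      · rw [if_pos hi, if_pos hi]
      · split_ifs
        · rfl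
        · exact hx i hi
    have e4 : |E w (fun x => f x * g x) - ∑ a, W w a * E w (fun x => F a x * g x)| ≤
        C * Inf w β k g := by
      rw [e1, ← Finset.sum_sub_distrib]
      refine (Finset.abs_sum_le_sum_abs _ _).trans ?_
      unfold Inf
      rw [Finset.mul_sum]
      refine Finset.sum_le_sum fun a _ => ?_
      rw [← mul_sub, abs_mul, abs_of_nonneg (W_nonneg hw a), ← E_sub]
      have h6 : C * (W w a * E w fun x => |g (mix β k x a) - g x|) =
          W w a * E w fun x => C * |g (mix β k x a) - g x| := by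
        rw [E_smul]; ring
      rw [h6]
      refine mul_le_mul_of_nonneg_left ?_ (W_nonneg hw a)
      refine (E_abs hw _).trans (E_mono hw fun x => ?_)
      rw [← mul_sub, abs_mul]
      exact mul_le_mul_of_nonneg_right (hC _) (abs_nonneg _)
    have e5 : |∑ a, W w a * E w (fun x => F a x * g x) - E w f * E w g| ≤
        C * ∑ j, (∑ a, W w a * δ w (sub a) j) * Inf w β j g := by
      rw [e2, ← Finset.sum_sub_distrib]
      refine (Finset.abs_sum_le_sum_abs _ _).trans ?_
      have h7 : C * ∑ j, (∑ a, W w a * δ w (sub a) j) * Inf w β j g =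
          ∑ a, W w a * (C * ∑ j, δ w (sub a) j * Inf w β j g) := by
        simp only [Finset.mul_sum, Finset.sum_mul]
        rw [Finset.sum_comm]
        exact Finset.sum_congr rfl fun a _ => Finset.sum_congr rfl fun j _ => by ring
      rw [h7]
      refine Finset.sum_le_sum fun a _ => ?_
      rw [← mul_sub, abs_mul, abs_of_nonneg (W_nonneg hw a)]
      exact mul_le_mul_of_nonneg_left (e3 a) (W_nonneg hw a)
    have e6 : C * Inf w β k g + C * ∑ j, (∑ a, W w a * δ w (sub a) j) * Inf w β j g ≤
        C * ∑ j, δ w (.node k sub) j * Inf w β j g := by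
      rw [← mul_add]
      have hC0 : 0 ≤ C := (abs_nonneg _).trans (hC fun _ => true)
      refine mul_le_mul_of_nonneg_left ?_ hC0
      rw [← Finset.add_sum_erase _ _ (Finset.mem_univ k),
        ← Finset.add_sum_erase _ (fun j => δ w (.node k sub) j * Inf w β j g) (Finset.mem_univ k),
        δ_node_self hw, one_mul]
      have h8 : ∑ a, W w a * δ w (sub a) k = 0 := by
        refine Finset.sum_eq_zero fun a _ => ?_
        have : δ w (sub a) k = 0 := by
          unfold δ
          have : (fun x => if k ∈ reads (sub a) x then (1 : ℝ) else 0) = fun _ => 0 := by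
            funext x
            rw [if_neg (ok_reads (h2 a) (Finset.mem_insert_self _ _) x)]
          rw [this, E_const hw]
        rw [this, mul_zero]
      rw [h8, zero_mul, zero_add]
      refine le_of_eq ?_
      congr 1
      refine Finset.sum_congr rfl fun j hj => ?_
      rw [δ_node hw hT' (Finset.ne_of_mem_erase hj)]
    calc |E w (fun x => f x * g x) - E w f * E w g|
        = |(E w (fun x => f x * g x) - ∑ a, W w a * E w (fun x => F a x * g x)) +
            (∑ a, W w a * E w (fun x => F a x * g x) - E w f * E w g)| := by ring_nf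
      _ ≤ _ := abs_add_le _ _
      _ ≤ C * Inf w β k g + C * ∑ j, (∑ a, W w a * δ w (sub a) j) * Inf w β j g :=
          add_le_add e4 e5
      _ ≤ _ := e6

end Crest.Agent.R158.Os488
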