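import Crest.Agent.R158.Os1_488

/-!
# Row 158, Block OS (helper488): explorations and the cluster exploration

* `Expl β` : exploration rule `nxt R x : Option κ`
* `build`, `fin` : the associated decision tree, the final set of explored blocks
* `osss_expl` : OSSS for explorations
* `Cn s t Z u v` : connection by edges with `Z`
* `osss_cluster` : if every connection from `A` to `B` visits the seed set `Sd` then
  `P(A <-> B) (1 - P(A <-> B)) ≤ 1/2 * ∑ k, P(Sd touches block k) * Inf k`
-/

set_option autoImplicit false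
set_option linter.unusedSectionVars false
set_option linter.unusedFintypeInType false
set_option linter.unusedDecidableInType false

noncomputable section

namespace Crest.Agent.R158.Os488

open Finset

variable {ι κ : Type*} [Fintype ι] [DecidableEq ι] [Fintype κ] [DecidableEq κ]
variable {w : ι → Bool → ℝ} {β : ι → κ}

/-- agreement on the blocks of `R` -/
def Agr (β : ι → κ) (R : Finset κ) (x x' : ι → Bool) : Prop := ∀ i, β i ∈ R → x i = x' i

theorem Agr.symm {R : Finset κ} {x x' : ι → Bool} (h : Agr β R x x') : Agr β R x' x :=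
  fun i hi => (h i hi).symm

theorem Agr.mono {R R' : Finset κ} (hR : R ⊆ R') {x x' : ι → Bool} (h : Agr β R' x x') :
    Agr β R x x' := fun i hi => h i (hR hi)

theorem agr_mix {R : Finset κ} {k : κ} {x0 x : ι → Bool} (h : Agr β R x0 x) :
    Agr β (insert k R) (mix β k x0 x) x := by
  intro i hi
  simp only [mix]
  split_ifs with h1
  · rfl
  · rcases Finset.mem_insert.1 hi with h2 | h2
    · exact absurd h2 h1
    · exact h i h2

/-- exploration rule: the next block is unexplored and depends only on what has been explored -/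
structure Expl (β : ι → κ) where
  nxt : Finset κ → (ι → Bool) → Option κ
  new : ∀ {R x k}, nxt R x = some k → k ∉ R
  loc : ∀ {R x x'}, Agr β R x x' → nxt R x = nxt R x'

/-- decision tree of an exploration, with `n` remaining steps -/
def build (X : Expl β) : ℕ → Finset κ → (ι → Bool) → DT (ι → Bool) κ
  | 0, _, _ => .leaf
  | n + 1, R, x =>
    match X.nxt R x with
    | none => .leaf
    | some k => .node k fun a => build X n (insert k R) (mix β k x a)

/-- final explored set, with `n` remaining steps -/
def fin (X : Expl β) : ℕ → Finset κ → (ι → Bool) → Finset κ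
  | 0, R, _ => R
  | n + 1, R, x =>
    match X.nxt R x with
    | none => R
    | some k => fin X n (insert k R) x

theorem ok_build (X : Expl β) (n : ℕ) : ∀ (R : Finset κ) (x : ι → Bool),
    Ok β (build X n R x) R := by
  induction n with
  | zero => intro R x; trivial
  | succ n ih =>
    intro R x
    simp only [build]
    cases h : X.nxt R x with
    | none => trivial
    | some k =>
      refine ⟨X.new h, fun a => ih _ _, fun a a' haa => ?_⟩
      have : mix β k x a = mix β k x a' := by
        funext i
        simp only [mix]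
        split_ifs with h1
        · exact haa i h1
        · rfl
      simp only [this]

theorem reads_build (X : Expl β) (n : ℕ) : ∀ (R : Finset κ) (x0 x : ι → Bool), Agr β R x0 x →
    fin X n R x = R ∪ reads (build X n R x0) x := by
  induction n with
  | zero => intro R x0 x _; simp [build, fin, reads]
  | succ n ih =>
    intro R x0 x h
    simp only [build, fin, X.loc h.symm]
    cases h1 : X.nxt R x0 with
    | none => simp [reads]
    | some k =>
      simp only [reads]
      rw [ih (insert k R) (mix β k x0 x) x (agr_mix h)]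
      ext j
      simp only [Finset.mem_union, Finset.mem_insert]
      tauto

theorem subset_fin (X : Expl β) (n : ℕ) : ∀ (R : Finset κ) (x : ι → Bool), R ⊆ fin X n R x := by
  intro R x
  rw [reads_build X n R x x fun _ _ => rfl]
  exact Finset.subset_union_left

/-- with enough steps the exploration has stopped -/
theorem nxt_fin (X : Expl β) (n : ℕ) : ∀ (R : Finset κ) (x : ι → Bool),
    Fintype.card κ ≤ n + R.card → X.nxt (fin X n R x) x = none := by
  induction n with
  | zero =>
    intro R x h
    simp only [fin]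
    have hR : R = Finset.univ := by
      refine Finset.eq_univ_of_card R (le_antisymm (Finset.card_le_univ R) ?_)
      omega
    cases h1 : X.nxt R x with
    | none => rfl
    | some k => exact absurd (hR ▸ Finset.mem_univ k) (X.new h1)
  | succ n ih =>
    intro R x h
    simp only [fin]
    cases h1 : X.nxt R x with
    | none => simpa using h1
    | some k =>
      simp only
      refine ih _ _ ?_
      rw [Finset.card_insert_of_notMem (X.new h1)]
      omega

/-- an invariant of the explored set -/
theorem fin_induction (X : Expl β) (x : ι → Bool) (P : Finset κ → Prop)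
    (hs : ∀ R k, P R → X.nxt R x = some k → P (insert k R)) (n : ℕ) :
    ∀ R, P R → P (fin X n R x) := by
  induction n with
  | zero => intro R h; exact h
  | succ n ih =>
    intro R h
    simp only [fin]
    cases h1 : X.nxt R x with
    | none => exact h
    | some k => exact ih _ (hs R k h h1)

/-- explored set -/
def Fn (X : Expl β) (x : ι → Bool) : Finset κ := fin X (Fintype.card κ) ∅ x

theorem nxt_Fn (X : Expl β) (x : ι → Bool) : X.nxt (Fn X x) x = none :=
  nxt_fin X _ _ _ (by omega)

open Classical in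
/-- **OSSS for explorations** -/
theorem osss_expl (hw : IsW w) (X : Expl β) (f g : (ι → Bool) → ℝ) {C : ℝ}
    (hC : ∀ x, |f x| ≤ C) (hf : ∀ x x', Agr β (Fn X x) x x' → f x = f x') :
    |E w (fun x => f x * g x) - E w f * E w g| ≤
      C * ∑ k, E w (fun x => if k ∈ Fn X x then 1 else 0) * Inf w β k g := by
  set x0 : ι → Bool := fun _ => true
  have h1 : ∀ x, reads (build X (Fintype.card κ) ∅ x0) x = Fn X x := by
    intro x
    unfold Fn
    rw [reads_build X _ ∅ x0 x fun i hi => absurd hi (Finset.notMem_empty _),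
      Finset.empty_union]
  have h2 := osss hw g (build X (Fintype.card κ) ∅ x0) ∅ (ok_build X _ _ _) f hC
    (fun x x' h => hf x x' fun i hi => h i (by rw [h1]; exact hi))
  refine h2.trans (le_of_eq ?_)
  congr 1
  refine Finset.sum_congr rfl fun k _ => ?_
  congr 1
  unfold δ
  congr 1
  funext x
  rw [h1]

open Classical in
/-- indicator function of an event -/
def ind (A : Set (ι → Bool)) (x : ι → Bool) : ℝ := if x ∈ A then 1 else 0

open Classical in
/-- OSSS, variance form for events -/
theorem osss_event (hw : IsW w) (X : Expl β) (A : Set (ι → Bool))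
    (hA : ∀ x x', Agr β (Fn X x) x x' → (x ∈ A ↔ x' ∈ A)) :
    E w (ind A) * (1 - E w (ind A)) ≤
      1 / 2 * ∑ k, E w (ind {x | k ∈ Fn X x}) * Inf w β k (ind A) := by
  have h1 := osss_expl hw X (fun x => ind A x - 1 / 2) (ind A) (C := 1 / 2)
    (fun x => by unfold ind; split_ifs <;> norm_num)
    (fun x x' h => by unfold ind; simp only [hA x x' h])
  have h2 : E w (fun x => (ind A x - 1 / 2) * ind A x) = 1 / 2 * E w (ind A) := by
    rw [← E_smul]
    congr 1
    funext x
    unfold ind
    split_ifs <;> norm_num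
  have h3 : E w (fun x => ind A x - 1 / 2) = E w (ind A) - 1 / 2 := by
    rw [E_sub, E_const hw]
  rw [h2, h3] at h1
  have h4 : E w (ind A) * (1 - E w (ind A)) =
      1 / 2 * E w (ind A) - (E w (ind A) - 1 / 2) * E w (ind A) := by ring
  rw [h4]
  refine (le_abs_self _).trans (h1.trans (le_of_eq ?_))
  congr 1
  refine Finset.sum_congr rfl fun k _ => ?_
  congr 2
  funext x
  unfold ind
  by_cases h5 : k ∈ Fn X x <;> simp [h5]

/-! ### clusters -/

section Cluster

variable {V : Type*} (s t : ι → V)

/-- one step along an edge with `Z` -/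
def Stp (Z : ι → Prop) (u v : V) : Prop :=
  ∃ e, Z e ∧ ((u = s e ∧ v = t e) ∨ (u = t e ∧ v = s e))

/-- connection by edges with `Z` -/
def Cn (Z : ι → Prop) (u v : V) : Prop := Relation.ReflTransGen (Stp s t Z) u v

variable {s t}

omit [Fintype ι] [DecidableEq ι] in
theorem Stp.symm {Z : ι → Prop} {u v : V} (h : Stp s t Z u v) : Stp s t Z v u := by
  obtain ⟨e, he, h⟩ := h
  exact ⟨e, he, by tauto⟩

omit [Fintype ι] [DecidableEq ι] in
theorem Cn.symm {Z : ι → Prop} {u v : V} (h : Cn s t Z u v) : Cn s t Z v u := by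
  induction h with
  | refl => exact Relation.ReflTransGen.refl
  | tail _ hbc ih => exact Relation.ReflTransGen.head hbc.symm ih

omit [Fintype ι] [DecidableEq ι] in
theorem Cn.mono {Z Z' : ι → Prop} (hZ : ∀ e, Z e → Z' e) {u v : V} (h : Cn s t Z u v) :
    Cn s t Z' u v := by
  induction h with
  | refl => exact Relation.ReflTransGen.refl
  | tail _ hbc ih =>
    obtain ⟨e, he, h⟩ := hbc
    exact Relation.ReflTransGen.tail ih ⟨e, hZ e he, h⟩

omit [Fintype ι] [DecidableEq ι] in
theorem Cn.trans {Z : ι → Prop} {u v x : V} (h : Cn s t Z u v) (h' : Cn s t Z v x) :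
    Cn s t Z u x := Relation.ReflTransGen.trans h h'

/-- in the cluster of the seeds -/
def Clu (s t : ι → V) (Sd : Set V) (Z : ι → Prop) (v : V) : Prop := ∃ u ∈ Sd, Cn s t Z u v

/-- block `k` touches the cluster of the seeds -/
def Tch (s t : ι → V) (β : ι → κ) (Sd : Set V) (Z : ι → Prop) (k : κ) : Prop :=
  ∃ e, β e = k ∧ (Clu s t Sd Z (s e) ∨ Clu s t Sd Z (t e))

open Classical in
/-- exploration of the cluster of the seeds -/
def cexpl (s t : ι → V) (β : ι → κ) (Sd : Set V) : Expl β where
  nxt R x := if h : ∃ k, k ∉ R ∧ Tch s t β Sd (fun e => β e ∈ R ∧ x e = true) k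
    then some h.choose else none
  new := by
    intro R x k h
    split_ifs at h with h1
    · rw [Option.some.injEq] at h
      exact h ▸ h1.choose_spec.1
  loc := by
    intro R x x' h
    have h1 : (fun e => β e ∈ R ∧ x e = true) = fun e => β e ∈ R ∧ x' e = true := by
      funext e
      by_cases he : β e ∈ R
      · simp only [he, h e he]
      · simp only [he, false_and]
    simp only [h1]

variable {Sd : Set V}

theorem cexpl_nxt_some {R : Finset κ} {x : ι → Bool} {k : κ}
    (h : (cexpl s t β Sd).nxt R x = some k) :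
    Tch s t β Sd (fun e => β e ∈ R ∧ x e = true) k := by
  simp only [cexpl] at h
  split_ifs at h with h1
  · rw [Option.some.injEq] at h
    exact h ▸ h1.choose_spec.2

theorem cexpl_nxt_none {R : Finset κ} {x : ι → Bool}
    (h : (cexpl s t β Sd).nxt R x = none) {k : κ}
    (hk : Tch s t β Sd (fun e => β e ∈ R ∧ x e = true) k) : k ∈ R := by
  simp only [cexpl] at h
  split_ifs at h with h1
  by_contra h2
  exact h1 ⟨k, h2, hk⟩

/-- the explored blocks touch the cluster -/
theorem mem_Fn {x : ι → Bool} {k : κ} (h : k ∈ Fn (cexpl s t β Sd) x) :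
    Tch s t β Sd (fun e => x e = true) k := by
  have h1 := fin_induction (cexpl s t β Sd) x
    (fun R => ∀ k ∈ R, Tch s t β Sd (fun e => x e = true) k) (fun R k hR hk j hj => by
      rcases Finset.mem_insert.1 hj with rfl | hj
      · obtain ⟨e, he, h⟩ := cexpl_nxt_some hk
        refine ⟨e, he, h.imp ?_ ?_⟩
        · rintro ⟨u, hu, h⟩
          exact ⟨u, hu, h.mono fun e he => he.2⟩
        · rintro ⟨u, hu, h⟩
          exact ⟨u, hu, h.mono fun e he => he.2⟩
      · exact hR j hj) (Fintype.card κ) ∅ (fun k hk => absurd hk (Finset.notMem_empty k))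
  exact h1 k h

/-- edges at the cluster are explored, so the cluster is determined -/
theorem clu_det {x x' : ι → Bool} (h : Agr β (Fn (cexpl s t β Sd) x) x x') {v : V}
    (hv : Clu s t Sd (fun e => x' e = true) v) :
    Clu s t Sd (fun e => β e ∈ Fn (cexpl s t β Sd) x ∧ x e = true) v := by
  obtain ⟨u, hu, h1⟩ := hv
  induction h1 with
  | refl => exact ⟨u, hu, Relation.ReflTransGen.refl⟩
  | @tail b c hb hbc ih =>
    obtain ⟨e, he, h2⟩ := hbc
    have h3 : β e ∈ Fn (cexpl s t β Sd) x := by
      refine cexpl_nxt_none (nxt_Fn (cexpl s t β Sd) x) ⟨e, rfl, ?_⟩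
      rcases h2 with ⟨rfl, -⟩ | ⟨rfl, -⟩
      · exact Or.inl ih
      · exact Or.inr ih
    have he : x' e = true := he
    obtain ⟨u', hu', h4⟩ := ih
    exact ⟨u', hu', h4.tail ⟨e, ⟨h3, (h e h3).trans he⟩, h2⟩⟩

/-- connections inside the cluster of the seeds are determined -/
theorem cn_det {x x' : ι → Bool} (h : Agr β (Fn (cexpl s t β Sd) x) x x') {u v : V}
    (hu : Clu s t Sd (fun e => x' e = true) u) (huv : Cn s t (fun e => x' e = true) u v) :
    Cn s t (fun e => x e = true) u v := by
  induction huv with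
  | refl => exact Relation.ReflTransGen.refl
  | @tail b c hb hbc ih =>
    obtain ⟨e, he, h2⟩ := hbc
    have he : x' e = true := he
    obtain ⟨u0, hu0, h0⟩ := hu
    have h5 := clu_det h ⟨u0, hu0, h0.trans hb⟩
    have h3 : β e ∈ Fn (cexpl s t β Sd) x := by
      refine cexpl_nxt_none (nxt_Fn (cexpl s t β Sd) x) ⟨e, rfl, ?_⟩
      rcases h2 with ⟨rfl, -⟩ | ⟨rfl, -⟩
      · exact Or.inl h5
      · exact Or.inr h5
    exact ih.tail ⟨e, (h e h3).trans he, h2⟩

/-- the explored set is determined by itself -/
theorem fin_agr (X : Expl β) (n : ℕ) : ∀ (R : Finset κ) (x x' : ι → Bool),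
    Agr β (fin X n R x) x x' → fin X n R x' = fin X n R x := by
  induction n with
  | zero => intro R x x' _; rfl
  | succ n ih =>
    intro R x x' h
    have h1 : X.nxt R x = X.nxt R x' := X.loc (h.mono (subset_fin X (n + 1) R x))
    simp only [fin] at h ⊢
    rw [← h1]
    cases h2 : X.nxt R x with
    | none => rfl
    | some k =>
      simp only [h2] at h
      exact ih _ _ _ h

theorem Fn_agr (X : Expl β) {x x' : ι → Bool} (h : Agr β (Fn X x) x x') : Fn X x' = Fn X x :=
  fin_agr X _ _ _ _ h

variable (s t) in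
/-- connection event -/
def ConE (A B : Set V) : Set (ι → Bool) :=
  {x | ∃ a ∈ A, ∃ b ∈ B, Cn s t (fun e => x e = true) a b}

theorem conE_det {A B : Set V}
    (hsep : ∀ x ∈ ConE s t A B, ∃ a ∈ A, ∃ b ∈ B, ∃ u ∈ Sd,
      Cn s t (fun e => x e = true) u a ∧ Cn s t (fun e => x e = true) a b)
    {x x' : ι → Bool} (h : Agr β (Fn (cexpl s t β Sd) x) x x') (hx : x' ∈ ConE s t A B) :
    x ∈ ConE s t A B := by
  obtain ⟨a, ha, b, hb, u, hu, h1, h2⟩ := hsep x' hx
  exact ⟨a, ha, b, hb, cn_det h ⟨u, hu, h1⟩ h2⟩

/-- touching event -/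
def TchE (s t : ι → V) (β : ι → κ) (Sd : Set V) (k : κ) : Set (ι → Bool) :=
  {x | Tch s t β Sd (fun e => x e = true) k}

theorem ind_mono {A B : Set (ι → Bool)} (h : A ⊆ B) (x : ι → Bool) : ind A x ≤ ind B x := by
  unfold ind
  by_cases h1 : x ∈ A
  · rw [if_pos h1, if_pos (h h1)]
  · rw [if_neg h1]; split_ifs <;> norm_num

/-- **OSSS for connection events**: every connection from `A` to `B` visits the seeds -/
theorem osss_cluster (hw : IsW w) {A B : Set V}
    (hsep : ∀ x ∈ ConE s t A B, ∃ a ∈ A, ∃ b ∈ B, ∃ u ∈ Sd,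
      Cn s t (fun e => x e = true) u a ∧ Cn s t (fun e => x e = true) a b) :
    E w (ind (ConE s t A B)) * (1 - E w (ind (ConE s t A B))) ≤
      1 / 2 * ∑ k, E w (ind (TchE s t β Sd k)) * Inf w β k (ind (ConE s t A B)) := by
  refine (osss_event hw (cexpl s t β Sd) _ fun x x' h => ⟨fun hx => ?_, conE_det hsep h⟩).trans ?_
  · have h1 : Agr β (Fn (cexpl s t β Sd) x') x' x := by
      rw [Fn_agr _ h]
      exact h.symm
    exact conE_det hsep h1 hx
  · refine mul_le_mul_of_nonneg_left ?_ (by norm_num)
    refine Finset.sum_le_sum fun k _ => ?_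
    refine mul_le_mul_of_nonneg_right ?_ (Inf_nonneg hw k _)
    have h2 : {x | k ∈ Fn (cexpl s t β Sd) x} ⊆ TchE s t β Sd k := fun x hx => mem_Fn hx
    exact E_mono hw fun x => ind_mono h2 x

/-- pivotality of a block -/
def Piv (β : ι → κ) (k : κ) (A : Set (ι → Bool)) : Set (ι → Bool) :=
  {x | ∃ x', (∀ i, β i ≠ k → x' i = x i) ∧ ¬(x' ∈ A ↔ x ∈ A)}

theorem Inf_le_piv (hw : IsW w) (k : κ) (A : Set (ι → Bool)) :
    Inf w β k (ind A) ≤ E w (ind (Piv β k A)) := by
  unfold Inf
  have h1 : ∀ a, E w (fun x => |ind A (mix β k x a) - ind A x|) ≤ E w (ind (Piv β k A)) := by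
    intro a
    refine E_mono hw fun x => ?_
    have h2 : ∀ i, β i ≠ k → mix β k x a i = x i := fun i hi => by simp [mix, hi]
    by_cases h3 : mix β k x a ∈ A <;> by_cases h4 : x ∈ A
    · have : ind A (mix β k x a) - ind A x = 0 := by simp [ind, h3, h4]
      rw [this, abs_zero]
      unfold ind; split_ifs <;> norm_num
    · have h5 : x ∈ Piv β k A := ⟨_, h2, by tauto⟩
      simp [ind, h3, h4, h5]
    · have h5 : x ∈ Piv β k A := ⟨_, h2, by tauto⟩
      simp [ind, h3, h4, h5]
    · have : ind A (mix β k x a) - ind A x = 0 := by simp [ind, h3, h4]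
      rw [this, abs_zero]
      unfold ind; split_ifs <;> norm_num
  calc ∑ a, W w a * E w (fun x => |ind A (mix β k x a) - ind A x|)
      ≤ ∑ a, W w a * E w (ind (Piv β k A)) :=
        Finset.sum_le_sum fun a _ => mul_le_mul_of_nonneg_left (h1 a) (W_nonneg hw a)
    _ = _ := by rw [← Finset.sum_mul, sum_W hw, one_mul]

/-- **averaged OSSS for connection events** -/
theorem osss_avg (hw : IsW w) {A B : Set V} {γ : Type*} (J : Finset γ) (hJ : J.Nonempty)
    (Sd : γ → Set V)
    (hsep : ∀ j ∈ J, ∀ x ∈ ConE s t A B, ∃ a ∈ A, ∃ b ∈ B, ∃ u ∈ Sd j,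
      Cn s t (fun e => x e = true) u a ∧ Cn s t (fun e => x e = true) a b) :
    E w (ind (ConE s t A B)) * (1 - E w (ind (ConE s t A B))) ≤
      1 / 2 * ∑ k, ((∑ j ∈ J, E w (ind (TchE s t β (Sd j) k))) / J.card) *
        E w (ind (Piv β k (ConE s t A B))) := by
  have hJ0 : (0 : ℝ) < J.card := by exact_mod_cast hJ.card_pos
  have h1 : ∀ j ∈ J, E w (ind (ConE s t A B)) * (1 - E w (ind (ConE s t A B))) ≤
      1 / 2 * ∑ k, E w (ind (TchE s t β (Sd j) k)) * E w (ind (Piv β k (ConE s t A B))) := by
    intro j hj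
    refine (osss_cluster (β := β) hw (hsep j hj)).trans ?_
    refine mul_le_mul_of_nonneg_left ?_ (by norm_num)
    refine Finset.sum_le_sum fun k _ => ?_
    exact mul_le_mul_of_nonneg_left (Inf_le_piv hw k _)
      (E_nonneg hw fun x => by unfold ind; split_ifs <;> norm_num)
  have h2 := Finset.sum_le_sum h1
  rw [Finset.sum_const, nsmul_eq_mul] at h2
  have h3 : ∑ j ∈ J, 1 / 2 * ∑ k, E w (ind (TchE s t β (Sd j) k)) *
      E w (ind (Piv β k (ConE s t A B))) =
      J.card * (1 / 2 * ∑ k, ((∑ j ∈ J, E w (ind (TchE s t β (Sd j) k))) / J.card) *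
        E w (ind (Piv β k (ConE s t A B)))) := by
    rw [← Finset.mul_sum, Finset.sum_comm]
    simp only [← Finset.sum_mul]
    rw [mul_left_comm, Finset.mul_sum (a := (J.card : ℝ))]
    congr 1
    refine Finset.sum_congr rfl fun k _ => ?_
    field_simp
  rw [h3] at h2
  exact le_of_mul_le_mul_left h2 hJ0

end Cluster

end Crest.Agent.R158.Os488
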