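import Crest.Agent.R158.Os2_488
import Crest.Agent.R158.Rs1_689

/-!
# Row 158, Block OS (helper488): block OSSS for `PB w` (product Bernoulli law of Rs1_689)

`s t : ι → V` end points of the edges, `β : ι → κ` blocks, `S` finite set of edges.
* `CnS s t S z u v`  : connection by open edges of `S`
* `ConS s t S A B`   : `A` connected to `B` inside `S`
* `TchS s t β S Sd k`: block `k` has an edge (in `S`) with an end point connected to `Sd` in `S`
* `PivS β k A`       : block `k` is pivotal for `A`
* `osss_PB`          : averaged block OSSS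
-/

set_option autoImplicit false
set_option linter.unusedSectionVars false

noncomputable section

namespace Crest.Agent.R158.Os488

open MeasureTheory unitInterval Crest.Agent.R158.Rs689

variable {ι κ V : Type*} (s t : ι → V) (β : ι → κ) (S : Finset ι)

/-- connection by open edges of `S` -/
def CnS (z : ι → Bool) (u v : V) : Prop := Cn s t (fun e => e ∈ S ∧ z e = true) u v

/-- connection event -/
def ConS (A B : Set V) : Set (ι → Bool) := {z | ∃ a ∈ A, ∃ b ∈ B, CnS s t S z a b}

/-- block `k` touches the cluster of `Sd` -/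
def TchS (Sd : Set V) (k : κ) : Set (ι → Bool) :=
  {z | ∃ e ∈ S, β e = k ∧ ∃ u ∈ Sd, CnS s t S z u (s e) ∨ CnS s t S z u (t e)}

/-- block `k` is pivotal for `A` -/
def PivS (k : κ) (A : Set (ι → Bool)) : Set (ι → Bool) :=
  {z | ∃ z', (∀ i, β i ≠ k → z' i = z i) ∧ ¬(z' ∈ A ↔ z ∈ A)}

variable {s t β S}

theorem cnS_congr {z z' : ι → Bool} (h : ∀ e ∈ S, z e = z' e) {u v : V} :
    CnS s t S z u v ↔ CnS s t S z' u v := by
  have h1 : (fun e => e ∈ S ∧ z e = true) = fun e => e ∈ S ∧ z' e = true := by
    funext e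
    by_cases he : e ∈ S
    · simp only [he, h e he]
    · simp only [he, false_and]
  unfold CnS
  rw [h1]

theorem dep_conS (A B : Set V) : Dep S (ConS s t S A B) := fun z z' h => by
  simp only [ConS, Set.mem_ofPred_eq, cnS_congr h]

theorem dep_tchS (Sd : Set V) (k : κ) : Dep S (TchS s t β S Sd k) := fun z z' h => by
  simp only [TchS, Set.mem_ofPred_eq, cnS_congr h]

theorem dep_pivS (k : κ) {A : Set (ι → Bool)} (hA : Dep S A) : Dep S (PivS β k A) := by
  classical
  have key : ∀ z z' : ι → Bool, (∀ e ∈ S, z e = z' e) → z ∈ PivS β k A → z' ∈ PivS β k A := by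
    rintro z z' h ⟨y, hy, hn⟩
    refine ⟨fun e => if e ∈ S then y e else z' e, fun i hi => ?_, ?_⟩
    · show (if i ∈ S then y i else z' i) = z' i
      split_ifs with h1
      · rw [hy i hi, h i h1]
      · rfl
    · have h1 : (fun e => if e ∈ S then y e else z' e) ∈ A ↔ y ∈ A :=
        hA _ _ fun e he => if_pos he
      rw [h1, ← hA z z' h]
      exact hn
  exact fun z z' h => ⟨key z z' h, key z' z fun e he => (h e he).symm⟩

/-! ### restriction to `S` -/

/-- weights on the coordinates of `S` -/
def wS (w : ι → I) (S : Finset ι) (e : S) (b : Bool) : ℝ := (bern (w e)).real {b}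

theorem isW_wS (w : ι → I) : IsW (wS w S) where
  nn _ _ := measureReal_nonneg
  one e := by
    simp only [wS]
    rw [bern_real_true, bern_real_false]
    ring

variable [DecidableEq ι]

theorem real_eq_E (w : ι → I) {A : Set (ι → Bool)} {A' : Set (S → Bool)}
    (h : ∀ z, z ∈ A ↔ S.restrict z ∈ A') : (PB w).real A = E (wS w S) (ind A') := by
  classical
  have hA : Dep S A := fun z z' hz => by
    rw [h, h]
    have : S.restrict z = S.restrict z' := funext fun e => hz e e.2
    rw [this]
  rw [PB_real_eq w hA]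
  unfold E
  refine Finset.sum_congr (by ext; simp) fun y _ => ?_
  have h1 : (y ∈ trc S A) ↔ y ∈ A' := by
    constructor
    · rintro ⟨z, hz, hy⟩
      have : S.restrict z = y := funext fun e => hy e
      rw [← this]
      exact (h z).1 hz
    · intro hy
      refine ⟨fun e => if he : e ∈ S then y ⟨e, he⟩ else false, ?_, fun e => by simp⟩
      rw [h]
      have : S.restrict (fun e => if he : e ∈ S then y ⟨e, he⟩ else false) = y := by
        funext e
        simp
      rw [this]
      exact hy
  unfold ind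
  simp only [h1]
  rfl

/-- the blocks met by `S` -/
abbrev Kp (β : ι → κ) (S : Finset ι) [DecidableEq κ] : Type _ := {k // k ∈ S.image β}

variable [DecidableEq κ]

/-- block map on `S` -/
def bS (β : ι → κ) (S : Finset ι) (e : S) : Kp β S := ⟨β e, Finset.mem_image_of_mem β e.2⟩

omit [DecidableEq ι] in
theorem cnS_iff {z : ι → Bool} {u v : V} :
    CnS s t S z u v ↔
      Cn (fun e : S => s e) (fun e : S => t e) (fun e : S => S.restrict z e = true) u v := by
  have h1 : ∀ a b : V, Stp s t (fun e => e ∈ S ∧ z e = true) a b ↔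
      Stp (fun e : S => s e) (fun e : S => t e) (fun e : S => S.restrict z e = true) a b := by
    intro a b
    constructor
    · rintro ⟨e, ⟨he, hz⟩, h⟩
      exact ⟨⟨e, he⟩, hz, h⟩
    · rintro ⟨e, hz, h⟩
      exact ⟨e, ⟨e.2, hz⟩, h⟩
  have h2 : Stp s t (fun e => e ∈ S ∧ z e = true) =
      Stp (fun e : S => s e) (fun e : S => t e) (fun e : S => S.restrict z e = true) := by
    funext a b
    exact propext (h1 a b)
  unfold CnS Cn
  rw [h2]

omit [DecidableEq ι] in
theorem conS_iff {A B : Set V} {z : ι → Bool} :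
    z ∈ ConS s t S A B ↔
      S.restrict z ∈ ConE (fun e : S => s e) (fun e : S => t e) A B := by
  simp only [ConS, ConE, Set.mem_ofPred_eq, cnS_iff]

theorem tchS_iff {Sd : Set V} (k : Kp β S) {z : ι → Bool} :
    z ∈ TchS s t β S Sd k.1 ↔
      S.restrict z ∈ TchE (fun e : S => s e) (fun e : S => t e) (bS β S) Sd k := by
  simp only [TchS, TchE, Tch, Clu, Set.mem_ofPred_eq, cnS_iff]
  constructor
  · rintro ⟨e, he, hk, u, hu, h⟩
    refine ⟨⟨e, he⟩, Subtype.ext hk, ?_⟩
    exact h.imp (fun h => ⟨u, hu, h⟩) fun h => ⟨u, hu, h⟩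
  · rintro ⟨e, he, h⟩
    have hk : β e = k.1 := congrArg Subtype.val he
    rcases h with ⟨u, hu, h⟩ | ⟨u, hu, h⟩
    · exact ⟨e, e.2, hk, u, hu, Or.inl h⟩
    · exact ⟨e, e.2, hk, u, hu, Or.inr h⟩

theorem pivS_iff (k : Kp β S) {A : Set (ι → Bool)} {A' : Set (S → Bool)}
    (h : ∀ z, z ∈ A ↔ S.restrict z ∈ A') {z : ι → Bool} :
    z ∈ PivS β k.1 A ↔ S.restrict z ∈ Piv (bS β S) k A' := by
  constructor
  · rintro ⟨z', hz', hn⟩
    refine ⟨S.restrict z', fun i hi => hz' i fun hk => hi (Subtype.ext hk), ?_⟩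
    rw [← h, ← h]
    exact hn
  · rintro ⟨y, hy, hn⟩
    refine ⟨fun e => if he : e ∈ S then y ⟨e, he⟩ else z e, fun i hi => ?_, ?_⟩
    · show (if he : i ∈ S then y ⟨i, he⟩ else z i) = z i
      split_ifs with h1
      · exact hy ⟨i, h1⟩ fun hk => hi (congrArg Subtype.val hk)
      · rfl
    · rw [h, h]
      have : S.restrict (fun e => if he : e ∈ S then y ⟨e, he⟩ else z e) = y := by
        funext e
        simp
      rw [this]
      exact hn

/-- **Block OSSS for connection events**, averaged over a finite family of seed sets -/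
theorem osss_PB (w : ι → I) (β : ι → κ) {A B : Set V} {γ : Type*} (J : Finset γ)
    (hJ : J.Nonempty) (Sd : γ → Set V)
    (hsep : ∀ j ∈ J, ∀ z ∈ ConS s t S A B, ∃ a ∈ A, ∃ b ∈ B, ∃ u ∈ Sd j,
      CnS s t S z u a ∧ CnS s t S z a b) :
    (PB w).real (ConS s t S A B) * (1 - (PB w).real (ConS s t S A B)) ≤
      1 / 2 * ∑ k ∈ S.image β, ((∑ j ∈ J, (PB w).real (TchS s t β S (Sd j) k)) / J.card) *
        (PB w).real (PivS β k (ConS s t S A B)) := by
  have h1 := osss_avg (w := wS w S) (β := bS β S) (s := fun e : S => s e) (t := fun e : S => t e)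
    (isW_wS w) (A := A) (B := B) J hJ Sd (by
      intro j hj y hy
      obtain ⟨a, ha, b, hb, u, hu, h2, h3⟩ := hsep j hj
        (fun e => if he : e ∈ S then y ⟨e, he⟩ else false) (by
          rw [conS_iff]
          have : S.restrict (fun e => if he : e ∈ S then y ⟨e, he⟩ else false) = y := by
            funext e
            simp
          rw [this]
          exact hy)
      have h4 : S.restrict (fun e => if he : e ∈ S then y ⟨e, he⟩ else false) = y := by
        funext e
        simp
      rw [cnS_iff, h4] at h2 h3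
      exact ⟨a, ha, b, hb, u, hu, h2, h3⟩)
  rw [real_eq_E w (fun z => conS_iff (s := s) (t := t) (A := A) (B := B)),
    ← Finset.sum_coe_sort (S.image β)]
  refine h1.trans (le_of_eq ?_)
  congr 1
  refine Finset.sum_congr rfl fun k _ => ?_
  rw [real_eq_E w (fun z => pivS_iff k (fun z => conS_iff (s := s) (t := t) (A := A) (B := B)))]
  congr 2
  refine Finset.sum_congr rfl fun j _ => ?_
  rw [real_eq_E w (fun z => tchS_iff k)]

/-- **Consequence**: averaged revealments `≤ δ` force many pivotal blocks -/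
theorem sum_piv_ge (w : ι → I) (β : ι → κ) {A B : Set V} {γ : Type*} (J : Finset γ)
    (hJ : J.Nonempty) (Sd : γ → Set V)
    (hsep : ∀ j ∈ J, ∀ z ∈ ConS s t S A B, ∃ a ∈ A, ∃ b ∈ B, ∃ u ∈ Sd j,
      CnS s t S z u a ∧ CnS s t S z a b) {d : ℝ} (hd : 0 < d)
    (hrev : ∀ k ∈ S.image β, ∑ j ∈ J, (PB w).real (TchS s t β S (Sd j) k) ≤ J.card * d) :
    2 * ((PB w).real (ConS s t S A B) * (1 - (PB w).real (ConS s t S A B))) / d ≤
      ∑ k ∈ S.image β, (PB w).real (PivS β k (ConS s t S A B)) := by
  have hJ0 : (0 : ℝ) < J.card := by exact_mod_cast hJ.card_pos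
  have h1 := osss_PB (s := s) (t := t) (S := S) w β (A := A) (B := B) J hJ Sd hsep
  have h2 : ∑ k ∈ S.image β, ((∑ j ∈ J, (PB w).real (TchS s t β S (Sd j) k)) / J.card) *
        (PB w).real (PivS β k (ConS s t S A B)) ≤
      d * ∑ k ∈ S.image β, (PB w).real (PivS β k (ConS s t S A B)) := by
    rw [Finset.mul_sum]
    refine Finset.sum_le_sum fun k hk => ?_
    refine mul_le_mul_of_nonneg_right ?_ measureReal_nonneg
    rw [div_le_iff₀ hJ0]
    linarith [hrev k hk]
  rw [div_le_iff₀ hd]
  nlinarith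

end Crest.Agent.R158.Os488
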