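import Crest.Agent.R158.Os3_488
import Crest.Agent.R158.FrPre_158
import Crest.Agent.R158.Rs5_689

/-!
# Row 158, Block OS (helper488): block revealment and pivotal blocks of rectangle crossings

Rectangle `[a,b] × [c,d]`, `rS a b c d` its edges, blocks `blk m e = (⌊x/m⌋, ⌊y/m⌋)`, `(x,y) = src e`.
* `lr_conS` : the left-right crossing as a connection event of `Os3_488`
* `tch_sub_arm` : if column `j` touches block `k` then `ArmX (m k) m |j - m k.1|`
* `piv_blocks` : with `f = P_p(LR crossing)`, for every `ρ`,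
  `2 f (1-f) ≤ ((2ρ+1)/(b-a+1) + P_p(ArmX 0 m ρ)) * ∑ₖ P_p(block k pivotal)`
* `piv_blocks_pow` : the same from a one-arm bound `P_p(ArmX 0 m R) ≤ C (m/R)^α` for `R ≤ N`
-/

set_option autoImplicit false

noncomputable section

namespace Crest.Agent.R158.Os488

open MeasureTheory unitInterval Crest.Agent.R158.Rs689 Crest.Agent.R158.Fr158
open Crest.Agent.R161.Geo729 Crest.Agent.R161.Topo374 Crest.Agent.R161.Dual374
open Crest.Agent.R161.Tas682

/-- vertices of the rectangle -/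
def rV (a b c d : ℤ) : Finset P2 := Finset.Icc a b ×ˢ Finset.Icc c d

theorem mem_rV {a b c d : ℤ} {v : P2} : v ∈ rV a b c d ↔ v ∈ Rect a b c d := by
  unfold rV Rect
  rw [Finset.mem_product, Finset.mem_Icc, Finset.mem_Icc]
  exact ⟨fun h => ⟨h.1.1, h.1.2, h.2.1, h.2.2⟩, fun h => ⟨⟨h.1, h.2.1⟩, h.2.2.1, h.2.2.2⟩⟩

/-- edges of the rectangle -/
def rS (a b c d : ℤ) : Finset Edge := eIn (rV a b c d)

/-- block of an edge -/
def blk (m : ℕ) (e : Edge) : P2 := ((src e).1 / (m : ℤ), (src e).2 / (m : ℤ))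

/-- left side, right side, columns -/
def colR (a b c d j : ℤ) : Set P2 := {v | v.1 = j ∧ v ∈ Rect a b c d}

theorem cnS_iff_oc {a b c d : ℤ} {z : Cf} {u v : P2} (hu : u ∈ Rect a b c d) :
    CnS src tgt (rS a b c d) z u v ↔ OC z (Rect a b c d) u v := by
  constructor
  · intro h
    refine ⟨hu, ?_⟩
    unfold CnS Cn at h
    induction h with
    | refl => exact .refl
    | tail _ h1 ih =>
      obtain ⟨e, ⟨he, hz⟩, h2⟩ := h1
      have h3 := mem_eIn.1 he
      rw [mem_rV, mem_rV] at h3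
      refine ih.tail ⟨⟨e, hz, h2⟩, ?_⟩
      rcases h2 with ⟨rfl, rfl⟩ | ⟨rfl, rfl⟩
      · exact h3
      · exact h3.symm
  · rintro ⟨-, h⟩
    unfold CnS Cn
    induction h with
    | refl => exact .refl
    | tail _ h1 ih =>
      obtain ⟨⟨e, hz, h2⟩, h3, h4⟩ := h1
      refine ih.tail ⟨e, ⟨mem_eIn.2 ?_, hz⟩, h2⟩
      rw [mem_rV, mem_rV]
      rcases h2 with ⟨rfl, rfl⟩ | ⟨rfl, rfl⟩
      · exact ⟨h3, h4⟩
      · exact ⟨h4, h3⟩

theorem lr_conS (a b c d : ℤ) :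
    {z : Cf | LRc z a b c d} =
      ConS src tgt (rS a b c d) (colR a b c d a) (colR a b c d b) := by
  ext z
  constructor
  · rintro ⟨u, v, hu, hv, h⟩
    exact ⟨u, ⟨hu, h.1⟩, v, ⟨hv, h.right⟩, (cnS_iff_oc h.1).2 h⟩
  · rintro ⟨u, ⟨hu, hu'⟩, v, ⟨hv, hv'⟩, h⟩
    exact ⟨u, v, hu, hv, (cnS_iff_oc hu').1 h⟩

/-- every left-right crossing visits every column -/
theorem lr_sep {a b c d j : ℤ} (haj : a ≤ j) (hjb : j ≤ b) {z : Cf}
    (hz : z ∈ ConS src tgt (rS a b c d) (colR a b c d a) (colR a b c d b)) :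
    ∃ u ∈ colR a b c d a, ∃ v ∈ colR a b c d b, ∃ w ∈ colR a b c d j,
      CnS src tgt (rS a b c d) z w u ∧ CnS src tgt (rS a b c d) z u v := by
  obtain ⟨u, hu, v, hv, h⟩ := hz
  have h1 := (cnS_iff_oc hu.2).1 h
  obtain ⟨w, hw, h2⟩ := first_hit (fun p => p.1) (fun x y hxy => by unfold Nbr at hxy; omega) j h1
    (by have := hu.1; omega) (by have := hv.1; omega)
  have h3 : OC z (Rect a b c d) u w := h2.monoS fun p hp => hp.1
  refine ⟨u, hu, v, hv, w, ⟨hw, h3.right⟩, ?_, h⟩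
  exact (cnS_iff_oc h3.right).2 h3.symm

/-- connections inside the rectangle are connections -/
theorem rch_of_cnS {S : Finset Edge} {z : Cf} {u v : P2} (h : CnS src tgt S z u v) :
    Rch z u v := by
  unfold CnS Cn at h
  induction h with
  | refl => exact .refl
  | tail _ h1 ih =>
    obtain ⟨e, ⟨_, hz⟩, h2⟩ := h1
    exact ih.tail ⟨e, hz, h2⟩

/-- corner of a block -/
def corner (m : ℕ) (k : P2) : P2 := ((m : ℤ) * k.1, (m : ℤ) * k.2)

theorem tch_sub_arm {m : ℕ} (hm : 1 ≤ m) {S : Finset Edge} {Sd : Set P2} {j : ℤ}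
    (hSd : ∀ v ∈ Sd, v.1 = j) (k : P2) {r : ℕ} (hr : (r : ℤ) ≤ |j - (m : ℤ) * k.1|) :
    TchS src tgt (blk m) S Sd k ⊆ ArmX (corner m k) m r := by
  rintro z ⟨e, -, hk, u, hu, h⟩
  have hm0 : (0 : ℤ) < m := by exact_mod_cast hm
  have h1 : (src e).1 / (m : ℤ) = k.1 := congrArg Prod.fst hk
  have h2 : (src e).2 / (m : ℤ) = k.2 := congrArg Prod.snd hk
  have h3 := Int.emod_nonneg (src e).1 hm0.ne'
  have h4 := Int.emod_lt_of_pos (src e).1 hm0
  have h5 := Int.emod_nonneg (src e).2 hm0.ne'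
  have h6 := Int.emod_lt_of_pos (src e).2 hm0
  have h7 := Int.mul_ediv_add_emod (src e).1 m
  have h8 := Int.mul_ediv_add_emod (src e).2 m
  rw [h1] at h7
  rw [h2] at h8
  have hs : |(src e).1 - (corner m k).1| ≤ (m : ℤ) ∧ |(src e).2 - (corner m k).2| ≤ (m : ℤ) := by
    simp only [corner]
    constructor <;> rw [abs_le] <;> constructor <;> linarith
  have ht : |(tgt e).1 - (corner m k).1| ≤ (m : ℤ) ∧ |(tgt e).2 - (corner m k).2| ≤ (m : ℤ) := by
    obtain ⟨⟨x, y⟩, b⟩ := e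
    simp only [corner, src] at *
    cases b
    · rw [tgt_h]
      simp only
      constructor <;> rw [abs_le] <;> constructor <;> linarith
    · rw [tgt_v]
      simp only
      constructor <;> rw [abs_le] <;> constructor <;> linarith
  have hu' : (r : ℤ) ≤ |u.1 - (corner m k).1| := by
    rw [hSd u hu]
    exact hr
  rcases h with h | h
  · exact ⟨src e, u, hs.1, hs.2, Or.inl hu', rch_of_cnS h.symm⟩
  · exact ⟨tgt e, u, ht.1, ht.2, Or.inl hu', rch_of_cnS h.symm⟩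

theorem card_near (x : ℤ) (ρ : ℕ) (J : Finset ℤ) :
    ((J.filter fun j => |j - x| < (ρ : ℤ)).card : ℝ) ≤ 2 * ρ + 1 := by
  have h1 : (J.filter fun j => |j - x| < (ρ : ℤ)) ⊆ Finset.Icc (x - ρ) (x + ρ) := by
    intro j hj
    rw [Finset.mem_filter, abs_lt] at hj
    rw [Finset.mem_Icc]
    omega
  have h2 := Finset.card_le_card h1
  rw [Int.card_Icc] at h2
  have h3 : (x + ρ + 1 - (x - ρ)).toNat = 2 * ρ + 1 := by omega
  rw [h3] at h2
  exact_mod_cast h2

/-- sum of the revealment probabilities over the seed columns -/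
theorem rev_sum (p : I) {m ρ : ℕ} (hm : 1 ≤ m) (S : Finset Edge) (J : Finset ℤ)
    (Sd : ℤ → Set P2) (hSd : ∀ j, ∀ v ∈ Sd j, v.1 = j) (k : P2) :
    ∑ j ∈ J, (PB fun _ : Edge => p).real (TchS src tgt (blk m) S (Sd j) k) ≤
      (2 * ρ + 1) + J.card * (Rs689.nu p).real (ArmX (0, 0) m ρ) := by
  classical
  rw [← Finset.sum_filter_add_sum_filter_not J fun j => |j - (m : ℤ) * k.1| < (ρ : ℤ)]
  refine add_le_add ?_ ?_
  · refine le_trans ?_ (card_near ((m : ℤ) * k.1) ρ J)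
    rw [← nsmul_one (Finset.card _)]
    refine Finset.sum_le_card_nsmul _ _ _ fun j _ => measureReal_le_one
  · calc ∑ j ∈ J.filter fun j => ¬|j - (m : ℤ) * k.1| < (ρ : ℤ),
          (PB fun _ : Edge => p).real (TchS src tgt (blk m) S (Sd j) k)
        ≤ ∑ _j ∈ J.filter fun j => ¬|j - (m : ℤ) * k.1| < (ρ : ℤ),
          (Rs689.nu p).real (ArmX (0, 0) m ρ) := by
          refine Finset.sum_le_sum fun j hj => ?_
          rw [Finset.mem_filter, not_lt] at hj
          rw [← armX_prob p (corner m k)]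
          exact measureReal_mono (tch_sub_arm hm (hSd j) k hj.2)
      _ ≤ J.card * (Rs689.nu p).real (ArmX (0, 0) m ρ) := by
          rw [Finset.sum_const, nsmul_eq_mul]
          refine mul_le_mul_of_nonneg_right ?_ measureReal_nonneg
          exact_mod_cast Finset.card_filter_le _ _

/-- **pivotal blocks of a left-right crossing** -/
theorem piv_blocks (p : I) {a b c d : ℤ} (hab : a ≤ b) {m ρ : ℕ} (hm : 1 ≤ m) :
    2 * ((Rs689.nu p).real {z : Cf | LRc z a b c d} *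
      (1 - (Rs689.nu p).real {z : Cf | LRc z a b c d})) ≤
      ((2 * ρ + 1) / ((b - a + 1 : ℤ) : ℝ) + (Rs689.nu p).real (ArmX (0, 0) m ρ)) *
        ∑ k ∈ (rS a b c d).image (blk m),
          (Rs689.nu p).real (PivS (blk m) k {z : Cf | LRc z a b c d}) := by
  classical
  set J : Finset ℤ := Finset.Icc a b with hJ
  have hJc : ((J.card : ℕ) : ℝ) = ((b - a + 1 : ℤ) : ℝ) := by
    have h1 : ((J.card : ℕ) : ℤ) = b - a + 1 := by
      rw [hJ, Int.card_Icc]
      omega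
    rw [← h1]
    simp
  have hJ0 : (0 : ℝ) < J.card := by
    rw [hJc]
    exact_mod_cast (by omega : 0 < b - a + 1)
  have hJn : J.Nonempty := Finset.nonempty_Icc.2 hab
  set D : ℝ := (2 * ρ + 1) / ((b - a + 1 : ℤ) : ℝ) + (Rs689.nu p).real (ArmX (0, 0) m ρ) with hD
  have hD0 : 0 < D := by
    have h1 : 0 ≤ (Rs689.nu p).real (ArmX (0, 0) m ρ) := measureReal_nonneg
    have h2 : 0 < (2 * (ρ : ℝ) + 1) / ((b - a + 1 : ℤ) : ℝ) := by
      rw [← hJc]
      positivity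
    linarith
  have h1 := sum_piv_ge (s := src) (t := tgt) (S := rS a b c d) (fun _ : Edge => p) (blk m)
    (A := colR a b c d a) (B := colR a b c d b) J hJn (fun j => colR a b c d j)
    (fun j hj z hz => by
      rw [hJ, Finset.mem_Icc] at hj
      obtain ⟨u, hu, v, hv, w, hw, h1, h2⟩ := lr_sep hj.1 hj.2 hz
      exact ⟨u, hu, v, hv, w, hw, h1, h2⟩) hD0
    (fun k _ => by
      refine (rev_sum p hm (rS a b c d) J (fun j => colR a b c d j) (fun j v hv => hv.1) k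
        (ρ := ρ)).trans (le_of_eq ?_)
      rw [hD, hJc, mul_add, mul_div_cancel₀]
      rw [← hJc]
      exact hJ0.ne')
  rw [div_le_iff₀ hD0, ← lr_conS, mul_comm _ D] at h1
  exact h1

/-- **pivotal blocks, power form**: from a one-arm bound up to scale `N`. -/
theorem piv_blocks_pow (p : I) {C α : ℝ} (hC : 0 ≤ C) (hα : 0 < α) (hα1 : α ≤ 1) {m N : ℕ}
    (hm : 1 ≤ m) (hmN : m ≤ N)
    (harm : ∀ R : ℕ, m ≤ R → R ≤ N →
      (Rs689.nu p).real (ArmX (0, 0) m R) ≤ C * ((m : ℝ) / R) ^ α)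
    {a b c d : ℤ} (hab : (N : ℤ) ≤ b - a) :
    2 * ((Rs689.nu p).real {z : Cf | LRc z a b c d} *
      (1 - (Rs689.nu p).real {z : Cf | LRc z a b c d})) ≤
      (4 * (C + 3)) * ((m : ℝ) / N) ^ (α / 2) *
        ∑ k ∈ (rS a b c d).image (blk m),
          (Rs689.nu p).real (PivS (blk m) k {z : Cf | LRc z a b c d}) := by
  have hm0 : (0 : ℝ) < m := by exact_mod_cast hm
  have hN0 : (0 : ℝ) < N := by exact_mod_cast (hm.trans hmN)
  have hmN' : (m : ℝ) ≤ N := by exact_mod_cast hmN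
  set ρ : ℕ := Nat.sqrt (m * N) with hρ
  have hρ1 : m ≤ ρ := by
    rw [hρ, Nat.le_sqrt]
    exact Nat.mul_le_mul_left _ hmN
  have hρ2 : ρ ≤ N := by
    have h1 : ρ ^ 2 ≤ m * N := Nat.sqrt_le' _
    have h2 : m * N ≤ N ^ 2 := by rw [pow_two]; exact Nat.mul_le_mul_right _ hmN
    exact (Nat.pow_le_pow_iff_left (by norm_num)).1 (h1.trans h2)
  have hρ0 : (0 : ℝ) < ρ := by exact_mod_cast (hm.trans hρ1)
  have hρs : (ρ : ℝ) ^ 2 ≤ m * N := by exact_mod_cast Nat.sqrt_le' (m * N)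
  have hρl : (m : ℝ) * N < ((ρ : ℝ) + 1) ^ 2 := by
    have h1 : m * N < (ρ + 1) ^ 2 := Nat.lt_succ_sqrt' _
    exact_mod_cast h1
  have hab' : a ≤ b := by omega
  have h1 := piv_blocks p (c := c) (d := d) hab' (m := m) (ρ := ρ) hm
  refine h1.trans (mul_le_mul_of_nonneg_right ?_
    (Finset.sum_nonneg fun _ _ => measureReal_nonneg))
  -- the two parts of the revealment
  set t : ℝ := (m : ℝ) / N with ht
  have ht0 : 0 < t := by positivity
  have ht1 : t ≤ 1 := by rw [ht, div_le_one hN0]; exact hmN'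
  have hA : (2 * (ρ : ℝ) + 1) / ((b - a + 1 : ℤ) : ℝ) ≤ 3 * t ^ (α / 2) := by
    have h2 : (2 * (ρ : ℝ) + 1) / ((b - a + 1 : ℤ) : ℝ) ≤ (2 * (ρ : ℝ) + 1) / N := by
      refine div_le_div_of_nonneg_left (by positivity) hN0 ?_
      have h3 : (N : ℤ) ≤ b - a + 1 := by omega
      exact_mod_cast h3
    refine h2.trans ?_
    have h3 : (2 * (ρ : ℝ) + 1) / N ≤ 3 * ((ρ : ℝ) / N) := by
      rw [← mul_div_assoc, div_le_div_iff_of_pos_right hN0]
      have : (1 : ℝ) ≤ ρ := by exact_mod_cast (hm.trans hρ1)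
      linarith
    refine h3.trans (mul_le_mul_of_nonneg_left ?_ (by norm_num))
    have h4 : (ρ : ℝ) / N ≤ t ^ (1 / 2 : ℝ) := by
      rw [← Real.sqrt_eq_rpow]
      refine Real.le_sqrt_of_sq_le ?_
      rw [div_pow, ht, div_le_div_iff₀ (by positivity) hN0]
      nlinarith
    exact h4.trans (Real.rpow_le_rpow_of_exponent_ge ht0 ht1 (by linarith))
  have hB : (Rs689.nu p).real (ArmX (0, 0) m ρ) ≤ 4 * C * t ^ (α / 2) := by
    refine (harm ρ hρ1 hρ2).trans ?_
    have h2 : (m : ℝ) / ρ ≤ 2 * t ^ (1 / 2 : ℝ) := by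
      rw [← Real.sqrt_eq_rpow, ht, div_le_iff₀ hρ0]
      have h3 : Real.sqrt ((m : ℝ) / N) * Real.sqrt (m * N) = m := by
        rw [← Real.sqrt_mul (by positivity)]
        have : (m : ℝ) / N * (m * N) = m ^ 2 := by field_simp
        rw [this, Real.sqrt_sq hm0.le]
      have h4 : Real.sqrt (m * N) ≤ 2 * ρ := by
        refine Real.sqrt_le_iff.2 ⟨by positivity, ?_⟩
        have : (1 : ℝ) ≤ ρ := by exact_mod_cast (hm.trans hρ1)
        nlinarith
      have h5 := mul_le_mul_of_nonneg_left h4 (Real.sqrt_nonneg ((m : ℝ) / N))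
      rw [h3] at h5
      linarith
    have h3 : ((m : ℝ) / ρ) ^ α ≤ 2 * t ^ (α / 2) := by
      have h4 : ((m : ℝ) / ρ) ^ α ≤ (2 * t ^ (1 / 2 : ℝ)) ^ α :=
        Real.rpow_le_rpow (by positivity) h2 hα.le
      refine h4.trans ?_
      rw [Real.mul_rpow (by norm_num) (by positivity), ← Real.rpow_mul ht0.le]
      have h5 : (1 / 2 : ℝ) * α = α / 2 := by ring
      rw [h5]
      refine mul_le_mul_of_nonneg_right ?_ (by positivity)
      calc (2 : ℝ) ^ α ≤ 2 ^ (1 : ℝ) := Real.rpow_le_rpow_of_exponent_le (by norm_num) hα1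
        _ = 2 := by norm_num
    have h4 : 0 ≤ t ^ (α / 2) := by positivity
    nlinarith
  have h4 : 0 ≤ t ^ (α / 2) := by positivity
  nlinarith

end Crest.Agent.R158.Os488
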