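import Crest.Agent.R158.Sw3_300

/-!
# R158, exact lattice layer: turning theorem for admissible words (helper300)

`tau s w x` (clockwise quarter turns from the end `x` to its partner, plus seam values) equals
`phi (M x) - phi x - 2` when `x` is the start of its arc; a closed loop has total `-4` (walked from
`p` to `q` inside and back through the glueing); the leg has total `1 - phi u`.
-/

set_option autoImplicit false

namespace Crest.Agent.R158.Sw300

theorem Inv.S_M {α : Type*} {A : α → Prop} {pos : α → ℤ} {M : α → α} {S : α → Bool} {u : α}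
    (h : Inv A pos M S u) {x : α} (hx : A x) (hxu : x ≠ u) : S (M x) = !(S x) := by
  have hM := h.mem x hx
  have hMu := h.Mu hx hxu
  have h1 := h.st x hx hxu
  have h2 := h.st (M x) hM hMu
  rw [h.inv x hx] at h2
  have d1 := h.inj x (M x) hx hM (Ne.symm (h.Mne hx hxu))
  have d2 := h.inj x u hx h.um hxu
  have d3 := h.inj (M x) u hM h.um hMu
  have h3 : S (M x) = true ↔ ¬ (S x = true) := by
    rw [h1, h2]; unfold cyc; omega
  cases hS : S x
  · rw [hS] at h3; simpa using h3
  · rw [hS] at h3; simpa using h3

variable {T : Type*} [DecidableEq T]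

/-- words with a leg -/
def isLeg : Wd T → Prop
  | .leg => True
  | .tile _ => False
  | .att w _ _ _ => isLeg w
  | .con w _ _ => isLeg w

/-- the marker stays unmatched in words without leg -/
theorem u_none (s : T → Bool) : ∀ (w : Wd T), Ok w → ¬ isLeg w → u s w = none
  | .leg, _, h => absurd trivial h
  | .tile _, _, _ => rfl
  | .att w p t d, h, hl => by
      have ih := u_none s w h.1 hl
      have hp : p ≠ none := by
        intro e
        have := h.2.2.2 e
        rw [this] at hl
        exact hl trivial
      simp only [u]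
      rw [ih, if_neg (Ne.symm hp)]
  | .con w p q, h, hl => by
      have ih := u_none s w h.1 hl
      simp only [u]
      rw [ih, if_neg (Ne.symm h.2.1), if_neg (Ne.symm h.2.2.1)]

/-- the turning statement -/
structure Tau (s : T → Bool) (w : Wd T) : Prop where
  anti : ∀ x ∈ L w, x ≠ u s w → tau s w (M s w x) = - tau s w x
  arc : ∀ x ∈ L w, x ≠ u s w → S s w x = true → tau s w x = phi w (M s w x) - phi w x - 2
  leg : isLeg w → tau s w (u s w) = 1 - phi w (u s w)

theorem tau_tile (s : T → Bool) (t : T) : Tau s (.tile t) := by
  have h1 : ∀ d : ZMod 4, tau s (.tile t) (some (t, d)) = tn (s t) d := by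
    intro d; simp [tau]
  have h2 : ∀ d : ZMod 4, phi (.tile t) (some (t, d)) = (d.val : ℤ) := by
    intro d; simp [phi]
  have hS : ∀ d : ZMod 4, S s (.tile t) (some (t, d)) =
      decide (d = 0 ∨ d = if s t then 2 else 1) := by
    intro d
    simp [S]
  refine ⟨?_, ?_, fun h => absurd h (fun h => h)⟩
  · intro x hx hxu
    rcases (tile_mem t x).1 hx with rfl | ⟨d, rfl⟩
    · exact absurd rfl hxu
    · rw [tile_M, h1, h1, tn_thru]
  · intro x hx hxu hs
    rcases (tile_mem t x).1 hx with rfl | ⟨d, rfl⟩
    · exact absurd rfl hxu
    · rw [tile_M, h1, h2, h2]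
      rw [hS] at hs
      clear hS h1 h2 hx hxu
      generalize s t = b at *
      revert b d
      decide

theorem phi_att_1 (w : Wd T) (p : Port T) (t : T) (d : ZMod 4) :
    phi (.att w p t d) (some (t, d + 1)) = phi w p - 1 := by
  simp [phi]

theorem phi_att_2 (w : Wd T) (p : Port T) (t : T) (d : ZMod 4) :
    phi (.att w p t d) (some (t, d + 2)) = phi w p := by
  obtain ⟨h1, h2, h3⟩ := d12 d
  have e1 : (some (t, d + 2) : Port T) ≠ some (t, d + 1) := by simpa using Ne.symm h1
  simp only [phi, if_neg e1, if_true]

theorem phi_att_3 (w : Wd T) (p : Port T) (t : T) (d : ZMod 4) :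
    phi (.att w p t d) (some (t, d + 3)) = phi w p + 1 := by
  obtain ⟨h1, h2, h3⟩ := d12 d
  have e1 : (some (t, d + 3) : Port T) ≠ some (t, d + 1) := by simpa using Ne.symm h2
  have e2 : (some (t, d + 3) : Port T) ≠ some (t, d + 2) := by simpa using Ne.symm h3
  simp only [phi, if_neg e1, if_neg e2, if_true]

theorem phi_att_old {w : Wd T} (h : Ok w) {t : T} (ht : t ∉ tls w) (p : Port T) (d : ZMod 4)
    {x : Port T} (hx : x ∈ L w) : phi (.att w p t d) x = phi w x := by
  simp only [phi]
  rw [if_neg (ne_port h ht _ hx), if_neg (ne_port h ht _ hx), if_neg (ne_port h ht _ hx)]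

theorem phi_att_e (s : T → Bool) (w : Wd T) (p : Port T) (t : T) (d : ZMod 4) :
    phi (.att w p t d) (some (t, thru (s t) d)) = phi w p + tn (s t) d := by
  rcases thru_cases (s t) d with hc | hc
  · rw [hc, phi_att_1]; unfold tn; rw [if_pos hc]; ring
  · rw [hc, phi_att_3]; unfold tn
    rw [if_neg (by rw [hc]; exact Ne.symm (d12 d).2.1)]

theorem oth_thru : ∀ (d : ZMod 4) (b : Bool) (a : ZMod 4), a ≠ thru b d → a ≠ d →
    thru b a ≠ thru b d := by
  decide

theorem oth_S : ∀ (d : ZMod 4) (b : Bool) (a : ZMod 4), a ≠ thru b d → a ≠ d →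
    (a = d + 1 ∨ (a = d + 2 ∧ thru b d = d + 1)) →
    tn b a = -1 ∧ ((a = d + 1 ∧ thru b a = d + 2) ∨ (a = d + 2 ∧ thru b a = d + 3)) := by
  decide

theorem tau_att (s : T → Bool) {w : Wd T} {p : Port T} {t : T} {d : ZMod 4}
    (h : Ok (.att w p t d)) (ih : Tau s w) : Tau s (.att w p t d) := by
  obtain ⟨hw, hp, ht, hn⟩ := h
  have I := Ok.inv s w hw
  have MeG : M s (.att w p t d) (some (t, thru (s t) d)) =
      if M s w p = p then some (t, thru (s t) d) else M s w p := by simp [M]
  have Mo : ∀ a : ZMod 4, a ≠ thru (s t) d →
      M s (.att w p t d) (some (t, a)) = some (t, thru (s t) a) := by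
    intro a ha; simp [M, ha]
  have Mx : ∀ x, x ∈ L w → M s (.att w p t d) x =
      if M s w x = p then some (t, thru (s t) d) else M s w x := by
    intro x hx
    simp only [M]
    rw [if_neg (tl_ne hw ht hx)]
  have SeG : S s (.att w p t d) (some (t, thru (s t) d)) = S s w p := by simp [S]
  have So : ∀ a : ZMod 4, a ≠ thru (s t) d → S s (.att w p t d) (some (t, a)) =
      decide (a = d + 1 ∨ (a = d + 2 ∧ thru (s t) d = d + 1)) := by
    intro a ha; simp [S, ha]
  have Sx : ∀ x, x ∈ L w → S s (.att w p t d) x = S s w x := by
    intro x hx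
    simp only [S]
    rw [if_neg (tl_ne hw ht hx)]
  have Te : tau s (.att w p t d) (some (t, thru (s t) d)) =
      tn (s t) (thru (s t) d) + tau s w p := by simp [tau]
  have To : ∀ a : ZMod 4, a ≠ thru (s t) d →
      tau s (.att w p t d) (some (t, a)) = tn (s t) a := by
    intro a ha; simp [tau, ha]
  have Tx : ∀ x, x ∈ L w → tau s (.att w p t d) x =
      if M s w x = p then tau s w x + tn (s t) d else tau s w x := by
    intro x hx
    simp only [tau]
    rw [if_neg (tl_ne hw ht hx)]
  have hu : u s (.att w p t d) = if u s w = p then some (t, thru (s t) d) else u s w := rfl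
  have hpe := phi_att_e s w p t d
  have hmem := fun x => mem_att (t := t) (d := d) (x := x) hp
  have tt2 : ∀ (b : Bool), thru b (thru b d) = d := fun b => thru_thru b d
  -- generic treatment of an end
  have cases3 : ∀ x, x ∈ L (.att w p t d) →
      (x ∈ L w ∧ x ≠ p) ∨ x = some (t, thru (s t) d) ∨
        ∃ a : ZMod 4, a ≠ thru (s t) d ∧ a ≠ d ∧ x = some (t, a) := by
    intro x hx
    rcases (hmem x).1 hx with hx | hx
    · exact Or.inl hx
    · right
      have hd : ∀ d : ZMod 4, d + 1 ≠ d ∧ d + 2 ≠ d ∧ d + 3 ≠ d := by decide
      rcases hx with rfl | rfl | rfl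
      · by_cases hc : d + 1 = thru (s t) d
        · left; rw [hc]
        · right; exact ⟨_, hc, (hd d).1, rfl⟩
      · by_cases hc : d + 2 = thru (s t) d
        · left; rw [hc]
        · right; exact ⟨_, hc, (hd d).2.1, rfl⟩
      · by_cases hc : d + 3 = thru (s t) d
        · left; rw [hc]
        · right; exact ⟨_, hc, (hd d).2.2, rfl⟩
  have oth := oth_thru d
  have othS := oth_S d
  refine ⟨?_, ?_, ?_⟩
  · intro x hx hxu
    rw [hu] at hxu
    rcases cases3 x hx with ⟨hx, hxp⟩ | rfl | ⟨a, ha, had, rfl⟩
    · have hxu' : x ≠ u s w := by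
        intro e; apply hxu; rw [if_neg (by rw [← e]; exact hxp), e]
      rw [Mx x hx, Tx x hx]
      by_cases hMp : M s w x = p
      · rw [if_pos hMp, if_pos hMp, Te, ← hMp, ih.anti x hx hxu', tn_thru]; ring
      · rw [if_neg hMp, if_neg hMp, Tx _ (I.mem x hx), I.inv x hx, if_neg hxp,
          ih.anti x hx hxu']
    · by_cases hup : u s w = p
      · rw [if_pos hup] at hxu; exact absurd rfl hxu
      · have hpu : p ≠ u s w := Ne.symm hup
        rw [MeG, if_neg (I.Mne hp hpu), Tx _ (I.mem p hp), I.inv p hp, if_pos rfl, Te,
          ih.anti p hp hpu, tn_thru]; ring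
    · rw [Mo a ha, To a ha, To _ (oth _ a ha had), tn_thru]
  · intro x hx hxu hs
    rw [hu] at hxu
    rcases cases3 x hx with ⟨hx, hxp⟩ | rfl | ⟨a, ha, had, rfl⟩
    · have hxu' : x ≠ u s w := by
        intro e; apply hxu; rw [if_neg (by rw [← e]; exact hxp), e]
      rw [Sx x hx] at hs
      have A1 := ih.arc x hx hxu' hs
      rw [Mx x hx, Tx x hx, phi_att_old hw ht p d hx]
      by_cases hMp : M s w x = p
      · rw [if_pos hMp, if_pos hMp, hpe, A1, hMp]; ring
      · rw [if_neg hMp, if_neg hMp, phi_att_old hw ht p d (I.mem x hx), A1]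
    · by_cases hup : u s w = p
      · rw [if_pos hup] at hxu; exact absurd rfl hxu
      · have hpu : p ≠ u s w := Ne.symm hup
        rw [SeG] at hs
        have A1 := ih.arc p hp hpu hs
        rw [MeG, if_neg (I.Mne hp hpu), Te, hpe, phi_att_old hw ht p d (I.mem p hp), A1,
          tn_thru]; ring
    · rw [So a ha] at hs
      obtain ⟨k1, k2⟩ := othS (s t) a ha had (of_decide_eq_true hs)
      rw [To a ha, Mo a ha, k1]
      rcases k2 with ⟨k3, k4⟩ | ⟨k3, k4⟩
      · rw [k4, k3, phi_att_1, phi_att_2]; ring
      · rw [k4, k3, phi_att_2, phi_att_3]; ring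
  · intro hl
    rw [hu]
    by_cases hup : u s w = p
    · rw [if_pos hup, Te, hpe, ← hup, ih.leg hl, tn_thru]; ring
    · rw [if_neg hup, Tx _ I.um, I.uf, if_neg hup, phi_att_old hw ht p d I.um, ih.leg hl]

theorem tau_con (s : T → Bool) {w : Wd T} {p q : Port T}
    (h : Ok (.con w p q)) (ih : Tau s w) : Tau s (.con w p q) := by
  obtain ⟨hw, hp0, hq0, hpq, hadj⟩ := h
  have I := Ok.inv s w hw
  obtain ⟨hp, hq⟩ := mem_adj hadj
  obtain ⟨f1, f2, f3, f4⟩ := I.facts hp hq hpq (not_cyc_of_adj hw hadj)
  have hS : ∀ {x}, x ∈ L w → x ≠ u s w → S s w (M s w x) = !(S s w x) := fun hx hxu =>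
    I.S_M hx hxu
  have Mc : ∀ x, M s (.con w p q) x = if M s w x = p then (if M s w q = q then x else M s w q)
      else if M s w x = q then (if M s w p = p then x else M s w p) else M s w x := fun _ => rfl
  have Sc : ∀ x, S s (.con w p q) x = if M s w x = p then !(S s w p) && S s w q
      else if M s w x = q then S s w p || !(S s w q) else S s w x := fun _ => rfl
  have Tc : ∀ x, tau s (.con w p q) x =
      if M s w x = p then tau s w x + (phi w q - phi w p + 2) + tau s w q
      else if M s w x = q then tau s w x - (phi w q - phi w p + 2) + tau s w p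
      else tau s w x := fun _ => rfl
  have Pc : ∀ x, phi (.con w p q) x = phi w x := fun _ => rfl
  have uc : u s (.con w p q) = if u s w = p then M s w q else if u s w = q then M s w p
      else u s w := rfl
  -- partner of `x` is `p` iff `x = M p`
  have Mp : ∀ x ∈ L w, M s w x = p → x = M s w p := fun x hx e => by rw [← e, I.inv x hx]
  have Mq : ∀ x ∈ L w, M s w x = q → x = M s w q := fun x hx e => by rw [← e, I.inv x hx]
  refine ⟨?_, ?_, ?_⟩
  · intro x hx hxu
    obtain ⟨hx, hxp, hxq⟩ := mem_con.1 hx
    rw [uc] at hxu
    by_cases e1 : M s w x = p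
    · have xa := Mp x hx e1
      have hqu : q ≠ u s w := by
        intro e
        rw [if_neg (by rw [← e]; exact Ne.symm hpq), if_pos e.symm] at hxu
        exact hxu xa
      have hpu : p ≠ u s w := by
        intro e
        apply hxp
        rw [xa]
        have := I.uf
        rw [← e] at this
        exact this
      have hMq : M s w q ≠ q := I.Mne hq hqu
      have hMqp : M s w q ≠ p := by
        intro e
        apply hxq
        have := I.inv q hq
        rw [e] at this
        rw [xa, this]
      rw [Mc, if_pos e1, if_neg hMq, Tc x, if_pos e1, Tc (M s w q), I.inv q hq,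
        if_neg (Ne.symm hpq), if_pos rfl, ih.anti q hq hqu]
      have := ih.anti x hx (by
        intro e
        rw [e, I.uf] at e1
        exact hpu e1.symm)
      rw [e1] at this
      rw [this]; ring
    · by_cases e2 : M s w x = q
      · have xb := Mq x hx e2
        have hpu : p ≠ u s w := by
          intro e
          rw [if_pos e.symm] at hxu
          exact hxu xb
        have hqu : q ≠ u s w := by
          intro e
          apply hxq
          rw [xb]
          have := I.uf
          rw [← e] at this
          exact this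
        have hMp : M s w p ≠ p := I.Mne hp hpu
        have hMpq : M s w p ≠ q := by
          intro e
          apply hxp
          have := I.inv p hp
          rw [e] at this
          rw [xb, this]
        rw [Mc, if_neg e1, if_pos e2, if_neg hMp, Tc x, if_neg e1, if_pos e2, Tc (M s w p),
          I.inv p hp, if_pos rfl, ih.anti p hp hpu]
        have := ih.anti x hx (by
          intro e
          rw [e, I.uf] at e2
          exact hqu e2.symm)
        rw [e2] at this
        rw [this]; ring
      · have hxu' : x ≠ u s w := by
          intro e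
          apply hxu
          rw [if_neg (by rw [← e]; exact hxp), if_neg (by rw [← e]; exact hxq), e]
        rw [Mc, if_neg e1, if_neg e2, Tc x, if_neg e1, if_neg e2, Tc, I.inv x hx, if_neg hxp,
          if_neg hxq, ih.anti x hx hxu']
  · intro x hx hxu hs
    obtain ⟨hx, hxp, hxq⟩ := mem_con.1 hx
    rw [uc] at hxu
    rw [Sc] at hs
    by_cases e1 : M s w x = p
    · have xa := Mp x hx e1
      have hqu : q ≠ u s w := by
        intro e
        rw [if_neg (by rw [← e]; exact Ne.symm hpq), if_pos e.symm] at hxu
        exact hxu xa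
      have hpu : p ≠ u s w := by
        intro e
        apply hxp
        rw [xa]
        have := I.uf
        rw [← e] at this
        exact this
      have hMq : M s w q ≠ q := I.Mne hq hqu
      rw [if_pos e1] at hs
      simp only [Bool.and_eq_true, Bool.not_eq_true'] at hs
      obtain ⟨s1, s2⟩ := hs
      have hxu' : x ≠ u s w := by
        intro e
        rw [e, I.uf] at e1
        exact hpu e1.symm
      have s3 : S s w x = true := by
        have := hS hx hxu'
        rw [e1, s1] at this
        simpa using this.symm
      have A1 := ih.arc x hx hxu' s3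
      have A2 := ih.arc q hq hqu s2
      rw [e1] at A1
      rw [Mc, if_pos e1, if_neg hMq, Tc x, if_pos e1, Pc, Pc, A1, A2]; ring
    · rw [if_neg e1] at hs
      by_cases e2 : M s w x = q
      · have xb := Mq x hx e2
        have hpu : p ≠ u s w := by
          intro e
          rw [if_pos e.symm] at hxu
          exact hxu xb
        have hqu : q ≠ u s w := by
          intro e
          apply hxq
          rw [xb]
          have := I.uf
          rw [← e] at this
          exact this
        have hMp : M s w p ≠ p := I.Mne hp hpu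
        have hMpq : M s w p ≠ q := by
          intro e
          apply hxp
          have := I.inv p hp
          rw [e] at this
          rw [xb, this]
        rw [if_pos e2] at hs
        have hxu' : x ≠ u s w := by
          intro e
          rw [e, I.uf] at e2
          exact hqu e2.symm
        have s4 := hS hx hxu'
        rw [e2] at s4
        have A0 := ih.anti x hx hxu'
        rw [e2] at A0
        have A0' := ih.anti p hp hpu
        have s5 := hS hp hpu
        rw [Mc, if_neg e1, if_pos e2, if_neg hMp, Tc x, if_neg e1, if_pos e2, Pc, Pc]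
        -- the three planar cases
        cases hq' : S s w q
        · -- `q` is an end, `x` its start; then `p` is an end
          have hxs : S s w x = true := by rw [hq'] at s4; simpa using s4.symm
          have hps : S s w p = false := by
            cases hps : S s w p
            · rfl
            · exact absurd ⟨hps, hq'⟩ (f4 hpu hqu hMpq)
          have hMps : S s w (M s w p) = true := by rw [s5, hps]; rfl
          have A1 := ih.arc x hx hxu' hxs
          have A2 := ih.arc (M s w p) (I.mem p hp) (I.Mu hp hpu) hMps
          rw [I.inv p hp] at A2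
          rw [e2] at A1
          rw [A1]
          linarith
        · have hps : S s w p = true := by
            rw [hq'] at hs; simpa using hs
          have A1 := ih.arc p hp hpu hps
          have A2 := ih.arc q hq hqu hq'
          have hMqx : M s w q = x := xb.symm
          rw [hMqx] at A2
          rw [A1]
          linarith
      · rw [if_neg e2] at hs
        have hxu' : x ≠ u s w := by
          intro e
          apply hxu
          rw [if_neg (by rw [← e]; exact hxp), if_neg (by rw [← e]; exact hxq), e]
        rw [Mc, if_neg e1, if_neg e2, Tc x, if_neg e1, if_neg e2, Pc, Pc,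
          ih.arc x hx hxu' hs]
  · intro hl
    have hleg := ih.leg hl
    rw [uc]
    by_cases hup : u s w = p
    · rw [if_pos hup]
      have hqu : q ≠ u s w := by rw [hup]; exact Ne.symm hpq
      have hqs := f1 hup.symm
      have A2 := ih.arc q hq hqu hqs
      have A0 := ih.anti q hq hqu
      have hMqq : M s w (M s w q) = q := I.inv q hq
      rw [Tc, hMqq, if_neg (Ne.symm hpq), if_pos rfl, Pc, A0, A2, ← hup, hleg]; ring
    · rw [if_neg hup]
      by_cases huq : u s w = q
      · rw [if_pos huq]
        have hpu : p ≠ u s w := Ne.symm hup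
        have hps := f2 huq.symm
        have s5 := hS hp hpu
        have hMps : S s w (M s w p) = true := by rw [s5, hps]; rfl
        have A1 := ih.arc (M s w p) (I.mem p hp) (I.Mu hp hpu) hMps
        rw [I.inv p hp] at A1
        have hMpp : M s w (M s w p) = p := I.inv p hp
        rw [Tc, hMpp, if_pos rfl, Pc, A1, ← huq, hleg]; ring
      · rw [if_neg huq, Tc, I.uf, if_neg hup, if_neg huq, Pc, hleg]

/-- **turning theorem** -/
theorem Ok.tau (s : T → Bool) : ∀ (w : Wd T), Ok w → Tau s w
  | .leg, _ => by
      refine ⟨?_, ?_, ?_⟩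
      · intro x hx hxu
        simp only [L, List.mem_singleton] at hx
        exact absurd hx hxu
      · intro x hx hxu
        simp only [L, List.mem_singleton] at hx
        exact absurd hx hxu
      · intro _; simp [Sw300.tau, phi]
  | .tile t, _ => tau_tile s t
  | .att w p t d, h => tau_att s h (Ok.tau s w h.1)
  | .con w p q, h => tau_con s h (Ok.tau s w h.1)

/-- a closed loop has total turning `-4` (one turn) -/
theorem loop_tau (s : T → Bool) {w : Wd T} {p q : Port T} (h : Ok (.con w p q))
    (hM : M s w p = q) (hpu : p ≠ u s w) :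
    Sw300.tau s w p - (phi w q - phi w p + 2) = -4 := by
  obtain ⟨hw, hp0, hq0, hpq, hadj⟩ := h
  have I := Ok.inv s w hw
  obtain ⟨hp, hq⟩ := mem_adj hadj
  obtain ⟨f1, f2, f3, f4⟩ := I.facts hp hq hpq (not_cyc_of_adj hw hadj)
  have hqu : q ≠ u s w := by rw [← hM]; exact I.Mu hp hpu
  have := (Ok.tau s w hw).arc p hp hpu (f3 hpu hqu hM).1
  rw [this, hM]; ring

end Crest.Agent.R158.Sw300
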