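import Crest.Agent.R158.Pt3_266
import Crest.Agent.R158.Sw4_300
import Crest.Agent.R158.Gc2_748

/-!
# R158, patches (helper266), file Pt4: the patch theorem

`R : Xr249.Reg` hole-free (`R.SC`) and connected (`R.Conn`), `RG R` = its glueing relation on
`(ℤ × ℤ) × ZMod 4`.

* `RFree R x` : `x` is an unglued side of a tile of `R`
* `CwC G x y D m` : clockwise chain of consecutive free ports from `x` to `y`, `m` strictly between,
  total turning `D` (`1` convex corner, `0` flat, `-1` reflex corner)
* **`patch_end`** : the strand from a free port ends at another free port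
* **`patch_turn`** : turning of a strand `x → y` with a clockwise chain `x → y` of turning `D`
  is `D - 2`
* **`patch_nc`** : the ends between `x` and `y` are joined among themselves
* **`patch_loop`** : closed strands have turning `± 4`
-/

set_option autoImplicit false
set_option linter.unusedVariables false
set_option linter.unusedSectionVars false
set_option linter.unusedSimpArgs false

namespace Crest.Agent.R158.Pt266

open Crest.Agent.R158.Sw300
open Crest.Agent.R158.Gc748 (gl bs ts gd_wd pt)
open Crest.Agent.R158.Xr249 (rot rot_some rot_none Nx Reg)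

section

variable {T : Type*} [DecidableEq T]

/-- `be` is the glueing of `gl` -/
theorem be_iff : ∀ {w : Wd T}, Ok w → ∀ x y : Port T, Gs w x y ↔ (be w x = y ∧ x ≠ y)
  | .leg, _, x, y => by
    simp only [Gs, gl, List.not_mem_nil, or_false, be, false_iff, not_and, not_not]
    exact fun h => h
  | .tile t, _, x, y => by
    simp only [Gs, gl, List.not_mem_nil, or_false, be, false_iff, not_and, not_not]
    exact fun h => h
  | .att w p t d, hok, x, y => by
    obtain ⟨hw, hp, ht, hnone⟩ := hok
    have hpt : ∀ e, p ≠ some (t, e) := fun e he => ht (tl_mem hw (he ▸ hp))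
    have np : ∀ y, ¬ Gs w p y := fun y h => not_glued hw hp h
    have nt : ∀ y, ¬ Gs w (some (t, d)) y := fun y h => ht (gl_mem hw h)
    rw [addP_att x y]
    have hdef : be (.att w p t d) x = if x = p then some (t, d) else if x = some (t, d) then p
      else be w x := rfl
    rw [hdef]
    by_cases h1 : x = p
    · subst h1
      rw [if_pos rfl]
      constructor
      · rintro (h | ⟨-, h⟩ | ⟨h, -⟩)
        · exact absurd h (np _)
        · exact ⟨h.symm, h ▸ hpt d⟩
        · exact absurd h (hpt _)
      · rintro ⟨h, -⟩
        exact Or.inr (Or.inl ⟨rfl, h.symm⟩)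
    · by_cases h2 : x = some (t, d)
      · subst h2
        rw [if_neg h1, if_pos rfl]
        constructor
        · rintro (h | ⟨h, -⟩ | ⟨-, h⟩)
          · exact absurd h (nt _)
          · exact absurd h.symm (hpt _)
          · exact ⟨h.symm, by rw [h]; exact (hpt d).symm⟩
        · rintro ⟨h, -⟩
          exact Or.inr (Or.inr ⟨rfl, h.symm⟩)
      · rw [if_neg h1, if_neg h2, ← be_iff hw]
        constructor
        · rintro (h | ⟨h, -⟩ | ⟨h, -⟩)
          · exact h
          · exact absurd h h1
          · exact absurd h h2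
        · exact Or.inl
  | .con w p q, hok, x, y => by
    obtain ⟨hw, hpn, hqn, hpq, hadj⟩ := hok
    obtain ⟨hp, hq⟩ := adj_mem hadj
    have np : ∀ y, ¬ Gs w p y := fun y h => not_glued hw hp h
    have nq : ∀ y, ¬ Gs w q y := fun y h => not_glued hw hq h
    rw [addP_con x y]
    have hdef : be (.con w p q) x = if x = p then q else if x = q then p
      else be w x := rfl
    rw [hdef]
    by_cases h1 : x = p
    · subst h1
      rw [if_pos rfl]
      constructor
      · rintro (h | ⟨-, h⟩ | ⟨h, -⟩)
        · exact absurd h (np _)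
        · exact ⟨h.symm, h ▸ hpq⟩
        · exact absurd h hpq
      · rintro ⟨h, -⟩
        exact Or.inr (Or.inl ⟨rfl, h.symm⟩)
    · by_cases h2 : x = q
      · subst h2
        rw [if_neg h1, if_pos rfl]
        constructor
        · rintro (h | ⟨h, -⟩ | ⟨-, h⟩)
          · exact absurd h (nq _)
          · exact absurd h h1
          · exact ⟨h.symm, by rw [h]; exact h1⟩
        · rintro ⟨h, -⟩
          exact Or.inr (Or.inr ⟨rfl, h.symm⟩)
      · rw [if_neg h1, if_neg h2, ← be_iff hw]
        constructor
        · rintro (h | ⟨h, -⟩ | ⟨h, -⟩)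
          · exact h
          · exact absurd h h1
          · exact absurd h h2
        · exact Or.inl

lemma isLeg_iff {w : Wd T} : isLeg w ↔ bs w = none := by
  induction w with
  | leg => simp [isLeg, bs]
  | tile t => simp [isLeg, bs]
  | att w p t d ih => simpa [isLeg, bs] using ih
  | con w p q ih => simpa [isLeg, bs] using ih

/-! ### closed strands -/

/-- a closed strand can be read from any of its ports -/
lemma Cl.start {s : T → Bool} {G : T × ZMod 4 → T × ZMod 4 → Prop} {l : List (T × ZMod 4)}
    (h : Cl s G l) {r : T × ZMod 4} (hr : r ∈ l) : ∃ m y, Cl s G (r :: m) ∧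
      tt s (r :: m) = tt s l ∧ (∀ x, x ∈ r :: m ↔ x ∈ l) ∧ Wk s G r y (r :: m) ∧ G y r := by
  obtain ⟨l1, l2, rfl⟩ := List.append_of_mem hr
  have h1 := h.rotate
  have h2 : Cl s G (r :: (l2 ++ l1)) := by simpa using h1
  obtain ⟨hn, x, y, h3, h4⟩ := h2
  have hx : x = r := by
    have := h3.head
    simp only [List.head?_cons, Option.some.injEq] at this
    exact this.symm
  subst hx
  refine ⟨l2 ++ l1, y, ⟨hn, x, y, h3, h4⟩, ?_, ?_, h3, h4⟩
  · simp only [tt_cons, tt_append]
    ring
  · intro z
    simp only [List.mem_cons, List.mem_append]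
    tauto

/-- a walk of a relation with one more glued pair -/
lemma Wk.split {s : T → Bool} {G G' : T × ZMod 4 → T × ZMod 4 → Prop} {a b : T × ZMod 4}
    (hA : ∀ u v, G' u v → G u v ∨ (u = a ∧ v = b) ∨ (u = b ∧ v = a))
    {x y : T × ZMod 4} {l : List (T × ZMod 4)} (h : Wk s G' x y l) :
    Wk s G x y l ∨ ∃ l1 r l2 e, l = l1 ++ r :: l2 ∧ Wk s G x e l1 ∧
      ((e = a ∧ r = b) ∨ (e = b ∧ r = a)) := by
  induction h with
  | one => exact Or.inl .one
  | @snoc q r l h1 h2 ih =>
    rcases ih with ih | ⟨l1, r1, l2, e, rfl, h3, h4⟩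
    · rcases hA _ _ h2 with h5 | h5
      · exact Or.inl (ih.snoc h5)
      · exact Or.inr ⟨l, r, [], q, rfl, ih, h5⟩
    · exact Or.inr ⟨l1, r1, l2 ++ [r], e, by simp, h3, h4⟩

/-- **closed strands of a flat word without leg have turning `± 4`** -/
theorem loop_word (s : T → Bool) : ∀ {w : Wd T}, Ok w → ¬ isLeg w → Flat w →
    ∀ {l : List (T × ZMod 4)}, Cl s (Gw w) l → tt s l = 4 ∨ tt s l = -4
  | .leg, _, hl, _, _, _ => absurd trivial hl
  | .tile t, _, _, _, l, h => by
    obtain ⟨-, x, y, h1, h2⟩ := h
    simp [Gw, gl] at h2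
  | .att w p t d, hok, hl, hF, l, h => by
    have hok' := hok
    obtain ⟨hw, hp, ht, hnone⟩ := hok
    have hpt : ∀ e, p ≠ some (t, e) := fun e he => ht (tl_mem hw (he ▸ hp))
    have hfree : ∀ e, e ≠ d → Fr (Gw (.att w p t d)) (t, e) := by
      intro e he
      refine fr_of_mem hok' (mem_L_att.2 (Or.inl ⟨hp, ?_⟩))
      rcases z4_three d e he with rfl | rfl | rfl <;> simp
    obtain ⟨a, rfl⟩ : ∃ a, p = some a := by
      rcases p with - | a
      · exact absurd (by rw [hnone rfl]; trivial) hl
      · exact ⟨a, rfl⟩
    have key : ∀ {m : List (T × ZMod 4)} {y : T × ZMod 4},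
        Wk s (Gw (.att w (some a) t d)) (t, d) y ((t, d) :: m) →
        Gw (.att w (some a) t d) y (t, d) → False := by
      intro m y h1 h2
      have hn : Fr (Gw (.att w (some a) t d)) (pass s (t, d)) := hfree _ (thru_ne _ _)
      cases m with
      | nil =>
        have h3 := h1.last
        simp only [List.getLast?_singleton, Option.some.injEq] at h3
        have h4 : y = pass s (t, d) := by rw [h3, pass_pass]
        exact hn _ (h4 ▸ h2)
      | cons b m =>
        have h3 := h1.chain
        rw [List.isChain_cons_cons] at h3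
        exact hn _ h3.1
    by_cases c1 : (t, d) ∈ l
    · obtain ⟨m, y, -, -, -, h1, h2⟩ := h.start c1
      exact (key h1 h2).elim
    · by_cases c2 : a ∈ l
      · exfalso
        obtain ⟨m, y, hc, -, hm, h1, h2⟩ := h.start c2
        -- `y = (t, d)`, hence `pass (t, d)` is entered
        have hy : y = (t, d) := by
          refine (glu_Gw hok').fn _ _ _ ((glu_Gw hok').sym _ _ h2) ?_
          left
          simp [gl]
        subst hy
        have h3 : pass s (t, d) ∈ l := (hm _).1 h1.mem_right
        obtain ⟨m', y', -, -, -, h4, h5⟩ := h.start h3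
        exact hfree _ (thru_ne (s t) d) _ ((glu_Gw hok').sym _ _ h5)
      · -- an old closed strand
        have hold : ∀ u v, v ∈ l → Gw (.att w (some a) t d) u v → Gw w u v := by
          intro u v hv huv
          rcases huv with huv | huv
          · simp only [gl, List.mem_cons, Prod.mk.injEq, Option.some.injEq] at huv
            rcases huv with ⟨-, h2⟩ | huv
            · exact absurd (h2 ▸ hv) c1
            · exact Or.inl huv
          · simp only [gl, List.mem_cons, Prod.mk.injEq, Option.some.injEq] at huv
            rcases huv with ⟨h1, -⟩ | huv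
            · exact absurd (h1 ▸ hv) c2
            · exact Or.inr huv
        obtain ⟨hn, x, y, h1, h2⟩ := h
        have h3 : Wk s (Gw w) x y l := by
          clear h2 hn c1 c2
          induction h1 with
          | one => exact .one
          | @snoc q r l h1 h2 ih =>
            exact (ih fun u v hv => hold u v (by simp [hv])).snoc (hold _ _ (by simp) h2)
        exact loop_word s hw hl hF ⟨hn, x, y, h3, hold _ _ h3.mem_left h2⟩
  | .con w p q, hok, hl, hF, l, h => by
    have hok' := hok
    obtain ⟨hw, hpn, hqn, hpq, hadj⟩ := hok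
    obtain ⟨hp, hq⟩ := adj_mem hadj
    obtain ⟨a, rfl⟩ : ∃ a, p = some a := by
      rcases p with - | a
      · exact absurd rfl hpn
      · exact ⟨a, rfl⟩
    obtain ⟨b, rfl⟩ : ∃ b, q = some b := by
      rcases q with - | b
      · exact absurd rfl hqn
      · exact ⟨b, rfl⟩
    have hab : a ≠ b := fun h => hpq (by rw [h])
    have hu : u s w = none := u_none s w hw hl
    have I := Ok.inv s w hw
    have hTau := Ok.tau s w hw
    have hMa : M s w (some a) ≠ some a := fun h => by
      have := I.fix _ hp h
      rw [hu] at this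
      cases this
    have hMb : M s w (some b) ≠ some b := fun h => by
      have := I.fix _ hq h
      rw [hu] at this
      cases this
    have fa : Fr (Gw w) a := fr_of_mem hw hp
    have fb : Fr (Gw w) b := fr_of_mem hw hq
    have hA : ∀ u v, Gw (.con w (some a) (some b)) u v → Gw w u v ∨ (u = a ∧ v = b) ∨
        (u = b ∧ v = a) := by
      intro u v huv
      rcases huv with huv | huv
      · simp only [gl, List.mem_cons, Prod.mk.injEq, Option.some.injEq] at huv
        rcases huv with huv | huv
        · exact Or.inr (Or.inl huv)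
        · exact Or.inl (Or.inl huv)
      · simp only [gl, List.mem_cons, Prod.mk.injEq, Option.some.injEq] at huv
        rcases huv with huv | huv
        · exact Or.inr (Or.inr huv.symm)
        · exact Or.inl (Or.inr huv)
    have hG' := glu_Gw hok'
    have gab : Gw (.con w (some a) (some b)) a b := Or.inl (by simp [gl])
    -- the strand that starts at one of the two ports
    have key : ∀ (c e : T × ZMod 4), ((c = a ∧ e = b) ∨ (c = b ∧ e = a)) →
        ∀ {m : List (T × ZMod 4)} {y : T × ZMod 4}, (c :: m).Nodup →
        Wk s (Gw (.con w (some a) (some b))) c y (c :: m) →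
        Gw (.con w (some a) (some b)) y c → M s w (some c) = some e ∧
          tt s (c :: m) = tau s w (some c) := by
      intro c e hce m y hnd h1 h2
      have fc : Fr (Gw w) c := by rcases hce with ⟨rfl, -⟩ | ⟨rfl, -⟩ <;> assumption
      have fe : Fr (Gw w) e := by rcases hce with ⟨-, rfl⟩ | ⟨-, rfl⟩ <;> assumption
      have hMc : M s w (some c) ≠ some c := by rcases hce with ⟨rfl, -⟩ | ⟨rfl, -⟩ <;> assumption
      have hcL : (some c : Port T) ∈ L w := by rcases hce with ⟨rfl, -⟩ | ⟨rfl, -⟩ <;> assumption
      have gce : Gw (.con w (some a) (some b)) c e := by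
        rcases hce with ⟨rfl, rfl⟩ | ⟨rfl, rfl⟩
        · exact gab
        · exact hG'.sym _ _ gab
      have hy : y = e := hG'.fn _ _ _ (hG'.sym _ _ h2) gce
      subst hy
      obtain ⟨a', b', l', ha', hb', hw', ht'⟩ := walk_word s hw hcL hMc
      obtain rfl := Option.some.inj ha'
      have fb' : Fr (Gw w) b' := fr_of_mem hw (hb' ▸ I.mem _ hcL)
      rcases h1.split hA with h3 | ⟨l1, r, l2, e', h3, h4, h5⟩
      · obtain ⟨e1, e2⟩ := hw'.det (glu_Gw hw).fn fb' h3 fe
        subst e1 e2
        exact ⟨hb', ht' hF.1⟩
      · exfalso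
        have fe' : Fr (Gw w) e' := by rcases h5 with ⟨rfl, -⟩ | ⟨rfl, -⟩ <;> assumption
        obtain ⟨e1, e2⟩ := hw'.det (glu_Gw hw).fn fb' h4 fe'
        subst e1 e2
        -- the partner is `e'`; it is not `c`, so it is `y`, and `r = c` is entered twice
        have h6 : b' ≠ c := fun h => hMc (by rw [hb', h])
        have h7 : r = c := by
          rcases hce with ⟨rfl, rfl⟩ | ⟨rfl, rfl⟩
          · rcases h5 with ⟨h5, -⟩ | ⟨-, h5⟩
            · exact absurd h5 h6
            · exact h5
          · rcases h5 with ⟨-, h5⟩ | ⟨h5, -⟩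
            · exact h5
            · exact absurd h5 h6
        subst h7
        rw [h3, List.nodup_append] at hnd
        exact hnd.2.2 _ h4.mem_left _ (by simp) rfl
    have hphi : phi w (some b) = phi w (some a) - 2 := hF.2
    by_cases c1 : b ∈ l
    · obtain ⟨m, y, ⟨hnd, -⟩, hm, -, h1, h2⟩ := h.start c1
      obtain ⟨k1, k2⟩ := key b a (Or.inr ⟨rfl, rfl⟩) hnd h1 h2
      have k3 : M s w (some a) = some b := by rw [← k1, I.inv _ hq]
      have k4 := loop_tau s hok' k3 (by rw [hu]; simp)
      have k5 := hTau.anti _ hp (by rw [hu]; simp)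
      rw [k3] at k5
      left
      rw [← hm, k2]
      rw [hphi] at k4
      linarith
    · by_cases c2 : a ∈ l
      · obtain ⟨m, y, ⟨hnd, -⟩, hm, -, h1, h2⟩ := h.start c2
        obtain ⟨k1, k2⟩ := key a b (Or.inl ⟨rfl, rfl⟩) hnd h1 h2
        have k4 := loop_tau s hok' k1 (by rw [hu]; simp)
        right
        rw [← hm, k2]
        rw [hphi] at k4
        linarith
      · have hold : ∀ u v, v ∈ l → Gw (.con w (some a) (some b)) u v → Gw w u v := by
          intro u v hv huv
          rcases hA _ _ huv with h1 | ⟨-, h1⟩ | ⟨-, h1⟩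
          · exact h1
          · exact absurd (h1 ▸ hv) c1
          · exact absurd (h1 ▸ hv) c2
        obtain ⟨hn, x, y, h1, h2⟩ := h
        have h3 : Wk s (Gw w) x y l := by
          clear h2 hn c1 c2
          induction h1 with
          | one => exact .one
          | @snoc q r l h1 h2 ih =>
            exact (ih fun u v hv => hold u v (by simp [hv])).snoc (hold _ _ (by simp) h2)
        exact loop_word s hw hl hF.1 ⟨hn, x, y, h3, hold _ _ h3.mem_left h2⟩

end

end Crest.Agent.R158.Pt266
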