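import Crest.Agent.R158.Qc1_405
import Crest.Agent.R158.Pt4_266

/-!
# R158, Q1c part 2: closed strands of words with a seam (helper405)

`loopS` : a closed strand of an admissible word (with or without leg) with the seam `σ` has turning
plus seam `± 4`.
-/

set_option autoImplicit false
set_option linter.unusedVariables false
set_option linter.unusedSectionVars false
set_option linter.unusedSimpArgs false

namespace Crest.Agent.R158.Qc405

open Crest.Agent.R158.Sw300
open Crest.Agent.R158.Gc748 (gl bs ts gd_wd pt Cyc)
open Crest.Agent.R158.Xr249 (rot rot_some rot_none)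
open Crest.Agent.R158.Pt266

variable {T : Type*} [DecidableEq T]

/-- a closed strand can be read from any of its ports -/
lemma Cl_start (σ : Port T → ℤ) {s : T → Bool} {G : T × ZMod 4 → T × ZMod 4 → Prop}
    {l : List (T × ZMod 4)}
    (h : Cl s G l) {r : T × ZMod 4} (hr : r ∈ l) : ∃ m y, Cl s G (r :: m) ∧
      tt s (r :: m) + sc σ (r :: m) = tt s l + sc σ l ∧ (∀ x, x ∈ r :: m ↔ x ∈ l) ∧
      Wk s G r y (r :: m) ∧ G y r := by
  obtain ⟨l1, l2, rfl⟩ := List.append_of_mem hr
  have h1 := h.rotate
  have h2 : Cl s G (r :: (l2 ++ l1)) := by simpa using h1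
  obtain ⟨hn, x, y, h3, h4⟩ := h2
  have hx : x = r := by
    have := h3.head
    simp only [List.head?_cons, Option.some.injEq] at this
    exact this.symm
  subst hx
  refine ⟨l2 ++ l1, y, ⟨hn, x, y, h3, h4⟩, ?_, ?_, h3, h4⟩
  · simp only [tt_cons, tt_append, sc, List.map_cons, List.map_append, List.sum_cons,
      List.sum_append]
    ring
  · intro z
    simp only [List.mem_cons, List.mem_append]
    tauto

/-- the port glued to the leg is not glued to a port of a tile -/
lemma fr_leg {w : Wd T} (hw : Ok w) {b : T × ZMod 4} (h : Gs w (some b) none) :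
    Fr (Gw w) b := by
  intro y hy
  have h1 := (be_iff hw _ _).1 h
  have h2 := (be_iff hw _ _).1 (show Gs w (some b) (some y) from hy)
  have := h1.1.symm.trans h2.1
  cases this

/-- **closed strands of a word with a seam** -/
theorem loopS (s : T → Bool) (σ : Port T → ℤ) : ∀ {w : Wd T}, Ok w → An σ w → FlW σ w →
    ∀ {l : List (T × ZMod 4)}, Cl s (Gw w) l → tt s l + sc σ l = 4 ∨ tt s l + sc σ l = -4
  | .leg, _, _, _, l, h => by
    obtain ⟨-, x, y, h1, h2⟩ := h
    simp [Gw, gl] at h2
  | .tile t, _, _, _, l, h => by
    obtain ⟨-, x, y, h1, h2⟩ := h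
    simp [Gw, gl] at h2
  | .att w p t d, hok, hA, hF, l, h => by
    have hok' := hok
    obtain ⟨hw, hp, ht, hnone⟩ := hok
    obtain ⟨hA1, hA2⟩ := hA.att
    have hpt : ∀ e, p ≠ some (t, e) := fun e he => ht (tl_mem hw (he ▸ hp))
    have hfree : ∀ e, e ≠ d → Fr (Gw (.att w p t d)) (t, e) := by
      intro e he
      refine fr_of_mem hok' (mem_L_att.2 (Or.inl ⟨hp, ?_⟩))
      rcases z4_three d e he with rfl | rfl | rfl <;> simp
    rcases p with - | a
    · obtain rfl := hnone rfl
      obtain ⟨-, x, y, h1, h2⟩ := h
      simp [Gw, gl] at h2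
    have key : ∀ {m : List (T × ZMod 4)} {y : T × ZMod 4},
        Wk s (Gw (.att w (some a) t d)) (t, d) y ((t, d) :: m) →
        Gw (.att w (some a) t d) y (t, d) → False := by
      intro m y h1 h2
      have hn : Fr (Gw (.att w (some a) t d)) (Pt266.pass s (t, d)) := hfree _ (thru_ne _ _)
      cases m with
      | nil =>
        have h3 := h1.last
        simp only [List.getLast?_singleton, Option.some.injEq] at h3
        have h4 : y = Pt266.pass s (t, d) := by rw [h3, pass_pass]
        exact hn _ (h4 ▸ h2)
      | cons b m =>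
        have h3 := h1.chain
        rw [List.isChain_cons_cons] at h3
        exact hn _ h3.1
    by_cases c1 : (t, d) ∈ l
    · obtain ⟨m, y, -, -, -, h1, h2⟩ := Cl_start σ h c1
      exact (key h1 h2).elim
    · by_cases c2 : a ∈ l
      · exfalso
        obtain ⟨m, y, hc, -, hm, h1, h2⟩ := Cl_start σ h c2
        -- `y = (t, d)`, hence `pass (t, d)` is entered
        have hy : y = (t, d) := by
          refine (glu_Gw hok').fn _ _ _ ((glu_Gw hok').sym _ _ h2) ?_
          left
          simp [gl]
        subst hy
        have h3 : Pt266.pass s (t, d) ∈ l := (hm _).1 h1.mem_right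
        obtain ⟨m', y', -, -, -, h4, h5⟩ := Cl_start σ h h3
        exact hfree _ (thru_ne (s t) d) _ ((glu_Gw hok').sym _ _ h5)
      · -- an old closed strand
        have hold : ∀ u v, v ∈ l → Gw (.att w (some a) t d) u v → Gw w u v := by
          intro u v hv huv
          rcases huv with huv | huv
          · simp only [gl, List.mem_cons, Prod.mk.injEq, Option.some.injEq] at huv
            rcases huv with ⟨-, h2⟩ | huv
            · exact absurd (h2 ▸ hv) c1
            · exact Or.inl huv
          · simp only [gl, List.mem_cons, Prod.mk.injEq, Option.some.injEq] at huv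
            rcases huv with ⟨h1, -⟩ | huv
            · exact absurd (h1 ▸ hv) c2
            · exact Or.inr huv
        obtain ⟨hn, x, y, h1, h2⟩ := h
        have h3 : Wk s (Gw w) x y l := by
          clear h2 hn c1 c2
          induction h1 with
          | one => exact .one
          | @snoc q r l h1 h2 ih =>
            exact (ih fun u v hv => hold u v (by simp [hv])).snoc (hold _ _ (by simp) h2)
        exact loopS s σ hw hA1 hF ⟨hn, x, y, h3, hold _ _ h3.mem_left h2⟩
  | .con w p q, hok, hA', hF, l, h => by
    have hok' := hok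
    obtain ⟨hw, hpn, hqn, hpq, hadj⟩ := hok
    obtain ⟨hA1, hA2⟩ := hA'.con
    obtain ⟨hp, hq⟩ := adj_mem hadj
    obtain ⟨a, rfl⟩ : ∃ a, p = some a := by
      rcases p with - | a
      · exact absurd rfl hpn
      · exact ⟨a, rfl⟩
    obtain ⟨b, rfl⟩ : ∃ b, q = some b := by
      rcases q with - | b
      · exact absurd rfl hqn
      · exact ⟨b, rfl⟩
    have hab : a ≠ b := fun h => hpq (by rw [h])
    have I := Ok.inv s w hw
    have hTau := Ok.tau s w hw
    have fa : Fr (Gw w) a := fr_of_mem hw hp
    have fb : Fr (Gw w) b := fr_of_mem hw hq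
    have hA : ∀ u v, Gw (.con w (some a) (some b)) u v → Gw w u v ∨ (u = a ∧ v = b) ∨
        (u = b ∧ v = a) := by
      intro u v huv
      rcases huv with huv | huv
      · simp only [gl, List.mem_cons, Prod.mk.injEq, Option.some.injEq] at huv
        rcases huv with huv | huv
        · exact Or.inr (Or.inl huv)
        · exact Or.inl (Or.inl huv)
      · simp only [gl, List.mem_cons, Prod.mk.injEq, Option.some.injEq] at huv
        rcases huv with huv | huv
        · exact Or.inr (Or.inr huv.symm)
        · exact Or.inl (Or.inr huv)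
    have hG' := glu_Gw hok'
    have gab : Gw (.con w (some a) (some b)) a b := Or.inl (by simp [gl])
    -- the strand that starts at one of the two ports
    have key : ∀ (c e : T × ZMod 4), ((c = a ∧ e = b) ∨ (c = b ∧ e = a)) →
        ∀ {m : List (T × ZMod 4)} {y : T × ZMod 4}, (c :: m).Nodup →
        Wk s (Gw (.con w (some a) (some b))) c y (c :: m) →
        Gw (.con w (some a) (some b)) y c → M s w (some c) = some e ∧
          tt s (c :: m) + sm σ (c :: m) = tau s w (some c) + (de σ w (some e) - de σ w (some c)) := by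
      intro c e hce m y hnd h1 h2
      have fc : Fr (Gw w) c := by rcases hce with ⟨rfl, -⟩ | ⟨rfl, -⟩ <;> assumption
      have fe : Fr (Gw w) e := by rcases hce with ⟨-, rfl⟩ | ⟨-, rfl⟩ <;> assumption
      have hcL : (some c : Port T) ∈ L w := by rcases hce with ⟨rfl, -⟩ | ⟨rfl, -⟩ <;> assumption
      have heL : (some e : Port T) ∈ L w := by rcases hce with ⟨-, rfl⟩ | ⟨-, rfl⟩ <;> assumption
      have gce : Gw (.con w (some a) (some b)) c e := by
        rcases hce with ⟨rfl, rfl⟩ | ⟨rfl, rfl⟩
        · exact gab
        · exact hG'.sym _ _ gab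
      have hy : y = e := hG'.fn _ _ _ (hG'.sym _ _ h2) gce
      subst hy
      have hMc : M s w (some c) ≠ some c := by
        intro hMc
        have hu := I.fix _ hcL hMc
        by_cases hleg : isLeg w
        · have hwl : w ≠ .leg := by
            rintro rfl
            have h1 : (some c : Port T) = none := by simpa [L] using hcL
            cases h1
          obtain ⟨a', b', l', ha', hb', hw', -⟩ := legS s σ hw hleg hwl hA1 hF.1
          rw [← hu] at ha'
          obtain rfl := Option.some.inj ha'
          have fb' := fr_leg hw hb'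
          rcases h1.split hA with h3 | ⟨l1, r, l2, e', h3, h4, h5⟩
          · obtain ⟨e1, -⟩ := hw'.det (glu_Gw hw).fn fb' h3 fe
            subst e1
            exact not_glued hw heL hb'
          · have fe' : Fr (Gw w) e' := by rcases h5 with ⟨rfl, -⟩ | ⟨rfl, -⟩ <;> assumption
            obtain ⟨e1, -⟩ := hw'.det (glu_Gw hw).fn fb' h4 fe'
            subst e1
            rcases h5 with ⟨rfl, -⟩ | ⟨rfl, -⟩
            · exact not_glued hw hp hb'
            · exact not_glued hw hq hb'
        · rw [u_none s w hw hleg] at hu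
          cases hu
      obtain ⟨a', b', l', ha', hb', hw', ht'⟩ := walkS s σ hw hA1 hF.1 hcL hMc
      obtain rfl := Option.some.inj ha'
      have fb' : Fr (Gw w) b' := fr_of_mem hw (hb' ▸ I.mem _ hcL)
      rcases h1.split hA with h3 | ⟨l1, r, l2, e', h3, h4, h5⟩
      · obtain ⟨e1, e2⟩ := hw'.det (glu_Gw hw).fn fb' h3 fe
        subst e1 e2
        rw [hb'] at ht'
        exact ⟨hb', ht'⟩
      · exfalso
        have fe' : Fr (Gw w) e' := by rcases h5 with ⟨rfl, -⟩ | ⟨rfl, -⟩ <;> assumption
        obtain ⟨e1, e2⟩ := hw'.det (glu_Gw hw).fn fb' h4 fe'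
        subst e1 e2
        -- the partner is `e'`; it is not `c`, so it is `y`, and `r = c` is entered twice
        have h6 : b' ≠ c := fun h => hMc (by rw [hb', h])
        have h7 : r = c := by
          rcases hce with ⟨rfl, rfl⟩ | ⟨rfl, rfl⟩
          · rcases h5 with ⟨h5, -⟩ | ⟨-, h5⟩
            · exact absurd h5 h6
            · exact h5
          · rcases h5 with ⟨-, h5⟩ | ⟨h5, -⟩
            · exact h5
            · exact absurd h5 h6
        subst h7
        rw [h3, List.nodup_append] at hnd
        exact hnd.2.2 _ h4.mem_left _ (by simp) rfl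
    have hpsi : psi σ w (some b) = psi σ w (some a) - 2 + σ (some a) := hF.2
    have hMu : ∀ c e : T × ZMod 4, c ≠ e → M s w (some c) = some e → some c ∈ L w →
        some c ≠ u s w := by
      intro c e hce hM hc hcu
      have h1 := I.uf
      rw [← hcu, hM] at h1
      exact hce (Option.some.inj h1).symm
    by_cases c1 : b ∈ l
    · obtain ⟨m, y, ⟨hnd, -⟩, hm, -, h1, h2⟩ := Cl_start σ h c1
      obtain ⟨k1, k2⟩ := key b a (Or.inr ⟨rfl, rfl⟩) hnd h1 h2
      have k3 : M s w (some a) = some b := by rw [← k1, I.inv _ hq]
      have hau := hMu a b hab k3 hp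
      have k4 := loop_tau s hok' k3 hau
      have k5 := hTau.anti _ hp hau
      rw [k3] at k5
      left
      rw [← hm, sc_cons]
      unfold de at k2
      linarith
    · by_cases c2 : a ∈ l
      · obtain ⟨m, y, ⟨hnd, -⟩, hm, -, h1, h2⟩ := Cl_start σ h c2
        obtain ⟨k1, k2⟩ := key a b (Or.inl ⟨rfl, rfl⟩) hnd h1 h2
        have k4 := loop_tau s hok' k1 (hMu a b hab k1 hp)
        right
        rw [← hm, sc_cons]
        unfold de at k2
        linarith
      · have hold : ∀ u v, v ∈ l → Gw (.con w (some a) (some b)) u v → Gw w u v := by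
          intro u v hv huv
          rcases hA _ _ huv with h1 | ⟨-, h1⟩ | ⟨-, h1⟩
          · exact h1
          · exact absurd (h1 ▸ hv) c1
          · exact absurd (h1 ▸ hv) c2
        obtain ⟨hn, x, y, h1, h2⟩ := h
        have h3 : Wk s (Gw w) x y l := by
          clear h2 hn c1 c2
          induction h1 with
          | one => exact .one
          | @snoc q r l h1 h2 ih =>
            exact (ih fun u v hv => hold u v (by simp [hv])).snoc (hold _ _ (by simp) h2)
        exact loopS s σ hw hA1 hF.1 ⟨hn, x, y, h3, hold _ _ h3.mem_left h2⟩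

end Crest.Agent.R158.Qc405
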