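import Crest.Agent.R158.Ad5_350
import Crest.Agent.R158.Qc2_405
import Crest.Agent.R158.Al4_194

/-!
# R158, Q1c pointwise core (N3), part 1: an admissible word inside a closed tile network

`em` = embedding of the tiles of the word `w` into the tiles of the network `tnet A s be ch`.

* `Emb`, `Phs` : compatibility of the glueings and of the phases
* `z_sub` : value of a closed set of ports over the tiles of the word (without the leg port)
* `zv_sub` : the same with the leg port (entering arrow)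
-/

set_option autoImplicit false
set_option linter.unusedVariables false
set_option linter.unusedSectionVars false

noncomputable section

namespace Crest.Agent.R158.Pc194

open Finset
open Crest.Agent.R158.Sw300
open Crest.Agent.R158.Gc748 (gl bs ts gd_wd pt)
open Crest.Agent.R158.Pt266 (Wk tt Gw Gs Gp Fr rv mem_L not_glued fr_of_mem glu_Gw gl_mem be_iff)
open Crest.Agent.R158.Qc405 (psi FlW An de sm sc walkS legS loopS sm_app sm_one)
open Crest.Agent.R158.Ad350 (Net ports tnet tnet_ok ei sg tql seam mem_ports mem_ports' none_ports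
  Wk_Wa tql_tt Wa_wl)
open Crest.Agent.R158.Al194 (hL wr er)

variable {T T' : Type*} [DecidableEq T] [DecidableEq T']

/-- image of a port of a tile -/
def pe (em : T' → T) (a : T' × ZMod 4) : Port T := some (em a.1, a.2)

/-- image of a port -/
def po (em : T' → T) (x : Port T') : Port T := x.map fun a => (em a.1, a.2)

@[simp] lemma po_some (em : T' → T) (a : T' × ZMod 4) : po em (some a) = pe em a := rfl
@[simp] lemma po_none (em : T' → T) : po em none = none := rfl

/-- ports over the tiles of the word -/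
def ep (em : T' → T) (w : Wd T') : Finset (Port T) := ports ((tls w).toFinset.image em)

lemma mem_ep {em : T' → T} {w : Wd T'} {q : Port T} :
    q ∈ ep em w ↔ ∃ a : T' × ZMod 4, a.1 ∈ tls w ∧ q = pe em a := by
  constructor
  · intro h
    obtain ⟨t, d, rfl, ht⟩ := mem_ports' h
    obtain ⟨t', ht', rfl⟩ := mem_image.1 ht
    exact ⟨(t', d), List.mem_toFinset.1 ht', rfl⟩
  · rintro ⟨a, ha, rfl⟩
    exact mem_ports.2 (mem_image_of_mem em (List.mem_toFinset.2 ha))

/-- an admissible word inside a glueing `be` of the tiles `A` -/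
structure Emb (A : Finset T) (be : Port T → Port T) (w : Wd T') (em : T' → T) : Prop where
  ok : Ok w
  inj : ∀ t ∈ tls w, ∀ t' ∈ tls w, em t = em t' → t = t'
  mem : ∀ t ∈ tls w, em t ∈ A
  glue : ∀ a b : T' × ZMod 4, a.1 ∈ tls w → b.1 ∈ tls w →
    (Gw w a b ↔ be (pe em a) = pe em b ∧ a ≠ b)

/-- phases: seam `σ`, tile gauge `g`, boundary charges `c` -/
structure Phs (be : Port T → Port T) (ch : Port T → ℝ) (w : Wd T') (em : T' → T)
    (σ : Port T' → ℤ) (g : T' → ℝ) (c : Port T' → ℝ) : Prop where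
  an : An σ w
  fl : FlW σ w
  seam : ∀ a b : T' × ZMod 4, Gw w a b →
    ch (pe em a) - ch (pe em b) = -(Real.pi / 12) * (σ (some a) : ℝ) + g a.1 - g b.1
  cut : ∀ a : T' × ZMod 4, (some a : Port T') ∈ L w → be (pe em a) = pe em a →
    ch (pe em a) = Real.pi / 12 * (psi σ w (some a) : ℝ) - Real.pi / 3 * c (some a) + g a.1

/-- the leg port -/
structure Lg (be : Port T → Port T) (ch : Port T → ℝ) (w : Wd T') (em : T' → T)
    (σ : Port T' → ℤ) (g : T' → ℝ) (x0 : Port T) : Prop where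
  leg : isLeg w
  nl : w ≠ .leg
  eq : ∀ b : T' × ZMod 4, Gs w (some b) none → x0 = pe em b ∧ σ (some b) = 0 ∧ g b.1 = 0
  be : be x0 = x0
  ch : ch x0 = 0

variable {A : Finset T} {be : Port T → Port T} {ch : Port T → ℝ} {w : Wd T'} {em : T' → T}
  {σ : Port T' → ℤ} {g : T' → ℝ} {c : Port T' → ℝ} {s : T → Bool} {x0 : Port T}

lemma Gw_mem (h : Ok w) {a b : T' × ZMod 4} (hG : Gw w a b) : a.1 ∈ tls w ∧ b.1 ∈ tls w := by
  rcases a with ⟨t, d⟩
  rcases b with ⟨t', d'⟩
  exact ⟨gl_mem h hG, gl_mem h (Or.symm hG)⟩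

lemma Gw_ne (h : Ok w) {a b : T' × ZMod 4} (hG : Gw w a b) : a ≠ b := by
  have := ((be_iff h (some a) (some b)).1 hG).2
  rintro rfl
  exact this rfl

lemma Emb.ginj (E : Emb A be w em) {a b : T' × ZMod 4} (ha : a.1 ∈ tls w) (hb : b.1 ∈ tls w)
    (e : pe em a = pe em b) : a = b := by
  unfold pe at e
  simp only [Option.some.injEq, Prod.mk.injEq] at e
  exact Prod.ext (E.inj _ ha _ hb e.1) e.2

lemma Emb.glu (E : Emb A be w em) {a b : T' × ZMod 4} (hG : Gw w a b) :
    be (pe em a) = pe em b ∧ pe em a ≠ pe em b := by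
  obtain ⟨h1, h2⟩ := Gw_mem E.ok hG
  refine ⟨((E.glue a b h1 h2).1 hG).1, fun e => Gw_ne E.ok hG (E.ginj h1 h2 e)⟩

/-- strands of the word are walks of the network -/
lemma Emb.walk (E : Emb A be w em) {a b : T' × ZMod 4} {l : List (T' × ZMod 4)}
    (h : Wk (s ∘ em) (Gw w) a b l) :
    (tnet A s be ch).Wa (pe em a) (pe em b) (l.map (pe em)) := by
  have h1 : Wk s (fun u v => be (some u) = some v ∧ u ≠ v) (Pt266.mp em a) (Pt266.mp em b)
      (l.map (Pt266.mp em)) := by
    refine Wk.map em (fun u v huv => ?_) h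
    obtain ⟨k1, k2⟩ := E.glu huv
    exact ⟨k1, fun e => k2 (congrArg some e)⟩
  have h2 := Wk_Wa (A := A) (be := be) (ch := ch) (fun _ _ h => h) h1
  rw [List.map_map] at h2
  exact h2

/-- the seams along a strand -/
lemma Phs.seam_eq (P : Phs be ch w em σ g c) (E : Emb A be w em) {a b : T' × ZMod 4}
    {l : List (T' × ZMod 4)} {s' : T' → Bool} (h : Wk s' (Gw w) a b l) :
    Ad350.seam be ch (l.map (pe em)).tail = -(Real.pi / 12) * (sm σ l : ℝ) + g a.1 - g b.1 := by
  induction h with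
  | one => simp [Ad350.seam, sm, Pt266.pass]
  | @snoc q r l h1 h2 ih =>
    obtain ⟨e1, e2⟩ := E.glu h2
    have hbe : be (pe em r) = pe em q := (E.glu (Or.symm h2)).1
    have e3 : ((l ++ [r]).map (pe em)).tail = (l.map (pe em)).tail ++ [pe em r] := by
      rw [List.map_append, List.map_singleton]
      exact List.tail_append_of_ne_nil (by simpa using h1.ne_nil)
    have e4 : Ad350.seam be ch ((l.map (pe em)).tail ++ [pe em r]) =
        Ad350.seam be ch (l.map (pe em)).tail + (ch (pe em q) - ch (pe em r)) := by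
      simp [Ad350.seam, hbe]
    have e5 : (sm σ (l ++ [r]) : ℤ) = sm σ l - σ (some r) := by
      rw [sm_app σ h1.ne_nil, sm_one]; ring
    have e6 : σ (some r) = -σ (some q) := by
      rcases h2 with h2 | h2
      · exact P.an _ _ h2
      · have := P.an _ _ h2
        omega
    rw [e3, e4, ih, P.seam q r h2, e5, e6]
    have e7 : (Pt266.pass s' r).1 = r.1 := rfl
    rw [e7]
    push_cast
    ring

/-- seam sum of the reversed strand -/
lemma sm_rv (P : Phs be ch w em σ g c) (E : Emb A be w em) {a b : T' × ZMod 4}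
    {l : List (T' × ZMod 4)} {s' : T' → Bool} (h : Wk s' (Gw w) a b l) :
    sm σ (rv s' l) = - sm σ l := by
  induction h with
  | one => simp [rv, sm]
  | @snoc q r l h1 h2 ih =>
    have e1 : rv s' (l ++ [r]) = Pt266.pass s' r :: rv s' l := by simp [rv]
    have hr := Wk.reverse (glu_Gw E.ok).sym h1
    obtain ⟨m, hm⟩ := hr.exists_cons
    rw [e1, hm, Qc405.sm_cons, ← hm, ih, sm_app σ h1.ne_nil, sm_one]
    have e6 : σ (some r) = -σ (some q) := by
      rcases h2 with h2 | h2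
      · exact P.an _ _ h2
      · have := P.an _ _ h2
        omega
    rw [e6]; ring

lemma tql_pe (em : T' → T) (s : T → Bool) (l : List (T' × ZMod 4)) :
    tql s (l.map (pe em)) = -(tt (s ∘ em) l : ℝ) := by
  have e : l.map (pe em) = (l.map (Pt266.mp em)).map some := by rw [List.map_map]; rfl
  rw [e, tql_tt, Pt266.tt_map]

lemma tnet_al (a : T' × ZMod 4) :
    (tnet A s be ch).al (pe em a) = pe em (Pt266.pass (s ∘ em) a) := rfl

/-- an end of the word that lies in a closed set over the tiles of the word is cut -/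
lemma Emb.cut_of_mem (E : Emb A be w em) {C : Finset (Port T)} (hC : (tnet A s be ch).Cl C)
    (hCe : C ⊆ ep em w) {a : T' × ZMod 4} (ha : (some a : Port T') ∈ L w) (hm : pe em a ∈ C) :
    be (pe em a) = pe em a := by
  obtain ⟨b, hb, e⟩ := mem_ep.1 (hCe (hC.be _ hm))
  have e' : be (pe em a) = pe em b := e
  by_contra hne
  have hab : a ≠ b := by
    rintro rfl
    exact hne e'
  exact fr_of_mem E.ok ha b ((E.glue a b ((mem_L E.ok a).1 ha).1 hb).2 ⟨e', hab⟩)

lemma mem_tls_of_mem (E : Emb A be w em) {C : Finset (Port T)}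
    (hCe : C ⊆ ep em w) {q : Port T} (hq : q ∈ C) : ∃ a : T' × ZMod 4, a.1 ∈ tls w ∧ q = pe em a :=
  mem_ep.1 (hCe hq)

/-- a cut port of a closed set over the word is an end of the word or the leg port -/
lemma Emb.mem_L_of_cut (E : Emb A be w em) {a : T' × ZMod 4} (ha : a.1 ∈ tls w)
    (hb : be (pe em a) = pe em a) (hx : ∀ b : T' × ZMod 4, Gs w (some b) none → b ≠ a) :
    (some a : Port T') ∈ L w := by
  rw [mem_L E.ok]
  refine ⟨ha, ?_⟩
  rintro ⟨y, hy⟩
  cases y with
  | none => exact hx a hy rfl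
  | some b =>
    obtain ⟨h1, h2⟩ := E.glu (show Gw w a b from hy)
    exact h2 (by rw [← h1, hb])

lemma Wa_cn {P : Type*} [DecidableEq P] {N : Net P} {x y : P} {l : List P} (h : N.Wa x y l) :
    N.Cn x y := by
  induction h with
  | one => exact Net.Cn.al _
  | snoc _ _ ih => exact (ih.trans (Net.Cn.be _)).trans (Net.Cn.al _)

/-- the cut ends of an arc class -/
lemma arc_ends {P : Type*} [DecidableEq P] {N : Net P} (hN : N.Ok) {x y q : P} {l : List P}
    (hx : x ∈ N.V) (h : N.Wa x y l) (h1 : N.be x = x) (h2 : N.be y = y) (hq : q ∈ N.cls x)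
    (hqb : N.be q = q) : q = x ∨ q = y := by
  obtain ⟨n, rfl, rfl, h3⟩ := h.data
  have hs : N.Strand x n := ⟨h3, Or.inl ⟨h1, h2⟩⟩
  rw [hs.cls hN hx, mem_union] at hq
  rcases hq with hq | hq
  · obtain ⟨i, hi, rfl⟩ := Net.mem_Iw.1 hq
    cases i with
    | zero => exact Or.inl rfl
    | succ i =>
      exfalso
      rw [Function.iterate_succ_apply'] at hqb
      have e1 : N.be (N.be (N.al (N.g^[i] x))) = N.al (N.g^[i] x) :=
        hN.be2 _ (hN.alV _ (Net.it_mem hN hx i))
      have e2 : N.be (N.be (N.al (N.g^[i] x))) = N.be (N.al (N.g^[i] x)) := hqb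
      exact h3 i (by omega) (e2.symm.trans e1)
  · obtain ⟨i, hi, rfl⟩ := Net.mem_Ow.1 hq
    rcases Nat.lt_or_ge i n with hin | hin
    · exact absurd hqb (h3 i hin)
    · obtain rfl : i = n := by omega
      exact Or.inr rfl

lemma wl_walk (hN : (tnet A s be ch).Ok) {x y : Port T} {l : List (Port T)} (hx : x ∈ ports A)
    (h : (tnet A s be ch).Wa x y l) : (tnet A s be ch).wl l =
      Real.pi / 12 * tql s l + (ch y - ch x) + Ad350.seam be ch l.tail :=
  (Wa_wl (show ∀ p ∈ ports A, be (be p) = p from hN.be2)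
    (show ∀ p ∈ ports A, be p ∈ ports A from hN.beV) hx h).2

lemma Wk_mem {s' : T' → Bool} (h : Ok w) {a b : T' × ZMod 4} {l : List (T' × ZMod 4)}
    (hl : Wk s' (Gw w) a b l) (ha : a.1 ∈ tls w) : ∀ r ∈ l, r.1 ∈ tls w := by
  induction hl with
  | one => simpa using ha
  | @snoc q r l h1 h2 ih =>
    intro r' hr'
    rcases List.mem_append.1 hr' with k | k
    · exact ih r' k
    · rw [List.mem_singleton.1 k]; exact (Gw_mem h h2).2

lemma map_pe_mem {l : List (T' × ZMod 4)} (hl : ∀ r ∈ l, r.1 ∈ tls w) :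
    ∀ q ∈ l.map (pe em), q ∈ ep em w := by
  intro q hq
  obtain ⟨r, hr, rfl⟩ := List.mem_map.1 hq
  exact mem_ep.2 ⟨r, hl r hr, rfl⟩

/-- an arc over the tiles of the word stays over these tiles -/
lemma cls_sub {x y : Port T} {l : List (Port T)} (hN : (tnet A s be ch).Ok) (hx : x ∈ ports A)
    (h : (tnet A s be ch).Wa x y l) (h1 : be x = x) (h2 : be y = y) (hl : ∀ q ∈ l, q ∈ ep em w) :
    (tnet A s be ch).cls x ⊆ ep em w := by
  rw [(Net.z_arc hN hx h h1 h2).2.1]
  intro q hq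
  rcases mem_union.1 hq with hq | hq
  · exact hl q (List.mem_toFinset.1 hq)
  · obtain ⟨r, hr, rfl⟩ := List.mem_map.1 (List.mem_toFinset.1 hq)
    obtain ⟨a, ha, rfl⟩ := mem_ep.1 (hl r hr)
    exact mem_ep.2 ⟨Pt266.pass (s ∘ em) a, ha, rfl⟩

/-- **a strand between two matched ends of the word** -/
theorem Phs.arc (P : Phs be ch w em σ g c) (E : Emb A be w em) {x : Port T'} (hx : x ∈ L w)
    (hxu : x ≠ u (s ∘ em) w) : ∃ a b l, x = some a ∧ M (s ∘ em) w x = some b ∧
      (tnet A s be ch).Wa (pe em a) (pe em b) l ∧ (∀ q ∈ l, q ∈ ep em w) ∧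
      ((tnet A s be ch).Ok → be (pe em a) = pe em a → be (pe em b) = pe em b →
        S (s ∘ em) w x = true →
        (tnet A s be ch).wl l = Real.pi / 6 - Real.pi / 3 * (c (M (s ∘ em) w x) - c x)) := by
  have I := Ok.inv (s ∘ em) w E.ok
  have hM : M (s ∘ em) w x ≠ x := fun e => hxu (I.fix _ hx e)
  obtain ⟨a, b, l, ha, hb, hl, hf⟩ := walkS (s ∘ em) σ E.ok P.an P.fl hx hM
  have hbL : M (s ∘ em) w x ∈ L w := I.mem _ hx
  refine ⟨a, b, l.map (pe em), ha, hb, E.walk hl, map_pe_mem (Wk_mem E.ok hl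
    ((mem_L E.ok a).1 (ha ▸ hx)).1), ?_⟩
  intro hN h1 h2 hS
  have haL : (some a : Port T') ∈ L w := ha ▸ hx
  have hbL' : (some b : Port T') ∈ L w := hb ▸ hbL
  have hat : a.1 ∈ tls w := ((mem_L E.ok a).1 haL).1
  have haV : pe em a ∈ ports A := mem_ports.2 (E.mem _ hat)
  have hw := wl_walk (s := s) hN haV (E.walk (ch := ch) hl)
  have ht := (Ok.tau (s ∘ em) w E.ok).arc x hx hxu hS
  have hf' : ((tt (s ∘ em) l : ℤ) : ℝ) + ((sm σ l : ℤ) : ℝ) =
      ((tau (s ∘ em) w x + (de σ w (M (s ∘ em) w x) - de σ w x) : ℤ) : ℝ) := by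
    exact_mod_cast hf
  rw [ht] at hf'
  rw [hw, tql_pe, P.seam_eq E hl, P.cut a haL h1, P.cut b hbL' h2]
  rw [hb, ha] at hf' ⊢
  unfold de at hf'
  push_cast at hf'
  linear_combination (-(Real.pi / 12)) * hf'

/-- **the strand of the leg** -/
theorem Phs.leg (P : Phs be ch w em σ g c) (E : Emb A be w em) (G : Lg be ch w em σ g x0) :
    ∃ a l, u (s ∘ em) w = some a ∧ x0 ∈ ep em w ∧ (tnet A s be ch).Wa x0 (pe em a) l ∧
      (∀ q ∈ l, q ∈ ep em w) ∧ (tnet A s be ch).Cn (pe em a) x0 ∧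
      ((tnet A s be ch).Ok → be (pe em a) = pe em a →
        (tnet A s be ch).wl l = Real.pi / 12 - Real.pi / 3 * c (u (s ∘ em) w)) := by
  have I := Ok.inv (s ∘ em) w E.ok
  obtain ⟨a, b, l, ha, hb, hl, hf⟩ := legS (s ∘ em) σ E.ok G.leg G.nl P.an P.fl
  obtain ⟨e1, e2, e3⟩ := G.eq b hb
  have hG := glu_Gw E.ok
  have hr := Wk.reverse hG.sym hl
  have hbt : b.1 ∈ tls w := by
    rcases b with ⟨t, d⟩
    exact gl_mem E.ok hb
  refine ⟨a, (rv (s ∘ em) l).map (pe em), ha, mem_ep.2 ⟨b, hbt, e1⟩, ?_,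
    map_pe_mem (Wk_mem E.ok hr hbt), ?_, ?_⟩
  · rw [e1]; exact E.walk hr
  · rw [e1]; exact Wa_cn (E.walk hl)
  intro hN h1
  have haL : (some a : Port T') ∈ L w := ha ▸ I.um
  have hbV : pe em b ∈ ports A := mem_ports.2 (E.mem _ hbt)
  have hw := wl_walk (s := s) hN hbV (E.walk (ch := ch) hr)
  have ht := (Ok.tau (s ∘ em) w E.ok).leg G.leg
  have hsm : Ad350.seam be ch ((rv (s ∘ em) l).map (pe em)).tail =
      -(Real.pi / 12) * (sm σ (rv (s ∘ em) l) : ℝ) + g b.1 - g a.1 := P.seam_eq E hr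
  have hrv : (sm σ (rv (s ∘ em) l) : ℤ) = - sm σ l := sm_rv P E hl
  have hf' : ((tt (s ∘ em) l : ℤ) : ℝ) + ((sm σ l : ℤ) : ℝ) + ((σ (some b) : ℤ) : ℝ) =
      ((tau (s ∘ em) w (u (s ∘ em) w) - de σ w (u (s ∘ em) w) : ℤ) : ℝ) := by
    exact_mod_cast hf
  rw [ht] at hf'
  rw [hw, tql_pe, hsm, hrv, Pt266.tt_rv, ← e1, G.ch, P.cut a haL h1, e3]
  rw [ha] at hf' ⊢
  rw [e2] at hf'
  unfold de at hf'
  push_cast at hf' ⊢
  linear_combination (Real.pi / 12) * hf'

/-- a walk of the network over the tiles of the word -/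
lemma Emb.pull (E : Emb A be w em) {x y : Port T} {l : List (Port T)}
    (h : (tnet A s be ch).Wa x y l) (hl : ∀ q ∈ l, q ∈ ep em w) :
    ∃ a b k, x = pe em a ∧ y = pe em b ∧ l = k.map (pe em) ∧ (∀ r ∈ k, r.1 ∈ tls w) ∧
      b.1 ∈ tls w ∧ Wk (s ∘ em) (Gw w) a b k := by
  induction h with
  | one =>
    obtain ⟨a, ha, rfl⟩ := mem_ep.1 (hl x (by simp))
    exact ⟨a, Pt266.pass (s ∘ em) a, [a], rfl, rfl, rfl, by simpa using ha, ha, .one⟩
  | @snoc q l h1 h2 ih =>
    obtain ⟨a, b, k, rfl, rfl, rfl, hk, hb, hw⟩ := ih fun q hq => hl q (by simp [hq])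
    obtain ⟨r, hr, e⟩ := mem_ep.1 (hl _ (List.mem_append_right _ (List.mem_singleton.2 rfl)))
    have e' : be (pe em b) = pe em r := e
    have h2' : be (pe em b) ≠ pe em b := h2
    have hbr : b ≠ r := by
      rintro rfl
      exact h2' e'
    refine ⟨a, Pt266.pass (s ∘ em) r, k ++ [r], rfl, ?_, ?_, ?_, hr,
      hw.snoc ((E.glue b r hb hr).2 ⟨e', hbr⟩)⟩
    · rw [e]; rfl
    · rw [e]; simp
    · intro r' hr'
      rcases List.mem_append.1 hr' with h | h
      · exact hk r' h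
      · rw [List.mem_singleton.1 h]; exact hr

/-- **closed strands have value one** -/
theorem Phs.loop (P : Phs be ch w em σ g c) (E : Emb A be w em) (hN : (tnet A s be ch).Ok)
    {x y : Port T} {l : List (Port T)} (hx : x ∈ ports A) (h : (tnet A s be ch).Wa x y l)
    (hl : ∀ q ∈ l, q ∈ ep em w) (hnd : l.Nodup) (hyx : be y = x) (hne : x ≠ y) :
    (tnet A s be ch).z ((tnet A s be ch).cls x) = 1 := by
  obtain ⟨a, b, k, rfl, rfl, rfl, hk, hb, hw⟩ := E.pull h hl
  have hat : a.1 ∈ tls w := hk a hw.mem_left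
  have hab : b ≠ a := by
    rintro rfl
    exact hne rfl
  have hG : Gw w b a := (E.glue b a hb hat).2 ⟨hyx, hab⟩
  have hcl : Pt266.Cl (s ∘ em) (Gw w) k := ⟨List.Nodup.of_map _ hnd, a, b, hw, hG⟩
  have hloop := loopS (s ∘ em) σ E.ok P.an P.fl hcl
  have hz := (Net.z_loop hN hx h hyx hnd).2
  have hwl := wl_walk (s := s) hN hx h
  have hsb := P.seam b a hG
  have hsc : (Qc405.sc σ k : ℤ) = - σ (some a) + sm σ k := by
    obtain ⟨m, rfl⟩ := hw.exists_cons
    exact Qc405.sc_cons σ a m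
  have hσ : σ (some a) = -σ (some b) := by
    rcases hG with hG | hG
    · exact P.an _ _ hG
    · have := P.an _ _ hG
      omega
  have e1 : (tnet A s be ch).wl (k.map (pe em)) =
      -(Real.pi / 12) * ((tt (s ∘ em) k + Qc405.sc σ k : ℤ) : ℝ) := by
    rw [hwl, tql_pe, P.seam_eq E hw, hsb, hsc, hσ]
    push_cast
    ring
  rw [hz, e1]
  have h3 : Real.cos (Real.pi / 3) = 1 / 2 := Real.cos_pi_div_three
  rcases hloop with h4 | h4
  · rw [h4]
    have : -(Real.pi / 12) * ((4 : ℤ) : ℝ) = -(Real.pi / 3) := by push_cast; ring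
    rw [this, Real.cos_neg, h3]; norm_num
  · rw [h4]
    have : -(Real.pi / 12) * ((-4 : ℤ) : ℝ) = Real.pi / 3 := by push_cast; ring
    rw [this, h3]; norm_num

end Crest.Agent.R158.Pc194
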