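import Crest.Agent.R158.Pc1_194
import Crest.Agent.R158.Ad8_350

/-!
# R158, Q1c pointwise core (N3), part 2: value of the closed sets over a word

* `z_sub` : without the leg port, `N.z C = ∏ √3 w(c (M x) - c x)` over the arcs of the word in `C`
* `zv_sub` : with the leg port (entering arrow)
* `zv_hL` : all classes inside the word = `√3 ^ K` times the conjugate of `hL`
-/

set_option autoImplicit false
set_option linter.unusedVariables false
set_option linter.unusedSectionVars false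

noncomputable section

namespace Crest.Agent.R158.Pc194

open Finset
open Crest.Agent.R158.Sw300
open Crest.Agent.R158.Gc748 (gl bs ts gd_wd pt)
open Crest.Agent.R158.Pt266 (Wk tt Gw Gs Gp Fr rv mem_L not_glued fr_of_mem glu_Gw gl_mem be_iff)
open Crest.Agent.R158.Qc405 (psi FlW An de sm sc walkS legS loopS sm_app sm_one)
open Crest.Agent.R158.Ad350 (Net ports tnet tnet_ok ei sg tql seam mem_ports mem_ports' none_ports
  Wk_Wa tql_tt Wa_wl)
open Crest.Agent.R158.Al194 (hL wr er)

variable {T T' : Type*} [DecidableEq T] [DecidableEq T']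

variable {A : Finset T} {be : Port T → Port T} {ch : Port T → ℝ} {w : Wd T'} {em : T' → T}
  {σ : Port T' → ℤ} {g : T' → ℝ} {c : Port T' → ℝ} {s : T → Bool} {x0 : Port T}
  {C : Finset (Port T)}

/-- starts of the arcs of the word whose image lies in `C` -/
def stC (s : T → Bool) (w : Wd T') (em : T' → T) (C : Finset (Port T)) : Finset (Port T') :=
  ((L w).toFinset).filter fun x => x ≠ u (s ∘ em) w ∧ S (s ∘ em) w x = true ∧ po em x ∈ C

lemma mem_stC {x : Port T'} : x ∈ stC s w em C ↔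
    x ∈ L w ∧ x ≠ u (s ∘ em) w ∧ S (s ∘ em) w x = true ∧ po em x ∈ C := by
  unfold stC
  rw [mem_filter, List.mem_toFinset]

/-- arcs in a closed set -/
lemma arc_mem (P : Phs be ch w em σ g c) (E : Emb A be w em) (hN : (tnet A s be ch).Ok)
    (hC : (tnet A s be ch).Cl C) (hCe : C ⊆ ep em w) {x : Port T'} (hx : x ∈ L w)
    (hxu : x ≠ u (s ∘ em) w) (hm : po em x ∈ C) :
    ∃ a b l, x = some a ∧ M (s ∘ em) w x = some b ∧ (tnet A s be ch).Wa (pe em a) (pe em b) l ∧
      pe em a ∈ C ∧ pe em b ∈ C ∧ be (pe em a) = pe em a ∧ be (pe em b) = pe em b ∧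
      (S (s ∘ em) w x = true →
        (tnet A s be ch).wl l = Real.pi / 6 - Real.pi / 3 * (c (M (s ∘ em) w x) - c x)) := by
  obtain ⟨a, b, l, ha, hb, hl, -, hw⟩ := P.arc (s := s) E hx hxu
  have hma : pe em a ∈ C := by rw [ha] at hm; exact hm
  have hmb : pe em b ∈ C := Net.Cn.mem hC hma (Wa_cn hl)
  have haL : (some a : Port T') ∈ L w := ha ▸ hx
  have hbL : (some b : Port T') ∈ L w := hb ▸ (Ok.inv (s ∘ em) w E.ok).mem _ hx
  have h1 := E.cut_of_mem hC hCe haL hma
  have h2 := E.cut_of_mem hC hCe hbL hmb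
  exact ⟨a, b, l, ha, hb, hl, hma, hmb, h1, h2, fun hS => hw hN h1 h2 hS⟩

/-- the end of the leg is connected to the leg port -/
lemma not_u (P : Phs be ch w em σ g c) (E : Emb A be w em) (hC : (tnet A s be ch).Cl C)
    (hCe : C ⊆ ep em w) (hx0 : ∀ b : T' × ZMod 4, Gs w (some b) none → pe em b ∉ C)
    {a : T' × ZMod 4} (ha : a.1 ∈ tls w) (hm : pe em a ∈ C) :
    (some a : Port T') ≠ u (s ∘ em) w := by
  intro e
  by_cases hleg : isLeg w
  · have hnl : w ≠ .leg := by rintro rfl; simp [tls] at ha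
    obtain ⟨a', b, l, ha', hb, hl, -⟩ := legS (s ∘ em) σ E.ok hleg hnl P.an P.fl
    rw [ha'] at e
    obtain rfl := Option.some.inj e
    exact hx0 b hb (Net.Cn.mem hC hm (Wa_cn (E.walk (s := s) hl)))
  · rw [u_none (s ∘ em) w E.ok hleg] at e
    exact absurd e (by simp)

/-- every class of a closed set over the word is a loop or the class of an arc start -/
lemma class_word (P : Phs be ch w em σ g c) (E : Emb A be w em) (hN : (tnet A s be ch).Ok)
    (hC : (tnet A s be ch).Cl C) (hCe : C ⊆ ep em w)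
    (hx0 : ∀ b : T' × ZMod 4, Gs w (some b) none → pe em b ∉ C) {d : Finset (Port T)}
    (hd : d ∈ (tnet A s be ch).classes C) :
    (tnet A s be ch).z d = 1 ∨ ∃ x ∈ stC s w em C, d = (tnet A s be ch).cls (po em x) := by
  obtain ⟨p, hp, rfl⟩ := mem_image.1 hd
  have hsub : (tnet A s be ch).cls p ⊆ C := fun q hq => Net.Cn.mem hC hp (Net.mem_cls.1 hq).2
  obtain ⟨x, hx, y, l, hw, hnd, e, hcase⟩ := Net.exists_walk hN (hC.sub hp)
  have hxC : x ∈ C := hsub (by rw [e]; exact Net.self_mem_cls hx)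
  have hyC : y ∈ C := Net.Cn.mem hC hxC (Wa_cn hw)
  have hI := Ok.inv (s ∘ em) w E.ok
  rw [e]
  by_cases hxb : be x = x
  · right
    have hyb : be y = y := by
      rcases hcase with k | k
      · exact k.2
      · have k' : be y = x := k
        have h1 : be (be y) = y := hN.be2 _ (hC.sub hyC)
        rw [k', hxb] at h1
        rw [← h1, hxb]
    obtain ⟨a, ha, rfl⟩ := mem_ep.1 (hCe hxC)
    have haL : (some a : Port T') ∈ L w := E.mem_L_of_cut ha hxb fun b hb e' => hx0 b hb (e' ▸ hxC)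
    have hau := not_u P E hC hCe hx0 ha hxC
    by_cases hS : S (s ∘ em) w (some a) = true
    · exact ⟨some a, mem_stC.2 ⟨haL, hau, hS, hxC⟩, rfl⟩
    · obtain ⟨a', b, l', ha', hb', hl', hmb⟩ := arc_mem P E hN hC hCe haL hau hxC
      obtain rfl := Option.some.inj ha'
      refine ⟨M (s ∘ em) w (some a), mem_stC.2 ⟨hI.mem _ haL, hI.Mu haL hau, ?_, ?_⟩, ?_⟩
      · rw [hI.S_M haL hau]; simpa using hS
      · rw [hb']; exact hmb.2.1
      · rw [hb']
        exact (Net.cls_eq_of_mem hN (hC.sub hxC)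
          (Net.mem_cls.2 ⟨hC.sub hmb.2.1, Wa_cn hl'⟩)).symm
  · left
    have k : be y = x := by
      rcases hcase with k | k
      · exact absurd k.1 hxb
      · exact k
    have hne : x ≠ y := by
      rintro rfl
      exact hxb k
    have hcls := (Net.z_loop hN hx hw k hnd).1
    refine P.loop E hN hx hw (fun q hq => hCe ?_) hnd k hne
    have : q ∈ (tnet A s be ch).cls x := by
      rw [hcls]; exact mem_union_left _ (List.mem_toFinset.2 hq)
    exact hsub (by rw [e]; exact this)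

/-- the classes of the arcs of the word are different -/
lemma cls_inj (P : Phs be ch w em σ g c) (E : Emb A be w em) (hN : (tnet A s be ch).Ok)
    (hC : (tnet A s be ch).Cl C) (hCe : C ⊆ ep em w) {x x' : Port T'} (hx : x ∈ stC s w em C)
    (hx' : x' ∈ stC s w em C)
    (e : (tnet A s be ch).cls (po em x) = (tnet A s be ch).cls (po em x')) : x = x' := by
  obtain ⟨h1, h2, h3, h4⟩ := mem_stC.1 hx
  obtain ⟨k1, k2, k3, k4⟩ := mem_stC.1 hx'
  obtain ⟨a, b, l, rfl, hb, hl, hma, hmb, ca, cb, -⟩ := arc_mem P E hN hC hCe h1 h2 h4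
  obtain ⟨a', b', l', rfl, hb', hl', hma', hmb', ca', cb', -⟩ := arc_mem P E hN hC hCe k1 k2 k4
  have hI := Ok.inv (s ∘ em) w E.ok
  have hm : pe em a' ∈ (tnet A s be ch).cls (pe em a) := by
    have : pe em a' ∈ (tnet A s be ch).cls (pe em a') := Net.self_mem_cls (hC.sub hma')
    rwa [show (tnet A s be ch).cls (pe em a') = (tnet A s be ch).cls (pe em a) from e.symm] at this
  have hat := ((mem_L E.ok a).1 h1).1
  have hat' := ((mem_L E.ok a').1 k1).1
  rcases arc_ends hN (hC.sub hma) hl ca cb hm ca' with h | h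
  · rw [E.ginj hat' hat h]
  · exfalso
    have hbL : (some b : Port T') ∈ L w := hb ▸ hI.mem _ h1
    have hbt := ((mem_L E.ok b).1 hbL).1
    have h5 : a' = b := E.ginj hat' hbt h
    have h6 := hI.S_M h1 h2
    rw [hb, ← h5, k3, h3] at h6
    exact absurd h6 (by decide)

lemma z_arc_word (P : Phs be ch w em σ g c) (E : Emb A be w em) (hN : (tnet A s be ch).Ok)
    (hC : (tnet A s be ch).Cl C) (hCe : C ⊆ ep em w) {x : Port T'} (hx : x ∈ stC s w em C) :
    (tnet A s be ch).z ((tnet A s be ch).cls (po em x)) =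
      ((Real.sqrt 3 * wr (c (M (s ∘ em) w x) - c x) : ℝ) : ℂ) := by
  obtain ⟨h1, h2, h3, h4⟩ := mem_stC.1 hx
  obtain ⟨a, b, l, ha, hb, hl, hma, hmb, ca, cb, hw⟩ := arc_mem P E hN hC hCe h1 h2 h4
  have hz := (Net.z_arc hN (hC.sub hma) hl ca cb).2.2
  have hpo : po em x = pe em a := by rw [ha]; rfl
  rw [hpo, hz, hw h3]
  have e2 : (2 * (Real.cos (Real.pi / 6 - Real.pi / 3 * (c (M (s ∘ em) w x) - c x)) : ℝ) : ℂ) =
      ((2 * Real.cos (Real.pi / 6 - Real.pi / 3 * (c (M (s ∘ em) w x) - c x)) : ℝ) : ℂ) := by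
    push_cast; ring
  rw [e2]
  congr 1
  unfold wr
  rw [Real.cos_pi_div_six, show Real.pi / 6 - Real.pi / 3 * (c (M (s ∘ em) w x) - c x) =
    Real.pi / 6 - (c (M (s ∘ em) w x) - c x) * (Real.pi / 3) by ring]
  have h3 : Real.sqrt 3 ≠ 0 := by positivity
  field_simp

/-- **value of a closed set over the word, without the leg port** -/
theorem z_sub (P : Phs be ch w em σ g c) (E : Emb A be w em) (hN : (tnet A s be ch).Ok)
    (hC : (tnet A s be ch).Cl C) (hCe : C ⊆ ep em w)
    (hx0 : ∀ b : T' × ZMod 4, Gs w (some b) none → pe em b ∉ C) :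
    (tnet A s be ch).z C =
      ∏ x ∈ stC s w em C, ((Real.sqrt 3 * wr (c (M (s ∘ em) w x) - c x) : ℝ) : ℂ) := by
  classical
  rw [Net.z_classes hN hC]
  set f : Port T' → Finset (Port T) := fun x => (tnet A s be ch).cls (po em x) with hf
  have hsub : (stC s w em C).image f ⊆ (tnet A s be ch).classes C := by
    intro d hd
    obtain ⟨x, hx, rfl⟩ := mem_image.1 hd
    exact mem_image_of_mem _ (mem_stC.1 hx).2.2.2
  rw [← prod_subset hsub, prod_image]
  · exact prod_congr rfl fun x hx => z_arc_word P E hN hC hCe hx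
  · intro x hx x' hx' e
    exact cls_inj P E hN hC hCe hx hx' e
  · intro d hd hd'
    rcases class_word P E hN hC hCe hx0 hd with h | ⟨x, hx, rfl⟩
    · exact h
    · exact absurd (mem_image_of_mem f hx) hd'

/-- number of cut ends -/
theorem card_ends (P : Phs be ch w em σ g c) (E : Emb A be w em) (hN : (tnet A s be ch).Ok)
    (hC : (tnet A s be ch).Cl C) (hCe : C ⊆ ep em w)
    (hx0 : ∀ b : T' × ZMod 4, Gs w (some b) none → pe em b ∉ C) :
    (C.filter fun q => be q = q).card = 2 * (stC s w em C).card := by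
  classical
  have hI := Ok.inv (s ∘ em) w E.ok
  set X := stC s w em C with hX
  have key : C.filter (fun q => be q = q) =
      X.image (po em) ∪ X.image (fun x => po em (M (s ∘ em) w x)) := by
    ext q
    simp only [mem_filter, mem_union, mem_image]
    constructor
    · rintro ⟨hq, hqb⟩
      obtain ⟨a, ha, rfl⟩ := mem_ep.1 (hCe hq)
      have haL : (some a : Port T') ∈ L w :=
        E.mem_L_of_cut ha hqb fun b hb e' => hx0 b hb (e' ▸ hq)
      have hau := not_u P E hC hCe hx0 ha hq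
      by_cases hS : S (s ∘ em) w (some a) = true
      · exact Or.inl ⟨some a, mem_stC.2 ⟨haL, hau, hS, hq⟩, rfl⟩
      · right
        obtain ⟨a', b, l', ha', hb', hl', hmb⟩ := arc_mem P E hN hC hCe haL hau hq
        obtain rfl := Option.some.inj ha'
        refine ⟨M (s ∘ em) w (some a), mem_stC.2 ⟨hI.mem _ haL, hI.Mu haL hau, ?_, ?_⟩, ?_⟩
        · rw [hI.S_M haL hau]; simpa using hS
        · rw [hb']; exact hmb.2.1
        · rw [hI.inv _ haL]; rfl
    · rintro (⟨x, hx, rfl⟩ | ⟨x, hx, rfl⟩)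
      · obtain ⟨h1, h2, h3, h4⟩ := mem_stC.1 hx
        obtain ⟨a, b, l, rfl, hb, hl, hma, hmb, ca, cb, -⟩ := arc_mem P E hN hC hCe h1 h2 h4
        exact ⟨hma, ca⟩
      · obtain ⟨h1, h2, h3, h4⟩ := mem_stC.1 hx
        obtain ⟨a, b, l, rfl, hb, hl, hma, hmb, ca, cb, -⟩ := arc_mem P E hN hC hCe h1 h2 h4
        rw [hb]
        exact ⟨hmb, cb⟩
  have poinj : ∀ x ∈ L w, ∀ y ∈ L w, po em x ∈ C → po em x = po em y → x = y := by
    intro x hx y hy hm e
    cases x with
    | none => exact absurd (hCe hm) none_ports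
    | some a =>
      cases y with
      | none => rw [e] at hm; exact absurd (hCe hm) none_ports
      | some b => rw [E.ginj ((mem_L E.ok a).1 hx).1 ((mem_L E.ok b).1 hy).1 e]
  have hML : ∀ x ∈ X, M (s ∘ em) w x ∈ L w := fun x hx => hI.mem _ (mem_stC.1 hx).1
  have hMC : ∀ x ∈ X, po em (M (s ∘ em) w x) ∈ C := by
    intro x hx
    obtain ⟨h1, h2, h3, h4⟩ := mem_stC.1 hx
    obtain ⟨a, b, l, rfl, hb, hl, hma, hmb, ca, cb, -⟩ := arc_mem P E hN hC hCe h1 h2 h4
    rw [hb]; exact hmb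
  rw [key, card_union_of_disjoint, card_image_of_injOn, card_image_of_injOn]
  · ring
  · intro x hx y hy e
    have e' : po em (M (s ∘ em) w x) = po em (M (s ∘ em) w y) := e
    have := poinj _ (hML x hx) _ (hML y hy) (hMC x hx) e'
    exact hI.Minj (mem_stC.1 hx).1 (mem_stC.1 hy).1 this
  · intro x hx y hy e
    exact poinj _ (mem_stC.1 hx).1 _ (mem_stC.1 hy).1 (mem_stC.1 hx).2.2.2 e
  · rw [disjoint_left]
    intro q hq hq'
    obtain ⟨x, hx, rfl⟩ := mem_image.1 hq
    obtain ⟨y, hy, e⟩ := mem_image.1 hq'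
    have h5 := poinj _ (hML y hy) _ (mem_stC.1 hx).1 (hMC y hy) e
    obtain ⟨h1, h2, h3, h4⟩ := mem_stC.1 hx
    obtain ⟨k1, k2, k3, k4⟩ := mem_stC.1 hy
    have h6 := hI.S_M k1 k2
    rw [h5, h3, k3] at h6
    exact absurd h6 (by decide)

end Crest.Agent.R158.Pc194
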