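import Crest.Agent.R158.Pc2_194

/-!
# R158, Q1c pointwise core (N3), part 3: the closed sets with the leg port

* `zv_sub` : `N.zv C x0 false = ei (π/12 - (π/3) c u) * ∏ √3 w(c (M x) - c x)`
* `zv_hL` : `= ei (π/12) * √3 ^ K * star (hL s' w c)` when the arcs outside `C` see no charge
* `card_ends_leg` : `2 K + 2` cut ends
* `insd`, `zv_insd` : all the classes inside the word
-/

set_option autoImplicit false
set_option linter.unusedVariables false
set_option linter.unusedSectionVars false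

noncomputable section

namespace Crest.Agent.R158.Pc194

open Finset
open Crest.Agent.R158.Sw300
open Crest.Agent.R158.Gc748 (gl bs ts gd_wd pt)
open Crest.Agent.R158.Pt266 (Wk tt Gw Gs Gp Fr rv mem_L not_glued fr_of_mem glu_Gw gl_mem be_iff)
open Crest.Agent.R158.Qc405 (psi FlW An de sm sc walkS legS loopS sm_app sm_one)
open Crest.Agent.R158.Ad350 (Net ports tnet tnet_ok ei sg tql seam mem_ports mem_ports' none_ports
  Wk_Wa tql_tt Wa_wl)
open Crest.Agent.R158.Al194 (hL wr er)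

variable {T T' : Type*} [DecidableEq T] [DecidableEq T']

variable {A : Finset T} {be : Port T → Port T} {ch : Port T → ℝ} {w : Wd T'} {em : T' → T}
  {σ : Port T' → ℤ} {g : T' → ℝ} {c : Port T' → ℝ} {s : T → Bool} {x0 : Port T}
  {C : Finset (Port T)}

lemma Lg.not_mem (G : Lg be ch w em σ g x0) (hx0 : x0 ∉ C) :
    ∀ b : T' × ZMod 4, Gs w (some b) none → pe em b ∉ C := fun b hb h =>
  hx0 ((G.eq b hb).1 ▸ h)

/-- the class of the leg has two cut ends -/
lemma leg_cut (P : Phs be ch w em σ g c) (E : Emb A be w em) (G : Lg be ch w em σ g x0)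
    (hN : (tnet A s be ch).Ok) (hC : (tnet A s be ch).Cl C) (hCe : C ⊆ ep em w) (hx0 : x0 ∈ C) :
    ∃ a l, u (s ∘ em) w = some a ∧ (tnet A s be ch).Wa x0 (pe em a) l ∧ pe em a ∈ C ∧
      be (pe em a) = pe em a ∧
      (tnet A s be ch).wl l = Real.pi / 12 - Real.pi / 3 * c (u (s ∘ em) w) := by
  obtain ⟨a, l, ha, -, hl, -, hcn, hw⟩ := P.leg (s := s) E G
  have hma : pe em a ∈ C := Net.Cn.mem hC hx0 (Wa_cn hl)
  have haL : (some a : Port T') ∈ L w := ha ▸ (Ok.inv (s ∘ em) w E.ok).um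
  have hcut := E.cut_of_mem hC hCe haL hma
  exact ⟨a, l, ha, hl, hma, hcut, hw hN hcut⟩

/-- the class of the leg contains no other arc -/
lemma stC_sdiff (P : Phs be ch w em σ g c) (E : Emb A be w em) (G : Lg be ch w em σ g x0)
    (hN : (tnet A s be ch).Ok) (hC : (tnet A s be ch).Cl C) (hCe : C ⊆ ep em w) (hx0 : x0 ∈ C) :
    stC s w em (C \ (tnet A s be ch).cls x0) = stC s w em C := by
  ext x
  rw [mem_stC, mem_stC]
  constructor
  · rintro ⟨h1, h2, h3, h4⟩
    exact ⟨h1, h2, h3, (mem_sdiff.1 h4).1⟩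
  · rintro ⟨h1, h2, h3, h4⟩
    refine ⟨h1, h2, h3, mem_sdiff.2 ⟨h4, fun hm => ?_⟩⟩
    obtain ⟨a, l, ha, hl, hma, hcut, -⟩ := leg_cut P E G hN hC hCe hx0
    cases x with
    | none => exact absurd (hCe h4) none_ports
    | some b =>
      have hbt := ((mem_L E.ok b).1 h1).1
      have hbc := E.cut_of_mem hC hCe h1 h4
      rcases arc_ends hN (hC.sub hx0) hl G.be hcut hm hbc with h | h
      · obtain ⟨a', b', l', -, h6, -⟩ := legS (s ∘ em) σ E.ok G.leg G.nl P.an P.fl
        have h7 : x0 = pe em b' := (G.eq _ h6).1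
        have hlt : b'.1 ∈ tls w := by
          rcases b' with ⟨t, d⟩
          exact gl_mem E.ok h6
        have h8 : b = b' := E.ginj hbt hlt (h.trans h7)
        rw [← h8] at h6
        exact not_glued E.ok h1 h6
      · apply h2
        rw [ha]
        have hat : a.1 ∈ tls w := by
          have haL : (some a : Port T') ∈ L w := ha ▸ (Ok.inv (s ∘ em) w E.ok).um
          exact ((mem_L E.ok a).1 haL).1
        rw [E.ginj hbt hat h]

/-- **value of a closed set over the word with an entering arrow at the leg port** -/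
theorem zv_sub (P : Phs be ch w em σ g c) (E : Emb A be w em) (G : Lg be ch w em σ g x0)
    (hN : (tnet A s be ch).Ok) (hC : (tnet A s be ch).Cl C) (hCe : C ⊆ ep em w) (hx0 : x0 ∈ C) :
    (tnet A s be ch).zv C x0 false =
      ei (Real.pi / 12 - Real.pi / 3 * c (u (s ∘ em) w)) *
        ∏ x ∈ stC s w em C, ((Real.sqrt 3 * wr (c (M (s ∘ em) w x) - c x) : ℝ) : ℂ) := by
  obtain ⟨a, l, ha, hl, hma, hcut, hw⟩ := leg_cut P E G hN hC hCe hx0
  have hV := hC.sub hx0
  have hcl := Net.cls_cl hN x0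
  have hsub : (tnet A s be ch).cls x0 ⊆ C := fun q hq => Net.Cn.mem hC hx0 (Net.mem_cls.1 hq).2
  have hsd : (tnet A s be ch).Cl (C \ (tnet A s be ch).cls x0) := hC.sdiff hN hcl
  have e1 : C = (tnet A s be ch).cls x0 ∪ (C \ (tnet A s be ch).cls x0) :=
    (union_sdiff_of_subset hsub).symm
  have h1 : (tnet A s be ch).zv C x0 false = (tnet A s be ch).zv ((tnet A s be ch).cls x0) x0 false *
      (tnet A s be ch).z (C \ (tnet A s be ch).cls x0) := by
    conv_lhs => rw [e1]
    exact Net.zv_union hcl hsd disjoint_sdiff (Net.self_mem_cls hV) false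
  have h2 := Net.zv_leg hN hV hl G.be hcut false
  have h3 := z_sub P E hN hsd (sdiff_subset.trans hCe) (G.not_mem fun h =>
    (mem_sdiff.1 h).2 (Net.self_mem_cls hV))
  rw [h1, h2, h3, stC_sdiff P E G hN hC hCe hx0, hw]
  simp [sg]

/-- **number of cut ends, the leg port included** -/
theorem card_ends_leg (P : Phs be ch w em σ g c) (E : Emb A be w em) (G : Lg be ch w em σ g x0)
    (hN : (tnet A s be ch).Ok) (hC : (tnet A s be ch).Cl C) (hCe : C ⊆ ep em w) (hx0 : x0 ∈ C) :
    (C.filter fun q => be q = q).card = 2 * (stC s w em C).card + 2 := by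
  obtain ⟨a, l, ha, hl, hma, hcut, hw⟩ := leg_cut P E G hN hC hCe hx0
  have hV := hC.sub hx0
  have hcl := Net.cls_cl hN x0
  have hsub : (tnet A s be ch).cls x0 ⊆ C := fun q hq => Net.Cn.mem hC hx0 (Net.mem_cls.1 hq).2
  have hsd : (tnet A s be ch).Cl (C \ (tnet A s be ch).cls x0) := hC.sdiff hN hcl
  have h3 := card_ends P E hN hsd (sdiff_subset.trans hCe) (G.not_mem fun h =>
    (mem_sdiff.1 h).2 (Net.self_mem_cls hV))
  rw [stC_sdiff P E G hN hC hCe hx0] at h3
  have hne : x0 ≠ pe em a := by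
    obtain ⟨n, -, e, h5⟩ := hl.data
    have := Net.it_ne hN hV h5 n 0 le_rfl (Nat.zero_le _)
    rw [← e] at this
    exact fun h => this h.symm
  have e1 : (C.filter fun q => be q = q) =
      ((C \ (tnet A s be ch).cls x0).filter fun q => be q = q) ∪ {x0, pe em a} := by
    ext q
    simp only [mem_filter, mem_union, mem_sdiff, mem_insert, mem_singleton]
    constructor
    · rintro ⟨h6, h7⟩
      by_cases h8 : q ∈ (tnet A s be ch).cls x0
      · exact Or.inr (arc_ends hN hV hl G.be hcut h8 h7)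
      · exact Or.inl ⟨⟨h6, h8⟩, h7⟩
    · rintro (⟨⟨h6, -⟩, h7⟩ | rfl | rfl)
      · exact ⟨h6, h7⟩
      · exact ⟨hx0, G.be⟩
      · exact ⟨hma, hcut⟩
  have hac : pe em a ∈ (tnet A s be ch).cls x0 := Net.mem_cls.2 ⟨hC.sub hma, Wa_cn hl⟩
  rw [e1, card_union_of_disjoint, h3, card_pair hne]
  rw [disjoint_left]
  intro q hq hq'
  simp only [mem_filter, mem_sdiff, mem_insert, mem_singleton] at hq hq'
  rcases hq' with rfl | rfl
  · exact hq.1.2 (Net.self_mem_cls hV)
  · exact hq.1.2 hac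

lemma wr_zero : wr 0 = 1 := by
  unfold wr
  rw [zero_mul, sub_zero]
  exact div_self Al194.cos_pi6_pos.ne'

lemma star_er (q : ℝ) : star (er q) = ei (-(Real.pi / 3 * q)) := by
  unfold er ei
  have h : star (Complex.exp (Complex.I * ((q * (Real.pi / 3) : ℝ) : ℂ))) =
      (starRingEnd ℂ) (Complex.exp (Complex.I * ((q * (Real.pi / 3) : ℝ) : ℂ))) := rfl
  rw [h, ← Complex.exp_conj, map_mul, Complex.conj_I, Complex.conj_ofReal]
  congr 1
  push_cast
  ring

/-- **the observable `hL`** -/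
theorem zv_hL (P : Phs be ch w em σ g c) (E : Emb A be w em) (G : Lg be ch w em σ g x0)
    (hN : (tnet A s be ch).Ok) (hC : (tnet A s be ch).Cl C) (hCe : C ⊆ ep em w) (hx0 : x0 ∈ C)
    (hout : ∀ x ∈ L w, x ≠ u (s ∘ em) w → S (s ∘ em) w x = true → po em x ∉ C →
      c (M (s ∘ em) w x) = c x) :
    (tnet A s be ch).zv C x0 false =
      ei (Real.pi / 12) * ((Real.sqrt 3 : ℝ) : ℂ) ^ (stC s w em C).card *
        star (hL (s ∘ em) w c) := by
  rw [zv_sub P E G hN hC hCe hx0]
  have e1 : ∏ x ∈ stC s w em C, ((Real.sqrt 3 * wr (c (M (s ∘ em) w x) - c x) : ℝ) : ℂ) =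
      ((Real.sqrt 3 : ℝ) : ℂ) ^ (stC s w em C).card *
        ((∏ x ∈ stC s w em C, wr (c (M (s ∘ em) w x) - c x) : ℝ) : ℂ) := by
    rw [← Complex.ofReal_pow, ← Complex.ofReal_mul, ← Complex.ofReal_prod, prod_mul_distrib,
      prod_const]
  have e2 : ∏ x ∈ stC s w em C, wr (c (M (s ∘ em) w x) - c x) =
      ∏ x ∈ ((L w).toFinset).filter (fun x => x ≠ u (s ∘ em) w ∧ S (s ∘ em) w x = true),
        wr (c (M (s ∘ em) w x) - c x) := by
    apply prod_subset
    · intro x hx
      obtain ⟨h1, h2, h3, -⟩ := mem_stC.1 hx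
      exact mem_filter.2 ⟨List.mem_toFinset.2 h1, h2, h3⟩
    · intro x hx hx'
      rw [mem_filter, List.mem_toFinset] at hx
      obtain ⟨h1, h2, h3⟩ := hx
      rw [hout x h1 h2 h3 fun h => hx' (mem_stC.2 ⟨h1, h2, h3, h⟩), sub_self, wr_zero]
  rw [e1, e2]
  unfold hL
  rw [star_mul', star_er]
  have e3 : star (((∏ x ∈ ((L w).toFinset).filter (fun x => x ≠ u (s ∘ em) w ∧
      S (s ∘ em) w x = true), wr (c (M (s ∘ em) w x) - c x) : ℝ) : ℂ)) =
      ((∏ x ∈ ((L w).toFinset).filter (fun x => x ≠ u (s ∘ em) w ∧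
      S (s ∘ em) w x = true), wr (c (M (s ∘ em) w x) - c x) : ℝ) : ℂ) := Complex.conj_ofReal _
  rw [e3, sub_eq_add_neg, Ad350.ei_add]
  ring

/-! ### all the classes inside the word -/

/-- the ports whose class stays over the tiles of the word -/
def insd (A : Finset T) (s : T → Bool) (be : Port T → Port T) (ch : Port T → ℝ) (w : Wd T')
    (em : T' → T) : Finset (Port T) := by
  classical exact (ports A).filter fun q => (tnet A s be ch).cls q ⊆ ep em w

lemma mem_insd {q : Port T} : q ∈ insd A s be ch w em ↔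
    q ∈ ports A ∧ (tnet A s be ch).cls q ⊆ ep em w := by
  classical
  unfold insd
  rw [mem_filter]

lemma insd_cl (hN : (tnet A s be ch).Ok) : (tnet A s be ch).Cl (insd A s be ch w em) := by
  refine ⟨fun q hq => (mem_insd.1 hq).1, fun q hq => ?_, fun q hq => ?_⟩
  · obtain ⟨h1, h2⟩ := mem_insd.1 hq
    have h3 := (Net.cls_cl hN q).al q (Net.self_mem_cls h1)
    refine mem_insd.2 ⟨hN.alV q h1, ?_⟩
    rw [Net.cls_eq_of_mem hN h1 h3]; exact h2
  · obtain ⟨h1, h2⟩ := mem_insd.1 hq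
    have h3 := (Net.cls_cl hN q).be q (Net.self_mem_cls h1)
    refine mem_insd.2 ⟨hN.beV q h1, ?_⟩
    rw [Net.cls_eq_of_mem hN h1 h3]; exact h2

lemma insd_sub (hN : (tnet A s be ch).Ok) : insd A s be ch w em ⊆ ep em w := by
  intro q hq
  obtain ⟨h1, h2⟩ := mem_insd.1 hq
  exact h2 (Net.self_mem_cls h1)

/-- **all the classes inside the word**: `hL`, when the arcs with an interface end see no charge -/
theorem zv_insd (P : Phs be ch w em σ g c) (E : Emb A be w em) (G : Lg be ch w em σ g x0)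
    (hN : (tnet A s be ch).Ok) (hu : be (po em (u (s ∘ em) w)) = po em (u (s ∘ em) w))
    (hI : ∀ x ∈ L w, x ≠ u (s ∘ em) w → be (po em x) ≠ po em x → c (M (s ∘ em) w x) = c x) :
    x0 ∈ insd A s be ch w em ∧ (tnet A s be ch).zv (insd A s be ch w em) x0 false =
      ei (Real.pi / 12) * ((Real.sqrt 3 : ℝ) : ℂ) ^ (stC s w em (insd A s be ch w em)).card *
        star (hL (s ∘ em) w c) := by
  have hx0 : x0 ∈ insd A s be ch w em := by
    obtain ⟨a, l, ha, hx0e, hl, hle, -, -⟩ := P.leg (s := s) E G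
    have hV : x0 ∈ ports A := by
      obtain ⟨b, hb, rfl⟩ := mem_ep.1 hx0e
      exact mem_ports.2 (E.mem _ hb)
    rw [ha] at hu
    exact mem_insd.2 ⟨hV, cls_sub hN hV hl G.be hu hle⟩
  refine ⟨hx0, zv_hL P E G hN (insd_cl hN) (insd_sub hN) hx0 ?_⟩
  intro x hx hxu hS hm
  have IV := Ok.inv (s ∘ em) w E.ok
  by_cases h1 : be (po em x) = po em x
  · by_cases h2 : be (po em (M (s ∘ em) w x)) = po em (M (s ∘ em) w x)
    · exfalso
      obtain ⟨a, b, l, rfl, hb, hl, hle, -⟩ := P.arc (s := s) E hx hxu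
      rw [hb] at h2
      have hV : pe em a ∈ ports A := mem_ports.2 (E.mem _ ((mem_L E.ok a).1 hx).1)
      exact hm (mem_insd.2 ⟨hV, cls_sub hN hV hl h1 h2 hle⟩)
    · have := hI _ (IV.mem _ hx) (IV.Mu hx hxu) h2
      rw [IV.inv _ hx] at this
      exact this.symm
  · exact hI x hx hxu h1

end Crest.Agent.R158.Pc194
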