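import Mathlib

/-!
# R158, block SL (helper434), file Sl1: composition of strand systems, carrier-free

* `Rl al be O J` : ports joined inside `O` by the passages `al` and the glueings `be` off `J`
* `Rl.exit`, `comp`, `comp_zero` : two systems which agree on `O` off `J`; if at most one class
  meets both the far set `F` and the interface `J`, the two systems join the same far ports
* `Rl.cross` : a class which joins the inner to the outer side contains a crossing of the annulus
-/

set_option autoImplicit false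

namespace Crest.Agent.R158.Sl434

open Relation

variable {X : Type*}

/-- one step inside `O` off the interface `J` -/
def Sp (al be : X → X) (O J : Set X) (x y : X) : Prop :=
  x ∈ O ∧ y ∈ O ∧ (y = al x ∨ (y = be x ∧ x ∉ J ∧ y ∉ J))

/-- joined inside `O` off the interface `J` -/
def Rl (al be : X → X) (O J : Set X) (x y : X) : Prop :=
  x ∈ O ∧ ReflTransGen (Sp al be O J) x y

theorem Rl.refl {al be : X → X} {O J : Set X} {x : X} (h : x ∈ O) : Rl al be O J x x :=
  ⟨h, .refl⟩

theorem Rl.left {al be : X → X} {O J : Set X} {x y : X} (h : Rl al be O J x y) : x ∈ O := h.1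

theorem Rl.right {al be : X → X} {O J : Set X} {x y : X} (h : Rl al be O J x y) : y ∈ O := by
  obtain ⟨hx, h⟩ := h
  induction h with
  | refl => exact hx
  | tail _ h _ => exact h.2.1

theorem Rl.trans {al be : X → X} {O J : Set X} {x y z : X} (h : Rl al be O J x y)
    (h' : Rl al be O J y z) : Rl al be O J x z := ⟨h.1, h.2.trans h'.2⟩

theorem Sp.symm {al be : X → X} (hal : Function.Involutive al) (hbe : Function.Involutive be)
    {O J : Set X} {x y : X} (h : Sp al be O J x y) : Sp al be O J y x := by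
  obtain ⟨h1, h2, h3⟩ := h
  refine ⟨h2, h1, ?_⟩
  rcases h3 with rfl | ⟨rfl, h3, h4⟩
  · exact Or.inl (hal x).symm
  · exact Or.inr ⟨(hbe x).symm, h4, h3⟩

theorem Rl.symm {al be : X → X} (hal : Function.Involutive al) (hbe : Function.Involutive be)
    {O J : Set X} {x y : X} (h : Rl al be O J x y) : Rl al be O J y x := by
  refine ⟨h.right, ?_⟩
  have h2 := h.2
  clear h
  induction h2 with
  | refl => exact .refl
  | tail _ h ih => exact .head (h.symm hal hbe) ih

theorem Rl.mono {al be al' be' : X → X} {O J O' J' : Set X} (hO : O ⊆ O')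
    (hal : ∀ x ∈ O, al x ∈ O → al' x = al x)
    (hbe : ∀ x ∈ O, x ∉ J → be x ∈ O → be x ∉ J → be' x = be x ∧ x ∉ J' ∧ be x ∉ J') {x y : X}
    (h : Rl al be O J x y) : Rl al' be' O' J' x y := by
  refine ⟨hO h.1, ?_⟩
  refine ReflTransGen.mono ?_ _ _ h.2
  rintro a b ⟨ha, hb, hab⟩
  refine ⟨hO ha, hO hb, ?_⟩
  rcases hab with rfl | ⟨rfl, h1, h2⟩
  · exact Or.inl (hal a ha hb).symm
  · obtain ⟨h3, h4, h5⟩ := hbe a ha h1 hb h2
    exact Or.inr ⟨h3.symm, h4, h5⟩

/-- the full relation of a strand system -/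
abbrev Rf (al be : X → X) : X → X → Prop := Rl al be Set.univ ∅

theorem Rf.of {al be : X → X} {O J : Set X} {x y : X} (h : Rl al be O J x y) :
    Rf al be x y :=
  h.mono (Set.subset_univ _) (fun _ _ _ => rfl) fun _ _ _ _ _ => ⟨rfl, by simp, by simp⟩

/-- two systems which agree inside `O` off the interface `J` -/
structure Agr (al be al' be' : X → X) (O J : Set X) : Prop where
  al_mem : ∀ x ∈ O, al x ∈ O
  al_eq : ∀ x ∈ O, al' x = al x
  be_mem : ∀ x ∈ O, x ∉ J → be x ∈ O
  be_J : ∀ x ∈ O, x ∉ J → be x ∉ J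
  be_eq : ∀ x ∈ O, x ∉ J → be' x = be x

theorem Agr.symm {al be al' be' : X → X} {O J : Set X} (h : Agr al be al' be' O J) :
    Agr al' be' al be O J where
  al_mem x hx := by rw [h.al_eq x hx]; exact h.al_mem x hx
  al_eq x hx := (h.al_eq x hx).symm
  be_mem x hx hJ := by rw [h.be_eq x hx hJ]; exact h.be_mem x hx hJ
  be_J x hx hJ := by rw [h.be_eq x hx hJ]; exact h.be_J x hx hJ
  be_eq x hx hJ := (h.be_eq x hx hJ).symm

theorem Agr.rl {al be al' be' : X → X} {O J : Set X} (h : Agr al be al' be' O J) {x y : X} :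
    Rl al be O J x y ↔ Rl al' be' O J x y := by
  constructor
  · intro h1
    exact h1.mono subset_rfl (fun x hx _ => h.al_eq x hx)
      fun x hx hJ _ hJ' => ⟨h.be_eq x hx hJ, hJ, hJ'⟩
  · intro h1
    exact h1.mono subset_rfl (fun x hx _ => h.symm.al_eq x hx)
      fun x hx hJ _ hJ' => ⟨h.symm.be_eq x hx hJ, hJ, hJ'⟩

/-- a walk either stays inside `O` or meets the interface -/
theorem Agr.exit {al be al' be' : X → X} {O J : Set X} (h : Agr al be al' be' O J) {x y : X}
    (hx : x ∈ O) (hxy : Rf al be x y) : Rl al be O J x y ∨ ∃ j ∈ J, Rl al be O J x j := by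
  obtain ⟨-, h2⟩ := hxy
  induction h2 with
  | refl => exact Or.inl (.refl hx)
  | @tail b c _ hbc ih =>
    rcases ih with ih | ih
    · have hb := ih.right
      obtain ⟨-, -, hbc⟩ := hbc
      rcases hbc with rfl | ⟨rfl, -, -⟩
      · exact Or.inl ⟨hx, ih.2.tail ⟨hb, h.al_mem _ hb, Or.inl rfl⟩⟩
      · by_cases hJ : b ∈ J
        · exact Or.inr ⟨b, hJ, ih⟩
        · exact Or.inl ⟨hx, ih.2.tail ⟨hb, h.be_mem _ hb hJ, Or.inr ⟨rfl, hJ, h.be_J _ hb hJ⟩⟩⟩
    · exact Or.inr ih

/-- at most one class meets both the far set and the interface -/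
def OneC (al be : X → X) (O J F : Set X) : Prop :=
  ∀ x ∈ F, ∀ y ∈ F, ∀ i ∈ J, ∀ j ∈ J, Rl al be O J x i → Rl al be O J y j → Rl al be O J x y

/-- no class meets both the far set and the interface -/
def ZeroC (al be : X → X) (O J F : Set X) : Prop :=
  ∀ x ∈ F, ∀ j ∈ J, ¬ Rl al be O J x j

theorem ZeroC.one {al be : X → X} {O J F : Set X} (h : ZeroC al be O J F) : OneC al be O J F :=
  fun x hx _ _ i hi _ _ h1 _ => absurd h1 (h x hx i hi)

theorem OneC.congr {al be al' be' : X → X} {O J F : Set X} (h : Agr al be al' be' O J)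
    (h1 : OneC al be O J F) : OneC al' be' O J F := by
  intro x hx y hy i hi j hj ha hb
  exact h.rl.1 (h1 x hx y hy i hi j hj (h.rl.2 ha) (h.rl.2 hb))

theorem ZeroC.congr {al be al' be' : X → X} {O J F : Set X} (h : Agr al be al' be' O J)
    (h1 : ZeroC al be O J F) : ZeroC al' be' O J F := by
  intro x hx j hj ha
  exact h1 x hx j hj (h.rl.2 ha)

/-- far ports joined by the full system are joined inside `O` -/
theorem Agr.inner {al be al' be' : X → X} (hal : Function.Involutive al)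
    (hbe : Function.Involutive be) {O J F : Set X} (h : Agr al be al' be' O J)
    (h1 : OneC al be O J F) (hF : F ⊆ O) {x y : X} (hx : x ∈ F) (hy : y ∈ F)
    (hxy : Rf al be x y) : Rl al be O J x y := by
  rcases h.exit (hF hx) hxy with h2 | ⟨i, hi, h2⟩
  · exact h2
  rcases h.exit (hF hy) (hxy.symm hal hbe) with h3 | ⟨j, hj, h3⟩
  · exact h3.symm hal hbe
  exact h1 x hx y hy i hi j hj h2 h3

/-- **composition lemma** -/
theorem comp {al be al' be' : X → X} (hal : Function.Involutive al) (hbe : Function.Involutive be)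
    (hal' : Function.Involutive al') (hbe' : Function.Involutive be') {O J F : Set X}
    (h : Agr al be al' be' O J) (h1 : OneC al be O J F) (hF : F ⊆ O) {x y : X} (hx : x ∈ F)
    (hy : y ∈ F) : Rf al be x y ↔ Rf al' be' x y := by
  constructor
  · intro hxy
    exact Rf.of (h.rl.1 (h.inner hal hbe h1 hF hx hy hxy))
  · intro hxy
    exact Rf.of (h.rl.2 (h.symm.inner hal' hbe' (h1.congr h) hF hx hy hxy))

/-- if no class joins the far set to the interface, the class of a far port is the inner one -/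
theorem comp_zero {al be al' be' : X → X} {O J F : Set X}
    (h : Agr al be al' be' O J) (h1 : ZeroC al be O J F) (hF : F ⊆ O) {x y : X} (hx : x ∈ F)
    (hxy : Rf al be x y) : Rl al be O J x y ∧ Rf al' be' x y := by
  rcases h.exit (hF hx) hxy with h2 | ⟨i, hi, h2⟩
  · exact ⟨h2, Rf.of (h.rl.1 h2)⟩
  · exact absurd h2 (h1 x hx i hi)

/-- the crossing port of a far class: if `x ∈ F` is joined to `y ∉ O`, its class meets `J` -/
theorem Agr.meets {al be al' be' : X → X} {O J : Set X} (h : Agr al be al' be' O J) {x y : X}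
    (hx : x ∈ O) (hy : y ∉ O) (hxy : Rf al be x y) : ∃ j ∈ J, Rl al be O J x j := by
  rcases h.exit hx hxy with h2 | h2
  · exact absurd h2.right hy
  · exact h2

/-! ### crossings of an annulus -/

/-- the annulus `r < ρ < R` in `O` -/
def Ann (O : Set X) (ρ : X → ℤ) (r R : ℤ) : Set X := {x | x ∈ O ∧ r < ρ x ∧ ρ x < R}

/-- the interface of the annulus: glued to a port which is not in the annulus -/
def AnnJ (be : X → X) (O J : Set X) (ρ : X → ℤ) (r R : ℤ) : Set X :=
  {x | x ∈ J ∨ be x ∉ Ann O ρ r R}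

/-- an inner crossing port: in the annulus, glued to `ρ ≤ r` -/
def InP (be : X → X) (O J : Set X) (ρ : X → ℤ) (r R : ℤ) (p : X) : Prop :=
  p ∈ Ann O ρ r R ∧ p ∉ J ∧ ρ (be p) ≤ r

/-- an outer crossing port: in the annulus, glued to `R ≤ ρ` -/
def OutP (be : X → X) (O J : Set X) (ρ : X → ℤ) (r R : ℤ) (p : X) : Prop :=
  p ∈ Ann O ρ r R ∧ p ∉ J ∧ R ≤ ρ (be p)

/-- a class from `ρ ≤ r` to `R ≤ ρ` contains a crossing of the annulus -/
theorem Rl.cross {al be : X → X} (hbe : Function.Involutive be) {O J : Set X} {ρ : X → ℤ}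
    {r R : ℤ} (hrR : r + 1 < R) (hal : ∀ x ∈ O, ρ (al x) = ρ x)
    (hρ : ∀ x ∈ O, x ∉ J → be x ∈ O → ρ (be x) ≤ ρ x + 1) {i x : X} (h : Rl al be O J i x)
    (hi : ρ i ≤ r) (hx : R ≤ ρ x) :
    ∃ p q, InP be O J ρ r R p ∧ OutP be O J ρ r R q ∧ Rl al be O J i p ∧
      Rl al be (Ann O ρ r R) (AnnJ be O J ρ r R) p q := by
  -- invariant of the walk from `i`
  have key : ∀ y, Rl al be O J i y → ρ y ≤ r ∨
      (∃ p q, InP be O J ρ r R p ∧ OutP be O J ρ r R q ∧ Rl al be O J i p ∧
        Rl al be (Ann O ρ r R) (AnnJ be O J ρ r R) p q) ∨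
      (ρ y < R ∧ ∃ p, InP be O J ρ r R p ∧ Rl al be O J i p ∧
        Rl al be (Ann O ρ r R) (AnnJ be O J ρ r R) p y) := by
    rintro y ⟨hiO, hy⟩
    induction hy with
    | refl => exact Or.inl hi
    | @tail b c hib hbc ih =>
      have hRb : Rl al be O J i b := ⟨hiO, hib⟩
      have hRc : Rl al be O J i c := ⟨hiO, hib.tail hbc⟩
      obtain ⟨hb, hc, hbc⟩ := hbc
      rcases ih with ih | ih | ⟨h1, p, hp, hip, hpb⟩
      · -- `b` is inside
        rcases hbc with rfl | ⟨rfl, hbJ, hcJ⟩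
        · exact Or.inl (by rw [hal b hb]; exact ih)
        · by_cases hc' : ρ (be b) ≤ r
          · exact Or.inl hc'
          · have := hρ b hb hbJ hc
            have hcA : be b ∈ Ann O ρ r R := ⟨hc, by omega, by omega⟩
            refine Or.inr (Or.inr ⟨by omega, be b, ⟨hcA, hcJ, ?_⟩, hRc, .refl hcA⟩)
            rw [hbe b]; exact ih
      · exact Or.inr (Or.inl ih)
      · have hbA : b ∈ Ann O ρ r R := hpb.right
        rcases hbc with rfl | ⟨rfl, hbJ, hcJ⟩
        · have hcA : al b ∈ Ann O ρ r R := ⟨hc, by rw [hal b hb]; exact hbA.2.1,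
            by rw [hal b hb]; exact hbA.2.2⟩
          exact Or.inr (Or.inr ⟨hcA.2.2, p, hp, hip,
            ⟨hpb.1, hpb.2.tail ⟨hbA, hcA, Or.inl rfl⟩⟩⟩)
        · by_cases hcA : be b ∈ Ann O ρ r R
          · refine Or.inr (Or.inr ⟨hcA.2.2, p, hp, hip, ⟨hpb.1, hpb.2.tail ⟨hbA, hcA,
              Or.inr ⟨rfl, ?_, ?_⟩⟩⟩⟩)
            · rintro (h2 | h2)
              · exact hbJ h2
              · exact h2 hcA
            · rintro (h2 | h2)
              · exact hcJ h2
              · rw [hbe b] at h2; exact h2 hbA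
          · by_cases hc' : ρ (be b) ≤ r
            · exact Or.inl hc'
            · have hc2 : R ≤ ρ (be b) := by
                by_contra hlt
                exact hcA ⟨hc, by omega, by omega⟩
              exact Or.inr (Or.inl ⟨p, b, hp, ⟨hbA, hbJ, hc2⟩, hip, hpb⟩)
  rcases key x h with h1 | h1 | ⟨h1, -⟩
  · omega
  · exact h1
  · omega

/-- **two classes give two crossings**: if at most one class condition fails, there are two
crossings of the annulus which are not joined inside `O` -/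
theorem two_cross {al be : X → X} (hal : Function.Involutive al) (hbe : Function.Involutive be)
    {O J F : Set X} {ρ : X → ℤ} {r R : ℤ} (hrR : r + 1 < R) (hal' : ∀ x ∈ O, ρ (al x) = ρ x)
    (hρ : ∀ x ∈ O, x ∉ J → be x ∈ O → ρ (be x) ≤ ρ x + 1) (hJ : ∀ j ∈ J, ρ j ≤ r)
    (hF : ∀ x ∈ F, R ≤ ρ x) (h : ¬ OneC al be O J F) :
    ∃ p q p' q', InP be O J ρ r R p ∧ OutP be O J ρ r R q ∧
      Rl al be (Ann O ρ r R) (AnnJ be O J ρ r R) p q ∧
      InP be O J ρ r R p' ∧ OutP be O J ρ r R q' ∧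
      Rl al be (Ann O ρ r R) (AnnJ be O J ρ r R) p' q' ∧ ¬ Rl al be O J p p' := by
  simp only [OneC, not_forall] at h
  obtain ⟨x, hx, y, hy, i, hi, j, hj, h1, h2, h3⟩ := h
  obtain ⟨p, q, hp, hq, hip, hpq⟩ := (h1.symm hal hbe).cross hbe hrR hal' hρ (hJ i hi) (hF x hx)
  obtain ⟨p', q', hp', hq', hip', hpq'⟩ :=
    (h2.symm hal hbe).cross hbe hrR hal' hρ (hJ j hj) (hF y hy)
  refine ⟨p, q, p', q', hp, hq, hpq, hp', hq', hpq', fun h4 => h3 ?_⟩
  exact ((h1.trans hip).trans h4).trans ((h2.trans hip').symm hal hbe)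

/-- **one class gives one crossing** -/
theorem one_cross {al be : X → X} (hal : Function.Involutive al) (hbe : Function.Involutive be)
    {O J F : Set X} {ρ : X → ℤ} {r R : ℤ} (hrR : r + 1 < R) (hal' : ∀ x ∈ O, ρ (al x) = ρ x)
    (hρ : ∀ x ∈ O, x ∉ J → be x ∈ O → ρ (be x) ≤ ρ x + 1) (hJ : ∀ j ∈ J, ρ j ≤ r)
    (hF : ∀ x ∈ F, R ≤ ρ x) (h : ¬ ZeroC al be O J F) :
    ∃ p q, InP be O J ρ r R p ∧ OutP be O J ρ r R q ∧
      Rl al be (Ann O ρ r R) (AnnJ be O J ρ r R) p q := by
  simp only [ZeroC, not_forall, not_not] at h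
  obtain ⟨x, hx, i, hi, h1⟩ := h
  obtain ⟨p, q, hp, hq, -, hpq⟩ := (h1.symm hal hbe).cross hbe hrR hal' hρ (hJ i hi) (hF x hx)
  exact ⟨p, q, hp, hq, hpq⟩

/-- crossings of the annulus are walks of `O` -/
theorem Rl.of_ann {al be : X → X} {O J : Set X} {ρ : X → ℤ} {r R : ℤ} {p q : X}
    (h : Rl al be (Ann O ρ r R) (AnnJ be O J ρ r R) p q) : Rl al be O J p q :=
  h.mono (fun _ hx => hx.1) (fun _ _ _ => rfl)
    fun _ _ h1 _ h2 => ⟨rfl, fun h3 => h1 (Or.inl h3), fun h3 => h2 (Or.inl h3)⟩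

end Crest.Agent.R158.Sl434
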