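import Crest.Agent.R158.Gc7_748
import Crest.Agent.R158.Sl1_434
import Crest.Agent.R158.Fw5_814

/-!
# R158 (helper679): two crossing strands of a half annulus give the (F3) event, part 1

434's request (3), abstract form.
* `pas s` : the passages of a splitting
* `rl_sides` : a walk of passages and glueings keeps the two sides
* `rl_end` : a walk between two free ends joins an end to itself or to its partner
* `three` : two different arcs have three pairwise not connected corners at their starts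
* `two_t3` : **general form** (any carrier `X`, any system `al, be`, chart `φ` on the annulus)
-/

set_option autoImplicit false

namespace Crest.Agent.R158.Pj679

open Crest.Agent.R158.Sw300 (Port Wd thru thru_thru)
open Crest.Agent.R158.Gc748
open Crest.Agent.R158.Sl434
open Crest.Agent.R158.Cb771 (FS FP)
open Crest.Agent.R158.Xr249 (Reg)

/-! ### passages and sides -/

section abs

variable {T : Type*} {s : T → Bool} {B : Option T} {L : List (Port T)}
  {G : List (Port T × Port T)} {Ts : Set T} {M : Port T → Port T}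

/-- the passages of a splitting -/
def pas (s : T → Bool) (p : Port T) : Port T := p.map fun x => (x.1, thru (s x.1) x.2)

@[simp] theorem pas_none (s : T → Bool) : pas s none = none := rfl

@[simp] theorem pas_some (s : T → Bool) (t : T) (d : ZMod 4) :
    pas s (some (t, d)) = some (t, thru (s t) d) := rfl

theorem pas_inv (s : T → Bool) : Function.Involutive (pas s) := by
  rintro (- | ⟨t, d⟩)
  · rfl
  · simp [thru_thru]

/-- the two sides of `p` are the two sides of `q` -/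
def SS (s : T → Bool) (B : Option T) (G : List (Port T × Port T)) (p q : Port T) : Prop :=
  (R s B G (lc p) (lc q) ∧ R s B G (rc p) (rc q)) ∨
    (R s B G (lc p) (rc q) ∧ R s B G (rc p) (lc q))

theorem SS.refl (p : Port T) : SS s B G p p := Or.inl ⟨R.refl _, R.refl _⟩

theorem SS.pass {p q : Port T} (h : SS s B G p q) : SS s B G p (pas s q) := by
  rcases q with - | ⟨t, d⟩
  · exact h
  · have h1 : R s B G (rc (some (t, d))) (lc (pas s (some (t, d)))) := tile_side s G t d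
    have h2 : R s B G (rc (pas s (some (t, d)))) (lc (some (t, d))) := by
      have := tile_side (B := B) s G t (thru (s t) d)
      rwa [thru_thru] at this
    rcases h with ⟨ha, hb⟩ | ⟨ha, hb⟩
    · exact Or.inr ⟨ha.trans h2.symm, hb.trans h1⟩
    · exact Or.inl ⟨ha.trans h1, hb.trans h2.symm⟩

theorem SS.gl {p q q' : Port T} (h : SS s B G p q) (hg : Gp G q q') : SS s B G p q' := by
  rcases h with ⟨ha, hb⟩ | ⟨ha, hb⟩
  · exact Or.inr ⟨ha.trans hg.lr, hb.trans hg.rl⟩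
  · exact Or.inl ⟨ha.trans hg.rl, hb.trans hg.lr⟩

/-- **a walk keeps the two sides** (general carrier `X` with a chart `φ`) -/
theorem rl_sides {X : Type*} {al be : X → X} {O J : Set X} {φ : X → Port T}
    (hal : ∀ x ∈ O, al x ∈ O → φ (al x) = pas s (φ x))
    (hbe : ∀ x ∈ O, x ∉ J → be x ∈ O → be x = x ∨ Gp G (φ x) (φ (be x))) {x y : X}
    (h : Rl al be O J x y) : SS s B G (φ x) (φ y) := by
  obtain ⟨-, h⟩ := h
  induction h with
  | refl => exact SS.refl _
  | @tail b c _ h2 ih =>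
    obtain ⟨hb, hc, h3⟩ := h2
    rcases h3 with rfl | ⟨rfl, h4, -⟩
    · rw [hal b hb hc]; exact ih.pass
    · rcases hbe b hb h4 hc with h5 | h5
      · rw [h5]; exact ih
      · exact ih.gl h5

variable [DecidableEq T]

/-- the two sides of a free end are the sides of another end only for the partner -/
theorem SS.eq_or (g : Gd s B L G Ts M) {p q : Port T} (hp : p ∈ L) (hM : M p ≠ p) (hq : q ∈ L)
    (h : SS s B G p q) : q = p ∨ q = M p := by
  obtain ⟨k, hk, kj⟩ := g.pot p hp hM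
  by_contra hne
  rw [not_or] at hne
  have h1 : k (rc p) = k (lc p) + 1 := by rw [kj p hp]; simp [jp]
  have h2 : k (rc q) = k (lc q) := by
    rw [kj q hq]; simp [jp, hne.1, hne.2]
  have h3 : k (rc p) = k (lc p) := by
    rcases h with ⟨ha, hb⟩ | ⟨ha, hb⟩
    · rw [hk.const ha, hk.const hb, h2]
    · rw [hk.const ha, hk.const hb, h2]
  rw [h3] at h1
  have : (0 : ZMod 2) = 1 := by
    have := congrArg (fun z => z - k (lc p)) h1
    simp at this
  exact absurd this (by decide)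

/-- **two different arcs have three pairwise not connected corners at their starts** -/
theorem three (g : Gd s B L G Ts M) {p p' : Port T} (hp : p ∈ L) (hM : M p ≠ p) (hp' : p' ∈ L)
    (hM' : M p' ≠ p') (h1 : p' ≠ p) (h2 : p' ≠ M p) :
    (¬ R s B G (lc p') (rc p')) ∧ ∃ a, (a = lc p ∨ a = rc p) ∧ ¬ R s B G a (lc p') ∧
      ¬ R s B G a (rc p') := by
  have two : ∀ z : ZMod 2, z ≠ z + 1 := by decide
  constructor
  · obtain ⟨k, hk, kj⟩ := g.pot p' hp' hM'
    intro hR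
    have h3 := hk.const hR
    rw [kj p' hp'] at h3
    simp only [jp, true_or, if_true] at h3
    exact two _ h3
  · obtain ⟨k, hk, kj⟩ := g.pot p hp hM
    have h3 : k (rc p) = k (lc p) + 1 := by rw [kj p hp]; simp [jp]
    have h4 : k (rc p') = k (lc p') := by rw [kj p' hp']; simp [jp, h1, h2]
    by_cases h5 : k (lc p) = k (lc p')
    · refine ⟨rc p, Or.inr rfl, fun hR => ?_, fun hR => ?_⟩
      · have := hk.const hR
        rw [h3, ← h5] at this
        exact two _ this.symm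
      · have := hk.const hR
        rw [h3, h4, ← h5] at this
        exact two _ this.symm
    · refine ⟨lc p, Or.inl rfl, fun hR => h5 (hk.const hR), fun hR => h5 ?_⟩
      rw [hk.const hR, h4]

/-- free ports of the tiles are ends -/
theorem mem_L_of_free : ∀ {w : Wd T}, Sw300.Ok w → ∀ {t : T} {d : ZMod 4}, t ∈ Sw300.tls w →
    Sw300.be w (some (t, d)) = some (t, d) → some (t, d) ∈ Sw300.L w
  | .leg, _, t, d, ht, _ => by simp [Sw300.tls] at ht
  | .tile t', _, t, d, ht, _ => by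
    simp only [Sw300.tls, List.mem_singleton] at ht
    subst ht
    have h4 : ∀ d : ZMod 4, d = 0 ∨ d = 1 ∨ d = 2 ∨ d = 3 := by decide
    rcases h4 d with rfl | rfl | rfl | rfl <;> simp [Sw300.L]
  | .att w p t' d', h, t, d, ht, hb => by
    obtain ⟨hw, hp, ht', -⟩ := h
    have hptd : p ≠ some (t', d') := fun e => ht' (mem_L_tls hw (e ▸ hp))
    simp only [Sw300.be] at hb
    by_cases h1 : (some (t, d) : Port T) = p
    · rw [if_pos h1] at hb
      exact absurd (h1.symm.trans hb.symm) hptd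
    · rw [if_neg h1] at hb
      by_cases h2 : (some (t, d) : Port T) = some (t', d')
      · rw [if_pos h2] at hb; exact absurd hb.symm h1
      · rw [if_neg h2] at hb
        simp only [Sw300.L, List.mem_flatMap]
        by_cases h3 : t = t'
        · subst h3
          refine ⟨p, hp, ?_⟩
          rw [if_pos rfl]
          have h5 : d ≠ d' := fun e => h2 (by rw [e])
          have h6 : ∀ d d' : ZMod 4, d ≠ d' → d = d' + 1 ∨ d = d' + 2 ∨ d = d' + 3 := by decide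
          rcases h6 d d' h5 with rfl | rfl | rfl <;> simp
        · have h7 : t ∈ Sw300.tls w := by
            simp only [Sw300.tls, List.mem_cons] at ht
            exact ht.resolve_left h3
          exact ⟨some (t, d), mem_L_of_free hw h7 hb, by rw [if_neg h1]; simp⟩
  | .con w p q, h, t, d, ht, hb => by
    obtain ⟨hw, -, -, hpq, -⟩ := h
    simp only [Sw300.be] at hb
    by_cases h1 : (some (t, d) : Port T) = p
    · rw [if_pos h1] at hb; exact absurd (h1.symm.trans hb.symm) hpq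
    · rw [if_neg h1] at hb
      by_cases h2 : (some (t, d) : Port T) = q
      · rw [if_pos h2] at hb; exact absurd hb.symm h1
      · rw [if_neg h2] at hb
        simp only [Sw300.L, List.mem_filter]
        refine ⟨mem_L_of_free hw ht hb, ?_⟩
        simp only [ne_eq, decide_eq_true_eq]
        exact ⟨h1, h2⟩

end abs

/-! ### planar annuli -/

/-- neighbour tile -/
def nbt (t : ℤ × ℤ) (d : ZMod 4) : ℤ × ℤ :=
  if d = 0 then (t.1 - 1, t.2) else if d = 1 then (t.1, t.2 + 1)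
  else if d = 2 then (t.1 + 1, t.2) else (t.1, t.2 - 1)

@[simp] theorem nbt_0 (t : ℤ × ℤ) : nbt t 0 = (t.1 - 1, t.2) := rfl
@[simp] theorem nbt_1 (t : ℤ × ℤ) : nbt t 1 = (t.1, t.2 + 1) := rfl
@[simp] theorem nbt_2 (t : ℤ × ℤ) : nbt t 2 = (t.1 + 1, t.2) := rfl
@[simp] theorem nbt_3 (t : ℤ × ℤ) : nbt t 3 = (t.1, t.2 - 1) := rfl

/-- glueing of a region without slits -/
theorem gl_full {K : Reg} (hf : ∀ x y, FullAt K x y) {t : ℤ × ℤ} {d : ZMod 4}
    {q : Port (ℤ × ℤ)} : K.gl (some (t, d)) q ↔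
      (t ∈ K.P ∧ nbt t d ∈ K.P ∧ q = some (nbt t d, d + 2)) := by
  obtain ⟨x, y⟩ := t
  have a0 : (0 : ZMod 4) + 2 = 2 := by decide
  have a1 : (1 : ZMod 4) + 2 = 3 := by decide
  have a2 : (2 : ZMod 4) + 2 = 0 := by decide
  have a3 : (3 : ZMod 4) + 2 = 1 := by decide
  rcases Reg.d4 d with rfl | rfl | rfl | rfl
  · rw [Reg.gl_0, nbt_0, a0]
    constructor
    · rintro ⟨h1, h2⟩
      have := K.hP _ _ h1
      rw [sub_add_cancel] at this
      exact ⟨this.2, this.1, h2⟩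
    · rintro ⟨h1, h2, h3⟩
      refine ⟨(hf (x - 1) y).h0 h2 ?_, h3⟩
      rw [sub_add_cancel]; exact h1
  · rw [Reg.gl_1, nbt_1, a1]
    constructor
    · rintro ⟨h1, h2⟩
      have := K.vP _ _ h1
      exact ⟨this.1, this.2, h2⟩
    · rintro ⟨h1, h2, h3⟩
      exact ⟨(hf x y).v0 h1 h2, h3⟩
  · rw [Reg.gl_2, nbt_2, a2]
    constructor
    · rintro ⟨h1, h2⟩
      have := K.hP _ _ h1
      exact ⟨this.1, this.2, h2⟩
    · rintro ⟨h1, h2, h3⟩
      exact ⟨(hf x y).h0 h1 h2, h3⟩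
  · rw [Reg.gl_3, nbt_3, a3]
    constructor
    · rintro ⟨h1, h2⟩
      have := K.vP _ _ h1
      rw [sub_add_cancel] at this
      exact ⟨this.2, this.1, h2⟩
    · rintro ⟨h1, h2, h3⟩
      refine ⟨(hf x (y - 1)).v0 h2 ?_, h3⟩
      rw [sub_add_cancel]; exact h1

/-- an annulus `{r < ρ ≤ n}` of the part `H` of the plane, faces measured by `δ` -/
structure An (K : Reg) (H : ℤ × ℤ → Prop) (ρ δ : ℤ × ℤ → ℤ) (r n : ℤ) : Prop where
  full : ∀ x y, FullAt K x y
  sc : K.SC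
  conn : K.Conn
  ne : ∃ t, t ∈ K.P
  mem : ∀ t, t ∈ K.P ↔ (H t ∧ r < ρ t ∧ ρ t ≤ n)
  inn : ∀ t d, H t → H (nbt t d) → r < ρ t → ρ (nbt t d) ≤ r →
    δ (t + off d) ≤ r ∧ δ (t + off (d + 1)) ≤ r
  out : ∀ t d, H t → H (nbt t d) → ρ t ≤ n → n < ρ (nbt t d) →
    n ≤ δ (t + off d) ∧ n ≤ δ (t + off (d + 1))

variable {K : Reg} {H : ℤ × ℤ → Prop} {ρ δ : ℤ × ℤ → ℤ} {r n : ℤ}

/-- the word of the annulus -/
theorem An.word (h : An K H ρ δ r n) : ∃ w b, RW K w b := by
  obtain ⟨⟨x0, t0⟩, ht⟩ := h.ne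
  obtain ⟨a, c, -, -, hr⟩ := Reg.exists_run ht
  obtain ⟨w, l, h1, -, h3, h4, -, h6, -⟩ := Reg.ok h.sc h.conn hr
  exact ⟨w, (a, t0), ⟨h1, by rw [← bas_eq]; exact h3, h4, h6⟩⟩

/-- **local data of a system in a chart on the annulus**: `φ x` = port of the plane -/
structure Loc {X : Type*} (s : ℤ × ℤ → Bool) (al be : X → X) (A J : Set X) (φ : X → Port (ℤ × ℤ))
    (rd : X → ℤ) (H : ℤ × ℤ → Prop) (ρ : ℤ × ℤ → ℤ) (r n : ℤ) : Prop where
  som : ∀ x ∈ A, ∃ t d, φ x = some (t, d) ∧ H t ∧ r < ρ t ∧ ρ t ≤ n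
  al : ∀ x ∈ A, al x ∈ A → φ (al x) = pas s (φ x)
  be : ∀ x ∈ A, x ∉ J → be x = x ∨ ∃ t d, φ x = some (t, d) ∧ H (nbt t d) ∧
    (be x ∈ A → φ (be x) = some (nbt t d, d + 2)) ∧
    (rd (be x) ≤ r → ρ (nbt t d) ≤ r) ∧ (n < rd (be x) → n < ρ (nbt t d))

/-- the end of the word of the annulus at a crossing port -/
theorem end_of (h : An K H ρ δ r n) {w : Wd (ℤ × ℤ)} {b : ℤ × ℤ} (hw : RW K w b)
    {t : ℤ × ℤ} {d : ZMod 4} (ht : t ∈ K.P) (hn : nbt t d ∉ K.P) :
    some (t, d) ∈ Sw300.L w := by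
  refine mem_L_of_free hw.ok ((hw.tls t).2 ht) ?_
  by_contra hne
  have h1 : K.gl (some (t, d)) (Sw300.be w (some (t, d))) :=
    (hw.be _ _).2 ⟨rfl, fun e => hne e.symm⟩
  exact hn ((gl_full h.full).1 h1).2.1

/-- corner of a tile of the region -/
def InC (K : Reg) (c : Port (ℤ × ℤ)) : Prop := ∃ t k, c = some (t, k) ∧ t ∈ K.P

theorem fp_iff (h : An K H ρ δ r n) {w : Wd (ℤ × ℤ)} {b : ℤ × ℤ} (hw : RW K w b)
    {s : ℤ × ℤ → Bool} {c c' : Port (ℤ × ℤ)} (hc : InC K c) (hc' : InC K c') :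
    R s (some b) (gl w) c c' ↔ FP s (fun t => t ∈ K.P) (fa (0, 0) c) (fa (0, 0) c') := by
  obtain ⟨t, k, rfl, ht⟩ := hc
  obtain ⟨t', k', rfl, ht'⟩ := hc'
  exact R_iff_fp hw h.full ht ht'

/-- **two crossings of the annulus give the (F3) event**, general form -/
theorem two_t3 (h : An K H ρ δ r n) {X : Type*} {s : ℤ × ℤ → Bool} {al be : X → X} {O J : Set X}
    {φ : X → Port (ℤ × ℤ)} {rd : X → ℤ}
    (hl : Loc s al be (Ann O rd r (n + 1)) J φ rd H ρ r n) {p q p' q' : X}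
    (hp : InP be O J rd r (n + 1) p) (hq : OutP be O J rd r (n + 1) q)
    (hpq : Rl al be (Ann O rd r (n + 1)) (AnnJ be O J rd r (n + 1)) p q)
    (hp' : InP be O J rd r (n + 1) p') (hq' : OutP be O J rd r (n + 1) q')
    (hpq' : Rl al be (Ann O rd r (n + 1)) (AnnJ be O J rd r (n + 1)) p' q')
    (hne : φ p ≠ φ p') : s ∈ Fw814.T3 δ (fun t => t ∈ K.P) r n := by
  obtain ⟨w, b, hw⟩ := h.word
  have g := hw.gd s
  have hbs : bs w ≠ none := by rw [hw.bas]; simp
  -- crossing ports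
  have inn : ∀ x, InP be O J rd r (n + 1) x → ∃ t d, φ x = some (t, d) ∧ t ∈ K.P ∧
      ρ (nbt t d) ≤ r ∧ δ (t + off d) ≤ r ∧ δ (t + off (d + 1)) ≤ r := by
    intro x hx
    obtain ⟨t, d, h1, h2, h3, h4⟩ := hl.som x hx.1
    rcases hl.be x hx.1 hx.2.1 with h5 | ⟨t', d', h5, h6, -, h8, -⟩
    · have := hx.2.2
      rw [h5] at this
      have := hx.1.2.1
      omega
    · rw [h1] at h5
      obtain ⟨rfl, rfl⟩ := pt_inj.1 h5
      have h9 := h8 hx.2.2
      exact ⟨t, d, h1, (h.mem t).2 ⟨h2, h3, h4⟩, h9, h.inn t d h2 h6 h3 h9⟩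
  have out : ∀ x, OutP be O J rd r (n + 1) x → ∃ t d, φ x = some (t, d) ∧ t ∈ K.P ∧
      n < ρ (nbt t d) ∧ n ≤ δ (t + off d) ∧ n ≤ δ (t + off (d + 1)) := by
    intro x hx
    obtain ⟨t, d, h1, h2, h3, h4⟩ := hl.som x hx.1
    have hx2 : n < rd (be x) := by have := hx.2.2; omega
    rcases hl.be x hx.1 hx.2.1 with h5 | ⟨t', d', h5, h6, -, -, h8⟩
    · rw [h5] at hx2
      have := hx.1.2.2
      omega
    · rw [h1] at h5
      obtain ⟨rfl, rfl⟩ := pt_inj.1 h5
      have h9 := h8 hx2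
      exact ⟨t, d, h1, (h.mem t).2 ⟨h2, h3, h4⟩, h9, h.out t d h2 h6 h4 h9⟩
  -- walks keep the sides
  have hss : ∀ x y, Rl al be (Ann O rd r (n + 1)) (AnnJ be O J rd r (n + 1)) x y →
      SS s (some b) (gl w) (φ x) (φ y) := by
    intro x y hxy
    refine rl_sides hl.al (fun z hz hzJ hbz => ?_) hxy
    have hzJ' : z ∉ J := fun h1 => hzJ (Or.inl h1)
    rcases hl.be z hz hzJ' with h1 | ⟨t, d, h1, -, h3, -, -⟩
    · exact Or.inl h1
    · right
      obtain ⟨t1, d1, h4, h5, h6, h7⟩ := hl.som z hz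
      obtain ⟨t2, d2, h8, h9, h10, h11⟩ := hl.som _ hbz
      rw [h1] at h4
      obtain ⟨rfl, rfl⟩ := pt_inj.1 h4
      rw [h3 hbz] at h8
      obtain ⟨rfl, -⟩ := pt_inj.1 h8
      rw [h1, h3 hbz]
      exact hw.gp.2 ((gl_full h.full).2 ⟨(h.mem _).2 ⟨h5, h6, h7⟩, (h.mem _).2 ⟨h9, h10, h11⟩, rfl⟩)
  obtain ⟨tp, dp, ep, kp, np, ip, ip'⟩ := inn p hp
  obtain ⟨tq, dq, eq, kq, nq, oq, oq'⟩ := out q hq
  obtain ⟨tp2, dp2, ep2, kp2, np2, ip2, ip2'⟩ := inn p' hp'
  obtain ⟨tq2, dq2, eq2, kq2, nq2, oq2, oq2'⟩ := out q' hq'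
  have nK : ∀ t, ρ t ≤ r ∨ n < ρ t → t ∉ K.P := by
    intro t ht hK
    have := (h.mem t).1 hK
    omega
  have Lp : (some (tp, dp) : Port (ℤ × ℤ)) ∈ Sw300.L w := end_of h hw kp (nK _ (Or.inl np))
  have Lq : (some (tq, dq) : Port (ℤ × ℤ)) ∈ Sw300.L w := end_of h hw kq (nK _ (Or.inr nq))
  have Lp2 : (some (tp2, dp2) : Port (ℤ × ℤ)) ∈ Sw300.L w := end_of h hw kp2 (nK _ (Or.inl np2))
  have Lq2 : (some (tq2, dq2) : Port (ℤ × ℤ)) ∈ Sw300.L w := end_of h hw kq2 (nK _ (Or.inr nq2))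
  have Mne : ∀ t d, (some (t, d) : Port (ℤ × ℤ)) ∈ Sw300.L w →
      Sw300.M s w (some (t, d)) ≠ some (t, d) := by
    intro t d hL hM
    have := M_fix s hw.ok hbs hL hM
    cases this
  have rn : r ≤ n := by
    have := (h.mem tp).1 kp
    omega
  have hMp : Sw300.M s w (some (tp, dp)) = some (tq, dq) := by
    have h1 := hss _ _ hpq
    rw [ep, eq] at h1
    rcases h1.eq_or g Lp (Mne _ _ Lp) Lq with h2 | h2
    · obtain ⟨rfl, rfl⟩ := pt_inj.1 h2
      omega
    · exact h2.symm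
  have hMp2 : Sw300.M s w (some (tp2, dp2)) = some (tq2, dq2) := by
    have h1 := hss _ _ hpq'
    rw [ep2, eq2] at h1
    rcases h1.eq_or g Lp2 (Mne _ _ Lp2) Lq2 with h2 | h2
    · obtain ⟨rfl, rfl⟩ := pt_inj.1 h2
      omega
    · exact h2.symm
  have hne1 : (some (tp2, dp2) : Port (ℤ × ℤ)) ≠ some (tp, dp) := by
    rw [← ep, ← ep2]; exact hne.symm
  have hne2 : (some (tp2, dp2) : Port (ℤ × ℤ)) ≠ Sw300.M s w (some (tp, dp)) := by
    rw [hMp]
    intro h2
    obtain ⟨rfl, rfl⟩ := pt_inj.1 h2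
    omega
  obtain ⟨n3, a, ha, n1, n2⟩ := three g Lp (Mne _ _ Lp) Lp2 (Mne _ _ Lp2) hne1 hne2
  -- connections to the outer side
  have c1 : R s (some b) (gl w) (rc (some (tp, dp))) (lc (some (tq, dq))) := by
    have := g.side _ Lp
    rwa [hMp] at this
  have c2 : R s (some b) (gl w) (lc (some (tp, dp))) (rc (some (tq, dq))) := by
    have := g.side _ Lq
    rw [← hMp, g.inv _ Lp, hMp] at this
    exact this.symm
  have c3 : R s (some b) (gl w) (rc (some (tp2, dp2))) (lc (some (tq2, dq2))) := by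
    have := g.side _ Lp2
    rwa [hMp2] at this
  have c4 : R s (some b) (gl w) (lc (some (tp2, dp2))) (rc (some (tq2, dq2))) := by
    have := g.side _ Lq2
    rw [← hMp2, g.inv _ Lp2, hMp2] at this
    exact this.symm
  -- inner corners
  let Cr : Port (ℤ × ℤ) → Prop := fun c => InC K c ∧ δ (fa (0, 0) c) ≤ r ∧
    ∃ o, InC K o ∧ n ≤ δ (fa (0, 0) o) ∧ R s (some b) (gl w) c o
  have ka : Cr a := by
    rcases ha with rfl | rfl
    · exact ⟨⟨_, _, rfl, kp⟩, ip, _, ⟨_, _, rfl, kq⟩, oq', c2⟩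
    · exact ⟨⟨_, _, rfl, kp⟩, ip', _, ⟨_, _, rfl, kq⟩, oq, c1⟩
  have kl : Cr (lc (some (tp2, dp2))) := ⟨⟨_, _, rfl, kp2⟩, ip2, _, ⟨_, _, rfl, kq2⟩, oq2', c4⟩
  have kr : Cr (rc (some (tp2, dp2))) := ⟨⟨_, _, rfl, kp2⟩, ip2', _, ⟨_, _, rfl, kq2⟩, oq2, c3⟩
  have fin : ∀ c c', Cr c → Cr c' → ¬ R s (some b) (gl w) c c' →
      ((fa (0, 0) c).1 + (fa (0, 0) c).2) % 2 = ((fa (0, 0) c').1 + (fa (0, 0) c').2) % 2 →
      s ∈ Fw814.T3 δ (fun t => t ∈ K.P) r n := by
    rintro c c' ⟨k1, k2, o, k3, k4, k5⟩ ⟨l1, l2, o', l3, l4, l5⟩ hcc hpar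
    exact ⟨_, _, _, _, k2, l2, k4, l4, hpar, (fp_iff h hw k1 k3).1 k5, (fp_iff h hw l1 l3).1 l5,
      fun hf => hcc ((fp_iff h hw k1 l1).2 hf)⟩
  have m2 : ∀ x y z : ℤ, x % 2 = y % 2 ∨ x % 2 = z % 2 ∨ y % 2 = z % 2 := by intro x y z; omega
  rcases m2 ((fa (0, 0) a).1 + (fa (0, 0) a).2)
    ((fa (0, 0) (lc (some (tp2, dp2)))).1 + (fa (0, 0) (lc (some (tp2, dp2)))).2)
    ((fa (0, 0) (rc (some (tp2, dp2)))).1 + (fa (0, 0) (rc (some (tp2, dp2)))).2) with m | m | m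
  · exact fin _ _ ka kl n1 m
  · exact fin _ _ ka kr n2 m
  · exact fin _ _ kl kr n3 m

end Crest.Agent.R158.Pj679
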