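import Crest.Agent.R158.Pj1_679
import Crest.Agent.R158.Xr8_249

/-!
# R158 (helper679): two crossing strands of a half annulus give the (F3) event, part 2

The four walls: `Dr.S` (floor), `Dr.N` (ceiling), `Dr.W` (left wall), `Dr.E` (right wall).
* `Dr.H`, `Dr.rho`, `Dr.dd`, `Dr.ss` : half plane, radius of a tile, distance of a face (helper814),
  half annulus (helper814)
* `Dr.an` : the half annulus is an annulus in the sense of `Pj1_679`
-/

set_option autoImplicit false

namespace Crest.Agent.R158.Pj679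

open Crest.Agent.R158.Sw300 (Port Wd thru)
open Crest.Agent.R158.Gc748 (off off_0 off_1 off_2 off_3 FullAt RW)
open Crest.Agent.R158.Xr249 (Reg full full_h full_v full_P CPath full_SC full_Conn)
open Crest.Agent.R158.Fw814 (dS dN dW dE sS sN sW sE)

/-- directions of a flat wall -/
inductive Dr | S | N | W | E

namespace Dr

/-- the half plane -/
def H : Dr → ℤ → ℤ → ℤ × ℤ → Prop
  | S, _, Y, t => Y < t.2
  | N, _, Y, t => t.2 ≤ Y
  | W, X, _, t => X < t.1
  | E, X, _, t => t.1 ≤ X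

/-- radius of a tile -/
def rho : Dr → ℤ → ℤ → ℤ × ℤ → ℤ
  | S, X, Y, t => max (t.2 - Y) (max (X - t.1 + 1) (t.1 - X))
  | N, X, Y, t => max (Y - t.2 + 1) (max (X - t.1 + 1) (t.1 - X))
  | W, X, Y, t => max (t.1 - X) (max (Y - t.2 + 1) (t.2 - Y))
  | E, X, Y, t => max (X - t.1 + 1) (max (Y - t.2 + 1) (t.2 - Y))

/-- distance of a face to the gap `(X, Y)` -/
def dd : Dr → ℤ → ℤ → ℤ × ℤ → ℤ
  | S => dS
  | N => dN
  | W => dW
  | E => dE

/-- tiles of the half annulus -/
def ss : Dr → ℤ → ℤ → ℤ → ℤ → ℤ × ℤ → Prop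
  | S => sS
  | N => sN
  | W => sW
  | E => sE

theorem ss_iff (D : Dr) (X Y r n : ℤ) (t : ℤ × ℤ) :
    D.ss X Y r n t ↔ D.H X Y t ∧ r < D.rho X Y t ∧ D.rho X Y t ≤ n := by
  cases D <;> simp only [ss, H, rho, sS, sN, sW, sE, lt_max_iff, max_le_iff] <;> omega

open Classical in
/-- the tiles of the half annulus as a finite set -/
noncomputable def A (D : Dr) (X Y r n : ℤ) : Finset (ℤ × ℤ) :=
  (Finset.Ioc (X - n) (X + n) ×ˢ Finset.Ioc (Y - n) (Y + n)).filter (D.ss X Y r n)

theorem mem_A {D : Dr} {X Y r n : ℤ} {t : ℤ × ℤ} (_hr : 0 ≤ r) : t ∈ D.A X Y r n ↔ D.ss X Y r n t := by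
  simp only [A, Finset.mem_filter, Finset.mem_product, Finset.mem_Ioc]
  refine ⟨fun h => h.2, fun h => ⟨?_, h⟩⟩
  rw [ss_iff] at h
  cases D <;> simp only [H, rho, lt_max_iff, max_le_iff] at h <;> omega

theorem A_full {D : Dr} {X Y r n : ℤ} (hr : 0 ≤ r) (x y : ℤ) : FullAt (full (D.A X Y r n)) x y := by
  refine ⟨fun h h' => ⟨h, h'⟩, fun h h' => ⟨h, h'⟩, fun h h' => ⟨h, h'⟩, fun h h' => ⟨h, h'⟩, ?_, ?_⟩
  · intro h h'
    simp only [full_P, mem_A hr] at h h' ⊢
    cases D <;> simp only [ss, sS, sN, sW, sE] at h h' ⊢ <;> omega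
  · intro h h'
    simp only [full_P, mem_A hr] at h h' ⊢
    cases D <;> simp only [ss, sS, sN, sW, sE] at h h' ⊢ <;> omega

theorem A_SC {D : Dr} {X Y r n : ℤ} (hr : 0 ≤ r) : (full (D.A X Y r n)).SC := by
  refine full_SC ?_
  rintro ⟨x, y⟩ hc
  have hX : ∀ {a b : ℤ}, ¬ D.ss X Y r n (a, b) → (a, b) ∈ {t : ℤ × ℤ | t ∉ D.A X Y r n} :=
    fun h h' => h ((mem_A hr).1 h')
  rw [mem_A hr] at hc
  have top : ∀ t ∈ D.A X Y r n, ∀ d : ℤ, Y + n ≤ d → t.2 ≤ d := by
    rintro ⟨a, b⟩ ht d hd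
    have := (mem_A hr).1 ht
    cases D <;> simp only [ss, sS, sN, sW, sE] at this ⊢ <;> omega
  -- go up in a column without tiles above
  have goup : ∀ z v : ℤ, (∀ u, v ≤ u → ¬ D.ss X Y r n (z, u)) →
      ∃ d, CPath {t | t ∉ D.A X Y r n} (z, v) d ∧ ∀ t ∈ D.A X Y r n, t.2 ≤ d.2 := by
    intro z v hz
    exact ⟨(z, max v (Y + n)), CPath.ver (le_max_left _ _) fun u h1 h2 => hX (hz u h1),
      fun t ht => top t ht _ (le_max_right _ _)⟩
  have right : ∀ x' : ℤ, x ≤ x' → (∀ u, x ≤ u → u ≤ x' → ¬ D.ss X Y r n (u, y)) →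
      (∀ u, y ≤ u → ¬ D.ss X Y r n (x', u)) →
      ∃ d, CPath {t | t ∉ D.A X Y r n} (x, y) d ∧ ∀ t ∈ D.A X Y r n, t.2 ≤ d.2 := by
    intro x' h1 h2 h3
    obtain ⟨d, hd, hd2⟩ := goup x' y h3
    exact ⟨d, (CPath.hor h1 fun u h4 h5 => hX (h2 u h4 h5)).trans hd, hd2⟩
  have left : ∀ x' : ℤ, x' ≤ x → (∀ u, x' ≤ u → u ≤ x → ¬ D.ss X Y r n (u, y)) →
      (∀ u, y ≤ u → ¬ D.ss X Y r n (x', u)) →
      ∃ d, CPath {t | t ∉ D.A X Y r n} (x, y) d ∧ ∀ t ∈ D.A X Y r n, t.2 ≤ d.2 := by
    intro x' h1 h2 h3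
    obtain ⟨d, hd, hd2⟩ := goup x' y h3
    exact ⟨d, (CPath.hor h1 fun u h4 h5 => hX (h2 u h4 h5)).symm.trans hd, hd2⟩
  cases D with
  | E =>
    simp only [ss, sE] at hc
    by_cases h1 : x ≤ X - n ∨ X < x ∨ Y + n < y
    · exact goup x y fun u hu => by simp only [ss, sE]; omega
    · refine right (X + 1) (by omega) (fun u h2 h3 => ?_) fun u h2 => ?_
      · simp only [ss, sE]; omega
      · simp only [ss, sE]; omega
  | W =>
    simp only [ss, sW] at hc
    by_cases h1 : x ≤ X ∨ X + n < x ∨ Y + n < y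
    · exact goup x y fun u hu => by simp only [ss, sW]; omega
    · refine left X (by omega) (fun u h2 h3 => ?_) fun u h2 => ?_
      · simp only [ss, sW]; omega
      · simp only [ss, sW]; omega
  | N =>
    simp only [ss, sN] at hc
    by_cases h1 : y ≤ Y - n
    · by_cases h2 : X + n < x
      · exact goup x y fun u hu => by simp only [ss, sN]; omega
      · refine right (X + n + 1) (by omega) (fun u h2 h3 => ?_) fun u h2 => ?_
        · simp only [ss, sN]; omega
        · simp only [ss, sN]; omega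
    · exact goup x y fun u hu => by simp only [ss, sN]; omega
  | S =>
    simp only [ss, sS] at hc
    by_cases h1 : x ≤ X - n ∨ X + n < x ∨ Y + n < y
    · exact goup x y fun u hu => by simp only [ss, sS]; omega
    · by_cases h2 : y ≤ Y
      · refine right (X + n + 1) (by omega) (fun u h2 h3 => ?_) fun u h2 => ?_
        · simp only [ss, sS]; omega
        · simp only [ss, sS]; omega
      · -- in the hole: go down
        obtain ⟨d, hd, hd2⟩ := goup (X + n + 1) Y fun u hu => by simp only [ss, sS]; omega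
        refine ⟨d, ?_, hd2⟩
        refine (CPath.ver (X := {t | t ∉ Dr.S.A X Y r n}) (x := x) (y1 := Y) (y2 := y) (by omega)
          fun u h3 h4 => hX ?_).symm.trans ((CPath.hor (x1 := x) (x2 := X + n + 1) (by omega)
            fun u h3 h4 => hX ?_).trans hd)
        · simp only [ss, sS]; omega
        · simp only [ss, sS]; omega

theorem A_Conn {D : Dr} {X Y r n : ℤ} (hr : 0 ≤ r) (hrn : r < n) : (full (D.A X Y r n)).Conn := by
  refine full_Conn ?_
  have hX : ∀ {a b : ℤ}, D.ss X Y r n (a, b) → (a, b) ∈ {t : ℤ × ℤ | t ∈ D.A X Y r n} :=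
    fun h => (mem_A hr).2 h
  have key : ∃ o : ℤ × ℤ, ∀ a ∈ D.A X Y r n, CPath {t | t ∈ D.A X Y r n} a o := by
    cases D with
    | E =>
      refine ⟨(X - n + 1, Y), ?_⟩
      rintro ⟨x, y⟩ ha
      rw [mem_A hr] at ha
      simp only [ss, sE] at ha
      refine (CPath.hor (x1 := X - n + 1) (x2 := x) (by omega) fun u h1 h2 => hX ?_).symm.trans ?_
      · simp only [ss, sE]; omega
      · rcases le_total y Y with h3 | h3
        · exact CPath.ver h3 fun u h1 h2 => hX (by simp only [ss, sE]; omega)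
        · exact (CPath.ver h3 fun u h1 h2 => hX (by simp only [ss, sE]; omega)).symm
    | W =>
      refine ⟨(X + n, Y), ?_⟩
      rintro ⟨x, y⟩ ha
      rw [mem_A hr] at ha
      simp only [ss, sW] at ha
      refine (CPath.hor (x1 := x) (x2 := X + n) (by omega) fun u h1 h2 => hX ?_).trans ?_
      · simp only [ss, sW]; omega
      · rcases le_total y Y with h3 | h3
        · exact CPath.ver h3 fun u h1 h2 => hX (by simp only [ss, sW]; omega)
        · exact (CPath.ver h3 fun u h1 h2 => hX (by simp only [ss, sW]; omega)).symm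
    | N =>
      refine ⟨(X, Y - n + 1), ?_⟩
      rintro ⟨x, y⟩ ha
      rw [mem_A hr] at ha
      simp only [ss, sN] at ha
      refine (CPath.ver (y1 := Y - n + 1) (y2 := y) (by omega) fun u h1 h2 => hX ?_).symm.trans ?_
      · simp only [ss, sN]; omega
      · rcases le_total x X with h3 | h3
        · exact CPath.hor h3 fun u h1 h2 => hX (by simp only [ss, sN]; omega)
        · exact (CPath.hor h3 fun u h1 h2 => hX (by simp only [ss, sN]; omega)).symm
    | S =>
      refine ⟨(X, Y + n), ?_⟩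
      rintro ⟨x, y⟩ ha
      rw [mem_A hr] at ha
      simp only [ss, sS] at ha
      refine (CPath.ver (y1 := y) (y2 := Y + n) (by omega) fun u h1 h2 => hX ?_).trans ?_
      · simp only [ss, sS]; omega
      · rcases le_total x X with h3 | h3
        · exact CPath.hor h3 fun u h1 h2 => hX (by simp only [ss, sS]; omega)
        · exact (CPath.hor h3 fun u h1 h2 => hX (by simp only [ss, sS]; omega)).symm
  obtain ⟨o, ho⟩ := key
  exact fun a ha b hb => (ho a ha).trans (ho b hb).symm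

/-- **the four half annuli** -/
theorem an (D : Dr) {X Y r n : ℤ} (hr : 0 ≤ r) (hrn : r < n) :
    An (full (D.A X Y r n)) (D.H X Y) (D.rho X Y) (D.dd X Y) r n where
  full := A_full hr
  sc := A_SC hr
  conn := A_Conn hr hrn
  ne := by
    simp only [full_P, mem_A hr]
    cases D
    · exact ⟨(X, Y + n), by simp only [ss, sS]; omega⟩
    · exact ⟨(X, Y - n + 1), by simp only [ss, sN]; omega⟩
    · exact ⟨(X + n, Y), by simp only [ss, sW]; omega⟩
    · exact ⟨(X - n + 1, Y), by simp only [ss, sE]; omega⟩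
  mem := fun t => by rw [full_P, mem_A hr, ss_iff]
  inn := by
    rintro ⟨x, y⟩ d h1 h2 h3 h4
    have a1 : (0 : ZMod 4) + 1 = 1 := by decide
    have a2 : (1 : ZMod 4) + 1 = 2 := by decide
    have a3 : (2 : ZMod 4) + 1 = 3 := by decide
    have a4 : (3 : ZMod 4) + 1 = 0 := by decide
    rcases Reg.d4 d with rfl | rfl | rfl | rfl <;> cases D <;>
      simp only [H, rho, nbt_0, nbt_1, nbt_2, nbt_3, lt_max_iff, max_le_iff] at h1 h2 h3 h4 <;>
      simp only [dd, dS, dN, dW, dE, a1, a2, a3, a4, off_0, off_1, off_2, off_3, Prod.mk_add_mk,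
        max_le_iff, abs_le] <;> omega
  out := by
    rintro ⟨x, y⟩ d h1 h2 h3 h4
    have a1 : (0 : ZMod 4) + 1 = 1 := by decide
    have a2 : (1 : ZMod 4) + 1 = 2 := by decide
    have a3 : (2 : ZMod 4) + 1 = 3 := by decide
    have a4 : (3 : ZMod 4) + 1 = 0 := by decide
    rcases Reg.d4 d with rfl | rfl | rfl | rfl <;> cases D <;>
      simp only [H, rho, nbt_0, nbt_1, nbt_2, nbt_3, lt_max_iff, max_le_iff] at h1 h2 h3 h4 <;>
      simp only [dd, dS, dN, dW, dE, a1, a2, a3, a4, off_0, off_1, off_2, off_3, Prod.mk_add_mk,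
        le_max_iff, le_abs] <;> omega

end Dr

end Crest.Agent.R158.Pj679
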