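import Crest.Agent.R158.Pt10_266
import Crest.Agent.R158.Nz6_399

/-!
# R158, patches (helper266), file Pt11: marks and ends in a chart

* **`sv_mk`** : a strand counted by `Kn .mk`
* **`sv_e2`** : the strand of `fe g p 0` if the standard picture is not in `E2 n`
* **`sv_e1`** : a strand over the end `0` if the standard picture is not in `G1 n`
-/

set_option autoImplicit false
set_option linter.unusedVariables false
set_option linter.unusedSectionVars false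
set_option linter.unusedSimpArgs false

noncomputable section

namespace Crest.Agent.R158.Pt266

open Crest.Agent.R158.Sw300 (Port thru tn)
open Crest.Agent.R158.Xr249 (full CPath)
open Crest.Agent.R158.Nm211 (St Dir mv dx dy trn nx6 rd opp Hit KK Far)
open Crest.Agent.R158.Ka470 (Patt View Free en ex sg B1 B3 Bv Cuts)
open Crest.Agent.R158.Ad350 (tnet tql seam)
open Crest.Agent.R158.Nz399 (Kind Tk Dk Yk Xk qd rt rs pl ps od fe we patK rq mem_Tk Kn Kp G1)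

variable {T : Type*} {G : T × ZMod 4 → T × ZMod 4 → Prop} {C : Ka470.Ch T G} {s : T → Bool}
variable {p : ℤ × ℤ} {g N n : ℕ}

/-- a floor strand of the box of a mark -/
theorem ff_wk (hF : ∀ v, C.F v = false) (hP : Patt C.R (Bv N p) p (patK .mk g)) (hN : n + 1 ≤ N)
    {a : ℤ} (ha : -(n : ℤ) ≤ a ∧ a < n) {m : ℕ}
    (h1 : ∀ j ≤ m, ((nx6 (stdf C s g p))^[j] ((a, 0), 0)).1 ∈ Tk .mk n)
    (h2 : ((nx6 (stdf C s g p))^[m + 1] ((a, 0), 0)).1.2 < 0) :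
    ∃ (a' : ℤ) (l : List ((ℤ × ℤ) × ZMod 4)), (-(n : ℤ) ≤ a' ∧ a' < n) ∧
      ((nx6 (stdf C s g p))^[m + 1] ((a, 0), 0)).1 = (a', -1) ∧
      (quadV N p (patK .mk g)).Real (fe g p a) ∧ (quadV N p (patK .mk g)).Real (fe g p a') ∧
      Wk (s ∘ C.emb) (RG (full (quadV N p (patK .mk g)).A)) (fe g p a) (fe g p a') l := by
  have h3 := mem_Tk.1 (h1 m le_rfl)
  have h3q : 0 ≤ ((nx6 (stdf C s g p))^[m] ((a, 0), 0)).1.2 := h3.2
  have h4 := step4i (stdf C s g p) m ((a, 0), 0)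
  obtain ⟨hd, hy, hx⟩ : ((nx6 (stdf C s g p))^[m + 1] ((a, 0), 0)).2 = 2 ∧
      ((nx6 (stdf C s g p))^[m] ((a, 0), 0)).1.2 = 0 ∧
      ((nx6 (stdf C s g p))^[m + 1] ((a, 0), 0)).1.1 =
        ((nx6 (stdf C s g p))^[m] ((a, 0), 0)).1.1 := by
    rcases h4 with ⟨e0, e1, e2⟩ | ⟨e0, e1, e2⟩ | ⟨e0, e1, e2⟩ | ⟨e0, e1, e2⟩
    · omega
    · omega
    · exact ⟨e0, by omega, e1⟩
    · omega
  set a' : ℤ := ((nx6 (stdf C s g p))^[m] ((a, 0), 0)).1.1 with ha'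
  have hpos : ((nx6 (stdf C s g p))^[m] ((a, 0), 0)).1 = (a', 0) := Prod.ext rfl hy
  have hpos' : ((nx6 (stdf C s g p))^[m + 1] ((a, 0), 0)).1 = (a', -1) := by
    refine Prod.ext hx ?_
    rcases h4 with ⟨e0, e1, e2⟩ | ⟨e0, e1, e2⟩ | ⟨e0, e1, e2⟩ | ⟨e0, e1, e2⟩ <;> simp only <;> omega
  have hop : op C s ((C.f s)^[m] (ps g p ((a, 0), 0))) = fe g p a' := by
    rw [op_iter, hpos, hd]
    rfl
  obtain ⟨h5, h6⟩ := box_strand hF hP hN h1 (fun hq => by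
    have hq' : 0 ≤ ((nx6 (stdf C s g p))^[m + 1] ((a, 0), 0)).1.2 := hq
    omega)
  rw [hop] at h5 h6
  rw [ip_floor] at h6
  have hX : (quadV N p (patK .mk g)).Real (fe g p a) :=
    real_fe_std hP (by omega) (by omega) (by omega) (show (0 : ℤ) ≤ 0 from le_rfl)
      (fun hq => by
        have hq' : (0 : ℤ) ≤ -1 := hq
        omega)
  exact ⟨a', _, ⟨h3.1.1.1, h3.1.1.2⟩, hpos', hX, h5, h6⟩

variable {be : Port T → Port T} {ch : Port T → ℝ} {b : (ℤ × ℤ) × ZMod 4 → Bool}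
  {cc : (ℤ × ℤ) × ZMod 4 → ℤ}

theorem ff_sv {k : Kind} (h : BoxP C be ch N p (patK k g) b cc) {a a' : ℤ}
    (hX : (quadV N p (patK k g)).Real (fe g p a)) (hY : (quadV N p (patK k g)).Real (fe g p a'))
    {l : List ((ℤ × ℤ) × ZMod 4)}
    (hw : Wk (s ∘ C.emb) (RG (full (quadV N p (patK k g)).A)) (fe g p a) (fe g p a') l) :
    (a' < a ∧ SV G be ch s (mp C.emb (fe g p a)) (mp C.emb (fe g p a'))
        (val (b (fe g p a)) 0 (cc (fe g p a) - cc (fe g p a'))) ∨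
      a < a' ∧ SV G be ch s (mp C.emb (fe g p a)) (mp C.emb (fe g p a'))
        (val (b (fe g p a)) 0 (cc (fe g p a') - cc (fe g p a)))) := by
  have hne : a ≠ a' := by
    rintro e
    have := wk_ne (quadV N p (patK k g)).hole hX.ffree hY.ffree hw
    exact this (by rw [← e])
  obtain ⟨D, ⟨h7, h8, h9⟩ | ⟨h7, h8, h9⟩⟩ := h.sv hX hY hw
  · obtain ⟨rfl, h10⟩ := typ_ff h7
    exact Or.inl ⟨lt_of_le_of_ne h10 hne.symm, h9⟩
  · obtain ⟨rfl, h10⟩ := typ_ff h7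
    exact Or.inr ⟨lt_of_le_of_ne h10 hne, h9⟩

/-- **(E1), marks** -/
theorem sv_mk (h : BoxP C be ch N p (patK .mk g) b cc) (hN : n + 1 ≤ N) {c0 : St ℤ}
    (hc : c0 ∈ Xk .mk n) (hit : Hit (nx6 (stdf C s g p)) (Dk .mk n) (Yk .mk) c0) :
    ∃ a a' : ℤ, c0 = ((a, 0), 0) ∧ (0 ≤ a ∧ a < n) ∧ (-(n : ℤ) ≤ a' ∧ a' < 0) ∧
      (quadV N p (patK .mk g)).Real (fe g p a) ∧ (quadV N p (patK .mk g)).Real (fe g p a') ∧
      SV G be ch s (mp C.emb (fe g p a)) (mp C.emb (fe g p a'))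
        (val (b (fe g p a)) 0 (cc (fe g p a) - cc (fe g p a'))) := by
  obtain ⟨a, ha, rfl⟩ := Finset.mem_image.1 hc
  rw [Finset.mem_Ico] at ha
  obtain ⟨M, h1, h2⟩ := hit
  obtain ⟨m, rfl⟩ : ∃ m, M = m + 1 := by
    refine ⟨M - 1, ?_⟩
    rcases Nat.eq_zero_or_pos M with h0 | h0
    · subst h0
      exact absurd (show a < 0 from h2.1) (by omega)
    · omega
  have h2' : ((nx6 (stdf C s g p))^[m + 1] ((a, 0), 0)).1.1 < 0 ∧
    ((nx6 (stdf C s g p))^[m + 1] ((a, 0), 0)).1.2 < 0 := h2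
  obtain ⟨a', l, h3, h4, h5, h6, h7⟩ := ff_wk h.F h.patt hN (a := a) (by omega) (m := m)
    (fun j hj => h1 j (by omega)) h2'.2
  have h8 : a' < 0 := by
    have := h2'.1
    rw [h4] at this
    exact this
  rcases ff_sv h h5 h6 h7 with ⟨h7, h9⟩ | ⟨h7, h9⟩
  · exact ⟨a, a', rfl, ha, ⟨h3.1, h8⟩, h5, h6, h9⟩
  · omega

/-- **(E1), ends** : the strand of the end `0` does not go far -/
theorem sv_e2 (h : BoxP C be ch N p (patK .mk g) b cc) (hn : 1 ≤ n) (hN : n + 1 ≤ N)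
    (hE : stdf C s g p ∉ Tw440.E2 n) :
    ∃ a' : ℤ, (-(n : ℤ) ≤ a' ∧ a' < n) ∧
      (quadV N p (patK .mk g)).Real (fe g p 0) ∧ (quadV N p (patK .mk g)).Real (fe g p a') ∧
      (a' < 0 ∧ SV G be ch s (mp C.emb (fe g p 0)) (mp C.emb (fe g p a'))
          (val (b (fe g p 0)) 0 (cc (fe g p 0) - cc (fe g p a'))) ∨
        0 < a' ∧ SV G be ch s (mp C.emb (fe g p 0)) (mp C.emb (fe g p a'))
          (val (b (fe g p 0)) 0 (cc (fe g p a') - cc (fe g p 0)))) := by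
  have hW : stdf C s g p ∉ Tw440.Wk2 n := fun h => hE (Tw440.wk2_sub hn h)
  set it : ℕ → St ℤ := fun j => (nx6 (stdf C s g p))^[j] ((0, 0), 0) with hit
  have hsm : ∀ k, (∀ j < k, 0 ≤ (it j).1.2) →
      (-(n : ℤ) < (it k).1.1 ∧ (it k).1.1 < n) ∧ -(n : ℤ) < (it k).1.2 ∧ (it k).1.2 < n := by
    intro k hk
    by_contra hcon
    apply hW
    refine ⟨k, hk, ?_⟩
    show (n : ℤ) ≤ |(it k).1.1 - 0| ∨ (n : ℤ) ≤ |(it k).1.2 - 0|
    rw [sub_zero, sub_zero, le_abs, le_abs]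
    omega
  have hX : (quadV N p (patK .mk g)).Real (fe g p 0) :=
    real_fe_std h.patt (by omega) (by omega) (by omega) (show (0 : ℤ) ≤ 0 from le_rfl)
      (fun hq => by
        have hq' : (0 : ℤ) ≤ -1 := hq
        omega)
  obtain ⟨Y, L, w, hY, hne⟩ := full_end (quadV N p (patK .mk g)).hole (s ∘ C.emb) hX.ffree
  rw [← ip_floor] at w
  obtain ⟨m, hm, rfl, rfl⟩ := wk_iter h.F (by
    rw [ps_fst]
    exact (mem_quadV h.patt (v := (0, 0)) (by simp only; omega)).2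
      (show (0 : ℤ) ≤ 0 from le_rfl)) w
  have hpos : ∀ j, ((C.f s)^[j] (ps g p ((0, 0), 0))).1 = pl g p (it j).1 :=
    fun j => iter_fst g p _ j
  have key : ∀ j ≤ m, 0 ≤ (it j).1.2 := by
    intro j
    induction j using Nat.strong_induction_on with
    | _ j ih =>
      intro hj
      have h3 := hsm j (fun i hi => ih i hi (by omega))
      have h4 := hm j hj
      rw [hpos] at h4
      have h5 : qd .mk (it j).1 := (mem_quadV h.patt (by omega)).1 h4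
      exact h5
  have hT : ∀ j ≤ m, (it j).1 ∈ Tk .mk n := by
    intro j hj
    have h3 := hsm j (fun i hi => key i (by omega))
    exact mem_Tk.2 ⟨by omega, key j hj⟩
  have h2 : (it (m + 1)).1.2 < 0 := by
    by_contra hcon
    have h3 := hsm (m + 1) (fun i hi => key i (by omega))
    apply hY.2
    rw [← next_pos, hpos]
    exact (mem_quadV h.patt (by omega)).2 (show (0 : ℤ) ≤ _ from by omega)
  obtain ⟨a', l, h3, h4, h5, h6, h7⟩ := ff_wk h.F h.patt hN (a := 0) (by omega) (m := m) hT h2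
  exact ⟨a', h3, h5, h6, ff_sv h h5 h6 h7⟩

lemma kn_ex {k : Kind} {s' : ℤ × ℤ → Bool} (h : Kn k n s' ≠ 0) :
    ∃ c0 ∈ Xk k n, Hit (nx6 s') (Dk k n) (Yk k) c0 := by
  unfold Nz399.Kn Nm211.KK at h
  obtain ⟨c, hc⟩ := Finset.card_ne_zero.1 h
  exact ⟨c, (@Finset.mem_filter _ _ (fun x => Classical.propDecidable _) _ _).1 hc⟩

/-- **(E1), ends** : a strand over the end `0` -/
theorem sv_e1 (h : BoxP C be ch N p (patK .mk g) b cc) (hN : n + 2 ≤ N)
    (hE : stdf C s g p ∉ G1 n) :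
    ∃ a a' : ℤ, (1 ≤ a ∧ a ≤ n) ∧ (-(n : ℤ) ≤ a' ∧ a' < 0) ∧
      (quadV N p (patK .mk g)).Real (fe g p a) ∧ (quadV N p (patK .mk g)).Real (fe g p a') ∧
      SV G be ch s (mp C.emb (fe g p a)) (mp C.emb (fe g p a'))
        (val (b (fe g p a)) 0 (cc (fe g p a) - cc (fe g p a'))) := by
  have hE' : ¬ (Kn .mk n (stdf C s g p) = 0 ∨ Kp .mk 0 (1, 0) n (stdf C s g p) = 0) := hE
  push Not at hE'
  obtain ⟨hE1, hE2⟩ := hE'
  -- the first gap
  obtain ⟨c0, hc, hit⟩ := kn_ex hE1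
  obtain ⟨a, ha, rfl⟩ := Finset.mem_image.1 hc
  rw [Finset.mem_Ico] at ha
  obtain ⟨M, h1, h2⟩ := hit
  obtain ⟨m, rfl⟩ : ∃ m, M = m + 1 := by
    refine ⟨M - 1, ?_⟩
    rcases Nat.eq_zero_or_pos M with h0 | h0
    · subst h0
      exact absurd (show a < 0 from h2.1) (by omega)
    · omega
  have h2' : ((nx6 (stdf C s g p))^[m + 1] ((a, 0), 0)).1.1 < 0 ∧
    ((nx6 (stdf C s g p))^[m + 1] ((a, 0), 0)).1.2 < 0 := h2
  obtain ⟨a', l, h3, h4, h5, h6, h7⟩ := ff_wk h.F h.patt (n := n) (by omega) (a := a)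
    (by omega) (m := m) (fun j hj => h1 j (by omega)) h2'.2
  have h8 : a' < 0 := by
    have := h2'.1
    rw [h4] at this
    exact this
  by_cases ha0 : 1 ≤ a
  · rcases ff_sv h h5 h6 h7 with ⟨h7, h9⟩ | ⟨h7, h9⟩
    · exact ⟨a, a', ⟨ha0, by omega⟩, ⟨h3.1, h8⟩, h5, h6, h9⟩
    · omega
  obtain rfl : a = 0 := by omega
  -- the second gap
  rw [Nz399.Kp_eq] at hE2
  obtain ⟨c1, hc1, hit1⟩ := kn_ex hE2
  obtain ⟨e, he, rfl⟩ := Finset.mem_image.1 hc1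
  rw [Finset.mem_Ico] at he
  obtain ⟨M1, k1, k2⟩ := hit1
  have hps : ∀ c : St ℤ, (ps 0 (1, 0) c).1 = (c.1.1 + 1, c.1.2) := by
    intro c
    rw [ps_fst]
    show c.1 + (1, 0) = _
    ext <;> simp
  have hit2 : ∀ j, ((nx6 (stdf C s g p))^[j] ((e + 1, 0), 0)).1 =
      (((nx6 fun v => xor (od 0) (stdf C s g p (pl 0 (1, 0) v)))^[j] ((e, 0), 0)).1.1 + 1,
        ((nx6 fun v => xor (od 0) (stdf C s g p (pl 0 (1, 0) v)))^[j] ((e, 0), 0)).1.2) := by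
    intro j
    have e1 : (((e + 1, 0), 0) : St ℤ) = ps 0 (1, 0) ((e, 0), 0) := by
      refine Prod.ext ?_ rfl
      rw [hps]
    rw [e1, Tw440.ps_iter, hps]
  obtain ⟨m1, rfl⟩ : ∃ m, M1 = m + 1 := by
    refine ⟨M1 - 1, ?_⟩
    rcases Nat.eq_zero_or_pos M1 with h0 | h0
    · subst h0
      exact absurd (show e < 0 from k2.1) (by omega)
    · omega
  have k1' : ∀ j ≤ m1, ((nx6 (stdf C s g p))^[j] ((e + 1, 0), 0)).1 ∈ Tk .mk (n + 1) := by
    intro j hj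
    have q1 := mem_Tk.1 (k1 j (by omega))
    rw [hit2]
    have q2 : 0 ≤ ((nx6 fun v => xor (od 0) (stdf C s g p (pl 0 (1, 0) v)))^[j] ((e, 0), 0)).1.2 :=
      q1.2
    refine mem_Tk.2 ⟨?_, q2⟩
    push_cast
    omega
  have k2a : ((nx6 fun v => xor (od 0) (stdf C s g p (pl 0 (1, 0) v)))^[m1 + 1]
      ((e, 0), 0)).1.1 < 0 := k2.1
  have k2b : ((nx6 fun v => xor (od 0) (stdf C s g p (pl 0 (1, 0) v)))^[m1 + 1]
      ((e, 0), 0)).1.2 < 0 := k2.2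
  obtain ⟨e', l', h3', h4', h5', h6', h7'⟩ := ff_wk h.F h.patt (n := n + 1) (by omega) (a := e + 1)
    (by push_cast; omega) (m := m1) k1' (by rw [hit2]; exact k2b)
  push_cast at h3'
  have h8' : e' < 1 := by
    have := hit2 (m1 + 1)
    rw [h4'] at this
    have h9 := congrArg Prod.fst this
    simp only at h9
    omega
  have h9' : e' ≠ 0 := by
    rintro rfl
    have hs := (rg_glu (full (quadV N p (patK .mk g)).A))
    have w1 := Wk.reverse hs.sym h7'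
    have hfr : ∀ {y : (ℤ × ℤ) × ZMod 4}, (quadV N p (patK .mk g)).Real y →
        Fr (RG (full (quadV N p (patK .mk g)).A)) y := by
      rintro y hy b hb
      rw [rg_full] at hb
      exact hy.2.2 hb.2.1
    have w2 := Wk.det hs.fn w1 (hfr h5') h7 (hfr h6)
    have w3 : fe g p (e + 1) = fe g p a' := w2.1
    have w4 := congrArg Prod.fst (Nz399.pl_inj g p (congrArg Prod.fst w3))
    simp only at w4
    omega
  rcases ff_sv h h5' h6' h7' with ⟨q7, q9⟩ | ⟨q7, q9⟩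
  · refine ⟨e + 1, e', ⟨by omega, by omega⟩, ⟨?_, by omega⟩, h5', h6', q9⟩
    -- the strand starts at distance `< n` of the end `1`
    have q1 := mem_Tk.1 (k1 m1 (by omega))
    have q3 := hit2 m1
    have q4 := step4i (stdf C s g p) m1 ((e + 1, 0), 0)
    have q5 : ((nx6 (stdf C s g p))^[m1 + 1] ((e + 1, 0), 0)).1.1 = e' := by rw [h4']
    have q6 : ((nx6 (stdf C s g p))^[m1 + 1] ((e + 1, 0), 0)).1.2 = -1 := by rw [h4']
    have q7 : ((nx6 (stdf C s g p))^[m1] ((e + 1, 0), 0)).1.1 =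
      ((nx6 fun v => xor (od 0) (stdf C s g p (pl 0 (1, 0) v)))^[m1] ((e, 0), 0)).1.1 + 1 := by
      rw [q3]
    have q8 : 0 ≤ ((nx6 fun v => xor (od 0) (stdf C s g p (pl 0 (1, 0) v)))^[m1] ((e, 0), 0)).1.2 :=
      q1.2
    have q10 : ((nx6 (stdf C s g p))^[m1] ((e + 1, 0), 0)).1.2 =
      ((nx6 fun v => xor (od 0) (stdf C s g p (pl 0 (1, 0) v)))^[m1] ((e, 0), 0)).1.2 := by
      rw [q3]
    omega
  · omega

end Crest.Agent.R158.Pt266
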