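import Crest.Agent.R158.Pt6_266

/-!
# R158, patches (helper266), file Pt7: quadrant patterns in a box

* `Quad` : box `[a,b) × [c,e)`, lines `x = p`, `y = q`, pattern `P : Bool → Bool → Bool`
  (`P i j` = the quadrant `i = (p ≤ x)`, `j = (q ≤ y)` belongs to the region); `Q.A` the tiles
* `Quad.Real Q x` : `x` is a side of a tile of the region facing a position of the box outside the
  region
* `Quad.Ch Q x y` : clockwise chain `x → y` of real ends with turning `D`: `D = 0` (same side),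
  `D = 1` (convex corner, side `d → d+1`) or `D = -1` (reflex corner, side `d → d+3`)
* **`Quad.pair`** : two different real ends in the same component: `Ch x y` or `Ch y x`
* **`Quad.arc`** : the same for the two ends of a strand of the region, with the turning and
  the non-crossing property
-/

set_option autoImplicit false
set_option linter.unusedVariables false
set_option linter.unusedSectionVars false
set_option linter.unusedSimpArgs false

noncomputable section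

namespace Crest.Agent.R158.Pt266

open Crest.Agent.R158.Sw300
open Crest.Agent.R158.Xr249 (rot rot_some rot_none Nx Reg full CPath full_SC full_Conn rct mem_rct)
open Crest.Agent.R158.Env664 (Adj4)

/-- transport of the boundary step along a symmetry of the lattice -/
lemma nxT_symm {A A' : Finset (ℤ × ℤ)} {f : ℤ × ℤ → ℤ × ℤ} {δ : ZMod 4}
    (hf : ∀ t d, f (t + dir d) = f t + dir (d + δ)) (hA : ∀ t, f t ∈ A' ↔ t ∈ A)
    {p q : Port (ℤ × ℤ)} {k : ℤ} (h : NxT (full A).gl p q k) :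
    ∀ {x : (ℤ × ℤ) × ZMod 4}, p = some x → ∃ y, q = some y ∧
      NxT (full A').gl (some (f x.1, x.2 + δ)) (some (f y.1, y.2 + δ)) k := by
  induction h with
  | @stop p h =>
    rintro ⟨t, d⟩ rfl
    refine ⟨(t, d + 1), rot_some _ _, ?_⟩
    have e : d + 1 + δ = d + δ + 1 := by ring
    have := NxT.stop (G := (full A').gl) (p := some (f t, d + δ)) (by
      rw [rot_some]
      intro q hq
      rw [gl_full, ← e, ← hf, hA, hA] at hq
      exact h (some (t + dir (d + 1), d + 1 + 2)) (by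
        rw [rot_some, gl_full]
        exact ⟨hq.1, hq.2.1, rfl⟩))
    rw [rot_some] at this
    simp only
    rw [e]
    exact this
  | @go p q r k h1 h2 ih =>
    rintro ⟨t, d⟩ rfl
    rw [rot_some, gl_full] at h1
    obtain ⟨h3, h4, rfl⟩ := h1
    obtain ⟨y, hy, h5⟩ := ih rfl
    refine ⟨y, hy, .go (q := some (f (t + dir (d + 1)), d + 1 + 2 + δ)) ?_ h5⟩
    have e : d + 1 + δ = d + δ + 1 := by ring
    rw [rot_some, gl_full, ← e, ← hf, hA, hA]
    refine ⟨h3, h4, ?_⟩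
    rw [show d + 1 + 2 + δ = d + 1 + δ + 2 by ring]

lemma cwR_symm {A A' : Finset (ℤ × ℤ)} {f : ℤ × ℤ → ℤ × ℤ} {δ : ZMod 4}
    (hf : ∀ t d, f (t + dir d) = f t + dir (d + δ)) (hA : ∀ t, f t ∈ A' ↔ t ∈ A)
    {x y : (ℤ × ℤ) × ZMod 4} {D : ℤ} {l : List ((ℤ × ℤ) × ZMod 4)}
    (h : CwR (full A).gl x y D l) : CwR (full A').gl (f x.1, x.2 + δ) (f y.1, y.2 + δ) D
      (l.map fun z => (f z.1, z.2 + δ)) := by
  induction h with
  | nil => exact .nil _
  | @cons x z y k D l h1 _ ih =>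
    obtain ⟨y', hy', h2⟩ := nxT_symm hf hA h1 rfl
    obtain rfl := Option.some.inj hy'
    exact .cons h2 ih

/-- quadrant pattern in a box -/
structure Quad where
  a : ℤ
  b : ℤ
  c : ℤ
  e : ℤ
  p : ℤ
  q : ℤ
  P : Bool → Bool → Bool

namespace Quad

variable (Q : Quad)

/-- quadrant of a position -/
def cl (v : ℤ × ℤ) : Bool := Q.P (decide (Q.p ≤ v.1)) (decide (Q.q ≤ v.2))

/-- quadrant of a position: right of the vertical line, above the horizontal line -/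
def qd (v : ℤ × ℤ) : Bool × Bool := (decide (Q.p ≤ v.1), decide (Q.q ≤ v.2))

lemma cl_qd (v : ℤ × ℤ) : Q.cl v = Q.P (Q.qd v).1 (Q.qd v).2 := rfl

/-- position in the box -/
def Bx (v : ℤ × ℤ) : Prop := (Q.a ≤ v.1 ∧ v.1 < Q.b) ∧ Q.c ≤ v.2 ∧ v.2 < Q.e

/-- tiles of the region -/
def A : Finset (ℤ × ℤ) := (rct Q.a Q.b Q.c Q.e).filter fun v => Q.cl v = true

lemma mem_A {v : ℤ × ℤ} : v ∈ Q.A ↔ Q.Bx v ∧ Q.cl v = true := by
  rcases v with ⟨x, y⟩
  simp only [A, Finset.mem_filter, mem_rct, Bx]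

/-- real free end -/
def Real (x : (ℤ × ℤ) × ZMod 4) : Prop :=
  x.1 ∈ Q.A ∧ Q.Bx (x.1 + dir x.2) ∧ x.1 + dir x.2 ∉ Q.A

lemma Real.ffree {x : (ℤ × ℤ) × ZMod 4} (h : Q.Real x) : FFree Q.A x := ⟨h.1, h.2.2⟩

lemma real_iff {x : (ℤ × ℤ) × ZMod 4} : Q.Real x ↔ Q.Bx x.1 ∧ Q.cl x.1 = true ∧
    Q.Bx (x.1 + dir x.2) ∧ Q.cl (x.1 + dir x.2) = false := by
  unfold Real
  rw [mem_A, mem_A]
  constructor
  · rintro ⟨⟨h1, h2⟩, h3, h4⟩
    refine ⟨h1, h2, h3, ?_⟩
    by_contra h5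
    exact h4 ⟨h3, by simpa using h5⟩
  · rintro ⟨h1, h2, h3, h4⟩
    refine ⟨⟨h1, h2⟩, h3, fun h5 => ?_⟩
    rw [h4] at h5
    exact absurd h5.2 (by simp)

/-- the complement is connected to infinity -/
theorem hole : Hole Q.A := by
  intro v hv
  rcases v with ⟨x, y⟩
  -- a column outside the box goes up
  have up : ∀ x y : ℤ, (x < Q.a ∨ Q.b ≤ x ∨ Q.e ≤ y) → ∃ d, CPath {t | t ∉ Q.A} (x, y) d ∧
      ∀ t ∈ Q.A, t.2 ≤ d.2 := by
    intro x y h
    refine ⟨(x, max y Q.e), CPath.ver (le_max_left _ _) fun y' h1 h2 => ?_, fun t ht => ?_⟩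
    · intro h3
      obtain ⟨⟨⟨h4, h5⟩, h6, h7⟩, -⟩ := (Q.mem_A).1 h3
      simp only at h4 h5 h6 h7
      rcases h with h | h | h <;> omega
    · obtain ⟨⟨-, h6, h7⟩, -⟩ := (Q.mem_A).1 ht
      simp only
      have := le_max_right y Q.e
      omega
  by_cases h1 : x < Q.a ∨ Q.b ≤ x ∨ Q.e ≤ y
  · exact up x y h1
  push Not at h1
  obtain ⟨h1, h2, h3⟩ := h1
  by_cases h4 : y < Q.c
  · -- below the box: go left
    obtain ⟨d, h5, h6⟩ := up (Q.a - 1) y (Or.inl (by omega))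
    have hp : CPath {t | t ∉ Q.A} (Q.a - 1, y) (x, y) := by
      refine CPath.hor (by omega) ?_
      intro x' _ _ h7
      obtain ⟨⟨-, h8, -⟩, -⟩ := (Q.mem_A).1 h7
      simp only at h8
      omega
    exact ⟨d, hp.symm.trans h5, h6⟩
  push Not at h4
  -- in a missing quadrant
  have hcl : Q.cl (x, y) = false := by
    by_contra h5
    exact hv ((Q.mem_A).2 ⟨⟨⟨h1, h2⟩, h4, h3⟩, by simpa using h5⟩)
  by_cases hx : Q.p ≤ x
  · obtain ⟨d, h5, h6⟩ := up Q.b y (Or.inr (Or.inl le_rfl))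
    have hp : CPath {t | t ∉ Q.A} (x, y) (Q.b, y) := by
      refine CPath.hor (by omega) ?_
      intro x' h8 _ h7
      have h9 := ((Q.mem_A).1 h7).2
      simp only [cl, hx, decide_true] at hcl
      simp only [cl, (by omega : Q.p ≤ x'), decide_true] at h9
      rw [hcl] at h9
      exact absurd h9 (by simp)
    exact ⟨d, hp.trans h5, h6⟩
  · obtain ⟨d, h5, h6⟩ := up (Q.a - 1) y (Or.inl (by omega))
    have hp : CPath {t | t ∉ Q.A} (Q.a - 1, y) (x, y) := by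
      refine CPath.hor (by omega) ?_
      intro x' _ h8 h7
      have h9 := ((Q.mem_A).1 h7).2
      have e1 : decide (Q.p ≤ x) = false := by simp only [decide_eq_false_iff_not]; exact hx
      have e2 : decide (Q.p ≤ x') = false := by simp only [decide_eq_false_iff_not]; omega
      simp only [cl, e1] at hcl
      simp only [cl, e2] at h9
      rw [hcl] at h9
      exact absurd h9 (by simp)
    exact ⟨d, hp.symm.trans h5, h6⟩

/-- type of a chain: flat, around a convex corner (both tiles in the same quadrant), around a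
reflex corner (both sides facing the same missing quadrant, the opposite quadrant is present) -/
def Typ (x y : (ℤ × ℤ) × ZMod 4) (D : ℤ) : Prop :=
  (D = 0 ∧ y.2 = x.2 ∧ ∃ n : ℕ, y.1 = x.1 + n • dir (x.2 + 1)) ∨
  (D = 1 ∧ y.2 = x.2 + 1 ∧ Q.qd x.1 = Q.qd y.1) ∨
  (D = -1 ∧ y.2 = x.2 + 3 ∧ Q.qd (x.1 + dir x.2) = Q.qd (y.1 + dir y.2) ∧
    Q.P (!(Q.qd (x.1 + dir x.2)).1) (!(Q.qd (x.1 + dir x.2)).2) = true)

/-- clockwise chain of real ends -/
def Ch (x y : (ℤ × ℤ) × ZMod 4) : Prop := ∃ (D : ℤ) (l : List ((ℤ × ℤ) × ZMod 4)),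
  CwR (full Q.A).gl x y D l ∧ l ≠ [] ∧ x ∉ l ∧ (∀ z ∈ l, Q.Real z) ∧ Q.Typ x y D

variable {Q}

lemma run_ne {t : ℤ × ℤ} {d : ZMod 4} {i : ℕ} (hi : 0 < i) : run t d i ≠ run t d 0 := by
  intro h
  have h1 := congrArg Prod.fst h
  simp only [run, zero_nsmul, add_zero, add_eq_left] at h1
  have h2 : dir (d + 1) = 0 := by
    rcases h3 : dir (d + 1) with ⟨u, v⟩
    rw [h3, Prod.smul_mk, Prod.mk_eq_zero] at h1
    simp only [smul_eq_mul, nsmul_eq_mul, mul_eq_zero, Nat.cast_eq_zero] at h1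
    rw [Prod.mk_eq_zero]
    constructor
    · exact h1.1.resolve_left (by omega)
    · exact h1.2.resolve_left (by omega)
  exact dir_ne _ h2

lemma ch_flat {t : ℤ × ℤ} {d : ZMod 4} {n : ℕ} (hn : 0 < n)
    (hr : ∀ i ≤ n, Q.Real (run t d i)) : Q.Ch (run t d 0) (run t d n) := by
  have hF : FRun Q.A t d n := fun i hi => ⟨(hr i hi).1, (hr i hi).2.2⟩
  refine ⟨0, _, chain_flat hF, ?_, ?_, ?_, Or.inl ⟨rfl, rfl, n, by simp [run]⟩⟩
  · intro h
    have : run t d n ∈ runL t d n := mem_runL.2 ⟨n, hn, le_rfl, rfl⟩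
    rw [h] at this
    simp at this
  · intro h
    obtain ⟨i, h1, h2, h3⟩ := mem_runL.1 h
    exact run_ne h1 h3.symm
  · intro z hz
    obtain ⟨i, h1, h2, rfl⟩ := mem_runL.1 hz
    exact hr i h2

lemma ch_convex {t : ℤ × ℤ} {d : ZMod 4} {n j : ℕ}
    (hr : ∀ i ≤ n, Q.Real (run t d i))
    (hr' : ∀ i ≤ j, Q.Real (run (t + n • dir (d + 1)) (d + 1) i))
    (hq : Q.qd (run t d 0).1 = Q.qd (run (t + n • dir (d + 1)) (d + 1) j).1) :
    Q.Ch (run t d 0) (run (t + n • dir (d + 1)) (d + 1) j) := by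
  have hF : FRun Q.A t d n := fun i hi => ⟨(hr i hi).1, (hr i hi).2.2⟩
  have hF' : FRun Q.A (t + n • dir (d + 1)) (d + 1) j :=
    fun i hi => ⟨(hr' i hi).1, (hr' i hi).2.2⟩
  have hc : t + n • dir (d + 1) + dir (d + 1) ∉ Q.A := by
    have := (hF' 0 (Nat.zero_le _)).2
    rwa [zero_nsmul, add_zero] at this
  have hd : d + 1 ≠ d := (z4_ne d).1
  refine ⟨1, _, chain_convex hF hc hF', by simp, ?_, ?_, Or.inr (Or.inl ⟨rfl, rfl, hq⟩)⟩
  · intro h
    rw [List.mem_append, List.mem_cons] at h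
    rcases h with h | h | h
    · obtain ⟨i, h1, h2, h3⟩ := mem_runL.1 h
      exact run_ne h1 h3.symm
    · exact hd (congrArg Prod.snd h).symm
    · obtain ⟨i, h1, h2, h3⟩ := mem_runL.1 h
      exact hd (congrArg Prod.snd h3).symm
  · intro z hz
    rw [List.mem_append, List.mem_cons] at hz
    rcases hz with h | rfl | h
    · obtain ⟨i, h1, h2, rfl⟩ := mem_runL.1 h
      exact hr i h2
    · have := hr' 0 (Nat.zero_le _)
      rwa [run_zero] at this
    · obtain ⟨i, h1, h2, rfl⟩ := mem_runL.1 h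
      exact hr' i h2

lemma ch_reflex {t : ℤ × ℤ} {d : ZMod 4} {n j : ℕ}
    (hr : ∀ i ≤ n, Q.Real (run t d i)) (hc : t + n • dir (d + 1) + dir (d + 1) ∈ Q.A)
    (hr' : ∀ i ≤ j, Q.Real (run (t + n • dir (d + 1) + dir (d + 1) + dir d) (d + 3) i))
    (hq : Q.qd ((run t d 0).1 + dir d) =
      Q.qd ((run (t + n • dir (d + 1) + dir (d + 1) + dir d) (d + 3) j).1 + dir (d + 3)))
    (hP : Q.P (!(Q.qd ((run t d 0).1 + dir d)).1) (!(Q.qd ((run t d 0).1 + dir d)).2) = true) :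
    Q.Ch (run t d 0) (run (t + n • dir (d + 1) + dir (d + 1) + dir d) (d + 3) j) := by
  have hF : FRun Q.A t d n := fun i hi => ⟨(hr i hi).1, (hr i hi).2.2⟩
  have hF' : FRun Q.A (t + n • dir (d + 1) + dir (d + 1) + dir d) (d + 3) j :=
    fun i hi => ⟨(hr' i hi).1, (hr' i hi).2.2⟩
  have hd : d + 3 ≠ d := (z4_ne d).2.2
  refine ⟨-1, _, chain_reflex hF hc hF', by simp, ?_, ?_, Or.inr (Or.inr ⟨rfl, rfl, hq, hP⟩)⟩
  · intro h
    rw [List.mem_append, List.mem_cons] at h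
    rcases h with h | h | h
    · obtain ⟨i, h1, h2, h3⟩ := mem_runL.1 h
      exact run_ne h1 h3.symm
    · exact hd (congrArg Prod.snd h).symm
    · obtain ⟨i, h1, h2, h3⟩ := mem_runL.1 h
      exact hd (congrArg Prod.snd h3).symm
  · intro z hz
    rw [List.mem_append, List.mem_cons] at hz
    rcases hz with h | rfl | h
    · obtain ⟨i, h1, h2, rfl⟩ := mem_runL.1 h
      exact hr i h2
    · have := hr' 0 (Nat.zero_le _)
      rwa [run_zero] at this
    · obtain ⟨i, h1, h2, rfl⟩ := mem_runL.1 h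
      exact hr' i h2

/-! ### rotation -/

/-- rotation of the plane by a quarter turn, clockwise -/
def rho (v : ℤ × ℤ) : ℤ × ℤ := (v.2, -v.1)

/-- inverse rotation -/
def rhoi (v : ℤ × ℤ) : ℤ × ℤ := (-v.2, v.1)

@[simp] lemma rho_rhoi (v : ℤ × ℤ) : rho (rhoi v) = v := by simp [rho, rhoi]
@[simp] lemma rhoi_rho (v : ℤ × ℤ) : rhoi (rho v) = v := by simp [rho, rhoi]

lemma rho_dir (t : ℤ × ℤ) (d : ZMod 4) : rho (t + dir d) = rho t + dir (d + 1) := by
  have h1 : rho (dir d) = dir (d + 1) := by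
    rcases Xr249.Reg.d4 d with rfl | rfl | rfl | rfl <;> decide
  rw [← h1]
  rcases t with ⟨x, y⟩
  rcases dir d with ⟨u, v⟩
  simp [rho]
  ring

lemma rhoi_dir (t : ℤ × ℤ) (d : ZMod 4) : rhoi (t + dir d) = rhoi t + dir (d + 3) := by
  have h1 : rhoi (dir d) = dir (d + 3) := by
    rcases Xr249.Reg.d4 d with rfl | rfl | rfl | rfl <;> decide
  rw [← h1]
  rcases t with ⟨x, y⟩
  rcases dir d with ⟨u, v⟩
  simp [rhoi]
  ring

lemma rho_run (t : ℤ × ℤ) (d : ZMod 4) (n : ℕ) :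
    rho (t + n • dir d) = rho t + n • dir (d + 1) := by
  induction n with
  | zero => simp
  | succ n ih =>
    rw [succ_nsmul, ← add_assoc, rho_dir, ih, succ_nsmul, add_assoc]

lemma rho_inj {u v : ℤ × ℤ} (h : rho u = rho v) : u = v := by
  rw [← rhoi_rho u, h, rhoi_rho]

/-- the rotated pattern -/
def rt (Q : Quad) : Quad := ⟨Q.c, Q.e, 1 - Q.b, 1 - Q.a, Q.q, 1 - Q.p, fun i j => Q.P (!j) i⟩

lemma rt_bx {v : ℤ × ℤ} : Q.rt.Bx (rho v) ↔ Q.Bx v := by
  simp only [Bx, rt, rho]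
  omega

lemma rt_qd {v : ℤ × ℤ} : Q.rt.qd (rho v) = ((Q.qd v).2, !(Q.qd v).1) := by
  simp only [qd, rt, rho]
  refine Prod.ext rfl ?_
  simp only
  by_cases h : Q.p ≤ v.1
  · have : ¬ (1 - Q.p ≤ -v.1) := by omega
    simp [h, this]
  · have : (1 - Q.p ≤ -v.1) := by omega
    simp [h, this]

lemma rt_qd_inj {u v : ℤ × ℤ} (h : Q.rt.qd (rho u) = Q.rt.qd (rho v)) : Q.qd u = Q.qd v := by
  rw [rt_qd, rt_qd, Prod.mk.injEq] at h
  refine Prod.ext ?_ h.1
  have := h.2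
  revert this
  cases (Q.qd u).1 <;> cases (Q.qd v).1 <;> simp

lemma rt_cl {v : ℤ × ℤ} : Q.rt.cl (rho v) = Q.cl v := by
  simp only [cl, rt, rho]
  congr 1
  by_cases h : Q.p ≤ v.1
  · have : ¬ (1 - Q.p ≤ -v.1) := by omega
    simp [h, this]
  · have : (1 - Q.p ≤ -v.1) := by omega
    simp [h, this]

lemma rt_A {v : ℤ × ℤ} : rho v ∈ Q.rt.A ↔ v ∈ Q.A := by
  rw [mem_A, mem_A, rt_bx, rt_cl]

lemma rt_A' {v : ℤ × ℤ} : rhoi v ∈ Q.A ↔ v ∈ Q.rt.A := by
  rw [← rt_A, rho_rhoi]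

/-- rotated port -/
def rp (x : (ℤ × ℤ) × ZMod 4) : (ℤ × ℤ) × ZMod 4 := (rho x.1, x.2 + 1)

/-- inverse -/
def rpi (x : (ℤ × ℤ) × ZMod 4) : (ℤ × ℤ) × ZMod 4 := (rhoi x.1, x.2 + 3)

lemma rpi_rp (x : (ℤ × ℤ) × ZMod 4) : rpi (rp x) = x := by
  rcases x with ⟨t, d⟩
  simp only [rpi, rp, rhoi_rho]
  congr 1
  revert d; decide

lemma rp_rpi (x : (ℤ × ℤ) × ZMod 4) : rp (rpi x) = x := by
  rcases x with ⟨t, d⟩
  simp only [rpi, rp, rho_rhoi]
  congr 1
  revert d; decide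

lemma rt_real {x : (ℤ × ℤ) × ZMod 4} : Q.rt.Real (rp x) ↔ Q.Real x := by
  unfold Real
  simp only [rp]
  rw [← rho_dir, rt_A, rt_bx, rt_A]

lemma rt_real' {x : (ℤ × ℤ) × ZMod 4} : Q.Real (rpi x) ↔ Q.rt.Real x := by
  rw [← rt_real, rp_rpi]

lemma rt_path {u v : ℤ × ℤ} (h : CPath {t | t ∈ Q.A} u v) :
    CPath {t | t ∈ Q.rt.A} (rho u) (rho v) := by
  induction h with
  | refl => exact .refl
  | @tail b c _ h2 ih =>
    refine .tail ih ⟨?_, rt_A.2 h2.2.1, rt_A.2 h2.2.2⟩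
    have := h2.1
    rcases b with ⟨b1, b2⟩
    rcases c with ⟨c1, c2⟩
    simp only [Adj4, rho] at this ⊢
    omega

lemma rt_ch {x y : (ℤ × ℤ) × ZMod 4} (h : Q.rt.Ch (rp x) (rp y)) : Q.Ch x y := by
  obtain ⟨D, l, h1, h2, h3, h4, h5⟩ := h
  have h6 := cwR_symm (A := Q.rt.A) (A' := Q.A) (f := rhoi) (δ := 3) rhoi_dir
    (fun t => rt_A') h1
  refine ⟨D, l.map rpi, ?_, by simpa using h2, ?_, ?_, ?_⟩
  · have e1 : ((rhoi (rp x).1, (rp x).2 + 3) : (ℤ × ℤ) × ZMod 4) = x := rpi_rp x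
    have e2 : ((rhoi (rp y).1, (rp y).2 + 3) : (ℤ × ℤ) × ZMod 4) = y := rpi_rp y
    rw [e1, e2] at h6
    exact h6
  · intro h
    obtain ⟨z, hz, hz'⟩ := List.mem_map.1 h
    apply h3
    rw [← hz', rp_rpi]
    exact hz
  · intro z hz
    obtain ⟨z', hz', rfl⟩ := List.mem_map.1 hz
    exact rt_real'.2 (h4 z' hz')
  · rcases h5 with ⟨h5, h7, n, h8⟩ | ⟨h5, h7, h8⟩ | ⟨h5, h7, h8, h9⟩
    · have h9 : rho y.1 = rho x.1 + n • dir (x.2 + 1 + 1) := h8
      rw [← rho_run] at h9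
      exact Or.inl ⟨h5, add_right_cancel h7, n, rho_inj h9⟩
    · exact Or.inr (Or.inl ⟨h5, by
        have : y.2 + 1 = x.2 + 1 + 1 := h7
        exact add_right_cancel this, rt_qd_inj h8⟩)
    · have e1 : (rp x).1 + dir (rp x).2 = rho (x.1 + dir x.2) := (rho_dir _ _).symm
      have e2 : (rp y).1 + dir (rp y).2 = rho (y.1 + dir y.2) := (rho_dir _ _).symm
      rw [e1, e2] at h8
      rw [e1, rt_qd] at h9
      have h7' : y.2 + 1 = x.2 + 1 + 3 := h7
      refine Or.inr (Or.inr ⟨h5, by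
        have h8 : y.2 + 1 = (x.2 + 3) + 1 := by rw [h7']; ring
        exact add_right_cancel h8, rt_qd_inj h8, ?_⟩)
      have h10 : Q.P (!!!(Q.qd (x.1 + dir x.2)).1) (!(Q.qd (x.1 + dir x.2)).2) = true := h9
      rwa [Bool.not_not] at h10

/-! ### pairs of real ends -/

/-- if `P` contains only two opposite quadrants, paths stay in one quadrant -/
lemma path_const {j0 : Bool} (hopp : Q.P true j0 = false) (hopp' : Q.P false (!j0) = false)
    {u v : ℤ × ℤ} (h : CPath {t | t ∈ Q.A} u v) :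
    (Q.p ≤ u.1 ↔ Q.p ≤ v.1) := by
  induction h with
  | refl => rfl
  | @tail b c _ h2 ih =>
    rw [ih]
    obtain ⟨h3, h4, h5⟩ := h2
    have h6 := ((Q.mem_A).1 h4).2
    have h7 := ((Q.mem_A).1 h5).2
    rcases b with ⟨b1, b2⟩
    rcases c with ⟨c1, c2⟩
    simp only [cl] at h6 h7
    simp only [Adj4] at h3
    by_contra hcon
    -- exactly one of them is on the right
    have h8 : b2 = c2 := by
      by_contra h9
      apply hcon
      omega
    subst h8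
    rcases Bool.eq_false_or_eq_true (decide (Q.q ≤ b2)) with h9 | h9 <;> rw [h9] at h6 h7
    · by_cases ha : Q.p ≤ b1
      · have hb : ¬ Q.p ≤ c1 := fun hb => hcon ⟨fun _ => hb, fun _ => ha⟩
        simp only [ha, hb, decide_true, decide_false] at h6 h7
        cases j0 <;> simp_all
      · have hb : Q.p ≤ c1 := by
          by_contra hb; exact hcon ⟨fun h => absurd h ha, fun h => absurd h hb⟩
        simp only [ha, hb, decide_true, decide_false] at h6 h7
        cases j0 <;> simp_all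
    · by_cases ha : Q.p ≤ b1
      · have hb : ¬ Q.p ≤ c1 := fun hb => hcon ⟨fun _ => hb, fun _ => ha⟩
        simp only [ha, hb, decide_true, decide_false] at h6 h7
        cases j0 <;> simp_all
      · have hb : Q.p ≤ c1 := by
          by_contra hb; exact hcon ⟨fun h => absurd h ha, fun h => absurd h hb⟩
        simp only [ha, hb, decide_true, decide_false] at h6 h7
        cases j0 <;> simp_all

/-- real end on a west side -/
lemma real0 {x1 x2 : ℤ} (h : Q.Real ((x1, x2), 0)) : x1 = Q.p ∧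
    Q.P true (decide (Q.q ≤ x2)) = true ∧ Q.P false (decide (Q.q ≤ x2)) = false ∧
    (Q.a < Q.p ∧ Q.p < Q.b) ∧ Q.c ≤ x2 ∧ x2 < Q.e := by
  rw [real_iff] at h
  obtain ⟨h1, h2, h3, h4⟩ := h
  have hd : dir 0 = (-1, 0) := rfl
  simp only [hd, Prod.mk_add_mk, add_zero, Bx, cl] at h1 h2 h3 h4
  have hx : x1 = Q.p := by
    by_contra hne
    have : (Q.p ≤ x1 ↔ Q.p ≤ x1 + -1) := by omega
    rw [decide_eq_decide.2 this, h4] at h2
    cases h2
  subst hx
  have e1 : decide (Q.p ≤ Q.p) = true := by simp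
  have e2 : decide (Q.p ≤ Q.p + -1) = false := by simp
  rw [e1] at h2
  rw [e2] at h4
  exact ⟨rfl, h2, h4, ⟨by omega, by omega⟩, by omega, by omega⟩

lemma real0' {x2 : ℤ} (h1 : Q.P true (decide (Q.q ≤ x2)) = true)
    (h2 : Q.P false (decide (Q.q ≤ x2)) = false) (h3 : Q.a < Q.p ∧ Q.p < Q.b)
    (h4 : Q.c ≤ x2 ∧ x2 < Q.e) : Q.Real ((Q.p, x2), 0) := by
  rw [real_iff]
  have hd : dir 0 = (-1, 0) := rfl
  simp only [hd, Prod.mk_add_mk, add_zero, Bx, cl]
  have e1 : decide (Q.p ≤ Q.p) = true := by simp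
  have e2 : decide (Q.p ≤ Q.p + -1) = false := by simp
  rw [e1, e2]
  exact ⟨by omega, h1, by omega, h2⟩

/-- real end on a north side -/
lemma real1 {x1 x2 : ℤ} (h : Q.Real ((x1, x2), 1)) : x2 = Q.q - 1 ∧
    Q.P (decide (Q.p ≤ x1)) false = true ∧ Q.P (decide (Q.p ≤ x1)) true = false ∧
    (Q.c < Q.q ∧ Q.q < Q.e) ∧ Q.a ≤ x1 ∧ x1 < Q.b := by
  rw [real_iff] at h
  obtain ⟨h1, h2, h3, h4⟩ := h
  have hd : dir 1 = (0, 1) := rfl
  simp only [hd, Prod.mk_add_mk, add_zero, Bx, cl] at h1 h2 h3 h4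
  have hx : x2 = Q.q - 1 := by
    by_contra hne
    have : (Q.q ≤ x2 ↔ Q.q ≤ x2 + 1) := by omega
    rw [decide_eq_decide.2 this, h4] at h2
    cases h2
  subst hx
  have e1 : decide (Q.q ≤ Q.q - 1) = false := by simp
  have e2 : decide (Q.q ≤ Q.q - 1 + 1) = true := by simp
  rw [e1] at h2
  rw [e2] at h4
  exact ⟨rfl, h2, h4, ⟨by omega, by omega⟩, by omega, by omega⟩

lemma real1' {x1 : ℤ} (h1 : Q.P (decide (Q.p ≤ x1)) false = true)
    (h2 : Q.P (decide (Q.p ≤ x1)) true = false) (h3 : Q.c < Q.q ∧ Q.q < Q.e)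
    (h4 : Q.a ≤ x1 ∧ x1 < Q.b) : Q.Real ((x1, Q.q - 1), 1) := by
  rw [real_iff]
  have hd : dir 1 = (0, 1) := rfl
  simp only [hd, Prod.mk_add_mk, add_zero, Bx, cl]
  have e1 : decide (Q.q ≤ Q.q - 1) = false := by simp
  have e2 : decide (Q.q ≤ Q.q - 1 + 1) = true := by simp
  rw [e1, e2]
  exact ⟨by omega, h1, by omega, h2⟩

/-- real end on an east side -/
lemma real2 {x1 x2 : ℤ} (h : Q.Real ((x1, x2), 2)) : x1 = Q.p - 1 ∧
    Q.P false (decide (Q.q ≤ x2)) = true ∧ Q.P true (decide (Q.q ≤ x2)) = false := by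
  rw [real_iff] at h
  obtain ⟨h1, h2, h3, h4⟩ := h
  have hd : dir 2 = (1, 0) := rfl
  simp only [hd, Prod.mk_add_mk, add_zero, Bx, cl] at h1 h2 h3 h4
  have hx : x1 = Q.p - 1 := by
    by_contra hne
    have : (Q.p ≤ x1 ↔ Q.p ≤ x1 + 1) := by omega
    rw [decide_eq_decide.2 this, h4] at h2
    cases h2
  subst hx
  have e1 : decide (Q.p ≤ Q.p - 1) = false := by simp
  have e2 : decide (Q.p ≤ Q.p - 1 + 1) = true := by simp
  rw [e1] at h2
  rw [e2] at h4
  exact ⟨rfl, h2, h4⟩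

/-- real end on a south side -/
lemma real3 {x1 x2 : ℤ} (h : Q.Real ((x1, x2), 3)) : x2 = Q.q ∧
    Q.P (decide (Q.p ≤ x1)) true = true ∧ Q.P (decide (Q.p ≤ x1)) false = false ∧
    (Q.c < Q.q ∧ Q.q < Q.e) ∧ Q.a ≤ x1 ∧ x1 < Q.b := by
  rw [real_iff] at h
  obtain ⟨h1, h2, h3, h4⟩ := h
  have hd : dir 3 = (0, -1) := rfl
  simp only [hd, Prod.mk_add_mk, add_zero, Bx, cl] at h1 h2 h3 h4
  have hx : x2 = Q.q := by
    by_contra hne
    have : (Q.q ≤ x2 ↔ Q.q ≤ x2 + -1) := by omega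
    rw [decide_eq_decide.2 this, h4] at h2
    cases h2
  subst hx
  have e1 : decide (Q.q ≤ Q.q) = true := by simp
  have e2 : decide (Q.q ≤ Q.q + -1) = false := by simp
  rw [e1] at h2
  rw [e2] at h4
  exact ⟨rfl, h2, h4, ⟨by omega, by omega⟩, by omega, by omega⟩

lemma real3' {x1 : ℤ} (h1 : Q.P (decide (Q.p ≤ x1)) true = true)
    (h2 : Q.P (decide (Q.p ≤ x1)) false = false) (h3 : Q.c < Q.q ∧ Q.q < Q.e)
    (h4 : Q.a ≤ x1 ∧ x1 < Q.b) : Q.Real ((x1, Q.q), 3) := by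
  rw [real_iff]
  have hd : dir 3 = (0, -1) := rfl
  simp only [hd, Prod.mk_add_mk, add_zero, Bx, cl]
  have e1 : decide (Q.q ≤ Q.q) = true := by simp
  have e2 : decide (Q.q ≤ Q.q + -1) = false := by simp
  rw [e1, e2]
  exact ⟨by omega, h1, by omega, h2⟩

lemma run0 (x1 x2 : ℤ) (i : ℕ) : run (x1, x2) 0 i = ((x1, x2 + i), 0) := by
  have hd : dir (0 + 1) = (0, 1) := rfl
  simp only [run, hd, Prod.smul_mk, Prod.mk_add_mk, nsmul_eq_mul, mul_one, mul_zero, add_zero]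

lemma run1 (x1 x2 : ℤ) (i : ℕ) : run (x1, x2) 1 i = ((x1 + i, x2), 1) := by
  have hd : dir (1 + 1) = (1, 0) := rfl
  simp [run, hd]

lemma run3 (x1 x2 : ℤ) (i : ℕ) : run (x1, x2) 3 i = ((x1 - i, x2), 3) := by
  have hd : dir (3 + 1) = (-1, 0) := rfl
  simp [run, hd, sub_eq_add_neg]

/-- west side, west side -/
lemma pair00 {x2 y2 : ℤ} (hx : Q.Real ((Q.p, x2), 0)) (hy : Q.Real ((Q.p, y2), 0)) (h : x2 < y2) :
    Q.Ch ((Q.p, x2), 0) ((Q.p, y2), 0) := by
  obtain ⟨-, a1, a2, a3, a4, a5⟩ := real0 hx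
  obtain ⟨-, b1, b2, b3, b4, b5⟩ := real0 hy
  obtain ⟨n, rfl⟩ := Int.le.dest h.le
  have hr : ∀ i ≤ n, Q.Real (run (Q.p, x2) 0 i) := by
    intro i hi
    rw [run0]
    by_cases hc : Q.q ≤ x2 + i
    · have e1 : decide (Q.q ≤ x2 + (i : ℤ)) = true := by simpa using hc
      have e2 : decide (Q.q ≤ x2 + (n : ℤ)) = true := by
        simp only [decide_eq_true_eq]; omega
      rw [e2] at b1 b2
      exact real0' (by rw [e1]; exact b1) (by rw [e1]; exact b2) a3 (by omega)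
    · have e1 : decide (Q.q ≤ x2 + (i : ℤ)) = false := by simpa using hc
      have e2 : decide (Q.q ≤ x2) = false := by
        simp only [decide_eq_false_iff_not]; omega
      rw [e2] at a1 a2
      exact real0' (by rw [e1]; exact a1) (by rw [e1]; exact a2) a3 (by omega)
  have := ch_flat (Q := Q) (t := (Q.p, x2)) (d := 0) (n := n) (by omega) hr
  rw [run0, run0] at this
  simpa using this

/-- west side below the corner, north side: convex corner -/
lemma pair01 {x2 y1 : ℤ} (hx : Q.Real ((Q.p, x2), 0)) (hy : Q.Real ((y1, Q.q - 1), 1))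
    (h : ¬ Q.q ≤ x2) : Q.Ch ((Q.p, x2), 0) ((y1, Q.q - 1), 1) := by
  obtain ⟨-, a1, a2, a3, a4, a5⟩ := real0 hx
  obtain ⟨-, b1, b2, b3, b4, b5⟩ := real1 hy
  have e1 : decide (Q.q ≤ x2) = false := by simpa using h
  rw [e1] at a1 a2
  have hyp : Q.p ≤ y1 := by
    by_contra hcon
    have e2 : decide (Q.p ≤ y1) = false := by simpa using hcon
    rw [e2, a2] at b1
    cases b1
  have e2 : decide (Q.p ≤ y1) = true := by simpa using hyp
  rw [e2] at b1 b2
  obtain ⟨n, hn⟩ := Int.le.dest (show x2 ≤ Q.q - 1 by omega)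
  obtain ⟨j, rfl⟩ := Int.le.dest hyp
  have hr : ∀ i ≤ n, Q.Real (run (Q.p, x2) 0 i) := by
    intro i hi
    rw [run0]
    have e3 : decide (Q.q ≤ x2 + (i : ℤ)) = false := by
      simp only [decide_eq_false_iff_not]; omega
    exact real0' (by rw [e3]; exact a1) (by rw [e3]; exact a2) a3 (by omega)
  have hc : ((Q.p, x2) : ℤ × ℤ) + n • dir (0 + 1) = (Q.p, Q.q - 1) := by
    have hd : dir (0 + 1) = (0, 1) := rfl
    simp only [hd, Prod.smul_mk, Prod.mk_add_mk, nsmul_eq_mul, mul_zero, add_zero, mul_one]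
    rw [hn]
  have hr' : ∀ i ≤ j, Q.Real (run ((Q.p, x2) + n • dir (0 + 1)) (0 + 1) i) := by
    intro i hi
    rw [hc]
    show Q.Real (run (Q.p, Q.q - 1) 1 i)
    rw [run1]
    have e3 : decide (Q.p ≤ Q.p + (i : ℤ)) = true := by simp
    exact real1' (by rw [e3]; exact b1) (by rw [e3]; exact b2) b3 (by omega)
  have hq : Q.qd (run (Q.p, x2) 0 0).1 =
      Q.qd (run ((Q.p, x2) + n • dir (0 + 1)) (0 + 1) j).1 := by
    have e4 : run ((Q.p, Q.q - 1) : ℤ × ℤ) (0 + 1) j = ((Q.p + j, Q.q - 1), 1) := run1 _ _ _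
    rw [hc, run0, e4]
    simp only [qd, Prod.mk.injEq, decide_eq_decide]
    omega
  have := ch_convex hr hr' hq
  rw [hc, run0] at this
  have e4 : run ((Q.p, Q.q - 1) : ℤ × ℤ) (0 + 1) j = ((Q.p + j, Q.q - 1), 1) := run1 _ _ _
  rw [e4] at this
  simpa using this

/-- north side left of the corner, west side above: reflex corner -/
lemma pair10 {x2 y1 : ℤ} (hx : Q.Real ((Q.p, x2), 0)) (hy : Q.Real ((y1, Q.q - 1), 1))
    (h : Q.q ≤ x2) (hP : Q.P true false = true) : Q.Ch ((y1, Q.q - 1), 1) ((Q.p, x2), 0) := by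
  obtain ⟨-, a1, a2, a3, a4, a5⟩ := real0 hx
  obtain ⟨-, b1, b2, b3, b4, b5⟩ := real1 hy
  have e1 : decide (Q.q ≤ x2) = true := by simpa using h
  rw [e1] at a1 a2
  have hyp : ¬ Q.p ≤ y1 := by
    intro hcon
    have e2 : decide (Q.p ≤ y1) = true := by simpa using hcon
    rw [e2, a1] at b2
    cases b2
  have e2 : decide (Q.p ≤ y1) = false := by simpa using hyp
  rw [e2] at b1 b2
  obtain ⟨n, hn⟩ := Int.le.dest (show y1 ≤ Q.p - 1 by omega)
  obtain ⟨j, rfl⟩ := Int.le.dest h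
  have hr : ∀ i ≤ n, Q.Real (run (y1, Q.q - 1) 1 i) := by
    intro i hi
    rw [run1]
    have e3 : decide (Q.p ≤ y1 + (i : ℤ)) = false := by
      simp only [decide_eq_false_iff_not]; omega
    exact real1' (by rw [e3]; exact b1) (by rw [e3]; exact b2) b3 (by omega)
  have hd : dir (1 + 1) = (1, 0) := rfl
  have hd1 : dir 1 = (0, 1) := rfl
  have hc : ((y1, Q.q - 1) : ℤ × ℤ) + n • dir (1 + 1) + dir (1 + 1) = (Q.p, Q.q - 1) := by
    simp only [hd, Prod.smul_mk, Prod.mk_add_mk, nsmul_eq_mul, mul_one, mul_zero, add_zero]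
    rw [hn]
    simp
  have hc' : ((y1, Q.q - 1) : ℤ × ℤ) + n • dir (1 + 1) + dir (1 + 1) + dir 1 = (Q.p, Q.q) := by
    rw [hc, hd1]
    simp
  have hcA : ((y1, Q.q - 1) : ℤ × ℤ) + n • dir (1 + 1) + dir (1 + 1) ∈ Q.A := by
    rw [hc, mem_A]
    refine ⟨⟨by simp only; omega, by simp only; omega⟩, ?_⟩
    simp only [cl]
    have e3 : decide (Q.p ≤ Q.p) = true := by simp
    have e4 : decide (Q.q ≤ Q.q - 1) = false := by simp
    rw [e3, e4]
    exact hP
  have hr' : ∀ i ≤ j, Q.Real (run ((y1, Q.q - 1) + n • dir (1 + 1) + dir (1 + 1) + dir 1)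
      (1 + 3) i) := by
    intro i hi
    rw [hc']
    show Q.Real (run (Q.p, Q.q) 0 i)
    rw [run0]
    have e3 : decide (Q.q ≤ Q.q + (i : ℤ)) = true := by simp
    exact real0' (by rw [e3]; exact a1) (by rw [e3]; exact a2) a3 (by omega)
  have hq0 : Q.qd ((run (y1, Q.q - 1) 1 0).1 + dir 1) = (false, true) := by
    rw [run1, hd1]
    simp only [qd, Prod.mk_add_mk, Prod.mk.injEq, decide_eq_true_eq, decide_eq_false_iff_not]
    omega
  have hq : Q.qd ((run (y1, Q.q - 1) 1 0).1 + dir 1) =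
      Q.qd ((run ((y1, Q.q - 1) + n • dir (1 + 1) + dir (1 + 1) + dir 1) (1 + 3) j).1 +
        dir (1 + 3)) := by
    have e4 : run ((Q.p, Q.q) : ℤ × ℤ) (1 + 3) j = ((Q.p, Q.q + j), 0) := run0 _ _ _
    have e5 : dir (1 + 3) = (-1, 0) := rfl
    rw [hq0, hc', e4, e5]
    simp only [qd, Prod.mk_add_mk]
    symm
    rw [Prod.mk.injEq, decide_eq_true_eq, decide_eq_false_iff_not]
    omega
  have := ch_reflex hr hcA hr' hq (by rw [hq0]; exact hP)
  rw [hc', run1] at this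
  have e4 : run ((Q.p, Q.q) : ℤ × ℤ) (1 + 3) j = ((Q.p, Q.q + j), 0) := run0 _ _ _
  rw [e4] at this
  simpa using this

/-- south side, west side above: convex corner -/
lemma pair30 {x2 y1 : ℤ} (hx : Q.Real ((Q.p, x2), 0)) (hy : Q.Real ((y1, Q.q), 3))
    (h : Q.q ≤ x2) : Q.Ch ((y1, Q.q), 3) ((Q.p, x2), 0) := by
  obtain ⟨-, a1, a2, a3, a4, a5⟩ := real0 hx
  obtain ⟨-, b1, b2, b3, b4, b5⟩ := real3 hy
  have e1 : decide (Q.q ≤ x2) = true := by simpa using h
  rw [e1] at a1 a2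
  have hyp : Q.p ≤ y1 := by
    by_contra hcon
    have e2 : decide (Q.p ≤ y1) = false := by simpa using hcon
    rw [e2, a2] at b1
    cases b1
  have e2 : decide (Q.p ≤ y1) = true := by simpa using hyp
  rw [e2] at b1 b2
  obtain ⟨n, hn⟩ := Int.le.dest hyp
  obtain ⟨j, rfl⟩ := Int.le.dest h
  have hr : ∀ i ≤ n, Q.Real (run (y1, Q.q) 3 i) := by
    intro i hi
    rw [run3]
    have e3 : decide (Q.p ≤ y1 - (i : ℤ)) = true := by
      simp only [decide_eq_true_eq]; omega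
    exact real3' (by rw [e3]; exact b1) (by rw [e3]; exact b2) b3 (by omega)
  have hd : dir (3 + 1) = (-1, 0) := rfl
  have hc : ((y1, Q.q) : ℤ × ℤ) + n • dir (3 + 1) = (Q.p, Q.q) := by
    simp only [hd, Prod.smul_mk, Prod.mk_add_mk, nsmul_eq_mul, mul_neg, mul_one, mul_zero, add_zero]
    congr 1
    omega
  have hr' : ∀ i ≤ j, Q.Real (run ((y1, Q.q) + n • dir (3 + 1)) (3 + 1) i) := by
    intro i hi
    rw [hc]
    show Q.Real (run (Q.p, Q.q) 0 i)
    rw [run0]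
    have e3 : decide (Q.q ≤ Q.q + (i : ℤ)) = true := by simp
    exact real0' (by rw [e3]; exact a1) (by rw [e3]; exact a2) a3 (by omega)
  have hq : Q.qd (run (y1, Q.q) 3 0).1 =
      Q.qd (run ((y1, Q.q) + n • dir (3 + 1)) (3 + 1) j).1 := by
    have e4 : run ((Q.p, Q.q) : ℤ × ℤ) (3 + 1) j = ((Q.p, Q.q + j), 0) := run0 _ _ _
    rw [hc, run3, e4]
    simp only [qd, Prod.mk.injEq, decide_eq_decide]
    omega
  have := ch_convex hr hr' hq
  rw [hc, run3] at this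
  have e4 : run ((Q.p, Q.q) : ℤ × ℤ) (3 + 1) j = ((Q.p, Q.q + j), 0) := run0 _ _ _
  rw [e4] at this
  simpa using this

/-- west side below the corner, south side left: reflex corner -/
lemma pair03 {x2 y1 : ℤ} (hx : Q.Real ((Q.p, x2), 0)) (hy : Q.Real ((y1, Q.q), 3))
    (h : ¬ Q.q ≤ x2) (hP : Q.P true true = true) : Q.Ch ((Q.p, x2), 0) ((y1, Q.q), 3) := by
  obtain ⟨-, a1, a2, a3, a4, a5⟩ := real0 hx
  obtain ⟨-, b1, b2, b3, b4, b5⟩ := real3 hy
  have e1 : decide (Q.q ≤ x2) = false := by simpa using h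
  rw [e1] at a1 a2
  have hyp : ¬ Q.p ≤ y1 := by
    intro hcon
    have e2 : decide (Q.p ≤ y1) = true := by simpa using hcon
    rw [e2, a1] at b2
    cases b2
  have e2 : decide (Q.p ≤ y1) = false := by simpa using hyp
  rw [e2] at b1 b2
  obtain ⟨n, hn⟩ := Int.le.dest (show x2 ≤ Q.q - 1 by omega)
  obtain ⟨j, hj⟩ := Int.le.dest (show y1 ≤ Q.p - 1 by omega)
  have hr : ∀ i ≤ n, Q.Real (run (Q.p, x2) 0 i) := by
    intro i hi
    rw [run0]
    have e3 : decide (Q.q ≤ x2 + (i : ℤ)) = false := by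
      simp only [decide_eq_false_iff_not]; omega
    exact real0' (by rw [e3]; exact a1) (by rw [e3]; exact a2) a3 (by omega)
  have hd : dir (0 + 1) = (0, 1) := rfl
  have hd0 : dir 0 = (-1, 0) := rfl
  have hc : ((Q.p, x2) : ℤ × ℤ) + n • dir (0 + 1) + dir (0 + 1) = (Q.p, Q.q) := by
    simp only [hd, Prod.smul_mk, Prod.mk_add_mk, nsmul_eq_mul, mul_one, mul_zero, add_zero]
    rw [hn]
    simp
  have hc' : ((Q.p, x2) : ℤ × ℤ) + n • dir (0 + 1) + dir (0 + 1) + dir 0 = (Q.p - 1, Q.q) := by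
    rw [hc, hd0]
    simp [sub_eq_add_neg]
  have hcA : ((Q.p, x2) : ℤ × ℤ) + n • dir (0 + 1) + dir (0 + 1) ∈ Q.A := by
    rw [hc, mem_A]
    refine ⟨⟨by simp only; omega, by simp only; omega⟩, ?_⟩
    simp only [cl]
    have e3 : decide (Q.p ≤ Q.p) = true := by simp
    have e4 : decide (Q.q ≤ Q.q) = true := by simp
    rw [e3, e4]
    exact hP
  have hr' : ∀ i ≤ j, Q.Real (run ((Q.p, x2) + n • dir (0 + 1) + dir (0 + 1) + dir 0)
      (0 + 3) i) := by
    intro i hi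
    rw [hc']
    show Q.Real (run (Q.p - 1, Q.q) 3 i)
    rw [run3]
    have e3 : decide (Q.p ≤ Q.p - 1 - (i : ℤ)) = false := by
      simp only [decide_eq_false_iff_not]; omega
    exact real3' (by rw [e3]; exact b1) (by rw [e3]; exact b2) b3 (by omega)
  have hq0 : Q.qd ((run (Q.p, x2) 0 0).1 + dir 0) = (false, false) := by
    rw [run0, hd0]
    simp only [qd, Prod.mk_add_mk, Prod.mk.injEq, decide_eq_true_eq, decide_eq_false_iff_not]
    omega
  have hq : Q.qd ((run (Q.p, x2) 0 0).1 + dir 0) =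
      Q.qd ((run ((Q.p, x2) + n • dir (0 + 1) + dir (0 + 1) + dir 0) (0 + 3) j).1 +
        dir (0 + 3)) := by
    have e4 : run ((Q.p - 1, Q.q) : ℤ × ℤ) (0 + 3) j = ((Q.p - 1 - j, Q.q), 3) := run3 _ _ _
    have e5 : dir (0 + 3) = (0, -1) := rfl
    rw [hq0, hc', e4, e5]
    simp only [qd, Prod.mk_add_mk]
    symm
    rw [Prod.mk.injEq, decide_eq_false_iff_not, decide_eq_false_iff_not]
    omega
  have := ch_reflex hr hcA hr' hq (by rw [hq0]; exact hP)
  rw [hc', run0] at this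
  have e4 : run ((Q.p - 1, Q.q) : ℤ × ℤ) (0 + 3) j = ((Q.p - 1 - j, Q.q), 3) := run3 _ _ _
  rw [e4] at this
  have e5 : Q.p - 1 - (j : ℤ) = y1 := by omega
  rw [e5] at this
  simpa using this

/-- two real ends, the first one on a west side -/
lemma pair_zero {x y : (ℤ × ℤ) × ZMod 4} (hx : Q.Real x) (hy : Q.Real y) (hxy : x ≠ y)
    (hp : CPath {t | t ∈ Q.A} x.1 y.1) (h0 : x.2 = 0) : Q.Ch x y ∨ Q.Ch y x := by
  obtain ⟨⟨x1, x2⟩, d⟩ := x
  obtain ⟨⟨y1, y2⟩, d'⟩ := y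
  simp only at h0
  subst h0
  obtain ⟨rfl, a1, a2, a3, a4, a5⟩ := real0 hx
  rcases Xr249.Reg.d4 d' with rfl | rfl | rfl | rfl
  · -- west
    obtain ⟨rfl, -, -, -, -, -⟩ := real0 hy
    rcases lt_trichotomy x2 y2 with h | h | h
    · exact Or.inl (pair00 hx hy h)
    · exact absurd (by rw [h]) hxy
    · exact Or.inr (pair00 hy hx h)
  · -- north
    obtain ⟨rfl, b1, b2, -, -, -⟩ := real1 hy
    by_cases h : Q.q ≤ x2
    · by_cases hP : Q.P true false = true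
      · exact Or.inr (pair10 hx hy h hP)
      · exfalso
        rw [Bool.not_eq_true] at hP
        have e1 : decide (Q.q ≤ x2) = true := by simpa using h
        rw [e1] at a1 a2
        have hpy : ¬ Q.p ≤ y1 := by
          intro hcon
          have e2 : decide (Q.p ≤ y1) = true := by simpa using hcon
          rw [e2, hP] at b1
          cases b1
        exact hpy ((path_const (j0 := false) hP a2 hp).1 le_rfl)
    · exact Or.inl (pair01 hx hy h)
  · -- east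
    exfalso
    obtain ⟨rfl, b1, b2⟩ := real2 hy
    by_cases h : Q.q ≤ x2
    · have e1 : decide (Q.q ≤ x2) = true := by simpa using h
      rw [e1] at a1 a2
      by_cases h' : Q.q ≤ y2
      · have e2 : decide (Q.q ≤ y2) = true := by simpa using h'
        rw [e2, a1] at b2
        cases b2
      · have e2 : decide (Q.q ≤ y2) = false := by simpa using h'
        rw [e2] at b1 b2
        have := (path_const (j0 := false) b2 a2 hp).1 le_rfl
        simp only at this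
        omega
    · have e1 : decide (Q.q ≤ x2) = false := by simpa using h
      rw [e1] at a1 a2
      by_cases h' : Q.q ≤ y2
      · have e2 : decide (Q.q ≤ y2) = true := by simpa using h'
        rw [e2] at b1 b2
        have := (path_const (j0 := true) b2 a2 hp).1 le_rfl
        simp only at this
        omega
      · have e2 : decide (Q.q ≤ y2) = false := by simpa using h'
        rw [e2, a1] at b2
        cases b2
  · -- south
    obtain ⟨rfl, b1, b2, -, -, -⟩ := real3 hy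
    by_cases h : Q.q ≤ x2
    · exact Or.inr (pair30 hx hy h)
    · by_cases hP : Q.P true true = true
      · exact Or.inl (pair03 hx hy h hP)
      · exfalso
        rw [Bool.not_eq_true] at hP
        have e1 : decide (Q.q ≤ x2) = false := by simpa using h
        rw [e1] at a1 a2
        have hpy : ¬ Q.p ≤ y1 := by
          intro hcon
          have e2 : decide (Q.p ≤ y1) = true := by simpa using hcon
          rw [e2, hP] at b1
          cases b1
        exact hpy ((path_const (j0 := true) hP a2 hp).1 le_rfl)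

/-- **two different real ends of the same component** -/
theorem pair {x y : (ℤ × ℤ) × ZMod 4} (hx : Q.Real x) (hy : Q.Real y) (hxy : x ≠ y)
    (hp : CPath {t | t ∈ Q.A} x.1 y.1) : Q.Ch x y ∨ Q.Ch y x := by
  have step : ∀ {Q : Quad} {x y : (ℤ × ℤ) × ZMod 4} (d : ZMod 4),
      (∀ {Q : Quad} {x y : (ℤ × ℤ) × ZMod 4}, Q.Real x → Q.Real y → x ≠ y →
        CPath {t | t ∈ Q.A} x.1 y.1 → x.2 = d + 1 → Q.Ch x y ∨ Q.Ch y x) →
      Q.Real x → Q.Real y → x ≠ y → CPath {t | t ∈ Q.A} x.1 y.1 → x.2 = d →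
      Q.Ch x y ∨ Q.Ch y x := by
    intro Q x y d ih hx hy hxy hp hd
    have h1 := ih (Q := Q.rt) (x := rp x) (y := rp y) (rt_real.2 hx) (rt_real.2 hy)
      (fun h => hxy (by rw [← rpi_rp x, h, rpi_rp])) (rt_path hp) (by simp only [rp, hd])
    exact h1.imp rt_ch rt_ch
  have e0 : (3 : ZMod 4) + 1 = 0 := by decide
  have e3 : (2 : ZMod 4) + 1 = 3 := by decide
  have e2 : (1 : ZMod 4) + 1 = 2 := by decide
  have s3 : ∀ {Q : Quad} {x y : (ℤ × ℤ) × ZMod 4}, Q.Real x → Q.Real y → x ≠ y →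
        CPath {t | t ∈ Q.A} x.1 y.1 → x.2 = 3 → Q.Ch x y ∨ Q.Ch y x := fun hx hy hxy hp hd =>
    step 3 (fun hx hy hxy hp h => pair_zero hx hy hxy hp (h.trans e0)) hx hy hxy hp hd
  have s2 : ∀ {Q : Quad} {x y : (ℤ × ℤ) × ZMod 4}, Q.Real x → Q.Real y → x ≠ y →
        CPath {t | t ∈ Q.A} x.1 y.1 → x.2 = 2 → Q.Ch x y ∨ Q.Ch y x := fun hx hy hxy hp hd =>
    step 2 (fun hx hy hxy hp h => s3 hx hy hxy hp (h.trans e3)) hx hy hxy hp hd
  have s1 : ∀ {Q : Quad} {x y : (ℤ × ℤ) × ZMod 4}, Q.Real x → Q.Real y → x ≠ y →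
        CPath {t | t ∈ Q.A} x.1 y.1 → x.2 = 1 → Q.Ch x y ∨ Q.Ch y x := fun hx hy hxy hp hd =>
    step 1 (fun hx hy hxy hp h => s2 hx hy hxy hp (h.trans e2)) hx hy hxy hp hd
  rcases Xr249.Reg.d4 x.2 with h | h | h | h
  · exact pair_zero hx hy hxy hp h
  · exact s1 hx hy hxy hp h
  · exact s2 hx hy hxy hp h
  · exact s3 hx hy hxy hp h

/-- a strand stays in its component -/
lemma wk_path {A : Finset (ℤ × ℤ)} {s : ℤ × ℤ → Bool} {x y : (ℤ × ℤ) × ZMod 4}
    {k : List ((ℤ × ℤ) × ZMod 4)} (hx : x.1 ∈ A) (h : Wk s (RG (full A)) x y k) :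
    CPath {t | t ∈ A} x.1 y.1 := by
  have := (wk_comp h (v := x.1) (mem_comp.2 ⟨hx, .refl⟩)).2
  exact (mem_comp.1 this).2

/-- **a strand of the region joining two real ends**: up to exchanging the ends, there is a
clockwise chain `x → y` of real ends of turning `D`; the turning of the strand is `D - 2` and the
ends under it are joined among themselves -/
theorem arc {s : ℤ × ℤ → Bool} {x y : (ℤ × ℤ) × ZMod 4} {k : List ((ℤ × ℤ) × ZMod 4)}
    (hx : Q.Real x) (hy : Q.Real y) (hw : Wk s (RG (full Q.A)) x y k) (hxy : x ≠ y) :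
    (∃ D l, CwR (full Q.A).gl x y D l ∧ (∀ z ∈ l, Q.Real z) ∧ x ∉ l ∧ Q.Typ x y D ∧
      tt s k = D - 2 ∧ ∀ z ∈ l.dropLast, ∃ z' ∈ l.dropLast, ∃ k',
        Wk s (RG (full Q.A)) z z' k') ∨
    (∃ D l, CwR (full Q.A).gl y x D l ∧ (∀ z ∈ l, Q.Real z) ∧ y ∉ l ∧ Q.Typ y x D ∧
      tt s k = - (D - 2) ∧ ∀ z ∈ l.dropLast, ∃ z' ∈ l.dropLast, ∃ k',
        Wk s (RG (full Q.A)) z z' k') := by
  have key : ∀ {x y : (ℤ × ℤ) × ZMod 4} {k : List ((ℤ × ℤ) × ZMod 4)}, Q.Real x → Q.Real y →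
      Wk s (RG (full Q.A)) x y k → x ≠ y → Q.Ch x y →
      ∃ D l, CwR (full Q.A).gl x y D l ∧ (∀ z ∈ l, Q.Real z) ∧ x ∉ l ∧ Q.Typ x y D ∧
      tt s k = D - 2 ∧ ∀ z ∈ l.dropLast, ∃ z' ∈ l.dropLast, ∃ k',
        Wk s (RG (full Q.A)) z z' k' := by
    rintro x y k hx hy hw hxy ⟨D, l, h1, h2, h3, h4, h5⟩
    obtain ⟨h6, h7⟩ := h1.toC h2
    obtain ⟨h8, h9⟩ := full_both Q.hole (Real.ffree Q hx) (Real.ffree Q hy) hw h6 hxy.symm
      (fun h => h3 (List.mem_of_mem_dropLast h))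
    exact ⟨D, l, h1, h4, h3, h5, h8, h9⟩
  rcases pair hx hy hxy (wk_path hx.1 hw) with h | h
  · exact Or.inl (key hx hy hw hxy h)
  · right
    obtain ⟨D, l, h1, h2, h3, h4, h5, h6⟩ := key hy hx
      (hw.reverse (rg_glu (full Q.A)).sym) hxy.symm h
    rw [tt_rv] at h5
    exact ⟨D, l, h1, h2, h3, h4, by linarith, h6⟩

/-- **closed strands of the region** -/
theorem loop {s : ℤ × ℤ → Bool} {k : List ((ℤ × ℤ) × ZMod 4)} (h : Cl s (RG (full Q.A)) k)
    (hP : ∀ p ∈ k, p.1 ∈ Q.A) : tt s k = 4 ∨ tt s k = -4 := full_loop Q.hole h hP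

end Quad

end Crest.Agent.R158.Pt266
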