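import Crest.Agent.R158.Pv1_470

/-!
R158, block P (helper470), part 2: discrete Cauchy-Riemann relation => holomorphic limit.
-/

set_option autoImplicit false
open Complex MeasureTheory Metric Set Topology Filter
open scoped Interval ComplexConjugate

namespace Crest.Agent.R158.Pv470

/-- Riemann sums with step `δ`. -/
theorem riemann_step {g : ℝ → ℂ} {a δ e : ℝ} (hδ : 0 ≤ δ) {G : ℕ → ℂ} : ∀ (N : ℕ),
    ContinuousOn g (Icc a (a + N * δ)) →
    (∀ k < N, ∀ x ∈ Icc (a + k * δ) (a + (k + 1) * δ), ‖G k - g x‖ ≤ e) →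
    ‖(δ : ℂ) * ∑ k ∈ Finset.range N, G k - ∫ x in a..(a + N * δ), g x‖ ≤ N * (e * δ) := by
  intro N
  induction N with
  | zero => intro _ _; simp
  | succ N ih =>
    intro hg h
    have hle : a + N * δ ≤ a + (N + 1 : ℕ) * δ := by push_cast; nlinarith
    have ha : a ≤ a + N * δ := by
      have : (0 : ℝ) ≤ N * δ := by positivity
      linarith
    have h1 := ih (hg.mono (Icc_subset_Icc_right hle)) (fun k hk => h k (hk.trans (Nat.lt_succ_self N)))
    have i1 : IntervalIntegrable g volume a (a + N * δ) := by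
      apply ContinuousOn.intervalIntegrable
      rw [uIcc_of_le ha]; exact hg.mono (Icc_subset_Icc_right hle)
    have i2 : IntervalIntegrable g volume (a + N * δ) (a + (N + 1 : ℕ) * δ) := by
      apply ContinuousOn.intervalIntegrable
      rw [uIcc_of_le hle]; exact hg.mono (Icc_subset_Icc_left ha)
    rw [← intervalIntegral.integral_add_adjacent_intervals i1 i2, Finset.sum_range_succ]
    have h2 : ‖(δ : ℂ) * G N - ∫ x in (a + N * δ)..(a + (N + 1 : ℕ) * δ), g x‖ ≤ e * δ := by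
      have : (δ : ℂ) * G N = ∫ x in (a + N * δ)..(a + (N + 1 : ℕ) * δ), G N := by
        rw [intervalIntegral.integral_const, Complex.real_smul]
        push_cast
        ring_nf
      rw [this, ← intervalIntegral.integral_sub intervalIntegrable_const i2]
      have hb := intervalIntegral.norm_integral_le_of_norm_le_const
        (a := a + N * δ) (b := a + (N + 1 : ℕ) * δ) (f := fun x => G N - g x) (C := e) (by
          intro x hx
          rw [uIoc_of_le hle] at hx
          apply h N (Nat.lt_succ_self N)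
          refine ⟨hx.1.le, ?_⟩
          have := hx.2
          push_cast at this
          exact this)
      refine hb.trans (le_of_eq ?_)
      rw [abs_of_nonneg (by linarith)]
      push_cast; ring
    calc _ = ‖((δ : ℂ) * ∑ k ∈ Finset.range N, G k - ∫ x in a..(a + N * δ), g x) +
          ((δ : ℂ) * G N - ∫ x in (a + N * δ)..(a + (N + 1 : ℕ) * δ), g x)‖ := by
            congr 1; ring
      _ ≤ N * (e * δ) + e * δ := (norm_add_le _ _).trans (add_le_add h1 h2)
      _ = _ := by push_cast; ring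

/-- number of steps used for the interval `[a,b]` -/
noncomputable def stp (a b δ : ℝ) : ℕ := ⌊(b - a) / δ⌋₊ - 1

theorem stp_spec {a b δ : ℝ} (hδ : 0 < δ) (hδ' : 2 * δ ≤ b - a) :
    (stp a b δ + 1 : ℝ) * δ ≤ b - a ∧ b - a ≤ (stp a b δ + 2 : ℝ) * δ := by
  have h1 : (2 : ℝ) ≤ (b - a) / δ := by rwa [le_div_iff₀ hδ]
  have h2 : 2 ≤ ⌊(b - a) / δ⌋₊ := Nat.le_floor (by exact_mod_cast h1)
  have h3 : ((⌊(b - a) / δ⌋₊ : ℕ) : ℝ) ≤ (b - a) / δ := Nat.floor_le (by linarith)
  have h4 : (b - a) / δ < (⌊(b - a) / δ⌋₊ : ℕ) + 1 := Nat.lt_floor_add_one _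
  have h5 : ((stp a b δ : ℕ) : ℝ) = (⌊(b - a) / δ⌋₊ : ℕ) - 1 := by
    rw [stp, Nat.cast_sub (by omega)]; simp
  rw [h5]
  constructor
  · have := (le_div_iff₀ hδ).1 h3
    linarith
  · have := (div_lt_iff₀ hδ).1 h4
    nlinarith

theorem edge_est {g : ℝ → ℂ} {a b δ e M : ℝ} (hδ : 0 < δ) (hδ' : 2 * δ ≤ b - a) (he : 0 ≤ e)
    (hg : ContinuousOn g (Icc a b)) (hM : ∀ x ∈ Icc a b, ‖g x‖ ≤ M) {G : ℕ → ℂ}
    (h : ∀ k < stp a b δ, ∀ x ∈ Icc (a + k * δ) (a + (k + 1) * δ), ‖G k - g x‖ ≤ e) :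
    ‖(δ : ℂ) * ∑ k ∈ Finset.range (stp a b δ), G k - ∫ x in a..b, g x‖ ≤
      (b - a) * e + 2 * δ * M := by
  obtain ⟨s1, s2⟩ := stp_spec hδ hδ'
  set N := stp a b δ
  have hN : a + N * δ ≤ b := by nlinarith
  have haN : a ≤ a + N * δ := by
    have : (0 : ℝ) ≤ N * δ := by positivity
    linarith
  have i1 : IntervalIntegrable g volume a (a + N * δ) := by
    apply ContinuousOn.intervalIntegrable
    rw [uIcc_of_le haN]; exact hg.mono (Icc_subset_Icc_right hN)
  have i2 : IntervalIntegrable g volume (a + N * δ) b := by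
    apply ContinuousOn.intervalIntegrable
    rw [uIcc_of_le hN]; exact hg.mono (Icc_subset_Icc_left haN)
  have h1 := riemann_step hδ.le N (hg.mono (Icc_subset_Icc_right hN)) h
  have h2 : ‖∫ x in (a + N * δ)..b, g x‖ ≤ M * (b - (a + N * δ)) := by
    have := intervalIntegral.norm_integral_le_of_norm_le_const
      (a := a + N * δ) (b := b) (f := g) (C := M) (by
        intro x hx
        rw [uIoc_of_le hN] at hx
        exact hM x ⟨haN.trans hx.1.le, hx.2⟩)
    rwa [abs_of_nonneg (by linarith)] at this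
  have hM0 : 0 ≤ M := (norm_nonneg _).trans (hM a ⟨le_rfl, haN.trans hN⟩)
  rw [← intervalIntegral.integral_add_adjacent_intervals i1 i2]
  calc _ = ‖((δ : ℂ) * ∑ k ∈ Finset.range N, G k - ∫ x in a..(a + N * δ), g x) -
        ∫ x in (a + N * δ)..b, g x‖ := by congr 1; ring
    _ ≤ N * (e * δ) + M * (b - (a + N * δ)) := (norm_sub_le _ _).trans (add_le_add h1 h2)
    _ ≤ _ := by
      have h3 : b - (a + N * δ) ≤ 2 * δ := by nlinarith
      have h4 : N * (e * δ) ≤ (b - a) * e := by nlinarith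
      nlinarith

/-- telescoping identity in a box -/
theorem box_sum (F : ℕ → ℕ → ℂ) (s : ℂ) (N1 N2 : ℕ) :
    ∑ i ∈ Finset.range N1, ∑ j ∈ Finset.range N2,
      ((F i (j + 1) - F i j) - s * (F (i + 1) j - F i j)) =
    (∑ i ∈ Finset.range N1, F i N2 - ∑ i ∈ Finset.range N1, F i 0) -
      s * (∑ j ∈ Finset.range N2, F N1 j - ∑ j ∈ Finset.range N2, F 0 j) := by
  simp only [Finset.sum_sub_distrib, ← Finset.mul_sum]
  congr 1
  · rw [← Finset.sum_sub_distrib, ← Finset.sum_sub_distrib]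
    refine Finset.sum_congr rfl fun i _ => ?_
    rw [← Finset.sum_sub_distrib, Finset.sum_range_sub (fun j => F i j)]
  · congr 1
    rw [← Finset.sum_sub_distrib]
    exact Finset.sum_range_sub (fun i => ∑ j ∈ Finset.range N2, F i j) N1

/-- lattice positions: mesh `δ`, offset `o` -/
noncomputable def pos (o : ℂ) (δ : ℝ) (i j : ℤ) : ℂ := o + δ * (i + j * I)

theorem pos_re (o : ℂ) (δ : ℝ) (i j : ℤ) : (pos o δ i j).re = o.re + δ * i := by
  simp [pos]

theorem pos_im (o : ℂ) (δ : ℝ) (i j : ℤ) : (pos o δ i j).im = o.im + δ * j := by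
  simp [pos]

theorem isCompact_Rc (a b c d : ℝ) : IsCompact (Rc a b c d) :=
  (isCompact_Icc).reProdIm isCompact_Icc

/-- **discrete contour identity in the limit** for one closed rectangle. -/
theorem contour_of_discrete {ι : Type*} {l : Filter ι} [l.NeBot] {δ : ι → ℝ}
    (hδ : ∀ᶠ n in l, 0 < δ n) (hδ0 : Tendsto δ l (𝓝 0)) {o : ι → ℂ} {H : ι → ℤ → ℤ → ℂ}
    {h : ℂ → ℂ} {s : ℂ} {a b c d : ℝ} (hab : a < b) (hcd : c < d)
    (hc : ContinuousOn h (Rc a b c d))
    (hconv : ∀ ε > 0, ∀ᶠ n in l, ∀ i j, pos (o n) (δ n) i j ∈ Rc a b c d →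
      ‖H n i j - h (pos (o n) (δ n) i j)‖ ≤ ε)
    (hdisc : ∀ ε > 0, ∀ᶠ n in l, ∀ i j, pos (o n) (δ n) i j ∈ Rc a b c d →
      ‖(H n i (j + 1) - H n i j) - s * (H n (i + 1) j - H n i j)‖ ≤ ε * δ n) :
    (∫ x in a..b, h (x + d * I)) - (∫ x in a..b, h (x + c * I)) =
      s * ((∫ y in c..d, h (b + y * I)) - ∫ y in c..d, h (a + y * I)) := by
  obtain ⟨M, hM⟩ := (isCompact_Rc a b c d).exists_bound_of_continuousOn hc
  have hM0 : 0 ≤ M := (norm_nonneg _).trans
    (hM (⟨a, c⟩ : ℂ) (mem_Rc.2 ⟨⟨le_rfl, hab.le⟩, le_rfl, hcd.le⟩))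
  have huc : UniformContinuousOn h (Rc a b c d) :=
    (isCompact_Rc a b c d).uniformContinuousOn_of_continuous hc
  -- it suffices to bound by `K ε`
  set K : ℝ := (b - a) * (d - c) + (4 * (b - a) + 4 * ‖s‖ * (d - c)) + 4 * (1 + ‖s‖) * M with hK
  have hK0 : 0 ≤ K := by
    have h1 : 0 < b - a := sub_pos.2 hab
    have h2 : 0 < d - c := sub_pos.2 hcd
    have h3 := norm_nonneg s
    positivity
  suffices hmain : ∀ ε > 0, ‖(∫ x in a..b, h (x + d * I)) - (∫ x in a..b, h (x + c * I)) -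
      s * ((∫ y in c..d, h (b + y * I)) - ∫ y in c..d, h (a + y * I))‖ ≤ K * ε by
    rw [← sub_eq_zero, ← norm_eq_zero]
    refine le_antisymm (le_of_forall_pos_le_add fun ε hε => ?_) (norm_nonneg _)
    have h1 := hmain (ε / (K + 1)) (by positivity)
    have h2 : K * (ε / (K + 1)) ≤ ε := by
      rw [mul_div_assoc', div_le_iff₀ (by positivity)]
      nlinarith
    linarith
  intro ε hε
  obtain ⟨η, hη, hη'⟩ := Metric.uniformContinuousOn_iff.1 huc ε hε
  have e1 : ∀ᶠ n in l, δ n < η / 8 := hδ0.eventually_lt_const (by positivity)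
  have e2 : ∀ᶠ n in l, δ n < ε := hδ0.eventually_lt_const hε
  have e3 : ∀ᶠ n in l, δ n < (b - a) / 2 := hδ0.eventually_lt_const (by linarith)
  have e4 : ∀ᶠ n in l, δ n < (d - c) / 2 := hδ0.eventually_lt_const (by linarith)
  obtain ⟨n, hn0, hn1, hn2, hn3, hn4, hn5, hn6⟩ :=
    (hδ.and (e1.and (e2.and (e3.and (e4.and ((hconv ε hε).and (hdisc ε hε))))))).exists
  set t := δ n
  set N1 := stp a b t
  set N2 := stp c d t
  obtain ⟨s1, s2⟩ := stp_spec (a := a) (b := b) hn0 (by linarith)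
  obtain ⟨s3, s4⟩ := stp_spec (a := c) (b := d) hn0 (by linarith)
  set i0 : ℤ := ⌈(a - (o n).re) / t⌉
  set j0 : ℤ := ⌈(c - (o n).im) / t⌉
  have hi0 : a ≤ (o n).re + t * i0 ∧ (o n).re + t * i0 ≤ a + t := by
    have h1 := Int.le_ceil ((a - (o n).re) / t)
    have h2 := (Int.ceil_lt_add_one ((a - (o n).re) / t)).le
    rw [div_le_iff₀ hn0] at h1
    constructor
    · nlinarith
    · have : (i0 : ℝ) * t ≤ ((a - (o n).re) / t + 1) * t := mul_le_mul_of_nonneg_right h2 hn0.le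
      rw [add_mul, div_mul_cancel₀ _ hn0.ne'] at this
      nlinarith
  have hj0 : c ≤ (o n).im + t * j0 ∧ (o n).im + t * j0 ≤ c + t := by
    have h1 := Int.le_ceil ((c - (o n).im) / t)
    have h2 := (Int.ceil_lt_add_one ((c - (o n).im) / t)).le
    rw [div_le_iff₀ hn0] at h1
    constructor
    · nlinarith
    · have : (j0 : ℝ) * t ≤ ((c - (o n).im) / t + 1) * t := mul_le_mul_of_nonneg_right h2 hn0.le
      rw [add_mul, div_mul_cancel₀ _ hn0.ne'] at this
      nlinarith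
  set F : ℕ → ℕ → ℂ := fun i j => H n (i0 + i) (j0 + j) with hF
  have pre : ∀ i j : ℕ, (pos (o n) t (i0 + i) (j0 + j)).re = ((o n).re + t * i0) + i * t := by
    intro i j; rw [pos_re]; push_cast; ring
  have pim : ∀ i j : ℕ, (pos (o n) t (i0 + i) (j0 + j)).im = ((o n).im + t * j0) + j * t := by
    intro i j; rw [pos_im]; push_cast; ring
  have hmem : ∀ i ≤ N1, ∀ j ≤ N2, pos (o n) t (i0 + i) (j0 + j) ∈ Rc a b c d := by
    intro i hi j hj
    have hi' : (i : ℝ) * t ≤ N1 * t := mul_le_mul_of_nonneg_right (by exact_mod_cast hi) hn0.le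
    have hj' : (j : ℝ) * t ≤ N2 * t := mul_le_mul_of_nonneg_right (by exact_mod_cast hj) hn0.le
    have hi0' : (0 : ℝ) ≤ i * t := mul_nonneg (Nat.cast_nonneg i) hn0.le
    have hj0' : (0 : ℝ) ≤ j * t := mul_nonneg (Nat.cast_nonneg j) hn0.le
    rw [mem_Rc, pre, pim]
    refine ⟨⟨?_, ?_⟩, ?_, ?_⟩ <;> linarith [hi0.1, hi0.2, hj0.1, hj0.2]
  -- pointwise closeness
  have hclose : ∀ i ≤ N1, ∀ j ≤ N2, ∀ z ∈ Rc a b c d,
      |((o n).re + t * i0) + i * t - z.re| ≤ 3 * t → |((o n).im + t * j0) + j * t - z.im| ≤ 3 * t →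
      ‖F i j - h z‖ ≤ 2 * ε := by
    intro i hi j hj z hz h1 h2
    have h3 := hn5 (i0 + i) (j0 + j) (hmem i hi j hj)
    have h4 : dist (pos (o n) t (i0 + i) (j0 + j)) z < η := by
      rw [Complex.dist_eq]
      have h5 := Complex.norm_le_abs_re_add_abs_im (pos (o n) t (i0 + i) (j0 + j) - z)
      rw [sub_re, sub_im, pre, pim] at h5
      linarith
    have h6 := (hη' _ (hmem i hi j hj) z hz h4).le
    rw [dist_eq_norm] at h6
    calc ‖F i j - h z‖ = ‖(H n (i0 + i) (j0 + j) - h (pos (o n) t (i0 + i) (j0 + j))) +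
          (h (pos (o n) t (i0 + i) (j0 + j)) - h z)‖ := by rw [hF]; congr 1; ring
      _ ≤ ε + ε := (norm_add_le _ _).trans (add_le_add h3 h6)
      _ = 2 * ε := by ring
  have hN1le : (N1 : ℝ) * t ≤ b - a := by linarith
  have hN2le : (N2 : ℝ) * t ≤ d - c := by linarith
  -- the four edges
  have hor : ∀ j ≤ N2, ∀ y ∈ Icc c d, |((o n).im + t * j0) + j * t - y| ≤ 3 * t →
      ‖(t : ℂ) * ∑ i ∈ Finset.range N1, F i j - ∫ x in a..b, h (x + y * I)‖ ≤
        (b - a) * (2 * ε) + 2 * t * M := by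
    intro j hj y hy hyj
    refine edge_est hn0 (by linarith) (by positivity) (cont_hor hc hy) ?_ ?_
    · intro x hx
      exact hM _ (mem_Rc.2 (by simpa using ⟨hx, hy⟩))
    · intro k hk x hx
      have hk1 : (k : ℝ) + 1 ≤ N1 := by exact_mod_cast hk
      have hk' : ((k : ℝ) + 1) * t ≤ N1 * t := mul_le_mul_of_nonneg_right hk1 hn0.le
      have hk0 : (0 : ℝ) ≤ k * t := mul_nonneg (Nat.cast_nonneg k) hn0.le
      obtain ⟨hx1, hx2⟩ := hx
      have hx' : x ∈ Icc a b := ⟨by linarith, by linarith⟩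
      refine hclose k hk.le j hj _ (mem_Rc.2 (by simpa using ⟨hx', hy⟩)) ?_ (by simpa using hyj)
      have : ((x : ℂ) + y * I).re = x := by simp
      rw [this, abs_le]
      constructor <;> linarith [hi0.1, hi0.2]
  have ver : ∀ i ≤ N1, ∀ x ∈ Icc a b, |((o n).re + t * i0) + i * t - x| ≤ 3 * t →
      ‖(t : ℂ) * ∑ j ∈ Finset.range N2, F i j - ∫ y in c..d, h (x + y * I)‖ ≤
        (d - c) * (2 * ε) + 2 * t * M := by
    intro i hi x hx hxi
    refine edge_est hn0 (by linarith) (by positivity) (cont_ver hc hx) ?_ ?_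
    · intro y hy
      exact hM _ (mem_Rc.2 (by simpa using ⟨hx, hy⟩))
    · intro k hk y hy
      have hk1 : (k : ℝ) + 1 ≤ N2 := by exact_mod_cast hk
      have hk' : ((k : ℝ) + 1) * t ≤ N2 * t := mul_le_mul_of_nonneg_right hk1 hn0.le
      have hk0 : (0 : ℝ) ≤ k * t := mul_nonneg (Nat.cast_nonneg k) hn0.le
      obtain ⟨hy1, hy2⟩ := hy
      have hy' : y ∈ Icc c d := ⟨by linarith, by linarith⟩
      refine hclose i hi k hk.le _ (mem_Rc.2 (by simpa using ⟨hx, hy'⟩)) (by simpa using hxi) ?_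
      have : ((x : ℂ) + y * I).im = y := by simp
      rw [this, abs_le]
      constructor <;> linarith [hj0.1, hj0.2]
  have hB := hor 0 (Nat.zero_le _) c (left_mem_Icc.2 hcd.le) (by
    rw [abs_le]; constructor <;> (push_cast; linarith [hj0.1, hj0.2]))
  have hT := hor N2 le_rfl d (right_mem_Icc.2 hcd.le) (by
    rw [abs_le]; constructor <;> linarith [hj0.1, hj0.2])
  have hL := ver 0 (Nat.zero_le _) a (left_mem_Icc.2 hab.le) (by
    rw [abs_le]; constructor <;> (push_cast; linarith [hi0.1, hi0.2]))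
  have hR := ver N1 le_rfl b (right_mem_Icc.2 hab.le) (by
    rw [abs_le]; constructor <;> linarith [hi0.1, hi0.2])
  -- discrete identity
  have hD : ‖(t : ℂ) * ((∑ i ∈ Finset.range N1, F i N2 - ∑ i ∈ Finset.range N1, F i 0) -
      s * (∑ j ∈ Finset.range N2, F N1 j - ∑ j ∈ Finset.range N2, F 0 j))‖ ≤
      (b - a) * (d - c) * ε := by
    rw [← box_sum F s N1 N2, norm_mul, norm_real, Real.norm_eq_abs, abs_of_pos hn0]
    have h1 : ‖∑ i ∈ Finset.range N1, ∑ j ∈ Finset.range N2,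
        ((F i (j + 1) - F i j) - s * (F (i + 1) j - F i j))‖ ≤ N1 * (N2 * (ε * t)) := by
      refine (norm_sum_le _ _).trans ?_
      have : ∀ i ∈ Finset.range N1, ‖∑ j ∈ Finset.range N2,
          ((F i (j + 1) - F i j) - s * (F (i + 1) j - F i j))‖ ≤ N2 * (ε * t) := by
        intro i hi
        refine (norm_sum_le _ _).trans ?_
        have h2 : ∀ j ∈ Finset.range N2,
            ‖(F i (j + 1) - F i j) - s * (F (i + 1) j - F i j)‖ ≤ ε * t := by
          intro j hj
          have h3 := hn6 (i0 + i) (j0 + j) (hmem i (Finset.mem_range.1 hi).le j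
            (Finset.mem_range.1 hj).le)
          have h4 : F i (j + 1) = H n (i0 + i) (j0 + j + 1) := by
            simp only [hF]; push_cast; ring_nf
          have h5 : F (i + 1) j = H n (i0 + i + 1) (j0 + j) := by
            simp only [hF]; push_cast; ring_nf
          rw [h4, h5]
          exact h3
        refine (Finset.sum_le_sum h2).trans ?_
        simp
      refine (Finset.sum_le_sum this).trans ?_
      simp
    calc t * _ ≤ t * (N1 * (N2 * (ε * t))) := mul_le_mul_of_nonneg_left h1 hn0.le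
      _ = (N1 * t) * (N2 * t) * ε := by ring
      _ ≤ (b - a) * (d - c) * ε := by
        refine mul_le_mul_of_nonneg_right ?_ hε.le
        exact mul_le_mul hN1le hN2le (by positivity) (by linarith)
  -- assemble
  set B := ∫ x in a..b, h (x + c * I)
  set T := ∫ x in a..b, h (x + d * I)
  set L := ∫ y in c..d, h (a + y * I)
  set R := ∫ y in c..d, h (b + y * I)
  set sB := (t : ℂ) * ∑ i ∈ Finset.range N1, F i 0
  set sT := (t : ℂ) * ∑ i ∈ Finset.range N1, F i N2
  set sL := (t : ℂ) * ∑ j ∈ Finset.range N2, F 0 j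
  set sR := (t : ℂ) * ∑ j ∈ Finset.range N2, F N1 j
  have hD' : ‖(sT - sB) - s * (sR - sL)‖ ≤ (b - a) * (d - c) * ε := by
    have : (sT - sB) - s * (sR - sL) =
        (t : ℂ) * ((∑ i ∈ Finset.range N1, F i N2 - ∑ i ∈ Finset.range N1, F i 0) -
      s * (∑ j ∈ Finset.range N2, F N1 j - ∑ j ∈ Finset.range N2, F 0 j)) := by
      simp only [sB, sT, sL, sR]; ring
    rw [this]; exact hD
  have hident : T - B - s * (R - L) = ((sT - sB) - s * (sR - sL)) - (sT - T) + (sB - B) +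
      s * ((sR - R) - (sL - L)) := by ring
  rw [hident]
  have h1 : ‖s * ((sR - R) - (sL - L))‖ ≤
      ‖s‖ * (((d - c) * (2 * ε) + 2 * t * M) + ((d - c) * (2 * ε) + 2 * t * M)) := by
    rw [norm_mul]
    exact mul_le_mul_of_nonneg_left ((norm_sub_le _ _).trans (add_le_add hR hL)) (norm_nonneg _)
  have h2 : ‖((sT - sB) - s * (sR - sL)) - (sT - T) + (sB - B) + s * ((sR - R) - (sL - L))‖ ≤
      (b - a) * (d - c) * ε + ((b - a) * (2 * ε) + 2 * t * M) + ((b - a) * (2 * ε) + 2 * t * M) +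
      ‖s‖ * (((d - c) * (2 * ε) + 2 * t * M) + ((d - c) * (2 * ε) + 2 * t * M)) := by
    refine (norm_add_le _ _).trans (add_le_add ?_ h1)
    refine (norm_add_le _ _).trans (add_le_add ?_ hB)
    exact (norm_sub_le _ _).trans (add_le_add hD' hT)
  refine h2.trans ?_
  have h3 : t * M ≤ ε * M := mul_le_mul_of_nonneg_right hn2.le hM0
  have h4 : ‖s‖ * (t * M) ≤ ‖s‖ * (ε * M) := mul_le_mul_of_nonneg_left h3 (norm_nonneg s)
  rw [hK]
  nlinarith [h3, h4]

/-- **discrete Cauchy-Riemann => holomorphic**: continuous `h` on `U`, lattice functions converging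
to `h` (along `l`, possibly an ultrafilter) and satisfying the discrete relation with
`s = I` up to `o(δ)` on closed rectangles off finitely many horizontal / vertical lines. -/
theorem holo_of_discrete {ι : Type*} {l : Filter ι} [l.NeBot] {δ : ι → ℝ}
    (hδ : ∀ᶠ n in l, 0 < δ n) (hδ0 : Tendsto δ l (𝓝 0)) {o : ι → ℂ} {H : ι → ℤ → ℤ → ℂ}
    {h : ℂ → ℂ} {U : Set ℂ} (hU : IsOpen U) (A B : Finset ℝ) (hc : ContinuousOn h U)
    (hconv : ∀ a b c d : ℝ, a < b → c < d → Rc a b c d ⊆ U \ lines A B → ∀ ε > 0, ∀ᶠ n in l,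
      ∀ i j, pos (o n) (δ n) i j ∈ Rc a b c d → ‖H n i j - h (pos (o n) (δ n) i j)‖ ≤ ε)
    (hdisc : ∀ a b c d : ℝ, a < b → c < d → Rc a b c d ⊆ U \ lines A B → ∀ ε > 0, ∀ᶠ n in l,
      ∀ i j, pos (o n) (δ n) i j ∈ Rc a b c d →
        ‖(H n i (j + 1) - H n i j) - I * (H n (i + 1) j - H n i j)‖ ≤ ε * δ n) :
    DifferentiableOn ℂ h U := by
  refine holo_off_lines A B hU hc ?_
  have hU' : IsOpen (U \ lines A B) := hU.sdiff (isClosed_lines A B)
  refine morera hU' (hc.mono sdiff_subset) fun a b c d hab hcd hR => ?_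
  rcases hab.eq_or_lt with rfl | hab
  · simp [per]
  rcases hcd.eq_or_lt with rfl | hcd
  · simp [per]
  have h1 := contour_of_discrete hδ hδ0 hab hcd (hc.mono (hR.trans sdiff_subset))
    (hconv a b c d hab hcd hR) (hdisc a b c d hab hcd hR)
  simp only [per, smul_eq_mul]
  linear_combination -h1

/-- antiholomorphic version: discrete relation with `s = -I`. -/
theorem antiholo_of_discrete {ι : Type*} {l : Filter ι} [l.NeBot] {δ : ι → ℝ}
    (hδ : ∀ᶠ n in l, 0 < δ n) (hδ0 : Tendsto δ l (𝓝 0)) {o : ι → ℂ} {H : ι → ℤ → ℤ → ℂ}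
    {h : ℂ → ℂ} {U : Set ℂ} (hU : IsOpen U) (A B : Finset ℝ) (hc : ContinuousOn h U)
    (hconv : ∀ a b c d : ℝ, a < b → c < d → Rc a b c d ⊆ U \ lines A B → ∀ ε > 0, ∀ᶠ n in l,
      ∀ i j, pos (o n) (δ n) i j ∈ Rc a b c d → ‖H n i j - h (pos (o n) (δ n) i j)‖ ≤ ε)
    (hdisc : ∀ a b c d : ℝ, a < b → c < d → Rc a b c d ⊆ U \ lines A B → ∀ ε > 0, ∀ᶠ n in l,
      ∀ i j, pos (o n) (δ n) i j ∈ Rc a b c d →
        ‖(H n i (j + 1) - H n i j) + I * (H n (i + 1) j - H n i j)‖ ≤ ε * δ n) :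
    DifferentiableOn ℂ (fun z => conj (h z)) U := by
  refine holo_of_discrete (o := o) (H := fun n i j => conj (H n i j)) hδ hδ0 hU A B
    (Complex.continuous_conj.comp_continuousOn hc) ?_ ?_
  · intro a b c d hab hcd hR ε hε
    filter_upwards [hconv a b c d hab hcd hR ε hε] with n hn i j hij
    rw [← map_sub, RCLike.norm_conj]
    exact hn i j hij
  · intro a b c d hab hcd hR ε hε
    filter_upwards [hdisc a b c d hab hcd hR ε hε] with n hn i j hij
    have h1 := hn i j hij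
    rw [← RCLike.norm_conj] at h1
    simpa [sub_eq_add_neg] using h1

theorem pos_double (o : ℂ) (δ : ℝ) (p q i j : ℤ) :
    pos (pos o δ p q) (2 * δ) i j = pos o δ (2 * i + p) (2 * j + q) := by
  simp only [pos]; push_cast; ring

/-- double step version (two rows / two columns): only the sublattice `(2i+p, 2j+q)` is used. -/
theorem holo_of_discrete2 {ι : Type*} {l : Filter ι} [l.NeBot] {δ : ι → ℝ}
    (hδ : ∀ᶠ n in l, 0 < δ n) (hδ0 : Tendsto δ l (𝓝 0)) {o : ι → ℂ} {H : ι → ℤ → ℤ → ℂ}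
    {h : ℂ → ℂ} {U : Set ℂ} (hU : IsOpen U) (A B : Finset ℝ) (hc : ContinuousOn h U) (p q : ℤ)
    (hconv : ∀ a b c d : ℝ, a < b → c < d → Rc a b c d ⊆ U \ lines A B → ∀ ε > 0, ∀ᶠ n in l,
      ∀ i j, pos (o n) (δ n) (2 * i + p) (2 * j + q) ∈ Rc a b c d →
        ‖H n (2 * i + p) (2 * j + q) - h (pos (o n) (δ n) (2 * i + p) (2 * j + q))‖ ≤ ε)
    (hdisc : ∀ a b c d : ℝ, a < b → c < d → Rc a b c d ⊆ U \ lines A B → ∀ ε > 0, ∀ᶠ n in l,
      ∀ i j, pos (o n) (δ n) (2 * i + p) (2 * j + q) ∈ Rc a b c d →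
        ‖(H n (2 * i + p) (2 * j + q + 2) - H n (2 * i + p) (2 * j + q)) -
          I * (H n (2 * i + p + 2) (2 * j + q) - H n (2 * i + p) (2 * j + q))‖ ≤ ε * δ n) :
    DifferentiableOn ℂ h U := by
  refine holo_of_discrete (δ := fun n => 2 * δ n) (o := fun n => pos (o n) (δ n) p q)
    (H := fun n i j => H n (2 * i + p) (2 * j + q)) (hδ.mono fun n hn => by positivity)
    (by simpa using hδ0.const_mul 2) hU A B hc ?_ ?_
  · intro a b c d hab hcd hR ε hε
    filter_upwards [hconv a b c d hab hcd hR ε hε] with n hn i j hij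
    rw [pos_double] at hij ⊢
    exact hn i j hij
  · intro a b c d hab hcd hR ε hε
    filter_upwards [hdisc a b c d hab hcd hR ε hε, hδ] with n hn hn0 i j hij
    rw [pos_double] at hij
    have h1 := hn i j hij
    have e1 : 2 * (j + 1) + q = 2 * j + q + 2 := by ring
    have e2 : 2 * (i + 1) + p = 2 * i + p + 2 := by ring
    rw [e1, e2]
    refine h1.trans ?_
    nlinarith [mul_pos hε hn0]

/-- antiholomorphic double step version. -/
theorem antiholo_of_discrete2 {ι : Type*} {l : Filter ι} [l.NeBot] {δ : ι → ℝ}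
    (hδ : ∀ᶠ n in l, 0 < δ n) (hδ0 : Tendsto δ l (𝓝 0)) {o : ι → ℂ} {H : ι → ℤ → ℤ → ℂ}
    {h : ℂ → ℂ} {U : Set ℂ} (hU : IsOpen U) (A B : Finset ℝ) (hc : ContinuousOn h U) (p q : ℤ)
    (hconv : ∀ a b c d : ℝ, a < b → c < d → Rc a b c d ⊆ U \ lines A B → ∀ ε > 0, ∀ᶠ n in l,
      ∀ i j, pos (o n) (δ n) (2 * i + p) (2 * j + q) ∈ Rc a b c d →
        ‖H n (2 * i + p) (2 * j + q) - h (pos (o n) (δ n) (2 * i + p) (2 * j + q))‖ ≤ ε)
    (hdisc : ∀ a b c d : ℝ, a < b → c < d → Rc a b c d ⊆ U \ lines A B → ∀ ε > 0, ∀ᶠ n in l,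
      ∀ i j, pos (o n) (δ n) (2 * i + p) (2 * j + q) ∈ Rc a b c d →
        ‖(H n (2 * i + p) (2 * j + q + 2) - H n (2 * i + p) (2 * j + q)) +
          I * (H n (2 * i + p + 2) (2 * j + q) - H n (2 * i + p) (2 * j + q))‖ ≤ ε * δ n) :
    DifferentiableOn ℂ (fun z => conj (h z)) U := by
  refine antiholo_of_discrete (δ := fun n => 2 * δ n) (o := fun n => pos (o n) (δ n) p q)
    (H := fun n i j => H n (2 * i + p) (2 * j + q)) (hδ.mono fun n hn => by positivity)
    (by simpa using hδ0.const_mul 2) hU A B hc ?_ ?_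
  · intro a b c d hab hcd hR ε hε
    filter_upwards [hconv a b c d hab hcd hR ε hε] with n hn i j hij
    rw [pos_double] at hij ⊢
    exact hn i j hij
  · intro a b c d hab hcd hR ε hε
    filter_upwards [hdisc a b c d hab hcd hR ε hε, hδ] with n hn hn0 i j hij
    rw [pos_double] at hij
    have h1 := hn i j hij
    have e1 : 2 * (j + 1) + q = 2 * j + q + 2 := by ring
    have e2 : 2 * (i + 1) + p = 2 * i + p + 2 := by ring
    rw [e1, e2]
    refine h1.trans ?_
    nlinarith [mul_pos hε hn0]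

end Crest.Agent.R158.Pv470
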