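import Crest.Agent.R158.Pv2_470

/-!
R158, block P (helper470), part 3: weak limits.  Bounded functions whose contour integrals over all
closed rectangles of an open set `U` tend to `0` have, along every ultrafilter, a holomorphic weak
limit on `U` (limit of the rectangle averages); closed convex sets pass to the limit.
-/

set_option autoImplicit false
open Complex MeasureTheory Metric Set Topology Filter
open scoped Interval ComplexConjugate

namespace Crest.Agent.R158.Pv470

theorem exists_ulim {ι : Type*} (𝒰 : Ultrafilter ι) {f : ι → ℂ} {C : ℝ} (hf : ∀ n, ‖f n‖ ≤ C) :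
    ∃ L, Tendsto f 𝒰 (𝓝 L) := by
  obtain ⟨L, -, hL⟩ := (isCompact_closedBall (0 : ℂ) C).ultrafilter_le_nhds (𝒰.map f) (by
    rw [le_principal_iff, Ultrafilter.coe_map, Filter.mem_map]
    exact Filter.univ_mem' (by intro n; simpa using hf n))
  exact ⟨L, hL⟩

/-- integrals of bounded, asymptotically equi-Lipschitz functions commute with ultrafilter
limits. -/
theorem int_ulim {ι : Type*} {l : Filter ι} [l.IsCountablyGenerated] {𝒰 : Ultrafilter ι}
    (h𝒰 : (𝒰 : Filter ι) ≤ l) {φ : ι → ℝ → ℂ} (hm : ∀ n, Measurable (φ n)) {C : ℝ}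
    (hC : ∀ n y, ‖φ n y‖ ≤ C) {c d L : ℝ} (hcd : c ≤ d) (hL0 : 0 ≤ L)
    (hL : ∀ y y', c ≤ y → y < y' → y' ≤ d → ∀ ε > 0, ∀ᶠ n in l,
      ‖φ n y' - φ n y‖ ≤ L * (y' - y) + ε)
    {φ' : ℝ → ℂ} (hφ : ∀ y ∈ Icc c d, Tendsto (fun n => φ n y) 𝒰 (𝓝 (φ' y))) :
    Tendsto (fun n => ∫ y in c..d, φ n y) 𝒰 (𝓝 (∫ y in c..d, φ' y)) := by
  have hii : ∀ n (x y : ℝ), IntervalIntegrable (φ n) volume x y := by
    intro n x y
    refine (intervalIntegrable_const (c := C)).mono_fun (hm n).aestronglyMeasurable ?_
    refine Eventually.of_forall fun t => ?_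
    exact (hC n t).trans (le_abs_self C)
  have hbd : ∀ (x y : ℝ) n, ‖∫ t in x..y, φ n t‖ ≤ C * |y - x| := fun x y n =>
    intervalIntegral.norm_integral_le_of_norm_le_const fun t _ => hC n t
  choose Φ hΦ using fun y : ℝ => exists_ulim 𝒰 (hbd c y)
  -- increments
  have hinc : ∀ y y' : ℝ, Tendsto (fun n => ∫ t in y..y', φ n t) 𝒰 (𝓝 (Φ y' - Φ y)) := by
    intro y y'
    refine ((hΦ y').sub (hΦ y)).congr fun n => ?_
    rw [intervalIntegral.integral_interval_sub_left (hii n _ _) (hii n _ _)]
  have hlip : ∀ y y' : ℝ, ‖Φ y' - Φ y‖ ≤ C * |y' - y| := by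
    intro y y'
    exact le_of_tendsto (hinc y y').norm (Eventually.of_forall fun n => hbd y y' n)
  have hφlip : ∀ y y', c ≤ y → y < y' → y' ≤ d → ‖φ' y' - φ' y‖ ≤ L * (y' - y) := by
    intro y y' h1 h2 h3
    refine le_of_forall_pos_le_add fun ε hε => ?_
    refine le_of_tendsto ((hφ y' ⟨h1.trans h2.le, h3⟩).sub (hφ y ⟨h1, h2.le.trans h3⟩)).norm ?_
    exact h𝒰 (hL y y' h1 h2 h3 ε hε)
  -- key estimate
  have key : ∀ y y', c ≤ y → y < y' → y' ≤ d →
      ‖Φ y' - Φ y - ((y' - y : ℝ) : ℂ) * φ' y‖ ≤ L * (y' - y) ^ 2 := by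
    intro y y' h1 h2 h3
    set e : ι → ℝ → ℝ := fun n t => max (‖φ n t - φ n y‖ - L * (t - y)) 0 with he
    have hem : ∀ n, Measurable (e n) := by
      intro n
      exact ((((hm n).sub_const _).norm).sub ((measurable_id.sub_const y).const_mul L)).max
        measurable_const
    have he0 : ∀ n t, 0 ≤ e n t := fun n t => le_max_right _ _
    have heb : ∀ n, ∀ t, y ≤ t → e n t ≤ 2 * C := by
      intro n t ht
      have hC0 : 0 ≤ C := (norm_nonneg _).trans (hC n t)
      refine max_le ?_ (by positivity)
      have := (norm_sub_le (φ n t) (φ n y)).trans (add_le_add (hC n t) (hC n y))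
      have h4 : 0 ≤ L * (t - y) := mul_nonneg hL0 (by linarith)
      linarith
    have het : ∀ t ∈ Ioc y y', Tendsto (fun n => e n t) l (𝓝 0) := by
      intro t ht
      rw [Metric.tendsto_nhds]
      intro ε hε
      filter_upwards [hL y t h1 ht.1 (ht.2.trans h3) (ε / 2) (by positivity)] with n hn
      rw [Real.dist_eq, sub_zero, abs_of_nonneg (he0 n t)]
      refine lt_of_le_of_lt (max_le ?_ (by positivity : (0 : ℝ) ≤ ε / 2)) (by linarith)
      linarith
    have hint : Tendsto (fun n => ∫ t in y..y', e n t) l (𝓝 0) := by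
      have := intervalIntegral.tendsto_integral_filter_of_dominated_convergence
        (μ := volume) (a := y) (b := y') (l := l) (F := e) (f := fun _ => (0 : ℝ))
        (fun _ => 2 * C) (Eventually.of_forall fun n => (hem n).aestronglyMeasurable)
        (Eventually.of_forall fun n => Eventually.of_forall fun t ht => by
          rw [uIoc_of_le h2.le] at ht
          rw [Real.norm_eq_abs, abs_of_nonneg (he0 n t)]
          exact heb n t ht.1.le)
        intervalIntegrable_const
        (Eventually.of_forall fun t ht => by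
          rw [uIoc_of_le h2.le] at ht
          exact het t ht)
      simpa using this
    have heii : ∀ n, IntervalIntegrable (e n) volume y y' := by
      intro n
      refine (intervalIntegrable_const (c := 2 * C)).mono_fun
        (hem n).aestronglyMeasurable ?_
      rw [uIoc_of_le h2.le]
      filter_upwards [ae_restrict_mem measurableSet_Ioc] with t ht
      rw [Real.norm_eq_abs, Real.norm_eq_abs, abs_of_nonneg (he0 n t)]
      exact (heb n t ht.1.le).trans (le_abs_self _)
    have hn : ∀ n, ‖(∫ t in y..y', φ n t) - ((y' - y : ℝ) : ℂ) * φ n y‖ ≤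
        L * (y' - y) ^ 2 + ∫ t in y..y', e n t := by
      intro n
      have h4 : (((y' - y : ℝ) : ℂ) * φ n y) = ∫ t in y..y', φ n y := by
        rw [intervalIntegral.integral_const, Complex.real_smul]
      rw [h4, ← intervalIntegral.integral_sub (hii n _ _) intervalIntegrable_const]
      have h5 : ‖∫ t in y..y', (φ n t - φ n y)‖ ≤ ∫ t in y..y', (L * (y' - y) + e n t) := by
        refine intervalIntegral.norm_integral_le_of_norm_le h2.le ?_
          (intervalIntegrable_const.add (heii n))
        refine Eventually.of_forall fun t ht => ?_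
        have h6 : ‖φ n t - φ n y‖ - L * (t - y) ≤ e n t := le_max_left _ _
        have h7 : L * (t - y) ≤ L * (y' - y) := mul_le_mul_of_nonneg_left (by linarith [ht.2]) hL0
        linarith
      refine h5.trans (le_of_eq ?_)
      rw [intervalIntegral.integral_add intervalIntegrable_const (heii n),
        intervalIntegral.integral_const, smul_eq_mul]
      ring
    have hlim1 : Tendsto (fun n => ‖(∫ t in y..y', φ n t) - ((y' - y : ℝ) : ℂ) * φ n y‖) 𝒰
        (𝓝 ‖Φ y' - Φ y - ((y' - y : ℝ) : ℂ) * φ' y‖) :=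
      ((hinc y y').sub ((hφ y ⟨h1, h2.le.trans h3⟩).const_mul _)).norm
    have hlim2 : Tendsto (fun n => L * (y' - y) ^ 2 + ∫ t in y..y', e n t) 𝒰
        (𝓝 (L * (y' - y) ^ 2 + 0)) := (hint.mono_left h𝒰).const_add _
    rw [add_zero] at hlim2
    exact le_of_tendsto_of_tendsto' hlim1 hlim2 hn
  have hΦc : Φ c = 0 := by
    have h1 := hΦ c
    simp only [intervalIntegral.integral_same] at h1
    exact tendsto_nhds_unique h1 tendsto_const_nhds
  have hcont : Continuous Φ := by
    rcases isEmpty_or_nonempty ι with hι | ⟨⟨n0⟩⟩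
    · exact (NeBot.ne (inferInstance : (𝒰 : Filter ι).NeBot) (Filter.filter_eq_bot_of_isEmpty _)).elim
    have hC0 : 0 ≤ C := (norm_nonneg _).trans (hC n0 0)
    refine (LipschitzWith.of_dist_le_mul (K := ⟨C, hC0⟩) fun x y => ?_).continuous
    rw [dist_eq_norm, Real.dist_eq]
    exact hlip y x
  have hcφ : ContinuousOn φ' (Icc c d) := by
    have : LipschitzOnWith ⟨L, hL0⟩ φ' (Icc c d) := by
      refine LipschitzOnWith.of_dist_le_mul fun x hx y hy => ?_
      rw [dist_eq_norm, Real.dist_eq]
      show _ ≤ L * _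
      rcases lt_trichotomy x y with h | h | h
      · rw [norm_sub_rev, abs_sub_comm, abs_of_pos (sub_pos.2 h)]
        exact hφlip x y hx.1 h hy.2
      · subst h; simp
      · rw [abs_of_pos (sub_pos.2 h)]
        exact hφlip y x hy.1 h hx.2
    exact this.continuousOn
  have hFTC : ∫ y in c..d, φ' y = Φ d - Φ c := by
    refine intervalIntegral.integral_eq_sub_of_hasDeriv_right_of_le hcd hcont.continuousOn ?_ ?_
    · intro x hx
      rw [hasDerivWithinAt_iff_isLittleO]
      rw [Asymptotics.isLittleO_iff]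
      intro κ hκ
      have h1 : ∀ᶠ t in 𝓝[>] x, t < min d (x + κ / (L + 1)) := by
        refine mem_nhdsWithin_of_mem_nhds (Iio_mem_nhds ?_)
        exact lt_min hx.2 (by have : 0 < κ / (L + 1) := by positivity
                              linarith)
      filter_upwards [h1, self_mem_nhdsWithin] with t ht1 ht2
      have ht2' : x < t := ht2
      have h3 := key x t hx.1.le ht2' (ht1.le.trans (min_le_left _ _))
      rw [Complex.real_smul, Real.norm_eq_abs, abs_of_pos (sub_pos.2 ht2')]
      refine h3.trans ?_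
      have h4 : t - x ≤ κ / (L + 1) := by linarith [ht1.le.trans (min_le_right _ _)]
      have h5 : (t - x) * (L + 1) ≤ κ := by
        rw [le_div_iff₀ (by positivity)] at h4
        exact h4
      have h6 : 0 < t - x := sub_pos.2 ht2'
      nlinarith
    · apply ContinuousOn.intervalIntegrable
      rwa [uIcc_of_le hcd]
  rw [hFTC, hΦc, sub_zero]
  exact hΦ d

end Crest.Agent.R158.Pv470
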