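import Crest.Agent.R158.Pv3_470

/-!
R158, block P (helper470), part 4: the weak limit is holomorphic; closed convex sets pass to the
limit.
-/

set_option autoImplicit false
open Complex MeasureTheory Metric Set Topology Filter
open scoped Interval ComplexConjugate

namespace Crest.Agent.R158.Pv470

/-- `h` is the weak limit of `g` on `U` along `l`: all rectangle integrals converge. -/
def WLim {ι : Type*} (l : Filter ι) (g : ι → ℂ → ℂ) (h : ℂ → ℂ) (U : Set ℂ) : Prop :=
  ∀ a b c d : ℝ, a < b → c < d → Rc a b c d ⊆ U →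
    Tendsto (fun n => ∫ y in c..d, ∫ x in a..b, g n (x + y * I)) l
      (𝓝 (∫ y in c..d, ∫ x in a..b, h (x + y * I)))

theorem exists_rect {U : Set ℂ} (hU : IsOpen U) {z : ℂ} (hz : z ∈ U) :
    ∃ r > 0, Rc (z.re - r) (z.re + r) (z.im - r) (z.im + r) ⊆ U := by
  obtain ⟨ε, hε, h⟩ := Metric.isOpen_iff.1 hU z hz
  refine ⟨ε / 4, by positivity, fun w hw => h ?_⟩
  rw [mem_Rc] at hw
  rw [Metric.mem_ball, Complex.dist_eq]
  have h1 := Complex.norm_le_abs_re_add_abs_im (w - z)
  have h2 : |(w - z).re| ≤ ε / 4 := by
    rw [sub_re, abs_le]; constructor <;> linarith [hw.1.1, hw.1.2]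
  have h3 : |(w - z).im| ≤ ε / 4 := by
    rw [sub_im, abs_le]; constructor <;> linarith [hw.2.1, hw.2.2]
  linarith

theorem meas_hor {g : ℂ → ℂ} (hm : Measurable g) {a b : ℝ} (hab : a ≤ b) :
    Measurable fun y : ℝ => ∫ x in a..b, g (x + y * I) := by
  simp only [intervalIntegral.integral_of_le hab]
  have h : StronglyMeasurable (Function.uncurry fun (y x : ℝ) => g (x + y * I)) := by
    refine (hm.comp ?_).stronglyMeasurable
    fun_prop
  exact h.integral_prod_right.measurable

theorem meas_ver {g : ℂ → ℂ} (hm : Measurable g) {c d : ℝ} (hcd : c ≤ d) :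
    Measurable fun x : ℝ => ∫ y in c..d, g (x + y * I) := by
  simp only [intervalIntegral.integral_of_le hcd]
  have h : StronglyMeasurable (Function.uncurry fun (x y : ℝ) => g (x + y * I)) := by
    refine (hm.comp ?_).stronglyMeasurable
    fun_prop
  exact h.integral_prod_right.measurable

theorem fubini {g : ℂ → ℂ} (hm : Measurable g) {B : ℝ} (hB : ∀ z, ‖g z‖ ≤ B) {a b c d : ℝ}
    (hab : a ≤ b) (hcd : c ≤ d) :
    ∫ y in c..d, ∫ x in a..b, g (x + y * I) = ∫ x in a..b, ∫ y in c..d, g (x + y * I) := by
  simp only [intervalIntegral.integral_of_le hab, intervalIntegral.integral_of_le hcd]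
  refine integral_integral_swap ?_
  refine Integrable.mono' (g := fun _ => B) (integrable_const _) ?_ ?_
  · refine (hm.comp ?_).aestronglyMeasurable
    fun_prop
  · exact Eventually.of_forall fun p => hB _

/-- **weak limits are holomorphic**. -/
theorem weak_limit {ι : Type*} {l : Filter ι} [l.IsCountablyGenerated] {𝒰 : Ultrafilter ι}
    (h𝒰 : (𝒰 : Filter ι) ≤ l) {U : Set ℂ} (hU : IsOpen U) {g : ι → ℂ → ℂ}
    (hm : ∀ n, Measurable (g n)) {B : ℝ} (hB : ∀ n z, ‖g n z‖ ≤ B)
    (hcs : ∀ a b c d : ℝ, a < b → c < d → Rc a b c d ⊆ U →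
      Tendsto (fun n => per (g n) a b c d) l (𝓝 0)) :
    ∃ h : ℂ → ℂ, DifferentiableOn ℂ h U ∧ (∀ z, ‖h z‖ ≤ B) ∧ WLim 𝒰 g h U := by
  have hne : Nonempty ι := by
    rcases isEmpty_or_nonempty ι with hι | hι
    · exact (NeBot.ne (inferInstance : (𝒰 : Filter ι).NeBot)
        (Filter.filter_eq_bot_of_isEmpty _)).elim
    · exact hι
  have hB0 : 0 ≤ B := (norm_nonneg _).trans (hB hne.some 0)
  have ihor : ∀ n (y a b : ℝ), IntervalIntegrable (fun x : ℝ => g n (x + y * I)) volume a b := by
    intro n y a b
    refine (intervalIntegrable_const (c := B)).mono_fun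
      ((hm n).comp (by fun_prop)).aestronglyMeasurable ?_
    exact Eventually.of_forall fun t => (hB n _).trans (le_abs_self B)
  have iver : ∀ n (x c d : ℝ), IntervalIntegrable (fun y : ℝ => g n (x + y * I)) volume c d := by
    intro n y a b
    refine (intervalIntegrable_const (c := B)).mono_fun
      ((hm n).comp (by fun_prop)).aestronglyMeasurable ?_
    exact Eventually.of_forall fun t => (hB n _).trans (le_abs_self B)
  have bhor : ∀ (a b y : ℝ) n, ‖∫ x in a..b, g n (x + y * I)‖ ≤ B * |b - a| := fun a b y n =>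
    intervalIntegral.norm_integral_le_of_norm_le_const fun t _ => hB n _
  have bver : ∀ (x c d : ℝ) n, ‖∫ y in c..d, g n (x + y * I)‖ ≤ B * |d - c| := fun a b y n =>
    intervalIntegral.norm_integral_le_of_norm_le_const fun t _ => hB n _
  choose A hA using fun a b y : ℝ => exists_ulim 𝒰 (bhor a b y)
  choose V hV using fun x c d : ℝ => exists_ulim 𝒰 (bver x c d)
  have hAb : ∀ a b y, ‖A a b y‖ ≤ B * |b - a| := fun a b y =>
    le_of_tendsto (hA a b y).norm (Eventually.of_forall fun n => bhor a b y n)
  have hVb : ∀ x c d, ‖V x c d‖ ≤ B * |d - c| := fun a b y =>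
    le_of_tendsto (hV a b y).norm (Eventually.of_forall fun n => bver a b y n)
  have hAadd : ∀ a b c y, A a b y + A b c y = A a c y := by
    intro a b c y
    refine tendsto_nhds_unique ((hA a b y).add (hA b c y)) ((hA a c y).congr fun n => ?_)
    exact (intervalIntegral.integral_add_adjacent_intervals (ihor n y a b) (ihor n y b c)).symm
  have hVadd : ∀ x b c d, V x b c + V x c d = V x b d := by
    intro x b c d
    refine tendsto_nhds_unique ((hV x b c).add (hV x c d)) ((hV x b d).congr fun n => ?_)
    exact (intervalIntegral.integral_add_adjacent_intervals (iver n x b c) (iver n x c d)).symm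
  have hA0 : ∀ a y, A a a y = 0 := by
    intro a y
    have := hAadd a a a y
    simpa using this
  have hV0 : ∀ x c, V x c c = 0 := by
    intro a y
    have := hVadd a y y y
    simpa using this
  -- the limit relation
  have hR : ∀ a b c d, a ≤ b → c ≤ d → Rc a b c d ⊆ U →
      A a b c - A a b d + I * V b c d - I * V a c d = 0 := by
    intro a b c d hab hcd hsub
    rcases hab.eq_or_lt with rfl | hab
    · simp [hA0]
    rcases hcd.eq_or_lt with rfl | hcd
    · simp [hV0]
    have h1 := (hcs a b c d hab hcd hsub).mono_left h𝒰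
    have h2 : Tendsto (fun n => per (g n) a b c d) 𝒰
        (𝓝 (A a b c - A a b d + I * V b c d - I * V a c d)) := by
      simp only [per, smul_eq_mul]
      exact (((hA a b c).sub (hA a b d)).add ((hV b c d).const_mul I)).sub
        ((hV a c d).const_mul I)
    exact tendsto_nhds_unique h2 h1
  -- double integrals
  have hW1 : ∀ a b c d, a < b → c < d → Rc a b c d ⊆ U →
      Tendsto (fun n => ∫ y in c..d, ∫ x in a..b, g n (x + y * I)) 𝒰
        (𝓝 (∫ y in c..d, A a b y)) := by
    intro a b c d hab hcd hsub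
    refine int_ulim h𝒰 (φ := fun n y => ∫ x in a..b, g n (x + y * I))
      (fun n => meas_hor (hm n) hab.le) (fun n y => bhor a b y n) hcd.le
      (L := 2 * B) (by positivity) ?_ (fun y _ => hA a b y)
    intro y y' h1 h2 h3 ε hε
    have hsub' : Rc a b y y' ⊆ U := by
      intro z hz
      rw [mem_Rc] at hz
      exact hsub (mem_Rc.2 ⟨hz.1, h1.trans hz.2.1, hz.2.2.trans h3⟩)
    have h4 := hcs a b y y' hab h2 hsub'
    have h5 : ∀ᶠ n in l, ‖per (g n) a b y y'‖ < ε := by
      have := h4.norm
      rw [norm_zero] at this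
      exact this.eventually_lt_const hε
    filter_upwards [h5] with n hn
    have h6 : (∫ x in a..b, g n (x + y' * I)) - (∫ x in a..b, g n (x + y * I)) =
        - per (g n) a b y y' + (I • (∫ t in y..y', g n (b + t * I)) -
          I • (∫ t in y..y', g n (a + t * I))) := by
      simp only [per]; ring
    rw [h6]
    have h7 : ‖I • (∫ t in y..y', g n (b + t * I))‖ ≤ B * (y' - y) := by
      rw [norm_smul, norm_I, one_mul]
      exact (bver b y y' n).trans (by rw [abs_of_pos (sub_pos.2 h2)])
    have h8 : ‖I • (∫ t in y..y', g n (a + t * I))‖ ≤ B * (y' - y) := by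
      rw [norm_smul, norm_I, one_mul]
      exact (bver a y y' n).trans (by rw [abs_of_pos (sub_pos.2 h2)])
    calc _ ≤ ‖- per (g n) a b y y'‖ + (‖I • (∫ t in y..y', g n (b + t * I))‖ +
          ‖I • (∫ t in y..y', g n (a + t * I))‖) :=
            (norm_add_le _ _).trans (add_le_add le_rfl (norm_sub_le _ _))
      _ ≤ ε + (B * (y' - y) + B * (y' - y)) := by
            rw [norm_neg]; exact add_le_add hn.le (add_le_add h7 h8)
      _ = _ := by ring
  have hW2 : ∀ a b c d, a < b → c < d → Rc a b c d ⊆ U →
      Tendsto (fun n => ∫ x in a..b, ∫ y in c..d, g n (x + y * I)) 𝒰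
        (𝓝 (∫ x in a..b, V x c d)) := by
    intro a b c d hab hcd hsub
    refine int_ulim h𝒰 (φ := fun n x => ∫ y in c..d, g n (x + y * I))
      (fun n => meas_ver (hm n) hcd.le) (fun n y => bver y c d n) hab.le
      (L := 2 * B) (by positivity) ?_ (fun y _ => hV y c d)
    intro x x' h1 h2 h3 ε hε
    have hsub' : Rc x x' c d ⊆ U := by
      intro z hz
      rw [mem_Rc] at hz
      exact hsub (mem_Rc.2 ⟨⟨h1.trans hz.1.1, hz.1.2.trans h3⟩, hz.2⟩)
    have h4 := hcs x x' c d h2 hcd hsub'
    have h5 : ∀ᶠ n in l, ‖per (g n) x x' c d‖ < ε := by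
      have := h4.norm
      rw [norm_zero] at this
      exact this.eventually_lt_const hε
    filter_upwards [h5] with n hn
    have h6 : (∫ y in c..d, g n (x' + y * I)) - (∫ y in c..d, g n (x + y * I)) =
        - (I * per (g n) x x' c d) + (I * (∫ t in x..x', g n (t + c * I)) -
          I * (∫ t in x..x', g n (t + d * I))) := by
      simp only [per, smul_eq_mul]
      linear_combination ((∫ y in c..d, g n (x' + y * I)) - (∫ y in c..d, g n (x + y * I))) * I_sq
    rw [h6]
    have h7 : ‖I * (∫ t in x..x', g n (t + c * I))‖ ≤ B * (x' - x) := by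
      rw [norm_mul, norm_I, one_mul]
      exact (bhor x x' c n).trans (by rw [abs_of_pos (sub_pos.2 h2)])
    have h8 : ‖I * (∫ t in x..x', g n (t + d * I))‖ ≤ B * (x' - x) := by
      rw [norm_mul, norm_I, one_mul]
      exact (bhor x x' d n).trans (by rw [abs_of_pos (sub_pos.2 h2)])
    calc _ ≤ ‖- (I * per (g n) x x' c d)‖ + (‖I * (∫ t in x..x', g n (t + c * I))‖ +
          ‖I * (∫ t in x..x', g n (t + d * I))‖) :=
            (norm_add_le _ _).trans (add_le_add le_rfl (norm_sub_le _ _))
      _ ≤ ε + (B * (x' - x) + B * (x' - x)) := by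
            rw [norm_neg, norm_mul, norm_I, one_mul]
            exact add_le_add hn.le (add_le_add h7 h8)
      _ = _ := by ring
  have hW : ∀ a b c d, a < b → c < d → Rc a b c d ⊆ U →
      ∫ y in c..d, A a b y = ∫ x in a..b, V x c d := by
    intro a b c d hab hcd hsub
    refine tendsto_nhds_unique (hW1 a b c d hab hcd hsub) ((hW2 a b c d hab hcd hsub).congr ?_)
    exact fun n => (fubini (hm n) (hB n) hab.le hcd.le).symm
  set h : ℂ → ℂ := fun z => deriv (fun t : ℝ => A z.re t z.im) z.re with hh
  -- local structure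
  have hloc : ∀ z ∈ U, DifferentiableAt ℂ h z ∧
      HasDerivAt (fun t : ℝ => A z.re t z.im) (h z) z.re := by
    intro z hz
    obtain ⟨r, hr, hsub⟩ := exists_rect hU hz
    set a := z.re - r
    set b := z.re + r
    set c := z.im - r
    set d := z.im + r
    set F : ℂ → ℂ := fun w => A a w.re w.im + I * V a c w.im with hF
    have c1 : ∀ (x x' y : ℝ), F (x' + y * I) - F (x + y * I) = A x x' y := by
      intro x x' y
      have := hAadd a x x' y
      simp only [hF]
      simp only [add_re, ofReal_re, mul_re, I_re, mul_zero, ofReal_im, I_im, mul_one, sub_self,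
        add_zero, add_im, mul_im, zero_add]
      linear_combination -this
    have c2 : ∀ (x y y' : ℝ), a ≤ x → x ≤ b → c ≤ y → y ≤ y' → y' ≤ d →
        F (x + y' * I) - F (x + y * I) = I * V x y y' := by
      intro x y y' h1 h2 h3 h4 h5
      have e1 := hVadd a c y y'
      have e2 := hR a x y y' h1 h4 (by
        intro w hw
        rw [mem_Rc] at hw
        exact hsub (mem_Rc.2 ⟨⟨hw.1.1, hw.1.2.trans h2⟩, h3.trans hw.2.1, hw.2.2.trans h5⟩))
      simp only [hF]
      simp only [add_re, ofReal_re, mul_re, I_re, mul_zero, ofReal_im, I_im, mul_one, sub_self,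
        add_zero, add_im, mul_im, zero_add]
      linear_combination -I * e1 - e2
    have hFc : ContinuousOn F (Rc a b c d) := by
      have : LipschitzOnWith ⟨2 * B, by positivity⟩ F (Rc a b c d) := by
        refine LipschitzOnWith.of_dist_le_mul fun w hw v hv => ?_
        rw [dist_eq_norm, dist_eq_norm]
        show _ ≤ 2 * B * _
        rw [mem_Rc] at hw hv
        have e1 : w = (w.re : ℂ) + w.im * I := (re_add_im w).symm
        have e2 : v = (v.re : ℂ) + v.im * I := (re_add_im v).symm
        have e3 : ‖F w - F (v.re + w.im * I)‖ ≤ B * ‖w - v‖ := by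
          have := c1 v.re w.re w.im
          rw [← e1] at this
          rw [this]
          refine (hAb _ _ _).trans (mul_le_mul_of_nonneg_left ?_ hB0)
          rw [← sub_re]; exact abs_re_le_norm _
        have e4 : ‖F (v.re + w.im * I) - F v‖ ≤ B * ‖w - v‖ := by
          have e5 : |w.im - v.im| ≤ ‖w - v‖ := by rw [← sub_im]; exact abs_im_le_norm _
          rcases le_total v.im w.im with h1 | h1
          · have := c2 v.re v.im w.im hv.1.1 hv.1.2 hv.2.1 h1 hw.2.2
            rw [← e2] at this
            rw [this, norm_mul, norm_I, one_mul]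
            exact (hVb _ _ _).trans (mul_le_mul_of_nonneg_left e5 hB0)
          · have := c2 v.re w.im v.im hv.1.1 hv.1.2 hw.2.1 h1 hv.2.2
            rw [← e2] at this
            rw [norm_sub_rev, this, norm_mul, norm_I, one_mul]
            refine (hVb _ _ _).trans (mul_le_mul_of_nonneg_left ?_ hB0)
            rw [abs_sub_comm]; exact e5
        calc ‖F w - F v‖ = ‖(F w - F (v.re + w.im * I)) + (F (v.re + w.im * I) - F v)‖ := by
              congr 1; ring
          _ ≤ B * ‖w - v‖ + B * ‖w - v‖ := (norm_add_le _ _).trans (add_le_add e3 e4)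
          _ = _ := by ring
      exact this.continuousOn
    have hO : IsOpen (Ioo a b ×ℂ Ioo c d) := isOpen_Ioo.reProdIm isOpen_Ioo
    have hOsub : Ioo a b ×ℂ Ioo c d ⊆ Rc a b c d := by
      intro w hw
      rw [mem_reProdIm] at hw
      exact mem_Rc.2 ⟨⟨hw.1.1.le, hw.1.2.le⟩, hw.2.1.le, hw.2.2.le⟩
    have hFd : DifferentiableOn ℂ F (Ioo a b ×ℂ Ioo c d) := by
      refine morera hO (hFc.mono hOsub) fun a' b' c' d' hab' hcd' hs => ?_
      rcases hab'.eq_or_lt with rfl | hab'
      · simp [per]
      rcases hcd'.eq_or_lt with rfl | hcd'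
      · simp [per]
      have hs' : Rc a' b' c' d' ⊆ Rc a b c d := hs.trans hOsub
      have m1 := mem_Rc.1 (hs' (mem_Rc.2 ⟨⟨le_rfl, hab'.le⟩, le_rfl, hcd'.le⟩ :
        (⟨a', c'⟩ : ℂ) ∈ Rc a' b' c' d'))
      have m2 := mem_Rc.1 (hs' (mem_Rc.2 ⟨⟨hab'.le, le_rfl⟩, hcd'.le, le_rfl⟩ :
        (⟨b', d'⟩ : ℂ) ∈ Rc a' b' c' d'))
      simp only at m1 m2
      have hcF : ContinuousOn F (Rc a' b' c' d') := hFc.mono hs'
      have i1 : ∀ y ∈ Icc c' d', IntervalIntegrable (fun x : ℝ => F (x + y * I)) volume a' b' := by
        intro y hy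
        apply ContinuousOn.intervalIntegrable
        rw [uIcc_of_le hab'.le]; exact cont_hor hcF hy
      have i2 : ∀ x ∈ Icc a' b', IntervalIntegrable (fun y : ℝ => F (x + y * I)) volume c' d' := by
        intro y hy
        apply ContinuousOn.intervalIntegrable
        rw [uIcc_of_le hcd'.le]; exact cont_ver hcF hy
      have e1 : (∫ x in a'..b', F (x + d' * I)) - (∫ x in a'..b', F (x + c' * I)) =
          I * ∫ x in a'..b', V x c' d' := by
        rw [← intervalIntegral.integral_sub (i1 d' (right_mem_Icc.2 hcd'.le))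
          (i1 c' (left_mem_Icc.2 hcd'.le)), ← intervalIntegral.integral_const_mul]
        refine intervalIntegral.integral_congr fun x hx => ?_
        rw [uIcc_of_le hab'.le] at hx
        exact c2 x c' d' (m1.1.1.trans hx.1) (hx.2.trans m2.1.2) m1.2.1 hcd'.le m2.2.2
      have e2 : (∫ y in c'..d', F (b' + y * I)) - (∫ y in c'..d', F (a' + y * I)) =
          ∫ y in c'..d', A a' b' y := by
        rw [← intervalIntegral.integral_sub (i2 b' (right_mem_Icc.2 hab'.le))
          (i2 a' (left_mem_Icc.2 hab'.le))]
        exact intervalIntegral.integral_congr fun y _ => c1 a' b' y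
      have e3 := hW a' b' c' d' hab' hcd' (hs'.trans hsub)
      simp only [per, smul_eq_mul]
      linear_combination -e1 + I * e2 + I * e3
    have hder : ∀ w ∈ Ioo a b ×ℂ Ioo c d,
        HasDerivAt (fun t : ℝ => A w.re t w.im) (deriv F w) w.re := by
      intro w hw
      have h1 : HasDerivAt F (deriv F w) w :=
        ((hFd w hw).differentiableAt (hO.mem_nhds hw)).hasDerivAt
      have h2 : HasDerivAt (fun t : ℝ => F (t + w.im * I)) (deriv F w) w.re := by
        have h3 : HasDerivAt (fun t : ℝ => (t : ℂ) + w.im * I) 1 w.re :=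
          (Complex.ofRealCLM.hasDerivAt (x := w.re)).add_const _
        have h4 : HasDerivAt F (deriv F w) ((fun t : ℝ => (t : ℂ) + w.im * I) w.re) := by
          simpa [re_add_im] using h1
        have h5 := HasDerivAt.comp_of_eq w.re h4 h3 rfl
        rw [mul_one] at h5
        exact h5
      have h3 : (fun t : ℝ => A w.re t w.im) =
          fun t : ℝ => F (t + w.im * I) - F (w.re + w.im * I) := by
        funext t; exact (c1 w.re t w.im).symm
      rw [h3]
      exact h2.sub_const _
    have hzO : z ∈ Ioo a b ×ℂ Ioo c d := by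
      rw [mem_reProdIm]
      exact ⟨⟨by simp only [a]; linarith, by simp only [b]; linarith⟩,
        by simp only [c]; linarith, by simp only [d]; linarith⟩
    have heq : ∀ w ∈ Ioo a b ×ℂ Ioo c d, h w = deriv F w := fun w hw => (hder w hw).deriv
    constructor
    · have h1 : DifferentiableOn ℂ (deriv F) (Ioo a b ×ℂ Ioo c d) := hFd.deriv hO
      have h2 : DifferentiableOn ℂ h (Ioo a b ×ℂ Ioo c d) := h1.congr heq
      exact (h2 z hzO).differentiableAt (hO.mem_nhds hzO)
    · rw [heq z hzO]; exact hder z hzO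
  have hdiff : DifferentiableOn ℂ h U := fun z hz => (hloc z hz).1.differentiableWithinAt
  refine ⟨h, hdiff, ?_, ?_⟩
  · intro z
    refine norm_deriv_le_of_lip' hB0 (Eventually.of_forall fun t => ?_)
    rw [hA0, sub_zero, Real.norm_eq_abs]
    exact hAb _ _ _
  · intro a b c d hab hcd hsub
    have h1 : ∫ y in c..d, A a b y = ∫ y in c..d, ∫ x in a..b, h (x + y * I) := by
      refine intervalIntegral.integral_congr fun y hy => ?_
      rw [uIcc_of_le hcd.le] at hy
      have hmem : ∀ x ∈ Icc a b, (x : ℂ) + y * I ∈ U := fun x hx =>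
        hsub (mem_Rc.2 (by simpa using ⟨hx, hy⟩))
      have h2 : ∀ x ∈ Ioo a b, HasDerivAt (fun t : ℝ => A a t y) (h (x + y * I)) x := by
        intro x hx
        have h3 := (hloc _ (hmem x ⟨hx.1.le, hx.2.le⟩)).2
        simp only [add_re, ofReal_re, mul_re, I_re, mul_zero, ofReal_im, I_im, mul_one, sub_self,
          add_zero, add_im, mul_im, zero_add] at h3
        have h4 : (fun t : ℝ => A a t y) = fun t : ℝ => A a x y + A x t y := by
          funext t; exact (hAadd a x t y).symm
        rw [h4]
        exact h3.const_add _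
      have h5 : ContinuousOn (fun t : ℝ => A a t y) (Icc a b) := by
        have : LipschitzWith ⟨B, hB0⟩ (fun t : ℝ => A a t y) := by
          refine LipschitzWith.of_dist_le_mul fun s t => ?_
          rw [dist_eq_norm, Real.dist_eq]
          show _ ≤ B * _
          have h6 : A a s y - A a t y = A t s y := by
            rw [← hAadd a t s y]; ring
          rw [h6]
          exact hAb _ _ _
        exact this.continuous.continuousOn
      have h7 : IntervalIntegrable (fun x : ℝ => h (x + y * I)) volume a b := by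
        apply ContinuousOn.intervalIntegrable
        rw [uIcc_of_le hab.le]
        exact hdiff.continuousOn.comp (by fun_prop) hmem
      have h8 := intervalIntegral.integral_eq_sub_of_hasDerivAt_of_le hab.le h5 h2 h7
      rw [h8, hA0, sub_zero]
    rw [← h1]
    exact hW1 a b c d hab hcd hsub

end Crest.Agent.R158.Pv470
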