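import Crest.Agent.R158.Pv4_470

/-!
R158, block P (helper470), part 5: closed convex sets pass to the weak limit; lattice versions.
-/

set_option autoImplicit false
open Complex MeasureTheory Metric Set Topology Filter
open scoped Interval ComplexConjugate

namespace Crest.Agent.R158.Pv470

theorem contOn_inner {f : ℂ → ℂ} {a b c d : ℝ} (hab : a ≤ b) (hcd : c ≤ d)
    (hf : ContinuousOn f (Rc a b c d)) :
    ContinuousOn (fun y : ℝ => ∫ x in a..b, f (x + y * I)) (Icc c d) := by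
  set g : ℝ → ℝ → ℂ := fun y x => f ((max a (min b x) : ℝ) + (max c (min d y) : ℝ) * I) with hg
  have hgc : Continuous (Function.uncurry g) := by
    refine hf.comp_continuous (by fun_prop) ?_
    rintro ⟨y, x⟩
    rw [mem_Rc]
    simp only [add_re, ofReal_re, mul_re, I_re, mul_zero, ofReal_im, I_im, mul_one, sub_self,
        add_zero, add_im, mul_im, zero_add]
    exact ⟨⟨le_max_left _ _, max_le hab (min_le_left _ _)⟩, le_max_left _ _,
      max_le hcd (min_le_left _ _)⟩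
  have h1 : Continuous fun y : ℝ => ∫ x in a..b, g y x :=
    intervalIntegral.continuous_parametric_intervalIntegral_of_continuous' hgc a b
  refine h1.continuousOn.congr fun y hy => ?_
  refine intervalIntegral.integral_congr fun x hx => ?_
  rw [uIcc_of_le hab] at hx
  simp only [hg]
  rw [min_eq_right hx.2, max_eq_right hx.1, min_eq_right hy.2, max_eq_right hy.1]

theorem ii_comp {f : ℝ → ℂ} {a b : ℝ} (L : ℂ →L[ℝ] ℝ) (h : IntervalIntegrable f volume a b) :
    IntervalIntegrable (fun x => L (f x)) volume a b :=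
  ⟨L.integrable_comp h.1, L.integrable_comp h.2⟩

theorem L_int2_le {f : ℂ → ℂ} {a b c d k : ℝ} (hab : a ≤ b) (hcd : c ≤ d) (L : ℂ →L[ℝ] ℝ)
    (i1 : ∀ y ∈ Icc c d, IntervalIntegrable (fun x : ℝ => f (x + y * I)) volume a b)
    (i2 : IntervalIntegrable (fun y : ℝ => ∫ x in a..b, f (x + y * I)) volume c d)
    (hk : ∀ x ∈ Icc a b, ∀ y ∈ Icc c d, L (f (x + y * I)) ≤ k) :
    L (∫ y in c..d, ∫ x in a..b, f (x + y * I)) ≤ k * ((b - a) * (d - c)) := by
  rw [← L.intervalIntegral_comp_comm i2]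
  have h1 : ∀ y ∈ Icc c d, L (∫ x in a..b, f (x + y * I)) ≤ k * (b - a) := by
    intro y hy
    rw [← L.intervalIntegral_comp_comm (i1 y hy)]
    have h2 := intervalIntegral.integral_mono_on hab
      (f := fun x : ℝ => L (f (x + y * I))) (g := fun _ => k)
      (ii_comp L (i1 y hy)) intervalIntegrable_const
      (fun x hx => hk x hx y hy)
    refine h2.trans (le_of_eq ?_)
    rw [intervalIntegral.integral_const, smul_eq_mul]; ring
  have h2 := intervalIntegral.integral_mono_on hcd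
    (f := fun y : ℝ => L (∫ x in a..b, f (x + y * I))) (g := fun _ => k * (b - a))
    (ii_comp L i2) intervalIntegrable_const h1
  refine h2.trans (le_of_eq ?_)
  rw [intervalIntegral.integral_const, smul_eq_mul]; ring

/-- closed half planes pass to the weak limit -/
theorem WLim.half {ι : Type*} {l : Filter ι} [l.NeBot] {U : Set ℂ} {g : ι → ℂ → ℂ} {h : ℂ → ℂ}
    (hw : WLim l g h U) (hc : ContinuousOn h U) (hm : ∀ n, Measurable (g n)) {B : ℝ}
    (hB : ∀ n z, ‖g n z‖ ≤ B) {W : Set ℂ} (hW : IsOpen W) (hWU : W ⊆ U) (L : ℂ →L[ℝ] ℝ) {k : ℝ}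
    (hL : ∀ᶠ n in l, ∀ z ∈ W, L (g n z) ≤ k) : ∀ z ∈ W, L (h z) ≤ k := by
  intro z hz
  by_contra! hcon
  set κ := (k + L (h z)) / 2 with hκ
  have hO : IsOpen (W ∩ (fun w => L (h w)) ⁻¹' Ioi κ) :=
    (L.continuous.comp_continuousOn (hc.mono hWU)).isOpen_inter_preimage hW isOpen_Ioi
  have hzO : z ∈ W ∩ (fun w => L (h w)) ⁻¹' Ioi κ := ⟨hz, by
    show κ < L (h z)
    rw [hκ]; linarith⟩
  obtain ⟨r, hr, hsub⟩ := exists_rect hO hzO
  set a := z.re - r
  set b := z.re + r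
  set c := z.im - r
  set d := z.im + r
  have hab : a < b := by simp only [a, b]; linarith
  have hcd : c < d := by simp only [c, d]; linarith
  have hRU : Rc a b c d ⊆ U := fun w hw => hWU (hsub hw).1
  have hmem : ∀ x ∈ Icc a b, ∀ y ∈ Icc c d, ((x : ℂ) + y * I) ∈ Rc a b c d := by
    intro x hx y hy
    exact mem_Rc.2 (by simpa using ⟨hx, hy⟩)
  have harea : 0 < (b - a) * (d - c) := mul_pos (sub_pos.2 hab) (sub_pos.2 hcd)
  -- upper bound
  have h1 : L (∫ y in c..d, ∫ x in a..b, h (x + y * I)) ≤ k * ((b - a) * (d - c)) := by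
    refine le_of_tendsto ((L.continuous.tendsto _).comp (hw a b c d hab hcd hRU)) ?_
    filter_upwards [hL] with n hn
    refine L_int2_le hab.le hcd.le L ?_ ?_ fun x hx y hy => hn _ (hsub (hmem x hx y hy)).1
    · intro y _
      refine (intervalIntegrable_const (c := B)).mono_fun
        ((hm n).comp (by fun_prop)).aestronglyMeasurable ?_
      exact Eventually.of_forall fun t => (hB n _).trans (le_abs_self B)
    · refine (intervalIntegrable_const (c := B * |b - a|)).mono_fun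
        (meas_hor (hm n) hab.le).aestronglyMeasurable ?_
      exact Eventually.of_forall fun t =>
        (intervalIntegral.norm_integral_le_of_norm_le_const fun t _ => hB n _).trans
          (le_abs_self _)
  -- lower bound
  have hcR : ContinuousOn h (Rc a b c d) := hc.mono hRU
  have h2 : (-L) (∫ y in c..d, ∫ x in a..b, h (x + y * I)) ≤ (-κ) * ((b - a) * (d - c)) := by
    refine L_int2_le hab.le hcd.le (-L) ?_ ?_ fun x hx y hy => ?_
    · intro y hy
      apply ContinuousOn.intervalIntegrable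
      rw [uIcc_of_le hab.le]; exact cont_hor hcR hy
    · apply ContinuousOn.intervalIntegrable
      rw [uIcc_of_le hcd.le]; exact contOn_inner hab.le hcd.le hcR
    · have : κ < L (h (x + y * I)) := (hsub (hmem x hx y hy)).2
      rw [neg_apply]
      linarith
  rw [neg_apply] at h2
  have h3 : κ ≤ k := by
    by_contra! h4
    nlinarith [mul_lt_mul_of_pos_right h4 harea]
  have : k < κ := by rw [hκ]; linarith
  linarith

/-- **closed convex sets pass to the weak limit** (with vanishing errors) -/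
theorem WLim.convex {ι : Type*} {l : Filter ι} [l.NeBot] {U : Set ℂ} {g : ι → ℂ → ℂ} {h : ℂ → ℂ}
    (hw : WLim l g h U) (hc : ContinuousOn h U) (hm : ∀ n, Measurable (g n)) {B : ℝ}
    (hB : ∀ n z, ‖g n z‖ ≤ B) {W : Set ℂ} (hW : IsOpen W) (hWU : W ⊆ U) {K : Set ℂ}
    (hK : Convex ℝ K) (hKc : IsClosed K) (hKn : K.Nonempty)
    (hev : ∀ ε > 0, ∀ᶠ n in l, ∀ z ∈ W, infDist (g n z) K ≤ ε) : ∀ z ∈ W, h z ∈ K := by
  intro z hz
  by_contra hcon
  obtain ⟨L, u, hLu, hLz⟩ := geometric_hahn_banach_closed_point hK hKc hcon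
  have h1 : ∀ ε > 0, L (h z) ≤ u + ε := by
    intro ε hε
    refine WLim.half hw hc hm hB hW hWU L ?_ z hz
    filter_upwards [hev (ε / (2 * (‖L‖ + 1))) (by positivity)] with n hn w hw'
    have h2 : infDist (g n w) K < ε / (‖L‖ + 1) := by
      refine (hn w hw').trans_lt ?_
      apply div_lt_div_of_pos_left hε (by positivity)
      have := norm_nonneg L
      linarith
    obtain ⟨v, hv, hv'⟩ := (infDist_lt_iff hKn).1 h2
    have h3 : L (g n w) - L v ≤ ‖L‖ * (ε / (‖L‖ + 1)) := by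
      rw [← map_sub]
      refine (le_abs_self _).trans ((L.le_opNorm _).trans ?_)
      rw [dist_eq_norm] at hv'
      exact mul_le_mul_of_nonneg_left hv'.le (norm_nonneg _)
    have h4 : ‖L‖ * (ε / (‖L‖ + 1)) ≤ ε := by
      rw [mul_div_assoc', div_le_iff₀ (by positivity)]
      nlinarith [norm_nonneg L]
    linarith [hLu v hv]
  have h2 := h1 ((L (h z) - u) / 2) (by linarith)
  linarith

/-- step function of a lattice function -/
noncomputable def stepf (o : ℂ) (δ : ℝ) (H : ℤ → ℤ → ℂ) (z : ℂ) : ℂ :=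
  H ⌊(z.re - o.re) / δ⌋ ⌊(z.im - o.im) / δ⌋

theorem meas_stepf (o : ℂ) (δ : ℝ) (H : ℤ → ℤ → ℂ) : Measurable (stepf o δ H) := by
  have h1 : Measurable fun p : ℤ × ℤ => H p.1 p.2 := measurable_of_countable _
  have h2 : Measurable fun z : ℂ => (⌊(z.re - o.re) / δ⌋, ⌊(z.im - o.im) / δ⌋) := by
    refine Measurable.prodMk ?_ ?_
    · exact Int.measurable_floor.comp (by fun_prop)
    · exact Int.measurable_floor.comp (by fun_prop)
  exact h1.comp h2

/-- integral of a one dimensional step function -/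
theorem step_int {G : ℤ → ℂ} {o δ a b B : ℝ} (hδ : 0 < δ) (hab : a ≤ b) (hG : ∀ i, ‖G i‖ ≤ B) :
    ‖(∫ x in a..b, G ⌊(x - o) / δ⌋) - δ * ∑ k ∈ Finset.range
      (⌊(b - o) / δ⌋ - ⌊(a - o) / δ⌋).toNat, G (⌊(a - o) / δ⌋ + k)‖ ≤ 2 * B * δ := by
  set i1 := ⌊(a - o) / δ⌋ with hi1
  set i2 := ⌊(b - o) / δ⌋ with hi2
  have h12 : i1 ≤ i2 := by
    apply Int.floor_le_floor
    apply div_le_div_of_nonneg_right _ hδ.le
    linarith
  set N := (i2 - i1).toNat with hN
  have hNi : (i1 : ℤ) + N = i2 := by rw [hN]; omega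
  have hii : ∀ x y : ℝ, IntervalIntegrable (fun x => G ⌊(x - o) / δ⌋) volume x y := by
    intro x y
    refine (intervalIntegrable_const (c := B)).mono_fun ?_ ?_
    · have h1 : Measurable G := measurable_of_countable _
      exact (h1.comp (Int.measurable_floor.comp (by fun_prop))).aestronglyMeasurable
    · exact Eventually.of_forall fun t => (hG _).trans (le_abs_self B)
  have hcell : ∀ k : ℕ, ∫ x in (o + δ * (i1 + k))..(o + δ * (i1 + (k + 1 : ℕ))),
      G ⌊(x - o) / δ⌋ = δ * G (i1 + k) := by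
    intro k
    have h1 : o + δ * (i1 + k) ≤ o + δ * (i1 + (k + 1 : ℕ)) := by
      push_cast; nlinarith
    rw [intervalIntegral.integral_congr_Ioo_of_le (g := fun _ => G (i1 + k)) h1 ?_]
    · rw [intervalIntegral.integral_const, Complex.real_smul]
      push_cast; ring
    · intro x hx
      have h2 : ⌊(x - o) / δ⌋ = i1 + k := by
        rw [Int.floor_eq_iff]
        obtain ⟨h3, h4⟩ := hx
        push_cast at h3 h4 ⊢
        constructor
        · rw [le_div_iff₀ hδ]; linarith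
        · rw [div_lt_iff₀ hδ]; linarith
      simp only [h2]
  have hsum : ∫ x in (o + δ * i1)..(o + δ * i2), G ⌊(x - o) / δ⌋ =
      δ * ∑ k ∈ Finset.range N, G (i1 + k) := by
    have h1 := intervalIntegral.sum_integral_adjacent_intervals (f := fun x => G ⌊(x - o) / δ⌋)
      (a := fun k : ℕ => o + δ * (i1 + k)) (n := N) (μ := volume) (fun k _ => hii _ _)
    have h2 : ((i1 : ℝ) + (N : ℕ)) = i2 := by
      rw [← hNi]; push_cast; ring
    simp only [Nat.cast_zero, add_zero, h2] at h1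
    rw [← h1, Finset.mul_sum]
    exact Finset.sum_congr rfl fun k _ => hcell k
  rw [← hsum]
  have h3 : (∫ x in a..b, G ⌊(x - o) / δ⌋) - ∫ x in (o + δ * i1)..(o + δ * i2), G ⌊(x - o) / δ⌋ =
      (∫ x in (o + δ * i2)..b, G ⌊(x - o) / δ⌋) - ∫ x in (o + δ * i1)..a, G ⌊(x - o) / δ⌋ := by
    have e1 := intervalIntegral.integral_add_adjacent_intervals (hii (o + δ * i1) a) (hii a b)
    have e2 := intervalIntegral.integral_add_adjacent_intervals (hii (o + δ * i1) (o + δ * i2))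
      (hii (o + δ * i2) b)
    linear_combination e1 - e2
  rw [h3]
  have hB0 : 0 ≤ B := (norm_nonneg _).trans (hG 0)
  have ha1 := Int.floor_le ((a - o) / δ)
  have ha2 := Int.lt_floor_add_one ((a - o) / δ)
  have hb1 := Int.floor_le ((b - o) / δ)
  have hb2 := Int.lt_floor_add_one ((b - o) / δ)
  rw [← hi1] at ha1 ha2
  rw [← hi2] at hb1 hb2
  rw [le_div_iff₀ hδ] at ha1 hb1
  rw [div_lt_iff₀ hδ] at ha2 hb2
  have h4 : ‖∫ x in (o + δ * i2)..b, G ⌊(x - o) / δ⌋‖ ≤ B * δ := by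
    refine (intervalIntegral.norm_integral_le_of_norm_le_const fun t _ => hG _).trans ?_
    refine mul_le_mul_of_nonneg_left ?_ hB0
    rw [abs_le]; constructor <;> nlinarith
  have h5 : ‖∫ x in (o + δ * i1)..a, G ⌊(x - o) / δ⌋‖ ≤ B * δ := by
    refine (intervalIntegral.norm_integral_le_of_norm_le_const fun t _ => hG _).trans ?_
    refine mul_le_mul_of_nonneg_left ?_ hB0
    rw [abs_le]; constructor <;> nlinarith
  calc _ ≤ B * δ + B * δ := (norm_sub_le _ _).trans (add_le_add h4 h5)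
    _ = _ := by ring

/-- discrete contour sum of the lattice cells of `[a,b] × [c,d]` -/
noncomputable def csum (o : ℂ) (δ : ℝ) (H : ℤ → ℤ → ℂ) (s : ℂ) (a b c d : ℝ) : ℂ :=
  δ * ((∑ k ∈ Finset.range (⌊(b - o.re) / δ⌋ - ⌊(a - o.re) / δ⌋).toNat,
      H (⌊(a - o.re) / δ⌋ + k) ⌊(d - o.im) / δ⌋ -
    ∑ k ∈ Finset.range (⌊(b - o.re) / δ⌋ - ⌊(a - o.re) / δ⌋).toNat,
      H (⌊(a - o.re) / δ⌋ + k) ⌊(c - o.im) / δ⌋) -
    s * (∑ k ∈ Finset.range (⌊(d - o.im) / δ⌋ - ⌊(c - o.im) / δ⌋).toNat,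
      H ⌊(b - o.re) / δ⌋ (⌊(c - o.im) / δ⌋ + k) -
    ∑ k ∈ Finset.range (⌊(d - o.im) / δ⌋ - ⌊(c - o.im) / δ⌋).toNat,
      H ⌊(a - o.re) / δ⌋ (⌊(c - o.im) / δ⌋ + k)))

theorem per_stepf {o : ℂ} {δ : ℝ} {H : ℤ → ℤ → ℂ} {B a b c d : ℝ} (hδ : 0 < δ) (hab : a ≤ b)
    (hcd : c ≤ d) (hB : ∀ i j, ‖H i j‖ ≤ B) :
    ‖per (stepf o δ H) a b c d + csum o δ H I a b c d‖ ≤ 8 * B * δ := by
  have h1 := step_int (G := fun i => H i ⌊(c - o.im) / δ⌋) (o := o.re) hδ hab (fun i => hB _ _)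
  have h2 := step_int (G := fun i => H i ⌊(d - o.im) / δ⌋) (o := o.re) hδ hab (fun i => hB _ _)
  have h3 := step_int (G := fun j => H ⌊(a - o.re) / δ⌋ j) (o := o.im) hδ hcd (fun i => hB _ _)
  have h4 := step_int (G := fun j => H ⌊(b - o.re) / δ⌋ j) (o := o.im) hδ hcd (fun i => hB _ _)
  simp only [per, stepf, csum, smul_eq_mul, add_re, ofReal_re, mul_re, I_re, mul_zero, ofReal_im,
    I_im, mul_one, sub_self, add_zero, add_im, mul_im, zero_add]
  set S1 := (∫ x in a..b, H ⌊(x - o.re) / δ⌋ ⌊(c - o.im) / δ⌋)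
  set S2 := (∫ x in a..b, H ⌊(x - o.re) / δ⌋ ⌊(d - o.im) / δ⌋)
  set S3 := (∫ y in c..d, H ⌊(a - o.re) / δ⌋ ⌊(y - o.im) / δ⌋)
  set S4 := (∫ y in c..d, H ⌊(b - o.re) / δ⌋ ⌊(y - o.im) / δ⌋)
  set T1 := ∑ k ∈ Finset.range (⌊(b - o.re) / δ⌋ - ⌊(a - o.re) / δ⌋).toNat,
      H (⌊(a - o.re) / δ⌋ + k) ⌊(c - o.im) / δ⌋
  set T2 := ∑ k ∈ Finset.range (⌊(b - o.re) / δ⌋ - ⌊(a - o.re) / δ⌋).toNat,
      H (⌊(a - o.re) / δ⌋ + k) ⌊(d - o.im) / δ⌋
  set T3 := ∑ k ∈ Finset.range (⌊(d - o.im) / δ⌋ - ⌊(c - o.im) / δ⌋).toNat,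
      H ⌊(a - o.re) / δ⌋ (⌊(c - o.im) / δ⌋ + k)
  set T4 := ∑ k ∈ Finset.range (⌊(d - o.im) / δ⌋ - ⌊(c - o.im) / δ⌋).toNat,
      H ⌊(b - o.re) / δ⌋ (⌊(c - o.im) / δ⌋ + k)
  have e1 : S1 - S2 + I * S4 - I * S3 + δ * (T2 - T1 - I * (T4 - T3)) =
      ((S1 - δ * T1) - (S2 - δ * T2)) + I * ((S4 - δ * T4) - (S3 - δ * T3)) := by ring
  rw [e1]
  have h5 : ‖I * ((S4 - δ * T4) - (S3 - δ * T3))‖ ≤ 2 * B * δ + 2 * B * δ := by
    rw [norm_mul, norm_I, one_mul]
    exact (norm_sub_le _ _).trans (add_le_add h4 h3)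
  calc _ ≤ (2 * B * δ + 2 * B * δ) + (2 * B * δ + 2 * B * δ) :=
        (norm_add_le _ _).trans (add_le_add ((norm_sub_le _ _).trans (add_le_add h1 h2)) h5)
    _ = _ := by ring

/-- weak limits of lattice functions with vanishing contour sums -/
theorem weak_of_csum {ι : Type*} {l : Filter ι} [l.IsCountablyGenerated] {𝒰 : Ultrafilter ι}
    (h𝒰 : (𝒰 : Filter ι) ≤ l) {δ : ι → ℝ} (hδ : ∀ n, 0 < δ n) (hδ0 : Tendsto δ l (𝓝 0))
    {o : ι → ℂ} {H : ι → ℤ → ℤ → ℂ} {U : Set ℂ} (hU : IsOpen U) {B : ℝ}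
    (hB : ∀ n i j, ‖H n i j‖ ≤ B)
    (hcs : ∀ a b c d : ℝ, a < b → c < d → Rc a b c d ⊆ U →
      Tendsto (fun n => csum (o n) (δ n) (H n) I a b c d) l (𝓝 0)) :
    ∃ h : ℂ → ℂ, DifferentiableOn ℂ h U ∧ (∀ z, ‖h z‖ ≤ B) ∧
      WLim 𝒰 (fun n => stepf (o n) (δ n) (H n)) h U := by
  refine weak_limit h𝒰 hU (fun n => meas_stepf _ _ _) (fun n z => hB n _ _) ?_
  intro a b c d hab hcd hsub
  have h1 : Tendsto (fun n => per (stepf (o n) (δ n) (H n)) a b c d +
      csum (o n) (δ n) (H n) I a b c d) l (𝓝 0) := by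
    rw [tendsto_zero_iff_norm_tendsto_zero]
    refine squeeze_zero (fun n => norm_nonneg _) (fun n => per_stepf (hδ n) hab.le hcd.le (hB n)) ?_
    simpa using hδ0.const_mul (8 * B)
  have h2 := h1.sub (hcs a b c d hab hcd hsub)
  simpa using h2

end Crest.Agent.R158.Pv470
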