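import Crest.Agent.R158.Q3a_331
import Crest.Agent.R158.Mg1_949

/-!
# R158 (helper331), Q3m / Q3p, part 2: hypotheses of the cores from index data

Over helper949's positions (Mg1): `U` boundary walk, base at the middle of the edge `0`.

* `pt_face`, `nN_face`, `gap_face` : the face of the gap `g` is near the vertex `U (vx g)`
* `near_step` : a near end is at a step near `z`
* **`H3m_of`, `H3p_of`** : hypotheses of the cores of block CB
* `M3_of` : the marks are distinct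
-/

set_option autoImplicit false

noncomputable section

namespace Crest.Agent.R158.Q331

open Crest.Agent.R161.Geo729 (P2)
open Crest.Agent.R158.Cb771 (off gc NearZ FarT InS)
open Crest.Agent.R158.Env664
open Crest.Agent.R158.Tj656 (Nk)
open Crest.Agent.R158.Sw300 (Port Wd L)
open Crest.Agent.R158.Al194 (rotl idL mem_rotl rotl_length)
open Crest.Agent.R158.Bl802 (pt nN)
open Crest.Agent.R158.Mg949 (LG pu vx AtE st LG_length LG_step LG_N pos_cases rotl_LG idL_step le_idL)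
open Crest.Agent.R158.Sp896 (V Adj)

/-- face and tile of a step -/
theorem pt_face {a b : V} (h : Adj a b) : ∃ t d, pt a b = some (t, d) ∧
    t + off d = (b.1 - 1, b.2 - 1) ∧ (a.1 - 1 ≤ t.1 ∧ t.1 ≤ a.1 + 1) ∧
      (a.2 - 1 ≤ t.2 ∧ t.2 ≤ a.2 + 1) := by
  obtain ⟨a1, a2⟩ := a
  obtain ⟨b1, b2⟩ := b
  unfold Adj at h
  simp only at h
  rcases h with ⟨h1, h2⟩ | ⟨h1, h2⟩ | ⟨h1, h2⟩ | ⟨h1, h2⟩
  · subst h1 h2
    refine ⟨_, _, Bl802.pt_E a1 b2, ?_, by simp only; omega, by simp only; omega⟩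
    have : off (3 : ZMod 4) = (0, -1) := by decide
    rw [this]; ext <;> simp only [Prod.fst_add, Prod.snd_add] <;> omega
  · subst h1 h2
    refine ⟨_, _, Bl802.pt_W a1 b2, ?_, by simp only; omega, by simp only; omega⟩
    have : off (1 : ZMod 4) = (-1, 0) := by decide
    rw [this]; ext <;> simp only [Prod.fst_add, Prod.snd_add] <;> omega
  · subst h1 h2
    refine ⟨_, _, Bl802.pt_N b1 a2, ?_, by simp only; omega, by simp only; omega⟩
    have : off (2 : ZMod 4) = (0, 0) := by decide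
    rw [this]; ext <;> simp only [Prod.fst_add, Prod.snd_add] <;> omega
  · subst h1 h2
    refine ⟨_, _, Bl802.pt_S b1 a2, ?_, by simp only; omega, by simp only; omega⟩
    have : off (0 : ZMod 4) = (-1, -1) := by decide
    rw [this]; ext <;> simp only [Prod.fst_add, Prod.snd_add] <;> omega

/-- face and tile of the extra end -/
theorem nN_face (xr y0 : ℤ) : ∃ t d, nN xr y0 = some (t, d) ∧ t + off d = (xr - 1, y0 - 1) ∧
    t = (xr, y0 - 1) := by
  refine ⟨_, _, rfl, ?_, rfl⟩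
  have : off (1 : ZMod 4) = (-1, 0) := by decide
  rw [this]; ext <;> simp only [Prod.fst_add, Prod.snd_add] <;> omega

/-- the walk with the list of the free ends of a region with leg -/
structure WL (n q : ℕ) (U : ℕ → V) (xr y0 : ℤ) (w : Wd V) : Prop where
  ok : Sw300.Ok w
  rot : L w ~r LG (st U) n q (nN xr y0)
  hq : q < n
  per : ∀ i, U (i + n) = U i
  step : ∀ i, Adj (U i) (U (i + 1))
  vq : U q = (xr + 1, y0)

section

variable {n q : ℕ} {U : ℕ → V} {xr y0 : ℤ} {w : Wd V}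

/-- indices with the instance of `ℤ × ℤ` -/
theorem idx_eq (w : Wd (ℤ × ℤ)) (m x : Port (ℤ × ℤ)) :
    (Al194.rotl (L w) m).idxOf x = idL (L w) m x := by
  unfold idL
  congr!

/-- the list read from the first mark -/
theorem WL.rotl (H : WL n q U xr y0 w) :
    Al194.rotl (L w) (st U (n - 1)) = LG (st U) n q (nN xr y0) := by
  have h := rotl_LG H.ok H.rot H.hq
  rw [← h]
  congr!

/-- an end at a gap: tile near its vertex, face near the vertex of the gap -/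
theorem WL.end_at (H : WL n q U xr y0 w) {g : ℕ} (hg : g < n + 1) :
    ∃ t d, (LG (st U) n q (nN xr y0)).getD g none = some (t, d) ∧
      (∃ i < n, (i = vx n q g ∨ i + 1 = vx n q g) ∧ ((U i).1 - 1 ≤ t.1 ∧ t.1 ≤ (U i).1 + 1 ∧
        (U i).2 - 1 ≤ t.2 ∧ t.2 ≤ (U i).2 + 1)) ∧
      ((U (vx n q g)).1 - 2 ≤ (t + off d).1 ∧ (t + off d).1 ≤ (U (vx n q g)).1 ∧
        (U (vx n q g)).2 - 2 ≤ (t + off d).2 ∧ (t + off d).2 ≤ (U (vx n q g)).2) := by
  rcases pos_cases H.hq hg with ⟨i, hi, e1, e2⟩ | ⟨e1, e2⟩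
  · obtain ⟨t, d, h1, h2, h3, h4⟩ := pt_face (H.step i)
    refine ⟨t, d, ?_, ⟨i, hi, Or.inr e2.symm, by omega⟩, ?_⟩
    · rw [e1, LG_step H.hq hi]; exact h1
    · rw [e2, h2]; simp only; omega
  · obtain ⟨t, d, h1, h2, h3⟩ := nN_face xr y0
    refine ⟨t, d, ?_, ⟨q, H.hq, Or.inl e2.symm, ?_⟩, ?_⟩
    · rw [e1, LG_N]; exact h1
    · rw [H.vq, h3]; simp only; omega
    · rw [e2, h2, H.vq]; simp only; omega

/-- the face of a gap -/
theorem WL.gap_face (H : WL n q U xr y0 w) {g : ℕ} (hg : g ≤ n + 1) {t : ℤ × ℤ} {d : ZMod 4}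
    (h : gc (LG (st U) n q (nN xr y0)) g = some (t, d)) :
    (U (vx n q g)).1 - 2 ≤ (t + off d).1 ∧ (t + off d).1 ≤ (U (vx n q g)).1 ∧
      (U (vx n q g)).2 - 2 ≤ (t + off d).2 ∧ (t + off d).2 ≤ (U (vx n q g)).2 := by
  unfold gc at h
  rw [LG_length H.hq] at h
  rcases Nat.lt_or_ge g (n + 1) with h1 | h1
  · rw [Nat.mod_eq_of_lt h1] at h
    obtain ⟨t', d', e1, -, e2⟩ := H.end_at h1
    rw [e1, Gc748.lc_some] at h
    simp only [Option.some.injEq, Prod.mk.injEq] at h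
    obtain ⟨rfl, rfl⟩ := h
    exact e2
  · have hg1 : g = n + 1 := by omega
    subst hg1
    rw [Nat.mod_self] at h
    obtain ⟨t', d', e1, -, e2⟩ := H.end_at (g := 0) (by omega)
    rw [e1, Gc748.lc_some] at h
    simp only [Option.some.injEq, Prod.mk.injEq] at h
    obtain ⟨rfl, rfl⟩ := h
    have hq := H.hq
    have v0 : vx n q 0 = n := by unfold vx; split_ifs <;> omega
    have v1 : vx n q (n + 1) = 0 := by unfold vx; split_ifs <;> omega
    rw [v0] at e2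
    rw [v1]
    have := H.per 0
    rw [zero_add] at this
    rwa [this] at e2

/-- the face of an end at a gap -/
theorem WL.get_face (H : WL n q U xr y0 w) {g : ℕ} (hg : g < n + 1) {t : ℤ × ℤ} {d : ZMod 4}
    (h : (LG (st U) n q (nN xr y0)).getD g none = some (t, d)) :
    (U (vx n q g)).1 - 2 ≤ (t + off d).1 ∧ (t + off d).1 ≤ (U (vx n q g)).1 ∧
      (U (vx n q g)).2 - 2 ≤ (t + off d).2 ∧ (t + off d).2 ≤ (U (vx n q g)).2 := by
  obtain ⟨t', d', e1, -, e2⟩ := H.end_at hg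
  rw [e1] at h
  simp only [Option.some.injEq, Prod.mk.injEq] at h
  obtain ⟨rfl, rfl⟩ := h
  exact e2

/-- an end of the list is at a step next to its tile -/
theorem WL.at_step (H : WL n q U xr y0 w) {x : Port V} (hx : x ∈ L w) :
    ∃ i t d, AtE (st U) n q (nN xr y0) x i ∧ x = some (t, d) ∧ ((U i).1 - 1 ≤ t.1 ∧
      t.1 ≤ (U i).1 + 1 ∧ (U i).2 - 1 ≤ t.2 ∧ t.2 ≤ (U i).2 + 1) := by
  obtain ⟨i, hi⟩ := (Mg949.mem_L H.ok H.rot H.hq).1 hx
  obtain ⟨hin, rfl | ⟨rfl, rfl⟩⟩ := id hi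
  · obtain ⟨t, d, h1, h2, h3, h4⟩ := pt_face (H.step i)
    exact ⟨i, t, d, hi, h1, by omega⟩
  · obtain ⟨t, d, h1, h2, h3⟩ := nN_face xr y0
    refine ⟨i, t, d, hi, h1, ?_⟩
    rw [H.vq, h3]; simp only; omega

/-- a near end is at a near step -/
theorem WL.near_step (H : WL n q U xr y0 w) {x : Port V} (hx : x ∈ L w) {p y : ℤ} {Rd : ℕ}
    (hn : NearZ p y Rd x) : ∃ i, AtE (st U) n q (nN xr y0) x i ∧
      |(U i).1 - p| ≤ (Rd : ℤ) + 8 ∧ |(U i).2 - y| ≤ (Rd : ℤ) + 8 := by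
  obtain ⟨i, t, d, h1, rfl, h2⟩ := H.at_step hx
  obtain ⟨t', d', e, h3, h4⟩ := hn
  simp only [Option.some.injEq, Prod.mk.injEq] at e
  obtain ⟨rfl, rfl⟩ := e
  refine ⟨i, h1, ?_, ?_⟩
  · rw [abs_le] at h3 ⊢; omega
  · rw [abs_le] at h4 ⊢; omega

theorem WL.marks (H : WL n q U xr y0 w) {e2 e3 : ℕ} (h32 : e3 < e2) (h2 : e2 + 1 < n) :
    M3 w (st U (n - 1)) (st U e2) (st U e3) := by
  have m : ∀ e < n, st U e ∈ L w := fun e he =>
    (Mg949.mem_L H.ok H.rot H.hq).2 ⟨e, he, Or.inl rfl⟩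
  have hq := H.hq
  have ne : ∀ e < n, ∀ e' < n, e < e' → st U e ≠ st U e' := by
    intro e he e' he' hlt heq
    have h3 := idL_step H.ok H.rot H.hq he
    have h4 := idL_step H.ok H.rot H.hq he'
    rw [heq, h4] at h3
    unfold pu at h3
    split_ifs at h3 <;> omega
  exact ⟨m _ (by omega), m _ (by omega), m _ (by omega), (ne _ (by omega) _ (by omega) (by omega)).symm,
    (ne _ (by omega) _ (by omega) (by omega)).symm, (ne _ (by omega) _ (by omega) (by omega)).symm⟩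

/-- a face near a point of `S` -/
theorem fpos_mem {S : Set P2} {v : V} (hv : v ∈ S) {t : ℤ × ℤ} {d : ZMod 4}
    (h : v.1 - 2 ≤ (t + off d).1 ∧ (t + off d).1 ≤ v.1 ∧ v.2 - 2 ≤ (t + off d).2 ∧
      (t + off d).2 ≤ v.2) {e : ℤ} (he : e = 0 ∨ e = 1) :
    ((t.1 - e, t.2) + off d : P2) ∈ Nk 3 S := by
  simp only [Prod.fst_add, Prod.snd_add] at h
  refine ⟨v, hv, ?_, ?_⟩
  · simp only [Prod.fst_add, abs_le]
    omega
  · simp only [Prod.snd_add, abs_le]
    omega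

theorem tile_mem {D : Finset (ℤ × ℤ)} {S : Set P2} (hD : ∀ t ∈ D, t ∈ S) {t : ℤ × ℤ} (ht : t ∈ D)
    {e : ℤ} (he : e = 0 ∨ e = 1) : ((t.1 - e, t.2) : P2) ∈ Nk 3 S := by
  refine ⟨t, hD t ht, ?_, ?_⟩
  · simp only [abs_le]; omega
  · simp

/-- **hypotheses of the core of `Q3m`** : marks `n - 1`, `a2 - 1`, `a3 - 1`; leg end near the arc
`[0, a1]` -/
theorem H3m_of (H : WL n q U xr y0 w) {D : Finset (ℤ × ℤ)} {p y : ℤ} {Rd a1 a3 a2 : ℕ}
    {F A0 A2 : Set P2} (h13 : a1 < a3) (h32 : a3 < a2) (h2n : a2 < n)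
    (g4 : ∀ i < n, |(U i).1 - p| ≤ (Rd : ℤ) + 8 → |(U i).2 - y| ≤ (Rd : ℤ) + 8 → i + 2 ≤ a1)
    (hD : ∀ t ∈ D, t ∈ F) (s0 : ∀ i ≤ a1, U i ∈ A0) (s1 : ∀ i, a3 ≤ i → i ≤ a2 → U i ∈ A2) :
    H3m D p y (rotl (L w) (st U (n - 1))) ((rotl (L w) (st U (n - 1))).idxOf (st U (a2 - 1)))
      ((rotl (L w) (st U (n - 1))).idxOf (st U (a3 - 1))) Rd (fun t => t ∈ Nk 3 F) (Nk 3 A0)
      (Nk 3 A2) := by
  have hq := H.hq
  have i2 := idL_step H.ok H.rot hq (i := a2 - 1) (by omega)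
  have i3 := idL_step H.ok H.rot hq (i := a3 - 1) (by omega)
  have hlen : (Al194.rotl (L w) (st U (n - 1))).length = n + 1 := by rw [H.rotl, LG_length hq]
  have l2 : (Al194.rotl (L w) (st U (n - 1))).idxOf (st U (a2 - 1)) = pu n q (a2 - 1) := by
    rw [idx_eq]; exact i2
  have l3 : (Al194.rotl (L w) (st U (n - 1))).idxOf (st U (a3 - 1)) = pu n q (a3 - 1) := by
    rw [idx_eq]; exact i3
  have hv : ∀ h, pu n q (a2 - 1) ≤ h → h ≤ pu n q (a3 - 1) →
      h < n + 1 ∧ a3 ≤ vx n q h ∧ vx n q h ≤ a2 := by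
    intro h h1 h2
    have h3 := Mg949.vx_ge H.ok H.rot hq (e := a3 - 1) (g := h) (by omega) (by rw [i3]; exact h2)
    have h4 := Mg949.vx_le H.ok H.rot hq (e := a2 - 1) (g := h) (by omega) (by rw [i2]; exact h1)
    have h5 := Mg949.pu_lt hq (i := a3 - 1) (n := n) (by omega)
    omega
  rw [l2, l3]
  refine ⟨?_, ?_, ?_, ?_, ?_, ?_⟩
  · unfold pu; split_ifs <;> omega
  · intro u hu hn
    obtain ⟨i, h1, h2, h3⟩ := H.near_step (mem_rotl.1 hu) hn
    have h4 := g4 i h1.1 h2 h3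
    have h5 := (le_idL H.ok H.rot hq h1 (e := a3 - 1) (by omega)).2 (by omega)
    rw [i3] at h5
    rw [idx_eq]
    exact h5
  · intro h h1 h2
    obtain ⟨k1, k2, k3⟩ := hv h h1 h2
    obtain ⟨t, d, e1, ⟨i, e2, e3, e4⟩, -⟩ := H.end_at k1
    refine ⟨t, d, by rw [H.rotl]; exact e1, ?_⟩
    by_contra hc
    unfold FarT at hc
    push Not at hc
    rw [abs_le, abs_le] at hc
    have := g4 i e2 (by rw [abs_le]; omega) (by rw [abs_le]; omega)
    omega
  · intro u hu hn g h1 h2 t d h3 e he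
    rw [hlen] at h2
    rw [idx_eq] at h1
    obtain ⟨i, k1, k2, k3⟩ := H.near_step (mem_rotl.1 hu) hn
    have h4 := g4 i k1.1 k2 k3
    have h5 := Mg949.vx_le_of_lt H.ok H.rot hq k1 h1 h2
    rw [H.rotl] at h3
    exact fpos_mem (s0 _ (by omega)) (H.gap_face h2 h3) he
  · intro h h1 h2 t d h3 e he
    obtain ⟨k1, k2, k3⟩ := hv h h1 h2
    rw [H.rotl] at h3
    exact fpos_mem (s1 _ k2 k3) (H.get_face k1 h3) he
  · intro t ht e he
    exact tile_mem hD ht he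

/-- **hypotheses of the core of `Q3p`** : marks `n - 1`, `a2 - 1`, `a3 - 1`; leg end near the arc
`[a1, a3]` -/
theorem H3p_of (H : WL n q U xr y0 w) {D : Finset (ℤ × ℤ)} {p y : ℤ} {Rd a1 a3 a2 : ℕ}
    {F A1 A3 : Set P2} (h13 : a1 < a3) (h32 : a3 < a2) (h2n : a2 < n)
    (g4 : ∀ i < n, |(U i).1 - p| ≤ (Rd : ℤ) + 8 → |(U i).2 - y| ≤ (Rd : ℤ) + 8 →
      a1 ≤ i ∧ i + 2 ≤ a3)
    (hD : ∀ t ∈ D, t ∈ F) (s0 : ∀ i, a1 ≤ i → i ≤ a3 → U i ∈ A1) (s1 : ∀ i, a2 ≤ i → i ≤ n → U i ∈ A3) :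
    H3p D p y (rotl (L w) (st U (n - 1))) ((rotl (L w) (st U (n - 1))).idxOf (st U (a2 - 1)))
      ((rotl (L w) (st U (n - 1))).idxOf (st U (a3 - 1))) Rd (fun t => t ∈ Nk 3 F) (Nk 3 A1)
      (Nk 3 A3) := by
  have hq := H.hq
  have i2 := idL_step H.ok H.rot hq (i := a2 - 1) (by omega)
  have i3 := idL_step H.ok H.rot hq (i := a3 - 1) (by omega)
  have hlen : (Al194.rotl (L w) (st U (n - 1))).length = n + 1 := by rw [H.rotl, LG_length hq]
  have l2 : (Al194.rotl (L w) (st U (n - 1))).idxOf (st U (a2 - 1)) = pu n q (a2 - 1) := by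
    rw [idx_eq]; exact i2
  have l3 : (Al194.rotl (L w) (st U (n - 1))).idxOf (st U (a3 - 1)) = pu n q (a3 - 1) := by
    rw [idx_eq]; exact i3
  have hv : ∀ h, h ≤ pu n q (a2 - 1) → h < n + 1 ∧ a2 ≤ vx n q h ∧ vx n q h ≤ n := by
    intro h h2
    have h3 := Mg949.vx_ge H.ok H.rot hq (e := a2 - 1) (g := h) (by omega) (by rw [i2]; exact h2)
    have h5 := Mg949.pu_lt hq (i := a2 - 1) (n := n) (by omega)
    refine ⟨by omega, by omega, ?_⟩
    unfold vx; split_ifs <;> omega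
  rw [l2, l3]
  refine ⟨?_, ?_, ?_, ?_, ?_, ?_⟩
  · unfold pu; split_ifs <;> omega
  · intro u hu hn
    obtain ⟨i, h1, h2, h3⟩ := H.near_step (mem_rotl.1 hu) hn
    have h4 := g4 i h1.1 h2 h3
    have h5 := (le_idL H.ok H.rot hq h1 (e := a3 - 1) (by omega)).2 (by omega)
    rw [i3] at h5
    rw [idx_eq]
    exact h5
  · intro h h2
    obtain ⟨k1, k2, k3⟩ := hv h h2
    obtain ⟨t, d, e1, ⟨i, e2, e3, e4⟩, -⟩ := H.end_at k1
    refine ⟨t, d, by rw [H.rotl]; exact e1, ?_⟩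
    by_contra hc
    unfold FarT at hc
    push Not at hc
    rw [abs_le, abs_le] at hc
    have := g4 i e2 (by rw [abs_le]; omega) (by rw [abs_le]; omega)
    omega
  · intro u hu hn h h1 h2 t d h3 e he
    rw [idx_eq] at h2
    obtain ⟨i, k1, k2, k3⟩ := H.near_step (mem_rotl.1 hu) hn
    have h4 := g4 i k1.1 k2 k3
    have h5 := Mg949.vx_ge_of_le H.ok H.rot hq k1 h2
    have h6 := Mg949.vx_le H.ok H.rot hq (e := a3 - 1) (g := h) (by omega) (by rw [i3]; exact h1)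
    have h7 : idL (L w) (st U (n - 1)) u < (L w).length := Al194.idL_lt (mem_rotl.1 hu)
    rw [Mg949.length_L H.ok H.rot hq] at h7
    rw [H.rotl] at h3
    exact fpos_mem (s0 _ (by omega) (by omega)) (H.get_face (by omega) h3) he
  · intro h h2 t d h3 e he
    obtain ⟨k1, k2, k3⟩ := hv h h2
    rw [H.rotl] at h3
    exact fpos_mem (s1 _ k2 k3) (H.get_face k1 h3) he
  · intro t ht e he
    exact tile_mem hD ht he

end

end Crest.Agent.R158.Q331
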