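import Crest.Agent.R158.Q3b_331
import Crest.Agent.R158.Mg2_949

/-!
# R158 (helper331), Q3m / Q3p, part 3: final assembly over helper949's `WD`

* `av` : the marked edges; `wU_arc` : the vertices with index in `[m0 L, m1 L]` lie on the boundary
  edges `m0 ≤ m ≤ m1`
* `G4 j` : near a flat point of the arc `j` all vertices of the walk have indices of the arc `j`
* `wl_of` : `WD` gives `WL`
* **`geo3m`**, **`geo3p`**, **`q3m_of_g4`**, **`q3p_of_g4`**
-/

set_option autoImplicit false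

noncomputable section

namespace Crest.Agent.R158.Q331

open Crest.Agent.R161.Geo729 (P2)
open Crest.Agent.R158.Env664
open Crest.Agent.R158.Tj656 (P4 DT Nk arcT mpos Q3m Q3p)
open Crest.Agent.R158.Sw300 (Port Wd L)
open Crest.Agent.R158.Bl802 (pt nN sv sv_mk)
open Crest.Agent.R158.Mg949 (LG st nn Lz wU cycU sU WD exists_WD mark0 markD markC Lz_pos)
open Crest.Agent.R158.Sp896 (V Adj Cyc)

/-- the marked edges and the number of edges -/
def av (P : P4) (j : Fin 5) : ℕ := ![0, P.mb, P.mc, P.md, P.N] j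

theorem wU_arc (P : P4) {k : ℕ} (hk : 0 < k) {m0 m1 i : ℕ} (h0 : m0 * (2 * k) ≤ i)
    (h1 : i ≤ m1 * (2 * k)) : wU P k i ∈ arcT (Lz k) P.v m0 m1 := by
  obtain ⟨e, r, hr, hi⟩ := Bl802.idx (by omega : 0 < 2 * k) (i + k)
  have hk0 : m0 ≤ e := by
    by_contra hc
    have : (e + 1) * (2 * k) ≤ m0 * (2 * k) := Nat.mul_le_mul_right _ (by omega)
    have e : (e + 1) * (2 * k) = e * (2 * k) + 2 * k := by ring
    omega
  have hk1 : e ≤ m1 := by
    by_contra hc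
    have : (m1 + 1) * (2 * k) ≤ e * (2 * k) := Nat.mul_le_mul_right _ (by omega)
    have e : (m1 + 1) * (2 * k) = m1 * (2 * k) + 2 * k := by ring
    omega
  refine ⟨e, r, hk0, hk1, by omega, by unfold Lz; omega, ?_⟩
  unfold wU
  rw [hi, sv_mk hr]

theorem D_sub (P : P4) {k : ℕ} (hk : 0 < k) : ∀ t ∈ D P.F (Lz k), t ∈ DT (↑P.F) (Lz k) := by
  intro t ht
  rw [mem_D (Lz_pos hk)] at ht
  exact ht

/-- **(G4)** near a flat point of the arc `j` the vertices of the boundary walk have indices of the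
arc `j` -/
def G4 (j : Fin 4) : Prop := ∀ P : P4, ∀ b ∈ P.hA j, ∃ ρ : ℝ, 0 < ρ ∧ ∃ K0 : ℕ, ∀ k : ℕ, K0 ≤ k →
  ∀ x y : ℤ, ‖mpos (Lz k) x y - b‖ < ρ → ∀ Rd : ℕ, (Rd : ℝ) ≤ ρ * Lz k → ∀ i < nn P k,
    |(wU P k i).1 - x| ≤ (Rd : ℤ) + 8 → |(wU P k i).2 - y| ≤ (Rd : ℤ) + 8 →
      av P j.castSucc * (2 * k) + 8 ≤ i ∧ i + 8 ≤ av P j.succ * (2 * k)

/-- the list of a good word -/
theorem wl_of {P : P4} {k : ℕ} {x y xr : ℤ} {q : ℕ} {w : Wd V} (h : WD P k x y xr q w) :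
    WL (nn P k) q (wU P k) xr y w :=
  ⟨h.ok, h.hL, h.hq, (cycU P h.hk).per, (cycU P h.hk).step, h.e0⟩

/-- macro geometry near the arc `0` -/
theorem geo3m (g4 : G4 0) : Geo3m 3 := by
  intro P b hb
  obtain ⟨ρ1, hρ1, hW⟩ := exists_WD P hb
  obtain ⟨ρ2, hρ2, K0, hG⟩ := g4 P b hb
  refine ⟨min ρ1 ρ2, lt_min hρ1 hρ2, 2 * K0 + 2, fun Ln hLn hev i j hOm hnear => ?_⟩
  obtain ⟨k, rfl⟩ : ∃ k : ℕ, Ln = Lz k := by
    obtain ⟨c, hc⟩ := hev
    exact ⟨c.toNat, by unfold Lz; omega⟩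
  have hk : 0 < k := by unfold Lz at hLn; omega
  have hkK : K0 ≤ k := by unfold Lz at hLn; omega
  obtain ⟨xr, q, w, hw, hLB⟩ := hW k hk (2 * i) (2 * j) hOm (hnear.trans_le (min_le_left _ _))
  have hwl := wl_of hw
  have e0 : mk P (Lz k) 0 = sU P k (nn P k - 1) := mark0 P hk
  have e1 : mk P (Lz k) 1 = sU P k (P.md * (2 * k) - 1) := markD P hk
  have e2 : mk P (Lz k) 2 = sU P k (P.mc * (2 * k) - 1) := markC P hk
  have h1 := P.h1
  have h2 : P.mb * (2 * k) + 2 * k ≤ P.mc * (2 * k) := by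
    have := Nat.mul_le_mul_right (2 * k) (show P.mb + 1 ≤ P.mc from P.h2)
    rwa [add_mul, one_mul] at this
  have h3 : P.mc * (2 * k) + 2 * k ≤ P.md * (2 * k) := by
    have := Nat.mul_le_mul_right (2 * k) (show P.mc + 1 ≤ P.md from P.h3)
    rwa [add_mul, one_mul] at this
  have h4 : P.md * (2 * k) + 2 * k ≤ nn P k := by
    have := Nat.mul_le_mul_right (2 * k) (show P.md + 1 ≤ P.N from P.h4)
    rwa [add_mul, one_mul] at this
  have h5 : 2 * k ≤ P.mc * (2 * k) := Nat.le_mul_of_pos_left _ (by have := P.h2; omega)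
  refine ⟨xr, w, hw.gw, ?_, ?_, hLB, ?_⟩
  · rw [e0, e1, e2]; exact hw.hd
  · rw [e0, e1, e2]
    exact hwl.marks (by omega) (by omega)
  · intro Rd hRd
    rw [e0, e1, e2]
    have hLp : (0 : ℝ) < ((Lz k : ℤ) : ℝ) := by exact_mod_cast Lz_pos hk
    refine H3m_of hwl (a1 := P.mb * (2 * k)) (a3 := P.mc * (2 * k)) (a2 := P.md * (2 * k))
      (by omega) (by omega) (by omega) (fun i' hi' a1 a2 => ?_) (D_sub P hk)
      (fun i' hi' => wU_arc P hk (by omega) hi') (fun i' hi' hi'' => wU_arc P hk hi' hi'')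
    have := hG k hkK (2 * i) (2 * j) (hnear.trans_le (min_le_right _ _)) Rd
      (hRd.trans (mul_le_mul_of_nonneg_right (min_le_right _ _) hLp.le)) i' hi' a1 a2
    have h6 : av P (Fin.succ (0 : Fin 4)) = P.mb := rfl
    rw [h6] at this
    omega

/-- macro geometry near the arc `1` -/
theorem geo3p (g4 : G4 1) : Geo3p 3 := by
  intro P b hb
  obtain ⟨ρ1, hρ1, hW⟩ := exists_WD P hb
  obtain ⟨ρ2, hρ2, K0, hG⟩ := g4 P b hb
  refine ⟨min ρ1 ρ2, lt_min hρ1 hρ2, 2 * K0 + 2, fun Ln hLn hev i j hOm hnear => ?_⟩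
  obtain ⟨k, rfl⟩ : ∃ k : ℕ, Ln = Lz k := by
    obtain ⟨c, hc⟩ := hev
    exact ⟨c.toNat, by unfold Lz; omega⟩
  have hk : 0 < k := by unfold Lz at hLn; omega
  have hkK : K0 ≤ k := by unfold Lz at hLn; omega
  obtain ⟨xr, q, w, hw, hLB⟩ := hW k hk (2 * i) (2 * j) hOm (hnear.trans_le (min_le_left _ _))
  have hwl := wl_of hw
  have e0 : mk P (Lz k) 0 = sU P k (nn P k - 1) := mark0 P hk
  have e1 : mk P (Lz k) 1 = sU P k (P.md * (2 * k) - 1) := markD P hk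
  have e2 : mk P (Lz k) 2 = sU P k (P.mc * (2 * k) - 1) := markC P hk
  have h1 := P.h1
  have h2 : P.mb * (2 * k) + 2 * k ≤ P.mc * (2 * k) := by
    have := Nat.mul_le_mul_right (2 * k) (show P.mb + 1 ≤ P.mc from P.h2)
    rwa [add_mul, one_mul] at this
  have h3 : P.mc * (2 * k) + 2 * k ≤ P.md * (2 * k) := by
    have := Nat.mul_le_mul_right (2 * k) (show P.mc + 1 ≤ P.md from P.h3)
    rwa [add_mul, one_mul] at this
  have h4 : P.md * (2 * k) + 2 * k ≤ nn P k := by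
    have := Nat.mul_le_mul_right (2 * k) (show P.md + 1 ≤ P.N from P.h4)
    rwa [add_mul, one_mul] at this
  have h5 : 2 * k ≤ P.mc * (2 * k) := Nat.le_mul_of_pos_left _ (by have := P.h2; omega)
  refine ⟨xr, w, hw.gw, ?_, ?_, hLB, ?_⟩
  · rw [e0, e1, e2]; exact hw.hd
  · rw [e0, e1, e2]
    exact hwl.marks (by omega) (by omega)
  · intro Rd hRd
    rw [e0, e1, e2]
    have hLp : (0 : ℝ) < ((Lz k : ℤ) : ℝ) := by exact_mod_cast Lz_pos hk
    refine H3p_of hwl (a1 := P.mb * (2 * k)) (a3 := P.mc * (2 * k)) (a2 := P.md * (2 * k))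
      (by omega) (by omega) (by omega) (fun i' hi' a1 a2 => ?_) (D_sub P hk)
      (fun i' hi' hi'' => wU_arc P hk hi' hi'') (fun i' hi' hi'' => wU_arc P hk hi' hi'')
    have := hG k hkK (2 * i) (2 * j) (hnear.trans_le (min_le_right _ _)) Rd
      (hRd.trans (mul_le_mul_of_nonneg_right (min_le_right _ _) hLp.le)) i' hi' a1 a2
    have h6 : av P (Fin.succ (1 : Fin 4)) = P.mc := rfl
    have h7 : av P (Fin.castSucc (1 : Fin 4)) = P.mb := rfl
    rw [h6, h7] at this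
    omega

/-- **`Q3m` from (G4)** -/
theorem q3m_of_g4 (g4 : G4 0) : Q3m := q3m_of (geo3m g4)

/-- **`Q3p` from (G4)** -/
theorem q3p_of_g4 (g4 : G4 1) : Q3p := q3p_of (geo3p g4)

end Crest.Agent.R158.Q331
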