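import Crest.Agent.R158.Q3c_331

/-!
# R158 (helper331), Q3m / Q3p, part 4: (G4) from its real form
-/

set_option autoImplicit false

noncomputable section

namespace Crest.Agent.R158.Q331

open Crest.Agent.R158.Tj656 (P4 mpos Q3m Q3p)
open Crest.Agent.R158.Mg949 (nn Lz wU Lz_pos)

/-- real form of (G4): near a flat point of the arc `j` the vertices of the boundary walk have indices
of the arc `j` -/
def G4r (j : Fin 4) : Prop := ∀ P : P4, ∀ b ∈ P.hA j, ∃ ρ : ℝ, 0 < ρ ∧ ∃ K0 : ℕ, ∀ k : ℕ, K0 ≤ k →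
  ∀ i < nn P k, ‖mpos (Lz k) (wU P k i).1 (wU P k i).2 - b‖ < ρ →
      av P j.castSucc * (2 * k) + 8 ≤ i ∧ i + 8 ≤ av P j.succ * (2 * k)

theorem mpos_dist {Ln : ℤ} (hL : 0 < Ln) {x y x' y' : ℤ} {d : ℝ} (h1 : |((x - x' : ℤ) : ℝ)| ≤ d * Ln)
    (h2 : |((y - y' : ℤ) : ℝ)| ≤ d * Ln) : ‖mpos Ln x y - mpos Ln x' y'‖ ≤ 2 * d := by
  have hLr : (0 : ℝ) < Ln := by exact_mod_cast hL
  have e1 : (mpos Ln x y - mpos Ln x' y').re = ((x - x' : ℤ) : ℝ) / Ln := by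
    simp only [mpos, Complex.sub_re]; push_cast; ring
  have e2 : (mpos Ln x y - mpos Ln x' y').im = ((y - y' : ℤ) : ℝ) / Ln := by
    simp only [mpos, Complex.sub_im]; push_cast; ring
  refine (Complex.norm_le_abs_re_add_abs_im _).trans ?_
  rw [e1, e2, abs_div, abs_div, abs_of_pos hLr]
  have h3 : |((x - x' : ℤ) : ℝ)| / Ln ≤ d := by rwa [div_le_iff₀ hLr]
  have h4 : |((y - y' : ℤ) : ℝ)| / Ln ≤ d := by rwa [div_le_iff₀ hLr]
  linarith

/-- **(G4) from its real form** -/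
theorem g4_of_real {j : Fin 4} (H : G4r j) : G4 j := by
  intro P b hb
  obtain ⟨ρ, hρ, K0, h⟩ := H P b hb
  refine ⟨ρ / 8, by positivity, max K0 (⌈64 / ρ⌉₊ + 1), fun k hk x y hn Rd hRd i hi h1 h2 => ?_⟩
  have hk1 : K0 ≤ k := (le_max_left _ _).trans hk
  have hk2 : ⌈64 / ρ⌉₊ + 1 ≤ k := (le_max_right _ _).trans hk
  have hk0 : 0 < k := by omega
  refine h k hk1 i hi ?_
  have hL : (0 : ℝ) < ((Lz k : ℤ) : ℝ) := by exact_mod_cast Lz_pos hk0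
  have hkr : 64 / ρ < (k : ℝ) := by
    have := Nat.le_ceil (64 / ρ)
    have h3 : ((⌈64 / ρ⌉₊ + 1 : ℕ) : ℝ) ≤ k := by exact_mod_cast hk2
    push_cast at h3
    linarith
  have h64 : 64 < k * ρ := by rwa [div_lt_iff₀ hρ] at hkr
  have hLk : ((Lz k : ℤ) : ℝ) = 2 * k := by unfold Lz; push_cast; ring
  have key : (Rd : ℝ) + 8 ≤ (3 * ρ / 16) * ((Lz k : ℤ) : ℝ) := by
    rw [hLk] at hRd ⊢
    nlinarith
  have a1 : |(((wU P k i).1 - x : ℤ) : ℝ)| ≤ (3 * ρ / 16) * ((Lz k : ℤ) : ℝ) := by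
    refine le_trans ?_ key
    rw [← Int.cast_abs]
    exact_mod_cast h1
  have a2 : |(((wU P k i).2 - y : ℤ) : ℝ)| ≤ (3 * ρ / 16) * ((Lz k : ℤ) : ℝ) := by
    refine le_trans ?_ key
    rw [← Int.cast_abs]
    exact_mod_cast h2
  have h5 := mpos_dist (Lz_pos hk0) a1 a2
  have e : mpos (Lz k) (wU P k i).1 (wU P k i).2 - b =
      (mpos (Lz k) (wU P k i).1 (wU P k i).2 - mpos (Lz k) x y) + (mpos (Lz k) x y - b) := by ring
  rw [e]
  refine (norm_add_le _ _).trans_lt ?_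
  linarith

end Crest.Agent.R158.Q331
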