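import Crest.Agent.R158.Q3c_331
import Crest.Agent.R158.Mg3_949

/-!
# R158 (helper331): **`Q3m`** and **`Q3p`** of the frozen interface

Inputs: cores of block CB (helper771), macro geometry (helper949), boundary list (helper802).
-/

set_option autoImplicit false

namespace Crest.Agent.R158.Q331

open Crest.Agent.R158.Tj656 (P4 mpos Q3m Q3p)
open Crest.Agent.R158.Mg949 (nn Lz wU near_idx ja jb)

/-- **(G4)** for every arc -/
theorem g4 (j : Fin 4) : G4 j := by
  intro P b hb
  obtain ⟨ρ, hρ, k0, h⟩ := near_idx P hb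
  refine ⟨ρ, hρ, k0 + 1, fun k hk x y hn Rd hRd i hi h1 h2 => ?_⟩
  have h3 := h k (by omega) (by omega) x y hn Rd hRd i hi.le h1 h2
  have e1 : ja P j = av P j.castSucc := by
    fin_cases j <;> simp [av] <;> rfl
  have e2 : jb P j = av P j.succ := by
    fin_cases j <;> simp [av] <;> rfl
  rwa [e1, e2] at h3

/-- **(Q3-)** -/
theorem q3m : Q3m := q3m_of_g4 (g4 0)

/-- **(Q3+)** -/
theorem q3p : Q3p := q3p_of_g4 (g4 1)

end Crest.Agent.R158.Q331
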