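import Crest.Agent.R158.Qc2_405
import Crest.Agent.R158.Pt3_266

/-!
# R158, Q1c part 3: the boundary of a leg word with a seam (helper405)

* `NxS σ G p q k` : `q` is the next free port after `p` (clockwise around the gap), `k` = turning of
  the boundary plus the seams crossed; crossing the leg counts as a full turn
* `VR σ LG` : vertex rule of the seam for the glueing relation `LG`
* **`flw_word`** : for an admissible leg word with glueings in `LG` all contractions close and
  `psi σ w` obeys the local rule at every gap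
-/

set_option autoImplicit false
set_option linter.unusedVariables false
set_option linter.unusedSectionVars false
set_option linter.unusedSimpArgs false

namespace Crest.Agent.R158.Qc405

open Crest.Agent.R158.Sw300
open Crest.Agent.R158.Gc748 (gl bs ts gd_wd pt)
open Crest.Agent.R158.Xr249 (rot rot_some rot_none)
open Crest.Agent.R158.Pt266

section

variable {T : Type*}

/-- turning at a corner; the corner of the leg counts as a full turn -/
def ro : Port T → ℤ
  | none => 0
  | some _ => 1

@[simp] lemma ro_none : ro (none : Port T) = 0 := rfl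
@[simp] lemma ro_some (x : T × ZMod 4) : ro (some x) = 1 := rfl

/-- next free port, with the turning of the boundary and the seams crossed -/
inductive NxS (σ : Port T → ℤ) (G : Port T → Port T → Prop) : Port T → Port T → ℤ → Prop
  | stop {p : Port T} : (∀ q, ¬ G (rot p) q) → NxS σ G p (rot p) (ro p)
  | go {p q r : Port T} {k : ℤ} : G (rot p) q → NxS σ G q r k →
      NxS σ G p r (ro p - 2 + σ (rot p) + k)

lemma NxS.cast {σ : Port T → ℤ} {G : Port T → Port T → Prop} {p r : Port T} {k k' : ℤ}
    (h : NxS σ G p r k) (e : k = k') : NxS σ G p r k' := e ▸ h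

lemma NxS.inv {σ : Port T → ℤ} {G : Port T → Port T → Prop} {p q : Port T} {k : ℤ}
    (h : NxS σ G p q k) : (q = rot p ∧ (∀ r, ¬ G (rot p) r) ∧ k = ro p) ∨
      ∃ p', G (rot p) p' ∧ NxS σ G p' q (k - (ro p - 2 + σ (rot p))) := by
  cases h with
  | stop h => exact Or.inl ⟨rfl, h, rfl⟩
  | go h1 h2 => exact Or.inr ⟨_, h1, h2.cast (by ring)⟩

lemma NxS.free {σ : Port T → ℤ} {G : Port T → Port T → Prop} {p q : Port T} {k : ℤ}
    (h : NxS σ G p q k) : ∀ r, ¬ G q r := by
  induction h with
  | stop h => exact h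
  | go _ _ ih => exact ih

lemma NxS.det {σ : Port T → ℤ} {G : Port T → Port T → Prop} (hG : ∀ a b c, G a b → G a c → b = c)
    {p r r' : Port T} {k k' : ℤ} (h : NxS σ G p r k) (h' : NxS σ G p r' k') : r = r' ∧ k = k' := by
  induction h generalizing r' k' with
  | stop h =>
    cases h' with
    | stop _ => exact ⟨rfl, rfl⟩
    | go h1 _ => exact absurd h1 (h _)
  | go h1 h2 ih =>
    cases h' with
    | stop h3 => exact absurd h1 (h3 _)
    | go h3 h4 =>
      rw [hG _ _ _ h1 h3] at ih
      obtain ⟨e1, e2⟩ := ih h4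
      exact ⟨e1, by rw [e2]⟩

lemma NxS.add {σ : Port T → ℤ} {G G' : Port T → Port T → Prop} {p0 q0 u w : Port T} {k : ℤ}
    (hA : AddP G p0 q0 G') (h : NxS σ G u w k) (h1 : w ≠ p0) (h2 : w ≠ q0) : NxS σ G' u w k := by
  induction h with
  | stop h =>
    refine .stop fun q hq => ?_
    rcases (hA _ _).1 hq with hq | ⟨hq, _⟩ | ⟨hq, _⟩
    · exact h _ hq
    · exact h1 hq
    · exact h2 hq
  | go h3 _ ih => exact .go ((hA _ _).2 (Or.inl h3)) (ih h1 h2)

lemma NxS.add_left {σ : Port T → ℤ} {G G' : Port T → Port T → Prop} {p0 q0 u w : Port T}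
    {k k' : ℤ} (hA : AddP G p0 q0 G') (h : NxS σ G u p0 k) (h1 : NxS σ G' q0 w k') :
    NxS σ G' u w (k - 2 + σ p0 + k') := by
  generalize hx : p0 = x at h
  induction h with
  | stop h =>
    subst hx
    exact NxS.go ((hA _ _).2 (Or.inr (Or.inl ⟨rfl, rfl⟩))) h1
  | go h3 _ ih => exact (NxS.go ((hA _ _).2 (Or.inl h3)) (ih hx)).cast (by ring)

/-- two lifted ports which follow each other -/
def NS (σ : Port T → ℤ) (G : Port T → Port T → Prop) (a b : Port T × ℤ) : Prop :=
  NxS σ G a.1 b.1 (b.2 - a.2)

/-- cyclic chains -/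
def Cy {α : Type*} (r : α → α → Prop) : List α → Prop
  | [] => True
  | a :: m => List.IsChain r (a :: (m ++ [a]))

lemma Cy.rot1 {α : Type*} {r : α → α → Prop} {a : α} {m : List α} (h : Cy r (a :: m)) :
    Cy r (m ++ [a]) := by
  cases m with
  | nil => exact h
  | cons b m =>
    have h' : List.IsChain r (a :: (b :: m ++ [a])) := h
    show List.IsChain r (b :: (m ++ [a] ++ [b]))
    simp only [List.cons_append, List.isChain_cons_cons] at h'
    obtain ⟨h1, h2⟩ := h'
    have e : b :: (m ++ [a] ++ [b]) = (b :: (m ++ [a])) ++ [b] := by simp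
    rw [e, List.isChain_append]
    refine ⟨h2, by simp, ?_⟩
    intro x hx y hy
    simp only [List.head?_cons, Option.mem_def, Option.some.injEq] at hy
    have hx' : x = a := by
      have : (b :: (m ++ [a])).getLast? = some a := by
        rw [← List.cons_append, List.getLast?_append]
        simp
      rw [this] at hx
      simpa using hx.symm
    rw [hx', ← hy]
    exact h1

lemma Cy.rotn {α : Type*} {r : α → α → Prop} : ∀ {A B : List α}, Cy r (A ++ B) → Cy r (B ++ A)
  | [], B, h => by simpa using h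
  | a :: A, B, h => by
    have h1 : Cy r (A ++ (B ++ [a])) := by
      have := Cy.rot1 (a := a) (m := A ++ B) h
      simpa using this
    have h2 := Cy.rotn h1
    simpa using h2

lemma Cy.mid {α : Type*} {r : α → α → Prop} {p q : α} {l1 l2 : List α}
    (h : Cy r (l1 ++ p :: q :: l2)) : r p q := by
  have h1 := Cy.rotn h
  have h3 : List.IsChain r (p :: ((q :: (l2 ++ l1)) ++ [p])) := by
    have h2 : Cy r (p :: q :: (l2 ++ l1)) := by simpa using h1
    exact h2
  simp only [List.cons_append, List.isChain_cons_cons] at h3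
  exact h3.1

lemma Cy.last {α : Type*} {r : α → α → Prop} {p q : α} {l : List α}
    (h : Cy r (q :: l ++ [p])) : r p q := by
  have h1 : Cy r ([p] ++ (q :: l)) := Cy.rotn (A := q :: l) (B := [p]) h
  exact Cy.mid (l1 := []) (l2 := l) (by simpa using h1)

lemma Cy.one {α : Type*} {r : α → α → Prop} {p : α} (h : Cy r [p]) : r p p := by
  have h' : List.IsChain r (p :: ([] ++ [p])) := h
  simpa using h'

/-- attaching a tile at the first port -/
lemma CS_att {σ : Port T → ℤ} {G G' : Port T → Port T → Prop} {p : Port T} {i : ℤ}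
    {m : List (Port T × ℤ)} {t : T} {d : ZMod 4} (hA : AddP G p (some (t, d)) G')
    (hσ : σ (some (t, d)) = - σ p) (h : Cy (NS σ G) ((p, i) :: m))
    (hm : ∀ a ∈ m, a.1 ≠ p ∧ a.1 ≠ some (t, d))
    (hf : ∀ e, e ≠ d → ∀ q, ¬ G' (some (t, e)) q) :
    Cy (NS σ G') ((some (t, d + 1), i + σ p - 1) :: (some (t, d + 2), i + σ p) ::
      (some (t, d + 3), i + σ p + 1) :: m) := by
  obtain ⟨e1, e2, e3, -, -, -, e6, e4, e5⟩ := Xr249.z4 d
  have n1 : NxS σ G' (some (t, d)) (some (t, d + 1)) 1 := by
    have := NxS.stop (σ := σ) (G := G') (p := some (t, d)) (by rw [rot_some]; exact hf _ e1)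
    rwa [rot_some] at this
  have n2 : NxS σ G' (some (t, d + 1)) (some (t, d + 2)) 1 := by
    have := NxS.stop (σ := σ) (G := G') (p := some (t, d + 1))
      (by rw [rot_some, e4]; exact hf _ e2)
    rwa [rot_some, e4] at this
  have n3 : NxS σ G' (some (t, d + 2)) (some (t, d + 3)) 1 := by
    have := NxS.stop (σ := σ) (G := G') (p := some (t, d + 2))
      (by rw [rot_some, e5]; exact hf _ e3)
    rwa [rot_some, e5] at this
  have g1 : G' (rot (some (t, d + 3))) p := by
    rw [rot_some, e6]
    exact (hA _ _).2 (Or.inr (Or.inr ⟨rfl, rfl⟩))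
  have s1 : σ (rot (some (t, d + 3))) = - σ p := by rw [rot_some, e6, hσ]
  have h' : List.IsChain (NS σ G) ((p, i) :: (m ++ [(p, i)])) := h
  rw [List.isChain_cons] at h'
  obtain ⟨h1, h2⟩ := h'
  show List.IsChain (NS σ G') ((some (t, d + 1), i + σ p - 1) :: ((some (t, d + 2), i + σ p) ::
    (some (t, d + 3), i + σ p + 1) :: m ++ [(some (t, d + 1), i + σ p - 1)]))
  simp only [List.cons_append]
  rw [List.isChain_cons_cons, List.isChain_cons_cons, List.isChain_cons]
  refine ⟨?_, ?_, ?_, ?_⟩
  · exact n2.cast (by simp)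
  · exact n3.cast (by simp)
  · intro y hy
    cases m with
    | nil =>
      simp only [List.nil_append, List.head?_cons, Option.mem_def, Option.some.injEq] at hy
      subst hy
      have h3 : NS σ G (p, i) (p, i) := h1 _ (by simp)
      have h4 : NxS σ G p p 0 := h3.cast (by simp)
      exact (NxS.go g1 (h4.add_left hA n1)).cast (by rw [s1, ro_some]; simp; ring)
    | cons b m =>
      simp only [List.cons_append, List.head?_cons, Option.mem_def, Option.some.injEq] at hy
      subst hy
      have h3 : NS σ G (p, i) b := h1 _ (by simp)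
      have h4 : NxS σ G' p b.1 (b.2 - i) := NxS.add hA h3 (hm b (by simp)).1 (hm b (by simp)).2
      exact (NxS.go g1 h4).cast (by rw [s1, ro_some]; simp; ring)
  · refine chain_last' h2 (fun u hu w hw h => NxS.add hA h (hm w hw).1 (hm w hw).2)
      (fun u hu h => ?_)
    have h3 : NxS σ G u.1 p (i - u.2) := h
    exact (h3.add_left hA n1).cast (by simp; ring)

/-- glueing the first two ports -/
lemma CS_con {σ : Port T → ℤ} {G G' : Port T → Port T → Prop} {p q : Port T} {i : ℤ}
    {m : List (Port T × ℤ)} (hA : AddP G p q G')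
    (h : Cy (NS σ G) ((p, i) :: (q, i - 2 + σ p) :: m))
    (hm : ∀ a ∈ m, a.1 ≠ p ∧ a.1 ≠ q) : Cy (NS σ G') m := by
  cases m with
  | nil => trivial
  | cons b m =>
    have h' : List.IsChain (NS σ G) ((p, i) :: (q, i - 2 + σ p) :: (b :: (m ++ [(p, i)]))) := h
    rw [List.isChain_cons_cons, List.isChain_cons_cons] at h'
    obtain ⟨h1, h2, h3⟩ := h'
    have h4 : NxS σ G' q b.1 (b.2 - (i - 2 + σ p)) :=
      NxS.add hA h2 (hm b (by simp)).1 (hm b (by simp)).2
    show List.IsChain (NS σ G') ((b :: m) ++ [b])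
    refine chain_last' (R := NS σ G) (p := (p, i)) (by simpa using h3)
      (fun u hu w hw h => NxS.add hA h (hm w hw).1 (hm w hw).2) (fun u hu h => ?_)
    have h5 : NxS σ G u.1 p (i - u.2) := h
    exact (h5.add_left hA h4).cast (by ring)

end

section

variable {T : Type*} [DecidableEq T]

/-- vertex rule of the seam -/
def VR (σ : Port T → ℤ) (LG : Port T → Port T → Prop) : Prop :=
  ∀ (G : Port T → Port T → Prop), (∀ a b, G a b → LG a b) → (∀ a b, G a b → G b a) →
    ∀ p q k, LG p q → (∀ r, ¬ G p r) → (∀ r, ¬ G q r) → NxS σ G p q k → k = -2 + σ p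

lemma gs_symm {w : Wd T} {a b : Port T} (h : Gs w a b) : Gs w b a := h.elim Or.inr Or.inl

/-- **the boundary of a leg word with a seam** -/
theorem flw_word (σ : Port T → ℤ) (LG : Port T → Port T → Prop) (hV : VR σ LG) :
    ∀ {w : Wd T}, Ok w → isLeg w → An σ w → (∀ a b, Gs w a b → LG a b) →
      FlW σ w ∧ Cy (NS σ (Gs w)) ((L w).map fun x => (x, psi σ w x))
  | .leg, _, _, _, _ => by
    refine ⟨trivial, ?_⟩
    have h1 : NxS σ (Gs (.leg : Wd T)) none none 0 :=
      NxS.stop (p := none) fun q hq => by simp [Gs, gl] at hq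
    show List.IsChain _ _
    simpa [NS, psi] using h1
  | .tile t, _, h, _, _ => h.elim
  | .att w p t d, hok, hleg, hAn, hLG => by
    have hok' := hok
    obtain ⟨hw, hp, ht, hnone⟩ := hok
    obtain ⟨hAn1, hAn2⟩ := hAn.att
    obtain ⟨hF, hcc⟩ := flw_word σ LG hV hw hleg hAn1
      (fun a b h => hLG a b ((addP_att a b).2 (Or.inl h)))
    have hpt : ∀ e, p ≠ some (t, e) := fun e he => ht (tl_mem hw (he ▸ hp))
    obtain ⟨l1, l2, hL⟩ := List.append_of_mem hp
    have hnd := (gd_wd (fun _ => true) hw).nodup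
    rw [hL] at hnd
    have hnd2 := List.nodup_append.1 hnd
    have hp1 : p ∉ l1 := fun hm => hnd2.2.2 p hm p (by simp) rfl
    have hp2 : p ∉ l2 := (List.nodup_cons.1 hnd2.2.1).1
    have hL' : L (.att w p t d) =
        l1 ++ some (t, d + 1) :: some (t, d + 2) :: some (t, d + 3) :: l2 :=
      L_att_eq hL hp1 hp2
    have hnt1 : ∀ x ∈ l1, ∀ e, x ≠ some (t, e) := fun x hx e he =>
      ht (tl_mem hw (d := e) (by rw [hL, ← he]; simp [hx]))
    have hnt2 : ∀ x ∈ l2, ∀ e, x ≠ some (t, e) := fun x hx e he =>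
      ht (tl_mem hw (d := e) (by rw [hL, ← he]; simp [hx]))
    have hphi : ∀ x : Port T, (∀ e, x ≠ some (t, e)) →
        psi σ (.att w p t d) x = psi σ w x := fun x hx => by
      simp [psi, hx]
    refine ⟨hF, ?_⟩
    obtain ⟨e1, e2, e3, e4, e5, e6, -, -, -⟩ := Xr249.z4 d
    rw [hL, List.map_append, List.map_cons] at hcc
    have hcc1 : Cy (NS σ (Gs w)) ((p, psi σ w p) :: ((l2.map fun x => (x, psi σ w x)) ++
        (l1.map fun x => (x, psi σ w x)))) := by
      have := Cy.rotn hcc
      simpa using this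
    have := CS_att (t := t) (d := d) (G' := Gs (.att w p t d)) addP_att hAn2 hcc1
      (fun a ha => by
        rw [List.mem_append, List.mem_map, List.mem_map] at ha
        rcases ha with ⟨x, hx, rfl⟩ | ⟨x, hx, rfl⟩
        · exact ⟨fun h => hp2 (h ▸ hx), hnt2 x hx d⟩
        · exact ⟨fun h => hp1 (h ▸ hx), hnt1 x hx d⟩)
      (fun e he q hq => by
        have h3 : (some (t, e) : Port T) ∈ L (.att w p t d) := by
          rw [hL']
          rcases z4_three d e he with rfl | rfl | rfl <;> simp
        exact not_glued hok' h3 hq)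
    rw [hL', List.map_append, List.map_cons, List.map_cons, List.map_cons]
    have c1 : psi σ (.att w p t d) (some (t, d + 1)) = psi σ w p + σ p - 1 := by simp [psi]
    have c2 : psi σ (.att w p t d) (some (t, d + 2)) = psi σ w p + σ p := by
      simp [psi, e4.symm]
    have c3 : psi σ (.att w p t d) (some (t, d + 3)) = psi σ w p + σ p + 1 := by
      simp [psi, e5.symm, e6.symm]
    have m1 : (l1.map fun x => (x, psi σ (.att w p t d) x)) = l1.map fun x => (x, psi σ w x) :=
      List.map_congr_left fun x hx => by rw [hphi x (hnt1 x hx)]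
    have m2 : (l2.map fun x => (x, psi σ (.att w p t d) x)) = l2.map fun x => (x, psi σ w x) :=
      List.map_congr_left fun x hx => by rw [hphi x (hnt2 x hx)]
    rw [c1, c2, c3, m1, m2]
    refine Cy.rotn ?_
    simpa using this
  | .con w p q, hok, hleg, hAn, hLG => by
    have hok' := hok
    obtain ⟨hw, hpn, hqn, hpq, hadj⟩ := hok
    obtain ⟨hp, hq⟩ := adj_mem hadj
    obtain ⟨hAn1, hAn2⟩ := hAn.con
    obtain ⟨hF, hcc⟩ := flw_word σ LG hV hw hleg hAn1
      (fun a b h => hLG a b ((addP_con a b).2 (Or.inl h)))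
    have hnd := (gd_wd (fun _ => true) hw).nodup
    have hGpq : LG p q := hLG p q ((addP_con p q).2 (Or.inr (Or.inl ⟨rfl, rfl⟩)))
    have step : NxS σ (Gs w) p q (psi σ w q - psi σ w p) := by
      rcases hadj with ⟨l1, l2, hL⟩ | ⟨l1, hL⟩
      · rw [hL, List.map_append, List.map_cons, List.map_cons] at hcc
        exact Cy.mid hcc
      · rw [hL, List.map_append, List.map_cons, List.map_cons, List.map_nil] at hcc
        exact Cy.last hcc
    have hk := hV (Gs w) (fun a b h => hLG a b ((addP_con a b).2 (Or.inl h)))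
      (fun a b h => gs_symm h) p q _ hGpq (fun r hr => not_glued hw hp hr)
      (fun r hr => not_glued hw hq hr) step
    have hk' : psi σ w q = psi σ w p - 2 + σ p := by linarith
    refine ⟨⟨hF, hk'⟩, ?_⟩
    have main : ∀ l1 l2 : List (Port T), (l1 ++ l2).Nodup → p ∉ l1 → q ∉ l1 → p ∉ l2 → q ∉ l2 →
        L (.con w p q) = l1 ++ l2 →
        Cy (NS σ (Gs w)) ((p, psi σ w p) :: (q, psi σ w q) :: ((l2.map fun x => (x, psi σ w x)) ++
          (l1.map fun x => (x, psi σ w x)))) →
        Cy (NS σ (Gs (.con w p q))) ((L (.con w p q)).map fun x => (x, psi σ (.con w p q) x)) := by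
      intro l1 l2 hn hp1 hq1 hp2 hq2 hL' h0
      rw [hk'] at h0
      have := CS_con (G' := Gs (.con w p q)) addP_con h0
        (fun a ha => by
          rw [List.mem_append, List.mem_map, List.mem_map] at ha
          rcases ha with ⟨x, hx, rfl⟩ | ⟨x, hx, rfl⟩
          · exact ⟨fun h => hp2 (h ▸ hx), fun h => hq2 (h ▸ hx)⟩
          · exact ⟨fun h => hp1 (h ▸ hx), fun h => hq1 (h ▸ hx)⟩)
      rw [hL', List.map_append]
      exact Cy.rotn this
    rcases hadj with ⟨l1, l2, hL⟩ | ⟨l1, hL⟩
    · have hL' : L (.con w p q) = l1 ++ l2 := L_con_eq hL hnd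
      rw [hL] at hnd
      have hnd2 := List.nodup_append.1 hnd
      have hp1 : p ∉ l1 := fun hm => hnd2.2.2 p hm p (by simp) rfl
      have hq1 : q ∉ l1 := fun hm => hnd2.2.2 q hm q (by simp) rfl
      have hn2 := List.nodup_cons.1 hnd2.2.1
      have hp2 : p ∉ l2 := fun hm => hn2.1 (List.mem_cons_of_mem _ hm)
      have hq2 : q ∉ l2 := (List.nodup_cons.1 hn2.2).1
      refine main l1 l2 ?_ hp1 hq1 hp2 hq2 hL' ?_
      · have h4 : (l1 ++ l2).Sublist (l1 ++ p :: q :: l2) :=
          List.Sublist.append (List.Sublist.refl _)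
            ((List.sublist_cons_self _ _).trans (List.sublist_cons_self _ _))
        exact hnd.sublist h4
      · rw [hL, List.map_append, List.map_cons, List.map_cons] at hcc
        have := Cy.rotn hcc
        simpa using this
    · have hnd0 := hnd
      rw [hL] at hnd
      have h5 := List.nodup_append.1 hnd
      have hql : q ∉ l1 := (List.nodup_cons.1 h5.1).1
      have hpl : p ∉ l1 := fun hm => h5.2.2 p (List.mem_cons_of_mem _ hm) p (by simp) rfl
      have hL' : L (.con w p q) = l1 ++ [] := by
        show ((L w).filter fun x => x ≠ p ∧ x ≠ q) = _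
        have filt : (l1.filter fun x => x ≠ p ∧ x ≠ q) = l1 := by
          rw [List.filter_eq_self]
          intro x hx
          simp only [ne_eq, decide_eq_true_eq]
          exact ⟨fun e => hpl (e ▸ hx), fun e => hql (e ▸ hx)⟩
        rw [hL, List.filter_append, List.filter_cons, filt]
        simp
      refine main l1 [] ?_ hpl hql (by simp) (by simp) hL' ?_
      · simpa using (List.nodup_cons.1 h5.1).2
      · rw [hL, List.map_append, List.map_cons, List.map_cons, List.map_nil] at hcc
        have := Cy.rotn (A := (q, psi σ w q) :: l1.map fun x => (x, psi σ w x))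
          (B := [(p, psi σ w p)]) hcc
        simpa using this

end

end Crest.Agent.R158.Qc405
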