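import Crest.Agent.R158.Qc3_405
import Crest.Agent.R158.Env_664

/-!
# R158, Q1c part 4: the vertex rule of the seam of `D^(z)` (helper405)

* `vr_list` : the vertex rule from a cycle of ports around the vertex
* `sgD xl p y0 y2` : seam of `D^(z)` in quarter turns: `-4` through `(x, y0-1).N`, `xl ≤ x < p`, and
  `+4` through `(xl, y).W`, `y0 ≤ y < y2` (the other directions opposite)
* **`vr_D`** : the vertex rule for `beD A p y0 xr`
-/

set_option autoImplicit false
set_option linter.unusedVariables false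
set_option linter.unusedSectionVars false
set_option linter.unusedSimpArgs false

namespace Crest.Agent.R158.Qc405

open Crest.Agent.R158.Sw300
open Crest.Agent.R158.Gc748 (gl bs ts gd_wd pt)
open Crest.Agent.R158.Xr249 (rot rot_some rot_none)
open Crest.Agent.R158.Pt266

section

variable {T : Type*}

/-- value of a cycle -/
def vs (σ : Port T → ℤ) (l : List (Port T)) : ℤ := (l.map fun v => ro v - 2 + σ (rot v)).sum

lemma vs_cons (σ : Port T → ℤ) (u : Port T) (l : List (Port T)) :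
    vs σ (u :: l) = (ro u - 2 + σ (rot u)) + vs σ l := by simp [vs]

lemma vs_perm (σ : Port T → ℤ) {l l' : List (Port T)} (h : l.Perm l') : vs σ l = vs σ l' :=
  (h.map _).sum_eq

lemma vr_chain (σ : Port T → ℤ) (nb : Port T → Port T) {G : Port T → Port T → Prop}
    (hG : ∀ x y, G x y → nb x = y) {a b : Port T} (ha : ∀ x, ¬ G x a) (hb : nb b = a) :
    ∀ (m : List (Port T)) (u : Port T) (k : ℤ), NxS σ G u b k →
      List.IsChain (fun x y => nb (rot x) = y) (u :: (m ++ [a])) → a ∉ m →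
      k = vs σ (u :: m) + 2 - σ b ∧ ∀ v ∈ m, ∃ x, G x v
  | [], u, k, h, hc, hm => by
    have h1 : nb (rot u) = a := by simpa using hc
    rcases h.inv with ⟨h2, -, h3⟩ | ⟨p', h2, h3⟩
    · refine ⟨?_, by simp⟩
      rw [h3, h2]
      simp only [vs, List.map_cons, List.map_nil, List.sum_cons, List.sum_nil]
      ring
    · have := hG _ _ h2
      rw [h1] at this
      exact absurd (this ▸ h2) (ha _)
  | v :: m, u, k, h, hc, hm => by
    rw [List.cons_append, List.isChain_cons_cons] at hc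
    obtain ⟨h1, hc'⟩ := hc
    rw [List.mem_cons, not_or] at hm
    rcases h.inv with ⟨h2, -, h3⟩ | ⟨p', h2, h3⟩
    · rw [h2, h1] at hb
      exact absurd hb.symm hm.1
    · have h4 := hG _ _ h2
      rw [h1] at h4
      subst h4
      obtain ⟨h5, h6⟩ := vr_chain σ nb hG ha hb m v _ h3 hc' hm.2
      refine ⟨?_, ?_⟩
      · rw [vs_cons]
        linarith
      · intro w hw
        rw [List.mem_cons] at hw
        rcases hw with rfl | hw
        · exact ⟨_, h2⟩
        · exact h6 w hw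

/-- **the vertex rule from a cycle of ports** -/
lemma vr_list (σ : Port T → ℤ) (nb : Port T → Port T) {G : Port T → Port T → Prop}
    (hG : ∀ x y, G x y → nb x = y) {a b : Port T} (ha : ∀ x, ¬ G x a) (hb : nb b = a) {k : ℤ}
    (h : NxS σ G a b k) {c : List (Port T)} (hc : Cy (fun x y => nb (rot x) = y) c) (hn : c.Nodup)
    (hac : a ∈ c) : k = vs σ c + 2 - σ b ∧ ∀ v ∈ c, v = a ∨ ∃ x, G x v := by
  obtain ⟨l1, l2, rfl⟩ := List.append_of_mem hac
  have h1 : Cy (fun x y => nb (rot x) = y) ((a :: l2) ++ l1) := Cy.rotn hc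
  have hp : (l1 ++ a :: l2).Perm ((a :: l2) ++ l1) := List.perm_append_comm
  have h2 : ((a :: l2) ++ l1).Nodup := hp.nodup_iff.1 hn
  have h3 := List.nodup_cons.1 h2
  obtain ⟨h4, h5⟩ := vr_chain σ nb hG ha hb (l2 ++ l1) a k h h1 h3.1
  refine ⟨by rw [vs_perm σ hp]; exact h4, ?_⟩
  intro v hv
  rw [List.mem_append, List.mem_cons] at hv
  rcases hv with hv | hv | hv
  · exact Or.inr (h5 v (by simp [hv]))
  · exact Or.inl hv
  · exact Or.inr (h5 v (by simp [hv]))

end

open Crest.Agent.R158.Env664 (nbD beD res PortOf portOf_some portOf_none nbD_leg nbD_W nbD_E nbD_N1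
  nbD_N nbD_Sleg nbD_S1 nbD_S)

/-- seam of `D^(z)` in quarter turns -/
def sgD (xl p y0 y2 : ℤ) : Port (ℤ × ℤ) → ℤ
  | none => 0
  | some ((x, y), d) =>
      if d = 0 then (if x = xl ∧ y0 ≤ y ∧ y < y2 then 4 else 0)
      else if d = 1 then (if y = y0 - 1 ∧ xl ≤ x ∧ x < p then -4 else 0)
      else if d = 2 then (if x = xl - 1 ∧ y0 ≤ y ∧ y < y2 then -4 else 0)
      else (if y = y0 ∧ xl ≤ x ∧ x < p then 4 else 0)

section

variable {xl p y0 y2 x y : ℤ}

@[simp] lemma sgD_none : sgD xl p y0 y2 none = 0 := rfl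
lemma sgD_W : sgD xl p y0 y2 (some ((x, y), 0)) = if x = xl ∧ y0 ≤ y ∧ y < y2 then 4 else 0 := rfl
lemma sgD_N : sgD xl p y0 y2 (some ((x, y), 1)) =
    if y = y0 - 1 ∧ xl ≤ x ∧ x < p then -4 else 0 := rfl
lemma sgD_E : sgD xl p y0 y2 (some ((x, y), 2)) =
    if x = xl - 1 ∧ y0 ≤ y ∧ y < y2 then -4 else 0 := rfl
lemma sgD_S : sgD xl p y0 y2 (some ((x, y), 3)) =
    if y = y0 ∧ xl ≤ x ∧ x < p then 4 else 0 := rfl

end

/-- the free plain vertex -/
def c1 (X Y : ℤ) : List (Port (ℤ × ℤ)) :=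
  [some ((X - 1, Y - 1), 1), some ((X, Y - 1), 0), some ((X, Y), 3), some ((X - 1, Y), 2)]

/-- the dislocated vertex -/
def c2 (X y0 : ℤ) : List (Port (ℤ × ℤ)) :=
  [some ((X - 1, y0 - 1), 1), some ((X, y0 - 1), 0), some ((X + 1, y0), 3), some ((X, y0), 2)]

/-- the vertex of the leg -/
def c3 (p y0 : ℤ) : List (Port (ℤ × ℤ)) :=
  [some ((p - 1, y0 - 1), 1), some ((p, y0 - 1), 0), some ((p + 1, y0), 3), some ((p, y0), 2),
    none, some ((p, y0), 3), some ((p - 1, y0), 2)]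

lemma z4a : (0 : ZMod 4) + 1 = 1 ∧ (1 : ZMod 4) + 1 = 2 ∧ (2 : ZMod 4) + 1 = 3 ∧
    (3 : ZMod 4) + 1 = 0 ∧ (0 : ZMod 4) ≠ 1 ∧ (0 : ZMod 4) ≠ 2 ∧ (0 : ZMod 4) ≠ 3 ∧
    (1 : ZMod 4) ≠ 2 ∧ (1 : ZMod 4) ≠ 3 ∧ (2 : ZMod 4) ≠ 3 := by decide

lemma c1_nodup (X Y : ℤ) : (c1 X Y).Nodup := by
  obtain ⟨-, -, -, -, n1, n2, n3, n4, n5, n6⟩ := z4a
  simp [c1, n1.symm, n2, n2.symm, n3, n3.symm, n4, n5, n6.symm]

lemma c2_nodup (X y0 : ℤ) : (c2 X y0).Nodup := by
  obtain ⟨-, -, -, -, n1, n2, n3, n4, n5, n6⟩ := z4a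
  simp [c2, n1.symm, n2, n2.symm, n3, n3.symm, n4, n5, n6.symm]

lemma c3_nodup (X y0 : ℤ) : (c3 X y0).Nodup := by
  obtain ⟨-, -, -, -, n1, n2, n3, n4, n5, n6⟩ := z4a
  simp [c3, n1.symm, n2, n2.symm, n3, n3.symm, n4, n5, n6, n6.symm]
  omega

section

variable {xl p y0 y2 xr : ℤ}

lemma c1_cy {X Y : ℤ} (hpr : p ≤ xr) (h : ¬ (Y = y0 ∧ p ≤ X ∧ X ≤ xr + 1)) :
    Cy (fun x y => nbD p y0 xr (rot x) = y) (c1 X Y) := by
  obtain ⟨a1, a2, a3, a4, -⟩ := z4a
  show List.IsChain _ _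
  simp only [c1, List.cons_append, List.nil_append, List.isChain_cons_cons,
    List.isChain_singleton, and_true, rot_some, a1, a2, a3, a4]
  refine ⟨?_, ?_, ?_, ?_⟩
  · rw [nbD_E, sub_add_cancel]
  · rw [nbD_N (by omega), sub_add_cancel]
  · rw [nbD_W]
  · rw [nbD_S (by omega)]

lemma c2_cy {X : ℤ} (h1 : p < X) (h2 : X ≤ xr) :
    Cy (fun x y => nbD p y0 xr (rot x) = y) (c2 X y0) := by
  obtain ⟨a1, a2, a3, a4, -⟩ := z4a
  show List.IsChain _ _
  simp only [c2, List.cons_append, List.nil_append, List.isChain_cons_cons,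
    List.isChain_singleton, and_true, rot_some, a1, a2, a3, a4]
  refine ⟨?_, ?_, ?_, ?_⟩
  · rw [nbD_E, sub_add_cancel]
  · rw [nbD_N1 (by omega)]
  · rw [nbD_W, add_sub_cancel_right]
  · rw [nbD_S1 (by omega)]

lemma c3_cy (h2 : p ≤ xr) :
    Cy (fun x y => nbD p y0 xr (rot x) = y) (c3 p y0) := by
  obtain ⟨a1, a2, a3, a4, -⟩ := z4a
  show List.IsChain _ _
  simp only [c3, List.cons_append, List.nil_append, List.isChain_cons_cons,
    List.isChain_singleton, and_true, rot_some, rot_none, a1, a2, a3, a4]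
  refine ⟨?_, ?_, ?_, ?_, ?_, ?_, ?_⟩
  · rw [nbD_E, sub_add_cancel]
  · rw [nbD_N1 (by omega)]
  · rw [nbD_W, add_sub_cancel_right]
  · rw [nbD_Sleg ⟨rfl, rfl⟩]
  · rw [nbD_leg]
  · rw [nbD_W]
  · rw [nbD_S (by omega)]

lemma c1_vs {X Y : ℤ} (h : ¬ (Y = y0 ∧ X = p)) (h' : ¬ (Y = y2 ∧ X = xl)) (hp : xl < p)
    (hy : y0 < y2) :
    vs (sgD xl p y0 y2) (c1 X Y) = -4 := by
  obtain ⟨a1, a2, a3, a4, -⟩ := z4a
  simp only [vs, c1, List.map_cons, List.map_nil, List.sum_cons, List.sum_nil, rot_some, a1, a2, a3,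
    a4, ro_some, sgD_W, sgD_N, sgD_E, sgD_S]
  split_ifs <;> omega

lemma c2_vs {X : ℤ} (h : p < X) (hp : xl < p) (hy : y0 < y2) :
    vs (sgD xl p y0 y2) (c2 X y0) = -4 := by
  obtain ⟨a1, a2, a3, a4, -⟩ := z4a
  simp only [vs, c2, List.map_cons, List.map_nil, List.sum_cons, List.sum_nil, rot_some, a1, a2, a3,
    a4, ro_some, sgD_W, sgD_N, sgD_E, sgD_S]
  split_ifs <;> omega

lemma c3_vs (hp : xl < p) (hy : y0 < y2) :
    vs (sgD xl p y0 y2) (c3 p y0) = -4 := by
  obtain ⟨a1, a2, a3, a4, -⟩ := z4a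
  simp only [vs, c3, List.map_cons, List.map_nil, List.sum_cons, List.sum_nil, rot_some, rot_none,
    a1, a2, a3, a4, ro_some, ro_none, sgD_W, sgD_N, sgD_E, sgD_S, sgD_none, true_and]
  split_ifs <;> omega

variable {A : Finset (ℤ × ℤ)}

lemma beD_of {x y : Port (ℤ × ℤ)} (h : beD A p y0 xr x = y) (hne : x ≠ y) :
    nbD p y0 xr x = y ∧ PortOf A x ∧ PortOf A y := by
  unfold beD res at h
  split_ifs at h with h1
  · exact ⟨h, h1.1, h ▸ h1.2⟩
  · exact absurd h hne

lemma sgD_anti (hp : p ≤ xr) (hx : (xr + 1, y0) ∉ A) {x y : Port (ℤ × ℤ)}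
    (h : beD A p y0 xr x = y) (hne : x ≠ y) :
    sgD xl p y0 y2 y = - sgD xl p y0 y2 x := by
  obtain ⟨h1, h2, h3⟩ := beD_of h hne
  rcases x with _ | ⟨⟨x, z⟩, d⟩
  · rw [nbD_leg] at h1
    subst h1
    rw [sgD_S, if_neg (by omega)]
    rfl
  · rcases Env664.z4 d with rfl | rfl | rfl | rfl
    · rw [nbD_W] at h1
      subst h1
      rw [sgD_W, sgD_E]
      split_ifs <;> omega
    · by_cases hc : z = y0 - 1 ∧ p ≤ x ∧ x ≤ xr
      · rw [nbD_N1 hc] at h1
        subst h1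
        rw [sgD_N, sgD_S]
        split_ifs <;> omega
      · rw [nbD_N hc] at h1
        subst h1
        rw [sgD_N, sgD_S]
        split_ifs <;> omega
    · rw [nbD_E] at h1
      subst h1
      rw [sgD_W, sgD_E]
      split_ifs <;> omega
    · by_cases hc : z = y0 ∧ x = p
      · rw [nbD_Sleg hc] at h1
        subst h1
        rw [sgD_S, if_neg (by omega)]
        rfl
      by_cases hc2 : z = y0 ∧ p < x ∧ x ≤ xr
      · rw [nbD_S1 hc2] at h1
        subst h1
        rw [sgD_N, sgD_S]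
        split_ifs <;> omega
      · rw [nbD_S (by omega)] at h1
        subst h1
        rw [sgD_N, sgD_S]
        split_ifs <;> omega

/-- **the vertex rule of `D^(z)`** -/
theorem vr_D (hp : xl < p) (hy : y0 < y2) (hpr : p ≤ xr) (hx : (xr + 1, y0) ∉ A)
    (hx' : (xr + 1, y0 - 1) ∉ A) (hl : (xl - 1, y2) ∉ A) :
    VR (sgD xl p y0 y2) (fun x y => beD A p y0 xr x = y ∧ x ≠ y) := by
  intro G hG hGs a b k hab ha hb hN
  have hG' : ∀ x y, G x y → nbD p y0 xr x = y := fun x y h => (beD_of (hG _ _ h).1 (hG _ _ h).2).1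
  have ha' : ∀ x, ¬ G x a := fun x h => ha x (hGs _ _ h)
  obtain ⟨h1, h2, h3⟩ := beD_of hab.1 hab.2
  have hinv : beD A p y0 xr b = a := by
    have := Env664.beD_invol hpr hx a
    rwa [hab.1] at this
  have hba := beD_of hinv hab.2.symm
  have hsig : sgD xl p y0 y2 b = - sgD xl p y0 y2 a := sgD_anti hpr hx hab.1 hab.2
  -- conclusion from a cycle
  have main : ∀ c : List (Port (ℤ × ℤ)), Cy (fun x y => nbD p y0 xr (rot x) = y) c → c.Nodup →
      a ∈ c → ((∀ v ∈ c, PortOf A v) → vs (sgD xl p y0 y2) c = -4) → k = -2 + sgD xl p y0 y2 a := by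
    intro c hc hn hac hv
    obtain ⟨h4, h5⟩ := vr_list (sgD xl p y0 y2) (nbD p y0 xr) hG' ha' hba.1 hN hc hn hac
    have h6 : ∀ v ∈ c, PortOf A v := by
      intro v hv
      rcases h5 v hv with rfl | ⟨x, hx⟩
      · exact h2
      · exact (beD_of (hG _ _ hx).1 (hG _ _ hx).2).2.2
    rw [h4, hv h6, hsig]
    ring
  have m1 : ∀ X Y : ℤ, ¬ (Y = y0 ∧ p ≤ X ∧ X ≤ xr + 1) → a ∈ c1 X Y →
      k = -2 + sgD xl p y0 y2 a := by
    intro X Y h4 h5
    refine main _ (c1_cy hpr h4) (c1_nodup X Y) h5 fun h6 => ?_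
    refine c1_vs (by omega) ?_ hp hy
    rintro ⟨rfl, rfl⟩
    have h7 := h6 (some ((X - 1, Y), 2)) (by simp [c1])
    exact hl (portOf_some.1 h7)
  have m2 : ∀ X : ℤ, p < X → X ≤ xr → a ∈ c2 X y0 → k = -2 + sgD xl p y0 y2 a := by
    intro X h4 h5 h6
    exact main _ (c2_cy h4 h5) (c2_nodup X y0) h6 fun h7 => c2_vs h4 hp hy
  have m3 : a ∈ c3 p y0 → k = -2 + sgD xl p y0 y2 a := by
    intro h6
    exact main _ (c3_cy hpr) (c3_nodup p y0) h6 fun h7 => c3_vs hp hy
  rcases a with _ | ⟨⟨x, y⟩, d⟩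
  · exact m3 (by simp [c3])
  · rcases Env664.z4 d with rfl | rfl | rfl | rfl
    · -- `W`
      by_cases q1 : y + 1 = y0 ∧ p ≤ x ∧ x ≤ xr + 1
      · obtain ⟨q1, q2, q3⟩ := q1
        have e : y = y0 - 1 := by omega
        subst e
        by_cases q4 : x = p
        · subst q4
          exact m3 (by simp [c3])
        by_cases q5 : x = xr + 1
        · subst q5
          exact absurd (portOf_some.1 h2) hx'
        · exact m2 x (by omega) (by omega) (by simp [c2])
      · refine m1 x (y + 1) q1 ?_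
        simp [c1]
    · -- `N`
      by_cases q1 : y + 1 = y0 ∧ p ≤ x + 1 ∧ x + 1 ≤ xr + 1
      · obtain ⟨q1, q2, q3⟩ := q1
        have e : y = y0 - 1 := by omega
        subst e
        by_cases q4 : x + 1 = p
        · have e2 : x = p - 1 := by omega
          subst e2
          exact m3 (by simp [c3])
        by_cases q5 : x = xr
        · subst q5
          rw [nbD_N1 ⟨rfl, by omega, le_refl _⟩] at h1
          subst h1
          exact absurd (portOf_some.1 h3) hx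
        · exact m2 (x + 1) (by omega) (by omega) (by simp [c2])
      · refine m1 (x + 1) (y + 1) q1 ?_
        simp [c1]
    · -- `E`
      by_cases q1 : y = y0 ∧ p ≤ x + 1 ∧ x + 1 ≤ xr + 1
      · obtain ⟨rfl, q2, q3⟩ := q1
        by_cases q4 : x + 1 = p
        · have e2 : x = p - 1 := by omega
          subst e2
          exact m3 (by simp [c3])
        by_cases q5 : x = p
        · subst q5
          exact m3 (by simp [c3])
        · exact m2 x (by omega) (by omega) (by simp [c2])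
      · refine m1 (x + 1) y q1 ?_
        simp [c1]
    · -- `S`
      by_cases q1 : y = y0 ∧ p ≤ x ∧ x ≤ xr + 1
      · obtain ⟨rfl, q2, q3⟩ := q1
        by_cases q4 : x = p
        · subst q4
          exact m3 (by simp [c3])
        by_cases q5 : x = p + 1
        · subst q5
          exact m3 (by simp [c3])
        · exact m2 (x - 1) (by omega) (by omega) (by simp [c2])
      · refine m1 x y q1 ?_
        simp [c1]

end

end Crest.Agent.R158.Qc405
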