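import Crest.Agent.R158.Qc4_405
import Crest.Agent.R158.Xr12_249
import Crest.Agent.R158.Psi_664

/-!
# R158, Q1c part 5: the table of lifted directions of the region with stubs (helper405)

* `psT ψ A xr` : the table: `ψ` on the free ends of `A`, floor `3`, right ceiling `1`, left
  ceiling `5`, right cut `2`, left cut `4`
* `TabH` : the hypotheses on `ψ` (664's `psi (full A) xl y1`)
* **`loc_D`** : the table obeys the local rule of the seam `sgD` at every gap of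
  `Dp A xl xr y1 y2 k` with the glueing `beD .. p y0 (xr + k)`, any `z = (p, y0)`
-/

set_option autoImplicit false
set_option linter.unusedVariables false
set_option linter.unusedSectionVars false
set_option linter.unusedSimpArgs false

namespace Crest.Agent.R158.Qc405

open Crest.Agent.R158.Sw300
open Crest.Agent.R158.Gc748 (gl bs ts gd_wd pt)
open Crest.Agent.R158.Xr249 (rot rot_some rot_none Dp mem_Dp Free full full_h full_v Reg)
open Crest.Agent.R158.Pt266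
open Crest.Agent.R158.Env664 (nbD beD res PortOf portOf_some portOf_none nbD_leg nbD_W nbD_E nbD_N1
  nbD_N nbD_Sleg nbD_S1 nbD_S)

/-- the table of lifted directions -/
def psT (ψ : (ℤ × ℤ) × ZMod 4 → ℤ) (A : Finset (ℤ × ℤ)) (xr : ℤ) : Port (ℤ × ℤ) → ℤ
  | none => 1
  | some (t, d) =>
      if t ∈ A then ψ (t, d)
      else if d = 3 then 3
      else if d = 1 then (if xr < t.1 then 1 else 5)
      else if d = 2 then 2
      else 4

/-- hypotheses of the table -/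
structure TabH (A : Finset (ℤ × ℤ)) (xl xr y1 y2 k p y0 : ℤ) (ψ : (ℤ × ℤ) × ZMod 4 → ℤ) :
    Prop where
  hf : Free A xl xr y1 y2 k
  hk : 0 < k
  hy1 : y1 < y0
  hy2 : y0 < y2
  hp1 : xl < p
  hp2 : p ≤ xr
  run : ∀ x y, xl ≤ x → x ≤ xr → y1 ≤ y → y < y2 → (x, y) ∈ A
  c1 : (xl, y1 - 1) ∈ A
  c2 : (xr, y1 - 1) ∈ A
  c3 : (xl, y2) ∈ A
  c4 : (xr, y2) ∈ A
  v1 : ψ ((xl, y1 - 1), 0) = 4
  v2 : ψ ((xr, y1 - 1), 2) = 2
  v3 : ψ ((xl, y2), 0) = 0
  v4 : ψ ((xr, y2), 2) = 2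
  loc : ∀ x y κ, RFree (full A) x → RFree (full A) y → NxT (full A).gl (some x) (some y) κ →
    y ≠ ((xl, y1), 0) → ψ y = ψ x + κ

/-- the corner between a side and the next one -/
def cor (x : (ℤ × ℤ) × ZMod 4) : ℤ × ℤ :=
  if x.2 = 0 then (x.1.1, x.1.2 + 1) else if x.2 = 1 then (x.1.1 + 1, x.1.2 + 1)
  else if x.2 = 2 then (x.1.1 + 1, x.1.2) else (x.1.1, x.1.2)

section

variable {A : Finset (ℤ × ℤ)} {xl xr y1 y2 k p y0 : ℤ} {ψ : (ℤ × ℤ) × ZMod 4 → ℤ}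

lemma psT_A {x y : ℤ} {d : ZMod 4} (h : (x, y) ∈ A) :
    psT ψ A xr (some ((x, y), d)) = ψ ((x, y), d) := by
  simp only [psT]; rw [if_pos h]

lemma psT_S {x y : ℤ} (h : (x, y) ∉ A) : psT ψ A xr (some ((x, y), 3)) = 3 := by
  simp only [psT]; rw [if_neg h, if_pos trivial]

lemma psT_N {x y : ℤ} (h : (x, y) ∉ A) :
    psT ψ A xr (some ((x, y), 1)) = if xr < x then 1 else 5 := by
  simp only [psT]; rw [if_neg h, if_neg (by decide), if_pos trivial]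

lemma psT_E {x y : ℤ} (h : (x, y) ∉ A) : psT ψ A xr (some ((x, y), 2)) = 2 := by
  simp only [psT]; rw [if_neg h, if_neg (by decide), if_neg (by decide), if_pos trivial]

lemma psT_W {x y : ℤ} (h : (x, y) ∉ A) : psT ψ A xr (some ((x, y), 0)) = 4 := by
  simp only [psT]; rw [if_neg h, if_neg (by decide), if_neg (by decide), if_neg (by decide)]

/-- glueing relation of `Dp` -/
def GD (A : Finset (ℤ × ℤ)) (xl xr y1 y2 k p y0 : ℤ) (x y : Port (ℤ × ℤ)) : Prop :=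
  beD (Dp A xl xr y1 y2 k) p y0 (xr + k) x = y ∧ x ≠ y

lemma nbD_ne {p y0 xr : ℤ} (x : Port (ℤ × ℤ)) : x ≠ nbD p y0 xr x := by
  rcases x with _ | ⟨⟨x, y⟩, d⟩
  · rw [nbD_leg]; simp
  · have n1 : (1 : ZMod 4) ≠ 3 := by decide
    have n2 : (0 : ZMod 4) ≠ 2 := by decide
    rcases Env664.z4 d with rfl | rfl | rfl | rfl
    · rw [nbD_W]; simp [n2]
    · by_cases hc : y = y0 - 1 ∧ p ≤ x ∧ x ≤ xr
      · rw [nbD_N1 hc]; simp [n1]
      · rw [nbD_N hc]; simp [n1]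
    · rw [nbD_E]; simp [n2.symm]
    · by_cases hc : y = y0 ∧ x = p
      · rw [nbD_Sleg hc]; simp
      by_cases hc2 : y = y0 ∧ p < x ∧ x ≤ xr
      · rw [nbD_S1 hc2]; simp [n1.symm]
      · rw [nbD_S (by omega)]; simp [n1.symm]

lemma GD_of {x y : Port (ℤ × ℤ)} (hx : PortOf (Dp A xl xr y1 y2 k) x)
    (h : nbD p y0 (xr + k) x = y) (hy : PortOf (Dp A xl xr y1 y2 k) y) :
    GD A xl xr y1 y2 k p y0 x y := by
  subst h
  exact ⟨Env664.res_of hx hy, nbD_ne x⟩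

lemma GD_not {x : Port (ℤ × ℤ)} (h : ¬ PortOf (Dp A xl xr y1 y2 k) (nbD p y0 (xr + k) x)) :
    ∀ q, ¬ GD A xl xr y1 y2 k p y0 x q := by
  rintro q ⟨h1, h2⟩
  obtain ⟨h3, -, h5⟩ := beD_of h1 h2
  rw [h3] at h
  exact h h5

lemma GD_fn (a b c : Port (ℤ × ℤ)) (h : GD A xl xr y1 y2 k p y0 a b)
    (h' : GD A xl xr y1 y2 k p y0 a c) : b = c := h.1.symm.trans h'.1

/-- last step -/
lemma stp {σ : Port (ℤ × ℤ) → ℤ} {a b : Port (ℤ × ℤ)} (hb : rot a = b)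
    (h : ¬ PortOf (Dp A xl xr y1 y2 k) (nbD p y0 (xr + k) b)) :
    NxS σ (GD A xl xr y1 y2 k p y0) a b (ro a) := by
  subst hb
  exact .stop (GD_not h)

/-- one step over a glued side -/
lemma gop {σ : Port (ℤ × ℤ) → ℤ} {a c q r : Port (ℤ × ℤ)} {κ : ℤ} (hc : rot a = c)
    (hx : PortOf (Dp A xl xr y1 y2 k) c) (h : nbD p y0 (xr + k) c = q)
    (hy : PortOf (Dp A xl xr y1 y2 k) q) (hN : NxS σ (GD A xl xr y1 y2 k p y0) q r κ) :
    NxS σ (GD A xl xr y1 y2 k p y0) a r (ro a - 2 + σ c + κ) := by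
  subst hc
  exact .go (GD_of hx h hy) hN

variable (H : TabH A xl xr y1 y2 k p y0 ψ)

include H

lemma TabH.band {x y : ℤ} (h1 : xl - k ≤ x) (h2 : x ≤ xr + k) (h3 : y1 ≤ y) (h4 : y < y2) :
    (x, y) ∈ Dp A xl xr y1 y2 k := by
  rw [mem_Dp]
  by_cases h5 : x < xl
  · right; right; omega
  by_cases h6 : xr < x
  · right; left; omega
  · left; exact H.run x y (by omega) (by omega) h3 h4

lemma TabH.sub {t : ℤ × ℤ} (h : t ∈ A) : t ∈ Dp A xl xr y1 y2 k := by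
  obtain ⟨x, y⟩ := t
  rw [mem_Dp]; exact Or.inl h

lemma TabH.nr {x y : ℤ} (h1 : xr < x) (h2 : x ≤ xr + k + 1) (h3 : y1 - 1 ≤ y) (h4 : y ≤ y2) :
    (x, y) ∉ A := H.hf.right x y h1 h2 h3 h4

lemma TabH.nl {x y : ℤ} (h1 : x < xl) (h2 : xl - k - 1 ≤ x) (h3 : y1 - 1 ≤ y) (h4 : y ≤ y2) :
    (x, y) ∉ A := H.hf.left x y h1 h2 h3 h4

/-- tiles just outside `Dp` -/
lemma TabH.out {x y : ℤ} (h1 : (x, y) ∉ A) (h2 : ¬ (y1 ≤ y ∧ y < y2 ∧ xl - k ≤ x ∧ x ≤ xr + k)) :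
    (x, y) ∉ Dp A xl xr y1 y2 k := by
  rw [mem_Dp]
  rintro (h | h | h)
  · exact h1 h
  · have := H.hf.le; have := H.hk; omega
  · have := H.hf.le; have := H.hk; omega

/-- a corner away from the stubs, the seam and the dislocation -/
def GoodC (A : Finset (ℤ × ℤ)) (xl xr y1 y2 k y0 X Y : ℤ) : Prop :=
  (∀ u v, (u = X ∨ u = X - 1) → (v = Y ∨ v = Y - 1) → (u, v) ∈ Dp A xl xr y1 y2 k → (u, v) ∈ A) ∧
  ¬ (Y = y0 ∧ xl ≤ X ∧ X ≤ xr + k + 1) ∧ ¬ (X = xl ∧ y0 ≤ Y ∧ Y ≤ y2)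

omit H in
lemma far_step (hp1 : xl < p) (hp2 : p ≤ xr) (hk : 0 < k) {X Y : ℤ} (hg : GoodC A xl xr y1 y2 k y0 X Y)
    {a : Port (ℤ × ℤ)} {b : Port (ℤ × ℤ)} {κ : ℤ}
    (h : NxS (sgD xl p y0 y2) (GD A xl xr y1 y2 k p y0) a b κ) :
    ∀ t : ℤ × ℤ, ∀ d : ZMod 4, a = some (t, d) → t ∈ A → cor (t, d) = (X, Y) →
      ∃ b', b = some b' ∧ b'.1 ∈ A ∧ RFree (full A) b' ∧
        NxT (full A).gl a b κ ∧ ∀ q, ¬ GD A xl xr y1 y2 k p y0 b q := by
  obtain ⟨g1, g2, g3⟩ := hg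
  -- plain step at a good corner
  have key : ∀ (x y : ℤ) (d : ZMod 4), cor ((x, y), d) = (X, Y) → ∃ (u v : ℤ) (e : ZMod 4),
      nbD p y0 (xr + k) (rot (some ((x, y), d))) = some ((u, v), e) ∧ cor ((u, v), e) = (X, Y) ∧
      (u = X ∨ u = X - 1) ∧ (v = Y ∨ v = Y - 1) ∧ sgD xl p y0 y2 (rot (some ((x, y), d))) = 0 ∧
      ((x, y) ∈ A → (u, v) ∈ A → (full A).gl (rot (some ((x, y), d))) (some ((u, v), e))) ∧
      (∀ q, (full A).gl (rot (some ((x, y), d))) q → (u, v) ∈ A) := by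
    intro x y d hc
    rcases Env664.z4 d with rfl | rfl | rfl | rfl
    · -- `W`, next side `N`
      simp only [cor, if_pos, Prod.mk.injEq] at hc
      obtain ⟨rfl, rfl⟩ := hc
      have e1 : rot (some ((x, y), (0 : ZMod 4))) = some ((x, y), 1) := rfl
      rw [e1, nbD_N (by omega)]
      refine ⟨x, y + 1, 3, rfl, rfl, by omega, by omega, ?_, ?_, ?_⟩
      · rw [sgD_N, if_neg (by omega)]
      · intro h1 h2
        exact Reg.gl_1.2 ⟨full_v.2 ⟨h1, h2⟩, rfl⟩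
      · intro q hq
        exact (full_v.1 (Reg.gl_1.1 hq).1).2
    · -- `N`, next side `E`
      have hc' : (x + 1, y + 1) = (X, Y) := hc
      rw [Prod.mk.injEq] at hc'
      obtain ⟨rfl, rfl⟩ := hc'
      have e1 : rot (some ((x, y), (1 : ZMod 4))) = some ((x, y), 2) := rfl
      rw [e1, nbD_E]
      refine ⟨x + 1, y, 0, rfl, rfl, by omega, by omega, ?_, ?_, ?_⟩
      · rw [sgD_E, if_neg (by omega)]
      · intro h1 h2
        exact Reg.gl_2.2 ⟨full_h.2 ⟨h1, h2⟩, rfl⟩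
      · intro q hq
        exact (full_h.1 (Reg.gl_2.1 hq).1).2
    · -- `E`, next side `S`
      have hc' : (x + 1, y) = (X, Y) := hc
      rw [Prod.mk.injEq] at hc'
      obtain ⟨rfl, rfl⟩ := hc'
      have e1 : rot (some ((x, y), (2 : ZMod 4))) = some ((x, y), 3) := rfl
      rw [e1, nbD_S (by omega)]
      refine ⟨x, y - 1, 1, rfl, ?_, by omega, by omega, ?_, ?_, ?_⟩
      · show (x + 1, y - 1 + 1) = (x + 1, y)
        rw [sub_add_cancel]
      · rw [sgD_S, if_neg (by omega)]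
      · intro h1 h2
        refine Reg.gl_3.2 ⟨full_v.2 ⟨h2, ?_⟩, rfl⟩
        rwa [sub_add_cancel]
      · intro q hq
        exact (full_v.1 (Reg.gl_3.1 hq).1).1
    · -- `S`, next side `W`
      have hc' : (x, y) = (X, Y) := hc
      rw [Prod.mk.injEq] at hc'
      obtain ⟨rfl, rfl⟩ := hc'
      have e1 : rot (some ((x, y), (3 : ZMod 4))) = some ((x, y), 0) := rfl
      rw [e1, nbD_W]
      refine ⟨x - 1, y, 2, rfl, ?_, by omega, by omega, ?_, ?_, ?_⟩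
      · show (x - 1 + 1, y) = (x, y)
        rw [sub_add_cancel]
      · rw [sgD_W, if_neg (by omega)]
      · intro h1 h2
        refine Reg.gl_0.2 ⟨full_h.2 ⟨h2, ?_⟩, rfl⟩
        rwa [sub_add_cancel]
      · intro q hq
        exact (full_h.1 (Reg.gl_0.1 hq).1).1
  induction h with
  | @stop a h =>
    rintro ⟨x, y⟩ d rfl ht hc
    obtain ⟨u, v, e, h1, h2, h3, h4, h5, h6, h7⟩ := key x y d hc
    have hno : ∀ q, ¬ (full A).gl (rot (some ((x, y), d))) q := by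
      intro q hq
      have h8 := h7 q hq
      have h9 : (u, v) ∈ Dp A xl xr y1 y2 k := mem_Dp.2 (Or.inl h8)
      have h10 : (x, y) ∈ Dp A xl xr y1 y2 k := mem_Dp.2 (Or.inl ht)
      exact h _ (GD_of (x := rot (some ((x, y), d))) (portOf_some.2 h10) h1 (portOf_some.2 h9))
    refine ⟨((x, y), d + 1), rfl, ht, ⟨ht, fun b hb => hno _ hb⟩, ?_, h⟩
    exact (NxT.stop hno)
  | @go a q r κ h8 h9 ih =>
    rintro ⟨x, y⟩ d rfl ht hc
    obtain ⟨u, v, e, h1, h2, h3, h4, h5, h6, h7⟩ := key x y d hc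
    obtain ⟨h10, h11, h12⟩ := beD_of h8.1 h8.2
    rw [h1] at h10
    subst h10
    have h13 : (u, v) ∈ A := g1 u v h3 h4 (portOf_some.1 h12)
    obtain ⟨b', hb, hbA, hfr, hN, hq⟩ := ih (u, v) e rfl h13 h2
    refine ⟨b', hb, hbA, hfr, ?_, hq⟩
    refine (NxT.go (h6 ht h13) hN).cast ?_
    rw [h5, ro_some]
    ring

end

end Crest.Agent.R158.Qc405
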