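import Crest.Agent.R158.Qc5_405

/-!
# R158, Q1c part 6: the table obeys the local rule (helper405)

* **`loc_D`** : `psT ψ A xr b = psT ψ A xr a + κ` for consecutive free ends `a`, `b` of
  `Dp A xl xr y1 y2 k` (glueing `beD .. p y0 (xr + k)`, seam `sgD xl p y0 y2`)
-/

set_option autoImplicit false
set_option linter.unusedVariables false
set_option linter.unusedSectionVars false
set_option linter.unusedSimpArgs false

namespace Crest.Agent.R158.Qc405

open Crest.Agent.R158.Sw300
open Crest.Agent.R158.Gc748 (gl bs ts gd_wd pt)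
open Crest.Agent.R158.Xr249 (rot rot_some rot_none Dp mem_Dp Free full full_h full_v Reg)
open Crest.Agent.R158.Pt266
open Crest.Agent.R158.Env664 (nbD beD res PortOf portOf_some portOf_none nbD_leg nbD_W nbD_E nbD_N1
  nbD_N nbD_Sleg nbD_S1 nbD_S)

section

variable {A : Finset (ℤ × ℤ)} {xl xr y1 y2 k p y0 : ℤ} {ψ : (ℤ × ℤ) × ZMod 4 → ℤ}

lemma rW (x y : ℤ) : rot (some ((x, y), (0 : ZMod 4))) = some ((x, y), 1) := rfl
lemma rN (x y : ℤ) : rot (some ((x, y), (1 : ZMod 4))) = some ((x, y), 2) := rfl
lemma rE (x y : ℤ) : rot (some ((x, y), (2 : ZMod 4))) = some ((x, y), 3) := rfl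
lemma rS (x y : ℤ) : rot (some ((x, y), (3 : ZMod 4))) = some ((x, y), 0) := rfl

lemma pD {x y : ℤ} {d : ZMod 4} (h : (x, y) ∈ Dp A xl xr y1 y2 k) :
    PortOf (Dp A xl xr y1 y2 k) (some ((x, y), d)) := portOf_some.2 h

lemma pD' {x y : ℤ} {d : ZMod 4} (h : (x, y) ∉ Dp A xl xr y1 y2 k) :
    ¬ PortOf (Dp A xl xr y1 y2 k) (some ((x, y), d)) := fun h' => h (portOf_some.1 h')

variable (H : TabH A xl xr y1 y2 k p y0 ψ)

include H

/-- the right stub -/
lemma loc_R {x y : ℤ} {d : ZMod 4} (hR : (xr + 1 ≤ x ∧ x < xr + k + 1) ∧ y1 ≤ y ∧ y < y2)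
    (hfree : ∀ q, ¬ GD A xl xr y1 y2 k p y0 (some ((x, y), d)) q) {b : Port (ℤ × ℤ)} {κ : ℤ}
    (h : NxS (sgD xl p y0 y2) (GD A xl xr y1 y2 k p y0) (some ((x, y), d)) b κ) :
    psT ψ A xr b = psT ψ A xr (some ((x, y), d)) + κ := by
  have hk := H.hk
  have h1 := H.hy1
  have h2 := H.hy2
  have h3 := H.hp1
  have h4 := H.hp2
  have hle := H.hf.le
  have hD : (x, y) ∈ Dp A xl xr y1 y2 k := H.band (by omega) (by omega) hR.2.1 hR.2.2
  have hxA : (x, y) ∉ A := H.nr (by omega) (by omega) (by omega) (by omega)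
  have det : ∀ {b0 κ0}, NxS (sgD xl p y0 y2) (GD A xl xr y1 y2 k p y0) (some ((x, y), d)) b0 κ0 →
      psT ψ A xr b0 = psT ψ A xr (some ((x, y), d)) + κ0 →
      psT ψ A xr b = psT ψ A xr (some ((x, y), d)) + κ := by
    intro b0 κ0 h5 h6
    obtain ⟨rfl, rfl⟩ := NxS.det (fun a b c => GD_fn a b c) h h5
    exact h6
  rcases Env664.z4 d with rfl | rfl | rfl | rfl
  · exact absurd (GD_of (pD hD) nbD_W (pD (H.band (by omega) (by omega) (by omega) (by omega))))
      (hfree _)
  · -- `N`
    by_cases c1 : x = xr + k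
    · have o1 : (x + 1, y) ∉ Dp A xl xr y1 y2 k :=
        H.out (H.nr (by omega) (by omega) (by omega) (by omega)) (by omega)
      refine det (stp (rN x y) (by rw [nbD_E]; exact pD' o1)) ?_
      rw [psT_E hxA, psT_N hxA, if_pos (by omega), ro_some]; norm_num
    by_cases c2 : y = y2 - 1
    · have d1 : (x + 1, y) ∈ Dp A xl xr y1 y2 k :=
        H.band (by omega) (by omega) (by omega) (by omega)
      have o1 : (x + 1, y + 1) ∉ Dp A xl xr y1 y2 k :=
        H.out (H.nr (by omega) (by omega) (by omega) (by omega)) (by omega)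
      have hN := gop (y0 := y0) (p := p) (σ := sgD xl p y0 y2) (rN x y) (pD hD) nbD_E (pD d1)
        (stp (rW (x + 1) y) (by rw [nbD_N (by omega)]; exact pD' o1))
      refine det hN ?_
      rw [psT_N hxA, psT_N (H.nr (by omega) (by omega) (by omega) (by omega)),
        if_pos (by omega), if_pos (by omega), sgD_E, if_neg (by omega), ro_some, ro_some]
      norm_num
    · exfalso
      by_cases c3 : y = y0 - 1
      · exact hfree _ (GD_of (pD hD) (nbD_N1 (by omega))
          (pD (H.band (by omega) (by omega) (by omega) (by omega))))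
      · exact hfree _ (GD_of (pD hD) (nbD_N (by omega))
          (pD (H.band (by omega) (by omega) (by omega) (by omega))))
  · -- `E`
    by_cases c1 : x = xr + k
    · by_cases c2 : y = y1
      · have o1 : (x, y - 1) ∉ Dp A xl xr y1 y2 k :=
          H.out (H.nr (by omega) (by omega) (by omega) (by omega)) (by omega)
        refine det (stp (rE x y) (by rw [nbD_S (by omega)]; exact pD' o1)) ?_
        rw [psT_E hxA, psT_S hxA, ro_some]; norm_num
      by_cases c3 : y = y0
      · have d1 : (x - 1, y0 - 1) ∈ Dp A xl xr y1 y2 k :=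
          H.band (by omega) (by omega) (by omega) (by omega)
        have d2 : (x - 1 + 1, y0 - 1) ∈ Dp A xl xr y1 y2 k :=
          H.band (by omega) (by omega) (by omega) (by omega)
        have o1 : (x - 1 + 1 + 1, y0) ∉ Dp A xl xr y1 y2 k :=
          H.out (H.nr (by omega) (by omega) (by omega) (by omega)) (by omega)
        have hN := gop (y0 := y0) (p := p) (σ := sgD xl p y0 y2) (rE x y) (pD hD)
          (nbD_S1 (by omega)) (pD d1)
          (gop (rN (x - 1) (y0 - 1)) (pD d1) nbD_E (pD d2)
            (stp (rW (x - 1 + 1) (y0 - 1)) (by rw [nbD_N1 (by omega)]; exact pD' o1)))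
        refine det hN ?_
        rw [psT_E hxA, psT_N (H.nr (by omega) (by omega) (by omega) (by omega)),
          if_pos (by omega), sgD_E, if_neg (by omega), sgD_S, if_neg (by omega)]
        simp only [ro_some]; norm_num
      · have d1 : (x, y - 1) ∈ Dp A xl xr y1 y2 k :=
          H.band (by omega) (by omega) (by omega) (by omega)
        have o1 : (x + 1, y - 1) ∉ Dp A xl xr y1 y2 k :=
          H.out (H.nr (by omega) (by omega) (by omega) (by omega)) (by omega)
        have hN := gop (y0 := y0) (p := p) (σ := sgD xl p y0 y2) (rE x y) (pD hD)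
          (nbD_S (by omega)) (pD d1)
          (stp (rN x (y - 1)) (by rw [nbD_E]; exact pD' o1))
        refine det hN ?_
        rw [psT_E hxA, psT_E (H.nr (by omega) (by omega) (by omega) (by omega)),
          sgD_S, if_neg (by omega)]
        simp only [ro_some]; norm_num
    · exact absurd (GD_of (pD hD) nbD_E
        (pD (H.band (by omega) (by omega) (by omega) (by omega)))) (hfree _)
  · -- `S`
    by_cases c1 : y = y1
    · by_cases c2 : x = xr + 1
      · have d1 : (x - 1, y) ∈ Dp A xl xr y1 y2 k :=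
          H.band (by omega) (by omega) (by omega) (by omega)
        have e1 : ((x - 1, y - 1) : ℤ × ℤ) = (xr, y1 - 1) := by
          rw [c1, c2]; simp
        have d2 : (x - 1, y - 1) ∈ Dp A xl xr y1 y2 k := H.sub (by rw [e1]; exact H.c2)
        have o1 : (x - 1 + 1, y - 1) ∉ Dp A xl xr y1 y2 k :=
          H.out (H.nr (by omega) (by omega) (by omega) (by omega)) (by omega)
        have hN := gop (y0 := y0) (p := p) (σ := sgD xl p y0 y2) (rS x y) (pD hD)
          nbD_W (pD d1)
          (gop (rE (x - 1) y) (pD d1) (nbD_S (by omega)) (pD d2)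
            (stp (rN (x - 1) (y - 1)) (by rw [nbD_E]; exact pD' o1)))
        refine det hN ?_
        rw [psT_S hxA, e1, psT_A H.c2, H.v2, sgD_W, if_neg (by omega), sgD_S, if_neg (by omega)]
        simp only [ro_some]; norm_num
      · have d1 : (x - 1, y) ∈ Dp A xl xr y1 y2 k :=
          H.band (by omega) (by omega) (by omega) (by omega)
        have o1 : (x - 1, y - 1) ∉ Dp A xl xr y1 y2 k :=
          H.out (H.nr (by omega) (by omega) (by omega) (by omega)) (by omega)
        have hN := gop (y0 := y0) (p := p) (σ := sgD xl p y0 y2) (rS x y) (pD hD)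
          nbD_W (pD d1)
          (stp (rE (x - 1) y) (by rw [nbD_S (by omega)]; exact pD' o1))
        refine det hN ?_
        rw [psT_S hxA, psT_S (H.nr (by omega) (by omega) (by omega) (by omega)),
          sgD_W, if_neg (by omega)]
        simp only [ro_some]; norm_num
    · exfalso
      by_cases c3 : y = y0
      · exact hfree _ (GD_of (pD hD) (nbD_S1 (by omega))
          (pD (H.band (by omega) (by omega) (by omega) (by omega))))
      · exact hfree _ (GD_of (pD hD) (nbD_S (by omega))
          (pD (H.band (by omega) (by omega) (by omega) (by omega))))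

/-- the left stub -/
lemma loc_L {x y : ℤ} {d : ZMod 4} (hR : (xl - k ≤ x ∧ x < xl) ∧ y1 ≤ y ∧ y < y2)
    (hfree : ∀ q, ¬ GD A xl xr y1 y2 k p y0 (some ((x, y), d)) q) {b : Port (ℤ × ℤ)} {κ : ℤ}
    (h : NxS (sgD xl p y0 y2) (GD A xl xr y1 y2 k p y0) (some ((x, y), d)) b κ) :
    psT ψ A xr b = psT ψ A xr (some ((x, y), d)) + κ := by
  have hk := H.hk
  have h1 := H.hy1
  have h2 := H.hy2
  have h3 := H.hp1
  have h4 := H.hp2
  have hle := H.hf.le
  have hD : (x, y) ∈ Dp A xl xr y1 y2 k := H.band (by omega) (by omega) hR.2.1 hR.2.2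
  have hxA : (x, y) ∉ A := H.nl (by omega) (by omega) (by omega) (by omega)
  have det : ∀ {b0 κ0}, NxS (sgD xl p y0 y2) (GD A xl xr y1 y2 k p y0) (some ((x, y), d)) b0 κ0 →
      psT ψ A xr b0 = psT ψ A xr (some ((x, y), d)) + κ0 →
      psT ψ A xr b = psT ψ A xr (some ((x, y), d)) + κ := by
    intro b0 κ0 h5 h6
    obtain ⟨rfl, rfl⟩ := NxS.det (fun a b c => GD_fn a b c) h h5
    exact h6
  rcases Env664.z4 d with rfl | rfl | rfl | rfl
  · -- `W`
    by_cases c1 : x = xl - k
    · by_cases c2 : y = y2 - 1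
      · have o1 : (x, y + 1) ∉ Dp A xl xr y1 y2 k :=
          H.out (H.nl (by omega) (by omega) (by omega) (by omega)) (by omega)
        refine det (stp (rW x y) (by rw [nbD_N (by omega)]; exact pD' o1)) ?_
        rw [psT_W hxA, psT_N hxA, if_neg (by omega), ro_some]; norm_num
      · have d1 : (x, y + 1) ∈ Dp A xl xr y1 y2 k :=
          H.band (by omega) (by omega) (by omega) (by omega)
        have o1 : (x - 1, y + 1) ∉ Dp A xl xr y1 y2 k :=
          H.out (H.nl (by omega) (by omega) (by omega) (by omega)) (by omega)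
        have hN := gop (y0 := y0) (p := p) (σ := sgD xl p y0 y2) (rW x y) (pD hD)
          (nbD_N (by omega)) (pD d1)
          (stp (rS x (y + 1)) (by rw [nbD_W]; exact pD' o1))
        refine det hN ?_
        rw [psT_W hxA, psT_W (H.nl (by omega) (by omega) (by omega) (by omega)),
          sgD_N, if_neg (by omega)]
        simp only [ro_some]; norm_num
    · exact absurd (GD_of (pD hD) nbD_W
        (pD (H.band (by omega) (by omega) (by omega) (by omega)))) (hfree _)
  · -- `N`
    by_cases c2 : y = y2 - 1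
    · by_cases c1 : x = xl - 1
      · have d1 : (x + 1, y) ∈ Dp A xl xr y1 y2 k :=
          H.band (by omega) (by omega) (by omega) (by omega)
        have e1 : ((x + 1, y + 1) : ℤ × ℤ) = (xl, y2) := by rw [c1, c2]; simp
        have d2 : (x + 1, y + 1) ∈ Dp A xl xr y1 y2 k := H.sub (by rw [e1]; exact H.c3)
        have o1 : (x + 1 - 1, y + 1) ∉ Dp A xl xr y1 y2 k :=
          H.out (H.nl (by omega) (by omega) (by omega) (by omega)) (by omega)
        have hN := gop (y0 := y0) (p := p) (σ := sgD xl p y0 y2) (rN x y) (pD hD)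
          nbD_E (pD d1)
          (gop (rW (x + 1) y) (pD d1) (nbD_N (by omega)) (pD d2)
            (stp (rS (x + 1) (y + 1)) (by rw [nbD_W]; exact pD' o1)))
        refine det hN ?_
        rw [psT_N hxA, if_neg (by omega), e1, psT_A H.c3, H.v3, sgD_E, if_pos (by omega), sgD_N,
          if_neg (by omega)]
        simp only [ro_some]; norm_num
      · have d1 : (x + 1, y) ∈ Dp A xl xr y1 y2 k :=
          H.band (by omega) (by omega) (by omega) (by omega)
        have o1 : (x + 1, y + 1) ∉ Dp A xl xr y1 y2 k :=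
          H.out (H.nl (by omega) (by omega) (by omega) (by omega)) (by omega)
        have hN := gop (y0 := y0) (p := p) (σ := sgD xl p y0 y2) (rN x y) (pD hD)
          nbD_E (pD d1)
          (stp (rW (x + 1) y) (by rw [nbD_N (by omega)]; exact pD' o1))
        refine det hN ?_
        rw [psT_N hxA, if_neg (by omega), psT_N (H.nl (by omega) (by omega) (by omega) (by omega)),
          if_neg (by omega), sgD_E, if_neg (by omega)]
        simp only [ro_some]; norm_num
    · exact absurd (GD_of (pD hD) (nbD_N (by omega))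
        (pD (H.band (by omega) (by omega) (by omega) (by omega)))) (hfree _)
  · -- `E`
    exact absurd (GD_of (pD hD) nbD_E
        (pD (H.band (by omega) (by omega) (by omega) (by omega)))) (hfree _)
  · -- `S`
    by_cases c1 : y = y1
    · by_cases c2 : x = xl - k
      · have o1 : (x - 1, y) ∉ Dp A xl xr y1 y2 k :=
          H.out (H.nl (by omega) (by omega) (by omega) (by omega)) (by omega)
        refine det (stp (rS x y) (by rw [nbD_W]; exact pD' o1)) ?_
        rw [psT_W hxA, psT_S hxA, ro_some]; norm_num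
      · have d1 : (x - 1, y) ∈ Dp A xl xr y1 y2 k :=
          H.band (by omega) (by omega) (by omega) (by omega)
        have o1 : (x - 1, y - 1) ∉ Dp A xl xr y1 y2 k :=
          H.out (H.nl (by omega) (by omega) (by omega) (by omega)) (by omega)
        have hN := gop (y0 := y0) (p := p) (σ := sgD xl p y0 y2) (rS x y) (pD hD)
          nbD_W (pD d1)
          (stp (rE (x - 1) y) (by rw [nbD_S (by omega)]; exact pD' o1))
        refine det hN ?_
        rw [psT_S hxA, psT_S (H.nl (by omega) (by omega) (by omega) (by omega)),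
          sgD_W, if_neg (by omega)]
        simp only [ro_some]; norm_num
    · exact absurd (GD_of (pD hD) (nbD_S (by omega))
        (pD (H.band (by omega) (by omega) (by omega) (by omega)))) (hfree _)

/-- the region itself -/
lemma loc_A {x y : ℤ} {d : ZMod 4} (hA : (x, y) ∈ A)
    (hfree : ∀ q, ¬ GD A xl xr y1 y2 k p y0 (some ((x, y), d)) q) {b : Port (ℤ × ℤ)} {κ : ℤ}
    (h : NxS (sgD xl p y0 y2) (GD A xl xr y1 y2 k p y0) (some ((x, y), d)) b κ) :
    psT ψ A xr b = psT ψ A xr (some ((x, y), d)) + κ := by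
  have hk := H.hk
  have h1 := H.hy1
  have h2 := H.hy2
  have h3 := H.hp1
  have h4 := H.hp2
  have hle := H.hf.le
  have hD : (x, y) ∈ Dp A xl xr y1 y2 k := H.sub hA
  have mr : ¬ (xr < x ∧ x ≤ xr + k + 1 ∧ y1 - 1 ≤ y ∧ y ≤ y2) := fun hc =>
    H.nr hc.1 hc.2.1 hc.2.2.1 hc.2.2.2 hA
  have ml : ¬ (x < xl ∧ xl - k - 1 ≤ x ∧ y1 - 1 ≤ y ∧ y ≤ y2) := fun hc =>
    H.nl hc.1 hc.2.1 hc.2.2.1 hc.2.2.2 hA
  have det : ∀ {b0 κ0}, NxS (sgD xl p y0 y2) (GD A xl xr y1 y2 k p y0) (some ((x, y), d)) b0 κ0 →
      psT ψ A xr b0 = psT ψ A xr (some ((x, y), d)) + κ0 →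
      psT ψ A xr b = psT ψ A xr (some ((x, y), d)) + κ := by
    intro b0 κ0 h5 h6
    obtain ⟨rfl, rfl⟩ := NxS.det (fun a b c => GD_fn a b c) h h5
    exact h6
  -- good corners
  have good : ∀ X Y, cor ((x, y), d) = (X, Y) → GoodC A xl xr y1 y2 k y0 X Y →
      (∀ q, (full A).gl (some ((x, y), d)) q → ∃ u v e, nbD p y0 (xr + k) (some ((x, y), d)) =
        some ((u, v), e) ∧ (u, v) ∈ A) →
      psT ψ A xr b = psT ψ A xr (some ((x, y), d)) + κ := by
    intro X Y hc hg hnb
    obtain ⟨b', rfl, hb', hfr, hN, hq⟩ := far_step h3 h4 hk hg h (x, y) d rfl hA hc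
    have hra : RFree (full A) ((x, y), d) := by
      refine ⟨hA, fun q hq' => ?_⟩
      obtain ⟨u, v, e, h5, h6⟩ := hnb _ hq'
      exact hfree _ (GD_of (pD hD) h5 (pD (H.sub h6)))
    have hbase : b' ≠ ((xl, y1), 0) := by
      rintro rfl
      exact hq _ (GD_of (pD (H.band (by omega) (by omega) (by omega) (by omega))) nbD_W
        (pD (H.band (by omega) (by omega) (by omega) (by omega))))
    have h5 := H.loc _ _ _ hra hfr hN hbase
    obtain ⟨⟨x', y'⟩, d'⟩ := b'
    rw [psT_A hA, psT_A hb', h5]
  rcases Env664.z4 d with rfl | rfl | rfl | rfl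
  · -- `W`
    by_cases s1 : y1 ≤ y ∧ y < y2 ∧ xl ≤ x ∧ x ≤ xr
    · exact absurd (GD_of (pD hD) nbD_W
        (pD (H.band (by omega) (by omega) (by omega) (by omega)))) (hfree _)
    by_cases s2 : x = xl ∧ y = y1 - 1
    · obtain ⟨rfl, rfl⟩ := s2
      have d1 : (x, y1 - 1 + 1) ∈ Dp A x xr y1 y2 k :=
        H.band (by omega) (by omega) (by omega) (by omega)
      have d2 : (x - 1, y1 - 1 + 1) ∈ Dp A x xr y1 y2 k :=
        H.band (by omega) (by omega) (by omega) (by omega)
      have o1 : (x - 1, y1 - 1 + 1 - 1) ∉ Dp A x xr y1 y2 k :=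
        H.out (H.nl (by omega) (by omega) (by omega) (by omega)) (by omega)
      have hN := gop (y0 := y0) (p := p) (σ := sgD x p y0 y2) (rW x (y1 - 1)) (pD hD)
        (nbD_N (by omega)) (pD d1)
        (gop (rS x (y1 - 1 + 1)) (pD d1) nbD_W (pD d2)
          (stp (rE (x - 1) (y1 - 1 + 1)) (by rw [nbD_S (by omega)]; exact pD' o1)))
      refine det hN ?_
      rw [psT_A hA, H.v1, psT_S (H.nl (by omega) (by omega) (by omega) (by omega)), sgD_N,
        if_neg (by omega), sgD_W, if_neg (by omega)]
      simp only [ro_some]; norm_num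
    · refine good x (y + 1) rfl ⟨?_, by omega, by omega⟩ ?_
      · intro u v hu hv hm
        rw [mem_Dp] at hm
        rcases hm with hm | hm | hm
        · exact hm
        · exfalso; omega
        · exfalso; omega
      · intro q hq
        have h5 := (full_h.1 (Reg.gl_0.1 hq).1).1
        exact ⟨_, _, _, nbD_W, h5⟩
  · -- `N`
    by_cases s1 : y1 ≤ y ∧ y + 1 < y2 ∧ xl ≤ x ∧ x ≤ xr
    · exfalso
      by_cases c3 : y = y0 - 1 ∧ p ≤ x
      · exact hfree _ (GD_of (pD hD) (nbD_N1 (by omega))
          (pD (H.band (by omega) (by omega) (by omega) (by omega))))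
      · exact hfree _ (GD_of (pD hD) (nbD_N (by omega))
          (pD (H.band (by omega) (by omega) (by omega) (by omega))))
    by_cases s2 : x = xr ∧ y = y1 - 1
    · exfalso
      exact hfree _ (GD_of (pD hD) (nbD_N (by omega))
        (pD (H.band (by omega) (by omega) (by omega) (by omega))))
    by_cases s3 : x = xr ∧ y = y2 - 1
    · exfalso
      refine hfree _ (GD_of (pD hD) (nbD_N (by omega)) (pD (H.sub ?_)))
      rw [s3.1, s3.2, sub_add_cancel]
      exact H.c4
    · refine good (x + 1) (y + 1) rfl ⟨?_, by omega, by omega⟩ ?_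
      · intro u v hu hv hm
        rw [mem_Dp] at hm
        rcases hm with hm | hm | hm
        · exact hm
        · exfalso; omega
        · exfalso; omega
      · intro q hq
        have h5 := (full_v.1 (Reg.gl_1.1 hq).1).2
        exact ⟨_, _, _, nbD_N (by omega), h5⟩
  · -- `E`
    by_cases s1 : y1 ≤ y ∧ y < y2 ∧ xl ≤ x ∧ x ≤ xr
    · exact absurd (GD_of (pD hD) nbD_E
        (pD (H.band (by omega) (by omega) (by omega) (by omega)))) (hfree _)
    by_cases s2 : x = xr ∧ y = y2
    · obtain ⟨rfl, rfl⟩ := s2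
      have d1 : (x, y - 1) ∈ Dp A xl x y1 y k :=
        H.band (by omega) (by omega) (by omega) (by omega)
      have d2 : (x + 1, y - 1) ∈ Dp A xl x y1 y k :=
        H.band (by omega) (by omega) (by omega) (by omega)
      have o1 : (x + 1, y - 1 + 1) ∉ Dp A xl x y1 y k :=
        H.out (H.nr (by omega) (by omega) (by omega) (by omega)) (by omega)
      have hN := gop (y0 := y0) (p := p) (σ := sgD xl p y0 y) (rE x y) (pD hD)
        (nbD_S (by omega)) (pD d1)
        (gop (rN x (y - 1)) (pD d1) nbD_E (pD d2)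
          (stp (rW (x + 1) (y - 1)) (by rw [nbD_N (by omega)]; exact pD' o1)))
      refine det hN ?_
      rw [psT_A hA, H.v4, psT_N (H.nr (by omega) (by omega) (by omega) (by omega)),
        if_pos (by omega), sgD_S, if_neg (by omega), sgD_E, if_neg (by omega)]
      simp only [ro_some]; norm_num
    · refine good (x + 1) y rfl ⟨?_, by omega, by omega⟩ ?_
      · intro u v hu hv hm
        rw [mem_Dp] at hm
        rcases hm with hm | hm | hm
        · exact hm
        · exfalso; omega
        · exfalso; omega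
      · intro q hq
        have h5 := (full_h.1 (Reg.gl_2.1 hq).1).2
        exact ⟨_, _, _, nbD_E, h5⟩
  · -- `S`
    by_cases s1 : y1 < y ∧ y < y2 ∧ xl ≤ x ∧ x ≤ xr
    · exfalso
      by_cases c3 : y = y0 ∧ x = p
      · exact hfree _ (GD_of (pD hD) (nbD_Sleg c3) (portOf_none _))
      by_cases c4 : y = y0 ∧ p < x
      · exact hfree _ (GD_of (pD hD) (nbD_S1 (by omega))
          (pD (H.band (by omega) (by omega) (by omega) (by omega))))
      · exact hfree _ (GD_of (pD hD) (nbD_S (by omega))
          (pD (H.band (by omega) (by omega) (by omega) (by omega))))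
    by_cases s2 : x = xl ∧ y = y1
    · exfalso
      refine hfree _ (GD_of (pD hD) (nbD_S (by omega)) (pD (H.sub ?_)))
      rw [s2.1, s2.2]
      exact H.c1
    by_cases s3 : x = xl ∧ y = y2
    · exfalso
      exact hfree _ (GD_of (pD hD) (nbD_S (by omega))
        (pD (H.band (by omega) (by omega) (by omega) (by omega))))
    · refine good x y rfl ⟨?_, by omega, by omega⟩ ?_
      · intro u v hu hv hm
        rw [mem_Dp] at hm
        rcases hm with hm | hm | hm
        · exact hm
        · exfalso; omega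
        · exfalso; omega
      · intro q hq
        have h5 := (full_v.1 (Reg.gl_3.1 hq).1).1
        exact ⟨_, _, _, nbD_S (by omega), h5⟩

/-- **the table obeys the local rule** -/
theorem loc_D {a b : Port (ℤ × ℤ)} {κ : ℤ} {t : ℤ × ℤ} {d : ZMod 4} (ha : a = some (t, d))
    (ht : t ∈ Dp A xl xr y1 y2 k) (hfree : ∀ q, ¬ GD A xl xr y1 y2 k p y0 a q)
    (h : NxS (sgD xl p y0 y2) (GD A xl xr y1 y2 k p y0) a b κ) :
    psT ψ A xr b = psT ψ A xr a + κ := by
  subst ha
  obtain ⟨x, y⟩ := t
  rcases mem_Dp.1 ht with h1 | h1 | h1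
  · exact loc_A H h1 hfree h
  · exact loc_R H h1 hfree h
  · exact loc_L H h1 hfree h

end

end Crest.Agent.R158.Qc405
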