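import Crest.Agent.R158.Qc6_405
import Crest.Agent.R158.Xr14_249
import Crest.Agent.R158.Ob0_664

/-!
# R158, Q1c part 7: the lifted directions of the region with stubs (helper405)

* `zz` : the zigzag splitting; `zwalk` : the zigzag strand from the leg along the line `y0`
* **`psi_tab`** : for every good word `w` of `Dp A xl xr y1 y2 k` with the glueing
  `beD .. p y0 (xr + k)` and every free end `x`: `psi (sgD xl p y0 y2) w x = psT ψ A xr x`
-/

set_option autoImplicit false
set_option linter.unusedVariables false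
set_option linter.unusedSectionVars false
set_option linter.unusedSimpArgs false

namespace Crest.Agent.R158.Qc405

open Crest.Agent.R158.Sw300
open Crest.Agent.R158.Gc748 (gl bs ts gd_wd pt)
open Crest.Agent.R158.Xr249 (rot rot_some rot_none Dp mem_Dp Free full full_h full_v Reg bas)
open Crest.Agent.R158.Pt266
open Crest.Agent.R158.Ob664 (GW)
open Crest.Agent.R158.Env664 (nbD beD res PortOf portOf_some portOf_none nbD_leg nbD_W nbD_E nbD_N1
  nbD_N nbD_Sleg nbD_S1 nbD_S)

section

variable {T : Type*}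

/-- a function that does not change along a cyclic chain is constant -/
lemma Cy.const {α β : Type*} {r : α → α → Prop} {f : α → β} (hf : ∀ a b, r a b → f a = f b) :
    ∀ {l : List α}, Cy r l → ∀ a ∈ l, ∀ b ∈ l, f a = f b
  | [], _, a, ha, _, _ => by simp at ha
  | x :: l, h, a, ha, b, hb => by
    have key : ∀ (m : List α) (y : α), List.IsChain r (y :: m) → ∀ c ∈ y :: m, f y = f c := by
      intro m
      induction m with
      | nil => intro y _ c hc; simp only [List.mem_singleton] at hc; rw [hc]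
      | cons z m ih =>
        intro y hch c hc
        rw [List.isChain_cons_cons] at hch
        rw [List.mem_cons] at hc
        rcases hc with rfl | hc
        · rfl
        · rw [hf _ _ hch.1]
          exact ih z hch.2 c hc
    have h' : List.IsChain r (x :: (l ++ [x])) := h
    have h1 := key _ x h' a (by
      rw [List.mem_cons] at ha ⊢
      rcases ha with rfl | ha
      · exact Or.inl rfl
      · exact Or.inr (by simp [ha]))
    have h2 := key _ x h' b (by
      rw [List.mem_cons] at hb ⊢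
      rcases hb with rfl | hb
      · exact Or.inl rfl
      · exact Or.inr (by simp [hb]))
    rw [← h1, h2]

lemma isLeg_of_bas [DecidableEq T] : ∀ {w : Wd T}, bas w = none → isLeg w
  | .leg, _ => trivial
  | .tile t, h => by simp [bas] at h
  | .att w _ _ _, h => isLeg_of_bas (w := w) h
  | .con w _ _, h => isLeg_of_bas (w := w) h

end

variable {A : Finset (ℤ × ℤ)} {xl xr y1 y2 k p y0 : ℤ} {ψ : (ℤ × ℤ) × ZMod 4 → ℤ}
  {w : Wd (ℤ × ℤ)}

lemma GW.gs (h : GW (Dp A xl xr y1 y2 k) (beD (Dp A xl xr y1 y2 k) p y0 (xr + k)) w)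
    (x y : Port (ℤ × ℤ)) : Gs w x y ↔ GD A xl xr y1 y2 k p y0 x y := by
  rw [be_iff h.word.1, h.word.2.2.2 x]
  rfl

lemma GW.memL (h : GW (Dp A xl xr y1 y2 k) (beD (Dp A xl xr y1 y2 k) p y0 (xr + k)) w)
    {t : ℤ × ℤ} {d : ZMod 4} : some (t, d) ∈ L w ↔
      t ∈ Dp A xl xr y1 y2 k ∧ ∀ q, ¬ GD A xl xr y1 y2 k p y0 (some (t, d)) q := by
  rw [mem_L h.word.1, h.word.2.2.1]
  refine and_congr_right fun _ => ?_
  constructor
  · intro h1 q hq
    exact h1 ⟨q, (GW.gs h _ _).2 hq⟩
  · rintro h1 ⟨q, hq⟩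
    exact h1 q ((GW.gs h _ _).1 hq)

lemma none_notin_L {T : Type*} [DecidableEq T] : ∀ {w : Wd T}, Ok w → isLeg w → w ≠ .leg →
    (none : Port T) ∉ L w
  | .leg, _, _, h => absurd rfl h
  | .tile t, _, h, _ => h.elim
  | .att w q t d, hok, hleg, _ => by
    obtain ⟨hw, hp, ht, hnone⟩ := hok
    rw [mem_L_att]
    rintro (⟨-, h⟩ | ⟨h1, h2⟩)
    · simp at h
    · by_cases hwl : w = .leg
      · subst hwl
        have : q = none := by simpa [L] using hp
        exact h2 this.symm
      · exact none_notin_L hw hleg hwl h1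
  | .con w q r, hok, hleg, _ => by
    obtain ⟨hw, hpn, hqn, hpq, hadj⟩ := hok
    obtain ⟨hp, hq⟩ := adj_mem hadj
    rw [mem_L_con]
    rintro ⟨h1, -⟩
    by_cases hwl : w = .leg
    · subst hwl
      exact hpn (by simpa [L] using hp)
    · exact none_notin_L hw hleg hwl h1

/-- the zigzag splitting -/
def zz (p y0 : ℤ) (t : ℤ × ℤ) : Bool :=
  if t.2 = y0 then decide ((t.1 - p) % 2 = 0) else decide ((t.1 - p) % 2 = 1)

lemma zz_a {p y0 x : ℤ} (h : (x - p) % 2 = 0) : zz p y0 (x, y0) = true := by simp [zz, h]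
lemma zz_b {p y0 x : ℤ} (h : (x - p) % 2 = 1) : zz p y0 (x, y0) = false := by simp [zz, h]
lemma zz_c {p y0 x : ℤ} (h : (x - p) % 2 = 0) : zz p y0 (x, y0 - 1) = false := by simp [zz, h]
lemma zz_d {p y0 x : ℤ} (h : (x - p) % 2 = 1) : zz p y0 (x, y0 - 1) = true := by simp [zz, h]

/-- the zigzag strand -/
lemma zwalk (H : TabH A xl xr y1 y2 k p y0 ψ)
    (hw : GW (Dp A xl xr y1 y2 k) (beD (Dp A xl xr y1 y2 k) p y0 (xr + k)) w) :
    ∀ n : ℕ, p + n ≤ xr + k → ∃ l, (∀ r ∈ l, p ≤ r.1.1) ∧
      (((n : ℤ) % 2 = 0 ∧ Wk (zz p y0) (Gw w) ((p, y0), 3) ((p + n, y0), 2) l ∧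
        tt (zz p y0) l = 1) ∨
       ((n : ℤ) % 2 = 1 ∧ Wk (zz p y0) (Gw w) ((p, y0), 3) ((p + n, y0 - 1), 1) l ∧
        tt (zz p y0) l = 0))
  | 0, h => by
    refine ⟨[((p, y0), 3)], by simp, Or.inl ⟨by simp, ?_, ?_⟩⟩
    · have h1 := Wk.one (s := zz p y0) (G := Gw w) (x := ((p, y0), 3))
      have e : Pt266.pass (zz p y0) ((p, y0), 3) = ((p + ((0 : ℕ) : ℤ), y0), 2) := by
        simp only [Pt266.pass, zz_a (p := p) (y0 := y0) (x := p) (by simp), Nat.cast_zero, add_zero]
        rfl
      rwa [e] at h1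
    · simp only [tt_cons, tt_nil, zz_a (p := p) (y0 := y0) (x := p) (by simp)]
      decide
  | n + 1, h => by
    have hk := H.hk
    have h1 := H.hy1
    have h2 := H.hy2
    have h3 := H.hp1
    have h4 := H.hp2
    have h0 : ((n + 1 : ℕ) : ℤ) = (n : ℤ) + 1 := by push_cast; rfl
    obtain ⟨l, hl, hcase⟩ := zwalk H hw n (by omega)
    have dm : ∀ u v, p ≤ u → u ≤ xr + k → (v = y0 ∨ v = y0 - 1) → (u, v) ∈ Dp A xl xr y1 y2 k :=
      fun u v g1 g2 g3 => H.band (by omega) (by omega) (by omega) (by omega)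
    have gg : ∀ {a b : (ℤ × ℤ) × ZMod 4}, a.1 ∈ Dp A xl xr y1 y2 k →
        b.1 ∈ Dp A xl xr y1 y2 k → nbD p y0 (xr + k) (some a) = some b → Gw w a b := by
      intro a b ha hb hab
      exact (GW.gs hw _ _).2 (GD_of (portOf_some.2 ha) hab (portOf_some.2 hb))
    rcases hcase with ⟨he, hW, ht⟩ | ⟨he, hW, ht⟩
    · -- even to odd
      have ez : ((p + (n : ℤ) + 1) - p) % 2 = 1 := by omega
      have ez' : ((p + (n : ℤ)) - p) % 2 = 0 := by omega
      have s1 : Gw w ((p + n, y0), 2) ((p + n + 1, y0), 0) :=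
        gg (dm _ _ (by omega) (by omega) (by omega)) (dm _ _ (by omega) (by omega) (by omega)) nbD_E
      have w1 := hW.snoc s1
      have p1 : Pt266.pass (zz p y0) ((p + n + 1, y0), 0) = ((p + n + 1, y0), 3) := by
        simp only [Pt266.pass, zz_b ez]; rfl
      rw [p1] at w1
      have s2 : Gw w ((p + n + 1, y0), 3) ((p + n, y0 - 1), 1) := by
        refine gg (dm _ _ (by omega) (by omega) (by omega)) (dm _ _ (by omega) (by omega) (by omega)) ?_
        rw [nbD_S1 (by omega), add_sub_cancel_right]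
      have w2 := w1.snoc s2
      have p2 : Pt266.pass (zz p y0) ((p + n, y0 - 1), 1) = ((p + n, y0 - 1), 2) := by
        simp only [Pt266.pass, zz_c ez']; rfl
      rw [p2] at w2
      have s3 : Gw w ((p + n, y0 - 1), 2) ((p + n + 1, y0 - 1), 0) :=
        gg (dm _ _ (by omega) (by omega) (by omega)) (dm _ _ (by omega) (by omega) (by omega)) nbD_E
      have w3 := w2.snoc s3
      have p3 : Pt266.pass (zz p y0) ((p + n + 1, y0 - 1), 0) = ((p + n + 1, y0 - 1), 1) := by
        simp only [Pt266.pass, zz_d ez]; rfl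
      rw [p3] at w3
      refine ⟨l ++ [((p + n + 1, y0), 0)] ++ [((p + n, y0 - 1), 1)] ++ [((p + n + 1, y0 - 1), 0)],
        ?_, Or.inr ⟨by omega, ?_, ?_⟩⟩
      · intro r hr
        simp only [List.append_assoc, List.cons_append, List.nil_append, List.mem_append,
          List.mem_cons, List.not_mem_nil, or_false] at hr
        rcases hr with hr | rfl | rfl | rfl
        · exact hl r hr
        · simp only; omega
        · simp only; omega
        · simp only; omega
      · have e : (p + ((n + 1 : ℕ) : ℤ)) = p + n + 1 := by push_cast; ring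
        rw [e]
        exact w3
      · rw [tt_append, tt_append, tt_append, ht]
        simp only [tt_cons, tt_nil, zz_b ez, zz_c ez', zz_d ez]
        decide
    · -- odd to even
      have ez : ((p + (n : ℤ) + 1) - p) % 2 = 0 := by omega
      have s1 : Gw w ((p + n, y0 - 1), 1) ((p + n + 1, y0), 3) :=
        gg (dm _ _ (by omega) (by omega) (by omega)) (dm _ _ (by omega) (by omega) (by omega))
          (nbD_N1 (by omega))
      have w1 := hW.snoc s1
      have p1 : Pt266.pass (zz p y0) ((p + n + 1, y0), 3) = ((p + n + 1, y0), 2) := by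
        simp only [Pt266.pass, zz_a ez]; rfl
      rw [p1] at w1
      refine ⟨l ++ [((p + n + 1, y0), 3)], ?_, Or.inl ⟨by omega, ?_, ?_⟩⟩
      · intro r hr
        simp only [List.mem_append, List.mem_cons, List.not_mem_nil, or_false] at hr
        rcases hr with hr | rfl
        · exact hl r hr
        · simp only; omega
      · have e : (p + ((n + 1 : ℕ) : ℤ)) = p + n + 1 := by push_cast; ring
        rw [e]
        exact w1
      · rw [tt_append, ht]
        simp only [tt_cons, tt_nil, zz_a ez]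
        decide

lemma sgD_east (hp : xl < p) {x y : ℤ} {d : ZMod 4} (h : p ≤ x) :
    sgD xl p y0 y2 (some ((x, y), d)) = 0 := by
  rcases Env664.z4 d with rfl | rfl | rfl | rfl
  · rw [sgD_W, if_neg (by omega)]
  · rw [sgD_N, if_neg (by omega)]
  · rw [sgD_E, if_neg (by omega)]
  · rw [sgD_S, if_neg (by omega)]

lemma TabH.flw (H : TabH A xl xr y1 y2 k p y0 ψ)
    (hw : GW (Dp A xl xr y1 y2 k) (beD (Dp A xl xr y1 y2 k) p y0 (xr + k)) w) :
    An (sgD xl p y0 y2) w ∧ FlW (sgD xl p y0 y2) w ∧
      Cy (NS (sgD xl p y0 y2) (Gs w)) ((L w).map fun x => (x, psi (sgD xl p y0 y2) w x)) := by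
  have hk := H.hk
  have h1 := H.hy1
  have h2 := H.hy2
  have h3 := H.hp1
  have h4 := H.hp2
  have hle := H.hf.le
  have o1 : (xr + k + 1, y0) ∉ Dp A xl xr y1 y2 k :=
    H.out (H.nr (by omega) (by omega) (by omega) (by omega)) (by omega)
  have o2 : (xr + k + 1, y0 - 1) ∉ Dp A xl xr y1 y2 k :=
    H.out (H.nr (by omega) (by omega) (by omega) (by omega)) (by omega)
  have o3 : (xl - 1, y2) ∉ Dp A xl xr y1 y2 k :=
    H.out (H.nl (by omega) (by omega) (by omega) (by omega)) (by omega)
  have hLG : ∀ a b, Gs w a b → beD (Dp A xl xr y1 y2 k) p y0 (xr + k) a = b ∧ a ≠ b :=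
    fun a b h => (GW.gs hw a b).1 h
  have hAn : An (sgD xl p y0 y2) w := by
    intro x y hxy
    obtain ⟨e1, e2⟩ := hLG x y (Or.inl hxy)
    exact sgD_anti (by omega) o1 e1 e2
  have := flw_word (sgD xl p y0 y2) _ (vr_D (A := Dp A xl xr y1 y2 k) h3 h2 (by omega) o1 o2 o3)
    hw.word.1 (isLeg_of_bas hw.leg) hAn hLG
  exact ⟨hAn, this.1, this.2⟩

/-- **the lifted directions of the region with stubs** -/
theorem psi_tab (H : TabH A xl xr y1 y2 k p y0 ψ)
    (hw : GW (Dp A xl xr y1 y2 k) (beD (Dp A xl xr y1 y2 k) p y0 (xr + k)) w) :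
    ∀ x ∈ L w, psi (sgD xl p y0 y2) w x = psT ψ A xr x := by
  have hk := H.hk
  have h1 := H.hy1
  have h2 := H.hy2
  have h3 := H.hp1
  have h4 := H.hp2
  have hle := H.hf.le
  have hok := hw.word.1
  have hleg := isLeg_of_bas hw.leg
  obtain ⟨hAn, hF, hcc⟩ := H.flw hw
  have hpD : (p, y0) ∈ Dp A xl xr y1 y2 k := H.band (by omega) (by omega) (by omega) (by omega)
  have hwl : w ≠ .leg := by
    rintro rfl
    have := (hw.word.2.2.1 (p, y0)).2 hpD
    simp [tls] at this
  have hnone := none_notin_L hok hleg hwl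
  -- the difference is constant
  have hconst : ∀ x ∈ L w, ∀ y ∈ L w, psi (sgD xl p y0 y2) w x - psT ψ A xr x =
      psi (sgD xl p y0 y2) w y - psT ψ A xr y := by
    have key : Cy (fun x y : Port (ℤ × ℤ) => x ∈ L w ∧ NxS (sgD xl p y0 y2) (Gs w) x y
        (psi (sgD xl p y0 y2) w y - psi (sgD xl p y0 y2) w x)) (L w) := by
      have hall : ∀ l : List (Port (ℤ × ℤ)), (∀ x ∈ l, x ∈ L w) →
          Cy (NS (sgD xl p y0 y2) (Gs w)) (l.map fun x => (x, psi (sgD xl p y0 y2) w x)) →
          Cy (fun x y : Port (ℤ × ℤ) => x ∈ L w ∧ NxS (sgD xl p y0 y2) (Gs w) x y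
            (psi (sgD xl p y0 y2) w y - psi (sgD xl p y0 y2) w x)) l := by
        intro l hl hc
        cases l with
        | nil => trivial
        | cons a m =>
          have hc' : List.IsChain (NS (sgD xl p y0 y2) (Gs w))
              ((a :: (m ++ [a])).map fun x => (x, psi (sgD xl p y0 y2) w x)) := by
            have : List.IsChain (NS (sgD xl p y0 y2) (Gs w)) ((a, psi (sgD xl p y0 y2) w a) ::
              ((m.map fun x => (x, psi (sgD xl p y0 y2) w x)) ++
                [(a, psi (sgD xl p y0 y2) w a)])) := hc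
            simpa using this
          rw [List.isChain_map] at hc'
          show List.IsChain _ (a :: (m ++ [a]))
          have hmem : ∀ x ∈ a :: (m ++ [a]), x ∈ L w := by
            intro x hx
            simp only [List.mem_cons, List.mem_append, List.not_mem_nil, or_false] at hx
            rcases hx with rfl | hx | rfl
            · exact hl _ (by simp)
            · exact hl _ (by simp [hx])
            · exact hl _ (by simp)
          clear hc hl
          generalize a :: (m ++ [a]) = L0 at hc' hmem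
          induction L0 with
          | nil => exact List.isChain_nil
          | cons u L0 ih =>
            cases L0 with
            | nil => simp
            | cons v L0 =>
              rw [List.isChain_cons_cons] at hc' ⊢
              exact ⟨⟨hmem u (by simp), hc'.1⟩, ih hc'.2 fun x hx => hmem x (by simp [hx])⟩
      exact hall (L w) (fun x hx => hx) hcc
    intro x hx y hy
    refine Cy.const (f := fun x => psi (sgD xl p y0 y2) w x - psT ψ A xr x) ?_ key x hx y hy
    rintro a b ⟨ha, hab⟩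
    rcases a with _ | ⟨t, d⟩
    · exact absurd ha hnone
    · obtain ⟨htD, hfr⟩ := (GW.memL hw).1 ha
      have hG : Gs w = GD A xl xr y1 y2 k p y0 := by
        funext u v; exact propext (GW.gs hw u v)
      rw [hG] at hab
      have := loc_D H rfl htD hfr hab
      linarith
  -- one value
  obtain ⟨n, hn⟩ : ∃ n : ℕ, (n : ℤ) = xr + k - p := ⟨(xr + k - p).toNat, by omega⟩
  obtain ⟨l, hl, hcase⟩ := zwalk H hw n (by omega)
  have hsym := (glu_Gw hok).sym
  have hval : ∀ (e0 : (ℤ × ℤ) × ZMod 4) (c : ℤ), p ≤ e0.1.1 → some e0 ∈ L w →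
      Wk (zz p y0) (Gw w) ((p, y0), 3) e0 l → tt (zz p y0) l = c →
      psi (sgD xl p y0 y2) w (some e0) = 1 + c := by
    intro e0 c he0 heL hW htt
    have hlegp : Gs w (some ((p, y0), 3)) none := by
      refine (GW.gs hw _ _).2 (GD_of (portOf_some.2 hpD) (nbD_Sleg ⟨rfl, rfl⟩) (portOf_none _))
    have fleg : Fr (Gw w) ((p, y0), 3) := fr_leg hok hlegp
    have hWr := hW.reverse hsym
    have hu : u (zz p y0) w = some e0 := by
      by_contra hne
      have hM : M (zz p y0) w (some e0) ≠ some e0 := fun h =>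
        hne ((Ok.inv (zz p y0) w hok).fix _ heL h).symm
      obtain ⟨a, b, l', ha, hb, hw', -⟩ := walkS (zz p y0) (sgD xl p y0 y2) hok hAn hF heL hM
      obtain rfl := Option.some.inj ha
      have hbL : some b ∈ L w := by
        rw [← hb]; exact (Ok.inv (zz p y0) w hok).mem _ heL
      have fb : Fr (Gw w) b := fr_of_mem hok hbL
      obtain ⟨e1, -⟩ := hw'.det (glu_Gw hok).fn fb hWr fleg
      subst e1
      exact not_glued hok hbL hlegp
    obtain ⟨a, b, l', ha, hb, hw', hval⟩ := legS (zz p y0) (sgD xl p y0 y2) hok hleg hwl hAn hF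
    rw [hu] at ha
    obtain rfl := Option.some.inj ha
    have hbp : b = ((p, y0), 3) := by
      have h5 := (be_iff hok _ _).1 (gs_symm hb)
      have h6 := (be_iff hok _ _).1 (gs_symm hlegp)
      exact Option.some.inj (h5.1.symm.trans h6.1)
    subst hbp
    obtain ⟨-, e2⟩ := hw'.det (glu_Gw hok).fn fleg hWr fleg
    subst e2
    have hsm : sm (sgD xl p y0 y2) (rv (zz p y0) l) = 0 := by
      unfold sm
      have : ∀ r ∈ (rv (zz p y0) l).tail, - sgD xl p y0 y2 (some r) = 0 := by
        intro r hr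
        have h5 : r ∈ rv (zz p y0) l := List.mem_of_mem_tail hr
        rw [rv, List.mem_reverse, List.mem_map] at h5
        obtain ⟨r', hr', rfl⟩ := h5
        have h6 := hl r' hr'
        obtain ⟨⟨x', y'⟩, d'⟩ := r'
        rw [show Pt266.pass (zz p y0) ((x', y'), d') = ((x', y'), thru (zz p y0 (x', y')) d') from rfl,
          sgD_east h3 h6, neg_zero]
      rw [List.map_congr_left (g := fun _ => (0 : ℤ)) this]
      simp
    have htau := (Ok.tau (zz p y0) w hok).leg hleg
    rw [tt_rv, hsm, htt, sgD_east h3 (le_refl p), hu] at hval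
    rw [hu] at htau
    unfold de at hval
    linarith
  obtain ⟨e0, heL, heq⟩ : ∃ e0, e0 ∈ L w ∧ psi (sgD xl p y0 y2) w e0 = psT ψ A xr e0 := by
    have o1 : (xr + k + 1, y0) ∉ Dp A xl xr y1 y2 k :=
      H.out (H.nr (by omega) (by omega) (by omega) (by omega)) (by omega)
    have en : p + (n : ℤ) = xr + k := by omega
    rw [en] at hcase
    rcases hcase with ⟨-, hW, ht⟩ | ⟨-, hW, ht⟩
    · have heL : some ((xr + k, y0), (2 : ZMod 4)) ∈ L w := by
        rw [GW.memL hw]
        refine ⟨H.band (by omega) (by omega) (by omega) (by omega), GD_not ?_⟩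
        rw [nbD_E]
        exact pD' o1
      refine ⟨_, heL, ?_⟩
      rw [hval _ 1 (by simp only; omega) heL hW ht,
        psT_E (H.nr (by omega) (by omega) (by omega) (by omega))]
      norm_num
    · have heL : some ((xr + k, y0 - 1), (1 : ZMod 4)) ∈ L w := by
        rw [GW.memL hw]
        refine ⟨H.band (by omega) (by omega) (by omega) (by omega), GD_not ?_⟩
        rw [nbD_N1 (by omega)]
        exact pD' o1
      refine ⟨_, heL, ?_⟩
      rw [hval _ 0 (by simp only; omega) heL hW ht,
        psT_N (H.nr (by omega) (by omega) (by omega) (by omega)), if_pos (by omega)]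
      norm_num
  intro x hx
  have := hconst x hx e0 heL
  linarith

/-! ### the table hypotheses for 664's `psi` -/

open Crest.Agent.R158.Env664 (Run Mac D) in
/-- 664's `psi (full A) xl y1` satisfies the hypotheses of the table; the run is maximal in the rows
`Y1 ≤ y < Y2` with `Y1 < y1`, `y2 + 1 < Y2` -/
theorem tabH_psi {A : Finset (ℤ × ℤ)} (hsc : (full A).SC) (hc : (full A).Conn)
    {xl xr y1 y2 k p y0 Y1 Y2 : ℤ} (hr : ∀ y, Y1 ≤ y → y < Y2 → Run A xl xr y)
    (h1 : Y1 < y1) (h2 : y2 < Y2) (hf : Free A xl xr y1 y2 k) (hk : 0 < k)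
    (hy1 : y1 < y0) (hy2 : y0 < y2) (hp1 : xl < p) (hp2 : p ≤ xr) :
    TabH A xl xr y1 y2 k p y0 (Psi664.psi (full A) xl y1) := by
  have hle := hf.le
  obtain ⟨w, l, hw, hb, hB⟩ := Xr249.exists_BW hsc hc
    ((hr y1 (by omega) (by omega)).mem _ (le_refl _) hle) (hr y1 (by omega) (by omega)).left
  refine ⟨hf, hk, hy1, hy2, hp1, hp2, ?_, ?_, ?_, ?_, ?_, ?_, ?_, ?_, ?_, ?_⟩
  · intro x y g1 g2 g3 g4
    exact (hr y (by omega) (by omega)).mem x g1 g2
  · exact (hr (y1 - 1) (by omega) (by omega)).mem _ (le_refl _) hle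
  · exact (hr (y1 - 1) (by omega) (by omega)).mem _ hle (le_refl _)
  · exact (hr y2 (by omega) (by omega)).mem _ (le_refl _) hle
  · exact (hr y2 (by omega) (by omega)).mem _ hle (le_refl _)
  · rw [(Xr249.psi_left hsc hc hr (t0 := y1) (by omega) (by omega) (y := y1 - 1) (by omega)
      (by omega)).1, if_neg (by omega)]
  · exact (Xr249.psi_right hsc hc hr (t0 := y1) (by omega) (by omega) (y := y1 - 1) (by omega)
      (by omega)).1
  · rw [(Xr249.psi_left hsc hc hr (t0 := y1) (by omega) (by omega) (y := y2) (by omega)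
      (by omega)).1, if_pos (by omega)]
  · exact (Xr249.psi_right hsc hc hr (t0 := y1) (by omega) (by omega) (y := y2) (by omega)
      (by omega)).1
  · intro x y κ hx hy hxy hne
    exact Psi664.psi_next hB hx hy hxy hne

open Crest.Agent.R158.Env664 (Run Mac D) in
/-- the same for a macroscopic polyomino -/
theorem tabH_mac (M : Mac) {L a b c : ℤ} (hr : Run M.F a b c) {y1 y2 k p y0 : ℤ}
    (h1 : c * L < y1) (h2 : y2 < c * L + L) (hk : 0 < k) (hkL : k < L)
    (hy1 : y1 < y0) (hy2 : y0 < y2) (hp1 : a * L < p) (hp2 : p ≤ b * L + L - 1) :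
    TabH (D M.F L) (a * L) (b * L + L - 1) y1 y2 k p y0
      (Psi664.psi (full (D M.F L)) (a * L) y1) := by
  have hL : 0 < L := by omega
  exact tabH_psi (Xr249.D_SC M hL) (Xr249.D_Conn M hL)
    (fun y g1 g2 => hr.scale hL g1 g2) h1 h2 (Xr249.free_mac M hr h1 h2 hk.le hkL) hk hy1 hy2 hp1 hp2

end Crest.Agent.R158.Qc405
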