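import Crest.Agent.R158.Qd2_300

/-!
# R158, the artificial ends of `Dp` (helper300)

* `art_iff_nb` : `Art x` iff the neighbour in `D^(z)` is outside `Dp` and the neighbour in `G^(z)` is a port
* **`art_geo`** : the artificial ends are the `E` sides of the column `xr + k`, the `N` side of
  `(xr + k, y0 - 1)` and the `W` sides of the column `xl - k`
* `C0_east`, `C0_step`, `C0_west`, `C0_nat` : values of the charges
-/

set_option autoImplicit false
set_option linter.unusedVariables false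
set_option linter.unusedSectionVars false

noncomputable section

open Finset

namespace Crest.Agent.R158.Qd300

open Crest.Agent.R158.Sw300 (Port Wd tls L isLeg)
open Crest.Agent.R158.Env664 (TG Band nbD beD res res_of PortOf portOf_some portOf_none z4 nbD_leg
  nbD_W nbD_E nbD_N1 nbD_N nbD_Sleg nbD_S1 nbD_S IsWord)
open Crest.Agent.R158.Xr249 (Dp mem_Dp Free pm pm_some pm_none eD eD_A eD_r eD_l Dp_cases eD_glue
  pm_inj pm_portOf wd_cases gb bas Nice nice_all)
open Crest.Agent.R158.Ad350 (Net ports tnet tnet_ok mem_ports mem_ports' none_ports netN netN_ok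
  legP_mem)
open Crest.Agent.R158.Ao857 (legP seamG chG)
open Crest.Agent.R158.Fm857 (ps psD cb cp clow ctw phi isLS freeG mem_freeG mem_flr mem_cil)

variable {A : Finset (ℤ × ℤ)} {B : Band A} {p y0 k : ℤ}

section geo

variable (hf : Free A B.xl B.xr B.y1 B.y2 k) (hR : 2 * k < B.R) (hz : B.At p y0)

include hf hR hz in
/-- artificial ends in terms of the neighbours -/
theorem art_iff_nb {x : Port (ℤ × ℤ)} (hx : x ∈ ports (DB B k)) : Art B p y0 k x ↔
    ¬ PortOf (DB B k) (nbD p y0 (B.xr + k) x) ∧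
      PortOf (B.tG y0) (B.nbG p y0 (pm (eD B y0 k) x)) := by
  have hG : PortOf (B.tG y0) (pm (eD B y0 k) x) := pm_portOf hf hR (portOf_of hx)
  by_cases h1 : x = lp p y0
  · subst h1
    refine iff_of_false (not_art_lp hf hz) ?_
    rintro ⟨h2, -⟩
    apply h2
    rw [show nbD p y0 (B.xr + k) (lp p y0) = none from nbD_Sleg ⟨rfl, rfl⟩]
    exact portOf_none _
  unfold Art
  rw [Ao857.beL_ne B (pm_ne_leg hf hR hz hx h1)]
  unfold Band.beG res
  rcases nice_all hf hR hz (portOf_of hx) with ⟨h2, h3⟩ | ⟨h2, h3⟩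
  · refine iff_of_false ?_ fun h => h.1 h2
    rw [not_not]
    split_ifs with h4
    · rw [← h3]
      refine pm_mem_imP (ports_of h2 fun h5 => h1 (nbD_none h5))
    · exact pm_mem_imP hx
  · split_ifs with h4
    · refine iff_of_true ?_ ⟨h2, h4.2⟩
      intro h5
      obtain ⟨b, hb, e⟩ := mem_image.1 h5
      exact h3 b (portOf_of hb) e
    · refine iff_of_false ?_ fun h => h4 ⟨hG, h.2⟩
      rw [not_not]
      exact pm_mem_imP hx

lemma mem_DB {x y : ℤ} : (x, y) ∈ DB B k ↔
    (x, y) ∈ A ∨ ((B.xr + 1 ≤ x ∧ x < B.xr + k + 1) ∧ B.y1 ≤ y ∧ y < B.y2) ∨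
      ((B.xl - k ≤ x ∧ x < B.xl) ∧ B.y1 ≤ y ∧ y < B.y2) := mem_Dp

include hf in
lemma not_right {x y : ℤ} (h1 : B.xr < x) (h2 : x ≤ B.xr + k + 1) (h3 : B.y1 - 1 ≤ y)
    (h4 : y ≤ B.y2) (h5 : ¬ (x < B.xr + k + 1 ∧ B.y1 ≤ y ∧ y < B.y2)) : (x, y) ∉ DB B k := by
  have := hf.le
  have := hf.k0
  rw [mem_DB]
  rintro (h | h | h)
  · exact hf.right x y h1 h2 h3 h4 h
  · omega
  · omega

include hf in
lemma not_left {x y : ℤ} (h1 : x < B.xl) (h2 : B.xl - k - 1 ≤ x) (h3 : B.y1 - 1 ≤ y)
    (h4 : y ≤ B.y2) (h5 : ¬ (B.xl - k ≤ x ∧ B.y1 ≤ y ∧ y < B.y2)) : (x, y) ∉ DB B k := by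
  have := hf.le
  have := hf.k0
  rw [mem_DB]
  rintro (h | h | h)
  · exact hf.left x y h1 h2 h3 h4 h
  · omega
  · omega

include hf hR hz in
/-- **the artificial ends** -/
theorem art_geo (hk : 0 < k) {x y : ℤ} {d : ZMod 4} (ht : (x, y) ∈ DB B k) :
    Art B p y0 k (some ((x, y), d)) ↔
      (d = 2 ∧ x = B.xr + k ∧ B.y1 ≤ y ∧ y < B.y2) ∨ (d = 1 ∧ x = B.xr + k ∧ y = y0 - 1) ∨
        (d = 0 ∧ x = B.xl - k ∧ B.y1 ≤ y ∧ y < B.y2) := by
  have hle := hf.le
  have hw := wd_cases B y0 y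
  have hw0 := wd_cases B y0 y0
  have hz' := hz
  obtain ⟨z1, z2, z3, z4'⟩ := hz'
  have run : ∀ u v : ℤ, B.xl ≤ u → u ≤ B.xr → B.y1 ≤ v → v < B.y2 → (u, v) ∈ A :=
    fun u v h1 h2 h3 h4 => (B.run v h3 h4).mem u h1 h2
  rw [art_iff_nb hf hR hz (mem_ports.2 ht)]
  have hA : ∀ {u v : ℤ} {d' : ZMod 4} {e : ZMod 4}, nbD p y0 (B.xr + k) (some ((x, y), d)) =
      some ((u, v), d') → B.nbG p y0 (pm (eD B y0 k) (some ((x, y), d))) =
      some (Sum.inl (u, v), e) → ¬ (¬ PortOf (DB B k) (nbD p y0 (B.xr + k) (some ((x, y), d))) ∧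
      PortOf (B.tG y0) (B.nbG p y0 (pm (eD B y0 k) (some ((x, y), d))))) := by
    intro u v d' e h1 h2
    rw [h1, h2]
    rintro ⟨h3, h4⟩
    exact h3 (portOf_some.2 (mem_DB.2 (Or.inl (B.inl_mem.1 (portOf_some.1 h4)))))
  have hD : ∀ {u v : ℤ} {d' : ZMod 4}, nbD p y0 (B.xr + k) (some ((x, y), d)) =
      some ((u, v), d') → (u, v) ∈ DB B k →
      ¬ (¬ PortOf (DB B k) (nbD p y0 (B.xr + k) (some ((x, y), d))) ∧
      PortOf (B.tG y0) (B.nbG p y0 (pm (eD B y0 k) (some ((x, y), d))))) := by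
    intro u v d' h1 h2 h3
    rw [h1] at h3
    exact h3.1 (portOf_some.2 h2)
  rcases z4 d with rfl | rfl | rfl | rfl
  · -- `W`
    have n1 : (0 : ZMod 4) ≠ 2 := by decide
    have n2 : (0 : ZMod 4) ≠ 1 := by decide
    simp only [n1, n2, false_and, true_and, false_or]
    rcases Dp_cases hf ht with ⟨g1, g2, g3⟩ | ⟨g1, g2⟩ | ⟨g1, g2⟩
    · have hnr : ¬ (x = B.xl - k ∧ B.y1 ≤ y ∧ y < B.y2) := by
        rintro ⟨h1, h2, h3⟩
        exact hf.left x y (by omega) (by omega) (by omega) (by omega) g1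
      by_cases hc : x = B.xl ∧ B.y1 ≤ y ∧ y < B.y2
      · exact iff_of_false (hD nbD_W (mem_DB.2 (by omega))) hnr
      · refine iff_of_false (hA (e := 2) nbD_W ?_) hnr
        rw [pm_some, eD_A hf g1]
        exact B.nbG_W hc
    · refine iff_of_false (hD nbD_W ?_) (by omega)
      by_cases hc : x = B.xr + 1
      · exact mem_DB.2 (Or.inl (run _ _ (by omega) (by omega) g2.1.1 g2.1.2))
      · exact mem_DB.2 (Or.inr (Or.inl (by omega)))
    · by_cases hc : x = B.xl - k
      · refine iff_of_true ⟨?_, ?_⟩ ⟨hc, g2.1⟩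
        · rw [nbD_W, portOf_some]
          exact not_left hf (by omega) (by omega) (by omega) (by omega) (by omega)
        · rw [pm_some, eD_l hle g2, B.nbG_rW (by omega), portOf_some, B.inr_mem]
          omega
      · refine iff_of_false (hD nbD_W ?_) (by omega)
        exact mem_DB.2 (Or.inr (Or.inr (by omega)))
  · -- `N`
    have n1 : (1 : ZMod 4) ≠ 2 := by decide
    have n2 : (1 : ZMod 4) ≠ 0 := by decide
    simp only [n1, n2, false_and, true_and, false_or, or_false]
    rcases Dp_cases hf ht with ⟨g1, g2, g3⟩ | ⟨g1, g2⟩ | ⟨g1, g2⟩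
    · have hnr : ¬ (x = B.xr + k ∧ y = y0 - 1) := by
        rintro ⟨h1, h2⟩
        exact hf.right x y (by omega) (by omega) (by omega) (by omega) g1
      by_cases hc : y = y0 - 1 ∧ p ≤ x ∧ x ≤ B.xr + k
      · have hx : x ≤ B.xr := by
          by_contra h
          exact hf.right x y (by omega) (by omega) (by omega) (by omega) g1
        refine iff_of_false (hD (nbD_N1 hc) ?_) hnr
        by_cases h : x = B.xr
        · exact mem_DB.2 (Or.inr (Or.inl (by omega)))
        · exact mem_DB.2 (Or.inl (run _ _ (by omega) (by omega) (by omega) (by omega)))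
      · refine iff_of_false (hA (e := 3) (nbD_N hc) ?_) hnr
        rw [pm_some, eD_A hf g1]
        exact B.nbG_N (by omega)
    · by_cases hc : y = y0 - 1
      · have hn : nbD p y0 (B.xr + k) (some ((x, y), 1)) = some ((x + 1, y0), 3) :=
          nbD_N1 ⟨hc, by omega, by omega⟩
        by_cases h : x = B.xr + k
        · refine iff_of_true ⟨?_, ?_⟩ ⟨h, hc⟩
          · rw [hn, portOf_some]
            exact not_right hf (by omega) (by omega) (by omega) (by omega) (by omega)
          · rw [pm_some, eD_r g2, B.nbG_rN1 hc, portOf_some, B.inr_mem]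
            omega
        · exact iff_of_false (hD hn (mem_DB.2 (Or.inr (Or.inl (by omega))))) (by omega)
      · have hn : nbD p y0 (B.xr + k) (some ((x, y), 1)) = some ((x, y + 1), 3) :=
          nbD_N (by omega)
        by_cases h : y + 1 < B.y2
        · exact iff_of_false (hD hn (mem_DB.2 (Or.inr (Or.inl (by omega))))) (by omega)
        · refine iff_of_false ?_ (by omega)
          rintro ⟨-, h2⟩
          rw [pm_some, eD_r g2, B.nbG_rN hc, portOf_some, B.inr_mem] at h2
          omega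
    · have hn : nbD p y0 (B.xr + k) (some ((x, y), 1)) = some ((x, y + 1), 3) :=
        nbD_N (by omega)
      by_cases h : y + 1 < B.y2
      · exact iff_of_false (hD hn (mem_DB.2 (Or.inr (Or.inr (by omega))))) (by omega)
      · refine iff_of_false ?_ (by omega)
        rintro ⟨-, h2⟩
        rw [pm_some, eD_l hle g2, B.nbG_rN (by omega), portOf_some, B.inr_mem] at h2
        omega
  · -- `E`
    have n1 : (2 : ZMod 4) ≠ 1 := by decide
    have n2 : (2 : ZMod 4) ≠ 0 := by decide
    simp only [n1, n2, false_and, true_and, or_false]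
    rcases Dp_cases hf ht with ⟨g1, g2, g3⟩ | ⟨g1, g2⟩ | ⟨g1, g2⟩
    · have hnr : ¬ (x = B.xr + k ∧ B.y1 ≤ y ∧ y < B.y2) := by
        rintro ⟨h1, h2, h3⟩
        exact hf.right x y (by omega) (by omega) (by omega) (by omega) g1
      by_cases hc : x = B.xr ∧ B.y1 ≤ y ∧ y < B.y2
      · exact iff_of_false (hD nbD_E (mem_DB.2 (by omega))) hnr
      · refine iff_of_false (hA (e := 0) nbD_E ?_) hnr
        rw [pm_some, eD_A hf g1]
        exact B.nbG_E hc
    · by_cases hc : x = B.xr + k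
      · refine iff_of_true ⟨?_, ?_⟩ ⟨hc, g2.1⟩
        · rw [nbD_E, portOf_some]
          exact not_right hf (by omega) (by omega) (by omega) (by omega) (by omega)
        · rw [pm_some, eD_r g2, B.nbG_rE (by omega), portOf_some, B.inr_mem]
          omega
      · refine iff_of_false (hD nbD_E ?_) (by omega)
        exact mem_DB.2 (Or.inr (Or.inl (by omega)))
    · refine iff_of_false (hD nbD_E ?_) (by omega)
      by_cases hc : x = B.xl - 1
      · exact mem_DB.2 (Or.inl (run _ _ (by omega) (by omega) g2.1.1 g2.1.2))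
      · exact mem_DB.2 (Or.inr (Or.inr (by omega)))
  · -- `S`
    have n1 : (3 : ZMod 4) ≠ 1 := by decide
    have n2 : (3 : ZMod 4) ≠ 0 := by decide
    have n3 : (3 : ZMod 4) ≠ 2 := by decide
    simp only [n1, n2, n3, false_and, or_false]
    rw [iff_false]
    rcases Dp_cases hf ht with ⟨g1, g2, g3⟩ | ⟨g1, g2⟩ | ⟨g1, g2⟩
    · by_cases hc : y = y0 ∧ x = p
      · rw [nbD_Sleg hc]
        exact fun h => h.1 (portOf_none _)
      by_cases hc2 : y = y0 ∧ p < x ∧ x ≤ B.xr + k
      · have hx : x ≤ B.xr := by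
          by_contra h
          exact hf.right x y (by omega) (by omega) (by omega) (by omega) g1
        exact hD (nbD_S1 hc2) (mem_DB.2 (Or.inl (run _ _ (by omega) (by omega) (by omega) (by omega))))
      · refine hA (e := 1) (nbD_S (by omega)) ?_
        rw [pm_some, eD_A hf g1]
        exact B.nbG_S (by omega)
    · by_cases hc : y = y0
      · have hn : nbD p y0 (B.xr + k) (some ((x, y), 3)) = some ((x - 1, y0 - 1), 1) :=
          nbD_S1 ⟨hc, by omega, by omega⟩
        refine hD hn ?_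
        by_cases h : x = B.xr + 1
        · exact mem_DB.2 (Or.inl (run _ _ (by omega) (by omega) (by omega) (by omega)))
        · exact mem_DB.2 (Or.inr (Or.inl (by omega)))
      · have hn : nbD p y0 (B.xr + k) (some ((x, y), 3)) = some ((x, y - 1), 1) :=
          nbD_S (by omega)
        by_cases h : B.y1 ≤ y - 1
        · exact hD hn (mem_DB.2 (Or.inr (Or.inl (by omega))))
        · rintro ⟨-, h2⟩
          rw [pm_some, eD_r g2, B.nbG_rS hc, portOf_some, B.inr_mem] at h2
          omega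
    · have hn : nbD p y0 (B.xr + k) (some ((x, y), 3)) = some ((x, y - 1), 1) :=
        nbD_S (by omega)
      by_cases h : B.y1 ≤ y - 1
      · exact hD hn (mem_DB.2 (Or.inr (Or.inr (by omega))))
      · rintro ⟨-, h2⟩
        rw [pm_some, eD_l hle g2, B.nbG_rS (by omega), portOf_some, B.inr_mem] at h2
        omega

/-! ### values of the charges -/

variable {b : ℤ} {m1 m2 : Port TG} {e : Option (Port TG)}

include hf hR hz in
lemma C0_east (hk : 0 < k) {y : ℤ} (h1 : B.y1 ≤ y) (h2 : y < B.y2) :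
    C0 B p y0 k b m1 m2 e (some ((B.xr + k, y), 2)) = 0 := by
  have ht : (B.xr + k, y) ∈ DB B k := mem_DB.2 (Or.inr (Or.inl (by omega)))
  have hA := (art_geo hf hR hz hk (d := 2) ht).2 (Or.inl ⟨rfl, rfl, h1, h2⟩)
  have := hf.le
  simp only [C0]
  rw [if_pos hA, if_neg]
  unfold inLS
  simp only
  omega

include hf hR hz in
lemma C0_step (hk : 0 < k) : C0 B p y0 k b m1 m2 e (some ((B.xr + k, y0 - 1), 1)) = 0 := by
  have := hz.hy1
  have := hz.hy2
  have ht : (B.xr + k, y0 - 1) ∈ DB B k := mem_DB.2 (Or.inr (Or.inl (by omega)))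
  have hA := (art_geo hf hR hz hk (d := 1) ht).2 (Or.inr (Or.inl ⟨rfl, rfl, rfl⟩))
  have := hf.le
  simp only [C0]
  rw [if_pos hA, if_neg]
  unfold inLS
  simp only
  omega

include hf hR hz in
lemma C0_west (hk : 0 < k) {y : ℤ} (h1 : B.y1 ≤ y) (h2 : y < B.y2) :
    C0 B p y0 k b m1 m2 e (some ((B.xl - k, y), 0)) = clow B b m1 m2 e := by
  have ht : (B.xl - k, y) ∈ DB B k := mem_DB.2 (Or.inr (Or.inr (by omega)))
  have hA := (art_geo hf hR hz hk (d := 0) ht).2 (Or.inr (Or.inr ⟨rfl, rfl, h1, h2⟩))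
  simp only [C0]
  rw [if_pos hA, if_pos]
  unfold inLS
  simp only
  omega

lemma C0_nat {a : (ℤ × ℤ) × ZMod 4} (h : ¬ Art B p y0 k (some a)) :
    C0 B p y0 k b m1 m2 e (some a) = cb B b m1 m2 e (pm (eD B y0 k) (some a)) := if_neg h

end geo

end Crest.Agent.R158.Qd300
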