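import Crest.Agent.R158.Al6_194
import Crest.Agent.R158.Pt4_266

/-!
# R158, Q1c, `V_{D+}` and the deep ends of the stubs (helper249), file Qe1: generic part

* `Cvx P` : convex set of indices
* **`Sm_zero_of_cvx`** : an end of a block without marks and without the leg, joined to an end of the
  same block, does not contribute
* `filter_cvx` : a convex set of indices is an interval
* **`norm_sum_cvx`** : the contribution of a block is at most `2`
* `GW.chain` : the boundary cycle read from any port
* **`cvx_of_exit`** : a set of free ends with a single exit is a block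
* `leg_walk` : the strand of the leg
-/

set_option autoImplicit false
set_option linter.unusedVariables false
set_option linter.unusedSectionVars false

noncomputable section

namespace Crest.Agent.R158.Qe249

open Crest.Agent.R158.Al194 Crest.Agent.R158.Vt300 Crest.Agent.R158.Sw300 Crest.Agent.R158.Ob664
open Finset
open Crest.Agent.R158.Pt266 (Gw Gs Wk Glu Fr adj_mem walk_word glu_Gw fr_of_mem Gw_mono_att
  Gw_mono_con addP_att addP_con)
open Crest.Agent.R158.Gc748 (gl bs)

section idx

variable {π : ℕ → ℕ} {N k : ℕ}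

/-- convex set of indices -/
def Cvx (P : ℕ → Prop) : Prop := ∀ i j l, i ≤ l → l ≤ j → P i → P j → P l

/-- an end of a block without marks and leg, joined to an end of the same block -/
theorem Sm_zero_of_cvx (h : NCK π N k) {x2 e : ℕ} {P : ℕ → Prop} (hP : Cvx P) (hk : ¬ P k)
    (hx : ¬ P x2) (h2 : x2 ≤ N) (he : e < N) (h1 : P e) (h3 : P (π e)) :
    Sm π N k 0 x2 e = 0 := by
  have hek : e ≠ k := fun h => hk (h ▸ h1)
  obtain ⟨j, hj, hsj, hje, hPj, hPj'⟩ :
      ∃ j, j < N ∧ st π k j ∧ (j = e ∨ π j = e) ∧ P j ∧ P (π j) := by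
    by_cases hse : st π k e
    · exact ⟨e, he, hse, Or.inl rfl, h1, h3⟩
    · refine ⟨π e, h.mem e he, ?_, Or.inr (h.inv e he), h3, by rw [h.inv e he]; exact h1⟩
      have q1 := h.ne e he hek
      have q2 := h.ne_k he hek
      unfold st at hse ⊢
      rw [h.inv e he]; omega
  have hlt : j < π j := by
    by_contra hn
    unfold st at hsj
    have h4 : π j < k ∧ k < j := by omega
    exact hk (hP (π j) j k h4.1.le h4.2.le hPj' hPj)
  have n1 : ¬ ing π 0 j := by unfold ing; rw [if_pos hlt]; omega
  have n2 : ¬ ing π x2 j := by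
    unfold ing
    rw [if_pos hlt]
    rintro ⟨a, b⟩
    exact hx (hP j (π j) x2 a.le b hPj hPj')
  refine h.Sm_zero (Nat.zero_le _) h2 he hj hsj (Or.inl ?_)
  have := h.ig_at hj hsj hje
  rw [ig_zero n1, ig_zero n2]; omega

open Classical in
/-- a convex part of an interval is an interval -/
lemma filter_cvx {P : ℕ → Prop} (hP : Cvx P) (a b : ℕ) (hab : a ≤ b) :
    ∃ p q, a ≤ p ∧ p ≤ q ∧ q ≤ b ∧ (Ico a b).filter P = Ico p q := by
  by_cases hne : ((Ico a b).filter P).Nonempty
  · refine ⟨((Ico a b).filter P).min' hne, ((Ico a b).filter P).max' hne + 1, ?_, ?_, ?_, ?_⟩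
    · have := Finset.min'_mem _ hne
      rw [mem_filter, mem_Ico] at this
      exact this.1.1
    · exact (Finset.min'_le_max' _ hne).trans (Nat.le_succ _)
    · have := Finset.max'_mem _ hne
      rw [mem_filter, mem_Ico] at this
      omega
    · ext i
      rw [mem_Ico]
      constructor
      · intro hi
        exact ⟨Finset.min'_le _ _ hi, Nat.lt_succ_of_le (Finset.le_max' _ _ hi)⟩
      · rintro ⟨h1, h2⟩
        have m1 := Finset.min'_mem _ hne
        have m2 := Finset.max'_mem _ hne
        rw [mem_filter, mem_Ico] at m1 m2 ⊢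
        exact ⟨by omega, hP _ _ i h1 (by omega) m1.2 m2.2⟩
  · refine ⟨a, a, le_rfl, le_rfl, hab, ?_⟩
    rw [Finset.not_nonempty_iff_eq_empty] at hne
    rw [hne]; simp

open Classical in
/-- the contribution of a block -/
theorem norm_sum_cvx (h : NCK π N k) {x2 x3 : ℕ} {P : ℕ → Prop} (hP : Cvx P) (h23 : x2 ≤ x3)
    (h3 : x3 ≤ N) : ‖(∑ e ∈ (Ico x2 x3).filter P, Sm π N k 0 x2 e) / 2‖ ≤ 2 := by
  obtain ⟨p, q, h1, h2, h4, h5⟩ := filter_cvx hP x2 x3 h23
  rw [h5]
  exact h.norm_block_le (Nat.zero_le _) h1 h2 (h4.trans h3)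

end idx

section ring

variable {T : Type*} [DecidableEq T] {A : Finset T} {b : Port T → Port T} {w : Wd T}

/-- the boundary cycle read from any port -/
theorem chain_rotl (h : GW A b w) {m1 : Port T} (hm : m1 ∈ L w) :
    ∃ t, rotl (L w) m1 = m1 :: t ∧ List.IsChain (Xr249.Nx (Gl b)) (m1 :: (t ++ [m1])) := by
  obtain ⟨x, l, hl, hc⟩ := h.nx
  have h1 : Cycle.Chain (Xr249.Nx (Gl b)) (L w : Cycle (Port T)) := by
    rw [hl, Cycle.chain_coe_cons]; exact hc
  have hnd := Sw300.nodup h.word.1
  have hr : (rotl (L w) m1 : List (Port T)) ~r L w := (List.IsRotated.refl _).trans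
    ⟨_, rfl⟩ |>.symm
  have h2 : Cycle.Chain (Xr249.Nx (Gl b)) (rotl (L w) m1 : Cycle (Port T)) := by
    rw [Cycle.coe_eq_coe.2 hr]; exact h1
  have h0 : (rotl (L w) m1).idxOf m1 = 0 := idxOf_rotl_self hnd hm
  have hmem : m1 ∈ rotl (L w) m1 := mem_rotl.2 hm
  cases hrot : rotl (L w) m1 with
  | nil => rw [hrot] at hmem; simp at hmem
  | cons y t =>
    have hy : y = m1 := by
      by_contra hne
      rw [hrot, List.idxOf_cons_ne _ hne] at h0
      omega
    subst hy
    refine ⟨t, rfl, ?_⟩
    rw [hrot, Cycle.chain_coe_cons] at h2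
    exact h2

/-- **a set of free ends with a single exit is a block** -/
theorem cvx_of_exit (h : GW A b w) {m1 last : Port T} (hm : m1 ∈ L w) {Q : Port T → Prop}
    (hQ : ¬ Q m1) (hex : ∀ x ∈ L w, ∀ y ∈ L w, Xr249.Nx (Gl b) x y → Q x → Q y ∨ x = last) :
    Cvx fun i => i < (L w).length ∧ Q (enL (L w) m1 i) := by
  obtain ⟨t, ht, hch⟩ := chain_rotl h hm
  have hok := h.word.1
  have hlen : (L w).length = t.length + 1 := by
    rw [← rotl_length (L w) m1, ht]; simp
  have hstep : ∀ i, i + 1 < (L w).length →
      Xr249.Nx (Gl b) (enL (L w) m1 i) (enL (L w) m1 (i + 1)) := by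
    intro i hi
    have h1 : List.IsChain (Xr249.Nx (Gl b)) (m1 :: t) := by
      have : List.IsChain (Xr249.Nx (Gl b)) ((m1 :: t) ++ [m1]) := by simpa using hch
      exact List.IsChain.left_of_append this
    rw [List.isChain_iff_getElem] at h1
    have h2 := h1 i (by simp only [List.length_cons]; omega)
    unfold enL
    rw [ht, List.getD_eq_getElem _ _ (by simp only [List.length_cons]; omega),
      List.getD_eq_getElem _ _ (by simp only [List.length_cons]; omega)]
    exact h2
  have hlast : Xr249.Nx (Gl b) (enL (L w) m1 ((L w).length - 1)) m1 := by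
    have h1 : List.IsChain (Xr249.Nx (Gl b)) ((m1 :: t) ++ [m1]) := by simpa using hch
    rw [List.isChain_iff_getElem] at h1
    have h2 := h1 t.length (by simp)
    have e1 : ((m1 :: t) ++ [m1])[t.length + 1]'(by simp) = m1 := by
      rw [List.getElem_append_right (by simp)]
      simp
    have e2 : ((m1 :: t) ++ [m1])[t.length]'(by simp) = (m1 :: t)[t.length]'(by simp) := by
      rw [List.getElem_append_left]
    rw [e1, e2] at h2
    unfold enL
    rw [ht, List.getD_eq_getElem _ _ (by simp only [List.length_cons]; omega)]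
    have e3 : (L w).length - 1 = t.length := by omega
    simp only [e3]
    exact h2
  -- going forward
  have fwd : ∀ i n, i ≤ n → n < (L w).length → Q (enL (L w) m1 i) →
      (∀ l, i ≤ l → l ≤ n → Q (enL (L w) m1 l)) ∨ ∃ m, i ≤ m ∧ m < n ∧ enL (L w) m1 m = last := by
    intro i n hin
    induction n, hin using Nat.le_induction with
    | base =>
      intro _ hq
      left
      intro l h1 h2
      rw [show l = i by omega]; exact hq
    | succ n hin ih =>
      intro hn hq
      rcases ih (by omega) hq with h1 | ⟨m, h1, h2, h3⟩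
      · rcases hex _ (enL_mem (by omega)) _ (enL_mem hn) (hstep n hn) (h1 n hin le_rfl) with h4 | h4
        · left
          intro l h5 h6
          rcases Nat.lt_or_ge l (n + 1) with h7 | h7
          · exact h1 l h5 (by omega)
          · rw [show l = n + 1 by omega]; exact h4
        · exact Or.inr ⟨n, hin, by omega, h4⟩
      · exact Or.inr ⟨m, h1, by omega, h3⟩
  have hlst : ∀ j, j < (L w).length → Q (enL (L w) m1 j) →
      ∃ m, j ≤ m ∧ m < (L w).length ∧ enL (L w) m1 m = last := by
    intro j hj hq
    rcases fwd j ((L w).length - 1) (by omega) (by omega) hq with h1 | ⟨m, h1, h2, h3⟩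
    · have h4 := h1 ((L w).length - 1) (by omega) le_rfl
      rcases hex _ (enL_mem (by omega)) _ hm hlast h4 with h5 | h5
      · exact absurd h5 hQ
      · exact ⟨_, by omega, by omega, h5⟩
    · exact ⟨m, h1, by omega, h3⟩
  rintro i j l h1 h2 ⟨h3, h4⟩ ⟨h5, h6⟩
  refine ⟨by omega, ?_⟩
  rcases fwd i l h1 (by omega) h4 with h7 | ⟨m, h8, h9, h10⟩
  · exact h7 l h1 le_rfl
  · exfalso
    obtain ⟨m', g1, g2, g3⟩ := hlst j h5 h6
    have e : m = m' := by
      have a1 := idL_enL hok (m1 := m1) (i := m) (by omega)
      have a2 := idL_enL hok (m1 := m1) (i := m') g2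
      rw [← a1, ← a2, h10, g3]
    omega

end ring

section leg

variable {T : Type*} [DecidableEq T]

/-- **the strand of the leg** -/
theorem leg_walk (s : T → Bool) : ∀ {w : Wd T}, Ok w → isLeg w → w ≠ .leg →
    ∃ a b l, u s w = some a ∧ Gs w (some b) none ∧ Wk s (Gw w) a b l
  | .leg, _, _, h => absurd rfl h
  | .tile t, _, h, _ => h.elim
  | .att w p t d, hok, hleg, hne => by
    obtain ⟨hw, hp, ht, hnone⟩ := hok
    by_cases hwl : w = .leg
    · subst hwl
      have hp0 : p = none := by simpa [L] using hp
      subst hp0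
      have hu : u s (.att .leg none t d) = some (t, thru (s t) d) := by simp [u]
      refine ⟨(t, thru (s t) d), (t, d), [(t, thru (s t) d)], hu, ?_, ?_⟩
      · right; simp [gl]
      · have := Wk.one (s := s) (G := Gw (.att .leg none t d)) (x := (t, thru (s t) d))
        rwa [show Pt266.pass s (t, thru (s t) d) = (t, d) by simp only [Pt266.pass, thru_thru]]
          at this
    · have hpn : p ≠ none := fun h => hwl (hnone h)
      obtain ⟨a, b, l, ha, hb, hl⟩ := leg_walk s hw hleg hwl
      by_cases h1 : u s w = p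
      · have hu : u s (.att w p t d) = some (t, thru (s t) d) := by simp [u, h1]
        refine ⟨(t, thru (s t) d), b, (t, thru (s t) d) :: l, hu, ?_, ?_⟩
        · exact (addP_att _ _).2 (Or.inl hb)
        · refine Wk.cons ?_ (hl.mono fun _ _ => Gw_mono_att)
          have : Pt266.pass s (t, thru (s t) d) = (t, d) := by
            simp only [Pt266.pass, thru_thru]
          rw [this]
          right
          rw [← ha, h1]
          simp [gl]
      · have hu : u s (.att w p t d) = u s w := by simp [u, h1]
        exact ⟨a, b, l, by rw [hu, ha], (addP_att _ _).2 (Or.inl hb),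
          hl.mono fun _ _ => Gw_mono_att⟩
  | .con w p q, hok, hleg, hne => by
    obtain ⟨hw, hpn, hqn, hpq, hadj⟩ := hok
    obtain ⟨hp, hq⟩ := adj_mem hadj
    have I := Ok.inv s w hw
    have hwl : w ≠ .leg := by
      rintro rfl
      have h1 : p = none := by simpa [L] using hp
      exact hpn h1
    obtain ⟨a, b, l, ha, hb, hl⟩ := leg_walk s hw hleg hwl
    by_cases h1 : u s w = p
    · have hu : u s (.con w p q) = M s w q := by simp [u, h1]
      have hMq : M s w q ≠ q := fun h => hpq (by rw [← h1, I.fix _ hq h])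
      have hMMq : M s w (M s w q) = q := I.inv _ hq
      have hMqL := I.mem _ hq
      obtain ⟨a', b', l', ha', hb', hl', -⟩ := walk_word s hw hMqL
        (by rw [hMMq]; exact hMq.symm)
      rw [hMMq] at hb'
      refine ⟨a', b, l' ++ l, by rw [hu, ha'], (addP_con _ _).2 (Or.inl hb), ?_⟩
      refine (hl'.mono fun _ _ => Gw_mono_con).trans ?_ (hl.mono fun _ _ => Gw_mono_con)
      right
      rw [← hb', ← ha, h1]
      simp [gl]
    · by_cases h1' : u s w = q
      · have hu : u s (.con w p q) = M s w p := by simp [u, h1', h1, hpq.symm]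
        have hMp : M s w p ≠ p := fun h => h1 (I.fix _ hp h).symm
        have hMMp : M s w (M s w p) = p := I.inv _ hp
        have hMpL := I.mem _ hp
        obtain ⟨a', b', l', ha', hb', hl', -⟩ := walk_word s hw hMpL
          (by rw [hMMp]; exact hMp.symm)
        rw [hMMp] at hb'
        refine ⟨a', b, l' ++ l, by rw [hu, ha'], (addP_con _ _).2 (Or.inl hb), ?_⟩
        refine (hl'.mono fun _ _ => Gw_mono_con).trans ?_ (hl.mono fun _ _ => Gw_mono_con)
        left
        rw [← hb', ← ha, h1']
        simp [gl]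
      · have hu : u s (.con w p q) = u s w := by simp [u, h1, h1']
        exact ⟨a, b, l, by rw [hu, ha], (addP_con _ _).2 (Or.inl hb),
          hl.mono fun _ _ => Gw_mono_con⟩

end leg

end Crest.Agent.R158.Qe249
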