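import Crest.Agent.R158.Qe1_249
import Crest.Agent.R158.Xr13_249
import Crest.Agent.R158.Zg4_180

/-!
# R158, Q1c, `V_{D+}` and the deep ends of the stubs (helper249), file Qe2: the blocks

`B : Band A`, `Dp` = `A` with its two stubs of length `k`, glueing `beD .. p y0 (B.xr + k)`.

* `deepR B y0 k a` : ports of the tiles of the right stub with undislocated strip column `> a`
* `deepL B k b` : ports of the tiles of the left stub with strip column `≤ b`
* **`deepR_cvx`, `deepL_cvx`** : both are index intervals of the boundary of every good word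
-/

set_option autoImplicit false
set_option linter.unusedVariables false
set_option linter.unusedSectionVars false

noncomputable section

namespace Crest.Agent.R158.Qe249

open Crest.Agent.R158.Al194 Crest.Agent.R158.Vt300 Crest.Agent.R158.Sw300 Crest.Agent.R158.Ob664
open Crest.Agent.R158.Env664 (portOf_some portOf_none PortOf beD Band TG Run nbD nbD_leg res_of)
open Crest.Agent.R158.Xr249 (Dp mem_Dp Free Nx rot rot_some full full_h full_v gb gb_beD Reg)
open Crest.Agent.R158.Zg180 (uc uc_lt uc_ge)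

variable {A : Finset (ℤ × ℤ)} {B : Band A} {p y0 k : ℤ}

/-- ports of the right stub beyond the undislocated strip column `a` -/
def deepR (B : Band A) (y0 k a : ℤ) (q : Port (ℤ × ℤ)) : Prop :=
  ∃ x y d, q = some ((x, y), d) ∧ B.xr < x ∧ x ≤ B.xr + k ∧ B.y1 ≤ y ∧ y < B.y2 ∧
    a < uc y0 (x - B.xr - 1, y)

/-- ports of the left stub up to the strip column `b` -/
def deepL (B : Band A) (k b : ℤ) (q : Port (ℤ × ℤ)) : Prop :=
  ∃ x y d, q = some ((x, y), d) ∧ B.xl - k ≤ x ∧ x < B.xl ∧ B.y1 ≤ y ∧ y < B.y2 ∧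
    B.R - (B.xl - x) ≤ b

lemma deepR_iff {a x y : ℤ} {d : ZMod 4} : deepR B y0 k a (some ((x, y), d)) ↔
    B.xr < x ∧ x ≤ B.xr + k ∧ B.y1 ≤ y ∧ y < B.y2 ∧ a < uc y0 (x - B.xr - 1, y) := by
  constructor
  · rintro ⟨x', y', d', h, h1⟩
    simp only [Option.some.injEq, Prod.mk.injEq] at h
    obtain ⟨⟨rfl, rfl⟩, rfl⟩ := h
    exact h1
  · exact fun h => ⟨x, y, d, rfl, h⟩

lemma deepL_iff {b x y : ℤ} {d : ZMod 4} : deepL B k b (some ((x, y), d)) ↔
    B.xl - k ≤ x ∧ x < B.xl ∧ B.y1 ≤ y ∧ y < B.y2 ∧ B.R - (B.xl - x) ≤ b := by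
  constructor
  · rintro ⟨x', y', d', h, h1⟩
    simp only [Option.some.injEq, Prod.mk.injEq] at h
    obtain ⟨⟨rfl, rfl⟩, rfl⟩ := h
    exact h1
  · exact fun h => ⟨x, y, d, rfl, h⟩

lemma deepR_mono {a a' : ℤ} (h : a' ≤ a) {q : Port (ℤ × ℤ)} (hq : deepR B y0 k a q) :
    deepR B y0 k a' q := by
  obtain ⟨x, y, d, e, h1, h2, h3, h4, h5⟩ := hq
  exact ⟨x, y, d, e, h1, h2, h3, h4, by omega⟩

lemma deepL_mono {b b' : ℤ} (h : b ≤ b') {q : Port (ℤ × ℤ)} (hq : deepL B k b q) :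
    deepL B k b' q := by
  obtain ⟨x, y, d, e, h1, h2, h3, h4, h5⟩ := hq
  exact ⟨x, y, d, e, h1, h2, h3, h4, by omega⟩

section glue

variable (hf : Free A B.xl B.xr B.y1 B.y2 k) (hz : B.At p y0)

/-- tiles of `A` and of the right stub -/
lemma inR (hf : Free A B.xl B.xr B.y1 B.y2 k) {x y : ℤ} (h1 : B.xr ≤ x) (h2 : x ≤ B.xr + k)
    (h3 : B.y1 ≤ y) (h4 : y < B.y2) : (x, y) ∈ Dp A B.xl B.xr B.y1 B.y2 k := by
  rcases eq_or_lt_of_le h1 with rfl | h5
  · exact mem_Dp.2 (Or.inl (hf.run y h3 h4).2)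
  · exact mem_Dp.2 (Or.inr (Or.inl ⟨⟨by omega, by omega⟩, h3, h4⟩))

lemma inL (hf : Free A B.xl B.xr B.y1 B.y2 k) {x y : ℤ} (h1 : B.xl - k ≤ x) (h2 : x ≤ B.xl)
    (h3 : B.y1 ≤ y) (h4 : y < B.y2) : (x, y) ∈ Dp A B.xl B.xr B.y1 B.y2 k := by
  rcases eq_or_lt_of_le h2 with rfl | h5
  · exact mem_Dp.2 (Or.inl (hf.run y h3 h4).1)
  · exact mem_Dp.2 (Or.inr (Or.inr ⟨⟨by omega, by omega⟩, h3, h4⟩))

/-- places around the right stub -/
lemma outR (hf : Free A B.xl B.xr B.y1 B.y2 k) {x y : ℤ} (h1 : B.xr < x) (h2 : x ≤ B.xr + k + 1)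
    (h3 : B.y1 - 1 ≤ y) (h4 : y ≤ B.y2) (h5 : x = B.xr + k + 1 ∨ y = B.y1 - 1 ∨ y = B.y2) :
    (x, y) ∉ Dp A B.xl B.xr B.y1 B.y2 k := by
  have hle := hf.le
  have hk := hf.k0
  rw [mem_Dp]
  rintro (h | h | h)
  · exact hf.right x y h1 h2 h3 h4 h
  · omega
  · omega

lemma outL (hf : Free A B.xl B.xr B.y1 B.y2 k) {x y : ℤ} (h1 : x < B.xl) (h2 : B.xl - k - 1 ≤ x)
    (h3 : B.y1 - 1 ≤ y) (h4 : y ≤ B.y2) (h5 : x = B.xl - k - 1 ∨ y = B.y1 - 1 ∨ y = B.y2) :
    (x, y) ∉ Dp A B.xl B.xr B.y1 B.y2 k := by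
  have hle := hf.le
  have hk := hf.k0
  rw [mem_Dp]
  rintro (h | h | h)
  · exact hf.left x y h1 h2 h3 h4 h
  · omega
  · omega

/-- the glueing in explicit form -/
lemma gl_eq (hf : Free A B.xl B.xr B.y1 B.y2 k) (hz : B.At p y0) :
    Gl (beD (Dp A B.xl B.xr B.y1 B.y2 k) p y0 (B.xr + k)) =
      (full (Dp A B.xl B.xr B.y1 B.y2 k)).glz p y0 (B.xr + k) := by
  have hk := hf.k0
  obtain ⟨z1, z2, z3, z4⟩ := hz
  have e : Gl (beD (Dp A B.xl B.xr B.y1 B.y2 k) p y0 (B.xr + k)) =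
      gb (beD (Dp A B.xl B.xr B.y1 B.y2 k) p y0 (B.xr + k)) := rfl
  rw [e]
  refine gb_beD (by omega) (fun x h1 h2 => ?_) ?_
  · rcases le_or_gt B.xr x with h3 | h3
    · exact ⟨inR hf h3 h2 (by omega) (by omega), inR hf h3 h2 (by omega) (by omega)⟩
    · exact ⟨mem_Dp.2 (Or.inl ((B.run (y0 - 1) (by omega) (by omega)).mem x (by omega) (by omega))),
        mem_Dp.2 (Or.inl ((B.run y0 (by omega) (by omega)).mem x (by omega) (by omega)))⟩
  · exact outR hf (by omega) (by omega) (by omega) (by omega) (Or.inl rfl)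

lemma leg_ne (hf : Free A B.xl B.xr B.y1 B.y2 k) (hz : B.At p y0) :
    beD (Dp A B.xl B.xr B.y1 B.y2 k) p y0 (B.xr + k) none ≠ none := by
  obtain ⟨z1, z2, z3, z4⟩ := hz
  unfold beD
  rw [res_of (portOf_none _)]
  · rw [nbD_leg]; simp
  · rw [nbD_leg, portOf_some]
    exact mem_Dp.2 (Or.inl ((B.run y0 (by omega) (by omega)).mem p (by omega) (by omega)))

/-- free ends of a good word: port of a tile, not glued -/
lemma free_end (hf : Free A B.xl B.xr B.y1 B.y2 k) (hz : B.At p y0) {w : Wd (ℤ × ℤ)}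
    (hW : GW (Dp A B.xl B.xr B.y1 B.y2 k) (beD (Dp A B.xl B.xr B.y1 B.y2 k) p y0 (B.xr + k)) w)
    {x : Port (ℤ × ℤ)} (hx : x ∈ L w) :
    PortOf (Dp A B.xl B.xr B.y1 B.y2 k) x ∧
      ∀ q, ¬ (full (Dp A B.xl B.xr B.y1 B.y2 k)).glz p y0 (B.xr + k) x q := by
  obtain ⟨hok, -, ht, hbe⟩ := hW.word
  rcases x with - | ⟨t, d⟩
  · exfalso
    have hs := Pt266.be_iff hok none (beD (Dp A B.xl B.xr B.y1 B.y2 k) p y0 (B.xr + k) none)
    refine Pt266.not_glued hok hx (y := beD (Dp A B.xl B.xr B.y1 B.y2 k) p y0 (B.xr + k) none) ?_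
    exact hs.2 ⟨hbe none, fun h => leg_ne hf hz h.symm⟩
  · refine ⟨portOf_some.2 ((ht t).1 (Pt266.tl_mem hok hx)), fun q hq => ?_⟩
    rw [← gl_eq hf hz] at hq
    have hs := Pt266.be_iff hok (some (t, d)) q
    exact Pt266.not_glued hok hx (hs.2 ⟨by rw [hbe]; exact hq.1, hq.2⟩)

end glue

section R

/-- one step of the boundary on the right stub -/
lemma stepR (hf : Free A B.xl B.xr B.y1 B.y2 k) (hz : B.At p y0) {a : ℤ} (ha : 0 ≤ a)
    (hak : a + 2 < k) {x : Port (ℤ × ℤ)} (hq : deepR B y0 k a x)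
    (hfree : ∀ q, ¬ (full (Dp A B.xl B.xr B.y1 B.y2 k)).glz p y0 (B.xr + k) x q) :
    ∃ y, Nx ((full (Dp A B.xl B.xr B.y1 B.y2 k)).glz p y0 (B.xr + k)) x y ∧
      (deepR B y0 k a y ∨ x = some ((B.xr + a + 2, B.y1), 3)) := by
  obtain ⟨z1, z2, z3, z4⟩ := id hz
  obtain ⟨X, Y, d, rfl, h1, h2, h3, h4, h5⟩ := hq
  have r0 : ∀ x y : ℤ, rot (some ((x, y), 0) : Port (ℤ × ℤ)) = some ((x, y), 1) := fun x y => by
    rw [rot_some]; rfl
  have r1 : ∀ x y : ℤ, rot (some ((x, y), 1) : Port (ℤ × ℤ)) = some ((x, y), 2) := fun x y => by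
    rw [rot_some]; rfl
  have r2 : ∀ x y : ℤ, rot (some ((x, y), 2) : Port (ℤ × ℤ)) = some ((x, y), 3) := fun x y => by
    rw [rot_some]; rfl
  have r3 : ∀ x y : ℤ, rot (some ((x, y), 3) : Port (ℤ × ℤ)) = some ((x, y), 0) := fun x y => by
    rw [rot_some]; rfl
  have hin := inR hf h1.le h2 h3 h4
  set G := (full (Dp A B.xl B.xr B.y1 B.y2 k)).glz p y0 (B.xr + k) with hG
  -- free ports
  have fE : ∀ y, B.y1 ≤ y → y < B.y2 → ∀ q, ¬ G (some ((B.xr + k, y), 2)) q := by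
    intro y g1 g2 q hq
    exact outR hf (x := B.xr + k + 1) (y := y) (by omega) (by omega) (by omega) (by omega)
      (Or.inl rfl) (full_h.1 (Reg.glz_2.1 hq).1).2
  have fN : ∀ x, B.xr < x → x ≤ B.xr + k → ∀ q, ¬ G (some ((x, B.y2 - 1), 1)) q := by
    intro x g1 g2 q hq
    rcases Reg.glz_1.1 hq with ⟨e, -⟩ | ⟨-, e, -⟩
    · omega
    · have := (full_v.1 e).2
      rw [sub_add_cancel] at this
      exact outR hf (x := x) (y := B.y2) (by omega) (by omega) (by omega) (by omega)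
        (Or.inr (Or.inr rfl)) this
  have fS : ∀ x, B.xr < x → x ≤ B.xr + k → ∀ q, ¬ G (some ((x, B.y1), 3)) q := by
    intro x g1 g2 q hq
    rcases Reg.glz_3.1 hq with ⟨e, -⟩ | ⟨e, -⟩ | ⟨-, e, -⟩
    · omega
    · omega
    · exact outR hf (x := x) (y := B.y1 - 1) (by omega) (by omega) (by omega) (by omega)
        (Or.inr (Or.inl rfl)) (full_v.1 e).1
  have fStep : ∀ q, ¬ G (some ((B.xr + k, y0 - 1), 1)) q := by
    intro q hq
    rcases Reg.glz_1.1 hq with ⟨-, -, e, -⟩ | ⟨e, -, -⟩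
    · omega
    · exact e ⟨rfl, by omega, le_refl _⟩
  rcases Reg.d4 d with rfl | rfl | rfl | rfl
  · -- side W is glued
    exfalso
    refine hfree (some ((X - 1, Y), 2)) (Reg.glz_0.2 ⟨full_h.2 ⟨inR hf (by omega) (by omega) h3 h4,
      ?_⟩, rfl⟩)
    rwa [sub_add_cancel]
  · -- side N
    by_cases hc : Y = y0 - 1
    · -- the step port
      subst hc
      have hX : X = B.xr + k := by
        by_contra hX
        exact hfree (some ((X + 1, y0), 3)) (Reg.glz_1.2 (Or.inl ⟨rfl, by omega, by omega, rfl⟩))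
      subst hX
      refine ⟨some ((B.xr + k, y0 - 1), 2), ?_, Or.inl (deepR_iff.2 ⟨h1, h2, h3, h4, h5⟩)⟩
      have := Nx.stop (G := G) (p := some ((B.xr + k, y0 - 1), 1))
        (by rw [r1]; exact fE _ h3 h4)
      rwa [r1] at this
    · have hY : Y = B.y2 - 1 := by
        by_contra hY
        refine hfree (some ((X, Y + 1), 3)) (Reg.glz_1.2 (Or.inr ⟨fun h => hc h.1, full_v.2 ⟨hin,
          inR hf (by omega) (by omega) (by omega) (by omega)⟩, rfl⟩))
      subst hY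
      have hu : ¬ B.y2 - 1 < y0 := by omega
      rw [uc_ge hu] at h5
      by_cases hX : X = B.xr + k
      · subst hX
        refine ⟨some ((B.xr + k, B.y2 - 1), 2), ?_,
          Or.inl (deepR_iff.2 ⟨h1, h2, h3, h4, by rw [uc_ge hu]; exact h5⟩)⟩
        have := Nx.stop (G := G) (p := some ((B.xr + k, B.y2 - 1), 1))
          (by rw [r1]; exact fE _ h3 h4)
        rwa [r1] at this
      · refine ⟨some ((X + 1, B.y2 - 1), 1), ?_, Or.inl (deepR_iff.2 ⟨by omega, by omega, h3, h4,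
          by rw [uc_ge hu]; omega⟩)⟩
        refine Nx.go (q := some ((X + 1, B.y2 - 1), 0)) ?_ ?_
        · rw [r1]
          exact Reg.glz_2.2 ⟨full_h.2 ⟨hin, inR hf (by omega) (by omega) h3 h4⟩, rfl⟩
        · have := Nx.stop (G := G) (p := some ((X + 1, B.y2 - 1), 0))
            (by rw [r0]; exact fN _ (by omega) (by omega))
          rwa [r0] at this
  · -- side E
    have hX : X = B.xr + k := by
      by_contra hX
      exact hfree (some ((X + 1, Y), 0)) (Reg.glz_2.2 ⟨full_h.2 ⟨hin,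
        inR hf (by omega) (by omega) h3 h4⟩, rfl⟩)
    subst hX
    by_cases hY : Y = B.y1
    · subst hY
      refine ⟨some ((B.xr + k, B.y1), 3), ?_, Or.inl (deepR_iff.2 ⟨h1, h2, h3, h4, h5⟩)⟩
      have := Nx.stop (G := G) (p := some ((B.xr + k, B.y1), 2))
        (by rw [r2]; exact fS _ h1 h2)
      rwa [r2] at this
    · by_cases hY0 : Y = y0
      · subst hY0
        rw [uc_ge (lt_irrefl _)] at h5
        refine ⟨some ((B.xr + k, Y - 1), 1), ?_, Or.inl (deepR_iff.2 ⟨h1, h2, by omega, by omega,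
          by rw [uc_lt (by omega)]; omega⟩)⟩
        refine Nx.go (q := some ((B.xr + k - 1, Y - 1), 1)) ?_ ?_
        · rw [r2]
          exact Reg.glz_3.2 (Or.inr (Or.inl ⟨rfl, by omega, le_refl _, rfl⟩))
        · refine Nx.go (q := some ((B.xr + k, Y - 1), 0)) ?_ ?_
          · rw [r1]
            refine Reg.glz_2.2 ⟨full_h.2 ⟨inR hf (by omega) (by omega) (by omega) (by omega), ?_⟩, ?_⟩
            · rw [sub_add_cancel]
              exact inR hf (by omega) (by omega) (by omega) (by omega)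
            · rw [sub_add_cancel]
          · have := Nx.stop (G := G) (p := some ((B.xr + k, Y - 1), 0))
              (by rw [r0]; exact fStep)
            rwa [r0] at this
      · have hu : uc y0 (B.xr + k - B.xr - 1, Y - 1) = uc y0 (B.xr + k - B.xr - 1, Y) := by
          by_cases hlt : Y < y0
          · rw [uc_lt hlt, uc_lt (by omega)]
          · rw [uc_ge hlt, uc_ge (by omega)]
        refine ⟨some ((B.xr + k, Y - 1), 2), ?_, Or.inl (deepR_iff.2 ⟨h1, h2, by omega, by omega,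
          by rw [hu]; exact h5⟩)⟩
        refine Nx.go (q := some ((B.xr + k, Y - 1), 1)) ?_ ?_
        · rw [r2]
          refine Reg.glz_3.2 (Or.inr (Or.inr ⟨fun h => hY0 h.1, full_v.2 ⟨inR hf (by omega)
            (by omega) (by omega) (by omega), ?_⟩, rfl⟩))
          rw [sub_add_cancel]; exact hin
        · have := Nx.stop (G := G) (p := some ((B.xr + k, Y - 1), 1))
            (by rw [r1]; exact fE _ (by omega) (by omega))
          rwa [r1] at this
  · -- side S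
    have hY : Y = B.y1 := by
      by_contra hY
      by_cases hY0 : Y = y0
      · subst hY0
        exact hfree (some ((X - 1, Y - 1), 1)) (Reg.glz_3.2 (Or.inr (Or.inl ⟨rfl, by omega, h2, rfl⟩)))
      · refine hfree (some ((X, Y - 1), 1)) (Reg.glz_3.2 (Or.inr (Or.inr ⟨fun h => hY0 h.1,
          full_v.2 ⟨inR hf (by omega) (by omega) (by omega) (by omega), ?_⟩, rfl⟩)))
        rw [sub_add_cancel]; exact hin
    subst hY
    rw [uc_lt (by omega)] at h5
    refine ⟨some ((X - 1, B.y1), 3), ?_, ?_⟩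
    · refine Nx.go (q := some ((X - 1, B.y1), 2)) ?_ ?_
      · rw [r3]
        refine Reg.glz_0.2 ⟨full_h.2 ⟨inR hf (by omega) (by omega) h3 h4, ?_⟩, rfl⟩
        rwa [sub_add_cancel]
      · have := Nx.stop (G := G) (p := some ((X - 1, B.y1), 2))
          (by rw [r2]; exact fS _ (by omega) (by omega))
        rwa [r2] at this
    · by_cases hX : X = B.xr + a + 2
      · right; rw [hX]
      · left
        exact deepR_iff.2 ⟨by omega, by omega, h3, h4, by rw [uc_lt (by omega)]; omega⟩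

/-- **the deep right ends are a block** -/
theorem deepR_cvx (hf : Free A B.xl B.xr B.y1 B.y2 k) (hz : B.At p y0) {a : ℤ} (ha : 0 ≤ a)
    (hak : a + 2 < k) {w : Wd (ℤ × ℤ)}
    (hW : GW (Dp A B.xl B.xr B.y1 B.y2 k) (beD (Dp A B.xl B.xr B.y1 B.y2 k) p y0 (B.xr + k)) w)
    {m1 : Port (ℤ × ℤ)} (hm : m1 ∈ L w) (hn : ¬ deepR B y0 k a m1) :
    Cvx fun i => i < (L w).length ∧ deepR B y0 k a (enL (L w) m1 i) := by
  refine cvx_of_exit hW hm (last := some ((B.xr + a + 2, B.y1), 3)) hn ?_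
  intro x hx y hy hxy hq
  rw [gl_eq hf hz] at hxy
  obtain ⟨y', h1, h2⟩ := stepR hf hz ha hak hq (free_end hf hz hW hx).2
  have hdet : y = y' := by
    refine Xr249.Nx.det ?_ hxy h1
    rw [← gl_eq hf hz]
    intro a b c e1 e2
    exact e1.1.symm.trans e2.1
  rw [hdet]
  exact h2

end R

section Lft

/-- one step of the boundary on the left stub -/
lemma stepL (hf : Free A B.xl B.xr B.y1 B.y2 k) (hz : B.At p y0) {b : ℤ} (hb : b + 1 < B.R)
    (hbk : B.R - k ≤ b) {x : Port (ℤ × ℤ)} (hq : deepL B k b x)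
    (hfree : ∀ q, ¬ (full (Dp A B.xl B.xr B.y1 B.y2 k)).glz p y0 (B.xr + k) x q) :
    ∃ y, Nx ((full (Dp A B.xl B.xr B.y1 B.y2 k)).glz p y0 (B.xr + k)) x y ∧
      (deepL B k b y ∨ x = some ((B.xl - (B.R - b), B.y2 - 1), 1)) := by
  obtain ⟨z1, z2, z3, z4⟩ := id hz
  obtain ⟨X, Y, d, rfl, h1, h2, h3, h4, h5⟩ := hq
  have r0 : ∀ x y : ℤ, rot (some ((x, y), 0) : Port (ℤ × ℤ)) = some ((x, y), 1) := fun x y => by
    rw [rot_some]; rfl
  have r1 : ∀ x y : ℤ, rot (some ((x, y), 1) : Port (ℤ × ℤ)) = some ((x, y), 2) := fun x y => by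
    rw [rot_some]; rfl
  have r2 : ∀ x y : ℤ, rot (some ((x, y), 2) : Port (ℤ × ℤ)) = some ((x, y), 3) := fun x y => by
    rw [rot_some]; rfl
  have r3 : ∀ x y : ℤ, rot (some ((x, y), 3) : Port (ℤ × ℤ)) = some ((x, y), 0) := fun x y => by
    rw [rot_some]; rfl
  have hin := inL hf h1 h2.le h3 h4
  set G := (full (Dp A B.xl B.xr B.y1 B.y2 k)).glz p y0 (B.xr + k) with hG
  -- free ports
  have fW : ∀ y, B.y1 ≤ y → y < B.y2 → ∀ q, ¬ G (some ((B.xl - k, y), 0)) q := by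
    intro y g1 g2 q hq
    exact outL hf (x := B.xl - k - 1) (y := y) (by omega) (by omega) (by omega) (by omega)
      (Or.inl rfl) (full_h.1 (Reg.glz_0.1 hq).1).1
  have fN : ∀ x, B.xl - k ≤ x → x < B.xl → ∀ q, ¬ G (some ((x, B.y2 - 1), 1)) q := by
    intro x g1 g2 q hq
    rcases Reg.glz_1.1 hq with ⟨e, -⟩ | ⟨-, e, -⟩
    · omega
    · have := (full_v.1 e).2
      rw [sub_add_cancel] at this
      exact outL hf (x := x) (y := B.y2) (by omega) (by omega) (by omega) (by omega)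
        (Or.inr (Or.inr rfl)) this
  have fS : ∀ x, B.xl - k ≤ x → x < B.xl → ∀ q, ¬ G (some ((x, B.y1), 3)) q := by
    intro x g1 g2 q hq
    rcases Reg.glz_3.1 hq with ⟨e, -⟩ | ⟨e, -⟩ | ⟨-, e, -⟩
    · omega
    · omega
    · exact outL hf (x := x) (y := B.y1 - 1) (by omega) (by omega) (by omega) (by omega)
        (Or.inr (Or.inl rfl)) (full_v.1 e).1
  rcases Reg.d4 d with rfl | rfl | rfl | rfl
  · -- side W
    have hX : X = B.xl - k := by
      by_contra hX
      refine hfree (some ((X - 1, Y), 2)) (Reg.glz_0.2 ⟨full_h.2 ⟨inL hf (by omega) (by omega) h3 h4,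
        ?_⟩, rfl⟩)
      rwa [sub_add_cancel]
    subst hX
    by_cases hY : Y = B.y2 - 1
    · subst hY
      refine ⟨some ((B.xl - k, B.y2 - 1), 1), ?_, Or.inl (deepL_iff.2 ⟨h1, h2, h3, h4, h5⟩)⟩
      have := Nx.stop (G := G) (p := some ((B.xl - k, B.y2 - 1), 0))
        (by rw [r0]; exact fN _ h1 h2)
      rwa [r0] at this
    · refine ⟨some ((B.xl - k, Y + 1), 0), ?_, Or.inl (deepL_iff.2 ⟨h1, h2, by omega, by omega,
        h5⟩)⟩
      refine Nx.go (q := some ((B.xl - k, Y + 1), 3)) ?_ ?_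
      · rw [r0]
        exact Reg.glz_1.2 (Or.inr ⟨by omega, full_v.2 ⟨hin, inL hf h1 h2.le (by omega) (by omega)⟩,
          rfl⟩)
      · have := Nx.stop (G := G) (p := some ((B.xl - k, Y + 1), 3))
          (by rw [r3]; exact fW _ (by omega) (by omega))
        rwa [r3] at this
  · -- side N
    have hY : Y = B.y2 - 1 := by
      by_contra hY
      exact hfree (some ((X, Y + 1), 3)) (Reg.glz_1.2 (Or.inr ⟨by omega, full_v.2 ⟨hin,
        inL hf h1 h2.le (by omega) (by omega)⟩, rfl⟩))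
    subst hY
    by_cases hX : X = B.xl - (B.R - b)
    · -- the exit: its successor exists anyway
      by_cases hX1 : X + 1 < B.xl
      · refine ⟨some ((X + 1, B.y2 - 1), 1), ?_, Or.inr (by rw [hX])⟩
        refine Nx.go (q := some ((X + 1, B.y2 - 1), 0)) ?_ ?_
        · rw [r1]
          exact Reg.glz_2.2 ⟨full_h.2 ⟨hin, inL hf (by omega) (by omega) h3 h4⟩, rfl⟩
        · have := Nx.stop (G := G) (p := some ((X + 1, B.y2 - 1), 0))
            (by rw [r0]; exact fN _ (by omega) (by omega))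
          rwa [r0] at this
      · exfalso
        omega
    · refine ⟨some ((X + 1, B.y2 - 1), 1), ?_, Or.inl (deepL_iff.2 ⟨by omega, by omega, h3, h4,
        by omega⟩)⟩
      refine Nx.go (q := some ((X + 1, B.y2 - 1), 0)) ?_ ?_
      · rw [r1]
        exact Reg.glz_2.2 ⟨full_h.2 ⟨hin, inL hf (by omega) (by omega) h3 h4⟩, rfl⟩
      · have := Nx.stop (G := G) (p := some ((X + 1, B.y2 - 1), 0))
          (by rw [r0]; exact fN _ (by omega) (by omega))
        rwa [r0] at this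
  · -- side E is glued
    exfalso
    exact hfree (some ((X + 1, Y), 0)) (Reg.glz_2.2 ⟨full_h.2 ⟨hin,
      inL hf (by omega) (by omega) h3 h4⟩, rfl⟩)
  · -- side S
    have hY : Y = B.y1 := by
      by_contra hY
      refine hfree (some ((X, Y - 1), 1)) (Reg.glz_3.2 (Or.inr (Or.inr ⟨by omega,
        full_v.2 ⟨inL hf h1 h2.le (by omega) (by omega), ?_⟩, rfl⟩)))
      rw [sub_add_cancel]; exact hin
    subst hY
    by_cases hX : X = B.xl - k
    · subst hX
      refine ⟨some ((B.xl - k, B.y1), 0), ?_, Or.inl (deepL_iff.2 ⟨h1, h2, h3, h4, h5⟩)⟩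
      have := Nx.stop (G := G) (p := some ((B.xl - k, B.y1), 3))
        (by rw [r3]; exact fW _ h3 h4)
      rwa [r3] at this
    · refine ⟨some ((X - 1, B.y1), 3), ?_, Or.inl (deepL_iff.2 ⟨by omega, by omega, h3, h4,
        by omega⟩)⟩
      refine Nx.go (q := some ((X - 1, B.y1), 2)) ?_ ?_
      · rw [r3]
        refine Reg.glz_0.2 ⟨full_h.2 ⟨inL hf (by omega) (by omega) h3 h4, ?_⟩, rfl⟩
        rwa [sub_add_cancel]
      · have := Nx.stop (G := G) (p := some ((X - 1, B.y1), 2))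
          (by rw [r2]; exact fS _ (by omega) (by omega))
        rwa [r2] at this

/-- **the deep left ends are a block** -/
theorem deepL_cvx (hf : Free A B.xl B.xr B.y1 B.y2 k) (hz : B.At p y0) {b : ℤ} (hb : b + 1 < B.R)
    (hbk : B.R - k ≤ b) {w : Wd (ℤ × ℤ)}
    (hW : GW (Dp A B.xl B.xr B.y1 B.y2 k) (beD (Dp A B.xl B.xr B.y1 B.y2 k) p y0 (B.xr + k)) w)
    {m1 : Port (ℤ × ℤ)} (hm : m1 ∈ L w) (hn : ¬ deepL B k b m1) :
    Cvx fun i => i < (L w).length ∧ deepL B k b (enL (L w) m1 i) := by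
  refine cvx_of_exit hW hm (last := some ((B.xl - (B.R - b), B.y2 - 1), 1)) hn ?_
  intro x hx y hy hxy hq
  rw [gl_eq hf hz] at hxy
  obtain ⟨y', h1, h2⟩ := stepL hf hz hb hbk hq (free_end hf hz hW hx).2
  have hdet : y = y' := by
    refine Xr249.Nx.det ?_ hxy h1
    rw [← gl_eq hf hz]
    intro a b c e1 e2
    exact e1.1.symm.trans e2.1
  rw [hdet]
  exact h2

end Lft

end Crest.Agent.R158.Qe249
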