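import Crest.Agent.R158.Qe2_249

/-!
# R158, Q1c, `V_{D+}` and the deep ends of the stubs (helper249), file Qe3: gates

`s : TG → Bool` splitting of `G^(z)`, `s' = sD B y0 k s = s ∘ eD B y0 k` splitting of `Dp`.

* `wk_map` : a strand of `Dp` is a strand of `G^(z)`
* `Gates4` : the four gates `(0, a']`, `(a', a0]`, `(b1, b']`, `(b', R - 2]` are closed
* **`leg_deep`** : the end of the leg is not deep
* **`stayR`, `stayL`** : the partner of a deep end is in the same stub, beyond the first gate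
-/

set_option autoImplicit false
set_option linter.unusedVariables false
set_option linter.unusedSectionVars false

noncomputable section

namespace Crest.Agent.R158.Qe249

open Crest.Agent.R158.Al194 Crest.Agent.R158.Vt300 Crest.Agent.R158.Sw300 Crest.Agent.R158.Ob664
open Crest.Agent.R158.Env664 (portOf_some portOf_none PortOf beD Band TG Run nbD nbD_leg res_of)
open Crest.Agent.R158.Xr249 (Dp mem_Dp Free Nx rot rot_some full full_h full_v gb gb_beD Reg eD eD_r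
  eD_l eD_A eD_glue pm pm_some pm_none)
open Crest.Agent.R158.Zg180 (uc uc_lt uc_ge Gq gates gate Near Far adj_rr)
open Crest.Agent.R158.Pt266 (Gw Gs Wk Fr walk_word be_iff isLeg_iff)

variable {A : Finset (ℤ × ℤ)} {B : Band A} {p y0 k : ℤ}

/-- splitting of `Dp` -/
def sD (B : Band A) (y0 k : ℤ) (s : TG → Bool) : ℤ × ℤ → Bool := fun t => s (eD B y0 k t)

/-- image of a port of a tile -/
def ED (B : Band A) (y0 k : ℤ) (q : (ℤ × ℤ) × ZMod 4) : TG × ZMod 4 := (eD B y0 k q.1, q.2)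

lemma bs_bas {T : Type*} : ∀ w : Wd T, Gc748.bs w = Xr249.bas w
  | .leg => rfl
  | .tile _ => rfl
  | .att w _ _ _ => bs_bas w
  | .con w _ _ => bs_bas w

section

variable {w : Wd (ℤ × ℤ)}

lemma tls_of_gw (hok : Ok w) {a b : (ℤ × ℤ) × ZMod 4} (h : Gw w a b) : a.1 ∈ tls w ∧ b.1 ∈ tls w := by
  rcases a with ⟨t, d⟩
  rcases b with ⟨t', d'⟩
  exact ⟨Pt266.gl_mem hok h, Pt266.gl_mem hok h.symm⟩

lemma gw_map (hf : Free A B.xl B.xr B.y1 B.y2 k) (hR : 2 * k < B.R) (hz : B.At p y0)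
    (hW : GW (Dp A B.xl B.xr B.y1 B.y2 k) (beD (Dp A B.xl B.xr B.y1 B.y2 k) p y0 (B.xr + k)) w)
    {a b : (ℤ × ℤ) × ZMod 4} (h : Gw w a b) :
    Gq (B.beG p y0) (ED B y0 k a) (ED B y0 k b) := by
  obtain ⟨hok, -, ht, hbe⟩ := hW.word
  obtain ⟨h1, h2⟩ := tls_of_gw hok h
  have h3 := (be_iff hok (some a) (some b)).1 h
  rw [hbe] at h3
  have h4 : gb (beD (Dp A B.xl B.xr B.y1 B.y2 k) p y0 (B.xr + k)) (some a) (some b) := h3
  rw [eD_glue hf hR hz (portOf_some (t := a.1) (d := a.2).2 ((ht _).1 h1))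
    (portOf_some (t := b.1) (d := b.2).2 ((ht _).1 h2))] at h4
  refine ⟨h4.1, fun h => h4.2 ?_⟩
  show (some (ED B y0 k a) : Port TG) = some (ED B y0 k b)
  rw [h]

/-- a strand of `Dp` is a strand of `G^(z)` -/
theorem wk_map (hf : Free A B.xl B.xr B.y1 B.y2 k) (hR : 2 * k < B.R) (hz : B.At p y0)
    (hW : GW (Dp A B.xl B.xr B.y1 B.y2 k) (beD (Dp A B.xl B.xr B.y1 B.y2 k) p y0 (B.xr + k)) w)
    {s : TG → Bool} {x y : (ℤ × ℤ) × ZMod 4} {l : List ((ℤ × ℤ) × ZMod 4)}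
    (h : Wk (sD B y0 k s) (Gw w) x y l) :
    Wk s (Gq (B.beG p y0)) (ED B y0 k x) (ED B y0 k y) (l.map (ED B y0 k)) := by
  induction h with
  | one =>
    exact Wk.one
  | @snoc q r l h1 h2 ih =>
    rw [List.map_append]
    exact ih.snoc (gw_map hf hR hz hW h2)

/-- the two definitions of strands -/
lemma wk_conv {T : Type*} {s : T → Bool} {G : T × ZMod 4 → T × ZMod 4 → Prop} {x y : T × ZMod 4}
    {l : List (T × ZMod 4)} (h : Wk s G x y l) : Ka470.Wk s G x y l := by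
  induction h with
  | one => exact Ka470.Wk.one
  | snoc h1 h2 ih => exact ih.snoc h2

lemma wk_all {T : Type*} {s : T → Bool} {G : T × ZMod 4 → T × ZMod 4 → Prop} {P : T → Prop}
    {N : T × ZMod 4 → Prop} (hst : ∀ q r, G q r → P q.1 → N r → P r.1) {x y : T × ZMod 4}
    {l : List (T × ZMod 4)} (h : Wk s G x y l) (hx : P x.1) (hN : ∀ r ∈ l, N r) :
    ∀ r ∈ l, P r.1 := by
  induction h with
  | one =>
    intro r hr
    rw [List.mem_singleton] at hr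
    rw [hr]; exact hx
  | @snoc q r l h1 h2 ih =>
    have h3 := ih fun r hr => hN r (by simp [hr])
    intro r' hr'
    rcases List.mem_append.1 hr' with h4 | h4
    · exact h3 r' h4
    · rw [List.mem_singleton] at h4
      rw [h4]
      have h5 : P q.1 := h3 (Pt266.pass s q) h1.mem_right
      exact hst q r h2 h5 (hN r (by simp))

end

/-- the four gates are closed -/
structure Gates4 (B : Band A) (p y0 k a' a0 b1 b' : ℤ) (hz : B.At p y0) (s : TG → Bool) : Prop where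
  kR : 2 * k < B.R
  h0 : 0 < a'
  h1 : a' < a0
  h2 : a0 + 2 < k
  h3 : B.R - k ≤ b1
  h4 : b1 < b'
  h5 : b' < B.R - 2
  R1 : (gate hz (le_refl 0) h0 (by omega)).Closed s
  R2 : (gate hz h0.le h1 (by omega)).Closed s
  L1 : (gate hz (by omega) h4 (by omega)).Closed s
  L2 : (gate hz (by omega) h5 (by omega)).Closed s

section main

variable {w : Wd (ℤ × ℤ)} {s : TG → Bool} {a' a0 b1 b' : ℤ} {hz : B.At p y0}

/-- kinds of tiles of `Dp`, as a disjunction on the tile -/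
lemma tile_cases (hf : Free A B.xl B.xr B.y1 B.y2 k) {t : ℤ × ℤ}
    (h : t ∈ Dp A B.xl B.xr B.y1 B.y2 k) :
    (t ∈ A ∧ eD B y0 k t = Sum.inl t) ∨
    ((B.y1 ≤ t.2 ∧ t.2 < B.y2 ∧ B.xr < t.1 ∧ t.1 ≤ B.xr + k) ∧
      eD B y0 k t = Sum.inr (t.1 - B.xr - 1, t.2)) ∨
    ((B.y1 ≤ t.2 ∧ t.2 < B.y2 ∧ B.xl - k ≤ t.1 ∧ t.1 < B.xl) ∧
      eD B y0 k t = Sum.inr (B.wd y0 t.2 - (B.xl - t.1), t.2)) := by
  obtain ⟨x, y⟩ := t
  rcases Xr249.Dp_cases hf h with ⟨h1, -, -⟩ | ⟨-, h2⟩ | ⟨-, h2⟩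
  · exact Or.inl ⟨h1, eD_A hf h1⟩
  · exact Or.inr (Or.inl ⟨⟨h2.1.1, h2.1.2, h2.2.1, h2.2.2⟩, eD_r h2⟩)
  · exact Or.inr (Or.inr ⟨⟨h2.1.1, h2.1.2, h2.2.1, h2.2.2⟩, eD_l hf.le h2⟩)

lemma uc_left (y : ℤ) {x : ℤ} : uc y0 (B.wd y0 y - (B.xl - x), y) = B.R - (B.xl - x) := by
  rcases Xr249.wd_cases B y0 y with ⟨h1, h2⟩ | ⟨h1, h2⟩
  · rw [uc_lt h1, h2]
  · rw [uc_ge (by omega), h2]; ring

/-- column bounds of the right stub -/
lemma uc_right {x y : ℤ} (h1 : B.xr < x) (h2 : x ≤ B.xr + k) :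
    -1 ≤ uc y0 (x - B.xr - 1, y) ∧ uc y0 (x - B.xr - 1, y) ≤ k - 1 := by
  by_cases h : y < y0
  · rw [uc_lt h]; omega
  · rw [uc_ge h]; omega

/-- the strand of the leg is near -/
theorem leg_near (hf : Free A B.xl B.xr B.y1 B.y2 k)
    (hW : GW (Dp A B.xl B.xr B.y1 B.y2 k) (beD (Dp A B.xl B.xr B.y1 B.y2 k) p y0 (B.xr + k)) w)
    (g : Gates4 B p y0 k a' a0 b1 b' hz s) :
    ∃ a, u (sD B y0 k s) w = some a ∧ eD B y0 k a.1 ∉ Far y0 a' b' := by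
  obtain ⟨hok, -, ht, hbe⟩ := hW.word
  have hleg : isLeg w := isLeg_iff.2 (by rw [bs_bas]; exact hW.leg)
  have hpA : (p, y0) ∈ A := (B.run y0 hz.hy1.le hz.hy2).mem p hz.hp1.le hz.hp2
  have hwl : w ≠ .leg := by
    rintro rfl
    have := (ht (p, y0)).2 (mem_Dp.2 (Or.inl hpA))
    simp [tls] at this
  obtain ⟨a, b, l, h1, h2, h3⟩ := leg_walk (sD B y0 k s) hok hleg hwl
  refine ⟨a, h1, fun hfar => ?_⟩
  -- the port of the leg
  have h4 := (be_iff hok (some b) none).1 h2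
  have h5 : be w none = some b := by
    have h6 : Gs w none (some b) := h2.symm
    exact ((be_iff hok none (some b)).1 h6).1
  have h6 : b = ((p, y0), 3) := by
    rw [hbe] at h5
    have h7 : beD (Dp A B.xl B.xr B.y1 B.y2 k) p y0 (B.xr + k) none = some ((p, y0), 3) := by
      unfold beD
      rw [res_of (portOf_none _)]
      · exact nbD_leg
      · rw [nbD_leg, portOf_some]; exact mem_Dp.2 (Or.inl hpA)
    rw [h7] at h5
    exact (Option.some.inj h5).symm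
  have hw' := wk_conv (wk_map hf g.kR hz hW h3)
  obtain ⟨e0, e1, e2, e3, e4, e5, e6, c1, c2, c3, c4⟩ := g
  refine gates hz (le_refl 0) e1 (by omega) e6 (by omega) c1 c4 hw' ⟨?_, ?_⟩
  · refine ⟨_, List.mem_map_of_mem (f := ED B y0 k) h3.mem_right, Or.inl ⟨(p, y0), ?_⟩⟩
    rw [h6]
    exact eD_A hf hpA
  · exact ⟨_, List.mem_map_of_mem (f := ED B y0 k) h3.mem_left, hfar⟩

/-- **the end of the leg is not deep** -/
theorem leg_deep (hf : Free A B.xl B.xr B.y1 B.y2 k)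
    (hW : GW (Dp A B.xl B.xr B.y1 B.y2 k) (beD (Dp A B.xl B.xr B.y1 B.y2 k) p y0 (B.xr + k)) w)
    (g : Gates4 B p y0 k a' a0 b1 b' hz s) :
    ¬ deepR B y0 k a' (u (sD B y0 k s) w) ∧ ¬ deepL B k b' (u (sD B y0 k s) w) := by
  obtain ⟨a, h1, h2⟩ := leg_near hf hW g
  obtain ⟨e0, e1, e2, e3, e4, e5, e6, -, -, -, -⟩ := g
  rw [h1]
  refine ⟨?_, ?_⟩
  · rintro ⟨x, y, d, h3, h4, h5, h6, h7, h8⟩
    obtain rfl := Option.some.inj h3
    refine h2 ?_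
    have := uc_right (y := y) (y0 := y0) h4 h5
    simp only
    rw [eD_r ⟨⟨h6, h7⟩, h4, h5⟩]
    exact ⟨_, rfl, h8, by omega⟩
  · rintro ⟨x, y, d, h3, h4, h5, h6, h7, h8⟩
    obtain rfl := Option.some.inj h3
    refine h2 ?_
    simp only
    rw [eD_l hf.le ⟨⟨h6, h7⟩, h4, h5⟩]
    refine ⟨_, rfl, ?_, ?_⟩
    · rw [uc_left]; omega
    · rw [uc_left]; exact h8

/-- tile of the right stub beyond the column `a'` -/
def PR (B : Band A) (y0 k a' : ℤ) (t : ℤ × ℤ) : Prop :=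
  (B.y1 ≤ t.2 ∧ t.2 < B.y2 ∧ B.xr < t.1 ∧ t.1 ≤ B.xr + k) ∧ a' < uc y0 (t.1 - B.xr - 1, t.2)

/-- tile of the left stub up to the column `b'` -/
def PL (B : Band A) (k b' : ℤ) (t : ℤ × ℤ) : Prop :=
  (B.y1 ≤ t.2 ∧ t.2 < B.y2 ∧ B.xl - k ≤ t.1 ∧ t.1 < B.xl) ∧ B.R - (B.xl - t.1) ≤ b'

/-- partner of a deep right end -/
theorem stayR (hf : Free A B.xl B.xr B.y1 B.y2 k)
    (hW : GW (Dp A B.xl B.xr B.y1 B.y2 k) (beD (Dp A B.xl B.xr B.y1 B.y2 k) p y0 (B.xr + k)) w)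
    (g : Gates4 B p y0 k a' a0 b1 b' hz s) {x : Port (ℤ × ℤ)} (hx : x ∈ L w)
    (hd : deepR B y0 k a0 x) : deepR B y0 k a' (M (sD B y0 k s) w x) := by
  obtain ⟨hok, -, ht, hbe⟩ := hW.word
  have I := Ok.inv (sD B y0 k s) w hok
  have hu := (leg_deep hf hW g).1
  have hM : M (sD B y0 k s) w x ≠ x := fun h =>
    hu (I.fix _ hx h ▸ deepR_mono g.h1.le hd)
  obtain ⟨q, r, l, rfl, hr, hw, -⟩ := walk_word (sD B y0 k s) hok hx hM
  have hw' := wk_conv (wk_map hf g.kR hz hW hw)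
  obtain ⟨e0, e1, e2, e3, e4, e5, e6, c1, c2, c3, c4⟩ := g
  obtain ⟨X, Y, d, h3, h4, h5, h6, h7, h8⟩ := hd
  obtain rfl := Option.some.inj h3
  have hu1 := uc_right (y := Y) (y0 := y0) h4 h5
  -- the strand is never near
  have hfar : ∀ r ∈ l, eD B y0 k r.1 ∉ Near y0 a' b' := by
    intro r hr hN
    refine gates hz e1.le e2 (by omega) e5 (by omega) c2 c3 hw' ⟨⟨_, List.mem_map_of_mem
      (f := ED B y0 k) hr, hN⟩, ⟨_, List.mem_map_of_mem (f := ED B y0 k) hw.mem_left, ?_⟩⟩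
    show eD B y0 k (X, Y) ∈ Far y0 a0 b1
    rw [eD_r ⟨⟨h6, h7⟩, h4, h5⟩]
    exact ⟨_, rfl, h8, by omega⟩
  have hall := wk_all (P := PR B y0 k a') (N := fun r => eD B y0 k r.1 ∉ Near y0 a' b') ?_ hw
    ⟨⟨h6, h7, h4, h5⟩, by simp only; omega⟩ hfar
  · have h9 : PR B y0 k a' r.1 := hall (Pt266.pass _ r) hw.mem_right
    rw [hr]
    rcases r with ⟨⟨x1, y1'⟩, d1⟩
    exact ⟨x1, y1', d1, rfl, h9.1.2.2.1, h9.1.2.2.2, h9.1.1, h9.1.2.1, h9.2⟩
  · rintro ⟨t1, d1⟩ ⟨t2, d2⟩ hG ⟨⟨g1, g2, g3, g4⟩, g5⟩ hN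
    obtain ⟨m1, m2⟩ := tls_of_gw hok hG
    have hmap := gw_map hf e0 hz hW hG
    simp only [ED] at hmap g1 g2 g3 g4 g5 hN m2 ⊢
    have et1 : eD B y0 k t1 = Sum.inr (t1.1 - B.xr - 1, t1.2) := eD_r ⟨⟨g1, g2⟩, g3, g4⟩
    have hu2 := uc_right (y := t1.2) (y0 := y0) g3 g4
    rcases tile_cases (y0 := y0) hf ((ht _).1 m2) with ⟨-, e⟩ | ⟨f1, e⟩ | ⟨f1, e⟩
    · exact absurd (Or.inl ⟨_, e⟩) hN
    · refine ⟨f1, ?_⟩
      by_contra hcon
      exact hN (Or.inr ⟨_, e, Or.inl (by omega)⟩)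
    · exfalso
      rw [et1, e] at hmap
      have h9 := adj_rr hmap
      rw [uc_left] at h9
      omega

/-- partner of a deep left end -/
theorem stayL (hf : Free A B.xl B.xr B.y1 B.y2 k)
    (hW : GW (Dp A B.xl B.xr B.y1 B.y2 k) (beD (Dp A B.xl B.xr B.y1 B.y2 k) p y0 (B.xr + k)) w)
    (g : Gates4 B p y0 k a' a0 b1 b' hz s) {x : Port (ℤ × ℤ)} (hx : x ∈ L w)
    (hd : deepL B k b1 x) : deepL B k b' (M (sD B y0 k s) w x) := by
  obtain ⟨hok, -, ht, hbe⟩ := hW.word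
  have I := Ok.inv (sD B y0 k s) w hok
  have hu := (leg_deep hf hW g).2
  have hM : M (sD B y0 k s) w x ≠ x := fun h =>
    hu (I.fix _ hx h ▸ deepL_mono g.h4.le hd)
  obtain ⟨q, r, l, rfl, hr, hw, -⟩ := walk_word (sD B y0 k s) hok hx hM
  have hw' := wk_conv (wk_map hf g.kR hz hW hw)
  obtain ⟨e0, e1, e2, e3, e4, e5, e6, c1, c2, c3, c4⟩ := g
  obtain ⟨X, Y, d, h3, h4, h5, h6, h7, h8⟩ := hd
  obtain rfl := Option.some.inj h3
  -- the strand is never near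
  have hfar : ∀ r ∈ l, eD B y0 k r.1 ∉ Near y0 a' b' := by
    intro r hr hN
    refine gates hz e1.le e2 (by omega) e5 (by omega) c2 c3 hw' ⟨⟨_, List.mem_map_of_mem
      (f := ED B y0 k) hr, hN⟩, ⟨_, List.mem_map_of_mem (f := ED B y0 k) hw.mem_left, ?_⟩⟩
    show eD B y0 k (X, Y) ∈ Far y0 a0 b1
    rw [eD_l hf.le ⟨⟨h6, h7⟩, h4, h5⟩]
    exact ⟨_, rfl, by rw [uc_left]; omega, by rw [uc_left]; omega⟩
  have hall := wk_all (P := PL B k b') (N := fun r => eD B y0 k r.1 ∉ Near y0 a' b') ?_ hw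
    ⟨⟨h6, h7, h4, h5⟩, by simp only; omega⟩ hfar
  · have h9 : PL B k b' r.1 := hall (Pt266.pass _ r) hw.mem_right
    rw [hr]
    rcases r with ⟨⟨x1, y1'⟩, d1⟩
    exact ⟨x1, y1', d1, rfl, h9.1.2.2.1, h9.1.2.2.2, h9.1.1, h9.1.2.1, h9.2⟩
  · rintro ⟨t1, d1⟩ ⟨t2, d2⟩ hG ⟨⟨g1, g2, g3, g4⟩, g5⟩ hN
    obtain ⟨m1, m2⟩ := tls_of_gw hok hG
    have hmap := gw_map hf e0 hz hW hG
    simp only [ED] at hmap g1 g2 g3 g4 g5 hN m2 ⊢
    have et1 : eD B y0 k t1 = Sum.inr (B.wd y0 t1.2 - (B.xl - t1.1), t1.2) :=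
      eD_l hf.le ⟨⟨g1, g2⟩, g3, g4⟩
    rcases tile_cases (y0 := y0) hf ((ht _).1 m2) with ⟨-, e⟩ | ⟨f1, e⟩ | ⟨f1, e⟩
    · exact absurd (Or.inl ⟨_, e⟩) hN
    · exfalso
      rw [et1, e] at hmap
      have h9 := adj_rr hmap
      rw [uc_left] at h9
      have hu2 := uc_right (y := t2.2) (y0 := y0) f1.2.2.1 f1.2.2.2
      omega
    · refine ⟨f1, ?_⟩
      by_contra hcon
      exact hN (Or.inr ⟨_, e, Or.inr (by rw [uc_left]; omega)⟩)

end main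

end Crest.Agent.R158.Qe249
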