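import Crest.Agent.R158.Qe3_249
import Crest.Agent.R158.Dp1_440
import Crest.Agent.R158.Dr6_945
import Crest.Agent.R158.Zc6_180

/-!
# R158, Q1c, `V_{D+}` and the deep ends of the stubs (helper249), file Qe4

* `Deep` : deep ends of both stubs; `not_deep` : ports of tiles of `A` are not deep
* **`deep_zero`** : gates closed ⟹ the deep ends do not contribute (`Sm = 0`)
* `VJ` : the observable without the deep ends; **`HV_gate`** : gates closed ⟹ `HV = VJ`;
  **`norm_HV_sub_VJ`** : always `≤ 7/2`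
* `Pm`, `gateS` : the set of splittings with the four gates closed, `gateS_dep`, **`gateS_prob`**
* **`HW_gate`** : `‖HW w m1 m2 m3 - ∫ VJ (sD s)‖ ≤ 7/2 · P(gates open)`
* `badD` : the same event for splittings of `Dp`; **`badD_law`**, **`badD_zero`**
-/

set_option autoImplicit false
set_option linter.unusedVariables false
set_option linter.unusedSectionVars false

noncomputable section

namespace Crest.Agent.R158.Qe249

open Crest.Agent.R158.Al194 Crest.Agent.R158.Vt300 Crest.Agent.R158.Sw300 Crest.Agent.R158.Ob664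
open Crest.Agent.R158.Env664 (portOf_some portOf_none PortOf beD Band TG Run nbD nbD_leg res_of)
open Crest.Agent.R158.Xr249 (Dp mem_Dp Free Nx rot rot_some full full_h full_v gb gb_beD Reg eD eD_r
  eD_l eD_A eD_inj eD_glue pm pm_some pm_none)
open Crest.Agent.R158.Zg180 (uc uc_lt uc_ge Gq gates gate Near Far adj_rr se gate_prob closed_dep)
open Crest.Agent.R158.Zc180 (Cf gate_dep)
open Crest.Agent.R158.Rs689 (PB hf Dep)
open Crest.Agent.R158.Nm211 (DepF)
open MeasureTheory Finset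

variable {A : Finset (ℤ × ℤ)} {B : Band A} {p y0 k : ℤ}

/-- deep ends of both stubs -/
def Deep (B : Band A) (y0 k a b : ℤ) (x : Port (ℤ × ℤ)) : Prop :=
  deepR B y0 k a x ∨ deepL B k b x

/-- ports of tiles of `A` are not deep -/
theorem not_deep (hf : Free A B.xl B.xr B.y1 B.y2 k) {a b : ℤ} {t : ℤ × ℤ} (ht : t ∈ A)
    (d : ZMod 4) : ¬ Deep B y0 k a b (some (t, d)) := by
  rintro (⟨x, y, d', h1, h2, h3, h4, h5, -⟩ | ⟨x, y, d', h1, h2, h3, h4, h5, -⟩)
  · obtain ⟨rfl, -⟩ := Prod.mk.inj (Option.some.inj h1)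
    exact hf.right x y h2 (by omega) (by omega) (by omega) ht
  · obtain ⟨rfl, -⟩ := Prod.mk.inj (Option.some.inj h1)
    exact hf.left x y h3 (by omega) (by omega) (by omega) ht

section gen

variable {T : Type*} [DecidableEq T] {w : Wd T} {s : T → Bool}

/-- the term of the mark sum at the end with index `j` -/
def SmP (w : Wd T) (s : T → Bool) (m1 m2 : Port T) (j : ℕ) : ℂ :=
  Sm (piL (L w) (M s w) m1) (L w).length ((rotl (L w) m1).idxOf (u s w)) 0
    ((rotl (L w) m1).idxOf m2) j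

lemma SmP_hL (h : Ok w) {m1 : Port T} (m2 : Port T) (hm : m1 ∈ L w) (j : ℕ) :
    SmP w s m1 m2 j = hL s w (fun x => (cM (L w) m1 m2 j x : ℝ)) := Sm_port h hm

/-- an end of a block (without marks and leg) joined to an end of the block does not contribute -/
theorem SmP_zero (h : Ok w) {m1 m2 : Port T} (hm1 : m1 ∈ L w) (hm2 : m2 ∈ L w) {P : Port T → Prop}
    (hc : Cvx fun i => i < (L w).length ∧ P (enL (L w) m1 i)) (hu : ¬ P (u s w)) (h2 : ¬ P m2)
    {j : ℕ} (hj : j < (L w).length) (hP : P (enL (L w) m1 j)) (hM : P (M s w (enL (L w) m1 j))) :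
    SmP w s m1 m2 j = 0 := by
  have hN := nckL s h hm1
  have e2 : enL (L w) m1 ((rotl (L w) m1).idxOf m2) = m2 := enL_idL (m1 := m1) hm2
  have eu : enL (L w) m1 ((rotl (L w) m1).idxOf (u s w)) = u s w := enL_ku h
  have l2 : (rotl (L w) m1).idxOf m2 < (L w).length := idL_lt (m1 := m1) hm2
  refine Sm_zero_of_cvx (P := fun i => i < (L w).length ∧ P (enL (L w) m1 i)) hN hc ?_ ?_ l2.le hj
    ⟨hj, hP⟩ ⟨hN.mem j hj, ?_⟩
  · rintro ⟨-, h'⟩
    rw [eu] at h'
    exact hu h'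
  · rintro ⟨-, h'⟩
    rw [e2] at h'
    exact h2 h'
  · rw [enL_piL h hj]
    exact hM

end gen

section main

variable {w : Wd (ℤ × ℤ)} {s : TG → Bool} {a' a0 b1 b' : ℤ} {hz : B.At p y0}

/-- **deep ends do not contribute** -/
theorem deep_zero (hf : Free A B.xl B.xr B.y1 B.y2 k)
    (hW : GW (Dp A B.xl B.xr B.y1 B.y2 k) (beD (Dp A B.xl B.xr B.y1 B.y2 k) p y0 (B.xr + k)) w)
    (g : Gates4 B p y0 k a' a0 b1 b' hz s) {m1 m2 : Port (ℤ × ℤ)} (hm1 : m1 ∈ L w)
    (hm2 : m2 ∈ L w) (hn1 : ¬ Deep B y0 k a' b' m1) (hn2 : ¬ Deep B y0 k a' b' m2) {j : ℕ}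
    (hj : j < (L w).length) (hd : Deep B y0 k a0 b1 (enL (L w) m1 j)) :
    SmP w (sD B y0 k s) m1 m2 j = 0 := by
  have hok := hW.word.1
  have hu := leg_deep hf hW g
  have hmem : enL (L w) m1 j ∈ L w := enL_mem hj
  obtain ⟨c0, c1, c2, c3, c4, c5, c6, -, -, -, -⟩ := id g
  rcases hd with hd | hd
  · exact SmP_zero hok hm1 hm2 (P := deepR B y0 k a')
      (deepR_cvx hf hz c1.le (by omega) hW hm1 fun h => hn1 (Or.inl h)) hu.1
      (fun h => hn2 (Or.inl h)) hj (deepR_mono c2.le hd) (stayR hf hW g hmem hd)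
  · exact SmP_zero hok hm1 hm2 (P := deepL B k b')
      (deepL_cvx hf hz (by omega) (by omega) hW hm1 fun h => hn1 (Or.inr h)) hu.2
      (fun h => hn2 (Or.inr h)) hj (deepL_mono c5.le hd) (stayL hf hW g hmem hd)

/-- the same for the boundary weight -/
theorem deep_hL (hf : Free A B.xl B.xr B.y1 B.y2 k)
    (hW : GW (Dp A B.xl B.xr B.y1 B.y2 k) (beD (Dp A B.xl B.xr B.y1 B.y2 k) p y0 (B.xr + k)) w)
    (g : Gates4 B p y0 k a' a0 b1 b' hz s) {m1 m2 : Port (ℤ × ℤ)} (hm1 : m1 ∈ L w)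
    (hm2 : m2 ∈ L w) (hn1 : ¬ Deep B y0 k a' b' m1) (hn2 : ¬ Deep B y0 k a' b' m2) {j : ℕ}
    (hj : j < (L w).length) (hd : Deep B y0 k a0 b1 (enL (L w) m1 j)) :
    hL (sD B y0 k s) w (fun x => (cM (L w) m1 m2 j x : ℝ)) = 0 := by
  rw [← SmP_hL hW.word.1 m2 hm1]
  exact deep_zero hf hW g hm1 hm2 hn1 hn2 hj hd

end main

section obs

variable {T : Type*} [DecidableEq T] {w : Wd T} {s : T → Bool}

open Classical in
/-- the observable with the ends in `P` dropped -/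
def VJ (w : Wd T) (m1 m2 m3 : Port T) (P : Port T → Prop) (s : T → Bool) : ℂ :=
  (∑ j ∈ (Ico ((rotl (L w) m1).idxOf m2) ((rotl (L w) m1).idxOf m3)).filter
      (fun j => ¬ P (enL (L w) m1 j)), hL s w (fun x => (cM (L w) m1 m2 j x : ℝ))) / 2
    + hL s w (fun x => (cS (L w) m1 m2 ((rotl (L w) m1).idxOf m2) x : ℝ)) / 2

open Classical in
lemma HV_eq_VJ (h : Ok w) {m1 m2 m3 : Port T} (hM : Mk w m1 m2 m3) (P : Port T → Prop)
    (s : T → Bool) : HV w m1 m2 m3 s = VJ w m1 m2 m3 P s +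
      (∑ j ∈ (Ico ((rotl (L w) m1).idxOf m2) ((rotl (L w) m1).idxOf m3)).filter
        (fun j => P (enL (L w) m1 j)), hL s w (fun x => (cM (L w) m1 m2 j x : ℝ))) / 2 := by
  rw [HV_mid h hM s, VJ, ← Finset.sum_filter_add_sum_filter_not
    (Ico ((rotl (L w) m1).idxOf m2) ((rotl (L w) m1).idxOf m3)) (fun j => P (enL (L w) m1 j))]
  ring

/-- **dropping ends costs at most `7/2`** -/
theorem norm_HV_sub_VJ (h : Ok w) {m1 m2 m3 : Port T} (hM : Mk w m1 m2 m3) (P : Port T → Prop)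
    (s : T → Bool) : ‖HV w m1 m2 m3 s - VJ w m1 m2 m3 P s‖ ≤ 7 / 2 := by
  classical
  rw [HV_eq_VJ h hM P s, add_sub_cancel_left, norm_div]
  have hN := nckL s h hM.1
  have h3 : (rotl (L w) m1).idxOf m3 < (L w).length := idL_lt (m1 := m1) hM.2.2.1
  have h2 := hM.lt h
  have key := hN.norm_drop (x1 := 0) (x2 := (rotl (L w) m1).idxOf m2) (Nat.zero_le _) (by omega)
    ((Ico ((rotl (L w) m1).idxOf m2) ((rotl (L w) m1).idxOf m3)).filter
        (fun j => P (enL (L w) m1 j))) (fun e he => by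
      rw [mem_filter, mem_Ico] at he; omega)
  have e : ∀ j, Sm (piL (L w) (M s w) m1) (L w).length ((rotl (L w) m1).idxOf (u s w)) 0
      ((rotl (L w) m1).idxOf m2) j = hL s w (fun x => (cM (L w) m1 m2 j x : ℝ)) := fun j =>
    Sm_port h hM.1
  simp only [e] at key
  have e2 : ‖(2 : ℂ)‖ = 2 := by simp
  rw [e2]
  linarith

/-- if the dropped ends do not contribute, nothing is lost -/
theorem HV_eq_of_zero (h : Ok w) {m1 m2 m3 : Port T} (hM : Mk w m1 m2 m3) {P : Port T → Prop}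
    (h0 : ∀ j, j < (L w).length → P (enL (L w) m1 j) →
      hL s w (fun x => (cM (L w) m1 m2 j x : ℝ)) = 0) :
    HV w m1 m2 m3 s = VJ w m1 m2 m3 P s := by
  classical
  rw [HV_eq_VJ h hM P, Finset.sum_eq_zero]
  · simp
  · intro j hj
    rw [mem_filter, mem_Ico] at hj
    have h3 : (rotl (L w) m1).idxOf m3 < (L w).length := idL_lt (m1 := m1) hM.2.2.1
    exact h0 j (by omega) hj.2

theorem measurable_VJ (w : Wd T) (m1 m2 m3 : Port T) (P : Port T → Prop) :
    Measurable (VJ w m1 m2 m3 P) := by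
  unfold VJ
  exact ((Finset.measurable_sum _ fun j _ => measurable_hL w _).div_const 2).add
    ((measurable_hL w _).div_const 2)

theorem integrable_VJ (w : Wd T) (m1 m2 m3 : Port T) (P : Port T → Prop) :
    Integrable (VJ w m1 m2 m3 P) (PB fun _ : T => hf) := by
  unfold VJ
  exact ((integrable_finsetSum _ fun j _ => integrable_hL w _).div_const 2).add
    ((integrable_hL w _).div_const 2)

end obs

/-- **on closed gates the deep ends may be dropped** -/
theorem HV_gate {w : Wd (ℤ × ℤ)} {s : TG → Bool} {a' a0 b1 b' : ℤ} {hz : B.At p y0}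
    (hf : Free A B.xl B.xr B.y1 B.y2 k)
    (hW : GW (Dp A B.xl B.xr B.y1 B.y2 k) (beD (Dp A B.xl B.xr B.y1 B.y2 k) p y0 (B.xr + k)) w)
    (g : Gates4 B p y0 k a' a0 b1 b' hz s) {m1 m2 m3 : Port (ℤ × ℤ)} (hM : Mk w m1 m2 m3)
    (hn1 : ¬ Deep B y0 k a' b' m1) (hn2 : ¬ Deep B y0 k a' b' m2) :
    HV w m1 m2 m3 (sD B y0 k s) = VJ w m1 m2 m3 (Deep B y0 k a0 b1) (sD B y0 k s) :=
  HV_eq_of_zero hW.word.1 hM fun j hj hd => deep_hL hf hW g hM.1 hM.2.1 hn1 hn2 hj hd

/-! ### the event -/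

/-- parameters of the four gates -/
structure Pm (B : Band A) (k a' a0 b1 b' : ℤ) : Prop where
  kR : 2 * k < B.R
  h0 : 0 < a'
  h1 : a' < a0
  h2 : a0 + 2 < k
  h3 : B.R - k ≤ b1
  h4 : b1 < b'
  h5 : b' < B.R - 2

section event

variable {a' a0 b1 b' : ℤ}

/-- the four gates are closed -/
def gateS (hz : B.At p y0) (P : Pm B k a' a0 b1 b') : Set (TG → Bool) :=
  ({s | (gate hz (a0 := 0) (a1 := a') (le_refl 0) P.h0
      (by have := P.kR; have := P.h0; have := P.h1; have := P.h2; omega)).Closed s} ∩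
   {s | (gate hz (a0 := a') (a1 := a0) P.h0.le P.h1
      (by have := P.kR; have := P.h0; have := P.h1; have := P.h2; omega)).Closed s}) ∩
  ({s | (gate hz (a0 := b1) (a1 := b')
      (by have := P.kR; have := P.h3; have := P.h0; have := P.h1; have := P.h2; omega) P.h4
      (by have := P.h5; omega)).Closed s} ∩
   {s | (gate hz (a0 := b') (a1 := B.R - 2)
      (by have := P.kR; have := P.h3; have := P.h4; have := P.h0; have := P.h1; have := P.h2
          omega) P.h5 (by omega)).Closed s})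

theorem gateS_iff {hz : B.At p y0} {P : Pm B k a' a0 b1 b'} {s : TG → Bool} :
    s ∈ gateS hz P ↔ Gates4 B p y0 k a' a0 b1 b' hz s := by
  constructor
  · rintro ⟨⟨h1, h2⟩, h3, h4⟩
    exact ⟨P.kR, P.h0, P.h1, P.h2, P.h3, P.h4, P.h5, h1, h2, h3, h4⟩
  · intro g
    exact ⟨⟨g.R1, g.R2⟩, g.L1, g.L2⟩

theorem gateS_dep (hz : B.At p y0) (P : Pm B k a' a0 b1 b') :
    Dep ((Cf B y0 0 a' ∪ Cf B y0 a' a0) ∪ (Cf B y0 b1 b' ∪ Cf B y0 b' (B.R - 2)))
      (gateS hz P) := by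
  refine Dep.inter ((Dep.inter ((gate_dep hz _ _ _).mono subset_union_left)
    ((gate_dep hz _ _ _).mono subset_union_right)).mono subset_union_left)
    ((Dep.inter ((gate_dep hz _ _ _).mono subset_union_left)
    ((gate_dep hz _ _ _).mono subset_union_right)).mono subset_union_right)

theorem gateS_meas (hz : B.At p y0) (P : Pm B k a' a0 b1 b') : MeasurableSet (gateS hz P) :=
  (gateS_dep hz P).measurableSet

/-- **the gates are closed with high probability** -/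
theorem gateS_prob : ∃ q : ℝ, 0 < q ∧ q < 1 ∧ ∀ (A : Finset (ℤ × ℤ)) (B : Band A)
    (p y0 k a' a0 b1 b' : ℤ) (hz : B.At p y0) (P : Pm B k a' a0 b1 b') (h N : ℕ), 1 ≤ h →
    B.y2 = B.y1 + h → (N : ℤ) * h ≤ a' → (N : ℤ) * h ≤ a0 - a' → (N : ℤ) * h ≤ b' - b1 →
    (N : ℤ) * h ≤ B.R - 2 - b' →
    (PB fun _ : TG => hf).real (gateS hz P)ᶜ ≤ 4 * q ^ N := by
  obtain ⟨q, hq, hq1, hg⟩ := gate_prob.{0}
  refine ⟨q, hq, hq1, fun A B p y0 k a' a0 b1 b' hz P h N hh hy e1 e2 e3 e4 => ?_⟩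
  have g0 := P.kR
  have g1 := P.h0
  have g2 := P.h1
  have g3 := P.h2
  have g4 := P.h3
  have g5 := P.h4
  have g6 := P.h5
  have key : ∀ (c0 c1 : ℤ) (h0 : 0 ≤ c0) (h01 : c0 < c1) (h1 : c1 + 1 < B.R),
      (N : ℤ) * h ≤ c1 - c0 →
      (PB fun _ : TG => hf).real {s | (gate hz h0 h01 h1).Closed s}ᶜ ≤ q ^ N := by
    intro c0 c1 h0 h01 h1 e
    refine hg _ _ (gate hz h0 h01 h1) h N hh ?_ ?_
    · show B.y2 - 1 = B.y1 - 1 + h
      omega
    · show c0 + N * h ≤ c1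
      omega
  have k1 := key 0 a' le_rfl P.h0 (by omega) (by omega)
  have k2 := key a' a0 P.h0.le P.h1 (by omega) (by omega)
  have k3 := key b1 b' (by omega) P.h4 (by omega) (by omega)
  have k4 := key b' (B.R - 2) (by omega) P.h5 (by omega) (by omega)
  unfold gateS
  rw [Set.compl_inter, Set.compl_inter, Set.compl_inter]
  refine (measureReal_union_le _ _).trans ?_
  have a1 := measureReal_union_le (μ := PB fun _ : TG => hf)
    {s | (gate hz (a0 := 0) (a1 := a') (le_refl 0) P.h0 (by omega)).Closed s}ᶜ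
    {s | (gate hz (a0 := a') (a1 := a0) P.h0.le P.h1 (by omega)).Closed s}ᶜ
  have a2 := measureReal_union_le (μ := PB fun _ : TG => hf)
    {s | (gate hz (a0 := b1) (a1 := b') (by omega) P.h4 (by omega)).Closed s}ᶜ
    {s | (gate hz (a0 := b') (a1 := B.R - 2) (by omega) P.h5 (by omega)).Closed s}ᶜ
  linarith

end event

/-! ### the mean -/

section mean

variable {w : Wd (ℤ × ℤ)} {a' a0 b1 b' : ℤ}

lemma sD_comp (s : TG → Bool) : sD B y0 k s = s ∘ eD B y0 k := rfl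

lemma eD_injOn (hf : Free A B.xl B.xr B.y1 B.y2 k) (hR : 2 * k < B.R)
    (hW : GW (Dp A B.xl B.xr B.y1 B.y2 k) (beD (Dp A B.xl B.xr B.y1 B.y2 k) p y0 (B.xr + k)) w) :
    Set.InjOn (eD B y0 k) {t | t ∈ tls w} := by
  rintro ⟨x, y⟩ h1 ⟨x', y'⟩ h2 e
  exact eD_inj hf hR ((hW.word.2.2.1 _).1 h1) ((hW.word.2.2.1 _).1 h2) e

/-- **the mean observable of `D+` and the mean of `VJ`** -/
theorem HW_gate (hf : Free A B.xl B.xr B.y1 B.y2 k) (hz : B.At p y0) (P : Pm B k a' a0 b1 b')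
    (hW : GW (Dp A B.xl B.xr B.y1 B.y2 k) (beD (Dp A B.xl B.xr B.y1 B.y2 k) p y0 (B.xr + k)) w)
    {m1 m2 m3 : Port (ℤ × ℤ)} (hM : Mk w m1 m2 m3)
    (hn1 : ¬ Deep B y0 k a' b' m1) (hn2 : ¬ Deep B y0 k a' b' m2) :
    ‖HW w m1 m2 m3 - ∫ s, VJ w m1 m2 m3 (Deep B y0 k a0 b1) (sD B y0 k s) ∂(PB fun _ : TG => Rs689.hf)‖
      ≤ 7 / 2 * (PB fun _ : TG => Rs689.hf).real (gateS hz P)ᶜ := by
  obtain ⟨i1, e1⟩ := Dr945.hv_comp w m1 m2 m3 (eD_injOn hf P.kR hW)
  have i2 : Integrable (fun s : TG → Bool => VJ w m1 m2 m3 (Deep B y0 k a0 b1) (sD B y0 k s))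
      (PB fun _ : TG => Rs689.hf) := by
    have hm : Measurable fun s : TG → Bool => VJ w m1 m2 m3 (Deep B y0 k a0 b1) (sD B y0 k s) :=
      (measurable_VJ w m1 m2 m3 _).comp (measurable_pi_lambda _ fun t => measurable_pi_apply _)
    have hb : Integrable (fun s : TG → Bool => HV w m1 m2 m3 (s ∘ eD B y0 k) -
        (HV w m1 m2 m3 (s ∘ eD B y0 k) - VJ w m1 m2 m3 (Deep B y0 k a0 b1) (sD B y0 k s)))
        (PB fun _ : TG => Rs689.hf) := by
      refine i1.sub (Integrable.of_bound (i1.aestronglyMeasurable.sub hm.aestronglyMeasurable)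
        (7 / 2) (Filter.Eventually.of_forall fun s => ?_))
      exact norm_HV_sub_VJ hW.word.1 hM _ _
    simpa using hb
  rw [← e1, ← integral_sub i1 i2]
  refine (norm_integral_le_integral_norm _).trans ?_
  have hle : ∀ s : TG → Bool, ‖HV w m1 m2 m3 (s ∘ eD B y0 k) -
      VJ w m1 m2 m3 (Deep B y0 k a0 b1) (sD B y0 k s)‖ ≤
      ((gateS hz P)ᶜ).indicator (fun _ => (7 / 2 : ℝ)) s := by
    intro s
    by_cases hs : s ∈ gateS hz P
    · have e := HV_gate hf hW (gateS_iff.1 hs) hM hn1 hn2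
      rw [Set.indicator_of_notMem (by simpa using hs)]
      rw [show HV w m1 m2 m3 (s ∘ eD B y0 k) = HV w m1 m2 m3 (sD B y0 k s) from rfl, e]
      simp
    · rw [Set.indicator_of_mem (by simpa using hs)]
      exact norm_HV_sub_VJ hW.word.1 hM _ _
  refine (integral_mono (i1.sub i2).norm
    ((integrable_const _).indicator (gateS_meas hz P).compl) hle).trans ?_
  rw [integral_indicator_const _ (gateS_meas hz P).compl, smul_eq_mul]
  linarith

end mean

end Crest.Agent.R158.Qe249
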