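import Mathlib

/-!
# Row 158 (helper808), QM4, part 1: from the point bounds and quasi-multiplicativity to the annulus form

`annulus_of_point` : if `P n = n^(-a + o(1))`, `T` is decreasing in the inner radius, and
`P k * T k l ≤ n^ε P l` for `k0(ε) ≤ k`, `A(ε) k ≤ l ≤ n`, then `T k l ≤ n^{o(1)} (k/l)^a` for all
`1 ≤ k ≤ l ≤ n`.
-/

set_option autoImplicit false

noncomputable section

namespace Crest.Agent.R158.Qf808

open Filter MeasureTheory

theorem annulus_of_point {P : ℕ → ℝ} {T : ℕ → ℕ → ℝ} {a : ℝ} (ha : 0 < a)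
    (hT1 : ∀ k l, T k l ≤ 1)
    (hTm : ∀ k k' l, 1 ≤ k → k ≤ k' → k' ≤ l → T k l ≤ T k' l)
    (up : ∀ ε : ℝ, 0 < ε → ∀ᶠ n : ℕ in atTop, P n ≤ (n : ℝ) ^ (-a + ε))
    (lo : ∀ ε : ℝ, 0 < ε → ∀ᶠ n : ℕ in atTop, (n : ℝ) ^ (-a - ε) ≤ P n)
    (qm : ∀ ε : ℝ, 0 < ε → ∃ k0 A : ℕ, ∀ᶠ n : ℕ in atTop, ∀ k l : ℕ, k0 ≤ k → A * k ≤ l → l ≤ n →
      P k * T k l ≤ (n : ℝ) ^ ε * P l) :
    ∀ ε : ℝ, 0 < ε → ∀ᶠ n : ℕ in atTop, ∀ k l : ℕ, 1 ≤ k → k ≤ l → l ≤ n →
      T k l ≤ (n : ℝ) ^ ε * ((k : ℝ) / l) ^ a := by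
  intro ε hε
  obtain ⟨n1, hn1⟩ := eventually_atTop.1 (up (ε / 8) (by positivity))
  obtain ⟨n2, hn2⟩ := eventually_atTop.1 (lo (ε / 8) (by positivity))
  obtain ⟨k0, A, hqm⟩ := qm (ε / 8) (by positivity)
  set k1 : ℕ := max (max n1 n2) (max k0 1) with hk1
  have hk1' : 1 ≤ k1 := (le_max_right k0 1).trans (le_max_right _ _)
  -- `n^(ε/4)` dominates constants
  have hconst : ∀ᶠ n : ℕ in atTop, ((max A 1 * k1 : ℕ) : ℝ) ^ a ≤ (n : ℝ) ^ (ε / 4) := by
    have h1 : Tendsto (fun n : ℕ => (n : ℝ) ^ (ε / 4)) atTop atTop :=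
      (tendsto_rpow_atTop (by positivity)).comp tendsto_natCast_atTop_atTop
    exact h1.eventually_ge_atTop _
  filter_upwards [hconst, hqm, eventually_ge_atTop 1] with n h1 h2 hn
  have hN : (1 : ℝ) ≤ n := by exact_mod_cast hn
  have hN0 : (0 : ℝ) < n := by linarith
  -- large `k`
  have hlarge : ∀ k l : ℕ, k1 ≤ k → k ≤ l → l ≤ n →
      T k l ≤ (n : ℝ) ^ (ε / 2) * ((k : ℝ) / l) ^ a := by
    intro k l hk hkl hl
    have hk0 : (1 : ℝ) ≤ k := by exact_mod_cast hk1'.trans hk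
    have hk00 : (0 : ℝ) < k := by linarith
    have hl0 : (0 : ℝ) < l := lt_of_lt_of_le hk00 (by exact_mod_cast hkl)
    have hl1 : (1 : ℝ) ≤ l := hk0.trans (by exact_mod_cast hkl)
    have hln : (l : ℝ) ≤ n := by exact_mod_cast hl
    have hkn : (k : ℝ) ≤ n := by exact_mod_cast hkl.trans hl
    rcases lt_or_ge l (A * k) with hA | hA
    · -- comparable radii
      have h3 : 1 ≤ (n : ℝ) ^ (ε / 2) * ((k : ℝ) / l) ^ a := by
        have h4 : (l : ℝ) ≤ (max A 1 * k1 : ℕ) * k := by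
          have h5 : l ≤ (max A 1 * k1) * k := by
            calc l ≤ A * k := hA.le
              _ ≤ (max A 1 * k1) * k := by
                  refine Nat.mul_le_mul_right _ ?_
                  calc A ≤ max A 1 * 1 := by simp
                    _ ≤ max A 1 * k1 := Nat.mul_le_mul_left _ hk1'
          exact_mod_cast h5
        have h6 : (1 : ℝ) ≤ ((max A 1 * k1 : ℕ) : ℝ) * ((k : ℝ) / l) := by
          rw [← mul_div_assoc, le_div_iff₀ hl0, one_mul]
          exact h4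
        have h7 : (1 : ℝ) ≤ ((max A 1 * k1 : ℕ) : ℝ) ^ a * ((k : ℝ) / l) ^ a := by
          rw [← Real.mul_rpow (Nat.cast_nonneg _) (div_pos hk00 hl0).le]
          exact Real.one_le_rpow h6 ha.le
        refine h7.trans (mul_le_mul_of_nonneg_right (h1.trans ?_)
          (Real.rpow_nonneg (div_pos hk00 hl0).le _))
        exact Real.rpow_le_rpow_of_exponent_le hN (by linarith)
      exact (hT1 k l).trans h3
    · have h3 := h2 k l (((le_max_left k0 1).trans (le_max_right _ _)).trans hk) hA hl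
      have h4 : (k : ℝ) ^ (-a - ε / 8) ≤ P k :=
        hn2 k (((le_max_right n1 n2).trans (le_max_left _ _)).trans hk)
      have h5 : P l ≤ (l : ℝ) ^ (-a + ε / 8) :=
        hn1 l ((((le_max_left n1 n2).trans (le_max_left _ _)).trans hk).trans hkl)
      have hPk : 0 < P k := lt_of_lt_of_le (Real.rpow_pos_of_pos hk00 _) h4
      have h6 : T k l ≤ (n : ℝ) ^ (ε / 8) * P l / P k := by
        rw [le_div_iff₀ hPk]; linarith [mul_comm (P k) (T k l)]
      refine h6.trans ?_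
      have hn8 : 0 ≤ (n : ℝ) ^ (ε / 8) := Real.rpow_nonneg hN0.le _
      have h7 : (n : ℝ) ^ (ε / 8) * P l / P k ≤
          (n : ℝ) ^ (ε / 8) * (l : ℝ) ^ (-a + ε / 8) / (k : ℝ) ^ (-a - ε / 8) := by
        have hP : 0 ≤ (l : ℝ) ^ (-a + ε / 8) := Real.rpow_nonneg hl0.le _
        refine div_le_div₀ (mul_nonneg hn8 hP) (mul_le_mul_of_nonneg_left h5 hn8)
          (Real.rpow_pos_of_pos hk00 _) h4
      refine h7.trans ?_
      have e1 : (n : ℝ) ^ (ε / 8) * (l : ℝ) ^ (-a + ε / 8) / (k : ℝ) ^ (-a - ε / 8) =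
          (n : ℝ) ^ (ε / 8) * (l : ℝ) ^ (ε / 8) * (k : ℝ) ^ (ε / 8) * ((k : ℝ) / l) ^ a := by
        rw [Real.div_rpow hk00.le hl0.le, Real.rpow_add hl0, sub_eq_add_neg, Real.rpow_add hk00,
          Real.rpow_neg hl0.le, Real.rpow_neg hk00.le, Real.rpow_neg hk00.le]
        have p1 := Real.rpow_pos_of_pos hk00 a
        have p2 := Real.rpow_pos_of_pos hl0 a
        have p3 := Real.rpow_pos_of_pos hk00 (ε / 8)
        field_simp
      rw [e1]
      refine mul_le_mul_of_nonneg_right ?_ (Real.rpow_nonneg (div_pos hk00 hl0).le _)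
      have h8 : (l : ℝ) ^ (ε / 8) ≤ (n : ℝ) ^ (ε / 8) :=
        Real.rpow_le_rpow hl0.le hln (by positivity)
      have h9 : (k : ℝ) ^ (ε / 8) ≤ (n : ℝ) ^ (ε / 8) :=
        Real.rpow_le_rpow hk00.le hkn (by positivity)
      have h10 : (n : ℝ) ^ (ε / 8) * (n : ℝ) ^ (ε / 8) * (n : ℝ) ^ (ε / 8) ≤
          (n : ℝ) ^ (ε / 2) := by
        rw [← Real.rpow_add hN0, ← Real.rpow_add hN0]
        exact Real.rpow_le_rpow_of_exponent_le hN (by linarith)
      refine le_trans ?_ h10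
      have q1 : 0 ≤ (l : ℝ) ^ (ε / 8) := Real.rpow_nonneg hl0.le _
      have q2 : 0 ≤ (k : ℝ) ^ (ε / 8) := Real.rpow_nonneg hk00.le _
      exact mul_le_mul (mul_le_mul_of_nonneg_left h8 hn8) h9 q2 (mul_nonneg hn8 hn8)
  intro k l hk hkl hl
  have hk0 : (1 : ℝ) ≤ k := by exact_mod_cast hk
  have hk00 : (0 : ℝ) < k := by linarith
  have hl0 : (0 : ℝ) < l := lt_of_lt_of_le hk00 (by exact_mod_cast hkl)
  have hR : 0 ≤ ((k : ℝ) / l) ^ a := Real.rpow_nonneg (div_pos hk00 hl0).le _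
  rcases le_or_gt k1 k with hk' | hk'
  · refine (hlarge k l hk' hkl hl).trans (mul_le_mul_of_nonneg_right ?_ hR)
    exact Real.rpow_le_rpow_of_exponent_le hN (by linarith)
  · -- small `k`
    have key : ∀ x : ℝ, 0 < x → x ≤ (k1 : ℝ) * k →
        (x / l) ^ a ≤ (n : ℝ) ^ (ε / 4) * ((k : ℝ) / l) ^ a := by
      intro x hx hxk
      have h3 : (x / l) ^ a ≤ ((k1 : ℝ) ^ a) * ((k : ℝ) / l) ^ a := by
        rw [← Real.mul_rpow (Nat.cast_nonneg _) (div_pos hk00 hl0).le]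
        refine Real.rpow_le_rpow (div_pos hx hl0).le ?_ ha.le
        rw [← mul_div_assoc]
        exact div_le_div_of_nonneg_right hxk hl0.le
      refine h3.trans (mul_le_mul_of_nonneg_right (le_trans ?_ h1) hR)
      refine Real.rpow_le_rpow (Nat.cast_nonneg _) ?_ ha.le
      have : k1 ≤ max A 1 * k1 := Nat.le_mul_of_pos_left _ (by positivity)
      exact_mod_cast this
    rcases le_or_gt k1 l with hkl' | hkl'
    · have h3 := (hTm k k1 l hk hk'.le hkl').trans (hlarge k1 l le_rfl hkl' hl)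
      have hk10 : (0 : ℝ) < k1 := by exact_mod_cast hk1'
      have h4 := key k1 hk10 (by nlinarith)
      have h5 : (n : ℝ) ^ (ε / 2) * ((k1 : ℝ) / l) ^ a ≤
          (n : ℝ) ^ (ε / 2) * ((n : ℝ) ^ (ε / 4) * ((k : ℝ) / l) ^ a) :=
        mul_le_mul_of_nonneg_left h4 (Real.rpow_nonneg hN0.le _)
      refine h3.trans (h5.trans ?_)
      rw [← mul_assoc, ← Real.rpow_add hN0]
      refine mul_le_mul_of_nonneg_right ?_ hR
      exact Real.rpow_le_rpow_of_exponent_le hN (by linarith)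
    · -- `l < k1`
      have h4 := key l hl0 (by
        have : (l : ℝ) ≤ k1 := by exact_mod_cast hkl'.le
        have hk10 : (0 : ℝ) ≤ k1 := Nat.cast_nonneg _
        nlinarith)
      rw [div_self hl0.ne', Real.one_rpow] at h4
      refine (hT1 k l).trans (h4.trans (mul_le_mul_of_nonneg_right ?_ hR))
      exact Real.rpow_le_rpow_of_exponent_le hN (by linarith)

/-- **quasi-multiplicativity with losses from one-scale landing**: `G η r` (good scale) has bad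
probability `≤ η`, independently at the scales `B^j k`; `P(T r l ∩ G η r) P r ≤ K(η) P l`. -/
theorem qm_of_one_scale {Ω : Type*} [MeasurableSpace Ω] {μ : Measure Ω} [IsProbabilityMeasure μ]
    {P : ℕ → ℝ} {T : ℕ → ℕ → Set Ω} {a : ℝ} (ha2 : a ≤ 3 / 2) (hP1 : ∀ n, P n ≤ 1)
    (hTm : ∀ k k' l, 1 ≤ k → k ≤ k' → k' ≤ l → T k l ⊆ T k' l)
    (up : ∀ ε : ℝ, 0 < ε → ∀ᶠ n : ℕ in atTop, P n ≤ (n : ℝ) ^ (-a + ε))
    (lo : ∀ ε : ℝ, 0 < ε → ∀ᶠ n : ℕ in atTop, (n : ℝ) ^ (-a - ε) ≤ P n)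
    {B : ℕ} (hB : 2 ≤ B) (G : ℝ → ℕ → Set Ω)
    (hG : ∀ η : ℝ, 0 < η → ∃ r0 : ℕ, ∀ k J : ℕ, r0 ≤ k →
      μ.real (⋂ j ∈ Finset.range J, (G η (B ^ j * k))ᶜ) ≤ η ^ J)
    (one : ∀ η : ℝ, 0 < η → ∃ (K : ℝ) (r0 : ℕ), 0 ≤ K ∧ ∀ r l : ℕ, r0 ≤ r → B * r ≤ l →
      μ.real (T r l ∩ G η r) * P r ≤ K * P l) :
    ∀ ε : ℝ, 0 < ε → ∃ k0 A : ℕ, ∀ᶠ n : ℕ in atTop, ∀ k l : ℕ, k0 ≤ k → A * k ≤ l → l ≤ n →
      P k * μ.real (T k l) ≤ (n : ℝ) ^ ε * P l := by
  intro ε hε
  have hB1 : (1 : ℝ) < B := by exact_mod_cast (by omega : 1 < B)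
  have hB0 : (0 : ℝ) < B := by linarith
  have hb : 0 < Real.log B := Real.log_pos hB1
  set b := Real.log B with hbdef
  set θ := ε / (16 * b) with hθ
  have hθ0 : 0 < θ := by positivity
  have hbθ : b * θ = ε / 16 := by rw [hθ]; field_simp
  set η := Real.exp (-(2 / θ)) with hη
  have hη0 : 0 < η := Real.exp_pos _
  set ε' := min (ε / 16) (1 / 4) with hε'
  have hε'0 : 0 < ε' := by rw [hε']; positivity
  have hε'1 : ε' ≤ ε / 16 := min_le_left _ _
  have hε'2 : ε' ≤ 1 / 4 := min_le_right _ _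
  obtain ⟨n1, hn1⟩ := eventually_atTop.1 (up ε' hε'0)
  obtain ⟨n2, hn2⟩ := eventually_atTop.1 (lo ε' hε'0)
  obtain ⟨r0, hr0⟩ := hG η hη0
  obtain ⟨K, r1, hK, hr1⟩ := one η hη0
  refine ⟨max (max n1 n2) (max (max r0 r1) 1), B, ?_⟩
  have htend : Tendsto (fun n : ℕ => (n : ℝ) ^ (ε / 4)) atTop atTop :=
    (tendsto_rpow_atTop (by positivity)).comp tendsto_natCast_atTop_atTop
  have hlogt : ∀ᶠ n : ℕ in atTop, Real.log n ≤ (n : ℝ) ^ (ε / 4) := by
    have h := isLittleO_log_rpow_atTop (show 0 < ε / 4 by positivity)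
    have h2 := (h.comp_tendsto tendsto_natCast_atTop_atTop).bound (c := 1) one_pos
    filter_upwards [h2, eventually_ge_atTop 1] with n hn hn1
    simp only [Function.comp_apply, Real.norm_eq_abs, one_mul] at hn
    have hN0 : (0 : ℝ) ≤ n := Nat.cast_nonneg _
    rw [abs_of_nonneg (Real.rpow_nonneg hN0 _)] at hn
    exact (le_abs_self _).trans hn
  have hexp : ∀ᶠ n : ℕ in atTop, Real.exp (2 / θ) ≤ (n : ℝ) ^ (1 / 4 : ℝ) :=
    ((tendsto_rpow_atTop (by norm_num)).comp tendsto_natCast_atTop_atTop).eventually_ge_atTop _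
  filter_upwards [hlogt, htend.eventually_ge_atTop ((B : ℝ) ^ 2), hexp,
    htend.eventually_ge_atTop (θ * K + 1), eventually_ge_atTop 1] with n h1 h2 h3 h4 hn k l hk hA hl
  have hN : (1 : ℝ) ≤ n := by exact_mod_cast hn
  have hN0 : (0 : ℝ) < n := by linarith
  have hL0 : 0 ≤ Real.log n := Real.log_nonneg hN
  have hkn1 : n1 ≤ k := ((le_max_left n1 n2).trans (le_max_left _ _)).trans hk
  have hkn2 : n2 ≤ k := ((le_max_right n1 n2).trans (le_max_left _ _)).trans hk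
  have hkr0 : r0 ≤ k :=
    (((le_max_left r0 r1).trans (le_max_left _ _)).trans (le_max_right _ _)).trans hk
  have hkr1 : r1 ≤ k :=
    (((le_max_right r0 r1).trans (le_max_left _ _)).trans (le_max_right _ _)).trans hk
  have hk1 : 1 ≤ k := ((le_max_right (max r0 r1) 1).trans (le_max_right _ _)).trans hk
  have hkl : k ≤ l := le_trans (Nat.le_mul_of_pos_left _ (by omega)) hA
  have hkR : (1 : ℝ) ≤ k := by exact_mod_cast hk1
  have hk0 : (0 : ℝ) < k := by linarith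
  have hlR : (1 : ℝ) ≤ l := hkR.trans (by exact_mod_cast hkl)
  have hl0 : (0 : ℝ) < l := by linarith
  have hln : (l : ℝ) ≤ n := by exact_mod_cast hl
  have hkn : (k : ℝ) ≤ n := by exact_mod_cast hkl.trans hl
  have upk : P k ≤ (k : ℝ) ^ (-a + ε') := hn1 k hkn1
  have lol : (l : ℝ) ^ (-a - ε') ≤ P l := hn2 l (hkn2.trans hkl)
  have hPl : 0 < P l := lt_of_lt_of_le (Real.rpow_pos_of_pos hl0 _) lol
  have hPk0 : 0 < P k := lt_of_lt_of_le (Real.rpow_pos_of_pos hk0 _) (hn2 k hkn2)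
  set J := ⌊θ * Real.log n⌋₊ with hJ
  have hJle : (J : ℝ) ≤ θ * Real.log n := Nat.floor_le (by positivity)
  have hJge : θ * Real.log n - 1 ≤ J := by
    have := Nat.lt_floor_add_one (θ * Real.log n)
    linarith
  have hBJ : (B : ℝ) ^ J ≤ (n : ℝ) ^ (ε / 16) := by
    rw [← Real.rpow_natCast]
    refine (Real.rpow_le_rpow_of_exponent_le hB1.le hJle).trans (le_of_eq ?_)
    rw [Real.rpow_def_of_pos hB0, Real.rpow_def_of_pos hN0, ← hbdef]
    congr 1
    rw [show b * (θ * Real.log n) = (b * θ) * Real.log n by ring, hbθ]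
    ring
  have hBJ2 : ((B : ℝ) ^ J) ^ 2 ≤ (n : ℝ) ^ (ε / 8) := by
    have h5 : ((n : ℝ) ^ (ε / 16)) ^ 2 = (n : ℝ) ^ (ε / 8) := by
      rw [← Real.rpow_natCast, ← Real.rpow_mul hN0.le]
      congr 1
      push_cast
      ring
    rw [← h5]
    exact pow_le_pow_left₀ (by positivity) hBJ 2
  have hηJ : η ^ J ≤ (n : ℝ) ^ (-(7 / 4) : ℝ) := by
    rw [hη, ← Real.exp_nat_mul]
    have h5 : (J : ℝ) * (-(2 / θ)) ≤ 2 / θ - 2 * Real.log n := by
      have h6 : (θ * Real.log n - 1) * (2 / θ) ≤ J * (2 / θ) :=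
        mul_le_mul_of_nonneg_right hJge (by positivity)
      have h7 : (θ * Real.log n - 1) * (2 / θ) = 2 * Real.log n - 2 / θ := by
        field_simp
      linarith
    refine (Real.exp_le_exp.2 h5).trans ?_
    rw [Real.exp_sub]
    have h6 : Real.exp (2 * Real.log n) = (n : ℝ) ^ (2 : ℝ) := by
      rw [Real.rpow_def_of_pos hN0]; ring_nf
    rw [h6, div_le_iff₀ (Real.rpow_pos_of_pos hN0 _), ← Real.rpow_add hN0]
    refine h3.trans (Real.rpow_le_rpow_of_exponent_le hN (by norm_num))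
  -- ratio bound
  have ratio : ∀ m : ℕ, (k : ℕ) ≤ m → (m : ℝ) ≤ (B : ℝ) ^ (J + 1) * k → m ≤ n →
      (k : ℝ) ^ (-a + ε') * (m : ℝ) ^ (a + ε') ≤ (n : ℝ) ^ (ε / 2) := by
    intro m hkm hm hmn
    have hm0 : (0 : ℝ) < m := lt_of_lt_of_le hk0 (by exact_mod_cast hkm)
    have hmn' : (m : ℝ) ≤ n := by exact_mod_cast hmn
    have e1 : (k : ℝ) ^ (-a + ε') * (m : ℝ) ^ (a + ε') =
        ((m : ℝ) / k) ^ a * ((k : ℝ) ^ ε' * (m : ℝ) ^ ε') := by
      rw [Real.div_rpow hm0.le hk0.le, Real.rpow_add hk0, Real.rpow_add hm0, Real.rpow_neg hk0.le]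
      have p1 := Real.rpow_pos_of_pos hk0 a
      field_simp
    rw [e1]
    have hmk : 1 ≤ (m : ℝ) / k := by
      rw [le_div_iff₀ hk0, one_mul]; exact_mod_cast hkm
    have h5 : ((m : ℝ) / k) ^ a ≤ ((B : ℝ) ^ (J + 1)) ^ 2 := by
      calc ((m : ℝ) / k) ^ a ≤ ((m : ℝ) / k) ^ (2 : ℝ) :=
            Real.rpow_le_rpow_of_exponent_le hmk (by linarith)
        _ = ((m : ℝ) / k) ^ 2 := by norm_cast
        _ ≤ ((B : ℝ) ^ (J + 1)) ^ 2 := by
            refine pow_le_pow_left₀ (by positivity) ?_ 2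
            rw [div_le_iff₀ hk0]; exact hm
    have h6 : ((B : ℝ) ^ (J + 1)) ^ 2 ≤ (n : ℝ) ^ (ε / 4) * (n : ℝ) ^ (ε / 8) := by
      have : ((B : ℝ) ^ (J + 1)) ^ 2 = (B : ℝ) ^ 2 * ((B : ℝ) ^ J) ^ 2 := by ring
      rw [this]
      exact mul_le_mul h2 hBJ2 (by positivity) (Real.rpow_nonneg hN0.le _)
    have h7 : (k : ℝ) ^ ε' * (m : ℝ) ^ ε' ≤ (n : ℝ) ^ (ε / 16) * (n : ℝ) ^ (ε / 16) := by
      have q1 : (k : ℝ) ^ ε' ≤ (n : ℝ) ^ (ε / 16) :=
        (Real.rpow_le_rpow hk0.le hkn hε'0.le).trans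
          (Real.rpow_le_rpow_of_exponent_le hN hε'1)
      have q2 : (m : ℝ) ^ ε' ≤ (n : ℝ) ^ (ε / 16) :=
        (Real.rpow_le_rpow hm0.le hmn' hε'0.le).trans
          (Real.rpow_le_rpow_of_exponent_le hN hε'1)
      exact mul_le_mul q1 q2 (Real.rpow_nonneg hm0.le _) (Real.rpow_nonneg hN0.le _)
    calc ((m : ℝ) / k) ^ a * ((k : ℝ) ^ ε' * (m : ℝ) ^ ε')
        ≤ ((n : ℝ) ^ (ε / 4) * (n : ℝ) ^ (ε / 8)) * ((n : ℝ) ^ (ε / 16) * (n : ℝ) ^ (ε / 16)) :=
          mul_le_mul (h5.trans h6) h7 (by positivity) (by positivity)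
      _ = (n : ℝ) ^ (ε / 2) := by
          rw [← Real.rpow_add hN0, ← Real.rpow_add hN0, ← Real.rpow_add hN0]
          congr 1
          ring
  have hεn : (n : ℝ) ^ (ε / 2) ≤ (n : ℝ) ^ ε := Real.rpow_le_rpow_of_exponent_le hN (by linarith)
  have hT1 : μ.real (T k l) ≤ 1 := measureReal_le_one
  rcases lt_or_ge (l : ℝ) ((B : ℝ) ^ (J + 1) * k) with hcase | hcase
  · -- few scales
    have h5 := ratio l hkl hcase.le hl
    have h6 : P k ≤ (n : ℝ) ^ (ε / 2) * P l := by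
      have h7 : (l : ℝ) ^ (a + ε') * (l : ℝ) ^ (-a - ε') = 1 := by
        rw [← Real.rpow_add hl0]; simp
      have h8 : (k : ℝ) ^ (-a + ε') =
          ((k : ℝ) ^ (-a + ε') * (l : ℝ) ^ (a + ε')) * (l : ℝ) ^ (-a - ε') := by
        rw [mul_assoc, h7, mul_one]
      refine upk.trans ?_
      rw [h8]
      exact mul_le_mul h5 lol (Real.rpow_nonneg hl0.le _) (Real.rpow_nonneg hN0.le _)
    calc P k * μ.real (T k l) ≤ P k * 1 := mul_le_mul_of_nonneg_left hT1 hPk0.le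
      _ = P k := mul_one _
      _ ≤ (n : ℝ) ^ (ε / 2) * P l := h6
      _ ≤ (n : ℝ) ^ ε * P l := mul_le_mul_of_nonneg_right hεn hPl.le
  · have hcaseN : B ^ (J + 1) * k ≤ l := by exact_mod_cast hcase
    -- union over scales
    have hsub : T k l ⊆ (⋃ j ∈ Finset.range J, (T (B ^ j * k) l ∩ G η (B ^ j * k))) ∪
        (⋂ j ∈ Finset.range J, (G η (B ^ j * k))ᶜ) := by
      intro z hz
      by_cases hbad : z ∈ ⋂ j ∈ Finset.range J, (G η (B ^ j * k))ᶜ
      · exact Or.inr hbad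
      · left
        simp only [Set.mem_iInter, not_forall, Set.mem_compl_iff, not_not] at hbad
        obtain ⟨j, hj, hjG⟩ := hbad
        refine Set.mem_iUnion₂.2 ⟨j, hj, ?_, hjG⟩
        refine hTm k (B ^ j * k) l hk1 (Nat.le_mul_of_pos_left _ (by positivity)) ?_ hz
        refine le_trans (Nat.mul_le_mul_right _ (Nat.pow_le_pow_right (by omega) ?_)) hcaseN
        have := Finset.mem_range.1 hj
        omega
    have hstep : ∀ j ∈ Finset.range J,
        P k * μ.real (T (B ^ j * k) l ∩ G η (B ^ j * k)) ≤ (n : ℝ) ^ (ε / 2) * (K * P l) := by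
      intro j hj
      have hjJ := Finset.mem_range.1 hj
      have hjk : k ≤ B ^ j * k := Nat.le_mul_of_pos_left _ (by positivity)
      have hjl : B * (B ^ j * k) ≤ l := by
        refine le_trans (le_of_eq (by ring : B * (B ^ j * k) = B ^ (j + 1) * k)) (le_trans
          (Nat.mul_le_mul_right _ (Nat.pow_le_pow_right (by omega) (by omega))) hcaseN)
      have hjn : B ^ j * k ≤ n := by
        have : B ^ j * k ≤ B * (B ^ j * k) := Nat.le_mul_of_pos_left _ (by omega)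
        omega
      have h5 := hr1 (B ^ j * k) l (hkr1.trans hjk) hjl
      have hr0' : (0 : ℝ) < ((B ^ j * k : ℕ) : ℝ) := by
        exact_mod_cast (by positivity : 0 < B ^ j * k)
      have lor : ((B ^ j * k : ℕ) : ℝ) ^ (-a - ε') ≤ P (B ^ j * k) :=
        hn2 _ (hkn2.trans hjk)
      have hPr : 0 < P (B ^ j * k) := lt_of_lt_of_le (Real.rpow_pos_of_pos hr0' _) lor
      have h6 : P k ≤ (n : ℝ) ^ (ε / 2) * P (B ^ j * k) := by
        have h7 : ((B ^ j * k : ℕ) : ℝ) ^ (a + ε') * ((B ^ j * k : ℕ) : ℝ) ^ (-a - ε') = 1 := by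
          rw [← Real.rpow_add hr0']; simp
        have h8 : (k : ℝ) ^ (-a + ε') =
            ((k : ℝ) ^ (-a + ε') * ((B ^ j * k : ℕ) : ℝ) ^ (a + ε')) *
              ((B ^ j * k : ℕ) : ℝ) ^ (-a - ε') := by
          rw [mul_assoc, h7, mul_one]
        refine upk.trans ?_
        rw [h8]
        refine mul_le_mul (ratio _ hjk ?_ hjn) lor (Real.rpow_nonneg hr0'.le _)
          (Real.rpow_nonneg hN0.le _)
        push_cast
        refine mul_le_mul_of_nonneg_right ?_ hk0.le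
        exact pow_le_pow_right₀ hB1.le (by omega)
      have hμ0 : 0 ≤ μ.real (T (B ^ j * k) l ∩ G η (B ^ j * k)) := measureReal_nonneg
      calc P k * μ.real (T (B ^ j * k) l ∩ G η (B ^ j * k))
          ≤ ((n : ℝ) ^ (ε / 2) * P (B ^ j * k)) * μ.real (T (B ^ j * k) l ∩ G η (B ^ j * k)) :=
            mul_le_mul_of_nonneg_right h6 hμ0
        _ = (n : ℝ) ^ (ε / 2) * (μ.real (T (B ^ j * k) l ∩ G η (B ^ j * k)) * P (B ^ j * k)) := by
            ring
        _ ≤ (n : ℝ) ^ (ε / 2) * (K * P l) :=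
            mul_le_mul_of_nonneg_left h5 (Real.rpow_nonneg hN0.le _)
    have hμle : μ.real (T k l) ≤
        ∑ j ∈ Finset.range J, μ.real (T (B ^ j * k) l ∩ G η (B ^ j * k)) + η ^ J := by
      refine (measureReal_mono hsub).trans ((measureReal_union_le _ _).trans ?_)
      exact add_le_add (measureReal_biUnion_finset_le _ _) (hr0 k J hkr0)
    have hηl : P k * η ^ J ≤ P l := by
      have h5 : (n : ℝ) ^ (-(7 / 4) : ℝ) ≤ P l := by
        refine le_trans ?_ lol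
        have h6 : (n : ℝ) ^ (-(7 / 4) : ℝ) ≤ (l : ℝ) ^ (-(7 / 4) : ℝ) := by
          rw [Real.rpow_neg hN0.le, Real.rpow_neg hl0.le]
          refine inv_anti₀ (Real.rpow_pos_of_pos hl0 _) ?_
          exact Real.rpow_le_rpow hl0.le hln (by norm_num)
        exact h6.trans (Real.rpow_le_rpow_of_exponent_le hlR (by linarith))
      calc P k * η ^ J ≤ 1 * η ^ J := mul_le_mul_of_nonneg_right (hP1 k) (by positivity)
        _ = η ^ J := one_mul _
        _ ≤ P l := hηJ.trans h5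
    calc P k * μ.real (T k l)
        ≤ P k * (∑ j ∈ Finset.range J, μ.real (T (B ^ j * k) l ∩ G η (B ^ j * k)) + η ^ J) :=
          mul_le_mul_of_nonneg_left hμle hPk0.le
      _ = ∑ j ∈ Finset.range J, P k * μ.real (T (B ^ j * k) l ∩ G η (B ^ j * k)) +
            P k * η ^ J := by rw [mul_add, Finset.mul_sum]
      _ ≤ ∑ _j ∈ Finset.range J, (n : ℝ) ^ (ε / 2) * (K * P l) + P l :=
          add_le_add (Finset.sum_le_sum hstep) hηl
      _ = (J * K) * (n : ℝ) ^ (ε / 2) * P l + P l := by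
          rw [Finset.sum_const, Finset.card_range, nsmul_eq_mul]; ring
      _ ≤ (n : ℝ) ^ ε * P l := by
          have h5 : (1 : ℝ) ≤ (n : ℝ) ^ (ε / 2) := Real.one_le_rpow hN (by positivity)
          have h6 : (J * K : ℝ) + 1 ≤ (n : ℝ) ^ (ε / 2) := by
            have h7 : (J * K : ℝ) ≤ θ * K * (n : ℝ) ^ (ε / 4) := by
              calc (J * K : ℝ) ≤ (θ * Real.log n) * K := mul_le_mul_of_nonneg_right hJle hK
                _ = θ * K * Real.log n := by ring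
                _ ≤ θ * K * (n : ℝ) ^ (ε / 4) := mul_le_mul_of_nonneg_left h1 (by positivity)
            have h8 : (1 : ℝ) ≤ (n : ℝ) ^ (ε / 4) := Real.one_le_rpow hN (by positivity)
            have h9 : (n : ℝ) ^ (ε / 2) = (n : ℝ) ^ (ε / 4) * (n : ℝ) ^ (ε / 4) := by
              rw [← Real.rpow_add hN0]; congr 1; ring
            rw [h9]
            have h12 : (θ * K + 1) * (n : ℝ) ^ (ε / 4) ≤
                (n : ℝ) ^ (ε / 4) * (n : ℝ) ^ (ε / 4) :=
              mul_le_mul_of_nonneg_right h4 (by linarith)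
            linarith
          have h10 : (n : ℝ) ^ ε = (n : ℝ) ^ (ε / 2) * (n : ℝ) ^ (ε / 2) := by
            rw [← Real.rpow_add hN0]; congr 1; ring
          have h11 : (J * K) * (n : ℝ) ^ (ε / 2) + 1 ≤ (n : ℝ) ^ ε := by
            rw [h10]
            have h12 := mul_le_mul_of_nonneg_right h6 (by linarith : (0 : ℝ) ≤ (n : ℝ) ^ (ε / 2))
            linarith
          have h13 := mul_le_mul_of_nonneg_right h11 hPl.le
          linarith

end Crest.Agent.R158.Qf808
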