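import Crest.Agent.R158.Yc3_180

/-!
# Row 158 (helper180): the majorant of the mark sum, 4: the majorant

* `Ym B y0 k a0 c1 s = 4 * 4 ^ PassD`
* **`valG_le`** : `‖valG‖ ≤ Ym` pointwise; `valG_le_Jd` : for helper857's family `Jd`
* `Ym_dep`, `Ym_disj`, **`Ym_sq`** : dependence, disjointness from the ball, `∫ Ym ^ 2 ≤ C ^ 2`
* **`valG_ball`** : an arc over the far charge in the ball kills every member
* `sec_L` : the literal parameters `k = L / 8`, `b = L / 2`, `a0 = L / 16`, `c1 = L - 1 - L / 16`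
-/

set_option autoImplicit false
set_option linter.unusedSectionVars false
set_option linter.unusedVariables false

noncomputable section

open Finset MeasureTheory

namespace Crest.Agent.R158.Yc180

open Crest.Agent.R158.Sw300 (Port Wd L)
open Crest.Agent.R158.Oc194 (NatD)
open Crest.Agent.R158.Env664 (TG Band beD)
open Crest.Agent.R158.Xr249 (Free pm pm_some eD full rct mem_rct eS)
open Crest.Agent.R158.Ad350
open Crest.Agent.R158.Ao857 (legP beL chL tpm inlE)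
open Crest.Agent.R158.Zg180 (Near Far uc se se_uc uc_se)
open Crest.Agent.R158.Zc180 (Pass pass_moment pass_dep Cf Wf ballS Over Par)
open Crest.Agent.R158.Qd300 (DB at_of)
open Crest.Agent.R158.Fm857 (ctw phi freeG mem_freeG psD kap Jd mem_Jd far)
open Crest.Agent.R158.Ob664 (GW)
open Crest.Agent.R158.Qc405 (TabH)
open Crest.Agent.R158.Rs689 (PB hf)
open Crest.Agent.R158.Nm211 (DepF)
open Crest.Agent.R158.Mr679 (bxF mem_bxF InB)

variable {A : Finset (ℤ × ℤ)} {B : Band A} {p y0 k b a0 c1 : ℤ} {s : TG → Bool}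
  {w : Wd (ℤ × ℤ)} {m1 m2 : Port (ℤ × ℤ)}

/-- **the majorant** -/
def Ym (B : Band A) (y0 k a0 c1 : ℤ) (s : TG → Bool) : ℝ := 4 * 4 ^ PassD B y0 k a0 c1 s

lemma Ym_nonneg (y0 k a0 c1 : ℤ) (s : TG → Bool) : 0 ≤ Ym B y0 k a0 c1 s := by
  unfold Ym; positivity

lemma norm_kap' (b : ℤ) (n1 n2 : Port TG) (e : Option (Port TG)) :
    ‖kap B b n1 n2 e‖ = 1 / 2 := by
  unfold Fm857.kap
  rw [norm_mul, norm_zpow, Al194.norm_v2, one_zpow, mul_one]
  norm_num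

lemma pow_bound (P : ℕ) : (4 + (P : ℝ)) * 2 ^ P ≤ 4 * 4 ^ P := by
  have h1 : ((P : ℝ)) + 1 ≤ 2 ^ P := by
    have h2 : P + 1 ≤ 2 ^ P := P.lt_two_pow_self
    exact_mod_cast h2
  have h3 : (4 : ℝ) ^ P = 2 ^ P * 2 ^ P := by
    rw [← mul_pow]; norm_num
  have h4 : (0 : ℝ) < 2 ^ P := by positivity
  rw [h3]
  nlinarith

open Classical in
/-- **pointwise bound of the mark sum** -/
theorem valG_le (H : TabH A B.xl B.xr B.y1 B.y2 k p y0 (psD B))
    {w0 : Wd (ℤ × ℤ)} {l0 : List (Port (ℤ × ℤ))} (hW : Psi664.BW (full A) B.xl B.y1 w0 l0)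
    (S : Sec B k b a0 c1) (hw : GW (DB B k) (beD (DB B k) p y0 (B.xr + k)) w)
    (hm1 : NatD B m1) (hm2 : NatD B m2) {J : Finset (Port TG)}
    (hJ : ∀ e ∈ J, e ∈ freeG B ∧ TQ (Near y0 a0 c1) e) (s : TG → Bool) :
    ‖valG B p y0 b (pm (eD B y0 k) m1) (pm (eD B y0 k) m2) J s‖ ≤ Ym B y0 k a0 c1 s := by
  have hz := at_of H
  set n1 := pm (eD B y0 k) m1 with hn1
  set n2 := pm (eD B y0 k) m2 with hn2
  set P := PassD B y0 k a0 c1 s with hP
  have hle : ∀ e, ‖zE B p y0 b n1 n2 e s‖ ≤ 2 ^ P := fun e => zE_le H ⟨w0, l0, hW⟩ S hw n1 n2 e s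
  have h1 : ‖valG B p y0 b n1 n2 J s‖ ≤ ∑ e ∈ insertNone J, 1 / 2 * ‖zE B p y0 b n1 n2 e s‖ := by
    unfold valG
    refine (norm_sum_le _ _).trans (le_of_eq (Finset.sum_congr rfl fun e _ => ?_))
    rw [norm_mul, norm_kap', norm_star]
  refine h1.trans ?_
  rw [← Finset.mul_sum, Finset.sum_insertNone]
  -- the members that do not vanish
  set F1 := J.filter fun e => Net.Vis (TQ (Far y0 (k - 2) (B.R - k - 1)))
    ((net0 B p y0 s).cls e) with hF1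
  set F2 := J.filter fun e => ¬ Net.Vis (TQ (Far y0 (k - 2) (B.R - k - 1)))
    ((net0 B p y0 s).cls e) ∧ zE B p y0 b n1 n2 (some e) s ≠ 0 with hF2
  have c1' : F1.card ≤ 2 * P := by
    have hR := S.hR
    have h := far_ends (p := p) (s := s) hz S.h0 S.ha (by omega : (k - 2) + 1 < B.R - k) S.hc
      S.hc1 hJ
    refine le_trans (le_of_eq ?_) h
    rw [hF1]
  have c2' : F2.card ≤ 7 := card_exact H hW S hw hm1 hm2 fun e he => (hJ e he).1
  have h2 : ∑ e ∈ J, ‖zE B p y0 b n1 n2 (some e) s‖ ≤ ((2 * P + 7 : ℕ) : ℝ) * 2 ^ P := by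
    have h3 : ∑ e ∈ J, ‖zE B p y0 b n1 n2 (some e) s‖ ≤
        ∑ e ∈ F1 ∪ F2, ‖zE B p y0 b n1 n2 (some e) s‖ := by
      have hsub : F1 ∪ F2 ⊆ J :=
        Finset.union_subset (Finset.filter_subset _ _) (Finset.filter_subset _ _)
      rw [← Finset.sum_subset hsub]
      intro e he hne
      rw [Finset.mem_union, not_or] at hne
      by_contra h0
      have h5 : ¬ Net.Vis (TQ (Far y0 (k - 2) (B.R - k - 1))) ((net0 B p y0 s).cls e) :=
        fun h => hne.1 (Finset.mem_filter.2 ⟨he, h⟩)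
      refine hne.2 (Finset.mem_filter.2 ⟨he, h5, fun h6 => h0 ?_⟩)
      rw [h6, norm_zero]
    refine h3.trans ?_
    refine (Finset.sum_le_card_nsmul _ _ _ fun e _ => hle (some e)).trans ?_
    rw [nsmul_eq_mul]
    refine mul_le_mul_of_nonneg_right ?_ (by positivity)
    have h7 := Finset.card_union_le F1 F2
    exact_mod_cast (by omega : (F1 ∪ F2).card ≤ 2 * P + 7)
  have h3 := hle none
  have h4 := pow_bound P
  unfold Ym
  push_cast at h2
  have h5 : (0 : ℝ) < 2 ^ P := by positivity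
  have h6 : 1 / 2 * (‖zE B p y0 b n1 n2 none s‖ + ∑ e ∈ J, ‖zE B p y0 b n1 n2 (some e) s‖) ≤
      (4 + (P : ℝ)) * 2 ^ P := by
    nlinarith
  exact h6.trans h4

/-- the ends of the family are near ends -/
theorem far_near (hz : B.At p y0) {Sp : Finset (ℤ × ℤ)} {Δ : ℤ} {e : Port TG}
    (he : e ∈ freeG B) (h : far B Sp Δ a0 c1 e) :
    TQ (Near y0 a0 c1) e ∧ EndOk a0 c1 (some e) := by
  have h1 := hz.hy1
  have h2 := hz.hy2
  unfold Fm857.freeG at he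
  rw [Finset.mem_union, Finset.mem_union, Fm857.mem_flr, Fm857.mem_cil, Finset.mem_image] at he
  have n13 : (1 : ZMod 4) ≠ 3 := by decide
  rcases he with ⟨q, hq, rfl⟩ | ⟨i, hi, hi', rfl⟩ | ⟨i, hi, hi', rfl⟩
  · unfold Fm857.freeD at hq
    obtain ⟨t, d, rfl, ht⟩ := mem_ports' (Finset.mem_filter.1 hq).1
    exact ⟨⟨Sum.inl t, d, rfl, Or.inl ⟨t, rfl⟩⟩, trivial⟩
  · have h' : (Δ ≤ (if (3 : ZMod 4) = 3 then i else i - 1) ∧
        (if (3 : ZMod 4) = 3 then i else i - 1) ≤ a0) ∨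
        (c1 < (if (3 : ZMod 4) = 3 then i else i - 1) ∧
        (if (3 : ZMod 4) = 3 then i else i - 1) < B.R - Δ) := h
    rw [if_pos rfl] at h'
    have hu : uc y0 (i, B.y1) = i := Zg180.uc_lt h1
    refine ⟨⟨_, _, rfl, Or.inr ⟨_, rfl, ?_⟩⟩, Or.inl ⟨rfl, ?_⟩⟩
    · rw [hu]; omega
    · omega
  · have h' : (Δ ≤ (if (1 : ZMod 4) = 3 then i else i - 1) ∧
        (if (1 : ZMod 4) = 3 then i else i - 1) ≤ a0) ∨
        (c1 < (if (1 : ZMod 4) = 3 then i else i - 1) ∧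
        (if (1 : ZMod 4) = 3 then i else i - 1) < B.R - Δ) := h
    rw [if_neg n13] at h'
    have hu : uc y0 (i, B.y2 - 1) = i - 1 := Zg180.uc_ge (by omega)
    refine ⟨⟨_, _, rfl, Or.inr ⟨_, rfl, ?_⟩⟩, Or.inr ⟨rfl, ?_⟩⟩
    · rw [hu]; omega
    · omega

lemma pm_nat (H : TabH A B.xl B.xr B.y1 B.y2 k p y0 (psD B)) (hm : NatD B m1) :
    pm (eD B y0 k) m1 = tpm inlE m1 := by
  obtain ⟨t, d, rfl, ht⟩ := Oc194.natD_some hm
  rw [Oc194.pm_A H.hf ht]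
  rfl

/-- **the majorant of the family of helper857** -/
theorem valG_le_Jd (H : TabH A B.xl B.xr B.y1 B.y2 k p y0 (psD B))
    {w0 : Wd (ℤ × ℤ)} {l0 : List (Port (ℤ × ℤ))} (hW : Psi664.BW (full A) B.xl B.y1 w0 l0)
    (S : Sec B k b a0 c1) (hw : GW (DB B k) (beD (DB B k) p y0 (B.xr + k)) w)
    (hm1 : NatD B m1) (hm2 : NatD B m2) (Sp : Finset (ℤ × ℤ)) (Δ : ℤ) (n2 n3 : Port TG)
    (s : TG → Bool) :
    ‖valG B p y0 b (tpm inlE m1) (tpm inlE m2) (Jd B b Sp Δ a0 c1 n2 n3) s‖ ≤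
      Ym B y0 k a0 c1 s := by
  rw [← pm_nat H hm1, ← pm_nat H hm2]
  refine valG_le H hW S hw hm1 hm2 (fun e he => ?_) s
  obtain ⟨h1, -, h3⟩ := (mem_Jd B).1 he
  exact ⟨h1, (far_near (at_of H) h1 h3).1⟩

/-- tiles of the stub sections -/
def Yt (B : Band A) (y0 k a0 c1 : ℤ) : Finset TG :=
  Cf B y0 a0 (k - 2) ∪ Cf B y0 (B.R - k - 1) c1

theorem Ym_dep : DepF (Yt B y0 k a0 c1) (Ym B y0 k a0 c1) := by
  intro z z' h
  unfold Ym
  congr 2
  exact pass_dep fun t ht => h t ht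

theorem Ym_disj {h N : ℕ} (hP : Par B k b h N) (ha : 0 ≤ a0) :
    Disjoint (Wf B y0 b h) (Yt B y0 k a0 c1) := by
  have h1 := hP.k2
  have hbl := hP.bl
  have hbr := hP.br
  refine Finset.disjoint_of_subset_left (Zc180.Wf_sub hP) ?_
  unfold Yt
  rw [Finset.disjoint_union_right]
  exact ⟨Zc180.Cf_disj (by omega), Zc180.Cf_disj (by omega)⟩

/-- **second moment of the majorant** -/
theorem Ym_sq : ∃ C : ℝ, 1 ≤ C ∧ ∀ (A : Finset (ℤ × ℤ)) (B : Band A) (y0 k a0 c1 : ℤ) (h : ℕ),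
    B.y2 = B.y1 + h → 1 ≤ h → a0 + h ≤ k - 2 → B.R - k + h ≤ c1 + 1 →
      ∫ s, Ym B y0 k a0 c1 s ^ 2 ∂(PB fun _ : TG => hf) ≤ C ^ 2 := by
  obtain ⟨C, hC, hm⟩ := pass_moment 16 (by norm_num)
  refine ⟨4 * C, by linarith, fun A B y0 k a0 c1 h hy h1 h2 h3 => ?_⟩
  have e1 : ∀ s : TG → Bool, Ym B y0 k a0 c1 s ^ 2 =
      16 * (16 : ℝ) ^ Pass B y0 a0 (k - 2) (B.R - k) c1 s := by
    intro s
    unfold Ym
    rw [mul_pow, ← pow_mul, mul_comm (PassD B y0 k a0 c1 s) 2, pow_mul]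
    norm_num
  simp_rw [e1]
  rw [integral_const_mul]
  have h4 := hm A B y0 a0 (k - 2) (B.R - k) c1 h hy h1 h2 h3
  nlinarith

/-- the literal parameters -/
theorem sec_L {L : ℤ} (hL : B.R = L) (h64 : 64 ≤ L) :
    Sec B (L / 8) (L / 2) (L / 16) (L - 1 - L / 16) := by
  constructor <;> omega

/-- **an arc over the far charge in the ball kills every member** -/
theorem zE_ball (hz : B.At p y0) {h N : ℕ} (hP : Par B k b h N) (h0 : 0 ≤ a0) (ha : a0 < k)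
    (hc : B.R - k ≤ c1) (hc1 : c1 ≤ B.R - 2) {n1 n2 : Port TG}
    (hm1 : ∃ t d, n1 = some (Sum.inl t, d)) (hm2 : ∃ t d, n2 = some (Sum.inl t, d))
    {e : Option (Port TG)} (he : EndOk a0 c1 e) (hO : Over B p y0 b (ballS B y0 b h) s) :
    zE B p y0 b n1 n2 e s = 0 := by
  have hok : (netN B p y0 (ctw B b n1 n2 e) (ctw B b n1 n2 e + Bd932.e3) (phi B b n1 n2 e) s).Ok :=
    netN_ok hz _ _ _ _
  have h3 := hP.h3
  have hbl := hP.bl
  have hbr := hP.br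
  have hk2 := hP.k2
  have hnr := Zc180.nr_le h
  have hnr3 := Zc180.nr_pos h3
  have hhh := hP.hh
  have hφ := phS_phi (m1 := n1) (m2 := n2) hz hm1 hm2 he (by omega : a0 < b - 1)
    (by omega : b ≤ c1 + 1)
  have hO' : Over B p y0 b (rS B y0 (a0 + 1) (c1 + 1)) s := by
    obtain ⟨i, j, l, hi, hj, hw, hl⟩ := hO
    refine ⟨i, j, l, hi, hj, hw, fun r hr => ?_⟩
    obtain ⟨v, hv, hv'⟩ := hl r hr
    refine ⟨v, ?_, hv'⟩
    unfold Gc748.InR at hv
    obtain ⟨x, y⟩ := v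
    rw [mem_rct]
    simp only at hv
    omega
  have hR : OverR B y0 (a0 + 1) (c1 + 1) (b - 1) s :=
    (overR_iff (p := p) hz (by omega) (by omega)).2 hO'
  obtain ⟨C, hC, hC0, hS⟩ := over_class (c := ctw B b n1 n2 e)
    (c' := ctw B b n1 n2 e + Bd932.e3) hz h0 (by omega : c1 + 1 < B.R) hφ hR
  show _ * _ = _
  rw [Finset.prod_eq_zero (i := C) ?_ hC0, mul_zero]
  refine Finset.mem_erase.2 ⟨?_, hC⟩
  intro e'
  have : legP p y0 ∈ C := by rw [e']; exact Net.self_mem_cls (legP_mem hz)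
  obtain ⟨q, -, hq⟩ := hS _ this
  exact pS_leg hq.symm

/-- **the same for the sum** -/
theorem valG_ball (hz : B.At p y0) {h N : ℕ} (hP : Par B k b h N) (h0 : 0 ≤ a0) (ha : a0 < k)
    (hc : B.R - k ≤ c1) (hc1 : c1 ≤ B.R - 2) {n1 n2 : Port TG}
    (hm1 : ∃ t d, n1 = some (Sum.inl t, d)) (hm2 : ∃ t d, n2 = some (Sum.inl t, d))
    {J : Finset (Port TG)} (hJ : ∀ e ∈ J, EndOk a0 c1 (some e))
    (hO : Over B p y0 b (ballS B y0 b h) s) : valG B p y0 b n1 n2 J s = 0 := by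
  unfold valG
  refine Finset.sum_eq_zero fun e he => ?_
  have h1 : EndOk a0 c1 e := by
    cases e with
    | none => trivial
    | some e => exact hJ e (Finset.some_mem_insertNone.1 he)
  rw [zE_ball hz hP h0 ha hc hc1 hm1 hm2 h1 hO]
  simp

theorem valG_ball_Jd (hz : B.At p y0) {h N : ℕ} (hP : Par B k b h N) (h0 : 0 ≤ a0) (ha : a0 < k)
    (hc : B.R - k ≤ c1) (hc1 : c1 ≤ B.R - 2) {n1 n2 : Port TG}
    (hm1 : ∃ t d, n1 = some (Sum.inl t, d)) (hm2 : ∃ t d, n2 = some (Sum.inl t, d))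
    (Sp : Finset (ℤ × ℤ)) (Δ : ℤ) (n2' n3 : Port TG)
    (hO : Over B p y0 b (ballS B y0 b h) s) :
    valG B p y0 b n1 n2 (Jd B b Sp Δ a0 c1 n2' n3) s = 0 := by
  refine valG_ball hz hP h0 ha hc hc1 hm1 hm2 (fun e he => ?_) hO
  obtain ⟨h1, -, h3⟩ := (mem_Jd B).1 he
  exact (far_near hz h1 h3).2

end Crest.Agent.R158.Yc180
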