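import Crest.Agent.R158.Qf1_405
import Crest.Agent.R158.Ad16_350
import Crest.Agent.R158.Yc4_180
import Crest.Agent.R158.Oc5_194
import Crest.Agent.R158.Fm3_857
import Crest.Agent.R158.Qc7_405

/-!
# R158, Q1c = evaluation (helper405), assembly 2: the first half of `EvalP`

* `Sl.split`, `Sl.adj`, `Sl.tab`, `Sl.ord` : the two parts, the table of directions, the order
* `cc_mem`, `mk_mem`, `mkG_some` : the marks
* `Sl.valD_eq` : value of the family on the word = observable with the ends outside `JP` dropped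
* `Sl.norm_valD` : it is at most `9 / 2`
* `VIf` : mean value of the family; **`evA : EvA fz VIf P`**
-/

set_option autoImplicit false

noncomputable section

open Finset MeasureTheory

namespace Crest.Agent.R158.Qf405

open Crest.Agent.R158.Cs410
open Crest.Agent.R158.Sw300 (Port Wd L)
open Crest.Agent.R158.Env664 (Run Band TG D beD lowT upT mark)
open Crest.Agent.R158.Tj656 (P4)
open Crest.Agent.R158.Xr249 (Dp Free eD pm)
open Crest.Agent.R158.Ob664 (GW HW HV norm_le_of_Tri HV_mem)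
open Crest.Agent.R158.Al194 (Mk hL)
open Crest.Agent.R158.Qc405 (TabH tabH_mac)
open Crest.Agent.R158.Fm857
open Crest.Agent.R158.Ad350 (EndOk valD valG ring_strip)
open Crest.Agent.R158.Qe249 (VJ norm_HV_sub_VJ)
open Crest.Agent.R158.Qd300 (C0)
open Crest.Agent.R158.Oc194 (NatD NatS KD Ord ord_D VJ_C0 Jd_pre pm_A natD_of_mem)
open Crest.Agent.R158.Rs689 (PB hf)
open Crest.Agent.R158.Yc180 (Ym Yt Ym_dep Ym_disj Ym_sq Ym_nonneg valG_le_Jd sec_L far_near)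

variable {P : P4} {A' B' r : ℤ} {h y : ℝ} {L : ℤ} {B : Band (D P.F L)} {p y0 : ℤ}

theorem Sl.ylt (S : Sl P A' B' r h y L B p y0) : B.y1 < B.y2 := by
  have := S.at'.hy1
  have := S.at'.hy2
  omega

theorem Sl.Lpos (S : Sl P A' B' r h y L B p y0) : 0 < L := by
  have := S.L0
  omega

lemma Sl.ht_le' (S : Sl P A' B' r h y L B p y0) : (Sl.ht B : ℤ) * 16 + 160 ≤ L := by
  have h1 := S.ht2
  have h2 := S.h1
  have h3 := S.Lr
  have : (Sl.ht B : ℝ) * 16 + 160 ≤ L := by nlinarith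
  have h4 : (((Sl.ht B : ℤ) * 16 + 160 : ℤ) : ℝ) ≤ ((L : ℤ) : ℝ) := by push_cast; exact this
  exact_mod_cast h4

/-- the two parts -/
theorem Sl.split (S : Sl P A' B' r h y L B p y0) :
    Ao857.Split B (lowT (D P.F L) B.xl B.xr B.y1) (upT (D P.F L) B.xl B.xr B.y2) :=
  Xr249.split_mac (mcP P) S.Lpos B S.run S.onB.xl S.onB.xr S.lt1 S.lt2 S.ylt

theorem Sl.adj (S : Sl P A' B' r h y L B p y0) :
    ∀ s ∈ lowT (D P.F L) B.xl B.xr B.y1, ∀ t ∈ upT (D P.F L) B.xl B.xr B.y2, ¬ Env664.Adj4 s t :=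
  Xr249.adj_mac (mcP P) S.Lpos B S.run S.onB.xl S.onB.xr S.lt1 S.lt2 S.ylt

/-- the table -/
theorem Sl.tab (S : Sl P A' B' r h y L B p y0) :
    TabH (D P.F L) B.xl B.xr B.y1 B.y2 (L / 8) p y0 (psD B) := by
  have hL := S.L0
  have hz := S.at'
  have h1 := tabH_mac (mcP P) (L := L) S.run (y1 := B.y1) (y2 := B.y2) (k := L / 8) (p := p)
    (y0 := y0) S.lt1 S.lt2 (by omega) (by omega) hz.hy1 hz.hy2
    (by have := hz.hp1; rw [S.onB.xl] at this; exact this)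
    (by have := hz.hp2; rw [S.onB.xr] at this; exact this)
  rw [← S.onB.xl, ← S.onB.xr] at h1
  exact h1

theorem Sl.bw (S : Sl P A' B' r h y L B p y0) :
    ∃ w0 l0, Psi664.BW (Xr249.full (D P.F L)) B.xl B.y1 w0 l0 := by
  have hrun := B.run B.y1 le_rfl S.ylt
  obtain ⟨w0, l0, -, -, hB0⟩ := Xr249.exists_BW (Xr249.D_SC (mcP P) S.Lpos)
    (Xr249.D_Conn (mcP P) S.Lpos) (hrun.mem _ le_rfl hrun.le) hrun.left
  exact ⟨w0, l0, hB0⟩

theorem Sl.ord (S : Sl P A' B' r h y L B p y0) {w : Wd (ℤ × ℤ)}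
    (hw : GW (Dp (D P.F L) B.xl B.xr B.y1 B.y2 (L / 8))
      (beD (Dp (D P.F L) B.xl B.xr B.y1 B.y2 (L / 8)) p y0 (B.xr + L / 8)) w) :
    Ord w (KD B) (some ((B.xr + L / 8, B.y1), 3)) := by
  have hL := S.L0
  obtain ⟨w0, l0, hB0⟩ := S.bw
  exact ord_D S.tab (by have := S.onB.R; omega) hB0 hw

/-! ### the marks -/

/-- the marked edges of the polygon are sides of its cells -/
lemma cc_mem (P : P4) (i : Fin 3) : (P.cc i).1 ∈ P.F := by
  have key : ∀ m, (Tj656.esd (P.v m) (P.v (m + 1))).1 ∈ P.F := by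
    intro m
    have h1 := P.cyc.left m
    exact h1
  fin_cases i
  · exact key 0
  · exact key P.md
  · exact key P.mc

lemma mk_mem (P : P4) {L : ℤ} (hL : 1 < L) (i : Fin 3) : ∃ t d, Cs410.mk P L i = some (t, d) ∧
    t ∈ D P.F L := by
  have h1 := cc_mem P i
  unfold Cs410.mk mark
  have hm : ∀ x y : ℤ, (P.cc i).1.1 * L ≤ x → x < (P.cc i).1.1 * L + L → (P.cc i).1.2 * L ≤ y →
      y < (P.cc i).1.2 * L + L → (x, y) ∈ D P.F L := by
    intro x y g1 g2 g3 g4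
    rw [Env664.mem_D (by omega)]
    have e1 : x / L = (P.cc i).1.1 := (Env664.div_iff (by omega) _ _).2 ⟨g1, g2⟩
    have e2 : y / L = (P.cc i).1.2 := (Env664.div_iff (by omega) _ _).2 ⟨g3, g4⟩
    simp only [e1, e2]
    exact h1
  split_ifs
  · exact ⟨_, _, rfl, hm _ _ (by omega) (by omega) (by omega) (by omega)⟩
  · exact ⟨_, _, rfl, hm _ _ (by omega) (by omega) (by omega) (by omega)⟩
  · exact ⟨_, _, rfl, hm _ _ (by omega) (by omega) (by omega) (by omega)⟩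
  · exact ⟨_, _, rfl, hm _ _ (by omega) (by omega) (by omega) (by omega)⟩

lemma mkG_eq (P : P4) (L : ℤ) (i : Fin 3) : mkG P L i = Ao857.tpm Ao857.inlE (Cs410.mk P L i) := rfl

lemma mkG_some (P : P4) {L : ℤ} (hL : 1 < L) (i : Fin 3) :
    ∃ t d, mkG P L i = some (Sum.inl t, d) := by
  obtain ⟨t, d, e, -⟩ := mk_mem P hL i
  exact ⟨t, d, by rw [mkG_eq, e]; rfl⟩

lemma Sl.pm_mk (S : Sl P A' B' r h y L B p y0) (i : Fin 3) :
    pm (eD B y0 (L / 8)) (Cs410.mk P L i) = mkG P L i := by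
  have hL := S.L0
  obtain ⟨t, d, e, ht⟩ := mk_mem P (L := L) (by omega) i
  rw [mkG_eq, e, pm_A S.tab.hf ht]
  rfl

/-- the value of the family -/
def vD (P : P4) (L : ℤ) (δ : ℝ) (B : Band (D P.F L)) (p y0 : ℤ) (w : Wd (ℤ × ℤ))
    (s : ℤ × ℤ → Bool) : ℂ :=
  valD B p y0 (L / 8) (L / 2) (mkG P L 0) (mkG P L 1) (JP P L δ B) w s

/-- **value of the family = observable with the ends outside `JP` dropped** -/
theorem Sl.valD_eq (S : Sl P A' B' r h y L B p y0) (δ : ℝ) {w : Wd (ℤ × ℤ)}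
    (hw : GW (Dp (D P.F L) B.xl B.xr B.y1 B.y2 (L / 8))
      (beD (Dp (D P.F L) B.xl B.xr B.y1 B.y2 (L / 8)) p y0 (B.xr + L / 8)) w)
    (hM : Mk w (Cs410.mk P L 0) (Cs410.mk P L 1) (Cs410.mk P L 2)) (s : ℤ × ℤ → Bool) :
    vD P L δ B p y0 w s = VJ w (Cs410.mk P L 0) (Cs410.mk P L 1) (Cs410.mk P L 2)
      (fun x => pm (eD B y0 (L / 8)) x ∉ JP P L δ B) s := by
  have hL := S.L0
  have hR := S.onB.R
  obtain ⟨l, hl⟩ := S.ev
  have key := VJ_C0 S.tab hw (b := L / 2) (by omega) S.at' (by omega) (by omega) (S.ord hw) hM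
    (fun m hm => by
      rcases hm with rfl | rfl | rfl
      · exact mk_mem P (by omega) 0
      · exact mk_mem P (by omega) 1
      · exact mk_mem P (by omega) 2)
    (JP P L δ B) (fun q hq => by
      obtain ⟨h1, h2, h3⟩ := (mem_Jd B).1 hq
      rw [S.pm_mk, S.pm_mk]
      exact ⟨h2, Jd_pre S.tab (by omega) (by omega) (by omega) h1 h3⟩) s
  rw [key, S.pm_mk, S.pm_mk]
  rfl

/-- the observable with dropped ends is bounded -/
theorem norm_VJ {T : Type*} [DecidableEq T] {w : Wd T} (h : Sw300.Ok w) {m1 m2 m3 : Port T}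
    (hM : Mk w m1 m2 m3) (Q : Port T → Prop) (s : T → Bool) : ‖VJ w m1 m2 m3 Q s‖ ≤ 9 / 2 := by
  have h1 := norm_HV_sub_VJ h hM Q s
  have h2 : ‖HV w m1 m2 m3 s‖ ≤ 1 := norm_le_of_Tri HV_mem
  have h3 : VJ w m1 m2 m3 Q s = HV w m1 m2 m3 s - (HV w m1 m2 m3 s - VJ w m1 m2 m3 Q s) := by ring
  rw [h3]
  refine (norm_sub_le _ _).trans ?_
  linarith

/-- **mean value of the family on the word** -/
def VIf : VT := fun P L δ B p y0 w =>
  ∫ s, vD P L δ B p y0 w (s ∘ eD B y0 (L / 8)) ∂(PB fun _ : TG => hf)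

/-- **the first half** -/
theorem evA (P : P4) : EvA fz VIf P := by
  obtain ⟨c, q, hc, hq, hq1, hmain⟩ := ring_strip
  obtain ⟨CY, hCY, hY⟩ := Ym_sq
  obtain ⟨Cq, hCq, hpow⟩ := qpow_le hq hq1
  intro A' B' r hrun a b c' e hAa hab hbB hce hhalf
  refine ⟨min 1 (1 / (4 * (Cq + 1))), 9 * Cq + 2 * (CY / c) * Real.sqrt Cq,
    lt_min one_pos (by positivity), by positivity, ?_⟩
  intro h y hh hlt hy1 hy2 δ hδ hδ1
  refine ⟨0, fun L _ B p y0 S i1 i2 w hw hM => ?_⟩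
  have l1 : h ≤ 1 := hlt.le.trans (min_le_left _ _)
  have l2 : h ≤ 1 / (4 * (Cq + 1)) := hlt.le.trans (min_le_right _ _)
  have hL := S.L0
  have hR := S.onB.R
  have hht := S.ht_pos
  have htc := S.ht_cast
  have htl := S.ht_le'
  obtain ⟨l, hl⟩ := S.ev
  set N : ℕ := Sl.nsq B (L / 16 - 2) with hN
  have hN1 : (N : ℤ) * Sl.ht B ≤ L / 16 - 2 := S.nsq_mul (by omega)
  have hP := S.par' (N := N) (by omega)
  have hqN : q ^ N ≤ Cq * h ^ 4 := hpow h N hh (S.nsq_ge (by omega))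
  have hq0 : 0 ≤ q ^ N := by positivity
  have hqs : 2 * q ^ N ≤ 1 / 2 := by
    have h4 : h ^ 4 ≤ h := by
      have : h ^ 4 ≤ h ^ 1 := pow_le_pow_of_le_one hh.le l1 (by norm_num)
      simpa using this
    have h5 : Cq * h ^ 4 ≤ Cq * (1 / (4 * (Cq + 1))) :=
      mul_le_mul_of_nonneg_left (h4.trans l2) hCq
    have h6 : Cq * (1 / (4 * (Cq + 1))) ≤ 1 / 4 := by
      rw [mul_one_div, div_le_div_iff₀ (by positivity) (by norm_num)]
      linarith
    linarith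
  obtain ⟨-, hZ, key⟩ := hmain (D P.F L) B p y0 (L / 8) (L / 2) (Sl.ht B) N S.at' hP hqs
  obtain ⟨w0, l0, hBW⟩ := S.bw
  have hsec := sec_L (B := B) hR (by omega)
  have nat : ∀ i, Cs410.mk P L i ∈ Sw300.L w → NatD B (Cs410.mk P L i) := by
    intro i hi
    obtain ⟨t, d, e, ht⟩ := mk_mem P (L := L) (by omega) i
    exact natD_of_mem S.tab hw hi e ht
  have hfin := key S.tab w hw (mkG P L 0) (mkG P L 1) (mkG_some P (by omega) 0)
    (mkG_some P (by omega) 1) (JP P L δ B) (L / 16) (L - 1 - L / 16)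
    (fun q hq => by
      obtain ⟨h1, -, h3⟩ := (mem_Jd B).1 hq
      exact (far_near S.at' h1 h3).2)
    (by omega) (by omega) (by omega) (by omega) (by omega) (by omega)
    (lowT (D P.F L) B.xl B.xr B.y1) (upT (D P.F L) B.xl B.xr B.y2) S.split S.adj
    (9 / 2) (by norm_num)
    (fun s' => by
      have := S.valD_eq δ hw hM s'
      unfold vD at this
      rw [this]
      exact norm_VJ hw.word.1 hM _ _)
    (Ym B y0 (L / 8) (L / 16) (L - 1 - L / 16)) CY (Yt B y0 (L / 8) (L / 16) (L - 1 - L / 16))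
    (Ym_disj hP (by omega)) Ym_dep (fun s => Ym_nonneg _ _ _ _ s) (by linarith)
    (hY _ B y0 _ _ _ (Sl.ht B) (by omega) (by omega) (by omega) (by omega))
    (fun s => valG_le_Jd S.tab hBW hsec hw (nat 0 hM.1) (nat 1 hM.2.1) _ _ _ _ s)
  have e1 : (fz P L δ B).amp p y0 / (fz P L δ B).Z = HGr B (lowT (D P.F L) B.xl B.xr B.y1)
      (upT (D P.F L) B.xl B.xr B.y2) (L / 2) (mkG P L 0) (mkG P L 1) (JP P L δ B) (ZP P L B) p y0 :=
    fz_HGr P L δ B p y0
  rw [e1]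
  refine le_trans hfin ?_
  have h2 : h ^ 4 ≤ h ^ 2 := pow_le_pow_of_le_one hh.le l1 (by norm_num)
  have s1 : Real.sqrt (4 * q ^ N) ≤ 2 * Real.sqrt Cq * h ^ 2 := by
    rw [show 2 * Real.sqrt Cq * h ^ 2 = Real.sqrt (4 * (Cq * h ^ 4)) by
      rw [Real.sqrt_mul (by norm_num), Real.sqrt_mul hCq,
        show (4 : ℝ) = 2 ^ 2 by norm_num, Real.sqrt_sq (by norm_num),
        show h ^ 4 = (h ^ 2) ^ 2 by ring, Real.sqrt_sq (by positivity)]
      ring]
    exact Real.sqrt_le_sqrt (by linarith)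
  have s2 : CY / c * Real.sqrt (4 * q ^ N) ≤ CY / c * (2 * Real.sqrt Cq * h ^ 2) :=
    mul_le_mul_of_nonneg_left s1 (by positivity)
  have s3 : (9 / 2 : ℝ) * (2 * q ^ N) ≤ 9 * Cq * h ^ 2 := by
    have : q ^ N ≤ Cq * h ^ 2 := hqN.trans (mul_le_mul_of_nonneg_left h2 hCq)
    linarith
  calc _ ≤ 9 * Cq * h ^ 2 + CY / c * (2 * Real.sqrt Cq * h ^ 2) := add_le_add s3 s2
    _ = _ := by ring

end Crest.Agent.R158.Qf405
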