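import Crest.Agent.R158.Qf3_808
import Crest.Agent.R158.Ld1_570

/-!
# Row 158 (helper808), SEP: a pivotal ball gives a hole configuration

* `opC a b z` : `z` with the vertical edges of the columns `a` and `b` opened
* `hole_gen` : `P`, `P'` joined when the ball is opened, not joined off the ball
* `hole_of_bpiv` : `z ∈ BPiv x r {left-right crossing of [a,b] × [c,d]}`, ball off the columns: for all `P`,
  `P'` on the left / right side there are two vertices of the circle of radius `r + 1`, each with a neighbour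
  strictly inside, joined to `P` resp. `P'` by different clusters of `opC a b z` outside the ball
-/

set_option autoImplicit false

noncomputable section

namespace Crest.Agent.R158.Qf808

open Crest.Agent.R161.Geo729 Crest.Agent.R161.Topo374 Crest.Agent.R161.Dual374
open Crest.Agent.R161.Tas682 hiding Sq
open Crest.Agent.R158.Rs689 Crest.Agent.R158.Ru874 Crest.Agent.R158.Sp580
open Crest.Agent.R158.Ld570 (inB BPiv)

/-- vertical edge of the column `a` or `b` -/
def ColE (a b : ℤ) (e : Edge) : Prop := e.2 = true ∧ (e.1.1 = a ∨ e.1.1 = b)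

instance (a b : ℤ) (e : Edge) : Decidable (ColE a b e) := by unfold ColE; infer_instance

/-- open the columns `a` and `b` -/
def opC (a b : ℤ) (z : Cf) : Cf := fun e => z e || decide (ColE a b e)

theorem opC_true {a b : ℤ} {z : Cf} {e : Edge} : opC a b z e = true ↔ z e = true ∨ ColE a b e := by
  simp [opC]

theorem opC_mono {a b : ℤ} {z z' : Cf} (h : ∀ i, z i = true → z' i = true) :
    ∀ i, opC a b z i = true → opC a b z' i = true := by
  intro i hi
  rw [opC_true] at hi ⊢
  exact hi.imp (h i) id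

/-- a column is connected -/
theorem col_conn {a b c d : ℤ} {z : Cf} {x : ℤ} (hx : x = a ∨ x = b) (hab : a ≤ b) (n : ℕ) :
    ∀ y : ℤ, c ≤ y → y + n ≤ d → OC (opC a b z) (Rect a b c d) (x, y) (x, y + n) := by
  induction n with
  | zero =>
    intro y h1 h2
    simp only [Nat.cast_zero, add_zero] at h2 ⊢
    refine OC.refl ?_
    rw [mem_rect]
    simp only
    omega
  | succ n ih =>
    intro y h1 h2
    push_cast at h2
    have h3 := ih y h1 (by omega)
    refine h3.trans ⟨h3.right, .single ⟨⟨((x, y + n), true), ?_, Or.inl ⟨rfl, ?_⟩⟩, h3.right, ?_⟩⟩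
    · show opC a b z ((x, y + n), true) = true
      rw [opC_true]
      exact Or.inr ⟨rfl, hx⟩
    · rw [tgt_v]
      simp only [Prod.mk.injEq, true_and]
      push_cast
      ring
    · rw [mem_rect]
      simp only
      push_cast
      omega

theorem col_conn' {a b c d : ℤ} {z : Cf} {u v : P2} (hab : a ≤ b) (hx : u.1 = a ∨ u.1 = b)
    (huv : v.1 = u.1) (hu : u ∈ Rect a b c d) (hv : v ∈ Rect a b c d) :
    OC (opC a b z) (Rect a b c d) u v := by
  rw [mem_rect] at hu hv
  obtain ⟨u1, u2⟩ := u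
  obtain ⟨v1, v2⟩ := v
  simp only at hx huv hu hv
  subst huv
  rcases le_total u2 v2 with h | h
  · have h1 := col_conn (z := z) (c := c) (d := d) hx hab (v2 - u2).toNat u2 (by omega) (by omega)
    rwa [show u2 + ((v2 - u2).toNat : ℤ) = v2 by omega] at h1
  · have h1 := col_conn (z := z) (c := c) (d := d) hx hab (u2 - v2).toNat v2 (by omega) (by omega)
    rw [show v2 + ((u2 - v2).toNat : ℤ) = u2 by omega] at h1
    exact h1.symm

/-- a path stays outside the ball or visits it -/
theorem stay_or_in {z : Cf} {S : Set P2} (c : P2) (r : ℤ) {p q : P2} (h : OC z S p q)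
    (hp : r < sd c p) :
    OC z (S ∩ {v | r + 1 ≤ sd c v}) p q ∨ ∃ w, sd c w ≤ r ∧ OC z S p w ∧ OC z S w q := by
  obtain ⟨hpS, h⟩ := h
  induction h with
  | refl => exact Or.inl (OC.refl ⟨hpS, by show r + 1 ≤ sd c p; omega⟩)
  | @tail b w h1 h2 ih =>
      have hbw : OC z S b w := ⟨h2.2.1, .single h2⟩
      rcases ih with ih | ⟨w', h3, h4, h5⟩
      · by_cases hw : r + 1 ≤ sd c w
        · exact Or.inl ⟨ih.1, ih.2.tail ⟨h2.1, ih.right, ⟨h2.2.2, hw⟩⟩⟩
        · exact Or.inr ⟨w, by omega, ⟨hpS, h1.tail h2⟩, OC.refl h2.2.2⟩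
      · exact Or.inr ⟨w', h3, h4, h5.trans hbw⟩

/-- off the ball the two configurations have the same connections -/
theorem off_ball {z z1 : Cf} {L : Set P2} {c : P2} {r : ℤ} (hz : ∀ e, ¬ inB c r e → z1 e = z e)
    {u v : P2} : OC z1 (L ∩ {v | r + 1 ≤ sd c v}) u v ↔ OC z (L ∩ {v | r + 1 ≤ sd c v}) u v := by
  refine Ru874.oc_iff fun e h1 _ => hz e fun h => ?_
  have h2 : r + 1 ≤ sd c (src e) := h1.2
  have h3 := h.1
  omega

/-- **The hole configuration.** -/
theorem hole_gen {z z1 : Cf} {L : Set P2} {c : P2} {r : ℤ} {P P' : P2} (h1 : OC z1 L P P')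
    (h0 : ¬ OC z (L ∩ {v | r + 1 ≤ sd c v}) P P') (hz : ∀ e, ¬ inB c r e → z1 e = z e)
    (hP : r < sd c P) (hP' : r < sd c P') :
    ∃ x x' y y' : P2, sd c x = r + 1 ∧ sd c x' = r + 1 ∧ sd c y = r ∧ sd c y' = r ∧ Nbr y x ∧
      Nbr y' x' ∧ OC z (L ∩ {v | r + 1 ≤ sd c v}) x P ∧ OC z (L ∩ {v | r + 1 ≤ sd c v}) x' P' := by
  rcases stay_or_in c r h1 hP with h | ⟨w, hw, h2, h3⟩
  · exact absurd ((off_ball hz).1 h) h0
  · obtain ⟨y, x, a1, a2, a3, _, _, a6⟩ := last_exit_nb (c := c) (k := r) h2.symm hw hP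
    obtain ⟨y', x', b1, b2, b3, _, _, b6⟩ := last_exit_nb (c := c) (k := r) h3 hw hP'
    exact ⟨x, x', y, y', a2, b2, a1, b1, a3, b3, (off_ball hz).1 a6, (off_ball hz).1 b6⟩

/-- a path in the configuration with open columns, from the left to the right column, contains a crossing -/
theorem cross_of_opC {z : Cf} {a b : ℤ} {S : Set P2} {P P' : P2} (hP : P.1 = a) (hP' : P'.1 = b)
    (h : OC (opC a b z) S P P') : ∃ u v, u.1 = a ∧ v.1 = b ∧ OC z S u v := by
  obtain ⟨hPS, h⟩ := h
  have key : ∀ w, Relation.ReflTransGen (OStep (opC a b z) S) P w →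
      (∃ u, u.1 = a ∧ OC z S u w) ∨ ∃ u v, u.1 = a ∧ v.1 = b ∧ OC z S u v := by
    intro w hw
    induction hw with
    | refl => exact Or.inl ⟨P, hP, OC.refl hPS⟩
    | @tail p q _ hs ih =>
      rcases ih with ⟨u, hu, h1⟩ | h1
      · obtain ⟨⟨e, he, h2⟩, hp, hq⟩ := hs
        have he' : opC a b z e = true := he
        rw [opC_true] at he'
        by_cases hze : z e = true
        · exact Or.inl ⟨u, hu, h1.1, h1.2.tail ⟨⟨e, hze, h2⟩, hp, hq⟩⟩
        · obtain ⟨h3, h4⟩ := he'.resolve_left hze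
          obtain ⟨⟨i, j⟩, k⟩ := e
          simp only at h3 h4
          subst h3
          rw [src_mk, tgt_v] at h2
          have hpi : p.1 = i := by rcases h2 with ⟨rfl, rfl⟩ | ⟨rfl, rfl⟩ <;> rfl
          have hqi : q.1 = i := by rcases h2 with ⟨rfl, rfl⟩ | ⟨rfl, rfl⟩ <;> rfl
          rcases h4 with h4 | h4
          · exact Or.inl ⟨q, by omega, OC.refl hq⟩
          · exact Or.inr ⟨u, p, hu, by omega, h1⟩
      · exact Or.inr h1
  rcases key P' h with ⟨u, hu, h1⟩ | h1
  · exact ⟨u, P', hu, hP', h1⟩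
  · exact h1

/-- **A pivotal ball gives a hole configuration.** -/
theorem hole_of_bpiv {z : Cf} {a b c d : ℤ} {x : P2} {r : ℤ} (hab : a ≤ b)
    (hxa : a < x.1 - r) (hxb : x.1 + r < b)
    (hz : z ∈ BPiv x r {z | LRc z a b c d}) {P P' : P2} (hP : P ∈ Rect a b c d) (hPa : P.1 = a)
    (hP' : P' ∈ Rect a b c d) (hPb : P'.1 = b) :
    (∃ x1 x2 y1 y2 : P2, sd x x1 = r + 1 ∧ sd x x2 = r + 1 ∧ sd x y1 = r ∧ sd x y2 = r ∧ Nbr y1 x1 ∧
      Nbr y2 x2 ∧ OC (opC a b z) (Rect a b c d ∩ {v | r + 1 ≤ sd x v}) x1 P ∧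
      OC (opC a b z) (Rect a b c d ∩ {v | r + 1 ≤ sd x v}) x2 P') ∧
    ¬ OC (opC a b z) (Rect a b c d ∩ {v | r + 1 ≤ sd x v}) P P' := by
  classical
  obtain ⟨z', hz', hn⟩ := hz
  -- the extreme configurations
  set z1 : Cf := fun e => z e || decide (inB x r e) with hz1
  set z0 : Cf := fun e => z e && decide (¬ inB x r e) with hz0
  have h1z : ∀ i, z i = true → z1 i = true := by
    intro i hi; simp [hz1, hi]
  have h1z' : ∀ i, z' i = true → z1 i = true := by
    intro i hi
    by_cases h : inB x r i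
    · simp [hz1, h]
    · rw [hz' i h] at hi
      exact h1z i hi
  have h0z : ∀ i, z0 i = true → z i = true := by
    intro i hi
    simp only [hz0, Bool.and_eq_true] at hi
    exact hi.1
  have h0z' : ∀ i, z0 i = true → z' i = true := by
    intro i hi
    simp only [hz0, Bool.and_eq_true, decide_eq_true_eq] at hi
    rw [hz' i hi.2]
    exact hi.1
  have hmono : ∀ y y' : Cf, (∀ i, y i = true → y' i = true) → LRc y a b c d → LRc y' a b c d := by
    rintro y y' h ⟨u, v, hu, hv, huv⟩
    exact ⟨u, v, hu, hv, Sp580.oc_mono h subset_rfl huv⟩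
  have hA1 : LRc z1 a b c d := by
    by_cases h : LRc z a b c d
    · exact hmono _ _ h1z h
    · have : LRc z' a b c d := by
        by_contra h2
        exact hn ⟨fun h3 => absurd h3 h2, fun h3 => absurd h3 h⟩
      exact hmono _ _ h1z' this
  have hA0 : ¬ LRc z0 a b c d := by
    intro h
    exact hn ⟨fun _ => hmono _ _ h0z h, fun _ => hmono _ _ h0z' h⟩
  -- outside
  have hn' : ¬ OC (opC a b z) (Rect a b c d ∩ {v | r + 1 ≤ sd x v}) P P' := by
    intro hc
    obtain ⟨u, v, hu, hv, huv⟩ := cross_of_opC hPa hPb hc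
    apply hA0
    refine ⟨u, v, hu, hv, ?_⟩
    have h2 : OC z0 (Rect a b c d ∩ {v | r + 1 ≤ sd x v}) u v := by
      refine (off_ball (z := z) (z1 := z0) ?_).2 huv
      intro e he
      simp [hz0, he]
    exact h2.monoS Set.inter_subset_left
  refine ⟨?_, hn'⟩
  have hsP : r < sd x P := by
    by_contra h
    push Not at h
    rw [sd_le] at h
    omega
  have hsP' : r < sd x P' := by
    by_contra h
    push Not at h
    rw [sd_le] at h
    omega
  refine hole_gen (z1 := opC a b z1) ?_ hn' ?_ hsP hsP'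
  · obtain ⟨u, v, hu, hv, huv⟩ := hA1
    have huR := huv.1
    have hvR := huv.right
    have h2 := col_conn' (z := z1) hab (Or.inl hPa) (hu.trans hPa.symm) hP huR
    have h3 := col_conn' (z := z1) hab (Or.inr hv) (hPb.trans hv.symm) hvR hP'
    refine (h2.trans (Sp580.oc_mono ?_ subset_rfl huv)).trans h3
    intro i hi
    rw [opC_true]
    exact Or.inl hi
  · intro e he
    simp [opC, hz1, he]

end Crest.Agent.R158.Qf808
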