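import Crest.Agent.R158.Qg3_300
import Crest.Agent.R158.Qf1_405

/-!
# R158, evaluation: the second half of `EvalP` (helper300)

* `VI` : mean value of the family on the word
* **`evB : EvB VI P`**
-/

set_option autoImplicit false

noncomputable section

namespace Crest.Agent.R158.Qg300

open Finset MeasureTheory
open Crest.Agent.R158.Rs689 (PB)
open Crest.Agent.R158.Env664 (TG)
open Crest.Agent.R158.Xr249 (eD)
open Crest.Agent.R158.Ad350 (valD)
open Crest.Agent.R158.Tj656 (P4)
open Crest.Agent.R158.Fm857 (JP mkG)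
open Crest.Agent.R158.Qf405

/-- mean value of the family on the word -/
def VI : VT := fun P L δ B p y0 w =>
  ∫ s : TG → Bool, valD B p y0 (L / 8) (L / 2) (mkG P L 0) (mkG P L 1) (JP P L δ B) w
    (s ∘ eD B y0 (L / 8)) ∂(PB fun _ : TG => Rs689.hf)

/-- **the second half: value of the family on the word = observable** -/
theorem evB (P : P4) : EvB VI P := by
  intro A' B' r hrun a b c e hAa hab hbB hce hc
  obtain ⟨h0, C, hh0, hC, H⟩ := drop_all P A' B' r hrun a b c e hAa hab hbB hce hc
  refine ⟨h0, C, hh0, hC, fun h y hh hlt hy1 hy2 => ?_⟩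
  obtain ⟨δ, hδ, hδ1, L0, H⟩ := H h y hh hlt hy1 hy2
  exact ⟨δ, hδ, hδ1, L0, fun L hL B p y0 S i1 i2 w hw hM =>
    H L hL S.ev B S.onB p y0 i1 i2 S.z1 S.z2 w hw hM⟩

end Crest.Agent.R158.Qg300
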