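import Crest.Agent.R158.Qf2_405
import Crest.Agent.R158.Cq2_410
import Crest.Agent.R158.Qg4_300

/-!
# R158, Q1c = evaluation (helper405): `EvalP` is a theorem
-/

set_option autoImplicit false

noncomputable section

namespace Crest.Agent.R158.Qf405

open Crest.Agent.R158.Tj656 (P4)

theorem mkP (P : P4) : MkP P := by
  intro A' B' r hrun a b c e hA hab hB hce hh
  obtain ⟨h0, hh0, H⟩ := Cs410.mkDp P A' B' r hrun a b c e hA hab hB hce hh
  refine ⟨h0, hh0, fun h y h1 h2 h3 h4 => ?_⟩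
  obtain ⟨L0, H⟩ := H h y h1 h2 h3 h4
  exact ⟨L0, fun L hL B p y0 S i1 i2 w hw =>
    (H L hL S.ev B S.onB p y0 i1 i2 S.z1 S.z2).word hw⟩

theorem evalP (P : P4) : Cs410.EvalP Fm857.fz P :=
  evalP_of (VI := VIf) (mkP P) (evA P) (Qg300.evB P)

end Crest.Agent.R158.Qf405
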