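import Crest.Agent.R158.Qf6_808
import Crest.Agent.R158.Qf7_808
import Crest.Agent.R158.Oc1_874
import Crest.Agent.R158.Sq9_200
import Crest.Agent.R158.Sp5_580

/-!
# Row 158 (helper808), QM4: the cover and `HypU4` from the point bounds

* `covT2` : `CovT2 500`
* `sepIn` : `SepIn`
* `hypU4` : `L4 → P4U → HypU4`
-/

set_option autoImplicit false

noncomputable section

namespace Crest.Agent.R158.Qf808

open MeasureTheory ProbabilityTheory unitInterval Filter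
open Crest.Agent.R161.Geo729 Crest.Agent.R161.Topo374 Crest.Agent.R161.Dual374
open Crest.Agent.R161.Tas682 hiding Sq
open Crest.Agent.R158.Rs689 Crest.Agent.R158.Ru874 Crest.Agent.R158.Sp580
open Crest.Agent.R158.Sp874 (rt nr cl FarN)
open Crest.Agent.R158.Cpl963 (T2 T2_shrink HypU4)
open Crest.Agent.R158.Oc874 (kp NC nr_kp mem_kp far_kp bk_kp nc_of_sd nc_of_face fo_eq outP outD)
open Crest.Agent.R158.Kd458 (So Fi Fo FoR IB Out RingF IsCol exists_out exists_col through_hole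
  core_hole oc_step rtg_pstep_symm to_ring)
open Crest.Agent.R158.Sq200 (BdV InE)

theorem sepIn : SepIn := by
  intro c hc
  obtain ⟨K, _, h⟩ := sep_in hc
  refine ⟨K, fun p j hp e he => h p j (hp.mono ?_) e he⟩
  exact Nat.pow_le_pow_right (by norm_num) (by omega)

/-- open paths off the boxes of radius `t` avoid the blocks of the dual landing cells -/
theorem sub_blk {n N : ℕ} (hn : 1 ≤ n) (hN : 1 ≤ N) {L : Set P2} {w w' y y' : P2}
    {t : ℤ} (ht : 12 * (n : ℤ) ≤ t) (hy : NC n N y) (hy' : NC n N y') (hw : sd y w ≤ 1)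
    (hw' : sd y' w' ≤ 1) :
    OutV L (N * n) ∩ {v | t ≤ sd w v} ∩ {v | t ≤ sd w' v} ⊆
      OutV L (N * n) \ Bk2 n (kp n N y) (kp n N y') 8 := by
  have hn' : (1 : ℤ) ≤ n := by exact_mod_cast hn
  have hN' : (1 : ℤ) ≤ N := by exact_mod_cast hN
  rintro v ⟨⟨h1, h2⟩, h3⟩
  have h2' : t ≤ sd w v := h2
  have h3' : t ≤ sd w' v := h3
  refine ⟨h1, ?_⟩
  rintro (h4 | h4)
  · have h5 := bk_kp hn hN' hy h4
    have h6 := Kd458.sd_tri w y v
    rw [Kd458.sd_symm w y] at h6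
    omega
  · have h5 := bk_kp hn hN' hy' h4
    have h6 := Kd458.sd_tri w' y' v
    rw [Kd458.sd_symm w' y'] at h6
    omega

theorem sub_blkD {n N : ℕ} (hn : 1 ≤ n) (hN : 1 ≤ N) {FL : Set P2} {x x' : P2}
    {s : ℤ} (hs : 12 * (n : ℤ) ≤ s) (hx : NC n N x) (hx' : NC n N x') :
    OutF FL (N * n) ∩ {v | s ≤ sd x v} ∩ {v | s ≤ sd x' v} ⊆
      OutF FL (N * n) \ Bk2 n (kp n N x) (kp n N x') 8 := by
  have hN' : (1 : ℤ) ≤ N := by exact_mod_cast hN
  rintro v ⟨⟨h1, h2⟩, h3⟩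
  have h2' : s ≤ sd x v := h2
  have h3' : s ≤ sd x' v := h3
  refine ⟨h1, ?_⟩
  rintro (h4 | h4)
  · have h5 := bk_kp hn hN' hx h4
    omega
  · have h5 := bk_kp hn hN' hx' h4
    omega

theorem bd_of_sd {l : ℤ} {v : P2} (hv : sd (0, 0) v = l) :
    v ∈ Rect (-l) l (-l) l ∧ BdV (-l) l (-l) l v := by
  have h3 := (sd_le (x := (0, 0)) (p := v) (k := l)).1 hv.le
  have h4 : ¬ sd (0, 0) v ≤ l - 1 := by omega
  rw [sd_le] at h4
  rw [mem_rect]
  unfold BdV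
  simp only at h3 h4
  omega

/-- **The cover.** -/
theorem covT2 : CovT2 500 := by
  intro D1 D2 D3 h1 h2 h3 N hN n hn k l hk hkN hl z hz hGO
  have hn' : (2 : ℤ) ≤ n := by exact_mod_cast hn
  have hN1 : 1 ≤ N := by
    rw [hN]
    have : 2 * 2 * 2 * 1 ≤ D1 * D2 * D3 * 500 := by gcongr; norm_num
    have e0 : 32 * D1 * D2 * D3 * 500 = 32 * (D1 * D2 * D3 * 500) := by ring
    omega
  have hNZ : (1 : ℤ) ≤ N := by exact_mod_cast hN1
  -- radii
  set u : ℤ := ((500 : ℕ) : ℤ) * n with hu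
  have hu2 : 2 ≤ u := by rw [hu]; push_cast; omega
  have hu500 : u = 500 * n := by rw [hu]; push_cast; ring
  have hρ : (N : ℤ) * n = 32 * D1 * D2 * D3 * u := by
    rw [hN, hu]; push_cast; ring
  obtain ⟨a1, a2, a3, a4, a5, a6, a7, a8⟩ := goodH_radii h1 h2 h3 hu2
  obtain ⟨r1, r2, r3, r4, r5⟩ := radii h1 h2 h3 (show 1 ≤ u by omega)
  have hb8 : 32 * (D1 : ℤ) * D2 * D3 * u = 8 * (4 * D1 * D2 * D3 * u) := by ring
  have hbig : (N : ℤ) * n + (4 * D1 * D2 * D3 * u) + 3 ≤ l := by omega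
  have hG : Kd458.GoodH z (-l) l (-l) l (0, 0) (32 * D1 * D2 * D3 * u) u (D3 * u) (2 * D3 * u - 1)
      (2 * D3 * u) (2 * D2 * D3 * u) (4 * D2 * D3 * u) (4 * D1 * D2 * D3 * u + 1) :=
    goodH_of_GO h1 h2 h3 (by omega) (by simp only; omega) (by simp only; omega) (by simp only; omega)
      (by simp only; omega) hGO
  rw [← hρ] at hG
  -- the hole configuration
  obtain ⟨x, x', q, q', p, p', hx, hx', hq, hq', hqx, hqx', hp, hp', hxp, hxp', hpp, _⟩ :=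
    hole_of_T2 (ρ := (N : ℤ) * n) hkN (by omega) hz
  have hbp := bd_of_sd hp
  have hbp' := bd_of_sd hp'
  obtain ⟨e, he⟩ := exists_out hbp.1 hbp.2
  obtain ⟨e', he'⟩ := exists_out hbp'.1 hbp'.2
  have g1 : OC z (So (-l) l (-l) l (0, 0) (N * n)) x p := hxp
  have g2 : OC z (So (-l) l (-l) l (0, 0) (N * n)) x' p' := hxp'
  have th1 := through_hole (x0 := -l) (x1 := l) (y0 := -l) (y1 := l) (c0 := (0, 0)) (ρ := (N : ℤ) * n)
    (by simp only; omega) (by simp only; omega) (by simp only; omega) (by simp only; omega) hx hqx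
    (by omega)
  have th2 := through_hole (x0 := -l) (x1 := l) (y0 := -l) (y1 := l) (c0 := (0, 0)) (ρ := (N : ℤ) * n)
    (by simp only; omega) (by simp only; omega) (by simp only; omega) (by simp only; omega) hx' hqx'
    (by omega)
  have hP : Relation.ReflTransGen (PStep (fun e => True ∧ IB (-l) l (-l) l e)) p p' := by
    refine ((Kd458.pstep_mono' ?_ (oc_step g1.symm)).trans ((Kd458.pstep_mono' ?_
      (rtg_pstep_symm th1)).trans (Kd458.pstep_mono' ?_ th2))).trans (Kd458.pstep_mono' ?_ (oc_step g2))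
    · rintro e ⟨_, h4⟩
      exact ⟨trivial, h4.1.1, h4.2.1⟩
    · rintro e h3
      exact ⟨trivial, h3.1⟩
    · rintro e h3
      exact ⟨trivial, h3.1⟩
    · rintro e ⟨_, h4⟩
      exact ⟨trivial, h4.1.1, h4.2.1⟩
  obtain ⟨F, hF⟩ := exists_col (O := fun _ => True) (by omega) (by omega) he he' hP
  obtain ⟨hs1, y, y', w, w', g, g', f, f', hw, hyw, hw', hyw', hy, hyF, hy', hyF', hg, hbg, hg', hbg', hf, hf',
    hff, hff', htt, hgf, hgf', b1, b2, b3, b4⟩ := core_hole (z := z) (c0 := (0, 0)) (by simp only; omega)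
    (by simp only; omega) (by simp only; omega) (by simp only; omega) a1 a2 a3 a4 a5 a6 a7 a8 hx hx' hqx
    (by omega) hqx' (by omega) he he' hF g1 g2 hpp hG
  -- cells
  have hnn : (1 : ℤ) ≤ n := by omega
  have nx := nc_of_sd hnn hx
  have nx' := nc_of_sd hnn hx'
  have ny := nc_of_face hnn hyF hy.2
  have ny' := nc_of_face hnn hyF' hy'.2
  have hn1 : 1 ≤ n := by omega
  have m1 := mem_kp hn1 hNZ nx
  have m2 := mem_kp hn1 hNZ ny
  have m3 := mem_kp hn1 hNZ nx'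
  have m4 := mem_kp hn1 hNZ ny'
  -- distances
  have d1 : 2 * (D3 : ℤ) * u ≤ sd x y := b1.1.1.2
  have d1' : 2 * (D3 : ℤ) * u ≤ sd x' y := b1.1.2
  have d2 : 2 * (D3 : ℤ) * u ≤ sd x y' := b2.1.1.2
  have d2' : 2 * (D3 : ℤ) * u ≤ sd x' y' := b2.1.2
  have e0 : 2 * (D3 : ℤ) * u = 2 * (D3 * u) := by ring
  have f12 : FarN 420 (kp n N x) (kp n N y) := far_kp hn1 hNZ nx ny (by omega)
  have f23 : FarN 420 (kp n N y) (kp n N x') := far_kp hn1 hNZ ny nx' (by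
    rw [Kd458.sd_symm]; omega)
  have f34 : FarN 420 (kp n N x') (kp n N y') := far_kp hn1 hNZ nx' ny' (by omega)
  have f41 : FarN 420 (kp n N y') (kp n N x) := far_kp hn1 hNZ ny' nx (by
    rw [Kd458.sd_symm]; omega)
  have f13 : FarN 420 (kp n N x) (kp n N x') := far_kp hn1 hNZ nx nx' (by omega)
  -- arms off the blocks
  have hP1 : OC z (OutV (Rect (-l) l (-l) l) (N * n) \ Bk2 n (kp n N y) (kp n N y') 8) x p :=
    b3.monoS (sub_blk hn1 hN1 (L := Rect (-l) l (-l) l) (t := u) (by omega) ny ny' hyw hyw')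
  have hP2 : OC z (OutV (Rect (-l) l (-l) l) (N * n) \ Bk2 n (kp n N y) (kp n N y') 8) x' p' :=
    b4.monoS (sub_blk hn1 hN1 (L := Rect (-l) l (-l) l) (t := u) (by omega) ny ny' hyw hyw')
  have hsF : Fo (-l) l (-l) l (0, 0) (N * n) ∩ {v | 2 * (D3 : ℤ) * u ≤ sd x v} ∩
      {v | 2 * (D3 : ℤ) * u ≤ sd x' v} ⊆ OutF (Rect (-l) (l - 1) (-l) (l - 1)) (N * n) ∩
        {v | 2 * (D3 : ℤ) * u ≤ sd x v} ∩ {v | 2 * (D3 : ℤ) * u ≤ sd x' v} := by
    rw [fo_eq]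
    exact subset_rfl
  have hD1 : OC (dual z) (OutF (Rect (-l) (l - 1) (-l) (l - 1)) (N * n) \
      Bk2 n (kp n N x) (kp n N x') 8) y g :=
    (b1.monoS hsF).monoS (sub_blkD hn1 hN1 (by omega) nx nx')
  have hD2 : OC (dual z) (OutF (Rect (-l) (l - 1) (-l) (l - 1)) (N * n) \
      Bk2 n (kp n N x) (kp n N x') 8) y' g' :=
    (b2.monoS hsF).monoS (sub_blkD hn1 hN1 (by omega) nx nx')
  have hgf2 : DStep (fun e => z e = false ∧ IB (-l) l (-l) l e) g f := by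
    obtain ⟨e1, ⟨c1, c2⟩, c3⟩ := hgf
    exact ⟨e1, ⟨c1, c2.1.1, c2.2.1⟩, c3⟩
  have hgf2' : DStep (fun e => z e = false ∧ IB (-l) l (-l) l e) g' f' := by
    obtain ⟨e1, ⟨c1, c2⟩, c3⟩ := hgf'
    exact ⟨e1, ⟨c1, c2.1.1, c2.2.1⟩, c3⟩
  have n3 : 3 * (n : ℤ) ≤ 4 * D1 * D2 * D3 * u := by omega
  have c3 : ((N : ℤ) + 3) * n = N * n + 3 * n := by ring
  obtain ⟨W, hW1, hW2, hW3, hW4, hW⟩ := Sr200.uout_alt hn1 (g := 420) (by norm_num)
    (x0 := -l) (x1 := l) (y0 := -l) (y1 := l) (N := N)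
    (by rw [c3]; omega) (by rw [c3]; omega) (by rw [c3]; omega) (by rw [c3]; omega)
    (nr_kp hnn hNZ nx) (nr_kp hnn hNZ ny) (nr_kp hnn hNZ nx') (nr_kp hnn hNZ ny') f12 f23 f34 f41 f13
    he he' hF m1 m3 hP1 hP2 m2 m4 hD1 hD2 hgf2 hgf2' hf hf' (by rw [hff, hff']; decide)
  refine ⟨W, hW, ?_⟩
  rw [hW1, hW2, hW3, hW4]
  refine ⟨outP hn1 hN1 (t := u) (by omega) nx nx' ny ny' hyw hyw' hp hp' b3 b4, ?_⟩
  -- the dual arms in the ring form
  have ringmem : ∀ {f : P2}, RingF (-l) l (-l) l f → f ∈ RF l := by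
    intro f hf
    refine ⟨?_, ?_⟩
    · have := hf.1
      rw [mem_FSq]; omega
    · intro h5
      rw [mem_rect] at h5
      have := hf.2
      omega
  have fmem : ∀ {f : P2}, RingF (-l) l (-l) l f →
      f ∈ OutF (FSq l) (N * n) ∩ {v | 2 * (D3 : ℤ) * u ≤ sd x v} ∩ {v | 2 * (D3 : ℤ) * u ≤ sd x' v} := by
    intro f hf
    have hfar : ∀ {m : ℤ}, m < l → ¬ sd (0, 0) f ≤ m := by
      intro m hm h3
      rw [sd_le] at h3
      simp only at h3
      rcases hf.2 with h4 | h4 | h4 | h4 <;> omega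
    have h6 : ∀ {v : P2}, sd (0, 0) v = N * n → 2 * (D3 : ℤ) * u ≤ sd v f := by
      intro v hv
      by_contra h7
      have h8 := Kd458.sd_tri (0, 0) v f
      exact hfar (show (N : ℤ) * n + 2 * (D3 : ℤ) * u < l by omega) (by omega)
    rw [fo_eq]
    refine ⟨⟨⟨(ringmem hf).1, ?_⟩, h6 hx⟩, h6 hx'⟩
    intro h7
    simp only [Fi, mem_rect] at h7
    apply hfar (show (N : ℤ) * n < l by omega)
    rw [sd_le]
    simp only
    omega
  have hsT : Fo (-l) l (-l) l (0, 0) (N * n) ∩ {v | 2 * (D3 : ℤ) * u ≤ sd x v} ∩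
      {v | 2 * (D3 : ℤ) * u ≤ sd x' v} ⊆ OutF (FSq l) (N * n) ∩ {v | 2 * (D3 : ℤ) * u ≤ sd x v} ∩
        {v | 2 * (D3 : ℤ) * u ≤ sd x' v} := by
    rintro v ⟨⟨⟨hv1, hv2⟩, hv3⟩, hv4⟩
    rw [fo_eq]
    refine ⟨⟨⟨?_, hv2⟩, hv3⟩, hv4⟩
    rw [mem_rect] at hv1
    rw [mem_FSq]
    omega
  exact outD hn1 hN1 (s := 2 * (D3 : ℤ) * u) (by omega) nx nx' ny ny' (ringmem hf) (ringmem hf')
    (to_ring b1 hgf (fmem hf) hsT) (to_ring b2 hgf' (fmem hf') hsT)

/-- **The annulus form of the four-arm bound from the two point bounds.** -/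
theorem hypU4 (hL : Cpl963.L4) (hU : Ax107.P4U) : HypU4 :=
  hypU4_of (by norm_num) covT2 sepIn hL hU

end Crest.Agent.R158.Qf808
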