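import Crest.Agent.R158.Oc6_194
import Crest.Agent.R158.Dp6_440
import Crest.Agent.R158.Qe5_249

/-!
# R158, evaluation: the dropped part of the mark sum (helper300)

* `cls_drop` : an end of the word outside the family `Jd` is in a window (face of `W`) or deep
* **`bad_main`** : the event `Bad` of `Oc194.HW_valD`, `P(Bad) ≤ #W η + P(gates open)`, from `Quiet`
  windows
-/

set_option autoImplicit false
set_option linter.unusedVariables false
set_option linter.unusedSectionVars false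

noncomputable section

namespace Crest.Agent.R158.Qg300

open Finset MeasureTheory
open Crest.Agent.R158.Sw300 (Port Wd L M u Ok tls)
open Crest.Agent.R158.Al194
open Crest.Agent.R158.Ob664 (GW HW HV norm_HW_le HV_mem norm_le_of_Tri)
open Crest.Agent.R158.Rs689 (PB)
open Crest.Agent.R158.Qe249 (VJ SmP SmP_hL measurable_VJ integrable_VJ norm_HV_sub_VJ gateD gateD_zero
  Pm Deep deepR deepL deepR_iff deepL_iff not_deep)
open Crest.Agent.R158.Env664 (TG Band beD)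
open Crest.Agent.R158.Xr249 (Dp mem_Dp Free pm pm_some eD)
open Crest.Agent.R158.Qc405 (TabH)
open Crest.Agent.R158.Oc194
open Crest.Agent.R158.Fm857 (Jd mem_Jd inI far freeG)
open Crest.Agent.R158.Dp440 (Quiet)
open Crest.Agent.R158.Cw161 (Bx)

variable {A : Finset (ℤ × ℤ)} {B : Band A} {k p y0 b : ℤ} {ψ : (ℤ × ℤ) × ZMod 4 → ℤ}
  {w : Wd (ℤ × ℤ)}

/-- the faces of the windows: all special tiles and the four mouth corners -/
structure Faces (B : Band A) (Sp W : Finset (ℤ × ℤ)) : Prop where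
  sp : ∀ v ∈ Sp, ∃ f ∈ W, (f.1 = v.1 ∨ f.1 = v.1 - 1) ∧ (f.2 = v.2 ∨ f.2 = v.2 - 1)
  r1 : (B.xr, B.y1 - 1) ∈ W
  r2 : (B.xr, B.y2 - 1) ∈ W
  l1 : (B.xl - 1, B.y1 - 1) ∈ W
  l2 : (B.xl - 1, B.y2 - 1) ∈ W

/-- **the ends outside the family** -/
theorem cls_drop (H : TabH A B.xl B.xr B.y1 B.y2 k p y0 ψ)
    (hw : GW (Dp A B.xl B.xr B.y1 B.y2 k) (beD (Dp A B.xl B.xr B.y1 B.y2 k) p y0 (B.xr + k)) w)
    (hR : 2 * k < B.R) (hz : B.At p y0) (hb : k ≤ b) (hb' : b + k ≤ B.R) {b0 : Port (ℤ × ℤ)}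
    (O : Ord w (KD B) b0) {m1 m2 m3 : Port (ℤ × ℤ)} (hM : Mk w m1 m2 m3)
    (h2 : NatD B m2 ∨ NatS B k m2) (h3 : NatD B m3 ∨ NatS B k m3)
    {Sp W : Finset (ℤ × ℤ)} {Δ a0 c0 : ℤ} (hW : Faces B Sp W) (hΔ : 0 < Δ) (hΔa : Δ ≤ a0 + 1)
    (ha : a0 + 2 < k) (hc : B.R - k ≤ c0) (hΔc : c0 + Δ < B.R) {j : ℕ}
    (hj1 : idL (L w) m1 m2 ≤ j) (hj2 : j < idL (L w) m1 m3)
    (hJ : pm (eD B y0 k) (enL (L w) m1 j) ∉
      Jd B b Sp Δ a0 c0 (pm (eD B y0 k) m2) (pm (eD B y0 k) m3)) :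
    Deep B y0 k a0 c0 (enL (L w) m1 j) ∨
      ∃ f ∈ W, ∃ t d, enL (L w) m1 j = some (t, d) ∧ Bx f.1 f.2 (Δ.toNat + 1) t := by
  have hk := H.hk
  have hy1 := H.hy1
  have hy2 := H.hy2
  have hle := H.hf.le
  have l3 : idL (L w) m1 m3 < (L w).length := idL_lt (m1 := m1) hM.2.2.1
  have hjl : j < (L w).length := hj2.trans l3
  have hx := enL_mem (w := w) (m1 := m1) hjl
  have hid : idL (L w) m1 (enL (L w) m1 j) = j := idL_enL hw.word.1 hjl
  have hΔn : ((Δ.toNat : ℕ) : ℤ) = Δ := Int.toNat_of_nonneg hΔ.le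
  generalize enL (L w) m1 j = x at hx hid hJ ⊢
  rcases fc_of H hw hx with hN | hN | hN | hN
  · -- an end of the region
    right
    have hI := (inI_iff H hw hR hb hb' O hM h2 h3 hx (Or.inl hN)).1
      (by rw [hid, mem_Ico]; exact ⟨hj1, hj2⟩)
    have hG := nat_free H hR (Or.inl hN : NatD B x ∨ NatS B k x)
    obtain ⟨t, d, rfl, ht⟩ := natD_some hN
    have hfar : ¬ far B Sp Δ a0 c0 (pm (eD B y0 k) (some (t, d))) := fun h =>
      hJ ((mem_Jd B).2 ⟨hG, hI, h⟩)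
    rw [pm_A H.hf ht] at hfar
    have hfar' : ¬ ∀ v ∈ Sp, Δ ≤ |t.1 - v.1| ∨ Δ ≤ |t.2 - v.2| := hfar
    push Not at hfar'
    obtain ⟨v, hv, hv1, hv2⟩ := hfar'
    rw [abs_lt] at hv1 hv2
    obtain ⟨f, hf, hf1, hf2⟩ := hW.sp v hv
    refine ⟨f, hf, t, d, rfl, ?_⟩
    unfold Bx
    push_cast
    omega
  · -- an end of a stub
    have hI := (inI_iff H hw hR hb hb' O hM h2 h3 hx (Or.inr hN)).1
      (by rw [hid, mem_Ico]; exact ⟨hj1, hj2⟩)
    have hG := nat_free H hR (Or.inr hN : NatD B x ∨ NatS B k x)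
    have hfar : ¬ far B Sp Δ a0 c0 (pm (eD B y0 k) x) := fun h => hJ ((mem_Jd B).2 ⟨hG, hI, h⟩)
    rcases hN with ⟨u, hu, rfl⟩ | ⟨u, hu, rfl⟩ | ⟨u, hu, rfl⟩ | ⟨u, hu, rfl⟩
    · rw [pm_r H hu ⟨le_rfl, by omega⟩] at hfar
      simp only [far] at hfar
      rw [if_pos trivial] at hfar
      by_cases hd : a0 < u - B.xr - 1
      · left; left
        rw [deepR_iff]
        refine ⟨hu.1, hu.2, le_rfl, by omega, ?_⟩
        rw [Zg180.uc_lt hy1]
        exact hd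
      · right
        refine ⟨_, hW.r1, _, _, rfl, ?_⟩
        unfold Bx
        push_cast
        omega
    · rw [pm_r H hu ⟨by omega, by omega⟩] at hfar
      simp only [far] at hfar
      rw [if_neg z13] at hfar
      by_cases hd : a0 < u - B.xr - 1 - 1
      · left; left
        rw [deepR_iff]
        refine ⟨hu.1, hu.2, by omega, by omega, ?_⟩
        rw [Zg180.uc_ge (by omega)]
        exact hd
      · right
        refine ⟨_, hW.r2, _, _, rfl, ?_⟩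
        unfold Bx
        push_cast
        omega
    · rw [pm_l H hu ⟨le_rfl, by omega⟩, wd1 H] at hfar
      simp only [far] at hfar
      rw [if_pos trivial] at hfar
      by_cases hd : B.R - (B.xl - u) ≤ c0
      · left; right
        rw [deepL_iff]
        exact ⟨hu.1, hu.2, le_rfl, by omega, hd⟩
      · right
        refine ⟨_, hW.l1, _, _, rfl, ?_⟩
        unfold Bx
        push_cast
        omega
    · rw [pm_l H hu ⟨by omega, by omega⟩, wd2 H] at hfar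
      simp only [far] at hfar
      rw [if_neg z13] at hfar
      by_cases hd : B.R - (B.xl - u) ≤ c0
      · left; right
        rw [deepL_iff]
        exact ⟨hu.1, hu.2, by omega, by omega, hd⟩
      · right
        refine ⟨_, hW.l2, _, _, rfl, ?_⟩
        unfold Bx
        push_cast
        omega
  · left; left
    rcases hN with ⟨v, hv, rfl⟩ | rfl
    · rw [deepR_iff]
      refine ⟨by omega, le_rfl, hv.1, hv.2, ?_⟩
      rcases lt_or_ge v y0 with h | h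
      · rw [Zg180.uc_lt h]; omega
      · rw [Zg180.uc_ge (by omega)]; omega
    · rw [deepR_iff]
      refine ⟨by omega, le_rfl, by omega, by omega, ?_⟩
      rw [Zg180.uc_lt (by omega)]; omega
  · left; right
    obtain ⟨v, hv, rfl⟩ := hN
    rw [deepL_iff]
    exact ⟨le_rfl, by omega, hv.1, hv.2, by omega⟩

/-- **the event of the dropped part** -/
theorem bad_main (H : TabH A B.xl B.xr B.y1 B.y2 k p y0 ψ)
    (hw : GW (Dp A B.xl B.xr B.y1 B.y2 k) (beD (Dp A B.xl B.xr B.y1 B.y2 k) p y0 (B.xr + k)) w)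
    (hz : B.At p y0) (hb : k ≤ b) (hb' : b + k ≤ B.R) {b0 : Port (ℤ × ℤ)}
    (O : Ord w (KD B) b0) {m1 m2 m3 : Port (ℤ × ℤ)} (hM : Mk w m1 m2 m3)
    (hA : ∀ m, m = m1 ∨ m = m2 ∨ m = m3 → ∃ t d, m = some (t, d) ∧ t ∈ A)
    {Sp W : Finset (ℤ × ℤ)} {Δ a' a0 c0 c' : ℤ} (hW : Faces B Sp W) (hΔ : 0 < Δ) (hΔa : Δ ≤ a0 + 1)
    (hΔc : c0 + Δ < B.R) (P : Pm B k a' a0 c0 c') {η : ℝ}
    (hQ : ∀ f ∈ W, ∃ Bad : Set (ℤ × ℤ → Bool), (PB fun _ : ℤ × ℤ => Rs689.hf).real Bad ≤ η ∧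
      ∀ s ∉ Bad, Quiet w m1 m2 m3 (Bx f.1 f.2 (Δ.toNat + 1)) s) :
    ∃ Bad : Set (ℤ × ℤ → Bool), (PB fun _ : ℤ × ℤ => Rs689.hf).real Bad ≤
      W.card * η + (PB fun _ : ℤ × ℤ => Rs689.hf).real (gateD hz P)ᶜ ∧
      ∀ s ∉ Bad, ∀ j ∈ Ico (idL (L w) m1 m2) (idL (L w) m1 m3),
        pm (eD B y0 k) (enL (L w) m1 j) ∉
          Jd B b Sp Δ a0 c0 (pm (eD B y0 k) m2) (pm (eD B y0 k) m3) → SmP w s m1 m2 j = 0 := by
  classical
  choose! Bd hB1 hB2 using hQ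
  have nat : ∀ m, m = m1 ∨ m = m2 ∨ m = m3 → m ∈ L w → NatD B m ∨ NatS B k m := by
    intro m hm hmL
    obtain ⟨t, d, e, ht⟩ := hA m hm
    exact Or.inl (natD_of_mem H hw hmL e ht)
  have n2 := nat m2 (Or.inr (Or.inl rfl)) hM.2.1
  have n3 := nat m3 (Or.inr (Or.inr rfl)) hM.2.2.1
  obtain ⟨t1, d1, e1, ht1⟩ := hA m1 (Or.inl rfl)
  obtain ⟨t2, d2, e2, ht2⟩ := hA m2 (Or.inr (Or.inl rfl))
  have nd1 : ¬ Deep B y0 k a' c' m1 := by rw [e1]; exact not_deep H.hf ht1 _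
  have nd2 : ¬ Deep B y0 k a' c' m2 := by rw [e2]; exact not_deep H.hf ht2 _
  refine ⟨(⋃ f ∈ W, Bd f) ∪ (gateD hz P)ᶜ, ?_, ?_⟩
  · have h1 := measureReal_union_le (μ := PB fun _ : ℤ × ℤ => Rs689.hf) (⋃ f ∈ W, Bd f)
      (gateD hz P)ᶜ
    have h2 : (PB fun _ : ℤ × ℤ => Rs689.hf).real (⋃ f ∈ W, Bd f) ≤ W.card * η := by
      refine (measureReal_biUnion_finset_le W Bd).trans ?_
      refine (Finset.sum_le_sum fun f hf => hB1 f hf).trans ?_
      rw [Finset.sum_const, nsmul_eq_mul]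
    linarith
  · intro s hs j hj hJ
    obtain ⟨hj1, hj2⟩ := mem_Ico.1 hj
    rw [Set.mem_union, not_or, Set.mem_compl_iff, not_not, Set.mem_iUnion₂] at hs
    obtain ⟨hs1, hs2⟩ := hs
    have l3 : idL (L w) m1 m3 < (L w).length := idL_lt (m1 := m1) hM.2.2.1
    have hjl : j < (L w).length := hj2.trans l3
    rcases cls_drop H hw P.kR hz hb hb' O hM n2 n3 hW hΔ hΔa P.h2 P.h3 hΔc hj1 hj2 hJ with h | h
    · exact gateD_zero H.hf hw hs2 hM.1 hM.2.1 nd1 nd2 hjl h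
    · obtain ⟨f, hf, t, d, e, ht⟩ := h
      exact hB2 f hf s (fun h => hs1 ⟨f, hf, h⟩) j hj1 hj2 ⟨t, d, e, ht⟩

end Crest.Agent.R158.Qg300
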