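import Crest.Agent.R158.Qg1_300
import Crest.Agent.R158.Fm3_857
import Crest.Agent.R158.Cq1_410
import Crest.Agent.R158.Hw1_949
import Crest.Agent.R158.Cn1_161

/-!
# R158, evaluation: the windows at the special tiles of a marked polygon (helper300)

* `WinOk` : hypotheses of `Dp440.quad_drop` at a face
* `NumW` : numerical hypotheses
* `win_vert`, `win_mark`, `win_mouth` : the three kinds of faces
* `FW P L B` : the faces; **`faces_FW : Faces B (SpP P L B) (FW P L B)`**, **`win_FW`**, `card_FW`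
-/

set_option autoImplicit false
set_option linter.unusedVariables false
set_option linter.unusedSectionVars false
set_option linter.unusedSimpArgs false

noncomputable section

namespace Crest.Agent.R158.Qg300

open Finset
open Crest.Agent.R158.Sw300 (Port)
open Crest.Agent.R158.Env664 (TG Band Run D mark nbc mem_D div_iff)
open Crest.Agent.R158.Xr249 (Dp mem_Dp Free)
open Crest.Agent.R158.Dp440 (Quad)
open Crest.Agent.R158.Cw161 (Bx FarM)
open Crest.Agent.R158.Tj656 (P4)
open Crest.Agent.R158.Fm857 (SpP mem_SpP vertP mem_vertP mouthC mem_mouthC mkP tlP)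
open Crest.Agent.R158.Cs410 (mk)

/-- hypotheses of `quad_drop` at the face `f` -/
def WinOk (A : Finset (ℤ × ℤ)) (y0 : ℤ) (R1 R2 : ℕ) (m1 m2 m3 : Port (ℤ × ℤ)) (f : ℤ × ℤ) : Prop :=
  ∃ f00 f10 f01 f11 : Prop, Quad A f.1 f.2 (R1 + 1) f00 f10 f01 f11 ∧
    ¬ (f00 ∧ f11 ∧ ¬ f10 ∧ ¬ f01) ∧ ¬ (f10 ∧ f01 ∧ ¬ f00 ∧ ¬ f11) ∧ (R2 : ℤ) + 1 < |f.2 - y0| ∧
    (FarM f.1 f.2 R1 m1 ∨ (FarM f.1 f.2 R1 m2 ∧ FarM f.1 f.2 R1 m3))

/-- numerical hypotheses of the windows -/
structure NumW (P : P4) (a b r L k y0 : ℤ) (B : Band (D P.F L)) (s m R1 R2 : ℕ) : Prop where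
  run : Run P.F a b r
  hL : 64 ≤ L
  hev : Even L
  xl : B.xl = a * L
  xr : B.xr = b * L + L - 1
  a1 : y0 - s ≤ B.y1
  a4 : B.y2 ≤ y0 + s
  row : (r * L < y0 - m ∧ y0 + m ≤ r * L + L / 2 - 1) ∨
    (r * L + L / 2 < y0 - m ∧ y0 + m ≤ r * L + L - 1)
  hm : R2 + s + 4 ≤ m
  R12 : R1 ≤ R2
  Rk : (R1 : ℤ) + 1 ≤ k
  kL : k ≤ L
  q1 : (R2 : ℤ) + 2 ≤ y0 - B.y1
  q2 : (R2 : ℤ) + 3 ≤ B.y2 - y0
  RL : 4 * (R1 : ℤ) + 16 ≤ L

section

variable {P : P4} {a b r L k y0 : ℤ} {B : Band (D P.F L)} {s m R1 R2 : ℕ}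

lemma mk_mt (i : Fin 3) : mk P L i = some (Hb656.mt P L i) := Hb656.mark_eq L _ _

lemma out_Dp {A : Finset (ℤ × ℤ)} {xl xr y1 y2 : ℤ} {t : ℤ × ℤ} (h : t.2 < y1 ∨ y2 ≤ t.2) :
    t ∈ Dp A xl xr y1 y2 k ↔ t ∈ A := by
  obtain ⟨x, y⟩ := t
  rw [mem_Dp]
  simp only at h
  constructor
  · rintro (h1 | h1 | h1)
    · exact h1
    · omega
    · omega
  · exact Or.inl

variable (N : NumW P a b r L k y0 B s m R1 R2)

include N

lemma NumW.row' : r * L < y0 - m ∧ y0 + m ≤ r * L + L - 1 := by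
  have := N.hL
  rcases N.row with h | h <;> omega

/-- rows of the marks -/
lemma NumW.mrow (i : Fin 3) : (Hb656.mt P L i).1.2 < y0 - m ∨ y0 + m ≤ (Hb656.mt P L i).1.2 :=
  Cs410.mark_row (by have := N.hL; omega) N.hev (P.cc i).1 (P.cc i).2 N.row _
    (by rw [Hb656.mark_eq]; rfl)

/-- **windows at the vertices** -/
theorem win_vert (i j : ℤ) : WinOk (Dp (D P.F L) B.xl B.xr B.y1 B.y2 k) y0 R1 R2
    (mk P L 0) (mk P L 1) (mk P L 2) (i * L - 1, j * L - 1) := by
  have hL := N.hL
  have h1 := N.row'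
  have h2 := N.a1
  have h3 := N.a4
  have h4 := N.hm
  have h5 := N.R12
  have h6 := N.RL
  have hj : j * L ≤ r * L ∨ r * L + L ≤ j * L := by
    rcases lt_or_ge r j with g | g
    · right
      have : (r + 1) * L ≤ j * L := mul_le_mul_of_nonneg_right (by omega) (by omega)
      have e : (r + 1) * L = r * L + L := by ring
      omega
    · left
      exact mul_le_mul_of_nonneg_right g (by omega)
  obtain ⟨g1, g2⟩ := Hb656.np_P4 P (i - 1) (j - 1)
  rw [sub_add_cancel, sub_add_cancel] at g1 g2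
  refine ⟨(i - 1, j - 1) ∈ P.F, (i, j - 1) ∈ P.F, (i - 1, j) ∈ P.F, (i, j) ∈ P.F, ?_, g1, g2, ?_,
    Or.inl ?_⟩
  · intro t ht
    unfold Bx at ht
    push_cast at ht
    rw [out_Dp (by omega)]
    obtain ⟨x, y⟩ := t
    simp only at ht ⊢
    rw [Cn161.mem_vert (F := P.F) (i := i) (j := j) (by omega) (by omega) (by omega) (by omega)
      (by omega)]
    constructor
    · rintro (h | h | h | h)
      · exact Or.inl ⟨by omega, by omega, h.2.2⟩
      · exact Or.inr (Or.inr (Or.inl ⟨by omega, by omega, h.2.2⟩))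
      · exact Or.inr (Or.inl ⟨by omega, by omega, h.2.2⟩)
      · exact Or.inr (Or.inr (Or.inr ⟨by omega, by omega, h.2.2⟩))
    · rintro (h | h | h | h)
      · exact Or.inl ⟨by omega, by omega, h.2.2⟩
      · exact Or.inr (Or.inr (Or.inl ⟨by omega, by omega, h.2.2⟩))
      · exact Or.inr (Or.inl ⟨by omega, by omega, h.2.2⟩)
      · exact Or.inr (Or.inr (Or.inr ⟨by omega, by omega, h.2.2⟩))
  · rw [lt_abs]
    simp only
    rcases hj with h | h
    · right; omega
    · left; omega
  · intro t d e ht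
    rw [mk_mt] at e
    have e' : Hb656.mt P L 0 = (t, d) := Option.some.inj e
    have := Cn161.mt_far (P := P) (i := i) (j := j) (by omega) h6 0 (s := t)
      (Or.inl (by rw [e']))
    apply this
    unfold Bx at ht
    simp only at ht
    omega

/-- face of a mark -/
def mkF (P : P4) (L : ℤ) (i : Fin 3) : ℤ × ℤ :=
  (if (P.cc i).2 = 0 then (Hb656.mt P L i).1.1 - 1 else (Hb656.mt P L i).1.1,
    if (P.cc i).2 = 3 then (Hb656.mt P L i).1.2 - 1 else (Hb656.mt P L i).1.2)

omit N in
lemma mkF_cases (i : Fin 3) : ((mkF P L i).1 = (Hb656.mt P L i).1.1 ∨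
    (mkF P L i).1 = (Hb656.mt P L i).1.1 - 1) ∧ ((mkF P L i).2 = (Hb656.mt P L i).1.2 ∨
    (mkF P L i).2 = (Hb656.mt P L i).1.2 - 1) := by
  unfold mkF
  constructor <;> simp only <;> split_ifs <;> simp

omit N in
/-- membership from the cell -/
lemma mem_cell {F : Finset (ℤ × ℤ)} (hL : 0 < L) {x y c d : ℤ} (h1 : c * L ≤ x)
    (h2 : x < c * L + L) (h3 : d * L ≤ y) (h4 : y < d * L + L) : (x, y) ∈ D F L ↔ (c, d) ∈ F := by
  rw [mem_D hL]
  simp only
  rw [(div_iff hL x c).2 ⟨h1, h2⟩, (div_iff hL y d).2 ⟨h3, h4⟩]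

/-- **windows at the marks** -/
theorem win_mark (i : Fin 3) : WinOk (Dp (D P.F L) B.xl B.xr B.y1 B.y2 k) y0 R1 R2
    (mk P L 0) (mk P L 1) (mk P L 2) (mkF P L i) := by
  have hL := N.hL
  have h1 := N.row'
  have h2 := N.a1
  have h3 := N.a4
  have h4 := N.hm
  have h5 := N.R12
  have h6 := N.RL
  have hm := N.mrow i
  have hc := mkF_cases (P := P) (L := L) i
  have hout : ∀ t, Bx (mkF P L i).1 (mkF P L i).2 (R1 + 1) t →
      (t ∈ Dp (D P.F L) B.xl B.xr B.y1 B.y2 k ↔ t ∈ D P.F L) := by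
    intro t ht
    unfold Bx at ht
    push_cast at ht
    exact out_Dp (by omega)
  have hfar : FarM (mkF P L i).1 (mkF P L i).2 R1 (mk P L 0) ∨
      (FarM (mkF P L i).1 (mkF P L i).2 R1 (mk P L 1) ∧
        FarM (mkF P L i).1 (mkF P L i).2 R1 (mk P L 2)) := by
    have key : ∀ j, i ≠ j → FarM (mkF P L i).1 (mkF P L i).2 R1 (mk P L j) := by
      intro j hj t d e ht
      rw [mk_mt] at e
      have e' : Hb656.mt P L j = (t, d) := Option.some.inj e
      have hd : L / 2 ≤ |(Hb656.mt P L i).1.1 - (Hb656.mt P L j).1.1| ∨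
          L / 2 ≤ |(Hb656.mt P L i).1.2 - (Hb656.mt P L j).1.2| :=
        Hw949.mt_dist P (by omega) N.hev hj
      rw [e', le_abs, le_abs] at hd
      unfold Bx at ht
      simp only at hd
      omega
    by_cases hi : i = 0
    · subst hi
      exact Or.inr ⟨key 1 (by decide), key 2 (by decide)⟩
    · exact Or.inl (key 0 hi)
  have hrow : (R2 : ℤ) + 1 < |(mkF P L i).2 - y0| := by
    rw [lt_abs]
    omega
  obtain ⟨c1, c2⟩ := Hw949.ci_spec P i
  obtain ⟨l, hl⟩ := id N.hev
  have hl2 : L / 2 = l := by omega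
  revert hout hfar hrow
  unfold mkF Hb656.mt
  obtain ⟨⟨c, d⟩, hcd⟩ : ∃ z, z = P.cc i := ⟨_, rfl⟩
  rw [← hcd] at c1 c2 ⊢
  obtain ⟨u, v⟩ := c
  simp only at c1 c2 ⊢
  have eu1 : (u - 1) * L = u * L - L := by ring
  have eu2 : (u + 1) * L = u * L + L := by ring
  have ev1 : (v - 1) * L = v * L - L := by ring
  have ev2 : (v + 1) * L = v * L + L := by ring
  rcases Env664.z4 d with rfl | rfl | rfl | rfl
  · -- west
    have en : nbc (u, v) 0 = (u - 1, v) := rfl
    rw [en] at c2
    have em : Hb656.mk2 L (u, v) 0 = ((u * L, v * L + L / 2), 0) := rfl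
    rw [em, if_pos rfl, if_neg (by decide)]
    intro hout hfar hrow
    refine ⟨False, True, False, True, ?_, by simp, by simp, hrow, hfar⟩
    intro t ht
    rw [hout t ht]
    unfold Bx at ht
    push_cast at ht
    obtain ⟨x, y⟩ := t
    simp only [and_true, and_false, or_false, false_or] at ht ⊢
    rcases lt_or_ge x (u * L) with g | g
    · rw [mem_cell (c := u - 1) (d := v) (by omega) (by omega) (by omega) (by omega) (by omega)]
      exact iff_of_false c2 (by omega)
    · rw [mem_cell (c := u) (d := v) (by omega) (by omega) (by omega) (by omega) (by omega)]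
      exact iff_of_true c1 (by omega)
  · -- north
    have n10 : (1 : ZMod 4) ≠ 0 := by decide
    have en : nbc (u, v) 1 = (u, v + 1) := by unfold nbc; rw [if_neg n10, if_pos rfl]
    rw [en] at c2
    have em : Hb656.mk2 L (u, v) 1 = ((u * L + L / 2, v * L + L - 1), 1) := Hw949.mtl_1 _ _
    rw [em, if_neg n10, if_neg (by decide)]
    intro hout hfar hrow
    refine ⟨True, True, False, False, ?_, by simp, by simp, hrow, hfar⟩
    intro t ht
    rw [hout t ht]
    unfold Bx at ht
    push_cast at ht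
    obtain ⟨x, y⟩ := t
    simp only [and_true, and_false, or_false, false_or] at ht ⊢
    rcases lt_or_ge y (v * L + L) with g | g
    · rw [mem_cell (c := u) (d := v) (by omega) (by omega) (by omega) (by omega) (by omega)]
      exact iff_of_true c1 (by omega)
    · rw [mem_cell (c := u) (d := v + 1) (by omega) (by omega) (by omega) (by omega) (by omega)]
      exact iff_of_false c2 (by omega)
  · -- east
    have n20 : (2 : ZMod 4) ≠ 0 := by decide
    have n21 : (2 : ZMod 4) ≠ 1 := by decide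
    have en : nbc (u, v) 2 = (u + 1, v) := by
      unfold nbc; rw [if_neg n20, if_neg n21, if_pos rfl]
    rw [en] at c2
    have em : Hb656.mk2 L (u, v) 2 = ((u * L + L - 1, v * L + L / 2 - 1), 2) := Hw949.mtl_2 _ _
    rw [em, if_neg n20, if_neg (by decide)]
    intro hout hfar hrow
    refine ⟨True, False, True, False, ?_, by simp, by simp, hrow, hfar⟩
    intro t ht
    rw [hout t ht]
    unfold Bx at ht
    push_cast at ht
    obtain ⟨x, y⟩ := t
    simp only [and_true, and_false, or_false, false_or] at ht ⊢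
    rcases lt_or_ge x (u * L + L) with g | g
    · rw [mem_cell (c := u) (d := v) (by omega) (by omega) (by omega) (by omega) (by omega)]
      exact iff_of_true c1 (by omega)
    · rw [mem_cell (c := u + 1) (d := v) (by omega) (by omega) (by omega) (by omega) (by omega)]
      exact iff_of_false c2 (by omega)
  · -- south
    have n30 : (3 : ZMod 4) ≠ 0 := by decide
    have n31 : (3 : ZMod 4) ≠ 1 := by decide
    have n32 : (3 : ZMod 4) ≠ 2 := by decide
    have en : nbc (u, v) 3 = (u, v - 1) := by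
      unfold nbc; rw [if_neg n30, if_neg n31, if_neg n32]
    rw [en] at c2
    have em : Hb656.mk2 L (u, v) 3 = ((u * L + L / 2 - 1, v * L), 3) := Hw949.mtl_3 _ _
    rw [em, if_neg n30, if_pos rfl]
    intro hout hfar hrow
    refine ⟨False, False, True, True, ?_, by simp, by simp, hrow, hfar⟩
    intro t ht
    rw [hout t ht]
    unfold Bx at ht
    push_cast at ht
    obtain ⟨x, y⟩ := t
    simp only [and_true, and_false, or_false, false_or] at ht ⊢
    rcases lt_or_ge y (v * L) with g | g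
    · rw [mem_cell (c := u) (d := v - 1) (by omega) (by omega) (by omega) (by omega) (by omega)]
      exact iff_of_false c2 (by omega)
    · rw [mem_cell (c := u) (d := v) (by omega) (by omega) (by omega) (by omega) (by omega)]
      exact iff_of_true c1 (by omega)

/-- tiles of the run and beyond it -/
lemma NumW.run_in {x y : ℤ} (h1 : B.xl ≤ x) (h2 : x ≤ B.xr) (h3 : r * L ≤ y)
    (h4 : y < r * L + L) : (x, y) ∈ D P.F L := by
  rw [N.xl] at h1
  rw [N.xr] at h2
  exact (N.run.scale (by have := N.hL; omega) (by omega) (by omega)).mem x h1 h2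

lemma NumW.run_r {x y : ℤ} (h1 : B.xr < x) (h2 : x ≤ B.xr + L) (h3 : r * L ≤ y)
    (h4 : y < r * L + L) : (x, y) ∉ D P.F L := by
  rw [N.xr] at h1 h2
  have e : (b + 1) * L = b * L + L := by ring
  rw [mem_cell (c := b + 1) (d := r) (by have := N.hL; omega) (by omega) (by omega) h3 h4]
  exact N.run.right

lemma NumW.run_l {x y : ℤ} (h1 : x < B.xl) (h2 : B.xl - L ≤ x) (h3 : r * L ≤ y)
    (h4 : y < r * L + L) : (x, y) ∉ D P.F L := by
  rw [N.xl] at h1 h2
  have e : (a - 1) * L = a * L - L := by ring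
  rw [mem_cell (c := a - 1) (d := r) (by have := N.hL; omega) (by omega) (by omega) h3 h4]
  exact N.run.left

lemma NumW.len : B.xl + L - 1 ≤ B.xr := by
  rw [N.xl, N.xr]
  have := mul_le_mul_of_nonneg_right N.run.le (by have := N.hL; omega : 0 ≤ L)
  omega

/-- **windows at the mouths** -/
theorem win_mouth {X Y : ℤ} (hX : X = B.xr ∨ X = B.xl - 1) (hY : Y = B.y1 - 1 ∨ Y = B.y2 - 1) :
    WinOk (Dp (D P.F L) B.xl B.xr B.y1 B.y2 k) y0 R1 R2
    (mk P L 0) (mk P L 1) (mk P L 2) (X, Y) := by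
  have hL := N.hL
  have h1 := N.row'
  have h2 := N.a1
  have h3 := N.a4
  have h4 := N.hm
  have h5 := N.R12
  have h6 := N.RL
  have h7 := N.Rk
  have h8 := N.q1
  have h9 := N.q2
  have h10 := N.kL
  have hlen := N.len
  have hm : ∀ i, (Hb656.mt P L i).1.2 < y0 - m ∨ y0 + m ≤ (Hb656.mt P L i).1.2 := N.mrow
  have hfar : FarM X Y R1 (mk P L 0) := by
    intro t d e ht
    rw [mk_mt] at e
    have e' : Hb656.mt P L 0 = (t, d) := Option.some.inj e
    have := hm 0
    rw [e'] at this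
    unfold Bx at ht
    simp only at this
    omega
  have hrow : (R2 : ℤ) + 1 < |Y - y0| := by
    rw [lt_abs]
    rcases hY with rfl | rfl
    · right; omega
    · left; omega
  have hin : ∀ {x y : ℤ}, B.xl ≤ x → x ≤ B.xr → r * L ≤ y → y < r * L + L → (x, y) ∈ D P.F L :=
    fun g1 g2 g3 g4 => N.run_in g1 g2 g3 g4
  have hr : ∀ {x y : ℤ}, B.xr < x → x ≤ B.xr + L → r * L ≤ y → y < r * L + L →
      (x, y) ∉ D P.F L := fun g1 g2 g3 g4 => N.run_r g1 g2 g3 g4
  have hl : ∀ {x y : ℤ}, x < B.xl → B.xl - L ≤ x → r * L ≤ y → y < r * L + L →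
      (x, y) ∉ D P.F L := fun g1 g2 g3 g4 => N.run_l g1 g2 g3 g4
  rcases hX with rfl | rfl <;> rcases hY with rfl | rfl
  · refine ⟨True, False, True, True, ?_, by simp, by simp, hrow, Or.inl hfar⟩
    rintro ⟨x, y⟩ ht
    unfold Bx at ht
    push_cast at ht
    simp only [and_true, and_false, or_false, false_or] at ht ⊢
    rw [mem_Dp]
    rcases le_or_gt x B.xr with g | g
    · exact iff_of_true (Or.inl (hin (by omega) g (by omega) (by omega))) (by omega)
    · have hn := hr (x := x) (y := y) g (by omega) (by omega) (by omega)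
      simp only [hn, false_or]
      constructor <;> intro h <;> omega
  · refine ⟨True, True, True, False, ?_, by simp, by simp, hrow, Or.inl hfar⟩
    rintro ⟨x, y⟩ ht
    unfold Bx at ht
    push_cast at ht
    simp only [and_true, and_false, or_false, false_or] at ht ⊢
    rw [mem_Dp]
    rcases le_or_gt x B.xr with g | g
    · exact iff_of_true (Or.inl (hin (by omega) g (by omega) (by omega))) (by omega)
    · have hn := hr (x := x) (y := y) g (by omega) (by omega) (by omega)
      simp only [hn, false_or]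
      constructor <;> intro h <;> omega
  · refine ⟨False, True, True, True, ?_, by simp, by simp, hrow, Or.inl hfar⟩
    rintro ⟨x, y⟩ ht
    unfold Bx at ht
    push_cast at ht
    simp only [and_true, and_false, or_false, false_or] at ht ⊢
    rw [mem_Dp]
    rcases le_or_gt B.xl x with g | g
    · exact iff_of_true (Or.inl (hin g (by omega) (by omega) (by omega))) (by omega)
    · have hn := hl (x := x) (y := y) g (by omega) (by omega) (by omega)
      simp only [hn, false_or]
      constructor <;> intro h <;> omega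
  · refine ⟨True, True, False, True, ?_, by simp, by simp, hrow, Or.inl hfar⟩
    rintro ⟨x, y⟩ ht
    unfold Bx at ht
    push_cast at ht
    simp only [and_true, and_false, or_false, false_or] at ht ⊢
    rw [mem_Dp]
    rcases le_or_gt B.xl x with g | g
    · exact iff_of_true (Or.inl (hin g (by omega) (by omega) (by omega))) (by omega)
    · have hn := hl (x := x) (y := y) g (by omega) (by omega) (by omega)
      simp only [hn, false_or]
      constructor <;> intro h <;> omega

end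

/-! ### the faces -/

/-- the faces of the windows -/
def FW (P : P4) (L : ℤ) (B : Band (D P.F L)) : Finset (ℤ × ℤ) :=
  (vertP P.F L).image (fun v => (v.1 - 1, v.2 - 1)) ∪ univ.image (fun i => mkF P L i) ∪
    {(B.xr, B.y1 - 1), (B.xr, B.y2 - 1), (B.xl - 1, B.y1 - 1), (B.xl - 1, B.y2 - 1)}

variable {P : P4} {a b r L k y0 : ℤ} {B : Band (D P.F L)} {s m R1 R2 : ℕ}

lemma mem_FW {f : ℤ × ℤ} : f ∈ FW P L B ↔ (∃ v ∈ vertP P.F L, (v.1 - 1, v.2 - 1) = f) ∨
    (∃ i, mkF P L i = f) ∨ f = (B.xr, B.y1 - 1) ∨ f = (B.xr, B.y2 - 1) ∨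
      f = (B.xl - 1, B.y1 - 1) ∨ f = (B.xl - 1, B.y2 - 1) := by
  unfold FW
  rw [mem_union, mem_union, mem_image, mem_image]
  simp only [mem_univ, true_and, mem_insert, mem_singleton, or_assoc]

lemma tlP_mk (i : Fin 3) : tlP (mkP P L i) = (Hb656.mt P L i).1 := by
  have : mkP P L i = some (Hb656.mt P L i) := Hb656.mark_eq L _ _
  rw [this]
  rfl

/-- **the special tiles have faces** -/
theorem faces_FW : Faces B (SpP P L B) (FW P L B) where
  sp := by
    intro v hv
    rw [mem_SpP] at hv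
    rcases hv with hv | ⟨j, rfl⟩ | hv
    · exact ⟨_, mem_FW.2 (Or.inl ⟨v, hv, rfl⟩), Or.inr rfl, Or.inr rfl⟩
    · refine ⟨_, mem_FW.2 (Or.inr (Or.inl ⟨j, rfl⟩)), ?_⟩
      rw [tlP_mk]
      exact mkF_cases j
    · rw [mem_mouthC] at hv
      rcases hv with rfl | rfl | rfl | rfl
      · exact ⟨(B.xl - 1, B.y1 - 1), mem_FW.2 (by simp), Or.inr rfl, Or.inr rfl⟩
      · exact ⟨(B.xl - 1, B.y2 - 1), mem_FW.2 (by simp), Or.inr rfl, Or.inl rfl⟩
      · exact ⟨(B.xr, B.y1 - 1), mem_FW.2 (by simp), Or.inl rfl, Or.inr rfl⟩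
      · exact ⟨(B.xr, B.y2 - 1), mem_FW.2 (by simp), Or.inl rfl, Or.inl rfl⟩
  r1 := mem_FW.2 (by simp)
  r2 := mem_FW.2 (by simp)
  l1 := mem_FW.2 (by simp)
  l2 := mem_FW.2 (by simp)

/-- **all windows satisfy the hypotheses** -/
theorem win_FW (N : NumW P a b r L k y0 B s m R1 R2) : ∀ f ∈ FW P L B,
    WinOk (Dp (D P.F L) B.xl B.xr B.y1 B.y2 k) y0 R1 R2 (mk P L 0) (mk P L 1) (mk P L 2) f := by
  intro f hf
  rcases mem_FW.1 hf with ⟨v, hv, rfl⟩ | ⟨i, rfl⟩ | rfl | rfl | rfl | rfl
  · obtain ⟨c, -, h⟩ := mem_vertP.1 hv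
    rcases h with rfl | rfl | rfl | rfl
    · exact win_vert N _ _
    · exact win_vert N _ _
    · exact win_vert N _ _
    · exact win_vert N _ _
  · exact win_mark N i
  · exact win_mouth N (Or.inl rfl) (Or.inl rfl)
  · exact win_mouth N (Or.inl rfl) (Or.inr rfl)
  · exact win_mouth N (Or.inr rfl) (Or.inl rfl)
  · exact win_mouth N (Or.inr rfl) (Or.inr rfl)

/-- number of faces -/
theorem card_FW : (FW P L B).card ≤ 4 * P.F.card + 7 := by
  have h1 : (vertP P.F L).card ≤ 4 * P.F.card := by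
    unfold vertP
    refine (card_biUnion_le).trans ?_
    rw [mul_comm, ← smul_eq_mul]
    refine sum_le_card_nsmul _ _ _ fun c _ => ?_
    refine (card_insert_le _ _).trans ?_
    have := card_le_three (a := ((c.1 + 1) * L, c.2 * L)) (b := (c.1 * L, (c.2 + 1) * L))
      (c := ((c.1 + 1) * L, (c.2 + 1) * L))
    omega
  have h0 := card_image_le (s := vertP P.F L) (f := fun v : ℤ × ℤ => (v.1 - 1, v.2 - 1))
  have h2 : (univ.image (fun i => mkF P L i) : Finset (ℤ × ℤ)).card ≤ 3 :=
    card_image_le.trans (by simp)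
  have h3 : ({(B.xr, B.y1 - 1), (B.xr, B.y2 - 1), (B.xl - 1, B.y1 - 1),
      (B.xl - 1, B.y2 - 1)} : Finset (ℤ × ℤ)).card ≤ 4 := by
    refine (card_insert_le _ _).trans ?_
    have := card_le_three (a := (B.xr, B.y2 - 1)) (b := (B.xl - 1, B.y1 - 1))
      (c := (B.xl - 1, B.y2 - 1))
    omega
  unfold FW
  refine (card_union_le _ _).trans ?_
  have := card_union_le ((vertP P.F L).image (fun v => (v.1 - 1, v.2 - 1)))
    (univ.image (fun i => mkF P L i))
  omega

end Crest.Agent.R158.Qg300
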