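import Crest.Agent.R158.Qg2_300

/-!
# R158, evaluation: the dropped part for a marked polygon (helper300)

* `qpow2` : `q ^ N ≤ C h ^ 2` for `N ≥ c / h`
* **`drop_point`** : `‖HW - ∫ valD‖` for one point of the band
* **`drop_all`** : `≤ C h ^ 2` for a suitable cut `δ(h)`
-/

set_option autoImplicit false
set_option linter.unusedVariables false
set_option linter.unusedSectionVars false

noncomputable section

namespace Crest.Agent.R158.Qg300

open Finset MeasureTheory Filter Topology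
open Crest.Agent.R158.Sw300 (Port Wd L)
open Crest.Agent.R158.Al194
open Crest.Agent.R158.Ob664 (GW HW)
open Crest.Agent.R158.Rs689 (PB)
open Crest.Agent.R158.Env664 (TG Band Run D beD)
open Crest.Agent.R158.Xr249 (Dp full pm eD)
open Crest.Agent.R158.Qc405 (TabH)
open Crest.Agent.R158.Oc194
open Crest.Agent.R158.Qe249 (Pm gateD)
open Crest.Agent.R158.Ad350 (valD)
open Crest.Agent.R158.Dp440 (Quad)
open Crest.Agent.R158.Cw161 (Bx FarM)
open Crest.Agent.R158.Tj656 (P4)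
open Crest.Agent.R158.Fm857 (SpP JP DelP mkP mkG)
open Crest.Agent.R158.Cs410 (mk OnB InHalf)

/-- powers of `q` -/
theorem qpow2 {q : ℝ} (h0 : 0 < q) (h1 : q < 1) : ∃ C : ℝ, 0 ≤ C ∧ ∀ (h : ℝ) (N : ℕ), 0 < h →
    1 ≤ 250 * h * (N + 1) → q ^ N ≤ C * h ^ 2 := by
  have ht := tendsto_pow_const_mul_const_pow_of_lt_one 2 h0.le h1
  obtain ⟨M, hM⟩ := ht.bddAbove_range
  have hM' : ∀ n : ℕ, (n : ℝ) ^ 2 * q ^ n ≤ M := fun n => hM (Set.mem_range_self n)
  have hM0 : 0 ≤ M := by have := hM' 0; simpa using this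
  refine ⟨M / q * 62500, by positivity, fun h N hh hN => ?_⟩
  have h2 := hM' (N + 1)
  have h3 : (0 : ℝ) < N + 1 := by positivity
  push_cast at h2
  rw [pow_succ q N] at h2
  have h4 : 1 ≤ (250 * h * (N + 1)) ^ 2 := one_le_pow₀ hN
  have h5 : q ^ N * q ≤ M * (250 * h) ^ 2 := by
    have h6 : 0 < q ^ N * q := by positivity
    calc q ^ N * q ≤ (q ^ N * q) * (250 * h * (N + 1)) ^ 2 := le_mul_of_one_le_right h6.le h4
      _ = ((N + 1 : ℝ) ^ 2 * (q ^ N * q)) * (250 * h) ^ 2 := by ring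
      _ ≤ M * (250 * h) ^ 2 := mul_le_mul_of_nonneg_right h2 (by positivity)
  have e : M / q * 62500 * h ^ 2 = (M * (250 * h) ^ 2) / q := by ring
  rw [e, le_div_iff₀ h0]
  exact h5

/-- **the dropped part at one point** -/
theorem drop_point : ∃ C α q : ℝ, 0 < C ∧ 0 < α ∧ 0 < q ∧ q < 1 ∧
    ∀ (P : P4) (a b r l : ℤ) (h y δ : ℝ) (B : Band (D P.F l)) (p y0 : ℤ) (s m R1 R2 N : ℕ),
    OnB a b l h y B → NumW P a b r l (l / 8) y0 B s m R1 R2 → B.At p y0 →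
    0 < DelP l δ → DelP l δ + 2 ≤ R1 → DelP l δ ≤ l / 16 → (N : ℤ) * (B.y2 - B.y1) + 1 ≤ l / 32 →
    ∀ w : Wd (ℤ × ℤ), GW (Dp (D P.F l) B.xl B.xr B.y1 B.y2 (l / 8))
      (beD (Dp (D P.F l) B.xl B.xr B.y1 B.y2 (l / 8)) p y0 (B.xr + l / 8)) w →
    Mk w (mk P l 0) (mk P l 1) (mk P l 2) →
    ‖HW w (mk P l 0) (mk P l 1) (mk P l 2) - ∫ s : TG → Bool,
      valD B p y0 (l / 8) (l / 2) (mkG P l 0) (mkG P l 1) (JP P l δ B) w (s ∘ eD B y0 (l / 8))
        ∂(PB fun _ : TG => Rs689.hf)‖ ≤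
      7 / 2 * ((4 * P.F.card + 7 : ℕ) * (C * (((DelP l δ + 1 : ℝ) / R1) ^ α + ((R1 : ℝ) / R2) ^ α)) +
        4 * q ^ N) := by
  obtain ⟨C, α, hC, hα, hQ⟩ := Dp440.quad_drop
  obtain ⟨q, hq, hq1, hG⟩ := Qe249.gateD_prob
  refine ⟨C, α, q, hC, hα, hq, hq1, ?_⟩
  intro P a b r l h y δ B p y0 s m R1 R2 N hB Nw hz hΔ hΔR hΔL hN w hw hM
  have hL := Nw.hL
  have hR : B.R = l := hB.R
  have hrow := Nw.row'
  have ha1 := Nw.a1
  have ha4 := Nw.a4
  have hm := Nw.hm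
  have hR12 := Nw.R12
  have hRk := Nw.Rk
  have z1 := hz.hy1
  have z2 := hz.hy2
  have z3 := hz.hp1
  have z4 := hz.hp2
  have H : TabH (D P.F l) B.xl B.xr B.y1 B.y2 (l / 8) p y0
      (Psi664.psi (full (D P.F l)) (a * l) B.y1) := by
    have e1 := Nw.xl
    have e2 := Nw.xr
    have := Qc405.tabH_mac (Mg949.mac P) Nw.run (L := l) (y1 := B.y1) (y2 := B.y2) (k := l / 8)
      (p := p) (y0 := y0) (by omega) (by omega) (by omega) (by omega) z1 z2 (by omega) (by omega)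
    rw [← e1, ← e2] at this
    rw [← e1]
    exact this
  obtain ⟨w0, l0, -, -, hBW⟩ := Xr249.exists_BW (Xr249.D_SC (Mg949.mac P) (by omega : 0 < l))
    (Xr249.D_Conn (Mg949.mac P) (by omega : 0 < l)) (a0 := B.xl) (t0 := B.y1)
    (Nw.run_in le_rfl H.hf.le (by omega) (by omega))
    (Nw.run_l (by omega) (by omega) (by omega) (by omega))
  have O := ord_D H (by omega : 2 * (l / 8) < B.R) hBW hw
  have Pg : Pm B (l / 8) (l / 32) (l / 16) (l - 1 - l / 16) (l - 2 - l / 32) :=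
    ⟨by omega, by omega, by omega, by omega, by omega, by omega, by omega⟩
  have hgate := (hG (D P.F l) B p y0 (l / 8) (l / 32) (l / 16) (l - 1 - l / 16) (l - 2 - l / 32)
    H.hf hz Pg (B.y2 - B.y1).toNat N (by omega) (by omega)
    (by rw [Int.toNat_of_nonneg (by omega)]; omega)
    (by rw [Int.toNat_of_nonneg (by omega)]; omega)
    (by rw [Int.toNat_of_nonneg (by omega)]; omega)
    (by rw [Int.toNat_of_nonneg (by omega), hR]; omega)).2
  have hΔn : (((DelP l δ).toNat : ℕ) : ℤ) = DelP l δ := Int.toNat_of_nonneg hΔ.le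
  have hΔr : (((DelP l δ).toNat + 1 : ℕ) : ℝ) = (DelP l δ : ℝ) + 1 := by
    push_cast
    have : (((DelP l δ).toNat : ℕ) : ℝ) = (DelP l δ : ℝ) := by exact_mod_cast hΔn
    rw [this]
  have hev := Nw.hev
  have hA : ∀ m, m = mk P l 0 ∨ m = mk P l 1 ∨ m = mk P l 2 → ∃ t d, m = some (t, d) ∧
      t ∈ D P.F l := by
    rintro m (rfl | rfl | rfl)
    · exact mkP_A (by omega) hev 0
    · exact mkP_A (by omega) hev 1
    · exact mkP_A (by omega) hev 2
  obtain ⟨Bad, hBad1, hBad2⟩ := bad_main (b := l / 2) (Sp := SpP P l B) (W := FW P l B)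
    (Δ := DelP l δ) (a0 := l / 16) (c0 := l - 1 - l / 16)
    (η := C * (((DelP l δ + 1 : ℝ) / R1) ^ α + ((R1 : ℝ) / R2) ^ α)) H hw hz (by omega) (by omega) O hM hA
    faces_FW hΔ (by omega) (by rw [hR]; omega) Pg (by
      intro f hf
      obtain ⟨f00, f10, f01, f11, k1, k2, k3, k4, k5⟩ := win_FW Nw f hf
      have hx : (B.xr + l / 8 + 1, y0) ∉ Dp (D P.F l) B.xl B.xr B.y1 B.y2 (l / 8) :=
        H.out (H.nr (by omega) (by omega) (by omega) (by omega)) (by omega)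
      obtain ⟨Bd, b1, b2⟩ := hQ (by omega : p ≤ B.xr + l / 8) hx hw (X := f.1) (Y := f.2)
        (r := (DelP l δ).toNat + 1) (R1 := R1) (R2 := R2) (by omega) (by omega) hR12 k4 k1 k2 k3
        hM.1 hM.2.1 hM.2.2.1 k5
      rw [hΔr] at b1
      exact ⟨Bd, b1, b2⟩)
  have e1 : pm (eD B y0 (l / 8)) (mk P l 1) = mkG P l 1 := pm_mkP H.hf (by omega) hev 1
  have e2 : pm (eD B y0 (l / 8)) (mk P l 2) = mkG P l 2 := pm_mkP H.hf (by omega) hev 2
  rw [e1, e2] at hBad2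
  refine (HW_JP H hw hR hL hev hz hBW hM Bad hBad2).trans ?_
  have hη : 0 ≤ C * (((DelP l δ + 1 : ℝ) / R1) ^ α + ((R1 : ℝ) / R2) ^ α) := by
    have : (0 : ℝ) < DelP l δ := by exact_mod_cast hΔ
    positivity
  have hc : ((FW P l B).card : ℝ) * (C * (((DelP l δ + 1 : ℝ) / R1) ^ α + ((R1 : ℝ) / R2) ^ α)) ≤
      ((4 * P.F.card + 7 : ℕ) : ℝ) * (C * (((DelP l δ + 1 : ℝ) / R1) ^ α + ((R1 : ℝ) / R2) ^ α)) :=
    mul_le_mul_of_nonneg_right (by exact_mod_cast card_FW) hη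
  linarith

/-- number of gates -/
theorem gate_num {h y l : ℝ} {L y1 y2 : ℤ} (hl : l = L) (hh : 0 < h) (hhL : 4 ≤ h * l)
    (hL : 1000 ≤ L) (hy1 : y1 = ⌊(y - 3 * h) * l⌋) (hy2 : y2 = ⌊(y + 3 * h) * l⌋) :
    ∃ N : ℕ, (N : ℤ) * (y2 - y1) + 1 ≤ L / 32 ∧ 1 ≤ 250 * h * (N + 1) := by
  have f5 : (y1 : ℝ) ≤ (y - 3 * h) * l := by rw [hy1]; exact Int.floor_le _
  have f6 : (y - 3 * h) * l < y1 + 1 := by rw [hy1]; exact Int.lt_floor_add_one _
  have f7 : (y2 : ℝ) ≤ (y + 3 * h) * l := by rw [hy2]; exact Int.floor_le _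
  have f8 : (y + 3 * h) * l < y2 + 1 := by rw [hy2]; exact Int.lt_floor_add_one _
  have g1 : ((y2 - y1 : ℤ) : ℝ) ≤ 7 * (h * l) := by push_cast; linarith
  have g2 : (0 : ℝ) < ((y2 - y1 : ℤ) : ℝ) := by push_cast; linarith
  have g3 : 0 < y2 - y1 := by exact_mod_cast g2
  set H : ℤ := y2 - y1 with hH
  set M : ℤ := L / 32 - 1 with hM
  have hM0 : 0 ≤ M := by omega
  obtain ⟨N, hN⟩ : ∃ N : ℕ, (N : ℤ) = M / H := ⟨(M / H).toNat, Int.toNat_of_nonneg
    (Int.ediv_nonneg hM0 g3.le)⟩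
  refine ⟨N, ?_, ?_⟩
  · have := Int.ediv_mul_le M g3.ne'
    rw [hN]
    omega
  · have h1 : M < (M / H + 1) * H := Int.lt_ediv_add_one_mul_self M g3
    rw [← hN] at h1
    have h2 : (M : ℝ) < ((N : ℝ) + 1) * H := by exact_mod_cast h1
    have h3 : (L : ℝ) / 32 - 2 ≤ M := by
      have : L ≤ 32 * M + 64 := by omega
      have : (L : ℝ) ≤ 32 * M + 64 := by exact_mod_cast this
      linarith
    have h4 : (1000 : ℝ) ≤ L := by exact_mod_cast hL
    have h5 : ((N : ℝ) + 1) * H ≤ ((N : ℝ) + 1) * (7 * (h * l)) :=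
      mul_le_mul_of_nonneg_left g1 (by positivity)
    rw [hl] at h5
    have h6 : (L : ℝ) / 32 - 2 < (h * ((N : ℝ) + 1)) * (7 * L) := by
      calc (L : ℝ) / 32 - 2 ≤ M := h3
        _ < ((N : ℝ) + 1) * H := h2
        _ ≤ ((N : ℝ) + 1) * (7 * (h * L)) := h5
        _ = (h * ((N : ℝ) + 1)) * (7 * L) := by ring
    by_contra hc
    push Not at hc
    have h7 : h * ((N : ℝ) + 1) ≤ 1 / 250 := by linarith
    have h8 : (h * ((N : ℝ) + 1)) * (7 * L) ≤ 1 / 250 * (7 * L) :=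
      mul_le_mul_of_nonneg_right h7 (by linarith)
    linarith

/-- **the dropped part is `O(h ^ 2)`** -/
theorem drop_all (P : P4) : ∀ A' B' r : ℤ, Run P.F A' B' r → ∀ a b c e : ℝ, (A' : ℝ) < a → a ≤ b →
    b < B' + 1 → c ≤ e → InHalf r c e → ∃ h0 C : ℝ, 0 < h0 ∧ 0 ≤ C ∧
      ∀ h y : ℝ, 0 < h → h < h0 → c ≤ y → y ≤ e → ∃ δ : ℝ, 0 < δ ∧ δ ≤ h / 100 ∧
        ∃ L0 : ℤ, ∀ l : ℤ, L0 ≤ l → Even l → ∀ B : Band (D P.F l), OnB A' B' l h y B →
          ∀ p y0 : ℤ, a * l ≤ p → (p : ℝ) ≤ b * l → (y - h) * l ≤ y0 → (y0 : ℝ) ≤ (y + h) * l →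
            ∀ w : Wd (ℤ × ℤ), GW (Dp (D P.F l) B.xl B.xr B.y1 B.y2 (l / 8))
              (beD (Dp (D P.F l) B.xl B.xr B.y1 B.y2 (l / 8)) p y0 (B.xr + l / 8)) w →
            Mk w (mk P l 0) (mk P l 1) (mk P l 2) →
            ‖(∫ s : TG → Bool, valD B p y0 (l / 8) (l / 2) (mkG P l 0) (mkG P l 1) (JP P l δ B) w
              (s ∘ eD B y0 (l / 8)) ∂(PB fun _ : TG => Rs689.hf)) -
                HW w (mk P l 0) (mk P l 1) (mk P l 2)‖ ≤ C * h ^ 2 := by
  obtain ⟨C, α, q, hC, hα, hq, hq1, hP⟩ := drop_point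
  obtain ⟨Cq, hCq, hqp⟩ := qpow2 hq hq1
  intro A' B' r hrun a b c1 e1 hA hab hB hce hhalf
  obtain ⟨m, hm0, hm, -, -⟩ := hhalf.margin hce
  set ρ : ℝ := min (m / 2) (min ((a - A') / 2) ((B' + 1 - b) / 2)) with hρ
  have hρ0 : 0 < ρ := lt_min (by linarith) (lt_min (by linarith) (by linarith))
  have ρ1 : ρ ≤ m / 2 := min_le_left _ _
  set K : ℝ := 2 / α with hK
  have hK0 : 0 < K := by positivity
  have hKα : K * α = 2 := by rw [hK]; field_simp
  set Fc : ℝ := ((4 * P.F.card + 7 : ℕ) : ℝ) with hFc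
  have hFc0 : 0 ≤ Fc := Nat.cast_nonneg _
  refine ⟨min (ρ / 14) (1 / 100), 7 / 2 * (Fc * (C * (1 + 2 ^ α)) + 4 * Cq),
    lt_min (by positivity) (by norm_num), by positivity, ?_⟩
  intro h y hh hlt hy1 hy2
  have hh1 : h < ρ / 14 := hlt.trans_le (min_le_left _ _)
  have hh2 : h < 1 / 100 := hlt.trans_le (min_le_right _ _)
  set t : ℝ := h * h ^ K with ht
  set δ : ℝ := h * (h ^ K * h ^ K) / 100 with hδ
  have hK1 : 0 < h ^ K := Real.rpow_pos_of_pos hh K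
  have hK2 : h ^ K ≤ 1 := Real.rpow_le_one hh.le (by linarith) hK0.le
  have hKK : h ^ K * h ^ K ≤ 1 := mul_le_one₀ hK2 hK1.le hK2
  have ht0 : 0 < t := by positivity
  have hth : t ≤ h := by rw [ht]; exact mul_le_of_le_one_right hh.le hK2
  have hδ0 : 0 < δ := by positivity
  have hδt : δ ≤ t / 100 := by
    rw [hδ, ht]
    have : h * (h ^ K * h ^ K) ≤ h * h ^ K :=
      mul_le_mul_of_nonneg_left (mul_le_of_le_one_right hK1.le hK2) hh.le
    linarith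
  refine ⟨δ, hδ0, by linarith, ⌈1000 / h⌉ + ⌈100 / ρ⌉ + ⌈1 / δ⌉ + 1000, ?_⟩
  intro l hl hev B hB0 p y0 i1 i2 i3 i4 w hw hM
  have k1 := Int.le_ceil (1000 / h)
  have k2 := Int.le_ceil (100 / ρ)
  have k2' := Int.le_ceil (1 / δ)
  have k3 : (0 : ℝ) < 1000 / h := by positivity
  have k4 : (0 : ℝ) < 100 / ρ := by positivity
  have k4' : (0 : ℝ) < 1 / δ := by positivity
  have hL' : ((⌈1000 / h⌉ + ⌈100 / ρ⌉ + ⌈1 / δ⌉ + 1000 : ℤ) : ℝ) ≤ l := by exact_mod_cast hl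
  push_cast at hL'
  have hLr : (0 : ℝ) < l := by linarith
  have hL8 : 1000 ≤ l := by
    have : ((1000 : ℤ) : ℝ) ≤ l := by push_cast; linarith
    exact_mod_cast this
  have hhL : 1000 ≤ h * l := by
    have : 1000 / h ≤ l := by linarith
    rw [div_le_iff₀ hh] at this; linarith
  have hρL : 100 ≤ ρ * l := by
    have : 100 / ρ ≤ l := by linarith
    rw [div_le_iff₀ hρ0] at this; linarith
  have hδL : 1 ≤ δ * l := by
    have : 1 / δ ≤ l := by linarith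
    rw [div_le_iff₀ hδ0] at this; linarith
  have htL : 100 ≤ t * l := by
    have : δ * l ≤ t / 100 * l := mul_le_mul_of_nonneg_right hδt hLr.le
    linarith
  obtain ⟨n1, n2, n3, n4, n5, n6, n7, n8⟩ := Cs410.comp_num (y := y) (ρ := ρ) (y0 := y0) hh
    (by linarith) (by linarith) rfl rfl rfl rfl hLr i3 i4
  set s := ⌊5 * h * l⌋₊ with hs
  set n := ⌊ρ * l⌋₊ with hn
  have s1 : (s : ℝ) ≤ 5 * h * l := Nat.floor_le (by positivity)
  have n9 : ρ * l < n + 1 := Nat.lt_floor_add_one _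
  obtain ⟨R2, hR2⟩ : ∃ R2, R2 = ⌊h * l⌋₊ := ⟨_, rfl⟩
  have r1 : (R2 : ℝ) ≤ h * l := by rw [hR2]; exact Nat.floor_le (by positivity)
  have r2 : h * l < R2 + 1 := by rw [hR2]; exact Nat.lt_floor_add_one _
  obtain ⟨R1, hR1⟩ : ∃ R1, R1 = ⌊t * l⌋₊ := ⟨_, rfl⟩
  have r3 : (R1 : ℝ) ≤ t * l := by rw [hR1]; exact Nat.floor_le (by positivity)
  have r4 : t * l < R1 + 1 := by rw [hR1]; exact Nat.lt_floor_add_one _
  have hthl : t * l ≤ h * l := mul_le_mul_of_nonneg_right hth hLr.le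
  have hhl2 : h * l ≤ 1 / 100 * l := mul_le_mul_of_nonneg_right hh2.le hLr.le
  have hρh : 7 * (h * l) ≤ ρ * l / 2 := by
    have := mul_le_mul_of_nonneg_right hh1.le hLr.le
    linarith
  obtain ⟨u, hu⟩ := id hev
  have hl2 : l / 2 = u := by omega
  have hlr : (l : ℝ) = u + u := by rw [hu]; push_cast; ring
  have hrow : (r * l < y0 - n ∧ y0 + n ≤ r * l + l / 2 - 1) ∨
      (r * l + l / 2 < y0 - n ∧ y0 + n ≤ r * l + l - 1) := by
    rw [hl2]
    have u1 : (c1 - m) * l ≤ (y - h - ρ) * l :=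
      mul_le_mul_of_nonneg_right (by linarith) hLr.le
    have u2 : (y + h + ρ) * l + 3 ≤ (e1 + m) * l := by
      have : (y + h + ρ + h) * l ≤ (e1 + m) * l :=
        mul_le_mul_of_nonneg_right (by linarith) hLr.le
      linarith
    rcases hm with ⟨q1, q2⟩ | ⟨q1, q2⟩
    · left
      have v1 : (r : ℝ) * l < (c1 - m) * l := mul_lt_mul_of_pos_right q1 hLr
      have v2 : (e1 + m) * l < ((r : ℝ) + 1 / 2) * l := mul_lt_mul_of_pos_right q2 hLr
      constructor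
      · have : ((r * l : ℤ) : ℝ) < ((y0 - n : ℤ) : ℝ) := by push_cast; linarith
        exact_mod_cast this
      · have : ((y0 + n : ℤ) : ℝ) ≤ ((r * l + u - 1 : ℤ) : ℝ) := by push_cast; linarith
        exact_mod_cast this
    · right
      have v1 : ((r : ℝ) + 1 / 2) * l < (c1 - m) * l := mul_lt_mul_of_pos_right q1 hLr
      have v2 : (e1 + m) * l < ((r : ℝ) + 1) * l := mul_lt_mul_of_pos_right q2 hLr
      constructor
      · have : ((r * l + u : ℤ) : ℝ) < ((y0 - n : ℤ) : ℝ) := by push_cast; linarith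
        exact_mod_cast this
      · have : ((y0 + n : ℤ) : ℝ) ≤ ((r * l + l - 1 : ℤ) : ℝ) := by push_cast; linarith
        exact_mod_cast this
  have f5 : (B.y1 : ℝ) ≤ (y - 3 * h) * l := by rw [hB0.y1]; exact Int.floor_le _
  have f8 : (y + 3 * h) * l < B.y2 + 1 := by rw [hB0.y2]; exact Int.lt_floor_add_one _
  have Nw : NumW P A' B' r l (l / 8) y0 B s n R1 R2 :=
    { run := hrun
      hL := by omega
      hev := hev
      xl := hB0.xl
      xr := hB0.xr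
      a1 := by rw [hB0.y1]; exact n3
      a4 := by rw [hB0.y2]; exact n6
      row := hrow
      hm := by
        have : ((R2 + s + 4 : ℕ) : ℝ) ≤ n := by push_cast; linarith
        exact_mod_cast this
      R12 := by rw [hR1, hR2]; exact Nat.floor_le_floor hthl
      Rk := by
        have : 8 * ((R1 : ℝ) + 1) + 8 ≤ l := by linarith
        have : 8 * ((R1 : ℤ) + 1) + 8 ≤ l := by exact_mod_cast this
        omega
      kL := by omega
      q1 := by
        have : (((R2 : ℤ) + 2 : ℤ) : ℝ) ≤ ((y0 - B.y1 : ℤ) : ℝ) := by push_cast; linarith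
        exact_mod_cast this
      q2 := by
        have : (((R2 : ℤ) + 3 : ℤ) : ℝ) ≤ ((B.y2 - y0 : ℤ) : ℝ) := by push_cast; linarith
        exact_mod_cast this
      RL := by
        have : 4 * (R1 : ℝ) + 16 ≤ l := by linarith
        exact_mod_cast this }
  have hz : B.At p y0 := by
    refine ⟨by rw [hB0.y1]; exact n4, by rw [hB0.y2]; exact n5, ?_, ?_⟩
    · rw [hB0.xl]
      have v1 : (A' : ℝ) * l < a * l := mul_lt_mul_of_pos_right hA hLr
      have : ((A' * l : ℤ) : ℝ) < p := by push_cast; linarith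
      exact_mod_cast this
    · rw [hB0.xr]
      have v1 : b * l < (B' + 1) * l := mul_lt_mul_of_pos_right hB hLr
      have : (p : ℝ) < ((B' * l + l : ℤ) : ℝ) := by push_cast; linarith
      have : p < B' * l + l := by exact_mod_cast this
      omega
  have hΔ1 : (DelP l δ : ℝ) < δ * l + 1 := Int.ceil_lt_add_one _
  have hΔ2 : δ * l ≤ (DelP l δ : ℝ) := Int.le_ceil _
  have hΔ0 : 0 < DelP l δ := by
    have : (0 : ℝ) < DelP l δ := by linarith
    exact_mod_cast this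
  have hδtl : δ * l ≤ t * l / 100 := by
    have := mul_le_mul_of_nonneg_right hδt hLr.le
    linarith
  have hΔR : DelP l δ + 2 ≤ R1 := by
    have : ((DelP l δ + 2 : ℤ) : ℝ) ≤ ((R1 : ℤ) : ℝ) := by push_cast; linarith
    exact_mod_cast this
  have hΔL : DelP l δ ≤ l / 16 := by
    have : 16 * (DelP l δ : ℝ) ≤ l := by linarith
    have : 16 * DelP l δ ≤ l := by exact_mod_cast this
    omega
  obtain ⟨N, hN1, hN2⟩ := gate_num (y := y) rfl hh (by linarith) hL8 rfl rfl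
  have hmain := hP P A' B' r l h y δ B p y0 s n R1 R2 N hB0 Nw hz hΔ0 hΔR hΔL
    (by rw [hB0.y1, hB0.y2]; exact hN1) w hw hM
  rw [norm_sub_rev]
  refine hmain.trans ?_
  have R1pos : (0 : ℝ) < R1 := by linarith
  have R2pos : (0 : ℝ) < R2 := by linarith
  have e1' : (DelP l δ + 1 : ℝ) / R1 ≤ h ^ K := by
    rw [div_le_iff₀ R1pos]
    have e : δ * l = h ^ K * (t * l) / 100 := by rw [hδ, ht]; ring
    have e2 : h ^ K * (t * l) ≤ h ^ K * (R1 + 1) := mul_le_mul_of_nonneg_left r4.le hK1.le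
    have e3 : h ^ K * (R1 + 1) ≤ h ^ K * (2 * R1) :=
      mul_le_mul_of_nonneg_left (by linarith) hK1.le
    have e4 : (DelP l δ : ℝ) + 1 ≤ 3 * (δ * l) := by linarith
    rw [e] at e4
    have e5 : 0 < h ^ K * (R1 : ℝ) := by positivity
    linarith
  have e2' : (R1 : ℝ) / R2 ≤ 2 * h ^ K := by
    rw [div_le_iff₀ R2pos]
    have e : t * l = h ^ K * (h * l) := by rw [ht]; ring
    have e2 : h ^ K * (h * l) ≤ h ^ K * (2 * R2) :=
      mul_le_mul_of_nonneg_left (by linarith) hK1.le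
    rw [e] at r3
    linarith
  have hpw : (h ^ K) ^ α = h ^ (2 : ℕ) := by
    rw [← Real.rpow_mul hh.le, hKα, Real.rpow_two]
  have p1 : ((DelP l δ + 1 : ℝ) / R1) ^ α ≤ h ^ 2 := by
    rw [← hpw]
    exact Real.rpow_le_rpow (by positivity) e1' hα.le
  have p2 : ((R1 : ℝ) / R2) ^ α ≤ 2 ^ α * h ^ 2 := by
    rw [← hpw, ← Real.mul_rpow (by norm_num) hK1.le]
    exact Real.rpow_le_rpow (by positivity) e2' hα.le
  have p3 := hqp h N hh hN2
  have p4 : C * (((DelP l δ + 1 : ℝ) / R1) ^ α + ((R1 : ℝ) / R2) ^ α) ≤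
      C * (h ^ 2 + 2 ^ α * h ^ 2) := mul_le_mul_of_nonneg_left (add_le_add p1 p2) hC.le
  have p5 := mul_le_mul_of_nonneg_left p4 hFc0
  calc 7 / 2 * (Fc * (C * (((DelP l δ + 1 : ℝ) / R1) ^ α + ((R1 : ℝ) / R2) ^ α)) + 4 * q ^ N)
      ≤ 7 / 2 * (Fc * (C * (h ^ 2 + 2 ^ α * h ^ 2)) + 4 * (Cq * h ^ 2)) := by linarith
    _ = 7 / 2 * (Fc * (C * (1 + 2 ^ α)) + 4 * Cq) * h ^ 2 := by ring

end Crest.Agent.R158.Qg300
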