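import Mathlib

/-!
# Row 158 (helper972): Reimer's inequality

* `butterfly` : permutation form of Reimer's butterfly theorem (with frozen coordinates `K`), proved by
  two integer matrices, one diagonal mod 2, one diagonal mod 3.
* `box A B` : disjoint occurrence of arbitrary events of `ι → Bool`.
* `reimer_fin` : Reimer's inequality for every product weight on a finite cube.
-/

set_option autoImplicit false

namespace Crest.Agent.R158.Re972

open Finset

section butterfly

variable {ι : Type*} [Fintype ι] [DecidableEq ι]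

/-- basis vector `a_x` -/
def av (x y : Bool) : ℤ := if x = y then 1 else 0

/-- second basis `b_x = (2,3), (3,2)` -/
def bv (x y : Bool) : ℤ := if x = y then 2 else 3

/-- dual vectors of the second basis (up to the factor `-5`) -/
def cv (x y : Bool) : ℤ := if x = y then 2 else -3

theorem det_ne_zero_of_mod {X : Type*} [Fintype X] [DecidableEq X] (p : ℕ) [Fact p.Prime]
    (M : Matrix X X ℤ) (d : X → ZMod p)
    (h : ∀ x y, ((M x y : ℤ) : ZMod p) = if x = y then d x else 0) (hd : ∀ x, d x ≠ 0) :
    M.det ≠ 0 := by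
  intro h0
  have h1 : ((Int.castRingHom (ZMod p)).mapMatrix M) = Matrix.diagonal d := by
    ext x y
    simp only [RingHom.mapMatrix_apply, Matrix.map_apply, Matrix.diagonal_apply]
    exact h x y
  have h2 := (Int.castRingHom (ZMod p)).map_det M
  rw [h0, map_zero, h1, Matrix.det_diagonal] at h2
  exact Finset.prod_ne_zero_iff.2 (fun x _ => hd x) h2.symm

theorem exists_perm_of_det_ne_zero {X : Type*} [Fintype X] [DecidableEq X] (M : Matrix X X ℤ)
    (h : M.det ≠ 0) : ∃ σ : Equiv.Perm X, ∀ x, M (σ x) x ≠ 0 := by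
  rw [Matrix.det_apply] at h
  obtain ⟨σ, -, hσ⟩ := Finset.exists_ne_zero_of_sum_ne_zero h
  refine ⟨σ, fun x hx => hσ ?_⟩
  have h1 : ∏ i, M (σ i) i = 0 := Finset.prod_eq_zero (Finset.mem_univ x) hx
  rw [h1, smul_zero]

/-- keep `x` on `K`, flip it off `K` -/
def fl (K : Finset ι) (x : ι → Bool) : ι → Bool := fun i => if i ∈ K then x i else !x i

theorem bv_mod (a b : Bool) : ((bv (!a) b : ℤ) : ZMod 2) = if a = b then 1 else 0 := by
  revert a b; decide

theorem two_ne_zero3 : (2 : ZMod 3) ≠ 0 := by decide

theorem cv_mod (a b : Bool) : ((cv a b : ℤ) : ZMod 3) = if a = b then 2 else 0 := by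
  revert a b; decide

/-- **Butterfly theorem**, permutation form with frozen coordinates. -/
theorem butterfly (K : Finset ι) (B R Y : Set (ι → Bool)) (S : (ι → Bool) → Finset ι)
    (hR : ∀ x ∈ B, ∀ y : ι → Bool, (∀ i ∈ S x, y i = x i) → y ∈ R)
    (hY : ∀ x ∈ B, ∀ y : ι → Bool, (∀ i, i ∉ S x → y i = x i) → y ∈ Y) :
    ∃ σ : Equiv.Perm (ι → Bool), ∀ x, (∀ i ∈ K, σ x i = x i) ∧ (x ∈ B → σ x ∈ R ∧ fl K (σ x) ∈ Y) := by
  classical
  -- the matrix of the vectors `v_x`
  let V : Matrix (ι → Bool) (ι → Bool) ℤ := fun x y =>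
    ∏ i, (if i ∈ K ∨ i ∈ S x then av (x i) (y i) else bv (!x i) (y i))
  -- the matrix of the functionals
  let U : Matrix (ι → Bool) (ι → Bool) ℤ := fun z y =>
    if z ∈ R then ∏ i, (if i ∈ K then av (z i) (y i) else cv (z i) (y i))
    else ∏ i, av (z i) (y i)
  have prod_eq : ∀ (x y : ι → Bool) (f : ι → Bool → Bool → ℤ) (p : ℕ) (d : ι → ZMod p),
      (∀ i, ((f i (x i) (y i) : ℤ) : ZMod p) = if x i = y i then d i else 0) →
      (((∏ i, f i (x i) (y i) : ℤ)) : ZMod p) = if x = y then ∏ i, d i else 0 := by
    intro x y f p d h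
    push_cast
    rw [Finset.prod_congr rfl fun i _ => h i]
    by_cases hxy : x = y
    · subst hxy; simp
    · rw [if_neg hxy]
      obtain ⟨i, hi⟩ := Function.ne_iff.1 hxy
      exact Finset.prod_eq_zero (Finset.mem_univ i) (if_neg hi)
  have hV : V.det ≠ 0 := by
    have : Fact (Nat.Prime 2) := ⟨Nat.prime_two⟩
    refine det_ne_zero_of_mod 2 V (fun _ => 1) ?_ (fun _ => one_ne_zero)
    intro x y
    have := prod_eq x y (fun i a b => if i ∈ K ∨ i ∈ S x then av a b else bv (!a) b) 2
      (fun _ => 1) ?_
    · simpa [V] using this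
    · intro i
      by_cases h1 : i ∈ K ∨ i ∈ S x
      · simp only [if_pos h1, av]
        split_ifs <;> simp
      · simp only [if_neg h1]
        exact bv_mod _ _
  have hU : U.det ≠ 0 := by
    have : Fact (Nat.Prime 3) := ⟨Nat.prime_three⟩
    refine det_ne_zero_of_mod 3 U
      (fun z => if z ∈ R then ∏ i, (if i ∈ K then 1 else 2) else 1) ?_ ?_
    · intro z y
      by_cases hz : z ∈ R
      · have := prod_eq z y (fun i a b => if i ∈ K then av a b else cv a b) 3
          (fun i => if i ∈ K then 1 else 2) ?_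
        · simpa [U, hz] using this
        · intro i
          by_cases h1 : i ∈ K
          · simp only [if_pos h1, av]
            split_ifs <;> simp
          · simp only [if_neg h1]
            exact cv_mod _ _
      · have := prod_eq z y (fun i a b => av a b) 3 (fun i => 1) ?_
        · simpa [U, hz] using this
        · intro i
          simp only [av]
          split_ifs <;> simp
    · intro z
      split_ifs with hz
      · refine Finset.prod_ne_zero_iff.2 fun i _ => ?_
        split_ifs
        · exact one_ne_zero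
        · exact two_ne_zero3
      · exact one_ne_zero
  have hG : (U * V.transpose).det ≠ 0 := by
    rw [Matrix.det_mul, Matrix.det_transpose]
    exact mul_ne_zero hU hV
  obtain ⟨σ, hσ⟩ := exists_perm_of_det_ne_zero _ hG
  have key : ∀ x, (σ x ∈ R → (∀ i ∈ K, σ x i = x i) ∧ ∀ i, i ∉ S x → fl K (σ x) i = x i) ∧
      (σ x ∉ R → (∀ i ∈ K, σ x i = x i) ∧ ∀ i ∈ S x, σ x i = x i) := by
    intro x
    have h := hσ x
    rw [Matrix.mul_apply] at h
    simp only [Matrix.transpose_apply] at h
    constructor
    · intro hx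
      have h1 : ∑ y, U (σ x) y * V x y =
          ∏ i, ∑ b : Bool, (if i ∈ K then av (σ x i) b else cv (σ x i) b) *
            (if i ∈ K ∨ i ∈ S x then av (x i) b else bv (!x i) b) := by
        rw [Finset.prod_univ_sum, Fintype.piFinset_univ]
        refine Finset.sum_congr rfl fun y _ => ?_
        simp only [U, V, if_pos hx]
        rw [← Finset.prod_mul_distrib]
      rw [h1] at h
      have h2 := fun i => Finset.prod_ne_zero_iff.1 h i (Finset.mem_univ i)
      have hK : ∀ i ∈ K, σ x i = x i := by
        intro i hi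
        by_contra hne
        apply h2 i
        simp only [hi, true_or, if_true, av, Fintype.sum_bool]
        revert hne
        cases σ x i <;> cases x i <;> simp
      refine ⟨hK, fun i hi => ?_⟩
      by_cases hiK : i ∈ K
      · simp only [fl, if_pos hiK]
        exact hK i hiK
      · simp only [fl, if_neg hiK]
        by_contra hne
        apply h2 i
        simp only [hiK, if_false, hi, or_self, cv, bv, Fintype.sum_bool]
        revert hne
        cases σ x i <;> cases x i <;> simp
    · intro hx
      have h1 : ∑ y, U (σ x) y * V x y = V x (σ x) := by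
        rw [Finset.sum_eq_single (σ x)]
        · simp [U, if_neg hx, av]
        · intro y _ hy
          obtain ⟨i, hi⟩ := Function.ne_iff.1 (Ne.symm hy)
          have : U (σ x) y = 0 := by
            simp only [U, if_neg hx]
            exact Finset.prod_eq_zero (Finset.mem_univ i) (if_neg hi)
          rw [this, zero_mul]
        · intro h; exact absurd (Finset.mem_univ _) h
      rw [h1] at h
      have h2 := fun i => Finset.prod_ne_zero_iff.1 h i (Finset.mem_univ i)
      have h3 : ∀ i, i ∈ K ∨ i ∈ S x → σ x i = x i := by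
        intro i hi
        have := h2 i
        simp only [if_pos hi, av] at this
        by_contra hne
        apply this
        rw [if_neg (fun h => hne h.symm)]
      exact ⟨fun i hi => h3 i (Or.inl hi), fun i hi => h3 i (Or.inr hi)⟩
  refine ⟨σ, fun x => ⟨?_, fun hxB => ?_⟩⟩
  · by_cases hx : σ x ∈ R
    · exact ((key x).1 hx).1
    · exact ((key x).2 hx).1
  · have hxR : σ x ∈ R := by
      by_contra hx
      exact hx (hR x hxB _ ((key x).2 hx).2)
    exact ⟨hxR, hY x hxB _ ((key x).1 hxR).2⟩

/-! ### disjoint occurrence and Reimer's inequality on the finite cube -/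

end butterfly

/-- disjoint occurrence of two events -/
def box {ι : Type*} (A B : Set (ι → Bool)) : Set (ι → Bool) :=
  {z | ∃ I J : Finset ι, Disjoint I J ∧ (∀ z' : ι → Bool, (∀ i ∈ I, z' i = z i) → z' ∈ A) ∧
    ∀ z' : ι → Bool, (∀ i ∈ J, z' i = z i) → z' ∈ B}

section fin

variable {ι : Type*} [Fintype ι] [DecidableEq ι]

/-- product weight -/
def mu (p : ι → Bool → ℝ) (x : ι → Bool) : ℝ := ∏ i, p i (x i)

omit [DecidableEq ι] in
theorem mu_nonneg {p : ι → Bool → ℝ} (hp : ∀ i b, 0 ≤ p i b) (x : ι → Bool) : 0 ≤ mu p x :=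
  Finset.prod_nonneg fun _ _ => hp _ _

/-- weight of the class of `x` on `K` -/
def wK (p : ι → Bool → ℝ) (K : Finset ι) (x : ι → Bool) : ℝ :=
  ∏ i, if i ∈ K then p i (x i) * p i (x i) else p i true * p i false

theorem mu_mul_fl (p : ι → Bool → ℝ) (K : Finset ι) (x : ι → Bool) :
    mu p x * mu p (fl K x) = wK p K x := by
  rw [mu, mu, ← Finset.prod_mul_distrib, wK]
  refine Finset.prod_congr rfl fun i _ => ?_
  by_cases h : i ∈ K
  · simp only [fl, if_pos h]
  · simp only [fl, if_neg h]
    cases x i
    · simp only [Bool.not_false]; ring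
    · simp only [Bool.not_true]

theorem wK_congr (p : ι → Bool → ℝ) (K : Finset ι) {x y : ι → Bool} (h : ∀ i ∈ K, x i = y i) :
    wK p K x = wK p K y := by
  refine Finset.prod_congr rfl fun i _ => ?_
  by_cases hi : i ∈ K
  · simp only [if_pos hi, h i hi]
  · simp only [if_neg hi]

theorem sum_wK {p : ι → Bool → ℝ} (hp : ∀ i, p i true + p i false = 1) (x : ι → Bool) :
    ∑ K : Finset ι, wK p K x = mu p x := by
  have h1 : ∀ K : Finset ι, wK p K x =
      (∏ i ∈ K, p i (x i) * p i (x i)) * ∏ i ∈ Finset.univ \ K, (p i true * p i false) := by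
    intro K
    rw [wK, Finset.prod_ite]
    congr 1
    · congr 1
      ext i; simp
    · congr 1
      ext i; simp
  simp only [h1]
  rw [← Finset.powerset_univ, ← Finset.prod_add, mu]
  refine Finset.prod_congr rfl fun i _ => ?_
  have := hp i
  cases x i
  · have h2 : p i true = 1 - p i false := by linarith
    rw [h2]; ring
  · have h2 : p i false = 1 - p i true := by linarith
    rw [h2]; ring

/-- the pair `(x, y)` as `(x, K)` with `K` the coordinates where they agree -/
theorem sum_pair (f : (ι → Bool) → (ι → Bool) → ℝ) (x : ι → Bool) :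
    ∑ y, f x y = ∑ K : Finset ι, f x (fl K x) := by
  refine (Fintype.sum_bijective (fun K : Finset ι => fl K x) ?_ _ _ fun _ => rfl).symm
  constructor
  · intro K L h
    ext i
    have hi := congrFun h i
    simp only [fl] at hi
    by_cases h1 : i ∈ K <;> by_cases h2 : i ∈ L <;> simp [h1, h2] at hi ⊢
  · intro y
    refine ⟨Finset.univ.filter fun i => y i = x i, ?_⟩
    funext i
    simp only [fl, Finset.mem_filter, Finset.mem_univ, true_and]
    by_cases h : y i = x i
    · simp [h]
    · simp only [if_neg h]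
      revert h
      cases x i <;> cases y i <;> simp

open Classical in
/-- **Reimer's inequality** for product weights on the finite cube. -/
theorem reimer_fin {p : ι → Bool → ℝ} (hp0 : ∀ i b, 0 ≤ p i b)
    (hp : ∀ i, p i true + p i false = 1) (A B : Set (ι → Bool)) :
    ∑ x, mu p x * (if x ∈ box A B then 1 else 0) ≤
      (∑ x, mu p x * (if x ∈ A then 1 else 0)) * ∑ x, mu p x * (if x ∈ B then 1 else 0) := by
  have hI : ∀ x : ι → Bool, ∃ I : Finset ι, x ∈ box A B →
      (∀ z' : ι → Bool, (∀ i ∈ I, z' i = x i) → z' ∈ A) ∧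
      (∀ z' : ι → Bool, (∀ i, i ∉ I → z' i = x i) → z' ∈ B) := by
    intro x
    by_cases hx : x ∈ box A B
    · obtain ⟨I, J, hIJ, h1, h2⟩ := hx
      refine ⟨I, fun _ => ⟨h1, fun z' hz' => h2 z' fun i hi => hz' i fun hiI => ?_⟩⟩
      exact Finset.disjoint_left.1 hIJ hiI hi
    · exact ⟨∅, fun h => absurd h hx⟩
  choose S hS using hI
  have key : ∀ K : Finset ι, ∑ x, wK p K x * (if x ∈ box A B then 1 else 0) ≤
      ∑ x, wK p K x * ((if x ∈ A then 1 else 0) * (if fl K x ∈ B then 1 else 0)) := by
    intro K
    obtain ⟨σ, hσ⟩ := butterfly K (box A B) A B S (fun x hx => (hS x hx).1)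
      (fun x hx => (hS x hx).2)
    rw [← Equiv.sum_comp σ (fun x => wK p K x * ((if x ∈ A then (1 : ℝ) else 0) *
      (if fl K x ∈ B then 1 else 0)))]
    refine Finset.sum_le_sum fun x _ => ?_
    rw [wK_congr p K (hσ x).1]
    refine mul_le_mul_of_nonneg_left ?_ (Finset.prod_nonneg fun i _ => ?_)
    · by_cases hx : x ∈ box A B
      · obtain ⟨h1, h2⟩ := (hσ x).2 hx
        simp [hx, h1, h2]
      · rw [if_neg hx]
        positivity
    · split_ifs
      · exact mul_nonneg (hp0 _ _) (hp0 _ _)
      · exact mul_nonneg (hp0 _ _) (hp0 _ _)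
  calc ∑ x, mu p x * (if x ∈ box A B then 1 else 0)
      = ∑ x, ∑ K : Finset ι, wK p K x * (if x ∈ box A B then 1 else 0) := by
        refine Finset.sum_congr rfl fun x _ => ?_
        rw [← Finset.sum_mul, sum_wK hp]
    _ = ∑ K : Finset ι, ∑ x, wK p K x * (if x ∈ box A B then 1 else 0) := Finset.sum_comm
    _ ≤ ∑ K : Finset ι, ∑ x, wK p K x *
          ((if x ∈ A then 1 else 0) * (if fl K x ∈ B then 1 else 0)) :=
        Finset.sum_le_sum fun K _ => key K
    _ = ∑ x, ∑ K : Finset ι, wK p K x *
          ((if x ∈ A then 1 else 0) * (if fl K x ∈ B then 1 else 0)) := Finset.sum_comm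
    _ = ∑ x, ∑ y, (mu p x * (if x ∈ A then 1 else 0)) * (mu p y * (if y ∈ B then 1 else 0)) := by
        refine Finset.sum_congr rfl fun x _ => ?_
        rw [sum_pair (fun x y => (mu p x * (if x ∈ A then 1 else 0)) *
          (mu p y * (if y ∈ B then 1 else 0))) x]
        refine Finset.sum_congr rfl fun K _ => ?_
        rw [← mu_mul_fl]
        ring
    _ = _ := by rw [Finset.sum_mul_sum]

end fin

end Crest.Agent.R158.Re972
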