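import Crest.Agent.R158.Rs1_689
import Crest.Agent.R158.Re1_972

/-!
# Row 158 (helper972): Reimer's inequality for `PB w`

* `box_dep` : the box of two events depending on `S` depends on `S`.
* `reimer` : `(PB w).real (box A B) ≤ (PB w).real A * (PB w).real B`.
* `boxF s A` : disjoint occurrence of a finite family; `reimer_prod`.
-/

set_option autoImplicit false

noncomputable section

namespace Crest.Agent.R158.Re972

open MeasureTheory unitInterval Crest.Agent.R158.Rs689

variable {ι : Type*}

open Classical in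
/-- replace `z` by `z'` off `S` -/
def mix (S : Finset ι) (z z' : ι → Bool) : ι → Bool := fun i => if i ∈ S then z i else z' i

theorem mix_on {S : Finset ι} {z z' : ι → Bool} {i : ι} (h : i ∈ S) : mix S z z' i = z i := by
  simp [mix, h]

theorem mix_off {S : Finset ι} {z z' : ι → Bool} {i : ι} (h : i ∉ S) : mix S z z' i = z' i := by
  simp [mix, h]

open Classical in
/-- a witness set can be restricted to the support of the event -/
theorem wit_inter {S P : Finset ι} {A : Set (ι → Bool)} (hA : Dep S A) {z : ι → Bool}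
    (h : ∀ z' : ι → Bool, (∀ i ∈ P, z' i = z i) → z' ∈ A) :
    ∀ z' : ι → Bool, (∀ i ∈ P ∩ S, z' i = z i) → z' ∈ A := by
  intro z' hz'
  refine (hA (mix S z' z) z' fun e he => mix_on he).1 (h _ fun i hi => ?_)
  by_cases hS : i ∈ S
  · rw [mix_on hS]
    exact hz' i (Finset.mem_inter.2 ⟨hi, hS⟩)
  · rw [mix_off hS]

theorem box_sub {S : Finset ι} {A B : Set (ι → Bool)} (hA : Dep S A) (hB : Dep S B)
    {z z' : ι → Bool} (h : ∀ e ∈ S, z e = z' e) (hz : z ∈ box A B) : z' ∈ box A B := by
  classical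
  obtain ⟨P, Q, hIJ, h1, h2⟩ := hz
  refine ⟨P ∩ S, Q ∩ S, ?_, ?_, ?_⟩
  · exact hIJ.mono Finset.inter_subset_left Finset.inter_subset_left
  · intro z'' hz''
    refine wit_inter hA h1 z'' fun i hi => ?_
    rw [hz'' i hi, h i (Finset.mem_inter.1 hi).2]
  · intro z'' hz''
    refine wit_inter hB h2 z'' fun i hi => ?_
    rw [hz'' i hi, h i (Finset.mem_inter.1 hi).2]

theorem box_dep {S : Finset ι} {A B : Set (ι → Bool)} (hA : Dep S A) (hB : Dep S B) :
    Dep S (box A B) := fun _ _ h =>
  ⟨fun hz => box_sub hA hB h hz, fun hz => box_sub hA hB (fun e he => (h e he).symm) hz⟩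

open Classical in
theorem trc_box {S : Finset ι} {A B : Set (ι → Bool)} {y : S → Bool}
    (hy : y ∈ trc S (box A B)) : y ∈ box (trc S A) (trc S B) := by
  obtain ⟨z, ⟨P, Q, hIJ, h1, h2⟩, hz⟩ := hy
  have key : ∀ (L : Finset ι) (D : Set (ι → Bool)),
      (∀ z' : ι → Bool, (∀ i ∈ L, z' i = z i) → z' ∈ D) →
      ∀ y' : S → Bool, (∀ i ∈ L.subtype (· ∈ S), y' i = y i) → y' ∈ trc S D := by
    intro L D hD y' hy'
    refine ⟨fun i => if h : i ∈ S then y' ⟨i, h⟩ else z i, hD _ fun i hi => ?_, fun e => ?_⟩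
    · by_cases hS : i ∈ S
      · simp only [dif_pos hS]
        rw [hy' ⟨i, hS⟩ (by simpa using hi), ← hz ⟨i, hS⟩]
      · simp only [dif_neg hS]
    · simp
  refine ⟨P.subtype (· ∈ S), Q.subtype (· ∈ S), ?_, key P A h1, key Q B h2⟩
  rw [Finset.disjoint_left]
  intro i hi hj
  exact Finset.disjoint_left.1 hIJ (by simpa using hi) (by simpa using hj)

open Classical in
/-- **Reimer's inequality** for the product Bernoulli law. -/
theorem reimer (w : ι → I) {S : Finset ι} {A B : Set (ι → Bool)} (hA : Dep S A) (hB : Dep S B) :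
    (PB w).real (box A B) ≤ (PB w).real A * (PB w).real B := by
  rw [PB_real_eq w (box_dep hA hB), PB_real_eq w hA, PB_real_eq w hB]
  have h := reimer_fin (ι := S) (p := fun e b => (bern (w e)).real {b})
    (fun _ _ => measureReal_nonneg) (fun e => by
      rw [bern_real_true, bern_real_false]; ring) (trc S A) (trc S B)
  refine le_trans (Finset.sum_le_sum fun y _ => ?_) h
  refine mul_le_mul_of_nonneg_left ?_ (wt_nonneg w S y)
  by_cases hy : y ∈ trc S (box A B)
  · rw [if_pos hy, if_pos (trc_box hy)]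
  · rw [if_neg hy]
    split_ifs <;> norm_num

/-- same with two supports -/
theorem reimer' (w : ι → I) {S T : Finset ι} {A B : Set (ι → Bool)} (hA : Dep S A)
    (hB : Dep T B) : (PB w).real (box A B) ≤ (PB w).real A * (PB w).real B := by
  classical
  exact reimer w (hA.mono Finset.subset_union_left) (hB.mono Finset.subset_union_right)

/-- disjoint occurrence of a finite family of events -/
def boxF {κ : Type*} (s : Finset κ) (A : κ → Set (ι → Bool)) : Set (ι → Bool) :=
  {z | ∃ W : κ → Finset ι, (∀ i ∈ s, ∀ j ∈ s, i ≠ j → Disjoint (W i) (W j)) ∧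
    ∀ k ∈ s, ∀ z' : ι → Bool, (∀ i ∈ W k, z' i = z i) → z' ∈ A k}

theorem boxF_cons {κ : Type*} [DecidableEq κ] {a : κ} {s : Finset κ} (ha : a ∉ s)
    (A : κ → Set (ι → Bool)) : boxF (insert a s) A ⊆ box (A a) (boxF s A) := by
  classical
  rintro z ⟨W, hW, h⟩
  refine ⟨W a, s.biUnion W, ?_, h a (Finset.mem_insert_self _ _), ?_⟩
  · rw [Finset.disjoint_biUnion_right]
    intro j hj
    exact hW a (Finset.mem_insert_self _ _) j (Finset.mem_insert_of_mem hj) fun h => ha (h ▸ hj)
  · intro z' hz'
    refine ⟨W, fun i hi j hj => hW i (Finset.mem_insert_of_mem hi) j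
      (Finset.mem_insert_of_mem hj), fun k hk z'' hz'' => ?_⟩
    refine h k (Finset.mem_insert_of_mem hk) z'' fun i hi => ?_
    rw [hz'' i hi]
    exact hz' i (Finset.mem_biUnion.2 ⟨k, hk, hi⟩)

theorem boxF_dep {κ : Type*} {S : Finset ι} (s : Finset κ) {A : κ → Set (ι → Bool)}
    (hA : ∀ k ∈ s, Dep S (A k)) : Dep S (boxF s A) := by
  classical
  have key : ∀ z z' : ι → Bool, (∀ e ∈ S, z e = z' e) → z ∈ boxF s A → z' ∈ boxF s A := by
    rintro z z' h ⟨W, hW, h1⟩
    refine ⟨fun k => W k ∩ S, fun i hi j hj hij =>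
      (hW i hi j hj hij).mono Finset.inter_subset_left Finset.inter_subset_left, ?_⟩
    intro k hk z'' hz''
    refine wit_inter (hA k hk) (h1 k hk) z'' fun i hi => ?_
    rw [hz'' i hi, h i (Finset.mem_inter.1 hi).2]
  exact fun z z' h => ⟨key z z' h, key z' z fun e he => (h e he).symm⟩

/-- **Reimer's inequality** for finite families. -/
theorem reimer_prod (w : ι → I) {κ : Type*} {S : Finset ι} (s : Finset κ)
    {A : κ → Set (ι → Bool)} (hA : ∀ k ∈ s, Dep S (A k)) :
    (PB w).real (boxF s A) ≤ ∏ k ∈ s, (PB w).real (A k) := by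
  classical
  induction s using Finset.induction_on with
  | empty => simp
  | insert a s ha ih =>
    rw [Finset.prod_insert ha]
    have hs : ∀ k ∈ s, Dep S (A k) := fun k hk => hA k (Finset.mem_insert_of_mem hk)
    calc (PB w).real (boxF (insert a s) A) ≤ (PB w).real (box (A a) (boxF s A)) :=
          measureReal_mono (boxF_cons ha A)
      _ ≤ (PB w).real (A a) * (PB w).real (boxF s A) :=
          reimer w (hA a (Finset.mem_insert_self _ _)) (boxF_dep s hs)
      _ ≤ _ := mul_le_mul_of_nonneg_left (ih hs) measureReal_nonneg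

/-- `k`-fold disjoint occurrence of the same event -/
theorem reimer_pow (w : ι → I) {S : Finset ι} {A : Set (ι → Bool)} (hA : Dep S A) (k : ℕ) :
    (PB w).real (boxF (Finset.univ : Finset (Fin k)) fun _ => A) ≤ (PB w).real A ^ k := by
  have := reimer_prod w (Finset.univ : Finset (Fin k)) (A := fun _ => A) fun _ _ => hA
  simpa using this

/-- sufficient form: explicit disjoint witness sets on which `z` agrees with a configuration
forcing the events -/
theorem mem_boxF {κ : Type*} {s : Finset κ} {A : κ → Set (ι → Bool)} {z : ι → Bool}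
    (W : κ → Finset ι) (hW : ∀ i ∈ s, ∀ j ∈ s, i ≠ j → Disjoint (W i) (W j))
    (h : ∀ k ∈ s, ∀ z' : ι → Bool, (∀ i ∈ W k, z' i = z i) → z' ∈ A k) : z ∈ boxF s A :=
  ⟨W, hW, h⟩

end Crest.Agent.R158.Re972
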