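import Crest.Agent.R158.Pv1_470

/-!
R158, block RF (helper266), part 1: local Schwarz reflection + Schwarz lemma (doc 1824, section 3 (ii)).

`refl_bound`: `g` bounded by `B`, continuous on the closed half disc minus the centre, holomorphic
inside, real on the real axis, `≥ 0` on the right, `≤ 0` on the left: `‖g z‖ ≤ B ‖z‖ / r`.
-/

set_option autoImplicit false
open Complex Set Metric Filter Topology Function
open scoped ComplexConjugate

namespace Crest.Agent.R158.Rf266

/-- the closed half disc of radius `r` minus its centre -/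
def Hd (r : ℝ) : Set ℂ := {z | 0 ≤ z.im ∧ z ≠ 0 ∧ ‖z‖ < r}

/-- the reflected function -/
noncomputable def rx (g : ℂ → ℂ) (z : ℂ) : ℂ := if 0 ≤ z.im then g z else conj (g (conj z))

theorem rx_up {g : ℂ → ℂ} {z : ℂ} (h : 0 ≤ z.im) : rx g z = g z := if_pos h

theorem rx_dn {g : ℂ → ℂ} {r : ℝ} (hr : ∀ z ∈ Hd r, z.im = 0 → (g z).im = 0) {z : ℂ}
    (h : z.im ≤ 0) (h0 : z ≠ 0) (h1 : ‖z‖ < r) : rx g z = conj (g (conj z)) := by
  rcases h.lt_or_eq with h | h
  · exact if_neg (not_le.2 h)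
  · have hc : conj z = z := conj_eq_iff_im.2 h
    rw [rx_up h.ge, hc]
    exact (conj_eq_iff_im.2 (hr z ⟨h.ge, h0, h1⟩ h)).symm

theorem rx_cont {g : ℂ → ℂ} {r : ℝ} (hg : ContinuousOn g (Hd r))
    (hr : ∀ z ∈ Hd r, z.im = 0 → (g z).im = 0) : ContinuousOn (rx g) (ball 0 r \ {0}) := by
  have hU : IsOpen (ball (0 : ℂ) r \ {0}) := isOpen_ball.sdiff isClosed_singleton
  intro z hz
  have hUz := hU.mem_nhds hz
  have hz0 : z ≠ 0 := hz.2
  have hz1 : ‖z‖ < r := by simpa using hz.1
  refine ContinuousAt.continuousWithinAt ?_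
  -- upper side
  have key : ∀ w : ℂ, 0 ≤ w.im → w ≠ 0 → ‖w‖ < r → ContinuousWithinAt g {x : ℂ | 0 ≤ x.im} w := by
    intro w h1 h2 h3
    have hw : ball (0 : ℂ) r \ {0} ∈ 𝓝 w := hU.mem_nhds ⟨by simpa using h3, h2⟩
    have := hg w ⟨h1, h2, h3⟩
    refine (this.mono_of_mem_nhdsWithin ?_)
    rw [mem_nhdsWithin_iff_exists_mem_nhds_inter]
    refine ⟨_, hw, ?_⟩
    rintro x ⟨hx1, hx2⟩
    exact ⟨hx2, hx1.2, by simpa using hx1.1⟩
  rw [← continuousWithinAt_univ]
  have huniv : (univ : Set ℂ) = {x : ℂ | 0 ≤ x.im} ∪ {x : ℂ | x.im ≤ 0} := by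
    ext x; simp [le_total]
  rw [huniv, continuousWithinAt_union]
  constructor
  · rcases le_or_gt 0 z.im with h | h
    · exact (key z h hz0 hz1).congr (fun x hx => rx_up hx) (rx_up h)
    · -- z not in the closure of the upper half plane
      have : {x : ℂ | x.im < 0} ∈ 𝓝 z := (isOpen_lt continuous_im continuous_const).mem_nhds h
      refine ContinuousWithinAt.mono_of_mem_nhdsWithin (t := ∅) ?_ ?_
      · simp [ContinuousWithinAt]
      · rw [mem_nhdsWithin_iff_exists_mem_nhds_inter]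
        exact ⟨_, this, fun x hx =>
          absurd (show (0 : ℝ) ≤ x.im from hx.2) (not_le.2 (show x.im < 0 from hx.1))⟩
  · rcases le_or_gt z.im 0 with h | h
    · have hc : ContinuousWithinAt (fun x => conj (g (conj x))) {x : ℂ | x.im ≤ 0} z := by
        have h1 := key (conj z) (by simpa using h) (by simpa using hz0) (by simpa using hz1)
        have h2 : ContinuousWithinAt (fun x : ℂ => g (conj x)) {x : ℂ | x.im ≤ 0} z :=
          h1.comp (s := {x : ℂ | x.im ≤ 0}) (f := fun x : ℂ => conj x) continuous_conj.continuousWithinAt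
            (fun x hx => by simpa using hx)
        exact continuous_conj.continuousAt.comp_continuousWithinAt h2
      have hU' : ball (0 : ℂ) r \ {0} ∈ 𝓝 z := hUz
      refine hc.congr_of_eventuallyEq ?_ (rx_dn hr h hz0 hz1)
      filter_upwards [self_mem_nhdsWithin, mem_nhdsWithin_of_mem_nhds hU'] with x hx hx'
      exact rx_dn hr hx hx'.2 (by simpa using hx'.1)
    · have : {x : ℂ | 0 < x.im} ∈ 𝓝 z := (isOpen_lt continuous_const continuous_im).mem_nhds h
      refine ContinuousWithinAt.mono_of_mem_nhdsWithin (t := ∅) ?_ ?_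
      · simp [ContinuousWithinAt]
      · rw [mem_nhdsWithin_iff_exists_mem_nhds_inter]
        exact ⟨_, this, fun x hx =>
          absurd (show x.im ≤ 0 from hx.2) (not_le.2 (show 0 < x.im from hx.1))⟩

theorem rx_diff {g : ℂ → ℂ} {r : ℝ} (hg : ContinuousOn g (Hd r))
    (hd : DifferentiableOn ℂ g {z | 0 < z.im ∧ ‖z‖ < r})
    (hr : ∀ z ∈ Hd r, z.im = 0 → (g z).im = 0) : DifferentiableOn ℂ (rx g) (ball 0 r \ {0}) := by
  have hU : IsOpen (ball (0 : ℂ) r \ {0}) := isOpen_ball.sdiff isClosed_singleton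
  have hV : IsOpen {z : ℂ | 0 < z.im ∧ ‖z‖ < r} :=
    (isOpen_lt continuous_const continuous_im).inter (isOpen_lt continuous_norm continuous_const)
  refine Pv470.holo_off_hor hU (rx_cont hg hr) 0 ?_
  rintro z ⟨hz, hzi⟩
  have hz1 : ‖z‖ < r := by simpa using hz.1
  refine DifferentiableAt.differentiableWithinAt ?_
  rcases lt_or_gt_of_ne (show z.im ≠ 0 from hzi) with h | h
  · have h1 : DifferentiableAt ℂ g (conj z) :=
      hd.differentiableAt (hV.mem_nhds ⟨by simpa using h, by simpa using hz1⟩)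
    have h2 : DifferentiableAt ℂ (fun x => conj (g (conj x))) z := by
      have h3 := h1.hasDerivAt.conj_conj
      rw [conj_conj] at h3
      exact h3.differentiableAt
    refine h2.congr_of_eventuallyEq ?_
    filter_upwards [(isOpen_lt continuous_im continuous_const).mem_nhds h] with x hx
    exact if_neg (not_le.2 hx)
  · have h1 : DifferentiableAt ℂ g z := hd.differentiableAt (hV.mem_nhds ⟨h, hz1⟩)
    refine h1.congr_of_eventuallyEq ?_
    filter_upwards [(isOpen_lt continuous_const continuous_im).mem_nhds h] with x hx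
    exact rx_up (le_of_lt hx)

/-- Local reflection + Schwarz lemma. -/
theorem refl_bound {g : ℂ → ℂ} {r B : ℝ} (h0r : 0 < r) (hg : ContinuousOn g (Hd r))
    (hd : DifferentiableOn ℂ g {z | 0 < z.im ∧ ‖z‖ < r})
    (hB : ∀ z ∈ Hd r, ‖g z‖ ≤ B)
    (hr : ∀ z ∈ Hd r, z.im = 0 → (g z).im = 0)
    (hpos : ∀ x : ℝ, 0 < x → x < r → 0 ≤ (g x).re)
    (hneg : ∀ x : ℝ, x < 0 → -r < x → (g x).re ≤ 0) :
    ∀ z ∈ Hd r, ‖g z‖ ≤ B * ‖z‖ / r := by
  have hD := rx_diff hg hd hr
  have hbd : ∀ z ∈ ball (0 : ℂ) r \ {0}, ‖rx g z‖ ≤ B := by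
    rintro z ⟨h1, h2⟩
    have h1' : ‖z‖ < r := by simpa using h1
    have h2' : z ≠ 0 := h2
    rcases le_total 0 z.im with h | h
    · rw [rx_up h]; exact hB z ⟨h, h2', h1'⟩
    · rw [rx_dn hr h h2' h1', norm_conj]
      exact hB _ ⟨by simpa using h, by simpa using h2', by simpa using h1'⟩
  set L := limUnder (𝓝[≠] (0 : ℂ)) (rx g) with hL
  set G := update (rx g) 0 L with hG
  have hGd : DifferentiableOn ℂ G (ball 0 r) :=
    differentiableOn_update_limUnder_of_bddAbove (ball_mem_nhds _ h0r) hD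
      ⟨B, by rintro _ ⟨z, hz, rfl⟩; exact hbd z hz⟩
  have hG0 : ContinuousAt G 0 := (hGd.continuousOn).continuousAt (ball_mem_nhds _ h0r)
  have hGne : ∀ z : ℂ, z ≠ 0 → G z = rx g z := fun z hz => update_of_ne hz _ _
  -- value at 0
  have hlim : ∀ (u : ℕ → ℝ), Tendsto u atTop (𝓝 0) →
      Tendsto (fun n => G (u n)) atTop (𝓝 (G 0)) := by
    intro u hu
    have : Tendsto (fun n => ((u n : ℝ) : ℂ)) atTop (𝓝 0) := by
      have := (continuous_ofReal.tendsto (0 : ℝ)).comp hu
      simpa [Function.comp_def] using this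
    exact (hG0.tendsto.comp this)
  have hu1 : Tendsto (fun n : ℕ => r / ((n : ℝ) + 2)) atTop (𝓝 0) := by
    have h1 : Tendsto (fun n : ℕ => (n : ℝ) + 2) atTop atTop :=
      tendsto_atTop_add_const_right _ _ tendsto_natCast_atTop_atTop
    exact h1.const_div_atTop r
  have hu2 : Tendsto (fun n : ℕ => -(r / ((n : ℝ) + 2))) atTop (𝓝 0) := by simpa using hu1.neg
  have hpp : ∀ n : ℕ, 0 < r / ((n : ℝ) + 2) := fun n => by positivity
  have hlt : ∀ n : ℕ, r / ((n : ℝ) + 2) < r := fun n => by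
    rw [div_lt_iff₀ (by positivity)]
    nlinarith [(Nat.cast_nonneg n : (0 : ℝ) ≤ n)]
  have hreal : ∀ x : ℝ, x ≠ 0 → |x| < r → G x = g x ∧ (g x).im = 0 := by
    intro x hx hxr
    have hm : (x : ℂ) ∈ Hd r := ⟨by simp, by simpa using hx, by simpa using hxr⟩
    exact ⟨by rw [hGne _ (by simpa using hx), rx_up (by simp)], hr _ hm (by simp)⟩
  have hG0' : G 0 = 0 := by
    have e1 := hlim _ hu1
    have e2 := hlim _ hu2
    have hre1 : 0 ≤ (G 0).re := by
      refine ge_of_tendsto' ((continuous_re.tendsto _).comp e1) fun n => ?_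
      have h1 := hreal (r / ((n : ℝ) + 2)) (hpp n).ne' (by rw [abs_of_pos (hpp n)]; exact hlt n)
      simp only [Function.comp]
      rw [h1.1]
      exact hpos _ (hpp n) (hlt n)
    have hre2 : (G 0).re ≤ 0 := by
      refine le_of_tendsto' ((continuous_re.tendsto _).comp e2) fun n => ?_
      have h1 := hreal (-(r / ((n : ℝ) + 2))) (neg_ne_zero.2 (hpp n).ne')
        (by rw [abs_neg, abs_of_pos (hpp n)]; exact hlt n)
      simp only [Function.comp]
      rw [h1.1]
      exact hneg _ (neg_lt_zero.2 (hpp n)) (by linarith [hlt n])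
    have him : (G 0).im = 0 := by
      refine tendsto_nhds_unique ((continuous_im.tendsto _).comp e1) ?_
      refine tendsto_const_nhds.congr fun n => ?_
      have h1 := hreal (r / ((n : ℝ) + 2)) (hpp n).ne' (by rw [abs_of_pos (hpp n)]; exact hlt n)
      simp only [Function.comp]
      rw [h1.1, h1.2]
    exact Complex.ext (le_antisymm hre2 hre1) him
  have hmaps : MapsTo G (ball 0 r) (closedBall (G 0) B) := by
    intro z hz
    rw [hG0', mem_closedBall_zero_iff]
    rcases eq_or_ne z 0 with rfl | h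
    · rw [hG0', norm_zero]
      have hm : ((r / 2 : ℝ) : ℂ) ∈ Hd r := ⟨by simp, by simpa using h0r.ne', by
        rw [norm_real, Real.norm_eq_abs, abs_of_pos (by positivity)]; linarith⟩
      exact (norm_nonneg _).trans (hB _ hm)
    · rw [hGne z h]; exact hbd z ⟨hz, h⟩
  intro z hz
  have h1 := dist_le_div_mul_dist_of_mapsTo_ball hGd hmaps (z := z) (by simpa using hz.2.2)
  rw [hG0', dist_zero_right, dist_zero_right, hGne z hz.2.1, rx_up hz.1] at h1
  calc ‖g z‖ ≤ B / r * ‖z‖ := h1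
    _ = B * ‖z‖ / r := by ring

end Crest.Agent.R158.Rf266
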