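import Crest.Agent.R158.Ao7_857
import Crest.Agent.R158.Nz2_399
import Crest.Agent.R158.Cs1_410

/-!
# Row 158: reflection top-bottom (helper896), file 1

`OutZ` of the upper part is `InZ` of the reflected domain (arrows of the crosscut reversed); the
same after any number of ring rows; phases may be negated (norms are unchanged).

* `rz`, `rt`, `rp` : reflection of tiles of the plane, of `G`, of ports (`N ↔ S`)
* `rA`, `rB` : reflected tile set, reflected band (strip width `R + 1`)
* `That_refl`, `OutZ_rf`, `out_rows`, `nrm_out`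
* `ngL`, `opL_ng`, `InZ_ng`, `nrm_in_ng`
-/

set_option autoImplicit false

noncomputable section

open Finset Matrix

namespace Crest.Agent.R158.Rf896

open Crest.Agent.R158.Ad350
open Crest.Agent.R158.Ao857
open Crest.Agent.R158.Sw300 (Port)
open Crest.Agent.R158.Bd932 (That)
open Crest.Agent.R158.Env664 (TG Band Run)

/-! ### the maps -/

/-- reflection of the tiles of the plane -/
def rz (t : ℤ × ℤ) : ℤ × ℤ := (t.1, -t.2 - 1)

@[simp] theorem rz_rz (t : ℤ × ℤ) : rz (rz t) = t := by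
  unfold rz; ext <;> simp

theorem rz_inj : Function.Injective rz := fun s t h => by rw [← rz_rz s, h, rz_rz]

/-- reflection as an embedding -/
def rzE : (ℤ × ℤ) ↪ (ℤ × ℤ) := ⟨rz, rz_inj⟩

/-- reflected set of tiles -/
def rA (A : Finset (ℤ × ℤ)) : Finset (ℤ × ℤ) := A.map rzE

theorem mem_rA {A : Finset (ℤ × ℤ)} {t : ℤ × ℤ} : t ∈ rA A ↔ rz t ∈ A := by
  unfold rA
  rw [Finset.mem_map]
  constructor
  · rintro ⟨s, hs, rfl⟩
    show rz (rz s) ∈ A
    rwa [rz_rz]
  · intro h
    exact ⟨rz t, h, rz_rz t⟩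

theorem mem_rA' {A : Finset (ℤ × ℤ)} {x y : ℤ} : (x, y) ∈ rA A ↔ (x, -y - 1) ∈ A := mem_rA

theorem rA_rA (A : Finset (ℤ × ℤ)) : rA (rA A) = A := by
  ext t
  rw [mem_rA, mem_rA, rz_rz]

/-- reflection of the tiles of `G` -/
def rt : TG → TG := Sum.map rz rz

@[simp] theorem rt_inl (t : ℤ × ℤ) : rt (Sum.inl t) = Sum.inl (rz t) := rfl
@[simp] theorem rt_inr (t : ℤ × ℤ) : rt (Sum.inr t) = Sum.inr (rz t) := rfl
@[simp] theorem rt_rt (t : TG) : rt (rt t) = t := by
  rcases t with t | t <;> simp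

theorem rt_inj : Function.Injective rt := fun s t h => by rw [← rt_rt s, h, rt_rt]

/-- reflection of the ports of `G` : `N ↔ S` -/
def rp : Port TG → Port TG := Option.map fun y => (rt y.1, -y.2)

@[simp] theorem rp_none : rp none = none := rfl
@[simp] theorem rp_some (t : TG) (d : ZMod 4) : rp (some (t, d)) = some (rt t, -d) := rfl

@[simp] theorem rp_rp (q : Port TG) : rp (rp q) = q := by
  rcases q with _ | ⟨t, d⟩
  · rfl
  · simp

theorem rp_comp : rp ∘ rp = id := funext rp_rp

theorem rp_inj : Function.Injective rp := fun s t h => by rw [← rp_rp s, h, rp_rp]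

variable {A : Finset (ℤ × ℤ)}

theorem run_rA {xl xr y : ℤ} (h : Run A xl xr y) : Run (rA A) xl xr (-y - 1) := by
  refine ⟨h.le, fun x h1 h2 => ?_, ?_, ?_⟩
  · rw [mem_rA']
    have := h.mem x h1 h2
    rwa [show -(-y - 1) - 1 = y by ring]
  · rw [mem_rA', show -(-y - 1) - 1 = y by ring]
    exact h.left
  · rw [mem_rA', show -(-y - 1) - 1 = y by ring]
    exact h.right

/-- reflected band: the strip of the reflected band has the width of the upper part of the strip -/
def rB (B : Band A) : Band (rA A) where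
  xl := B.xl
  xr := B.xr
  y1 := -B.y2
  y2 := -B.y1
  R := B.R + 1
  hR := by have := B.hR; omega
  run := fun y h1 h2 => by
    have := run_rA (B.run (-y - 1) (by omega) (by omega))
    rwa [show -(-y - 1) - 1 = y by ring] at this

variable (B : Band A)

@[simp] theorem rB_xl : (rB B).xl = B.xl := rfl
@[simp] theorem rB_xr : (rB B).xr = B.xr := rfl
@[simp] theorem rB_y1 : (rB B).y1 = -B.y2 := rfl
@[simp] theorem rB_y2 : (rB B).y2 = -B.y1 := rfl
@[simp] theorem rB_R : (rB B).R = B.R + 1 := rfl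

theorem gI_rf (i : ℕ) (y : ℤ) : gI (rB B) i (-y - 1) = rt (gI B i y) := by
  by_cases h : (i : ℤ) ≤ B.xr - B.xl
  · rw [gI_le B h, gI_le (rB B) h]
    rfl
  · rw [gI_gt B h, gI_gt (rB B) h]
    rfl

/-- width of the reflected ring -/
theorem nn_rB (h : B.xl ≤ B.xr) : nn (rB B) + 1 = nn B + 2 := by
  have := B.hR
  unfold nn
  simp only [rB_xl, rB_xr, rB_R]
  omega

/-! ### the tiles -/

theorem tilesF_rf (C : Finset (ℤ × ℤ)) (σ : Port TG → Bool) :
    tilesF ((rA C).map inlE) σ = tilesF (C.map inlE) (σ ∘ rp) := by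
  unfold tilesF rA
  rw [Finset.prod_map, Finset.prod_map, Finset.prod_map]
  refine Finset.prod_congr rfl fun t _ => ?_
  rw [← Nz399.w6_neg]
  rfl

/-- renamed and reflected operations -/
theorem opL_rf (l : List (Op (Port TG))) (C : Finset (ℤ × ℤ)) (σ : Port TG → Bool) :
    opL (l.map (Op.ren rp)) (tilesF ((rA C).map inlE)) σ = opL l (tilesF (C.map inlE)) (σ ∘ rp) := by
  have h1 : tilesF ((rA C).map inlE) = fun σ => tilesF (C.map inlE) (σ ∘ rp) :=
    funext fun σ => tilesF_rf C σ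
  rw [h1, opL_ren rp_inj]

theorem ovr_comp {m : ℕ} {P Q : Type*} [DecidableEq P] [DecidableEq Q] (f : P → Q) (hf : Function.Injective f) (v : Fin m → P)
    (τ : Fin m → Bool) (σ : Q → Bool) : ovr (fun i => f (v i)) τ σ ∘ f = ovr v τ (σ ∘ f) := by
  funext q
  simp only [Function.comp]
  unfold ovr
  by_cases h : ∃ i, v i = q
  · have h' : ∃ i, f (v i) = f q := by
      obtain ⟨i, hi⟩ := h
      exact ⟨i, by rw [hi]⟩
    rw [dif_pos h, dif_pos h']
    have e : (fun i => f (v i) = f q) = fun i => v i = q :=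
      funext fun i => propext hf.eq_iff
    congr 1
    have : ∀ (p p' : Fin m → Prop) (hp : ∃ i, p i) (hp' : ∃ i, p' i), p = p' →
        hp.choose = hp'.choose := by
      intro p p' hp hp' e
      subst e
      rfl
    exact this _ _ _ _ e
  · have h' : ¬ ∃ i, f (v i) = f q := by
      rintro ⟨i, hi⟩
      exact h ⟨i, hf hi⟩
    rw [dif_neg h, dif_neg h']
    rfl

/-! ### vectors of one size -/

/-- pull back along an equality of widths, all arrows reversed -/
def flip {m m' : ℕ} (h : m' = m) (V : (Fin m → Bool) → ℂ) (t : Fin m' → Bool) : ℂ :=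
  V fun i => !t (Fin.cast h.symm i)

theorem flip_bij {m m' : ℕ} (h : m' = m) :
    Function.Bijective fun (t : Fin m' → Bool) (i : Fin m) => !t (Fin.cast h.symm i) := by
  subst h
  constructor
  · intro a b hab
    funext i
    have := congrFun hab i
    simpa using this
  · intro s
    exact ⟨fun i => !s i, by funext i; simp⟩

theorem nrm_flip {m m' : ℕ} (h : m' = m) (V : (Fin m → Bool) → ℂ) :
    Cs410.nrm (flip h V) = Cs410.nrm V := by
  unfold Cs410.nrm
  rw [EuclideanSpace.norm_eq, EuclideanSpace.norm_eq]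
  congr 1
  exact (flip_bij h).sum_comp fun s => ‖V s‖ ^ 2

theorem sum_flip {m m' : ℕ} (h : m' = m) (V : (Fin m → Bool) → ℂ) :
    ∑ t, ‖flip h V t‖ ^ 2 = ∑ s, ‖V s‖ ^ 2 := (flip_bij h).sum_comp fun s => ‖V s‖ ^ 2

/-- the twisted row is invariant under the reflection -/
theorem That_refl (m : ℕ) (c : ℝ) (s s' : Fin (m + 1) → Bool) :
    That (m + 1) c (1 / 2) s s' = That (m + 1) c (1 / 2) (fun i => !s' i) fun i => !s i := by
  rw [That_ring, That_ring]
  refine Finset.sum_congr rfl fun τ _ => ?_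
  congr 1
  refine Finset.prod_congr rfl fun j _ => ?_
  unfold Crest.Agent.R158.Op857.v6 Crest.Agent.R150.Base357.wt
  cases s j <;> cases s' j <;> cases τ j <;> cases τ (j + 1) <;> simp

/-- a row vector through ring rows = a column vector through ring rows, reflected -/
theorem flip_row {m m' : ℕ} (h : m' = m + 1) (c : ℝ) (V : (Fin (m + 1) → Bool) → ℂ) :
    flip h (V ᵥ* That (m + 1) c (1 / 2)) = That m' c (1 / 2) *ᵥ flip h V := by
  subst h
  funext t
  unfold flip
  simp only [Fin.cast_eq_self]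
  rw [Matrix.vecMul, Matrix.mulVec, dotProduct, dotProduct]
  refine (flip_bij (rfl : m + 1 = m + 1)).sum_comp _ |>.symm.trans ?_
  refine Finset.sum_congr rfl fun s _ => ?_
  simp only [Fin.cast_eq_self]
  rw [That_refl]
  simp only [Bool.not_not]
  ring

theorem flip_rows {m m' : ℕ} (h : m' = m + 1) (c : ℝ) (V : (Fin (m + 1) → Bool) → ℂ) (b : ℕ) :
    flip h (V ᵥ* That (m + 1) c (1 / 2) ^ b) = That m' c (1 / 2) ^ b *ᵥ flip h V := by
  induction b with
  | zero => simp
  | succ b ih =>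
    rw [pow_succ, ← Matrix.vecMul_vecMul, flip_row, ih, pow_succ', Matrix.mulVec_mulVec]

/-! ### the upper covector -/

theorem prod_cast {m m' : ℕ} (h : m' = m) (f : Fin m → ℂ) :
    ∏ i : Fin m', f (Fin.cast h i) = ∏ i, f i := by
  subst h; rfl

theorem ovr_cast {P : Type*} [DecidableEq P] {m m' : ℕ} (h : m' = m) (v : Fin m → P) (τ : Fin m → Bool)
    (σ : P → Bool) : ovr (fun i : Fin m' => v (Fin.cast h i)) (fun i => τ (Fin.cast h i)) σ =
      ovr v τ σ := by
  subst h; rfl

/-- **`OutZ` is `InZ` of the reflected domain** -/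
theorem OutZ_rf (hx : B.xl ≤ B.xr) (Au : Finset (ℤ × ℤ)) (φ : Port TG → ℝ)
    (Lu : List (Op (Port TG))) (σ : Port TG → Bool) :
    flip (nn_rB B hx) (OutZ B Au φ Lu σ) =
      InZ (rB B) (rA Au) (fun q => φ (rp q)) (Lu.map (Op.ren rp)) fun q => σ (rp q) := by
  have hn := nn_rB B hx
  funext t
  unfold flip OutZ InZ OutV InV
  have hD : ∀ i : Fin (nn (rB B) + 1), Dl (rB B) (rA Au) i ↔ Du B Au (Fin.cast hn i) := by
    intro i
    unfold Dl Du
    rw [mem_rA']
    simp only [rB_xl, rB_xr, rB_y1, Fin.val_cast]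
    rw [show -(-B.y2 - 1) - 1 = B.y2 by ring]
  have hu : ∀ i : Fin (nn (rB B) + 1), rp (uP (rB B) i) = wP B (Fin.cast hn i) := by
    intro i
    unfold uP wP
    rw [rp_some]
    simp only [rB_y1, Fin.val_cast]
    have h1 : gI (rB B) (i : ℕ) (-B.y2) = rt (gI B i (B.y2 - 1)) := by
      rw [← gI_rf]
      congr 1
      ring
    rw [h1, rt_rt]
    rfl
  have hxv : ∀ i : Fin (nn (rB B) + 1), xP (rB B) i = rp (vP B (Fin.cast hn i)) := by
    intro i
    unfold xP vP
    rw [rp_some]
    simp only [rB_y1, Fin.val_cast]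
    have h1 : gI (rB B) (i : ℕ) (-B.y2 - 1) = rt (gI B i B.y2) := gI_rf B _ _
    rw [h1]
    rfl
  congr 1
  · rw [← prod_cast hn]
    refine Finset.prod_congr rfl fun i _ => ?_
    simp only [hu]
    by_cases h : Dl (rB B) (rA Au) i
    · rw [if_pos h, if_pos ((hD i).1 h)]
    · rw [if_neg h, if_neg (fun h' => h ((hD i).2 h'))]
      rfl
  · rw [opL_rf]
    congr 1
    have e1 : (xP (rB B) : Fin (nn (rB B) + 1) → Port TG) =
        fun i => rp (vP B (Fin.cast hn i)) := funext hxv
    rw [e1]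
    have e2 := ovr_comp rp rp_inj (fun i : Fin (nn (rB B) + 1) => vP B (Fin.cast hn i)) t
      (fun q => σ (rp q))
    rw [e2]
    have e3 : (fun q => σ (rp q)) ∘ rp = σ := by
      funext q
      simp only [Function.comp, rp_rp]
    rw [e3]
    have e5 := ovr_cast hn (vP B) (fun j : Fin (nn B + 2) => t (Fin.cast hn.symm j)) σ
    have e6 : (fun i : Fin (nn (rB B) + 1) => (fun j : Fin (nn B + 2) =>
        t (Fin.cast hn.symm j)) (Fin.cast hn i)) = t := by
      funext i
      simp
    rw [e6] at e5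
    rw [e5]
    simp only [Bool.not_not]

/-- the same after `b` ring rows -/
theorem out_rows (hx : B.xl ≤ B.xr) (Au : Finset (ℤ × ℤ)) (φ : Port TG → ℝ)
    (Lu : List (Op (Port TG))) (σ : Port TG → Bool) (c : ℝ) (b : ℕ) :
    flip (nn_rB B hx) (OutZ B Au φ Lu σ ᵥ* That (nn B + 2) c (1 / 2) ^ b) =
      That (nn (rB B) + 1) c (1 / 2) ^ b *ᵥ
        InZ (rB B) (rA Au) (fun q => φ (rp q)) (Lu.map (Op.ren rp)) fun q => σ (rp q) := by
  rw [flip_rows (nn_rB B hx), OutZ_rf B hx]

/-- norm of the upper covector after `b` rows = norm of the lower vector of the reflected domain -/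
theorem nrm_out (hx : B.xl ≤ B.xr) (Au : Finset (ℤ × ℤ)) (φ : Port TG → ℝ)
    (Lu : List (Op (Port TG))) (σ : Port TG → Bool) (c : ℝ) (b : ℕ) :
    Cs410.nrm (OutZ B Au φ Lu σ ᵥ* That (nn B + 2) c (1 / 2) ^ b) =
      Cs410.nrm (That (nn (rB B) + 1) c (1 / 2) ^ b *ᵥ
        InZ (rB B) (rA Au) (fun q => φ (rp q)) (Lu.map (Op.ren rp)) fun q => σ (rp q)) := by
  rw [← out_rows B hx, nrm_flip]

end Crest.Agent.R158.Rf896
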