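import Crest.Agent.R158.Rf1_266

/-!
R158, block RF (helper266), part 2 (doc 1824, section 3 (ii), (iii)).

* `cube_bound`: `f` bounded by `B` on the punctured half disc, holomorphic inside, `f^3 ≥ 0` on the
  right, `f^3 ≤ 0` on the left: `‖f z‖ ≤ B (‖z‖ / r)^(1/3)`.
* `cube_bound_ray`, `cube_bound_ray'`: boundary values in `R₊` / `e^{∓iπ/3} R₊`,
  holomorphic / antiholomorphic form.
* `power_of_limsup`: abstract scaling lemma (one scale bound ⟹ power law for all scales).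
-/

set_option autoImplicit false
open Complex Set Metric Filter Topology Function
open scoped ComplexConjugate

namespace Crest.Agent.R158.Rf266

theorem cube_bound {f : ℂ → ℂ} {r B : ℝ} (h0r : 0 < r) (hf : ContinuousOn f (Hd r))
    (hd : DifferentiableOn ℂ f {z | 0 < z.im ∧ ‖z‖ < r})
    (hB : ∀ z ∈ Hd r, ‖f z‖ ≤ B)
    (hpos : ∀ x : ℝ, 0 < x → x < r → (f x ^ 3).im = 0 ∧ 0 ≤ (f x ^ 3).re)
    (hneg : ∀ x : ℝ, x < 0 → -r < x → (f x ^ 3).im = 0 ∧ (f x ^ 3).re ≤ 0) :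
    ∀ z ∈ Hd r, ‖f z‖ ≤ B * (‖z‖ / r) ^ (1 / 3 : ℝ) := by
  have hB0 : 0 ≤ B := by
    have hm : ((r / 2 : ℝ) : ℂ) ∈ Hd r := ⟨by simp, by simpa using h0r.ne', by
      rw [norm_real, Real.norm_eq_abs, abs_of_pos (by positivity)]; linarith⟩
    exact (norm_nonneg _).trans (hB _ hm)
  have key := refl_bound (g := fun z => f z ^ 3) (B := B ^ 3) h0r (hf.pow 3) (hd.pow 3)
    (fun z hz => by rw [norm_pow]; exact pow_le_pow_left₀ (norm_nonneg _) (hB z hz) 3)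
    (fun z hz h0 => by
      have hzr : z = ((z.re : ℝ) : ℂ) := by apply Complex.ext <;> simp [h0]
      have hne : z.re ≠ 0 := by
        intro h; apply hz.2.1; rw [hzr, h]; simp
      have hlt : |z.re| < r := by
        have := hz.2.2
        rw [hzr, norm_real, Real.norm_eq_abs] at this
        exact this
      rw [abs_lt] at hlt
      show (f z ^ 3).im = 0
      rw [hzr]
      rcases lt_or_gt_of_ne hne with h | h
      · exact (hneg _ h hlt.1).1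
      · exact (hpos _ h hlt.2).1)
    (fun x h1 h2 => (hpos x h1 h2).2) (fun x h1 h2 => (hneg x h1 h2).2)
  intro z hz
  have h1 : ‖f z‖ ^ 3 ≤ B ^ 3 * ‖z‖ / r := by simpa [norm_pow] using key z hz
  have hq : 0 ≤ ‖z‖ / r := div_nonneg (norm_nonneg _) h0r.le
  have h2 : (B * (‖z‖ / r) ^ (1 / 3 : ℝ)) ^ 3 = B ^ 3 * ‖z‖ / r := by
    rw [mul_pow, ← Real.rpow_natCast ((‖z‖ / r) ^ (1 / 3 : ℝ)) 3, ← Real.rpow_mul hq]
    norm_num
    ring
  have h3 : 0 ≤ B * (‖z‖ / r) ^ (1 / 3 : ℝ) := mul_nonneg hB0 (Real.rpow_nonneg hq _)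
  exact le_of_pow_le_pow_left₀ (by norm_num : (3 : ℕ) ≠ 0) h3 (h1.trans h2.ge)

theorem ray_pos {t : ℝ} (ht : 0 ≤ t) : (((t : ℂ)) ^ 3).im = 0 ∧ 0 ≤ (((t : ℂ)) ^ 3).re := by
  rw [← ofReal_pow]
  exact ⟨ofReal_im _, by rw [ofReal_re]; positivity⟩

theorem exp_cube {s : ℝ} (hs : s = 1 ∨ s = -1) : (exp ((s * (Real.pi / 3) : ℝ) * I)) ^ 3 = -1 := by
  rw [← exp_nat_mul]
  rcases hs with rfl | rfl
  · have : ((3 : ℕ) : ℂ) * (((1 * (Real.pi / 3) : ℝ) : ℂ) * I) = Real.pi * I := by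
      push_cast; ring
    rw [this, exp_pi_mul_I]
  · have : ((3 : ℕ) : ℂ) * (((-1 * (Real.pi / 3) : ℝ) : ℂ) * I) = -(Real.pi * I) := by
      push_cast; ring
    rw [this, exp_neg, exp_pi_mul_I]; norm_num

theorem ray_neg {t s : ℝ} (ht : 0 ≤ t) (hs : s = 1 ∨ s = -1) :
    ((t * exp ((s * (Real.pi / 3) : ℝ) * I)) ^ 3).im = 0 ∧
      ((t * exp ((s * (Real.pi / 3) : ℝ) * I)) ^ 3).re ≤ 0 := by
  rw [mul_pow, exp_cube hs, ← ofReal_pow]
  have : ((t ^ 3 : ℝ) : ℂ) * -1 = ((-(t ^ 3) : ℝ) : ℂ) := by push_cast; ring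
  rw [this]
  exact ⟨ofReal_im _, by rw [ofReal_re]; have := pow_nonneg ht 3; linarith⟩

/-- holomorphic form: values in `R₊` on the right and in `e^{s iπ/3} R₊` on the left, `s = ±1`. -/
theorem cube_bound_ray {f : ℂ → ℂ} {r B s : ℝ} (hs : s = 1 ∨ s = -1) (h0r : 0 < r)
    (hf : ContinuousOn f (Hd r)) (hd : DifferentiableOn ℂ f {z | 0 < z.im ∧ ‖z‖ < r})
    (hB : ∀ z ∈ Hd r, ‖f z‖ ≤ B)
    (hpos : ∀ x : ℝ, 0 < x → x < r → ∃ t : ℝ, 0 ≤ t ∧ f x = t)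
    (hneg : ∀ x : ℝ, x < 0 → -r < x →
      ∃ t : ℝ, 0 ≤ t ∧ f x = t * exp ((s * (Real.pi / 3) : ℝ) * I)) :
    ∀ z ∈ Hd r, ‖f z‖ ≤ B * (‖z‖ / r) ^ (1 / 3 : ℝ) := by
  refine cube_bound h0r hf hd hB ?_ ?_
  · intro x h1 h2
    obtain ⟨t, ht, he⟩ := hpos x h1 h2
    rw [he]; exact ray_pos ht
  · intro x h1 h2
    obtain ⟨t, ht, he⟩ := hneg x h1 h2
    rw [he]; exact ray_neg ht hs

/-- antiholomorphic form. -/
theorem cube_bound_ray' {f : ℂ → ℂ} {r B s : ℝ} (hs : s = 1 ∨ s = -1) (h0r : 0 < r)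
    (hf : ContinuousOn f (Hd r))
    (hd : DifferentiableOn ℂ (fun z => conj (f z)) {z | 0 < z.im ∧ ‖z‖ < r})
    (hB : ∀ z ∈ Hd r, ‖f z‖ ≤ B)
    (hpos : ∀ x : ℝ, 0 < x → x < r → ∃ t : ℝ, 0 ≤ t ∧ f x = t)
    (hneg : ∀ x : ℝ, x < 0 → -r < x →
      ∃ t : ℝ, 0 ≤ t ∧ f x = t * exp ((s * (Real.pi / 3) : ℝ) * I)) :
    ∀ z ∈ Hd r, ‖f z‖ ≤ B * (‖z‖ / r) ^ (1 / 3 : ℝ) := by
  have h := cube_bound_ray (f := fun z => conj (f z)) (B := B) (s := -s)
    (by rcases hs with rfl | rfl <;> simp) h0r (continuous_conj.comp_continuousOn hf) hd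
    (fun z hz => by rw [norm_conj]; exact hB z hz)
    (fun x h1 h2 => by
      obtain ⟨t, ht, he⟩ := hpos x h1 h2
      exact ⟨t, ht, by simp only [he, conj_ofReal]⟩)
    (fun x h1 h2 => by
      obtain ⟨t, ht, he⟩ := hneg x h1 h2
      refine ⟨t, ht, ?_⟩
      simp only [he, map_mul, conj_ofReal, ← exp_conj, conj_I]
      congr 2
      push_cast; ring)
  intro z hz
  have := h z hz
  rwa [norm_conj] at this

/-- The same around an arbitrary boundary point `x₁` of the upper half plane (`f` shifted). -/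
theorem cube_bound_at {f : ℂ → ℂ} {x₁ r B s : ℝ} (hs : s = 1 ∨ s = -1) (h0r : 0 < r)
    (hf : ContinuousOn f {z | 0 ≤ z.im ∧ z ≠ x₁ ∧ ‖z - x₁‖ < r})
    (hd : DifferentiableOn ℂ (fun z => conj (f z)) {z | 0 < z.im ∧ ‖z - x₁‖ < r})
    (hB : ∀ z : ℂ, 0 ≤ z.im → z ≠ x₁ → ‖z - x₁‖ < r → ‖f z‖ ≤ B)
    (hpos : ∀ x : ℝ, x₁ < x → x < x₁ + r → ∃ t : ℝ, 0 ≤ t ∧ f x = t)
    (hneg : ∀ x : ℝ, x < x₁ → x₁ - r < x →
      ∃ t : ℝ, 0 ≤ t ∧ f x = t * exp ((s * (Real.pi / 3) : ℝ) * I)) :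
    ∀ z : ℂ, 0 ≤ z.im → z ≠ x₁ → ‖z - x₁‖ < r → ‖f z‖ ≤ B * (‖z - x₁‖ / r) ^ (1 / 3 : ℝ) := by
  have hmap : ∀ z ∈ Hd r, 0 ≤ (z + x₁).im ∧ z + x₁ ≠ x₁ ∧ ‖z + x₁ - x₁‖ < r := by
    intro z hz
    refine ⟨by simpa using hz.1, by simpa using hz.2.1, by simpa using hz.2.2⟩
  have h := cube_bound_ray' (f := fun z => f (z + x₁)) (B := B) (s := s) hs h0r
    (hf.comp ((continuous_id.add continuous_const).continuousOn) hmap)
    (by
      refine hd.comp (g := fun z => conj (f z)) (f := fun z : ℂ => z + x₁)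
        (differentiable_id.add_const _).differentiableOn ?_
      intro z hz
      exact ⟨by simpa using hz.1, by simpa using hz.2⟩)
    (fun z hz => hB _ (hmap z hz).1 (hmap z hz).2.1 (hmap z hz).2.2)
    (fun x h1 h2 => by
      obtain ⟨t, ht, he⟩ := hpos (x + x₁) (by linarith) (by linarith)
      exact ⟨t, ht, by rw [← he]; push_cast; rfl⟩)
    (fun x h1 h2 => by
      obtain ⟨t, ht, he⟩ := hneg (x + x₁) (by linarith) (by linarith)
      exact ⟨t, ht, by rw [← he]; push_cast; rfl⟩)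
  intro z h1 h2 h3
  have hz : z - x₁ ∈ Hd r := ⟨by simpa using h1, sub_ne_zero.2 h2, h3⟩
  simpa using h (z - x₁) hz

/-- One-scale bounds with a uniform constant give the power law at all scales. -/
theorem power_of_limsup {P : ℕ → ℕ → ℝ} (h0 : ∀ a c, 0 ≤ P a c) (h1 : ∀ a c, P a c ≤ 1)
    (hsub : ∀ a b b' c, 1 ≤ a → a ≤ b → b ≤ b' → b' ≤ c → P a c ≤ P a b * P b' c)
    {α C : ℝ} (hC : ∀ K : ℕ, 2 ≤ K → ∀ᶠ m : ℕ in atTop, P m (K * m) ≤ C * (K : ℝ) ^ (-α)) :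
    ∀ ε > 0, ∃ C' > 0, ∀ m n : ℕ, 1 ≤ m → m ≤ n → P m n ≤ C' * ((m : ℝ) / n) ^ (α - ε) := by
  intro ε hε
  rcases le_or_gt (α - ε) 0 with hβ | hβ
  · refine ⟨1, one_pos, fun m n hm hmn => ?_⟩
    have hm0 : (0 : ℝ) < m := by exact_mod_cast hm
    have hn0 : (0 : ℝ) < n := by exact_mod_cast hm.trans hmn
    have hq1 : (m : ℝ) / n ≤ 1 := (div_le_one hn0).2 (by exact_mod_cast hmn)
    have hq0 : 0 < (m : ℝ) / n := by positivity
    have := Real.one_le_rpow_of_pos_of_le_one_of_nonpos hq0 hq1 hβ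
    linarith [h1 m n]
  -- choose K with C ≤ K^ε
  have hK : ∀ᶠ K : ℕ in atTop, C ≤ (K : ℝ) ^ ε :=
    ((tendsto_rpow_atTop hε).comp tendsto_natCast_atTop_atTop).eventually_ge_atTop C
  obtain ⟨K, hKC, hK2⟩ := (hK.and (eventually_ge_atTop 2)).exists
  have hK0 : (0 : ℝ) < K := by exact_mod_cast (lt_of_lt_of_le (by norm_num) hK2)
  have hK1 : (1 : ℝ) < K := by exact_mod_cast (lt_of_lt_of_le (by norm_num) hK2)
  obtain ⟨m₀, hm₀⟩ := eventually_atTop.1 (hC K hK2)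
  have hstep : ∀ m, m₀ ≤ m → P m (K * m) ≤ (K : ℝ) ^ (-(α - ε)) := by
    intro m hm
    refine (hm₀ m hm).trans ?_
    have : (K : ℝ) ^ (-(α - ε)) = (K : ℝ) ^ ε * (K : ℝ) ^ (-α) := by
      rw [← Real.rpow_add hK0]; congr 1; ring
    rw [this]
    exact mul_le_mul_of_nonneg_right hKC (Real.rpow_nonneg hK0.le _)
  have hpow : ∀ (j m : ℕ), 1 ≤ m → m₀ ≤ m → P m (K ^ j * m) ≤ ((K : ℝ) ^ (-(α - ε))) ^ j := by
    intro j
    induction j with
    | zero => intro m _ _; simpa using h1 m m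
    | succ j ih =>
      intro m hm hmm
      have hKm : m ≤ K * m := Nat.le_mul_of_pos_left _ (by omega)
      have h2 : K * m ≤ K ^ j * (K * m) := Nat.le_mul_of_pos_left _ (pow_pos (by omega) _)
      have h3 := hsub m (K * m) (K * m) (K ^ j * (K * m)) hm hKm le_rfl h2
      have h4 := ih (K * m) (hm.trans hKm) (hmm.trans hKm)
      have h5 : K ^ (j + 1) * m = K ^ j * (K * m) := by ring
      rw [h5]
      calc _ ≤ P m (K * m) * P (K * m) (K ^ j * (K * m)) := h3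
        _ ≤ (K : ℝ) ^ (-(α - ε)) * ((K : ℝ) ^ (-(α - ε))) ^ j :=
            mul_le_mul (hstep m hmm) h4 (h0 _ _) (Real.rpow_nonneg hK0.le _)
        _ = ((K : ℝ) ^ (-(α - ε))) ^ (j + 1) := by ring
  have hmain : ∀ m n : ℕ, 1 ≤ m → m₀ ≤ m → m ≤ n →
      P m n ≤ (K : ℝ) ^ (α - ε) * ((m : ℝ) / n) ^ (α - ε) := by
    intro m n hm hmm hmn
    -- j = Nat.log K (n / m)
    set j := Nat.log K (n / m) with hj
    have hnm : n / m ≠ 0 := (Nat.div_pos hmn hm).ne'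
    have hj1 : K ^ j ≤ n / m := Nat.pow_log_le_self K hnm
    have hj1' : K ^ j * m ≤ n := (Nat.le_div_iff_mul_le hm).1 hj1
    have hj2 : n / m < K ^ (j + 1) := Nat.lt_pow_succ_log_self (by omega) _
    have hj2' : n < K ^ (j + 1) * m := (Nat.div_lt_iff_lt_mul hm).1 hj2
    have hm0 : (0 : ℝ) < m := by exact_mod_cast hm
    have hn0 : (0 : ℝ) < n := by exact_mod_cast hm.trans hmn
    have h2 : m ≤ K ^ j * m := Nat.le_mul_of_pos_left _ (pow_pos (by omega) _)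
    have h3 := hsub m (K ^ j * m) (K ^ j * m) n hm h2 le_rfl hj1'
    have h4 : P m n ≤ ((K : ℝ) ^ (-(α - ε))) ^ j := by
      refine h3.trans ((mul_le_of_le_one_right (h0 _ _) (h1 _ _)).trans (hpow j m hm hmm))
    refine h4.trans ?_
    have h5 : (((K : ℝ)) ^ (j + 1))⁻¹ ≤ (m : ℝ) / n := by
      rw [inv_le_comm₀ (by positivity) (by positivity), inv_div, div_le_iff₀ hm0]
      exact_mod_cast hj2'.le
    have h6 : ((K : ℝ) ^ (-(α - ε))) ^ j = (K : ℝ) ^ (α - ε) * ((((K : ℝ)) ^ (j + 1))⁻¹) ^ (α - ε) := by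
      rw [← Real.rpow_natCast, ← Real.rpow_natCast, ← Real.rpow_mul hK0.le,
        ← Real.rpow_neg hK0.le, ← Real.rpow_mul hK0.le, ← Real.rpow_add hK0]
      congr 1
      push_cast
      ring
    rw [h6]
    exact mul_le_mul_of_nonneg_left (Real.rpow_le_rpow (by positivity) h5 hβ.le)
      (Real.rpow_nonneg hK0.le _)
  -- small m
  set M := max m₀ 1 with hM
  have hM1 : 1 ≤ M := le_max_right _ _
  have hMm : m₀ ≤ M := le_max_left _ _
  have hM0 : (0 : ℝ) < M := by exact_mod_cast hM1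
  refine ⟨(K : ℝ) ^ (α - ε) * (M : ℝ) ^ (α - ε), by positivity, fun m n hm hmn => ?_⟩
  have hm0 : (0 : ℝ) < m := by exact_mod_cast hm
  have hn0 : (0 : ℝ) < n := by exact_mod_cast hm.trans hmn
  have hKb : 1 ≤ (K : ℝ) ^ (α - ε) := Real.one_le_rpow hK1.le hβ.le
  have hMb : 1 ≤ (M : ℝ) ^ (α - ε) := Real.one_le_rpow (by exact_mod_cast hM1) hβ.le
  rcases le_or_gt m₀ m with h | h
  · refine (hmain m n hm h hmn).trans ?_
    have : 0 ≤ (K : ℝ) ^ (α - ε) * ((m : ℝ) / n) ^ (α - ε) := by positivity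
    nlinarith
  · rcases le_or_gt M n with h' | h'
    · have hmM : m ≤ M := h.le.trans hMm
      have h2 := hsub m m M n hm le_rfl hmM h'
      have h3 : P m n ≤ P M n := h2.trans (mul_le_of_le_one_left (h0 _ _) (h1 _ _))
      have h4 := hmain M n hM1 hMm h'
      have h5 : ((M : ℝ) / n) ^ (α - ε) ≤ (M : ℝ) ^ (α - ε) * ((m : ℝ) / n) ^ (α - ε) := by
        rw [← Real.mul_rpow hM0.le (by positivity)]
        refine Real.rpow_le_rpow (by positivity) ?_ hβ.le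
        rw [← mul_div_assoc]
        refine div_le_div_of_nonneg_right ?_ hn0.le
        have : (1 : ℝ) ≤ m := by exact_mod_cast hm
        nlinarith
      calc P m n ≤ (K : ℝ) ^ (α - ε) * ((M : ℝ) / n) ^ (α - ε) := h3.trans h4
        _ ≤ (K : ℝ) ^ (α - ε) * ((M : ℝ) ^ (α - ε) * ((m : ℝ) / n) ^ (α - ε)) :=
            mul_le_mul_of_nonneg_left h5 (by positivity)
        _ = _ := by ring
    · have h5 : 1 ≤ (M : ℝ) ^ (α - ε) * ((m : ℝ) / n) ^ (α - ε) := by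
        rw [← Real.mul_rpow hM0.le (by positivity)]
        refine Real.one_le_rpow ?_ hβ.le
        rw [← mul_div_assoc, le_div_iff₀ hn0]
        have h6 : (1 : ℝ) ≤ m := by exact_mod_cast hm
        have h7 : (n : ℝ) ≤ M := by exact_mod_cast h'.le
        nlinarith
      calc P m n ≤ 1 := h1 _ _
        _ ≤ (M : ℝ) ^ (α - ε) * ((m : ℝ) / n) ^ (α - ε) := h5
        _ ≤ (K : ℝ) ^ (α - ε) * ((M : ℝ) ^ (α - ε) * ((m : ℝ) / n) ^ (α - ε)) :=
            le_mul_of_one_le_left (by positivity) hKb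
        _ = _ := by ring

end Crest.Agent.R158.Rf266
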