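import Crest.Agent.R158.Rs1_689
import Crest.Agent.R161.Dual_374
import Crest.Prelude.Def_PlanarPerc

/-!
# Row 158, Block R (helper689): transfer to bond percolation on `ℤ²`, dual configuration

* `map_conf` : generic transfer of `setBernoulli`
* `conf`, `map_confZ` : configuration of the square lattice, `Edge = (ℤ × ℤ) × Bool`
* `reach_iff` : connection in the open subgraph
* `dE`, `dual` : dual edges, dual configuration (open iff the primal edge is closed)
-/

set_option autoImplicit false

noncomputable section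

namespace Crest.Agent.R158.Rs689

open MeasureTheory ProbabilityTheory unitInterval
open Crest.Agent.R161.Geo729 Crest.Agent.R161.Topo374 Crest.Agent.R161.Dual374
open Crest.ProbabilityR.Percolation Crest.ProbabilityR.FirstPassage
open scoped ENNReal

/-- percolation configurations on `ℤ²` (`true` = open); same as `Tas682.Cf` -/
abbrev Cfz : Type := Edge → Bool

/-! ### generic transfer -/

theorem infinitePi_map_inj {ι κ X : Type*} [MeasurableSpace X] (μ : ι → Measure X)
    [∀ i, IsProbabilityMeasure (μ i)] {j : κ → ι} (hj : Function.Injective j) :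
    (Measure.infinitePi μ).map (fun z k => z (j k)) = Measure.infinitePi fun k => μ (j k) := by
  classical
  refine Measure.eq_infinitePi _ fun s t ht => ?_
  have hm : Measurable (fun (z : ι → X) (k : κ) => z (j k)) :=
    measurable_pi_lambda _ fun k => measurable_pi_apply _
  rw [Measure.map_apply hm (.pi s.countable_toSet fun _ _ => ht _)]
  by_cases hκ : IsEmpty κ
  · have hs : s = ∅ := Finset.eq_empty_of_isEmpty s
    subst hs
    simp
  rw [not_isEmpty_iff] at hκ
  let t' : ι → Set X := fun i => if h : ∃ k, j k = i then t h.choose else Set.univ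
  have ht' : ∀ k, t' (j k) = t k := by
    intro k
    have h : ∃ k', j k' = j k := ⟨k, rfl⟩
    simp only [t', h, dite_true]
    rw [hj h.choose_spec]
  have ht2 : ∀ i, MeasurableSet (t' i) := by
    intro i
    simp only [t']
    split_ifs
    · exact ht _
    · exact .univ
  have h1 : (fun (z : ι → X) (k : κ) => z (j k)) ⁻¹' ((s : Set κ).pi t) =
      ((s.image j : Finset ι) : Set ι).pi t' := by
    ext z
    simp only [Set.mem_preimage, Set.mem_pi, Finset.mem_coe, Finset.mem_image]
    constructor
    · rintro h _ ⟨k, hk, rfl⟩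
      rw [ht']
      exact h k hk
    · intro h k hk
      have := h (j k) ⟨k, hk, rfl⟩
      rwa [ht'] at this
  rw [h1, Measure.infinitePi_pi _ (fun i _ => ht2 i),
    Finset.prod_image (fun a _ b _ hab => hj hab)]
  exact Finset.prod_congr rfl fun k _ => by rw [ht']

open Classical in
theorem measurable_dec : Measurable (fun b : Prop => decide b) := Measurable.of_discrete

open Classical in
/-- generic transfer: coordinates of a Bernoulli random subset -/
theorem map_conf {ι κ : Type*} (u : Set ι) (p : I) {j : κ → ι} (hj : Function.Injective j)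
    (hu : ∀ k, j k ∈ u) :
    (setBernoulli u p).map (fun ω (k : κ) => decide (j k ∈ ω)) = PB fun _ : κ => p := by
  have inst : ∀ i : ι, IsProbabilityMeasure (toNNReal p • Measure.dirac (i ∈ u) +
      toNNReal (σ p) • Measure.dirac False : Measure Prop) := fun i => ⟨by
    simp only [Measure.add_apply, Measure.smul_apply, measure_univ, ENNReal.smul_def, smul_eq_mul,
      mul_one]
    exact nnreal_add p⟩
  have inst2 : ∀ k : κ, IsProbabilityMeasure (toNNReal p • Measure.dirac (j k ∈ u) +
      toNNReal (σ p) • Measure.dirac False : Measure Prop) := fun k => inst (j k)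
  rw [setBernoulli_eq_map, Measure.map_map]
  · have h1 : ((fun (ω : Set ι) (k : κ) => decide (j k ∈ ω)) ∘ fun x : ι → Prop => {i | x i}) =
        (fun (x : κ → Prop) k => decide (x k)) ∘ fun (x : ι → Prop) k => x (j k) := by
      funext x k
      simp
    rw [h1, ← Measure.map_map, infinitePi_map_inj _ hj,
      Measure.infinitePi_map_pi (μ := fun k => toNNReal p • Measure.dirac (j k ∈ u) +
        toNNReal (σ p) • Measure.dirac False) (f := fun _ b => decide b)
        fun _ => measurable_dec]
    · unfold PB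
      congr 1
      funext k
      rw [Measure.map_add _ _ measurable_dec, Measure.map_smul, Measure.map_smul,
        Measure.map_dirac' measurable_dec, Measure.map_dirac' measurable_dec]
      simp only [bern, hu k, decide_true, decide_false]
      rfl
    · exact measurable_pi_lambda _ fun k => measurable_dec.comp (measurable_pi_apply k)
    · exact measurable_pi_lambda _ fun k => measurable_pi_apply _
  · refine measurable_pi_lambda _ fun k => ?_
    exact measurable_dec.comp (measurable_set_mem (j k))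
  · fun_prop

/-! ### the square lattice -/

/-- unordered pair of an edge -/
def se (e : Edge) : Sym2 (ℤ × ℤ) := s(src e, tgt e)

theorem se_inj : Function.Injective se := by
  rintro ⟨⟨a, b⟩, c⟩ ⟨⟨a', b'⟩, c'⟩ h
  simp only [se, Sym2.eq_iff] at h
  cases c <;> cases c' <;>
    simp only [src_mk, tgt_h, tgt_v, Prod.mk.injEq, Bool.true_eq_false, Bool.false_eq_true,
      and_true, and_false] at h ⊢ <;> omega

theorem adj_iff {u v : ℤ × ℤ} : squareLattice.Adj u v ↔ Nbr u v := by
  obtain ⟨a, b⟩ := u
  obtain ⟨c, d⟩ := v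
  simp only [squareLattice, SimpleGraph.fromRel_adj, Nbr, ne_eq, Prod.mk.injEq]
  omega

theorem nbr_iff {u v : ℤ × ℤ} :
    Nbr u v ↔ ∃ e : Edge, (u = src e ∧ v = tgt e) ∨ (u = tgt e ∧ v = src e) := by
  constructor
  · obtain ⟨a, b⟩ := u
    obtain ⟨c, d⟩ := v
    rintro (⟨h1, h2 | h2⟩ | ⟨h1, h2 | h2⟩) <;> simp only at h1 h2
    · exact ⟨((a, b), false), Or.inl ⟨rfl, by rw [tgt_h]; simp only [h1, h2]⟩⟩
    · exact ⟨((c, d), false), Or.inr ⟨by rw [tgt_h]; simp only [h1, h2], rfl⟩⟩
    · exact ⟨((a, b), true), Or.inl ⟨rfl, by rw [tgt_v]; simp only [h1, h2]⟩⟩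
    · exact ⟨((c, d), true), Or.inr ⟨by rw [tgt_v]; simp only [h1, h2], rfl⟩⟩
  · rintro ⟨⟨⟨a, b⟩, c⟩, ⟨rfl, rfl⟩ | ⟨rfl, rfl⟩⟩ <;> cases c <;> simp [Nbr]

theorem se_mem (e : Edge) : se e ∈ squareLattice.edgeSet := by
  rw [se, SimpleGraph.mem_edgeSet, adj_iff, nbr_iff]
  exact ⟨e, Or.inl ⟨rfl, rfl⟩⟩

theorem mem_edgeSet_iff {x : Sym2 (ℤ × ℤ)} : x ∈ squareLattice.edgeSet ↔ ∃ e, x = se e := by
  constructor
  · induction x using Sym2.ind with
    | _ u v =>
      rw [SimpleGraph.mem_edgeSet, adj_iff, nbr_iff]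
      rintro ⟨e, ⟨rfl, rfl⟩ | ⟨rfl, rfl⟩⟩
      · exact ⟨e, rfl⟩
      · exact ⟨e, Sym2.eq_swap⟩
  · rintro ⟨e, rfl⟩
    exact se_mem e

open Classical in
/-- the configuration of edges of a set of unordered pairs -/
def conf (ω : Set (Sym2 (ℤ × ℤ))) : Cfz := fun e => decide (se e ∈ ω)

theorem conf_eq_true {ω : Set (Sym2 (ℤ × ℤ))} {e : Edge} : conf ω e = true ↔ se e ∈ ω := by
  simp [conf]

theorem measurable_conf : Measurable conf :=
  measurable_pi_lambda _ fun e => measurable_dec.comp (measurable_set_mem (se e))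

/-- **Transfer.** -/
theorem map_confZ (p : I) :
    (setBernoulli squareLattice.edgeSet p).map conf = PB fun _ : Edge => p :=
  map_conf _ p se_inj se_mem

theorem law_conf (p : I) {A : Set Cfz} (hA : MeasurableSet A) :
    setBernoulli squareLattice.edgeSet p (conf ⁻¹' A) = PB (fun _ : Edge => p) A := by
  rw [← map_confZ p, Measure.map_apply measurable_conf hA]

theorem squareBondLaw_conf (p : ℝ) {A : Set Cfz} (hA : MeasurableSet A) :
    squareBondLaw p (conf ⁻¹' A) = PB (fun _ : Edge => clampUnit p) A :=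
  law_conf _ hA

/-- open connection in the whole lattice -/
abbrev Rch (z : Cfz) (u v : ℤ × ℤ) : Prop :=
  Relation.ReflTransGen (PStep fun e => z e = true) u v

theorem adj_open_iff {ω : Set (Sym2 (ℤ × ℤ))} {u v : ℤ × ℤ} :
    (openSubgraph squareLattice ω).Adj u v ↔ PStep (fun e => conf ω e = true) u v := by
  unfold openSubgraph
  rw [SimpleGraph.fromEdgeSet_adj]
  constructor
  · rintro ⟨⟨h1, h2⟩, h3⟩
    obtain ⟨e, he⟩ := mem_edgeSet_iff.1 h2
    refine ⟨e, conf_eq_true.2 (he ▸ h1), ?_⟩
    simp only [se, Sym2.eq_iff] at he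
    exact he
  · rintro ⟨e, he, h⟩
    rw [conf_eq_true] at he
    have h4 : Nbr u v := nbr_iff.2 ⟨e, h⟩
    have h5 : s(u, v) = se e := by
      simp only [se, Sym2.eq_iff]
      exact h
    refine ⟨⟨h5 ▸ he, h5 ▸ se_mem e⟩, ?_⟩
    rintro rfl
    unfold Nbr at h4
    omega

/-- **Connections.** -/
theorem reach_iff {ω : Set (Sym2 (ℤ × ℤ))} {u v : ℤ × ℤ} :
    (openSubgraph squareLattice ω).Reachable u v ↔ Rch (conf ω) u v := by
  rw [SimpleGraph.reachable_iff_reflTransGen]
  have h : (openSubgraph squareLattice ω).Adj = PStep fun e => conf ω e = true := by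
    funext a b
    exact propext adj_open_iff
  rw [h]

theorem mem_originCluster {ω : Set (Sym2 (ℤ × ℤ))} {v : ℤ × ℤ} :
    v ∈ originCluster ω ↔ Rch (conf ω) (0, 0) v := by
  rw [← reach_iff]
  unfold originCluster
  rw [SimpleGraph.ConnectedComponent.mem_supp_iff, SimpleGraph.ConnectedComponent.eq]
  exact ⟨fun h => h.symm, fun h => h.symm⟩

/-! ### the dual configuration -/

/-- dual edge (in the lattice of faces) -/
def dE : Edge ≃ Edge where
  toFun e := if e.2 then ((e.1.1 - 1, e.1.2), false) else ((e.1.1, e.1.2 - 1), true)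
  invFun e := if e.2 then ((e.1.1, e.1.2 + 1), false) else ((e.1.1 + 1, e.1.2), true)
  left_inv := by rintro ⟨⟨a, b⟩, c⟩; cases c <;> simp
  right_inv := by rintro ⟨⟨a, b⟩, c⟩; cases c <;> simp

@[simp] theorem dE_h (v : P2) : dE (v, false) = ((v.1, v.2 - 1), true) := by simp [dE]
@[simp] theorem dE_v (v : P2) : dE (v, true) = ((v.1 - 1, v.2), false) := by simp [dE]
@[simp] theorem dE_symm_h (v : P2) : dE.symm (v, false) = ((v.1 + 1, v.2), true) := by simp [dE]
@[simp] theorem dE_symm_v (v : P2) : dE.symm (v, true) = ((v.1, v.2 + 1), false) := by simp [dE]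

theorem src_dE (e : Edge) : src (dE e) = fB e := by
  obtain ⟨⟨a, b⟩, c⟩ := e; cases c <;> simp
theorem tgt_dE (e : Edge) : tgt (dE e) = fA e := by
  obtain ⟨⟨a, b⟩, c⟩ := e; cases c <;> simp
theorem fA_dE (e : Edge) : fA (dE e) = ((tgt e).1 - 1, (tgt e).2 - 1) := by
  obtain ⟨⟨a, b⟩, c⟩ := e; cases c <;> simp
theorem fB_dE (e : Edge) : fB (dE e) = ((src e).1 - 1, (src e).2 - 1) := by
  obtain ⟨⟨a, b⟩, c⟩ := e; cases c <;> simp

/-- dual configuration: a dual edge is open iff the primal edge is closed -/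
def dual (z : Cfz) : Cfz := fun e => !z (dE.symm e)

theorem dual_eq_true {z : Cfz} {e : Edge} : dual z e = true ↔ z (dE.symm e) = false := by
  simp [dual]

theorem dual_dE {z : Cfz} {e : Edge} : dual z (dE e) = true ↔ ¬ z e = true := by
  simp [dual]

theorem measurable_dual : Measurable dual :=
  measurable_pi_lambda _ fun _ => Measurable.of_discrete.comp (measurable_pi_apply _)

theorem dual_dual (z : Cfz) (e : Edge) :
    dual (dual z) e = z ((e.1.1 + 1, e.1.2 + 1), e.2) := by
  obtain ⟨⟨a, b⟩, c⟩ := e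
  cases c <;> simp [dual]

/-- dual steps are primal steps of the dual configuration -/
theorem dstep_iff {Z : Edge → Prop} {f g : P2} :
    DStep Z f g ↔ PStep (fun e => Z (dE.symm e)) f g := by
  constructor
  · rintro ⟨e, he, h⟩
    refine ⟨dE e, by simpa using he, ?_⟩
    rw [src_dE, tgt_dE]
    exact h.symm
  · rintro ⟨e, he, h⟩
    obtain ⟨e, rfl⟩ := dE.surjective e
    rw [src_dE, tgt_dE] at h
    exact ⟨e, by simpa using he, h.symm⟩

/-- primal steps are dual steps of the dual configuration -/
theorem pstep_iff {Z : Edge → Prop} {u v : P2} :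
    PStep Z u v ↔ DStep (fun e => Z (dE.symm e)) (u.1 - 1, u.2 - 1) (v.1 - 1, v.2 - 1) := by
  constructor
  · rintro ⟨e, he, h⟩
    refine ⟨dE e, by simpa using he, ?_⟩
    rw [fA_dE, fB_dE]
    rcases h with ⟨rfl, rfl⟩ | ⟨rfl, rfl⟩
    · exact Or.inr ⟨rfl, rfl⟩
    · exact Or.inl ⟨rfl, rfl⟩
  · rintro ⟨e, he, h⟩
    obtain ⟨e, rfl⟩ := dE.surjective e
    rw [fA_dE, fB_dE] at h
    refine ⟨e, by simpa using he, ?_⟩
    simp only [Prod.mk.injEq, sub_left_inj] at h
    rcases h with ⟨⟨h1, h2⟩, h3, h4⟩ | ⟨⟨h1, h2⟩, h3, h4⟩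
    · exact Or.inr ⟨Prod.ext h1 h2, Prod.ext h3 h4⟩
    · exact Or.inl ⟨Prod.ext h1 h2, Prod.ext h3 h4⟩

/-- dual closed steps of `z` = open steps of `dual z` -/
theorem dstep_dual {z : Cfz} {f g : P2} :
    DStep (fun e => ¬ z e = true) f g ↔ PStep (fun e => dual z e = true) f g := by
  rw [dstep_iff]
  have h : (fun e => ¬ z (dE.symm e) = true) = fun e => dual z e = true := by
    funext e
    simp [dual]
  rw [h]

/-- law of the dual configuration -/
theorem map_dual (p : I) :
    (PB fun _ : Edge => p).map dual = PB fun _ : Edge => σ p := by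
  have h1 := PB_map_not (fun _ : Edge => p)
  have h2 := PB_map_equiv dE (fun _ : Edge => σ p)
  rw [← h2, ← h1, Measure.map_map]
  · rfl
  · exact measurable_pi_lambda _ fun k => measurable_pi_apply _
  · exact measurable_pi_lambda _ fun k =>
      (Measurable.of_discrete (f := fun b : Bool => !b)).comp (measurable_pi_apply k)

end Crest.Agent.R158.Rs689
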