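import Crest.Agent.R158.Rs3_689

/-!
# Row 158, Block R (helper689): circuits in annuli, independence, RSW at `p = 1/2`
-/

set_option autoImplicit false

noncomputable section

namespace Crest.Agent.R158.Rs689

open MeasureTheory ProbabilityTheory unitInterval
open Crest.Agent.R161.Geo729 Crest.Agent.R161.Topo374 Crest.Agent.R161.Dual374
open Crest.Agent.R161.Tas682 Crest.Agent.R161.Ring421 Crest.Agent.R161.Sym597
open Crest.Agent.R161.Ifc372 Crest.Agent.R161.Hull374 Crest.Agent.R161.Ann374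
open scoped ENNReal

/-- edges seen by circuits in `ball x m \\ ball x n` -/
def annE (x : P2) (n m : ℕ) : Finset Edge := by
  classical
  exact (bord (ball x m)).filter fun e => ¬ (fA e ∈ ball x n ∧ fB e ∈ ball x n)

theorem mem_annE {x : P2} {n m : ℕ} {e : Edge} : e ∈ annE x n m ↔
    (fA e ∈ ball x m ∨ fB e ∈ ball x m) ∧ ¬ (fA e ∈ ball x n ∧ fB e ∈ ball x n) := by
  unfold annE
  rw [Finset.mem_filter, mem_bord]

theorem circ_congr {Z Z' : Edge → Prop} {x : P2} {n m : ℕ}
    (hZ : ∀ e ∈ annE x n m, (Z e ↔ Z' e)) (h : Circ Z x n m) : Circ Z' x n m := by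
  have key : Reach Z' (ball x n : Set P2) ⊆ Reach Z (ball x n : Set P2) := by
    refine reach_subset (subset_reach Z _) ?_
    intro f g hf hs
    have hfm := h hf
    obtain ⟨e, he, h'⟩ := hs
    by_cases hb : fA e ∈ ball x n ∧ fB e ∈ ball x n
    · refine subset_reach Z _ ?_
      rcases h' with ⟨_, rfl⟩ | ⟨_, rfl⟩
      · exact hb.2
      · exact hb.1
    · refine reach_step hf ⟨e, ?_, h'⟩
      intro hz
      apply he
      refine (hZ e (mem_annE.2 ⟨?_, hb⟩)).1 hz
      rcases h' with ⟨h1, _⟩ | ⟨h1, _⟩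
      · exact Or.inl (h1 ▸ hfm)
      · exact Or.inr (h1 ▸ hfm)
  exact key.trans h

theorem circ_dep (x : P2) (n m : ℕ) : Dep (annE x n m) (CircZ x n m) := by
  intro z z' h
  constructor
  · exact circ_congr fun e he => by rw [h e he]
  · exact circ_congr fun e he => by rw [h e he]

theorem circ_inc (x : P2) (n m : ℕ) : Inc (CircZ x n m) := fun _ _ h hz => circ_mono h hz

theorem annE_disj {x : P2} {n m n' m' : ℕ} (h : m + 1 ≤ n') :
    Disjoint (annE x n m) (annE x n' m') := by
  rw [Finset.disjoint_left]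
  intro e he he'
  rw [mem_annE] at he he'
  apply he'.2
  have h1 := he.1
  simp only [mem_ball] at h1 ⊢
  obtain ⟨⟨i, j⟩, k⟩ := e
  cases k <;> simp at h1 ⊢ <;> omega

theorem Dep.dual {S : Finset Edge} {A : Set Cfz} (hA : Dep S A) :
    Dep (S.map dE.symm.toEmbedding) (dual ⁻¹' A) := by
  intro z z' h
  refine hA _ _ fun e he => ?_
  unfold Rs689.dual
  rw [h (dE.symm e) (Finset.mem_map.2 ⟨e, he, rfl⟩)]

theorem disj_map {S T : Finset Edge} (h : Disjoint S T) :
    Disjoint (S.map dE.symm.toEmbedding) (T.map dE.symm.toEmbedding) :=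
  (Finset.disjoint_map _).2 h

/-- dual circuits block primal paths: from `{u : u - (1,1) ∈ ball x n}` one only reaches
`{w : w - (1,1) ∈ ball x m}` -/
theorem circ_block {z : Cfz} {x : P2} {n m : ℕ} (h : dual z ∈ CircZ x n m) {u v : P2}
    (hu : ((u.1 - 1, u.2 - 1) : P2) ∈ ball x n) (huv : Rch z u v) :
    ((v.1 - 1, v.2 - 1) : P2) ∈ ball x m := by
  refine h ⟨_, hu, ?_⟩
  induction huv with
  | refl => exact .refl
  | @tail b c _ h2 ih =>
    refine ih.tail ?_
    rw [pstep_iff] at h2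
    have e1 : (fun e => ¬ dual z e = true) = fun e => z (dE.symm e) = true := by
      funext e
      simp [dual]
    rw [e1]
    exact h2

/-- primal circuits block dual paths: `dual z`-open paths of faces -/
theorem circ_block' {z : Cfz} {x : P2} {n m : ℕ} (h : z ∈ CircZ x n m) {f g : P2}
    (hf : f ∈ ball x n) (hfg : Rch (dual z) f g) : g ∈ ball x m := by
  refine h ⟨_, hf, ?_⟩
  induction hfg with
  | refl => exact .refl
  | @tail b c _ h2 ih =>
    refine ih.tail ?_
    rw [← dstep_dual] at h2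
    exact h2

/-- scales `4 s 4^i` -/
def sc (s i : ℕ) : ℕ := 4 * s * 4 ^ i

theorem sc_step {s i j : ℕ} (hs : 1 ≤ s) (h : i < j) : 2 * sc s i + 1 ≤ sc s j := by
  unfold sc
  have h1 : 4 ^ (i + 1) ≤ 4 ^ j := Nat.pow_le_pow_right (by norm_num) h
  have h2 : 4 * s * 4 ^ (i + 1) ≤ 4 * s * 4 ^ j := Nat.mul_le_mul_left _ h1
  have h3 : 4 * s * 4 ^ (i + 1) = 4 * (4 * s * 4 ^ i) := by ring
  have h4 : 1 ≤ s * 4 ^ i := Nat.one_le_iff_ne_zero.2 (by positivity)
  nlinarith

/-- no dual circuit at any of the scales `a i` -/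
def NoC (x : P2) (J : ℕ) (a : ℕ → ℕ) : Set Cfz :=
  ⋂ i ∈ Finset.range J, (dual ⁻¹' CircZ x (a i) (2 * a i))ᶜ

theorem noC_prob (p : I) (x : P2) (J : ℕ) (a : ℕ → ℕ) (ha : ∀ i j, i < j → 2 * a i + 1 ≤ a j) :
    (nu p).real (NoC x J a) =
      ∏ i ∈ Finset.range J, (1 - (nu (σ p)).real (CircZ x (a i) (2 * a i))) := by
  unfold NoC nu
  rw [PB_indep_prod (fun _ : Edge => p) (Finset.range J)
    (fun i => (annE x (a i) (2 * a i)).map dE.symm.toEmbedding)]
  · refine Finset.prod_congr rfl fun i _ => ?_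
    rw [probReal_compl_eq_one_sub (circ_dep _ _ _).dual.measurableSet]
    congr 1
    exact nu_dual p (circ_dep _ _ _).measurableSet
  · intro i _ j _ hij
    apply disj_map
    rcases lt_or_gt_of_ne hij with h | h
    · exact annE_disj (ha i j h)
    · exact (annE_disj (ha j i h)).symm
  · intro i _
    exact (circ_dep _ _ _).dual.compl

theorem blockX_half : Crest.Agent.R161.Blk868.BlockX (nu hf) := by
  intro c3 ε hc3 hε
  obtain ⟨J, hJ⟩ : ∃ J : ℕ, (1 - min c3 1) ^ J ≤ ε := by
    have h1 : 1 - min c3 1 < 1 := by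
      have : 0 < min c3 1 := lt_min hc3 one_pos
      linarith
    obtain ⟨J, hJ⟩ := exists_pow_lt_of_lt_one hε h1
    exact ⟨J, hJ.le⟩
  refine ⟨4 * 4 ^ J, 1, by have := Nat.one_le_pow J 4 (by norm_num); omega, fun s hs h => ?_⟩
  refine le_trans ?_ hJ
  have hsub : {z : Cfz | ∃ u v : P2, |u.1| ≤ (s : ℤ) ∧ |u.2| ≤ (s : ℤ) ∧
      (((4 * 4 ^ J * s : ℕ) : ℤ) ≤ |v.1| ∨ ((4 * 4 ^ J * s : ℕ) : ℤ) ≤ |v.2|) ∧
      Relation.ReflTransGen (PStep (fun e => z e = true)) u v} ⊆ NoC (0, 0) J (sc s) := by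
    rintro z ⟨u, v, hu1, hu2, hv, huv⟩
    simp only [NoC, Set.mem_iInter, Finset.mem_range]
    intro i hi hz
    have h1 := circ_block hz (u := u) (v := v) (by
      rw [abs_le] at hu1 hu2
      rw [mem_ball]
      have h2 : 4 * s ≤ sc s i := by
        unfold sc
        exact Nat.le_mul_of_pos_right _ (by positivity)
      simp only
      omega) huv
    rw [mem_ball] at h1
    have h2 : 2 * sc s i < 4 * 4 ^ J * s := by
      unfold sc
      have h3 : 4 ^ (i + 1) ≤ 4 ^ J := Nat.pow_le_pow_right (by norm_num) hi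
      have h4 : 1 ≤ s * 4 ^ i := Nat.one_le_iff_ne_zero.2 (by positivity)
      have h5 : s * 4 ^ (i + 1) ≤ s * 4 ^ J := Nat.mul_le_mul_left _ h3
      have h6 : s * 4 ^ (i + 1) = 4 * (s * 4 ^ i) := by ring
      nlinarith
    simp only at h1
    rcases hv with hv | hv <;> rw [le_abs] at hv <;> omega
  have h1 : (nu hf).real (NoC (0, 0) J (sc s)) ≤ (1 - min c3 1) ^ J := by
    rw [noC_prob hf (0, 0) J (sc s) fun i j hij => sc_step hs hij]
    calc ∏ i ∈ Finset.range J, (1 - (nu (σ hf)).real (CircZ (0, 0) (sc s i) (2 * sc s i)))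
        ≤ ∏ _i ∈ Finset.range J, (1 - min c3 1) := by
          refine Finset.prod_le_prod (fun i _ => ?_) fun i hi => ?_
          · have : (nu (σ hf)).real (CircZ (0, 0) (sc s i) (2 * sc s i)) ≤ 1 :=
              measureReal_le_one
            linarith
          · rw [Finset.mem_range] at hi
            have h3 := h (sc s i) (by
              unfold sc
              exact Nat.le_mul_of_pos_right _ (by positivity)) (by
              unfold sc
              have h3 : 4 ^ i ≤ 4 ^ J := Nat.pow_le_pow_right (by norm_num) hi.le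
              have h5 : s * 4 ^ i ≤ s * 4 ^ J := Nat.mul_le_mul_left _ h3
              nlinarith)
            rw [sigma_hf]
            have h4 : c3 ≤ (nu hf).real (CircZ (0, 0) (sc s i) (2 * sc s i)) := h3
            have h5 := min_le_left c3 1
            linarith
      _ = (1 - min c3 1) ^ J := by rw [Finset.prod_const, Finset.card_range]
  exact (ENNReal.toReal_mono (measure_ne_top _ _) (measure_mono hsub)).trans h1

/-- **RSW at `p = 1/2`.** -/
theorem rsw : RSWc (nu hf) ∧ LongX (nu hf) := by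
  refine tassion (nu hf) (fkgLoc hf) (rInv hf) ⟨1 / 2, by norm_num, fun n _ => ?_⟩ blockX_half
  have h := xpr_sq n (by omega)
  exact h

end Crest.Agent.R158.Rs689
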