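import Crest.Agent.R158.Rs6_689

/-!
# Row 158, Block R (helper689): conditional Harris inequality

* `IncOff S A` : the event is increasing in the coordinates outside the finite set `S`
* `harris_off` : `P(X) P(C) ≤ P(X ∩ C)` if `X`, `C` are increasing outside `S` and `C` does not depend on `S`
* `harris_cond` : `P(A ∩ B) P(C) ≤ P(A ∩ B ∩ C)`, `A` arbitrary event of `S`, `B` increasing,
  `C` increasing and not depending on `S`
-/

set_option autoImplicit false

noncomputable section

namespace Crest.Agent.R158.Rs689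

open MeasureTheory ProbabilityTheory unitInterval
open scoped ENNReal

variable {ι : Type*}

/-- increasing in the coordinates outside `S` -/
def IncOff (S : Finset ι) (A : Set (ι → Bool)) : Prop :=
  ∀ z z' : ι → Bool, (∀ e ∈ S, z e = z' e) → (∀ e, z e = true → z' e = true) → z ∈ A → z' ∈ A

theorem Inc.incOff {A : Set (ι → Bool)} (hA : Inc A) (S : Finset ι) : IncOff S A :=
  fun z z' _ h hz => hA z z' h hz

theorem Dep.incOff {S : Finset ι} {A : Set (ι → Bool)} (hA : Dep S A) : IncOff S A :=
  fun z z' h _ hz => (hA z z' h).1 hz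

theorem IncOff.inter {S : Finset ι} {A B : Set (ι → Bool)} (hA : IncOff S A) (hB : IncOff S B) :
    IncOff S (A ∩ B) := fun z z' h h' hz => ⟨hA z z' h h' hz.1, hB z z' h h' hz.2⟩

theorem IncOff.union {S : Finset ι} {A B : Set (ι → Bool)} (hA : IncOff S A) (hB : IncOff S B) :
    IncOff S (A ∪ B) := fun z z' h h' hz => hz.imp (hA z z' h h') (hB z z' h h')

theorem IncOff.mono {S T : Finset ι} (h : S ⊆ T) {A : Set (ι → Bool)} (hA : IncOff S A) :
    IncOff T A := fun z z' h1 h2 hz => hA z z' (fun e he => h1 e (h he)) h2 hz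

theorem IncOff.iInter {κ : Sort*} {S : Finset ι} {A : κ → Set (ι → Bool)}
    (hA : ∀ k, IncOff S (A k)) : IncOff S (⋂ k, A k) := fun z z' h h' hz => by
  simp only [Set.mem_iInter] at hz ⊢
  exact fun k => hA k z z' h h' (hz k)

/-- overwrite the coordinates in `S` -/
def ovr (S : Finset ι) (y : S → Bool) (z : ι → Bool) : ι → Bool := by
  classical
  exact fun e => if h : e ∈ S then y ⟨e, h⟩ else z e

theorem ovr_mem {S : Finset ι} {y : S → Bool} {z : ι → Bool} {e : ι} (h : e ∈ S) :
    ovr S y z e = y ⟨e, h⟩ := by simp [ovr, h]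

theorem ovr_notMem {S : Finset ι} {y : S → Bool} {z : ι → Bool} {e : ι} (h : e ∉ S) :
    ovr S y z e = z e := by simp [ovr, h]

/-- section of an event -/
def sct (S : Finset ι) (y : S → Bool) (A : Set (ι → Bool)) : Set (ι → Bool) := ovr S y ⁻¹' A

/-- cylinder -/
def cyl (S : Finset ι) (y : S → Bool) : Set (ι → Bool) := S.restrict ⁻¹' {y}

theorem mem_cyl {S : Finset ι} {y : S → Bool} {z : ι → Bool} :
    z ∈ cyl S y ↔ ∀ e : S, z e = y e := by
  simp only [cyl, Set.mem_preimage, Set.mem_singleton_iff, funext_iff, Finset.restrict]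

theorem cyl_dep (S : Finset ι) (y : S → Bool) : Dep S (cyl S y) := fun z z' h => by
  rw [mem_cyl, mem_cyl]
  exact forall_congr' fun e => by rw [h e e.2]

theorem ovr_self {S : Finset ι} {y : S → Bool} {z : ι → Bool} (h : z ∈ cyl S y) :
    ovr S y z = z := by
  funext e
  by_cases he : e ∈ S
  · rw [ovr_mem he]; exact (mem_cyl.1 h ⟨e, he⟩).symm
  · rw [ovr_notMem he]

theorem cyl_inter_sct (S : Finset ι) (y : S → Bool) (A : Set (ι → Bool)) :
    cyl S y ∩ sct S y A = A ∩ cyl S y := by
  ext z
  constructor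
  · rintro ⟨h1, h2⟩
    have h3 : ovr S y z ∈ A := h2
    rw [ovr_self h1] at h3
    exact ⟨h3, h1⟩
  · rintro ⟨h1, h2⟩
    refine ⟨h2, ?_⟩
    show ovr S y z ∈ A
    rw [ovr_self h2]
    exact h1

theorem Dep.sct [DecidableEq ι] {S T : Finset ι} {A : Set (ι → Bool)} (hA : Dep T A) (y : S → Bool) :
    Dep (T \ S) (sct S y A) := fun z z' h => by
  refine hA _ _ fun e he => ?_
  by_cases heS : e ∈ S
  · rw [ovr_mem heS, ovr_mem heS]
  · rw [ovr_notMem heS, ovr_notMem heS]
    exact h e (Finset.mem_sdiff.2 ⟨he, heS⟩)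

theorem IncOff.sct {S : Finset ι} {A : Set (ι → Bool)} (hA : IncOff S A) (y : S → Bool) :
    Inc (sct S y A) := fun z z' h hz => by
  refine hA _ _ (fun e he => ?_) (fun e => ?_) hz
  · rw [ovr_mem he, ovr_mem he]
  · by_cases heS : e ∈ S
    · rw [ovr_mem heS, ovr_mem heS]; exact id
    · rw [ovr_notMem heS, ovr_notMem heS]; exact h e

theorem sct_of_dep {S U : Finset ι} (hd : Disjoint S U) {A : Set (ι → Bool)} (hA : Dep U A)
    (y : S → Bool) : Rs689.sct S y A = A := by
  ext z
  refine hA _ _ fun e he => ?_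
  exact ovr_notMem fun h => Finset.disjoint_left.1 hd h he

theorem sct_inter (S : Finset ι) (y : S → Bool) (A B : Set (ι → Bool)) :
    sct S y (A ∩ B) = sct S y A ∩ sct S y B := rfl

open Classical in
/-- decomposition over the configurations of `S` -/
theorem sum_cyl (w : ι → I) (S : Finset ι) {A : Set (ι → Bool)} (hA : MeasurableSet A) :
    (PB w).real A = ∑ y : S → Bool, (PB w).real (A ∩ cyl S y) := by
  classical
  have hm : ∀ y : S → Bool, MeasurableSet (A ∩ cyl S y) := fun y =>
    hA.inter (cyl_dep S y).measurableSet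
  rw [← measureReal_biUnion_finset (s := Finset.univ) (f := fun y => A ∩ cyl S y)]
  · congr 1
    ext z
    simp only [Finset.mem_univ, Set.iUnion_true, Set.mem_iUnion, Set.mem_inter_iff]
    constructor
    · intro h
      exact ⟨S.restrict z, h, rfl⟩
    · rintro ⟨y, h, _⟩
      exact h
  · intro y _ y' _ hyy
    rw [Function.onFun, Set.disjoint_left]
    rintro z ⟨_, h1⟩ ⟨_, h2⟩
    exact hyy ((show S.restrict z = y from h1).symm.trans h2)
  · intro y _
    exact hm y

/-- **Conditional Harris inequality**, general form. -/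
theorem harris_off (w : ι → I) {S T U : Finset ι} {X C : Set (ι → Bool)} (hX : Dep T X)
    (hC : Dep U C) (hd : Disjoint S U) (iX : IncOff S X) (iC : Inc C) :
    (PB w).real X * (PB w).real C ≤ (PB w).real (X ∩ C) := by
  classical
  have hXC : Dep (T ∪ U) (X ∩ C) := (hX.mono Finset.subset_union_left).inter
    (hC.mono Finset.subset_union_right)
  rw [sum_cyl w S hX.measurableSet, sum_cyl w S hXC.measurableSet, Finset.sum_mul]
  refine Finset.sum_le_sum fun y _ => ?_
  rw [← cyl_inter_sct, ← cyl_inter_sct]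
  have d1 : Dep (T \ S) (sct S y X) := hX.sct y
  have d2 : Dep ((T \ S) ∪ U) (sct S y (X ∩ C)) := by
    rw [sct_inter, sct_of_dep hd hC]
    exact (d1.mono Finset.subset_union_left).inter (hC.mono Finset.subset_union_right)
  have j1 : Disjoint S (T \ S) := Finset.disjoint_sdiff
  have j2 : Disjoint S ((T \ S) ∪ U) := Finset.disjoint_union_right.2 ⟨j1, hd⟩
  rw [PB_indep_real w j1 (cyl_dep S y) d1, PB_indep_real w j2 (cyl_dep S y) d2, mul_assoc]
  refine mul_le_mul_of_nonneg_left ?_ measureReal_nonneg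
  rw [sct_inter, sct_of_dep hd hC]
  exact harris w d1 hC (iX.sct y) iC

/-- **Conditional Harris inequality**: `A` arbitrary, local to `S`. -/
theorem harris_cond (w : ι → I) {S T U : Finset ι} {A B C : Set (ι → Bool)} (hA : Dep S A)
    (hB : Dep T B) (hC : Dep U C) (hd : Disjoint S U) (iB : Inc B) (iC : Inc C) :
    (PB w).real (A ∩ B) * (PB w).real C ≤ (PB w).real (A ∩ B ∩ C) := by
  classical
  exact harris_off w (S := S) (T := S ∪ T) (U := U) ((hA.mono Finset.subset_union_left).inter
    (hB.mono Finset.subset_union_right)) hC hd (hA.incOff.inter (iB.incOff S)) iC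

/-- decreasing in the coordinates outside `S` -/
def DecOff (S : Finset ι) (A : Set (ι → Bool)) : Prop := IncOff S Aᶜ

/-- conditional Harris inequality, opposite monotonicities -/
theorem harris_off' (w : ι → I) {S T U : Finset ι} {X C : Set (ι → Bool)} (hX : Dep T X)
    (hC : Dep U C) (hd : Disjoint S U) (iX : DecOff S X) (iC : Inc C) :
    (PB w).real (X ∩ C) ≤ (PB w).real X * (PB w).real C := by
  have h := harris_off w hX.compl hC hd iX iC
  have h1 : (PB w).real Xᶜ = 1 - (PB w).real X := by
    rw [measureReal_compl hX.measurableSet]; simp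
  have h2 : (PB w).real (X ∩ C) + (PB w).real (Xᶜ ∩ C) = (PB w).real C := by
    have := measureReal_inter_add_sdiff (μ := PB w) (s := C) (t := X) hX.measurableSet
    rw [Set.inter_comm X C, Set.inter_comm Xᶜ C]
    exact this
  rw [h1] at h
  nlinarith

end Crest.Agent.R158.Rs689
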