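import Crest.Agent.R158.Rs1_689

/-!
# Row 158 (helper808), resampling / domain Markov property over `PB w`

An exploration is a map `E : (ι → Bool) → Finset ι` with values in the subsets of a finite set `S`
that is *self determined*: if `z' = z` on `E z` then `E z' = E z` (`Ex S E`).  `glue D z z'` is `z` on
`D` and `z'` off `D`.  `Ad E A`: the event `A` depends on the revealed configuration only.

* `map_glue`, `map_swap` : `glue D z z'` has law `PB w`, and exchanging `z`, `z'` off `D` preserves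
  `PB w ⊗ PB w`; `Ex.map_glue`, `Ex.map_swap` : the same with `D = E z`
* `Ex.real_eq` : `P(F) = ∫ P{z' | glue (E z) z z' ∈ F} dP(z)`, `Ex.integral_eq`
* `Ex.reveal_eq`, `Ex.reveal_le`, `Ex.reveal_ge` : domain Markov
* `Ex.fkg`, `Ex.fkg'` : Harris inequality for the fresh edges
-/

set_option autoImplicit false

noncomputable section

namespace Crest.Agent.R158.Rz808

open MeasureTheory unitInterval Rs689

variable {ι : Type*}

open Classical in
/-- `z` on `D`, `z'` off `D` -/
def glue (D : Finset ι) (z z' : ι → Bool) : ι → Bool := fun e => if e ∈ D then z e else z' e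

theorem glue_in {D : Finset ι} {z z' : ι → Bool} {e : ι} (h : e ∈ D) : glue D z z' e = z e := by
  simp [glue, h]

theorem glue_out {D : Finset ι} {z z' : ι → Bool} {e : ι} (h : e ∉ D) : glue D z z' e = z' e := by
  simp [glue, h]

@[simp] theorem glue_self (D : Finset ι) (z : ι → Bool) : glue D z z = z := by
  funext e; simp [glue]

theorem meas_glue (D : Finset ι) :
    Measurable fun q : (ι → Bool) × (ι → Bool) => glue D q.1 q.2 := by
  refine measurable_pi_lambda _ fun e => ?_
  by_cases h : e ∈ D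
  · have : (fun q : (ι → Bool) × (ι → Bool) => glue D q.1 q.2 e) = fun q => q.1 e := by
      funext q; exact glue_in h
    rw [this]
    exact (measurable_pi_apply e).comp measurable_fst
  · have : (fun q : (ι → Bool) × (ι → Bool) => glue D q.1 q.2 e) = fun q => q.2 e := by
      funext q; exact glue_out h
    rw [this]
    exact (measurable_pi_apply e).comp measurable_snd

theorem meas_glue_right (D : Finset ι) (z : ι → Bool) : Measurable fun z' => glue D z z' :=
  (meas_glue D).comp (measurable_const.prodMk measurable_id)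

theorem meas_set (s : Finset ι) (t : ι → Set Bool) : MeasurableSet ((s : Set ι).pi t) :=
  .pi s.countable_toSet fun _ _ => MeasurableSet.of_discrete

/-- gluing two independent copies along a fixed set -/
theorem map_glue (w : ι → I) (D : Finset ι) :
    ((PB w).prod (PB w)).map (fun q => glue D q.1 q.2) = PB w := by
  classical
  refine Measure.eq_infinitePi _ fun s t ht => ?_
  rw [Measure.map_apply (meas_glue D) (meas_set s t)]
  have h1 : (fun q : (ι → Bool) × (ι → Bool) => glue D q.1 q.2) ⁻¹' ((s : Set ι).pi t) =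
      (((s.filter (· ∈ D) : Finset ι) : Set ι).pi t) ×ˢ
        (((s.filter (· ∉ D) : Finset ι) : Set ι).pi t) := by
    ext q
    simp only [Set.mem_preimage, Set.mem_pi, Finset.mem_coe, Set.mem_prod, Finset.mem_filter]
    constructor
    · intro h
      exact ⟨fun e he => by have := h e he.1; rwa [glue_in he.2] at this,
        fun e he => by have := h e he.1; rwa [glue_out he.2] at this⟩
    · intro h e he
      by_cases hD : e ∈ D
      · rw [glue_in hD]; exact h.1 e ⟨he, hD⟩
      · rw [glue_out hD]; exact h.2 e ⟨he, hD⟩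
  rw [h1, Measure.prod_prod]
  unfold PB
  rw [Measure.infinitePi_pi _ (fun _ _ => MeasurableSet.of_discrete),
    Measure.infinitePi_pi _ (fun _ _ => MeasurableSet.of_discrete)]
  exact Finset.prod_filter_mul_prod_filter_not s (· ∈ D) _

/-- exchange off `D` -/
def sw (D : Finset ι) (q : (ι → Bool) × (ι → Bool)) : (ι → Bool) × (ι → Bool) :=
  (glue D q.1 q.2, glue D q.2 q.1)

theorem meas_sw (D : Finset ι) : Measurable (sw D : (ι → Bool) × (ι → Bool) → _) :=
  (meas_glue D).prodMk ((meas_glue D).comp measurable_swap)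

theorem sw_sw (D : Finset ι) (q : (ι → Bool) × (ι → Bool)) : sw D (sw D q) = q := by
  refine Prod.ext ?_ ?_ <;> funext e <;> by_cases h : e ∈ D <;> simp [sw, glue, h]

/-- exchanging the two copies off `D` preserves the product law -/
theorem map_swap (w : ι → I) (D : Finset ι) :
    ((PB w).prod (PB w)).map (sw D) = (PB w).prod (PB w) := by
  classical
  -- rectangles of cylinder sets generate
  let C : Set (Set (ι → Bool)) := {A | ∃ (s : Finset ι) (t : ι → Set Bool), A = (s : Set ι).pi t}
  have hgen : (inferInstance : MeasurableSpace (ι → Bool)) = MeasurableSpace.generateFrom C := by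
    refine le_antisymm ?_ (MeasurableSpace.generateFrom_le ?_)
    · refine iSup_le fun e => ?_
      rintro _ ⟨u, -, rfl⟩
      refine MeasurableSpace.measurableSet_generateFrom ⟨{e}, fun _ => u, ?_⟩
      ext z; simp
    · rintro _ ⟨s, t, rfl⟩
      exact meas_set s t
  have hpi : IsPiSystem C := by
    rintro _ ⟨s, t, rfl⟩ _ ⟨s', t', rfl⟩ -
    refine ⟨s ∪ s', fun e => (if e ∈ s then t e else Set.univ) ∩
      (if e ∈ s' then t' e else Set.univ), ?_⟩
    ext z
    simp only [Set.mem_inter_iff, Set.mem_pi, Finset.mem_coe, Finset.mem_union]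
    constructor
    · rintro ⟨h1, h2⟩ e -
      constructor
      · split_ifs with h
        · exact h1 e h
        · trivial
      · split_ifs with h
        · exact h2 e h
        · trivial
    · intro h
      constructor
      · intro e he
        have := (h e (Or.inl he)).1
        rwa [if_pos he] at this
      · intro e he
        have := (h e (Or.inr he)).2
        rwa [if_pos he] at this
  refine (Measure.prod_eq_generateFrom (C := C) (D := C) hgen.symm hgen.symm hpi hpi
    ⟨fun _ => Set.univ, fun _ => ⟨∅, fun _ => Set.univ, by simp⟩, fun _ => measure_lt_top _ _,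
      Set.iUnion_const _⟩
    ⟨fun _ => Set.univ, fun _ => ⟨∅, fun _ => Set.univ, by simp⟩, fun _ => measure_lt_top _ _,
      Set.iUnion_const _⟩ ?_).symm
  rintro _ ⟨s, t, rfl⟩ _ ⟨s', t', rfl⟩
  rw [Measure.map_apply (meas_sw D) ((meas_set s t).prod (meas_set s' t'))]
  have h1 : (sw D) ⁻¹' (((s : Set ι).pi t) ×ˢ ((s' : Set ι).pi t')) =
      ((((s.filter (· ∈ D) : Finset ι) : Set ι).pi t) ∩
        (((s'.filter (· ∉ D) : Finset ι) : Set ι).pi t')) ×ˢ
      ((((s.filter (· ∉ D) : Finset ι) : Set ι).pi t) ∩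
        (((s'.filter (· ∈ D) : Finset ι) : Set ι).pi t')) := by
    ext q
    simp only [Set.mem_preimage, Set.mem_prod, Set.mem_inter_iff, Set.mem_pi, Finset.mem_coe,
      Finset.mem_filter, sw]
    constructor
    · rintro ⟨h, h'⟩
      refine ⟨⟨fun e he => ?_, fun e he => ?_⟩, fun e he => ?_, fun e he => ?_⟩
      · have := h e he.1; rwa [glue_in he.2] at this
      · have := h' e he.1; rwa [glue_out he.2] at this
      · have := h e he.1; rwa [glue_out he.2] at this
      · have := h' e he.1; rwa [glue_in he.2] at this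
    · rintro ⟨⟨h1, h2⟩, h3, h4⟩
      refine ⟨fun e he => ?_, fun e he => ?_⟩
      · by_cases hD : e ∈ D
        · rw [glue_in hD]; exact h1 e ⟨he, hD⟩
        · rw [glue_out hD]; exact h3 e ⟨he, hD⟩
      · by_cases hD : e ∈ D
        · rw [glue_in hD]; exact h4 e ⟨he, hD⟩
        · rw [glue_out hD]; exact h2 e ⟨he, hD⟩
  have hdep : ∀ (s : Finset ι) (t : ι → Set Bool), Dep s ((s : Set ι).pi t) := by
    intro s t z z' h
    simp only [Set.mem_pi, Finset.mem_coe]
    exact forall_congr' fun e => forall_congr' fun he => by rw [h e he]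
  have hsplit : ∀ (s : Finset ι) (t : ι → Set Bool), PB w ((s : Set ι).pi t) =
      PB w (((s.filter (· ∈ D) : Finset ι) : Set ι).pi t) *
        PB w (((s.filter (· ∉ D) : Finset ι) : Set ι).pi t) := by
    intro s t
    unfold PB
    rw [Measure.infinitePi_pi _ (fun _ _ => MeasurableSet.of_discrete),
      Measure.infinitePi_pi _ (fun _ _ => MeasurableSet.of_discrete),
      Measure.infinitePi_pi _ (fun _ _ => MeasurableSet.of_discrete)]
    exact (Finset.prod_filter_mul_prod_filter_not s (· ∈ D) _).symm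
  have hd1 : Disjoint (s.filter (· ∈ D)) (s'.filter (· ∉ D)) :=
    Finset.disjoint_left.2 fun e h h' => (Finset.mem_filter.1 h').2 (Finset.mem_filter.1 h).2
  have hd2 : Disjoint (s.filter (· ∉ D)) (s'.filter (· ∈ D)) :=
    Finset.disjoint_left.2 fun e h h' => (Finset.mem_filter.1 h).2 (Finset.mem_filter.1 h').2
  rw [h1, Measure.prod_prod, PB_indep w hd1 (hdep _ _) (hdep _ _),
    PB_indep w hd2 (hdep _ _) (hdep _ _), hsplit s t, hsplit s' t']
  ring

/-! ### explorations -/

/-- exploration: self determined random set of edges inside `S` -/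
structure Ex (S : Finset ι) (E : (ι → Bool) → Finset ι) : Prop where
  sub : ∀ z, E z ⊆ S
  self : ∀ z z', (∀ e ∈ E z, z e = z' e) → E z' = E z

/-- the event depends on the revealed configuration only -/
def Ad (E : (ι → Bool) → Finset ι) (A : Set (ι → Bool)) : Prop :=
  ∀ z z', (∀ e ∈ E z, z e = z' e) → (z ∈ A ↔ z' ∈ A)

variable {S : Finset ι} {E : (ι → Bool) → Finset ι}

theorem Ex.glue (h : Ex S E) (z z' : ι → Bool) : E (glue (E z) z z') = E z :=
  h.self _ _ fun _ he => (glue_in he).symm

theorem Ex.glue_eq (h : Ex S E) {D : Finset ι} {z z' : ι → Bool} :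
    E (Rz808.glue D z z') = D ↔ E z = D := by
  constructor
  · intro h1
    have := h.self (Rz808.glue D z z') z (fun e he => by rw [h1] at he; exact glue_in he)
    rw [this, h1]
  · rintro rfl
    exact h.glue z z'

theorem Ex.dep_eq (h : Ex S E) (D : Finset ι) : Dep D {z | E z = D} := by
  intro z z' hz
  simp only [Set.mem_ofPred_eq]
  constructor
  · intro h1
    rw [h.self z z' (fun e he => hz e (h1 ▸ he)), h1]
  · intro h1
    rw [h.self z' z (fun e he => (hz e (h1 ▸ he)).symm), h1]

theorem Ex.meas_eq (h : Ex S E) (D : Finset ι) : MeasurableSet {z | E z = D} :=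
  (h.dep_eq D).measurableSet

theorem Ex.dep_ad (h : Ex S E) {A : Set (ι → Bool)} (hA : Ad E A) (D : Finset ι) :
    Dep D (A ∩ {z | E z = D}) := by
  intro z z' hz
  have h1 := h.dep_eq D z z' hz
  simp only [Set.mem_ofPred_eq] at h1
  constructor
  · rintro ⟨h2, h3⟩
    exact ⟨(hA z z' fun e he => hz e (h3 ▸ he)).1 h2, h1.1 h3⟩
  · rintro ⟨h2, h3⟩
    exact ⟨(hA z' z fun e he => (hz e (h3 ▸ he)).symm).1 h2, h1.2 h3⟩

theorem Ex.dep (h : Ex S E) {A : Set (ι → Bool)} (hA : Ad E A) : Dep S A := fun z z' hz =>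
  hA z z' fun e he => hz e (h.sub z he)

theorem Ad.inter {A B : Set (ι → Bool)} (hA : Ad E A) (hB : Ad E B) : Ad E (A ∩ B) :=
  fun z z' h => and_congr (hA z z' h) (hB z z' h)

theorem Ad.union {A B : Set (ι → Bool)} (hA : Ad E A) (hB : Ad E B) : Ad E (A ∪ B) :=
  fun z z' h => or_congr (hA z z' h) (hB z z' h)

theorem Ad.compl {A : Set (ι → Bool)} (hA : Ad E A) : Ad E Aᶜ :=
  fun z z' h => not_congr (hA z z' h)

theorem Ex.ad_eq (h : Ex S E) (D : Finset ι) : Ad E {z | E z = D} := by
  intro z z' hz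
  simp only [Set.mem_ofPred_eq]
  rw [h.self z z' hz]

theorem Ex.ad_pred (h : Ex S E) (p : Finset ι → Prop) : Ad E {z | p (E z)} := by
  intro z z' hz
  simp only [Set.mem_ofPred_eq]
  rw [h.self z z' hz]

/-- finite partition by the value of the exploration -/
theorem Ex.sum_eq (h : Ex S E) (μ : Measure (ι → Bool)) {A : Set (ι → Bool)}
    (hA : MeasurableSet A) :
    μ A = ∑ D ∈ S.powerset, μ (A ∩ {z | E z = D}) := by
  classical
  have h1 : A = ⋃ D ∈ S.powerset, (A ∩ {z | E z = D}) := by
    ext z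
    simp only [Set.mem_iUnion, Set.mem_inter_iff, Set.mem_ofPred_eq, exists_prop,
      Finset.mem_powerset]
    exact ⟨fun hz => ⟨E z, h.sub z, hz, rfl⟩, fun ⟨D, _, hz, _⟩ => hz⟩
  conv_lhs => rw [h1]
  refine measure_biUnion_finset ?_ fun D _ => hA.inter (h.meas_eq D)
  intro D _ D' _ hne
  refine Set.disjoint_left.2 fun z h2 h3 => hne ?_
  exact h2.2.symm.trans h3.2

theorem Ex.meas_glue (h : Ex S E) :
    Measurable fun q : (ι → Bool) × (ι → Bool) => Rz808.glue (E q.1) q.1 q.2 := by
  classical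
  intro F hF
  have h1 : (fun q : (ι → Bool) × (ι → Bool) => Rz808.glue (E q.1) q.1 q.2) ⁻¹' F =
      ⋃ D ∈ S.powerset, ((Prod.fst ⁻¹' {z | E z = D}) ∩
        ((fun q : (ι → Bool) × (ι → Bool) => Rz808.glue D q.1 q.2) ⁻¹' F)) := by
    ext q
    simp only [Set.mem_iUnion, Set.mem_inter_iff, Set.mem_preimage, Set.mem_ofPred_eq, exists_prop,
      Finset.mem_powerset]
    constructor
    · intro hq
      exact ⟨E q.1, h.sub _, rfl, hq⟩
    · rintro ⟨D, _, rfl, hq⟩
      exact hq
  rw [h1]
  exact Finset.measurableSet_biUnion _ fun D _ =>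
    (measurable_fst (h.meas_eq D)).inter (Rz808.meas_glue D hF)

/-- **resampling**: the glued configuration has law `PB w` -/
theorem Ex.map_glue (h : Ex S E) (w : ι → I) :
    ((PB w).prod (PB w)).map (fun q => Rz808.glue (E q.1) q.1 q.2) = PB w := by
  classical
  ext F hF
  rw [Measure.map_apply h.meas_glue hF, h.sum_eq (PB w) hF]
  have h1 : (fun q : (ι → Bool) × (ι → Bool) => Rz808.glue (E q.1) q.1 q.2) ⁻¹' F =
      ⋃ D ∈ S.powerset, ((fun q : (ι → Bool) × (ι → Bool) => Rz808.glue D q.1 q.2) ⁻¹'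
        (F ∩ {z | E z = D})) := by
    ext q
    simp only [Set.mem_iUnion, Set.mem_inter_iff, Set.mem_preimage, Set.mem_ofPred_eq, exists_prop,
      Finset.mem_powerset, h.glue_eq]
    constructor
    · intro hq
      exact ⟨E q.1, h.sub _, hq, rfl⟩
    · rintro ⟨D, _, hq, rfl⟩
      exact hq
  rw [h1, measure_biUnion_finset]
  · refine Finset.sum_congr rfl fun D _ => ?_
    rw [← Measure.map_apply (Rz808.meas_glue D) (hF.inter (h.meas_eq D)), Rz808.map_glue]
  · intro D _ D' _ hne
    refine Set.disjoint_left.2 fun q h2 h3 => hne ?_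
    exact (h.glue_eq.1 h2.2).symm.trans (h.glue_eq.1 h3.2)
  · intro D _
    exact Rz808.meas_glue D (hF.inter (h.meas_eq D))

theorem Ex.meas_sw (h : Ex S E) :
    Measurable fun q : (ι → Bool) × (ι → Bool) => sw (E q.1) q := by
  refine h.meas_glue.prodMk ?_
  classical
  intro F hF
  have h1 : (fun q : (ι → Bool) × (ι → Bool) => Rz808.glue (E q.1) q.2 q.1) ⁻¹' F =
      ⋃ D ∈ S.powerset, ((Prod.fst ⁻¹' {z | E z = D}) ∩
        ((fun q : (ι → Bool) × (ι → Bool) => Rz808.glue D q.2 q.1) ⁻¹' F)) := by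
    ext q
    simp only [Set.mem_iUnion, Set.mem_inter_iff, Set.mem_preimage, Set.mem_ofPred_eq, exists_prop,
      Finset.mem_powerset]
    constructor
    · intro hq
      exact ⟨E q.1, h.sub _, rfl, hq⟩
    · rintro ⟨D, _, rfl, hq⟩
      exact hq
  rw [h1]
  exact Finset.measurableSet_biUnion _ fun D _ =>
    (measurable_fst (h.meas_eq D)).inter ((Rz808.meas_glue D).comp measurable_swap hF)

/-- the exchange off the revealed set is an involution -/
theorem Ex.sw_sw (h : Ex S E) (q : (ι → Bool) × (ι → Bool)) :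
    sw (E (sw (E q.1) q).1) (sw (E q.1) q) = q := by
  have h1 : E (sw (E q.1) q).1 = E q.1 := h.glue _ _
  rw [h1, Rz808.sw_sw]

/-- **exchange off the revealed set preserves the product law** -/
theorem Ex.map_swap (h : Ex S E) (w : ι → I) :
    ((PB w).prod (PB w)).map (fun q => sw (E q.1) q) = (PB w).prod (PB w) := by
  classical
  ext F hF
  rw [Measure.map_apply h.meas_sw hF]
  have key : ∀ D, MeasurableSet ((sw D ⁻¹' F) ∩
      (Prod.fst ⁻¹' {z | E z = D} : Set ((ι → Bool) × (ι → Bool)))) := fun D =>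
    (Rz808.meas_sw D hF).inter (measurable_fst (h.meas_eq D))
  have h1 : (fun q : (ι → Bool) × (ι → Bool) => sw (E q.1) q) ⁻¹' F =
      ⋃ D ∈ S.powerset, (sw D ⁻¹' (F ∩ (Prod.fst ⁻¹' {z | E z = D}))) := by
    ext q
    simp only [Set.mem_iUnion, Set.mem_inter_iff, Set.mem_preimage, Set.mem_ofPred_eq, exists_prop,
      Finset.mem_powerset, sw, h.glue_eq]
    constructor
    · intro hq
      exact ⟨E q.1, h.sub _, hq, rfl⟩
    · rintro ⟨D, _, hq, rfl⟩
      exact hq
  have h2 : F = ⋃ D ∈ S.powerset, (F ∩ (Prod.fst ⁻¹' {z | E z = D})) := by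
    ext q
    simp only [Set.mem_iUnion, Set.mem_inter_iff, Set.mem_preimage, Set.mem_ofPred_eq, exists_prop,
      Finset.mem_powerset]
    exact ⟨fun hq => ⟨E q.1, h.sub _, hq, rfl⟩, fun ⟨D, _, hq, _⟩ => hq⟩
  rw [h1, measure_biUnion_finset]
  · conv_rhs => rw [h2]
    rw [measure_biUnion_finset]
    · refine Finset.sum_congr rfl fun D _ => ?_
      rw [← Measure.map_apply (Rz808.meas_sw D) (hF.inter (measurable_fst (h.meas_eq D))),
        Rz808.map_swap]
    · intro D _ D' _ hne
      refine Set.disjoint_left.2 fun q h3 h4 => hne ?_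
      exact (h3.2 : E q.1 = D).symm.trans h4.2
    · intro D _
      exact hF.inter (measurable_fst (h.meas_eq D))
  · intro D _ D' _ hne
    refine Set.disjoint_left.2 fun q h3 h4 => hne ?_
    have h5 : E (Rz808.glue D q.1 q.2) = D := h3.2
    have h6 : E (Rz808.glue D' q.1 q.2) = D' := h4.2
    exact (h.glue_eq.1 h5).symm.trans (h.glue_eq.1 h6)
  · intro D _
    exact Rz808.meas_sw D (hF.inter (measurable_fst (h.meas_eq D)))

/-! ### sections -/

/-- section of an event at the revealed configuration -/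
def Sec (D : Finset ι) (z : ι → Bool) (F : Set (ι → Bool)) : Set (ι → Bool) :=
  {z' | glue D z z' ∈ F}

theorem mem_Sec {D : Finset ι} {z z' : ι → Bool} {F : Set (ι → Bool)} :
    z' ∈ Sec D z F ↔ glue D z z' ∈ F := Iff.rfl

theorem Sec_inter (D : Finset ι) (z : ι → Bool) (F G : Set (ι → Bool)) :
    Sec D z (F ∩ G) = Sec D z F ∩ Sec D z G := rfl

theorem Sec_union (D : Finset ι) (z : ι → Bool) (F G : Set (ι → Bool)) :
    Sec D z (F ∪ G) = Sec D z F ∪ Sec D z G := rfl

theorem Sec_compl (D : Finset ι) (z : ι → Bool) (F : Set (ι → Bool)) :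
    Sec D z Fᶜ = (Sec D z F)ᶜ := rfl

theorem Sec_mono {D : Finset ι} {z : ι → Bool} {F G : Set (ι → Bool)} (h : F ⊆ G) :
    Sec D z F ⊆ Sec D z G := fun _ hz => h hz

theorem meas_Sec (D : Finset ι) (z : ι → Bool) {F : Set (ι → Bool)} (hF : MeasurableSet F) :
    MeasurableSet (Sec D z F) := meas_glue_right D z hF

open Classical in
/-- the section depends on the fresh coordinates only -/
theorem dep_Sec {T : Finset ι} {F : Set (ι → Bool)} (hF : Dep T F) (D : Finset ι)
    (z : ι → Bool) : Dep (T \ D) (Sec D z F) := by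
  intro z1 z2 h
  refine hF _ _ fun e he => ?_
  by_cases hD : e ∈ D
  · rw [glue_in hD, glue_in hD]
  · rw [glue_out hD, glue_out hD]
    exact h e (Finset.mem_sdiff.2 ⟨he, hD⟩)

/-- sections of increasing events are increasing -/
theorem inc_Sec {F : Set (ι → Bool)} (hF : Inc F) (D : Finset ι) (z : ι → Bool) :
    Inc (Sec D z F) := by
  intro z1 z2 h h1
  refine hF _ _ (fun e he => ?_) h1
  by_cases hD : e ∈ D
  · rwa [glue_in hD] at he ⊢
  · rw [glue_out hD] at he ⊢
    exact h e he

theorem Sec_ad {A : Set (ι → Bool)} (hA : Ad E A) (z : ι → Bool) :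
    Sec (E z) z A = {_z' | z ∈ A} := by
  ext z'
  exact (hA z (glue (E z) z z') fun e he => (glue_in he).symm).symm

/-! ### domain Markov property -/

theorem Ex.lintegral_eq (h : Ex S E) (w : ι → I) {f : (ι → Bool) → ENNReal} (hf : Measurable f) :
    ∫⁻ z, f z ∂(PB w) = ∫⁻ z, ∫⁻ z', f (Rz808.glue (E z) z z') ∂(PB w) ∂(PB w) := by
  conv_lhs => rw [← h.map_glue w]
  rw [lintegral_map hf h.meas_glue]
  exact lintegral_prod (fun q : (ι → Bool) × (ι → Bool) => f (Rz808.glue (E q.1) q.1 q.2))
    (hf.comp h.meas_glue).aemeasurable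

theorem Ex.integral_eq (h : Ex S E) (w : ι → I) {G : Type*} [NormedAddCommGroup G]
    [NormedSpace ℝ G] {f : (ι → Bool) → G} (hf : Integrable f (PB w)) :
    ∫ z, f z ∂(PB w) = ∫ z, ∫ z', f (Rz808.glue (E z) z z') ∂(PB w) ∂(PB w) := by
  have h1 : Integrable f (((PB w).prod (PB w)).map fun q => Rz808.glue (E q.1) q.1 q.2) := by
    rwa [h.map_glue w]
  conv_lhs => rw [← h.map_glue w]
  rw [integral_map h.meas_glue.aemeasurable h1.aestronglyMeasurable]
  exact integral_prod _ (h1.comp_measurable h.meas_glue)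

theorem Ex.measure_eq (h : Ex S E) (w : ι → I) {F : Set (ι → Bool)} (hF : MeasurableSet F) :
    PB w F = ∫⁻ z, PB w (Sec (E z) z F) ∂(PB w) := by
  conv_lhs => rw [← h.map_glue w]
  rw [Measure.map_apply h.meas_glue hF, Measure.prod_apply (h.meas_glue hF)]
  rfl

theorem Ex.meas_sec (h : Ex S E) (w : ι → I) {F : Set (ι → Bool)} (hF : MeasurableSet F) :
    Measurable fun z => PB w (Sec (E z) z F) :=
  measurable_measure_prodMk_left (h.meas_glue hF)

/-- restriction to an event that depends on the revealed configuration -/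
theorem Ex.measure_ad (h : Ex S E) (w : ι → I) {A F : Set (ι → Bool)} (hA : Ad E A)
    (hF : MeasurableSet F) :
    PB w (A ∩ F) = ∫⁻ z in A, PB w (Sec (E z) z F) ∂(PB w) := by
  have hAm : MeasurableSet A := (h.dep hA).measurableSet
  rw [h.measure_eq w (hAm.inter hF), ← lintegral_indicator hAm]
  refine lintegral_congr fun z => ?_
  rw [Sec_inter, Sec_ad hA]
  by_cases hz : z ∈ A
  · rw [Set.indicator_of_mem hz]
    congr 1
    ext z'
    simp [hz]
  · rw [Set.indicator_of_notMem hz]
    have : ({_z' | z ∈ A} ∩ Sec (E z) z F : Set (ι → Bool)) = ∅ := by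
      ext z'
      simp [hz]
    rw [this, measure_empty]

/-- **domain Markov, upper bound** -/
theorem Ex.reveal_le (h : Ex S E) (w : ι → I) {A F : Set (ι → Bool)} (hA : Ad E A)
    (hF : MeasurableSet F) {c : ℝ} (hc0 : 0 ≤ c) (hc : ∀ z ∈ A, (PB w).real (Sec (E z) z F) ≤ c) :
    (PB w).real (A ∩ F) ≤ c * (PB w).real A := by
  have hAm : MeasurableSet A := (h.dep hA).measurableSet
  have h1 : PB w (A ∩ F) ≤ ENNReal.ofReal c * PB w A := by
    rw [h.measure_ad w hA hF, ← setLIntegral_const]
    refine setLIntegral_mono measurable_const fun z hz => ?_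
    rw [← ENNReal.ofReal_toReal (measure_ne_top (PB w) (Sec (E z) z F))]
    exact ENNReal.ofReal_le_ofReal (hc z hz)
  have h2 := ENNReal.toReal_mono (ENNReal.mul_ne_top ENNReal.ofReal_ne_top (measure_ne_top _ _)) h1
  rwa [ENNReal.toReal_mul, ENNReal.toReal_ofReal hc0] at h2

/-- **domain Markov, lower bound** -/
theorem Ex.reveal_ge (h : Ex S E) (w : ι → I) {A F : Set (ι → Bool)} (hA : Ad E A)
    (hF : MeasurableSet F) {c : ℝ} (hc0 : 0 ≤ c) (hc : ∀ z ∈ A, c ≤ (PB w).real (Sec (E z) z F)) :
    c * (PB w).real A ≤ (PB w).real (A ∩ F) := by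
  have hAm : MeasurableSet A := (h.dep hA).measurableSet
  have h1 : ENNReal.ofReal c * PB w A ≤ PB w (A ∩ F) := by
    rw [h.measure_ad w hA hF, ← setLIntegral_const]
    refine setLIntegral_mono (h.meas_sec w hF) fun z hz => ?_
    rw [← ENNReal.ofReal_toReal (measure_ne_top (PB w) (Sec (E z) z F))]
    exact ENNReal.ofReal_le_ofReal (hc z hz)
  have h2 := ENNReal.toReal_mono (measure_ne_top _ _) h1
  rwa [ENNReal.toReal_mul, ENNReal.toReal_ofReal hc0] at h2

/-- **conditional Harris inequality for the fresh coordinates**: `F`, `G` increasing off the revealed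
set, `P(F | revealed) ≥ c` on `A` ⟹ `P(A ∩ F ∩ G) ≥ c P(A ∩ G)` -/
theorem Ex.fkg (h : Ex S E) (w : ι → I) {A F G : Set (ι → Bool)} {T U : Finset ι} (hA : Ad E A)
    (hF : Dep T F) (hG : Dep U G) (iF : ∀ z ∈ A, Inc (Sec (E z) z F))
    (iG : ∀ z ∈ A, Inc (Sec (E z) z G)) {c : ℝ} (hc0 : 0 ≤ c)
    (hc : ∀ z ∈ A, c ≤ (PB w).real (Sec (E z) z F)) :
    c * (PB w).real (A ∩ G) ≤ (PB w).real (A ∩ (F ∩ G)) := by
  classical
  have hAm : MeasurableSet A := (h.dep hA).measurableSet
  have h1 : ENNReal.ofReal c * PB w (A ∩ G) ≤ PB w (A ∩ (F ∩ G)) := by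
    rw [h.measure_ad w hA hG.measurableSet,
      h.measure_ad w hA (hF.measurableSet.inter hG.measurableSet),
      ← lintegral_const_mul _ (h.meas_sec w hG.measurableSet)]
    refine setLIntegral_mono (h.meas_sec w (hF.measurableSet.inter hG.measurableSet))
      fun z hz => ?_
    have h3 := harris w (dep_Sec hF (E z) z) (dep_Sec hG (E z) z) (iF z hz) (iG z hz)
    rw [Sec_inter, ← ENNReal.ofReal_toReal (measure_ne_top (PB w) (Sec (E z) z G)),
      ← ENNReal.ofReal_toReal (measure_ne_top (PB w) (Sec (E z) z F ∩ Sec (E z) z G)),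
      ← ENNReal.ofReal_mul hc0]
    refine ENNReal.ofReal_le_ofReal (le_trans ?_ h3)
    exact mul_le_mul_of_nonneg_right (hc z hz) measureReal_nonneg
  have h2 := ENNReal.toReal_mono (measure_ne_top _ _) h1
  rwa [ENNReal.toReal_mul, ENNReal.toReal_ofReal hc0] at h2

/-- Harris inequality for one increasing and one decreasing event -/
theorem harris_dec (w : ι → I) {T U : Finset ι} {F G : Set (ι → Bool)} (hF : Dep T F)
    (hG : Dep U G) (iF : Inc F) (iG : Inc Gᶜ) :
    (PB w).real (F ∩ G) ≤ (PB w).real F * (PB w).real G := by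
  have h1 := harris w hF hG.compl iF iG
  have h2 : (PB w).real (F ∩ G) + (PB w).real (F ∩ Gᶜ) = (PB w).real F := by
    have := measureReal_inter_add_sdiff (μ := PB w) (s := F) hG.measurableSet
    rwa [Set.sdiff_eq] at this
  have h3 : (PB w).real Gᶜ = 1 - (PB w).real G := probReal_compl_eq_one_sub hG.measurableSet
  rw [h3] at h1
  nlinarith

/-- **conditional Harris inequality, opposite monotonicity**: `F` increasing, `G` decreasing off the
revealed set, `P(F | revealed) ≤ c` on `A` ⟹ `P(A ∩ F ∩ G) ≤ c P(A ∩ G)` -/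
theorem Ex.fkg_dec (h : Ex S E) (w : ι → I) {A F G : Set (ι → Bool)} {T U : Finset ι}
    (hA : Ad E A) (hF : Dep T F) (hG : Dep U G) (iF : ∀ z ∈ A, Inc (Sec (E z) z F))
    (iG : ∀ z ∈ A, Inc (Sec (E z) z Gᶜ)) {c : ℝ} (hc0 : 0 ≤ c)
    (hc : ∀ z ∈ A, (PB w).real (Sec (E z) z F) ≤ c) :
    (PB w).real (A ∩ (F ∩ G)) ≤ c * (PB w).real (A ∩ G) := by
  classical
  have h1 : PB w (A ∩ (F ∩ G)) ≤ ENNReal.ofReal c * PB w (A ∩ G) := by
    rw [h.measure_ad w hA hG.measurableSet,
      h.measure_ad w hA (hF.measurableSet.inter hG.measurableSet),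
      ← lintegral_const_mul _ (h.meas_sec w hG.measurableSet)]
    refine setLIntegral_mono ((h.meas_sec w hG.measurableSet).const_mul _) fun z hz => ?_
    have h3 := harris_dec w (dep_Sec hF (E z) z) (dep_Sec hG (E z) z) (iF z hz) (iG z hz)
    rw [Sec_inter, ← ENNReal.ofReal_toReal (measure_ne_top (PB w) (Sec (E z) z G)),
      ← ENNReal.ofReal_toReal (measure_ne_top (PB w) (Sec (E z) z F ∩ Sec (E z) z G)),
      ← ENNReal.ofReal_mul hc0]
    refine ENNReal.ofReal_le_ofReal (h3.trans ?_)
    exact mul_le_mul_of_nonneg_right (hc z hz) measureReal_nonneg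
  have h2 := ENNReal.toReal_mono (ENNReal.mul_ne_top ENNReal.ofReal_ne_top (measure_ne_top _ _)) h1
  rwa [ENNReal.toReal_mul, ENNReal.toReal_ofReal hc0] at h2

/-- **reveal formula** for a fresh event that depends on the revealed set only -/
theorem Ex.reveal_eq (h : Ex S E) (w : ι → I) {A : Set (ι → Bool)} (hA : Ad E A)
    {B : Finset ι → Set (ι → Bool)} {T : Finset ι → Finset ι} (hT : ∀ D, Disjoint D (T D))
    (hB : ∀ D, Dep (T D) (B D)) :
    (PB w).real (A ∩ {z | z ∈ B (E z)}) =
      ∑ D ∈ S.powerset, (PB w).real (A ∩ {z | E z = D}) * (PB w).real (B D) := by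
  classical
  have h1 : A ∩ {z | z ∈ B (E z)} = ⋃ D ∈ S.powerset, ((A ∩ {z | E z = D}) ∩ B D) := by
    ext z
    simp only [Set.mem_iUnion, Set.mem_inter_iff, Set.mem_ofPred_eq, exists_prop,
      Finset.mem_powerset]
    constructor
    · rintro ⟨h2, h3⟩
      exact ⟨E z, h.sub z, ⟨h2, rfl⟩, h3⟩
    · rintro ⟨D, _, ⟨h2, rfl⟩, h3⟩
      exact ⟨h2, h3⟩
  rw [h1, measureReal_biUnion_finset]
  · refine Finset.sum_congr rfl fun D _ => ?_
    exact PB_indep_real w (hT D) (h.dep_ad hA D) (hB D)
  · intro D _ D' _ hne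
    refine Set.disjoint_left.2 fun z h2 h3 => hne ?_
    exact (h2.1.2 : E z = D).symm.trans h3.1.2
  · intro D _
    exact (h.dep_ad hA D).measurableSet.inter (hB D).measurableSet

end Crest.Agent.R158.Rz808
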