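import Crest.Agent.R158.Rz2_808

/-!
# Row 158 (helper808), resampling, part 3: constructors of explorations

* `Ex.const`, `Ex.union`, `Ex.seq` (second exploration chosen from the revealed configuration of the
  first one), `Ex.comp_not` (dual colour)
* `Cls s t S Sd z` : union of the open clusters (edges of the finite set `S`, end points `s`, `t`) of the
  seeds `Sd`; `clE` : edges of `S` that touch it; `ex_clE : Ex S (clE s t S Sd)`, `adf_Cls`,
  `Cls_congr`, boundary edges are closed
-/

set_option autoImplicit false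

noncomputable section

namespace Crest.Agent.R158.Rz808

open MeasureTheory unitInterval Rs689

variable {ι : Type*} {S : Finset ι} {E : (ι → Bool) → Finset ι}

/-- nothing random is explored -/
theorem Ex.const {D : Finset ι} (h : D ⊆ S) : Ex S fun _ : ι → Bool => D :=
  ⟨fun _ => h, fun _ _ _ => rfl⟩

theorem Ex.mono {S' : Finset ι} (h : Ex S E) (hS : S ⊆ S') : Ex S' E :=
  ⟨fun z => (h.sub z).trans hS, h.self⟩

open Classical in
/-- two explorations together -/
theorem Ex.union (h : Ex S E) {S' : Finset ι} {E' : (ι → Bool) → Finset ι} (h' : Ex S' E') :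
    Ex (S ∪ S') fun z => E z ∪ E' z := by
  refine ⟨fun z => Finset.union_subset_union (h.sub z) (h'.sub z), fun z z' hz => ?_⟩
  rw [h.self z z' fun e he => hz e (Finset.mem_union_left _ he),
    h'.self z z' fun e he => hz e (Finset.mem_union_right _ he)]

open Classical in
/-- **sequential exploration**: `E2 z0` is the exploration performed when the first one has revealed
`z0` on `E z0` -/
theorem Ex.seq (h : Ex S E) {S' : Finset ι} {E2 : (ι → Bool) → (ι → Bool) → Finset ι}
    (h2 : ∀ z0, Ex S' (E2 z0)) (h3 : AdF E E2) :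
    Ex (S ∪ S') fun z => E z ∪ E2 z z := by
  refine ⟨fun z => Finset.union_subset_union (h.sub z) ((h2 z).sub z), fun z z' hz => ?_⟩
  have h4 : E z' = E z := h.self z z' fun e he => hz e (Finset.mem_union_left _ he)
  have h5 : E2 z' = E2 z := h3 z z' fun e he => hz e (Finset.mem_union_left _ he)
  rw [h4, h5, (h2 z).self z z' fun e he => hz e (Finset.mem_union_right _ he)]

/-- the other colour -/
theorem Ex.comp_not (h : Ex S E) : Ex S fun z => E fun e => !z e :=
  ⟨fun z => h.sub _, fun z z' hz => h.self _ _ fun e he => by rw [hz e he]⟩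

theorem AdF.comp_not {α : Type*} {K : (ι → Bool) → α} (h : AdF E K) :
    AdF (fun z => E fun e => !z e) fun z => K fun e => !z e :=
  fun z z' hz => h _ _ fun e he => by rw [hz e he]

/-- functions of the revealed configuration of a smaller exploration -/
theorem AdF.mono {α : Type*} {K : (ι → Bool) → α} {E' : (ι → Bool) → Finset ι}
    (h : AdF E K) (hE : ∀ z, E z ⊆ E' z) : AdF E' K :=
  fun z z' hz => h z z' fun e he => hz e (hE z he)

theorem Ad.mono {A : Set (ι → Bool)} {E' : (ι → Bool) → Finset ι} (h : Ad E A)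
    (hE : ∀ z, E z ⊆ E' z) : Ad E' A :=
  fun z z' hz => h z z' fun e he => hz e (hE z he)

theorem AdF.comp {α β : Type*} {K : (ι → Bool) → α} (h : AdF E K) (f : α → β) :
    AdF E fun z => f (K z) := fun z z' hz => congrArg f (h z z' hz)

theorem AdF.prod {α β : Type*} {K : (ι → Bool) → α} {L : (ι → Bool) → β} (h : AdF E K)
    (h' : AdF E L) : AdF E fun z => (K z, L z) :=
  fun z z' hz => Prod.ext (h z z' hz) (h' z z' hz)

theorem Ex.adf (h : Ex S E) : AdF E E := h.self

/-! ### cluster explorations -/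

section cluster

variable {V : Type*} (s t : ι → V) (S : Finset ι) (Sd : Set V)

/-- one step along an open edge of `S` -/
def Lnk (z : ι → Bool) (u v : V) : Prop :=
  ∃ e ∈ S, z e = true ∧ ((u = s e ∧ v = t e) ∨ (u = t e ∧ v = s e))

/-- union of the open clusters of the seeds -/
def Cls (z : ι → Bool) : Set V := {v | ∃ u ∈ Sd, Relation.ReflTransGen (Lnk s t S z) u v}

open Classical in
/-- the edges of `S` that touch the clusters of the seeds -/
def clE (z : ι → Bool) : Finset ι := S.filter fun e => s e ∈ Cls s t S Sd z ∨ t e ∈ Cls s t S Sd z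

variable {s t S Sd}

theorem Lnk.symm {z : ι → Bool} {u v : V} (h : Lnk s t S z u v) : Lnk s t S z v u := by
  obtain ⟨e, he, hz, h | h⟩ := h
  · exact ⟨e, he, hz, Or.inr ⟨h.2, h.1⟩⟩
  · exact ⟨e, he, hz, Or.inl ⟨h.2, h.1⟩⟩

theorem mem_clE {z : ι → Bool} {e : ι} :
    e ∈ clE s t S Sd z ↔ e ∈ S ∧ (s e ∈ Cls s t S Sd z ∨ t e ∈ Cls s t S Sd z) := by
  simp [clE]

theorem seed_mem {z : ι → Bool} {u : V} (hu : u ∈ Sd) : u ∈ Cls s t S Sd z := ⟨u, hu, .refl⟩

theorem Cls_step {z : ι → Bool} {u v : V} (hu : u ∈ Cls s t S Sd z) (h : Lnk s t S z u v) :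
    v ∈ Cls s t S Sd z := by
  obtain ⟨a, ha, hau⟩ := hu
  exact ⟨a, ha, hau.tail h⟩

theorem Cls_conn {z : ι → Bool} {u v : V} (hu : u ∈ Cls s t S Sd z)
    (h : Relation.ReflTransGen (Lnk s t S z) u v) : v ∈ Cls s t S Sd z := by
  obtain ⟨a, ha, hau⟩ := hu
  exact ⟨a, ha, hau.trans h⟩

/-- an edge of `S` with exactly one end point in the cluster is closed -/
theorem closed_of_bd {z : ι → Bool} {e : ι} (he : e ∈ S)
    (h : ¬ (s e ∈ Cls s t S Sd z ↔ t e ∈ Cls s t S Sd z)) : z e = false := by
  by_contra hz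
  rw [Bool.not_eq_false] at hz
  refine h ⟨fun h1 => ?_, fun h1 => ?_⟩
  · exact Cls_step h1 ⟨e, he, hz, Or.inl ⟨rfl, rfl⟩⟩
  · exact Cls_step h1 ⟨e, he, hz, Or.inr ⟨rfl, rfl⟩⟩

theorem Cls_sub {z z' : ι → Bool} (h : ∀ e ∈ clE s t S Sd z, z e = z' e) :
    Cls s t S Sd z ⊆ Cls s t S Sd z' := by
  rintro v ⟨u, hu, huv⟩
  induction huv with
  | refl => exact seed_mem hu
  | tail h1 h2 ih =>
    rename_i b c
    have hb : b ∈ Cls s t S Sd z := ⟨u, hu, h1⟩
    obtain ⟨e, he, hz, h3⟩ := h2
    have he' : e ∈ clE s t S Sd z := by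
      rw [mem_clE]
      refine ⟨he, ?_⟩
      rcases h3 with ⟨h4, _⟩ | ⟨h4, _⟩
      · left; rw [← h4]; exact hb
      · right; rw [← h4]; exact hb
    exact Cls_step ih ⟨e, he, (h e he') ▸ hz, h3⟩

/-- the clusters depend only on the edges that touch them -/
theorem Cls_congr {z z' : ι → Bool} (h : ∀ e ∈ clE s t S Sd z, z e = z' e) :
    Cls s t S Sd z' = Cls s t S Sd z := by
  refine Set.Subset.antisymm ?_ (Cls_sub h)
  rintro v ⟨u, hu, huv⟩
  induction huv with
  | refl => exact seed_mem hu
  | tail h1 h2 ih =>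
    rename_i b c
    obtain ⟨e, he, hz, h3⟩ := h2
    have he' : e ∈ clE s t S Sd z := by
      rw [mem_clE]
      refine ⟨he, ?_⟩
      rcases h3 with ⟨h4, _⟩ | ⟨h4, _⟩
      · left; rw [← h4]; exact ih
      · right; rw [← h4]; exact ih
    exact Cls_step ih ⟨e, he, (h e he').symm ▸ hz, h3⟩

/-- **cluster exploration** -/
theorem ex_clE : Ex S (clE s t S Sd) := by
  classical
  refine ⟨fun z => Finset.filter_subset _ _, fun z z' h => ?_⟩
  ext e
  rw [mem_clE, mem_clE, Cls_congr h]

theorem adf_Cls : AdF (clE s t S Sd) (Cls s t S Sd) := fun _ _ h => Cls_congr h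

/-- connections inside the revealed clusters are revealed -/
theorem adf_conn {u : V} (hu : u ∈ Sd) :
    AdF (clE s t S Sd) fun z => {v | Relation.ReflTransGen (Lnk s t S z) u v} := by
  intro z z' h
  have key : ∀ {z z' : ι → Bool}, (∀ e ∈ clE s t S Sd z, z e = z' e) → ∀ {v : V},
      Relation.ReflTransGen (Lnk s t S z) u v → Relation.ReflTransGen (Lnk s t S z') u v := by
    intro z z' h v hv
    induction hv with
    | refl => exact .refl
    | tail h1 h2 ih =>
      rename_i b c
      have hb : b ∈ Cls s t S Sd z := ⟨u, hu, h1⟩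
      obtain ⟨e, he, hz, h3⟩ := h2
      have he' : e ∈ clE s t S Sd z := by
        rw [mem_clE]
        refine ⟨he, ?_⟩
        rcases h3 with ⟨h4, _⟩ | ⟨h4, _⟩
        · left; rw [← h4]; exact hb
        · right; rw [← h4]; exact hb
      exact ih.tail ⟨e, he, (h e he') ▸ hz, h3⟩
  have h' : ∀ e ∈ clE s t S Sd z', z' e = z e := by
    intro e he
    have : e ∈ clE s t S Sd z := by rwa [ex_clE.self z z' h] at he
    exact (h e this).symm
  ext v
  exact ⟨key h', key h⟩

/-- in the glued configuration the clusters are unchanged -/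
theorem Cls_glue (z z' : ι → Bool) :
    Cls s t S Sd (glue (clE s t S Sd z) z z') = Cls s t S Sd z :=
  Cls_congr fun _ he => (glue_in he).symm

variable (s t S Sd) in
open Classical in
/-- the fresh edges: edges of `S` with both end points off the clusters -/
def frE (z : ι → Bool) : Finset ι :=
  S.filter fun e => s e ∉ Cls s t S Sd z ∧ t e ∉ Cls s t S Sd z

theorem mem_frE {z : ι → Bool} {e : ι} :
    e ∈ frE s t S Sd z ↔ e ∈ S ∧ s e ∉ Cls s t S Sd z ∧ t e ∉ Cls s t S Sd z := by
  simp [frE]

theorem mem_frE' {z : ι → Bool} {e : ι} :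
    e ∈ frE s t S Sd z ↔ e ∈ S ∧ e ∉ clE s t S Sd z := by
  rw [mem_frE, mem_clE]; tauto

theorem frE_disj (z : ι → Bool) : Disjoint (clE s t S Sd z) (frE s t S Sd z) :=
  Finset.disjoint_left.2 fun _ h h' => (mem_frE'.1 h').2 h

theorem frE_sub (z : ι → Bool) : frE s t S Sd z ⊆ S := fun _ h => (mem_frE.1 h).1

theorem adf_frE : AdF (clE s t S Sd) (frE s t S Sd) := by
  intro z z' h
  ext e
  rw [mem_frE, mem_frE, Cls_congr h]

/-- off the clusters, connections of the glued configuration are connections of the fresh one -/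
theorem conn_glue_off {z z' : ι → Bool} {u v : V} (hu : u ∉ Cls s t S Sd z) :
    Relation.ReflTransGen (Lnk s t S (glue (clE s t S Sd z) z z')) u v ↔
      Relation.ReflTransGen (Lnk s t (frE s t S Sd z) z') u v := by
  classical
  constructor
  · intro h
    have : v ∉ Cls s t S Sd z ∧
        Relation.ReflTransGen (Lnk s t (frE s t S Sd z) z') u v := by
      induction h with
      | refl => exact ⟨hu, .refl⟩
      | tail h1 h2 ih =>
        rename_i b c
        obtain ⟨hb, ih⟩ := ih
        have hc : c ∉ Cls s t S Sd z := by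
          intro hc
          rw [← Cls_glue z z'] at hc
          refine hb ?_
          rw [← Cls_glue z z']
          exact Cls_step hc h2.symm
        obtain ⟨e, he, hz, h3⟩ := h2
        have he' : e ∉ clE s t S Sd z := by
          rw [mem_clE]
          rintro ⟨_, h4⟩
          rcases h3 with ⟨h5, h6⟩ | ⟨h5, h6⟩ <;> rcases h4 with h4 | h4
          · exact hb (h5 ▸ h4)
          · exact hc (h6 ▸ h4)
          · exact hc (h6 ▸ h4)
          · exact hb (h5 ▸ h4)
        rw [glue_out he'] at hz
        exact ⟨hc, ih.tail ⟨e, mem_frE'.2 ⟨he, he'⟩, hz, h3⟩⟩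
    exact this.2
  · intro h
    refine Relation.ReflTransGen.mono ?_ _ _ h
    rintro a b ⟨e, he, hz, h3⟩
    obtain ⟨he1, he2⟩ := mem_frE'.1 he
    exact ⟨e, he1, by rw [glue_out he2]; exact hz, h3⟩

end cluster

end Crest.Agent.R158.Rz808
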