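import Crest.Agent.R158.Rz3_808
import Crest.Agent.R161.Tas1_682

/-!
# Row 158 (helper808), resampling, part 4: cluster explorations on `ℤ²`

* `oc_iff`, `rtg_iff` : `Tas682.OC z A` and `ReflTransGen (PStep ..)` as `Lnk` connections
* `ex_prim`, `ex_dual` : explorations of the open clusters / dual closed clusters of a seed set
-/

set_option autoImplicit false

noncomputable section

namespace Crest.Agent.R158.Rz808

open MeasureTheory unitInterval Rs689
open Crest.Agent.R161.Geo729 Crest.Agent.R161.Topo374 Crest.Agent.R161.Dual374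
open Crest.Agent.R161.Tas682

theorem lnk_iff {S : Finset Edge} {z : Edge → Bool} {u v : P2} :
    Lnk src tgt S z u v ↔ PStep (fun e => e ∈ S ∧ z e = true) u v := by
  constructor
  · rintro ⟨e, he, hz, h⟩
    exact ⟨e, ⟨he, hz⟩, h⟩
  · rintro ⟨e, ⟨he, hz⟩, h⟩
    exact ⟨e, he, hz, h⟩

theorem rtg_iff {S : Finset Edge} {z : Edge → Bool} {u v : P2} :
    Relation.ReflTransGen (Lnk src tgt S z) u v ↔
      Relation.ReflTransGen (PStep (fun e => e ∈ S ∧ z e = true)) u v := by
  have h : Lnk src tgt S z = PStep (fun e => e ∈ S ∧ z e = true) := by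
    funext u v
    exact propext lnk_iff
  rw [h]

/-- connections inside a finite vertex set -/
theorem oc_iff {A : Set P2} {T : Finset Edge} (hT : ∀ e, e ∈ T ↔ src e ∈ A ∧ tgt e ∈ A)
    {z : Edge → Bool} {u v : P2} :
    OC z A u v ↔ u ∈ A ∧ Relation.ReflTransGen (Lnk src tgt T z) u v := by
  have h : OStep z A = Lnk src tgt T z := by
    funext a b
    refine propext ⟨?_, ?_⟩
    · rintro ⟨⟨e, he, h⟩, ha, hb⟩
      refine ⟨e, (hT e).2 ?_, he, h⟩
      rcases h with ⟨rfl, rfl⟩ | ⟨rfl, rfl⟩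
      · exact ⟨ha, hb⟩
      · exact ⟨hb, ha⟩
    · rintro ⟨e, he, hz, h⟩
      obtain ⟨h1, h2⟩ := (hT e).1 he
      refine ⟨⟨e, hz, h⟩, ?_⟩
      rcases h with ⟨rfl, rfl⟩ | ⟨rfl, rfl⟩
      · exact ⟨h1, h2⟩
      · exact ⟨h2, h1⟩
  unfold OC
  rw [h]

/-- dual steps -/
theorem dlnk_iff {S : Finset Edge} {z : Edge → Bool} {f g : P2} :
    Lnk fA fB S (fun e => !z e) f g ↔ DStep (fun e => e ∈ S ∧ ¬ z e = true) f g := by
  constructor
  · rintro ⟨e, he, hz, h⟩
    exact ⟨e, ⟨he, by simpa using hz⟩, h⟩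
  · rintro ⟨e, ⟨he, hz⟩, h⟩
    exact ⟨e, he, by simpa using hz, h⟩

theorem drtg_iff {S : Finset Edge} {z : Edge → Bool} {f g : P2} :
    Relation.ReflTransGen (Lnk fA fB S (fun e => !z e)) f g ↔
      Relation.ReflTransGen (DStep (fun e => e ∈ S ∧ ¬ z e = true)) f g := by
  have h : Lnk fA fB S (fun e => !z e) = DStep (fun e => e ∈ S ∧ ¬ z e = true) := by
    funext u v
    exact propext dlnk_iff
  rw [h]

/-- edges of `S` that touch the open clusters of the seeds -/
def prE (S : Finset Edge) (Sd : Set P2) (z : Edge → Bool) : Finset Edge := clE src tgt S Sd z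

/-- vertices of the open clusters of the seeds -/
def prC (S : Finset Edge) (Sd : Set P2) (z : Edge → Bool) : Set P2 := Cls src tgt S Sd z

/-- edges of `S` that touch the dual closed clusters of the seed faces -/
def duE (S : Finset Edge) (Sd : Set P2) (z : Edge → Bool) : Finset Edge :=
  clE fA fB S Sd fun e => !z e

/-- faces of the dual closed clusters of the seed faces -/
def duC (S : Finset Edge) (Sd : Set P2) (z : Edge → Bool) : Set P2 :=
  Cls fA fB S Sd fun e => !z e

variable {S : Finset Edge} {Sd : Set P2}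

theorem mem_prE {z : Edge → Bool} {e : Edge} :
    e ∈ prE S Sd z ↔ e ∈ S ∧ (src e ∈ prC S Sd z ∨ tgt e ∈ prC S Sd z) := mem_clE

theorem mem_duE {z : Edge → Bool} {e : Edge} :
    e ∈ duE S Sd z ↔ e ∈ S ∧ (fA e ∈ duC S Sd z ∨ fB e ∈ duC S Sd z) := mem_clE

theorem mem_prC {z : Edge → Bool} {v : P2} : v ∈ prC S Sd z ↔
    ∃ u ∈ Sd, Relation.ReflTransGen (PStep (fun e => e ∈ S ∧ z e = true)) u v := by
  unfold prC Cls
  simp only [rtg_iff, Set.mem_ofPred_eq]

theorem mem_duC {z : Edge → Bool} {f : P2} : f ∈ duC S Sd z ↔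
    ∃ g ∈ Sd, Relation.ReflTransGen (DStep (fun e => e ∈ S ∧ ¬ z e = true)) g f := by
  unfold duC Cls
  simp only [drtg_iff, Set.mem_ofPred_eq]

/-- **exploration of the open clusters of the seeds** -/
theorem ex_prim : Ex S (prE S Sd) := ex_clE

/-- **exploration of the dual clusters of the seeds** -/
theorem ex_dual : Ex S (duE S Sd) := ex_clE.comp_not

theorem adf_prC : AdF (prE S Sd) (prC S Sd) := adf_Cls

theorem adf_duC : AdF (duE S Sd) (duC S Sd) := adf_Cls.comp_not

/-- edges of `S` with one end point in the explored clusters are closed -/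
theorem prC_closed {z : Edge → Bool} {e : Edge} (he : e ∈ S)
    (h : ¬ (src e ∈ prC S Sd z ↔ tgt e ∈ prC S Sd z)) : z e = false := closed_of_bd he h

/-- edges of `S` between an explored dual cluster and the rest are open -/
theorem duC_open {z : Edge → Bool} {e : Edge} (he : e ∈ S)
    (h : ¬ (fA e ∈ duC S Sd z ↔ fB e ∈ duC S Sd z)) : z e = true := by
  have := closed_of_bd (z := fun e => !z e) he h
  simpa using this

end Crest.Agent.R158.Rz808
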