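import Crest.Agent.R158.Sp0_580

/-!
# Row 158, Block SEP2 (helper689): literal interfaces of the two-arm version

One open arm from `(0,0)`, one dual arm from a face `f` close to `(0,0)`; names as in `Sp0_580`.

* `FI R`, `FIb R` : inner faces of `Sq R`, boundary faces
* `A2 f R` : two arms to distance `R`
* `U2P`, `U2D`, `U2` : inner landing events; `O2P`, `O2D`, `O2` : outer landing events
* `Nice2P`, `Nice2D`, `Nice2` : open arm at the east gate, dual arm at the west gate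
* `Glued2` : two arms to given targets
-/

set_option autoImplicit false

noncomputable section

namespace Crest.Agent.R158.Sb689

open MeasureTheory ProbabilityTheory unitInterval
open Crest.Agent.R161.Geo729 Crest.Agent.R161.Topo374 Crest.Agent.R161.Dual374
open Crest.Agent.R161.Tas682 Crest.Agent.R158.Rs689 Crest.Agent.R158.Ru874
open Crest.Agent.R158.Sp580

/-- inner faces of `Sq R` -/
def FI (R : ℤ) : Set P2 := Rect (-R) (R - 1) (-R) (R - 1)

/-- boundary faces of `FI R` -/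
def FIb (R : ℤ) : Set P2 := FI R ∩ {g | g.1 = -R ∨ g.1 = R - 1 ∨ g.2 = -R ∨ g.2 = R - 1}

theorem mem_FI {R : ℤ} {v : P2} :
    v ∈ FI R ↔ -R ≤ v.1 ∧ v.1 ≤ R - 1 ∧ -R ≤ v.2 ∧ v.2 ≤ R - 1 := Iff.rfl

theorem FI_sub (R : ℤ) : FI R ⊆ FSq R := by
  intro v hv
  rw [mem_FI] at hv
  rw [mem_FSq]
  omega

theorem FI_finite (R : ℤ) : (FI R).Finite := rect_finite _ _ _ _

/-- **Two arms**: `(0,0)` is joined to `{sd = R}`, the face `f` to the boundary faces. -/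
def A2 (f : P2) (R : ℤ) : Set Cf :=
  {z | Arm z (Sp580.Sq R) {v | sd (0, 0) v = R} (0, 0) ∧ Arm (dual z) (FI R) (FIb R) f}

/-! ### inner landing events -/

/-- open arm landing in `k1`, off the block of `k2` -/
def U2P (R : ℤ) (n : ℕ) (k1 k2 : P2) : Set Cf :=
  {z | Arm z (Sp580.Sq R \ Bk n k2 8) (Bk n k1 1) (0, 0)}

/-- dual arm of `f` landing in `k2`, off the block of `k1` -/
def U2D (f : P2) (R : ℤ) (n : ℕ) (k1 k2 : P2) : Set Cf :=
  {z | Arm (dual z) (FSq R \ Bk n k1 8) (Bk n k2 1) f}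

def U2 (f : P2) (R : ℤ) (n : ℕ) (k1 k2 : P2) : Set Cf := U2P R n k1 k2 ∩ U2D f R n k1 k2

/-! ### outer landing events -/

/-- open arm outside `Sq ρ`, inside `L`, from `k1` to `P`, off the block of `k2` -/
def O2P (L : Set P2) (ρ : ℤ) (n : ℕ) (k1 k2 : P2) (P : Set P2) : Set Cf :=
  {z | ∃ a ∈ Bk n k1 1, Arm z (OutV L ρ \ Bk n k2 8) P a}

/-- dual arm outside `Sq ρ`, inside `FL`, from `k2` to `Q`, off the block of `k1` -/
def O2D (FL : Set P2) (ρ : ℤ) (n : ℕ) (k1 k2 : P2) (Q : Set P2) : Set Cf :=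
  {z | ∃ a ∈ Bk n k2 1, Arm (dual z) (OutF FL ρ \ Bk n k1 8) Q a}

def O2 (L FL : Set P2) (ρ : ℤ) (n : ℕ) (k1 k2 : P2) (P Q : Set P2) : Set Cf :=
  O2P L ρ n k1 k2 P ∩ O2D FL ρ n k1 k2 Q

/-! ### nice two arms, glued event -/

/-- open part of the nice event: east gate -/
def Nice2P (n : ℕ) : Set Cf := {z | GArm z 0 n (0, 0)}

/-- dual part of the nice event: west gate -/
def Nice2D (f : P2) (n : ℕ) : Set Cf := {z | GArm (dual z) 2 n f}

/-- nice two arms -/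
def Nice2 (f : P2) (n : ℕ) : Set Cf := Nice2P n ∩ Nice2D f n

/-- two arms to the targets `P`, `Q` inside `L`, `FL` -/
def Glued2 (f : P2) (L FL P Q : Set P2) : Set Cf :=
  {z | Arm z L P (0, 0) ∧ Arm (dual z) FL Q f}

/-! ### locality and monotonicity -/

theorem dep_U2P (R : ℤ) (n : ℕ) (k1 k2 : P2) :
    Dep (edF (Sp580.Sq R \ Bk n k2 8)) (U2P R n k1 k2) :=
  dep_oc ((Sq_finite R).subset Set.sdiff_subset) fun g => ∃ a ∈ Bk n k1 1, g (0, 0) a

theorem dep_U2D (f : P2) (R : ℤ) (n : ℕ) (k1 k2 : P2) :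
    Dep ((edF (FSq R \ Bk n k1 8)).map dE.symm.toEmbedding) (U2D f R n k1 k2) :=
  dep_dual_oc ((FSq_finite R).subset Set.sdiff_subset) fun g => ∃ a ∈ Bk n k2 1, g f a

theorem inc_U2P (R : ℤ) (n : ℕ) (k1 k2 : P2) : Inc (U2P R n k1 k2) :=
  fun _ _ h hz => Arm.mono h subset_rfl subset_rfl hz

theorem decr_U2D (f : P2) (R : ℤ) (n : ℕ) (k1 k2 : P2) : Decr (U2D f R n k1 k2) :=
  fun _ _ h hz => Arm.mono (dual_anti h) subset_rfl subset_rfl hz

theorem dep_O2P {L : Set P2} (hL : L.Finite) (ρ : ℤ) (n : ℕ) (k1 k2 : P2) (P : Set P2) :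
    Dep (edF (OutV L ρ \ Bk n k2 8)) (O2P L ρ n k1 k2 P) :=
  dep_oc (hL.subset (Set.sdiff_subset.trans Set.inter_subset_left)) fun g =>
    ∃ a ∈ Bk n k1 1, ∃ b ∈ P, g a b

theorem dep_O2D {FL : Set P2} (hL : FL.Finite) (ρ : ℤ) (n : ℕ) (k1 k2 : P2) (Q : Set P2) :
    Dep ((edF (OutF FL ρ \ Bk n k1 8)).map dE.symm.toEmbedding) (O2D FL ρ n k1 k2 Q) :=
  dep_dual_oc (hL.subset (Set.sdiff_subset.trans Set.inter_subset_left)) fun g =>
    ∃ a ∈ Bk n k2 1, ∃ b ∈ Q, g a b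

theorem inc_O2P (L : Set P2) (ρ : ℤ) (n : ℕ) (k1 k2 : P2) (P : Set P2) :
    Inc (O2P L ρ n k1 k2 P) := by
  rintro z z' h ⟨a, ha, h1⟩
  exact ⟨a, ha, h1.mono h subset_rfl subset_rfl⟩

theorem decr_O2D (FL : Set P2) (ρ : ℤ) (n : ℕ) (k1 k2 : P2) (Q : Set P2) :
    Decr (O2D FL ρ n k1 k2 Q) := by
  rintro z z' h ⟨a, ha, h1⟩
  exact ⟨a, ha, h1.mono (dual_anti h) subset_rfl subset_rfl⟩

/-- support of `Nice2P` (vertex set) -/
def N2P (n : ℕ) : Set P2 := Sp580.Sq (16 * n) ∪ Corr 0 n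

/-- support of `Nice2D` (face set) -/
def N2D (n : ℕ) : Set P2 := Sp580.Sq (16 * n) ∪ Corr 2 n

theorem N2P_sub (n : ℕ) : N2P n ⊆ Sp580.Sq (32 * n) :=
  Set.union_subset (Sq_sub (by omega)) (Corr_sub 0 n)

theorem N2D_sub (n : ℕ) : N2D n ⊆ Sp580.Sq (32 * n) :=
  Set.union_subset (Sq_sub (by omega)) (Corr_sub 2 n)

theorem N2P_finite (n : ℕ) : (N2P n).Finite := (Sq_finite _).subset (N2P_sub n)

theorem N2D_finite (n : ℕ) : (N2D n).Finite := (Sq_finite _).subset (N2D_sub n)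

theorem dep_Nice2P (n : ℕ) : Dep (edF (N2P n)) (Nice2P n) :=
  fun _ _ h => garm_iff (N2P_finite n) subset_rfl h

theorem dep_Nice2D (f : P2) (n : ℕ) :
    Dep ((edF (N2D n)).map dE.symm.toEmbedding) (Nice2D f n) :=
  fun _ _ h => garm_iff (N2D_finite n) subset_rfl (dual_congr h)

theorem inc_Nice2P (n : ℕ) : Inc (Nice2P n) := fun _ _ h hz => GArm.mono h hz

theorem decr_Nice2D (f : P2) (n : ℕ) : Decr (Nice2D f n) :=
  fun _ _ h hz => GArm.mono (dual_anti h) hz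

theorem dep_A2P (R : ℤ) :
    Dep (edF (Sp580.Sq R)) {z : Cf | Arm z (Sp580.Sq R) {v | sd (0, 0) v = R} (0, 0)} :=
  dep_oc (Sq_finite R) fun g => ∃ a ∈ {v : P2 | sd (0, 0) v = R}, g (0, 0) a

theorem dep_A2D (f : P2) (R : ℤ) :
    Dep ((edF (FI R)).map dE.symm.toEmbedding) {z : Cf | Arm (dual z) (FI R) (FIb R) f} :=
  dep_dual_oc (FI_finite R) fun g => ∃ a ∈ FIb R, g f a

end Crest.Agent.R158.Sb689
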