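import Crest.Agent.R158.Sp4d_874

/-!
# Row 158, Block SEP, S4 (helper874), file e: two tokens

* `tok2_out`, `tok2_in` : two tokens (E and W), from `tok_out`, `tok_in` with two dummy tokens
* `cl_dist`    : sup distance of two cells of a ring is at most the ring distance
* `sep_of_far` : metric separation of two cells of a ring gives separated ring coordinates
-/

set_option autoImplicit false

namespace Crest.Agent.R158.Sp874

open Crest.Agent.R158.Rs689 Crest.Agent.R161.Geo729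

/-- the configuration with two dummy tokens -/
theorem gd_two {a g u v : ℤ} (h1 : u + 2 * g ≤ v) (h2 : v + 2 * g ≤ u + 4 * (2 * a + 1)) :
    Gd a g ![u, (u + v) / 2, v, (v + u + 4 * (2 * a + 1)) / 2] := by
  unfold Gd
  simp only [Matrix.cons_val_zero, Matrix.cons_val_one, Matrix.cons_val]
  omega

open Classical in
/-- **Two outward tokens.** -/
theorem tok2_out {N M : ℤ} (hN : 21 ≤ N) (hM : N + 200 ≤ M) {u v : ℤ} (h1 : u + 52 ≤ v)
    (h2 : v + 52 ≤ u + 4 * (2 * (N - 1) + 1)) :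
    ∃ K K' : Finset P2,
      (ringC (cl (N - 1) u) 3 ⊆ K ∧ ringC (cl (N - 1) v) 3 ⊆ K') ∧
      (∀ c ∈ K, (|c.1 - (cl (N - 1) u).1| ≤ 4 ∧ |c.2 - (cl (N - 1) u).2| ≤ 4) ∨ N + 2 ≤ nr c) ∧
      (∀ c ∈ K', (|c.1 - (cl (N - 1) v).1| ≤ 4 ∧ |c.2 - (cl (N - 1) v).2| ≤ 4) ∨ N + 2 ≤ nr c) ∧
      (∀ c ∈ K ∪ K', N - 4 ≤ nr c ∧ nr c ≤ M) ∧
      ((M, 0) ∈ K ∧ (-1 - M, -1) ∈ K') ∧
      (∀ k ∈ ringC (cl (N - 1) u) 3, CConn (K : Set P2) k (M, 0)) ∧
      (∀ k ∈ ringC (cl (N - 1) v) 3, CConn (K' : Set P2) k (-1 - M, -1)) ∧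
      (∀ c ∈ K, ∀ c' ∈ K', 5 ≤ |c.1 - c'.1| ∨ 5 ≤ |c.2 - c'.2|) ∧
      (∀ c ∈ K, N + 171 ≤ nr c → c = (nr c, 0)) ∧
      (∀ c ∈ K', N + 171 ≤ nr c → c = (-1 - nr c, -1)) ∧
      K.card ≤ (2 * M + 2).toNat ^ 2 ∧ K'.card ≤ (2 * M + 2).toNat ^ 2 := by
  obtain ⟨K, a1, a2, a3, a4, a5, a6, a7, a8⟩ := tok_out hN hM
    (gd_two (a := N - 1) (g := 26) (u := u) (v := v) (by omega) (by omega))
  have e0 : ∀ r : ℤ, rt (((0 : Fin 4) : ℕ) : ℤ) (r, 0) = (r, 0) := fun r => by simp [rt]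
  have e2 : ∀ r : ℤ, rt (((2 : Fin 4) : ℕ) : ℤ) (r, 0) = (-1 - r, -1) := fun r => by
    simp [rt]
  refine ⟨K 0, K 2, ⟨a1 0, a1 2⟩, a2 0, a2 2, ?_, ?_, ?_, ?_, a6 0 2 (by decide), ?_, ?_, a8 0,
    a8 2⟩
  · intro c hc
    rcases Finset.mem_union.1 hc with h | h
    · exact a3 0 c h
    · exact a3 2 c h
  · have := a4 0
    have := a4 2
    rw [e0] at *
    rw [e2] at *
    constructor <;> assumption
  · intro k hk
    have := a5 0 k hk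
    rwa [e0] at this
  · intro k hk
    have := a5 2 k hk
    rwa [e2] at this
  · intro c hc h
    have := a7 0 c hc h
    rwa [e0] at this
  · intro c hc h
    have := a7 2 c hc h
    rwa [e2] at this

open Classical in
/-- **Two inward tokens.** -/
theorem tok2_in {N M : ℤ} (hM0 : 8 ≤ M) (hN : 205 ≤ N) (hMN : M + 185 ≤ N) {u v : ℤ}
    (h1 : u + 840 ≤ v) (h2 : v + 840 ≤ u + 4 * (2 * (N - 1) + 1)) :
    ∃ K K' : Finset P2,
      (ringC (cl (N - 1) u) 3 ⊆ K ∧ ringC (cl (N - 1) v) 3 ⊆ K') ∧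
      (∀ c ∈ K, (|c.1 - (cl (N - 1) u).1| ≤ 4 ∧ |c.2 - (cl (N - 1) u).2| ≤ 4) ∨ nr c ≤ N - 5) ∧
      (∀ c ∈ K', (|c.1 - (cl (N - 1) v).1| ≤ 4 ∧ |c.2 - (cl (N - 1) v).2| ≤ 4) ∨ nr c ≤ N - 5) ∧
      (∀ c ∈ K ∪ K', M ≤ nr c ∧ nr c ≤ N + 3) ∧
      ((M, 0) ∈ K ∧ (-1 - M, -1) ∈ K') ∧
      (∀ k ∈ ringC (cl (N - 1) u) 3, CConn (K : Set P2) k (M, 0)) ∧
      (∀ k ∈ ringC (cl (N - 1) v) 3, CConn (K' : Set P2) k (-1 - M, -1)) ∧
      (∀ c ∈ K, ∀ c' ∈ K', 5 ≤ |c.1 - c'.1| ∨ 5 ≤ |c.2 - c'.2|) ∧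
      (∀ c ∈ K, nr c ≤ N - 177 → c = (nr c, 0)) ∧
      (∀ c ∈ K', nr c ≤ N - 177 → c = (-1 - nr c, -1)) ∧
      K.card ≤ (2 * N + 8).toNat ^ 2 ∧ K'.card ≤ (2 * N + 8).toNat ^ 2 := by
  obtain ⟨K, a1, a2, a3, a4, a5, a6, a7, a8⟩ := tok_in hM0 hN hMN
    (gd_two (a := N - 1) (g := 420) (u := u) (v := v) (by omega) (by omega))
  have e0 : ∀ r : ℤ, rt (((0 : Fin 4) : ℕ) : ℤ) (r, 0) = (r, 0) := fun r => by simp [rt]
  have e2 : ∀ r : ℤ, rt (((2 : Fin 4) : ℕ) : ℤ) (r, 0) = (-1 - r, -1) := fun r => by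
    simp [rt]
  refine ⟨K 0, K 2, ⟨a1 0, a1 2⟩, a2 0, a2 2, ?_, ?_, ?_, ?_, a6 0 2 (by decide), ?_, ?_, a8 0,
    a8 2⟩
  · intro c hc
    rcases Finset.mem_union.1 hc with h | h
    · exact a3 0 c h
    · exact a3 2 c h
  · have := a4 0
    have := a4 2
    rw [e0] at *
    rw [e2] at *
    constructor <;> assumption
  · intro k hk
    have := a5 0 k hk
    rwa [e0] at this
  · intro k hk
    have := a5 2 k hk
    rwa [e2] at this
  · intro c hc h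
    have := a7 0 c hc h
    rwa [e0] at this
  · intro c hc h
    have := a7 2 c hc h
    rwa [e2] at this

/-! ### ring coordinates of given cells -/

/-- adjacent steps: the sup distance of two cells of a ring is at most the difference of the ring
coordinates -/
theorem cl_dist {j : ℤ} (hj : 0 ≤ j) {w w' : ℤ} (h : w ≤ w') :
    |(cl j w').1 - (cl j w).1| ≤ w' - w ∧ |(cl j w').2 - (cl j w).2| ≤ w' - w := by
  obtain ⟨n, rfl⟩ : ∃ n : ℕ, w' = w + n := ⟨(w' - w).toNat, by omega⟩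
  clear h
  induction n with
  | zero => simp
  | succ n ih =>
    have h1 := adj_cl hj (w + n)
    rw [abs_le, abs_le] at ih ⊢
    unfold CAdj at h1
    push_cast
    rw [show w + ((n : ℤ) + 1) = w + n + 1 by ring]
    omega

/-- metric separation gives separated ring coordinates (for `w < w' < w + period`) -/
theorem sep_of_far {j g : ℤ} (hj : 0 ≤ j) {w w' : ℤ} (h : w ≤ w')
    (h2 : w' ≤ w + 4 * (2 * j + 1)) (hf : FarN g (cl j w) (cl j w')) :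
    w + g ≤ w' ∧ w' + g ≤ w + 4 * (2 * j + 1) := by
  have d1 := cl_dist hj h
  have d2 := cl_dist hj h2
  rw [cl_period hj] at d2
  rw [abs_le, abs_le] at d1 d2
  unfold FarN at hf
  omega

end Crest.Agent.R158.Sp874
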