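import Crest.Agent.R158.Sb0_689
import Crest.Agent.R158.Sg5_689
import Crest.Agent.R158.Sp4e_874

/-!
# Row 158, Block SEP2 (helper689): gluing of the inner landing event, two arms

* `glue_in2` : `c^B P(U2 f (N n) n (cl w) (cl w')) ≤ P(Nice2 f (c n))`
-/

set_option autoImplicit false

noncomputable section

namespace Crest.Agent.R158.Sb689

open MeasureTheory ProbabilityTheory unitInterval
open Crest.Agent.R161.Geo729 Crest.Agent.R161.Topo374 Crest.Agent.R161.Dual374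
open Crest.Agent.R161.Tas682 Crest.Agent.R158.Rs689 Crest.Agent.R158.Ru874
open Crest.Agent.R158.Sp580 Crest.Agent.R158.Sg689 Crest.Agent.R158.Sp874

/-- a face (or vertex) next to the origin -/
def Nr (f : P2) : Prop := -1 ≤ f.1 ∧ f.1 ≤ 1 ∧ -1 ≤ f.2 ∧ f.2 ≤ 1

theorem nr0 : Nr (0, 0) := by unfold Nr; simp

/-- gluing of the inner landing event, two arms, given tokens -/
theorem glue_core2 {N M : ℤ} {c : ℕ} {k : Fin 4 → P2} {K : Fin 4 → Finset P2}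
    (h : TokOut N M k K) (hk : ∀ i, OutR (N - 1) (k i)) (hN : 10 ≤ N)
    (hNM : N + 2 ≤ M) (hc : M + 3 ≤ 16 * c) {n n' : ℕ} (hn : 2 ≤ n) (hn' : n' = c * n)
    {c0 : ℝ} {p : I} (hp : RSp c0 p n) {f : P2} (hf : Nr f) :
    c0 ^ (4 * (52 * c + 2) ^ 2) * (nu p).real (U2 f (N * n) n (k 0) (k 2)) ≤
      (nu p).real (Nice2 f n') := by
  have hM : 10 ≤ M := by omega
  have hn1 : 1 ≤ n := by omega
  have hn0 : (2 : ℤ) ≤ n := ofNat_pos' hn
  have hn'' : (n' : ℤ) = (c : ℤ) * n := by rw [hn']; push_cast; ring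
  have hSq : Sp580.Sq (N * n) ⊆ Sp580.Sq (16 * n') := by
    refine Sq_sub ?_
    rw [hn'']
    nlinarith
  have hFSq : FSq (N * n) ⊆ Sp580.Sq (16 * n') := by
    intro x hx
    rw [mem_FSq] at hx
    rw [mem_Sq, hn'']
    refine ⟨?_, ?_, ?_, ?_⟩ <;> nlinarith
  have P := fun (z : Cfz) (i : Fin 4) (hz : z ∈ tubeX n (ext M c K i)) (S : Set P2)
    (hS : S ⊆ Sp580.Sq (16 * n')) (u a : P2) (hua : OC z S u a) (ha : a ∈ Bk n (k i) 1)
    (hu : -1 ≤ u.1 ∧ u.1 ≤ 1 ∧ -1 ≤ u.2 ∧ u.2 ≤ 1) =>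
      arm_ext h hM hc hn'' i hz hS hua ha (start_out hk hN hn1 i hu)
  have cnat : (52 * (c : ℤ) + 2).toNat = 52 * c + 2 := by omega
  have b0 : (ext M c K 0).card ≤ (52 * c + 2) ^ 2 := by
    have := ext_card h hM hc (i := 0) (j := 0) fun κ hκ => Or.inl hκ
    rwa [cnat] at this
  have b2 : (ext M c K 2).card ≤ (52 * c + 2) ^ 2 := by
    have := ext_card h hM hc (i := 2) (j := 2) fun κ hκ => Or.inl hκ
    rwa [cnat] at this
  have d3 : Disjoint (tubeE n (ext M c K 0)) ((tubeE n (ext M c K 2)).map dE.symm.toEmbedding) :=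
    tubeE_disj_dual hn1 fun κ hκ κ' hκ' => far5_abs (ext_far h hM hc 0 2 (by decide) κ hκ κ' hκ')
  have d1 : Disjoint (edF (Sp580.Sq (N * n) \ Bk n (k 2) 8))
      ((tubeE n (ext M c K 2)).map dE.symm.toEmbedding) := by
    refine disj_P h hNM hM hc hn rfl (i := 2) (j := 2) (fun κ hκ => Or.inl hκ)
      ((Sq_finite _).subset Set.sdiff_subset) ?_
    rintro x ⟨h1, h2⟩
    exact ⟨h1, h2, h2⟩
  have d2 : Disjoint ((edF (FSq (N * n) \ Bk n (k 0) 8)).map dE.symm.toEmbedding)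
      (tubeE n (ext M c K 0)) := by
    refine disj_D h hNM hM hc hn rfl (i := 0) (j := 0) (fun κ hκ => Or.inl hκ)
      ((FSq_finite _).subset Set.sdiff_subset) ?_
    rintro x ⟨h1, h2⟩
    exact ⟨h1, h2, h2⟩
  have key := gen_fkg_dual p (dep_U2P (N * n) n (k 0) (k 2)) (dep_U2D f (N * n) n (k 0) (k 2))
    (tubeX_dep n (ext M c K 0)) (tubeX_dep n (ext M c K 2)) d1 d2 d3 (inc_U2P _ _ _ _)
    (decr_U2D _ _ _ _ _) (tubeX_inc n _) (tubeX_inc n _)
  have e1 := (hp.tube (n := n) hn1 le_rfl b0).1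
  have e2 := (hp.tube (n := n) hn1 le_rfl b2).2
  have hc0 : 0 < c0 := hp.1
  calc c0 ^ (4 * (52 * c + 2) ^ 2) * (nu p).real (U2 f (N * n) n (k 0) (k 2))
      = (nu p).real (U2P (N * n) n (k 0) (k 2) ∩ U2D f (N * n) n (k 0) (k 2)) *
          (c0 ^ (2 * (52 * c + 2) ^ 2) * c0 ^ (2 * (52 * c + 2) ^ 2)) := by
        rw [← pow_add, mul_comm]
        congr 2
        ring
    _ ≤ (nu p).real (U2P (N * n) n (k 0) (k 2) ∩ U2D f (N * n) n (k 0) (k 2)) *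
          ((nu p).real (tubeX n (ext M c K 0)) * (nu (σ p)).real (tubeX n (ext M c K 2))) :=
        mul_le_mul_of_nonneg_left (mul_le_mul e1 e2 (by positivity) measureReal_nonneg)
          measureReal_nonneg
    _ ≤ _ := key
    _ ≤ (nu p).real (Nice2 f n') := by
        refine measureReal_mono ?_
        rintro z ⟨⟨⟨a0, ha0, h0⟩, ⟨a2, ha2, h2⟩⟩, hz1, hz2⟩
        exact ⟨P _ 0 hz1 _ (Set.sdiff_subset.trans hSq) _ _ h0 ha0 (by simp),
          P _ 2 hz2 _ (Set.sdiff_subset.trans hFSq) _ _ h2 ha2 hf⟩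

/-- **L5, two arms** -/
theorem glue_in2 {N c : ℕ} (hN : 21 ≤ N) (hc : N + 203 ≤ 16 * c) {n : ℕ} (hn : 2 ≤ n) {c0 : ℝ}
    {p : I} (hp : RSp c0 p n) {f : P2} (hf : Nr f) {w w' : ℤ} (h1 : w + 52 ≤ w')
    (h2 : w' + 52 ≤ w + 4 * (2 * ((N : ℤ) - 1) + 1)) :
    c0 ^ (4 * (52 * c + 2) ^ 2) * (nu p).real (U2 f (N * n) n (cl ((N : ℤ) - 1) w)
      (cl ((N : ℤ) - 1) w')) ≤ (nu p).real (Nice2 f (c * n)) := by
  have hg := gd_two (a := (N : ℤ) - 1) (g := 26) (u := w) (v := w') (by omega) (by omega)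
  obtain ⟨K, hK⟩ := tokOut_of (N := N) (M := N + 200) (by omega) le_rfl hg
  have h := glue_core2 hK (fun i => nr_cl' (by omega) _) (by omega) (by omega)
    (c := c) (by omega) hn rfl hp hf
  exact h

end Crest.Agent.R158.Sb689
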