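import Crest.Agent.R158.Sb0_689
import Crest.Agent.R158.Sg4_158
import Crest.Agent.R158.Sp4e_874

/-!
# Row 158, Block SEP2 (helper689): gluing of nice two arms and an outer landing event

* `glue_out2` : `c^B (P(Nice2 f (q n)) P(O2 L FL (N n) n (cl w) (cl w') P Q)) ≤ P(Glued2 f L FL P Q)`
-/

set_option autoImplicit false

noncomputable section

namespace Crest.Agent.R158.Sb689

open MeasureTheory ProbabilityTheory unitInterval
open Crest.Agent.R161.Geo729 Crest.Agent.R161.Topo374 Crest.Agent.R161.Dual374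
open Crest.Agent.R161.Tas682 hiding Sq
open Crest.Agent.R158.Rs689 Crest.Agent.R158.Ru874
open Crest.Agent.R158.Sp580
open Crest.Agent.R158.Sp874 (rt nr cl)
open Crest.Agent.R158.Sg158

/-- the inner support avoided by the token of direction `i` -/
def NV2 (i : Fin 4) (m : ℕ) : Set P2 := if i = 0 then N2D m else N2P m

theorem NV2_sub (i : Fin 4) (m : ℕ) : NV2 i m ⊆ Sq (32 * m) := by
  unfold NV2
  split_ifs
  · exact N2D_sub m
  · exact N2P_sub m

theorem inn2 {i : Fin 4} (hi : i = 0 ∨ i = 2) {N M0 J : ℤ} {K : Finset P2} {κ : P2}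
    (h : InT i N M0 J K κ) {n m : ℕ} (h1 : 16 * (m : ℤ) < (M0 - 1) * n)
    (h2 : 32 * (m : ℤ) < J * n) : Disjoint (NV2 i m) (tubeB n K) := by
  rw [Set.disjoint_left]
  rintro x hx ⟨c, hc, hxc⟩
  have hn : (0 : ℤ) ≤ n := by positivity
  by_cases hJ : nr c ≤ J
  · have h5 := h.str c hc hJ
    have h6 := h.low c hc
    have h7 : x ∉ Sq (16 * m) := notMem_of_nr h6 hxc h1
    generalize nr c = j at h5 h6
    have h8 : (M0 - 1) * (n : ℤ) ≤ j * n - n := by
      have : (j - 1) * (n : ℤ) = j * n - n := by ring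
      rw [← this]
      exact mul_le_mul_of_nonneg_right (by omega) hn
    rcases hi with rfl | rfl
    · simp only [Fin.val_zero, Nat.cast_zero, Sp874.rt_zero] at h5
      rw [h5] at hxc
      simp only at hxc
      simp only [NV2, if_true, N2D] at hx
      rcases hx with h9 | h9
      · exact h7 h9
      · have := h9.1
        simp only [co] at this
        omega
    · simp only [Fin.val_two, Nat.cast_ofNat, Sp874.rt_two, sub_zero] at h5
      rw [h5] at hxc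
      simp only at hxc
      have e1 : (-1 - j) * (n : ℤ) = -n - j * n := by ring
      simp only [NV2, Fin.reduceEq, if_false, N2P] at hx
      rcases hx with h9 | h9
      · exact h7 h9
      · have := h9.1
        simp only [co] at this
        omega
  · have h5 : J + 1 ≤ nr c := by omega
    refine notMem_of_nr h5 hxc (R := 32 * m) ?_ (NV2_sub i m hx)
    rw [add_sub_cancel_right]
    exact h2

theorem tok2 {i : Fin 4} (hi : i = 0 ∨ i = 2) {N M0 J : ℤ} {K : Finset P2} {κ : P2}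
    (h : InT i N M0 J K κ) {n m : ℕ} (hn : 1 ≤ n) (hJ : M0 ≤ J)
    (h1 : 16 * (m : ℤ) < (M0 - 1) * n) (h1' : (M0 - 1) * n ≤ 20 * m)
    (h2 : 32 * (m : ℤ) < J * n) (h3 : (n : ℤ) ≤ m) {L : Set P2}
    (hL : Sq ((N + 20) * n) ⊆ L) : Tok i m n (N * n) (NV2 i m) L K κ where
  tk := h.tkd hJ h1' h2.le h3
  loc := h.loc' hn
  inn := inn2 hi h h1 h2
  sub := h.sub' hL

theorem locD_src {D : Set P2} {i : Edge} (hi : i ∈ (edF D).map dE.symm.toEmbedding) :
    src i ∈ D := by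
  rw [Finset.mem_map] at hi
  obtain ⟨i', hi', rfl⟩ := hi
  have h3 : tgt (dE (dE.symm i')) = fA (dE.symm i') := tgt_dE _
  rw [Equiv.apply_symm_apply] at h3
  have h4 : fA (dE.symm i') = src (dE.symm i') := rfl
  show src (dE.symm i') ∈ D
  rw [← h4, ← h3]
  exact (of_mem_edF hi').2

/-- **Outer gluing, two arms, given tokens** -/
theorem glue_out_tok2 {p : I} {c : ℝ} {n m : ℕ} {ρ : ℤ} (hn : 1 ≤ n) (hc : RSp c p n) (f : P2)
    (hm : 32 * (m : ℤ) < ρ) {L FL : Set P2} (hL : L.Finite)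
    (hFL : FL.Finite) (hLm : Sq (32 * m) ⊆ L) (hFLm : Sq (32 * m) ⊆ FL) {k k' : P2}
    {P Q : Set P2} (f1 : FarP n k P) (f2 : FarP n k' Q) {K K' : Finset P2}
    (T : Tok 0 m n ρ (N2D m) L K k) (T' : Tok 2 m n ρ (N2P m) FL K' k')
    (d : Disjoint (tubeB n K) (tubeB n K')) {M : ℕ} (c1 : K.card ≤ M) (c2 : K'.card ≤ M) :
    c ^ (4 * M) * ((nu p).real (Nice2 f m) * (nu p).real (O2 L FL ρ n k k' P Q)) ≤
      (nu p).real (Glued2 f L FL P Q) := by
  have l1 : LocD (N2P m) (Nice2P m) := ⟨_, dep_Nice2P m, fun i hi => (of_mem_edF hi).1⟩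
  have l2 : LocD (N2D m) (Nice2D f m) := ⟨_, dep_Nice2D f m, fun i hi => locD_src hi⟩
  have l3 : LocD (OutV L ρ \ Bk n k' 8) (O2P L ρ n k k' P) :=
    ⟨_, dep_O2P hL ρ n k k' P, fun i hi => (of_mem_edF hi).1⟩
  have l4 : LocD (OutF FL ρ \ Bk n k 8) (O2D FL ρ n k k' Q) :=
    ⟨_, dep_O2D hFL ρ n k k' Q, fun i hi => locD_src hi⟩
  have inS : N2P m ∪ N2D m ⊆ Sq (ρ - 1) :=
    Set.union_subset ((N2P_sub m).trans (Sq_sub (by omega)))
      ((N2D_sub m).trans (Sq_sub (by omega)))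
  have g0 : Disjoint (N2P m ∪ N2D m) ((OutV L ρ \ Bk n k' 8) ∪ (OutF FL ρ \ Bk n k 8)) := by
    rw [Set.disjoint_left]
    rintro x hx (h | h)
    · exact OutV_not h.1 (inS hx)
    · exact OutF_not h.1 (inS hx)
  have g1 : Disjoint (N2P m ∪ (OutV L ρ \ Bk n k' 8)) (tubeB n K') := by
    rw [Set.disjoint_left]
    rintro x (hx | hx) h
    · exact Set.disjoint_left.1 T'.inn hx h
    · rcases T'.loc h with h' | h'
      · exact hx.2 h'
      · exact OutV_not hx.1 h'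
  have g2 : Disjoint (N2D m ∪ (OutF FL ρ \ Bk n k 8)) (tubeB n K) := by
    rw [Set.disjoint_left]
    rintro x (hx | hx) h
    · exact Set.disjoint_left.1 T.inn hx h
    · rcases T.loc h with h' | h'
      · exact hx.2 h'
      · exact OutF_not hx.1 h'
  have key := glue_prob p (n := n) (K := K) (K' := K') l1 l2 l3 l4 (inc_Nice2P m)
    (decr_Nice2D f m) (inc_O2P L ρ n k k' P) (decr_O2D FL ρ n k k' Q) g0 g1 g2 d
  have hc0 := hc.1
  have hc1 := hc.le_one hn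
  have pr : c ^ (4 * M) ≤ xpr p (3 * n) n ^ (2 * K.card) *
      xpr (σ p) (3 * n) n ^ (2 * K'.card) := by
    obtain ⟨h4, h5⟩ := hc.2 n hn le_rfl
    have r1 : c ^ (2 * M) ≤ xpr p (3 * n) n ^ (2 * K.card) :=
      (pow_le_pow_of_le_one hc0.le hc1 (by omega)).trans (pow_le_pow_left₀ hc0.le h4 _)
    have r2 : c ^ (2 * M) ≤ xpr (σ p) (3 * n) n ^ (2 * K'.card) :=
      (pow_le_pow_of_le_one hc0.le hc1 (by omega)).trans (pow_le_pow_left₀ hc0.le h5 _)
    have r3 : c ^ (4 * M) = c ^ (2 * M) * c ^ (2 * M) := by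
      rw [← pow_add]
      congr 1
      ring
    rw [r3]
    exact mul_le_mul r1 r2 (pow_nonneg hc0.le _) ((pow_nonneg hc0.le _).trans r1)
  have st : c ^ (4 * M) * ((nu p).real (Nice2 f m) * (nu p).real (O2 L FL ρ n k k' P Q)) ≤
      (nu p).real (Nice2P m ∩ Nice2D f m) *
        (nu p).real (O2P L ρ n k k' P ∩ O2D FL ρ n k k' Q) *
        (xpr p (3 * n) n ^ (2 * K.card) * xpr (σ p) (3 * n) n ^ (2 * K'.card)) := by
    rw [mul_comm]
    exact mul_le_mul_of_nonneg_left pr (mul_nonneg measureReal_nonneg measureReal_nonneg)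
  refine (st.trans key).trans (measureReal_mono ?_)
  rintro z ⟨⟨⟨hP, hOP⟩, ⟨hD, hOD⟩⟩, hK, hK'⟩
  have sL : OutV L ρ \ Bk n k' 8 ⊆ L := fun x hx => hx.1.1
  have sF : OutF FL ρ \ Bk n k 8 ⊆ FL := fun x hx => hx.1.1
  have cL : ∀ d : Fin 4, Sq (16 * m) ∪ Corr d m ⊆ L := fun d =>
    Set.union_subset ((Sq_sub (by omega)).trans hLm) ((Corr_sub d m).trans hLm)
  have cF : ∀ d : Fin 4, Sq (16 * m) ∪ Corr d m ⊆ FL := fun d =>
    Set.union_subset ((Sq_sub (by omega)).trans hFLm) ((Corr_sub d m).trans hFLm)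
  obtain ⟨a, ha, ho⟩ := hOP
  obtain ⟨b, hb, ho'⟩ := hOD
  exact ⟨garm_glue hK T.tk hP ha ho f1 (cL 0) ((tubeR_sub n K).trans T.sub) sL,
    garm_glue hK' T'.tk hD hb ho' f2 (cF 2) ((tubeR_sub n K').trans T'.sub) sF⟩

open Classical in
/-- **L6, two arms.** -/
theorem glue_out2 {q N : ℕ} (hq : 1 ≤ q) (hN : 32 * q + 200 ≤ N) {c : ℝ} {p : I} {n : ℕ}
    (hn : 1 ≤ n) (hc : RSp c p n) (f : P2) {w w' : ℤ} (hw : w + 840 ≤ w')
    (hw' : w' + 840 ≤ w + 4 * (2 * ((N : ℤ) - 1) + 1)) {L FL : Set P2} (hL : L.Finite)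
    (hFL : FL.Finite) (hLN : Sq (((N : ℤ) + 20) * n) ⊆ L) (hFLN : Sq (((N : ℤ) + 20) * n) ⊆ FL)
    {P Q : Set P2} (f1 : ∀ b ∈ P, b ∉ Sq (((N : ℤ) + 10) * n))
    (f2 : ∀ b ∈ Q, b ∉ Sq (((N : ℤ) + 10) * n)) :
    c ^ (4 * (2 * N + 8) ^ 2) * ((nu p).real (Nice2 f (q * n)) *
      (nu p).real (O2 L FL (N * n) n (cl (N - 1) w) (cl (N - 1) w') P Q)) ≤
        (nu p).real (Glued2 f L FL P Q) := by
  have hM : (2 * (N : ℤ) + 8).toNat ^ 2 = (2 * N + 8) ^ 2 := by
    congr 1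
  have hnr : ∀ i, nr (cl ((N : ℤ) - 1) i) = N - 1 := fun i => Sp874.nr_cl (by omega) _
  obtain ⟨K, K', ⟨a1, b1⟩, a2, b2, a3, ⟨a4, b4⟩, a5, b5, a6, a7, b7, a8, b8⟩ :=
    Sp874.tok2_in (N := N) (M := 18 * q + 1) (by omega) (by omega) (by omega) hw hw'
  have e0 : ∀ r : ℤ, rt (((0 : Fin 4) : ℕ) : ℤ) (r, 0) = (r, 0) := fun r => by simp [rt]
  have e2 : ∀ r : ℤ, rt (((2 : Fin 4) : ℕ) : ℤ) (r, 0) = (-1 - r, -1) := fun r => by
    simp [rt]
  have T : InT 0 N (18 * q + 1) (N - 177) K (cl (N - 1) w) := by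
    refine inT_of (hnr _) a1 a2 (fun c hc => a3 c (Finset.mem_union_left _ hc)) ?_ ?_ (by omega)
    · rw [e0]
      exact a5
    · intro c hc h
      rw [e0]
      exact a7 c hc h
  have T' : InT 2 N (18 * q + 1) (N - 177) K' (cl (N - 1) w') := by
    refine inT_of (hnr _) b1 b2 (fun c hc => a3 c (Finset.mem_union_right _ hc)) ?_ ?_ (by omega)
    · rw [e2]
      exact b5
    · intro c hc h
      rw [e2]
      exact b7 c hc h
  have hn' : (1 : ℤ) ≤ n := by exact_mod_cast hn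
  have hq' : (1 : ℤ) ≤ q := by exact_mod_cast hq
  have hqn : (1 : ℤ) ≤ (q : ℤ) * n := by nlinarith
  have h1 : 16 * (((q * n : ℕ) : ℤ)) < ((18 * (q : ℤ) + 1) - 1) * n := by
    push_cast
    have : ((18 * (q : ℤ) + 1) - 1) * n = 18 * (q * n) := by ring
    rw [this]
    omega
  have h1' : ((18 * (q : ℤ) + 1) - 1) * n ≤ 20 * (((q * n : ℕ) : ℤ)) := by
    push_cast
    have : ((18 * (q : ℤ) + 1) - 1) * n = 18 * (q * n) := by ring
    rw [this]
    omega
  have h2 : 32 * (((q * n : ℕ) : ℤ)) < ((N : ℤ) - 177) * n := by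
    push_cast
    have : 32 * ((q : ℤ) * n) = (32 * q) * n := by ring
    rw [this]
    exact mul_lt_mul_of_pos_right (by omega) (by omega)
  have h3 : (n : ℤ) ≤ ((q * n : ℕ) : ℤ) := by
    push_cast
    nlinarith
  have hNn : ((N : ℤ) - 177) * (n : ℤ) ≤ N * n := mul_le_mul_of_nonneg_right (by omega) (by omega)
  have m32 : Sq (32 * ((q * n : ℕ) : ℤ)) ⊆ Sq (((N : ℤ) + 20) * n) := Sq_sub (by nlinarith)
  have far : ∀ {κ : P2} {P : Set P2}, nr κ = (N : ℤ) - 1 →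
      (∀ b ∈ P, b ∉ Sq (((N : ℤ) + 10) * n)) → FarP n κ P := fun hκ h =>
    FarP.of_out hn hκ (mul_le_mul_of_nonneg_right (by omega) (by omega)) h
  have dd : Disjoint (tubeB n K) (tubeB n K') := by
    refine tubeB_disj hn fun k hk k' hk' => ?_
    rcases a6 k hk k' hk' with h | h
    · left; omega
    · right; omega
  have t := tok2 (Or.inl rfl) T hn (by omega) h1 h1' h2 h3 hLN
  have t' := tok2 (Or.inr rfl) T' hn (by omega) h1 h1' h2 h3 hFLN
  have n0 : NV2 0 (q * n) = N2D (q * n) := by simp [NV2]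
  have n2 : NV2 2 (q * n) = N2P (q * n) := by simp [NV2]
  rw [n0] at t
  rw [n2] at t'
  rw [hM] at a8 b8
  exact glue_out_tok2 hn hc f (h2.trans_le hNn) hL hFL (m32.trans hLN) (m32.trans hFLN)
    (far T.nrk f1) (far T'.nrk f2) t t' dd a8 b8

end Crest.Agent.R158.Sb689
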