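import Crest.Agent.R158.Sb0_689
import Crest.Agent.R158.Rs10_689
import Crest.Agent.R158.Ax2_107

/-!
# Row 158, Block SEP2 (helper689): the two-arm events of 107 (`P2ev`) and of the separation block

* `P2ev_sub` : `P2ev n ⊆ A2 (0,0) n`; `A2_sub` : `A2 (0,0) R ⊆ P2ev n` for `n + 1 ≤ R`
* `p2_le`, `A2_le` : probabilities
-/

set_option autoImplicit false

noncomputable section

namespace Crest.Agent.R158.Sb689

open MeasureTheory ProbabilityTheory unitInterval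
open Crest.Agent.R161.Geo729 Crest.Agent.R161.Topo374 Crest.Agent.R161.Dual374
open Crest.Agent.R161.Tas682 hiding Sq
open Crest.Agent.R161.Ring421
open Crest.Agent.R158.Rs689 Crest.Agent.R158.Ru874
open Crest.Agent.R158.Sp580
open Crest.Agent.R158.It200 (OCl DCl)
open Crest.Agent.R158.Ax107

theorem rch_of_ocs {z : Cfz} {S : Set P2} {u v : P2} (h : OC z S u v) : v ∈ OCl z u :=
  Relation.ReflTransGen.mono (fun _ _ h => h.1) _ _ h.2

theorem P2ev_sub {n : ℕ} (hn : 1 ≤ n) : P2ev n ⊆ A2 (0, 0) n := by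
  rintro z ⟨⟨v, hv, h1⟩, g, hg, h2⟩
  have hn' : (1 : ℤ) ≤ n := by exact_mod_cast hn
  have sdv : ∀ x : P2, (n : ℤ) ≤ sd (0, 0) x → x.1 ≤ -n ∨ (n : ℤ) ≤ x.1 ∨ x.2 ≤ -n ∨
      (n : ℤ) ≤ x.2 := by
    intro x hx
    unfold sd at hx
    simp only [sub_zero, le_max_iff, le_abs] at hx
    omega
  refine ⟨?_, ?_⟩
  · obtain ⟨c, hc, hcb⟩ := exit_box (oc_univ_of_rch hv) (x0 := -n) (x1 := n) (y0 := -n) (y1 := n)
      (by simp) (sdv v h1)
    refine ⟨c, ?_, hc.monoS Set.inter_subset_right⟩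
    have h3 := hc.right.2
    rw [mem_rect] at h3
    show sd (0, 0) c = n
    unfold sd
    simp only [sub_zero]
    rcases abs_cases c.1 with h4 | h4 <;> rcases abs_cases c.2 with h5 | h5 <;> omega
  · have hg' := oc_univ_of_rch (mem_dcl.1 hg)
    obtain ⟨c, hc, hcb⟩ := exit_box hg' (x0 := -n) (x1 := n - 1) (y0 := -n) (y1 := n - 1)
      (by simp; omega) (by have := sdv g h2; omega)
    exact ⟨c, ⟨hc.right.2, hcb⟩, hc.monoS Set.inter_subset_right⟩

theorem A2_sub {n : ℕ} {R : ℤ} (hR : (n : ℤ) + 1 ≤ R) : A2 (0, 0) R ⊆ P2ev n := by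
  rintro z ⟨⟨v, hv, h1⟩, g, hg, h2⟩
  refine ⟨⟨v, rch_of_ocs h1, ?_⟩, g, mem_dcl.2 (rch_of_ocs h2), ?_⟩
  · have : sd (0, 0) v = R := hv
    omega
  · have h3 := hg.2
    unfold sd
    simp only [sub_zero, le_max_iff, le_abs]
    simp only [Set.mem_ofPred_eq] at h3
    omega

theorem A2_meas (f : P2) (R : ℤ) : MeasurableSet (A2 f R) :=
  (dep_A2P R).measurableSet.inter (dep_A2D f R).measurableSet

theorem p2_le {n : ℕ} (hn : 1 ≤ n) : p2 n ≤ (nu Rs689.hf).real (A2 (0, 0) n) :=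
  measureReal_mono (P2ev_sub hn)

theorem A2_le {n : ℕ} {R : ℤ} (hR : (n : ℤ) + 1 ≤ R) :
    (nu Rs689.hf).real (A2 (0, 0) R) ≤ p2 n :=
  measureReal_mono (A2_sub hR)

/-- nice two arms at scale `n` give two arms to distance `16 n` -/
theorem Nice2_sub {n : ℕ} (hn : 1 ≤ n) : Nice2 (0, 0) n ⊆ P2ev (16 * n) := by
  have hn' : (1 : ℤ) ≤ n := by exact_mod_cast hn
  rintro z ⟨⟨A, B, hA, hB, hAB, h1⟩, ⟨A', B', hA', hB', hAB', h2⟩⟩
  have h3 := hAB.1
  have h4 := hAB'.1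
  refine ⟨⟨A, rch_of_ocs h1, ?_⟩, A', mem_dcl.2 (rch_of_ocs h2), ?_⟩
  · have h5 := h3.1
    simp only [co] at h5
    unfold sd
    simp only [sub_zero, le_max_iff, le_abs]
    push_cast
    omega
  · have h5 := h4.1
    simp only [co] at h5
    unfold sd
    simp only [sub_zero, le_max_iff, le_abs]
    push_cast
    omega

end Crest.Agent.R158.Sb689
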