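import Crest.Agent.R158.Sb2_689
import Crest.Agent.R158.Sb3_689
import Crest.Agent.R158.Oc1_874
import Crest.Agent.R158.Ce2_679
import Crest.Agent.R158.Qf7_808
import Crest.Agent.R158.Qf3_808

/-!
# Row 158, Block SEP2 (helper689): outer landing of two arms at a good scale

* `cover2` : on a good scale, primal and dual crossing clusters of an annulus give an outer landing
  event of two separated cells
-/

set_option autoImplicit false

noncomputable section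

namespace Crest.Agent.R158.Sc689

open MeasureTheory ProbabilityTheory unitInterval
open Crest.Agent.R161.Geo729 Crest.Agent.R161.Topo374 Crest.Agent.R161.Dual374
open Crest.Agent.R161.Tas682 hiding Sq
open Crest.Agent.R158.Rs689 Crest.Agent.R158.Ru874
open Crest.Agent.R158.Sp580 Crest.Agent.R158.Sb689
open Crest.Agent.R158.Sp874 (nr cl)
open Crest.Agent.R158.Qf808 Crest.Agent.R158.Oc874
open Crest.Agent.R158.Ce679 (Nxt Hl mem_Hl ostep_dual)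

/-- first entrance into `H` -/
theorem enter {z : Cf} {S H : Set P2} {a b : P2} (h : OC z S a b) (ha : a ∉ H) (hb : b ∈ H) :
    ∃ c d, c ∉ H ∧ d ∈ H ∧ OStep z S c d ∧ OC z (S \ H) a c := by
  obtain ⟨haS, h⟩ := h
  have key : OC z (S \ H) a b ∨ ∃ c d, c ∉ H ∧ d ∈ H ∧ OStep z S c d ∧ OC z (S \ H) a c := by
    clear hb
    induction h with
    | refl => exact Or.inl (OC.refl ⟨haS, ha⟩)
    | @tail b c h1 h2 ih =>
      rcases ih with h3 | h3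
      · have hbH := h3.right.2
        by_cases hc : c ∈ H
        · exact Or.inr ⟨b, c, hbH, hc, h2, h3⟩
        · exact Or.inl ⟨h3.1, h3.2.tail ⟨h2.1, ⟨h2.2.1, hbH⟩, ⟨h2.2.2, hc⟩⟩⟩
      · exact Or.inr h3
  rcases key with h3 | h3
  · exact absurd hb h3.right.2
  · exact h3

/-- primal crossing cluster: arm outside the ball of radius `ρ` -/
theorem parm_out {z : Cf} {k l ρ : ℤ} (hk : k < ρ) (hl : ρ ≤ l) (hz : z ∈ PArm (0, 0) k l) :
    ∃ x p, sd (0, 0) x = ρ ∧ sd (0, 0) p = l ∧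
      OC z (Rect (-l) l (-l) l ∩ {v | ρ ≤ sd (0, 0) v}) x p := by
  obtain ⟨u, v, hu, hv, h⟩ := hz
  obtain ⟨p, hp, h1⟩ := first_hit (sd (0, 0)) (sd_nbr (0, 0)) l (oc_univ_of_rch h) (by omega) hv
  obtain ⟨y, x, -, hx, -, -, -, h2⟩ := last_exit_nb (c := (0, 0)) (k := ρ - 1) h1 (by omega)
    (by omega)
  refine ⟨x, p, by omega, hp, h2.monoS ?_⟩
  rintro w ⟨⟨-, h3⟩, h4⟩
  have h3' : sd (0, 0) w ≤ l := h3
  have h4' : ρ - 1 + 1 ≤ sd (0, 0) w := h4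
  rw [sd_le] at h3'
  simp only at h3'
  refine ⟨?_, ?_⟩
  · rw [mem_rect]; omega
  · show ρ ≤ sd (0, 0) w
    omega

/-- dual crossing cluster: arm outside the box of radius `ρ` -/
theorem darm_out {z : Cf} {k l ρ : ℤ} (hk : k < ρ) (hl : ρ < l) (hz : z ∈ DArm (0, 0) k l) :
    ∃ f g, Nxt (0, 0) ρ f ∧ Sq200.BdV (-l) (l - 1) (-l) (l - 1) g ∧
      OC (dual z) (Rect (-l) (l - 1) (-l) (l - 1) \ Hl (0, 0) ρ) f g := by
  obtain ⟨f0, g0, hf, hg, h⟩ := hz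
  have hf0 := (sd_le (x := (0, 0)) (p := f0) (k := k)).1 hf
  simp only at hf0
  have hg0 : ¬ sd (0, 0) g0 ≤ l - 1 := by omega
  rw [sd_le] at hg0
  simp only at hg0
  obtain ⟨g, hg1, hg2⟩ := exit_box (oc_univ_of_rch (mem_dcl.1 h)) (x0 := -l) (x1 := l - 1)
    (y0 := -l) (y1 := l - 1) (by omega) (by omega)
  have hgH : g ∉ Hl (0, 0) ρ := by
    rw [mem_Hl]
    simp only
    omega
  have hfH : f0 ∈ Hl (0, 0) ρ := by
    rw [mem_Hl]
    simp only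
    omega
  obtain ⟨f, d, hf1, hd, hst, hgf⟩ := enter hg1.symm hgH hfH
  obtain ⟨e, -, hff⟩ := ostep_dual hst
  refine ⟨f, g, ⟨hf1, e, d, hff, hd⟩, hg2, (hgf.symm).monoS ?_⟩
  rintro x ⟨⟨-, h3⟩, h4⟩
  exact ⟨h3, h4⟩

/-- **cover, two arms** -/
theorem cover2 {T0 : ℕ} (hT : 500 ≤ T0) {D1 D2 D3 : ℕ} (h1 : 2 ≤ D1) (h2 : 2 ≤ D2) (h3 : 2 ≤ D3)
    {N : ℕ} (hN : N = 32 * D1 * D2 * D3 * T0) {n : ℕ} (hn : 1 ≤ n) {k l : ℤ} (hk : k < N * n)
    (hl : 2 * ((N : ℤ) * n) ≤ l) {z : Cf} (hz : z ∈ PArm (0, 0) k l) (hz' : z ∈ DArm (0, 0) k l)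
    (hg : z ∈ GO (0, 0) D1 D2 D3 (T0 * n)) :
    ∃ w w' : ℤ, w + 840 ≤ w' ∧ w' + 840 ≤ w + 4 * (2 * ((N : ℤ) - 1) + 1) ∧
      (0 ≤ w ∧ w < 16 * N) ∧ (0 ≤ w' ∧ w' < 16 * N) ∧
      z ∈ O2 (Sq l) (FI l) (N * n) n (cl (N - 1) w) (cl (N - 1) w') (Sph l) (FIb l) := by
  have hn' : (1 : ℤ) ≤ n := by exact_mod_cast hn
  have hT' : (500 : ℤ) ≤ T0 := by exact_mod_cast hT
  set u : ℤ := T0 * n with hu
  have hun : 500 * (n : ℤ) ≤ u := mul_le_mul_of_nonneg_right hT' (by omega)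
  have hu1 : 1 ≤ u := by omega
  obtain ⟨r1, r2, r3, r4, r5⟩ := radii h1 h2 h3 hu1
  have hρ : (N : ℤ) * n = 32 * D1 * D2 * D3 * u := by
    rw [hN, hu]
    push_cast
    ring
  have hNpos : 1 ≤ N := by
    have : 2 * 2 * 2 * 1 ≤ D1 * D2 * D3 * T0 := by gcongr; omega
    have e0 : N = 32 * (D1 * D2 * D3 * T0) := by rw [hN]; ring
    omega
  have hb : 32 * (D1 : ℤ) * D2 * D3 * u = 8 * (4 * D1 * D2 * D3 * u) := by ring
  have hcρ : 2 * (D2 : ℤ) * D3 * u < N * n := by omega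
  obtain ⟨x, p, hx, hp, hxp⟩ := parm_out hk (by omega) hz
  obtain ⟨f, g, hf, hgb, hfg⟩ := darm_out hk (by omega) hz'
  have hcut : ∀ w, sd (0, 0) w = N * n → ∀ a b' : ℤ, b' ≤ 4 * D1 * D2 * D3 * u →
      {v : P2 | (N : ℤ) * n ≤ sd (0, 0) v} ∩ Cpl963.An w a b' =
        (Rect (-l) l (-l) l ∩ {v | (N : ℤ) * n ≤ sd (0, 0) v}) ∩ Cpl963.An w a b' := by
    intro w hw a b' hb'
    ext v
    constructor
    · rintro ⟨h5, h6⟩
      refine ⟨⟨?_, h5⟩, h6⟩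
      have h7 := Cpl963.sd_tri (0, 0) w v
      have h8 : sd w v ≤ b' := h6.2
      have h9 : sd (0, 0) v ≤ l := by omega
      rw [sd_le] at h9
      simp only at h9
      rw [mem_rect]
      omega
    · rintro ⟨h5, h6⟩
      exact ⟨h5.2, h6⟩
  rw [← hρ] at hb
  have hGO : z ∈ GoodO (0, 0) (N * n) u (D3 * u) (2 * D3 * u) (2 * D3 * u) (2 * D2 * D3 * u)
    (4 * D2 * D3 * u) (4 * D1 * D2 * D3 * u) := by
    rw [hρ]
    exact hg
  obtain ⟨f', g', w', hf', hg', hw', hfw, hsx, hD, hP⟩ := Ce679.core2_hole (z := z) (c0 := (0, 0))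
    (x := x) (p := p) (f := f) (g := g) (ρ := N * n) (t := u) (r := D3 * u) (s := 2 * D3 * u)
    (c := 2 * D2 * D3 * u) (x0 := -l) (x1 := l) (y0 := -l) (y1 := l) (by omega) (by omega) (by omega)
    (by omega) hcρ (by simp only; omega) (by simp only; omega) (by simp only; omega)
    (by simp only; omega) hx hxp (by omega) hf hgb hfg
    (gd_cut (hcut x hx _ _ (by omega)) (hGO.1 x hx).2.1)
    (fun w hw => gd_cut (hcut w hw _ _ (by omega)) (hGO.1 w hw).2.2)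
  have ncx : NC n N x := nc_of_sd hn' hx
  have ncf : NC n N f' := by
    have e1 : ¬ (f' ∈ Hl (0, 0) (N * n)) := hf'.1
    rw [mem_Hl] at e1
    simp only at e1
    have e2 := Cpl963.sd_tri (0, 0) w' f'
    rw [Cpl963.sd_comm w' f'] at e2
    have e3 : sd (0, 0) f' ≤ N * n + 1 := by omega
    rw [sd_le] at e3
    simp only at e3
    unfold NC
    omega
  have hNn : (1 : ℤ) ≤ N := by exact_mod_cast hNpos
  have hfar := far_kp (F := 840) hn hNn ncx ncf (by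
    have : (840 + 3) * (n : ℤ) = 843 * n := by ring
    omega)
  have nkx := nr_kp hn' hNn ncx
  have nkf := nr_kp hn' hNn ncf
  obtain ⟨w, q1, q2, q3⟩ := Sr200.exists_cel (j := (N : ℤ) - 1) (by omega)
    ((Sr200.rg_iff (by omega)).2 nkx) 0
  obtain ⟨v, q4, q5, q6⟩ := Sr200.exists_cel (j := (N : ℤ) - 1) (by omega)
    ((Sr200.rg_iff (by omega)).2 nkf) w
  rw [Sr200.cel_eq] at q3 q6
  rw [← q3, ← q6] at hfar
  obtain ⟨s1, s2⟩ := Sp874.sep_of_far (by omega) q4 (by omega) hfar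
  refine ⟨w, v, s1, s2, ⟨q1, by omega⟩, ⟨by omega, by omega⟩, ?_⟩
  rw [q3, q6]
  refine ⟨⟨x, mem_kp hn hNn ncx, p, hp, hP.monoS ?_⟩, ⟨f', mem_kp hn hNn ncf, g', ?_, hD.monoS ?_⟩⟩
  · rintro y ⟨⟨y1, y2⟩, y3⟩
    refine ⟨⟨y1, y2⟩, fun y4 => ?_⟩
    have y5 := bk_kp hn hNn ncf y4
    have y6 := Cpl963.sd_tri w' f' y
    rw [Cpl963.sd_comm w' f'] at y6
    have y7 : u ≤ sd w' y := y3
    omega
  · exact ⟨hD.right.1.1, hg'⟩
  · rintro y ⟨⟨y1, y2⟩, y3⟩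
    refine ⟨⟨y1, fun y4 => y2 ?_⟩, fun y4 => ?_⟩
    · rw [mem_Hl]
      simp only
      omega
    · have y5 := bk_kp hn hNn ncx y4
      have y7 : 2 * (D3 : ℤ) * u ≤ sd x y := y3
      omega

end Crest.Agent.R158.Sc689
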