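import Mathlib

/-!
# Row 158 (helper689), QM2, abstract part: quasi-multiplicativity with losses from one-scale landing

Variant of 808's `qm_of_one_scale` in which the exponent of `P` is not used: only
`P n ≤ C P (2 n)` (`n ≥ n0`) and monotonicity.

* `qm_of_doubling`
-/

set_option autoImplicit false

noncomputable section

namespace Crest.Agent.R158.Sc689

open Filter MeasureTheory

/-- iterated doubling -/
theorem iter_dbl {P : ℕ → ℝ} {C : ℝ} (hC : 1 ≤ C) {n0 : ℕ}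
    (hdb : ∀ n, n0 ≤ n → P n ≤ C * P (2 * n)) (m : ℕ) {n : ℕ} (hn : n0 ≤ n) :
    P n ≤ C ^ m * P (2 ^ m * n) := by
  induction m with
  | zero => simp
  | succ m ih =>
    have h1 : n0 ≤ 2 ^ m * n := hn.trans (Nat.le_mul_of_pos_left n (by positivity))
    have h2 := hdb _ h1
    have h3 : 2 * (2 ^ m * n) = 2 ^ (m + 1) * n := by ring
    rw [h3] at h2
    calc P n ≤ C ^ m * P (2 ^ m * n) := ih
      _ ≤ C ^ m * (C * P (2 ^ (m + 1) * n)) := mul_le_mul_of_nonneg_left h2 (by positivity)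
      _ = C ^ (m + 1) * P (2 ^ (m + 1) * n) := by ring

/-- polynomial lower bound -/
theorem lower_dbl {P : ℕ → ℝ} (hPa : Antitone P) (hP0 : ∀ n, 0 ≤ P n) {C : ℝ} (hC : 1 ≤ C) {n0 : ℕ}
    (hdb : ∀ n, n0 ≤ n → P n ≤ C * P (2 * n)) (hpos : 0 < P (max n0 1)) :
    ∃ a c1 : ℝ, 0 ≤ a ∧ 0 < c1 ∧ ∀ n : ℕ, 1 ≤ n → c1 * (n : ℝ) ^ (-a) ≤ P n := by
  refine ⟨Real.logb 2 C, P (max n0 1) / C, Real.logb_nonneg (by norm_num) hC, by positivity, ?_⟩
  intro n hn
  have hn0 : (0 : ℝ) < n := by exact_mod_cast hn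
  have hC0 : 0 < C := by linarith
  set m := Nat.log 2 n with hm
  have h1 := iter_dbl hC hdb (m + 1) (le_max_left n0 1)
  have h2 : P (2 ^ (m + 1) * max n0 1) ≤ P n := by
    refine hPa ?_
    have h3 : n < 2 ^ (m + 1) := Nat.lt_pow_succ_log_self (by norm_num) n
    have h4 : 2 ^ (m + 1) ≤ 2 ^ (m + 1) * max n0 1 :=
      Nat.le_mul_of_pos_right _ (lt_of_lt_of_le one_pos (le_max_right _ _))
    omega
  have h3 : C ^ m ≤ (n : ℝ) ^ (Real.logb 2 C) := by
    have h4 : (2 : ℝ) ^ m ≤ n := by exact_mod_cast Nat.pow_log_le_self 2 (by omega)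
    have h5 : C ^ m = ((2 : ℝ) ^ m) ^ (Real.logb 2 C) := by
      rw [← Real.rpow_natCast, ← Real.rpow_natCast, ← Real.rpow_mul (by norm_num), mul_comm,
        Real.rpow_mul (by norm_num), Real.rpow_logb (by norm_num) (by norm_num) hC0]
    rw [h5]
    exact Real.rpow_le_rpow (by positivity) h4 (Real.logb_nonneg (by norm_num) hC)
  have h6 : P (max n0 1) ≤ C * (n : ℝ) ^ (Real.logb 2 C) * P n := by
    calc P (max n0 1) ≤ C ^ (m + 1) * P (2 ^ (m + 1) * max n0 1) := h1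
      _ ≤ C ^ (m + 1) * P n := mul_le_mul_of_nonneg_left h2 (by positivity)
      _ = C * C ^ m * P n := by ring
      _ ≤ C * (n : ℝ) ^ (Real.logb 2 C) * P n := by
          refine mul_le_mul_of_nonneg_right (mul_le_mul_of_nonneg_left h3 hC0.le) (hP0 n)
  rw [Real.rpow_neg hn0.le]
  have h7 := Real.rpow_pos_of_pos hn0 (Real.logb 2 C)
  rw [← div_eq_mul_inv, div_div, div_le_iff₀ (by positivity)]
  linarith

theorem fin_aux {X A B Q : ℝ} (hX : 1 ≤ X) (h1 : B ≤ A * X) (h2 : A + 1 ≤ X) (hQ : 0 ≤ Q) :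
    B * X * Q + Q ≤ X * X * (X * X) * Q := by
  have hX0 : 0 ≤ X := by linarith
  have e1 : B * X ≤ A * X * X := mul_le_mul_of_nonneg_right h1 hX0
  have e2 : 1 ≤ X * X := one_le_mul_of_one_le_of_one_le hX hX
  have e3 : (A + 1) * (X * X) ≤ X * (X * X) := mul_le_mul_of_nonneg_right h2 (by linarith)
  have e4 : X * (X * X) ≤ X * X * (X * X) :=
    mul_le_mul_of_nonneg_right (by nlinarith) (by linarith)
  have e5 : (A + 1) * (X * X) = A * X * X + X * X := by ring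
  have e6 : B * X + 1 ≤ X * X * (X * X) := by linarith
  have e7 := mul_le_mul_of_nonneg_right e6 hQ
  linarith

/-- **quasi-multiplicativity with losses from one-scale landing**, doubling version -/
theorem qm_of_doubling {Ω : Type*} [MeasurableSpace Ω] {μ : Measure Ω} [IsProbabilityMeasure μ]
    {P : ℕ → ℝ} {T : ℕ → ℕ → Set Ω} (hPa : Antitone P) (hP0 : ∀ n, 0 ≤ P n) (hP1 : ∀ n, P n ≤ 1)
    {C : ℝ} (hC : 1 ≤ C) {n0 : ℕ} (hdb : ∀ n, n0 ≤ n → P n ≤ C * P (2 * n))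
    (hTm : ∀ k k' l, 1 ≤ k → k ≤ k' → k' ≤ l → T k l ⊆ T k' l)
    {b : ℕ} (G : ℝ → ℕ → Set Ω)
    (hG : ∀ η : ℝ, 0 < η → ∃ r0 : ℕ, ∀ k J : ℕ, r0 ≤ k →
      μ.real (⋂ j ∈ Finset.range J, (G η ((2 ^ b) ^ j * k))ᶜ) ≤ η ^ J)
    (one : ∀ η : ℝ, 0 < η → ∃ (K : ℝ) (r0 : ℕ), 0 ≤ K ∧ ∀ r l : ℕ, r0 ≤ r → 2 ^ b * r ≤ l →
      μ.real (T r l ∩ G η r) * P r ≤ K * P l) :
    ∀ ε : ℝ, 0 < ε → ∃ k0 : ℕ, ∀ᶠ n : ℕ in atTop, ∀ k l : ℕ, k0 ≤ k → k ≤ l → l ≤ n →
      P k * μ.real (T k l) ≤ (n : ℝ) ^ ε * P l := by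
  intro ε hε
  rcases (hP0 (max n0 1)).eq_or_lt with hz | hpos
  · refine ⟨max n0 1, Eventually.of_forall fun n k l hk _ _ => ?_⟩
    have h1 : P k = 0 := le_antisymm ((hPa hk).trans hz.symm.le) (hP0 k)
    rw [h1, zero_mul]
    exact mul_nonneg (Real.rpow_nonneg (Nat.cast_nonneg _) _) (hP0 l)
  obtain ⟨a, c1, ha, hc1, hlow⟩ := lower_dbl hPa hP0 hC hdb hpos
  set D : ℝ := C ^ b with hD
  have hD1 : 1 ≤ D := one_le_pow₀ hC
  have hD0 : 0 < D := by linarith
  have hLD : 0 ≤ Real.log D := Real.log_nonneg hD1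
  set θ : ℝ := ε / (4 * (Real.log D + 1)) with hθ
  have hθ0 : 0 < θ := by positivity
  have hθD : θ * Real.log D ≤ ε / 4 := by
    rw [hθ, div_mul_eq_mul_div, div_le_iff₀ (by positivity)]
    nlinarith
  set η : ℝ := Real.exp (-((a + 1) / θ)) with hη
  have hη0 : 0 < η := Real.exp_pos _
  obtain ⟨r0, hr0⟩ := hG η hη0
  obtain ⟨K, r1, hK, hr1⟩ := one η hη0
  refine ⟨max n0 (max (max r0 r1) 1), ?_⟩
  have htend : Tendsto (fun n : ℕ => (n : ℝ) ^ (ε / 4)) atTop atTop :=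
    (tendsto_rpow_atTop (by positivity)).comp tendsto_natCast_atTop_atTop
  have hlogt : ∀ᶠ n : ℕ in atTop, Real.log n ≤ (n : ℝ) ^ (ε / 4) := by
    have h := isLittleO_log_rpow_atTop (show 0 < ε / 4 by positivity)
    have h2 := (h.comp_tendsto tendsto_natCast_atTop_atTop).bound (c := 1) one_pos
    filter_upwards [h2, eventually_ge_atTop 1] with n hn hn1
    simp only [Function.comp_apply, Real.norm_eq_abs, one_mul] at hn
    have hN0 : (0 : ℝ) ≤ n := Nat.cast_nonneg _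
    rw [abs_of_nonneg (Real.rpow_nonneg hN0 _)] at hn
    exact (le_abs_self _).trans hn
  have hexp : ∀ᶠ n : ℕ in atTop, Real.exp ((a + 1) / θ) / c1 ≤ (n : ℝ) :=
    tendsto_natCast_atTop_atTop.eventually_ge_atTop _
  filter_upwards [hlogt, htend.eventually_ge_atTop (θ * K + 1), htend.eventually_ge_atTop D, hexp,
    eventually_ge_atTop 1] with n h1 h2 h3 h4 hn k l hk hkl hl
  have hN : (1 : ℝ) ≤ n := by exact_mod_cast hn
  have hN0 : (0 : ℝ) < n := by linarith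
  have hL0 : 0 ≤ Real.log n := Real.log_nonneg hN
  have hkn0 : n0 ≤ k := (le_max_left _ _).trans hk
  have hkr0 : r0 ≤ k :=
    (((le_max_left r0 r1).trans (le_max_left _ _)).trans (le_max_right _ _)).trans hk
  have hkr1 : r1 ≤ k :=
    (((le_max_right r0 r1).trans (le_max_left _ _)).trans (le_max_right _ _)).trans hk
  have hk1 : 1 ≤ k := ((le_max_right (max r0 r1) 1).trans (le_max_right _ _)).trans hk
  have hl1 : 1 ≤ l := hk1.trans hkl
  have hPl : 0 < P l :=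
    lt_of_lt_of_le (mul_pos hc1 (Real.rpow_pos_of_pos (by exact_mod_cast hl1) _)) (hlow l hl1)
  set J := ⌊θ * Real.log n⌋₊ with hJ
  have hJle : (J : ℝ) ≤ θ * Real.log n := Nat.floor_le (by positivity)
  have hJge : θ * Real.log n - 1 ≤ J := by
    have := Nat.lt_floor_add_one (θ * Real.log n)
    linarith
  -- `D^J ≤ n^(ε/4)`
  have hDJ : D ^ J ≤ (n : ℝ) ^ (ε / 4) := by
    rw [← Real.rpow_natCast, Real.rpow_def_of_pos hD0, Real.rpow_def_of_pos hN0]
    refine Real.exp_le_exp.2 ?_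
    calc Real.log D * J ≤ Real.log D * (θ * Real.log n) := mul_le_mul_of_nonneg_left hJle hLD
      _ = (θ * Real.log D) * Real.log n := by ring
      _ ≤ ε / 4 * Real.log n := mul_le_mul_of_nonneg_right hθD hL0
      _ = Real.log n * (ε / 4) := by ring
  have hBeq : ∀ j, (2 ^ b) ^ j = 2 ^ (b * j) := fun j => (pow_mul 2 b j).symm
  have hDeq : ∀ j, D ^ j = C ^ (b * j) := fun j => (pow_mul C b j).symm
  have hstepP : ∀ j, P k ≤ D ^ j * P ((2 ^ b) ^ j * k) := by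
    intro j
    rw [hBeq, hDeq]
    exact iter_dbl hC hdb (b * j) hkn0
  have hμ1 : μ.real (T k l) ≤ 1 := measureReal_le_one
  rcases lt_or_ge l ((2 ^ b) ^ (J + 1) * k) with hcase | hcase
  · -- few scales
    have h5 : P k ≤ D ^ (J + 1) * P l :=
      (hstepP (J + 1)).trans (mul_le_mul_of_nonneg_left (hPa hcase.le) (by positivity))
    have h6 : D ^ (J + 1) ≤ (n : ℝ) ^ ε := by
      calc D ^ (J + 1) = D ^ J * D := pow_succ _ _
        _ ≤ (n : ℝ) ^ (ε / 4) * (n : ℝ) ^ (ε / 4) :=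
            mul_le_mul hDJ h3 hD0.le (Real.rpow_nonneg hN0.le _)
        _ = (n : ℝ) ^ (ε / 4 + ε / 4) := (Real.rpow_add hN0 _ _).symm
        _ ≤ (n : ℝ) ^ ε := Real.rpow_le_rpow_of_exponent_le hN (by linarith)
    calc P k * μ.real (T k l) ≤ P k * 1 := mul_le_mul_of_nonneg_left hμ1 (hP0 k)
      _ = P k := mul_one _
      _ ≤ D ^ (J + 1) * P l := h5
      _ ≤ (n : ℝ) ^ ε * P l := mul_le_mul_of_nonneg_right h6 hPl.le
  · have hηJ : η ^ J ≤ P l := by
      have h5 : η ^ J ≤ (n : ℝ) ^ (-(a + 1)) * Real.exp ((a + 1) / θ) := by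
        rw [hη, ← Real.exp_nat_mul, Real.rpow_def_of_pos hN0, ← Real.exp_add]
        refine Real.exp_le_exp.2 ?_
        have h6 : (θ * Real.log n - 1) * ((a + 1) / θ) ≤ J * ((a + 1) / θ) :=
          mul_le_mul_of_nonneg_right hJge (by positivity)
        have h7 : (θ * Real.log n - 1) * ((a + 1) / θ) = (a + 1) * Real.log n - (a + 1) / θ := by
          field_simp
        have h8 : (J : ℝ) * -((a + 1) / θ) = -(J * ((a + 1) / θ)) := by ring
        rw [h8]
        linarith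
      have h6 : (n : ℝ) ^ (-(a + 1)) * Real.exp ((a + 1) / θ) ≤ c1 * (n : ℝ) ^ (-a) := by
        rw [div_le_iff₀ hc1] at h4
        have h7 : (n : ℝ) ^ (-(a + 1)) = (n : ℝ) ^ (-a) * (n : ℝ)⁻¹ := by
          rw [neg_add, Real.rpow_add hN0, Real.rpow_neg_one]
        rw [h7]
        have h8 := Real.rpow_pos_of_pos hN0 (-a)
        calc (n : ℝ) ^ (-a) * (n : ℝ)⁻¹ * Real.exp ((a + 1) / θ)
            ≤ (n : ℝ) ^ (-a) * (n : ℝ)⁻¹ * (n * c1) :=
              mul_le_mul_of_nonneg_left h4 (by positivity)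
          _ = c1 * (n : ℝ) ^ (-a) := by field_simp
      have h7 : c1 * (n : ℝ) ^ (-a) ≤ c1 * (l : ℝ) ^ (-a) := by
        refine mul_le_mul_of_nonneg_left ?_ hc1.le
        have hl0 : (0 : ℝ) < l := by exact_mod_cast hl1
        rw [Real.rpow_neg hN0.le, Real.rpow_neg hl0.le]
        refine inv_anti₀ (Real.rpow_pos_of_pos hl0 _) ?_
        exact Real.rpow_le_rpow hl0.le (by exact_mod_cast hl) ha
      exact h5.trans (h6.trans (h7.trans (hlow l hl1)))
    have hsub : T k l ⊆ (⋃ j ∈ Finset.range J, (T ((2 ^ b) ^ j * k) l ∩ G η ((2 ^ b) ^ j * k))) ∪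
        (⋂ j ∈ Finset.range J, (G η ((2 ^ b) ^ j * k))ᶜ) := by
      intro z hz
      by_cases hbad : z ∈ ⋂ j ∈ Finset.range J, (G η ((2 ^ b) ^ j * k))ᶜ
      · exact Or.inr hbad
      · left
        simp only [Set.mem_iInter, not_forall, Set.mem_compl_iff, not_not] at hbad
        obtain ⟨j, hj, hjG⟩ := hbad
        refine Set.mem_iUnion₂.2 ⟨j, hj, ?_, hjG⟩
        refine hTm k ((2 ^ b) ^ j * k) l hk1 (Nat.le_mul_of_pos_left _ (by positivity)) ?_ hz
        refine le_trans (Nat.mul_le_mul_right _ (Nat.pow_le_pow_right (by positivity) ?_)) hcase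
        have := Finset.mem_range.1 hj
        omega
    have hstep : ∀ j ∈ Finset.range J,
        P k * μ.real (T ((2 ^ b) ^ j * k) l ∩ G η ((2 ^ b) ^ j * k)) ≤
          (n : ℝ) ^ (ε / 4) * (K * P l) := by
      intro j hj
      have hjJ := Finset.mem_range.1 hj
      have hjk : k ≤ (2 ^ b) ^ j * k := Nat.le_mul_of_pos_left _ (by positivity)
      have hjl : 2 ^ b * ((2 ^ b) ^ j * k) ≤ l := by
        refine le_trans (le_of_eq (by ring : 2 ^ b * ((2 ^ b) ^ j * k) = (2 ^ b) ^ (j + 1) * k))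
          (le_trans (Nat.mul_le_mul_right _ (Nat.pow_le_pow_right (by positivity) (by omega))) hcase)
      have h5 := hr1 ((2 ^ b) ^ j * k) l (hkr1.trans hjk) hjl
      have h6 : P k ≤ (n : ℝ) ^ (ε / 4) * P ((2 ^ b) ^ j * k) := by
        refine (hstepP j).trans (mul_le_mul_of_nonneg_right ?_ (hP0 _))
        exact (pow_le_pow_right₀ hD1 (by omega)).trans hDJ
      calc P k * μ.real (T ((2 ^ b) ^ j * k) l ∩ G η ((2 ^ b) ^ j * k))
          ≤ ((n : ℝ) ^ (ε / 4) * P ((2 ^ b) ^ j * k)) *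
              μ.real (T ((2 ^ b) ^ j * k) l ∩ G η ((2 ^ b) ^ j * k)) :=
            mul_le_mul_of_nonneg_right h6 measureReal_nonneg
        _ = (n : ℝ) ^ (ε / 4) *
              (μ.real (T ((2 ^ b) ^ j * k) l ∩ G η ((2 ^ b) ^ j * k)) * P ((2 ^ b) ^ j * k)) := by
            ring
        _ ≤ (n : ℝ) ^ (ε / 4) * (K * P l) :=
            mul_le_mul_of_nonneg_left h5 (Real.rpow_nonneg hN0.le _)
    have hμle : μ.real (T k l) ≤
        ∑ j ∈ Finset.range J, μ.real (T ((2 ^ b) ^ j * k) l ∩ G η ((2 ^ b) ^ j * k)) + η ^ J := by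
      refine (measureReal_mono hsub).trans ((measureReal_union_le _ _).trans ?_)
      exact add_le_add (measureReal_biUnion_finset_le _ _) (hr0 k J hkr0)
    have hηl : P k * η ^ J ≤ P l :=
      calc P k * η ^ J ≤ 1 * η ^ J := mul_le_mul_of_nonneg_right (hP1 k) (by positivity)
        _ = η ^ J := one_mul _
        _ ≤ P l := hηJ
    calc P k * μ.real (T k l)
        ≤ P k * (∑ j ∈ Finset.range J,
            μ.real (T ((2 ^ b) ^ j * k) l ∩ G η ((2 ^ b) ^ j * k)) + η ^ J) :=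
          mul_le_mul_of_nonneg_left hμle (hP0 k)
      _ = ∑ j ∈ Finset.range J, P k * μ.real (T ((2 ^ b) ^ j * k) l ∩ G η ((2 ^ b) ^ j * k)) +
            P k * η ^ J := by rw [mul_add, Finset.mul_sum]
      _ ≤ ∑ _j ∈ Finset.range J, (n : ℝ) ^ (ε / 4) * (K * P l) + P l :=
          add_le_add (Finset.sum_le_sum hstep) hηl
      _ = (J * K) * (n : ℝ) ^ (ε / 4) * P l + P l := by
          rw [Finset.sum_const, Finset.card_range, nsmul_eq_mul]; ring
      _ ≤ (n : ℝ) ^ ε * P l := by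
          have e2 : (J * K : ℝ) ≤ θ * K * (n : ℝ) ^ (ε / 4) := by
            calc (J * K : ℝ) ≤ (θ * Real.log n) * K := mul_le_mul_of_nonneg_right hJle hK
              _ = θ * K * Real.log n := by ring
              _ ≤ θ * K * (n : ℝ) ^ (ε / 4) := mul_le_mul_of_nonneg_left h1 (by positivity)
          have e3 : (n : ℝ) ^ ε = (n : ℝ) ^ (ε / 4) * (n : ℝ) ^ (ε / 4) *
              ((n : ℝ) ^ (ε / 4) * (n : ℝ) ^ (ε / 4)) := by
            rw [← Real.rpow_add hN0, ← Real.rpow_add hN0]; congr 1; ring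
          rw [e3]
          exact fin_aux (Real.one_le_rpow hN (by positivity)) e2 h2 hPl.le

end Crest.Agent.R158.Sc689
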