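import Crest.Agent.R158.Sc1_689
import Crest.Agent.R158.Sc2_689
import Crest.Agent.R158.Qf6_808

/-!
# Row 158, Block SEP2 (helper689): quasi-multiplicativity of two arms

* `step_out2` : outer landing and gluing at one scale
* `Sep2` : separation of two arms (literal input)
* `p2_dbl` : `p2 n ≤ C p2 (2 n)`
* `qm2` : `p2 k P(An2 k' l) ≤ n^ε p2 l`
-/

set_option autoImplicit false

noncomputable section

namespace Crest.Agent.R158.Sc689

open Filter MeasureTheory ProbabilityTheory unitInterval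
open Crest.Agent.R161.Geo729 Crest.Agent.R161.Topo374 Crest.Agent.R161.Dual374
open Crest.Agent.R161.Tas682 hiding Sq
open Crest.Agent.R158.Rs689 Crest.Agent.R158.Ru874
open Crest.Agent.R158.Sp580 Crest.Agent.R158.Sb689
open Crest.Agent.R158.Sp874 (nr cl)
open Crest.Agent.R158.Qf808 Crest.Agent.R158.Oc874
open Crest.Agent.R158.Ax107 (p2 p2_anti p2_nonneg p2_le_one P2ev)
open Crest.Agent.R158.Sg158 (LocD)

/-- primal and dual crossing clusters of the annulus -/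
def An2 (k l : ℤ) : Set Cf := PArm (0, 0) k l ∩ DArm (0, 0) k l

theorem An2_mono {k k' l : ℤ} (h : k ≤ k') : An2 k l ⊆ An2 k' l := by
  rintro z ⟨⟨u, v, h1, h2, h3⟩, f, g, h4, h5, h6⟩
  exact ⟨⟨u, v, h1.trans h, h2, h3⟩, f, g, h4.trans h, h5, h6⟩

/-- finite union over pairs of cells -/
theorem cover_le2 {Ω : Type*} [MeasurableSpace Ω] {μ : Measure Ω} [IsFiniteMeasure μ] {A : Set Ω}
    {U : ℤ → ℤ → Set Ω} {Q : ℤ → ℤ → Prop} {M : ℕ}
    (h : ∀ z ∈ A, ∃ w w' : ℤ, (0 ≤ w ∧ w < M) ∧ (0 ≤ w' ∧ w' < M) ∧ Q w w' ∧ z ∈ U w w') {B : ℝ}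
    (hB : 0 ≤ B) (hU : ∀ w w', Q w w' → μ.real (U w w') ≤ B) : μ.real A ≤ (M : ℝ) ^ 2 * B := by
  classical
  set S : Finset (ℤ × ℤ) := (Finset.Ico (0 : ℤ) M ×ˢ Finset.Ico (0 : ℤ) M).filter
    fun q => Q q.1 q.2 with hS
  have hc : S.card ≤ M ^ 2 := by
    refine (Finset.card_filter_le _ _).trans ?_
    rw [Finset.card_product]
    simp [sq]
  have h1 : A ⊆ ⋃ q ∈ S, U q.1 q.2 := by
    intro z hz
    obtain ⟨w, w', h2, h3, h4, h5⟩ := h z hz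
    refine Set.mem_biUnion (x := (w, w')) ?_ h5
    rw [hS]
    refine Finset.mem_coe.2 (Finset.mem_filter.2 ⟨?_, h4⟩)
    exact Finset.mem_product.2 ⟨Finset.mem_Ico.2 h2, Finset.mem_Ico.2 h3⟩
  calc μ.real A ≤ μ.real (⋃ q ∈ S, U q.1 q.2) := measureReal_mono h1 (measure_ne_top _ _)
    _ ≤ ∑ q ∈ S, μ.real (U q.1 q.2) := measureReal_biUnion_finset_le _ _
    _ ≤ ∑ _q ∈ S, B := Finset.sum_le_sum fun q hq => hU q.1 q.2 (Finset.mem_filter.1 hq).2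
    _ = S.card * B := by rw [Finset.sum_const, nsmul_eq_mul]
    _ ≤ (M : ℝ) ^ 2 * B := mul_le_mul_of_nonneg_right (by exact_mod_cast hc) hB

/-- **outer landing and gluing at one scale, two arms** -/
theorem step_out2 {T0 : ℕ} (hT : 500 ≤ T0) {D1 D2 D3 : ℕ} (h1 : 2 ≤ D1) (h2 : 2 ≤ D2)
    (h3 : 2 ≤ D3) {c : ℝ} {p : I} {n : ℕ} (hn : 1 ≤ n) (hc : RSp c p n) (f : P2)
    {N : ℕ} (hN : N = 32 * D1 * D2 * D3 * T0) {k l : ℤ} (hkN : k < N * n)
    (hl : 2 * ((N : ℤ) * n) ≤ l) :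
    (nu p).real (An2 k l ∩ GO (0, 0) D1 D2 D3 (T0 * n)) * (nu p).real (Nice2 f n) ≤
      (((16 * N : ℕ) : ℝ) ^ 2 * (c ^ (4 * (2 * N + 8) ^ 2))⁻¹) * (nu p).real (A2 f l) := by
  have hN232 : 232 ≤ N := by
    have : 2 * 2 * 2 * 1 ≤ D1 * D2 * D3 * T0 := by gcongr; omega
    have e0 : N = 32 * (D1 * D2 * D3 * T0) := by rw [hN]; ring
    omega
  have hn0 : (1 : ℤ) ≤ n := by exact_mod_cast hn
  have hN0 : (232 : ℤ) ≤ N := by exact_mod_cast hN232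
  have hn1 : (N : ℤ) * n + 20 * n ≤ 2 * (N * n) - 2 := by nlinarith
  have hc0 : 0 < c := hc.1
  set B := 4 * (2 * N + 8) ^ 2 with hB
  have hcB : 0 < c ^ B := pow_pos hc0 B
  have hS : ∀ v ∈ Sq (((N : ℤ) + 20) * n), -((N : ℤ) * n + 20 * n) ≤ v.1 ∧
      v.1 ≤ (N : ℤ) * n + 20 * n ∧ -((N : ℤ) * n + 20 * n) ≤ v.2 ∧ v.2 ≤ (N : ℤ) * n + 20 * n := by
    intro v hv
    rw [mem_Sq] at hv
    have : ((N : ℤ) + 20) * n = (N : ℤ) * n + 20 * n := by ring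
    omega
  have hS' : ∀ v ∈ Sq (((N : ℤ) + 10) * n), -((N : ℤ) * n + 20 * n) ≤ v.1 ∧
      v.1 ≤ (N : ℤ) * n + 20 * n ∧ -((N : ℤ) * n + 20 * n) ≤ v.2 ∧ v.2 ≤ (N : ℤ) * n + 20 * n := by
    intro v hv
    rw [mem_Sq] at hv
    have : ((N : ℤ) + 10) * n = (N : ℤ) * n + 10 * n := by ring
    omega
  have hP : ∀ b ∈ Sph l, b ∉ Sq (((N : ℤ) + 10) * n) := by
    intro b hb hb'
    have h4 := hS' b hb'
    have h5 : sd (0, 0) b = l := hb
    have h6 : sd (0, 0) b ≤ (N : ℤ) * n + 20 * n := by rw [sd_le]; simp only; omega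
    omega
  have hQ : ∀ b ∈ FIb l, b ∉ Sq (((N : ℤ) + 10) * n) := by
    intro b hb hb'
    have h4 := hS' b hb'
    have h5 := hb.2
    simp only [Set.mem_ofPred_eq] at h5
    omega
  rcases (measureReal_nonneg (μ := nu p) (s := Nice2 f n)).eq_or_lt with hz | hpos
  · rw [← hz, mul_zero]
    positivity
  have hcov : (nu p).real (An2 k l ∩ GO (0, 0) D1 D2 D3 (T0 * n)) ≤
      ((16 * N : ℕ) : ℝ) ^ 2 * ((c ^ B)⁻¹ * (nu p).real (A2 f l) / (nu p).real (Nice2 f n)) := by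
    refine cover_le2 (Q := fun w w' => w + 840 ≤ w' ∧ w' + 840 ≤ w + 4 * (2 * ((N : ℤ) - 1) + 1))
      (U := fun w w' => O2 (Sq l) (FI l) (N * n) n (cl (N - 1) w) (cl (N - 1) w') (Sph l) (FIb l))
      ?_ (by positivity) ?_
    · rintro z ⟨⟨hz1, hz2⟩, hg⟩
      obtain ⟨w, w', a1, a2, a3, a4, a5⟩ := cover2 hT h1 h2 h3 hN hn hkN hl hz1 hz2 hg
      refine ⟨w, w', ?_, ?_, ⟨a1, a2⟩, a5⟩
      · push_cast; exact a3
      · push_cast; exact a4
    · rintro w w' ⟨hw, hw'⟩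
      have hg := glue_out2 (q := 1) (N := N) le_rfl (by omega) hn hc f hw hw'
        (L := Sq l) (FL := FI l) (Sq_finite l) (FI_finite l)
        (fun v hv => by rw [mem_Sq]; have := hS v hv; omega)
        (fun v hv => by rw [mem_FI]; have := hS v hv; omega)
        (P := Sph l) (Q := FIb l) hP hQ
      rw [one_mul] at hg
      rw [le_div_iff₀ hpos, inv_mul_eq_div, le_div_iff₀ hcB]
      calc (nu p).real (O2 (Sq l) (FI l) (N * n) n (cl (N - 1) w) (cl (N - 1) w') (Sph l) (FIb l)) *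
            (nu p).real (Nice2 f n) * c ^ B
          = c ^ B * ((nu p).real (Nice2 f n) * (nu p).real (O2 (Sq l) (FI l) (N * n) n
              (cl (N - 1) w) (cl (N - 1) w') (Sph l) (FIb l))) := by ring
        _ ≤ (nu p).real (Glued2 f (Sq l) (FI l) (Sph l) (FIb l)) := hg
        _ = (nu p).real (A2 f l) := rfl
  calc (nu p).real (An2 k l ∩ GO (0, 0) D1 D2 D3 (T0 * n)) * (nu p).real (Nice2 f n)
      ≤ (((16 * N : ℕ) : ℝ) ^ 2 * ((c ^ B)⁻¹ * (nu p).real (A2 f l) / (nu p).real (Nice2 f n))) *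
          (nu p).real (Nice2 f n) := mul_le_mul_of_nonneg_right hcov hpos.le
    _ = _ := by field_simp

/-! ### `p = 1/2` -/

/-- **separation of two arms** (literal input) -/
def Sep2 : Prop :=
  ∀ c : ℝ, 0 < c → ∃ K : ℝ, ∀ (p : I) (j : ℕ), RSp c p (2 ^ (j + 5)) →
    (nu p).real (A2 (0, 0) ((2 : ℤ) ^ (j + 2))) ≤ K * (nu p).real (Nice2 (0, 0) (2 ^ j))

/-- `p2` at a dyadic radius is at most `K P(Nice2)` -/
theorem p2_nice (h : Sep2) : ∃ K : ℝ, 1 ≤ K ∧ ∀ j r : ℕ, 2 ^ (j + 2) ≤ r →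
    p2 r ≤ K * (nu Rs689.hf).real (Nice2 (0, 0) (2 ^ j)) := by
  obtain ⟨c, hc0, hc1, hRS⟩ := rsp_half
  obtain ⟨K, hK⟩ := h c hc0
  refine ⟨max K 1, le_max_right _ _, fun j r hr => ?_⟩
  have h1 : p2 r ≤ p2 (2 ^ (j + 2)) := p2_anti hr
  have h2 := p2_le (n := 2 ^ (j + 2)) Nat.one_le_two_pow
  have h3 := hK Rs689.hf j (hRS _)
  push_cast at h2
  exact h1.trans (h2.trans (h3.trans
    (mul_le_mul_of_nonneg_right (le_max_left _ _) measureReal_nonneg)))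

theorem nice_p2 (j : ℕ) : (nu Rs689.hf).real (Nice2 (0, 0) (2 ^ j)) ≤ p2 (16 * 2 ^ j) :=
  measureReal_mono (Nice2_sub Nat.one_le_two_pow)

/-- doubling -/
theorem p2_dbl (h : Sep2) : ∃ C : ℝ, 1 ≤ C ∧ ∀ n : ℕ, 4 ≤ n → p2 n ≤ C * p2 (2 * n) := by
  obtain ⟨K, hK1, hK⟩ := p2_nice h
  refine ⟨K, hK1, fun n hn => ?_⟩
  obtain ⟨j, hj⟩ : ∃ j, Nat.log 2 n = j + 2 := by
    have : Nat.log 2 4 ≤ Nat.log 2 n := Nat.log_mono_right hn
    have h4 : Nat.log 2 4 = 2 := by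
      have : (4 : ℕ) = 2 ^ 2 := by norm_num
      rw [this, Nat.log_pow (by norm_num)]
    exact ⟨Nat.log 2 n - 2, by omega⟩
  have h1 : 2 ^ (j + 2) ≤ n := by
    rw [← hj]; exact Nat.pow_log_le_self 2 (by omega)
  have h2 : n < 2 ^ (j + 3) := by
    have := Nat.lt_pow_succ_log_self (b := 2) (by norm_num) n
    rw [hj] at this
    exact this
  have h3 : p2 (16 * 2 ^ j) ≤ p2 (2 * n) := by
    refine p2_anti ?_
    have : 2 ^ (j + 3) = 8 * 2 ^ j := by ring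
    omega
  exact (hK j n h1).trans (mul_le_mul_of_nonneg_left ((nice_p2 j).trans h3) (by linarith))

/-- **quasi-multiplicativity of two arms, with losses** -/
theorem qm2_aux (h : Sep2) : ∀ ε : ℝ, 0 < ε → ∃ k0 : ℕ, ∀ᶠ n : ℕ in atTop, ∀ k l : ℕ, k0 ≤ k →
    k ≤ l → l ≤ n → p2 k * (nu Rs689.hf).real (An2 k l) ≤ (n : ℝ) ^ ε * p2 l := by
  classical
  obtain ⟨c, hc0, hc1, hRS⟩ := rsp_half
  obtain ⟨C, hC1, hC⟩ := p2_dbl h
  obtain ⟨K0, hK01, hK0⟩ := p2_nice h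
  have hgp := fun η : ℝ => fun hη : 0 < η => good_params hc0 hc1 hη
  choose! D1 D2 D3 hD1 hD2 hD3 hD using hgp
  set Nf : ℝ → ℕ := fun η => 32 * D1 η * D2 η * D3 η * 500 with hNf
  set G : ℝ → ℕ → Set Cf := fun η r =>
    GO (0, 0) (D1 η) (D2 η) (D3 η) ((500 : ℕ) * (2 ^ sci (Nf η) r : ℕ)) with hG
  have hNpos : ∀ η, 0 < η → 256 ≤ Nf η := by
    intro η hη
    have h1 := hD1 η hη
    have h2 := hD2 η hη
    have h3 := hD3 η hη
    have : 2 * 2 * 2 ≤ D1 η * D2 η * D3 η := by gcongr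
    have e0 : Nf η = 16000 * (D1 η * D2 η * D3 η) := by simp only [hNf]; ring
    omega
  have hρ : ∀ η, ∀ r : ℕ, 32 * (D1 η : ℤ) * D2 η * D3 η * ((500 : ℕ) * (2 ^ sci (Nf η) r : ℕ)) =
      ((Nf η * 2 ^ sci (Nf η) r : ℕ) : ℤ) := by
    intro η r
    simp only [hNf]
    push_cast
    ring
  refine qm_of_doubling (μ := nu Rs689.hf) (P := p2) (T := fun k l : ℕ => An2 (k : ℤ) (l : ℤ))
    p2_anti p2_nonneg p2_le_one hC1 (n0 := 4) hC (fun k k' l h1 h2 h3 =>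
      An2_mono (by exact_mod_cast h2)) (b := 3) G ?_ ?_
  · intro η hη
    refine ⟨Nf η, fun k J hk => ?_⟩
    have hN := hNpos η hη
    have hkj : ∀ j : ℕ, k ≤ (2 ^ 3) ^ j * k := fun j => Nat.le_mul_of_pos_left k (by positivity)
    refine inter_pow Rs689.hf (D := fun j => {v |
      ((Nf η * 2 ^ sci (Nf η) ((2 ^ 3) ^ j * k) : ℕ) : ℤ) ≤ sd (0, 0) v ∧
      sd (0, 0) v ≤ 2 * ((Nf η * 2 ^ sci (Nf η) ((2 ^ 3) ^ j * k) : ℕ) : ℤ)}) J ?_ ?_ ?_
    · intro j _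
      refine LocD.compl' ?_
      have h4 := locD_GO (0, 0) (hD1 η hη) (hD2 η hη) (hD3 η hη)
        (u := ((500 : ℕ) : ℤ) * (2 ^ sci (Nf η) ((2 ^ 3) ^ j * k) : ℕ)) (by
          have : 1 ≤ 500 * 2 ^ sci (Nf η) ((2 ^ 3) ^ j * k) := Nat.mul_pos (by norm_num) (by positivity)
          exact_mod_cast this)
      rw [hρ η] at h4
      exact h4
    · have key : ∀ i j : ℕ, i < j → Disjoint
          {v : P2 | ((Nf η * 2 ^ sci (Nf η) ((2 ^ 3) ^ i * k) : ℕ) : ℤ) ≤ sd (0, 0) v ∧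
            sd (0, 0) v ≤ 2 * ((Nf η * 2 ^ sci (Nf η) ((2 ^ 3) ^ i * k) : ℕ) : ℤ)}
          {v : P2 | ((Nf η * 2 ^ sci (Nf η) ((2 ^ 3) ^ j * k) : ℕ) : ℤ) ≤ sd (0, 0) v ∧
            sd (0, 0) v ≤ 2 * ((Nf η * 2 ^ sci (Nf η) ((2 ^ 3) ^ j * k) : ℕ) : ℤ)} := by
        intro i j hij
        rw [Set.disjoint_left]
        rintro v ⟨_, h5⟩ ⟨h6, _⟩
        have h7 := (sci_lt (N := Nf η) (r := (2 ^ 3) ^ i * k) (by omega) (hk.trans (hkj i))).1
        have h8 := sci_ge (N := Nf η) (r := (2 ^ 3) ^ j * k) (by omega)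
        have h9 : 8 * ((2 ^ 3) ^ i * k) ≤ (2 ^ 3) ^ j * k := by
          have : (2 ^ 3) ^ (i + 1) ≤ (2 ^ 3) ^ j := Nat.pow_le_pow_right (by norm_num) hij
          calc 8 * ((2 ^ 3) ^ i * k) = (2 ^ 3) ^ (i + 1) * k := by ring
            _ ≤ _ := Nat.mul_le_mul_right k this
        have h10 := hkj i
        have h11 : ((Nf η * 2 ^ sci (Nf η) ((2 ^ 3) ^ j * k) : ℕ) : ℤ) ≤
          2 * ((Nf η * 2 ^ sci (Nf η) ((2 ^ 3) ^ i * k) : ℕ) : ℤ) := h6.trans h5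
        have h12 : Nf η * 2 ^ sci (Nf η) ((2 ^ 3) ^ j * k) ≤
            2 * (Nf η * 2 ^ sci (Nf η) ((2 ^ 3) ^ i * k)) := by
          exact_mod_cast h11
        omega
      intro i _ j _ hij
      rcases lt_or_gt_of_ne hij with h | h
      · exact key i j h
      · exact (key j i h).symm
    · intro j _
      exact (hD η hη Rs689.hf _ _ (0, 0)
        (hRS (2 * (Nf η * 2 ^ sci (Nf η) ((2 ^ 3) ^ j * k)) + 1)) (by
        have : 1 ≤ 500 * 2 ^ sci (Nf η) ((2 ^ 3) ^ j * k) := Nat.mul_pos (by norm_num) (by positivity)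
        exact_mod_cast this) (by rw [hρ η]; push_cast; exact le_rfl)).1
  · intro η hη
    have hN := hNpos η hη
    set N := Nf η with hNdef
    set C1 : ℝ := ((16 * N : ℕ) : ℝ) ^ 2 * (c ^ (4 * (2 * N + 8) ^ 2))⁻¹ with hC1'
    have hC10 : 0 ≤ C1 := by positivity
    refine ⟨K0 * (C1 * C), N, by positivity, fun r l hr hl => ?_⟩
    set i := sci N r with hi
    have h1 := sci_ge (N := N) (r := r) (by omega)
    obtain ⟨h2, h3⟩ := sci_lt (N := N) (r := r) (by omega) hr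
    rw [← hi] at h1 h2 h3
    have hstep := step_out2 (T0 := 500) le_rfl (hD1 η hη) (hD2 η hη) (hD3 η hη) (p := Rs689.hf)
      (n := 2 ^ i) Nat.one_le_two_pow (hRS _) (0, 0)
      (N := N) rfl (k := r) (l := l) (by
        have : r < N * 2 ^ i := by omega
        exact_mod_cast this) (by
        have : 2 * (N * 2 ^ i) ≤ l := by omega
        exact_mod_cast this)
    have h5 : p2 r ≤ K0 * (nu Rs689.hf).real (Nice2 (0, 0) (2 ^ i)) := by
      refine hK0 i r ?_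
      have h6 : 256 * 2 ^ i ≤ N * 2 ^ i := Nat.mul_le_mul_right _ hN
      have h7 : 2 ^ (i + 2) = 4 * 2 ^ i := by ring
      omega
    have h6 : (nu Rs689.hf).real (A2 (0, 0) (l : ℤ)) ≤ C * p2 l := by
      have h7 : (nu Rs689.hf).real (A2 (0, 0) (l : ℤ)) ≤ p2 (l - 1) := by
        refine A2_le ?_
        have : 1 ≤ l := by omega
        push_cast [Nat.cast_sub this]
        omega
      refine h7.trans ((hC (l - 1) (by omega)).trans ?_)
      exact mul_le_mul_of_nonneg_left (p2_anti (by omega)) (by linarith)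
    calc (nu Rs689.hf).real (An2 (r : ℤ) (l : ℤ) ∩ G η r) * p2 r
        ≤ (nu Rs689.hf).real (An2 (r : ℤ) (l : ℤ) ∩ G η r) *
            (K0 * (nu Rs689.hf).real (Nice2 (0, 0) (2 ^ i))) :=
          mul_le_mul_of_nonneg_left h5 measureReal_nonneg
      _ = K0 * ((nu Rs689.hf).real (An2 (r : ℤ) (l : ℤ) ∩ G η r) *
            (nu Rs689.hf).real (Nice2 (0, 0) (2 ^ i))) := by ring
      _ ≤ K0 * (C1 * (nu Rs689.hf).real (A2 (0, 0) (l : ℤ))) :=
          mul_le_mul_of_nonneg_left hstep (by linarith)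
      _ ≤ K0 * (C1 * (C * p2 l)) :=
          mul_le_mul_of_nonneg_left (mul_le_mul_of_nonneg_left h6 hC10) (by linarith)
      _ = _ := by ring

end Crest.Agent.R158.Sc689
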