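import Crest.Agent.R158.Sp0_580

/-!
# Row 158, Block SEP, leaf L5 (helper689): arms landed on tokens and gates, generic layer

* `arm_col`, `arm_row` : an arm landing at the ring of cells around `κ` is prolonged by the tube to a gate
  (a long vertical / horizontal crossing carried by a column / row of cells)
-/

set_option autoImplicit false

noncomputable section

namespace Crest.Agent.R158.Sg689

open MeasureTheory ProbabilityTheory unitInterval
open Crest.Agent.R161.Geo729 Crest.Agent.R161.Topo374 Crest.Agent.R161.Dual374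
open Crest.Agent.R161.Tas682
open Crest.Agent.R158.Rs689 Crest.Agent.R158.Sp580

/-- outside the block of radius `m` (weakly) -/
def OutB (n : ℕ) (k : P2) (m : ℤ) (x : P2) : Prop :=
  x.1 ≤ (k.1 - m) * n ∨ (k.1 + m + 1) * n ≤ x.1 ∨ x.2 ≤ (k.2 - m) * n ∨ (k.2 + m + 1) * n ≤ x.2

/-- **Landing**, block form: the arm ends in the block of radius `r - 2` and starts outside the block of
radius `r + 1`; the ring has radius `r`. -/
theorem land_block {z : Cfz} {n : ℕ} {K : Finset P2} (hz : z ∈ tubeX n K) {κ : P2} {r : ℤ}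
    (hr : 2 ≤ r) (hK : ringC κ r ⊆ K) {k k' u : P2} (hk : k ∈ K) (hk' : k' ∈ ringC κ r)
    (hkc : CConn (K : Set P2) k k') (hu : hubH z n k u) {S : Set P2} {a b : P2} (h : OC z S a b)
    (ha : a ∈ Bk n κ (r - 2)) (hb : OutB n κ (r + 1) b) :
    ∃ w, OC z S a w ∧ OC z (tubeR n K) u w := by
  have hn : (0 : ℤ) ≤ n := by positivity
  rw [mem_Bk] at ha
  refine frame_catch hz (by omega) (by omega) hK hk
    (hkc.trans ((frame_conn hk').mono fun x hx => hK hx).symm) hu h ?_ ?_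
  · obtain ⟨h1, h2, h3, h4⟩ := ha
    refine ⟨?_, ?_, ?_, ?_⟩ <;> nlinarith
  · rcases hb with h1 | h1 | h1 | h1
    · left; nlinarith
    · right; left; nlinarith
    · right; right; left; nlinarith
    · right; right; right; nlinarith

/-- arm + token + column gate -/
theorem arm_col {z : Cfz} {n : ℕ} {K : Finset P2} (hz : z ∈ tubeX n K) {κ : P2} {r : ℤ}
    (hr : 2 ≤ r) (hK : ringC κ r ⊆ K) {i j0 j1 : ℤ} (hj : j0 ≤ j1) (hC : colC i j0 j1 ⊆ K)
    {k' : P2} (hk' : k' ∈ ringC κ r) (hkc : CConn (K : Set P2) (i, j0) k') {S : Set P2} {u a : P2}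
    (h : OC z S u a) (ha : a ∈ Bk n κ (r - 2)) (hu : OutB n κ (r + 1) u) :
    ∃ A B : P2, A.2 = j0 * n - n ∧ B.2 = j1 * n + 2 * n ∧
      OC z (tubeR n (colC i j0 j1)) A B ∧ OC z (S ∪ tubeR n K) u A := by
  obtain ⟨A, B, v, hA, hB, hv, h1, h2⟩ := col_path hz hj hC
  have m0 : ((i, j0) : P2) ∈ K := hC (mem_colC.2 ⟨rfl, le_rfl, hj⟩)
  obtain ⟨w, hw1, hw2⟩ := land_block hz hr hK m0 hk' hkc hv h.symm ha hu
  refine ⟨A, B, hA, hB, h1, ?_⟩
  have e1 : OC z (S ∪ tubeR n K) u w := (h.trans hw1).monoS Set.subset_union_left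
  have e2 : OC z (S ∪ tubeR n K) w v := hw2.symm.monoS Set.subset_union_right
  have e3 : OC z (S ∪ tubeR n K) v A := h2.monoS ((tubeR_mono n hC).trans Set.subset_union_right)
  exact (e1.trans e2).trans e3

/-- arm + token + row gate -/
theorem arm_row {z : Cfz} {n : ℕ} {K : Finset P2} (hz : z ∈ tubeX n K) {κ : P2} {r : ℤ}
    (hr : 2 ≤ r) (hK : ringC κ r ⊆ K) {i0 i1 j : ℤ} (hi : i0 ≤ i1) (hC : rowC i0 i1 j ⊆ K)
    {k' : P2} (hk' : k' ∈ ringC κ r) (hkc : CConn (K : Set P2) (i0, j) k') {S : Set P2} {u a : P2}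
    (h : OC z S u a) (ha : a ∈ Bk n κ (r - 2)) (hu : OutB n κ (r + 1) u) :
    ∃ A B : P2, A.1 = i0 * n - n ∧ B.1 = i1 * n + 2 * n ∧
      OC z (tubeR n (rowC i0 i1 j)) A B ∧ OC z (S ∪ tubeR n K) u A := by
  obtain ⟨A, B, v, hA, hB, hv, h1, h2⟩ := row_path hz hi hC
  have m0 : ((i0, j) : P2) ∈ K := hC (mem_rowC.2 ⟨le_rfl, hi, rfl⟩)
  obtain ⟨w, hw1, hw2⟩ := land_block hz hr hK m0 hk' hkc hv h.symm ha hu
  refine ⟨A, B, hA, hB, h1, ?_⟩
  have e1 : OC z (S ∪ tubeR n K) u w := (h.trans hw1).monoS Set.subset_union_left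
  have e2 : OC z (S ∪ tubeR n K) w v := hw2.symm.monoS Set.subset_union_right
  have e3 : OC z (S ∪ tubeR n K) v A := h2.monoS ((tubeR_mono n hC).trans Set.subset_union_right)
  exact (e1.trans e2).trans e3


end Crest.Agent.R158.Sg689
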