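import Crest.Agent.R158.Sg1_158

/-!
# Row 158, Block SEP, leaf L6 (helper158): gluing of nice arms and outer arms through tokens

* `TkD d m n K κ` : the set of cells `K` contains the landing ring of `κ` and crosses the gate `d` of
  scale `m`
* `garm_glue` : nice arm + tube + outer arm
* `Tok` : hypotheses on the four sets of cells
* `glue_out_tok` : `P(Nice) P(Uout) c^(4M) ≤ P(Glued)`
* `glued_piv` : glued arms make `e` pivotal for the crossing of a rectangle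
-/

set_option autoImplicit false

noncomputable section

namespace Crest.Agent.R158.Sg158

open MeasureTheory ProbabilityTheory unitInterval
open Crest.Agent.R161.Geo729 Crest.Agent.R161.Topo374 Crest.Agent.R161.Dual374
open Crest.Agent.R161.Tas682 hiding Sq
open Crest.Agent.R158.Rs689 Crest.Agent.R158.Ru874 Crest.Agent.R158.Sp580

/-- the set of cells `K` contains the landing ring of `κ` and crosses the gate `d` of scale `m` -/
def TkD (d : Fin 4) (m n : ℕ) (K : Finset P2) (κ : P2) : Prop :=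
  match d with
  | 0 => TkH n K κ (20 * m) (32 * m) (-(4 * m)) (4 * m)
  | 1 => TkV n K κ (-(4 * m)) (4 * m) (20 * m) (32 * m)
  | 2 => TkH n K κ (-(32 * m)) (-(20 * m)) (-(4 * m)) (4 * m)
  | 3 => TkV n K κ (-(4 * m)) (4 * m) (-(32 * m)) (-(20 * m))

/-- the target set `P` is outside the block of radius 4 around `κ` -/
def FarP (n : ℕ) (κ : P2) (P : Set P2) : Prop :=
  ∀ b ∈ P, b.1 ≤ (κ.1 - 4) * n ∨ (κ.1 + 5) * n ≤ b.1 ∨ b.2 ≤ (κ.2 - 4) * n ∨
    (κ.2 + 5) * n ≤ b.2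

/-- nice arm + tube + outer arm -/
theorem garm_glue {z : Cfz} {n m : ℕ} {d : Fin 4} {K : Finset P2} (hz : z ∈ tubeX n K) {κ : P2}
    (T : TkD d m n K κ) {u : P2} (hu : GArm z d m u) {S P L : Set P2} {a : P2}
    (ha : a ∈ Bk n κ 1) (hout : Arm z S P a) (hP : FarP n κ P)
    (h1 : Sq (16 * m) ∪ Corr d m ⊆ L) (h2 : tubeR n K ⊆ L) (h3 : S ⊆ L) : Arm z L P u := by
  obtain ⟨A, B, hA, hB, hAB, huA⟩ := hu
  obtain ⟨b, hb, hab⟩ := hout
  have hG : Gate d m ⊆ L := ((Gate_sub d m).trans Set.subset_union_right).trans h1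
  have ha' : a ∈ Rect ((κ.1 - 1) * n) ((κ.1 + 2) * n) ((κ.2 - 1) * n) ((κ.2 + 2) * n) := by
    rw [mem_Bk] at ha
    rw [mem_rect]
    obtain ⟨e1, e2, e3, e4⟩ := ha
    refine ⟨e1, ?_, e3, ?_⟩
    · linarith
    · linarith
  refine ⟨b, hb, ?_⟩
  fin_cases d
  · simp only [co, Fin.zero_eta] at hA hB hAB huA T h1 hG
    exact arm_glueH hz T huA (OC.refl hAB.1) hAB (fun w hw => ⟨hw.1, hw.2.1⟩) hA hB hab ha'
      (hP b hb) h1 hG h2 h3
  · simp only [co, Fin.mk_one] at hA hB hAB huA T h1 hG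
    exact arm_glueV hz T huA hAB (OC.refl hAB.1) (fun w hw => ⟨hw.1, hw.2.1⟩) (by omega)
      (by omega) hab ha' (hP b hb) h1 hG h2 h3
  · simp only [co, Fin.reduceFinMk] at hA hB hAB huA T h1 hG
    refine arm_glueH hz T huA hAB (OC.refl hAB.1) (fun w hw => ?_) (by omega) (by omega) hab ha'
      (hP b hb) h1 hG h2 h3
    have h5 := hw.1
    have h6 := hw.2.1
    simp only [co] at h5 h6
    omega
  · simp only [co, Fin.reduceFinMk] at hA hB hAB huA T h1 hG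
    refine arm_glueV hz T huA (OC.refl hAB.1) hAB (fun w hw => ?_) (by omega) (by omega) hab ha'
      (hP b hb) h1 hG h2 h3
    have h5 := hw.1
    have h6 := hw.2.1
    simp only [co] at h5 h6
    omega

/-- hypotheses on a set of cells: landing at `κ`, gate `d` of scale `m`, away from the inner support
`N`, inside `Bk n κ 8 ∪ Sq (ρ - 1)`, inside `L` -/
structure Tok (d : Fin 4) (m n : ℕ) (ρ : ℤ) (N L : Set P2) (K : Finset P2) (κ : P2) : Prop where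
  tk : TkD d m n K κ
  loc : tubeB n K ⊆ Bk n κ 8 ∪ Sq (ρ - 1)
  inn : Disjoint N (tubeB n K)
  sub : tubeB n K ⊆ L

theorem OutV_not {L : Set P2} {ρ : ℤ} {x : P2} (h : x ∈ OutV L ρ) (hx : x ∈ Sq (ρ - 1)) : False := by
  have h1 := h.2
  rw [mem_Sq] at hx
  have h2 : ρ ≤ sd (0, 0) x := h1
  unfold sd at h2
  simp only [sub_zero] at h2
  rcases abs_cases x.1 with h3 | h3 <;> rcases abs_cases x.2 with h4 | h4 <;> omega

theorem OutF_not {L : Set P2} {ρ : ℤ} {x : P2} (h : x ∈ OutF L ρ) (hx : x ∈ Sq (ρ - 1)) : False := by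
  have h1 := h.2
  rw [mem_Sq] at hx
  apply h1
  omega

theorem garm_if {z : Cfz} {m : ℕ} {u v : P2} {s : Bool} {a b : Fin 4}
    (h : GArm z (if s then a else b) m u ∧ GArm z (if s then b else a) m v) :
    (GArm z a m u ∧ GArm z b m v) ∨ (GArm z b m u ∧ GArm z a m v) := by
  cases s
  · exact Or.inr h
  · exact Or.inl h

/-- the deterministic core: one colour -/
theorem pair_glue {z : Cfz} {n m : ℕ} {d d' : Fin 4} {K K' : Finset P2} {κ κ' : P2}
    (hz : z ∈ tubeX n K) (hz' : z ∈ tubeX n K') (T : TkD d m n K κ) (T' : TkD d' m n K' κ')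
    {u v : P2} (hn : (GArm z d m u ∧ GArm z d' m v) ∨ (GArm z d' m u ∧ GArm z d m v))
    {S P P' L : Set P2} (ha : ∃ a ∈ Bk n κ 1, Arm z S P a) (ha' : ∃ a ∈ Bk n κ' 1, Arm z S P' a)
    (hP : FarP n κ P) (hP' : FarP n κ' P') (h1 : Sq (16 * m) ∪ Corr d m ⊆ L)
    (h1' : Sq (16 * m) ∪ Corr d' m ⊆ L) (h2 : tubeR n K ⊆ L) (h2' : tubeR n K' ⊆ L)
    (h3 : S ⊆ L) : (Arm z L P u ∧ Arm z L P' v) ∨ (Arm z L P' u ∧ Arm z L P v) := by
  obtain ⟨a, ha, ho⟩ := ha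
  obtain ⟨a', ha', ho'⟩ := ha'
  rcases hn with ⟨hu, hv⟩ | ⟨hu, hv⟩
  · exact Or.inl ⟨garm_glue hz T hu ha ho hP h1 h2 h3, garm_glue hz' T' hv ha' ho' hP' h1' h2' h3⟩
  · exact Or.inr ⟨garm_glue hz' T' hu ha' ho' hP' h1' h2' h3, garm_glue hz T hv ha ho hP h1 h2 h3⟩

/-- **L6 with given tokens.** Primal tokens `K1` (direction `d1`), `K3` (`d3`), dual tokens `K2`,
`K4`. -/
theorem glue_out_tok {p : I} {c : ℝ} {n m : ℕ} {ρ : ℤ} (hn : 1 ≤ n) (hc : RSp c p n) {e : Edge}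
    (he : src e = (0, 0)) (s t : Bool) (hm : 32 * (m : ℤ) < ρ) {L FL : Set P2} (hL : L.Finite)
    (hFL : FL.Finite) (hLm : Sq (32 * m) ⊆ L) (hFLm : Sq (32 * m) ⊆ FL) {k1 k2 k3 k4 : P2}
    {P1 P3 Q2 Q4 : Set P2} (f1 : FarP n k1 P1) (f3 : FarP n k3 P3) (f2 : FarP n k2 Q2)
    (f4 : FarP n k4 Q4) {K1 K2 K3 K4 : Finset P2} {d1 d2 d3 d4 : Fin 4}
    (hd : (d1 = 0 ∧ d3 = 2) ∨ (d1 = 2 ∧ d3 = 0)) (hd' : (d2 = 1 ∧ d4 = 3) ∨ (d2 = 3 ∧ d4 = 1))
    (T1 : Tok d1 m n ρ (NVD m) L K1 k1) (T3 : Tok d3 m n ρ (NVD m) L K3 k3)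
    (T2 : Tok d2 m n ρ (NVP m) FL K2 k2) (T4 : Tok d4 m n ρ (NVP m) FL K4 k4)
    (d12 : Disjoint (tubeB n K1) (tubeB n K2)) (d14 : Disjoint (tubeB n K1) (tubeB n K4))
    (d32 : Disjoint (tubeB n K3) (tubeB n K2)) (d34 : Disjoint (tubeB n K3) (tubeB n K4))
    {M : ℕ} (c1 : K1.card ≤ M) (c2 : K2.card ≤ M) (c3 : K3.card ≤ M) (c4 : K4.card ≤ M) :
    c ^ (8 * M) * ((nu p).real (Nice e m s t) *
      (nu p).real (Uout L FL ρ n k1 k2 k3 k4 P1 P3 Q2 Q4)) ≤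
      (nu p).real (Glued e L FL P1 P3 Q2 Q4) := by
  classical
  have hm0 : (0 : ℤ) ≤ m := by positivity
  have z16 : ∀ x : P2, x = (0, 0) → x ∈ Sq (16 * m) := by
    rintro x rfl
    rw [mem_Sq]
    simp only
    omega
  -- supports
  have l1 : LocD (NVP m) (NiceP e m s) := ⟨_, dep_NiceP e m s, fun i hi => (of_mem_edF hi).1⟩
  have mapsrc : ∀ {D : Set P2} {i : Edge}, i ∈ (edF D).map dE.symm.toEmbedding → src i ∈ D := by
    intro D i hi
    rw [Finset.mem_map] at hi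
    obtain ⟨i', hi', rfl⟩ := hi
    have h3 : tgt (dE (dE.symm i')) = fA (dE.symm i') := tgt_dE _
    rw [Equiv.apply_symm_apply] at h3
    have h4 : fA (dE.symm i') = src (dE.symm i') := rfl
    show src (dE.symm i') ∈ D
    rw [← h4, ← h3]
    exact (of_mem_edF hi').2
  have l2 : LocD (NVD m) (NiceD e m t) := ⟨_, dep_NiceD e m t, fun i hi => mapsrc hi⟩
  have l3 : LocD (OutV L ρ \ Bk2 n k2 k4 8) (UoutP L ρ n k1 k2 k3 k4 P1 P3) :=
    ⟨_, dep_UoutP hL ρ n k1 k2 k3 k4 P1 P3, fun i hi => (of_mem_edF hi).1⟩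
  have l4 : LocD (OutF FL ρ \ Bk2 n k1 k3 8) (UoutD FL ρ n k1 k2 k3 k4 Q2 Q4) :=
    ⟨_, dep_UoutD hFL ρ n k1 k2 k3 k4 Q2 Q4, fun i hi => mapsrc hi⟩
  have inS : NVP m ∪ NVD m ⊆ Sq (ρ - 1) := by
    refine Set.union_subset ((NVP_sub m).trans (Sq_sub (by omega)))
      ((NVD_sub m).trans (Sq_sub (by omega)))
  have g0 : Disjoint (NVP m ∪ NVD m) ((OutV L ρ \ Bk2 n k2 k4 8) ∪ (OutF FL ρ \ Bk2 n k1 k3 8)) := by
    rw [Set.disjoint_left]
    rintro x hx (h | h)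
    · exact OutV_not h.1 (inS hx)
    · exact OutF_not h.1 (inS hx)
  have g1 : Disjoint (NVP m ∪ (OutV L ρ \ Bk2 n k2 k4 8)) (tubeB n (K2 ∪ K4)) := by
    rw [Set.disjoint_left, tubeB_union]
    rintro x (hx | hx) (h | h)
    · exact Set.disjoint_left.1 T2.inn hx h
    · exact Set.disjoint_left.1 T4.inn hx h
    · rcases T2.loc h with h' | h'
      · exact hx.2 (Or.inl h')
      · exact OutV_not hx.1 h'
    · rcases T4.loc h with h' | h'
      · exact hx.2 (Or.inr h')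
      · exact OutV_not hx.1 h'
  have g2 : Disjoint (NVD m ∪ (OutF FL ρ \ Bk2 n k1 k3 8)) (tubeB n (K1 ∪ K3)) := by
    rw [Set.disjoint_left, tubeB_union]
    rintro x (hx | hx) (h | h)
    · exact Set.disjoint_left.1 T1.inn hx h
    · exact Set.disjoint_left.1 T3.inn hx h
    · rcases T1.loc h with h' | h'
      · exact hx.2 (Or.inl h')
      · exact OutF_not hx.1 h'
    · rcases T3.loc h with h' | h'
      · exact hx.2 (Or.inr h')
      · exact OutF_not hx.1 h'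
  have g3 : Disjoint (tubeB n (K1 ∪ K3)) (tubeB n (K2 ∪ K4)) := by
    rw [tubeB_union, tubeB_union, Set.disjoint_union_left, Set.disjoint_union_right,
      Set.disjoint_union_right]
    exact ⟨⟨d12, d14⟩, ⟨d32, d34⟩⟩
  have key := glue_prob p (n := n) (K := K1 ∪ K3) (K' := K2 ∪ K4) l1 l2 l3 l4 (inc_NiceP e m s)
    (decr_NiceD e m t) (inc_UoutP L ρ n k1 k2 k3 k4 P1 P3) (decr_UoutD FL ρ n k1 k2 k3 k4 Q2 Q4)
    g0 g1 g2 g3
  -- price
  have hc0 := hc.1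
  have hc1 := hc.le_one hn
  have pr : c ^ (8 * M) ≤ xpr p (3 * n) n ^ (2 * (K1 ∪ K3).card) *
      xpr (σ p) (3 * n) n ^ (2 * (K2 ∪ K4).card) := by
    obtain ⟨h4, h5⟩ := hc.2 n hn le_rfl
    have q1 : (K1 ∪ K3).card ≤ 2 * M := (Finset.card_union_le _ _).trans (by omega)
    have q2 : (K2 ∪ K4).card ≤ 2 * M := (Finset.card_union_le _ _).trans (by omega)
    have r1 : c ^ (4 * M) ≤ xpr p (3 * n) n ^ (2 * (K1 ∪ K3).card) :=
      (pow_le_pow_of_le_one hc0.le hc1 (by omega)).trans (pow_le_pow_left₀ hc0.le h4 _)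
    have r2 : c ^ (4 * M) ≤ xpr (σ p) (3 * n) n ^ (2 * (K2 ∪ K4).card) :=
      (pow_le_pow_of_le_one hc0.le hc1 (by omega)).trans (pow_le_pow_left₀ hc0.le h5 _)
    have r3 : c ^ (8 * M) = c ^ (4 * M) * c ^ (4 * M) := by
      rw [← pow_add]
      congr 1
      ring
    rw [r3]
    exact mul_le_mul r1 r2 (pow_nonneg hc0.le _) ((pow_nonneg hc0.le _).trans r1)
  have st : c ^ (8 * M) * ((nu p).real (Nice e m s t) *
      (nu p).real (Uout L FL ρ n k1 k2 k3 k4 P1 P3 Q2 Q4)) ≤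
      (nu p).real (NiceP e m s ∩ NiceD e m t) *
        (nu p).real (UoutP L ρ n k1 k2 k3 k4 P1 P3 ∩ UoutD FL ρ n k1 k2 k3 k4 Q2 Q4) *
        (xpr p (3 * n) n ^ (2 * (K1 ∪ K3).card) *
          xpr (σ p) (3 * n) n ^ (2 * (K2 ∪ K4).card)) := by
    rw [mul_comm]
    exact mul_le_mul_of_nonneg_left pr (mul_nonneg measureReal_nonneg measureReal_nonneg)
  refine (st.trans key).trans (measureReal_mono ?_)
  -- the deterministic part
  rintro z ⟨⟨⟨hP, hOP⟩, ⟨hD, hOD⟩⟩, hK, hK'⟩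
  have e13 : tubeB n (K1 ∪ K3) = tubeB n K1 ∪ tubeB n K3 := tubeB_union _ _ _
  have e24 : tubeB n (K2 ∪ K4) = tubeB n K2 ∪ tubeB n K4 := tubeB_union _ _ _
  have zD : src e ∈ NVD m := Or.inl (z16 _ he)
  have zP : src e ∈ NVP m := Or.inl (z16 _ he)
  have n1 : src e ∉ tubeB n (K1 ∪ K3) := fun h =>
    Set.disjoint_left.1 g2 (Or.inl zD) h
  have n2 : src e ∉ tubeB n (K2 ∪ K4) := fun h =>
    Set.disjoint_left.1 g1 (Or.inl zP) h
  have n3 : src e ∉ OutV L ρ \ Bk2 n k2 k4 8 := fun h =>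
    Set.disjoint_left.1 g0 (Or.inl zP) (Or.inl h)
  have n4 : src e ∉ OutF FL ρ \ Bk2 n k1 k3 8 := fun h =>
    Set.disjoint_left.1 g0 (Or.inl zP) (Or.inr h)
  have t1 : frc e false z ∈ tubeX n (K1 ∪ K3) := ((locD_tube n (K1 ∪ K3)).frc_iff n1 false z).2 hK
  have t2 : frc e true z ∈ dual ⁻¹' tubeX n (K2 ∪ K4) :=
    ((locD_tubed n (K2 ∪ K4)).frc_iff n2 true z).2 hK'
  have o1 : frc e false z ∈ UoutP L ρ n k1 k2 k3 k4 P1 P3 := (l3.frc_iff n3 false z).2 hOP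
  have o2 : frc e true z ∈ UoutD FL ρ n k1 k2 k3 k4 Q2 Q4 := (l4.frc_iff n4 true z).2 hOD
  have sL : OutV L ρ \ Bk2 n k2 k4 8 ⊆ L := fun x hx => hx.1.1
  have sF : OutF FL ρ \ Bk2 n k1 k3 8 ⊆ FL := fun x hx => hx.1.1
  have cL : ∀ d : Fin 4, Sq (16 * m) ∪ Corr d m ⊆ L := fun d =>
    Set.union_subset ((Sq_sub (by omega)).trans hLm) ((Corr_sub d m).trans hLm)
  have cF : ∀ d : Fin 4, Sq (16 * m) ∪ Corr d m ⊆ FL := fun d =>
    Set.union_subset ((Sq_sub (by omega)).trans hFLm) ((Corr_sub d m).trans hFLm)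
  have np : (GArm (frc e false z) d1 m (src e) ∧ GArm (frc e false z) d3 m (tgt e)) ∨
      (GArm (frc e false z) d3 m (src e) ∧ GArm (frc e false z) d1 m (tgt e)) := by
    have h := garm_if hP
    rcases hd with ⟨rfl, rfl⟩ | ⟨rfl, rfl⟩
    · exact h
    · exact h.symm
  have nd : (GArm (dual (frc e true z)) d2 m (fA e) ∧ GArm (dual (frc e true z)) d4 m (fB e)) ∨
      (GArm (dual (frc e true z)) d4 m (fA e) ∧ GArm (dual (frc e true z)) d2 m (fB e)) := by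
    have h := garm_if hD
    rcases hd' with ⟨rfl, rfl⟩ | ⟨rfl, rfl⟩
    · exact h
    · exact h.symm
  refine ⟨?_, ?_⟩
  · exact pair_glue (tubeX_mono Finset.subset_union_left t1) (tubeX_mono Finset.subset_union_right t1)
      T1.tk T3.tk np o1.1 o1.2 f1 f3 (cL _) (cL _) ((tubeR_sub n K1).trans T1.sub)
      ((tubeR_sub n K3).trans T3.sub) sL
  · have t2' : dual (frc e true z) ∈ tubeX n (K2 ∪ K4) := t2
    exact pair_glue (tubeX_mono Finset.subset_union_left t2')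
      (tubeX_mono Finset.subset_union_right t2')
      T2.tk T4.tk nd o2.1 o2.2 f2 f4 (cF _) (cF _) ((tubeR_sub n K2).trans T2.sub)
      ((tubeR_sub n K4).trans T4.sub) sF

/-! ### glued arms and pivotality -/

/-- **Glued arms make `e` pivotal** for the left-right crossing of `[x0,x1] × [y0,y1]`. -/
theorem glued_piv {e : Edge} {x0 x1 y0 y1 : ℤ} :
    Glued e (Rect x0 x1 y0 y1) (Rect x0 (x1 - 1) (y0 - 1) y1) {v | v.1 = x0} {v | v.1 = x1}
      {f | f.2 = y0 - 1} {f | f.2 = y1} ⊆ Piv e {z | LRc z x0 x1 y0 y1} := by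
  rintro z ⟨hp, hd⟩
  rw [piv_inc (lr_inc _ _ _ _)]
  have m01 : ∀ i, frc e false z i = true → frc e true z i = true := by
    intro i hi
    by_cases h1 : i = e
    · subst h1
      rw [frc_self]
    · rw [frc_ne h1] at hi ⊢
      exact hi
  constructor
  · -- left - src - tgt - right
    have key : ∀ u v : P2, (u = src e ∧ v = tgt e) ∨ (u = tgt e ∧ v = src e) →
        Arm (frc e false z) (Rect x0 x1 y0 y1) {v | v.1 = x0} u →
        Arm (frc e false z) (Rect x0 x1 y0 y1) {v | v.1 = x1} v →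
        LRc (frc e true z) x0 x1 y0 y1 := by
      rintro u v huv ⟨a, ha, h1⟩ ⟨b, hb, h2⟩
      have h1' := oc_mono m01 subset_rfl h1
      have h2' := oc_mono m01 subset_rfl h2
      refine ⟨a, b, ha, hb, h1'.symm.trans (OC.trans ⟨h1'.left, ?_⟩ h2')⟩
      refine Relation.ReflTransGen.single ⟨⟨e, frc_self e true z, ?_⟩, h1'.left, h2'.left⟩
      rcases huv with ⟨rfl, rfl⟩ | ⟨rfl, rfl⟩
      · exact Or.inl ⟨rfl, rfl⟩
      · exact Or.inr ⟨rfl, rfl⟩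
    rcases hp with ⟨h1, h2⟩ | ⟨h1, h2⟩
    · exact key _ _ (Or.inl ⟨rfl, rfl⟩) h1 h2
    · exact key _ _ (Or.inr ⟨rfl, rfl⟩) h2 h1
  · intro hlr
    refine not_both hlr ?_
    have m10 := dual_anti m01
    have key : ∀ u v : P2, (u = fA e ∧ v = fB e) ∨ (u = fB e ∧ v = fA e) →
        Arm (dual (frc e true z)) (Rect x0 (x1 - 1) (y0 - 1) y1) {f | f.2 = y0 - 1} u →
        Arm (dual (frc e true z)) (Rect x0 (x1 - 1) (y0 - 1) y1) {f | f.2 = y1} v →
        BTc (dual (frc e false z)) x0 (x1 - 1) (y0 - 1) y1 := by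
      rintro u v huv ⟨a, ha, h1⟩ ⟨b, hb, h2⟩
      have h1' := oc_mono m10 subset_rfl h1
      have h2' := oc_mono m10 subset_rfl h2
      refine ⟨a, b, ha, hb, h1'.symm.trans (OC.trans ⟨h1'.left, ?_⟩ h2')⟩
      have hde : dual (frc e false z) (dE e) = true := by
        rw [dual_dE, frc_self]
        simp
      refine Relation.ReflTransGen.single ⟨⟨dE e, hde, ?_⟩, h1'.left, h2'.left⟩
      rw [src_dE, tgt_dE]
      rcases huv with ⟨rfl, rfl⟩ | ⟨rfl, rfl⟩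
      · exact Or.inr ⟨rfl, rfl⟩
      · exact Or.inl ⟨rfl, rfl⟩
    rcases hd with ⟨h1, h2⟩ | ⟨h1, h2⟩
    · exact key _ _ (Or.inl ⟨rfl, rfl⟩) h1 h2
    · exact key _ _ (Or.inr ⟨rfl, rfl⟩) h2 h1

end Crest.Agent.R158.Sg158
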