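import Crest.Agent.R158.Sg1_689

/-!
# Row 158, Block SEP, leaf L5 (helper689): tokens prolonged by straight rays and gates

* `TokOut N M k K` : what is consumed from the token lemma (outward)
* `rayF`, `gateF`, `ext` : straight rays, gates (columns / rows of cells), prolonged tokens
* `ext_far`, `ext_conn`, `ext_region`
-/

set_option autoImplicit false

noncomputable section

namespace Crest.Agent.R158.Sg689

open MeasureTheory ProbabilityTheory unitInterval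
open Crest.Agent.R161.Geo729 Crest.Agent.R161.Topo374 Crest.Agent.R161.Dual374
open Crest.Agent.R161.Tas682
open Crest.Agent.R158.Rs689 Crest.Agent.R158.Sp580

/-- cells at cell-distance `≥ 5` -/
def Far5 (c c' : P2) : Prop :=
  c.1 + 5 ≤ c'.1 ∨ c'.1 + 5 ≤ c.1 ∨ c.2 + 5 ≤ c'.2 ∨ c'.2 + 5 ≤ c.2

theorem Far5.symm {c c' : P2} (h : Far5 c c') : Far5 c' c := by
  unfold Far5 at *; omega

theorem far5_abs {c c' : P2} (h : Far5 c c') : 5 ≤ |c.1 - c'.1| ∨ 5 ≤ |c.2 - c'.2| := by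
  rcases h with h | h | h | h
  · left; rw [le_abs]; right; omega
  · left; rw [le_abs]; left; omega
  · right; rw [le_abs]; right; omega
  · right; rw [le_abs]; left; omega

/-- cells of ring index `≤ M` (the square `[-(M+1), M]²`) -/
def InR (M : ℤ) (c : P2) : Prop := -1 - M ≤ c.1 ∧ c.1 ≤ M ∧ -1 - M ≤ c.2 ∧ c.2 ≤ M

/-- cells of ring index `≥ N` -/
def OutR (N : ℤ) (c : P2) : Prop := N ≤ c.1 ∨ c.1 ≤ -1 - N ∨ N ≤ c.2 ∨ c.2 ≤ -1 - N

/-- the four straight rays: `0` east, `1` north, `2` west, `3` south -/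
def OnRay : Fin 4 → P2 → Prop
  | 0, c => c.2 = 0 ∧ 0 ≤ c.1
  | 1, c => c.1 = -1 ∧ 0 ≤ c.2
  | 2, c => c.2 = -1 ∧ c.1 ≤ -1
  | 3, c => c.1 = 0 ∧ c.2 ≤ -1

/-- the standard cell of direction `i` in ring `j` -/
def std : Fin 4 → ℤ → P2
  | 0, j => (j, 0)
  | 1, j => (-1, j)
  | 2, j => (-1 - j, -1)
  | 3, j => (0, -1 - j)

/-- straight rays, rings `M .. L` -/
def rayF : Fin 4 → ℤ → ℤ → Finset P2
  | 0, M, L => rowC M L 0
  | 1, M, L => colC (-1) M L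
  | 2, M, L => rowC (-1 - L) (-1 - M) (-1)
  | 3, M, L => colC 0 (-1 - L) (-1 - M)

/-- gates at ring `26 c` -/
def gateF : Fin 4 → ℤ → Finset P2
  | 0, c => colC (26 * c) (-(5 * c)) (5 * c)
  | 1, c => rowC (-(5 * c)) (5 * c) (26 * c)
  | 2, c => colC (-1 - 26 * c) (-(5 * c)) (5 * c)
  | 3, c => rowC (-(5 * c)) (5 * c) (-1 - 26 * c)

/-- **what is consumed from the (outward) token lemma** -/
structure TokOut (N M : ℤ) (k : Fin 4 → P2) (K : Fin 4 → Finset P2) : Prop where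
  ring : ∀ i, ringC (k i) 3 ⊆ K i
  near : ∀ i, ∀ c ∈ K i, (|c.1 - (k i).1| ≤ 4 ∧ |c.2 - (k i).2| ≤ 4) ∨ OutR (N + 2) c
  le : ∀ i, ∀ c ∈ K i, InR M c
  last : ∀ i, ∀ c ∈ K i, OutR (M - 5) c → OnRay i c
  fin : ∀ i, std i M ∈ K i
  conn : ∀ i, ∃ c ∈ ringC (k i) 3, CConn ((K i : Finset P2) : Set P2) c (std i M)
  far : ∀ i j, i ≠ j → ∀ c ∈ K i, ∀ c' ∈ K j, Far5 c c'

/-- prolonged tokens -/
def ext (M c : ℤ) (K : Fin 4 → Finset P2) (i : Fin 4) : Finset P2 := by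
  classical
  exact K i ∪ rayF i M (26 * c) ∪ gateF i c

theorem mem_ext {M c : ℤ} {K : Fin 4 → Finset P2} {i : Fin 4} {x : P2} :
    x ∈ ext M c K i ↔ x ∈ K i ∨ x ∈ rayF i M (26 * c) ∨ x ∈ gateF i c := by
  classical
  unfold ext
  rw [Finset.mem_union, Finset.mem_union, or_assoc]

theorem mem_rayF0 {M L : ℤ} {x : P2} : x ∈ rayF 0 M L ↔ M ≤ x.1 ∧ x.1 ≤ L ∧ x.2 = 0 := mem_rowC
theorem mem_rayF1 {M L : ℤ} {x : P2} : x ∈ rayF 1 M L ↔ x.1 = -1 ∧ M ≤ x.2 ∧ x.2 ≤ L := mem_colC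
theorem mem_rayF2 {M L : ℤ} {x : P2} :
    x ∈ rayF 2 M L ↔ -1 - L ≤ x.1 ∧ x.1 ≤ -1 - M ∧ x.2 = -1 := mem_rowC
theorem mem_rayF3 {M L : ℤ} {x : P2} :
    x ∈ rayF 3 M L ↔ x.1 = 0 ∧ -1 - L ≤ x.2 ∧ x.2 ≤ -1 - M := mem_colC
theorem mem_gateF0 {c : ℤ} {x : P2} :
    x ∈ gateF 0 c ↔ x.1 = 26 * c ∧ -(5 * c) ≤ x.2 ∧ x.2 ≤ 5 * c := mem_colC
theorem mem_gateF1 {c : ℤ} {x : P2} :
    x ∈ gateF 1 c ↔ -(5 * c) ≤ x.1 ∧ x.1 ≤ 5 * c ∧ x.2 = 26 * c := mem_rowC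
theorem mem_gateF2 {c : ℤ} {x : P2} :
    x ∈ gateF 2 c ↔ x.1 = -1 - 26 * c ∧ -(5 * c) ≤ x.2 ∧ x.2 ≤ 5 * c := mem_colC
theorem mem_gateF3 {c : ℤ} {x : P2} :
    x ∈ gateF 3 c ↔ -(5 * c) ≤ x.1 ∧ x.1 ≤ 5 * c ∧ x.2 = -1 - 26 * c := mem_rowC

theorem fin4_cases {P : Fin 4 → Prop} (h0 : P 0) (h1 : P 1) (h2 : P 2) (h3 : P 3) : ∀ i, P i := by
  intro i
  fin_cases i
  · exact h0
  · exact h1
  · exact h2
  · exact h3

/-- `x` is either a cell of the token, or a cell of the ray beyond ring `M`, or a cell of the gate -/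
theorem ext_far {N M c : ℤ} {k : Fin 4 → P2} {K : Fin 4 → Finset P2} (h : TokOut N M k K)
    (hM : 10 ≤ M) (hc : M + 3 ≤ 16 * c) (i j : Fin 4) (hij : i ≠ j) :
    ∀ x ∈ ext M c K i, ∀ y ∈ ext M c K j, Far5 x y := by
  intro x hx y hy
  rw [mem_ext] at hx hy
  have hle := h.le
  have hlast := h.last
  -- data of a token cell
  have tok : ∀ i : Fin 4, ∀ x ∈ K i, InR M x ∧ (OutR (M - 5) x → OnRay i x) := fun i x hx =>
    ⟨hle i x hx, hlast i x hx⟩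
  by_cases hKK : x ∈ K i ∧ y ∈ K j
  · exact h.far i j hij x hKK.1 y hKK.2
  -- replace memberships by inequalities
  have P : ∀ i : Fin 4, ∀ x : P2, (x ∈ K i ∨ x ∈ rayF i M (26 * c) ∨ x ∈ gateF i c) →
      (x ∈ K i ∧ InR M x ∧ (OutR (M - 5) x → OnRay i x)) ∨
      (x ∈ rayF i M (26 * c) ∨ x ∈ gateF i c) := by
    intro i x hx
    rcases hx with hx | hx
    · exact Or.inl ⟨hx, tok i x hx⟩
    · exact Or.inr hx
  rcases P i x hx with ⟨hx1, hx2, hx3⟩ | hx1 <;> rcases P j y hy with ⟨hy1, hy2, hy3⟩ | hy1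
  · exact absurd ⟨hx1, hy1⟩ hKK
  · clear hx hy hKK P tok hle hlast
    revert i j
    refine fin4_cases ?_ ?_ ?_ ?_ <;> refine fin4_cases ?_ ?_ ?_ ?_ <;> intro hij hx1 hx3 hy1 <;>
      first
      | exact absurd rfl hij
      | (simp only [mem_rayF0, mem_rayF1, mem_rayF2, mem_rayF3, mem_gateF0, mem_gateF1,
          mem_gateF2, mem_gateF3] at hy1
         simp only [InR, OutR, OnRay] at hx2 hx3
         unfold Far5
         omega)
  · clear hx hy hKK P tok hle hlast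
    revert i j
    refine fin4_cases ?_ ?_ ?_ ?_ <;> refine fin4_cases ?_ ?_ ?_ ?_ <;> intro hij hx1 hy1 hy3 <;>
      first
      | exact absurd rfl hij
      | (simp only [mem_rayF0, mem_rayF1, mem_rayF2, mem_rayF3, mem_gateF0, mem_gateF1,
          mem_gateF2, mem_gateF3] at hx1
         simp only [InR, OutR, OnRay] at hy2 hy3
         unfold Far5
         omega)
  · clear hx hy hKK P tok hle hlast
    revert i j
    refine fin4_cases ?_ ?_ ?_ ?_ <;> refine fin4_cases ?_ ?_ ?_ ?_ <;> intro hij hx1 hy1 <;>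
      first
      | exact absurd rfl hij
      | (simp only [mem_rayF0, mem_rayF1, mem_rayF2, mem_rayF3, mem_gateF0, mem_gateF1,
          mem_gateF2, mem_gateF3] at hx1 hy1
         unfold Far5
         omega)

end Crest.Agent.R158.Sg689
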