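import Crest.Agent.R158.Sg2_158
import Crest.Agent.R158.Sp4c_874

/-!
# Row 158, Block SEP, leaf L6 (helper158): from the tokens of 874 to the hypotheses of `glue_out_tok`

* `InT i N M0 K κ` : the inward token of direction `i`, landing at `κ`, as produced by 874
* `InT.tok` : it satisfies `Tok`
* `glue_out_of` : `glue_out` from four inward tokens
-/

set_option autoImplicit false
set_option linter.unusedSimpArgs false

noncomputable section

namespace Crest.Agent.R158.Sg158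

open MeasureTheory ProbabilityTheory unitInterval
open Crest.Agent.R161.Geo729 Crest.Agent.R161.Topo374 Crest.Agent.R161.Dual374
open Crest.Agent.R161.Tas682 hiding Sq
open Crest.Agent.R158.Rs689 Crest.Agent.R158.Ru874 Crest.Agent.R158.Sp580
open Crest.Agent.R158.Sp874 (rt nr cl Gd Gd')

/-- inward token of direction `i` landing at `κ` (ring `N - 1`), straight in the rings `≤ J` -/
structure InT (i : Fin 4) (N M0 J : ℤ) (K : Finset P2) (κ : P2) : Prop where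
  nrk : nr κ = N - 1
  ring : ringC κ 3 ⊆ K
  loc : ∀ c ∈ K, (|c.1 - κ.1| ≤ 4 ∧ |c.2 - κ.2| ≤ 4) ∨ nr c ≤ N - 5
  low : ∀ c ∈ K, M0 ≤ nr c
  conn : ∀ k ∈ ringC κ 3, CConn ((K : Finset P2) : Set P2) k (rt ((i : ℕ) : ℤ) (M0, 0))
  str : ∀ c ∈ K, nr c ≤ J → c = rt ((i : ℕ) : ℤ) (nr c, 0)
  ray : ∀ j : ℤ, M0 ≤ j → j ≤ J → rt ((i : ℕ) : ℤ) (j, 0) ∈ K

theorem mem_of_nr {n : ℕ} {c x : P2} {N : ℤ} (h : nr c ≤ N)
    (hx : c.1 * n - n ≤ x.1 ∧ x.1 ≤ c.1 * n + 2 * n ∧ c.2 * n - n ≤ x.2 ∧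
      x.2 ≤ c.2 * n + 2 * n) : x ∈ Sq ((N + 2) * n) := by
  have hn : (0 : ℤ) ≤ n := by positivity
  unfold nr at h
  rw [mem_Sq]
  have h1 : c.1 * (n : ℤ) ≤ N * n := mul_le_mul_of_nonneg_right (by omega) hn
  have h2 : c.2 * (n : ℤ) ≤ N * n := mul_le_mul_of_nonneg_right (by omega) hn
  have h3 : (-1 - N) * (n : ℤ) ≤ c.1 * n := mul_le_mul_of_nonneg_right (by omega) hn
  have h4 : (-1 - N) * (n : ℤ) ≤ c.2 * n := mul_le_mul_of_nonneg_right (by omega) hn
  have e1 : (-1 - N) * (n : ℤ) = -n - N * n := by ring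
  have e2 : (N + 2) * (n : ℤ) = N * n + 2 * n := by ring
  rw [e2]
  rw [e1] at h3 h4
  omega

theorem notMem_of_nr {n : ℕ} {c x : P2} {N R : ℤ} (h : N ≤ nr c)
    (hx : c.1 * n - n ≤ x.1 ∧ x.1 ≤ c.1 * n + 2 * n ∧ c.2 * n - n ≤ x.2 ∧
      x.2 ≤ c.2 * n + 2 * n) (hR : R < (N - 1) * n) : x ∉ Sq R := by
  have hn : (0 : ℤ) ≤ n := by positivity
  unfold nr at h
  rw [mem_Sq]
  have e2 : (N - 1) * (n : ℤ) = N * n - n := by ring
  rw [e2] at hR
  intro h0
  have h1 : N ≤ c.1 ∨ N ≤ -1 - c.1 ∨ N ≤ c.2 ∨ N ≤ -1 - c.2 := by omega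
  rcases h1 with h1 | h1 | h1 | h1
  · have h2 : N * (n : ℤ) ≤ c.1 * n := mul_le_mul_of_nonneg_right h1 hn
    omega
  · have h2 : N * (n : ℤ) ≤ (-1 - c.1) * n := mul_le_mul_of_nonneg_right h1 hn
    have e3 : (-1 - c.1) * (n : ℤ) = -n - c.1 * n := by ring
    rw [e3] at h2
    omega
  · have h2 : N * (n : ℤ) ≤ c.2 * n := mul_le_mul_of_nonneg_right h1 hn
    omega
  · have h2 : N * (n : ℤ) ≤ (-1 - c.2) * n := mul_le_mul_of_nonneg_right h1 hn
    have e3 : (-1 - c.2) * (n : ℤ) = -n - c.2 * n := by ring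
    rw [e3] at h2
    omega

theorem FarP.of_out {n : ℕ} (hn : 1 ≤ n) {κ : P2} {N R : ℤ} (hκ : nr κ = N - 1) {P : Set P2}
    (hR : (N + 4) * n ≤ R) (h : ∀ b ∈ P, b ∉ Sq R) : FarP n κ P := by
  intro b hb
  have h1 := h b hb
  rw [mem_Sq] at h1
  unfold nr at hκ
  have hn0 : (0 : ℤ) ≤ n := by positivity
  have h2 : (κ.1 + 5) * (n : ℤ) ≤ (N + 4) * n := mul_le_mul_of_nonneg_right (by omega) hn0
  have h3 : (κ.2 + 5) * (n : ℤ) ≤ (N + 4) * n := mul_le_mul_of_nonneg_right (by omega) hn0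
  have h4 : -(N + 4) * (n : ℤ) ≤ (κ.1 - 4) * n := mul_le_mul_of_nonneg_right (by omega) hn0
  have h5 : -(N + 4) * (n : ℤ) ≤ (κ.2 - 4) * n := mul_le_mul_of_nonneg_right (by omega) hn0
  have e1 : -(N + 4) * (n : ℤ) = -((N + 4) * n) := by ring
  rw [e1] at h4 h5
  omega

/-- the inner support avoided by the token of direction `i` -/
def NVo (i : Fin 4) (m : ℕ) : Set P2 :=
  match i with
  | 0 => NVD m
  | 1 => NVP m
  | 2 => NVD m
  | 3 => NVP m

theorem NVo_sub (i : Fin 4) (m : ℕ) : NVo i m ⊆ Sq (32 * m) := by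
  fin_cases i
  · exact NVD_sub m
  · exact NVP_sub m
  · exact NVD_sub m
  · exact NVP_sub m

theorem InT.tkd {i : Fin 4} {N M0 J : ℤ} {K : Finset P2} {κ : P2} (h : InT i N M0 J K κ)
    {n m : ℕ} (hJ : M0 ≤ J) (h1 : (M0 - 1) * n ≤ 20 * m) (h2 : 32 * (m : ℤ) ≤ J * n)
    (h3 : (n : ℤ) ≤ m) : TkD i m n K κ := by
  have hn : (0 : ℤ) ≤ n := by positivity
  have r0 := h.ray
  have c0 := h.conn
  have hk : ((κ.1 - 3, κ.2 - 3) : P2) ∈ ringC κ 3 := by
    unfold ringC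
    rw [mem_frameC]
    refine ⟨⟨?_, ?_, ?_, ?_⟩, Or.inl rfl⟩ <;> simp only <;> omega
  have e1 : (M0 - 1) * (n : ℤ) = M0 * n - n := by ring
  rw [e1] at h1
  fin_cases i
  · refine ⟨h.ring, M0, J, 0, hJ, ?_, ⟨_, hk, ?_⟩, ?_, ?_, ?_, ?_⟩
    · intro c hc
      rw [mem_rowC] at hc
      have := r0 c.1 hc.1 hc.2.1
      simp only [Fin.zero_eta, Fin.val_zero, Nat.cast_zero, Sp874.rt_zero] at this
      rw [show c = (c.1, 0) from Prod.ext rfl hc.2.2]
      exact this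
    · have := c0 _ hk
      simp only [Fin.zero_eta, Fin.val_zero, Nat.cast_zero, Sp874.rt_zero] at this
      exact this.symm
    · omega
    · omega
    · omega
    · omega
  · refine ⟨h.ring, -1, M0, J, hJ, ?_, ⟨_, hk, ?_⟩, ?_, ?_, ?_, ?_⟩
    · intro c hc
      rw [mem_colC] at hc
      have := r0 c.2 hc.2.1 hc.2.2
      simp only [Fin.mk_one, Fin.val_one, Nat.cast_one, Sp874.rt_one, sub_zero] at this
      rw [show c = (-1, c.2) from Prod.ext hc.1 rfl]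
      exact this
    · have := c0 _ hk
      simp only [Fin.mk_one, Fin.val_one, Nat.cast_one, Sp874.rt_one, sub_zero] at this
      exact this.symm
    · omega
    · omega
    · omega
    · omega
  · refine ⟨h.ring, -1 - J, -1 - M0, -1, by omega, ?_, ⟨_, hk, ?_⟩, ?_, ?_, ?_, ?_⟩
    · intro c hc
      rw [mem_rowC] at hc
      have := r0 (-1 - c.1) (by omega) (by omega)
      simp only [Fin.reduceFinMk, Fin.val_two, Nat.cast_ofNat, Sp874.rt_two, sub_zero] at this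
      rw [show c = (-1 - (-1 - c.1), -1) from Prod.ext (by simp) hc.2.2]
      exact this
    · have h5 := c0 _ hk
      simp only [Fin.reduceFinMk, Fin.val_two, Nat.cast_ofNat, Sp874.rt_two, sub_zero] at h5
      refine CConn.trans ?_ h5.symm
      refine row_conn' (by omega) fun a ha1 ha2 => ?_
      have := r0 (-1 - a) (by omega) (by omega)
      simp only [Fin.reduceFinMk, Fin.val_two, Nat.cast_ofNat, Sp874.rt_two, sub_zero,
        sub_sub_cancel] at this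
      exact this
    · have : (-1 - J) * (n : ℤ) = -n - J * n := by ring
      rw [this]
      omega
    · have : (-1 - M0) * (n : ℤ) = -n - M0 * n := by ring
      rw [this]
      omega
    · omega
    · omega
  · refine ⟨h.ring, 0, -1 - J, -1 - M0, by omega, ?_, ⟨_, hk, ?_⟩, ?_, ?_, ?_, ?_⟩
    · intro c hc
      rw [mem_colC] at hc
      have := r0 (-1 - c.2) (by omega) (by omega)
      have e3 : (((⟨3, by decide⟩ : Fin 4) : ℕ) : ℤ) = 3 := rfl
      rw [e3, Sp874.rt_three] at this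
      rw [show c = (0, -1 - (-1 - c.2)) from Prod.ext hc.1 (by simp)]
      exact this
    · have h5 := c0 _ hk
      have e3 : (((⟨3, by decide⟩ : Fin 4) : ℕ) : ℤ) = 3 := rfl
      rw [e3, Sp874.rt_three] at h5
      refine CConn.trans ?_ h5.symm
      refine col_conn' (by omega) fun a ha1 ha2 => ?_
      have := r0 (-1 - a) (by omega) (by omega)
      rw [e3, Sp874.rt_three] at this
      simp only [sub_sub_cancel] at this
      exact this
    · have : (-1 - J) * (n : ℤ) = -n - J * n := by ring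
      rw [this]
      omega
    · have : (-1 - M0) * (n : ℤ) = -n - M0 * n := by ring
      rw [this]
      omega
    · omega
    · omega

theorem InT.loc' {i : Fin 4} {N M0 J : ℤ} {K : Finset P2} {κ : P2} (h : InT i N M0 J K κ)
    {n : ℕ} (hn : 1 ≤ n) : tubeB n K ⊆ Bk n κ 8 ∪ Sq (N * n - 1) := by
  rintro x ⟨c, hc, hx⟩
  have hn' : (1 : ℤ) ≤ n := by exact_mod_cast hn
  rcases h.loc c hc with ⟨h1, h2⟩ | h1
  · left
    rw [mem_Bk]
    rw [abs_le] at h1 h2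
    have a1 : (κ.1 - 4) * (n : ℤ) ≤ c.1 * n := mul_le_mul_of_nonneg_right (by omega) (by omega)
    have a2 : c.1 * (n : ℤ) ≤ (κ.1 + 4) * n := mul_le_mul_of_nonneg_right (by omega) (by omega)
    have a3 : (κ.2 - 4) * (n : ℤ) ≤ c.2 * n := mul_le_mul_of_nonneg_right (by omega) (by omega)
    have a4 : c.2 * (n : ℤ) ≤ (κ.2 + 4) * n := mul_le_mul_of_nonneg_right (by omega) (by omega)
    refine ⟨?_, ?_, ?_, ?_⟩ <;> linarith
  · right
    have h2 := mem_of_nr h1 hx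
    refine Sq_sub ?_ h2
    have : (N - 5 + 2) * (n : ℤ) = N * n - 3 * n := by ring
    rw [this]
    omega

theorem InT.sub' {i : Fin 4} {N M0 J : ℤ} {K : Finset P2} {κ : P2} (h : InT i N M0 J K κ)
    {n : ℕ} {L : Set P2} (hL : Sq ((N + 20) * n) ⊆ L) : tubeB n K ⊆ L := by
  rintro x ⟨c, hc, hx⟩
  have hn : (0 : ℤ) ≤ n := by positivity
  have h0 : nr c ≤ N + 3 := by
    rcases h.loc c hc with ⟨h1, h2⟩ | h1
    · have := h.nrk
      rw [abs_le] at h1 h2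
      unfold nr at this ⊢
      omega
    · omega
  have h2 := mem_of_nr h0 hx
  refine hL (Sq_sub ?_ h2)
  exact mul_le_mul_of_nonneg_right (by omega) hn

theorem InT.inn' {i : Fin 4} {N M0 J : ℤ} {K : Finset P2} {κ : P2} (h : InT i N M0 J K κ)
    {n m : ℕ} (h1 : 16 * (m : ℤ) < (M0 - 1) * n) (h2 : 32 * (m : ℤ) < J * n)
    (h3 : (n : ℤ) ≤ m) (hn : 1 ≤ n) : Disjoint (NVo i m) (tubeB n K) := by
  rw [Set.disjoint_left]
  rintro x hx ⟨c, hc, hxc⟩
  have hn' : (1 : ℤ) ≤ n := by exact_mod_cast hn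
  by_cases hJ : nr c ≤ J
  · have h5 := h.str c hc hJ
    have h6 := h.low c hc
    have h7 : x ∉ Sq (16 * m) := notMem_of_nr h6 hxc h1
    generalize nr c = j at h5 h6
    fin_cases i
    · simp only [Fin.zero_eta, Fin.val_zero, Nat.cast_zero, Sp874.rt_zero] at h5
      rw [h5] at hxc
      simp only [zero_mul] at hxc
      rcases hx with h8 | h8 | h8
      · exact h7 h8
      · have := h8.1
        simp only [co] at this
        omega
      · have := h8.1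
        simp only [co] at this
        omega
    · simp only [Fin.mk_one, Fin.val_one, Nat.cast_one, Sp874.rt_one, sub_zero] at h5
      rw [h5] at hxc
      simp only at hxc
      rcases hx with h8 | h8 | h8
      · exact h7 h8
      · have := h8.1
        simp only [co] at this
        omega
      · have := h8.1
        simp only [co] at this
        omega
    · simp only [Fin.reduceFinMk, Fin.val_two, Nat.cast_ofNat, Sp874.rt_two, sub_zero] at h5
      rw [h5] at hxc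
      simp only at hxc
      rcases hx with h8 | h8 | h8
      · exact h7 h8
      · have := h8.1
        simp only [co] at this
        omega
      · have := h8.1
        simp only [co] at this
        omega
    · have e3 : (((⟨3, by decide⟩ : Fin 4) : ℕ) : ℤ) = 3 := rfl
      rw [e3, Sp874.rt_three] at h5
      rw [h5] at hxc
      simp only [zero_mul] at hxc
      rcases hx with h8 | h8 | h8
      · exact h7 h8
      · have := h8.1
        simp only [co] at this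
        omega
      · have := h8.1
        simp only [co] at this
        omega
  · have h5 : J + 1 ≤ nr c := by omega
    refine notMem_of_nr h5 hxc (R := 32 * m) ?_ (NVo_sub i m hx)
    rw [add_sub_cancel_right]
    exact h2

theorem InT.tok {i : Fin 4} {N M0 J : ℤ} {K : Finset P2} {κ : P2} (h : InT i N M0 J K κ)
    {n m : ℕ} (hn : 1 ≤ n) (hJ : M0 ≤ J) (h1 : 16 * (m : ℤ) < (M0 - 1) * n)
    (h1' : (M0 - 1) * n ≤ 20 * m) (h2 : 32 * (m : ℤ) < J * n) (h3 : (n : ℤ) ≤ m) {L : Set P2}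
    (hL : Sq ((N + 20) * n) ⊆ L) : Tok i m n (N * n) (NVo i m) L K κ where
  tk := h.tkd hJ h1' h2.le h3
  loc := h.loc' hn
  inn := h.inn' h1 h2 h3 hn
  sub := h.sub' hL

/-- **L6 from four inward tokens.** -/
theorem glue_out_of {p : I} {c : ℝ} {n q : ℕ} {N : ℤ} (hn : 1 ≤ n) (hq : 1 ≤ q)
    (hc : RSp c p n) {e : Edge} (he : src e = (0, 0)) (s t : Bool) {J : ℤ}
    (hJ : 32 * (q : ℤ) < J) (hJN : J ≤ N) {L FL : Set P2} (hL : L.Finite)
    (hFL : FL.Finite) (hLN : Sq ((N + 20) * n) ⊆ L) (hFLN : Sq ((N + 20) * n) ⊆ FL)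
    {k1 k2 k3 k4 : P2} {P1 P3 Q2 Q4 : Set P2} (f1 : ∀ b ∈ P1, b ∉ Sq ((N + 10) * n))
    (f3 : ∀ b ∈ P3, b ∉ Sq ((N + 10) * n)) (f2 : ∀ b ∈ Q2, b ∉ Sq ((N + 10) * n))
    (f4 : ∀ b ∈ Q4, b ∉ Sq ((N + 10) * n)) {K1 K2 K3 K4 : Finset P2} {d1 d2 d3 d4 : Fin 4}
    (hd : (d1 = 0 ∧ d3 = 2) ∨ (d1 = 2 ∧ d3 = 0)) (hd' : (d2 = 1 ∧ d4 = 3) ∨ (d2 = 3 ∧ d4 = 1))
    (T1 : InT d1 N (18 * q + 1) J K1 k1) (T3 : InT d3 N (18 * q + 1) J K3 k3)
    (T2 : InT d2 N (18 * q + 1) J K2 k2) (T4 : InT d4 N (18 * q + 1) J K4 k4)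
    (d12 : ∀ k ∈ K1, ∀ k' ∈ K2, 5 ≤ |k.1 - k'.1| ∨ 5 ≤ |k.2 - k'.2|)
    (d14 : ∀ k ∈ K1, ∀ k' ∈ K4, 5 ≤ |k.1 - k'.1| ∨ 5 ≤ |k.2 - k'.2|)
    (d32 : ∀ k ∈ K3, ∀ k' ∈ K2, 5 ≤ |k.1 - k'.1| ∨ 5 ≤ |k.2 - k'.2|)
    (d34 : ∀ k ∈ K3, ∀ k' ∈ K4, 5 ≤ |k.1 - k'.1| ∨ 5 ≤ |k.2 - k'.2|)
    {M : ℕ} (c1 : K1.card ≤ M) (c2 : K2.card ≤ M) (c3 : K3.card ≤ M) (c4 : K4.card ≤ M) :
    c ^ (8 * M) * ((nu p).real (Nice e (q * n) s t) *
      (nu p).real (Uout L FL (N * n) n k1 k2 k3 k4 P1 P3 Q2 Q4)) ≤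
      (nu p).real (Glued e L FL P1 P3 Q2 Q4) := by
  have hn' : (1 : ℤ) ≤ n := by exact_mod_cast hn
  have hq' : (1 : ℤ) ≤ q := by exact_mod_cast hq
  have hqn : (1 : ℤ) ≤ (q : ℤ) * n := by nlinarith
  have h1 : 16 * (((q * n : ℕ) : ℤ)) < ((18 * (q : ℤ) + 1) - 1) * n := by
    push_cast
    have : ((18 * (q : ℤ) + 1) - 1) * n = 18 * (q * n) := by ring
    rw [this]
    omega
  have h1' : ((18 * (q : ℤ) + 1) - 1) * n ≤ 20 * (((q * n : ℕ) : ℤ)) := by
    push_cast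
    have : ((18 * (q : ℤ) + 1) - 1) * n = 18 * (q * n) := by ring
    rw [this]
    omega
  have h2 : 32 * (((q * n : ℕ) : ℤ)) < J * n := by
    push_cast
    have : 32 * ((q : ℤ) * n) = (32 * q) * n := by ring
    rw [this]
    exact mul_lt_mul_of_pos_right hJ (by omega)
  have h3 : (n : ℤ) ≤ ((q * n : ℕ) : ℤ) := by
    push_cast
    nlinarith
  have hMJ : 18 * (q : ℤ) + 1 ≤ J := by omega
  have hNn : J * (n : ℤ) ≤ N * n := mul_le_mul_of_nonneg_right hJN (by omega)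
  have hN0 : (0 : ℤ) ≤ (N + 20) * n := by nlinarith
  have m32 : Sq (32 * ((q * n : ℕ) : ℤ)) ⊆ Sq ((N + 20) * n) := Sq_sub (by nlinarith)
  have far : ∀ {κ : P2} {P : Set P2}, nr κ = N - 1 → (∀ b ∈ P, b ∉ Sq ((N + 10) * n)) →
      FarP n κ P := fun hκ h => FarP.of_out hn hκ (mul_le_mul_of_nonneg_right (by omega)
        (by omega)) h
  have four : ∀ {K K' : Finset P2}, (∀ k ∈ K, ∀ k' ∈ K', 5 ≤ |k.1 - k'.1| ∨ 5 ≤ |k.2 - k'.2|) →
      Disjoint (tubeB n K) (tubeB n K') := by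
    intro K K' h
    refine tubeB_disj hn fun k hk k' hk' => ?_
    rcases h k hk k' hk' with h | h
    · left; omega
    · right; omega
  have o1 : NVo d1 (q * n) = NVD (q * n) := by
    rcases hd with ⟨rfl, rfl⟩ | ⟨rfl, rfl⟩ <;> rfl
  have o3 : NVo d3 (q * n) = NVD (q * n) := by
    rcases hd with ⟨rfl, rfl⟩ | ⟨rfl, rfl⟩ <;> rfl
  have o2 : NVo d2 (q * n) = NVP (q * n) := by
    rcases hd' with ⟨rfl, rfl⟩ | ⟨rfl, rfl⟩ <;> rfl
  have o4 : NVo d4 (q * n) = NVP (q * n) := by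
    rcases hd' with ⟨rfl, rfl⟩ | ⟨rfl, rfl⟩ <;> rfl
  have t1 := T1.tok hn hMJ h1 h1' h2 h3 hLN
  have t3 := T3.tok hn hMJ h1 h1' h2 h3 hLN
  have t2 := T2.tok hn hMJ h1 h1' h2 h3 hFLN
  have t4 := T4.tok hn hMJ h1 h1' h2 h3 hFLN
  rw [o1] at t1
  rw [o2] at t2
  rw [o3] at t3
  rw [o4] at t4
  exact glue_out_tok hn hc he s t (h2.trans_le hNn) hL hFL (m32.trans hLN) (m32.trans hFLN)
    (far T1.nrk f1) (far T3.nrk f3) (far T2.nrk f2) (far T4.nrk f4) hd hd' t1 t3 t2 t4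
    (four d12) (four d14) (four d32) (four d34) c1 c2 c3 c4

end Crest.Agent.R158.Sg158
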