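import Crest.Agent.R158.Sg2_689

/-!
# Row 158, Block SEP, leaf L5 (helper689): the four prolonged arms
-/

set_option autoImplicit false

noncomputable section

namespace Crest.Agent.R158.Sg689

open MeasureTheory ProbabilityTheory unitInterval
open Crest.Agent.R161.Geo729 Crest.Agent.R161.Topo374 Crest.Agent.R161.Dual374
open Crest.Agent.R161.Tas682
open Crest.Agent.R158.Rs689 Crest.Agent.R158.Sp580

/-- first corner of the gate -/
def gcor : Fin 4 → ℤ → P2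
  | 0, c => (26 * c, -(5 * c))
  | 1, c => (-(5 * c), 26 * c)
  | 2, c => (-1 - 26 * c, -(5 * c))
  | 3, c => (-(5 * c), -1 - 26 * c)

theorem ext_conn {N M c : ℤ} {k : Fin 4 → P2} {K : Fin 4 → Finset P2} (h : TokOut N M k K)
    (hM : 10 ≤ M) (hc : M + 3 ≤ 16 * c) : ∀ i : Fin 4, ∃ x ∈ ringC (k i) 3,
      CConn ((ext M c K i : Finset P2) : Set P2) (gcor i c) x := by
  have sub : ∀ i : Fin 4, ((K i : Finset P2) : Set P2) ⊆ ((ext M c K i : Finset P2) : Set P2) :=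
    fun i x hx => by
      show x ∈ ext M c K i
      exact mem_ext.2 (Or.inl hx)
  have ray : ∀ i : Fin 4, ∀ x ∈ rayF i M (26 * c), x ∈ ((ext M c K i : Finset P2) : Set P2) :=
    fun i x hx => by
      show x ∈ ext M c K i
      exact mem_ext.2 (Or.inr (Or.inl hx))
  have gat : ∀ i : Fin 4, ∀ x ∈ gateF i c, x ∈ ((ext M c K i : Finset P2) : Set P2) :=
    fun i x hx => by
      show x ∈ ext M c K i
      exact mem_ext.2 (Or.inr (Or.inr hx))
  refine fin4_cases ?_ ?_ ?_ ?_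
  · obtain ⟨x, hx, h1⟩ := h.conn 0
    refine ⟨x, hx, ?_⟩
    have e1 : CConn ((ext M c K 0 : Finset P2) : Set P2) (26 * c, -(5 * c)) (26 * c, 0) :=
      col_conn' (by omega) fun j h2 h3 => gat 0 _ (mem_gateF0.2 ⟨rfl, h2, by simp only; omega⟩)
    have e2 : CConn ((ext M c K 0 : Finset P2) : Set P2) (M, 0) (26 * c, 0) :=
      row_conn' (by omega) fun j h2 h3 => ray 0 _ (mem_rayF0.2 ⟨h2, h3, rfl⟩)
    exact (e1.trans e2.symm).trans (h1.mono (sub 0)).symm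
  · obtain ⟨x, hx, h1⟩ := h.conn 1
    refine ⟨x, hx, ?_⟩
    have e1 : CConn ((ext M c K 1 : Finset P2) : Set P2) (-(5 * c), 26 * c) (-1, 26 * c) :=
      row_conn' (by omega) fun j h2 h3 => gat 1 _ (mem_gateF1.2 ⟨h2, by simp only; omega, rfl⟩)
    have e2 : CConn ((ext M c K 1 : Finset P2) : Set P2) (-1, M) (-1, 26 * c) :=
      col_conn' (by omega) fun j h2 h3 => ray 1 _ (mem_rayF1.2 ⟨rfl, h2, h3⟩)
    exact (e1.trans e2.symm).trans (h1.mono (sub 1)).symm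
  · obtain ⟨x, hx, h1⟩ := h.conn 2
    refine ⟨x, hx, ?_⟩
    have e1 : CConn ((ext M c K 2 : Finset P2) : Set P2) (-1 - 26 * c, -(5 * c))
        (-1 - 26 * c, -1) :=
      col_conn' (by omega) fun j h2 h3 => gat 2 _ (mem_gateF2.2 ⟨rfl, h2, by simp only; omega⟩)
    have e2 : CConn ((ext M c K 2 : Finset P2) : Set P2) (-1 - 26 * c, -1) (-1 - M, -1) :=
      row_conn' (by omega) fun j h2 h3 => ray 2 _ (mem_rayF2.2 ⟨h2, h3, rfl⟩)
    exact (e1.trans e2).trans (h1.mono (sub 2)).symm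
  · obtain ⟨x, hx, h1⟩ := h.conn 3
    refine ⟨x, hx, ?_⟩
    have e1 : CConn ((ext M c K 3 : Finset P2) : Set P2) (-(5 * c), -1 - 26 * c)
        (0, -1 - 26 * c) :=
      row_conn' (by omega) fun j h2 h3 => gat 3 _ (mem_gateF3.2 ⟨h2, by simp only; omega, rfl⟩)
    have e2 : CConn ((ext M c K 3 : Finset P2) : Set P2) (0, -1 - 26 * c) (0, -1 - M) :=
      col_conn' (by omega) fun j h2 h3 => ray 3 _ (mem_rayF3.2 ⟨rfl, h2, h3⟩)
    exact (e1.trans e2).trans (h1.mono (sub 3)).symm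

theorem ring_sub_ext {N M c : ℤ} {k : Fin 4 → P2} {K : Fin 4 → Finset P2} (h : TokOut N M k K)
    (i : Fin 4) : ringC (k i) 3 ⊆ ext M c K i := fun x hx => mem_ext.2 (Or.inl (h.ring i hx))

theorem plusR_bounds {n : ℕ} {k x : P2} (h : x ∈ plusR n k) {a b c d : ℤ} (ha : a ≤ k.1)
    (hb : k.1 ≤ b) (hc : c ≤ k.2) (hd : k.2 ≤ d) :
    (a - 1) * n ≤ x.1 ∧ x.1 ≤ (b + 2) * n ∧ (c - 1) * n ≤ x.2 ∧ x.2 ≤ (d + 2) * n := by
  have hn : (0 : ℤ) ≤ n := by positivity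
  obtain ⟨h1, h2, h3, h4⟩ := mem_plusR h
  have e1 := mul_le_mul_of_nonneg_right ha hn
  have e2 := mul_le_mul_of_nonneg_right hb hn
  have e3 := mul_le_mul_of_nonneg_right hc hn
  have e4 := mul_le_mul_of_nonneg_right hd hn
  refine ⟨?_, ?_, ?_, ?_⟩ <;> nlinarith

/-- region of the prolonged tokens -/
theorem ext_region {N M c : ℤ} {k : Fin 4 → P2} {K : Fin 4 → Finset P2} (h : TokOut N M k K)
    (hM : 10 ≤ M) (hc : M + 3 ≤ 16 * c) (n n' : ℕ) (hn' : (n' : ℤ) = c * n) : ∀ i : Fin 4,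
      tubeR n (ext M c K i) ⊆ Sq (16 * n') ∪ Corr i n' := by
  have hn : (0 : ℤ) ≤ n := by positivity
  have hcn : (M + 3) * (n : ℤ) ≤ 16 * c * n := mul_le_mul_of_nonneg_right hc hn
  have hMn : 10 * (n : ℤ) ≤ M * n := mul_le_mul_of_nonneg_right hM hn
  have h1n : 1 * (n : ℤ) ≤ c * n := mul_le_mul_of_nonneg_right (by omega) hn
  -- token cells
  have tok : ∀ i, ∀ κ ∈ K i, plusR n κ ⊆ Sq (16 * n') := by
    intro i κ hκ x hx
    obtain ⟨a1, a2, a3, a4⟩ := h.le i κ hκ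
    obtain ⟨b1, b2, b3, b4⟩ := plusR_bounds hx a1 a2 a3 a4
    rw [mem_Sq, hn']
    refine ⟨?_, ?_, ?_, ?_⟩ <;> nlinarith
  intro i x hx
  simp only [tubeR, Set.mem_iUnion] at hx
  obtain ⟨κ, hκ, hx⟩ := hx
  rw [mem_ext] at hκ
  rcases hκ with hκ | hκ
  · exact Or.inl (tok i κ hκ hx)
  · rw [Set.mem_union, mem_Sq, hn']
    unfold Corr
    rw [Set.mem_ofPred_eq, hn']
    revert i
    refine fin4_cases ?_ ?_ ?_ ?_
    · intro hκ
      rw [mem_rayF0, mem_gateF0] at hκ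
      simp only [co]
      obtain ⟨b1, b2, b3, b4⟩ := plusR_bounds hx (a := M) (b := 26 * c) (c := -(5 * c))
        (d := 5 * c) (by omega) (by omega) (by omega) (by omega)
      by_cases h16 : x.1 ≤ 16 * (c * n)
      · left; refine ⟨?_, ?_, ?_, ?_⟩ <;> nlinarith
      · right; refine ⟨?_, ?_, ?_, ?_⟩ <;> nlinarith
    · intro hκ
      rw [mem_rayF1, mem_gateF1] at hκ
      simp only [co]
      obtain ⟨b1, b2, b3, b4⟩ := plusR_bounds hx (c := M) (d := 26 * c) (a := -(5 * c))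
        (b := 5 * c) (by omega) (by omega) (by omega) (by omega)
      by_cases h16 : x.2 ≤ 16 * (c * n)
      · left; refine ⟨?_, ?_, ?_, ?_⟩ <;> nlinarith
      · right; refine ⟨?_, ?_, ?_, ?_⟩ <;> nlinarith
    · intro hκ
      rw [mem_rayF2, mem_gateF2] at hκ
      simp only [co]
      obtain ⟨b1, b2, b3, b4⟩ := plusR_bounds hx (a := -1 - 26 * c) (b := -1 - M)
        (c := -(5 * c)) (d := 5 * c) (by omega) (by omega) (by omega) (by omega)
      by_cases h16 : -(16 * (c * n)) ≤ x.1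
      · left; refine ⟨?_, ?_, ?_, ?_⟩ <;> nlinarith
      · right; refine ⟨?_, ?_, ?_, ?_⟩ <;> nlinarith
    · intro hκ
      rw [mem_rayF3, mem_gateF3] at hκ
      simp only [co]
      obtain ⟨b1, b2, b3, b4⟩ := plusR_bounds hx (c := -1 - 26 * c) (d := -1 - M)
        (a := -(5 * c)) (b := 5 * c) (by omega) (by omega) (by omega) (by omega)
      by_cases h16 : -(16 * (c * n)) ≤ x.2
      · left; refine ⟨?_, ?_, ?_, ?_⟩ <;> nlinarith
      · right; refine ⟨?_, ?_, ?_, ?_⟩ <;> nlinarith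

/-- region of the gates -/
theorem gate_region {c : ℤ} (hc : 1 ≤ c) (n n' : ℕ) (hn' : (n' : ℤ) = c * n) : ∀ i : Fin 4,
    tubeR n (gateF i c) ⊆ Gate i n' := by
  have hn : (0 : ℤ) ≤ n := by positivity
  have h1n : 1 * (n : ℤ) ≤ c * n := mul_le_mul_of_nonneg_right hc hn
  intro i x hx
  simp only [tubeR, Set.mem_iUnion] at hx
  obtain ⟨κ, hκ, hx⟩ := hx
  unfold Gate
  rw [Set.mem_ofPred_eq, hn']
  revert i
  refine fin4_cases ?_ ?_ ?_ ?_
  · intro hκ
    rw [mem_gateF0] at hκ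
    simp only [co]
    obtain ⟨b1, b2, b3, b4⟩ := plusR_bounds hx (a := 26 * c) (b := 26 * c) (c := -(5 * c))
      (d := 5 * c) (by omega) (by omega) (by omega) (by omega)
    refine ⟨?_, ?_, ?_, ?_⟩ <;> nlinarith
  · intro hκ
    rw [mem_gateF1] at hκ
    simp only [co]
    obtain ⟨b1, b2, b3, b4⟩ := plusR_bounds hx (c := 26 * c) (d := 26 * c) (a := -(5 * c))
      (b := 5 * c) (by omega) (by omega) (by omega) (by omega)
    refine ⟨?_, ?_, ?_, ?_⟩ <;> nlinarith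
  · intro hκ
    rw [mem_gateF2] at hκ
    simp only [co]
    obtain ⟨b1, b2, b3, b4⟩ := plusR_bounds hx (a := -1 - 26 * c) (b := -1 - 26 * c)
      (c := -(5 * c)) (d := 5 * c) (by omega) (by omega) (by omega) (by omega)
    refine ⟨?_, ?_, ?_, ?_⟩ <;> nlinarith
  · intro hκ
    rw [mem_gateF3] at hκ
    simp only [co]
    obtain ⟨b1, b2, b3, b4⟩ := plusR_bounds hx (c := -1 - 26 * c) (d := -1 - 26 * c)
      (a := -(5 * c)) (b := 5 * c) (by omega) (by omega) (by omega) (by omega)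
    refine ⟨?_, ?_, ?_, ?_⟩ <;> nlinarith

theorem arm_ext {N M c : ℤ} {k : Fin 4 → P2} {K : Fin 4 → Finset P2} (h : TokOut N M k K)
    (hM : 10 ≤ M) (hc : M + 3 ≤ 16 * c) {n n' : ℕ} (hn' : (n' : ℤ) = c * n) {z : Cfz} (i : Fin 4)
    (hz : z ∈ tubeX n (ext M c K i)) {S : Set P2} (hS : S ⊆ Sq (16 * n')) {u a : P2}
    (hua : OC z S u a) (ha : a ∈ Bk n (k i) 1) (hu : OutB n (k i) 4 u) :
    GArm z i n' u := by
  have hn : (0 : ℤ) ≤ n := by positivity
  have h1n : 1 * (n : ℤ) ≤ c * n := mul_le_mul_of_nonneg_right (by omega) hn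
  obtain ⟨x, hx, hxc⟩ := ext_conn h hM hc i
  have hring := ring_sub_ext (c := c) h i
  have hreg := ext_region h hM hc n n' hn' i
  have hgr := gate_region (c := c) (by omega) n n' hn' i
  have hSR : S ∪ tubeR n (ext M c K i) ⊆ Sq (16 * n') ∪ Corr i n' :=
    Set.union_subset (hS.trans Set.subset_union_left) hreg
  have hGC : Gate i n' ⊆ Sq (16 * n') ∪ Corr i n' := (Gate_sub i n').trans Set.subset_union_right
  have hgate : gateF i c ⊆ ext M c K i := fun y hy => mem_ext.2 (Or.inr (Or.inr hy))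
  revert i
  refine fin4_cases ?_ ?_ ?_ ?_
  · intro hz ha hu hx hxc hring hreg hgr hSR hGC hgate
    obtain ⟨A, B, hA, hB, h1, h2⟩ := arm_col hz (by norm_num : (2 : ℤ) ≤ 3) hring
      (i := 26 * c) (j0 := -(5 * c)) (j1 := 5 * c) (by omega) hgate hx hxc hua ha hu
    refine ⟨A, B, ?_, ?_, h1.monoS hgr, h2.monoS hSR⟩
    · show A.2 ≤ _
      rw [hA, hn']; nlinarith
    · show _ ≤ B.2
      rw [hB, hn']; nlinarith
  · intro hz ha hu hx hxc hring hreg hgr hSR hGC hgate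
    obtain ⟨A, B, hA, hB, h1, h2⟩ := arm_row hz (by norm_num : (2 : ℤ) ≤ 3) hring
      (j := 26 * c) (i0 := -(5 * c)) (i1 := 5 * c) (by omega) hgate hx hxc hua ha hu
    refine ⟨B, A, ?_, ?_, (h1.monoS hgr).symm, (h2.monoS hSR).trans ((h1.monoS hgr).monoS hGC)⟩
    · show -B.1 ≤ _
      rw [hB, hn']; nlinarith
    · show _ ≤ -A.1
      rw [hA, hn']; nlinarith
  · intro hz ha hu hx hxc hring hreg hgr hSR hGC hgate
    obtain ⟨A, B, hA, hB, h1, h2⟩ := arm_col hz (by norm_num : (2 : ℤ) ≤ 3) hring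
      (i := -1 - 26 * c) (j0 := -(5 * c)) (j1 := 5 * c) (by omega) hgate hx hxc hua ha hu
    refine ⟨B, A, ?_, ?_, (h1.monoS hgr).symm, (h2.monoS hSR).trans ((h1.monoS hgr).monoS hGC)⟩
    · show -B.2 ≤ _
      rw [hB, hn']; nlinarith
    · show _ ≤ -A.2
      rw [hA, hn']; nlinarith
  · intro hz ha hu hx hxc hring hreg hgr hSR hGC hgate
    obtain ⟨A, B, hA, hB, h1, h2⟩ := arm_row hz (by norm_num : (2 : ℤ) ≤ 3) hring
      (j := -1 - 26 * c) (i0 := -(5 * c)) (i1 := 5 * c) (by omega) hgate hx hxc hua ha hu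
    refine ⟨A, B, ?_, ?_, h1.monoS hgr, h2.monoS hSR⟩
    · show A.1 ≤ _
      rw [hA, hn']; nlinarith
    · show _ ≤ B.1
      rw [hB, hn']; nlinarith

end Crest.Agent.R158.Sg689
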