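import Crest.Agent.R158.Sg3_689

/-!
# Row 158, Block SEP, leaf L5 (helper689): supports, gluing of the inner landing events

* `glue_core` : `c^B P(Uin e (N n) n k0 k1 k2 k3) ≤ P(Nice e n' true true)` and the mirrored form
-/

set_option autoImplicit false

noncomputable section

namespace Crest.Agent.R158.Sg689

open MeasureTheory ProbabilityTheory unitInterval
open Crest.Agent.R161.Geo729 Crest.Agent.R161.Topo374 Crest.Agent.R161.Dual374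
open Crest.Agent.R161.Tas682
open Crest.Agent.R158.Rs689 Crest.Agent.R158.Sp580 Crest.Agent.R158.Ru874

/-- region of the support of a cell -/
def InCell (n : ℕ) (κ x : P2) : Prop :=
  κ.1 * n - n ≤ x.1 ∧ x.1 ≤ κ.1 * n + 2 * n ∧ κ.2 * n - n ≤ x.2 ∧ x.2 ≤ κ.2 * n + 2 * n

theorem cell_out {n : ℕ} {κ x : P2} (h : InCell n κ x) {N : ℤ} (hκ : OutR N κ) :
    (N - 1) * n ≤ x.1 ∨ x.1 ≤ -((N - 1) * n) ∨ (N - 1) * n ≤ x.2 ∨ x.2 ≤ -((N - 1) * n) := by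
  have hn : (0 : ℤ) ≤ n := by positivity
  obtain ⟨h1, h2, h3, h4⟩ := h
  rcases hκ with h5 | h5 | h5 | h5
  · have := mul_le_mul_of_nonneg_right h5 hn
    left; nlinarith
  · have := mul_le_mul_of_nonneg_right h5 hn
    right; left; nlinarith
  · have := mul_le_mul_of_nonneg_right h5 hn
    right; right; left; nlinarith
  · have := mul_le_mul_of_nonneg_right h5 hn
    right; right; right; nlinarith

theorem cell_near {n : ℕ} {κ k x : P2} (h : InCell n κ x) (hκ : |κ.1 - k.1| ≤ 4 ∧ |κ.2 - k.2| ≤ 4) :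
    (k.1 - 5) * n ≤ x.1 ∧ x.1 ≤ (k.1 + 6) * n ∧ (k.2 - 5) * n ≤ x.2 ∧ x.2 ≤ (k.2 + 6) * n := by
  have hn : (0 : ℤ) ≤ n := by positivity
  obtain ⟨h1, h2, h3, h4⟩ := h
  rw [abs_le, abs_le] at hκ
  obtain ⟨⟨a1, a2⟩, a3, a4⟩ := hκ
  have e1 := mul_le_mul_of_nonneg_right (show k.1 - 4 ≤ κ.1 by omega) hn
  have e2 := mul_le_mul_of_nonneg_right (show κ.1 ≤ k.1 + 4 by omega) hn
  have e3 := mul_le_mul_of_nonneg_right (show k.2 - 4 ≤ κ.2 by omega) hn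
  have e4 := mul_le_mul_of_nonneg_right (show κ.2 ≤ k.2 + 4 by omega) hn
  refine ⟨?_, ?_, ?_, ?_⟩ <;> nlinarith

theorem ext_near {N M c : ℤ} {k : Fin 4 → P2} {K : Fin 4 → Finset P2} (h : TokOut N M k K)
    (hNM : N + 2 ≤ M) (hM : 10 ≤ M) (hc : M + 3 ≤ 16 * c) (i : Fin 4) :
    ∀ κ ∈ ext M c K i, (|κ.1 - (k i).1| ≤ 4 ∧ |κ.2 - (k i).2| ≤ 4) ∨ OutR (N + 2) κ := by
  intro κ hκ
  rw [mem_ext] at hκ
  rcases hκ with hκ | hκ
  · exact h.near i κ hκ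
  · right
    revert i
    refine fin4_cases ?_ ?_ ?_ ?_ <;> intro hκ <;>
      simp only [mem_rayF0, mem_rayF1, mem_rayF2, mem_rayF3, mem_gateF0, mem_gateF1,
          mem_gateF2, mem_gateF3] at hκ <;> unfold OutR <;> omega

theorem mem_tubeE {n : ℕ} {K : Finset P2} {g : Edge} (h : g ∈ tubeE n K) :
    ∃ κ ∈ K, InCell n κ (src g) ∧ InCell n κ (tgt g) := by
  classical
  unfold tubeE at h
  rw [Finset.mem_biUnion] at h
  obtain ⟨κ, hκ, h⟩ := h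
  exact ⟨κ, hκ, mem_cellE h⟩

theorem src_dEs (g : Edge) : (src g).1 ≤ (src (dE.symm g)).1 ∧ (src (dE.symm g)).1 ≤ (src g).1 + 1 ∧
    (src g).2 ≤ (src (dE.symm g)).2 ∧ (src (dE.symm g)).2 ≤ (src g).2 + 1 := by
  obtain ⟨⟨i, j⟩, b⟩ := g
  cases b <;> simp

theorem ofNat_pos' {n : ℕ} (hn : 2 ≤ n) : (2 : ℤ) ≤ n := by exact_mod_cast hn

/-- supports: open landing event versus dual tube -/
theorem disj_P {N M c R : ℤ} {k : Fin 4 → P2} {K : Fin 4 → Finset P2} (h : TokOut N M k K)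
    (hNM : N + 2 ≤ M) (hM : 10 ≤ M) (hc : M + 3 ≤ 16 * c) {n : ℕ} (hn : 2 ≤ n) (hR : R = N * n)
    {T : Finset P2} {i j : Fin 4} (hT : ∀ κ ∈ T, κ ∈ ext M c K i ∨ κ ∈ ext M c K j)
    {D : Set P2} (hDf : D.Finite)
    (hD : ∀ x ∈ D, x ∈ Sp580.Sq R ∧ x ∉ Bk n (k i) 8 ∧ x ∉ Bk n (k j) 8) :
    Disjoint (edF D) ((tubeE n T).map dE.symm.toEmbedding) := by
  have hn' := ofNat_pos' hn
  rw [Finset.disjoint_left]
  intro g hg hg'
  rw [mem_edF hDf] at hg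
  obtain ⟨hx, hx2, hx3⟩ := hD _ hg.1
  rw [Finset.mem_map] at hg'
  obtain ⟨g', hg', rfl⟩ := hg'
  obtain ⟨κ, hκ, h1, _⟩ := mem_tubeE hg'
  have h2 := src_dEs g'
  have e0 : dE.symm.toEmbedding g' = dE.symm g' := rfl
  rw [e0] at hx hx2 hx3
  have key : ∀ l : Fin 4, κ ∈ ext M c K l → src (dE.symm g') ∉ Bk n (k l) 8 → False := by
    intro l hl hx4
    rcases ext_near h hNM hM hc l κ hl with h3 | h3
    · obtain ⟨b1, b2, b3, b4⟩ := cell_near h1 h3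
      apply hx4
      rw [mem_Bk]
      refine ⟨?_, ?_, ?_, ?_⟩ <;> nlinarith
    · have h4 := cell_out h1 h3
      rw [mem_Sq, hR] at hx
      rcases h4 with h4 | h4 | h4 | h4 <;> nlinarith
  rcases hT κ hκ with h3 | h3
  · exact key i h3 hx2
  · exact key j h3 hx3

/-- supports: dual landing event versus open tube -/
theorem disj_D {N M c R : ℤ} {k : Fin 4 → P2} {K : Fin 4 → Finset P2} (h : TokOut N M k K)
    (hNM : N + 2 ≤ M) (hM : 10 ≤ M) (hc : M + 3 ≤ 16 * c) {n : ℕ} (hn : 2 ≤ n) (hR : R = N * n)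
    {T : Finset P2} {i j : Fin 4} (hT : ∀ κ ∈ T, κ ∈ ext M c K i ∨ κ ∈ ext M c K j)
    {D : Set P2} (hDf : D.Finite)
    (hD : ∀ x ∈ D, x ∈ FSq R ∧ x ∉ Bk n (k i) 8 ∧ x ∉ Bk n (k j) 8) :
    Disjoint ((edF D).map dE.symm.toEmbedding) (tubeE n T) := by
  have hn' := ofNat_pos' hn
  rw [Finset.disjoint_left]
  intro g hg hg'
  rw [Finset.mem_map] at hg
  obtain ⟨g', hg, rfl⟩ := hg
  rw [mem_edF hDf] at hg
  obtain ⟨hx, hx2, hx3⟩ := hD _ hg.1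
  obtain ⟨κ, hκ, h1, _⟩ := mem_tubeE hg'
  have h2 := src_dEs g'
  have e0 : dE.symm.toEmbedding g' = dE.symm g' := rfl
  rw [e0] at h1
  have key : ∀ l : Fin 4, κ ∈ ext M c K l → src g' ∉ Bk n (k l) 8 → False := by
    intro l hl hx4
    rcases ext_near h hNM hM hc l κ hl with h3 | h3
    · obtain ⟨b1, b2, b3, b4⟩ := cell_near h1 h3
      apply hx4
      rw [mem_Bk]
      refine ⟨?_, ?_, ?_, ?_⟩ <;> nlinarith
    · have h4 := cell_out h1 h3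
      rw [mem_FSq, hR] at hx
      rcases h4 with h4 | h4 | h4 | h4 <;> nlinarith
  rcases hT κ hκ with h3 | h3
  · exact key i h3 hx2
  · exact key j h3 hx3

/-- the cells of the prolonged tokens are far from the origin -/
theorem ext_away {N M c : ℤ} {k : Fin 4 → P2} {K : Fin 4 → Finset P2} (h : TokOut N M k K)
    (hNM : N + 2 ≤ M) (hM : 10 ≤ M) (hc : M + 3 ≤ 16 * c) (hk : ∀ i, OutR (N - 1) (k i))
    (i : Fin 4) : ∀ κ ∈ ext M c K i, OutR (N - 5) κ := by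
  intro κ hκ
  rcases ext_near h hNM hM hc i κ hκ with h1 | h1
  · rw [abs_le, abs_le] at h1
    have h2 := hk i
    unfold OutR at *
    omega
  · unfold OutR at *
    omega

theorem tube_away {N M c : ℤ} {k : Fin 4 → P2} {K : Fin 4 → Finset P2} (h : TokOut N M k K)
    (hNM : N + 2 ≤ M) (hM : 10 ≤ M) (hc : M + 3 ≤ 16 * c) (hk : ∀ i, OutR (N - 1) (k i))
    (hN : 10 ≤ N) {n : ℕ} (hn : 1 ≤ n) {i : Fin 4} {g : Edge} (hg : g ∈ tubeE n (ext M c K i)) :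
    4 ≤ (src g).1 ∨ (src g).1 ≤ -4 ∨ 4 ≤ (src g).2 ∨ (src g).2 ≤ -4 := by
  have hn' : (1 : ℤ) ≤ n := by exact_mod_cast hn
  obtain ⟨κ, hκ, h1, _⟩ := mem_tubeE hg
  have h2 := cell_out h1 (ext_away h hNM hM hc hk i κ hκ)
  rcases h2 with h2 | h2 | h2 | h2
  · left; nlinarith
  · right; left; nlinarith
  · right; right; left; nlinarith
  · right; right; right; nlinarith

theorem tube_frc {N M c : ℤ} {k : Fin 4 → P2} {K : Fin 4 → Finset P2} (h : TokOut N M k K)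
    (hNM : N + 2 ≤ M) (hM : 10 ≤ M) (hc : M + 3 ≤ 16 * c) (hk : ∀ i, OutR (N - 1) (k i))
    (hN : 10 ≤ N) {n : ℕ} (hn : 1 ≤ n) {i : Fin 4} {e : Edge} (he : src e = (0, 0)) {z : Cfz}
    (b : Bool) (hz : z ∈ tubeX n (ext M c K i)) : frc e b z ∈ tubeX n (ext M c K i) := by
  refine (tubeX_dep n (ext M c K i) z (frc e b z) fun g hg => ?_).1 hz
  have h1 := tube_away h hNM hM hc hk hN hn hg
  rw [frc_ne]
  rintro rfl
  rw [he] at h1
  simp at h1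

theorem tube_frc_dual {N M c : ℤ} {k : Fin 4 → P2} {K : Fin 4 → Finset P2} (h : TokOut N M k K)
    (hNM : N + 2 ≤ M) (hM : 10 ≤ M) (hc : M + 3 ≤ 16 * c) (hk : ∀ i, OutR (N - 1) (k i))
    (hN : 10 ≤ N) {n : ℕ} (hn : 1 ≤ n) {i : Fin 4} {e : Edge} (he : src e = (0, 0)) {z : Cfz}
    (b : Bool) (hz : dual z ∈ tubeX n (ext M c K i)) :
    dual (frc e b z) ∈ tubeX n (ext M c K i) := by
  refine (tubeX_dep n (ext M c K i) (dual z) (dual (frc e b z)) fun g hg => ?_).1 hz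
  have h1 := tube_away h hNM hM hc hk hN hn hg
  have h2 := src_dEs g
  show (!z (dE.symm g)) = !(frc e b z) (dE.symm g)
  rw [frc_ne]
  intro h3
  rw [h3, he] at h2
  simp only at h2
  omega

/-- the starting points are outside the landing blocks -/
theorem start_out {N : ℤ} {k : Fin 4 → P2} (hk : ∀ i, OutR (N - 1) (k i)) (hN : 10 ≤ N) {n : ℕ}
    (hn : 1 ≤ n) (i : Fin 4) {x : P2} (hx : -1 ≤ x.1 ∧ x.1 ≤ 1 ∧ -1 ≤ x.2 ∧ x.2 ≤ 1) :
    OutB n (k i) 4 x := by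
  have hn' : (1 : ℤ) ≤ n := by exact_mod_cast hn
  unfold OutB
  rcases hk i with h | h | h | h
  · left
    have := mul_le_mul_of_nonneg_right (show (5 : ℤ) ≤ (k i).1 - 4 by omega) (show (0 : ℤ) ≤ n by omega)
    nlinarith
  · right; left
    have := mul_le_mul_of_nonneg_right (show (k i).1 + 4 + 1 ≤ (-5 : ℤ) by omega)
      (show (0 : ℤ) ≤ n by omega)
    nlinarith
  · right; right; left
    have := mul_le_mul_of_nonneg_right (show (5 : ℤ) ≤ (k i).2 - 4 by omega) (show (0 : ℤ) ≤ n by omega)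
    nlinarith
  · right; right; right
    have := mul_le_mul_of_nonneg_right (show (k i).2 + 4 + 1 ≤ (-5 : ℤ) by omega)
      (show (0 : ℤ) ≤ n by omega)
    nlinarith

/-- number of cells -/
theorem ext_card {N M c : ℤ} {k : Fin 4 → P2} {K : Fin 4 → Finset P2} (h : TokOut N M k K)
    (hM : 10 ≤ M) (hc : M + 3 ≤ 16 * c) {T : Finset P2} {i j : Fin 4}
    (hT : ∀ κ ∈ T, κ ∈ ext M c K i ∨ κ ∈ ext M c K j) :
    T.card ≤ (52 * c + 2).toNat ^ 2 := by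
  have h1 : ∀ l : Fin 4, ∀ κ ∈ ext M c K l, InR (26 * c) κ := by
    intro l κ hκ
    rw [mem_ext] at hκ
    rcases hκ with hκ | hκ
    · have := h.le l κ hκ
      unfold InR at *
      omega
    · revert l
      refine fin4_cases ?_ ?_ ?_ ?_ <;> intro hκ <;>
        simp only [mem_rayF0, mem_rayF1, mem_rayF2, mem_rayF3, mem_gateF0, mem_gateF1,
          mem_gateF2, mem_gateF3] at hκ <;> unfold InR <;> omega
  have h2 : T ⊆ Finset.Icc (-1 - 26 * c) (26 * c) ×ˢ Finset.Icc (-1 - 26 * c) (26 * c) := by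
    intro κ hκ
    have h3 : InR (26 * c) κ := (hT κ hκ).elim (h1 i κ) (h1 j κ)
    rw [Finset.mem_product, Finset.mem_Icc, Finset.mem_Icc]
    exact ⟨⟨h3.1, h3.2.1⟩, h3.2.2.1, h3.2.2.2⟩
  refine (Finset.card_le_card h2).trans ?_
  rw [Finset.card_product, Int.card_Icc, sq]
  have : 26 * c + 1 - (-1 - 26 * c) = 52 * c + 2 := by ring
  rw [this]

/-! ### the gluing -/

theorem tube_union_mem {n : ℕ} {K1 K2 T : Finset P2} (hT : ∀ κ, κ ∈ T ↔ κ ∈ K1 ∨ κ ∈ K2) {z : Cfz}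
    (hz : z ∈ tubeX n T) : z ∈ tubeX n K1 ∧ z ∈ tubeX n K2 :=
  ⟨tubeX_mono (fun _ h => (hT _).2 (Or.inl h)) hz, tubeX_mono (fun _ h => (hT _).2 (Or.inr h)) hz⟩

/-- generic form: `Ap`, `Am` landing events -/
theorem glue_gen {N M : ℤ} {c : ℕ} {k : Fin 4 → P2} {K : Fin 4 → Finset P2} (h : TokOut N M k K)
    (hNM : N + 2 ≤ M) (hM : 10 ≤ M) (hc : M + 3 ≤ 16 * c) {n : ℕ} (hn : 2 ≤ n)
    {c0 : ℝ} {p : I} (hp : RSp c0 p n) {Tp Tm : Finset Edge} {Ap Am : Set Cfz}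
    (hAp : Dep Tp Ap) (hAm : Dep Tm Am) (iAp : Inc Ap) (iAm : Decr Am)
    (d1 : ∀ T : Finset P2, (∀ κ ∈ T, κ ∈ ext M c K 1 ∨ κ ∈ ext M c K 3) →
      Disjoint Tp ((tubeE n T).map dE.symm.toEmbedding))
    (d2 : ∀ T : Finset P2, (∀ κ ∈ T, κ ∈ ext M c K 0 ∨ κ ∈ ext M c K 2) → Disjoint Tm (tubeE n T))
    {G : Set Cfz}
    (hG : ∀ z ∈ Ap ∩ Am, z ∈ tubeX n (ext M c K 0) → z ∈ tubeX n (ext M c K 2) →
      dual z ∈ tubeX n (ext M c K 1) → dual z ∈ tubeX n (ext M c K 3) → z ∈ G) :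
    c0 ^ (4 * (52 * c + 2) ^ 2) * (nu p).real (Ap ∩ Am) ≤ (nu p).real G := by
  classical
  set T02 := ext M c K 0 ∪ ext M c K 2 with hT02
  set T13 := ext M c K 1 ∪ ext M c K 3 with hT13
  have m02 : ∀ κ, κ ∈ T02 ↔ κ ∈ ext M c K 0 ∨ κ ∈ ext M c K 2 := fun κ => Finset.mem_union
  have m13 : ∀ κ, κ ∈ T13 ↔ κ ∈ ext M c K 1 ∨ κ ∈ ext M c K 3 := fun κ => Finset.mem_union
  have cnat : (52 * (c : ℤ) + 2).toNat = 52 * c + 2 := by omega
  have b02 : T02.card ≤ (52 * c + 2) ^ 2 := by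
    have := ext_card h hM hc fun κ hκ => (m02 κ).1 hκ
    rwa [cnat] at this
  have b13 : T13.card ≤ (52 * c + 2) ^ 2 := by
    have := ext_card h hM hc fun κ hκ => (m13 κ).1 hκ
    rwa [cnat] at this
  have d3 : Disjoint (tubeE n T02) ((tubeE n T13).map dE.symm.toEmbedding) := by
    refine tubeE_disj_dual (by omega) fun κ hκ κ' hκ' => far5_abs ?_
    rcases (m02 κ).1 hκ with h1 | h1 <;> rcases (m13 κ').1 hκ' with h2 | h2
    · exact ext_far h hM hc 0 1 (by decide) κ h1 κ' h2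
    · exact ext_far h hM hc 0 3 (by decide) κ h1 κ' h2
    · exact ext_far h hM hc 2 1 (by decide) κ h1 κ' h2
    · exact ext_far h hM hc 2 3 (by decide) κ h1 κ' h2
  have key := gen_fkg_dual p hAp hAm (tubeX_dep n T02) (tubeX_dep n T13)
    (d1 T13 fun κ hκ => (m13 κ).1 hκ) (d2 T02 fun κ hκ => (m02 κ).1 hκ) d3 iAp iAm
    (tubeX_inc n T02) (tubeX_inc n T13)
  have e1 := (hp.tube (n := n) (by omega) le_rfl b02).1
  have e2 := (hp.tube (n := n) (by omega) le_rfl b13).2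
  have hc0 : 0 < c0 := hp.1
  calc c0 ^ (4 * (52 * c + 2) ^ 2) * (nu p).real (Ap ∩ Am)
      = (nu p).real (Ap ∩ Am) * (c0 ^ (2 * (52 * c + 2) ^ 2) * c0 ^ (2 * (52 * c + 2) ^ 2)) := by
        rw [← pow_add, mul_comm]
        congr 2
        ring
    _ ≤ (nu p).real (Ap ∩ Am) *
          ((nu p).real (tubeX n T02) * (nu (σ p)).real (tubeX n T13)) :=
        mul_le_mul_of_nonneg_left (mul_le_mul e1 e2 (by positivity) measureReal_nonneg)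
          measureReal_nonneg
    _ ≤ _ := key
    _ ≤ (nu p).real G := by
        refine measureReal_mono ?_
        rintro z ⟨hz, hz1, hz2⟩
        obtain ⟨h1, h2⟩ := tube_union_mem m02 hz1
        obtain ⟨h3, h4⟩ := tube_union_mem m13 hz2
        exact hG z hz h1 h2 h3 h4

theorem src_tgt_zero {e : Edge} (he : src e = (0, 0)) :
    (-1 ≤ (src e).1 ∧ (src e).1 ≤ 1 ∧ -1 ≤ (src e).2 ∧ (src e).2 ≤ 1) ∧
    (-1 ≤ (tgt e).1 ∧ (tgt e).1 ≤ 1 ∧ -1 ≤ (tgt e).2 ∧ (tgt e).2 ≤ 1) ∧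
    (-1 ≤ (fA e).1 ∧ (fA e).1 ≤ 1 ∧ -1 ≤ (fA e).2 ∧ (fA e).2 ≤ 1) ∧
    (-1 ≤ (fB e).1 ∧ (fB e).1 ≤ 1 ∧ -1 ≤ (fB e).2 ∧ (fB e).2 ≤ 1) := by
  obtain ⟨⟨a, b⟩, d⟩ := e
  have h : ((a, b) : P2) = (0, 0) := he
  rw [Prod.mk.injEq] at h
  obtain ⟨rfl, rfl⟩ := h
  cases d <;> simp

/-- **Gluing of the inner landing event** (L5), both cyclic orders. -/
theorem glue_core {N M : ℤ} {c : ℕ} {k : Fin 4 → P2} {K : Fin 4 → Finset P2} (h : TokOut N M k K)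
    (hk : ∀ i, OutR (N - 1) (k i)) (hN : 10 ≤ N)
    (hNM : N + 2 ≤ M) (hc : M + 3 ≤ 16 * c) {n n' : ℕ} (hn : 2 ≤ n) (hn' : n' = c * n)
    {c0 : ℝ} {p : I} (hp : RSp c0 p n) {e : Edge} (he : src e = (0, 0)) :
    c0 ^ (4 * (52 * c + 2) ^ 2) * (nu p).real (Uin e (N * n) n (k 0) (k 1) (k 2) (k 3)) ≤
      (nu p).real (Nice e n' true true) ∧
    c0 ^ (4 * (52 * c + 2) ^ 2) * (nu p).real (Uin e (N * n) n (k 0) (k 3) (k 2) (k 1)) ≤
      (nu p).real (Nice e n' true false) := by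
  have hM : 10 ≤ M := by omega
  have hn1 : 1 ≤ n := by omega
  have hn0 : (2 : ℤ) ≤ n := ofNat_pos' hn
  have hn'' : (n' : ℤ) = (c : ℤ) * n := by rw [hn']; push_cast; ring
  obtain ⟨s1, s2, s3, s4⟩ := src_tgt_zero he
  have hSq : Sp580.Sq (N * n) ⊆ Sp580.Sq (16 * n') := by
    refine Sq_sub ?_
    rw [hn'']
    nlinarith
  have hFSq : FSq (N * n) ⊆ Sp580.Sq (16 * n') := by
    intro x hx
    rw [mem_FSq] at hx
    rw [mem_Sq, hn'']
    refine ⟨?_, ?_, ?_, ?_⟩ <;> nlinarith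
  have P := fun (z : Cfz) (i : Fin 4) (hz : z ∈ tubeX n (ext M c K i)) (S : Set P2)
    (hS : S ⊆ Sp580.Sq (16 * n')) (u a : P2) (hua : OC z S u a) (ha : a ∈ Bk n (k i) 1)
    (hu : -1 ≤ u.1 ∧ u.1 ≤ 1 ∧ -1 ≤ u.2 ∧ u.2 ≤ 1) =>
      arm_ext h hM hc hn'' i hz hS hua ha (start_out hk hN hn1 i hu)
  constructor
  · refine glue_gen h hNM hM hc hn hp (dep_UinP e _ n (k 0) (k 1) (k 2) (k 3))
      (dep_UinD e _ n (k 0) (k 1) (k 2) (k 3)) (inc_UinP e _ n _ _ _ _)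
      (decr_UinD e _ n _ _ _ _) ?_ ?_ ?_
    · intro T hT
      refine disj_P h hNM hM hc hn rfl (i := 1) (j := 3) hT
        ((Sq_finite _).subset Set.sdiff_subset) ?_
      rintro x ⟨h1, h2⟩
      exact ⟨h1, fun h3 => h2 (Or.inl h3), fun h3 => h2 (Or.inr h3)⟩
    · intro T hT
      refine disj_D h hNM hM hc hn rfl (i := 0) (j := 2) hT
        ((FSq_finite _).subset Set.sdiff_subset) ?_
      rintro x ⟨h1, h2⟩
      exact ⟨h1, fun h3 => h2 (Or.inl h3), fun h3 => h2 (Or.inr h3)⟩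
    · rintro z ⟨⟨⟨a0, ha0, h0⟩, ⟨a2, ha2, h2⟩⟩, ⟨⟨a1, ha1, h1⟩, ⟨a3, ha3, h3⟩⟩⟩ t0 t2 t1 t3
      have f0 := tube_frc h hNM hM hc hk hN hn1 he false t0
      have f2 := tube_frc h hNM hM hc hk hN hn1 he false t2
      have f1 := tube_frc_dual h hNM hM hc hk hN hn1 he true t1
      have f3 := tube_frc_dual h hNM hM hc hk hN hn1 he true t3
      exact ⟨⟨P _ 0 f0 _ (Set.sdiff_subset.trans hSq) _ _ h0 ha0 s1,
        P _ 2 f2 _ (Set.sdiff_subset.trans hSq) _ _ h2 ha2 s2⟩,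
        ⟨P _ 1 f1 _ (Set.sdiff_subset.trans hFSq) _ _ h1 ha1 s3,
        P _ 3 f3 _ (Set.sdiff_subset.trans hFSq) _ _ h3 ha3 s4⟩⟩
  · refine glue_gen h hNM hM hc hn hp (dep_UinP e _ n (k 0) (k 3) (k 2) (k 1))
      (dep_UinD e _ n (k 0) (k 3) (k 2) (k 1)) (inc_UinP e _ n _ _ _ _)
      (decr_UinD e _ n _ _ _ _) ?_ ?_ ?_
    · intro T hT
      refine disj_P h hNM hM hc hn rfl (i := 1) (j := 3) hT
        ((Sq_finite _).subset Set.sdiff_subset) ?_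
      rintro x ⟨h1, h2⟩
      exact ⟨h1, fun h3 => h2 (Or.inr h3), fun h3 => h2 (Or.inl h3)⟩
    · intro T hT
      refine disj_D h hNM hM hc hn rfl (i := 0) (j := 2) hT
        ((FSq_finite _).subset Set.sdiff_subset) ?_
      rintro x ⟨h1, h2⟩
      exact ⟨h1, fun h3 => h2 (Or.inl h3), fun h3 => h2 (Or.inr h3)⟩
    · rintro z ⟨⟨⟨a0, ha0, h0⟩, ⟨a2, ha2, h2⟩⟩, ⟨⟨a1, ha1, h1⟩, ⟨a3, ha3, h3⟩⟩⟩ t0 t2 t1 t3
      have f0 := tube_frc h hNM hM hc hk hN hn1 he false t0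
      have f2 := tube_frc h hNM hM hc hk hN hn1 he false t2
      have f1 := tube_frc_dual h hNM hM hc hk hN hn1 he true t1
      have f3 := tube_frc_dual h hNM hM hc hk hN hn1 he true t3
      exact ⟨⟨P _ 0 f0 _ (Set.sdiff_subset.trans hSq) _ _ h0 ha0 s1,
        P _ 2 f2 _ (Set.sdiff_subset.trans hSq) _ _ h2 ha2 s2⟩,
        ⟨P _ 3 f3 _ (Set.sdiff_subset.trans hFSq) _ _ h1 ha1 s3,
        P _ 1 f1 _ (Set.sdiff_subset.trans hFSq) _ _ h3 ha3 s4⟩⟩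

end Crest.Agent.R158.Sg689
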