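import Crest.Agent.R158.Sb1_689
import Crest.Agent.R158.Sp2_580
import Crest.Agent.R158.Hp8_814
import Crest.Agent.R158.Ce2_679
import Crest.Agent.R158.Sg1_158

/-!
# Row 158, Block SEP2 (helper158), part 1: extension, base, monotonicity, locality

* `nice2_ext`, `nice2_ext'` : extension of the nice two-arm event
* `nice2_base` : base case
* `a2_mono` : `A2 f R' ⊆ A2 f R`; `locD_A2`, `locD_gd`
-/

set_option autoImplicit false

noncomputable section

namespace Crest.Agent.R158.Sh158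

open MeasureTheory ProbabilityTheory unitInterval
open Crest.Agent.R161.Geo729 Crest.Agent.R161.Topo374 Crest.Agent.R161.Dual374
open Crest.Agent.R161.Tas682 hiding Sq
open Crest.Agent.R158.Rs689 Crest.Agent.R158.Sp580 Crest.Agent.R158.Sb689 Crest.Agent.R158.Sg158
open Crest.Agent.R158.Ru874 hiding An
open Crest.Agent.R158.Cpl963 (An mem_An)
open Crest.Agent.R158.Kd458 (Gd)
open Crest.Agent.R158.Sq200 (BdV)

/-! ### locality with sources -/

theorem src_map {D : Set P2} {T : Finset Edge} (h : ∀ e ∈ T, tgt e ∈ D) :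
    ∀ e ∈ T.map dE.symm.toEmbedding, src e ∈ D := by
  intro e he
  rw [Finset.mem_map] at he
  obtain ⟨e', he', rfl⟩ := he
  have h3 : tgt (dE (dE.symm e')) = fA (dE.symm e') := tgt_dE _
  rw [Equiv.apply_symm_apply] at h3
  have h4 : fA (dE.symm e') = src (dE.symm e') := rfl
  show src (dE.symm e') ∈ D
  rw [← h4, ← h3]
  exact h e' he'

theorem tubeB_box {n : ℕ} {K : Finset P2} {i0 i1 j0 j1 : ℤ} (hK : InC K i0 i1 j0 j1) {w : P2}
    (hw : w ∈ tubeB n K) : i0 * n - n ≤ w.1 ∧ w.1 ≤ i1 * n + 2 * n ∧ j0 * n - n ≤ w.2 ∧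
      w.2 ≤ j1 * n + 2 * n := by
  obtain ⟨k, hk, h1⟩ := hw
  obtain ⟨h2, h3, h4, h5⟩ := hK k hk
  have b1 := mul_bd (n := n) h2
  have b2 := mul_bd (n := n) h3
  have b3 := mul_bd (n := n) h4
  have b4 := mul_bd (n := n) h5
  omega

/-! ### extension -/

theorem nice2_ext {c : ℝ} {p : I} {n : ℕ} (hn : 1 ≤ n) (h : RSp c p n) (f : P2) :
    c ^ 176 * (nu p).real (Nice2 f n) ≤ (nu p).real (Nice2 f (2 * n)) := by
  have hn' : (1 : ℤ) ≤ n := by exact_mod_cast hn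
  have q1 := (h.tube hn le_rfl (XC_card 0)).1
  have q2 := (h.tube hn le_rfl (XC_card 2)).2
  have s1 : ∀ e ∈ edF (N2P n), src e ∈ N2P n := fun e he => (of_mem_edF he).1
  have s2 : ∀ e ∈ (edF (N2D n)).map dE.symm.toEmbedding, src e ∈ N2D n :=
    src_map fun e he => (of_mem_edF he).2
  have s3 : ∀ e ∈ tubeE n (XC 0), src e ∈ tubeB n (XC 0) := fun e he => (mem_tubeE he).1
  have s4 : ∀ e ∈ (tubeE n (XC 2)).map dE.symm.toEmbedding, src e ∈ tubeB n (XC 2) :=
    src_map fun e he => (mem_tubeE he).2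
  have d1 : Disjoint (N2P n) (tubeB n (XC 2)) := by
    rw [Set.disjoint_left]
    intro x hx hx'
    have h3 := tubeB_box XC_in2 hx'
    rcases hx with h1 | h1
    · rw [mem_Sq] at h1
      omega
    · obtain ⟨a1, a2, a3, a4⟩ := h1
      simp only [co] at a1 a2 a3 a4
      omega
  have d2 : Disjoint (N2D n) (tubeB n (XC 0)) := by
    rw [Set.disjoint_left]
    intro x hx hx'
    have h3 := tubeB_box XC_in0 hx'
    rcases hx with h1 | h1
    · rw [mem_Sq] at h1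
      omega
    · obtain ⟨a1, a2, a3, a4⟩ := h1
      simp only [co] at a1 a2 a3 a4
      omega
  have d3 : Disjoint (tubeB n (XC 0)) (tubeB n (XC 2)) := by
    rw [Set.disjoint_left]
    intro x hx hx'
    have h3 := tubeB_box XC_in0 hx
    have h4 := tubeB_box XC_in2 hx'
    omega
  have hg := gen_fkg_dual p (dep_Nice2P n) (dep_Nice2D f n) (tubeX_dep n (XC 0))
    (tubeX_dep n (XC 2)) (LocD.disj d1 s1 s4) (LocD.disj d2 s2 s3) (LocD.disj d3 s3 s4)
    (inc_Nice2P n) (decr_Nice2D f n) (tubeX_inc _ _) (tubeX_inc _ _)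
  have hsub : (Nice2P n ∩ Nice2D f n) ∩ (tubeX n (XC 0) ∩ Rs689.dual ⁻¹' tubeX n (XC 2)) ⊆
      Nice2 f (2 * n) := by
    rintro z ⟨⟨a1, a2⟩, hz1, hz2⟩
    exact ⟨garm_ext a1 hz1, garm_ext a2 hz2⟩
  have h0 : (0 : ℝ) ≤ (nu p).real (Nice2P n ∩ Nice2D f n) := measureReal_nonneg
  calc c ^ 176 * (nu p).real (Nice2 f n)
      = (nu p).real (Nice2P n ∩ Nice2D f n) * (c ^ (2 * 44) * c ^ (2 * 44)) := by
        rw [Nice2]; ring
    _ ≤ (nu p).real (Nice2P n ∩ Nice2D f n) * ((nu p).real (tubeX n (XC 0)) *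
        (nu (σ p)).real (tubeX n (XC 2))) := by
        refine mul_le_mul_of_nonneg_left ?_ h0
        exact mul_le_mul q1 q2 (pow_nonneg h.1.le _) measureReal_nonneg
    _ ≤ _ := hg
    _ ≤ _ := measureReal_mono hsub

theorem nice2_ext' {c : ℝ} {p : I} {n : ℕ} (hn : 1 ≤ n) (h : RSp c p n) (f : P2) :
    (nu p).real (Nice2 f n) ≤ 1 / c ^ 176 * (nu p).real (Nice2 f (2 * n)) := by
  have hc : (0 : ℝ) < c ^ 176 := pow_pos h.1 _
  rw [one_div, ← div_eq_inv_mul, le_div_iff₀ hc, mul_comm]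
  exact nice2_ext hn h f

/-! ### base -/

/-- open edges of the base configuration -/
def b2 (e : Edge) : Bool :=
  decide ((e.2 = false ∧ e.1.2 = 0 ∧ 0 ≤ e.1.1 ∧ e.1.1 ≤ 21) ∨
    (e.2 = true ∧ e.1.1 = 22 ∧ -4 ≤ e.1.2 ∧ e.1.2 ≤ 3))

theorem b2_mem {f : P2} (hf : Nr f) : b2 ∈ Nice2 f 1 := by
  obtain ⟨f1, f2⟩ := f
  obtain ⟨h1, h2, h3, h4⟩ := hf
  simp only at h1 h2 h3 h4
  refine ⟨?_, ?_⟩
  · refine garm0_of (x := 0) (y := 0) (by norm_num) (by norm_num) (by norm_num) (by norm_num)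
      (fun i h1 h2 => ?_) (fun j h1 h2 => ?_)
    · simp [b2]; omega
    · simp [b2]; omega
  · refine garm2_of (x := f1) (y := f2) (by omega) (by omega) (by omega) (by omega)
      (fun i h5 h6 => ?_) (fun j h5 h6 => ?_)
    · rw [dual_eq_true, dE_symm_h]
      simp [b2]
      omega
    · rw [dual_eq_true, dE_symm_v]
      simp [b2]

open Classical in
/-- support of the nice two-arm event -/
def SN2 (n : ℕ) : Finset Edge := edF (N2P n) ∪ (edF (N2D n)).map dE.symm.toEmbedding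

theorem dep_Nice2 (f : P2) (n : ℕ) : Dep (SN2 n) (Nice2 f n) := by
  classical
  exact ((dep_Nice2P n).mono Finset.subset_union_left).inter
    ((dep_Nice2D f n).mono Finset.subset_union_right)

theorem nice2_base {c : ℝ} {p : I} {N : ℕ} (h : RSp c p N) (hN : 1 ≤ N) {f : P2} (hf : Nr f) :
    (c / 2) ^ (SN2 1).card ≤ (nu p).real (Nice2 f 1) :=
  cyl_lower (fun _ => p) (dep_Nice2 f 1) (b2_mem hf) (div_nonneg h.1.le (by norm_num))
    fun _ _ b => bern_ge h hN b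

/-! ### monotonicity and locality of `A2` -/

theorem nbr_fst {a b : P2} (h : Nbr a b) : b.1 ≤ a.1 + 1 ∧ a.1 ≤ b.1 + 1 ∧ b.2 ≤ a.2 + 1 ∧
    a.2 ≤ b.2 + 1 := by
  unfold Nbr at h
  omega

theorem sd0_le {v : P2} {R : ℤ} : sd (0, 0) v ≤ R ↔ -R ≤ v.1 ∧ v.1 ≤ R ∧ -R ≤ v.2 ∧ v.2 ≤ R := by
  unfold sd
  simp only [sub_zero]
  rw [max_le_iff, abs_le, abs_le]
  constructor <;> rintro h <;> omega

theorem a2_mono {f : P2} {R R' : ℤ} (hR : 1 ≤ R) (h : R ≤ R') (hf : f ∈ FI R) :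
    A2 f R' ⊆ A2 f R := by
  rintro z ⟨⟨x, hx, hz⟩, ⟨g, hg, hz'⟩⟩
  have hx' : sd (0, 0) x = R' := hx
  refine ⟨?_, ?_⟩
  · obtain ⟨y, hy, h1⟩ := first_hit (fun v => sd (0, 0) v) (fun a b hab => by
      have h3 := nbr_fst hab
      have h4 : sd (0, 0) a ≤ sd (0, 0) a := le_rfl
      rw [sd0_le] at h4
      show sd (0, 0) b ≤ sd (0, 0) a + 1
      rw [sd0_le]
      omega) R hz (by
        show sd (0, 0) ((0, 0) : P2) ≤ R
        rw [sd0_le]
        simp only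
        omega) (by show R ≤ sd (0, 0) x; omega)
    refine ⟨y, hy, h1.monoS ?_⟩
    rintro v ⟨_, hv⟩
    have hv' : sd (0, 0) v ≤ R := hv
    rw [sd0_le] at hv'
    exact hv'
  · -- depth of a face
    set F : P2 → ℤ := fun v => max (max v.1 (-1 - v.1)) (max v.2 (-1 - v.2)) with hF
    have hFle : ∀ {v : P2} {m : ℤ}, F v ≤ m - 1 ↔ v ∈ FI m := by
      intro v m
      rw [mem_FI]
      simp only [hF]
      omega
    have hFe : ∀ {v : P2} {m : ℤ}, v ∈ FI m → F v = m - 1 → v ∈ FIb m := by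
      intro v m h1 h2
      refine ⟨h1, ?_⟩
      simp only [hF] at h2
      show v.1 = -m ∨ v.1 = m - 1 ∨ v.2 = -m ∨ v.2 = m - 1
      omega
    have hFb : F g = R' - 1 := by
      have h1 := hg.1
      have h2 : g.1 = -R' ∨ g.1 = R' - 1 ∨ g.2 = -R' ∨ g.2 = R' - 1 := hg.2
      rw [mem_FI] at h1
      simp only [hF]
      omega
    obtain ⟨y, hy, h1⟩ := first_hit F (fun a b hab => by
      have h3 := nbr_fst hab
      simp only [hF]
      omega) (R - 1) hz' (hFle.2 hf) (by rw [hFb]; omega)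
    have hy' : F y = R - 1 := hy
    have h2 : OC (dual z) (FI R) f y := h1.monoS fun v hv => hFle.1 hv.2
    exact ⟨y, hFe h2.right hy', h2⟩

theorem FI_sub_Sq (R : ℤ) : FI R ⊆ Sp580.Sq R := fun v hv => by
  rw [mem_FI] at hv
  rw [mem_Sq]
  omega

theorem locD_A2 (f : P2) (R : ℤ) : LocD (Sp580.Sq R) (A2 f R) := by
  have h1 : LocD (Sp580.Sq R) {z : Cf | Arm z (Sp580.Sq R) {v | sd (0, 0) v = R} (0, 0)} :=
    ⟨_, dep_A2P R, fun e he => (of_mem_edF he).1⟩
  have h2 : LocD (FI R) {z : Cf | Arm (dual z) (FI R) (FIb R) f} :=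
    ⟨_, dep_A2D f R, src_map fun e he => (of_mem_edF he).2⟩
  have h3 := h1.inter (h2.mono (FI_sub_Sq R))
  rw [Set.union_self] at h3
  exact h3

/-- the good event at one pair of radii -/
def Gsc (R a b : ℤ) : Set Cf := {z | ∀ w : P2, sd (0, 0) w = R → Gd z (Sp580.Sq R) w a b}

theorem sd_tri0 (v w : P2) : sd (0, 0) w ≤ sd (0, 0) v + sd w v := by
  have h := Kd458.sd_tri (0, 0) v w
  rw [Kd458.sd_symm v w] at h
  exact h

theorem locD_gsc (R a b : ℤ) : LocD {v | R - b ≤ sd (0, 0) v} (Gsc R a b) := by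
  refine ⟨edF (Sp580.Sq R ∩ {v | R - b ≤ sd (0, 0) v}), ?_, fun e he => (of_mem_edF he).1.2⟩
  intro z z' h
  refine forall_congr' fun w => forall_congr' fun hw => ?_
  have key : OC z (Sp580.Sq R ∩ An w a b) = OC z' (Sp580.Sq R ∩ An w a b) := by
    funext u v
    refine propext (oc_iff fun e h1 h2 => h e ?_)
    have aux : ∀ x : P2, x ∈ Sp580.Sq R ∩ An w a b →
        x ∈ Sp580.Sq R ∩ {v | R - b ≤ sd (0, 0) v} := by
      rintro x ⟨hx1, hx2⟩
      refine ⟨hx1, ?_⟩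
      rw [mem_An] at hx2
      have h3 := sd_tri0 x w
      show R - b ≤ sd (0, 0) x
      omega
    exact (mem_edF ((Sq_finite R).subset Set.inter_subset_left)).2 ⟨aux _ h1, aux _ h2⟩
  simp only [Gd, TT, Set.mem_ofPred_eq, key]

end Crest.Agent.R158.Sh158
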