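import Crest.Agent.R158.Hb0_656
import Crest.Agent.R158.Xr12_249

/-!
R158, S0237, BLOCK BL, leaf (B2), file 1 (helper279): connectedness of the shifted regions

* `Cn X` : any two tiles of `X` are joined inside `X` (4-connected paths)
* `cn_map`, `enlarge`, `retract` : generic tools
* `NoPinch F`
* `shD_conn0`, `shD_cc0` : `shD F H L δ` is connected, its complement is connected
-/

set_option autoImplicit false

noncomputable section

namespace Crest.Agent.R158.Sh279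

open Crest.Agent.R158.Xr249 (CPath)
open Crest.Agent.R158.Env664 (D Run Adj4 Mac mem_D div_iff)
open Crest.Agent.R158.Hb656

/-- any two tiles of `X` are joined inside `X` -/
def Cn (X : Set (ℤ × ℤ)) : Prop := ∀ a ∈ X, ∀ b ∈ X, CPath X a b

theorem cn_map {X Y : Set (ℤ × ℤ)} (s : ℤ × ℤ → ℤ × ℤ) (hX : Cn X)
    (hst : ∀ a b, Adj4 a b → a ∈ X → b ∈ X → CPath Y (s a) (s b))
    (hcov : ∀ c ∈ Y, ∃ a ∈ X, CPath Y c (s a)) : Cn Y := by
  intro c hc d hd
  obtain ⟨a, ha, h1⟩ := hcov c hc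
  obtain ⟨b, hb, h2⟩ := hcov d hd
  refine h1.trans (CPath.trans ?_ h2.symm)
  have h3 := hX a ha b hb
  clear h1 h2 hb
  induction h3 with
  | refl => exact .refl
  | @tail u v _ h4 ih => exact ih.trans (hst u v h4.1 h4.2.1 h4.2.2)

theorem enlarge {X N : Set (ℤ × ℤ)} (h : Cn X) (hN : ∀ c ∈ N, ∃ d ∈ X, Adj4 c d) : Cn (X ∪ N) := by
  refine cn_map id h (fun a b h1 h2 h3 => CPath.step h1 (Or.inl h2) (Or.inl h3)) ?_
  rintro c (hc | hc)
  · exact ⟨c, hc, .refl⟩
  · obtain ⟨d, hd, h1⟩ := hN c hc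
    exact ⟨d, hd, CPath.step h1 (Or.inr hc) (Or.inl hd)⟩

theorem adj_iff {x y x' y' : ℤ} : Adj4 (x, y) (x', y') ↔
    (x = x' ∧ (y' = y + 1 ∨ y = y' + 1)) ∨ (y = y' ∧ (x' = x + 1 ∨ x = x' + 1)) := Iff.rfl

theorem adj_cases {a b : ℤ × ℤ} (h : Adj4 a b) : b = (a.1 + 1, a.2) ∨ b = (a.1 - 1, a.2) ∨
    b = (a.1, a.2 + 1) ∨ b = (a.1, a.2 - 1) := by
  obtain ⟨x, y⟩ := a
  obtain ⟨x', y'⟩ := b
  simp only [Adj4, Prod.mk.injEq] at h ⊢
  omega

open Classical in
/-- tiles of `N` can be pushed one step in the direction `σ` -/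
theorem retract {X N : Set (ℤ × ℤ)} (σ : ℤ) (hσ : σ = 1 ∨ σ = -1) (h : Cn X)
    (h1 : ∀ x y, (x, y) ∈ N → (x, y) ∈ X → (x + σ, y) ∈ X \ N ∧ (x - σ, y) ∉ X)
    (h2 : ∀ x y y', (x, y) ∈ N → (x, y) ∈ X → (y' = y + 1 ∨ y' = y - 1) → (x, y') ∈ X \ N →
      (x + σ, y') ∈ X \ N) : Cn (X \ N) := by
  have A1 : ∀ x y : ℤ, Adj4 (x + σ, y) (x, y) := by
    intro x y; rw [adj_iff]; omega
  have A2 : ∀ x y y' : ℤ, (y' = y + 1 ∨ y' = y - 1) → Adj4 (x, y) (x, y') := by
    intro x y y' h; rw [adj_iff]; omega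
  refine cn_map (fun c => if c ∈ N then (c.1 + σ, c.2) else c) h ?_ ?_
  · -- steps
    have key : ∀ x y x' y', (x, y) ∈ X → (x', y') ∈ X → (x, y) ∈ N → (x', y') ∉ N →
        Adj4 (x, y) (x', y') → CPath (X \ N) (x + σ, y) (x', y') := by
      intro x y x' y' m1 m2 n1 n2 had
      obtain ⟨k1, k2⟩ := h1 x y n1 m1
      have hc : (x' = x + σ ∧ y' = y) ∨ (x' = x - σ ∧ y' = y) ∨ (x' = x ∧ (y' = y + 1 ∨ y' = y - 1)) := by
        rw [adj_iff] at had; omega
      rcases hc with ⟨rfl, rfl⟩ | ⟨rfl, rfl⟩ | ⟨rfl, hy⟩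
      · exact .refl
      · exact absurd m2 k2
      · have k3 := h2 x' y y' n1 m1 hy ⟨m2, n2⟩
        exact (CPath.step (A2 _ _ _ hy) k1 k3).trans (CPath.step (A1 _ _) k3 ⟨m2, n2⟩)
    rintro ⟨x, y⟩ ⟨x', y'⟩ had m1 m2
    by_cases n1 : (x, y) ∈ N <;> by_cases n2 : (x', y') ∈ N
    · simp only [if_pos n1, if_pos n2]
      have k1 := (h1 x y n1 m1).1
      have k2 := (h1 x' y' n2 m2).1
      refine CPath.step ?_ k1 k2
      rw [adj_iff] at had ⊢; omega
    · simp only [if_pos n1, if_neg n2]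
      exact key x y x' y' m1 m2 n1 n2 had
    · simp only [if_neg n1, if_pos n2]
      exact (key x' y' x y m2 m1 n2 n1 had.symm).symm
    · simp only [if_neg n1, if_neg n2]
      exact CPath.step had ⟨m1, n1⟩ ⟨m2, n2⟩
  · rintro c ⟨hc1, hc2⟩
    exact ⟨c, hc1, by simp only [if_neg hc2]; exact .refl⟩

/-- no two cells of `F` touch only at a vertex -/
structure NoPinch (F : Finset (ℤ × ℤ)) : Prop where
  ne : ∀ a b : ℤ, (a, b) ∈ F → (a + 1, b + 1) ∈ F → (a + 1, b) ∈ F ∨ (a, b + 1) ∈ F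
  nw : ∀ a b : ℤ, (a + 1, b) ∈ F → (a, b + 1) ∈ F → (a, b) ∈ F ∨ (a + 1, b + 1) ∈ F

/-- the macroscopic columns near `x` -/
theorem loc {L : ℤ} (hL : 8 ≤ L) (x : ℤ) : ∃ m U : ℤ,
    (∀ x', x - 3 ≤ x' → x' ≤ x + 3 → x' / L = if x' < U then m - 1 else m) ∧ U = m * L := by
  refine ⟨(x + 3) / L, (x + 3) / L * L, ?_, rfl⟩
  intro x' h1 h2
  have e := (div_iff (by omega : 0 < L) (x + 3) _).1 rfl
  split_ifs with h
  · rw [div_iff (by omega), sub_mul]; constructor <;> linarith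
  · rw [div_iff (by omega)]; constructor <;> linarith

/-! ### tile level facts -/

section tile

variable {F H : Finset (ℤ × ℤ)} {k i0 i1 L : ℤ} {up : Bool}

theorem DH_DF (h : Hang F H k i0 i1 up) (hL : 8 ≤ L) {t : ℤ × ℤ} (ht : t ∈ D H L) : t ∈ D F L := by
  rw [mem_D (by omega)] at ht ⊢
  exact h.sub ht

/-- tiles of `D F L` in the same row at distance at most `3` are both in `D H L` or both not -/
theorem hor3 (h : Hang F H k i0 i1 up) (hL : 8 ≤ L) {x x' y : ℤ} (h3 : x - 3 ≤ x') (h4 : x' ≤ x + 3)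
    (h1 : (x, y) ∈ D H L) (h2 : (x', y) ∈ D F L) : (x', y) ∈ D H L := by
  obtain ⟨m, U, hm, -⟩ := loc hL x
  have e1 := hm x (by omega) (by omega)
  have e2 := hm x' h3 h4
  rw [mem_D (by omega)] at h1 h2 ⊢
  simp only at h1 h2 ⊢
  rw [e1] at h1
  rw [e2] at h2 ⊢
  split_ifs at h1 h2 ⊢
  · exact h1
  · exact (h.hor (m - 1) (y / L) (Or.inr ⟨h2, by rwa [sub_add_cancel]⟩)).1
  · have := (h.hor (m - 1) (y / L) (Or.inl ⟨h1, by rwa [sub_add_cancel]⟩)).2
    rwa [sub_add_cancel] at this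
  · exact h1

/-- the column of `x` -/
theorem cols (hL : 8 ≤ L) (x : ℤ) {σ : ℤ} (hσ : σ = 1 ∨ σ = -1) :
    (x - σ) / L = x / L ∨ (x + σ) / L = x / L := by
  obtain ⟨m, U, hm, -⟩ := loc hL x
  have e0 := hm x (by omega) (by omega)
  have e1 := hm (x - σ) (by omega) (by omega)
  have e2 := hm (x + σ) (by omega) (by omega)
  rw [e0, e1, e2]
  split_ifs <;> omega

theorem cols2 (hL : 8 ≤ L) (x : ℤ) {σ : ℤ} (hσ : σ = 1 ∨ σ = -1) :
    (x - σ) / L = x / L ∨ (x + 2 * σ) / L = (x + σ) / L := by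
  obtain ⟨m, U, hm, -⟩ := loc hL x
  have e0 := hm x (by omega) (by omega)
  have e1 := hm (x - σ) (by omega) (by omega)
  have e2 := hm (x + σ) (by omega) (by omega)
  have e3 := hm (x + 2 * σ) (by omega) (by omega)
  rw [e0, e1, e2, e3]
  split_ifs <;> omega

theorem mem_col {G : Finset (ℤ × ℤ)} (hL : 8 ≤ L) {x x' y : ℤ} (h : x / L = x' / L) :
    (x, y) ∈ D G L ↔ (x', y) ∈ D G L := by
  rw [mem_D (by omega), mem_D (by omega)]
  simp only
  rw [h]

/-- the set of the tiles of `shD` -/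
def Sd (F H : Finset (ℤ × ℤ)) (L δ : ℤ) : Set (ℤ × ℤ) := {t | t ∈ shD F H L δ}

theorem mem_Sd {δ x y : ℤ} : (x, y) ∈ Sd F H L δ ↔
    ((x, y) ∈ D F L ∧ (x, y) ∉ D H L) ∨ (x - δ, y) ∈ D H L := mem_shD

theorem shD_zero (h : Hang F H k i0 i1 up) (hL : 8 ≤ L) : shD F H L 0 = D F L := by
  ext ⟨x, y⟩
  rw [mem_shD, sub_zero]
  constructor
  · rintro (h1 | h1)
    · exact h1.1
    · exact DH_DF h hL h1
  · intro h1
    by_cases h2 : (x, y) ∈ D H L
    · exact Or.inr h2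
    · exact Or.inl ⟨h1, h2⟩

open Classical in
/-- **`shD` is connected** -/
theorem shD_conn0 (h : Hang F H k i0 i1 up) (hL : 8 ≤ L) (hF : Cn {t | t ∈ D F L}) {σ : ℤ}
    (hσ : σ = 1 ∨ σ = -1) : Cn (Sd F H L σ) := by
  have P : ∀ {x y}, (x, y) ∈ D F L → (x, y) ∉ D H L → (x, y) ∈ Sd F H L σ :=
    fun h1 h2 => mem_Sd.2 (Or.inl ⟨h1, h2⟩)
  have Q : ∀ {x y}, (x, y) ∈ D H L → (x + σ, y) ∈ Sd F H L σ :=
    fun {x y} h1 => mem_Sd.2 (Or.inr (by rwa [add_sub_cancel_right]))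
  refine cn_map (fun c => if c ∈ D H L then (c.1 + σ, c.2) else c) hF ?_ ?_
  · have key : ∀ x y x' y', (x, y) ∈ D F L → (x', y') ∈ D F L → (x, y) ∈ D H L → (x', y') ∉ D H L →
        Adj4 (x, y) (x', y') → CPath (Sd F H L σ) (x + σ, y) (x', y') := by
      intro x y x' y' m1 m2 n1 n2 had
      rw [adj_iff] at had
      have hxx : x' = x := by
        by_contra hne
        have hy : y = y' := by omega
        subst hy
        exact n2 (hor3 h hL (x := x) (x' := x') (by omega) (by omega) n1 m2)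
      subst hxx
      rcases cols hL x' hσ with hc | hc
      · -- `x' - σ` in the same column
        have q : (x', y) ∈ Sd F H L σ := by
          rw [mem_Sd]
          exact Or.inr ((mem_col hL hc).2 n1)
        refine (CPath.step ?_ (Q n1) q).trans (CPath.step ?_ q (P m2 n2))
        · rw [adj_iff]; omega
        · rw [adj_iff]; omega
      · have q : (x' + σ, y') ∈ Sd F H L σ :=
          P ((mem_col hL hc).2 m2) (fun h' => n2 ((mem_col hL hc).1 h'))
        refine (CPath.step ?_ (Q n1) q).trans (CPath.step ?_ q (P m2 n2))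
        · rw [adj_iff]; omega
        · rw [adj_iff]; omega
    rintro ⟨x, y⟩ ⟨x', y'⟩ had m1 m2
    by_cases n1 : (x, y) ∈ D H L <;> by_cases n2 : (x', y') ∈ D H L
    · simp only [if_pos n1, if_pos n2]
      refine CPath.step ?_ (Q n1) (Q n2)
      rw [adj_iff] at had ⊢; omega
    · simp only [if_pos n1, if_neg n2]
      exact key x y x' y' m1 m2 n1 n2 had
    · simp only [if_neg n1, if_pos n2]
      exact (key x' y' x y m2 m1 n2 n1 had.symm).symm
    · simp only [if_neg n1, if_neg n2]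
      exact CPath.step had (P m1 n1) (P m2 n2)
  · rintro ⟨x, y⟩ hc
    rcases mem_Sd.1 hc with ⟨h1, h2⟩ | h1
    · exact ⟨(x, y), h1, by simp only [if_neg h2]; exact .refl⟩
    · refine ⟨(x - σ, y), DH_DF h hL h1, ?_⟩
      simp only [if_pos h1, sub_add_cancel]
      exact .refl

open Classical in
/-- **the complement of `shD` is connected** -/
theorem shD_cc0 (h : Hang F H k i0 i1 up) (hL : 8 ≤ L) (hF : Cn {t | t ∉ D F L}) {σ : ℤ}
    (hσ : σ = 1 ∨ σ = -1) : Cn (Sd F H L σ)ᶜ := by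
  have hne : ∀ {x y}, (x, y) ∉ D F L → (x, y) ∉ D H L := fun h1 h2 => h1 (DH_DF h hL h2)
  have mem : ∀ {x y}, ¬ ((x, y) ∈ D F L ∧ (x, y) ∉ D H L) → (x - σ, y) ∉ D H L →
      (x, y) ∈ (Sd F H L σ)ᶜ := by
    intro x y h1 h2 h3
    rcases mem_Sd.1 h3 with h4 | h4
    · exact h1 h4
    · exact h2 h4
  let near : ℤ × ℤ → Prop := fun c => (c.1 + 1, c.2) ∈ D H L ∨ (c.1 - 1, c.2) ∈ D H L ∨
    (c.1, c.2 + 1) ∈ D H L ∨ (c.1, c.2 - 1) ∈ D H L
  let sh : ℤ × ℤ → Prop := fun c => near c ∧ ¬ ((c.1 + σ, c.2) ∈ D F L ∧ (c.1 + σ, c.2) ∉ D H L)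
  -- shifted tiles
  have S1 : ∀ {x y}, (x, y) ∉ D F L → ¬ ((x + σ, y) ∈ D F L ∧ (x + σ, y) ∉ D H L) →
      (x + σ, y) ∈ (Sd F H L σ)ᶜ := by
    intro x y h1 h2
    refine mem h2 ?_
    rw [add_sub_cancel_right]
    exact hne h1
  -- tiles that are not shifted
  have S0 : ∀ {x y}, (x, y) ∉ D F L → ¬ sh (x, y) → (x, y) ∈ (Sd F H L σ)ᶜ := by
    intro x y h1 h2
    refine mem (fun h3 => h1 h3.1) fun h3 => h2 ⟨?_, ?_⟩
    · rcases hσ with rfl | rfl
      · exact Or.inr (Or.inl h3)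
      · exact Or.inl (by simpa using h3)
    · rintro ⟨h4, h5⟩
      exact h5 (hor3 h hL (x := x - σ) (by simp only; omega) (by simp only; omega) h3 h4)
  refine cn_map (fun c => if sh c then (c.1 + σ, c.2) else c) hF ?_ ?_
  · have key : ∀ x y x' y', (x, y) ∉ D F L → (x', y') ∉ D F L → sh (x, y) → ¬ sh (x', y') →
        Adj4 (x, y) (x', y') → CPath (Sd F H L σ)ᶜ (x + σ, y) (x', y') := by
      intro x y x' y' m1 m2 n1 n2 had
      rw [adj_iff] at had
      by_cases hp : (x' + σ, y') ∈ D F L ∧ (x' + σ, y') ∉ D H L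
      · have q : (x, y) ∈ (Sd F H L σ)ᶜ := by
          refine mem (fun h3 => m1 h3.1) fun h3 => ?_
          by_cases hy : y = y'
          · subst hy
            exact hp.2 (hor3 h hL (x := x - σ) (by omega) (by omega) h3 hp.1)
          · have hx : x = x' := by omega
            subst hx
            rcases cols hL x hσ with hc | hc
            · exact m1 (DH_DF h hL ((mem_col hL hc).1 h3))
            · exact m2 ((mem_col hL hc).1 hp.1)
        refine (CPath.step ?_ (S1 m1 n1.2) q).trans (CPath.step ?_ q (S0 m2 n2))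
        · rw [adj_iff]; omega
        · rw [adj_iff]; omega
      · have q := S1 m2 hp
        refine (CPath.step ?_ (S1 m1 n1.2) q).trans (CPath.step ?_ q (S0 m2 n2))
        · rw [adj_iff]; omega
        · rw [adj_iff]; omega
    rintro ⟨x, y⟩ ⟨x', y'⟩ had m1 m2
    by_cases n1 : sh (x, y) <;> by_cases n2 : sh (x', y')
    · simp only [if_pos n1, if_pos n2]
      refine CPath.step ?_ (S1 m1 n1.2) (S1 m2 n2.2)
      rw [adj_iff] at had ⊢; omega
    · simp only [if_pos n1, if_neg n2]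
      exact key x y x' y' m1 m2 n1 n2 had
    · simp only [if_neg n1, if_pos n2]
      exact (key x' y' x y m2 m1 n2 n1 had.symm).symm
    · simp only [if_neg n1, if_neg n2]
      exact CPath.step had (S0 m1 n1) (S0 m2 n2)
  · rintro ⟨x, y⟩ hc
    by_cases h1 : (x, y) ∈ D F L
    · have h2 : (x, y) ∈ D H L := by
        by_contra h3
        exact hc (mem_Sd.2 (Or.inl ⟨h1, h3⟩))
      have h3 : (x - σ, y) ∉ D H L := fun h3 => hc (mem_Sd.2 (Or.inr h3))
      have h4 : (x - σ, y) ∉ D F L := fun h4 => h3 (hor3 h hL (by omega) (by omega) h2 h4)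
      refine ⟨(x - σ, y), h4, ?_⟩
      have h5 : sh (x - σ, y) := by
        refine ⟨?_, ?_⟩
        · rcases hσ with rfl | rfl
          · refine Or.inl ?_
            simpa using h2
          · refine Or.inr (Or.inl ?_)
            simpa using h2
        · simp only [sub_add_cancel]
          exact fun h6 => h6.2 h2
      simp only [if_pos h5, sub_add_cancel]
      exact .refl
    · refine ⟨(x, y), h1, ?_⟩
      by_cases h2 : sh (x, y)
      · simp only [if_pos h2]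
        refine CPath.step ?_ hc (S1 h1 h2.2)
        rw [adj_iff]; omega
      · simp only [if_neg h2]
        exact .refl

end tile

end Crest.Agent.R158.Sh279
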