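import Crest.Agent.R158.Sh1_158

/-!
# Row 158, Block SEP2 (helper158), part 2: cells from points, cover, one step

* `kp n N x` : cell of the ring `N - 1` containing the point `x` of the sphere of radius `N n`
* `a2_cover` : `A2 f R ∩ Good ⊆ ⋃ U2 f R n (cl w) (cl w')`
* `a2_step` : `P(A2 f R ∩ Good) ≤ K P(Nice2 f (c n))`
-/

set_option autoImplicit false

noncomputable section

namespace Crest.Agent.R158.Sh158

open MeasureTheory ProbabilityTheory unitInterval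
open Crest.Agent.R161.Geo729 Crest.Agent.R161.Topo374 Crest.Agent.R161.Dual374
open Crest.Agent.R161.Tas682 hiding Sq
open Crest.Agent.R158.Rs689 Crest.Agent.R158.Sp580 Crest.Agent.R158.Sb689 Crest.Agent.R158.Sg158
open Crest.Agent.R158.Ru874 hiding An
open Crest.Agent.R158.Cpl963 (An mem_An)
open Crest.Agent.R158.Kd458 (Gd)
open Crest.Agent.R158.Sq200 (BdV)
open Crest.Agent.R158.Sp874 (nr cl FarN)

/-! ### cells from points -/

/-- the cell of a point of the closed ball of radius `N n` -/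
def kp (n : ℕ) (N : ℤ) (x : P2) : P2 := (min (x.1 / n) (N - 1), min (x.2 / n) (N - 1))

section kp

variable {n : ℕ} (hn : 1 ≤ n) {N : ℤ}
include hn

theorem kp_one {a : ℤ} (ha : -(N * n) ≤ a) (ha' : a ≤ N * n) :
    min (a / n) (N - 1) * n ≤ a ∧ a ≤ min (a / n) (N - 1) * n + n ∧
      (N ≥ 1 → -N ≤ min (a / n) (N - 1)) ∧
      min (a / n) (N - 1) ≤ N - 1 ∧ (a = N * n → min (a / n) (N - 1) = N - 1) ∧
      (a = -(N * n) → N ≥ 1 → min (a / n) (N - 1) = -N) := by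
  have hn0 : (0 : ℤ) < n := by exact_mod_cast hn
  have h1 := Int.emod_nonneg a hn0.ne'
  have h2 := Int.emod_lt_of_pos a hn0
  have h3 := Int.mul_ediv_add_emod a n
  set q := a / (n : ℤ) with hq
  have h4 : q * n ≤ a := by linarith [mul_comm (n : ℤ) q]
  have h5 : a < q * n + n := by linarith [mul_comm (n : ℤ) q]
  have h6 : -N ≤ q := by
    by_contra h
    push Not at h
    have : (q + 1) * (n : ℤ) ≤ -N * n := mul_le_mul_of_nonneg_right (by omega) hn0.le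
    linarith
  have h7 : q ≤ N := by
    by_contra h
    push Not at h
    have : (N + 1) * (n : ℤ) ≤ q * n := mul_le_mul_of_nonneg_right (by omega) hn0.le
    linarith
  rcases le_or_gt q (N - 1) with h8 | h8
  · rw [min_eq_left h8]
    refine ⟨h4, h5.le, fun _ => h6, h8, fun h9 => ?_, fun h9 _ => ?_⟩
    · exfalso
      have : q * (n : ℤ) ≤ (N - 1) * n := mul_le_mul_of_nonneg_right h8 hn0.le
      linarith
    · have : q ≤ -N := by
        by_contra h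
        push Not at h
        have : (-N + 1) * (n : ℤ) ≤ q * n := mul_le_mul_of_nonneg_right (by omega) hn0.le
        linarith
      omega
  · have h9 : q = N := by omega
    rw [min_eq_right (by omega)]
    have h10 : (N - 1) * (n : ℤ) = N * n - n := by ring
    rw [h9] at h4
    rw [h10]
    refine ⟨by linarith, by linarith, fun _ => by omega, le_rfl, fun _ => rfl, fun h11 h12 => ?_⟩
    exfalso
    have : (0 : ℤ) < N * n := by positivity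
    linarith

theorem kp_mem {x : P2} (hx : x ∈ Sp580.Sq (N * n)) :
    (kp n N x).1 * n ≤ x.1 ∧ x.1 ≤ (kp n N x).1 * n + n ∧ (kp n N x).2 * n ≤ x.2 ∧
      x.2 ≤ (kp n N x).2 * n + n := by
  rw [mem_Sq] at hx
  obtain ⟨h1, h2, -⟩ := kp_one hn (N := N) hx.1 hx.2.1
  obtain ⟨h3, h4, -⟩ := kp_one hn (N := N) hx.2.2.1 hx.2.2.2
  exact ⟨h1, h2, h3, h4⟩

theorem kp_nr (hN : 1 ≤ N) {x : P2} (hx : sd (0, 0) x = N * n) : nr (kp n N x) = N - 1 := by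
  have h0 : x ∈ Sp580.Sq (N * n) := sd0_le.1 hx.le
  have h0' := h0
  rw [mem_Sq] at h0
  obtain ⟨h1, h2, h3, h4, h5, h6⟩ := kp_one hn (N := N) h0.1 h0.2.1
  obtain ⟨g1, g2, g3, g4, g5, g6⟩ := kp_one hn (N := N) h0.2.2.1 h0.2.2.2
  replace h3 := h3 hN
  replace g3 := g3 hN
  have h7 : x.1 = N * n ∨ x.1 = -(N * n) ∨ x.2 = N * n ∨ x.2 = -(N * n) := by
    by_contra hc
    push Not at hc
    have : sd (0, 0) x ≤ N * n - 1 := by
      rw [sd0_le]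
      omega
    omega
  unfold nr
  show max (max (min (x.1 / n) (N - 1)) (-1 - min (x.1 / n) (N - 1)))
    (max (min (x.2 / n) (N - 1)) (-1 - min (x.2 / n) (N - 1))) = N - 1
  generalize min (x.1 / (n : ℤ)) (N - 1) = a at *
  generalize min (x.2 / (n : ℤ)) (N - 1) = b at *
  rcases h7 with h7 | h7 | h7 | h7
  · have := h5 h7
    omega
  · have := h6 h7 hN
    omega
  · have := g5 h7
    omega
  · have := g6 h7 hN
    omega

theorem kp_blk {x v : P2} (hx : x ∈ Sp580.Sq (N * n)) (hv : v ∈ Bk n (kp n N x) 8) :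
    sd x v ≤ 9 * n := by
  obtain ⟨h1, h2, h3, h4⟩ := kp_mem hn hx
  rw [mem_Bk] at hv
  obtain ⟨g1, g2, g3, g4⟩ := hv
  unfold sd
  rw [max_le_iff, abs_le, abs_le]
  refine ⟨⟨?_, ?_⟩, ?_, ?_⟩ <;> linarith

theorem kp_near {x v : P2} (hx : x ∈ Sp580.Sq (N * n)) (hv : sd v x ≤ 1) :
    v ∈ Bk n (kp n N x) 1 := by
  have hn' : (1 : ℤ) ≤ n := by exact_mod_cast hn
  obtain ⟨h1, h2, h3, h4⟩ := kp_mem hn hx
  unfold sd at hv
  rw [max_le_iff, abs_le, abs_le] at hv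
  rw [mem_Bk]
  refine ⟨?_, ?_, ?_, ?_⟩ <;> linarith [hv.1.1, hv.1.2, hv.2.1, hv.2.2]

theorem kp_far {x y : P2} (hx : x ∈ Sp580.Sq (N * n)) (hy : y ∈ Sp580.Sq (N * n)) {g : ℤ}
    (h : (g + 1) * n ≤ sd x y) : FarN g (kp n N x) (kp n N y) := by
  have hn0 : (0 : ℤ) < n := by exact_mod_cast hn
  obtain ⟨h1, h2, h3, h4⟩ := kp_mem hn hx
  obtain ⟨g1, g2, g3, g4⟩ := kp_mem hn hy
  have key : ∀ a b : ℤ, a * n + g * n ≤ b * n → a + g ≤ b := by
    intro a b hab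
    have : (a + g) * (n : ℤ) ≤ b * n := by linarith
    exact le_of_mul_le_mul_right this hn0
  unfold sd at h
  rw [le_max_iff, le_abs, le_abs] at h
  unfold FarN
  rcases h with (h | h) | (h | h)
  · exact Or.inl (key _ _ (by linarith))
  · exact Or.inr (Or.inl (key _ _ (by linarith)))
  · exact Or.inr (Or.inr (Or.inl (key _ _ (by linarith))))
  · exact Or.inr (Or.inr (Or.inr (key _ _ (by linarith))))

end kp

/-- ring coordinates of two far cells of a ring -/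
theorem two_coord {N g : ℤ} (hN : 1 ≤ N) {k k' : P2} (hk : nr k = N - 1) (hk' : nr k' = N - 1)
    (h : FarN g k k') : ∃ w w' : ℤ, k = cl (N - 1) w ∧ k' = cl (N - 1) w' ∧
      w ∈ Finset.Ico (-(N - 1)) (-(N - 1) + 4 * (2 * (N - 1) + 1)) ∧
      w' ∈ Finset.Ico (-(N - 1)) (-(N - 1) + 8 * (2 * (N - 1) + 1)) ∧
      w + g ≤ w' ∧ w' + g ≤ w + 4 * (2 * (N - 1) + 1) := by
  obtain ⟨w, a1, a2, a3⟩ := Sp874.exists_cl k
  obtain ⟨w', b1, b2, b3⟩ := Sp874.exists_cl k'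
  rw [hk] at a1 a2 a3
  rw [hk'] at b1 b2 b3
  have hj : 0 ≤ N - 1 := by omega
  rw [a3, b3] at h
  rcases le_total w w' with h1 | h1
  · obtain ⟨h2, h3⟩ := Sp874.sep_of_far hj h1 (by omega) h
    refine ⟨w, w', a3, b3, ?_, ?_, h2, h3⟩ <;> rw [Finset.mem_Ico] <;> omega
  · have h' : FarN g (cl (N - 1) w) (cl (N - 1) (w' + 4 * (2 * (N - 1) + 1))) := by
      rw [Sp874.cl_period hj]
      exact h
    obtain ⟨h2, h3⟩ := Sp874.sep_of_far hj (by omega) (by omega) h'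
    refine ⟨w, w' + 4 * (2 * (N - 1) + 1), a3, by rw [Sp874.cl_period hj]; exact b3, ?_, ?_,
      h2, h3⟩ <;> rw [Finset.mem_Ico] <;> omega

/-! ### the cover -/

theorem bdv_of_sd {R : ℤ} {x : P2} (hx : sd (0, 0) x = R) :
    x ∈ Rect (-R) R (-R) R ∧ BdV (-R) R (-R) R x := by
  have h0 : x ∈ Sp580.Sq R := sd0_le.1 hx.le
  refine ⟨h0, ?_⟩
  rw [mem_Sq] at h0
  by_contra hc
  unfold BdV at hc
  push Not at hc
  have : sd (0, 0) x ≤ R - 1 := by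
    rw [sd0_le]
    omega
  omega

theorem sd_of_bdv {R : ℤ} {x : P2} (h0 : x ∈ Rect (-R) R (-R) R) (h : BdV (-R) R (-R) R x) :
    sd (0, 0) x = R := by
  rw [mem_rect] at h0
  unfold BdV at h
  refine le_antisymm (sd0_le.2 h0) ?_
  unfold sd
  simp only [sub_zero]
  rw [le_max_iff, le_abs, le_abs]
  omega

theorem a2_cover {f : P2} (hf : Nr f) {n N : ℕ} (hn : 1 ≤ n) (hN : 1 ≤ N) {t r s c : ℤ}
    (h1 : 9 * (n : ℤ) < t) (h2 : t ≤ r) (h3 : r + 1 ≤ s) (h4 : s ≤ c) (h5 : c + 1 < N * n)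
    (h6 : 53 * (n : ℤ) + 1 ≤ s) {z : Cf} (hz : z ∈ A2 f (N * n))
    (g1 : z ∈ Gsc (N * n) s c) (g2 : z ∈ Gsc (N * n) t r) :
    ∃ w w' : ℤ, w ∈ Finset.Ico (-((N : ℤ) - 1)) (-((N : ℤ) - 1) + 4 * (2 * ((N : ℤ) - 1) + 1)) ∧
      w' ∈ Finset.Ico (-((N : ℤ) - 1)) (-((N : ℤ) - 1) + 8 * (2 * ((N : ℤ) - 1) + 1)) ∧
      (w + 52 ≤ w' ∧ w' + 52 ≤ w + 4 * (2 * ((N : ℤ) - 1) + 1)) ∧
      z ∈ U2 f (N * n) n (cl ((N : ℤ) - 1) w) (cl ((N : ℤ) - 1) w') := by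
  have hn' : (1 : ℤ) ≤ n := by exact_mod_cast hn
  have hN' : (1 : ℤ) ≤ N := by exact_mod_cast hN
  obtain ⟨⟨x, hx, hzx⟩, ⟨g, hg, hzg⟩⟩ := hz
  have hx0 : sd (0, 0) x = N * n := hx
  obtain ⟨hxB, hbx⟩ := bdv_of_sd hx0
  have hgb : BdV (-((N : ℤ) * n)) ((N : ℤ) * n - 1) (-((N : ℤ) * n)) ((N : ℤ) * n - 1) g := hg.2
  have hfx : c < sd x f := by
    have e1 := Kd458.sd_tri (0, 0) f x
    have e2 : sd (0, 0) f ≤ 1 := by
      rw [sd0_le]
      obtain ⟨q1, q2, q3, q4⟩ := hf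
      omega
    rw [Kd458.sd_symm f x] at e1
    omega
  obtain ⟨f', w', hf'R, hbf', hw'B, hbw', hfw', hxf', o1, o2⟩ := Ce679.core2 hxB hbx hzx hgb hzg
    (t := t) (r := r) (s := s) (c := c) (by omega) h2 h3 h4 hfx (g1 x hx0)
    (fun w hw hbw => by
      rw [Kd458.sd_symm, sd_of_bdv hw hbw]
      omega)
    (fun w hw hbw => g2 w (sd_of_bdv hw hbw))
  have hw'0 := sd_of_bdv hw'B hbw'
  have hxS : x ∈ Sp580.Sq (N * n) := hxB
  have hw'S : w' ∈ Sp580.Sq (N * n) := hw'B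
  have hfar : FarN 52 (kp n N x) (kp n N w') := by
    refine kp_far hn hxS hw'S ?_
    have e1 := Kd458.sd_tri x w' f'
    rw [Kd458.sd_symm w' f'] at e1
    have e2 : (52 + 1) * (n : ℤ) = 53 * n := by ring
    rw [e2]
    omega
  obtain ⟨w, v, c1, c2, c3, c4, c5, c6⟩ := two_coord hN' (kp_nr hn hN' hx0)
    (kp_nr hn hN' hw'0) hfar
  refine ⟨w, v, c3, c4, ⟨c5, c6⟩, ?_⟩
  rw [← c1, ← c2]
  refine ⟨⟨x, kp_near hn hxS (by rw [Kd458.sd_self]; norm_num), o2.monoS ?_⟩,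
    ⟨f', kp_near hn hw'S hfw', o1.monoS ?_⟩⟩
  · rintro u ⟨hu1, hu2⟩
    refine ⟨hu1, fun hu3 => ?_⟩
    have := kp_blk hn hw'S hu3
    have hu2' : t ≤ sd w' u := hu2
    omega
  · rintro u ⟨hu1, hu2⟩
    refine ⟨FI_sub _ hu1, fun hu3 => ?_⟩
    have := kp_blk hn hxS hu3
    have hu2' : s ≤ sd x u := hu2
    omega

/-- **One step**, the good part -/
theorem a2_step {f : P2} (hf : Nr f) {N q : ℕ} (hN : 21 ≤ N) (hq : N + 203 ≤ 16 * q) {n : ℕ}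
    (hn : 2 ≤ n) {c0 : ℝ} {p : I} (hp : RSp c0 p n) {t r s c : ℤ}
    (h1 : 9 * (n : ℤ) < t) (h2 : t ≤ r) (h3 : r + 1 ≤ s) (h4 : s ≤ c) (h5 : c + 1 < N * n)
    (h6 : 53 * (n : ℤ) + 1 ≤ s) :
    (nu p).real (A2 f (N * n) ∩ (Gsc (N * n) s c ∩ Gsc (N * n) t r)) ≤
      128 * N ^ 2 / c0 ^ (4 * (52 * q + 2) ^ 2) * (nu p).real (Nice2 f (q * n)) := by
  classical
  have hc0 : 0 < c0 := hp.1
  have hcB : 0 < c0 ^ (4 * (52 * q + 2) ^ 2) := pow_pos hc0 _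
  set I1 := Finset.Ico (-((N : ℤ) - 1)) (-((N : ℤ) - 1) + 4 * (2 * ((N : ℤ) - 1) + 1)) with hI1
  set I2 := Finset.Ico (-((N : ℤ) - 1)) (-((N : ℤ) - 1) + 8 * (2 * ((N : ℤ) - 1) + 1)) with hI2
  set J := (I1 ×ˢ I2).filter fun w : ℤ × ℤ =>
    w.1 + 52 ≤ w.2 ∧ w.2 + 52 ≤ w.1 + 4 * (2 * ((N : ℤ) - 1) + 1) with hJ
  have hsub : A2 f (N * n) ∩ (Gsc (N * n) s c ∩ Gsc (N * n) t r) ⊆
      ⋃ w ∈ J, U2 f (N * n) n (cl ((N : ℤ) - 1) w.1) (cl ((N : ℤ) - 1) w.2) := by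
    rintro z ⟨hz, g1, g2⟩
    obtain ⟨w, w', e1, e2, e3, e4⟩ := a2_cover hf (by omega : 1 ≤ n) (by omega : 1 ≤ N) h1 h2 h3 h4
      h5 h6 hz g1 g2
    rw [Set.mem_iUnion₂]
    exact ⟨(w, w'), Finset.mem_filter.2 ⟨Finset.mem_product.2 ⟨e1, e2⟩, e3⟩, e4⟩
  have hcard : (J.card : ℝ) ≤ 128 * N ^ 2 := by
    have e1 : J.card ≤ I1.card * I2.card :=
      (Finset.card_filter_le _ _).trans (by rw [Finset.card_product])
    have e2 : I1.card ≤ 8 * N := by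
      rw [hI1, Int.card_Ico]
      omega
    have e3 : I2.card ≤ 16 * N := by
      rw [hI2, Int.card_Ico]
      omega
    have e4 : J.card ≤ (8 * N) * (16 * N) := e1.trans (Nat.mul_le_mul e2 e3)
    calc (J.card : ℝ) ≤ (((8 * N) * (16 * N) : ℕ) : ℝ) := by exact_mod_cast e4
      _ = 128 * (N : ℝ) ^ 2 := by push_cast; ring
  have hterm : ∀ w ∈ J, (nu p).real (U2 f (N * n) n (cl ((N : ℤ) - 1) w.1)
      (cl ((N : ℤ) - 1) w.2)) ≤
      1 / c0 ^ (4 * (52 * q + 2) ^ 2) * (nu p).real (Nice2 f (q * n)) := by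
    intro w hw
    have h7 := (Finset.mem_filter.1 hw).2
    have h8 := glue_in2 hN hq hn hp hf h7.1 h7.2
    rw [one_div, ← div_eq_inv_mul, le_div_iff₀ hcB, mul_comm]
    exact h8
  calc (nu p).real (A2 f (N * n) ∩ (Gsc (N * n) s c ∩ Gsc (N * n) t r))
      ≤ (nu p).real (⋃ w ∈ J, U2 f (N * n) n (cl ((N : ℤ) - 1) w.1) (cl ((N : ℤ) - 1) w.2)) :=
        measureReal_mono hsub (measure_ne_top _ _)
    _ ≤ ∑ w ∈ J, (nu p).real (U2 f (N * n) n (cl ((N : ℤ) - 1) w.1) (cl ((N : ℤ) - 1) w.2)) :=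
        measureReal_biUnion_finset_le _ _
    _ ≤ ∑ _w ∈ J, 1 / c0 ^ (4 * (52 * q + 2) ^ 2) * (nu p).real (Nice2 f (q * n)) :=
        Finset.sum_le_sum hterm
    _ = J.card * (1 / c0 ^ (4 * (52 * q + 2) ^ 2) * (nu p).real (Nice2 f (q * n))) := by
        rw [Finset.sum_const, nsmul_eq_mul]
    _ ≤ 128 * N ^ 2 * (1 / c0 ^ (4 * (52 * q + 2) ^ 2) * (nu p).real (Nice2 f (q * n))) :=
        mul_le_mul_of_nonneg_right hcard (by positivity)
    _ = _ := by ring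

end Crest.Agent.R158.Sh158
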