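import Crest.Agent.R158.Sh1_279

/-!
R158, S0237, BLOCK BL, leaf (B2), file 2 (helper279): layers and notches

* `shD_cn`, `shD_cc` : `shD F H L δ`, `|δ| ≤ 1`, is connected, complement connected
* `lay_cn`, `lay_cc` : the same for `shD F H L δ ∪ S`, `S ⊆ RL F H L δ` or `S ⊆ LL F H L δ`
* `notch_cn`, `notch_cc` : the same for `shD F H L δ \ N`, `N` any set of right wall tiles of the part
  that is not moved
-/

set_option autoImplicit false

noncomputable section

namespace Crest.Agent.R158.Sh279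

open Crest.Agent.R158.Xr249 (CPath)
open Crest.Agent.R158.Env664 (D Run Adj4 Mac mem_D div_iff)
open Crest.Agent.R158.Hb656

section lay

variable {F H : Finset (ℤ × ℤ)} {k i0 i1 L : ℤ} {up : Bool}

theorem Sd_zero (h : Hang F H k i0 i1 up) (hL : 8 ≤ L) : Sd F H L 0 = {t | t ∈ D F L} := by
  ext t; simp only [Sd, shD_zero h hL]

theorem shD_cn (h : Hang F H k i0 i1 up) (hL : 8 ≤ L) (hF : Cn {t | t ∈ D F L}) {δ : ℤ}
    (hδ : δ = 0 ∨ δ = 1 ∨ δ = -1) : Cn (Sd F H L δ) := by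
  rcases hδ with rfl | hδ
  · rw [Sd_zero h hL]; exact hF
  · exact shD_conn0 h hL hF hδ

theorem shD_cc (h : Hang F H k i0 i1 up) (hL : 8 ≤ L) (hF : Cn {t | t ∉ D F L}) {δ : ℤ}
    (hδ : δ = 0 ∨ δ = 1 ∨ δ = -1) : Cn (Sd F H L δ)ᶜ := by
  rcases hδ with rfl | hδ
  · rw [Sd_zero h hL]; exact hF
  · exact shD_cc0 h hL hF hδ

/-- outward layer in the direction `σ` -/
def Lay (F H : Finset (ℤ × ℤ)) (L δ σ : ℤ) : Set (ℤ × ℤ) :=
  {t | (t.1 - σ - δ, t.2) ∈ D H L ∧ (t.1 - δ, t.2) ∉ D F L}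

theorem RL_Lay {δ : ℤ} {t : ℤ × ℤ} (h : t ∈ RL F H L δ) : t ∈ Lay F H L δ 1 := mem_RL.1 h

theorem LL_Lay {δ : ℤ} {t : ℤ × ℤ} (h : t ∈ LL F H L δ) : t ∈ Lay F H L δ (-1) := by
  have := mem_LL.1 h
  refine ⟨?_, this.2⟩
  rw [sub_neg_eq_add]
  exact this.1

/-- no pinch at tile level -/
theorem pinch (np : NoPinch F) (hL : 8 ≤ L) {σ x y y' : ℤ} (hσ : σ = 1 ∨ σ = -1)
    (hy : y' = y + 1 ∨ y' = y - 1) (h1 : (x, y) ∈ D F L) (h2 : (x + σ, y) ∉ D F L)
    (h3 : (x, y') ∉ D F L) (h4 : (x + σ, y') ∈ D F L) : False := by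
  rw [mem_D (by omega)] at h1 h2 h3 h4
  simp only at h1 h2 h3 h4
  -- the two columns and the two rows
  have hc : ∀ z s : ℤ, (s = 1 ∨ s = -1) → (z + s) / L = z / L ∨ (z + s) / L = z / L + s := by
    intro z s hs
    obtain ⟨m, U, hm, -⟩ := loc hL z
    rw [hm z (by omega) (by omega), hm (z + s) (by omega) (by omega)]
    split_ifs <;> omega
  have c1 : (x + σ) / L = x / L + σ := by
    rcases hc x σ hσ with h | h
    · rw [h] at h2; exact absurd h1 h2
    · exact h
  have hy' : y' = y + (y' - y) := by ring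
  have c2 : y' / L = y / L + (y' - y) := by
    rcases hc y (y' - y) (by omega) with h | h
    · rw [← hy'] at h; rw [h] at h3; exact absurd h1 h3
    · rw [← hy'] at h; exact h
  rw [c1] at h2 h4
  rw [c2] at h3 h4
  generalize x / L = m at *
  generalize y / L = n at *
  rcases hσ with rfl | rfl <;> rcases hy with rfl | rfl
  · have e : y + 1 - y = 1 := by ring
    rw [e] at h3 h4
    rcases np.ne m n h1 h4 with h | h
    · exact h2 h
    · exact h3 h
  · have e : y - 1 - y = -1 := by ring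
    rw [e] at h3 h4
    have := np.nw m (n - 1)
    rw [sub_add_cancel] at this
    rcases this h4 h1 with h | h
    · exact h3 h
    · exact h2 h
  · have e : y + 1 - y = 1 := by ring
    rw [e] at h3 h4
    have := np.nw (m - 1) n
    rw [sub_add_cancel] at this
    rcases this h1 h4 with h | h
    · exact h2 h
    · exact h3 h
  · have e : y - 1 - y = -1 := by ring
    rw [e] at h3 h4
    have := np.ne (m - 1) (n - 1)
    rw [sub_add_cancel, sub_add_cancel] at this
    rcases this h4 h1 with h | h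
    · exact h3 h
    · exact h2 h

theorem lay_cn {δ σ : ℤ} {N : Set (ℤ × ℤ)} (hN : N ⊆ Lay F H L δ σ) (hσ : σ = 1 ∨ σ = -1)
    (hc : Cn (Sd F H L δ)) : Cn (Sd F H L δ ∪ N) := by
  refine enlarge hc ?_
  rintro ⟨x, y⟩ hx
  refine ⟨(x - σ, y), mem_Sd.2 (Or.inr (hN hx).1), ?_⟩
  rw [adj_iff]; omega

theorem lay_cc (h : Hang F H k i0 i1 up) (np : NoPinch F) (hL : 8 ≤ L) {δ σ : ℤ} {N : Set (ℤ × ℤ)}
    (hN : N ⊆ Lay F H L δ σ) (hσ : σ = 1 ∨ σ = -1) (hδ : δ = 0 ∨ δ = 1 ∨ δ = -1)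
    (hc : Cn (Sd F H L δ)ᶜ) : Cn (Sd F H L δ ∪ N)ᶜ := by
  rw [Set.compl_union]
  rw [← Set.sdiff_eq]
  have hne : ∀ {x y}, (x, y) ∉ D F L → (x, y) ∉ D H L := fun h1 h2 => h1 (DH_DF h hL h2)
  have mem : ∀ {x y}, ¬ ((x, y) ∈ D F L ∧ (x, y) ∉ D H L) → (x - δ, y) ∉ D H L → (x, y) ∉ N →
      (x, y) ∈ (Sd F H L δ)ᶜ \ N := by
    intro x y h1 h2 h4
    refine ⟨fun h3 => ?_, h4⟩
    rcases mem_Sd.1 h3 with h4 | h4
    · exact h1 h4
    · exact h2 h4
  -- columns
  have col : ∀ {x y}, (x, y) ∈ N → (x - δ - σ) / L ≠ (x - δ) / L := by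
    intro x y hx h1
    obtain ⟨h2, h3⟩ := hN hx
    simp only at h2 h3
    refine h3 (DH_DF h hL ((mem_col hL ?_).1 h2))
    rw [← h1]
    congr 1; ring
  refine retract σ hσ hc ?_ ?_
  · intro x y hx hx'
    obtain ⟨h2, h3⟩ := hN hx
    simp only at h2 h3
    have hcol := col hx
    have hcol2 : (x - δ + σ) / L = (x - δ) / L := by
      rcases cols hL (x - δ) hσ with h4 | h4
      · exact absurd h4 hcol
      · exact h4
    refine ⟨mem ?_ ?_ ?_, ?_⟩
    · rintro ⟨h4, h5⟩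
      exact h5 (hor3 h hL (x := x - σ - δ) (by omega) (by omega) h2 h4)
    · intro h4
      refine h3 (DH_DF h hL ((mem_col hL ?_).1 h4))
      rw [← hcol2]
      congr 1; ring
    · intro h4
      have h5 := (hN h4).1
      simp only [add_sub_cancel_right] at h5
      exact hne h3 h5
    · rw [Set.mem_compl_iff, not_not]
      exact mem_Sd.2 (Or.inr h2)
  · rintro x y y' hx hx' hy ⟨m1, m2⟩
    obtain ⟨h2, h3⟩ := hN hx
    simp only at h2 h3
    have hcol := col hx
    have hcol2 : (x - δ + σ) / L = (x - δ) / L := by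
      rcases cols hL (x - δ) hσ with h4 | h4
      · exact absurd h4 hcol
      · exact h4
    have q1 : (x - δ, y') ∉ D H L := fun h4 => m1 (mem_Sd.2 (Or.inr h4))
    have q2 : (x, y') ∈ D F L → (x, y') ∈ D H L := by
      intro h4
      by_contra h5
      exact m1 (mem_Sd.2 (Or.inl ⟨h4, h5⟩))
    refine mem ?_ ?_ ?_
    · rintro ⟨h4, h5⟩
      have h6 : (x, y') ∉ D F L := fun h6 => h5 (hor3 h hL (by omega) (by omega) (q2 h6) h4)
      -- the columns of `x` and `x + σ` are different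
      have h7 : (x + σ) / L ≠ x / L := fun h7 => h6 ((mem_col hL h7).1 h4)
      have h8 : δ = -σ := by
        have c1 := cols2 hL (x - δ) hσ
        rcases hδ with rfl | hδ
        · rw [sub_zero] at hcol2
          exact absurd hcol2 h7
        · by_contra h8
          have h9 : δ = σ := by omega
          subst h9
          rcases c1 with c1 | c1
          · exact hcol c1
          · refine h7 ?_
            have e1 : x - δ + 2 * δ = x + δ := by ring
            have e2 : x - δ + δ = x := by ring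
            rw [e1, e2] at c1
            exact c1
      subst h8
      -- now `x - δ = x + σ`
      have e1 : x - σ - -σ = x := by ring
      have e2 : x - -σ = x + σ := by ring
      rw [e1] at h2
      rw [e2] at h3
      exact pinch np hL hσ hy (DH_DF h hL h2) h3 h6 h4
    · intro h4
      refine q1 ((mem_col hL ?_).1 h4)
      rw [← hcol2]
      congr 1; ring
    · intro h4
      obtain ⟨h5, h6⟩ := hN h4
      simp only at h5 h6
      refine q1 ?_
      have e1 : x + σ - σ - δ = x - δ := by ring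
      rwa [e1] at h5

theorem notch_cn (h : Hang F H k i0 i1 up) (np : NoPinch F) (hL : 8 ≤ L) {δ : ℤ} {N : Set (ℤ × ℤ)}
    (hN : ∀ t ∈ N, t ∈ D F L ∧ t ∉ D H L ∧ (t.1 + 1, t.2) ∉ D F L) (hδ : δ = 0 ∨ δ = 1 ∨ δ = -1)
    (hc : Cn (Sd F H L δ)) : Cn (Sd F H L δ \ N) := by
  have hne : ∀ {x y}, (x, y) ∉ D F L → (x, y) ∉ D H L := fun h1 h2 => h1 (DH_DF h hL h2)
  have col : ∀ {x y}, (x, y) ∈ N → (x + 1) / L ≠ x / L := by
    intro x y hx h1
    obtain ⟨h2, -, h3⟩ := hN _ hx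
    exact h3 ((mem_col hL h1).2 h2)
  have col' : ∀ {x y}, (x, y) ∈ N → (x - 1) / L = x / L ∧ (x - 2) / L = x / L := by
    intro x y hx
    have h1 := col hx
    obtain ⟨m, U, hm, -⟩ := loc hL x
    have e0 := hm x (by omega) (by omega)
    have e1 := hm (x - 1) (by omega) (by omega)
    have e2 := hm (x - 2) (by omega) (by omega)
    have e3 := hm (x + 1) (by omega) (by omega)
    have e4 := hm (x + 3) (by omega) (by omega)
    obtain ⟨m', U', hm', hU'⟩ := loc hL (x - 2)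
    have g0 := hm' x (by omega) (by omega)
    have g1 := hm' (x - 1) (by omega) (by omega)
    have g2 := hm' (x - 2) (by omega) (by omega)
    have g3 := hm' (x + 1) (by omega) (by omega)
    rw [g0, g3] at h1
    rw [g0, g1, g2]
    constructor
    · split_ifs at h1 ⊢ <;> omega
    · split_ifs at h1 ⊢ <;> omega
  refine retract (-1) (Or.inr rfl) hc ?_ ?_
  · intro x y hx hx'
    obtain ⟨h1, h2, h3⟩ := hN _ hx
    obtain ⟨c1, c2⟩ := col' hx
    simp only at h3
    refine ⟨⟨mem_Sd.2 (Or.inl ⟨(mem_col hL c1).2 h1, fun h4 => h2 ((mem_col hL c1).1 h4)⟩), ?_⟩, ?_⟩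
    · intro h4
      have h5 := col h4
      rw [← sub_eq_add_neg, sub_add_cancel] at h5
      exact h5 c1.symm
    · rw [sub_neg_eq_add]
      intro h4
      rcases mem_Sd.1 h4 with ⟨h5, -⟩ | h5
      · exact h3 h5
      · exact h2 (hor3 h hL (by omega) (by omega) h5 h1)
  · rintro x y y' hx hx' hy ⟨m1, m2⟩
    obtain ⟨h1, h2, h3⟩ := hN _ hx
    obtain ⟨c1, c2⟩ := col' hx
    simp only at h3
    have hn : (x + -1, y') ∉ N := by
      intro h4
      have h5 := col h4
      rw [← sub_eq_add_neg, sub_add_cancel] at h5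
      exact h5 c1.symm
    refine ⟨?_, hn⟩
    rw [← sub_eq_add_neg]
    rcases mem_Sd.1 m1 with ⟨h5, h6⟩ | h5
    · exact mem_Sd.2 (Or.inl ⟨(mem_col hL c1).2 h5, fun h4 => h6 ((mem_col hL c1).1 h4)⟩)
    · rcases hδ with rfl | rfl | rfl
      · rw [sub_zero] at h5
        refine mem_Sd.2 (Or.inr ?_)
        rw [sub_zero]
        exact (mem_col hL c1).2 h5
      · refine mem_Sd.2 (Or.inr ?_)
        have e1 : x - 1 - 1 = x - 2 := by ring
        rw [e1]
        refine (mem_col hL ?_).2 h5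
        rw [c1, c2]
      · -- `δ = -1`
        refine mem_Sd.2 (Or.inr ?_)
        have e1 : x - 1 - -1 = x := by ring
        rw [e1]
        rw [sub_neg_eq_add] at h5
        by_contra h6
        have h7 : (x, y') ∉ D F L := fun h7 => h6 (hor3 h hL (by omega) (by omega) h5 h7)
        exact pinch np hL (Or.inl rfl) hy h1 h3 h7 (DH_DF h hL h5)

theorem notch_cc (h : Hang F H k i0 i1 up) (hL : 8 ≤ L) {δ : ℤ} {N : Set (ℤ × ℤ)}
    (hN : ∀ t ∈ N, t ∈ D F L ∧ t ∉ D H L ∧ (t.1 + 1, t.2) ∉ D F L) (hδ : δ = 0 ∨ δ = 1 ∨ δ = -1)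
    (hc : Cn (Sd F H L δ)ᶜ) : Cn (Sd F H L δ \ N)ᶜ := by
  have e : (Sd F H L δ \ N)ᶜ = (Sd F H L δ)ᶜ ∪ N := by
    ext t
    simp only [Set.mem_compl_iff, Set.mem_sdiff, Set.mem_union]
    tauto
  rw [e]
  refine enlarge hc ?_
  rintro ⟨x, y⟩ hx
  obtain ⟨h1, h2, h3⟩ := hN _ hx
  refine ⟨(x + 1, y), ?_, ?_⟩
  · intro h4
    rcases mem_Sd.1 h4 with ⟨h5, -⟩ | h5
    · exact h3 h5
    · exact h2 (hor3 h hL (by omega) (by omega) h5 h1)
  · rw [adj_iff]; omega

end lay

end Crest.Agent.R158.Sh279
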