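import Crest.Agent.R158.Sh5_279

/-!
R158, S0237, BLOCK BL, leaf (B2), file 6 (helper279): words of the regions with notches

* `nt_ok` : tiles of the notches `Nt` are right wall tiles that are not moved
* **`nt_GW`** : `shD P.F H L δ \ Nt`, slit at the height `y1` in the upper run (`δ = -1, 0, 1`)
* **`nt_GW_D`** : `D P.F L \ Nt`
* **`n1_GW`** : `D P.F L \ N1`
* `shD_GW`, `D_GW` : no notch, any run that is not moved
-/

set_option autoImplicit false

noncomputable section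

namespace Crest.Agent.R158.Sh279

open Crest.Agent.R158.Sp896 (V)
open Crest.Agent.R158.Env664 (D Run Adj4 Mac mem_D div_iff beD)
open Crest.Agent.R158.Ob664 (GW rgt)
open Crest.Agent.R158.Bh679 (NP Words)
open Crest.Agent.R158.Tj656 (P4)
open Crest.Agent.R158.Xr249 (full)
open Crest.Agent.R158.Hb656

/-- tiles of a run that is not moved -/
theorem run_tile {F H : Finset V} {a b j L : ℤ} (hL : 8 ≤ L) (hr : Run F a b j)
    (hn : ∀ i, a ≤ i → i ≤ b → (i, j) ∉ H) {x y : ℤ} (h1 : a * L ≤ x) (h2 : x ≤ b * L + L - 1)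
    (h3 : j * L ≤ y) (h4 : y < j * L + L) : (x, y) ∈ D F L ∧ (x, y) ∉ D H L := by
  have hL' : 0 < L := by omega
  have hj : y / L = j := (div_iff hL' _ _).2 ⟨h3, h4⟩
  have hi1 : a ≤ x / L := by
    rw [Int.le_ediv_iff_mul_le hL']
    linarith
  have hi2 : x / L ≤ b := by
    have : x / L < b + 1 := by
      rw [Int.ediv_lt_iff_lt_mul hL']
      linarith [add_mul b 1 L]
    omega
  constructor
  · rw [mem_D hL']
    simp only
    rw [hj]
    exact hr.mem _ hi1 hi2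
  · apply not_DH_of_far hL'
    rw [hj]
    exact hn _ hi1 hi2

theorem run_wall {F : Finset V} {a b j L : ℤ} (hL : 8 ≤ L) (hr : Run F a b j) {y : ℤ}
    (h3 : j * L ≤ y) (h4 : y < j * L + L) : (b * L + L - 1 + 1, y) ∉ D F L := by
  have hL' : 0 < L := by omega
  rw [mem_D hL']
  simp only
  have h1 : (b * L + L - 1 + 1) / L = b + 1 := (div_iff hL' _ _).2
    ⟨by linarith [add_mul b 1 L], by linarith [add_mul b 1 L]⟩
  have h2 : y / L = j := (div_iff hL' _ _).2 ⟨h3, h4⟩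
  rw [h1, h2]
  exact hr.right

theorem nt_ok {F H : Finset V} {k a b a' b' L y0 y1 : ℤ} (hL : 8 ≤ L) (t : Two F H k a b a' b')
    (h0 : (k - 1) * L ≤ y0) (h1 : y1 ≤ k * L + L) : ∀ s ∈ Nt L k b b' y0 y1,
      s ∈ D F L ∧ s ∉ D H L ∧ (s.1 + 1, s.2) ∉ D F L := by
  have hk : (k - 1) * L = k * L - L := by ring
  rintro ⟨s1, s2⟩ hs
  rcases mem_Nt.1 hs with ⟨e, g1, g2⟩ | ⟨e, g1, g2⟩ <;> simp only at e g1 g2 <;> subst e
  · have hab : a * L ≤ b * L := by nlinarith [t.lo.le]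
    have r := run_tile hL t.lo t.nlo (x := b * L + L - 1) (y := s2) (by omega) (le_refl _)
      (by omega) (by omega)
    exact ⟨r.1, r.2, run_wall hL t.lo (by omega) (by omega)⟩
  · have hab : a' * L ≤ b' * L := by nlinarith [t.up.le]
    have r := run_tile hL t.up t.nup (x := b' * L + L - 1) (y := s2) (by omega) (le_refl _)
      (by omega) (by omega)
    exact ⟨r.1, r.2, run_wall hL t.up (by omega) (by omega)⟩

/-- **words of `shD \ Nt`** -/
theorem nt_GW (P : P4) {H : Finset V} {k i0 i1 a b a' b' L δ x y0 y1 : ℤ} {up : Bool}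
    (h : Hang P.F H k i0 i1 up) (np : NP P.F) (t : Two P.F H k a b a' b') (hL : 8 ≤ L)
    (hδ : δ = 0 ∨ δ = 1 ∨ δ = -1) (h0 : (k - 1) * L ≤ y0) (h1 : k * L < y1) (h1' : y1 < k * L + L)
    (hx : a' * L ≤ x) (hx' : x < b' * L + L - 1) :
    rgt (shD P.F H L δ \ Nt L k b b' y0 y1) x y1 = b' * L + L - 1 ∧
      ∃ w, GW (shD P.F H L δ \ Nt L k b b' y0 y1)
        (beD (shD P.F H L δ \ Nt L k b b' y0 y1) x y1 (b' * L + L - 1)) w := by
  refine notch_GW' (M := Mg949.mac P) h (nop np) hL hδ (nt_ok hL t h0 h1'.le) hx' ?_ ?_ ?_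
    (run_wall hL t.up (by omega) (by omega))
  · intro x' h2 h3
    have r := run_tile hL t.up t.nup (x := x') (y := y1 - 1) (by omega) (by omega)
      (by omega) (by omega)
    refine ⟨r.1, r.2, fun hN => ?_⟩
    rcases mem_Nt.1 hN with ⟨-, -, g⟩ | ⟨g, -, -⟩ <;> simp only at g <;> omega
  · intro x' h2 h3
    have r := run_tile hL t.up t.nup (x := x') (y := y1) (by omega) (by omega)
      (by omega) (by omega)
    refine ⟨r.1, r.2, fun hN => ?_⟩
    rcases mem_Nt.1 hN with ⟨-, -, g⟩ | ⟨-, -, g⟩ <;> simp only at g <;> omega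
  · exact mem_Nt.2 (Or.inr ⟨rfl, by simp only; omega, by simp only; omega⟩)

/-- **words of `D \ Nt`** -/
theorem nt_GW_D (P : P4) {H : Finset V} {k i0 i1 a b a' b' L x y0 y1 : ℤ} {up : Bool}
    (h : Hang P.F H k i0 i1 up) (np : NP P.F) (t : Two P.F H k a b a' b') (hL : 8 ≤ L)
    (h0 : (k - 1) * L ≤ y0) (h1 : k * L < y1) (h1' : y1 < k * L + L)
    (hx : a' * L ≤ x) (hx' : x < b' * L + L - 1) :
    rgt (D P.F L \ Nt L k b b' y0 y1) x y1 = b' * L + L - 1 ∧
      ∃ w, GW (D P.F L \ Nt L k b b' y0 y1)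
        (beD (D P.F L \ Nt L k b b' y0 y1) x y1 (b' * L + L - 1)) w := by
  have := nt_GW P h np t hL (Or.inl rfl) h0 h1 h1' hx hx'
  rwa [shD_zero h hL] at this

/-- **words of `D \ N1`** -/
theorem n1_GW (P : P4) (np : NP P.F) {L b x y0 y1 : ℤ} (hL : 8 ≤ L) (hy : y0 < y1)
    (hx : x < b * L + L - 1)
    (hrow : ∀ x1 y, x ≤ x1 → x1 ≤ b * L + L - 1 → y0 ≤ y → y ≤ y1 → (x1, y) ∈ D P.F L)
    (hout : ∀ y, y0 ≤ y → y ≤ y1 → (b * L + L, y) ∉ D P.F L) :
    rgt (D P.F L \ N1 L b y0 y1) x y1 = b * L + L - 1 ∧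
      ∃ w, GW (D P.F L \ N1 L b y0 y1)
        (beD (D P.F L \ N1 L b y0 y1) x y1 (b * L + L - 1)) w := by
  refine D_notch_GW' (M := Mg949.mac P) (nop np) hL ?_ hx ?_ ?_ ?_ ?_
  · rintro ⟨s1, s2⟩ hs
    obtain ⟨e, g1, g2⟩ := mem_N1.1 hs
    simp only at e g1 g2
    subst e
    refine ⟨hrow _ _ hx.le (le_refl _) g1 (by omega), ?_⟩
    have := hout s2 g1 (by omega)
    rwa [← sub_add_cancel (b * L + L) 1] at this
  · intro x' h2 h3
    refine ⟨hrow _ _ h2 h3.le (by omega) (by omega), fun hN => ?_⟩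
    have g := (mem_N1.1 hN).1
    simp only at g
    omega
  · intro x' h2 h3
    refine ⟨hrow _ _ h2 h3 (by omega) (le_refl _), fun hN => ?_⟩
    have g := (mem_N1.1 hN).2.2
    simp only at g
    omega
  · exact mem_N1.2 ⟨rfl, by simp only; omega, by simp only; omega⟩
  · have := hout y1 (by omega) (le_refl _)
    rwa [← sub_add_cancel (b * L + L) 1] at this

/-- words of `shD`, any run that is not moved -/
theorem shD_GW (P : P4) {H : Finset V} {k i0 i1 a b j L δ x y : ℤ} {up : Bool}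
    (h : Hang P.F H k i0 i1 up) (np : NP P.F) (hr : Run P.F a b j)
    (hn : ∀ i, a ≤ i → i ≤ b → (i, j) ∉ H) (hL : 8 ≤ L)
    (hδ : δ = 0 ∨ δ = 1 ∨ δ = -1) (hs : Sl L a b j x y) :
    rgt (shD P.F H L δ) x y = b * L + L - 1 ∧
      ∃ w, GW (shD P.F H L δ) (beD (shD P.F H L δ) x y (b * L + L - 1)) w := by
  have hrow := rows_of hL hr hn hs
  have := lay_GW (M := Mg949.mac P) h (nop np) hL hδ (S := ∅) (Or.inl (Finset.empty_subset _))
      (by have := hs.hx'; omega) (fun x' h1 h2 => hrow _ (le_refl _) (by omega) x' h1 h2)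
      (fun x' h1 h2 => hrow _ (by omega) (le_refl _) x' h1 h2) (right_of hL hr hs)
  rwa [Finset.union_empty] at this

end Crest.Agent.R158.Sh279
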