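import Mathlib

/-!
R158, skeleton seat (helper656), part 1: ultrafilter limits of asymptotically equicontinuous
functions and the discrete Morera theorem (a discrete Cauchy-Riemann relation with error `o(mesh)`
off finitely many lines gives a holomorphic limit).
-/

set_option autoImplicit false

namespace Crest.Agent.R158.Sk656

open Filter Topology Set Metric MeasureTheory
open Complex (I)

noncomputable section

/-! ## ultrafilter limits -/

/-- limit along a filter -/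
def ul (l : Filter ℕ) (f : ℕ → ℂ) : ℂ := limUnder l f

theorem ul_tendsto {U : Ultrafilter ℕ} {f : ℕ → ℂ} {B : ℝ}
    (h : ∀ᶠ n in (U : Filter ℕ), ‖f n‖ ≤ B) : Tendsto f U (𝓝 (ul U f)) := by
  have hc : IsCompact (closedBall (0 : ℂ) B) := isCompact_closedBall _ _
  obtain ⟨x, -, hx⟩ := hc.ultrafilter_le_nhds (U.map f) (by
    rw [le_principal_iff]
    change f ⁻¹' (closedBall (0 : ℂ) B) ∈ (U : Filter ℕ)
    filter_upwards [h] with n hn
    simpa using hn)
  exact tendsto_nhds_limUnder ⟨x, hx⟩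

/-- asymptotic equicontinuity on compact subsets -/
def AEq (l : Filter ℕ) (S : Set ℂ) (H : ℕ → ℂ → ℂ) : Prop :=
  ∀ K : Set ℂ, IsCompact K → K ⊆ S → ∀ ε : ℝ, 0 < ε → ∃ d : ℝ, 0 < d ∧
    ∀ᶠ n in l, ∀ z ∈ K, ∀ w ∈ K, dist z w < d → ‖H n z - H n w‖ ≤ ε

/-- pointwise convergence on `S` -/
def PLim (l : Filter ℕ) (S : Set ℂ) (H : ℕ → ℂ → ℂ) (h : ℂ → ℂ) : Prop :=
  ∀ z ∈ S, Tendsto (fun n => H n z) l (𝓝 (h z))

theorem AEq.mono {l l' : Filter ℕ} {S S' : Set ℂ} {H : ℕ → ℂ → ℂ} (hl : l' ≤ l) (hS : S' ⊆ S)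
    (h : AEq l S H) : AEq l' S' H := by
  intro K hK hKS ε hε
  obtain ⟨d, hd, h1⟩ := h K hK (hKS.trans hS) ε hε
  exact ⟨d, hd, h1.filter_mono hl⟩

theorem norm_le_of_lim {l : Filter ℕ} [l.NeBot] {f : ℕ → ℂ} {a : ℂ} {ε : ℝ}
    (hf : Tendsto f l (𝓝 a)) (h : ∀ᶠ n in l, ‖f n‖ ≤ ε) : ‖a‖ ≤ ε :=
  le_of_tendsto hf.norm h

theorem lim_equi {l : Filter ℕ} [l.NeBot] {S : Set ℂ} {H : ℕ → ℂ → ℂ} {h : ℂ → ℂ}
    (hA : AEq l S H) (hP : PLim l S H h) {K : Set ℂ} (hK : IsCompact K) (hKS : K ⊆ S)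
    {ε : ℝ} (hε : 0 < ε) : ∃ d : ℝ, 0 < d ∧ ∀ z ∈ K, ∀ w ∈ K, dist z w < d → ‖h z - h w‖ ≤ ε := by
  obtain ⟨d, hd, h1⟩ := hA K hK hKS ε hε
  refine ⟨d, hd, fun z hz w hw hzw => ?_⟩
  refine norm_le_of_lim ((hP z (hKS hz)).sub (hP w (hKS hw))) ?_
  filter_upwards [h1] with n hn using hn z hz w hw hzw

theorem lim_contOn {l : Filter ℕ} [l.NeBot] {S : Set ℂ} {H : ℕ → ℂ → ℂ} {h : ℂ → ℂ}
    (hA : AEq l S H) (hP : PLim l S H h) (hS : IsOpen S) : ContinuousOn h S := by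
  intro z hz
  obtain ⟨r, hr, hrS⟩ := Metric.isOpen_iff.mp hS z hz
  have hK : closedBall z (r / 2) ⊆ S :=
    (closedBall_subset_ball (by linarith)).trans hrS
  apply ContinuousAt.continuousWithinAt
  rw [Metric.continuousAt_iff]
  intro ε hε
  obtain ⟨d, hd, h1⟩ := lim_equi hA hP (isCompact_closedBall z (r / 2)) hK (half_pos hε)
  refine ⟨min d (r / 2), lt_min hd (by linarith), fun {w} hw => ?_⟩
  have h2 := h1 w (by rw [mem_closedBall]; exact (hw.trans_le (min_le_right _ _)).le) z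
    (mem_closedBall_self (by linarith)) (hw.trans_le (min_le_left _ _))
  rw [dist_eq_norm]
  linarith

theorem lim_unif {l : Filter ℕ} [l.NeBot] {S : Set ℂ} {H : ℕ → ℂ → ℂ} {h : ℂ → ℂ}
    (hA : AEq l S H) (hP : PLim l S H h) {K : Set ℂ} (hK : IsCompact K) (hKS : K ⊆ S)
    {ε : ℝ} (hε : 0 < ε) : ∀ᶠ n in l, ∀ z ∈ K, ‖H n z - h z‖ ≤ ε := by
  obtain ⟨d, hd, h1⟩ := hA K hK hKS (ε / 3) (by linarith)
  obtain ⟨d', hd', h2⟩ := lim_equi hA hP hK hKS (show 0 < ε / 3 by linarith)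
  set e := min d d' with he
  have he0 : 0 < e := lt_min hd hd'
  obtain ⟨t, htK, htf, ht⟩ := hK.finite_cover_balls he0
  have h3 : ∀ᶠ n in l, ∀ c ∈ t, ‖H n c - h c‖ ≤ ε / 3 := by
    rw [Filter.eventually_all_finite htf]
    intro c hc
    have := (hP c (hKS (htK hc)))
    have h4 := Metric.tendsto_nhds.mp this (ε / 3) (by linarith)
    filter_upwards [h4] with n hn
    rw [← dist_eq_norm]
    exact hn.le
  filter_upwards [h1, h3] with n hn1 hn3 z hz
  obtain ⟨c, hc, hzc⟩ := mem_iUnion₂.mp (ht hz)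
  have a1 := hn1 z hz c (htK hc) (lt_of_lt_of_le hzc (min_le_left _ _))
  have a2 := hn3 c hc
  have a3 := h2 c (htK hc) z hz (by rw [dist_comm]; exact lt_of_lt_of_le hzc (min_le_right _ _))
  calc ‖H n z - h z‖ = ‖(H n z - H n c) + (H n c - h c) + (h c - h z)‖ := by congr 1; ring
    _ ≤ ‖H n z - H n c‖ + ‖H n c - h c‖ + ‖h c - h z‖ := norm_add₃_le
    _ ≤ ε := by linarith

/-! ## Riemann sums -/

theorem riemann_step {f : ℝ → ℂ} {L r : ℝ} (hf : ContinuousOn f (Icc 0 L)) (hr : 0 < r)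
    {N : ℕ} (hN : (N : ℝ) * r ≤ L) {η : ℝ}
    (hη : ∀ x ∈ Icc 0 L, ∀ y ∈ Icc 0 L, |x - y| ≤ r → ‖f x - f y‖ ≤ η) :
    ‖(r : ℂ) * ∑ j ∈ Finset.range N, f (j * r) - ∫ x in (0 : ℝ)..(N * r), f x‖ ≤ N * r * η := by
  have hint : ∀ j < N, IntervalIntegrable f volume ((fun j : ℕ => (j : ℝ) * r) j)
      ((fun j : ℕ => (j : ℝ) * r) (j + 1)) := by
    intro j hj
    apply ContinuousOn.intervalIntegrable
    apply hf.mono
    have hj' : ((j : ℝ) + 1) ≤ N := by exact_mod_cast hj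
    simp only
    push_cast
    rw [uIcc_of_le (by nlinarith)]
    intro x hx
    refine ⟨le_trans (by positivity) hx.1, hx.2.trans (le_trans ?_ hN)⟩
    exact mul_le_mul_of_nonneg_right hj' hr.le
  have hsum := intervalIntegral.sum_integral_adjacent_intervals (f := f) (μ := volume)
    (a := fun j : ℕ => (j : ℝ) * r) (n := N) hint
  simp only [Nat.cast_zero, zero_mul] at hsum
  rw [← hsum, Finset.mul_sum, ← Finset.sum_sub_distrib]
  refine (norm_sum_le _ _).trans ?_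
  have : ∀ j ∈ Finset.range N, ‖(r : ℂ) * f (j * r) - ∫ x in (j : ℝ) * r..((j + 1 : ℕ) : ℝ) * r, f x‖
      ≤ r * η := by
    intro j hj
    have hj0 := Finset.mem_range.mp hj
    have hj' : ((j : ℝ) + 1) ≤ N := by exact_mod_cast hj0
    have e1 : (r : ℂ) * f (j * r) = ∫ x in (j : ℝ) * r..((j + 1 : ℕ) : ℝ) * r, f (j * r) := by
      rw [intervalIntegral.integral_const]
      push_cast
      rw [Complex.real_smul]
      congr 1
      push_cast; ring
    rw [e1, ← intervalIntegral.integral_sub intervalIntegrable_const (hint j hj0)]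
    have hb := intervalIntegral.norm_integral_le_of_norm_le_const (a := (j : ℝ) * r)
      (b := ((j + 1 : ℕ) : ℝ) * r) (f := fun x => f (j * r) - f x) (C := η) ?_
    · refine hb.trans (le_of_eq ?_)
      push_cast
      rw [show ((j : ℝ) + 1) * r - j * r = r by ring, abs_of_pos hr]
      ring
    · intro x hx
      push_cast at hx
      rw [uIoc_of_le (by nlinarith)] at hx
      have h2 : ((j : ℝ) + 1) * r ≤ N * r := mul_le_mul_of_nonneg_right hj' hr.le
      apply hη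
      · refine ⟨by positivity, ?_⟩
        nlinarith
      · refine ⟨le_trans (by positivity) hx.1.le, ?_⟩
        linarith [hx.2]
      · rw [abs_sub_comm, abs_of_nonneg (by linarith [hx.1])]
        nlinarith [hx.2]
  refine (Finset.sum_le_sum this).trans (le_of_eq ?_)
  simp only [Finset.sum_const, Finset.card_range, nsmul_eq_mul]
  ring

/-- perturbed Riemann sums converge to the integral -/
theorem riemann_lim {l : Filter ℕ} {f : ℝ → ℂ} {L : ℝ} (hL : 0 ≤ L)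
    (hf : ContinuousOn f (Icc 0 L)) {r : ℕ → ℝ} (hr : ∀ᶠ n in l, 0 < r n)
    (hr0 : Tendsto r l (𝓝 0)) {F : ℕ → ℕ → ℂ}
    (hF : ∀ ε : ℝ, 0 < ε → ∀ᶠ n in l, ∀ j : ℕ, j < ⌊L / r n⌋₊ → ‖F n j - f (j * r n)‖ ≤ ε) :
    Tendsto (fun n => (r n : ℂ) * ∑ j ∈ Finset.range ⌊L / r n⌋₊, F n j) l
      (𝓝 (∫ x in (0 : ℝ)..L, f x)) := by
  obtain ⟨B, hB⟩ := (isCompact_Icc (a := (0:ℝ)) (b := L)).exists_bound_of_continuousOn hf
  have hB0 : 0 ≤ B := (norm_nonneg _).trans (hB 0 ⟨le_rfl, hL⟩)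
  have huc : UniformContinuousOn f (Icc 0 L) :=
    isCompact_Icc.uniformContinuousOn_of_continuous hf
  rw [Metric.tendsto_nhds]
  intro ε hε
  obtain ⟨η, hη0, hη⟩ : ∃ η : ℝ, 0 < η ∧ 2 * (L * η) < ε / 2 := by
    refine ⟨ε / (8 * (L + 1)), by positivity, ?_⟩
    rw [show 2 * (L * (ε / (8 * (L + 1)))) = (L / (L + 1)) * (ε / 4) by field_simp; ring]
    have : L / (L + 1) ≤ 1 := by rw [div_le_one (by linarith)]; linarith
    nlinarith
  obtain ⟨d, hd, hd1⟩ := Metric.uniformContinuousOn_iff.mp huc η hη0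
  have hrd : ∀ᶠ n in l, r n < min d (ε / (4 * (B + 1))) :=
    (tendsto_order.mp hr0).2 _ (lt_min hd (by positivity))
  filter_upwards [hr, hrd, hF η hη0] with n h1 h2 h3
  have hfl : ((⌊L / r n⌋₊ : ℕ) : ℝ) * r n ≤ L := by
    have := Nat.floor_le (show 0 ≤ L / r n by positivity)
    calc ((⌊L / r n⌋₊ : ℕ) : ℝ) * r n ≤ L / r n * r n := mul_le_mul_of_nonneg_right this h1.le
      _ = L := by field_simp
  have hfl2 : L - r n ≤ ((⌊L / r n⌋₊ : ℕ) : ℝ) * r n := by
    have := (Nat.lt_floor_add_one (L / r n)).le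
    have h4 : L / r n * r n ≤ (((⌊L / r n⌋₊ : ℕ) : ℝ) + 1) * r n :=
      mul_le_mul_of_nonneg_right this h1.le
    rw [div_mul_cancel₀ _ h1.ne'] at h4
    linarith
  set N := ⌊L / r n⌋₊ with hN
  have a1 := riemann_step hf h1 hfl (η := η) (fun x hx y hy hxy => by
    have := hd1 x hx y hy (by rw [Real.dist_eq]; exact lt_of_le_of_lt hxy (h2.trans_le (min_le_left _ _)))
    rw [← dist_eq_norm]; exact this.le)
  have a2 : ‖(r n : ℂ) * ∑ j ∈ Finset.range N, F n j - (r n : ℂ) * ∑ j ∈ Finset.range N, f (j * r n)‖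
      ≤ L * η := by
    rw [← mul_sub, ← Finset.sum_sub_distrib, norm_mul, Complex.norm_real, Real.norm_of_nonneg h1.le]
    have : ‖∑ j ∈ Finset.range N, (F n j - f (j * r n))‖ ≤ N * η := by
      refine (norm_sum_le _ _).trans ?_
      refine (Finset.sum_le_sum (fun j hj => h3 j (Finset.mem_range.mp hj))).trans (le_of_eq ?_)
      simp
    calc r n * ‖∑ j ∈ Finset.range N, (F n j - f (j * r n))‖ ≤ r n * (N * η) :=
          mul_le_mul_of_nonneg_left this h1.le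
      _ = (N * r n) * η := by ring
      _ ≤ L * η := mul_le_mul_of_nonneg_right hfl hη0.le
  have a3 : ‖(∫ x in (0 : ℝ)..(N * r n), f x) - ∫ x in (0 : ℝ)..L, f x‖ ≤ B * r n := by
    have hi1 : IntervalIntegrable f volume 0 (N * r n) := by
      apply ContinuousOn.intervalIntegrable
      rw [uIcc_of_le (by positivity)]
      exact hf.mono (Icc_subset_Icc le_rfl hfl)
    have hi2 : IntervalIntegrable f volume (N * r n) L := by
      apply ContinuousOn.intervalIntegrable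
      rw [uIcc_of_le hfl]
      exact hf.mono (Icc_subset_Icc (by positivity) le_rfl)
    rw [← intervalIntegral.integral_add_adjacent_intervals hi1 hi2, sub_add_cancel_left, norm_neg]
    have := intervalIntegral.norm_integral_le_of_norm_le_const (a := (N : ℝ) * r n) (b := L)
      (f := f) (C := B) (fun x hx => by
        rw [uIoc_of_le hfl] at hx
        exact hB x ⟨le_trans (by positivity) hx.1.le, hx.2⟩)
    refine this.trans ?_
    rw [abs_of_nonneg (by linarith)]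
    exact mul_le_mul_of_nonneg_left (by linarith) hB0
  have a4 : B * r n < ε / 2 := by
    have h5 := h2.trans_le (min_le_right _ _)
    have h6 : (B + 1) * r n < ε / 4 := by
      have := mul_lt_mul_of_pos_left h5 (show 0 < B + 1 by linarith)
      rw [show (B + 1) * (ε / (4 * (B + 1))) = ε / 4 by field_simp] at this
      exact this
    nlinarith
  rw [dist_eq_norm]
  calc ‖(r n : ℂ) * ∑ j ∈ Finset.range N, F n j - ∫ x in (0 : ℝ)..L, f x‖
      = ‖((r n : ℂ) * ∑ j ∈ Finset.range N, F n j - (r n : ℂ) * ∑ j ∈ Finset.range N, f (j * r n))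
          + ((r n : ℂ) * ∑ j ∈ Finset.range N, f (j * r n) - ∫ x in (0 : ℝ)..(N * r n), f x)
          + ((∫ x in (0 : ℝ)..(N * r n), f x) - ∫ x in (0 : ℝ)..L, f x)‖ := by congr 1; ring
    _ ≤ L * η + N * r n * η + B * r n := (norm_add₃_le).trans (add_le_add_three a2 a1 a3)
    _ ≤ L * η + L * η + B * r n := by
        have := mul_le_mul_of_nonneg_right hfl hη0.le
        linarith
    _ < ε := by linarith

/-! ## discrete Cauchy-Riemann relation -/

/-- the discrete Cauchy-Riemann relation on compact subsets of `S`, direction `ω`, step `r n`: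
`H(z + i r ω) - H(z) = c (H(z + r ω) - H(z)) + o(r)` (`c = i`: holomorphic, `c = -i`:
antiholomorphic limits) -/
def DCR (l : Filter ℕ) (S : Set ℂ) (ω c : ℂ) (r : ℕ → ℝ) (H : ℕ → ℂ → ℂ) : Prop :=
  ∀ K : Set ℂ, IsCompact K → K ⊆ S → ∀ ε : ℝ, 0 < ε → ∀ᶠ n in l, ∀ z ∈ K,
    ‖(H n (z + r n * I * ω) - H n z) - c * (H n (z + r n * ω) - H n z)‖ ≤ ε * r n

/-- the point with coordinates `(x,y)` in the frame `(ω, iω)` -/
def pt (ω : ℂ) (x y : ℝ) : ℂ := (x + y * I) * ω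

theorem pt_cont (ω : ℂ) : Continuous (fun q : ℝ × ℝ => pt ω q.1 q.2) := by
  unfold pt; fun_prop

theorem pt_cont2 (ω : ℂ) (y : ℝ) : Continuous (fun x : ℝ => pt ω x y) := by
  unfold pt; fun_prop

theorem pt_cont1 (ω : ℂ) (x : ℝ) : Continuous (fun y : ℝ => pt ω x y) := by
  unfold pt; fun_prop

theorem norm_pt_sub {ω : ℂ} (hω : ‖ω‖ = 1) (x y x' y' : ℝ) :
    dist (pt ω x y) (pt ω x' y') ≤ |x - x'| + |y - y'| := by
  rw [dist_eq_norm]
  have : pt ω x y - pt ω x' y' = (((x - x' : ℝ) : ℂ) + ((y - y' : ℝ) : ℂ) * I) * ω := by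
    unfold pt; push_cast; ring
  rw [this, norm_mul, hω, mul_one]
  refine (norm_add_le _ _).trans ?_
  rw [norm_mul, Complex.norm_I, mul_one, Complex.norm_real, Complex.norm_real, Real.norm_eq_abs,
    Real.norm_eq_abs]

/-- the closed rectangle in the frame `(ω, iω)` -/
def Rc (ω : ℂ) (x1 x2 y1 y2 : ℝ) : Set ℂ := (fun q : ℝ × ℝ => pt ω q.1 q.2) '' (Icc x1 x2 ×ˢ Icc y1 y2)

theorem Rc_compact (ω : ℂ) (x1 x2 y1 y2 : ℝ) : IsCompact (Rc ω x1 x2 y1 y2) :=
  (isCompact_Icc.prod isCompact_Icc).image (pt_cont ω)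

theorem mem_Rc {ω : ℂ} {x1 x2 y1 y2 x y : ℝ} (h1 : x1 ≤ x) (h2 : x ≤ x2) (h3 : y1 ≤ y)
    (h4 : y ≤ y2) : pt ω x y ∈ Rc ω x1 x2 y1 y2 := ⟨(x, y), ⟨⟨h1, h2⟩, ⟨h3, h4⟩⟩, rfl⟩

theorem dcr_sum (N M : ℕ) (G : ℕ → ℕ → ℂ) (c : ℂ) (e : ℝ)
    (h : ∀ j < N, ∀ k < M, ‖(G j (k + 1) - G j k) - c * (G (j + 1) k - G j k)‖ ≤ e) :
    ‖(∑ j ∈ Finset.range N, (G j M - G j 0)) - c * ∑ k ∈ Finset.range M, (G N k - G 0 k)‖
      ≤ N * M * e := by
  have e1 : ∀ j, G j M - G j 0 = ∑ k ∈ Finset.range M, (G j (k + 1) - G j k) := fun j =>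
    (Finset.sum_range_sub (fun k => G j k) M).symm
  have e2 : ∀ k, G N k - G 0 k = ∑ j ∈ Finset.range N, (G (j + 1) k - G j k) := fun k =>
    (Finset.sum_range_sub (fun j => G j k) N).symm
  simp only [e1, e2]
  rw [Finset.sum_comm (s := Finset.range M) (t := Finset.range N), Finset.mul_sum,
    ← Finset.sum_sub_distrib]
  refine (norm_sum_le _ _).trans ?_
  calc ∑ j ∈ Finset.range N, ‖(∑ k ∈ Finset.range M, (G j (k + 1) - G j k)) -
          c * ∑ k ∈ Finset.range M, (G (j + 1) k - G j k)‖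
      ≤ ∑ j ∈ Finset.range N, ((M : ℝ) * e) := by
        apply Finset.sum_le_sum
        intro j hj
        rw [Finset.mul_sum, ← Finset.sum_sub_distrib]
        refine (norm_sum_le _ _).trans ?_
        refine (Finset.sum_le_sum (fun k hk =>
          h j (Finset.mem_range.mp hj) k (Finset.mem_range.mp hk))).trans (le_of_eq ?_)
        simp
    _ = N * M * e := by simp; ring

/-- The rectangle relation for the limit. -/
theorem rect_lim {l : Filter ℕ} [l.NeBot] {S : Set ℂ} {H : ℕ → ℂ → ℂ} {h : ℂ → ℂ}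
    (hS : IsOpen S) (hA : AEq l S H) (hP : PLim l S H h) {ω c : ℂ} (hω : ‖ω‖ = 1)
    {r : ℕ → ℝ} (hr : ∀ᶠ n in l, 0 < r n) (hr0 : Tendsto r l (𝓝 0)) (hD : DCR l S ω c r H)
    {x1 x2 y1 y2 : ℝ} (hx : x1 ≤ x2) (hy : y1 ≤ y2) (hR : Rc ω x1 x2 y1 y2 ⊆ S) :
    (∫ x in x1..x2, (h (pt ω x y2) - h (pt ω x y1))) =
      c * ∫ y in y1..y2, (h (pt ω x2 y) - h (pt ω x1 y)) := by
  have hK := Rc_compact ω x1 x2 y1 y2
  have hcS := lim_contOn hA hP hS
  set K := Rc ω x1 x2 y1 y2 with hKdef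
  set L := x2 - x1 with hL
  set L' := y2 - y1 with hL'
  have hL0 : 0 ≤ L := by rw [hL]; linarith
  have hL0' : 0 ≤ L' := by rw [hL']; linarith
  have hcK : ContinuousOn h K := hcS.mono hR
  have huc : UniformContinuousOn h K := hK.uniformContinuousOn_of_continuous hcK
  -- floors
  have hfl : ∀ n, 0 < r n → ∀ A : ℝ, 0 ≤ A → ((⌊A / r n⌋₊ : ℕ) : ℝ) * r n ≤ A ∧
      A - r n ≤ ((⌊A / r n⌋₊ : ℕ) : ℝ) * r n := by
    intro n h1 A hA0
    constructor
    · have := Nat.floor_le (show 0 ≤ A / r n by positivity)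
      calc ((⌊A / r n⌋₊ : ℕ) : ℝ) * r n ≤ A / r n * r n := mul_le_mul_of_nonneg_right this h1.le
        _ = A := by field_simp
    · have := (Nat.lt_floor_add_one (A / r n)).le
      have h4 : A / r n * r n ≤ (((⌊A / r n⌋₊ : ℕ) : ℝ) + 1) * r n :=
        mul_le_mul_of_nonneg_right this h1.le
      rw [div_mul_cancel₀ _ h1.ne'] at h4
      linarith
  have hjr : ∀ n, 0 < r n → ∀ A : ℝ, 0 ≤ A → ∀ j : ℕ, j < ⌊A / r n⌋₊ → 0 ≤ (j : ℝ) * r n ∧
      (j : ℝ) * r n ≤ A := by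
    intro n h1 A hA0 j hj
    refine ⟨by positivity, le_trans ?_ (hfl n h1 A hA0).1⟩
    exact mul_le_mul_of_nonneg_right (by exact_mod_cast hj.le) h1.le
  -- general approximation
  have happ : ∀ ε : ℝ, 0 < ε → ∀ᶠ n in l, ∀ x y x' y' : ℝ, x1 ≤ x → x ≤ x2 → y1 ≤ y → y ≤ y2 →
      x1 ≤ x' → x' ≤ x2 → y1 ≤ y' → y' ≤ y2 → |x - x'| + |y - y'| ≤ r n →
      ‖H n (pt ω x y) - h (pt ω x' y')‖ ≤ ε := by
    intro ε hε
    obtain ⟨d, hd, hd1⟩ := Metric.uniformContinuousOn_iff.mp huc (ε / 2) (half_pos hε)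
    have hrd : ∀ᶠ n in l, r n < d := (tendsto_order.mp hr0).2 _ hd
    filter_upwards [lim_unif hA hP hK hR (half_pos hε), hrd] with n h1 h2
    intro x y x' y' a1 a2 a3 a4 a5 a6 a7 a8 a9
    have b1 := h1 _ (mem_Rc (ω := ω) a1 a2 a3 a4)
    have b2 := hd1 _ (mem_Rc (ω := ω) a1 a2 a3 a4) _ (mem_Rc (ω := ω) a5 a6 a7 a8)
      (lt_of_le_of_lt ((norm_pt_sub hω x y x' y').trans a9) h2)
    rw [dist_eq_norm] at b2
    calc ‖H n (pt ω x y) - h (pt ω x' y')‖
        = ‖(H n (pt ω x y) - h (pt ω x y)) + (h (pt ω x y) - h (pt ω x' y'))‖ := by congr 1; ring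
      _ ≤ ε / 2 + ε / 2 := (norm_add_le _ _).trans (add_le_add b1 b2.le)
      _ = ε := by ring
  let G : ℕ → ℕ → ℕ → ℂ := fun n j k => H n (pt ω (x1 + j * r n) (y1 + k * r n))
  let N : ℕ → ℕ := fun n => ⌊L / r n⌋₊
  let M : ℕ → ℕ := fun n => ⌊L' / r n⌋₊
  -- the four limits
  have hcx : ∀ y : ℝ, y1 ≤ y → y ≤ y2 → ContinuousOn (fun x : ℝ => h (pt ω (x1 + x) y)) (Icc 0 L) := by
    intro y a b
    have hc0 : Continuous (fun x : ℝ => pt ω (x1 + x) y) := by unfold pt; fun_prop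
    apply hcK.comp hc0.continuousOn
    intro x hx
    exact mem_Rc (by linarith [hx.1]) (by linarith [hx.2]) a b
  have hcy : ∀ x : ℝ, x1 ≤ x → x ≤ x2 → ContinuousOn (fun y : ℝ => h (pt ω x (y1 + y))) (Icc 0 L') := by
    intro x a b
    have hc0 : Continuous (fun y : ℝ => pt ω x (y1 + y)) := by unfold pt; fun_prop
    apply hcK.comp hc0.continuousOn
    intro y hy
    exact mem_Rc a b (by linarith [hy.1]) (by linarith [hy.2])
  have t1 := riemann_lim hL0 (hcx y2 hy le_rfl) hr hr0 (F := fun n j => G n j (M n)) (by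
    intro ε hε
    filter_upwards [happ ε hε, hr] with n h1 h2 j hj
    obtain ⟨b1, b2⟩ := hjr n h2 L hL0 j hj
    obtain ⟨b3, b4⟩ := hfl n h2 L' hL0'
    simp only [G, M]
    have b5 : (0:ℝ) ≤ ((⌊L' / r n⌋₊ : ℕ) : ℝ) * r n := by positivity
    apply h1 <;> first | linarith | skip
    rw [sub_self, abs_zero, zero_add, abs_sub_comm, abs_of_nonneg (by linarith)]
    linarith)
  have t2 := riemann_lim hL0 (hcx y1 le_rfl hy) hr hr0 (F := fun n j => G n j 0) (by
    intro ε hε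
    filter_upwards [happ ε hε, hr] with n h1 h2 j hj
    obtain ⟨b1, b2⟩ := hjr n h2 L hL0 j hj
    simp only [G, Nat.cast_zero, zero_mul, add_zero]
    apply h1 <;> first | linarith | skip
    rw [sub_self, abs_zero, zero_add, sub_self, abs_zero]
    exact h2.le)
  have t3 := riemann_lim hL0' (hcy x2 hx le_rfl) hr hr0 (F := fun n k => G n (N n) k) (by
    intro ε hε
    filter_upwards [happ ε hε, hr] with n h1 h2 k hk
    obtain ⟨b1, b2⟩ := hjr n h2 L' hL0' k hk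
    obtain ⟨b3, b4⟩ := hfl n h2 L hL0
    simp only [G, N]
    have b5 : (0:ℝ) ≤ ((⌊L / r n⌋₊ : ℕ) : ℝ) * r n := by positivity
    apply h1 <;> first | linarith | skip
    rw [sub_self, abs_zero, add_zero, abs_sub_comm, abs_of_nonneg (by linarith)]
    linarith)
  have t4 := riemann_lim hL0' (hcy x1 le_rfl hx) hr hr0 (F := fun n k => G n 0 k) (by
    intro ε hε
    filter_upwards [happ ε hε, hr] with n h1 h2 k hk
    obtain ⟨b1, b2⟩ := hjr n h2 L' hL0' k hk
    simp only [G, Nat.cast_zero, zero_mul, add_zero]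
    apply h1 <;> first | linarith | skip
    rw [sub_self, abs_zero, zero_add, sub_self, abs_zero]
    exact h2.le)
  have tt := (t1.sub t2).sub ((t3.sub t4).const_mul c)
  -- the difference tends to zero
  have hz : Tendsto (fun n => ((r n : ℂ) * ∑ j ∈ Finset.range ⌊L / r n⌋₊, G n j (M n) -
      (r n : ℂ) * ∑ j ∈ Finset.range ⌊L / r n⌋₊, G n j 0) -
      c * ((r n : ℂ) * ∑ k ∈ Finset.range ⌊L' / r n⌋₊, G n (N n) k -
        (r n : ℂ) * ∑ k ∈ Finset.range ⌊L' / r n⌋₊, G n 0 k)) l (𝓝 0) := by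
    rw [Metric.tendsto_nhds]
    intro ε hε
    obtain ⟨η, hη0, hη⟩ : ∃ η : ℝ, 0 < η ∧ L * L' * η < ε := by
      refine ⟨ε / (L * L' + 1), by positivity, ?_⟩
      have h0 : 0 ≤ L * L' := by positivity
      rw [mul_div_assoc', div_lt_iff₀ (by positivity)]
      nlinarith
    filter_upwards [hD K hK hR η hη0, hr] with n h1 h2
    have hs := dcr_sum (N n) (M n) (G n) c (η * r n) (by
      intro j hj k hk
      obtain ⟨b1, b2⟩ := hjr n h2 L hL0 j hj
      obtain ⟨b3, b4⟩ := hjr n h2 L' hL0' k hk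
      have h3 := h1 (pt ω (x1 + j * r n) (y1 + k * r n))
        (mem_Rc (by linarith) (by linarith) (by linarith) (by linarith))
      have q1 : pt ω (x1 + j * r n) (y1 + k * r n) + r n * I * ω
          = pt ω (x1 + j * r n) (y1 + ((k + 1 : ℕ) : ℝ) * r n) := by
        unfold pt; push_cast; ring
      have q2 : pt ω (x1 + j * r n) (y1 + k * r n) + r n * ω
          = pt ω (x1 + ((j + 1 : ℕ) : ℝ) * r n) (y1 + k * r n) := by
        unfold pt; push_cast; ring
      rw [q1, q2] at h3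
      exact h3)
    rw [dist_zero_right]
    have e1 : ((r n : ℂ) * ∑ j ∈ Finset.range ⌊L / r n⌋₊, G n j (M n) -
        (r n : ℂ) * ∑ j ∈ Finset.range ⌊L / r n⌋₊, G n j 0) -
        c * ((r n : ℂ) * ∑ k ∈ Finset.range ⌊L' / r n⌋₊, G n (N n) k -
          (r n : ℂ) * ∑ k ∈ Finset.range ⌊L' / r n⌋₊, G n 0 k) =
        (r n : ℂ) * ((∑ j ∈ Finset.range (N n), (G n j (M n) - G n j 0)) -
          c * ∑ k ∈ Finset.range (M n), (G n (N n) k - G n 0 k)) := by
      simp only [Finset.sum_sub_distrib, N, M]; ring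
    rw [e1, norm_mul, Complex.norm_real, Real.norm_of_nonneg h2.le]
    have b1 := (hfl n h2 L hL0).1
    have b2 := (hfl n h2 L' hL0').1
    calc r n * ‖(∑ j ∈ Finset.range (N n), (G n j (M n) - G n j 0)) -
          c * ∑ k ∈ Finset.range (M n), (G n (N n) k - G n 0 k)‖
        ≤ r n * (N n * M n * (η * r n)) := mul_le_mul_of_nonneg_left hs h2.le
      _ = (N n * r n) * (M n * r n) * η := by ring
      _ ≤ L * L' * η := by
          apply mul_le_mul_of_nonneg_right _ hη0.le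
          exact mul_le_mul b1 b2 (by positivity) hL0
      _ < ε := hη
  have hlim := tendsto_nhds_unique tt hz
  have s1 : ∀ y : ℝ, (∫ x in (0:ℝ)..L, h (pt ω (x1 + x) y)) = ∫ x in x1..x2, h (pt ω x y) := by
    intro y
    rw [intervalIntegral.integral_comp_add_left (fun x => h (pt ω x y)) x1]
    congr 1 <;> simp [hL]
  have s2 : ∀ x : ℝ, (∫ y in (0:ℝ)..L', h (pt ω x (y1 + y))) = ∫ y in y1..y2, h (pt ω x y) := by
    intro x
    rw [intervalIntegral.integral_comp_add_left (fun y => h (pt ω x y)) y1]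
    congr 1 <;> simp [hL']
  simp only [s1, s2] at hlim
  have i1 : ∀ y, y1 ≤ y → y ≤ y2 → IntervalIntegrable (fun x => h (pt ω x y)) volume x1 x2 := by
    intro y a b
    apply ContinuousOn.intervalIntegrable
    rw [uIcc_of_le hx]
    exact hcK.comp (pt_cont2 ω y).continuousOn (fun x hx => mem_Rc hx.1 hx.2 a b)
  have i2 : ∀ x, x1 ≤ x → x ≤ x2 → IntervalIntegrable (fun y => h (pt ω x y)) volume y1 y2 := by
    intro x a b
    apply ContinuousOn.intervalIntegrable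
    rw [uIcc_of_le hy]
    exact hcK.comp (pt_cont1 ω x).continuousOn (fun y hy => mem_Rc a b hy.1 hy.2)
  rw [intervalIntegral.integral_sub (i1 y2 hy le_rfl) (i1 y1 le_rfl hy),
    intervalIntegral.integral_sub (i2 x2 hx le_rfl) (i2 x1 le_rfl hx)]
  exact sub_eq_zero.mp hlim

end

end Crest.Agent.R158.Sk656
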