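import Crest.Agent.R158.Sk1_656

/-!
R158, skeleton seat (helper656), part 2: Morera off finitely many lines; the (anti)holomorphic limit
of lattice functions with the discrete Cauchy-Riemann relation.
-/

set_option autoImplicit false

namespace Crest.Agent.R158.Sk656

open Filter Topology Set Metric MeasureTheory
open Complex (I)

noncomputable section

/-- clamp to `[a,b]` -/
def clm (a b x : ℝ) : ℝ := max a (min b x)

theorem clm_cont (a b : ℝ) : Continuous (clm a b) := by unfold clm; fun_prop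

theorem clm_mem {a b : ℝ} (h : a ≤ b) (x : ℝ) : a ≤ clm a b x ∧ clm a b x ≤ b :=
  ⟨le_max_left _ _, max_le h (min_le_left _ _)⟩

theorem clm_eq {a b x : ℝ} (h1 : a ≤ x) (h2 : x ≤ b) : clm a b x = x := by
  unfold clm; rw [min_eq_right h2, max_eq_right h1]

theorem rect_all {S : Set ℂ} {h : ℂ → ℂ} (hc : ContinuousOn h S) {ω : ℂ}
    {Λ : Set ℝ} (hΛ : Λ.Finite)
    (hrel : ∀ x1 x2 y1 y2 : ℝ, x1 ≤ x2 → y1 ≤ y2 → Rc ω x1 x2 y1 y2 ⊆ S →
      (∀ y ∈ Icc y1 y2, y ∉ Λ) →
      (∫ x in x1..x2, (h (pt ω x y2) - h (pt ω x y1))) =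
        I * ∫ y in y1..y2, (h (pt ω x2 y) - h (pt ω x1 y)))
    {x1 x2 y1 y2 : ℝ} (hx : x1 ≤ x2) (hy : y1 ≤ y2) (hR : Rc ω x1 x2 y1 y2 ⊆ S) :
    (∫ x in x1..x2, (h (pt ω x y2) - h (pt ω x y1))) =
      I * ∫ y in y1..y2, (h (pt ω x2 y) - h (pt ω x1 y)) := by
  set F : ℝ → ℝ → ℂ := fun y x => h (pt ω (clm x1 x2 x) (clm y1 y2 y)) with hF
  have hFc : Continuous F.uncurry := by
    have hpc : Continuous (fun q : ℝ × ℝ => pt ω (clm x1 x2 q.2) (clm y1 y2 q.1)) :=
      (pt_cont ω).comp (((clm_cont x1 x2).comp continuous_snd).prodMk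
        ((clm_cont y1 y2).comp continuous_fst))
    exact (hc.mono hR).comp_continuous hpc (fun q =>
      mem_Rc (clm_mem hx _).1 (clm_mem hx _).2 (clm_mem hy _).1 (clm_mem hy _).2)
  have hFy : ∀ x, Continuous (fun y => F y x) := fun x => by
    have : Continuous (fun y : ℝ => F.uncurry (y, x)) := hFc.comp (continuous_id.prodMk continuous_const)
    exact this
  have hFx : ∀ y, Continuous (F y) := fun y => by
    have : Continuous (fun x : ℝ => F.uncurry (y, x)) := hFc.comp (continuous_const.prodMk continuous_id)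
    exact this
  set Φ : ℝ → ℂ := fun y => (∫ x in x1..x2, F y x) - I * ∫ s in y1..y, (F s x2 - F s x1) with hΦ
  have hΦc : Continuous Φ := by
    have c1 : Continuous (fun y => ∫ x in x1..x2, F y x) :=
      intervalIntegral.continuous_parametric_intervalIntegral_of_continuous' hFc x1 x2
    have c2 : Continuous (fun y => ∫ s in y1..y, (F s x2 - F s x1)) :=
      intervalIntegral.continuous_primitive
        (fun a b => ((hFy x2).sub (hFy x1)).intervalIntegrable a b) y1
    exact c1.sub (continuous_const.mul c2)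
  have hFval : ∀ x y, x1 ≤ x → x ≤ x2 → y1 ≤ y → y ≤ y2 → F y x = h (pt ω x y) := by
    intro x y a b c d
    simp only [hF, clm_eq a b, clm_eq c d]
  -- differences of Φ
  have hdiff : ∀ a b : ℝ, y1 ≤ a → a ≤ b → b ≤ y2 → (∀ y ∈ Icc a b, y ∉ Λ) → Φ b = Φ a := by
    intro a b h1 h2 h3 h4
    have hR' : Rc ω x1 x2 a b ⊆ S := by
      refine subset_trans ?_ hR
      rintro _ ⟨q, ⟨⟨q1, q2⟩, ⟨q3, q4⟩⟩, rfl⟩
      exact mem_Rc q1 q2 (h1.trans q3) (q4.trans h3)
    have h5 := hrel x1 x2 a b hx h2 hR' h4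
    have e1 : (∫ x in x1..x2, (h (pt ω x b) - h (pt ω x a))) =
        (∫ x in x1..x2, F b x) - ∫ x in x1..x2, F a x := by
      rw [← intervalIntegral.integral_sub ((hFx b).intervalIntegrable _ _)
        ((hFx a).intervalIntegrable _ _)]
      apply intervalIntegral.integral_congr
      intro x hx'
      rw [uIcc_of_le hx] at hx'
      simp only
      rw [hFval x b hx'.1 hx'.2 (h1.trans h2) h3, hFval x a hx'.1 hx'.2 h1 (h2.trans h3)]
    have e2 : (∫ y in a..b, (h (pt ω x2 y) - h (pt ω x1 y))) =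
        (∫ s in y1..b, (F s x2 - F s x1)) - ∫ s in y1..a, (F s x2 - F s x1) := by
      have hcd : Continuous (fun s => F s x2 - F s x1) := (hFy x2).sub (hFy x1)
      rw [intervalIntegral.integral_interval_sub_left
        (hcd.intervalIntegrable _ _) (hcd.intervalIntegrable _ _)]
      apply intervalIntegral.integral_congr
      intro y hy'
      rw [uIcc_of_le h2] at hy'
      simp only
      rw [hFval x2 y hx le_rfl (h1.trans hy'.1) (hy'.2.trans h3),
        hFval x1 y le_rfl hx (h1.trans hy'.1) (hy'.2.trans h3)]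
    rw [e1, e2] at h5
    simp only [hΦ]
    linear_combination h5
  have hder : ∀ y ∈ Ioo y1 y2 \ Λ, HasDerivAt Φ ((fun _ => (0:ℂ)) y) y := by
    intro y hy'
    have hopen : IsOpen (Ioo y1 y2 \ Λ) := isOpen_Ioo.sdiff hΛ.isClosed
    obtain ⟨e, he, heb⟩ := Metric.isOpen_iff.mp hopen y hy'
    have hev : Φ =ᶠ[𝓝 y] fun _ => Φ y := by
      filter_upwards [Metric.ball_mem_nhds y he] with y' hy''
      have hseg : ∀ t, (y ≤ t ∧ t ≤ y') ∨ (y' ≤ t ∧ t ≤ y) → t ∈ ball y e := by
        intro t ht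
        rw [mem_ball, Real.dist_eq, abs_lt] at hy'' ⊢
        rcases ht with ht | ht
        · constructor <;> linarith [hy''.1, hy''.2]
        · constructor <;> linarith [hy''.1, hy''.2]
      rcases le_total y y' with hle | hle
      · exact hdiff y y' (heb (hseg y (Or.inl ⟨le_rfl, hle⟩))).1.1.le hle
          (heb (hseg y' (Or.inl ⟨hle, le_rfl⟩))).1.2.le
          (fun t ht => (heb (hseg t (Or.inl ht))).2)
      · exact (hdiff y' y (heb (hseg y' (Or.inr ⟨le_rfl, hle⟩))).1.1.le hle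
          (heb (hseg y (Or.inr ⟨hle, le_rfl⟩))).1.2.le
          (fun t ht => (heb (hseg t (Or.inr ht))).2)).symm
    exact (hasDerivAt_const y (Φ y)).congr_of_eventuallyEq hev
  have hfin := integral_eq_of_hasDerivAt_off_countable_of_le Φ (fun _ => (0:ℂ)) hy hΛ.countable
    hΦc.continuousOn hder intervalIntegrable_const
  rw [intervalIntegral.integral_zero] at hfin
  have e1 : (∫ x in x1..x2, (h (pt ω x y2) - h (pt ω x y1))) =
      (∫ x in x1..x2, F y2 x) - ∫ x in x1..x2, F y1 x := by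
    rw [← intervalIntegral.integral_sub ((hFx y2).intervalIntegrable _ _)
      ((hFx y1).intervalIntegrable _ _)]
    apply intervalIntegral.integral_congr
    intro x hx'
    rw [uIcc_of_le hx] at hx'
    simp only
    rw [hFval x y2 hx'.1 hx'.2 hy le_rfl, hFval x y1 hx'.1 hx'.2 le_rfl hy]
  have e2 : (∫ y in y1..y2, (h (pt ω x2 y) - h (pt ω x1 y))) =
      (∫ s in y1..y2, (F s x2 - F s x1)) := by
    apply intervalIntegral.integral_congr
    intro y hy'
    rw [uIcc_of_le hy] at hy'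
    simp only
    rw [hFval x2 y hx le_rfl hy'.1 hy'.2, hFval x1 y le_rfl hx hy'.1 hy'.2]
  rw [e1, e2]
  simp only [hΦ, intervalIntegral.integral_same, mul_zero, sub_zero] at hfin
  linear_combination -hfin

/-- Morera off finitely many lines -/
theorem morera_lines {S : Set ℂ} (hS : IsOpen S) {h : ℂ → ℂ} (hc : ContinuousOn h S) {ω : ℂ}
    (hω : ω ≠ 0) {Λ : Set ℝ} (hΛ : Λ.Finite)
    (hrel : ∀ x1 x2 y1 y2 : ℝ, x1 ≤ x2 → y1 ≤ y2 → Rc ω x1 x2 y1 y2 ⊆ S →
      (∀ y ∈ Icc y1 y2, y ∉ Λ) →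
      (∫ x in x1..x2, (h (pt ω x y2) - h (pt ω x y1))) =
        I * ∫ y in y1..y2, (h (pt ω x2 y) - h (pt ω x1 y))) : DifferentiableOn ℂ h S := by
  set T : Set ℂ := (fun z : ℂ => z * ω) ⁻¹' S with hT
  have hTo : IsOpen T := hS.preimage (by fun_prop)
  set g : ℂ → ℂ := fun z => h (z * ω) with hg
  have hgc : ContinuousOn g T := hc.comp (by fun_prop) (fun z hz => hz)
  have key : ∀ x1 x2 y1 y2 : ℝ, x1 ≤ x2 → y1 ≤ y2 → Rc ω x1 x2 y1 y2 ⊆ S →
      (∫ x in x1..x2, g (x + y1 * I)) - (∫ x in x1..x2, g (x + y2 * I)) +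
      I * (∫ y in y1..y2, g (x2 + y * I)) - I * (∫ y in y1..y2, g (x1 + y * I)) = 0 := by
    intro x1 x2 y1 y2 hx hy hR
    have h1 := rect_all hc hΛ hrel hx hy hR
    have hcR : ContinuousOn h (Rc ω x1 x2 y1 y2) := hc.mono hR
    have i1 : ∀ y, y1 ≤ y → y ≤ y2 → IntervalIntegrable (fun x => h (pt ω x y)) volume x1 x2 := by
      intro y a b
      apply ContinuousOn.intervalIntegrable
      rw [uIcc_of_le hx]
      exact hcR.comp (pt_cont2 ω y).continuousOn (fun x hx => mem_Rc hx.1 hx.2 a b)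
    have i2 : ∀ x, x1 ≤ x → x ≤ x2 → IntervalIntegrable (fun y => h (pt ω x y)) volume y1 y2 := by
      intro x a b
      apply ContinuousOn.intervalIntegrable
      rw [uIcc_of_le hy]
      exact hcR.comp (pt_cont1 ω x).continuousOn (fun y hy => mem_Rc a b hy.1 hy.2)
    rw [intervalIntegral.integral_sub (i1 y2 hy le_rfl) (i1 y1 le_rfl hy),
      intervalIntegral.integral_sub (i2 x2 hx le_rfl) (i2 x1 le_rfl hx)] at h1
    change (∫ x in x1..x2, h (pt ω x y1)) - (∫ x in x1..x2, h (pt ω x y2)) +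
      I * (∫ y in y1..y2, h (pt ω x2 y)) - I * (∫ y in y1..y2, h (pt ω x1 y)) = 0
    linear_combination -h1
  have hcons : Complex.IsConservativeOn g T := by
    intro z w hzw
    rw [← add_eq_zero_iff_eq_neg, Complex.wedgeIntegral_add_wedgeIntegral_eq]
    simp only [smul_eq_mul]
    have hsub : Rc ω (min z.re w.re) (max z.re w.re) (min z.im w.im) (max z.im w.im) ⊆ S := by
      rintro _ ⟨q, ⟨⟨q1, q2⟩, ⟨q3, q4⟩⟩, rfl⟩
      have : ((q.1 : ℂ) + q.2 * I) ∈ T := by
        apply hzw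
        rw [Complex.Rectangle, Complex.mem_reProdIm]
        simp only [Complex.add_re, Complex.ofReal_re, Complex.mul_re, Complex.I_re, mul_zero,
          Complex.ofReal_im, Complex.I_im, mul_one, sub_self, add_zero, Complex.add_im,
          Complex.mul_im, zero_add]
        exact ⟨⟨q1, q2⟩, ⟨q3, q4⟩⟩
      exact this
    have h1 := key _ _ _ _ min_le_max min_le_max hsub
    rcases le_total z.re w.re with hre | hre <;> rcases le_total z.im w.im with him | him
    · rw [min_eq_left hre, max_eq_right hre, min_eq_left him, max_eq_right him] at h1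
      exact h1
    · rw [min_eq_left hre, max_eq_right hre, min_eq_right him, max_eq_left him] at h1
      rw [intervalIntegral.integral_symm w.im z.im, intervalIntegral.integral_symm w.im z.im]
      linear_combination -h1
    · rw [min_eq_right hre, max_eq_left hre, min_eq_left him, max_eq_right him] at h1
      rw [intervalIntegral.integral_symm w.re z.re, intervalIntegral.integral_symm w.re z.re]
      linear_combination -h1
    · rw [min_eq_right hre, max_eq_left hre, min_eq_right him, max_eq_left him] at h1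
      rw [intervalIntegral.integral_symm w.re z.re, intervalIntegral.integral_symm w.re z.re,
        intervalIntegral.integral_symm w.im z.im, intervalIntegral.integral_symm w.im z.im]
      linear_combination h1
  have hgd : DifferentiableOn ℂ g T :=
    (Complex.isConservativeOn_and_continuousOn_iff_isDifferentiableOn hTo).mp ⟨hcons, hgc⟩
  have hcomp : DifferentiableOn ℂ (fun z => g (z / ω)) S := by
    apply hgd.comp (by fun_prop)
    intro z hz
    change z / ω * ω ∈ S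
    rwa [div_mul_cancel₀ _ hω]
  refine hcomp.congr (fun z hz => ?_)
  simp only [hg]
  rw [div_mul_cancel₀ _ hω]

theorem pt_div {ω : ℂ} (hω : ω ≠ 0) (x y : ℝ) : (pt ω x y / ω).im = y := by
  unfold pt
  rw [mul_div_cancel_right₀ _ hω]
  simp

theorem norm_one_ne {ω : ℂ} (hω : ‖ω‖ = 1) : ω ≠ 0 := by
  rintro rfl; simp at hω

/-- the set `S` without the lines at the heights `Λ` (frame `ω`) -/
def offL (S : Set ℂ) (ω : ℂ) (Λ : Set ℝ) : Set ℂ := {z | z ∈ S ∧ (z / ω).im ∉ Λ}

theorem offL_open {S : Set ℂ} (hS : IsOpen S) (ω : ℂ) {Λ : Set ℝ} (hΛ : Λ.Finite) :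
    IsOpen (offL S ω Λ) := by
  have h1 : IsOpen {z : ℂ | (z / ω).im ∉ Λ} :=
    (hΛ.isClosed.isOpen_compl).preimage (Complex.continuous_im.comp (continuous_id.div_const ω))
  exact hS.inter h1

/-- **holomorphic limit**: `c = i` -/
theorem hol_lim {l : Filter ℕ} [l.NeBot] {S : Set ℂ} {H : ℕ → ℂ → ℂ} {h : ℂ → ℂ}
    (hS : IsOpen S) (hA : AEq l S H) (hP : PLim l S H h) {ω : ℂ} (hω : ‖ω‖ = 1)
    {r : ℕ → ℝ} (hr : ∀ᶠ n in l, 0 < r n) (hr0 : Tendsto r l (𝓝 0)) {Λ : Set ℝ} (hΛ : Λ.Finite)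
    (hD : DCR l (offL S ω Λ) ω I r H) : DifferentiableOn ℂ h S := by
  have hsub : offL S ω Λ ⊆ S := fun z hz => hz.1
  refine morera_lines hS (lim_contOn hA hP hS) (norm_one_ne hω) hΛ ?_
  intro x1 x2 y1 y2 hx hy hR hy'
  refine rect_lim (S := offL S ω Λ) (offL_open hS ω hΛ) (hA.mono le_rfl hsub)
    (fun z hz => hP z hz.1) hω hr hr0 hD hx hy ?_
  rintro _ ⟨q, ⟨⟨q1, q2⟩, ⟨q3, q4⟩⟩, rfl⟩
  refine ⟨hR (mem_Rc q1 q2 q3 q4), ?_⟩
  rw [pt_div (norm_one_ne hω)]
  exact hy' _ ⟨q3, q4⟩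

/-- complex conjugate family -/
theorem AEq.conj {l : Filter ℕ} {S : Set ℂ} {H : ℕ → ℂ → ℂ} (hA : AEq l S H) :
    AEq l S (fun n z => (starRingEnd ℂ) (H n z)) := by
  intro K hK hKS ε hε
  obtain ⟨d, hd, h1⟩ := hA K hK hKS ε hε
  refine ⟨d, hd, ?_⟩
  filter_upwards [h1] with n hn z hz w hw hzw
  rw [← map_sub, RCLike.norm_conj]
  exact hn z hz w hw hzw

theorem PLim.conj {l : Filter ℕ} {S : Set ℂ} {H : ℕ → ℂ → ℂ} {h : ℂ → ℂ} (hP : PLim l S H h) :
    PLim l S (fun n z => (starRingEnd ℂ) (H n z)) (fun z => (starRingEnd ℂ) (h z)) := by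
  intro z hz
  exact (Complex.continuous_conj.tendsto _).comp (hP z hz)

theorem DCR.conj {l : Filter ℕ} {S : Set ℂ} {ω : ℂ} {r : ℕ → ℝ} {H : ℕ → ℂ → ℂ}
    (hD : DCR l S ω (-I) r H) : DCR l S ω I r (fun n z => (starRingEnd ℂ) (H n z)) := by
  intro K hK hKS ε hε
  filter_upwards [hD K hK hKS ε hε] with n hn z hz
  have h1 := hn z hz
  rw [← RCLike.norm_conj] at h1
  simp only [map_sub, map_mul, map_neg, Complex.conj_I, neg_neg] at h1
  exact h1

/-- **antiholomorphic limit**: `c = -i` -/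
theorem antihol_lim {l : Filter ℕ} [l.NeBot] {S : Set ℂ} {H : ℕ → ℂ → ℂ} {h : ℂ → ℂ}
    (hS : IsOpen S) (hA : AEq l S H) (hP : PLim l S H h) {ω : ℂ} (hω : ‖ω‖ = 1)
    {r : ℕ → ℝ} (hr : ∀ᶠ n in l, 0 < r n) (hr0 : Tendsto r l (𝓝 0)) {Λ : Set ℝ} (hΛ : Λ.Finite)
    (hD : DCR l (offL S ω Λ) ω (-I) r H) :
    DifferentiableOn ℂ (fun z => (starRingEnd ℂ) (h z)) S :=
  hol_lim hS hA.conj hP.conj hω hr hr0 hΛ hD.conj

end

end Crest.Agent.R158.Sk656
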