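import Crest.Agent.R158.Sk2_656
import Crest.Agent.R158.Cd4_83

/-!
R158, skeleton seat (helper656), part 3: the two-parameter abstract form of S0237.

`ObsK γ p up`: lattice functions `H k n` (`k` = index of the environment (comb / polygon), `n` = mesh
index) with the discrete Cauchy-Riemann relation, asymptotic equicontinuity inside, boundary
conditions on the three open arcs, the value near `γ (1/4)`, and the one-sided comparison of the
number `q k n` with `p n`.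
`Ident γ X`: the identification theorem in limit form (bounded (anti)holomorphic functions with these
boundary conditions tend to `1 + (om-1) X` at `γ (1/4)`).
`lim_of_obsK`: `Ident`, `ObsK .. true` and `ObsK .. false` give `p n → X`.
-/

set_option autoImplicit false

namespace Crest.Agent.R158.Sk656

open Filter Topology Set Metric MeasureTheory
open Complex (I)
open Crest.ProbabilityR.Percolation
open Crest.Agent.R158.Cd83

noncomputable section

/-- the three side functionals: `0` on the line of the side of the triangle `1, om, om²` -/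
def sd1 (w : ℂ) : ℝ := ((w - 1) / (om - 1)).im
def sd2 (w : ℂ) : ℝ := ((w - om) / (om * (om - 1))).im
def sd3 (w : ℂ) : ℝ := ((w - om ^ 2) / (om ^ 2 * (om - 1))).im

theorem sd1_cont : Continuous sd1 := by unfold sd1; fun_prop
theorem sd2_cont : Continuous sd2 := by unfold sd2; fun_prop
theorem sd3_cont : Continuous sd3 := by unfold sd3; fun_prop

/-- `(O4)`: boundary condition on the open arc `γ '' J`, side functional `s` -/
def BCk (D : Set ℂ) (γ : ℝ → ℂ) (J : Set ℝ) (s : ℂ → ℝ) (H : ℕ → ℕ → ℂ → ℂ) : Prop :=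
  ∀ t ∈ J, ∀ ε : ℝ, 0 < ε → ∃ V ∈ 𝓝 (γ t), ∀ z ∈ V ∩ D, ∀ᶠ k in atTop, ∀ᶠ n in atTop,
    |s (H k n z)| ≤ ε

/-- One side of the sandwich (`up = true`: `p ≤ q + ε`; `up = false`: `q ≤ p + ε`). -/
structure ObsK (γ : ℝ → ℂ) (p : ℕ → ℝ) (up : Bool) where
  /-- the domain of the `k`-th environment -/
  S : ℕ → Set ℂ
  /-- direction of the rows -/
  ω : ℂ
  /-- `I`: holomorphic, `-I`: antiholomorphic -/
  c : ℂ
  /-- step -/
  r : ℕ → ℕ → ℝ
  /-- exceptional heights -/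
  Λ : ℕ → Set ℝ
  /-- observable -/
  H : ℕ → ℕ → ℂ → ℂ
  /-- crossing probability of the environment -/
  q : ℕ → ℕ → ℝ
  /-- bound -/
  B : ℝ
  hω : ‖ω‖ = 1
  hc : c = I ∨ c = -I
  S_open : ∀ k, IsOpen (S k)
  Λ_fin : ∀ k, (Λ k).Finite
  S_ex : ∀ K : Set ℂ, IsCompact K → K ⊆ jordanInterior γ → ∀ᶠ k in atTop, K ⊆ S k
  r_pos : ∀ k, ∀ᶠ n in atTop, 0 < r k n
  r_lim : ∀ k, Tendsto (r k) atTop (𝓝 0)
  q01 : ∀ k, ∀ᶠ n in atTop, 0 ≤ q k n ∧ q k n ≤ 1
  O1 : ∀ k, ∀ z ∈ S k, ∀ᶠ n in atTop, ‖H k n z‖ ≤ B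
  O2 : ∀ k, AEq atTop (S k) (H k)
  O3 : ∀ k, DCR atTop (offL (S k) ω (Λ k)) ω c (r k) (H k)
  O4a : BCk (jordanInterior γ) γ (Ioo 0 (1 / 2)) sd1 H
  O4b : BCk (jordanInterior γ) γ (Ioo (1 / 2) (3 / 4)) sd2 H
  O4c : BCk (jordanInterior γ) γ (Ioo (3 / 4) 1) sd3 H
  O5 : ∀ ε : ℝ, 0 < ε → ∃ V ∈ 𝓝 (γ (1 / 4)), ∀ z ∈ V ∩ jordanInterior γ, ∀ᶠ k in atTop,
    ∀ᶠ n in atTop, ‖H k n z - (1 + (om - 1) * (q k n : ℂ))‖ ≤ ε
  O6 : ∀ ε : ℝ, 0 < ε → ∀ᶠ k in atTop, ∀ᶠ n in atTop,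
    if up then p n ≤ q k n + ε else q k n ≤ p n + ε

/-- The identification theorem in limit form. -/
def Ident (γ : ℝ → ℂ) (X : ℝ) : Prop :=
  ∀ h : ℂ → ℂ, (∃ M : ℝ, ∀ z ∈ jordanInterior γ, ‖h z‖ ≤ M) →
    (DifferentiableOn ℂ h (jordanInterior γ) ∨
      DifferentiableOn ℂ (fun z => (starRingEnd ℂ) (h z)) (jordanInterior γ)) →
    (∀ t ∈ Ioo (0 : ℝ) (1 / 2), Tendsto (fun z => sd1 (h z)) (𝓝[jordanInterior γ] (γ t)) (𝓝 0)) →
    (∀ t ∈ Ioo (1 / 2 : ℝ) (3 / 4), Tendsto (fun z => sd2 (h z)) (𝓝[jordanInterior γ] (γ t)) (𝓝 0)) →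
    (∀ t ∈ Ioo (3 / 4 : ℝ) 1, Tendsto (fun z => sd3 (h z)) (𝓝[jordanInterior γ] (γ t)) (𝓝 0)) →
    Tendsto h (𝓝[jordanInterior γ] (γ (1 / 4))) (𝓝 (1 + (om - 1) * (X : ℂ)))

/-- real ultrafilter limits -/
theorem exists_lim_real {U : Ultrafilter ℕ} {f : ℕ → ℝ} {a b : ℝ}
    (h : ∀ᶠ n in (U : Filter ℕ), a ≤ f n ∧ f n ≤ b) : ∃ x, Tendsto f U (𝓝 x) := by
  have hc : IsCompact (Icc a b) := isCompact_Icc
  obtain ⟨x, -, hx⟩ := hc.ultrafilter_le_nhds (U.map f) (by
    rw [le_principal_iff]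
    change f ⁻¹' (Icc a b) ∈ (U : Filter ℕ)
    filter_upwards [h] with n hn
    exact hn)
  exact ⟨x, hx⟩

/-- bounded holomorphic functions on growing domains are equicontinuous -/
theorem aeq_of_bounded {l : Filter ℕ} {D : Set ℂ} (hD : IsOpen D) {S : ℕ → Set ℂ}
    (hex : ∀ K : Set ℂ, IsCompact K → K ⊆ D → ∀ᶠ k in l, K ⊆ S k)
    {g : ℕ → ℂ → ℂ} {B : ℝ} (hB : ∀ k, ∀ z ∈ S k, ‖g k z‖ ≤ B)
    (hd : ∀ k, DifferentiableOn ℂ (g k) (S k)) : AEq l D g := by
  intro K hK hKD ε hε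
  obtain ⟨r, hr, hrD⟩ := hK.exists_cthickening_subset_open hD hKD
  have hK' : IsCompact (cthickening r K) := hK.cthickening
  set B' := max B 0 with hB'
  have hB'0 : 0 ≤ B' := le_max_right _ _
  refine ⟨min r (ε * r / (2 * B' + 1)), lt_min hr (by positivity), ?_⟩
  filter_upwards [hex _ hK' hrD] with k hk z hz w hw hzw
  have hball : ball w r ⊆ S k := by
    refine subset_trans ?_ hk
    exact (ball_subset_closedBall).trans (closedBall_subset_cthickening hw r)
  have hmaps : MapsTo (g k) (ball w r) (closedBall (g k w) (2 * B' + 1)) := by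
    intro u hu
    have b1 := hB k u (hball hu)
    have b2 := hB k w (hball (mem_ball_self hr))
    have b3 : B ≤ B' := le_max_left _ _
    rw [mem_closedBall, dist_eq_norm]
    exact (norm_sub_le _ _).trans (by linarith)
  have h2 : z ∈ ball w r := by rw [mem_ball]; exact hzw.trans_le (min_le_left _ _)
  have h3 := Complex.dist_le_div_mul_dist_of_mapsTo_ball ((hd k).mono hball) hmaps h2
  rw [← dist_eq_norm]
  refine h3.trans ?_
  have h4 : dist z w ≤ ε * r / (2 * B' + 1) := (hzw.trans_le (min_le_right _ _)).le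
  calc (2 * B' + 1) / r * dist z w ≤ (2 * B' + 1) / r * (ε * r / (2 * B' + 1)) :=
        mul_le_mul_of_nonneg_left h4 (by positivity)
    _ = ε := by field_simp

/-- limits of locally uniformly bounded holomorphic functions on growing domains -/
theorem hol_of_growing {l : Filter ℕ} [l.NeBot] {D : Set ℂ} (hD : IsOpen D) {S : ℕ → Set ℂ}
    (hex : ∀ K : Set ℂ, IsCompact K → K ⊆ D → ∀ᶠ k in l, K ⊆ S k)
    {g : ℕ → ℂ → ℂ} {B : ℝ} (hB : ∀ k, ∀ z ∈ S k, ‖g k z‖ ≤ B)
    (hd : ∀ k, DifferentiableOn ℂ (g k) (S k)) {h : ℂ → ℂ} (hP : PLim l D g h) :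
    DifferentiableOn ℂ h D := by
  intro z hz
  obtain ⟨r, hr, hrD⟩ := Metric.isOpen_iff.mp hD z hz
  have hKD : closedBall z (r / 2) ⊆ D := (closedBall_subset_ball (by linarith)).trans hrD
  have hK := isCompact_closedBall z (r / 2)
  have hev := hex _ hK hKD
  have hu : TendstoLocallyUniformlyOn g h l (ball z (r / 2)) := by
    apply TendstoUniformlyOn.tendstoLocallyUniformlyOn
    rw [Metric.tendstoUniformlyOn_iff]
    intro ε hε
    filter_upwards [lim_unif (aeq_of_bounded hD hex hB hd) hP hK hKD (half_pos hε)] with n hn w hw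
    have := hn w (ball_subset_closedBall hw)
    rw [dist_comm, dist_eq_norm]
    linarith
  have h1 : DifferentiableOn ℂ h (ball z (r / 2)) := by
    apply hu.differentiableOn _ isOpen_ball
    filter_upwards [hev] with k hk
    exact (hd k).mono (ball_subset_closedBall.trans hk)
  exact (h1.differentiableAt (ball_mem_nhds z (by linarith))).differentiableWithinAt

/-- the double limit -/
theorem obsK_limit {γ : ℝ → ℂ} (hopen : IsOpen (jordanInterior γ)) {p : ℕ → ℝ} {up : Bool}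
    (O : ObsK γ p up) {X : ℝ} (hI : Ident γ X) (hne : (𝓝[jordanInterior γ] (γ (1 / 4))).NeBot)
    (U V : Ultrafilter ℕ) (hU : (U : Filter ℕ) ≤ atTop) (hV : (V : Filter ℕ) ≤ atTop) :
    ∃ Q : ℕ → ℝ, (∀ k, Tendsto (O.q k) U (𝓝 (Q k))) ∧ Tendsto Q V (𝓝 X) := by
  have hq : ∀ k, ∃ x, Tendsto (O.q k) U (𝓝 x) := fun k =>
    exists_lim_real ((O.q01 k).filter_mono hU)
  choose Q hQ using hq
  have hQ01 : ∀ k, 0 ≤ Q k ∧ Q k ≤ 1 := fun k =>
    ⟨ge_of_tendsto (hQ k) (((O.q01 k).filter_mono hU).mono fun n hn => hn.1),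
      le_of_tendsto (hQ k) (((O.q01 k).filter_mono hU).mono fun n hn => hn.2)⟩
  obtain ⟨x, hx⟩ := exists_lim_real (U := V) (Eventually.of_forall hQ01)
  refine ⟨Q, hQ, ?_⟩
  -- the functions `g k`
  set g : ℕ → ℂ → ℂ := fun k z => ul U (fun n => O.H k n z) with hg
  have hgP : ∀ k, PLim U (O.S k) (O.H k) (g k) := fun k z hz =>
    ul_tendsto ((O.O1 k z hz).filter_mono hU)
  have hgB : ∀ k, ∀ z ∈ O.S k, ‖g k z‖ ≤ O.B := fun k z hz =>
    norm_le_of_lim (hgP k z hz) ((O.O1 k z hz).filter_mono hU)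
  set h : ℂ → ℂ := fun z => ul V (fun k => g k z) with hh
  have hev : ∀ z ∈ jordanInterior γ, ∀ᶠ k in atTop, z ∈ O.S k := by
    intro z hz
    filter_upwards [O.S_ex {z} isCompact_singleton (by simpa using hz)] with k hk
    exact hk rfl
  have hhP : PLim V (jordanInterior γ) g h := by
    intro z hz
    apply ul_tendsto (B := O.B)
    filter_upwards [(hev z hz).filter_mono hV] with k hk using hgB k z hk
  have hhB : ∀ z ∈ jordanInterior γ, ‖h z‖ ≤ O.B := fun z hz =>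
    norm_le_of_lim (hhP z hz) (by
      filter_upwards [(hev z hz).filter_mono hV] with k hk using hgB k z hk)
  have hex : ∀ K : Set ℂ, IsCompact K → K ⊆ jordanInterior γ →
      ∀ᶠ k in (V : Filter ℕ), K ⊆ O.S k := fun K hK hKD => (O.S_ex K hK hKD).filter_mono hV
  have hhol : DifferentiableOn ℂ h (jordanInterior γ) ∨
      DifferentiableOn ℂ (fun z => (starRingEnd ℂ) (h z)) (jordanInterior γ) := by
    rcases O.hc with hc | hc
    · left
      have hgd : ∀ k, DifferentiableOn ℂ (g k) (O.S k) := fun k =>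
        hol_lim (O.S_open k) ((O.O2 k).mono hU le_rfl) (hgP k) O.hω ((O.r_pos k).filter_mono hU)
          ((O.r_lim k).mono_left hU) (O.Λ_fin k) (by
            have := O.O3 k
            rw [hc] at this
            intro K hK hKS ε hε
            exact (this K hK hKS ε hε).filter_mono hU)
      exact hol_of_growing hopen hex hgB hgd hhP
    · right
      have hgd : ∀ k, DifferentiableOn ℂ (fun z => (starRingEnd ℂ) (g k z)) (O.S k) := fun k =>
        antihol_lim (O.S_open k) ((O.O2 k).mono hU le_rfl) (hgP k) O.hω ((O.r_pos k).filter_mono hU)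
          ((O.r_lim k).mono_left hU) (O.Λ_fin k) (by
            have := O.O3 k
            rw [hc] at this
            intro K hK hKS ε hε
            exact (this K hK hKS ε hε).filter_mono hU)
      exact hol_of_growing hopen hex (B := O.B) (fun k z hz => by
        rw [RCLike.norm_conj]; exact hgB k z hz) hgd hhP.conj
  -- boundary conditions
  have hbc : ∀ (s : ℂ → ℝ), Continuous s → ∀ J : Set ℝ, BCk (jordanInterior γ) γ J s O.H →
      ∀ t ∈ J, Tendsto (fun z => s (h z)) (𝓝[jordanInterior γ] (γ t)) (𝓝 0) := by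
    intro s hs J hJ t ht
    rw [Metric.tendsto_nhds]
    intro ε hε
    obtain ⟨W, hW, hW2⟩ := hJ t ht (ε / 2) (half_pos hε)
    filter_upwards [mem_nhdsWithin_of_mem_nhds hW, self_mem_nhdsWithin] with z hz1 hz2
    have h1 := (hW2 z ⟨hz1, hz2⟩).filter_mono hV
    have h2 : ∀ᶠ k in (V : Filter ℕ), |s (g k z)| ≤ ε / 2 := by
      filter_upwards [h1, (hev z hz2).filter_mono hV] with k hk hk2
      have h3 : Tendsto (fun n => |s (O.H k n z)|) U (𝓝 |s (g k z)|) :=
        (((hs.tendsto _).comp (hgP k z hk2))).abs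
      exact le_of_tendsto h3 (hk.filter_mono hU)
    have h4 : Tendsto (fun k => |s (g k z)|) V (𝓝 |s (h z)|) :=
      ((hs.tendsto _).comp (hhP z hz2)).abs
    have h5 := le_of_tendsto h4 h2
    rw [Real.dist_eq, sub_zero]
    linarith
  have hT := hI h ⟨O.B, hhB⟩ hhol (hbc sd1 sd1_cont _ O.O4a) (hbc sd2 sd2_cont _ O.O4b)
    (hbc sd3 sd3_cont _ O.O4c)
  -- value at `γ (1/4)`
  have hval : Tendsto h (𝓝[jordanInterior γ] (γ (1 / 4))) (𝓝 (1 + (om - 1) * (x : ℂ))) := by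
    rw [Metric.tendsto_nhds]
    intro ε hε
    obtain ⟨W, hW, hW2⟩ := O.O5 (ε / 2) (half_pos hε)
    filter_upwards [mem_nhdsWithin_of_mem_nhds hW, self_mem_nhdsWithin] with z hz1 hz2
    have h1 := (hW2 z ⟨hz1, hz2⟩).filter_mono hV
    have h2 : ∀ᶠ k in (V : Filter ℕ), ‖g k z - (1 + (om - 1) * (Q k : ℂ))‖ ≤ ε / 2 := by
      filter_upwards [h1, (hev z hz2).filter_mono hV] with k hk hk2
      have h3 : Tendsto (fun n => O.H k n z - (1 + (om - 1) * (O.q k n : ℂ))) U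
          (𝓝 (g k z - (1 + (om - 1) * (Q k : ℂ)))) :=
        (hgP k z hk2).sub (tendsto_const_nhds.add
          (((Complex.continuous_ofReal.tendsto _).comp (hQ k)).const_mul _))
      exact norm_le_of_lim h3 (hk.filter_mono hU)
    have h4 : Tendsto (fun k => g k z - (1 + (om - 1) * (Q k : ℂ))) V
        (𝓝 (h z - (1 + (om - 1) * (x : ℂ)))) :=
      (hhP z hz2).sub (tendsto_const_nhds.add
        (((Complex.continuous_ofReal.tendsto _).comp hx).const_mul _))
    have h5 := norm_le_of_lim h4 h2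
    rw [dist_eq_norm]
    linarith
  have heq := tendsto_nhds_unique hT hval
  have hxX : x = X := by
    have h1 : (om - 1) * (X : ℂ) = (om - 1) * (x : ℂ) := add_left_cancel heq
    have h2 := mul_left_cancel₀ om_sub_ne h1
    exact_mod_cast h2.symm
  rw [← hxX]
  exact hx

/-- **The sandwich.** -/
theorem lim_of_obsK {γ : ℝ → ℂ} (hopen : IsOpen (jordanInterior γ)) {p : ℕ → ℝ}
    {X : ℝ} (hI : Ident γ X) (hne : (𝓝[jordanInterior γ] (γ (1 / 4))).NeBot)
    (Olo : Nonempty (ObsK γ p false)) (Oup : Nonempty (ObsK γ p true)) :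
    Tendsto p atTop (𝓝 X) := by
  obtain ⟨O1⟩ := Olo
  obtain ⟨O2⟩ := Oup
  rw [Metric.tendsto_nhds]
  intro ε hε
  by_contra hcon
  have hfr : ∃ᶠ n in atTop, ¬ dist (p n) X < ε := by
    rw [not_eventually] at hcon
    exact hcon
  obtain ⟨U, hU1, hU2⟩ : ∃ U : Ultrafilter ℕ, (U : Filter ℕ) ≤ atTop ∧
      {n | ¬ dist (p n) X < ε} ∈ (U : Filter ℕ) := by
    have hne' : (atTop ⊓ 𝓟 {n : ℕ | ¬ dist (p n) X < ε}).NeBot := by
      rw [← frequently_mem_iff_neBot]
      exact hfr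
    refine ⟨Ultrafilter.of (atTop ⊓ 𝓟 {n : ℕ | ¬ dist (p n) X < ε}), ?_, ?_⟩
    · exact (Ultrafilter.of_le _).trans inf_le_left
    · exact ((Ultrafilter.of_le _).trans inf_le_right) (mem_principal_self _)
  obtain ⟨V, hV⟩ : ∃ V : Ultrafilter ℕ, (V : Filter ℕ) ≤ atTop :=
    ⟨Ultrafilter.of atTop, Ultrafilter.of_le _⟩
  obtain ⟨Q1, hQ1, hX1⟩ := obsK_limit hopen O1 hI hne U V hU1 hV
  obtain ⟨Q2, hQ2, hX2⟩ := obsK_limit hopen O2 hI hne U V hU1 hV
  -- choose `k`
  have a1 : ∀ᶠ k in (V : Filter ℕ), X - ε / 4 < Q1 k := (tendsto_order.mp hX1).1 _ (by linarith)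
  have a2 : ∀ᶠ k in (V : Filter ℕ), Q2 k < X + ε / 4 := (tendsto_order.mp hX2).2 _ (by linarith)
  have b1 := (O1.O6 (ε / 4) (by linarith)).filter_mono hV
  have b2 := (O2.O6 (ε / 4) (by linarith)).filter_mono hV
  obtain ⟨k, hk1, hk2, hk3, hk4⟩ := (a1.and (a2.and (b1.and b2))).exists
  have c1 : ∀ᶠ n in (U : Filter ℕ), X - ε / 4 < O1.q k n := (tendsto_order.mp (hQ1 k)).1 _ hk1
  have c2 : ∀ᶠ n in (U : Filter ℕ), O2.q k n < X + ε / 4 := (tendsto_order.mp (hQ2 k)).2 _ hk2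
  obtain ⟨n, hn1, hn2, hn3, hn4, hn5⟩ := (c1.and (c2.and ((hk3.filter_mono hU1).and
    ((hk4.filter_mono hU1).and hU2)))).exists
  apply hn5
  simp only [Bool.false_eq_true, if_false] at hn3
  simp only [if_true] at hn4
  rw [Real.dist_eq, abs_lt]
  constructor <;> linarith

end

end Crest.Agent.R158.Sk656
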