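import Crest.Agent.R158.Sk3_656
import Crest.Agent.R158.Cd10_83

/-!
R158, skeleton seat (helper656), part 4: the literal S0237 from `ObsK`.
-/

set_option autoImplicit false

namespace Crest.Agent.R158.Sk656

open Filter Topology Set Metric MeasureTheory
open Complex (I)
open Crest.ProbabilityR.Percolation
open Crest.Agent.R158.Cd83

noncomputable section

/-- the literal statement S0237 -/
def S0237Body : Prop :=
  ∀ (γ : ℝ → ℂ) (_ : IsJordanCurve γ)
    (δ : ℕ → ℝ) (_ : ∀ n, 0 < δ n) (_ : Antitone δ)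
    (_ : Filter.Tendsto δ Filter.atTop (nhds 0))
    (γs : ℕ → ℝ → ℂ) (_ : ∀ n, IsGridPolygon (δ n) (γs n))
    (_ : TendstoUniformlyOn γs γ Filter.atTop (Set.Icc 0 1))
    (φ : ℂ → ℂ) (_ : ContinuousOn φ (closure (jordanInterior γ)))
    (_ : Set.InjOn φ (closure (jordanInterior γ)))
    (_ : DifferentiableOn ℂ φ (jordanInterior γ))
    (_ : φ '' jordanInterior γ = Metric.ball 0 1),
    Filter.Tendsto (fun n : ℕ => (arcCrossingProb (δ n) (γs n)).toReal) Filter.atTop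
      (nhds (cardyRatio
        (crossRatioAt (φ (γ 0)) (φ (γ (1 / 4))) (φ (γ (1 / 2))) (φ (γ (3 / 4))))))

/-- 83's identification theorem in the form `Ident` -/
theorem ident_of {γ : ℝ → ℂ} {φ : ℂ → ℂ} (C : CDat γ φ) :
    Ident γ (cardyRatio
      (crossRatioAt (φ (γ 0)) (φ (γ (1 / 4))) (φ (γ (1 / 2))) (φ (γ (3 / 4))))) := by
  rintro h ⟨M, hM⟩ hhol b1 b2 b3
  exact ident C hM hhol b1 b2 b3

theorem nhdsWithin_gam_neBot {γ : ℝ → ℂ} {φ : ℂ → ℂ} (C : CDat γ φ) {t : ℝ} (ht : t ∈ Icc (0 : ℝ) 1) :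
    (𝓝[jordanInterior γ] (γ t)).NeBot := by
  rw [← mem_closure_iff_nhdsWithin_neBot]
  exact C.gam_mem ht

/-- all the data of S0237 except `φ` give the two sides of the sandwich -/
def ObsAll : Prop :=
  ∀ (γ : ℝ → ℂ) (_ : IsJordanCurve γ) (_ : (jordanInterior γ).Nonempty)
    (δ : ℕ → ℝ) (_ : ∀ n, 0 < δ n) (_ : Filter.Tendsto δ Filter.atTop (nhds 0))
    (γs : ℕ → ℝ → ℂ) (_ : ∀ n, IsGridPolygon (δ n) (γs n))
    (_ : TendstoUniformlyOn γs γ Filter.atTop (Set.Icc 0 1)) (up : Bool),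
    Nonempty (ObsK γ (fun n => (arcCrossingProb (δ n) (γs n)).toReal) up)

theorem S0237_of_ObsAll (h : ObsAll) : S0237Body := by
  intro γ hγ δ hδ _ hδ0 γs hγs hunif φ hφc hφi hφd hφD
  have C : CDat γ φ := ⟨hγ, hφc, hφi, hφd, hφD⟩
  have hne := nhdsWithin_gam_neBot C (t := 1 / 4) ⟨by norm_num, by norm_num⟩
  exact lim_of_obsK C.opn (ident_of C) hne
    (h γ hγ C.nonempty δ hδ hδ0 γs hγs hunif false)
    (h γ hγ C.nonempty δ hδ hδ0 γs hγs hunif true)

end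

end Crest.Agent.R158.Sk656
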