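import Crest.Agent.R158.Sl9_434

/-!
# R158, block SL (helper434), file Sl10: the right mouth

* `beD` calculus : `bW`, `bE`, `bN`, `bS`, ..
* **`loc_right`** : the region `(B, beD B p y0 xe)` contains the stepped half annulus
  `stp xr y0 r n 1` around the right end `(xr, y0)` of the line
* **`eqF_right`** : adding tiles behind the wall inside the ball does not change the far part
-/

set_option autoImplicit false
set_option linter.unusedSectionVars false

noncomputable section

namespace Crest.Agent.R158.Sl434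

open Crest.Agent.R158.Sw300 (Port Wd thru tls)
open Crest.Agent.R158.Gc748 (RW stp InS JoW JoN JoS JlS JlE JlN fl mem_fl mem_stp)
open Crest.Agent.R158.Xr249 (Nx rot Reg)
open Crest.Agent.R158.Env664

/-! ### the glueing `beD` -/

section beD

variable {B : Finset (ℤ × ℤ)} {p y0 xe x y : ℤ}

theorem res_fix {A : Finset (ℤ × ℤ)} {nb : Port (ℤ × ℤ) → Port (ℤ × ℤ)} {x : Port (ℤ × ℤ)}
    (h : ¬ (PortOf A x ∧ PortOf A (nb x))) : res A nb x = x := by
  unfold res; rw [if_neg h]

theorem bW (h : (x, y) ∈ B) (h' : (x - 1, y) ∈ B) :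
    beD B p y0 xe (some ((x, y), 0)) = some ((x - 1, y), 2) := by
  unfold beD
  rw [res_of (portOf_some.2 h) (by rw [nbD_W]; exact portOf_some.2 h'), nbD_W]

theorem bE (h : (x, y) ∈ B) (h' : (x + 1, y) ∈ B) :
    beD B p y0 xe (some ((x, y), 2)) = some ((x + 1, y), 0) := by
  unfold beD
  rw [res_of (portOf_some.2 h) (by rw [nbD_E]; exact portOf_some.2 h'), nbD_E]

theorem bE' (h' : (x + 1, y) ∉ B) :
    beD B p y0 xe (some ((x, y), 2)) = some ((x, y), 2) := by
  unfold beD
  rw [res_fix]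
  rintro ⟨-, h2⟩
  rw [nbD_E] at h2
  exact h' (portOf_some.1 h2)

theorem bW' (h' : (x - 1, y) ∉ B) :
    beD B p y0 xe (some ((x, y), 0)) = some ((x, y), 0) := by
  unfold beD
  rw [res_fix]
  rintro ⟨-, h2⟩
  rw [nbD_W] at h2
  exact h' (portOf_some.1 h2)

theorem bN (hc : ¬ (y = y0 - 1 ∧ p ≤ x ∧ x ≤ xe)) (h : (x, y) ∈ B) (h' : (x, y + 1) ∈ B) :
    beD B p y0 xe (some ((x, y), 1)) = some ((x, y + 1), 3) := by
  unfold beD
  rw [res_of (portOf_some.2 h) (by rw [nbD_N hc]; exact portOf_some.2 h'), nbD_N hc]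

theorem bN1 (hc : p ≤ x ∧ x ≤ xe) (h : (x, y0 - 1) ∈ B) (h' : (x + 1, y0) ∈ B) :
    beD B p y0 xe (some ((x, y0 - 1), 1)) = some ((x + 1, y0), 3) := by
  unfold beD
  rw [res_of (portOf_some.2 h) (by rw [nbD_N1 ⟨rfl, hc⟩]; exact portOf_some.2 h'),
    nbD_N1 ⟨rfl, hc⟩]

theorem bS (hc : ¬ (y = y0 ∧ p ≤ x ∧ x ≤ xe) ∧ ¬ (y = y0 ∧ x = p)) (h : (x, y) ∈ B)
    (h' : (x, y - 1) ∈ B) : beD B p y0 xe (some ((x, y), 3)) = some ((x, y - 1), 1) := by
  unfold beD
  rw [res_of (portOf_some.2 h) (by rw [nbD_S hc]; exact portOf_some.2 h'), nbD_S hc]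

theorem bS1 (hc : p < x ∧ x ≤ xe) (h : (x, y0) ∈ B) (h' : (x - 1, y0 - 1) ∈ B) :
    beD B p y0 xe (some ((x, y0), 3)) = some ((x - 1, y0 - 1), 1) := by
  unfold beD
  rw [res_of (portOf_some.2 h) (by rw [nbD_S1 ⟨rfl, hc⟩]; exact portOf_some.2 h'),
    nbD_S1 ⟨rfl, hc⟩]

/-- the partner of a port is itself or the partner in the lattice -/
theorem beD_cases (B : Finset (ℤ × ℤ)) (p y0 xe : ℤ) (q : Port (ℤ × ℤ)) :
    beD B p y0 xe q = q ∨
      (PortOf B q ∧ PortOf B (nbD p y0 xe q) ∧ beD B p y0 xe q = nbD p y0 xe q) := by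
  unfold beD
  by_cases h : PortOf B q ∧ PortOf B (nbD p y0 xe q)
  · exact Or.inr ⟨h.1, h.2, res_of h.1 h.2⟩
  · exact Or.inl (res_fix h)

end beD

/-! ### the right mouth -/

/-- chart at the right mouth: the lower rows are moved one column to the right -/
def psR (y0 : ℤ) (t : ℤ × ℤ) : ℤ × ℤ := if t.2 < y0 then (t.1 + 1, t.2) else t
/-- inverse chart -/
def phR (y0 : ℤ) (c : ℤ × ℤ) : ℤ × ℤ := if c.2 < y0 then (c.1 - 1, c.2) else c

theorem psR_lo {y0 x y : ℤ} (h : y < y0) : psR y0 (x, y) = (x + 1, y) := if_pos h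
theorem psR_up {y0 x y : ℤ} (h : ¬ y < y0) : psR y0 (x, y) = (x, y) := if_neg h
theorem phR_lo {y0 x y : ℤ} (h : y < y0) : phR y0 (x, y) = (x - 1, y) := if_pos h
theorem phR_up {y0 x y : ℤ} (h : ¬ y < y0) : phR y0 (x, y) = (x, y) := if_neg h

theorem ps_ph (y0 : ℤ) (c : ℤ × ℤ) : psR y0 (phR y0 c) = c := by
  obtain ⟨x, y⟩ := c
  by_cases h : y < y0
  · rw [phR_lo h, psR_lo h, sub_add_cancel]
  · rw [phR_up h, psR_up h]

theorem ph_ps (y0 : ℤ) (c : ℤ × ℤ) : phR y0 (psR y0 c) = c := by
  obtain ⟨x, y⟩ := c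
  by_cases h : y < y0
  · rw [psR_lo h, phR_lo h, add_sub_cancel_right]
  · rw [psR_up h, phR_up h]

/-- annulus tiles at the right mouth -/
def AtR (xr y0 : ℤ) (r n : ℕ) : Set (ℤ × ℤ) := {t | InS xr y0 r n 1 (psR y0 t)}
/-- inner tiles at the right mouth, and the place of the stub -/
def InR (xr y0 k : ℤ) (r : ℕ) : Set (ℤ × ℤ) :=
  {t | y0 - r ≤ t.2 ∧ t.2 < y0 + r ∧ (t.2 < y0 → xr - r - 1 < t.1) ∧ (y0 ≤ t.2 → xr - r < t.1) ∧
    t.1 ≤ xr + k}
/-- far tiles at the right mouth -/
def FtR (xr y0 k : ℤ) (r n : ℕ) : Set (ℤ × ℤ) := {t | t ∉ AtR xr y0 r n ∧ t ∉ InR xr y0 k r}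

/-- the region near the right mouth: the box of radius `n + 1` left of the wall is full, behind the
wall there are at most tiles of the stub -/
structure MouthR (B : Finset (ℤ × ℤ)) (p y0 xr xe k : ℤ) (r n : ℕ) : Prop where
  hr : 1 ≤ r
  hn : r + 1 ≤ n
  hk : 0 ≤ k
  box : ∀ x y, xr - n - 1 ≤ x → x ≤ xr → y0 - n - 1 ≤ y → y ≤ y0 + n → (x, y) ∈ B
  out : ∀ x y, xr < x → x ≤ xr + k + 1 → y0 - n ≤ y → y < y0 + n → (x, y) ∈ B →
    x ≤ xr + k ∧ y0 - r ≤ y ∧ y < y0 + r
  hp : p ≤ xr - n
  e1 : xr ≤ xe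
  e2 : xe ≤ xr + k
  end' : (xe + 1, y0) ∉ B

section right

variable {B : Finset (ℤ × ℤ)} {p y0 xr xe k : ℤ} {r n : ℕ}

theorem mem_AtR {x y : ℤ} : (x, y) ∈ AtR xr y0 r n ↔
    (y < y0 ∧ xr - n < x + 1 ∧ x ≤ xr ∧ y0 - n ≤ y ∧ ¬ (xr - r < x + 1 ∧ y0 - r ≤ y)) ∨
    (y0 ≤ y ∧ xr - n < x ∧ x ≤ xr ∧ y < y0 + n ∧ ¬ (xr - r < x ∧ y < y0 + r)) := by
  show InS xr y0 r n 1 (psR y0 (x, y)) ↔ _
  by_cases h : y < y0
  · rw [psR_lo h]; unfold InS; simp only; omega
  · rw [psR_up h]; unfold InS; simp only; omega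

theorem mem_InR {x y : ℤ} : (x, y) ∈ InR xr y0 k r ↔
    (y0 - r ≤ y ∧ y < y0 + r ∧ (y < y0 → xr - r - 1 < x) ∧ (y0 ≤ y → xr - r < x) ∧ x ≤ xr + k) :=
  Iff.rfl

theorem mem_FtR {x y : ℤ} : (x, y) ∈ FtR xr y0 k r n ↔
    ((x, y) ∉ AtR xr y0 r n ∧ (x, y) ∉ InR xr y0 k r) := Iff.rfl

/-- the ball is closed under the glueing up to the annulus -/
theorem MouthR.closed (h : MouthR B p y0 xr xe k r n) {t : ℤ × ℤ} (ht : t ∈ InR xr y0 k r)
    (d : ZMod 4) : beD B p y0 xe (some (t, d)) ∈ Ap (InR xr y0 k r) ∪ Ap (AtR xr y0 r n) := by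
  obtain ⟨hr, hn, hk, hbox, hout, hp, he1, he2, hend⟩ := h
  obtain ⟨x, y⟩ := t
  rcases beD_cases B p y0 xe (some ((x, y), d)) with h1 | ⟨h1, h2, h3⟩
  · rw [h1]; exact Or.inl (some_Ap.2 ht)
  rw [h3]
  rw [mem_InR] at ht
  have m1 := portOf_some.1 h1
  rcases z4 d with rfl | rfl | rfl | rfl
  · rw [nbD_W] at h2 ⊢
    by_cases hc : (x - 1, y) ∈ InR xr y0 k r
    · exact Or.inl (some_Ap.2 hc)
    · right
      rw [some_Ap, mem_AtR]
      rw [mem_InR] at hc
      omega
  · by_cases hc : y = y0 - 1 ∧ p ≤ x ∧ x ≤ xe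
    · rw [nbD_N1 hc] at h2 ⊢
      have m2 := portOf_some.1 h2
      left
      rw [some_Ap, mem_InR]
      have h4 : x + 1 ≤ xr + k := by
        by_contra hcon
        have := hout (x + 1) y0 (by omega) (by omega) (by omega) (by omega) m2
        omega
      omega
    · rw [nbD_N hc] at h2 ⊢
      have m2 := portOf_some.1 h2
      by_cases hc2 : (x, y + 1) ∈ InR xr y0 k r
      · exact Or.inl (some_Ap.2 hc2)
      · right
        rw [some_Ap, mem_AtR]
        rw [mem_InR] at hc2
        by_cases hx : x ≤ xr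
        · omega
        · exfalso
          by_cases hy : y + 1 < y0 + n
          · have := hout x (y + 1) (by omega) (by omega) (by omega) (by omega) m2
            omega
          · omega
  · rw [nbD_E] at h2 ⊢
    have m2 := portOf_some.1 h2
    by_cases hc : (x + 1, y) ∈ InR xr y0 k r
    · exact Or.inl (some_Ap.2 hc)
    · exfalso
      rw [mem_InR] at hc
      have h4 : x = xr + k := by omega
      have := hout (x + 1) y (by omega) (by omega) (by omega) (by omega) m2
      omega
  · by_cases hc : y = y0 ∧ x = p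
    · exfalso; omega
    by_cases hc2 : y = y0 ∧ p < x ∧ x ≤ xe
    · rw [nbD_S1 hc2] at h2 ⊢
      left
      rw [some_Ap, mem_InR]
      omega
    · rw [nbD_S (by omega)] at h2 ⊢
      have m2 := portOf_some.1 h2
      by_cases hc3 : (x, y - 1) ∈ InR xr y0 k r
      · exact Or.inl (some_Ap.2 hc3)
      · right
        rw [some_Ap, mem_AtR]
        rw [mem_InR] at hc3
        by_cases hx : x ≤ xr
        · omega
        · exfalso
          by_cases hy : y0 - n ≤ y - 1
          · have := hout x (y - 1) (by omega) (by omega) (by omega) (by omega) m2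
            omega
          · omega

theorem MouthR.inv (h : MouthR B p y0 xr xe k r n) : Function.Involutive (beD B p y0 xe) :=
  beD_invol (by have := h.hp; have := h.e1; omega) h.end'

/-- **the right mouth** -/
theorem MouthR.loc (h : MouthR B p y0 xr xe k r n) :
    Loc (stp xr y0 r n 1) (Gc748.N1 xr y0 r n) (Jls xr y0 r 1) (Gc748.N2 xr y0 r n 1)
      (Jos xr y0 n 1) (beD B p y0 xe) (FtR xr y0 k r n) (AtR xr y0 r n) (psR y0) (phR y0) 0 := by
  have hcl := fun t ht d => h.closed (t := t) ht d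
  have hinv := h.inv
  obtain ⟨hr, hn, hk, hbox, hout, hp, he1, he2, hend⟩ := h
  have hms : ∀ c ∈ (stp xr y0 r n 1).P, phR y0 c ∈ AtR xr y0 r n := by
    intro c hc
    show InS xr y0 r n 1 (psR y0 (phR y0 c))
    rw [ps_ph]; exact mem_stp.1 hc
  refine ⟨fun t ht => ht.1, fun t ht => mem_stp.2 ht, fun t _ => ph_ps y0 t, hms,
    fun c _ => ps_ph y0 c, hinv, ?_, ?_, ?_, ?_, ?_⟩
  · -- glued
    intro a b hab
    rcases a with _ | ⟨⟨x, y⟩, d⟩
    · exact hab.elim
    rcases z4 d with rfl | rfl | rfl | rfl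
    · obtain ⟨h1, rfl⟩ := Xr249.Reg.gl_0.1 hab
      rw [Gc748.stp_h] at h1
      unfold InS at h1
      simp only [pm_some, neg_zero, add_zero]
      by_cases hy : y < y0
      · rw [phR_lo hy, phR_lo hy, bW (hbox _ _ (by omega) (by omega) (by omega) (by omega))
          (hbox _ _ (by omega) (by omega) (by omega) (by omega))]
      · rw [phR_up hy, phR_up hy, bW (hbox _ _ (by omega) (by omega) (by omega) (by omega))
          (hbox _ _ (by omega) (by omega) (by omega) (by omega))]
    · obtain ⟨h1, rfl⟩ := Xr249.Reg.gl_1.1 hab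
      rw [Gc748.stp_v] at h1
      unfold InS at h1
      simp only [pm_some, neg_zero, add_zero]
      by_cases hy : y + 1 < y0
      · rw [phR_lo hy, phR_lo (by omega : y < y0), bN (by omega)
          (hbox _ _ (by omega) (by omega) (by omega) (by omega))
          (hbox _ _ (by omega) (by omega) (by omega) (by omega))]
      by_cases hy2 : y < y0
      · have e : y = y0 - 1 := by omega
        subst e
        rw [phR_lo hy2, phR_up (by omega), bN1 (by omega)
          (hbox _ _ (by omega) (by omega) (by omega) (by omega))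
          (hbox _ _ (by omega) (by omega) (by omega) (by omega))]
        rw [sub_add_cancel, sub_add_cancel]
      · rw [phR_up hy, phR_up hy2, bN (by omega)
          (hbox _ _ (by omega) (by omega) (by omega) (by omega))
          (hbox _ _ (by omega) (by omega) (by omega) (by omega))]
    · obtain ⟨h1, rfl⟩ := Xr249.Reg.gl_2.1 hab
      rw [Gc748.stp_h] at h1
      unfold InS at h1
      simp only [pm_some, neg_zero, add_zero]
      by_cases hy : y < y0
      · rw [phR_lo hy, phR_lo hy, bE (hbox _ _ (by omega) (by omega) (by omega) (by omega))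
          (hbox _ _ (by omega) (by omega) (by omega) (by omega))]
        rw [sub_add_cancel, add_sub_cancel_right]
      · rw [phR_up hy, phR_up hy, bE (hbox _ _ (by omega) (by omega) (by omega) (by omega))
          (hbox _ _ (by omega) (by omega) (by omega) (by omega))]
    · obtain ⟨h1, rfl⟩ := Xr249.Reg.gl_3.1 hab
      rw [Gc748.stp_v] at h1
      unfold InS at h1
      simp only [pm_some, neg_zero, add_zero]
      by_cases hy : y < y0
      · rw [phR_lo hy, phR_lo (by omega : y - 1 < y0), bS (by omega)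
          (hbox _ _ (by omega) (by omega) (by omega) (by omega))
          (hbox _ _ (by omega) (by omega) (by omega) (by omega))]
      by_cases hy2 : y = y0
      · subst hy2
        rw [phR_up hy, phR_lo (by omega), bS1 (by omega)
          (hbox _ _ (by omega) (by omega) (by omega) (by omega))
          (hbox _ _ (by omega) (by omega) (by omega) (by omega))]
      · rw [phR_up hy, phR_up (by omega), bS (by omega)
          (hbox _ _ (by omega) (by omega) (by omega) (by omega))
          (hbox _ _ (by omega) (by omega) (by omega) (by omega))]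
  · -- wall
    intro a ha
    have hw : ∀ y, y0 - n ≤ y → y < y0 + n → ¬ (y0 - r ≤ y ∧ y < y0 + r) → (xr + 1, y) ∉ B := by
      intro y h1 h2 h3 h4
      have := hout (xr + 1) y (by omega) (by omega) h1 h2 h4
      omega
    rcases List.mem_append.1 ha with ha | ha <;> obtain ⟨i, hi, rfl⟩ := mem_fl.1 ha
    · simp only [pm_some, neg_zero, add_zero]
      rw [phR_up (by omega), bE' (hw _ (by omega) (by omega) (by omega))]
    · simp only [pm_some, neg_zero, add_zero]
      rw [phR_lo (by omega)]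
      have e : xr + ((1 : ℕ) : ℤ) - 1 = xr := by push_cast; ring
      rw [e, bE' (hw _ (by omega) (by omega) (by omega))]
  · -- inner
    intro a ha
    have key : ∀ {x y : ℤ} {d : ZMod 4}, (x, y) ∈ InR xr y0 k r →
        (some ((x, y), d) : Port (ℤ × ℤ)) ∉ Fp (FtR xr y0 k r n) ∪ Ap (AtR xr y0 r n) := by
      intro x y d hxy hcon
      rcases hcon with hcon | hcon
      · exact (some_Fp.1 hcon).2 hxy
      · have h1 := some_Ap.1 hcon
        rw [mem_AtR] at h1
        rw [mem_InR] at hxy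
        omega
    unfold Jls at ha
    simp only [List.mem_append] at ha
    rcases ha with (ha | ha) | ha <;> obtain ⟨i, hi, rfl⟩ := mem_fl.1 ha
    · simp only [pm_some, neg_zero, add_zero]
      rw [phR_up (by omega), bS (by omega) (hbox _ _ (by omega) (by omega) (by omega) (by omega))
        (hbox _ _ (by omega) (by omega) (by omega) (by omega))]
      exact key (by rw [mem_InR]; omega)
    · simp only [pm_some, neg_zero, add_zero]
      by_cases hy : y0 + r - 1 - i < y0
      · rw [phR_lo hy, bE (hbox _ _ (by omega) (by omega) (by omega) (by omega))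
          (hbox _ _ (by omega) (by omega) (by omega) (by omega))]
        exact key (by rw [mem_InR]; omega)
      · rw [phR_up hy, bE (hbox _ _ (by omega) (by omega) (by omega) (by omega))
          (hbox _ _ (by omega) (by omega) (by omega) (by omega))]
        exact key (by rw [mem_InR]; omega)
    · simp only [pm_some, neg_zero, add_zero]
      rw [phR_lo (by omega), bN (by omega) (hbox _ _ (by omega) (by omega) (by omega) (by omega))
        (hbox _ _ (by omega) (by omega) (by omega) (by omega))]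
      exact key (by rw [mem_InR]; omega)
  · -- outer
    intro a ha
    have key : ∀ {x y : ℤ} {d : ZMod 4}, (x, y) ∉ InR xr y0 k r → (x, y) ∉ AtR xr y0 r n →
        (some ((x, y), d) : Port (ℤ × ℤ)) ∈ Fp (FtR xr y0 k r n) := by
      intro x y d h1 h2
      exact some_Fp.2 ⟨h2, h1⟩
    unfold Jos at ha
    simp only [List.mem_append] at ha
    rcases ha with (ha | ha) | ha <;> obtain ⟨i, hi, rfl⟩ := mem_fl.1 ha
    · simp only [pm_some, neg_zero, add_zero]
      rw [phR_lo (by omega), bS (by omega) (hbox _ _ (by omega) (by omega) (by omega) (by omega))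
        (hbox _ _ (by omega) (by omega) (by omega) (by omega))]
      exact key (by rw [mem_InR]; omega) (by rw [mem_AtR]; omega)
    · simp only [pm_some, neg_zero, add_zero]
      by_cases hy : y0 - n + i < y0
      · rw [phR_lo hy, bW (hbox _ _ (by omega) (by omega) (by omega) (by omega))
          (hbox _ _ (by omega) (by omega) (by omega) (by omega))]
        exact key (by rw [mem_InR]; omega) (by rw [mem_AtR]; omega)
      · rw [phR_up hy, bW (hbox _ _ (by omega) (by omega) (by omega) (by omega))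
          (hbox _ _ (by omega) (by omega) (by omega) (by omega))]
        exact key (by rw [mem_InR]; omega) (by rw [mem_AtR]; omega)
    · simp only [pm_some, neg_zero, add_zero]
      rw [phR_up (by omega), bN (by omega) (hbox _ _ (by omega) (by omega) (by omega) (by omega))
        (hbox _ _ (by omega) (by omega) (by omega) (by omega))]
      exact key (by rw [mem_InR]; omega) (by rw [mem_AtR]; omega)
  · -- far
    intro a ha
    by_contra hcon
    rw [Set.mem_union, not_or] at hcon
    have hI : beD B p y0 xe a ∈ Ap (InR xr y0 k r) := by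
      rcases hb : beD B p y0 xe a with _ | ⟨t, d⟩
      · rw [hb] at hcon; exact absurd (none_Fp _) hcon.1
      · rw [hb] at hcon
        rw [some_Ap]
        by_contra h1
        exact hcon.1 (some_Fp.2 ⟨fun h2 => hcon.2 (some_Ap.2 h2), h1⟩)
    obtain ⟨⟨t, d⟩, hb, ht⟩ := hI
    have h2 := hcl t ht d
    rw [← hb, hinv a] at h2
    rcases h2 with ⟨⟨t', d'⟩, rfl, h3⟩ | ⟨⟨t', d'⟩, rfl, h3⟩
    · exact (some_Fp.1 ha).2 h3
    · exact (some_Fp.1 ha).1 h3

/-- **the far part does not change** -/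
theorem MouthR.eqF {A B' : Finset (ℤ × ℤ)} {xe' : ℤ} (h : MouthR A p y0 xr xe k r n)
    (h' : MouthR B' p y0 xr xe' k r n) (hs : A ⊆ B') (hd : ∀ t ∈ B', t ∉ A → t ∈ InR xr y0 k r)
    {a : Port (ℤ × ℤ)} (ha : a ∈ Fp (FtR xr y0 k r n)) :
    beD B' p y0 xe' a = beD A p y0 xe a := by
  have hcl := fun t ht d => h'.closed (t := t) ht d
  have hinv := h'.inv
  have hr := h.hr
  have hn := h.hn
  have hp := h.hp
  have e1 := h.e1
  have e2 := h.e2
  have e1' := h'.e1
  have e2' := h'.e2
  -- the same lattice partner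
  have hnb : nbD p y0 xe' a = nbD p y0 xe a := by
    rcases a with _ | ⟨⟨x, y⟩, d⟩
    · rfl
    have hf := some_Fp.1 ha
    rw [mem_FtR, mem_InR] at hf
    rcases z4 d with rfl | rfl | rfl | rfl
    · rfl
    · by_cases hc : y = y0 - 1 ∧ p ≤ x ∧ x ≤ xe
      · rw [nbD_N1 hc, nbD_N1 (by omega)]
      · rw [nbD_N hc, nbD_N (by omega)]
    · rfl
    · by_cases hc : y = y0 ∧ x = p
      · rw [nbD_Sleg hc, nbD_Sleg hc]
      by_cases hc2 : y = y0 ∧ p < x ∧ x ≤ xe
      · rw [nbD_S1 hc2, nbD_S1 (by omega)]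
      · rw [nbD_S (by omega), nbD_S (by omega)]
  have hpa : PortOf B' a ↔ PortOf A a := by
    rcases a with _ | ⟨t, d⟩
    · exact ⟨fun _ => portOf_none _, fun _ => portOf_none _⟩
    · rw [portOf_some, portOf_some]
      refine ⟨fun h1 => ?_, fun h1 => hs h1⟩
      by_contra h2
      exact (some_Fp.1 ha).2 (hd t h1 h2)
  unfold beD
  by_cases hc : PortOf A a ∧ PortOf A (nbD p y0 xe a)
  · rw [res_of hc.1 hc.2]
    have h2 : PortOf B' (nbD p y0 xe' a) := by
      rw [hnb]
      intro z hz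
      exact hs (hc.2 z hz)
    rw [res_of (hpa.2 hc.1) h2, hnb]
  · rw [res_fix hc]
    by_contra hne
    rcases beD_cases B' p y0 xe' a with h1 | ⟨h1, h2, h3⟩
    · exact hne h1
    · apply hc
      refine ⟨hpa.1 h1, ?_⟩
      rw [hnb] at h2 h3
      rcases hq : nbD p y0 xe a with _ | ⟨t, d⟩
      · exact portOf_none _
      · rw [hq] at h2 h3
        rw [portOf_some] at h2 ⊢
        by_contra h4
        have h5 := hcl t (hd t h2 h4) d
        rw [← h3, hinv a] at h5
        rcases h5 with ⟨⟨t', d'⟩, rfl, h6⟩ | ⟨⟨t', d'⟩, rfl, h6⟩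
        · exact (some_Fp.1 ha).2 h6
        · exact (some_Fp.1 ha).1 h6

end right

end Crest.Agent.R158.Sl434
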