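import Crest.Agent.R158.Sl10_434

/-!
# R158, block SL (helper434), file Sl11: the left mouth

The chart is the half turn `(x, y) ↦ (-x, -y)`; there is no dislocation at the left wall.
-/

set_option autoImplicit false
set_option linter.unusedSectionVars false

noncomputable section

namespace Crest.Agent.R158.Sl434

open Crest.Agent.R158.Sw300 (Port Wd thru tls)
open Crest.Agent.R158.Gc748 (RW stp InS JoW JoN JoS JlS JlE JlN fl mem_fl mem_stp)
open Crest.Agent.R158.Xr249 (Nx rot Reg)
open Crest.Agent.R158.Env664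

/-- the half turn -/
def ngT (t : ℤ × ℤ) : ℤ × ℤ := (-t.1, -t.2)

theorem ng_ng (t : ℤ × ℤ) : ngT (ngT t) = t := by
  unfold ngT; simp

/-- annulus tiles at the left mouth -/
def AtL (xl y0 : ℤ) (r n : ℕ) : Set (ℤ × ℤ) := {t | InS (-xl) (1 - y0) r n 0 (ngT t)}
/-- inner tiles at the left mouth, and the place of the stub -/
def InL (xl y0 k : ℤ) (r : ℕ) : Set (ℤ × ℤ) :=
  {t | y0 - r ≤ t.2 ∧ t.2 < y0 + r ∧ t.1 < xl + r ∧ xl - k ≤ t.1}
/-- far tiles at the left mouth -/
def FtL (xl y0 k : ℤ) (r n : ℕ) : Set (ℤ × ℤ) := {t | t ∉ AtL xl y0 r n ∧ t ∉ InL xl y0 k r}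

/-- the region near the left mouth -/
structure MouthL (B : Finset (ℤ × ℤ)) (p y0 xl xe k : ℤ) (r n : ℕ) : Prop where
  hr : 1 ≤ r
  hn : r + 1 ≤ n
  hk : 0 ≤ k
  box : ∀ x y, xl ≤ x → x ≤ xl + n → y0 - n - 1 ≤ y → y ≤ y0 + n → (x, y) ∈ B
  out : ∀ x y, xl - k - 1 ≤ x → x < xl → y0 - n ≤ y → y < y0 + n → (x, y) ∈ B →
    xl - k ≤ x ∧ y0 - r ≤ y ∧ y < y0 + r
  hp : xl + n < p
  hpe : p ≤ xe
  end' : (xe + 1, y0) ∉ B

theorem m02 : (0 : ZMod 4) + -2 = 2 := by decide
theorem m12 : (1 : ZMod 4) + -2 = 3 := by decide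
theorem m22 : (2 : ZMod 4) + -2 = 0 := by decide
theorem m32 : (3 : ZMod 4) + -2 = 1 := by decide

section left

variable {B : Finset (ℤ × ℤ)} {p y0 xl xe k : ℤ} {r n : ℕ}

theorem mem_AtL {x y : ℤ} : (x, y) ∈ AtL xl y0 r n ↔
    (xl ≤ x ∧ x < xl + n ∧ y0 - n ≤ y ∧ y < y0 + n ∧
      ¬ (x < xl + r ∧ y0 - r ≤ y ∧ y < y0 + r)) := by
  show InS (-xl) (1 - y0) r n 0 (-x, -y) ↔ _
  unfold InS
  simp only
  push_cast
  omega

theorem mem_InL {x y : ℤ} : (x, y) ∈ InL xl y0 k r ↔
    (y0 - r ≤ y ∧ y < y0 + r ∧ x < xl + r ∧ xl - k ≤ x) := Iff.rfl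

theorem MouthL.closed (h : MouthL B p y0 xl xe k r n) {t : ℤ × ℤ} (ht : t ∈ InL xl y0 k r)
    (d : ZMod 4) : beD B p y0 xe (some (t, d)) ∈ Ap (InL xl y0 k r) ∪ Ap (AtL xl y0 r n) := by
  obtain ⟨hr, hn, hk, hbox, hout, hp, hpe, hend⟩ := h
  obtain ⟨x, y⟩ := t
  rcases beD_cases B p y0 xe (some ((x, y), d)) with h1 | ⟨h1, h2, h3⟩
  · rw [h1]; exact Or.inl (some_Ap.2 ht)
  rw [h3]
  rw [mem_InL] at ht
  rcases z4 d with rfl | rfl | rfl | rfl
  · rw [nbD_W] at h2 ⊢
    have m2 := portOf_some.1 h2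
    by_cases hc : (x - 1, y) ∈ InL xl y0 k r
    · exact Or.inl (some_Ap.2 hc)
    · exfalso
      rw [mem_InL] at hc
      have := hout (x - 1) y (by omega) (by omega) (by omega) (by omega) m2
      omega
  · rw [nbD_N (by omega)] at h2 ⊢
    have m2 := portOf_some.1 h2
    by_cases hc2 : (x, y + 1) ∈ InL xl y0 k r
    · exact Or.inl (some_Ap.2 hc2)
    · right
      rw [some_Ap, mem_AtL]
      rw [mem_InL] at hc2
      by_cases hx : xl ≤ x
      · omega
      · exfalso
        have := hout x (y + 1) (by omega) (by omega) (by omega) (by omega) m2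
        omega
  · rw [nbD_E] at h2 ⊢
    by_cases hc : (x + 1, y) ∈ InL xl y0 k r
    · exact Or.inl (some_Ap.2 hc)
    · right
      rw [some_Ap, mem_AtL]
      rw [mem_InL] at hc
      omega
  · rw [nbD_S (by omega)] at h2 ⊢
    have m2 := portOf_some.1 h2
    by_cases hc3 : (x, y - 1) ∈ InL xl y0 k r
    · exact Or.inl (some_Ap.2 hc3)
    · right
      rw [some_Ap, mem_AtL]
      rw [mem_InL] at hc3
      by_cases hx : xl ≤ x
      · omega
      · exfalso
        have := hout x (y - 1) (by omega) (by omega) (by omega) (by omega) m2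
        omega

theorem MouthL.inv (h : MouthL B p y0 xl xe k r n) : Function.Involutive (beD B p y0 xe) :=
  beD_invol h.hpe h.end'

/-- **the left mouth** -/
theorem MouthL.loc (h : MouthL B p y0 xl xe k r n) :
    Loc (stp (-xl) (1 - y0) r n 0) (Gc748.N1 (-xl) (1 - y0) r n) (Jls (-xl) (1 - y0) r 0)
      (Gc748.N2 (-xl) (1 - y0) r n 0) (Jos (-xl) (1 - y0) n 0) (beD B p y0 xe)
      (FtL xl y0 k r n) (AtL xl y0 r n) ngT ngT 2 := by
  have hcl := fun t ht d => h.closed (t := t) ht d
  have hinv := h.inv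
  obtain ⟨hr, hn, hk, hbox, hout, hp, hpe, hend⟩ := h
  have hms : ∀ c ∈ (stp (-xl) (1 - y0) r n 0).P, ngT c ∈ AtL xl y0 r n := by
    intro c hc
    show InS (-xl) (1 - y0) r n 0 (ngT (ngT c))
    rw [ng_ng]; exact mem_stp.1 hc
  refine ⟨fun t ht => ht.1, fun t ht => mem_stp.2 ht, fun t _ => ng_ng t, hms,
    fun c _ => ng_ng c, hinv, ?_, ?_, ?_, ?_, ?_⟩
  · -- glued
    intro a b hab
    rcases a with _ | ⟨⟨x, y⟩, d⟩
    · exact hab.elim
    rcases z4 d with rfl | rfl | rfl | rfl
    · obtain ⟨h1, rfl⟩ := Xr249.Reg.gl_0.1 hab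
      rw [Gc748.stp_h] at h1
      unfold InS at h1
      simp only [pm_some, m02, m22, ngT]
      rw [bE (hbox _ _ (by omega) (by omega) (by omega) (by omega))
          (hbox _ _ (by omega) (by omega) (by omega) (by omega))]
      have e : -(x - 1) = -x + 1 := by ring
      rw [e]
    · obtain ⟨h1, rfl⟩ := Xr249.Reg.gl_1.1 hab
      rw [Gc748.stp_v] at h1
      unfold InS at h1
      simp only [pm_some, m12, m32, ngT]
      rw [bS (by omega) (hbox _ _ (by omega) (by omega) (by omega) (by omega))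
          (hbox _ _ (by omega) (by omega) (by omega) (by omega))]
      have e : -(y + 1) = -y - 1 := by ring
      rw [e]
    · obtain ⟨h1, rfl⟩ := Xr249.Reg.gl_2.1 hab
      rw [Gc748.stp_h] at h1
      unfold InS at h1
      simp only [pm_some, m02, m22, ngT]
      rw [bW (hbox _ _ (by omega) (by omega) (by omega) (by omega))
          (hbox _ _ (by omega) (by omega) (by omega) (by omega))]
      have e : -(x + 1) = -x - 1 := by ring
      rw [e]
    · obtain ⟨h1, rfl⟩ := Xr249.Reg.gl_3.1 hab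
      rw [Gc748.stp_v] at h1
      unfold InS at h1
      simp only [pm_some, m12, m32, ngT]
      rw [bN (by omega) (hbox _ _ (by omega) (by omega) (by omega) (by omega))
          (hbox _ _ (by omega) (by omega) (by omega) (by omega))]
      have e : -(y - 1) = -y + 1 := by ring
      rw [e]
  · -- wall
    intro a ha
    have hw : ∀ y, y0 - n ≤ y → y < y0 + n → ¬ (y0 - r ≤ y ∧ y < y0 + r) → (xl - 1, y) ∉ B := by
      intro y h1 h2 h3 h4
      have := hout (xl - 1) y (by omega) (by omega) h1 h2 h4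
      omega
    rcases List.mem_append.1 ha with ha | ha <;> obtain ⟨i, hi, rfl⟩ := mem_fl.1 ha
    · simp only [pm_some, m22, ngT, neg_neg]
      rw [bW' (hw _ (by omega) (by omega) (by omega))]
    · simp only [pm_some, m22, ngT]
      have e : -(-xl + ((0 : ℕ) : ℤ)) = xl := by push_cast; ring
      rw [e, bW' (hw _ (by omega) (by omega) (by omega))]
  · -- inner
    intro a ha
    have key : ∀ {x y : ℤ} {d : ZMod 4}, (x, y) ∈ InL xl y0 k r →
        (some ((x, y), d) : Port (ℤ × ℤ)) ∉ Fp (FtL xl y0 k r n) ∪ Ap (AtL xl y0 r n) := by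
      intro x y d hxy hcon
      rcases hcon with hcon | hcon
      · exact (some_Fp.1 hcon).2 hxy
      · have h1 := some_Ap.1 hcon
        rw [mem_AtL] at h1
        rw [mem_InL] at hxy
        omega
    unfold Jls at ha
    simp only [List.mem_append] at ha
    rcases ha with (ha | ha) | ha <;> obtain ⟨i, hi, rfl⟩ := mem_fl.1 ha
    · simp only [pm_some, m32, ngT]
      rw [bN (by omega) (hbox _ _ (by omega) (by omega) (by omega) (by omega))
        (hbox _ _ (by omega) (by omega) (by omega) (by omega))]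
      exact key (by rw [mem_InL]; omega)
    · simp only [pm_some, m22, ngT]
      rw [bW (hbox _ _ (by omega) (by omega) (by omega) (by omega))
          (hbox _ _ (by omega) (by omega) (by omega) (by omega))]
      exact key (by rw [mem_InL]; omega)
    · simp only [pm_some, m12, ngT]
      rw [bS (by omega) (hbox _ _ (by omega) (by omega) (by omega) (by omega))
        (hbox _ _ (by omega) (by omega) (by omega) (by omega))]
      exact key (by rw [mem_InL]; omega)
  · -- outer
    intro a ha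
    have key : ∀ {x y : ℤ} {d : ZMod 4}, (x, y) ∉ InL xl y0 k r → (x, y) ∉ AtL xl y0 r n →
        (some ((x, y), d) : Port (ℤ × ℤ)) ∈ Fp (FtL xl y0 k r n) := by
      intro x y d h1 h2
      exact some_Fp.2 ⟨h2, h1⟩
    unfold Jos at ha
    simp only [List.mem_append] at ha
    rcases ha with (ha | ha) | ha <;> obtain ⟨i, hi, rfl⟩ := mem_fl.1 ha
    · simp only [pm_some, m32, ngT]
      rw [bN (by omega) (hbox _ _ (by omega) (by omega) (by omega) (by omega))
        (hbox _ _ (by omega) (by omega) (by omega) (by omega))]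
      exact key (by rw [mem_InL]; omega) (by rw [mem_AtL]; omega)
    · simp only [pm_some, m02, ngT]
      rw [bE (hbox _ _ (by omega) (by omega) (by omega) (by omega))
          (hbox _ _ (by omega) (by omega) (by omega) (by omega))]
      exact key (by rw [mem_InL]; omega) (by rw [mem_AtL]; omega)
    · simp only [pm_some, m12, ngT]
      rw [bS (by omega) (hbox _ _ (by omega) (by omega) (by omega) (by omega))
        (hbox _ _ (by omega) (by omega) (by omega) (by omega))]
      exact key (by rw [mem_InL]; omega) (by rw [mem_AtL]; omega)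
  · -- far
    intro a ha
    by_contra hcon
    rw [Set.mem_union, not_or] at hcon
    have hI : beD B p y0 xe a ∈ Ap (InL xl y0 k r) := by
      rcases hb : beD B p y0 xe a with _ | ⟨t, d⟩
      · rw [hb] at hcon; exact absurd (none_Fp _) hcon.1
      · rw [hb] at hcon
        rw [some_Ap]
        by_contra h1
        exact hcon.1 (some_Fp.2 ⟨fun h2 => hcon.2 (some_Ap.2 h2), h1⟩)
    obtain ⟨⟨t, d⟩, hb, ht⟩ := hI
    have h2 := hcl t ht d
    rw [← hb, hinv a] at h2
    rcases h2 with ⟨⟨t', d'⟩, rfl, h3⟩ | ⟨⟨t', d'⟩, rfl, h3⟩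
    · exact (some_Fp.1 ha).2 h3
    · exact (some_Fp.1 ha).1 h3

/-- **the far part does not change** -/
theorem MouthL.eqF {A B' : Finset (ℤ × ℤ)} (h' : MouthL B' p y0 xl xe k r n) (hs : A ⊆ B')
    (hd : ∀ t ∈ B', t ∉ A → t ∈ InL xl y0 k r) {a : Port (ℤ × ℤ)}
    (ha : a ∈ Fp (FtL xl y0 k r n)) : beD B' p y0 xe a = beD A p y0 xe a := by
  have hcl := fun t ht d => h'.closed (t := t) ht d
  have hinv := h'.inv
  have hpa : PortOf B' a ↔ PortOf A a := by
    rcases a with _ | ⟨t, d⟩
    · exact ⟨fun _ => portOf_none _, fun _ => portOf_none _⟩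
    · rw [portOf_some, portOf_some]
      refine ⟨fun h1 => ?_, fun h1 => hs h1⟩
      by_contra h2
      exact (some_Fp.1 ha).2 (hd t h1 h2)
  unfold beD
  by_cases hc : PortOf A a ∧ PortOf A (nbD p y0 xe a)
  · rw [res_of hc.1 hc.2]
    have h2 : PortOf B' (nbD p y0 xe a) := by
      intro z hz
      exact hs (hc.2 z hz)
    rw [res_of (hpa.2 hc.1) h2]
  · rw [res_fix hc]
    by_contra hne
    rcases beD_cases B' p y0 xe a with h1 | ⟨h1, h2, h3⟩
    · exact hne h1
    · apply hc
      refine ⟨hpa.1 h1, ?_⟩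
      rcases hq : nbD p y0 xe a with _ | ⟨t, d⟩
      · exact portOf_none _
      · rw [hq] at h2 h3
        rw [portOf_some] at h2 ⊢
        by_contra h4
        have h5 := hcl t (hd t h2 h4) d
        rw [← h3, hinv a] at h5
        rcases h5 with ⟨⟨t', d'⟩, rfl, h6⟩ | ⟨⟨t', d'⟩, rfl, h6⟩
        · exact (some_Fp.1 ha).2 h6
        · exact (some_Fp.1 ha).1 h6

end left

end Crest.Agent.R158.Sl434
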