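import Crest.Agent.R158.Sl12_434
import Crest.Agent.R158.Xr11_249

/-!
# R158, block SL (helper434), file Sl13: **(N4) CompP**

* `compP` : for a macroscopic polyomino, `‖HA D^+ - HD‖ ≤ C (h / N) ^ (1 + c)`, `h` = height of the
  stubs, `N` = distance of the line to corners, marks (in height) and of `z` to the walls
-/

set_option autoImplicit false
set_option linter.unusedSectionVars false

noncomputable section

namespace Crest.Agent.R158.Sl434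

open MeasureTheory ProbabilityTheory
open Crest.Agent.R158.Sw300 (Port Wd thru tls)
open Crest.Agent.R158.Gc748 (RW stp InS)
open Crest.Agent.R158.Xr249 (Nx rot Reg full Dp mem_Dp Free rct mem_rct CPath D_cpath D_cpath_in
  free_mac exists_GW_mac)
open Crest.Agent.R158.Env664
open Crest.Agent.R158.Ob664 (Gl GW HV HW HG HA HD rgt rgt_run)
open Crest.Agent.R158.Rs689 (PB hf)
open Crest.Agent.R158.Wd377 (MK be_eq)

/-- **probability of two arcs across the stepped half annulus** -/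
theorem p2_le : ∃ C c : ℝ, 0 < C ∧ 0 < c ∧ c ≤ 1 ∧ ∀ (e : ℕ), e ≤ 1 → ∀ (X Y : ℤ) (r n : ℕ),
    1 ≤ r → r + 1 ≤ n → ∀ w, SW X Y r n e w → p2 X Y r n e w ≤ C * ((r : ℝ) / n) ^ (1 + c) := by
  obtain ⟨c, hc, hc1, h⟩ := Pj679.stp_prob
  obtain ⟨C0, hC0, h0⟩ := h 0
  obtain ⟨C1, hC1, h1⟩ := h 1
  refine ⟨C0 + C1, c, by linarith, hc, hc1, ?_⟩
  have key : ∀ (e : ℕ) (C : ℝ), C ≤ C0 + C1 → (∀ (X Y : ℤ) (r n : ℕ), 1 ≤ r → r + 1 ≤ n →
      ∀ (w : Wd (ℤ × ℤ)) (b : ℤ × ℤ), RW (stp X Y r n e) w b →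
      (Mr679.tau hf).real {s | ∃ i ∈ Sw300.L w, ∃ j ∈ Sw300.L w, i ∈ Pj679.Jl X Y r e ∧
        j ∈ Pj679.Jl X Y r e ∧ i ≠ j ∧ Sw300.M s w i ∈ Pj679.Jo X Y n e ∧
        Sw300.M s w j ∈ Pj679.Jo X Y n e} ≤ C * ((r : ℝ) / n) ^ (1 + c)) →
      ∀ (X Y : ℤ) (r n : ℕ), 1 ≤ r → r + 1 ≤ n → ∀ w, SW X Y r n e w →
        p2 X Y r n e w ≤ (C0 + C1) * ((r : ℝ) / n) ^ (1 + c) := by
    intro e C hC hh X Y r n hr hn w hw
    have h2 := hh X Y r n hr hn w _ hw.rw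
    have h3 : p2 X Y r n e w ≤ C * ((r : ℝ) / n) ^ (1 + c) := by
      refine le_trans ?_ h2
      unfold p2
      refine measureReal_mono ?_
      rintro s ⟨i, hi, j, hj, hij, hMi, hMj⟩
      have hc := chA_stp hr hn hw
      have hJ : ∀ x ∈ Jls X Y r e, x ∈ Pj679.Jl X Y r e := by
        intro x hx
        unfold Jls at hx
        unfold Pj679.Jl
        simp only [List.mem_append] at hx ⊢
        tauto
      have hO : ∀ x ∈ Jos X Y n e, x ∈ Pj679.Jo X Y n e := by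
        intro x hx
        unfold Jos at hx
        unfold Pj679.Jo
        simp only [List.mem_append] at hx ⊢
        tauto
      exact ⟨i, (hc.mem.1 (by simp [hi])).1, j, (hc.mem.1 (by simp [hj])).1, hJ i hi, hJ j hj, hij,
        hO _ hMi, hO _ hMj⟩
    refine h3.trans (mul_le_mul_of_nonneg_right hC ?_)
    positivity
  intro e he
  interval_cases e
  · exact key 0 C0 (by linarith) h0
  · exact key 1 C1 (by linarith) h1

/-- height of a mark -/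
theorem mark_y (L : ℤ) (q : ℤ × ℤ) (d : ZMod 4) : ∃ x y : ℤ,
    (mark L q d).2 = some ((x, y), d) ∧ (y = q.2 * L + L / 2 ∨ y = q.2 * L + L - 1 ∨
      y = q.2 * L + L / 2 - 1 ∨ y = q.2 * L) := by
  rcases z4 d with rfl | rfl | rfl | rfl
  · exact ⟨_, _, rfl, Or.inl rfl⟩
  · exact ⟨_, _, rfl, Or.inr (Or.inl rfl)⟩
  · exact ⟨_, _, rfl, Or.inr (Or.inr (Or.inl rfl))⟩
  · exact ⟨_, _, rfl, Or.inr (Or.inr (Or.inr rfl))⟩

/-- a mark is far from the line if the line is far from the mark and corner heights -/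
theorem mark_far {L : ℤ} (hL : 1 < L) {c y0 : ℤ} {n : ℕ} (h1 : c * L + (n + 1) ≤ y0)
    (h2 : y0 + (n + 1) ≤ c * L + L) (h3 : (n : ℤ) + 1 ≤ |y0 - (c * L + L / 2)|) (q : ℤ × ℤ)
    (d : ZMod 4) {xl xr k : ℤ} {r : ℕ} (hr : r + 1 ≤ n) :
    (mark L q d).2 ∈ Fp (FtR xr y0 k r n) ∩ Fp (FtL xl y0 k r n) := by
  obtain ⟨x, y, e, hy⟩ := mark_y L q d
  rw [e]
  have hout : ¬ (y0 - n ≤ y ∧ y < y0 + n) := by
    rintro ⟨g1, g2⟩
    have hq : q.2 = c := by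
      have e1 : y / L = q.2 := (div_iff (by omega) _ _).2 (by omega)
      have e2 : y / L = c := (div_iff (by omega) _ _).2 (by omega)
      rw [← e1, e2]
    rw [hq] at hy
    rcases le_abs.1 h3 with g3 | g3 <;> omega
  refine ⟨some_Fp.2 ?_, some_Fp.2 ?_⟩
  · rw [mem_FtR, mem_AtR, mem_InR]; omega
  · show _ ∧ _
    rw [mem_AtL, mem_InL]; omega

theorem cg_mac (M : Mac) {L : ℤ} (hL : 1 < L) {a b c : ℤ} (hr : Run M.F a b c) {k p y1 y0 y2 : ℤ}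
    {r n : ℕ} (hk0 : 0 ≤ k) (hk : k < L) (g1 : c * L < y1) (g2 : y1 < y0) (g3 : y0 < y2)
    (g4 : y2 < c * L + L) (hr1 : 1 ≤ r) (hn : r + 1 ≤ n) (a1 : y0 - r ≤ y1) (a4 : y2 ≤ y0 + r)
    (h1 : c * L + (n + 1) ≤ y0) (h2 : y0 + (n + 1) ≤ c * L + L) (p1 : a * L + n < p)
    (p2 : p + n ≤ b * L + L - 1) :
    CG (D M.F L) (a * L) (b * L + L - 1) y1 y2 k p y0 r n := by
  have hL0 : 0 < L := by omega
  have hrun : ∀ y, c * L ≤ y → y < c * L + L → Run (D M.F L) (a * L) (b * L + L - 1) y :=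
    fun y g1 g2 => hr.scale hL0 g1 g2
  refine ⟨free_mac M hr g1 g4 hk0 hk, hr1, hn, a1, g2, g3, a4, ?_, ?_, ?_, p1, by omega⟩
  · intro x y q1 q2 q3 q4
    exact (hrun y (by omega) (by omega)).mem x q1 q2
  · intro x y q1 q2 q3 q4
    rw [mem_D hL0]
    show (x / L, y / L) ∉ M.F
    have e1 : x / L = b + 1 := (div_iff hL0 _ _).2 ⟨by nlinarith, by nlinarith⟩
    have e2 : y / L = c := (div_iff hL0 _ _).2 ⟨by omega, by omega⟩
    rw [e1, e2]
    exact hr.right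
  · intro x y q1 q2 q3 q4
    rw [mem_D hL0]
    show (x / L, y / L) ∉ M.F
    have e1 : x / L = a - 1 := (div_iff hL0 _ _).2 ⟨by nlinarith, by nlinarith⟩
    have e2 : y / L = c := (div_iff hL0 _ _).2 ⟨by omega, by omega⟩
    rw [e1, e2]
    exact hr.left

/-- the right end of the line in `D^+` -/
theorem rgt_Dp {A : Finset (ℤ × ℤ)} {xl xr y1 y2 k p y0 : ℤ} {r n : ℕ}
    (h : CG A xl xr y1 y2 k p y0 r n) : rgt (Dp A xl xr y1 y2 k) p y0 = xr + k := by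
  obtain ⟨fr, hr, hn, a1, a2, a3, a4, run, oR, oL, q1, q2⟩ := h
  have hk := fr.k0
  refine rgt_run (xl := xl - k) ⟨by omega, ?_, ?_, ?_⟩ (by omega) (by omega)
  · intro x g1 g2
    by_cases g3 : x < xl
    · exact mem_Dp.2 (Or.inr (Or.inr (by omega)))
    by_cases g4 : x ≤ xr
    · exact mem_Dp.2 (Or.inl (run x y0 (by omega) g4 (by omega) (by omega)))
    · exact mem_Dp.2 (Or.inr (Or.inl (by omega)))
  · intro g
    rcases mem_Dp.1 g with g | g | g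
    · exact oL _ _ (by omega) (by omega) (by omega) (by omega) g
    · omega
    · omega
  · intro g
    rcases mem_Dp.1 g with g | g | g
    · exact oR _ _ (by omega) (by omega) (by omega) (by omega) g
    · omega
    · omega

/-- **(N4), integer form** -/
theorem compP : ∃ C γ : ℝ, 0 < C ∧ 0 < γ ∧ γ ≤ 1 ∧
    ∀ (M : Mac) (L : ℤ) (cc : Fin 3 → (ℤ × ℤ) × ZMod 4) (a b c : ℤ), 1 < L → Run M.F a b c →
    ∀ (k p y1 y0 y2 : ℤ) (h N : ℕ), 0 ≤ k → k < L → c * L < y1 → y1 < y0 → y0 < y2 →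
      y2 < c * L + L → y0 - h ≤ y1 → y2 ≤ y0 + h → 1 ≤ N → c * L + N ≤ y0 → y0 + N ≤ c * L + L →
      (N : ℤ) ≤ |y0 - (c * L + L / 2)| → a * L + N ≤ p → p + N ≤ b * L + L →
      MK (D M.F L) (beD (D M.F L) p y0 (b * L + L - 1)) (mark L (cc 0).1 (cc 0).2).2
        (mark L (cc 1).1 (cc 1).2).2 (mark L (cc 2).1 (cc 2).2).2 →
      ‖HD M.F L cc p y0 - HA (Dp (D M.F L) (a * L) (b * L + L - 1) y1 y2 k)
        (mark L (cc 0).1 (cc 0).2).2 (mark L (cc 1).1 (cc 1).2).2 (mark L (cc 2).1 (cc 2).2).2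
        p y0‖ ≤ C * ((h : ℝ) / N) ^ (1 + γ) := by
  obtain ⟨C, γ, hC, hγ, hγ1, hp⟩ := p2_le
  refine ⟨8 + 16 * C, γ, by linarith, hγ, hγ1, ?_⟩
  intro M L cc a b c hL hrun k p y1 y0 y2 h N hk0 hk g1 g2 g3 g4 a1 a4 hN n1 n2 n3 p1 p2' hMK
  have hh1 : 1 ≤ h := by omega
  have hhr : (1 : ℝ) ≤ h := by exact_mod_cast hh1
  have hNr : (1 : ℝ) ≤ N := by exact_mod_cast hN
  have hquo : (0 : ℝ) ≤ ((h : ℝ) / N) ^ (1 + γ) := by positivity
  by_cases hsm : N ≤ h + 1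
  · -- trivial bound
    have hsm' : (N : ℝ) ≤ h + 1 := by exact_mod_cast hsm
    have h1 : (1 / 2 : ℝ) ≤ (h : ℝ) / N := by
      rw [le_div_iff₀ (by linarith)]; linarith
    have h2 : (1 / 4 : ℝ) ≤ ((h : ℝ) / N) ^ (1 + γ) := by
      have h3 : (1 / 2 : ℝ) ^ (1 + γ) ≤ ((h : ℝ) / N) ^ (1 + γ) :=
        Real.rpow_le_rpow (by norm_num) h1 (by linarith)
      have h4 : (1 / 2 : ℝ) ^ (2 : ℝ) ≤ (1 / 2 : ℝ) ^ (1 + γ) :=
        Real.rpow_le_rpow_of_exponent_ge (by norm_num) (by norm_num) (by linarith)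
      have h5 : (1 / 2 : ℝ) ^ (2 : ℝ) = 1 / 4 := by
        have : (2 : ℝ) = ((2 : ℕ) : ℝ) := by norm_num
        rw [this, Real.rpow_natCast]; norm_num
      linarith
    have h6 : ‖HD M.F L cc p y0‖ ≤ 1 := Ob664.norm_HD_le _ _ _ _ _
    have h7 : ∀ (A : Finset (ℤ × ℤ)) (m1 m2 m3 : Port (ℤ × ℤ)), ‖HA A m1 m2 m3 p y0‖ ≤ 1 :=
      fun A m1 m2 m3 => Ob664.norm_le_of_Tri (Ob664.HG_mem _ _ _ _ _)
    calc _ ≤ ‖HD M.F L cc p y0‖ + _ := norm_sub_le _ _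
      _ ≤ 1 + 1 := add_le_add h6 (h7 _ _ _ _)
      _ ≤ (8 + 16 * C) * ((h : ℝ) / N) ^ (1 + γ) := by nlinarith
  · -- the comparison
    obtain ⟨n, rfl⟩ : ∃ n : ℕ, N = n + 1 := ⟨N - 1, by omega⟩
    have hn : h + 1 ≤ n := by omega
    push_cast at n1 n2 n3 p1 p2'
    have hcg := cg_mac M hL hrun (k := k) (p := p) (r := h) (n := n) hk0 hk g1 g2 g3 g4 hh1 hn a1 a4
      (by omega) (by omega) (by omega) (by omega)
    have hL0 : 0 < L := by omega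
    obtain ⟨w1, hw1⟩ := exists_SW (b * L + L - 1) y0 h n 1 hh1 hn
    obtain ⟨w0, hw0⟩ := exists_SW (-(a * L)) (1 - y0) h n 0 hh1 hn
    have hf : ∀ i, (mark L (cc i).1 (cc i).2).2 ∈ Fp (FtR (b * L + L - 1) y0 k h n) ∩
        Fp (FtL (a * L) y0 k h n) := fun i =>
      mark_far hL (c := c) (by omega) (by omega) (by omega) _ _ hn
    obtain ⟨-, hle⟩ := comp_gen hcg (fun s hs t ht => D_cpath M hL0 hs ht)
      (fun s hs t ht => D_cpath_in M hL0 hs ht) hMK (hf 0) (hf 1) (hf 2) hw1 hw0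
    have e1 : rgt (D M.F L) p y0 = b * L + L - 1 :=
      (exists_GW_mac M hL hrun (by omega) (by omega) (by omega) (by omega)).1
    have e2 : rgt (Dp (D M.F L) (a * L) (b * L + L - 1) y1 y2 k) p y0 = b * L + L - 1 + k :=
      rgt_Dp hcg
    have e3 : HD M.F L cc p y0 = HG (D M.F L) (beD (D M.F L) p y0 (b * L + L - 1))
        (mark L (cc 0).1 (cc 0).2).2 (mark L (cc 1).1 (cc 1).2).2 (mark L (cc 2).1 (cc 2).2).2 := by
      unfold HD HA
      rw [e1]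
    rw [e3]
    unfold HA
    rw [e2]
    refine hle.trans ?_
    have b1 := hp 1 le_rfl _ _ h n hh1 hn w1 hw1
    have b0 := hp 0 (by norm_num) _ _ h n hh1 hn w0 hw0
    -- comparison of the radii
    have hnr : (h : ℝ) + 1 ≤ n := by exact_mod_cast hn
    have hq1 : (h : ℝ) / n ≤ 2 * ((h : ℝ) / ((n + 1 : ℕ) : ℝ)) := by
      push_cast
      rw [mul_div_assoc', div_le_div_iff₀ (by linarith) (by linarith)]
      nlinarith
    have hq2 : ((h : ℝ) / n) ^ (1 + γ) ≤ 4 * ((h : ℝ) / ((n + 1 : ℕ) : ℝ)) ^ (1 + γ) := by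
      have k1 : ((h : ℝ) / n) ^ (1 + γ) ≤ (2 * ((h : ℝ) / ((n + 1 : ℕ) : ℝ))) ^ (1 + γ) :=
        Real.rpow_le_rpow (by positivity) hq1 (by linarith)
      rw [Real.mul_rpow (by norm_num) (by positivity)] at k1
      have k2 : (2 : ℝ) ^ (1 + γ) ≤ 4 := by
        have := Real.rpow_le_rpow_of_exponent_le (by norm_num : (1 : ℝ) ≤ 2)
          (by linarith : 1 + γ ≤ 2)
        have k3 : (2 : ℝ) ^ (2 : ℝ) = 4 := by
          have : (2 : ℝ) = ((2 : ℕ) : ℝ) := by norm_num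
          conv_lhs => rw [this]
          rw [Real.rpow_natCast]; norm_num
        linarith
      exact k1.trans (mul_le_mul_of_nonneg_right k2 hquo)
    have hq3 : C * ((h : ℝ) / n) ^ (1 + γ) ≤
        C * (4 * ((h : ℝ) / ((n + 1 : ℕ) : ℝ)) ^ (1 + γ)) := mul_le_mul_of_nonneg_left hq2 hC.le
    nlinarith

end Crest.Agent.R158.Sl434
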