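import Crest.Agent.R158.Sl13_434
import Crest.Agent.R158.Mg2_949
import Crest.Agent.R158.Csf2_410

/-!
# R158, block SL (helper434), file Sl14: (N4) for the polygons of `Tj2_656`

* `mk_P4` : the marks of `D^(z)` are in clockwise order
* **`comp_slice`** : `‖P.HD L p y0 - HA D^+‖ ≤ C h ^ (1 + γ)` on slices
-/

set_option autoImplicit false
set_option linter.unusedSectionVars false

noncomputable section

namespace Crest.Agent.R158.Sl434

open Crest.Agent.R158.Sw300 (Port Wd thru tls)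
open Crest.Agent.R158.Env664
open Crest.Agent.R158.Ob664 (Gl GW HV HW HG HA HD rgt)
open Crest.Agent.R158.Xr249 (Dp)
open Crest.Agent.R158.Wd377 (MK)
open Crest.Agent.R158.Mg949 (mac nn wU Lz Lz_pos sU mark0 markD markC cycU exists_word)
open Crest.Agent.R158.Tj656 (P4)
open Crest.Agent.R158.Cs410 (InHalf)
open Crest.Agent.R158.Bl802 (memD ord)

/-- **the marks of a polygon are in clockwise order in `D^(z)`** -/
theorem mk_P4 (P : P4) {L : ℤ} (hL : 0 < L) (hev : Even L) {p y0 xl xr : ℤ}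
    (r0 : Run (D P.F L) xl xr y0) (r1 : Run (D P.F L) xl xr (y0 - 1)) (h1 : xl < p) (h2 : p ≤ xr) :
    MK (D P.F L) (beD (D P.F L) p y0 xr) (mark L (P.cc 0).1 (P.cc 0).2).2
      (mark L (P.cc 1).1 (P.cc 1).2).2 (mark L (P.cc 2).1 (P.cc 2).2).2 := by
  obtain ⟨k', hk'⟩ := hev
  obtain ⟨k, rfl⟩ : ∃ k : ℕ, k' = k := ⟨k'.toNat, by omega⟩
  have hk : 0 < k := by omega
  have hLz : L = Lz k := by rw [hk']; unfold Lz; push_cast; ring
  subst hLz
  obtain ⟨q, w, hw⟩ := exists_word P hk r0 r1 h1 h2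
  rw [mark0 P hk, markD P hk, markC P hk]
  have g1 := P.h1
  have g2 := P.h2
  have g3 := P.h3
  have g4 := P.h4
  have hn : nn P k = P.N * (2 * k) := rfl
  have b1 : P.md * (2 * k) < P.N * (2 * k) := by
    exact Nat.mul_lt_mul_of_pos_right g4 (by omega)
  have b2 : P.mc * (2 * k) < P.md * (2 * k) := Nat.mul_lt_mul_of_pos_right g3 (by omega)
  have b3 : 0 < P.mc * (2 * k) := by
    have : 0 < P.mc := by omega
    positivity
  have hmem : ∀ i < nn P k, sU P k i ∈ Sw300.L w := fun i hi =>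
    (memD (cycU P hk) hw.hq hw.e0 hw.e1 r0 r1 h1 h2 hw.gw _).2 (Or.inr ⟨i, hi, rfl⟩)
  have m1 := hmem (nn P k - 1) (by omega)
  have m2 := hmem (P.md * (2 * k) - 1) (by omega)
  have m3 := hmem (P.mc * (2 * k) - 1) (by omega)
  refine ⟨w, hw.gw, m1, m2, m3, ?_⟩
  obtain ⟨ci, c1, -, c3⟩ := ord (cycU P hk) hw.hq hw.e0 hw.e1 r0 r1 h1 h2 hw.gw
  rw [c3 _ m1 _ m2 _ m3]
  have e1 : ci (sU P k (nn P k - 1)) = 2 * ((nn P k - 1 : ℕ) : ℤ) := c1 _ (by omega)
  have e2 : ci (sU P k (P.md * (2 * k) - 1)) = 2 * ((P.md * (2 * k) - 1 : ℕ) : ℤ) := c1 _ (by omega)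
  have e3 : ci (sU P k (P.mc * (2 * k) - 1)) = 2 * ((P.mc * (2 * k) - 1 : ℕ) : ℤ) := c1 _ (by omega)
  rw [e1, e2, e3]
  unfold Sw300.cyc
  omega

/-- the three marks -/
def mks (P : P4) (L : ℤ) (i : Fin 3) : Port (ℤ × ℤ) := (mark L (P.cc i).1 (P.cc i).2).2

set_option maxHeartbeats 1000000 in
/-- **(N4) on slices** -/
theorem comp_slice (P : P4) {A B r : ℤ} (hr : Run P.F A B r) {a b : ℝ} (hA : (A : ℝ) < a)
    (hB : b < B + 1) {c e : ℝ} (hc : InHalf r c e) :
    ∃ C h0 γ : ℝ, 0 < C ∧ 0 < h0 ∧ 0 < γ ∧ ∀ h y : ℝ, 0 < h → h < h0 → c ≤ y → y ≤ e →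
      ∃ L0 : ℤ, ∀ L : ℤ, L0 ≤ L → Even L → ∀ k : ℤ, 0 ≤ k → k < L → ∀ p y0 : ℤ,
        a ≤ (p : ℝ) / L → (p : ℝ) / L ≤ b → y - h ≤ (y0 : ℝ) / L → (y0 : ℝ) / L ≤ y + h →
        ‖P.HD L p y0 - HA (Dp (D P.F L) (A * L) (B * L + L - 1) ⌊(y - 2 * h) * L⌋
          ⌊(y + 2 * h) * L⌋ k) (mks P L 0) (mks P L 1) (mks P L 2) p y0‖ ≤ C * h ^ (1 + γ) := by
  obtain ⟨C0, γ, hC0, hγ, hγ1, hcomp⟩ := compP
  -- the margin
  obtain ⟨η, hη, hη1, q1, q2, q3, q4, q5⟩ : ∃ η : ℝ, 0 < η ∧ η ≤ 1 ∧ (A : ℝ) + η ≤ a ∧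
      b + η ≤ B + 1 ∧ (r : ℝ) + η ≤ c ∧ e + η ≤ r + 1 ∧
      (e + η ≤ r + 1 / 2 ∨ (r : ℝ) + 1 / 2 + η ≤ c) := by
    rcases hc with ⟨c1, c2⟩ | ⟨c1, c2⟩
    · refine ⟨min (min 1 (a - A)) (min (B + 1 - b) (min (c - r) (r + 1 / 2 - e))), ?_, ?_, ?_, ?_,
        ?_, ?_, Or.inl ?_⟩
      · refine lt_min (lt_min one_pos (by linarith)) (lt_min (by linarith) (lt_min (by linarith)
          (by linarith)))
      · exact (min_le_left _ _).trans (min_le_left _ _)
      · have := (min_le_left (min 1 (a - A)) (min (B + 1 - b) (min (c - r) (r + 1 / 2 - e)))).trans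
          (min_le_right _ _)
        linarith
      · have := (min_le_right (min 1 (a - A)) (min (B + 1 - b) (min (c - r) (r + 1 / 2 - e)))).trans
          (min_le_left _ _)
        linarith
      · have := ((min_le_right (min 1 (a - A)) (min (B + 1 - b) (min (c - r) (r + 1 / 2 - e)))).trans
          (min_le_right _ _)).trans (min_le_left _ _)
        linarith
      · have := ((min_le_right (min 1 (a - A)) (min (B + 1 - b) (min (c - r) (r + 1 / 2 - e)))).trans
          (min_le_right _ _)).trans (min_le_right _ _)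
        linarith
      · have := ((min_le_right (min 1 (a - A)) (min (B + 1 - b) (min (c - r) (r + 1 / 2 - e)))).trans
          (min_le_right _ _)).trans (min_le_right _ _)
        linarith
    · refine ⟨min (min 1 (a - A)) (min (B + 1 - b) (min (c - (r + 1 / 2)) (r + 1 - e))), ?_, ?_, ?_,
        ?_, ?_, ?_, Or.inr ?_⟩
      · refine lt_min (lt_min one_pos (by linarith)) (lt_min (by linarith) (lt_min (by linarith)
          (by linarith)))
      · exact (min_le_left _ _).trans (min_le_left _ _)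
      · have := (min_le_left (min 1 (a - A))
          (min (B + 1 - b) (min (c - (r + 1 / 2)) (r + 1 - e)))).trans (min_le_right _ _)
        linarith
      · have := (min_le_right (min 1 (a - A))
          (min (B + 1 - b) (min (c - (r + 1 / 2)) (r + 1 - e)))).trans (min_le_left _ _)
        linarith
      · have := ((min_le_right (min 1 (a - A))
          (min (B + 1 - b) (min (c - (r + 1 / 2)) (r + 1 - e)))).trans
          (min_le_right _ _)).trans (min_le_left _ _)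
        linarith
      · have := ((min_le_right (min 1 (a - A))
          (min (B + 1 - b) (min (c - (r + 1 / 2)) (r + 1 - e)))).trans
          (min_le_right _ _)).trans (min_le_right _ _)
        linarith
      · have := ((min_le_right (min 1 (a - A))
          (min (B + 1 - b) (min (c - (r + 1 / 2)) (r + 1 - e)))).trans
          (min_le_right _ _)).trans (min_le_left _ _)
        linarith
  refine ⟨C0 * (16 / η) ^ (1 + γ), η / 4, γ, by positivity, by positivity, hγ, ?_⟩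
  intro h y hh hh0 hy1 hy2
  refine ⟨⌈4 / η + 1 / h + 2⌉, fun L hL hev k hk0 hk p y0 p1 p2 s1 s2 => ?_⟩
  have hLr : 4 / η + 1 / h + 2 ≤ (L : ℝ) := Int.ceil_le.1 hL
  have d1 : 0 < 4 / η := by positivity
  have d2 : 0 < 1 / h := by positivity
  have hL2 : (2 : ℝ) < L := by linarith
  have hL0 : (0 : ℝ) < L := by linarith
  have hLi : 2 < L := by exact_mod_cast hL2
  have hηL : 4 ≤ η * L := by
    have : 4 / η ≤ (L : ℝ) := by linarith
    rw [div_le_iff₀ hη] at this
    linarith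
  have hhL : 1 ≤ h * L := by
    have : 1 / h ≤ (L : ℝ) := by linarith
    rw [div_le_iff₀ hh] at this
    linarith
  rw [le_div_iff₀ hL0] at p1 s1
  rw [div_le_iff₀ hL0] at p2 s2
  set H : ℕ := ⌊4 * h * L⌋₊ with hH
  set N : ℕ := ⌊η * L / 2⌋₊ with hN
  have hH1 : (H : ℝ) ≤ 4 * h * L := Nat.floor_le (by positivity)
  have hN1 : (N : ℝ) ≤ η * L / 2 := Nat.floor_le (by positivity)
  have hN2 : η * L / 2 < N + 1 := Nat.lt_floor_add_one _
  have f1 : (⌊(y - 2 * h) * L⌋ : ℝ) ≤ (y - 2 * h) * L := Int.floor_le _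
  have f2 : (y - 2 * h) * L < ⌊(y - 2 * h) * L⌋ + 1 := Int.lt_floor_add_one _
  have f3 : (⌊(y + 2 * h) * L⌋ : ℝ) ≤ (y + 2 * h) * L := Int.floor_le _
  have f4 : (y + 2 * h) * L < ⌊(y + 2 * h) * L⌋ + 1 := Int.lt_floor_add_one _
  -- products
  have m1 : (r : ℝ) * L + η * L ≤ c * L := by
    have := mul_le_mul_of_nonneg_right q3 hL0.le; linarith
  have m2 : e * L + η * L ≤ (r : ℝ) * L + L := by
    have := mul_le_mul_of_nonneg_right q4 hL0.le; linarith
  have m3 : c * L ≤ y * L := mul_le_mul_of_nonneg_right hy1 hL0.le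
  have m4 : y * L ≤ e * L := mul_le_mul_of_nonneg_right hy2 hL0.le
  have m5 : (A : ℝ) * L + η * L ≤ a * L := by
    have := mul_le_mul_of_nonneg_right q1 hL0.le; linarith
  have m6 : b * L + η * L ≤ (B : ℝ) * L + L := by
    have := mul_le_mul_of_nonneg_right q2 hL0.le; linarith
  have m7 : 4 * (h * L) ≤ η * L := by
    have := mul_le_mul_of_nonneg_right hh0.le hL0.le; linarith
  have t1 : r * L < ⌊(y - 2 * h) * L⌋ := by
    have : (r : ℝ) * L < (⌊(y - 2 * h) * L⌋ : ℝ) := by linarith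
    exact_mod_cast this
  have t2 : ⌊(y - 2 * h) * L⌋ < y0 := by
    have : (⌊(y - 2 * h) * L⌋ : ℝ) < y0 := by linarith
    exact_mod_cast this
  have t3 : y0 < ⌊(y + 2 * h) * L⌋ := by
    have h1 : (y0 : ℝ) + 1 < ⌊(y + 2 * h) * L⌋ + 1 := by linarith
    have : (y0 : ℝ) < ⌊(y + 2 * h) * L⌋ := by linarith
    exact_mod_cast this
  have t4 : ⌊(y + 2 * h) * L⌋ < r * L + L := by
    have : (⌊(y + 2 * h) * L⌋ : ℝ) < r * L + L := by linarith
    exact_mod_cast this
  have t5 : y0 - H ≤ ⌊(y - 2 * h) * L⌋ := by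
    have h1 : (y0 : ℝ) - ⌊(y - 2 * h) * L⌋ ≤ 4 * h * L := by linarith
    have h2 : y0 - ⌊(y - 2 * h) * L⌋ ≤ ⌊4 * h * L⌋ := by
      rw [Int.le_floor]; push_cast; exact h1
    have h3 : ((H : ℕ) : ℤ) = ⌊4 * h * L⌋ := by
      rw [hH]; exact Int.natCast_floor_eq_floor (by positivity)
    omega
  have t6 : ⌊(y + 2 * h) * L⌋ ≤ y0 + H := by
    have h1 : (⌊(y + 2 * h) * L⌋ : ℝ) - y0 ≤ 4 * h * L := by linarith
    have h2 : ⌊(y + 2 * h) * L⌋ - y0 ≤ ⌊4 * h * L⌋ := by
      rw [Int.le_floor]; push_cast; exact h1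
    have h3 : ((H : ℕ) : ℤ) = ⌊4 * h * L⌋ := by
      rw [hH]; exact Int.natCast_floor_eq_floor (by positivity)
    omega
  have t7 : 1 ≤ N := by
    rw [hN]; exact Nat.le_floor (by push_cast; linarith)
  have t8 : r * L + N ≤ y0 := by
    have : (r : ℝ) * L + N ≤ y0 := by linarith
    exact_mod_cast this
  have t9 : y0 + N ≤ r * L + L := by
    have : (y0 : ℝ) + N ≤ r * L + L := by linarith
    exact_mod_cast this
  have t10 : (N : ℤ) ≤ |y0 - (r * L + L / 2)| := by
    obtain ⟨l, hl⟩ := hev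
    have hl2 : L / 2 = l := by omega
    have hlr : (L : ℝ) = 2 * l := by
      have : ((L : ℤ) : ℝ) = ((l + l : ℤ) : ℝ) := by rw [hl]
      push_cast at this; linarith
    rw [hl2]
    rcases q5 with q5 | q5
    · have m8 : e * L + η * L ≤ (r : ℝ) * L + L / 2 := by
        have := mul_le_mul_of_nonneg_right q5 hL0.le; linarith
      have : (N : ℝ) ≤ r * L + l - y0 := by linarith
      have h1 : (N : ℤ) ≤ r * L + l - y0 := by exact_mod_cast this
      rw [le_abs]; right; omega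
    · have m8 : (r : ℝ) * L + L / 2 + η * L ≤ c * L := by
        have := mul_le_mul_of_nonneg_right q5 hL0.le; linarith
      have : (N : ℝ) ≤ y0 - (r * L + l) := by linarith
      have h1 : (N : ℤ) ≤ y0 - (r * L + l) := by exact_mod_cast this
      rw [le_abs]; left; omega
  have t11 : A * L + N ≤ p := by
    have : (A : ℝ) * L + N ≤ p := by linarith
    exact_mod_cast this
  have t12 : p + N ≤ B * L + L := by
    have : (p : ℝ) + N ≤ B * L + L := by linarith
    exact_mod_cast this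
  have hr0 := hr.scale (by omega : 0 < L) (y := y0) (by omega) (by omega)
  have hr1 := hr.scale (by omega : 0 < L) (y := y0 - 1) (by omega) (by omega)
  have hMK := mk_P4 P (by omega) hev hr0 hr1 (p := p) (by omega) (by omega)
  have hmain := hcomp (mac P) L P.cc A B r (by omega) hr k p _ y0 _ H N hk0 hk t1 t2 t3 t4 t5 t6 t7
    t8 t9 t10 t11 t12 hMK
  refine le_trans hmain ?_
  have hNr : (0 : ℝ) < N := by exact_mod_cast t7
  have hquo : (H : ℝ) / N ≤ (16 / η) * h := by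
    rw [div_le_iff₀ hNr]
    have h1 : η * L / 4 ≤ N := by linarith
    calc (H : ℝ) ≤ 4 * h * L := hH1
      _ = (16 / η) * h * (η * L / 4) := by field_simp; ring
      _ ≤ (16 / η) * h * N := mul_le_mul_of_nonneg_left h1 (by positivity)
  calc C0 * ((H : ℝ) / N) ^ (1 + γ) ≤ C0 * ((16 / η) * h) ^ (1 + γ) :=
        mul_le_mul_of_nonneg_left (Real.rpow_le_rpow (by positivity) hquo (by linarith)) hC0.le
    _ = C0 * (16 / η) ^ (1 + γ) * h ^ (1 + γ) := by
        rw [Real.mul_rpow (by positivity) hh.le]; ring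

end Crest.Agent.R158.Sl434
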