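import Crest.Agent.R158.Sl1_434
import Crest.Agent.R158.Vt4_300

/-!
# R158, block SL (helper434), file Sl2: the triangle observable on cyclic lists

`L : List α` = the cyclic list of ends (clockwise), `M` = partner, `u` = leg end; a mark `x ∈ L` is
the gap just before the end `x` (664's convention).

* `gq`, `opp`, `Sepc` : sides of an arc, "some arc separates the gaps `x, y` from `z` and the leg"
* `cyc` : the leg end lies in the clockwise interval `[x, y)`
* `VV` : the value of the observable; `vv_rot` : invariance under rotation of the list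
* `vv_one`, `vv_zero` : **invariance when the block `B` of the cyclic list `A ++ B` is changed**
-/

set_option autoImplicit false

namespace Crest.Agent.R158.Sl434

open Crest.Agent.R158.Vt300

variable {α : Type*} [DecidableEq α]

set_option linter.unusedSectionVars false

/-- `a` is before `t` in the list -/
def gq (L : List α) (a t : α) : Bool := decide (L.idxOf a < L.idxOf t)

/-- the gaps before `x` and `y` are on different sides of the arc `a b` (`a, b ≠ y`) -/
def opp (L : List α) (a b x y : α) : Bool := (gq L a x ^^ gq L b x) ^^ (gq L a y ^^ gq L b y)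

/-- some arc has the gaps `x`, `y` on the side away from `u` and `z` on the side of `u` -/
def Sepc (L : List α) (M : α → α) (u x y z : α) : Prop :=
  ∃ a ∈ L, M a ∈ L ∧ M a ≠ a ∧ opp L a (M a) x u = true ∧ opp L a (M a) y u = true ∧
    opp L a (M a) z u = false

/-- the end `u` lies in the clockwise interval `[x, y)` -/
def cyc (L : List α) (x u y : α) : Bool :=
  (!(gq L u x) && gq L u y) || (gq L u y && !(gq L x y)) || (!(gq L x y) && !(gq L u x))

open Classical in
/-- value of the observable from its three separation events and the place of the leg -/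
noncomputable def vval (p1 p2 p3 : Prop) (q1 q2 : Bool) : ℂ :=
  if p1 then 0 else if p2 then 1 else if p3 then v2
  else if q1 = true then 1 / 2 else if q2 = true then v2 / 2 else (v2 + 1) / 2

/-- the triangle observable with marks `x1 x2 x3` -/
noncomputable def VV (L : List α) (M : α → α) (u x1 x2 x3 : α) : ℂ :=
  vval (Sepc L M u x2 x3 x1) (Sepc L M u x1 x2 x3) (Sepc L M u x3 x1 x2) (cyc L x3 u x1)
    (cyc L x1 u x2)

theorem norm_v2 : ‖v2‖ = 1 := by
  unfold v2
  have : Complex.I * (Real.pi / 3) = ((Real.pi / 3 : ℝ) : ℂ) * Complex.I := by push_cast; ring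
  rw [this, Complex.norm_exp_ofReal_mul_I]

theorem norm_VV (L : List α) (M : α → α) (u x1 x2 x3 : α) : ‖VV L M u x1 x2 x3‖ ≤ 1 := by
  unfold VV vval
  have h := norm_v2
  split_ifs
  · simp
  · simp
  · exact h.le
  · norm_num
  · rw [norm_div, h]; norm_num
  · rw [norm_div]
    have : ‖v2 + 1‖ ≤ 2 := (norm_add_le _ _).trans (by rw [h]; norm_num)
    have h2 : ‖(2 : ℂ)‖ = 2 := by norm_num
    rw [h2]; linarith

theorem opp_comm (L : List α) (a b x y : α) : opp L a b x y = opp L b a x y := by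
  unfold opp
  rw [Bool.xor_comm (gq L a x), Bool.xor_comm (gq L a y)]

/-! ### indices -/

theorem gq_ll {A B : List α} {a t : α} (ha : a ∈ A) (ht : t ∈ A) : gq (A ++ B) a t = gq A a t := by
  unfold gq
  rw [List.idxOf_append_of_mem ha, List.idxOf_append_of_mem ht]

theorem notMem_left {A B : List α} (hn : (A ++ B).Nodup) {b : α} (hb : b ∈ B) : b ∉ A := by
  intro ha
  exact (List.disjoint_of_nodup_append hn) ha hb

theorem gq_lr {A B : List α} (hn : (A ++ B).Nodup) {a b : α} (ha : a ∈ A) (hb : b ∈ B) :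
    gq (A ++ B) a b = true := by
  unfold gq
  rw [List.idxOf_append_of_mem ha, List.idxOf_append_of_notMem (notMem_left hn hb)]
  have := List.idxOf_lt_length_iff.2 ha
  simp only [decide_eq_true_eq]
  omega

theorem gq_rl {A B : List α} (hn : (A ++ B).Nodup) {a b : α} (ha : a ∈ A) (hb : b ∈ B) :
    gq (A ++ B) b a = false := by
  unfold gq
  rw [List.idxOf_append_of_mem ha, List.idxOf_append_of_notMem (notMem_left hn hb)]
  have := List.idxOf_lt_length_iff.2 ha
  simp only [decide_eq_false_iff_not]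
  omega

theorem gq_rr {A B : List α} (hn : (A ++ B).Nodup) {a b : α} (ha : a ∈ B) (hb : b ∈ B) :
    gq (A ++ B) a b = gq B a b := by
  unfold gq
  rw [List.idxOf_append_of_notMem (notMem_left hn ha),
    List.idxOf_append_of_notMem (notMem_left hn hb)]
  congr 1
  simp

theorem gq_swap {A B : List α} (hn : (A ++ B).Nodup) {a t : α} (ha : a ∈ A ++ B)
    (ht : t ∈ A ++ B) :
    gq (B ++ A) a t = (gq (A ++ B) a t ^^ (decide (a ∈ B) ^^ decide (t ∈ B))) := by
  have hn' : (B ++ A).Nodup := List.nodup_append_comm.1 hn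
  rw [List.mem_append] at ha ht
  rcases ha with ha | ha <;> rcases ht with ht | ht
  · have h1 : a ∉ B := notMem_left hn' ha
    have h2 : t ∉ B := notMem_left hn' ht
    rw [gq_rr hn' ha ht, gq_ll ha ht]; simp [h1, h2]
  · have h1 : a ∉ B := notMem_left hn' ha
    rw [gq_rl hn' ht ha, gq_lr hn ha ht]; simp [h1, ht]
  · have h1 : t ∉ B := notMem_left hn' ht
    rw [gq_lr hn' ha ht, gq_rl hn ht ha]; simp [h1, ha]
  · rw [gq_ll ha ht, gq_rr hn ha ht]; simp [ha, ht]

theorem opp_swap {A B : List α} (hn : (A ++ B).Nodup) {a b x y : α} (ha : a ∈ A ++ B)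
    (hb : b ∈ A ++ B) (hx : x ∈ A ++ B) (hy : y ∈ A ++ B) :
    opp (B ++ A) a b x y = opp (A ++ B) a b x y := by
  unfold opp
  rw [gq_swap hn ha hx, gq_swap hn hb hx, gq_swap hn ha hy, gq_swap hn hb hy]
  generalize gq (A ++ B) a x = p1
  generalize gq (A ++ B) b x = p2
  generalize gq (A ++ B) a y = p3
  generalize gq (A ++ B) b y = p4
  generalize decide (a ∈ B) = q1
  generalize decide (b ∈ B) = q2
  generalize decide (x ∈ B) = q3
  generalize decide (y ∈ B) = q4
  revert p1 p2 p3 p4 q1 q2 q3 q4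
  decide

theorem sepc_swap_aux {A B : List α} (hn : (A ++ B).Nodup) {M : α → α} {u x y z : α}
    (hu : u ∈ A ++ B) (hx : x ∈ A ++ B) (hy : y ∈ A ++ B) (hz : z ∈ A ++ B)
    (h : Sepc (A ++ B) M u x y z) : Sepc (B ++ A) M u x y z := by
  obtain ⟨a, ha, hMa, hne, h1, h2, h3⟩ := h
  refine ⟨a, (List.mem_append.1 ha).elim (fun h => List.mem_append.2 (Or.inr h))
    (fun h => List.mem_append.2 (Or.inl h)), (List.mem_append.1 hMa).elim
    (fun h => List.mem_append.2 (Or.inr h)) (fun h => List.mem_append.2 (Or.inl h)), hne, ?_, ?_, ?_⟩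
  · rw [opp_swap hn ha hMa hx hu]; exact h1
  · rw [opp_swap hn ha hMa hy hu]; exact h2
  · rw [opp_swap hn ha hMa hz hu]; exact h3

theorem mem_swap {A B : List α} {x : α} (h : x ∈ A ++ B) : x ∈ B ++ A := by
  rw [List.mem_append] at h ⊢; exact h.symm

theorem sepc_swap {A B : List α} (hn : (A ++ B).Nodup) {M : α → α} {u x y z : α}
    (hu : u ∈ A ++ B) (hx : x ∈ A ++ B) (hy : y ∈ A ++ B) (hz : z ∈ A ++ B) :
    Sepc (B ++ A) M u x y z ↔ Sepc (A ++ B) M u x y z :=
  ⟨sepc_swap_aux (List.nodup_append_comm.1 hn) (mem_swap hu) (mem_swap hx) (mem_swap hy)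
    (mem_swap hz), sepc_swap_aux hn hu hx hy hz⟩

/-- comparison of two different members is a strict order -/
theorem gq_ne {L : List α} {a b : α} (ha : a ∈ L) (hab : a ≠ b) :
    gq L b a = !(gq L a b) := by
  unfold gq
  have hne : L.idxOf a ≠ L.idxOf b := fun h => hab ((List.idxOf_inj ha).1 h)
  by_cases h : L.idxOf a < L.idxOf b
  · have h2 : ¬ L.idxOf b < L.idxOf a := by omega
    simp [h, h2]
  · have h2 : L.idxOf b < L.idxOf a := by omega
    simp [h, h2]

theorem gq_self (L : List α) (a : α) : gq L a a = false := by simp [gq]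

theorem cyc_swap {A B : List α} (hn : (A ++ B).Nodup) {u x y : α}
    (hu : u ∈ A ++ B) (hx : x ∈ A ++ B) (hy : y ∈ A ++ B) (hxy : x ≠ y) :
    cyc (B ++ A) x u y = cyc (A ++ B) x u y := by
  unfold cyc
  rw [gq_swap hn hu hx, gq_swap hn hu hy, gq_swap hn hx hy]
  by_cases hux : u = x
  · subst hux
    rw [gq_self]
    generalize gq (A ++ B) u y = p2
    generalize decide (u ∈ B) = q1
    generalize decide (y ∈ B) = q2
    revert p2 q1 q2
    decide
  by_cases huy : u = y
  · subst huy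
    have h1 := gq_ne hu hux
    rw [gq_self]
    rw [h1]
    generalize gq (A ++ B) u x = p2
    generalize decide (u ∈ B) = q1
    generalize decide (x ∈ B) = q2
    revert p2 q1 q2
    decide
  -- three different ends: transitivity
  have t1 := gq_ne hu hux
  have t2 := gq_ne hu huy
  have t3 := gq_ne hx hxy
  have hu' := List.mem_append.1 hu
  have hx' := List.mem_append.1 hx
  have hy' := List.mem_append.1 hy
  -- block facts
  have k1 : decide (u ∈ B) = true → decide (x ∈ B) = false → gq (A ++ B) u x = false := by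
    intro h1 h2
    simp only [decide_eq_true_eq, decide_eq_false_iff_not] at h1 h2
    exact gq_rl hn (hx'.resolve_right h2) h1
  have k2 : decide (u ∈ B) = false → decide (x ∈ B) = true → gq (A ++ B) u x = true := by
    intro h1 h2
    simp only [decide_eq_true_eq, decide_eq_false_iff_not] at h1 h2
    exact gq_lr hn (hu'.resolve_right h1) h2
  have k3 : decide (u ∈ B) = true → decide (y ∈ B) = false → gq (A ++ B) u y = false := by
    intro h1 h2
    simp only [decide_eq_true_eq, decide_eq_false_iff_not] at h1 h2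
    exact gq_rl hn (hy'.resolve_right h2) h1
  have k4 : decide (u ∈ B) = false → decide (y ∈ B) = true → gq (A ++ B) u y = true := by
    intro h1 h2
    simp only [decide_eq_true_eq, decide_eq_false_iff_not] at h1 h2
    exact gq_lr hn (hu'.resolve_right h1) h2
  have k5 : decide (x ∈ B) = true → decide (y ∈ B) = false → gq (A ++ B) x y = false := by
    intro h1 h2
    simp only [decide_eq_true_eq, decide_eq_false_iff_not] at h1 h2
    exact gq_rl hn (hy'.resolve_right h2) h1
  have k6 : decide (x ∈ B) = false → decide (y ∈ B) = true → gq (A ++ B) x y = true := by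
    intro h1 h2
    simp only [decide_eq_true_eq, decide_eq_false_iff_not] at h1 h2
    exact gq_lr hn (hx'.resolve_right h1) h2
  have k7 : gq (A ++ B) u x = true → gq (A ++ B) x y = true → gq (A ++ B) u y = true := by
    unfold gq; simp only [decide_eq_true_eq]; omega
  have k8 : gq (A ++ B) u y = true → gq (A ++ B) x y = false → gq (A ++ B) u x = true := by
    unfold gq; simp only [decide_eq_true_eq, decide_eq_false_iff_not]; omega
  clear t1 t2 t3
  revert k1 k2 k3 k4 k5 k6 k7 k8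
  generalize gq (A ++ B) u x = p1
  generalize gq (A ++ B) u y = p2
  generalize gq (A ++ B) x y = p3
  generalize decide (u ∈ B) = q1
  generalize decide (x ∈ B) = q2
  generalize decide (y ∈ B) = q3
  cases p1 <;> cases p2 <;> cases p3 <;> cases q1 <;> cases q2 <;> cases q3 <;> simp

theorem vv_swap {A B : List α} (hn : (A ++ B).Nodup) {M : α → α} {u x1 x2 x3 : α}
    (hu : u ∈ A ++ B) (h1 : x1 ∈ A ++ B) (h2 : x2 ∈ A ++ B) (h3 : x3 ∈ A ++ B) (h12 : x1 ≠ x2)
    (h31 : x3 ≠ x1) : VV (B ++ A) M u x1 x2 x3 = VV (A ++ B) M u x1 x2 x3 := by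
  unfold VV
  rw [cyc_swap hn hu h3 h1 h31, cyc_swap hn hu h1 h2 h12]
  rw [propext (sepc_swap (M := M) hn hu h2 h3 h1), propext (sepc_swap (M := M) hn hu h1 h2 h3),
    propext (sepc_swap (M := M) hn hu h3 h1 h2)]

/-- **rotation invariance** -/
theorem vv_rot {L L' : List α} (hr : L ~r L') (hn : L.Nodup) {M : α → α} {u x1 x2 x3 : α}
    (hu : u ∈ L) (h1 : x1 ∈ L) (h2 : x2 ∈ L) (h3 : x3 ∈ L) (h12 : x1 ≠ x2) (h31 : x3 ≠ x1) :
    VV L' M u x1 x2 x3 = VV L M u x1 x2 x3 := by
  obtain ⟨n, hn', rfl⟩ := List.isRotated_iff_mod.1 hr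
  rw [List.rotate_eq_drop_append_take hn']
  have e : L.take n ++ L.drop n = L := List.take_append_drop n L
  rw [← e] at hn hu h1 h2 h3
  have := vv_swap (M := M) hn hu h1 h2 h3 h12 h31
  rw [this, e]

/-! ### change of a block -/

/-- one side of the invariance of `Sepc`, one crossing strand -/
theorem sepc_one_aux {A B B' : List α} (hn : (A ++ B).Nodup) (hn' : (A ++ B').Nodup)
    {M M' : α → α} {u u' x y z : α} (huL : u ∈ A ++ B) (huL' : u' ∈ A ++ B')
    (hu : u ∈ A ∨ u' ∈ A → u = u') (hM : ∀ a ∈ A, ∀ b ∈ A, M a = b ↔ M' a = b)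
    (hMM : ∀ a ∈ A ++ B, M (M a) = a) (hMl' : ∀ a ∈ A ++ B', M' a ∈ A ++ B')
    (h3 : u ∉ A → ∀ a ∈ A, M a ∈ A) (hx : x ∈ A) (hy : y ∈ A) (hz : z ∈ A)
    (h : Sepc (A ++ B) M u x y z) : Sepc (A ++ B') M' u' x y z := by
  -- an arc from `A` to `B`
  have key : ∀ a ∈ A, M a ∈ B → M a ≠ a → opp (A ++ B) a (M a) x u = true →
      opp (A ++ B) a (M a) y u = true → opp (A ++ B) a (M a) z u = false →
      Sepc (A ++ B') M' u' x y z := by
    intro a ha hb hne h4 h5 h6
    have hbA : M a ∉ A := notMem_left hn hb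
    have huA : u ∈ A := by
      by_contra huA
      exact hbA (h3 huA a ha)
    obtain rfl := hu (Or.inl huA)
    have hb' : M' a ∈ A ++ B' := hMl' a (List.mem_append_left _ ha)
    have hb2 : M' a ∉ A := by
      intro h7
      have h8 : M a = M' a := (hM a ha _ h7).2 rfl
      exact hbA (h8 ▸ h7)
    have hb3 : M' a ∈ B' := (List.mem_append.1 hb').resolve_left hb2
    have e1 : ∀ t ∈ A, opp (A ++ B) a (M a) t u = (gq A a t ^^ gq A a u) := by
      intro t ht
      unfold opp
      rw [gq_ll ha ht, gq_ll ha huA, gq_rl hn ht hb, gq_rl hn huA hb]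
      simp
    have e2 : ∀ t ∈ A, opp (A ++ B') a (M' a) t u = (gq A a t ^^ gq A a u) := by
      intro t ht
      unfold opp
      rw [gq_ll ha ht, gq_ll ha huA, gq_rl hn' ht hb3, gq_rl hn' huA hb3]
      simp
    refine ⟨a, List.mem_append_left _ ha, hb', fun h7 => hb2 (by rw [h7]; exact ha), ?_, ?_, ?_⟩
    · rw [e2 x hx, ← e1 x hx]; exact h4
    · rw [e2 y hy, ← e1 y hy]; exact h5
    · rw [e2 z hz, ← e1 z hz]; exact h6
  obtain ⟨a, ha, hMa, hne, h4, h5, h6⟩ := h
  rcases List.mem_append.1 ha with ha | ha <;> rcases List.mem_append.1 hMa with hb | hb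
  · -- both in `A`
    have e0 : M' a = M a := (hM a ha _ hb).1 rfl
    have e1 : ∀ t ∈ A, opp (A ++ B') a (M' a) t u' = opp (A ++ B) a (M a) t u := by
      intro t ht
      unfold opp
      rw [e0, gq_ll ha ht, gq_ll ha ht, gq_ll hb ht, gq_ll hb ht]
      congr 1
      rcases List.mem_append.1 huL with h7 | h7
      · obtain rfl := hu (Or.inl h7)
        rw [gq_ll ha h7, gq_ll ha h7, gq_ll hb h7, gq_ll hb h7]
      · have h8 : u' ∈ B' := by
          refine (List.mem_append.1 huL').resolve_left fun h9 => ?_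
          have h10 := hu (Or.inr h9)
          exact notMem_left hn h7 (h10 ▸ h9)
        rw [gq_lr hn' ha h8, gq_lr hn ha h7, gq_lr hn' hb h8, gq_lr hn hb h7]
    refine ⟨a, List.mem_append_left _ ha, ?_, ?_, ?_, ?_, ?_⟩
    · rw [e0]; exact List.mem_append_left _ hb
    · rw [e0]; exact hne
    · rw [e1 x hx]; exact h4
    · rw [e1 y hy]; exact h5
    · rw [e1 z hz]; exact h6
  · exact key a ha hb hne h4 h5 h6
  · have h7 : M (M a) = a := hMM a (List.mem_append_right _ ha)
    have c1 : ∀ t, opp (A ++ B) (M a) (M (M a)) t u = opp (A ++ B) a (M a) t u := by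
      intro t; rw [h7]; exact opp_comm _ _ _ _ _
    refine key (M a) hb (by rw [h7]; exact ha) (by rw [h7]; exact hne.symm) ?_ ?_ ?_
    · rw [c1]; exact h4
    · rw [c1]; exact h5
    · rw [c1]; exact h6
  · -- both in `B`
    exfalso
    unfold opp at h4 h6
    rw [gq_rl hn hx ha, gq_rl hn hx hb] at h4
    rw [gq_rl hn hz ha, gq_rl hn hz hb] at h6
    rw [h4] at h6
    exact absurd h6 (by decide)

/-- data of a change of the block `B` with at most one strand between the far part and the block -/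
structure One (A B B' : List α) (M M' : α → α) (u u' : α) : Prop where
  nd : (A ++ B).Nodup
  nd' : (A ++ B').Nodup
  uL : u ∈ A ++ B
  uL' : u' ∈ A ++ B'
  hu : u ∈ A ∨ u' ∈ A → u = u'
  hM : ∀ a ∈ A, ∀ b ∈ A, M a = b ↔ M' a = b
  inv : ∀ a ∈ A ++ B, M (M a) = a
  inv' : ∀ a ∈ A ++ B', M' (M' a) = a
  mem : ∀ a ∈ A ++ B, M a ∈ A ++ B
  mem' : ∀ a ∈ A ++ B', M' a ∈ A ++ B'
  leg : u ∉ A → ∀ a ∈ A, M a ∈ A

theorem One.symm {A B B' : List α} {M M' : α → α} {u u' : α} (h : One A B B' M M' u u') :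
    One A B' B M' M u' u where
  nd := h.nd'
  nd' := h.nd
  uL := h.uL'
  uL' := h.uL
  hu h1 := (h.hu h1.symm).symm
  hM a ha b hb := (h.hM a ha b hb).symm
  inv := h.inv'
  inv' := h.inv
  mem := h.mem'
  mem' := h.mem
  leg h1 a ha := by
    have h2 : u ∉ A := fun h3 => h1 ((h.hu (Or.inl h3)) ▸ h3)
    have h3 := h.leg h2 a ha
    have h4 : M' a = M a := (h.hM a ha _ h3).1 rfl
    rw [h4]; exact h3

theorem One.sepc {A B B' : List α} {M M' : α → α} {u u' : α} (h : One A B B' M M' u u')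
    {x y z : α} (hx : x ∈ A) (hy : y ∈ A) (hz : z ∈ A) :
    Sepc (A ++ B) M u x y z ↔ Sepc (A ++ B') M' u' x y z :=
  ⟨sepc_one_aux h.nd h.nd' h.uL h.uL' h.hu h.hM h.inv h.mem' h.leg hx hy hz,
    sepc_one_aux h.symm.nd h.symm.nd' h.symm.uL h.symm.uL' h.symm.hu h.symm.hM h.symm.inv
      h.symm.mem' h.symm.leg hx hy hz⟩

theorem One.cyc {A B B' : List α} {M M' : α → α} {u u' : α} (h : One A B B' M M' u u')
    {x y : α} (hx : x ∈ A) (hy : y ∈ A) : cyc (A ++ B) x u y = cyc (A ++ B') x u' y := by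
  unfold Sl434.cyc
  rw [gq_ll hx hy, gq_ll hx hy]
  rcases List.mem_append.1 h.uL with h7 | h7
  · obtain rfl := h.hu (Or.inl h7)
    rw [gq_ll h7 hx, gq_ll h7 hx, gq_ll h7 hy, gq_ll h7 hy]
  · have h8 : u' ∈ B' := by
      refine (List.mem_append.1 h.uL').resolve_left fun h9 => ?_
      have h10 := h.hu (Or.inr h9)
      exact notMem_left h.nd h7 (h10 ▸ h9)
    rw [gq_rl h.nd hx h7, gq_rl h.nd hy h7, gq_rl h.nd' hx h8, gq_rl h.nd' hy h8]

/-- **V-invariance, at most one crossing strand** -/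
theorem vv_one {A B B' : List α} {M M' : α → α} {u u' : α} (h : One A B B' M M' u u')
    {x1 x2 x3 : α} (h1 : x1 ∈ A) (h2 : x2 ∈ A) (h3 : x3 ∈ A) :
    VV (A ++ B) M u x1 x2 x3 = VV (A ++ B') M' u' x1 x2 x3 := by
  unfold VV
  rw [h.cyc h3 h1, h.cyc h1 h2]
  rw [propext (h.sepc h2 h3 h1), propext (h.sepc h1 h2 h3), propext (h.sepc h3 h1 h2)]

/-- a mark and its image: the same far end, or arbitrary ends of the two blocks -/
def Mk (A B B' : List α) (x x' : α) : Prop := (x ∈ A ∧ x' = x) ∨ (x ∈ B ∧ x' ∈ B')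

theorem Mk.symm {A B B' : List α} {x x' : α} (h : Mk A B B' x x') : Mk A B' B x' x := by
  rcases h with ⟨h1, rfl⟩ | ⟨h1, h2⟩
  · exact Or.inl ⟨h1, rfl⟩
  · exact Or.inr ⟨h2, h1⟩

theorem Mk.mem {A B B' : List α} {x x' : α} (h : Mk A B B' x x') : x ∈ A ++ B ∧ x' ∈ A ++ B' := by
  rcases h with ⟨h1, rfl⟩ | ⟨h1, h2⟩
  · exact ⟨List.mem_append_left _ h1, List.mem_append_left _ h1⟩
  · exact ⟨List.mem_append_right _ h1, List.mem_append_right _ h2⟩

theorem sepc_zero_aux {A B B' : List α} {M M' : α → α} {u u' : α} (h : One A B B' M M' u u')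
    (huA : u ∈ A) (hA : ∀ a ∈ A, M a ∈ A) {x y z x' y' z' : α} (hx : Mk A B B' x x')
    (hy : Mk A B B' y y') (hz : Mk A B B' z z') (hxy : x ∈ A ∨ y ∈ A)
    (hs : Sepc (A ++ B) M u x y z) : Sepc (A ++ B') M' u' x' y' z' := by
  obtain rfl := h.hu (Or.inl huA)
  obtain ⟨a, ha, hMa, hne, h4, h5, h6⟩ := hs
  by_cases haA : a ∈ A
  · have hb : M a ∈ A := hA a haA
    have e0 : M' a = M a := (h.hM a haA _ hb).1 rfl
    have e1 : ∀ t t', Mk A B B' t t' → opp (A ++ B') a (M' a) t' u = opp (A ++ B) a (M a) t u := by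
      intro t t' ht
      unfold opp
      rw [e0, gq_ll haA huA, gq_ll haA huA, gq_ll hb huA, gq_ll hb huA]
      congr 1
      rcases ht with ⟨ht, rfl⟩ | ⟨ht, ht'⟩
      · rw [gq_ll haA ht, gq_ll haA ht, gq_ll hb ht, gq_ll hb ht]
      · rw [gq_lr h.nd haA ht, gq_lr h.nd hb ht, gq_lr h.nd' haA ht', gq_lr h.nd' hb ht']
    refine ⟨a, List.mem_append_left _ haA, ?_, ?_, ?_, ?_, ?_⟩
    · rw [e0]; exact List.mem_append_left _ hb
    · rw [e0]; exact hne
    · rw [e1 x x' hx]; exact h4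
    · rw [e1 y y' hy]; exact h5
    · rw [e1 z z' hz]; exact h6
  · exfalso
    have haB : a ∈ B := (List.mem_append.1 ha).resolve_left haA
    have hbA : M a ∉ A := by
      intro hb
      have h7 := hA _ hb
      rw [h.inv a ha] at h7
      exact haA h7
    have hbB : M a ∈ B := (List.mem_append.1 hMa).resolve_left hbA
    rcases hxy with h7 | h7
    · unfold opp at h4
      rw [gq_rl h.nd h7 haB, gq_rl h.nd h7 hbB, gq_rl h.nd huA haB, gq_rl h.nd huA hbB] at h4
      exact absurd h4 (by decide)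
    · unfold opp at h5
      rw [gq_rl h.nd h7 haB, gq_rl h.nd h7 hbB, gq_rl h.nd huA haB, gq_rl h.nd huA hbB] at h5
      exact absurd h5 (by decide)

theorem cyc_zero {A B B' : List α} {M M' : α → α} {u u' : α} (h : One A B B' M M' u u')
    (huA : u ∈ A) {x y x' y' : α} (hx : Mk A B B' x x') (hy : Mk A B B' y y')
    (hxy : x ∈ A ∨ y ∈ A) : cyc (A ++ B) x u y = cyc (A ++ B') x' u' y' := by
  obtain rfl := h.hu (Or.inl huA)
  unfold Sl434.cyc
  rcases hx with ⟨hx, rfl⟩ | ⟨hx, hx'⟩ <;> rcases hy with ⟨hy, rfl⟩ | ⟨hy, hy'⟩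
  · rw [gq_ll hx hy, gq_ll hx hy, gq_ll huA hx, gq_ll huA hx, gq_ll huA hy, gq_ll huA hy]
  · rw [gq_ll huA hx, gq_ll huA hx, gq_lr h.nd huA hy, gq_lr h.nd' huA hy', gq_lr h.nd hx hy,
      gq_lr h.nd' hx hy']
  · rw [gq_ll huA hy, gq_ll huA hy, gq_lr h.nd huA hx, gq_lr h.nd' huA hx', gq_rl h.nd hy hx,
      gq_rl h.nd' hy hx']
  · exfalso
    rcases hxy with h7 | h7
    · exact notMem_left h.nd hx h7
    · exact notMem_left h.nd hy h7

/-- **V-invariance, no crossing strand, at most one mark in the block** -/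
theorem vv_zero {A B B' : List α} {M M' : α → α} {u u' : α} (h : One A B B' M M' u u')
    (huA : u ∈ A) (hA : ∀ a ∈ A, M a ∈ A) {x1 x2 x3 y1 y2 y3 : α} (h1 : Mk A B B' x1 y1)
    (h2 : Mk A B B' x2 y2) (h3 : Mk A B B' x3 y3) (h12 : x1 ∈ A ∨ x2 ∈ A) (h23 : x2 ∈ A ∨ x3 ∈ A)
    (h31 : x3 ∈ A ∨ x1 ∈ A) :
    VV (A ++ B) M u x1 x2 x3 = VV (A ++ B') M' u' y1 y2 y3 := by
  have hu'A : u' ∈ A := (h.hu (Or.inl huA)) ▸ huA
  have hA' : ∀ a ∈ A, M' a ∈ A := fun a ha => by
    have h4 := hA a ha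
    rw [(h.hM a ha _ h4).1 rfl]; exact h4
  have back : ∀ {x x' : α}, Mk A B B' x x' → x ∈ A → x' ∈ A := by
    intro x x' hx hA
    rcases hx with ⟨_, rfl⟩ | ⟨h4, _⟩
    · exact hA
    · exact absurd hA (notMem_left h.nd h4)
  have s : ∀ {x y z x' y' z' : α}, Mk A B B' x x' → Mk A B B' y y' → Mk A B B' z z' →
      (x ∈ A ∨ y ∈ A) → (Sepc (A ++ B) M u x y z ↔ Sepc (A ++ B') M' u' x' y' z') := by
    intro x y z x' y' z' hx hy hz hxy
    exact ⟨sepc_zero_aux h huA hA hx hy hz hxy, sepc_zero_aux h.symm hu'A hA' hx.symm hy.symm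
      hz.symm (hxy.imp (back hx) (back hy))⟩
  unfold VV
  rw [cyc_zero h huA h3 h1 h31, cyc_zero h huA h1 h2 h12]
  rw [propext (s h2 h3 h1 h23), propext (s h1 h2 h3 h12), propext (s h3 h1 h2 h31)]

end Crest.Agent.R158.Sl434
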