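import Crest.Agent.R158.Sl2_434

/-!
# R158, block SL (helper434), file Sl3: two systems which differ behind a planar annulus

Carrier-free: ports `X`; `Fa` = far ports (leg included), `An` = annulus ports, both systems agree
on `Fa ∪ An` except at the inner interface `Jl`.  The free ends of the annulus, in cyclic order, are
`N1 ++ Jl ++ N2 ++ Jo` (wall, inner side, wall, outer side) with a non-crossing partner map `MA`.
The cyclic lists of the two systems are `A ++ N1 ++ Di ++ N2` and `A ++ N1 ++ Gi ++ N2`.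

* `vv_ann` : if at most one arc of the annulus joins `Jl` to `Jo`, the observable is the same
* `vv_ann0` : if no arc joins `Jl` to `Jo`, the same with one mark anywhere in the block
-/

set_option autoImplicit false
set_option linter.unusedSectionVars false

namespace Crest.Agent.R158.Sl434

variable {X : Type*} [DecidableEq X]

/-! ### non-crossing -/

/-- non-crossing partner map on a list -/
def NCl (L : List X) (M : X → X) : Prop :=
  ∀ a ∈ L, ∀ b ∈ L, L.idxOf a < L.idxOf b → L.idxOf b < L.idxOf (M a) →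
    L.idxOf a < L.idxOf (M b) ∧ L.idxOf (M b) < L.idxOf (M a)

theorem idx_lt {P Q : List X} (hn : (P ++ Q).Nodup) {a b : X} (ha : a ∈ P) (hb : b ∈ Q) :
    (P ++ Q).idxOf a < (P ++ Q).idxOf b := by
  rw [List.idxOf_append_of_mem ha, List.idxOf_append_of_notMem (notMem_left hn hb)]
  have := List.idxOf_lt_length_iff.2 ha
  omega

theorem nc_block {L P Q R S : List X} {M : X → X} (hn : L.Nodup) (h : NCl L M)
    (e : L = P ++ Q ++ R ++ S) {a b : X} (ha : a ∈ P) (hb : b ∈ Q) (hMa : M a ∈ R)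
    (hMb : M b ∈ S) : False := by
  subst e
  have i1 : (P ++ Q ++ R ++ S).idxOf a < (P ++ Q ++ R ++ S).idxOf b := by
    have e2 : P ++ Q ++ R ++ S = P ++ (Q ++ R ++ S) := by simp
    rw [e2] at hn ⊢
    exact idx_lt hn ha (by simp [hb])
  have i2 : (P ++ Q ++ R ++ S).idxOf b < (P ++ Q ++ R ++ S).idxOf (M a) := by
    have e2 : P ++ Q ++ R ++ S = (P ++ Q) ++ (R ++ S) := by simp
    rw [e2] at hn ⊢
    exact idx_lt hn (by simp [hb]) (by simp [hMa])
  have i3 : (P ++ Q ++ R ++ S).idxOf (M a) < (P ++ Q ++ R ++ S).idxOf (M b) :=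
    idx_lt hn (by simp [hMa]) hMb
  have := h a (by simp [ha]) b (by simp [hb]) i1 i2
  omega

/-- splitting of a list before the first element with `P` -/
theorem split_first (P : X → Prop) (N : List X) : ∃ N' N'', N = N' ++ N'' ∧ (∀ e ∈ N', ¬ P e) ∧
    (N'' = [] ∨ ∃ k r, N'' = k :: r ∧ P k) := by
  classical
  induction N with
  | nil => exact ⟨[], [], rfl, by simp, Or.inl rfl⟩
  | cons x N ih =>
    by_cases hx : P x
    · exact ⟨[], x :: N, rfl, by simp, Or.inr ⟨x, N, rfl, hx⟩⟩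
    · obtain ⟨N', N'', h1, h2, h3⟩ := ih
      refine ⟨x :: N', N'', by rw [h1]; rfl, ?_, h3⟩
      intro e he
      rcases List.mem_cons.1 he with rfl | he
      · exact hx
      · exact h2 e he

/-- splitting of a list after the last element with `P` -/
theorem split_last (P : X → Prop) (N : List X) : ∃ N' N'', N = N' ++ N'' ∧ (∀ e ∈ N'', ¬ P e) ∧
    (N' = [] ∨ ∃ k r, N' = r ++ [k] ∧ P k) := by
  obtain ⟨A, B, h1, h2, h3⟩ := split_first P N.reverse
  refine ⟨B.reverse, A.reverse, ?_, fun e he => h2 e (List.mem_reverse.1 he), ?_⟩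
  · have := congrArg List.reverse h1
    rw [List.reverse_reverse, List.reverse_append] at this
    exact this
  · rcases h3 with h3 | ⟨k, r, h3, h4⟩
    · left; rw [h3]; rfl
    · right; exact ⟨k, r.reverse, by rw [h3, List.reverse_cons], h4⟩

/-! ### the annulus state -/

/-- the strand system of a region with its cyclic list of ends, partner map and leg -/
structure Sys (al be : X → X) (z : X) (L : List X) (M : X → X) (u : X) : Prop where
  ali : Function.Involutive al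
  bei : Function.Involutive be
  nd : L.Nodup
  mem : ∀ a ∈ L, M a ∈ L
  inv : ∀ a ∈ L, M (M a) = a
  uL : u ∈ L
  fix : ∀ a ∈ L, M a = a ↔ a = u
  str : ∀ a ∈ L, Rf al be a (M a)
  uni : ∀ a ∈ L, ∀ b ∈ L, Rf al be a b → b = a ∨ b = M a
  leg : ∀ a ∈ L, Rf al be z a ↔ a = u

/-- the annulus: free ends `N1 ++ Jl ++ N2 ++ Jo` -/
structure AnnS (al be : X → X) (Fa An : Set X) (N1 Jl N2 Jo : List X) (MA : X → X) : Prop where
  nd : (N1 ++ Jl ++ N2 ++ Jo).Nodup
  nc : NCl (N1 ++ Jl ++ N2 ++ Jo) MA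
  mem : ∀ a ∈ N1 ++ Jl ++ N2 ++ Jo, MA a ∈ N1 ++ Jl ++ N2 ++ Jo
  inv : ∀ a ∈ N1 ++ Jl ++ N2 ++ Jo, MA (MA a) = a
  ne : ∀ a ∈ N1 ++ Jl ++ N2 ++ Jo, MA a ≠ a
  uni : ∀ a ∈ N1 ++ Jl ++ N2 ++ Jo, ∀ b ∈ N1 ++ Jl ++ N2 ++ Jo,
    Rl al be An {x | x ∈ N1 ++ Jl ++ N2 ++ Jo} a b → b = a ∨ b = MA a
  dj : ∀ x ∈ Fa, x ∉ An
  sub : ∀ x ∈ N1 ++ Jl ++ N2 ++ Jo, x ∈ An
  alF : ∀ x ∈ Fa, al x ∈ Fa
  alA : ∀ x ∈ An, al x ∈ An
  beF : ∀ x ∈ Fa, be x ∈ Fa ∨ be x ∈ Jo
  beA : ∀ x ∈ An, x ∉ N1 ++ Jl ++ N2 ++ Jo → be x ∈ An ∧ be x ∉ N1 ++ Jl ++ N2 ++ Jo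
  beN1 : ∀ x ∈ N1, be x = x
  beN2 : ∀ x ∈ N2, be x = x
  beo : ∀ x ∈ Jo, be x ∈ Fa

section

variable {al be al' be' : X → X} {Fa An : Set X} {N1 Jl N2 Jo : List X} {MA : X → X}

theorem AnnS.agr (h : AnnS al be Fa An N1 Jl N2 Jo MA) (hal : ∀ x ∈ Fa ∪ An, al' x = al x)
    (hbe : ∀ x ∈ Fa ∪ An, x ∉ Jl → be' x = be x) :
    Agr al be al' be' (Fa ∪ An) {x | x ∈ Jl} where
  al_mem x hx := by
    rcases hx with hx | hx
    · exact Or.inl (h.alF x hx)
    · exact Or.inr (h.alA x hx)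
  al_eq x hx := hal x hx
  be_mem x hx hJ := by
    simp only [Set.mem_ofPred_eq] at hJ
    rcases hx with hx | hx
    · rcases h.beF x hx with h1 | h1
      · exact Or.inl h1
      · exact Or.inr (h.sub _ (by simp [h1]))
    · by_cases hL : x ∈ N1 ++ Jl ++ N2 ++ Jo
      · simp only [List.mem_append] at hL
        rcases hL with ((h1 | h1) | h1) | h1
        · rw [h.beN1 x h1]; exact Or.inr hx
        · exact absurd h1 hJ
        · rw [h.beN2 x h1]; exact Or.inr hx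
        · exact Or.inl (h.beo x h1)
      · exact Or.inr (h.beA x hx hL).1
  be_J x hx hJ := by
    simp only [Set.mem_ofPred_eq] at hJ ⊢
    rcases hx with hx | hx
    · rcases h.beF x hx with h1 | h1
      · intro h2; exact h.dj _ h1 (h.sub _ (by simp [h2]))
      · intro h2
        have := h.nd
        exact notMem_left this h1 (by simp [h2])
    · by_cases hL : x ∈ N1 ++ Jl ++ N2 ++ Jo
      · simp only [List.mem_append] at hL
        rcases hL with ((h1 | h1) | h1) | h1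
        · rw [h.beN1 x h1]; exact hJ
        · exact absurd h1 hJ
        · rw [h.beN2 x h1]; exact hJ
        · intro h2; exact h.dj _ (h.beo x h1) (h.sub _ (by simp [h2]))
      · intro h2; exact (h.beA x hx hL).2 (by simp [h2])
  be_eq x hx hJ := hbe x hx hJ

/-- the four pieces of the walls: `N1 = N1' ++ N1''`, `N2 = N2' ++ N2''`; the inner pieces `N1''`,
`N2'` are cut off from the outer ones -/
structure Cutd (N1 Jl N2 Jo : List X) (MA : X → X) (P1 Q1 Q2 P2 : List X) : Prop where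
  e1 : N1 = P1 ++ Q1
  e2 : N2 = Q2 ++ P2
  c1 : ∀ e ∈ P1 ++ P2, MA e ∈ P1 ++ P2 ++ Jo
  c2 : ∀ e ∈ Q1 ++ Q2, MA e ∈ Q1 ++ Q2 ++ Jl

theorem AnnS.cutd (h : AnnS al be Fa An N1 Jl N2 Jo MA) :
    ∃ P1 Q1 Q2 P2, Cutd N1 Jl N2 Jo MA P1 Q1 Q2 P2 := by
  obtain ⟨P1, Q1, e1, h1, h2⟩ := split_first (fun e => MA e ∈ Jl) N1
  obtain ⟨Q2, P2, e2, h3, h4⟩ := split_last (fun e => MA e ∈ Jl) N2
  subst e1 e2
  have nd := h.nd
  have nc := h.nc
  -- membership helpers
  have mem := h.mem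
  have inv := h.inv
  -- an outer wall end is not joined to the inner block
  have key : ∀ e ∈ P1 ++ P2, MA e ∉ Q1 ++ Q2 := by
    intro e he hMe
    have heL : e ∈ (P1 ++ Q1) ++ Jl ++ (Q2 ++ P2) ++ Jo := by
      simp only [List.mem_append] at he ⊢; tauto
    rcases List.mem_append.1 hMe with hM | hM
    · -- `MA e ∈ Q1 = k :: r`
      rcases h2 with h2 | ⟨k, r, h2, hk⟩
      · rw [h2] at hM; simp at hM
      subst h2
      have hMk : MA e ∈ r := by
        rcases List.mem_cons.1 hM with h5 | h5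
        · exfalso
          have h6 := inv e heL
          rw [h5] at h6
          -- `e = MA k ∈ Jl`
          have h7 : e ∈ Jl := h6 ▸ hk
          rcases List.mem_append.1 he with h8 | h8
          · exact h1 e h8 (by rw [h5]; exfalso; exact notMem_left (by
              have : (P1 ++ k :: r ++ Jl ++ (Q2 ++ P2) ++ Jo) =
                P1 ++ (k :: r ++ Jl ++ (Q2 ++ P2) ++ Jo) := by simp
              rw [this] at nd; exact nd) (by simp [h7] : e ∈ k :: r ++ Jl ++ (Q2 ++ P2) ++ Jo) h8)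
          · have : (P1 ++ k :: r ++ Jl ++ (Q2 ++ P2) ++ Jo) =
                (P1 ++ k :: r ++ Jl) ++ ((Q2 ++ P2) ++ Jo) := by simp
            rw [this] at nd
            exact notMem_left nd (by simp [h8] : e ∈ (Q2 ++ P2) ++ Jo) (by simp [h7])
        · exact h5
      rcases List.mem_append.1 he with h8 | h8
      · exact nc_block (L := P1 ++ k :: r ++ Jl ++ (Q2 ++ P2) ++ Jo) (P := P1) (Q := [k]) (R := r)
          (S := Jl ++ (Q2 ++ P2) ++ Jo) nd nc (by simp) h8 (by simp : k ∈ [k]) hMk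
          (by simp [hk])
      · refine nc_block (L := P1 ++ k :: r ++ Jl ++ (Q2 ++ P2) ++ Jo) (P := P1 ++ [k]) (Q := r)
          (R := Jl) (S := (Q2 ++ P2) ++ Jo) nd nc (by simp) (by simp : k ∈ P1 ++ [k]) hMk hk ?_
        rw [inv e heL]; simp [h8]
    · -- `MA e ∈ Q2 = r ++ [k]`
      rcases h4 with h4 | ⟨k, r, h4, hk⟩
      · rw [h4] at hM; simp at hM
      subst h4
      have hkL : k ∈ (P1 ++ Q1) ++ Jl ++ ((r ++ [k]) ++ P2) ++ Jo := by simp
      have hMk : MA e ∈ r := by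
        rcases List.mem_append.1 hM with h5 | h5
        · exact h5
        · exfalso
          have h5' : MA e = k := by simpa using h5
          have h6 := inv e heL
          rw [h5'] at h6
          have h7 : e ∈ Jl := h6 ▸ hk
          rcases List.mem_append.1 he with h8 | h8
          · have : (P1 ++ Q1 ++ Jl ++ (r ++ [k] ++ P2) ++ Jo) =
                P1 ++ (Q1 ++ Jl ++ (r ++ [k] ++ P2) ++ Jo) := by simp
            rw [this] at nd
            exact notMem_left nd (by simp [h7] : e ∈ Q1 ++ Jl ++ (r ++ [k] ++ P2) ++ Jo) h8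
          · have : (P1 ++ Q1 ++ Jl ++ (r ++ [k] ++ P2) ++ Jo) =
                (P1 ++ Q1 ++ Jl) ++ ((r ++ [k] ++ P2) ++ Jo) := by simp
            rw [this] at nd
            exact notMem_left nd (by simp [h8] : e ∈ (r ++ [k] ++ P2) ++ Jo) (by simp [h7])
      rcases List.mem_append.1 he with h8 | h8
      · refine nc_block (L := P1 ++ Q1 ++ Jl ++ (r ++ [k] ++ P2) ++ Jo) (P := P1) (Q := Q1 ++ Jl)
          (R := r) (S := [k] ++ P2 ++ Jo) nd nc (by simp) h8 (b := MA k) (by simp [hk]) hMk ?_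
        rw [inv k hkL]; simp
      · refine nc_block (L := P1 ++ Q1 ++ Jl ++ (r ++ [k] ++ P2) ++ Jo) (P := P1 ++ Q1 ++ Jl)
          (Q := r) (R := [k]) (S := P2 ++ Jo) nd nc (by simp) (a := MA k) (b := MA e)
          (by simp [hk]) hMk ?_ ?_
        · rw [inv k hkL]; simp
        · rw [inv e heL]; simp [h8]
  have cl1 : ∀ e ∈ P1 ++ P2, MA e ∈ P1 ++ P2 ++ Jo := by
    intro e he
    have heL : e ∈ (P1 ++ Q1) ++ Jl ++ (Q2 ++ P2) ++ Jo := by
      simp only [List.mem_append] at he ⊢; tauto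
    have h5 := mem e heL
    have h6 := key e he
    have h7 : MA e ∉ Jl := by
      rcases List.mem_append.1 he with h8 | h8
      · exact h1 e h8
      · exact h3 e h8
    simp only [List.mem_append] at h5 h6 ⊢
    tauto
  refine ⟨P1, Q1, Q2, P2, rfl, rfl, cl1, ?_⟩
  intro e he
  have heL : e ∈ (P1 ++ Q1) ++ Jl ++ (Q2 ++ P2) ++ Jo := by
    simp only [List.mem_append] at he ⊢; tauto
  have h5 := mem e heL
  have h6 : MA e ∉ P1 ++ P2 := by
    intro h7
    have h8 := key _ h7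
    rw [inv e heL] at h8
    exact h8 he
  have h7 : MA e ∉ Jo := by
    intro h7
    rcases List.mem_append.1 he with h8 | h8
    · rcases h2 with h2 | ⟨k, r, h2, hk⟩
      · rw [h2] at h8; simp at h8
      subst h2
      rcases List.mem_cons.1 h8 with rfl | h9
      · have : (P1 ++ e :: r ++ Jl ++ (Q2 ++ P2) ++ Jo) =
            (P1 ++ e :: r ++ Jl ++ (Q2 ++ P2)) ++ Jo := by simp
        rw [this] at nd
        exact notMem_left nd h7 (by simp [hk])
      · exact nc_block (L := P1 ++ k :: r ++ Jl ++ (Q2 ++ P2) ++ Jo) (P := P1 ++ [k]) (Q := r)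
          (R := Jl ++ (Q2 ++ P2)) (S := Jo) nd nc (by simp) (by simp : k ∈ P1 ++ [k]) h9
          (by simp [hk]) h7
    · rcases h4 with h4 | ⟨k, r, h4, hk⟩
      · rw [h4] at h8; simp at h8
      subst h4
      have hkL : k ∈ (P1 ++ Q1) ++ Jl ++ ((r ++ [k]) ++ P2) ++ Jo := by simp
      rcases List.mem_append.1 h8 with h9 | h9
      · refine nc_block (L := P1 ++ Q1 ++ Jl ++ (r ++ [k] ++ P2) ++ Jo) (P := P1 ++ Q1 ++ Jl)
          (Q := r) (R := [k] ++ P2) (S := Jo) nd nc (by simp) (a := MA k) (b := e)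
          (by simp [hk]) h9 ?_ h7
        rw [inv k hkL]; simp
      · have h9' : e = k := by simpa using h9
        subst h9'
        have : (P1 ++ Q1 ++ Jl ++ (r ++ [e] ++ P2) ++ Jo) =
            (P1 ++ Q1 ++ Jl ++ (r ++ [e] ++ P2)) ++ Jo := by simp
        rw [this] at nd
        exact notMem_left nd h7 (by simp [hk])
  simp only [List.mem_append] at h5 h6 h7 ⊢
  tauto

/-- the outer ports: far ports and annulus ports joined to outer ends -/
def Ou (al be : X → X) (Fa An : Set X) (N1 Jl N2 Jo P1 P2 : List X) (y : X) : Prop :=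
  y ∈ Fa ∨ (y ∈ An ∧ ∃ e ∈ P1 ++ P2 ++ Jo, Rl al be An {x | x ∈ N1 ++ Jl ++ N2 ++ Jo} y e)

theorem AnnS.ou_rl (h : AnnS al be Fa An N1 Jl N2 Jo MA) (hal : Function.Involutive al)
    (hbe : Function.Involutive be) {P1 P2 : List X} {x y : X}
    (hx : Ou al be Fa An N1 Jl N2 Jo P1 P2 x) (hxy : Rl al be (Fa ∪ An) {x | x ∈ Jl} x y) :
    Ou al be Fa An N1 Jl N2 Jo P1 P2 y := by
  obtain ⟨-, hxy⟩ := hxy
  induction hxy with
  | refl => exact hx
  | @tail b c _ hbc ih =>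
    obtain ⟨hb, hc, hbc⟩ := hbc
    rcases hbc with rfl | ⟨rfl, hbJ, hcJ⟩
    · rcases ih with ih | ⟨ih, e, he, h1⟩
      · exact Or.inl (h.alF b ih)
      · refine Or.inr ⟨h.alA b ih, e, he, ?_⟩
        refine Rl.trans ?_ h1
        exact ⟨h.alA b ih, .single ⟨h.alA b ih, ih, Or.inl (hal b).symm⟩⟩
    · simp only [Set.mem_ofPred_eq] at hbJ hcJ
      rcases ih with ih | ⟨ih, e, he, h1⟩
      · rcases h.beF b ih with h2 | h2
        · exact Or.inl h2
        · have h3 : be b ∈ An := h.sub _ (by simp [h2])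
          exact Or.inr ⟨h3, be b, by simp [h2], .refl h3⟩
      · by_cases hL : b ∈ N1 ++ Jl ++ N2 ++ Jo
        · simp only [List.mem_append] at hL
          rcases hL with ((h2 | h2) | h2) | h2
          · rw [h.beN1 b h2]; exact Or.inr ⟨ih, e, he, h1⟩
          · exact absurd h2 hbJ
          · rw [h.beN2 b h2]; exact Or.inr ⟨ih, e, he, h1⟩
          · exact Or.inl (h.beo b h2)
        · obtain ⟨h2, h3⟩ := h.beA b ih hL
          refine Or.inr ⟨h2, e, he, Rl.trans ?_ h1⟩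
          exact ⟨h2, .single ⟨h2, ih, Or.inr ⟨(hbe b).symm, h3, hL⟩⟩⟩

/-- an outer port of the inner interface is the end of a crossing arc -/
theorem AnnS.ou_J (h : AnnS al be Fa An N1 Jl N2 Jo MA) {P1 Q1 Q2 P2 : List X}
    (hc : Cutd N1 Jl N2 Jo MA P1 Q1 Q2 P2) {i : X} (hi : i ∈ Jl)
    (ho : Ou al be Fa An N1 Jl N2 Jo P1 P2 i) : MA i ∈ Jo := by
  have hiL : i ∈ N1 ++ Jl ++ N2 ++ Jo := by simp [hi]
  rcases ho with ho | ⟨-, e, he, h1⟩
  · exact absurd (h.sub i hiL) (h.dj i ho)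
  have heL : e ∈ N1 ++ Jl ++ N2 ++ Jo := by
    simp only [List.mem_append] at he ⊢
    rw [hc.e1, hc.e2]; simp only [List.mem_append]; tauto
  have nd := h.nd
  -- `e` is not in `Jl`
  have heJ : e ∉ Jl := by
    intro h2
    simp only [List.mem_append] at he
    rcases he with (h3 | h3) | h3
    · have e2 : N1 ++ Jl ++ N2 ++ Jo = N1 ++ (Jl ++ N2 ++ Jo) := by simp
      rw [e2] at nd
      exact notMem_left nd (by simp [h2] : e ∈ Jl ++ N2 ++ Jo) (by rw [hc.e1]; simp [h3])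
    · have e2 : N1 ++ Jl ++ N2 ++ Jo = (N1 ++ Jl) ++ (N2 ++ Jo) := by simp
      rw [e2] at nd
      exact notMem_left nd (by rw [hc.e2]; simp [h3] : e ∈ N2 ++ Jo) (by simp [h2])
    · exact notMem_left nd h3 (by simp [h2])
  rcases h.uni i hiL e heL h1 with h2 | h2
  · rw [h2] at heJ; exact absurd hi heJ
  · have hMe : MA e = i := by rw [h2, h.inv i hiL]
    rw [← h2]
    simp only [List.mem_append] at he
    rcases he with h3 | h3
    · exfalso
      have h4 := hc.c1 e (by simpa using h3)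
      rw [hMe] at h4
      simp only [List.mem_append] at h4
      rcases h4 with (h5 | h5) | h5
      · have e2 : N1 ++ Jl ++ N2 ++ Jo = N1 ++ (Jl ++ N2 ++ Jo) := by simp
        rw [e2] at nd
        exact notMem_left nd (by simp [hi] : i ∈ Jl ++ N2 ++ Jo) (by rw [hc.e1]; simp [h5])
      · have e2 : N1 ++ Jl ++ N2 ++ Jo = (N1 ++ Jl) ++ (N2 ++ Jo) := by simp
        rw [e2] at nd
        exact notMem_left nd (by rw [hc.e2]; simp [h5] : i ∈ N2 ++ Jo) (by simp [hi])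
      · exact notMem_left nd h5 (by simp [hi])
    · exact h3

/-- an outer port is not an inner wall end -/
theorem AnnS.ou_Q (h : AnnS al be Fa An N1 Jl N2 Jo MA) {P1 Q1 Q2 P2 : List X}
    (hc : Cutd N1 Jl N2 Jo MA P1 Q1 Q2 P2) {i : X} (hi : i ∈ Q1 ++ Q2) :
    ¬ Ou al be Fa An N1 Jl N2 Jo P1 P2 i := by
  intro ho
  have nd := h.nd
  rw [hc.e1, hc.e2] at nd
  have hiL : i ∈ N1 ++ Jl ++ N2 ++ Jo := by
    rw [hc.e1, hc.e2]; simp only [List.mem_append] at hi ⊢; tauto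
  rcases ho with ho | ⟨-, e, he, h1⟩
  · exact absurd (h.sub i hiL) (h.dj i ho)
  have heL : e ∈ N1 ++ Jl ++ N2 ++ Jo := by
    rw [hc.e1, hc.e2]; simp only [List.mem_append] at he ⊢; tauto
  -- outer and inner ends are different
  have hne : ∀ t, t ∈ P1 ++ P2 ++ Jo → t ∉ Q1 ++ Q2 ++ Jl := by
    intro t h2 h3
    rw [List.nodup_iff_count_le_one] at nd
    have h4 := nd t
    simp only [List.count_append] at h4
    have h5 : 1 ≤ (P1 ++ P2 ++ Jo).count t := List.one_le_count_iff.2 h2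
    have h6 : 1 ≤ (Q1 ++ Q2 ++ Jl).count t := List.one_le_count_iff.2 h3
    simp only [List.count_append] at h5 h6
    omega
  rcases h.uni i hiL e heL h1 with h2 | h2
  · rw [h2] at he
    exact hne i he (by rw [List.mem_append]; exact Or.inl hi)
  · have h3 := hc.c2 i hi
    rw [← h2] at h3
    exact hne e he h3

end

/-- the two regions -/
structure Two (al be al' be' : X → X) (Fa An : Set X) (N1 Jl N2 Jo : List X) (MA : X → X) (z : X)
    (A Di Gi : List X) (M M' : X → X) (u u' : X) : Prop where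
  an : AnnS al be Fa An N1 Jl N2 Jo MA
  al_eq : ∀ x ∈ Fa ∪ An, al' x = al x
  be_eq : ∀ x ∈ Fa ∪ An, x ∉ Jl → be' x = be x
  zF : z ∈ Fa
  AF : ∀ a ∈ A, a ∈ Fa
  D : Sys al be z (A ++ N1 ++ Di ++ N2) M u
  G : Sys al' be' z (A ++ N1 ++ Gi ++ N2) M' u'
  Do : ∀ a ∈ Di, a ∉ Fa ∪ An
  Go : ∀ a ∈ Gi, a ∉ Fa ∪ An

section

variable {al be al' be' : X → X} {Fa An : Set X} {N1 Jl N2 Jo : List X} {MA : X → X} {z : X}
  {A Di Gi : List X} {M M' : X → X} {u u' : X}

theorem Sys.rot {L L' : List X} (h : Sys al be z L M u) (hr : L ~r L') : Sys al be z L' M u where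
  ali := h.ali
  bei := h.bei
  nd := (hr.nodup_iff).1 h.nd
  mem a ha := hr.mem_iff.1 (h.mem a (hr.mem_iff.2 ha))
  inv a ha := h.inv a (hr.mem_iff.2 ha)
  uL := hr.mem_iff.1 h.uL
  fix a ha := h.fix a (hr.mem_iff.2 ha)
  str a ha := h.str a (hr.mem_iff.2 ha)
  uni a ha b hb := h.uni a (hr.mem_iff.2 ha) b (hr.mem_iff.2 hb)
  leg a ha := h.leg a (hr.mem_iff.2 ha)

theorem rot_block (A P1 Q1 D Q2 P2 : List X) :
    A ++ (P1 ++ Q1) ++ D ++ (Q2 ++ P2) ~r (P2 ++ A ++ P1) ++ (Q1 ++ D ++ Q2) := by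
  have e1 : A ++ (P1 ++ Q1) ++ D ++ (Q2 ++ P2) = (A ++ P1 ++ Q1 ++ D ++ Q2) ++ P2 := by simp
  have e2 : (P2 ++ A ++ P1) ++ (Q1 ++ D ++ Q2) = P2 ++ (A ++ P1 ++ Q1 ++ D ++ Q2) := by simp
  rw [e1, e2]
  exact List.isRotated_append

theorem Sys.fix' {L : List X} (h : Sys al be z L M u) {a : X} (ha : a ∈ L) : M a = a ↔ a = u :=
  h.fix a ha

/-- partners and strands -/
theorem Sys.partner {L : List X} (h : Sys al be z L M u) {a b : X} (ha : a ∈ L) (hb : b ∈ L)
    (hab : a ≠ b) : M a = b ↔ Rf al be a b := by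
  constructor
  · rintro rfl; exact h.str a ha
  · intro h1
    rcases h.uni a ha b hb h1 with h2 | h2
    · exact absurd h2.symm hab
    · exact h2.symm

/-- the observable does not change: the data of `One` -/
theorem Two.one (h : Two al be al' be' Fa An N1 Jl N2 Jo MA z A Di Gi M M' u u')
    (hc : ∀ i ∈ Jl, ∀ j ∈ Jl, MA i ∈ Jo → MA j ∈ Jo → i = j) {P1 Q1 Q2 P2 : List X}
    (hq : Cutd N1 Jl N2 Jo MA P1 Q1 Q2 P2) :
    One (P2 ++ A ++ P1) (Q1 ++ Di ++ Q2) (Q1 ++ Gi ++ Q2) M M' u u' ∧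
      ((∀ i ∈ Jl, MA i ∉ Jo) → u ∈ P2 ++ A ++ P1 ∧ ∀ a ∈ P2 ++ A ++ P1, M a ∈ P2 ++ A ++ P1) := by
  have hag := h.an.agr h.al_eq h.be_eq
  have r1 : A ++ N1 ++ Di ++ N2 ~r (P2 ++ A ++ P1) ++ (Q1 ++ Di ++ Q2) := by
    rw [hq.e1, hq.e2]; exact rot_block A P1 Q1 Di Q2 P2
  have r2 : A ++ N1 ++ Gi ++ N2 ~r (P2 ++ A ++ P1) ++ (Q1 ++ Gi ++ Q2) := by
    rw [hq.e1, hq.e2]; exact rot_block A P1 Q1 Gi Q2 P2
  have hD := h.D.rot r1
  have hG := h.G.rot r2
  set F : Set X := {x | x = z ∨ x ∈ P2 ++ A ++ P1} with hF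
  have hOu : ∀ x ∈ F, Ou al be Fa An N1 Jl N2 Jo P1 P2 x := by
    rintro x (rfl | hx)
    · exact Or.inl h.zF
    · simp only [List.mem_append] at hx
      have hN : ∀ t, t ∈ P1 ∨ t ∈ P2 → t ∈ An := by
        intro t ht
        apply h.an.sub
        rw [hq.e1, hq.e2]; simp only [List.mem_append]; tauto
      rcases hx with (hx | hx) | hx
      · exact Or.inr ⟨hN x (Or.inr hx), x, by simp [hx], .refl (hN x (Or.inr hx))⟩
      · exact Or.inl (h.AF x hx)
      · exact Or.inr ⟨hN x (Or.inl hx), x, by simp [hx], .refl (hN x (Or.inl hx))⟩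
  have hFO : F ⊆ Fa ∪ An := by
    intro x hx
    rcases hOu x hx with h1 | h1
    · exact Or.inl h1
    · exact Or.inr h1.1
  -- classes which meet the interface
  have hJ : ∀ x ∈ F, ∀ i ∈ Jl, Rl al be (Fa ∪ An) {x | x ∈ Jl} x i → MA i ∈ Jo := by
    intro x hx i hi h1
    exact h.an.ou_J hq hi (h.an.ou_rl hD.ali hD.bei (hOu x hx) h1)
  have hone : OneC al be (Fa ∪ An) {x | x ∈ Jl} F := by
    intro x hx y hy i hi j hj h1 h2
    have h3 := hc i hi j hj (hJ x hx i hi h1) (hJ y hy j hj h2)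
    subst h3
    exact h1.trans (h2.symm hD.ali hD.bei)
  have hcomp : ∀ x ∈ F, ∀ y ∈ F, Rf al be x y ↔ Rf al' be' x y := fun x hx y hy =>
    comp hD.ali hD.bei hG.ali hG.bei hag hone hFO hx hy
  have hAF : ∀ a ∈ P2 ++ A ++ P1, a ∈ F := fun a ha => Or.inr ha
  have hzF : z ∈ F := Or.inl rfl
  have hAD : ∀ a ∈ P2 ++ A ++ P1, a ∈ (P2 ++ A ++ P1) ++ (Q1 ++ Di ++ Q2) :=
    fun a ha => List.mem_append_left _ ha
  have hAG : ∀ a ∈ P2 ++ A ++ P1, a ∈ (P2 ++ A ++ P1) ++ (Q1 ++ Gi ++ Q2) :=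
    fun a ha => List.mem_append_left _ ha
  -- a far class which stays in `O` ends in the outer part
  have hend : ∀ x ∈ F, ∀ b ∈ (P2 ++ A ++ P1) ++ (Q1 ++ Di ++ Q2), Rf al be x b →
      b ∈ P2 ++ A ++ P1 ∨ ∃ i ∈ Jl, Rl al be (Fa ∪ An) {x | x ∈ Jl} x i := by
    intro x hx b hb hxb
    rcases hag.exit (hFO hx) hxb with h1 | ⟨i, hi, h1⟩
    · left
      have h2 := h.an.ou_rl hD.ali hD.bei (hOu x hx) h1
      rcases List.mem_append.1 hb with h3 | h3
      · exact h3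
      · exfalso
        simp only [List.mem_append] at h3
        rcases h3 with (h3 | h3) | h3
        · exact h.an.ou_Q hq (by simp [h3]) h2
        · exact h.Do b h3 h1.right
        · exact h.an.ou_Q hq (by simp [h3]) h2
    · exact Or.inr ⟨i, hi, h1⟩
  refine ⟨⟨hD.nd, hG.nd, hD.uL, hG.uL, ?_, ?_, hD.inv, hG.inv, hD.mem, hG.mem, ?_⟩, ?_⟩
  · rintro (h1 | h1)
    · have h2 : Rf al be z u := (hD.leg u hD.uL).2 rfl
      exact (hG.leg u (hAG u h1)).1 ((hcomp z hzF u (hAF u h1)).1 h2)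
    · have h2 : Rf al' be' z u' := (hG.leg u' hG.uL).2 rfl
      exact ((hD.leg u' (hAD u' h1)).1 ((hcomp z hzF u' (hAF u' h1)).2 h2)).symm
  · intro a ha b hb
    by_cases hab : a = b
    · subst hab
      rw [hD.fix' (hAD a ha), hG.fix' (hAG a ha), ← hD.leg a (hAD a ha), ← hG.leg a (hAG a ha)]
      exact hcomp z hzF a (hAF a ha)
    · rw [hD.partner (hAD a ha) (hAD b hb) hab, hG.partner (hAG a ha) (hAG b hb) hab]
      exact hcomp a (hAF a ha) b (hAF b hb)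
  · intro hu a ha
    by_contra hMa
    have h1 := hD.str a (hAD a ha)
    rcases hend a (hAF a ha) _ (hD.mem a (hAD a ha)) h1 with h2 | ⟨i, hi, h2⟩
    · exact hMa h2
    have h3 : Rf al be z u := (hD.leg u hD.uL).2 rfl
    rcases hend z hzF _ hD.uL h3 with h4 | ⟨j, hj, h4⟩
    · exact hu h4
    have h5 := hone z hzF a (hAF a ha) j hj i hi h4 h2
    have h6 := (hD.leg a (hAD a ha)).1 (Rf.of h5)
    exact hu (h6 ▸ ha)
  · intro h0
    constructor
    · have h3 : Rf al be z u := (hD.leg u hD.uL).2 rfl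
      rcases hend z hzF _ hD.uL h3 with h4 | ⟨j, hj, h4⟩
      · exact h4
      · exact absurd (hJ z hzF j hj h4) (h0 j hj)
    · intro a ha
      have h1 := hD.str a (hAD a ha)
      rcases hend a (hAF a ha) _ (hD.mem a (hAD a ha)) h1 with h2 | ⟨i, hi, h2⟩
      · exact h2
      · exact absurd (hJ a (hAF a ha) i hi h2) (h0 i hi)

/-- **the observable is the same if at most one arc crosses the annulus** -/
theorem vv_ann (h : Two al be al' be' Fa An N1 Jl N2 Jo MA z A Di Gi M M' u u')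
    (hc : ∀ i ∈ Jl, ∀ j ∈ Jl, MA i ∈ Jo → MA j ∈ Jo → i = j) {x1 x2 x3 : X} (h1 : x1 ∈ A)
    (h2 : x2 ∈ A) (h3 : x3 ∈ A) (h12 : x1 ≠ x2) (h31 : x3 ≠ x1) :
    VV (A ++ N1 ++ Di ++ N2) M u x1 x2 x3 = VV (A ++ N1 ++ Gi ++ N2) M' u' x1 x2 x3 := by
  obtain ⟨P1, Q1, Q2, P2, hq⟩ := h.an.cutd
  obtain ⟨ho, -⟩ := h.one hc hq
  have r1 : A ++ N1 ++ Di ++ N2 ~r (P2 ++ A ++ P1) ++ (Q1 ++ Di ++ Q2) := by
    rw [hq.e1, hq.e2]; exact rot_block A P1 Q1 Di Q2 P2
  have r2 : A ++ N1 ++ Gi ++ N2 ~r (P2 ++ A ++ P1) ++ (Q1 ++ Gi ++ Q2) := by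
    rw [hq.e1, hq.e2]; exact rot_block A P1 Q1 Gi Q2 P2
  rw [← vv_rot r1 h.D.nd h.D.uL (by simp [h1]) (by simp [h2]) (by simp [h3]) h12 h31,
    ← vv_rot r2 h.G.nd h.G.uL (by simp [h1]) (by simp [h2]) (by simp [h3]) h12 h31]
  exact vv_one ho (by simp [h1]) (by simp [h2]) (by simp [h3])

/-- a mark of the near part and its image -/
def Mk' (A N1 Di Gi N2 : List X) (x x' : X) : Prop :=
  (x ∈ A ++ N1 ++ N2 ∧ x' = x) ∨ (x ∈ Di ∧ x' ∈ Gi)

/-- **the observable is the same if no arc crosses the annulus, one mark anywhere** -/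
theorem vv_ann0 (h : Two al be al' be' Fa An N1 Jl N2 Jo MA z A Di Gi M M' u u')
    (hc : ∀ i ∈ Jl, MA i ∉ Jo) {x1 x2 x3 y1 y2 y3 : X} (h1 : Mk' A N1 Di Gi N2 x1 y1)
    (h2 : Mk' A N1 Di Gi N2 x2 y2) (h3 : Mk' A N1 Di Gi N2 x3 y3) (m12 : x1 ∈ A ∨ x2 ∈ A)
    (m23 : x2 ∈ A ∨ x3 ∈ A) (m31 : x3 ∈ A ∨ x1 ∈ A) (h12 : x1 ≠ x2) (h31 : x3 ≠ x1)
    (h12' : y1 ≠ y2) (h31' : y3 ≠ y1) :
    VV (A ++ N1 ++ Di ++ N2) M u x1 x2 x3 = VV (A ++ N1 ++ Gi ++ N2) M' u' y1 y2 y3 := by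
  obtain ⟨P1, Q1, Q2, P2, hq⟩ := h.an.cutd
  obtain ⟨ho, hz⟩ := h.one (fun i hi _ _ h1 _ => absurd h1 (hc i hi)) hq
  obtain ⟨hu, hA⟩ := hz hc
  have r1 : A ++ N1 ++ Di ++ N2 ~r (P2 ++ A ++ P1) ++ (Q1 ++ Di ++ Q2) := by
    rw [hq.e1, hq.e2]; exact rot_block A P1 Q1 Di Q2 P2
  have r2 : A ++ N1 ++ Gi ++ N2 ~r (P2 ++ A ++ P1) ++ (Q1 ++ Gi ++ Q2) := by
    rw [hq.e1, hq.e2]; exact rot_block A P1 Q1 Gi Q2 P2
  have mk : ∀ {x y : X}, Mk' A N1 Di Gi N2 x y →
      Mk (P2 ++ A ++ P1) (Q1 ++ Di ++ Q2) (Q1 ++ Gi ++ Q2) x y := by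
    intro x y hxy
    rcases hxy with ⟨h4, rfl⟩ | ⟨h4, h5⟩
    · rw [hq.e1, hq.e2] at h4
      simp only [List.mem_append] at h4
      rcases h4 with (h4 | h4 | h4) | h4 | h4
      · exact Or.inl ⟨by simp [h4], rfl⟩
      · exact Or.inl ⟨by simp [h4], rfl⟩
      · exact Or.inr ⟨by simp [h4], by simp [h4]⟩
      · exact Or.inr ⟨by simp [h4], by simp [h4]⟩
      · exact Or.inl ⟨by simp [h4], rfl⟩
    · exact Or.inr ⟨by simp [h4], by simp [h5]⟩
  have memD : ∀ {x y : X}, Mk' A N1 Di Gi N2 x y → x ∈ A ++ N1 ++ Di ++ N2 := by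
    intro x y hxy
    rcases hxy with ⟨h4, rfl⟩ | ⟨h4, h5⟩
    · simp only [List.mem_append] at h4 ⊢; tauto
    · simp [h4]
  have memG : ∀ {x y : X}, Mk' A N1 Di Gi N2 x y → y ∈ A ++ N1 ++ Gi ++ N2 := by
    intro x y hxy
    rcases hxy with ⟨h4, rfl⟩ | ⟨h4, h5⟩
    · simp only [List.mem_append] at h4 ⊢; tauto
    · simp [h5]
  rw [← vv_rot r1 h.D.nd h.D.uL (memD h1) (memD h2) (memD h3) h12 h31,
    ← vv_rot r2 h.G.nd h.G.uL (memG h1) (memG h2) (memG h3) h12' h31']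
  have w : ∀ {x : X}, x ∈ A → x ∈ P2 ++ A ++ P1 := fun h => by simp [h]
  exact vv_zero ho hu hA (mk h1) (mk h2) (mk h3) (m12.imp w w) (m23.imp w w) (m31.imp w w)

end

end Crest.Agent.R158.Sl434
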