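import Crest.Agent.R158.Sl4_434
import Crest.Agent.R158.Gc7_748

/-!
# R158, block SL (helper434), file Sl5: the lists of free ends of two regions

* `Cy` : a list is a cycle of a relation; `two_lists` : two regions with the same walls outside a box
  have lists `A ++ N1 ++ Di ++ N2` and `A ++ N1 ++ Gi ++ N2`
* `mem_L_of_free` : every free port of a word is in its list
-/

set_option autoImplicit false
set_option linter.unusedSectionVars false

namespace Crest.Agent.R158.Sl434

open Crest.Agent.R158.Sw300 (Port Wd thru tls)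
open Crest.Agent.R158.Gc748 (chain_det)

/-! ### cycles of a relation -/

section cy

variable {X : Type*}

/-- the list is a cycle of `ρ` -/
def Cy (ρ : X → X → Prop) (L : List X) : Prop := ∃ x l, L = x :: l ∧ List.IsChain ρ (x :: l ++ [x])

theorem Cy.swap {ρ : X → X → Prop} {A B : List X} (h : Cy ρ (A ++ B)) : Cy ρ (B ++ A) := by
  rcases A with _ | ⟨x, l⟩
  · simpa using h
  rcases B with _ | ⟨y, m⟩
  · simpa using h
  obtain ⟨x', l', he, hc⟩ := h
  simp only [List.cons_append, List.cons.injEq] at he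
  obtain ⟨rfl, rfl⟩ := he
  have e1 : x :: (l ++ y :: m) ++ [x] = (x :: l) ++ y :: (m ++ [x]) := by simp
  rw [e1, List.isChain_split] at hc
  obtain ⟨h1, h2⟩ := hc
  refine ⟨y, m ++ x :: l, rfl, ?_⟩
  have e2 : y :: (m ++ x :: l) ++ [y] = (y :: m) ++ x :: (l ++ [y]) := by simp
  rw [e2, List.isChain_split]
  exact ⟨by simpa using h2, by simpa using h1⟩

theorem Cy.rot {ρ : X → X → Prop} {L L' : List X} (h : Cy ρ L) (hr : L ~r L') : Cy ρ L' := by
  obtain ⟨n, hn, rfl⟩ := List.isRotated_iff_mod.1 hr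
  rw [List.rotate_eq_drop_append_take hn]
  apply Cy.swap
  rwa [List.take_append_drop]

theorem Cy.mono {ρ ρ' : X → X → Prop} {L : List X} (h : Cy ρ L) (hr : ∀ x y, ρ x y → ρ' x y) :
    Cy ρ' L := by
  obtain ⟨x, l, e, hc⟩ := h
  exact ⟨x, l, e, hc.imp hr⟩

/-- a chain without repetition starting in a deterministic cycle is a block of it -/
theorem chain_pre {ρ : X → X → Prop} (hr : ∀ a b c, ρ a b → ρ a c → b = c) :
    ∀ {x : X} {n l : List X} {z : X}, List.IsChain ρ (x :: n) → List.IsChain ρ (x :: (l ++ [z])) →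
      z ∉ n → ∃ m, l = n ++ m
  | _, [], l, _, _, _, _ => ⟨l, rfl⟩
  | x, y :: n, [], z, h1, h2, hz => by
    simp only [List.nil_append, List.isChain_cons_cons] at h1 h2
    exact absurd (by rw [hr _ _ _ h1.1 h2.1]; simp) hz
  | x, y :: n, y' :: l, z, h1, h2, hz => by
    simp only [List.cons_append, List.isChain_cons_cons] at h1 h2
    have e := hr _ _ _ h1.1 h2.1
    subst e
    simp only [List.mem_cons, not_or] at hz
    obtain ⟨m, hm⟩ := chain_pre hr h1.2 h2.2 hz.2
    exact ⟨m, by rw [hm]; rfl⟩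

/-- rotation to an element -/
theorem rot_to {L : List X} {x : X} (hx : x ∈ L) : ∃ l, L ~r x :: l := by
  obtain ⟨A, B, rfl⟩ := List.append_of_mem hx
  exact ⟨B ++ A, by simpa using (List.isRotated_append (l := A) (l' := x :: B))⟩

/-- a block of a deterministic cycle -/
theorem Cy.block {ρ : X → X → Prop} (hr : ∀ a b c, ρ a b → ρ a c → b = c) {L : List X}
    (h : Cy ρ L) {a : X} {n : List X} (ha : a ∈ L)
    (hc : List.IsChain ρ (a :: n)) (hnn : a ∉ n) : ∃ Z, L ~r (a :: n) ++ Z := by
  obtain ⟨l, hl⟩ := rot_to ha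
  have h2 := h.rot hl
  obtain ⟨x, l', he, h3⟩ := h2
  simp only [List.cons.injEq] at he
  obtain ⟨rfl, rfl⟩ := he
  have h4 : List.IsChain ρ (a :: (l ++ [a])) := by simpa using h3
  obtain ⟨m, rfl⟩ := chain_pre hr hc h4 hnn
  exact ⟨m, by simpa using hl⟩

/-- the three facts about one cycle -/
theorem Cy.three {ρ : X → X → Prop} (hr : ∀ a b c, ρ a b → ρ a c → b = c) {L : List X}
    (h : Cy ρ L) (hn : L.Nodup) {Fa : Set X} {a c b : X} {n n1 n2 : List X}
    (ha : a ∈ L) (hc : c ∈ L) (h1 : List.IsChain ρ (a :: n)) (e2 : c :: n1 = n2 ++ [b])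
    (h2 : List.IsChain ρ (c :: n1)) (hd : ((a :: n) ++ (c :: n1)).Nodup)
    (hcF : c ∉ Fa)
    (step : ∀ p q, (p ∈ Fa ∨ p = b) → ρ p q → q ∈ Fa ∨ q = a) :
    ∃ A D, L ~r A ++ (a :: n) ++ D ++ (c :: n1) ∧ (∀ x ∈ A, x ∈ Fa) ∧ (∀ x ∈ D, x ∉ Fa) ∧
      List.IsChain ρ (b :: (A ++ [a])) ∧ a ∉ A := by
  have hnn : a ∉ n := (List.nodup_cons.1 ((List.nodup_append.1 hd).1)).1
  have hna : a ∉ c :: n1 := fun h5 => (List.nodup_append.1 hd).2.2 a (by simp) a h5 rfl
  obtain ⟨Z, hZ⟩ := h.block hr ha h1 hnn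
  have hZn : ((a :: n) ++ Z).Nodup := (hZ.nodup_iff).1 hn
  have hcZ : c ∈ Z := by
    have h5 := hZ.mem_iff.1 hc
    rcases List.mem_append.1 h5 with h6 | h6
    · exact absurd rfl ((List.nodup_append.1 hd).2.2 c h6 c (by simp))
    · exact h6
  obtain ⟨D, R, rfl⟩ := List.append_of_mem hcZ
  -- the chain of the rotated list
  have h3 := h.rot hZ
  obtain ⟨x, l', he, h4⟩ := h3
  simp only [List.cons_append, List.cons.injEq] at he
  obtain ⟨rfl, rfl⟩ := he
  have e5 : a :: (n ++ (D ++ c :: R)) ++ [a] = (a :: (n ++ D)) ++ c :: (R ++ [a]) := by simp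
  rw [e5, List.isChain_split] at h4
  obtain ⟨h6, h7⟩ := h4
  obtain ⟨A, rfl⟩ := chain_pre hr h2 h7 (fun h8 => hna (by simp [h8]))
  have hrot : L ~r A ++ (a :: n) ++ D ++ (c :: n1) := by
    refine hZ.trans ?_
    have e6 : a :: n ++ (D ++ c :: (n1 ++ A)) = ((a :: n) ++ D ++ (c :: n1)) ++ A := by simp
    have e7 : A ++ (a :: n) ++ D ++ (c :: n1) = A ++ ((a :: n) ++ D ++ (c :: n1)) := by simp
    rw [e6, e7]
    exact List.isRotated_append
  have hnL := (hrot.nodup_iff).1 hn
  have haA : a ∉ A := by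
    intro h8
    have e7 : A ++ (a :: n) ++ D ++ (c :: n1) = A ++ ((a :: n) ++ D ++ (c :: n1)) := by simp
    rw [e7] at hnL
    exact (List.nodup_append.1 hnL).2.2 a h8 a (by simp) rfl
  -- the chain after `b`
  have h8 : List.IsChain ρ (b :: (A ++ [a])) := by
    have e8 : c :: (n1 ++ A ++ [a]) = (n2 ++ [b]) ++ (A ++ [a]) := by
      rw [← e2]; simp
    rw [e8] at h7
    have e9 : (n2 ++ [b]) ++ (A ++ [a]) = n2 ++ (b :: (A ++ [a])) := by simp
    rw [e9] at h7
    exact (h7.right_of_append)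
  refine ⟨A, D, hrot, ?_, ?_, h8, haA⟩
  · -- elements of `A`
    have key : ∀ (l : List X) (p : X), (p ∈ Fa ∨ p = b) → a ∉ l → List.IsChain ρ (p :: (l ++ [a])) →
        ∀ x ∈ l, x ∈ Fa := by
      intro l
      induction l with
      | nil => intro p _ _ _ x hx; simp at hx
      | cons y l ih =>
        intro p hp hal hch x hx
        simp only [List.cons_append, List.isChain_cons_cons] at hch
        simp only [List.mem_cons, not_or] at hal
        have hy : y ∈ Fa := (step p y hp hch.1).resolve_right (fun e => hal.1 e.symm)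
        rcases List.mem_cons.1 hx with rfl | hx
        · exact hy
        · exact ih y (Or.inl hy) hal.2 hch.2 x hx
    exact key A b (Or.inr rfl) haA h8
  · -- elements of `D`
    have key : ∀ (l : List X) (p : X), p ∈ Fa → a ∉ l → List.IsChain ρ (p :: (l ++ [c])) → False := by
      intro l
      induction l with
      | nil =>
        intro p hp _ hch
        simp only [List.nil_append, List.isChain_cons_cons] at hch
        rcases step p c (Or.inl hp) hch.1 with h9 | h9
        · exact hcF h9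
        · exact hna (by simp [h9])
      | cons y l ih =>
        intro p hp hal hch
        simp only [List.cons_append, List.isChain_cons_cons] at hch
        simp only [List.mem_cons, not_or] at hal
        have hy : y ∈ Fa := (step p y (Or.inl hp) hch.1).resolve_right (fun e => hal.1 e.symm)
        exact ih y hy hal.2 hch.2
    intro x hx hxF
    obtain ⟨D1, D2, rfl⟩ := List.append_of_mem hx
    have e9 : a :: (n ++ (D1 ++ x :: D2)) ++ [c] = (a :: (n ++ D1)) ++ (x :: (D2 ++ [c])) := by simp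
    rw [e9] at h6
    refine key D2 x hxF ?_ h6.right_of_append
    intro h10
    have e7 : A ++ (a :: n) ++ (D1 ++ x :: D2) ++ (c :: n1) =
      (A ++ (a :: n) ++ (D1 ++ [x])) ++ (D2 ++ (c :: n1)) := by simp
    rw [e7] at hnL
    exact (List.nodup_append.1 hnL).2.2 a (by simp) a (by simp [h10]) rfl

/-- **two cycles which agree outside a box** -/
theorem two_lists {ρ ρ' : X → X → Prop} (hr : ∀ a b c, ρ a b → ρ a c → b = c)
    (hr' : ∀ a b c, ρ' a b → ρ' a c → b = c) {L L' : List X} (h : Cy ρ L) (hn : L.Nodup)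
    (h' : Cy ρ' L') (hn' : L'.Nodup) {Fa : Set X} {a c b : X} {n n1 n2 : List X}
    (ha : a ∈ L) (hc : c ∈ L) (ha' : a ∈ L') (hc' : c ∈ L')
    (h1 : List.IsChain ρ (a :: n)) (h1' : List.IsChain ρ' (a :: n)) (e2 : c :: n1 = n2 ++ [b])
    (h2 : List.IsChain ρ (c :: n1)) (h2' : List.IsChain ρ' (c :: n1))
    (hd : ((a :: n) ++ (c :: n1)).Nodup) (hcF : c ∉ Fa)
    (step : ∀ p q, (p ∈ Fa ∨ p = b) → ρ p q → ρ' p q ∧ (q ∈ Fa ∨ q = a))
    (step' : ∀ p q, (p ∈ Fa ∨ p = b) → ρ' p q → q ∈ Fa ∨ q = a) :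
    ∃ A D G, L ~r A ++ (a :: n) ++ D ++ (c :: n1) ∧ L' ~r A ++ (a :: n) ++ G ++ (c :: n1) ∧
      (∀ x ∈ A, x ∈ Fa) ∧ (∀ x ∈ D, x ∉ Fa) ∧ (∀ x ∈ G, x ∉ Fa) := by
  obtain ⟨A, D, k1, k2, k3, k4, k5⟩ := h.three hr hn ha hc h1 e2 h2 hd hcF
    (fun p q hp hq => (step p q hp hq).2)
  obtain ⟨A', G, l1, l2, l3, l4, l5⟩ := h'.three hr' hn' ha' hc' h1' e2 h2' hd hcF step'
  -- transport the chain after `b`
  have key : ∀ (l : List X) (p : X), (p ∈ Fa ∨ p = b) → (∀ x ∈ l, x ∈ Fa) →
      List.IsChain ρ (p :: (l ++ [a])) → List.IsChain ρ' (p :: (l ++ [a])) := by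
    intro l
    induction l with
    | nil =>
      intro p hp _ hch
      simp only [List.nil_append, List.isChain_cons_cons, List.isChain_singleton, and_true] at hch ⊢
      exact (step p a hp hch).1
    | cons y l ih =>
      intro p hp hl hch
      simp only [List.cons_append, List.isChain_cons_cons] at hch ⊢
      exact ⟨(step p y hp hch.1).1, ih y (Or.inl (hl y (by simp)))
        (fun x hx => hl x (by simp [hx])) hch.2⟩
  have k6 := key A b (Or.inr rfl) k2 k4
  have e : A = A' := chain_det hr' k6 l4 k5 l5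
  subst e
  exact ⟨A, D, G, k1, l1, k2, k3, l3⟩

end cy

/-! ### free ports -/

variable {T : Type*} [DecidableEq T]

theorem z4cases (d : ZMod 4) : d = 0 ∨ d = 1 ∨ d = 2 ∨ d = 3 := by revert d; decide

theorem z4other (d d' : ZMod 4) (h : d' ≠ d) : d' = d + 1 ∨ d' = d + 2 ∨ d' = d + 3 := by
  revert d d'; decide

/-- every free port of a word is in its list -/
theorem mem_L_of_free : ∀ {w : Wd T}, Sw300.Ok w → ∀ {x : Port T}, (∀ y ∈ x, y.1 ∈ tls w) →
    Sw300.be w x = x → x ∈ Sw300.L w
  | .leg, _, x, hx, _ => by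
    rcases x with _ | y
    · simp [Sw300.L]
    · have := hx y rfl
      simp [tls] at this
  | .tile t, _, x, hx, _ => by
    rcases x with _ | ⟨t', d⟩
    · simp [Sw300.L]
    · have h1 := hx (t', d) rfl
      simp only [tls, List.mem_singleton] at h1
      subst h1
      rcases z4cases d with rfl | rfl | rfl | rfl <;> simp [Sw300.L]
  | .att w p t d, h, x, hx, hb => by
    obtain ⟨hw, hp, ht, hnone⟩ := h
    have hptd : p ≠ some (t, d) := fun e => ht (Gc748.mem_L_tls hw (e ▸ hp))
    simp only [Sw300.be] at hb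
    by_cases h1 : x = p
    · rw [if_pos h1] at hb
      exact absurd (h1.symm.trans hb.symm) hptd
    rw [if_neg h1] at hb
    by_cases h2 : x = some (t, d)
    · rw [if_pos h2] at hb
      exact absurd (hb.trans h2) hptd
    rw [if_neg h2] at hb
    simp only [Sw300.L, List.mem_flatMap]
    rcases x with _ | ⟨t', d'⟩
    · refine ⟨none, mem_L_of_free hw (by intro y hy; simp at hy) hb, ?_⟩
      rw [if_neg h1]; simp
    · have h3 := hx (t', d') rfl
      simp only [tls, List.mem_cons] at h3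
      by_cases h4 : t' = t
      · subst h4
        refine ⟨p, hp, ?_⟩
        rw [if_pos rfl]
        have h5 : d' ≠ d := fun e => h2 (by rw [e])
        have h6 := z4other d d' h5
        rcases h6 with rfl | rfl | rfl <;> simp
      · refine ⟨some (t', d'), mem_L_of_free hw (by
          intro y hy
          simp only [Option.mem_def, Option.some.injEq] at hy
          rw [← hy]; exact h3.resolve_left h4) hb, ?_⟩
        rw [if_neg h1]; simp
  | .con w p q, h, x, hx, hb => by
    have hw : Sw300.Ok w := h.1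
    simp only [Sw300.be] at hb
    have hpq : p ≠ q := by
      obtain ⟨-, h2⟩ := h
      tauto
    by_cases h1 : x = p
    · rw [if_pos h1] at hb
      exact absurd (h1.symm.trans hb.symm) hpq
    rw [if_neg h1] at hb
    by_cases h2 : x = q
    · rw [if_pos h2] at hb
      exact absurd (hb.trans h2) hpq
    rw [if_neg h2] at hb
    have h3 := mem_L_of_free hw (x := x) hx hb
    simp only [Sw300.L, List.mem_filter]
    refine ⟨h3, ?_⟩
    simp [h1, h2]

end Crest.Agent.R158.Sl434
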