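import Crest.Agent.R158.Sl5_434
import Crest.Agent.R158.Sw4_300

/-!
# R158, block SL (helper434), file Sl6: local modifications of regions

* `ChA K w0 N1 Jl N2 Jo Ob` : an annulus `K` in the plane with its word `w0`, walls `N1`, `N2`, inner
  side `Jl`, outer side `Jo`
* `Loc K .. be Ft At ψ φ δ` : a region (any tiles, glueing `be`) which contains the annulus `K` in the
  chart `ψ` (inverse `φ`, rotated by `δ` quarter turns), far tiles `Ft`, annulus tiles `At`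
* **`Loc.hv`** : two regions which agree on the far tiles and the annulus have the same value of the
  official observable `HV` if at most one arc crosses the annulus
-/

set_option autoImplicit false
set_option linter.unusedSectionVars false

namespace Crest.Agent.R158.Sl434

open Crest.Agent.R158.Sw300 (Port Wd thru tls)
open Crest.Agent.R158.Gc748 (RW fa lc rc off gl_fa chain_det)
open Crest.Agent.R158.Xr249 (Nx rot Reg)
open Crest.Agent.R158.Ob664 (Gl HV)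

/-! ### ports of charts -/

section ports

variable {T Y : Type*}

/-- port map -/
def pm (φ : T → Y) (δ : ZMod 4) : Port T → Port Y := Option.map fun x => (φ x.1, x.2 + δ)

@[simp] theorem pm_none (φ : T → Y) (δ : ZMod 4) : pm φ δ none = none := rfl
@[simp] theorem pm_some (φ : T → Y) (δ : ZMod 4) (t : T) (d : ZMod 4) :
    pm φ δ (some (t, d)) = some (φ t, d + δ) := rfl

theorem pm_rot (φ : T → Y) (δ : ZMod 4) (x : Port T) : pm φ δ (rot x) = rot (pm φ δ x) := by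
  rcases x with _ | ⟨t, d⟩
  · rfl
  · simp only [Xr249.rot_some, pm_some]
    rw [add_right_comm]

/-- ports of tiles in `S`, and the leg -/
def Fp (S : Set T) : Set (Port T) := {x | ∀ y ∈ x, y.1 ∈ S}

/-- ports of tiles in `S`, without the leg -/
def Ap (S : Set T) : Set (Port T) := {x | ∃ y, x = some y ∧ y.1 ∈ S}

theorem none_Fp (S : Set T) : (none : Port T) ∈ Fp S := by
  intro y hy; simp at hy

theorem some_Fp {S : Set T} {t : T} {d : ZMod 4} : (some (t, d) : Port T) ∈ Fp S ↔ t ∈ S := by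
  constructor
  · intro h; exact h (t, d) rfl
  · intro h y hy
    simp only [Option.mem_def, Option.some.injEq] at hy
    rw [← hy]; exact h

theorem some_Ap {S : Set T} {t : T} {d : ZMod 4} : (some (t, d) : Port T) ∈ Ap S ↔ t ∈ S := by
  constructor
  · rintro ⟨y, hy, h⟩
    simp only [Option.some.injEq] at hy
    rw [← hy] at h; exact h
  · intro h; exact ⟨_, rfl, h⟩

theorem rot_Fp {S : Set T} {x : Port T} : rot x ∈ Fp S ↔ x ∈ Fp S := by
  rcases x with _ | ⟨t, d⟩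
  · exact Iff.rfl
  · rw [Xr249.rot_some]; exact some_Fp.trans some_Fp.symm

theorem rot_Ap {S : Set T} {x : Port T} : rot x ∈ Ap S ↔ x ∈ Ap S := by
  rcases x with _ | ⟨t, d⟩
  · exact Iff.rfl
  · rw [Xr249.rot_some]; exact some_Ap.trans some_Ap.symm

theorem al_Fp {S : Set T} {s : T → Bool} {x : Port T} (h : x ∈ Fp S) : al s x ∈ Fp S := by
  rcases x with _ | ⟨t, d⟩
  · exact h
  · exact some_Fp.2 (some_Fp.1 h)

theorem al_Ap {S : Set T} {s : T → Bool} {x : Port T} (h : x ∈ Ap S) : al s x ∈ Ap S := by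
  rcases x with _ | ⟨t, d⟩
  · exact h
  · exact some_Ap.2 (some_Ap.1 h)

theorem Fp_Ap {S S' : Set T} (h : ∀ t ∈ S, t ∉ S') {x : Port T} (hx : x ∈ Fp S) : x ∉ Ap S' := by
  rintro ⟨y, rfl, hy⟩
  exact h y.1 (hx y rfl) hy

end ports

/-- first and second vertex of a side -/
def V0 (p : Port (ℤ × ℤ)) : ℤ × ℤ := fa (0, 0) (lc p)
/-- first and second vertex of a side -/
def V1 (p : Port (ℤ × ℤ)) : ℤ × ℤ := fa (0, 0) (rc p)

theorem V0_rot (p : Port (ℤ × ℤ)) : V0 (rot p) = V1 p := rfl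

theorem V1_gl {K : Reg} {p q : Port (ℤ × ℤ)} (h : K.gl p q) : V1 q = V0 p :=
  (gl_fa (z := (0, 0)) h).1.symm

/-- an annulus in the plane -/
structure ChA (K : Reg) (w0 : Wd (ℤ × ℤ)) (N1 Jl N2 Jo : List (Port (ℤ × ℤ)))
    (Ob : ℤ × ℤ → Prop) (a b : Port (ℤ × ℤ)) : Prop where
  rw : ∃ b0, RW K w0 b0
  leg : ¬ Sw300.isLeg w0
  ring : ∃ Q, Sw300.L w0 = none :: Q ∧ Q ~r N1 ++ Jl ++ N2 ++ Jo
  c1 : List.IsChain (Nx K.gl) N1
  c2 : List.IsChain (Nx K.gl) N2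
  e1 : ∃ n, N1 = a :: n
  e2 : ∃ n, N2 = n ++ [b]
  oJo : ∀ p ∈ Jo, Ob (V1 p)
  oN2 : Ob (V1 b)
  oJl : ∀ p ∈ Jl, ¬ Ob (V0 p)
  oN : ∀ p ∈ N1 ++ N2, Ob (V0 p) → p = a

section

variable {K : Reg} {w0 : Wd (ℤ × ℤ)} {N1 Jl N2 Jo : List (Port (ℤ × ℤ))} {Ob : ℤ × ℤ → Prop}
  {a b : Port (ℤ × ℤ)}

theorem ChA.mem (h : ChA K w0 N1 Jl N2 Jo Ob a b) {p : Port (ℤ × ℤ)} :
    p ∈ N1 ++ Jl ++ N2 ++ Jo ↔ p ∈ Sw300.L w0 ∧ p ≠ none := by
  obtain ⟨b0, hr⟩ := h.rw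
  obtain ⟨Q, h1, h2⟩ := h.ring
  have hn := Sw300.nodup hr.ok
  rw [h1] at hn
  rw [← h2.mem_iff, h1, List.mem_cons]
  constructor
  · intro h3
    exact ⟨Or.inr h3, fun e => (List.nodup_cons.1 hn).1 (e ▸ h3)⟩
  · rintro ⟨h3, h4⟩
    exact h3.resolve_left h4

theorem ChA.port (h : ChA K w0 N1 Jl N2 Jo Ob a b) {p : Port (ℤ × ℤ)}
    (hp : p ∈ N1 ++ Jl ++ N2 ++ Jo) : p ∈ Ap (K.P : Set (ℤ × ℤ)) := by
  obtain ⟨b0, hr⟩ := h.rw
  obtain ⟨h1, h2⟩ := h.mem.1 hp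
  rcases p with _ | ⟨t, d⟩
  · exact absurd rfl h2
  · exact some_Ap.2 ((hr.tls t).1 (Gc748.mem_L_tls hr.ok h1))

theorem ChA.free (h : ChA K w0 N1 Jl N2 Jo Ob a b) {p : Port (ℤ × ℤ)}
    (hp : p ∈ N1 ++ Jl ++ N2 ++ Jo) (q : Port (ℤ × ℤ)) : ¬ K.gl p q ∧ ¬ K.gl q p := by
  obtain ⟨b0, hr⟩ := h.rw
  have h1 := (Gc748.be_state hr.ok).free p (h.mem.1 hp).1
  constructor
  · intro h2
    obtain ⟨h3, h4⟩ := (hr.be p q).1 h2
    exact h4 (h1.symm.trans h3)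
  · intro h2
    obtain ⟨h3, h4⟩ := (hr.be q p).1 h2
    have h5 := be_invol hr.ok q
    rw [h3, h1] at h5
    exact h4 h5.symm

/-- a port of the annulus is on the ring or glued -/
theorem ChA.cases (h : ChA K w0 N1 Jl N2 Jo Ob a b) {p : Port (ℤ × ℤ)}
    (hp : p ∈ Ap (K.P : Set (ℤ × ℤ))) : p ∈ N1 ++ Jl ++ N2 ++ Jo ∨ ∃ q, K.gl p q := by
  obtain ⟨b0, hr⟩ := h.rw
  obtain ⟨y, rfl, hy⟩ := hp
  by_cases h1 : Sw300.be w0 (some y) = some y
  · left
    refine h.mem.2 ⟨mem_L_of_free hr.ok ?_ h1, by simp⟩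
    intro z hz
    simp only [Option.mem_def, Option.some.injEq] at hz
    rw [← hz]; exact (hr.tls _).2 hy
  · right
    exact ⟨Sw300.be w0 (some y), (hr.be _ _).2 ⟨rfl, fun e => h1 e.symm⟩⟩

theorem ChA.gl_port {p q : Port (ℤ × ℤ)} (hp : K.gl p q) :
    p ∈ Ap (K.P : Set (ℤ × ℤ)) ∧ q ∈ Ap (K.P : Set (ℤ × ℤ)) := by
  rcases p with _ | ⟨⟨x, y⟩, d⟩
  · exact hp.elim
  · rcases Xr249.Reg.d4 d with rfl | rfl | rfl | rfl
    · obtain ⟨h1, rfl⟩ := Xr249.Reg.gl_0.1 hp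
      have := K.hP _ _ h1
      rw [sub_add_cancel] at this
      exact ⟨some_Ap.2 this.2, some_Ap.2 this.1⟩
    · obtain ⟨h1, rfl⟩ := Xr249.Reg.gl_1.1 hp
      exact ⟨some_Ap.2 (K.vP _ _ h1).1, some_Ap.2 (K.vP _ _ h1).2⟩
    · obtain ⟨h1, rfl⟩ := Xr249.Reg.gl_2.1 hp
      exact ⟨some_Ap.2 (K.hP _ _ h1).1, some_Ap.2 (K.hP _ _ h1).2⟩
    · obtain ⟨h1, rfl⟩ := Xr249.Reg.gl_3.1 hp
      have := K.vP _ _ h1
      rw [sub_add_cancel] at this
      exact ⟨some_Ap.2 this.2, some_Ap.2 this.1⟩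

end

variable {T : Type*} [DecidableEq T]

/-- a region which contains the annulus `K` -/
structure Loc (K : Reg) (N1 Jl N2 Jo : List (Port (ℤ × ℤ))) (be : Port T → Port T) (Ft At : Set T)
    (ψ : T → ℤ × ℤ) (φ : ℤ × ℤ → T) (δ : ZMod 4) : Prop where
  dj : ∀ t ∈ Ft, t ∉ At
  mp : ∀ t ∈ At, ψ t ∈ K.P
  lf : ∀ t ∈ At, φ (ψ t) = t
  ms : ∀ c ∈ K.P, φ c ∈ At
  rt : ∀ c ∈ K.P, ψ (φ c) = c
  inv : Function.Involutive be
  glued : ∀ p q, K.gl p q → be (pm φ (-δ) p) = pm φ (-δ) q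
  wall : ∀ p ∈ N1 ++ N2, be (pm φ (-δ) p) = pm φ (-δ) p
  inner : ∀ p ∈ Jl, be (pm φ (-δ) p) ∉ Fp Ft ∪ Ap At
  outer : ∀ p ∈ Jo, be (pm φ (-δ) p) ∈ Fp Ft
  far : ∀ x ∈ Fp Ft, be x ∈ Fp Ft ∪ Ap At

section loc

variable {K : Reg} {w0 : Wd (ℤ × ℤ)} {N1 Jl N2 Jo : List (Port (ℤ × ℤ))} {Ob : ℤ × ℤ → Prop}
  {a b : Port (ℤ × ℤ)} {be be' : Port T → Port T} {Ft At : Set T} {ψ : T → ℤ × ℤ}
  {φ : ℤ × ℤ → T} {δ : ZMod 4}

theorem Loc.pf (h : Loc K N1 Jl N2 Jo be Ft At ψ φ δ) {p : Port (ℤ × ℤ)}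
    (hp : p ∈ Ap (K.P : Set (ℤ × ℤ))) : pm φ (-δ) p ∈ Ap At ∧ pm ψ δ (pm φ (-δ) p) = p := by
  obtain ⟨⟨c, d⟩, rfl, hc⟩ := hp
  refine ⟨some_Ap.2 (h.ms c hc), ?_⟩
  simp only [pm_some]
  rw [h.rt c hc, neg_add_cancel_right]

theorem Loc.pb (h : Loc K N1 Jl N2 Jo be Ft At ψ φ δ) {x : Port T} (hx : x ∈ Ap At) :
    pm ψ δ x ∈ Ap (K.P : Set (ℤ × ℤ)) ∧ pm φ (-δ) (pm ψ δ x) = x := by
  obtain ⟨⟨t, d⟩, rfl, ht⟩ := hx
  refine ⟨some_Ap.2 (h.mp t ht), ?_⟩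
  simp only [pm_some]
  rw [h.lf t ht, add_neg_cancel_right]

theorem Loc.inj (h : Loc K N1 Jl N2 Jo be Ft At ψ φ δ) {p q : Port (ℤ × ℤ)}
    (hp : p ∈ Ap (K.P : Set (ℤ × ℤ))) (hq : q ∈ Ap (K.P : Set (ℤ × ℤ)))
    (e : pm φ (-δ) p = pm φ (-δ) q) : p = q := by
  rw [← (h.pf hp).2, e, (h.pf hq).2]

theorem gl_ne {p q : Port (ℤ × ℤ)} (hp : K.gl p q) : p ≠ q := by
  rintro rfl
  rcases p with _ | ⟨⟨x, y⟩, d⟩
  · exact hp
  · rcases Xr249.Reg.d4 d with rfl | rfl | rfl | rfl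
    · have := (Xr249.Reg.gl_0.1 hp).2
      simp only [Option.some.injEq, Prod.mk.injEq] at this
      exact absurd this.2 (by decide)
    · have := (Xr249.Reg.gl_1.1 hp).2
      simp only [Option.some.injEq, Prod.mk.injEq] at this
      exact absurd this.2 (by decide)
    · have := (Xr249.Reg.gl_2.1 hp).2
      simp only [Option.some.injEq, Prod.mk.injEq] at this
      exact absurd this.2 (by decide)
    · have := (Xr249.Reg.gl_3.1 hp).2
      simp only [Option.some.injEq, Prod.mk.injEq] at this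
      exact absurd this.2 (by decide)

/-- an edge of the chart is an edge of the region -/
theorem Loc.edge (h : Loc K N1 Jl N2 Jo be Ft At ψ φ δ) {p q : Port (ℤ × ℤ)} (hp : K.gl p q) :
    Gl be (pm φ (-δ) p) (pm φ (-δ) q) := by
  have h1 := ChA.gl_port hp
  exact ⟨h.glued p q hp, fun e => gl_ne hp (h.inj h1.1 h1.2 e)⟩

/-- boundary steps inside the annulus -/
theorem Loc.nx (h : Loc K N1 Jl N2 Jo be Ft At ψ φ δ) {p r : Port (ℤ × ℤ)} (hp : Nx K.gl p r)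
    (hr : r ∈ N1 ++ N2) : Nx (Gl be) (pm φ (-δ) p) (pm φ (-δ) r) := by
  induction hp with
  | @stop p hs =>
    rw [pm_rot]
    refine .stop fun q hq => ?_
    rw [← pm_rot] at hq
    exact hq.2 ((h.wall _ hr).symm.trans hq.1)
  | @go p q r hg hn ih =>
    refine .go (q := pm φ (-δ) q) ?_ (ih hr)
    rw [← pm_rot]
    exact h.edge hg

/-- the outer ports of the region -/
theorem Loc.far_cases (h : Loc K N1 Jl N2 Jo be Ft At ψ φ δ) (hc : ChA K w0 N1 Jl N2 Jo Ob a b)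
    {x : Port T} (hx : x ∈ Fp Ft) :
    be x ∈ Fp Ft ∨ ∃ p ∈ Jo, be x = pm φ (-δ) p := by
  rcases h.far x hx with h1 | h1
  · exact Or.inl h1
  right
  obtain ⟨h2, h3⟩ := h.pb h1
  set p := pm ψ δ (be x) with hp
  have hb : be (pm φ (-δ) p) = x := by rw [h3]; exact h.inv x
  rcases hc.cases h2 with h4 | ⟨q, h4⟩
  · simp only [List.mem_append] at h4
    rcases h4 with ((h5 | h5) | h5) | h5
    · exfalso
      have := h.wall p (by simp [h5])
      rw [hb] at this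
      exact Fp_Ap h.dj hx (this ▸ (h.pf h2).1)
    · exfalso
      exact h.inner p h5 (Or.inl (hb ▸ hx))
    · exfalso
      have := h.wall p (by simp [h5])
      rw [hb] at this
      exact Fp_Ap h.dj hx (this ▸ (h.pf h2).1)
    · exact ⟨p, h5, h3.symm⟩
  · exfalso
    have := h.glued p q h4
    rw [hb] at this
    exact Fp_Ap h.dj hx (this ▸ (h.pf (ChA.gl_port h4).2).1)

/-- the two glueings agree outside the inner side -/
theorem Loc.eq_out (h : Loc K N1 Jl N2 Jo be Ft At ψ φ δ) (h' : Loc K N1 Jl N2 Jo be' Ft At ψ φ δ)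
    (hc : ChA K w0 N1 Jl N2 Jo Ob a b) (hF : ∀ x ∈ Fp Ft, be' x = be x) {p : Port (ℤ × ℤ)}
    (hp : p ∈ Ap (K.P : Set (ℤ × ℤ))) (hJ : p ∉ Jl) :
    be' (pm φ (-δ) p) = be (pm φ (-δ) p) := by
  rcases hc.cases hp with h4 | ⟨q, h4⟩
  · simp only [List.mem_append] at h4
    rcases h4 with ((h5 | h5) | h5) | h5
    · rw [h.wall p (by simp [h5]), h'.wall p (by simp [h5])]
    · exact absurd h5 hJ
    · rw [h.wall p (by simp [h5]), h'.wall p (by simp [h5])]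
    · have h6 := h.outer p h5
      have h7 := hF _ h6
      rw [h.inv] at h7
      rw [← h7, h'.inv, h7]
  · rw [h.glued p q h4, h'.glued p q h4]

/-- **boundary steps of the far part** -/
theorem Loc.nx_far (h : Loc K N1 Jl N2 Jo be Ft At ψ φ δ)
    (h' : Loc K N1 Jl N2 Jo be' Ft At ψ φ δ) (hc : ChA K w0 N1 Jl N2 Jo Ob a b)
    (hF : ∀ x ∈ Fp Ft, be' x = be x) {x y : Port T} (hxy : Nx (Gl be) x y)
    (hx : x ∈ Fp Ft ∨ ∃ p ∈ Ap (K.P : Set (ℤ × ℤ)), x = pm φ (-δ) p ∧ Ob (V1 p)) :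
    Nx (Gl be') x y ∧ (y ∈ Fp Ft ∨ y = pm φ (-δ) a) := by
  induction hxy with
  | @stop x hs =>
    have hfix : be (rot x) = rot x := by
      by_contra hne
      exact hs (be (rot x)) ⟨rfl, fun e => hne e.symm⟩
    rcases hx with hx | ⟨p, hp, rfl, ho⟩
    · have h1 : rot x ∈ Fp Ft := rot_Fp.2 hx
      refine ⟨.stop fun q hq => ?_, Or.inl h1⟩
      obtain ⟨h2, h3⟩ := hq
      rw [hF _ h1, hfix] at h2
      exact h3 h2
    · have hr : rot p ∈ Ap (K.P : Set (ℤ × ℤ)) := rot_Ap.2 hp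
      rw [← pm_rot] at hfix ⊢
      have hO : Ob (V0 (rot p)) := ho
      rcases hc.cases hr with h4 | ⟨q, h4⟩
      · simp only [List.mem_append] at h4
        have hN : rot p ∈ N1 ++ N2 → Nx (Gl be') (pm φ (-δ) p) (pm φ (-δ) (rot p)) ∧
            (pm φ (-δ) (rot p) ∈ Fp Ft ∨ pm φ (-δ) (rot p) = pm φ (-δ) a) := by
          intro h5
          refine ⟨?_, Or.inr (by rw [hc.oN _ h5 hO])⟩
          rw [pm_rot]
          refine .stop fun q hq => ?_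
          rw [← pm_rot] at hq
          exact hq.2 ((h'.wall _ h5).symm.trans hq.1)
        rcases h4 with ((h5 | h5) | h5) | h5
        · exact hN (by simp [h5])
        · exact absurd hO (hc.oJl _ h5)
        · exact hN (by simp [h5])
        · exfalso
          have h6 := h.outer _ h5
          rw [hfix] at h6
          exact Fp_Ap h.dj h6 (h.pf hr).1
      · exfalso
        exact (h.edge h4).2 (hfix.symm.trans (h.edge h4).1)
  | @go x q y hg hn ih =>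
    obtain ⟨hg1, hg2⟩ := hg
    rcases hx with hx | ⟨p, hp, rfl, ho⟩
    · have h1 : rot x ∈ Fp Ft := rot_Fp.2 hx
      have h2 : q ∈ Fp Ft ∨ ∃ p ∈ Ap (K.P : Set (ℤ × ℤ)), q = pm φ (-δ) p ∧ Ob (V1 p) := by
        rcases h.far_cases hc h1 with h3 | ⟨p, hp, h3⟩
        · left; rw [← hg1]; exact h3
        · right; exact ⟨p, hc.port (by simp [hp]), hg1.symm.trans h3, hc.oJo p hp⟩
      obtain ⟨h3, h4⟩ := ih h2
      exact ⟨.go ⟨(hF _ h1).trans hg1, hg2⟩ h3, h4⟩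
    · have hr : rot p ∈ Ap (K.P : Set (ℤ × ℤ)) := rot_Ap.2 hp
      rw [← pm_rot] at hg1 hg2
      have hO : Ob (V0 (rot p)) := ho
      have hJl : rot p ∉ Jl := fun h5 => hc.oJl _ h5 hO
      have hbe := h.eq_out h' hc hF hr hJl
      have h2 : q ∈ Fp Ft ∨ ∃ p ∈ Ap (K.P : Set (ℤ × ℤ)), q = pm φ (-δ) p ∧ Ob (V1 p) := by
        rcases hc.cases hr with h4 | ⟨r, h4⟩
        · simp only [List.mem_append] at h4
          have hN : rot p ∈ N1 ++ N2 → False := by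
            intro h5
            exact hg2 ((h.wall _ h5).symm.trans hg1)
          rcases h4 with ((h5 | h5) | h5) | h5
          · exact (hN (by simp [h5])).elim
          · exact absurd h5 hJl
          · exact (hN (by simp [h5])).elim
          · left; rw [← hg1]; exact h.outer _ h5
        · right
          refine ⟨r, (ChA.gl_port h4).2, hg1.symm.trans (h.glued _ _ h4), ?_⟩
          rw [V1_gl h4]; exact hO
      obtain ⟨h3, h4⟩ := ih h2
      refine ⟨.go (q := q) ?_ h3, h4⟩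
      rw [← pm_rot]
      exact ⟨hbe.trans hg1, hg2⟩

/-! ### the annulus state of a region -/

/-- the chart splitting -/
def cs (fl : Bool) (φ : ℤ × ℤ → T) (s : T → Bool) : ℤ × ℤ → Bool := fun c => xor fl (s (φ c))

theorem Loc.al_eq (h : Loc K N1 Jl N2 Jo be Ft At ψ φ δ) {fl : Bool}
    (hth : ∀ (b : Bool) (d : ZMod 4), thru (xor fl b) (d + δ) = thru b d + δ) (s : T → Bool)
    {x : Port T} (hx : x ∈ Ap At) : pm ψ δ (al s x) = al (cs fl φ s) (pm ψ δ x) := by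
  obtain ⟨⟨t, d⟩, rfl, ht⟩ := hx
  simp only [al_some, pm_some]
  unfold cs
  rw [h.lf t ht, hth]

theorem Loc.annS (h : Loc K N1 Jl N2 Jo be Ft At ψ φ δ) (hc : ChA K w0 N1 Jl N2 Jo Ob a b)
    {fl : Bool} (hth : ∀ (b : Bool) (d : ZMod 4), thru (xor fl b) (d + δ) = thru b d + δ)
    (s : T → Bool) :
    AnnS (al s) be (Fp Ft) (Ap At) (N1.map (pm φ (-δ))) (Jl.map (pm φ (-δ)))
      (N2.map (pm φ (-δ))) (Jo.map (pm φ (-δ)))
      (pull (pm ψ δ) (N1.map (pm φ (-δ)) ++ Jl.map (pm φ (-δ)) ++ N2.map (pm φ (-δ)) ++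
        Jo.map (pm φ (-δ))) (Sw300.M (cs fl φ s) w0)) := by
  obtain ⟨b0, hr⟩ := hc.rw
  obtain ⟨Q, hQ1, hQ2⟩ := hc.ring
  have eL : N1.map (pm φ (-δ)) ++ Jl.map (pm φ (-δ)) ++ N2.map (pm φ (-δ)) ++ Jo.map (pm φ (-δ)) =
      (N1 ++ Jl ++ N2 ++ Jo).map (pm φ (-δ)) := by simp
  have hmem : ∀ {x : Port T}, x ∈ N1.map (pm φ (-δ)) ++ Jl.map (pm φ (-δ)) ++ N2.map (pm φ (-δ)) ++
      Jo.map (pm φ (-δ)) → ∃ p ∈ N1 ++ Jl ++ N2 ++ Jo, pm φ (-δ) p = x := by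
    intro x hx
    rw [eL] at hx
    exact List.mem_map.1 hx
  have hcl : ∀ {x : Port T}, x ∈ Ap At →
      x ∉ N1.map (pm φ (-δ)) ++ Jl.map (pm φ (-δ)) ++ N2.map (pm φ (-δ)) ++ Jo.map (pm φ (-δ)) →
      ∃ p q, K.gl p q ∧ x = pm φ (-δ) p ∧ be x = pm φ (-δ) q := by
    intro x hx hxn
    obtain ⟨h1, h2⟩ := h.pb hx
    rcases hc.cases h1 with h3 | ⟨q, h3⟩
    · exfalso
      apply hxn
      rw [eL, ← h2]
      exact List.mem_map_of_mem h3
    · exact ⟨_, q, h3, h2.symm, by rw [← h.glued _ q h3, h2]⟩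
  apply annS_of_chart (alY := al (cs fl φ s)) (beY := Sw300.be w0)
  · have e2 : (N1.map (pm φ (-δ)) ++ Jl.map (pm φ (-δ)) ++ N2.map (pm φ (-δ)) ++
        Jo.map (pm φ (-δ))).map (pm ψ δ) = N1 ++ Jl ++ N2 ++ Jo := by
      rw [eL, List.map_map]
      have : ∀ p ∈ N1 ++ Jl ++ N2 ++ Jo, (pm ψ δ ∘ pm φ (-δ)) p = p := fun p hp =>
        (h.pf (hc.port hp)).2
      rw [List.map_congr_left this, List.map_id']
    rw [e2]
    refine ring_of_word hr.ok _ (Sw300.u_none _ _ hr.ok hc.leg) (P := []) (Q := Q) ?_ (by simpa using hQ2)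
    rw [hQ1]; exact List.IsRotated.refl _
  · intro x hx y hy e
    rw [← (h.pb hx).2, e, (h.pb hy).2]
  · intro x hx
    obtain ⟨p, hp, rfl⟩ := hmem hx
    exact (h.pf (hc.port hp)).1
  · exact fun x hx => h.al_eq hth s hx
  · intro x hx hxn
    obtain ⟨p, q, h1, rfl, h2⟩ := hcl hx hxn
    rw [h2, (h.pf (ChA.gl_port h1).1).2, (h.pf (ChA.gl_port h1).2).2]
    exact ((hr.be p q).1 h1).1.symm
  · exact fun x hx => Fp_Ap h.dj hx
  · exact fun x hx => al_Fp hx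
  · exact fun x hx => al_Ap hx
  · intro x hx
    rcases h.far_cases hc hx with h1 | ⟨p, hp, h1⟩
    · exact Or.inl h1
    · right; rw [h1]; exact List.mem_map_of_mem hp
  · intro x hx hxn
    obtain ⟨p, q, h1, rfl, h2⟩ := hcl hx hxn
    rw [h2]
    refine ⟨(h.pf (ChA.gl_port h1).2).1, fun h3 => ?_⟩
    obtain ⟨r, hr1, hr2⟩ := hmem h3
    have := h.inj (hc.port hr1) (ChA.gl_port h1).2 hr2
    rw [this] at hr1
    exact (hc.free hr1 p).2 h1
  · intro x hx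
    obtain ⟨p, hp, rfl⟩ := List.mem_map.1 hx
    exact h.wall p (by simp [hp])
  · intro x hx
    obtain ⟨p, hp, rfl⟩ := List.mem_map.1 hx
    exact h.wall p (by simp [hp])
  · intro x hx
    obtain ⟨p, hp, rfl⟩ := List.mem_map.1 hx
    exact h.outer p hp

end loc

end Crest.Agent.R158.Sl434
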