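import Crest.Agent.R158.Sl6_434

/-!
# R158, block SL (helper434), file Sl7: invariance of the official observable

* `Loc.two` : two regions which agree outside a ball behind an annulus form a `Two`
* **`Loc.hv`** : `HV w m1 m2 m3 s = HV w' m1 m2 m3 s` if at most one arc crosses the annulus
* **`Loc.hv0`** : the same with one mark anywhere if no arc crosses the annulus
* **`Loc.HW_le`**, **`Loc.HW_le0`** : the mean values, bounds by probabilities in the chart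
-/

set_option autoImplicit false
set_option linter.unusedSectionVars false

namespace Crest.Agent.R158.Sl434

open MeasureTheory ProbabilityTheory
open Crest.Agent.R158.Sw300 (Port Wd thru tls)
open Crest.Agent.R158.Gc748 (RW chain_det)
open Crest.Agent.R158.Xr249 (Nx rot Reg)
open Crest.Agent.R158.Ob664 (Gl HV HW)
open Crest.Agent.R158.Rs689 (PB hf PB_map_inj PB_map_not)

section cyc2

variable {β : Type*} [DecidableEq β]

/-- a mark and its image in two lists `A ++ R`, `A ++ R'` -/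
def Mr (A R R' : List β) (x x' : β) : Prop := (x ∈ A ∧ x' = x) ∨ (x ∈ R ∧ x' ∈ R')

theorem idx_left {A R : List β} {x : β} (hx : x ∈ A) :
    (A ++ R).idxOf x = A.idxOf x ∧ A.idxOf x < A.length :=
  ⟨List.idxOf_append_of_mem hx, List.idxOf_lt_length_iff.2 hx⟩

theorem idx_right {A R : List β} (hn : (A ++ R).Nodup) {x : β} (hx : x ∈ R) :
    A.length ≤ (A ++ R).idxOf x := by
  rw [List.idxOf_append_of_notMem (notMem_left hn hx)]
  omega

theorem cycI_mr {A R R' : List β} (hn : (A ++ R).Nodup) (hn' : (A ++ R').Nodup)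
    {x1 x2 x3 y1 y2 y3 : β} (h1 : Mr A R R' x1 y1) (h2 : Mr A R R' x2 y2) (h3 : Mr A R R' x3 y3)
    (h12 : x1 ∈ A ∨ x2 ∈ A) (h23 : x2 ∈ A ∨ x3 ∈ A) (h31 : x3 ∈ A ∨ x1 ∈ A) :
    cycI (A ++ R) x1 x2 x3 ↔ cycI (A ++ R') y1 y2 y3 := by
  have key : ∀ {x y : β}, Mr A R R' x y → (x ∈ A ∧ (A ++ R).idxOf x < A.length ∧
      (A ++ R').idxOf y = (A ++ R).idxOf x) ∨
      (x ∉ A ∧ A.length ≤ (A ++ R).idxOf x ∧ A.length ≤ (A ++ R').idxOf y) := by
    intro x y h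
    rcases h with ⟨h4, rfl⟩ | ⟨h4, h5⟩
    · left
      rw [(idx_left (R := R) h4).1, (idx_left (R := R') h4).1]
      exact ⟨h4, (idx_left (R := R) h4).2, rfl⟩
    · right
      exact ⟨notMem_left hn h4, idx_right hn h4, idx_right hn' h5⟩
  have k1 := key h1
  have k2 := key h2
  have k3 := key h3
  unfold cycI Sw300.cyc
  rcases k1 with ⟨a1, b1, c1⟩ | ⟨a1, b1, c1⟩ <;> rcases k2 with ⟨a2, b2, c2⟩ | ⟨a2, b2, c2⟩ <;>
    rcases k3 with ⟨a3, b3, c3⟩ | ⟨a3, b3, c3⟩ <;> simp only [a1, a2, a3, or_self] at h12 h23 h31 <;>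
    omega

end cyc2

variable {T : Type*} [DecidableEq T]

section loc

variable {K : Reg} {w0 : Wd (ℤ × ℤ)} {N1 Jl N2 Jo : List (Port (ℤ × ℤ))} {Ob : ℤ × ℤ → Prop}
  {a b : Port (ℤ × ℤ)} {w w' : Wd T} {Ft At : Set T} {ψ : T → ℤ × ℤ} {φ : ℤ × ℤ → T} {δ : ZMod 4}

/-- the two words and their common annulus -/
structure Pair (K : Reg) (w0 : Wd (ℤ × ℤ)) (N1 Jl N2 Jo : List (Port (ℤ × ℤ)))
    (Ob : ℤ × ℤ → Prop) (a b : Port (ℤ × ℤ)) (w w' : Wd T) (Ft At : Set T) (ψ : T → ℤ × ℤ)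
    (φ : ℤ × ℤ → T) (δ : ZMod 4) : Prop where
  ch : ChA K w0 N1 Jl N2 Jo Ob a b
  ok : Sw300.Ok w
  ok' : Sw300.Ok w'
  cy : Cy (Nx (Gl (Sw300.be w))) (Sw300.L w)
  cy' : Cy (Nx (Gl (Sw300.be w'))) (Sw300.L w')
  lc : Loc K N1 Jl N2 Jo (Sw300.be w) Ft At ψ φ δ
  lc' : Loc K N1 Jl N2 Jo (Sw300.be w') Ft At ψ φ δ
  tl : ∀ t ∈ At, t ∈ tls w
  tl' : ∀ t ∈ At, t ∈ tls w'
  eqF : ∀ x ∈ Fp Ft, Sw300.be w' x = Sw300.be w x

theorem gl_fun {be : Port T → Port T} (x y z : Port T) (h : Gl be x y) (h' : Gl be x z) : y = z :=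
  h.1.symm.trans h'.1

theorem Pair.two (h : Pair K w0 N1 Jl N2 Jo Ob a b w w' Ft At ψ φ δ) {fl : Bool}
    (hth : ∀ (b : Bool) (d : ZMod 4), thru (xor fl b) (d + δ) = thru b d + δ) (s : T → Bool) :
    ∃ A Di Gi,
      Sw300.L w ~r A ++ N1.map (pm φ (-δ)) ++ Di ++ N2.map (pm φ (-δ)) ∧
      Sw300.L w' ~r A ++ N1.map (pm φ (-δ)) ++ Gi ++ N2.map (pm φ (-δ)) ∧
      Two (al s) (Sw300.be w) (al s) (Sw300.be w') (Fp Ft) (Ap At) (N1.map (pm φ (-δ)))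
        (Jl.map (pm φ (-δ))) (N2.map (pm φ (-δ))) (Jo.map (pm φ (-δ)))
        (pull (pm ψ δ) (N1.map (pm φ (-δ)) ++ Jl.map (pm φ (-δ)) ++ N2.map (pm φ (-δ)) ++
        Jo.map (pm φ (-δ))) (Sw300.M (cs fl φ s) w0)) none A Di Gi (Sw300.M s w) (Sw300.M s w')
        (Sw300.u s w) (Sw300.u s w') := by
  obtain ⟨hc, ok, ok', cy, cy', lc, lc', tl, tl', eqF⟩ := h
  obtain ⟨n, e1⟩ := hc.e1
  obtain ⟨m, e2⟩ := hc.e2
  have hsub : ∀ p ∈ N1 ++ N2, p ∈ N1 ++ Jl ++ N2 ++ Jo := by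
    intro p hp
    simp only [List.mem_append] at hp ⊢
    tauto
  -- ends of the walls are free ends of the words
  have hL : ∀ p ∈ N1 ++ N2, pm φ (-δ) p ∈ Sw300.L w := by
    intro p hp
    obtain ⟨y, hy, hyA⟩ := (lc.pf (hc.port (hsub p hp))).1
    refine mem_L_of_free ok ?_ (lc.wall p hp)
    intro z hz
    rw [hy] at hz
    simp only [Option.mem_def, Option.some.injEq] at hz
    rw [← hz]; exact tl _ hyA
  have hL' : ∀ p ∈ N1 ++ N2, pm φ (-δ) p ∈ Sw300.L w' := by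
    intro p hp
    obtain ⟨y, hy, hyA⟩ := (lc'.pf (hc.port (hsub p hp))).1
    refine mem_L_of_free ok' ?_ (lc'.wall p hp)
    intro z hz
    rw [hy] at hz
    simp only [Option.mem_def, Option.some.injEq] at hz
    rw [← hz]; exact tl' _ hyA
  -- chains
  have hch : ∀ {be : Port T → Port T}, Loc K N1 Jl N2 Jo be Ft At ψ φ δ → ∀ l : List (Port (ℤ × ℤ)),
      (∀ p ∈ l, p ∈ N1 ++ N2) → List.IsChain (Nx K.gl) l →
      List.IsChain (Nx (Gl be)) (l.map (pm φ (-δ))) := by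
    intro be hloc l hl hcl
    rw [List.isChain_map]
    induction l with
    | nil => simp
    | cons x l ih =>
      cases l with
      | nil => simp
      | cons y l =>
        simp only [List.isChain_cons_cons] at hcl ⊢
        exact ⟨hloc.nx hcl.1 (hl y (by simp)), ih (fun p hp => hl p (by simp [hp])) hcl.2⟩
  -- N2 starts with some `c`
  obtain ⟨c, n1, ec⟩ : ∃ c n1, N2 = c :: n1 := by
    cases hN : N2 with
    | nil => rw [hN] at e2; simp at e2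
    | cons c n1 => exact ⟨c, n1, rfl⟩
  have hring : (N1 ++ Jl ++ N2 ++ Jo).Nodup := by
    obtain ⟨b0, hr⟩ := hc.rw
    obtain ⟨Q, hQ1, hQ2⟩ := hc.ring
    have hn := Sw300.nodup hr.ok
    rw [hQ1] at hn
    exact (hQ2.nodup_iff).1 (List.nodup_cons.1 hn).2
  have hnN : (N1 ++ N2).Nodup := by
    refine hring.sublist ?_
    have e : N1 ++ Jl ++ N2 ++ Jo = N1 ++ (Jl ++ N2 ++ Jo) := by simp
    rw [e]
    refine List.Sublist.append (List.Sublist.refl _) ?_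
    have e' : Jl ++ N2 ++ Jo = Jl ++ (N2 ++ Jo) := by simp
    rw [e']
    exact (List.sublist_append_left _ _).trans (List.sublist_append_right _ _)
  have hnT : (N1.map (pm φ (-δ)) ++ N2.map (pm φ (-δ))).Nodup := by
    rw [← List.map_append]
    refine List.Nodup.map_on ?_ hnN
    intro x hx y hy e
    exact lc.inj (hc.port (hsub x hx)) (hc.port (hsub y hy)) e
  have hcA : ∀ p ∈ N1 ++ N2, pm φ (-δ) p ∉ Fp Ft := fun p hp h1 =>
    Fp_Ap lc.dj h1 (lc.pf (hc.port (hsub p hp))).1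
  have m1 : N1.map (pm φ (-δ)) = pm φ (-δ) a :: n.map (pm φ (-δ)) := by rw [e1]; rfl
  have m2 : N2.map (pm φ (-δ)) = pm φ (-δ) c :: n1.map (pm φ (-δ)) := by rw [ec]; rfl
  have m3 : pm φ (-δ) c :: n1.map (pm φ (-δ)) = m.map (pm φ (-δ)) ++ [pm φ (-δ) b] := by
    rw [← m2, e2]; simp
  have hbm : b ∈ N1 ++ N2 := by rw [e2]; simp
  have hQ : ∀ p : Port T, (p ∈ Fp Ft ∨ p = pm φ (-δ) b) →
      (p ∈ Fp Ft ∨ ∃ q ∈ Ap (K.P : Set (ℤ × ℤ)), p = pm φ (-δ) q ∧ Ob (Sl434.V1 q)) := by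
    rintro p (hp | hp)
    · exact Or.inl hp
    · exact Or.inr ⟨b, hc.port (hsub b hbm), hp, hc.oN2⟩
  have cA : a ∈ N1 ++ N2 := by rw [e1]; simp
  have cC : c ∈ N1 ++ N2 := by rw [ec]; simp
  obtain ⟨A, Di, Gi, k1, k2, k3, k4, k5⟩ := two_lists (ρ := Nx (Gl (Sw300.be w)))
    (ρ' := Nx (Gl (Sw300.be w'))) (fun x y z => Nx.det gl_fun) (fun x y z => Nx.det gl_fun)
    cy (Sw300.nodup ok) cy' (Sw300.nodup ok') (Fa := Fp Ft) (a := pm φ (-δ) a) (c := pm φ (-δ) c)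
    (b := pm φ (-δ) b) (n := n.map (pm φ (-δ))) (n1 := n1.map (pm φ (-δ)))
    (n2 := m.map (pm φ (-δ))) (hL a cA) (hL c cC) (hL' a cA) (hL' c cC)
    (by rw [← m1]; exact hch lc N1 (fun p hp => by simp [hp]) hc.c1)
    (by rw [← m1]; exact hch lc' N1 (fun p hp => by simp [hp]) hc.c1) m3
    (by rw [← m2]; exact hch lc N2 (fun p hp => by simp [hp]) hc.c2)
    (by rw [← m2]; exact hch lc' N2 (fun p hp => by simp [hp]) hc.c2)
    (by rw [← m1, ← m2]; exact hnT) (hcA c cC)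
    (fun p q hp hq => lc.nx_far lc' hc eqF hq (hQ p hp))
    (fun p q hp hq => (lc'.nx_far lc hc (fun x hx => (eqF x hx).symm) hq (hQ p hp)).2)
  rw [← m1, ← m2] at k1 k2
  have hDn := (k1.nodup_iff).1 (Sw300.nodup ok)
  have hGn := (k2.nodup_iff).1 (Sw300.nodup ok')
  -- inner ends are not in the annulus
  have hout : ∀ {v : Wd T} (R : List (Port T)), Sw300.Ok v →
      Loc K N1 Jl N2 Jo (Sw300.be v) Ft At ψ φ δ →
      Sw300.L v ~r A ++ N1.map (pm φ (-δ)) ++ R ++ N2.map (pm φ (-δ)) →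
      ∀ x ∈ R, x ∉ Ap At := by
    intro v R hv hloc hrot x hx hxA
    have hn := (hrot.nodup_iff).1 (Sw300.nodup hv)
    have hfr : Sw300.be v x = x := (Gc748.be_state hv).free x (hrot.mem_iff.2 (by simp [hx]))
    obtain ⟨h1, h2⟩ := hloc.pb hxA
    rcases hc.cases h1 with h3 | ⟨q, h3⟩
    · simp only [List.mem_append] at h3
      rcases h3 with ((h4 | h4) | h4) | h4
      · have h5 : x ∈ N1.map (pm φ (-δ)) := by rw [← h2]; exact List.mem_map_of_mem h4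
        have e : A ++ N1.map (pm φ (-δ)) ++ R ++ N2.map (pm φ (-δ)) =
          (A ++ N1.map (pm φ (-δ))) ++ (R ++ N2.map (pm φ (-δ))) := by simp
        rw [e] at hn
        exact notMem_left hn (List.mem_append_left _ hx) (List.mem_append_right _ h5)
      · have h5 := hloc.inner _ h4
        rw [h2, hfr] at h5
        exact h5 (Or.inr hxA)
      · have h5 : x ∈ N2.map (pm φ (-δ)) := by rw [← h2]; exact List.mem_map_of_mem h4
        exact notMem_left hn h5 (by simp [hx])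
      · have h5 := hloc.outer _ h4
        rw [h2, hfr] at h5
        exact Fp_Ap hloc.dj h5 hxA
    · have h5 := (hloc.edge h3).2
      have h6 := hloc.glued _ _ h3
      rw [h2] at h5 h6
      exact h5 (hfr.symm.trans h6)
  refine ⟨A, Di, Gi, k1, k2, ⟨lc.annS hc hth s, fun _ _ => rfl, ?_, none_Fp _, k3,
    (sys_of_word ok s).rot k1, (sys_of_word ok' s).rot k2, ?_, ?_⟩⟩
  · intro x hx hJ
    rcases hx with hx | hx
    · exact eqF x hx
    · obtain ⟨h1, h2⟩ := lc.pb hx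
      rw [← h2]
      refine lc.eq_out lc' hc eqF h1 fun h3 => hJ ?_
      rw [← h2]; exact List.mem_map_of_mem h3
  · rintro x hx (h1 | h1)
    · exact k4 x hx h1
    · exact hout Di ok lc k1 x hx h1
  · rintro x hx (h1 | h1)
    · exact k5 x hx h1
    · exact hout Gi ok' lc' k2 x hx h1

/-- the partner in the annulus of a port of the inner side -/
theorem Pair.pull_iff (h : Pair K w0 N1 Jl N2 Jo Ob a b w w' Ft At ψ φ δ) {fl : Bool} (s : T → Bool)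
    {i : Port (ℤ × ℤ)} (hi : i ∈ Jl)
    (hM : pull (pm ψ δ) (N1.map (pm φ (-δ)) ++ Jl.map (pm φ (-δ)) ++ N2.map (pm φ (-δ)) ++
        Jo.map (pm φ (-δ))) (Sw300.M (cs fl φ s) w0) (pm φ (-δ) i) ∈ Jo.map (pm φ (-δ))) :
    Sw300.M (cs fl φ s) w0 i ∈ Jo := by
  have hc := h.ch
  have lc := h.lc
  obtain ⟨b0, hr⟩ := hc.rw
  have eL : N1.map (pm φ (-δ)) ++ Jl.map (pm φ (-δ)) ++ N2.map (pm φ (-δ)) ++ Jo.map (pm φ (-δ)) =
      (N1 ++ Jl ++ N2 ++ Jo).map (pm φ (-δ)) := by simp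
  have e2 : (N1.map (pm φ (-δ)) ++ Jl.map (pm φ (-δ)) ++ N2.map (pm φ (-δ)) ++
        Jo.map (pm φ (-δ))).map (pm ψ δ) = N1 ++ Jl ++ N2 ++ Jo := by
    rw [eL, List.map_map]
    have : ∀ p ∈ N1 ++ Jl ++ N2 ++ Jo, (pm ψ δ ∘ pm φ (-δ)) p = p := fun p hp =>
      (lc.pf (hc.port hp)).2
    rw [List.map_congr_left this, List.map_id']
  have hi' : i ∈ N1 ++ Jl ++ N2 ++ Jo := by simp [hi]
  have hI := Sw300.Ok.inv (cs fl φ s) w0 hr.ok
  have hmem : ∀ x ∈ (N1.map (pm φ (-δ)) ++ Jl.map (pm φ (-δ)) ++ N2.map (pm φ (-δ)) ++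
        Jo.map (pm φ (-δ))).map (pm ψ δ), Sw300.M (cs fl φ s) w0 x ∈
      (N1.map (pm φ (-δ)) ++ Jl.map (pm φ (-δ)) ++ N2.map (pm φ (-δ)) ++
        Jo.map (pm φ (-δ))).map (pm ψ δ) := by
    intro x hx
    rw [e2] at hx ⊢
    obtain ⟨h1, h2⟩ := hc.mem.1 hx
    refine hc.mem.2 ⟨hI.mem x h1, ?_⟩
    have hu := Sw300.u_none (cs fl φ s) w0 hr.ok hc.leg
    rw [← hu]
    exact hI.Mu h1 (by rw [hu]; exact h2)
  have hx : pm φ (-δ) i ∈ N1.map (pm φ (-δ)) ++ Jl.map (pm φ (-δ)) ++ N2.map (pm φ (-δ)) ++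
        Jo.map (pm φ (-δ)) := by rw [eL]; exact List.mem_map_of_mem hi'
  obtain ⟨h1, h2⟩ := pull_spec hmem hx
  obtain ⟨j, hj, hje⟩ := List.mem_map.1 hM
  rw [(lc.pf (hc.port hi')).2, ← hje, (lc.pf (hc.port (by simp [hj]))).2] at h2
  rw [← h2]; exact hj

/-- **invariance of the official observable, at most one crossing arc** -/
theorem Pair.hv (h : Pair K w0 N1 Jl N2 Jo Ob a b w w' Ft At ψ φ δ) {fl : Bool}
    (hth : ∀ (b : Bool) (d : ZMod 4), thru (xor fl b) (d + δ) = thru b d + δ) (s : T → Bool)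
    (hx : ∀ i ∈ Jl, ∀ j ∈ Jl, Sw300.M (cs fl φ s) w0 i ∈ Jo → Sw300.M (cs fl φ s) w0 j ∈ Jo → i = j)
    {m1 m2 m3 : Port T} (h1 : m1 ∈ Sw300.L w) (h2 : m2 ∈ Sw300.L w) (h3 : m3 ∈ Sw300.L w)
    (f1 : m1 ∈ Fp Ft) (f2 : m2 ∈ Fp Ft) (f3 : m3 ∈ Fp Ft)
    (hcyc : Sw300.cyc (Sw300.pos w m1) (Sw300.pos w m2) (Sw300.pos w m3)) :
    HV w m1 m2 m3 s = HV w' m1 m2 m3 s := by
  obtain ⟨A, Di, Gi, k1, k2, k3⟩ := h.two hth s
  set N1T := N1.map (pm φ (-δ))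
  set N2T := N2.map (pm φ (-δ))
  have hsub : ∀ p ∈ N1 ++ N2, p ∈ N1 ++ Jl ++ N2 ++ Jo := by
    intro p hp
    simp only [List.mem_append] at hp ⊢
    tauto
  have hA : ∀ {m : Port T}, m ∈ Sw300.L w → m ∈ Fp Ft → m ∈ A := by
    intro m hm hf
    have h4 := k1.mem_iff.1 hm
    simp only [List.mem_append] at h4
    rcases h4 with ((h4 | h4) | h4) | h4
    · exact h4
    · obtain ⟨p, hp, rfl⟩ := List.mem_map.1 h4
      exact absurd (h.lc.pf (h.ch.port (hsub p (by simp [hp])))).1 (Fp_Ap h.lc.dj hf)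
    · exact absurd (Or.inl hf) (k3.Do m h4)
    · obtain ⟨p, hp, rfl⟩ := List.mem_map.1 h4
      exact absurd (h.lc.pf (h.ch.port (hsub p (by simp [hp])))).1 (Fp_Ap h.lc.dj hf)
  have a1 := hA h1 f1
  have a2 := hA h2 f2
  have a3 := hA h3 f3
  have hL' : ∀ {m : Port T}, m ∈ A → m ∈ Sw300.L w' := fun hm => k2.mem_iff.2 (by simp [hm])
  have n12 : m1 ≠ m2 := by rintro rfl; unfold Sw300.cyc at hcyc; omega
  have n31 : m3 ≠ m1 := by rintro rfl; unfold Sw300.cyc at hcyc; omega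
  have hnw := Sw300.nodup h.ok
  have hnw' := Sw300.nodup h.ok'
  have e1 : A ++ N1T ++ Di ++ N2T = A ++ (N1T ++ Di ++ N2T) := by simp
  have e2 : A ++ N1T ++ Gi ++ N2T = A ++ (N1T ++ Gi ++ N2T) := by simp
  have hcyc' : Sw300.cyc (Sw300.pos w' m1) (Sw300.pos w' m2) (Sw300.pos w' m3) := by
    rw [← cycI_pos (Sw300.sorted w' h.ok') (hL' a1) (hL' a2) (hL' a3),
      ← cycI_rot k2 hnw' (hL' a1) (hL' a2) (hL' a3), e2]
    rw [← cycI_pos (Sw300.sorted w h.ok) h1 h2 h3, ← cycI_rot k1 hnw h1 h2 h3, e1] at hcyc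
    refine (cycI_mr ?_ ?_ (Or.inl ⟨a1, rfl⟩) (Or.inl ⟨a2, rfl⟩) (Or.inl ⟨a3, rfl⟩) (Or.inl a1)
      (Or.inl a2) (Or.inl a3)).1 hcyc
    · rw [← e1]; exact (k1.nodup_iff).1 hnw
    · rw [← e2]; exact (k2.nodup_iff).1 hnw'
  have hi := Sw300.Ok.inv s w h.ok
  have hi' := Sw300.Ok.inv s w' h.ok'
  rw [hv_eq h.ok s h1 h2 h3 hcyc, hv_eq h.ok' s (hL' a1) (hL' a2) (hL' a3) hcyc',
    ← vv_rot k1 hnw hi.um h1 h2 h3 n12 n31, ← vv_rot k2 hnw' hi'.um (hL' a1) (hL' a2) (hL' a3)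
      n12 n31]
  refine vv_ann k3 ?_ a1 a2 a3 n12 n31
  intro i hi j hj hMi hMj
  obtain ⟨i0, hi0, rfl⟩ := List.mem_map.1 hi
  obtain ⟨j0, hj0, rfl⟩ := List.mem_map.1 hj
  rw [hx i0 hi0 j0 hj0 (h.pull_iff s hi0 hMi) (h.pull_iff s hj0 hMj)]

/-- a mark of `w` and its image in `w'` -/
def Mm (Ft At : Set T) (w w' : Wd T) (m y : Port T) : Prop :=
  m ∈ Sw300.L w ∧ ((m ∈ Fp Ft ∪ Ap At ∧ y = m) ∨
    (m ∉ Fp Ft ∪ Ap At ∧ y ∈ Sw300.L w' ∧ y ∉ Fp Ft ∪ Ap At))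

/-- **invariance of the official observable, no crossing arc, one mark anywhere** -/
theorem Pair.hv0 (h : Pair K w0 N1 Jl N2 Jo Ob a b w w' Ft At ψ φ δ) {fl : Bool}
    (hth : ∀ (b : Bool) (d : ZMod 4), thru (xor fl b) (d + δ) = thru b d + δ) (s : T → Bool)
    (hx : ∀ i ∈ Jl, Sw300.M (cs fl φ s) w0 i ∉ Jo) {m1 m2 m3 y1 y2 y3 : Port T}
    (h1 : Mm Ft At w w' m1 y1) (h2 : Mm Ft At w w' m2 y2) (h3 : Mm Ft At w w' m3 y3)
    (f12 : m1 ∈ Fp Ft ∨ m2 ∈ Fp Ft) (f23 : m2 ∈ Fp Ft ∨ m3 ∈ Fp Ft)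
    (f31 : m3 ∈ Fp Ft ∨ m1 ∈ Fp Ft)
    (hcyc : Sw300.cyc (Sw300.pos w m1) (Sw300.pos w m2) (Sw300.pos w m3)) :
    HV w m1 m2 m3 s = HV w' y1 y2 y3 s := by
  obtain ⟨A, Di, Gi, k1, k2, k3⟩ := h.two hth s
  set N1T := N1.map (pm φ (-δ))
  set N2T := N2.map (pm φ (-δ))
  have hsub : ∀ p ∈ N1 ++ N2, p ∈ N1 ++ Jl ++ N2 ++ Jo := by
    intro p hp
    simp only [List.mem_append] at hp ⊢
    tauto
  have hNA : ∀ {m : Port T}, m ∈ N1T ∨ m ∈ N2T → m ∈ Ap At := by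
    rintro m (hm | hm)
    · obtain ⟨p, hp, rfl⟩ := List.mem_map.1 hm
      exact (h.lc.pf (h.ch.port (hsub p (by simp [hp])))).1
    · obtain ⟨p, hp, rfl⟩ := List.mem_map.1 hm
      exact (h.lc.pf (h.ch.port (hsub p (by simp [hp])))).1
  have hA : ∀ {m : Port T}, m ∈ Sw300.L w → m ∈ Fp Ft → m ∈ A := by
    intro m hm hf
    have h4 := k1.mem_iff.1 hm
    simp only [List.mem_append] at h4
    rcases h4 with ((h4 | h4) | h4) | h4
    · exact h4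
    · exact absurd (hNA (Or.inl h4)) (Fp_Ap h.lc.dj hf)
    · exact absurd (Or.inl hf) (k3.Do m h4)
    · exact absurd (hNA (Or.inr h4)) (Fp_Ap h.lc.dj hf)
  have hnw := Sw300.nodup h.ok
  have hnw' := Sw300.nodup h.ok'
  -- the images
  have hmk : ∀ {m y : Port T}, Mm Ft At w w' m y → Mk' A N1T Di Gi N2T m y := by
    rintro m y ⟨hm, ⟨h4, rfl⟩ | ⟨h4, h5, h6⟩⟩
    · left
      refine ⟨?_, rfl⟩
      have h5 := k1.mem_iff.1 hm
      simp only [List.mem_append] at h5 ⊢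
      rcases h5 with ((h5 | h5) | h5) | h5
      · exact Or.inl (Or.inl h5)
      · exact Or.inl (Or.inr h5)
      · exact absurd h4 (k3.Do _ h5)
      · exact Or.inr h5
    · right
      constructor
      · have h7 := k1.mem_iff.1 hm
        simp only [List.mem_append] at h7
        rcases h7 with ((h7 | h7) | h7) | h7
        · exact absurd (Or.inl (k3.AF _ h7)) h4
        · exact absurd (Or.inr (hNA (Or.inl h7))) h4
        · exact h7
        · exact absurd (Or.inr (hNA (Or.inr h7))) h4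
      · have h7 := k2.mem_iff.1 h5
        simp only [List.mem_append] at h7
        rcases h7 with ((h7 | h7) | h7) | h7
        · exact absurd (Or.inl (k3.AF _ h7)) h6
        · exact absurd (Or.inr (hNA (Or.inl h7))) h6
        · exact h7
        · exact absurd (Or.inr (hNA (Or.inr h7))) h6
  have q1 := hmk h1
  have q2 := hmk h2
  have q3 := hmk h3
  have hLy : ∀ {m y : Port T}, Mk' A N1T Di Gi N2T m y → y ∈ Sw300.L w' := by
    rintro m y (⟨h4, rfl⟩ | ⟨h4, h5⟩)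
    · refine k2.mem_iff.2 ?_
      simp only [List.mem_append] at h4 ⊢
      tauto
    · exact k2.mem_iff.2 (by simp [h5])
  have hmr : ∀ {m y : Port T}, Mk' A N1T Di Gi N2T m y →
      Mr A (N1T ++ Di ++ N2T) (N1T ++ Gi ++ N2T) m y := by
    rintro m y (⟨h4, rfl⟩ | ⟨h4, h5⟩)
    · simp only [List.mem_append] at h4
      rcases h4 with (h4 | h4) | h4
      · exact Or.inl ⟨h4, rfl⟩
      · exact Or.inr ⟨by simp [h4], by simp [h4]⟩
      · exact Or.inr ⟨by simp [h4], by simp [h4]⟩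
    · exact Or.inr ⟨by simp [h4], by simp [h5]⟩
  have fA : ∀ {m y : Port T}, Mm Ft At w w' m y → m ∈ Fp Ft → m ∈ A := fun hm hf => hA hm.1 hf
  have A12 : m1 ∈ A ∨ m2 ∈ A := f12.imp (fA h1) (fA h2)
  have A23 : m2 ∈ A ∨ m3 ∈ A := f23.imp (fA h2) (fA h3)
  have A31 : m3 ∈ A ∨ m1 ∈ A := f31.imp (fA h3) (fA h1)
  have e1 : A ++ N1T ++ Di ++ N2T = A ++ (N1T ++ Di ++ N2T) := by simp
  have e2 : A ++ N1T ++ Gi ++ N2T = A ++ (N1T ++ Gi ++ N2T) := by simp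
  have hcyc' : Sw300.cyc (Sw300.pos w' y1) (Sw300.pos w' y2) (Sw300.pos w' y3) := by
    rw [← cycI_pos (Sw300.sorted w' h.ok') (hLy q1) (hLy q2) (hLy q3),
      ← cycI_rot k2 hnw' (hLy q1) (hLy q2) (hLy q3), e2]
    have hcyc2 := hcyc
    rw [← cycI_pos (Sw300.sorted w h.ok) h1.1 h2.1 h3.1, ← cycI_rot k1 hnw h1.1 h2.1 h3.1, e1]
      at hcyc2
    refine (cycI_mr ?_ ?_ (hmr q1) (hmr q2) (hmr q3) A12 A23 A31).1 hcyc2
    · rw [← e1]; exact (k1.nodup_iff).1 hnw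
    · rw [← e2]; exact (k2.nodup_iff).1 hnw'
  have n12 : m1 ≠ m2 := by rintro rfl; unfold Sw300.cyc at hcyc; omega
  have n31 : m3 ≠ m1 := by rintro rfl; unfold Sw300.cyc at hcyc; omega
  have n12' : y1 ≠ y2 := by rintro rfl; unfold Sw300.cyc at hcyc'; omega
  have n31' : y3 ≠ y1 := by rintro rfl; unfold Sw300.cyc at hcyc'; omega
  have hi := Sw300.Ok.inv s w h.ok
  have hi' := Sw300.Ok.inv s w' h.ok'
  rw [hv_eq h.ok s h1.1 h2.1 h3.1 hcyc, hv_eq h.ok' s (hLy q1) (hLy q2) (hLy q3) hcyc',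
    ← vv_rot k1 hnw hi.um h1.1 h2.1 h3.1 n12 n31,
    ← vv_rot k2 hnw' hi'.um (hLy q1) (hLy q2) (hLy q3) n12' n31']
  refine vv_ann0 k3 ?_ q1 q2 q3 A12 A23 A31 n12 n31 n12' n31'
  intro i hi hMi
  obtain ⟨i0, hi0, rfl⟩ := List.mem_map.1 hi
  exact hx i0 hi0 (h.pull_iff s hi0 hMi)

end loc

end Crest.Agent.R158.Sl434
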