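import Crest.Agent.R158.Sl7_434

/-!
# R158, block SL (helper434), file Sl8: mean values

* `cs_law` : law of the splitting read in a chart
* `X2 w0 Jl Jo`, `X1 w0 Jl Jo` : two / one arcs of the annulus word `w0` join the two sides
* **`Pair.HW_le`** : `‖HW w m1 m2 m3 - HW w' m1 m2 m3‖ ≤ 2 P(X2)`
* **`Pair.HW_le0`** : the same with one mark anywhere, `≤ 2 P(X1)`
-/

set_option autoImplicit false
set_option linter.unusedSectionVars false

noncomputable section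

namespace Crest.Agent.R158.Sl434

open MeasureTheory ProbabilityTheory
open Crest.Agent.R158.Sw300 (Port Wd thru tls)
open Crest.Agent.R158.Gc748 (RW chain_det)
open Crest.Agent.R158.Xr249 (Nx rot Reg)
open Crest.Agent.R158.Ob664 (Gl HV HW)
open Crest.Agent.R158.Rs689 (PB hf PB_map_inj)

/-- two different arcs join the two sides -/
def X2 (w0 : Wd (ℤ × ℤ)) (Jl Jo : List (Port (ℤ × ℤ))) : Set (ℤ × ℤ → Bool) :=
  {s | ∃ i ∈ Jl, ∃ j ∈ Jl, i ≠ j ∧ Sw300.M s w0 i ∈ Jo ∧ Sw300.M s w0 j ∈ Jo}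

/-- one arc joins the two sides -/
def X1 (w0 : Wd (ℤ × ℤ)) (Jl Jo : List (Port (ℤ × ℤ))) : Set (ℤ × ℤ → Bool) :=
  {s | ∃ i ∈ Jl, Sw300.M s w0 i ∈ Jo}

variable {T : Type*}

/-- **law of the splitting read in a chart** -/
theorem cs_law {S : Finset (ℤ × ℤ)} {φ : ℤ × ℤ → T} (hinj : Set.InjOn φ (S : Set (ℤ × ℤ)))
    (fl : Bool) {E : Set (ℤ × ℤ → Bool)}
    (hE : ∀ z z' : ℤ × ℤ → Bool, (∀ c ∈ S, z c = z' c) → z ∈ E → z' ∈ E) :
    (PB fun _ : T => hf).real {s | cs fl φ s ∈ E} = (PB fun _ : ℤ × ℤ => hf).real E := by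
  classical
  let r : (T → Bool) → (S → Bool) := fun s c => s (φ c)
  let f : (S → Bool) → (S → Bool) := fun z c => if fl = false then z c else !z c
  let r' : (ℤ × ℤ → Bool) → (S → Bool) := fun z c => z c
  let ex : (S → Bool) → (ℤ × ℤ → Bool) := fun z c => if h : c ∈ S then z ⟨c, h⟩ else false
  let E1 : Set (S → Bool) := {z | ex z ∈ E}
  have hE1 : MeasurableSet E1 := (Set.toFinite E1).measurableSet
  have m1 : Measurable r := measurable_pi_lambda _ fun t => measurable_pi_apply _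
  have m2 : Measurable r' := measurable_pi_lambda _ fun t => measurable_pi_apply _
  have mf : Measurable f := measurable_of_finite f
  have e1 : (PB (fun _ : T => hf)).map r = PB fun _ : S => hf :=
    PB_map_inj (j := fun c : S => φ (c : ℤ × ℤ))
      (fun a b hab => Subtype.ext (hinj a.2 b.2 hab)) (fun _ => hf)
  have e2 : (PB (fun _ : ℤ × ℤ => hf)).map r' = PB fun _ : S => hf :=
    PB_map_inj (j := fun c : S => (c : ℤ × ℤ)) Subtype.val_injective (fun _ => hf)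
  have e3 : (PB (fun _ : S => hf)).map f = PB fun _ : S => hf :=
    Cb771.PB_flip (fun _ : S => fl = false)
  have s1 : {s : T → Bool | cs fl φ s ∈ E} = r ⁻¹' (f ⁻¹' E1) := by
    ext s
    simp only [Set.mem_ofPred_eq, Set.mem_preimage, E1]
    have hk : ∀ c ∈ S, cs fl φ s c = ex (f (r s)) c := by
      intro c hc
      simp only [ex, dif_pos hc, f, r, cs]
      cases fl <;> simp
    exact ⟨fun h => hE _ _ hk h, fun h => hE _ _ (fun c hc => (hk c hc).symm) h⟩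
  have s2 : E = r' ⁻¹' E1 := by
    ext z
    simp only [Set.mem_preimage, E1, Set.mem_ofPred_eq]
    have hk : ∀ c ∈ S, z c = ex (r' z) c := by
      intro c hc
      simp only [ex, dif_pos hc, r']
    exact ⟨fun h => hE _ _ hk h, fun h => hE _ _ (fun c hc => (hk c hc).symm) h⟩
  rw [s1]
  conv_rhs => rw [s2]
  rw [measureReal_def, measureReal_def, ← Measure.map_apply m1 (mf hE1), e1,
    ← Measure.map_apply mf hE1, e3, ← Measure.map_apply m2 hE1, e2]

variable [DecidableEq T]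

/-- mean values of observables which agree outside an event -/
theorem HW_sub {w w' : Wd T} {m1 m2 m3 y1 y2 y3 : Port T} (B : Set (T → Bool))
    (h : ∀ s, s ∉ B → HV w m1 m2 m3 s = HV w' y1 y2 y3 s) :
    ‖HW w m1 m2 m3 - HW w' y1 y2 y3‖ ≤ 2 * (PB fun _ : T => hf).real B := by
  set Df : Set (T → Bool) := {s | HV w m1 m2 m3 s = HV w' y1 y2 y3 s}ᶜ with hDf
  have hm : MeasurableSet Df :=
    (measurableSet_eq_fun (Ob664.measurable_HV w m1 m2 m3) (Ob664.measurable_HV w' y1 y2 y3)).compl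
  have hsub : Df ⊆ B := by
    intro s hs
    by_contra hB
    exact hs (h s hB)
  unfold HW
  rw [← integral_sub (Ob664.integrable_HV w m1 m2 m3) (Ob664.integrable_HV w' y1 y2 y3)]
  calc ‖∫ s, (HV w m1 m2 m3 s - HV w' y1 y2 y3 s) ∂(PB fun _ : T => hf)‖
      ≤ ∫ s, Df.indicator (fun _ => (2 : ℝ)) s ∂(PB fun _ : T => hf) := by
        refine norm_integral_le_of_norm_le ?_ (Filter.Eventually.of_forall fun s => ?_)
        · exact (integrable_const (2 : ℝ)).indicator hm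
        · by_cases hs : s ∈ Df
          · rw [Set.indicator_of_mem hs]
            have h1 := Ob664.norm_le_of_Tri (Ob664.HV_mem (w := w) (m1 := m1) (m2 := m2) (m3 := m3)
              (s := s))
            have h2 := Ob664.norm_le_of_Tri (Ob664.HV_mem (w := w') (m1 := y1) (m2 := y2)
              (m3 := y3) (s := s))
            calc ‖HV w m1 m2 m3 s - HV w' y1 y2 y3 s‖
                ≤ ‖HV w m1 m2 m3 s‖ + ‖HV w' y1 y2 y3 s‖ := norm_sub_le _ _
              _ ≤ 2 := by linarith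
          · rw [Set.indicator_of_notMem hs]
            have h3 : HV w m1 m2 m3 s = HV w' y1 y2 y3 s := by
              by_contra h4
              exact hs h4
            rw [h3, sub_self, norm_zero]
    _ = 2 * (PB fun _ : T => hf).real Df := by
        rw [integral_indicator_const _ hm, smul_eq_mul, mul_comm]
    _ ≤ 2 * (PB fun _ : T => hf).real B :=
        mul_le_mul_of_nonneg_left (measureReal_mono hsub) (by norm_num)

section loc

variable {K : Reg} {w0 : Wd (ℤ × ℤ)} {N1 Jl N2 Jo : List (Port (ℤ × ℤ))} {Ob : ℤ × ℤ → Prop}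
  {a b : Port (ℤ × ℤ)} {w w' : Wd T} {Ft At : Set T} {ψ : T → ℤ × ℤ} {φ : ℤ × ℤ → T} {δ : ZMod 4}

theorem Pair.law (h : Pair K w0 N1 Jl N2 Jo Ob a b w w' Ft At ψ φ δ) (fl : Bool)
    {E : Set (ℤ × ℤ → Bool)} (hE : ∀ z z' : ℤ × ℤ → Bool, Sw300.M z w0 = Sw300.M z' w0 →
      z ∈ E → z' ∈ E) :
    (PB fun _ : T => hf).real {s | cs fl φ s ∈ E} = (PB fun _ : ℤ × ℤ => hf).real E := by
  obtain ⟨b0, hr⟩ := h.ch.rw
  refine cs_law (S := K.P) ?_ fl ?_
  · intro x hx y hy e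
    rw [← h.lc.rt x hx, e, h.lc.rt y hy]
  · intro z z' hz
    exact hE z z' (Ob664.state_congr w0 fun t ht => hz t ((hr.tls t).1 ht)).1

/-- **local modification, no mark near** -/
theorem Pair.HW_le (h : Pair K w0 N1 Jl N2 Jo Ob a b w w' Ft At ψ φ δ) {fl : Bool}
    (hth : ∀ (b : Bool) (d : ZMod 4), thru (xor fl b) (d + δ) = thru b d + δ)
    {m1 m2 m3 : Port T} (h1 : m1 ∈ Sw300.L w) (h2 : m2 ∈ Sw300.L w) (h3 : m3 ∈ Sw300.L w)
    (f1 : m1 ∈ Fp Ft) (f2 : m2 ∈ Fp Ft) (f3 : m3 ∈ Fp Ft)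
    (hcyc : Sw300.cyc (Sw300.pos w m1) (Sw300.pos w m2) (Sw300.pos w m3)) :
    ‖HW w m1 m2 m3 - HW w' m1 m2 m3‖ ≤ 2 * (PB fun _ : ℤ × ℤ => hf).real (X2 w0 Jl Jo) := by
  have h4 := HW_sub (w := w) (w' := w') (m1 := m1) (m2 := m2) (m3 := m3) (y1 := m1) (y2 := m2)
    (y3 := m3) {s | cs fl φ s ∈ X2 w0 Jl Jo} (fun s hs => h.hv hth s (fun i hi j hj hMi hMj => by
      by_contra hij
      exact hs ⟨i, hi, j, hj, hij, hMi, hMj⟩) h1 h2 h3 f1 f2 f3 hcyc)
  rwa [h.law fl] at h4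
  intro z z' e hz
  obtain ⟨i, hi, j, hj, h5, h6, h7⟩ := hz
  exact ⟨i, hi, j, hj, h5, e ▸ h6, e ▸ h7⟩

/-- **local modification, one mark near** -/
theorem Pair.HW_le0 (h : Pair K w0 N1 Jl N2 Jo Ob a b w w' Ft At ψ φ δ) {fl : Bool}
    (hth : ∀ (b : Bool) (d : ZMod 4), thru (xor fl b) (d + δ) = thru b d + δ)
    {m1 m2 m3 y1 y2 y3 : Port T}
    (h1 : Mm Ft At w w' m1 y1) (h2 : Mm Ft At w w' m2 y2) (h3 : Mm Ft At w w' m3 y3)
    (f12 : m1 ∈ Fp Ft ∨ m2 ∈ Fp Ft) (f23 : m2 ∈ Fp Ft ∨ m3 ∈ Fp Ft)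
    (f31 : m3 ∈ Fp Ft ∨ m1 ∈ Fp Ft)
    (hcyc : Sw300.cyc (Sw300.pos w m1) (Sw300.pos w m2) (Sw300.pos w m3)) :
    ‖HW w m1 m2 m3 - HW w' y1 y2 y3‖ ≤ 2 * (PB fun _ : ℤ × ℤ => hf).real (X1 w0 Jl Jo) := by
  have h4 := HW_sub (w := w) (w' := w') (m1 := m1) (m2 := m2) (m3 := m3) (y1 := y1) (y2 := y2)
    (y3 := y3) {s | cs fl φ s ∈ X1 w0 Jl Jo} (fun s hs => h.hv0 hth s (fun i hi hMi =>
      hs ⟨i, hi, hMi⟩) h1 h2 h3 f12 f23 f31 hcyc)
  rwa [h.law fl] at h4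
  intro z z' e hz
  obtain ⟨i, hi, h6⟩ := hz
  exact ⟨i, hi, e ▸ h6⟩

end loc

end Crest.Agent.R158.Sl434
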