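import Crest.Agent.R158.Sl8_434

/-!
# R158, block SL (helper434), file Sl9: the stepped half annulus as a chart annulus

* `Jls X Y r e`, `Jos X Y n e` : inner and outer side of 748's stepped half annulus
* **`chA_stp`** : `ChA` for `stp X Y r n e`
-/

set_option autoImplicit false
set_option linter.unusedSectionVars false

noncomputable section

namespace Crest.Agent.R158.Sl434

open Crest.Agent.R158.Sw300 (Port Wd thru tls)
open Crest.Agent.R158.Gc748 (RW stp InS JoW JoN JoS JlS JlE JlN fl mem_fl mem_stp stp_chain stp_word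
  rc_some lc_some fa_some off)
open Crest.Agent.R158.Xr249 (Nx rot Reg)

/-- inner side -/
def Jls (X Y : ℤ) (r e : ℕ) : List (Port (ℤ × ℤ)) := JlS X Y r ++ JlE X Y r ++ JlN X Y r e
/-- outer side -/
def Jos (X Y : ℤ) (n e : ℕ) : List (Port (ℤ × ℤ)) := JoS X Y n e ++ JoW X Y n ++ JoN X Y n
/-- vertices of the outer boundary -/
def Obs (X Y : ℤ) (n : ℕ) (v : ℤ × ℤ) : Prop := v.1 = X - n ∨ v.2 = Y + n - 1 ∨ v.2 = Y - n - 1

/-- word of the stepped half annulus -/
structure SW (X Y : ℤ) (r n e : ℕ) (w : Wd (ℤ × ℤ)) : Prop where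
  rw : RW (stp X Y r n e) w (X - n + 1, Y - n)
  fc : Sw300.Fc w
  L : Sw300.L w = none :: (JoW X Y n ++ (JoN X Y n ++ (Gc748.N1 X Y r n ++ (JlS X Y r ++
    (JlE X Y r ++ (JlN X Y r e ++ (Gc748.N2 X Y r n e ++ JoS X Y n e)))))))

theorem exists_SW (X Y : ℤ) (r n e : ℕ) (hr : 1 ≤ r) (hn : r + 1 ≤ n) : ∃ w, SW X Y r n e w := by
  obtain ⟨w, h1, h2, h3⟩ := stp_word X Y r n e hr hn
  exact ⟨w, h1, h2, h3⟩

theorem bs_isLeg : ∀ (w : Wd (ℤ × ℤ)) {b : ℤ × ℤ}, Gc748.bs w = some b → ¬ Sw300.isLeg w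
  | .leg, _, h => by simp [Gc748.bs] at h
  | .tile _, _, _ => fun h => h
  | .att w _ _ _, _, h => bs_isLeg w h
  | .con w _ _, _, h => bs_isLeg w h

theorem V1_some (t : ℤ × ℤ) (d : ZMod 4) : V1 (some (t, d)) = t + off (d + 1) := rfl
theorem V0_some (t : ℤ × ℤ) (d : ZMod 4) : V0 (some (t, d)) = t + off d := rfl

theorem V0_E (x y : ℤ) : V0 (some ((x, y), 2)) = (x, y) := by
  rw [V0_some]; simp
theorem V0_S (x y : ℤ) : V0 (some ((x, y), 3)) = (x, y - 1) := by
  rw [V0_some]; simp [sub_eq_add_neg]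
theorem V0_N (x y : ℤ) : V0 (some ((x, y), 1)) = (x - 1, y) := by
  rw [V0_some]; simp [sub_eq_add_neg]
theorem V0_W (x y : ℤ) : V0 (some ((x, y), 0)) = (x - 1, y - 1) := by
  rw [V0_some]; simp [sub_eq_add_neg]
theorem V1_W (x y : ℤ) : V1 (some ((x, y), 0)) = (x - 1, y) := by
  rw [V1_some]; have : (0 : ZMod 4) + 1 = 1 := by decide
  rw [this]; simp [sub_eq_add_neg]
theorem V1_N (x y : ℤ) : V1 (some ((x, y), 1)) = (x, y) := by
  rw [V1_some]; have : (1 : ZMod 4) + 1 = 2 := by decide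
  rw [this]; simp
theorem V1_E (x y : ℤ) : V1 (some ((x, y), 2)) = (x, y - 1) := by
  rw [V1_some]; have : (2 : ZMod 4) + 1 = 3 := by decide
  rw [this]; simp [sub_eq_add_neg]
theorem V1_S (x y : ℤ) : V1 (some ((x, y), 3)) = (x - 1, y - 1) := by
  rw [V1_some]; have : (3 : ZMod 4) + 1 = 0 := by decide
  rw [this]; simp [sub_eq_add_neg]

theorem chA_stp {X Y : ℤ} {r n e : ℕ} {w : Wd (ℤ × ℤ)} (hr : 1 ≤ r) (hn : r + 1 ≤ n)
    (h : SW X Y r n e w) :
    ChA (stp X Y r n e) w (Gc748.N1 X Y r n) (Jls X Y r e) (Gc748.N2 X Y r n e) (Jos X Y n e)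
      (Obs X Y n) (some ((X, Y + n - 1), 2)) (some ((X + e, Y - n), 2)) where
  rw := ⟨_, h.rw⟩
  leg := bs_isLeg w h.rw.bas
  ring := by
    refine ⟨_, h.L, ?_⟩
    unfold Jls Jos
    have e1 : JoW X Y n ++ (JoN X Y n ++ (Gc748.N1 X Y r n ++ (JlS X Y r ++ (JlE X Y r ++
        (JlN X Y r e ++ (Gc748.N2 X Y r n e ++ JoS X Y n e)))))) =
        (JoW X Y n ++ JoN X Y n) ++ (Gc748.N1 X Y r n ++ (JlS X Y r ++ (JlE X Y r ++
        (JlN X Y r e ++ (Gc748.N2 X Y r n e ++ JoS X Y n e))))) := by simp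
    have e2 : Gc748.N1 X Y r n ++ (JlS X Y r ++ JlE X Y r ++ JlN X Y r e) ++ Gc748.N2 X Y r n e ++
        (JoS X Y n e ++ JoW X Y n ++ JoN X Y n) =
        (Gc748.N1 X Y r n ++ (JlS X Y r ++ (JlE X Y r ++
        (JlN X Y r e ++ (Gc748.N2 X Y r n e ++ JoS X Y n e))))) ++ (JoW X Y n ++ JoN X Y n) := by
      simp
    rw [e1, e2]
    exact List.isRotated_append
  c1 := (stp_chain (e := e) hr hn).right_of_append.right_of_append.left_of_append
  c2 := (stp_chain (e := e) hr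
    hn).right_of_append.right_of_append.right_of_append.right_of_append.right_of_append.right_of_append.left_of_append
  e1 := by
    obtain ⟨l, hl⟩ := Gc748.fl_cons (fun i : ℕ => (some ((X, Y + n - 1 - i), 2) : Port (ℤ × ℤ)))
      (n - r - 1)
    refine ⟨l, ?_⟩
    unfold Gc748.N1
    rw [hl]; simp
  e2 := by
    obtain ⟨l, hl⟩ := Gc748.fl_snoc
      (fun i : ℕ => (some ((X + e, Y - r - 1 - i), 2) : Port (ℤ × ℤ))) (n - r - 1)
    refine ⟨l, ?_⟩
    unfold Gc748.N2
    rw [hl]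
    have : Y - r - 1 - ((n - r - 1 : ℕ) : ℤ) = Y - n := by omega
    rw [this]
  oJo := by
    intro p hp
    unfold Jos at hp
    simp only [List.mem_append] at hp
    unfold Obs
    rcases hp with (hp | hp) | hp <;> obtain ⟨i, hi, rfl⟩ := mem_fl.1 hp
    · right; right; rw [V1_S]
    · left; rw [V1_W]; simp
    · right; left; rw [V1_N]
  oN2 := by
    right; right; rw [V1_E]
  oJl := by
    intro p hp
    unfold Jls at hp
    simp only [List.mem_append] at hp
    unfold Obs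
    rcases hp with (hp | hp) | hp <;> obtain ⟨i, hi, rfl⟩ := mem_fl.1 hp
    · rw [V0_S]; simp only; omega
    · rw [V0_E]; simp only; omega
    · rw [V0_N]; simp only; omega
  oN := by
    intro p hp
    unfold Obs
    rcases List.mem_append.1 hp with hp | hp <;> obtain ⟨i, hi, rfl⟩ := mem_fl.1 hp
    · rw [V0_E]
      simp only
      intro h1
      have : i = 0 := by omega
      subst this
      simp
    · rw [V0_E]
      simp only
      intro h1
      omega

end Crest.Agent.R158.Sl434
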