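import Crest.Agent.R158.Sw4_300
import Crest.Agent.R158.Ad2_350

/-!
# R158: the six-vertex network of a word without leg (helper300)

* `glw w` : list of the glueings of the word (phase `-(π/12) ge`)
* `WS` : the strand state of the tiles after these glueings is `(M s w, -(π/12) tau s w)`
* `vec_cutsum` : all ends of a strand state cut: product of `2 cos (θ x + γ (m x) - γ x)`
-/

set_option autoImplicit false

noncomputable section

open Finset

namespace Crest.Agent.R158.Sn300

open Crest.Agent.R158.Sw300 Crest.Agent.R158.Ad350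

variable {T : Type*} [DecidableEq T]

/-! ### lists of glueings -/

section lists

variable {P : Type*} [DecidableEq P]

theorem conL_append (S : St P) (l l' : List (ℝ × P × P)) :
    S.conL (l ++ l') = (S.conL l).conL l' := by
  unfold St.conL; rw [List.foldl_append]

theorem facL_append (l : List (ℝ × P × P)) : ∀ (S : St P) (l' : List (ℝ × P × P)),
    St.facL (l ++ l') S = St.facL l S * St.facL l' (S.conL l) := by
  induction l with
  | nil => intro S l'; simp [St.facL]
  | cons e l ih =>
    intro S l'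
    rw [List.cons_append, St.facL, ih, St.facL, St.conL_cons, mul_assoc]

theorem conL_L (l : List (ℝ × P × P)) : ∀ (S : St P) (e : ℝ × P × P), St.Fit l S.L →
    e.2.1 ∈ (S.conL l).L → e.2.2 ∈ (S.conL l).L → e.2.1 ≠ e.2.2 →
    St.Fit (l ++ [e]) S.L := by
  induction l with
  | nil =>
    intro S e _ h1 h2 h3
    exact ⟨h1, h2, h3, trivial⟩
  | cons e' l ih =>
    intro S e h h1 h2 h3
    exact ⟨h.1, h.2.1, h.2.2.1, ih (S.con e'.1 e'.2.1 e'.2.2) e h.2.2.2 h1 h2 h3⟩

theorem glueL_append (l l' : List (ℝ × P × P)) (F : (P → Bool) → ℂ) :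
    St.glueL (l ++ l') F = St.glueL l' (St.glueL l F) := by
  unfold St.glueL; rw [List.foldl_append]

end lists

/-- the glueings of a word -/
def glw : Wd T → List (ℝ × Port T × Port T)
  | .leg => []
  | .tile _ => []
  | .att w p t d => glw w ++ [(0, p, some (t, d))]
  | .con w p q => glw w ++ [(-(Real.pi / 12) * ((phi w q - phi w p + 2 : ℤ) : ℝ), p, q)]

/-- the strand state of the word -/
structure WS (s : T → Bool) (w : Wd T) (A : Finset T) : Prop where
  Liff : ∀ x, x ∈ ((ts A s).conL (glw w)).L ↔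
    x ∈ ports A ∧ ∀ t d, x = some (t, d) → t ∈ tls w → x ∈ L w
  m : ∀ x ∈ L w, x ≠ none → ((ts A s).conL (glw w)).m x = M s w x
  θ : ∀ x ∈ L w, x ≠ none → ((ts A s).conL (glw w)).θ x = -(Real.pi / 12) * (tau s w x : ℝ)
  m' : ∀ t d, t ∉ tls w → ((ts A s).conL (glw w)).m (some (t, d)) = some (t, thru (s t) d)
  θ' : ∀ t d, t ∉ tls w → ((ts A s).conL (glw w)).θ (some (t, d)) = Real.pi / 12 * tq (s t) d
  fac : St.facL (glw w) (ts A s) = 1
  fit : St.Fit (glw w) (ports A)

theorem ws_tile (s : T → Bool) (t : T) (A : Finset T) : WS s (.tile t) A := by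
  refine ⟨?_, ?_, ?_, ?_, ?_, rfl, trivial⟩
  · intro x
    simp only [glw, St.conL_nil]
    constructor
    · intro h
      refine ⟨h, ?_⟩
      intro t' d' hx ht'
      simp only [tls, List.mem_singleton] at ht'
      subst ht'
      rw [hx, tile_mem]
      exact Or.inr ⟨d', rfl⟩
    · exact fun h => h.1
  · intro x hx hn
    rcases (tile_mem t x).1 hx with rfl | ⟨d, rfl⟩
    · exact absurd rfl hn
    · rw [tile_M]; simp [glw, ts]
  · intro x hx hn
    rcases (tile_mem t x).1 hx with rfl | ⟨d, rfl⟩
    · exact absurd rfl hn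
    · simp only [glw, St.conL_nil, ts, Option.elim_some, Sw300.tau, tl_some, if_true, sd_some,
        tq_eq]
      ring
  · intro t' d _; simp [glw, ts]
  · intro t' d _; simp [glw, ts]

theorem con_m {P : Type*} [DecidableEq P] (S : St P) (χ : ℝ) (a b x : P) (hS : S.Ok)
    (ha : a ∈ S.L) (hb : b ∈ S.L) (hab : a ≠ b) (hx : x ∈ S.L) (hxa : x ≠ a) (hxb : x ≠ b) :
    (S.con χ a b).m x = if S.m x = a then S.m b else if S.m x = b then S.m a else S.m x := by
  by_cases hm : S.m a = b
  · have hmb : S.m b = a := by rw [← hm, hS.inv a ha]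
    simp only [St.con, if_pos hm]
    rw [if_neg, if_neg]
    · intro e; exact hxa (hS.mi hx ha (by rw [e, hm]))
    · intro e; exact hxb (hS.mi hx hb (by rw [e, hmb]))
  · simp only [St.con, if_neg hm, Function.update_apply]
    have hij : S.m a ≠ S.m b := fun e => hab (hS.mi ha hb e)
    by_cases h1 : S.m x = a
    · have e1 : x = S.m a := by rw [← h1, hS.inv x hx]
      rw [if_pos h1, if_neg (by rw [e1]; exact hij), if_pos e1]
    · rw [if_neg h1]
      have n1 : x ≠ S.m a := fun e => h1 (by rw [e, hS.inv a ha])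
      by_cases h2 : S.m x = b
      · have e2 : x = S.m b := by rw [← h2, hS.inv x hx]
        rw [if_pos h2, if_pos e2]
      · have n2 : x ≠ S.m b := fun e => h2 (by rw [e, hS.inv b hb])
        rw [if_neg h2, if_neg n2, if_neg n1]

theorem con_θ {P : Type*} [DecidableEq P] (S : St P) (χ : ℝ) (a b x : P) (hS : S.Ok)
    (ha : a ∈ S.L) (hb : b ∈ S.L) (hab : a ≠ b) (hx : x ∈ S.L) (hxa : x ≠ a) (hxb : x ≠ b) :
    (S.con χ a b).θ x = if S.m x = a then S.θ x + χ + S.θ b
      else if S.m x = b then S.θ x - χ + S.θ a else S.θ x := by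
  by_cases hm : S.m a = b
  · have hmb : S.m b = a := by rw [← hm, hS.inv a ha]
    simp only [St.con, if_pos hm]
    rw [if_neg, if_neg]
    · intro e; exact hxa (hS.mi hx ha (by rw [e, hm]))
    · intro e; exact hxb (hS.mi hx hb (by rw [e, hmb]))
  · simp only [St.con, if_neg hm, Function.update_apply]
    have hij : S.m a ≠ S.m b := fun e => hab (hS.mi ha hb e)
    by_cases h1 : S.m x = a
    · have e1 : x = S.m a := by rw [← h1, hS.inv x hx]
      rw [if_pos h1, if_neg (by rw [e1]; exact hij), if_pos e1, ← e1]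
    · rw [if_neg h1]
      have n1 : x ≠ S.m a := fun e => h1 (by rw [e, hS.inv a ha])
      by_cases h2 : S.m x = b
      · have e2 : x = S.m b := by rw [← h2, hS.inv x hx]
        rw [if_pos h2, if_pos e2, ← e2]
      · have n2 : x ≠ S.m b := fun e => h2 (by rw [e, hS.inv b hb])
        rw [if_neg h2, if_neg n2, if_neg n1]

theorem mem_ports_L {w : Wd T} (hw : Ok w) {A : Finset T} (hA : ∀ t ∈ tls w, t ∈ A)
    {x : Port T} (hx : x ∈ L w) (hn : x ≠ none) : x ∈ ports A := by
  cases x with
  | none => exact absurd rfl hn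
  | some y => exact mem_ports.2 (hA _ (tl_mem w hw _ hx y.1 rfl))

theorem WS.mem {s : T → Bool} {w : Wd T} {A : Finset T} (h : WS s w A) (hw : Ok w)
    (hA : ∀ t ∈ tls w, t ∈ A) {x : Port T} (hx : x ∈ L w) (hn : x ≠ none) :
    x ∈ ((ts A s).conL (glw w)).L :=
  (h.Liff x).2 ⟨mem_ports_L hw hA hx hn, fun _ _ _ _ => hx⟩

/-- partners of ends are ends different from the marker -/
theorem M_ne_none {s : T → Bool} {w : Wd T} (hw : Ok w) (hl : ¬ isLeg w) {x : Port T}
    (hx : x ∈ L w) (hn : x ≠ none) : M s w x ∈ L w ∧ M s w x ≠ none := by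
  have I := Ok.inv s w hw
  have hu := u_none s w hw hl
  exact ⟨I.mem x hx, by rw [← hu]; exact I.Mu hx (by rw [hu]; exact hn)⟩

theorem ws_att (s : T → Bool) {w : Wd T} {p : Port T} {t : T} {d : ZMod 4} {A : Finset T}
    (h : Ok (.att w p t d)) (hl : ¬ isLeg w) (hA : ∀ t' ∈ tls (.att w p t d), t' ∈ A)
    (ih : WS s w A) : WS s (.att w p t d) A := by
  obtain ⟨hw, hp, ht, hn⟩ := h
  have hp0 : p ≠ none := by
    intro e
    rw [hn e] at hl
    exact hl trivial
  have hA' : ∀ t' ∈ tls w, t' ∈ A := fun t' h' => hA t' (List.mem_cons_of_mem _ h')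
  have htA : t ∈ A := hA t (by simp [tls])
  set S := (ts A s).conL (glw w) with hSdef
  have hok : S.Ok := (St.glueL_vec (glw w) (ts_ok A s) ih.fit).1
  have hpS : p ∈ S.L := ih.mem hw hA' hp hp0
  have htS : ∀ e, (some (t, e) : Port T) ∈ S.L := fun e =>
    (ih.Liff _).2 ⟨mem_ports.2 htA, fun t' d' h1 h2 => by
      simp only [Option.some.injEq, Prod.mk.injEq] at h1
      rw [← h1.1] at h2
      exact absurd h2 ht⟩
  have hpt : p ≠ some (t, d) := ne_port hw ht d hp
  have hcon : (ts A s).conL (glw (.att w p t d)) = S.con 0 p (some (t, d)) := by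
    simp only [glw, conL_append, St.conL_cons, St.conL_nil]
    rw [← hSdef]
  have I := Ok.inv s w hw
  have hmt : ∀ e, S.m (some (t, e)) = some (t, thru (s t) e) := fun e => ih.m' t e ht
  have hθt : ∀ e, S.θ (some (t, e)) = Real.pi / 12 * tq (s t) e := fun e => ih.θ' t e ht
  have hmp : S.m p = M s w p := ih.m p hp hp0
  obtain ⟨hMp1, hMp2⟩ := M_ne_none (s := s) hw hl hp hp0
  have hpu : p ≠ u s w := by rw [u_none s w hw hl]; exact hp0
  have hMpp : M s w p ≠ p := I.Mne hp hpu
  have hpe : ∀ e, (some (t, e) : Port T) ≠ p := fun e => Ne.symm (ne_port hw ht e hp)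
  -- ends of the new word
  have ends : ∀ x ∈ L (.att w p t d), x ≠ none →
      (x ∈ L w ∧ x ≠ p) ∨ ∃ e, x = some (t, e) ∧ e ≠ d := by
    intro x hx _
    have hd : ∀ d : ZMod 4, d + 1 ≠ d ∧ d + 2 ≠ d ∧ d + 3 ≠ d := by decide
    rcases (mem_att hp).1 hx with hx | rfl | rfl | rfl
    · exact Or.inl hx
    · exact Or.inr ⟨_, rfl, (hd d).1⟩
    · exact Or.inr ⟨_, rfl, (hd d).2.1⟩
    · exact Or.inr ⟨_, rfl, (hd d).2.2⟩
  refine ⟨?_, ?_, ?_, ?_, ?_, ?_, ?_⟩
  · intro x
    rw [hcon]
    simp only [St.con, Finset.mem_erase]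
    rw [ih.Liff]
    constructor
    · rintro ⟨h1, h2, h3, h4⟩
      refine ⟨h3, ?_⟩
      intro t' d' hx ht'
      simp only [tls, List.mem_cons] at ht'
      rw [mem_att hp]
      rcases ht' with rfl | ht'
      · right
        rw [hx] at h1 ⊢
        have hdd : d' ≠ d := fun e => h1 (by rw [e])
        have : ∀ d d' : ZMod 4, d' ≠ d → d' = d + 1 ∨ d' = d + 2 ∨ d' = d + 3 := by decide
        rcases this d d' hdd with rfl | rfl | rfl
        · left; rfl
        · right; left; rfl
        · right; right; rfl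
      · exact Or.inl ⟨h4 t' d' hx ht', h2⟩
    · rintro ⟨h1, h2⟩
      refine ⟨?_, ?_, h1, ?_⟩
      · rintro rfl
        have := h2 t d rfl (by simp [tls])
        have hd : ∀ d : ZMod 4, d + 1 ≠ d ∧ d + 2 ≠ d ∧ d + 3 ≠ d := by decide
        rcases (mem_att hp).1 this with h | h | h | h
        · exact new_port hw ht d h.1
        · simp only [Option.some.injEq, Prod.mk.injEq, true_and] at h; exact (hd d).1 h.symm
        · simp only [Option.some.injEq, Prod.mk.injEq, true_and] at h; exact (hd d).2.1 h.symm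
        · simp only [Option.some.injEq, Prod.mk.injEq, true_and] at h; exact (hd d).2.2 h.symm
      · rintro rfl
        cases hx' : x with
        | none => exact hp0 hx'
        | some y =>
          have := h2 y.1 y.2 hx' (List.mem_cons_of_mem _ (tl_mem w hw x hp y.1 (by rw [hx']; rfl)))
          rcases (mem_att hp).1 this with h | h | h | h
          · exact h.2 rfl
          · exact hpe _ h.symm
          · exact hpe _ h.symm
          · exact hpe _ h.symm
      · intro t' d' hx ht'
        have := h2 t' d' hx (List.mem_cons_of_mem _ ht')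
        rcases (mem_att hp).1 this with h | h | h | h
        · exact h.1
        · rw [hx] at h; simp only [Option.some.injEq, Prod.mk.injEq] at h
          rw [h.1] at ht'; exact absurd ht' ht
        · rw [hx] at h; simp only [Option.some.injEq, Prod.mk.injEq] at h
          rw [h.1] at ht'; exact absurd ht' ht
        · rw [hx] at h; simp only [Option.some.injEq, Prod.mk.injEq] at h
          rw [h.1] at ht'; exact absurd ht' ht
  · intro x hx hxn
    rw [hcon]
    rcases ends x hx hxn with ⟨hx', hxp⟩ | ⟨e, rfl, hed⟩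
    · have hxS := ih.mem hw hA' hx' hxn
      rw [con_m S 0 p (some (t, d)) x hok hpS (htS d) hpt hxS hxp (ne_port hw ht d hx')]
      rw [ih.m x hx' hxn, hmt]
      simp only [M]
      rw [if_neg (tl_ne hw ht hx')]
      by_cases h1 : M s w x = p
      · rw [if_pos h1, if_pos h1]
      · rw [if_neg h1, if_neg h1, if_neg (ne_port hw ht d (I.mem x hx'))]
    · rw [con_m S 0 p (some (t, d)) _ hok hpS (htS d) hpt (htS e) (hpe e) (by
        intro h; simp only [Option.some.injEq, Prod.mk.injEq, true_and] at h; exact hed h)]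
      rw [hmt e, if_neg (hpe _), hmp]
      simp only [M, tl_some, if_true, sd_some]
      by_cases h1 : thru (s t) e = d
      · have h2 : e = thru (s t) d := by rw [← h1, thru_thru]
        rw [if_pos (by rw [h1]), if_pos (by rw [h2]), if_neg hMpp]
      · have h2 : e ≠ thru (s t) d := fun h => h1 (by rw [h, thru_thru])
        rw [if_neg (by simpa using h1), if_neg (by simpa using h2)]
  · intro x hx hxn
    rw [hcon]
    rcases ends x hx hxn with ⟨hx', hxp⟩ | ⟨e, rfl, hed⟩
    · have hxS := ih.mem hw hA' hx' hxn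
      rw [con_θ S 0 p (some (t, d)) x hok hpS (htS d) hpt hxS hxp (ne_port hw ht d hx')]
      rw [ih.m x hx' hxn, hθt, ih.θ x hx' hxn]
      simp only [Sw300.tau]
      rw [if_neg (tl_ne hw ht hx')]
      by_cases h1 : M s w x = p
      · rw [if_pos h1, if_pos h1, tq_eq]; push_cast; ring
      · rw [if_neg h1, if_neg h1, if_neg (ne_port hw ht d (I.mem x hx'))]
    · rw [con_θ S 0 p (some (t, d)) _ hok hpS (htS d) hpt (htS e) (hpe e) (by
        intro h; simp only [Option.some.injEq, Prod.mk.injEq, true_and] at h; exact hed h)]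
      rw [hmt e, if_neg (hpe _), hθt, ih.θ p hp hp0]
      simp only [Sw300.tau, tl_some, if_true, sd_some]
      by_cases h1 : thru (s t) e = d
      · have h2 : e = thru (s t) d := by rw [← h1, thru_thru]
        rw [if_pos (by rw [h1]), if_pos (by rw [h2]), tq_eq, h2]; push_cast; ring
      · have h2 : e ≠ thru (s t) d := fun h => h1 (by rw [h, thru_thru])
        rw [if_neg (by simpa using h1), if_neg (by simpa using h2), tq_eq]; ring
  · intro t' d' ht'
    simp only [tls, List.mem_cons, not_or] at ht'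
    rw [hcon]
    have hx1 : (some (t', d') : Port T) ≠ p := by
      rintro rfl
      exact ht'.2 (tl_mem w hw _ hp t' rfl)
    have hx2 : (some (t', d') : Port T) ≠ some (t, d) := by
      intro h; simp only [Option.some.injEq, Prod.mk.injEq] at h; exact ht'.1 h.1
    have hmx := ih.m' t' d' ht'.2
    by_cases hm : S.m p = some (t, d)
    · simp only [St.con, if_pos hm]; exact hmx
    · simp only [St.con, if_neg hm, Function.update_apply]
      rw [if_neg, if_neg]
      · exact hmx
      · rw [hmp]; rintro h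
        exact ht'.2 (tl_mem w hw _ hMp1 t' (by rw [← h]; rfl))
      · rw [hmt]; intro h; simp only [Option.some.injEq, Prod.mk.injEq] at h; exact ht'.1 h.1
  · intro t' d' ht'
    simp only [tls, List.mem_cons, not_or] at ht'
    rw [hcon]
    have hθx := ih.θ' t' d' ht'.2
    by_cases hm : S.m p = some (t, d)
    · simp only [St.con, if_pos hm]; exact hθx
    · simp only [St.con, if_neg hm, Function.update_apply]
      rw [if_neg, if_neg]
      · exact hθx
      · rw [hmp]; rintro h
        exact ht'.2 (tl_mem w hw _ hMp1 t' (by rw [← h]; rfl))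
      · rw [hmt]; intro h; simp only [Option.some.injEq, Prod.mk.injEq] at h; exact ht'.1 h.1
  · simp only [glw, facL_append, ih.fac, one_mul, St.facL, mul_one]
    rw [← hSdef, St.fac, if_neg]
    rw [hmp]
    exact ne_port hw ht d hMp1
  · exact conL_L (glw w) (ts A s) (0, p, some (t, d)) ih.fit hpS (htS d) hpt

theorem ws_con (s : T → Bool) {w : Wd T} {p q : Port T} {A : Finset T}
    (h : Ok (.con w p q)) (hl : ¬ isLeg w) (hA : ∀ t' ∈ tls w, t' ∈ A)
    (ih : WS s w A) : WS s (.con w p q) A := by
  have hokc := h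
  obtain ⟨hw, hp0, hq0, hpq, hadj⟩ := h
  obtain ⟨hp, hq⟩ := mem_adj hadj
  set S := (ts A s).conL (glw w) with hSdef
  have hok : S.Ok := (St.glueL_vec (glw w) (ts_ok A s) ih.fit).1
  have hpS : p ∈ S.L := ih.mem hw hA hp hp0
  have hqS : q ∈ S.L := ih.mem hw hA hq hq0
  set χ : ℝ := -(Real.pi / 12) * ((phi w q - phi w p + 2 : ℤ) : ℝ) with hχ
  have hcon : (ts A s).conL (glw (.con w p q)) = S.con χ p q := by
    simp only [glw, conL_append, St.conL_cons, St.conL_nil]
    rw [← hSdef]
  have I := Ok.inv s w hw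
  have hu := u_none s w hw hl
  have hmp : S.m p = M s w p := ih.m p hp hp0
  have hmq : S.m q = M s w q := ih.m q hq hq0
  have hpu : p ≠ u s w := by rw [hu]; exact hp0
  have hqu : q ≠ u s w := by rw [hu]; exact hq0
  have hMpp : M s w p ≠ p := I.Mne hp hpu
  have hMqq : M s w q ≠ q := I.Mne hq hqu
  have notin : ∀ t d, t ∉ tls w → (some (t, d) : Port T) ∉ L w := fun t d ht =>
    new_port hw ht d
  refine ⟨?_, ?_, ?_, ?_, ?_, ?_, ?_⟩
  · intro x
    rw [hcon]
    simp only [St.con, Finset.mem_erase]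
    rw [ih.Liff]
    simp only [tls]
    constructor
    · rintro ⟨h1, h2, h3, h4⟩
      exact ⟨h3, fun t' d' hx ht' => mem_con.2 ⟨h4 t' d' hx ht', h2, h1⟩⟩
    · rintro ⟨h1, h2⟩
      obtain ⟨t', d', rfl, -⟩ := mem_ports' h1
      have k : ∀ y : Port T, y ∈ L w → y ≠ none → y = some (t', d') → t' ∈ tls w := by
        intro y hy _ e
        exact tl_mem w hw y hy t' (by rw [e]; rfl)
      refine ⟨?_, ?_, h1, fun t'' d'' hx ht'' => (mem_con.1 (h2 t'' d'' hx ht'')).1⟩
      · intro e
        have := h2 t' d' rfl (k q hq hq0 e.symm)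
        exact (mem_con.1 this).2.2 e
      · intro e
        have := h2 t' d' rfl (k p hp hp0 e.symm)
        exact (mem_con.1 this).2.1 e
  · intro x hx hxn
    obtain ⟨hx', hxp, hxq⟩ := mem_con.1 hx
    rw [hcon, con_m S χ p q x hok hpS hqS hpq (ih.mem hw hA hx' hxn) hxp hxq, ih.m x hx' hxn,
      hmp, hmq]
    simp only [M]
    by_cases h1 : M s w x = p
    · rw [if_pos h1, if_pos h1, if_neg hMqq]
    · rw [if_neg h1, if_neg h1]
      by_cases h2 : M s w x = q
      · rw [if_pos h2, if_pos h2, if_neg hMpp]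
      · rw [if_neg h2, if_neg h2]
  · intro x hx hxn
    obtain ⟨hx', hxp, hxq⟩ := mem_con.1 hx
    rw [hcon, con_θ S χ p q x hok hpS hqS hpq (ih.mem hw hA hx' hxn) hxp hxq, ih.m x hx' hxn,
      ih.θ x hx' hxn, ih.θ p hp hp0, ih.θ q hq hq0]
    simp only [Sw300.tau]
    by_cases h1 : M s w x = p
    · rw [if_pos h1, if_pos h1, hχ]; push_cast; ring
    · rw [if_neg h1, if_neg h1]
      by_cases h2 : M s w x = q
      · rw [if_pos h2, if_pos h2, hχ]; push_cast; ring
      · rw [if_neg h2, if_neg h2]
  · intro t' d' ht'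
    simp only [tls] at ht'
    rw [hcon]
    have hmx := ih.m' t' d' ht'
    by_cases hm : S.m p = q
    · simp only [St.con, if_pos hm]; exact hmx
    · simp only [St.con, if_neg hm, Function.update_apply]
      rw [if_neg, if_neg]
      · exact hmx
      · rw [hmp]; intro h; exact notin t' d' ht' (h ▸ (I.mem p hp))
      · rw [hmq]; intro h; exact notin t' d' ht' (h ▸ (I.mem q hq))
  · intro t' d' ht'
    simp only [tls] at ht'
    rw [hcon]
    have hθx := ih.θ' t' d' ht'
    by_cases hm : S.m p = q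
    · simp only [St.con, if_pos hm]; exact hθx
    · simp only [St.con, if_neg hm, Function.update_apply]
      rw [if_neg, if_neg]
      · exact hθx
      · rw [hmp]; intro h; exact notin t' d' ht' (h ▸ (I.mem p hp))
      · rw [hmq]; intro h; exact notin t' d' ht' (h ▸ (I.mem q hq))
  · simp only [glw, facL_append, ih.fac, one_mul, St.facL, mul_one]
    rw [← hSdef, St.fac]
    by_cases hm : S.m p = q
    · rw [if_pos hm]
      rw [hmp] at hm
      have hlt := loop_tau s hokc hm hpu
      have : S.θ p - χ = Real.pi / 3 := by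
        rw [ih.θ p hp hp0, hχ]
        have h2 : (Sw300.tau s w p : ℝ) - ((phi w q - phi w p + 2 : ℤ) : ℝ) = -4 := by
          exact_mod_cast hlt
        have : -(Real.pi / 12) * (Sw300.tau s w p : ℝ) -
            -(Real.pi / 12) * ((phi w q - phi w p + 2 : ℤ) : ℝ) =
            -(Real.pi / 12) * ((Sw300.tau s w p : ℝ) - ((phi w q - phi w p + 2 : ℤ) : ℝ)) := by
          ring
        rw [this, h2]; ring
      rw [this, Real.cos_pi_div_three]
      push_cast; norm_num
    · rw [if_neg hm]
  · exact conL_L (glw w) (ts A s) (χ, p, q) ih.fit hpS hqS hpq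

/-- **the strand state of a word without leg** -/
theorem ws (s : T → Bool) : ∀ (w : Wd T) (A : Finset T), Ok w → ¬ isLeg w →
    (∀ t ∈ tls w, t ∈ A) → WS s w A
  | .leg, _, _, hl, _ => absurd trivial hl
  | .tile t, A, _, _, _ => ws_tile s t A
  | .att w p t d, A, h, hl, hA => ws_att s h hl hA
      (ws s w A h.1 hl fun t' h' => hA t' (List.mem_cons_of_mem _ h'))
  | .con w p q, A, h, hl, hA => ws_con s h hl hA (ws s w A h.1 hl hA)

end Crest.Agent.R158.Sn300
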