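import Crest.Agent.R158.Sn1_300
import Crest.Agent.R158.Pt2_266
import Crest.Agent.R158.Ob0_664

/-!
# R158: arrow reversal identity for a flat word without leg (helper300)

* `vec_tot` : all ends of a strand state cut: product of `2 cos (θ x + γ (m x) - γ x)`
* `tot_neg` : arrow reversal
* `ari_sum`, `ari` : for a flat word without leg the mean over the splittings of
  `∏ 2 cos ((π/12) (2 - Δφ) + Δc)` over the arcs does not change when `c` is replaced by `-c`
-/

set_option autoImplicit false

noncomputable section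

open Finset MeasureTheory

namespace Crest.Agent.R158.Sn300

open Crest.Agent.R158.Sw300 Crest.Agent.R158.Ad350
open Crest.Agent.R158.Rs689 (PB hf)

/-! ### all ends cut -/

section tot

variable {P : Type*} [DecidableEq P]

/-- all the ends of `L` are cut, with phases `γ` -/
def tot (L : Finset P) (γ : P → ℝ) (F : (P → Bool) → ℂ) : ℂ :=
  ∑ B ∈ L.powerset, ei (∑ p ∈ L, γ p * sg (decide (p ∈ B))) * F fun p => decide (p ∈ B)

theorem tot_smul (L : Finset P) (γ : P → ℝ) (k : ℂ) (F : (P → Bool) → ℂ) :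
    tot L γ (fun σ => k * F σ) = k * tot L γ F := by
  unfold tot; rw [Finset.mul_sum]
  exact Finset.sum_congr rfl fun B _ => by ring

theorem tot_sum {ι : Type*} (L : Finset P) (γ : P → ℝ) (s : Finset ι) (F : ι → (P → Bool) → ℂ) :
    tot L γ (fun σ => ∑ i ∈ s, F i σ) = ∑ i ∈ s, tot L γ (F i) := by
  unfold tot; simp only [Finset.mul_sum]
  rw [Finset.sum_comm]

theorem sum_reps {S : St P} (hS : S.Ok) {R : Finset P} (hR : R ⊆ S.L)
    (h : ∀ p ∈ S.L, p ∈ R ↔ S.m p ∉ R) (f : P → ℝ) :
    ∑ p ∈ S.L, f p = ∑ x ∈ R, (f x + f (S.m x)) := by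
  rw [Finset.sum_add_distrib, ← Finset.sum_filter_add_sum_filter_not S.L (fun p => p ∈ R)]
  congr 1
  · refine Finset.sum_congr ?_ fun _ _ => rfl
    ext x; simp only [Finset.mem_filter]
    exact ⟨fun k => k.2, fun k => ⟨hR k, k⟩⟩
  · refine Finset.sum_bij' (fun p _ => S.m p) (fun p _ => S.m p) ?_ ?_ ?_ ?_ ?_
    · intro p hp
      rw [Finset.mem_filter] at hp
      by_contra hc
      exact hp.2 ((h p hp.1).2 hc)
    · intro p hp
      rw [Finset.mem_filter]
      exact ⟨hS.mem p (hR hp), (h p (hR hp)).1 hp⟩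
    · intro p hp; exact hS.inv p (Finset.mem_filter.1 hp).1
    · intro p hp; exact hS.inv p (hR hp)
    · intro p hp; rw [hS.inv p (Finset.mem_filter.1 hp).1]

theorem vec_tot {S : St P} (hS : S.Ok) {R : Finset P} (hR : R ⊆ S.L)
    (h : ∀ p ∈ S.L, p ∈ R ↔ S.m p ∉ R) (γ : P → ℝ) :
    tot S.L γ S.vec = ∏ x ∈ R, (2 * Real.cos (S.θ x + γ (S.m x) - γ x) : ℂ) := by
  set a : P → ℝ := fun x => S.θ x + γ (S.m x) - γ x with ha
  have h1 : ∏ x ∈ R, (2 * Real.cos (S.θ x + γ (S.m x) - γ x) : ℂ) =
      ∏ x ∈ R, (ei (-(a x)) + ei (a x)) := by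
    refine Finset.prod_congr rfl fun x _ => ?_
    rw [add_comm (ei (-(a x))), ei_add_neg]
  rw [h1, Finset.prod_add]
  have h2 : tot S.L γ S.vec = ∑ B ∈ S.L.powerset.filter (fun B => S.good fun p => decide (p ∈ B)),
      ei (∑ p ∈ S.L, γ p * sg (decide (p ∈ B)) + S.ph (fun p => decide (p ∈ B)) / 2) := by
    unfold tot
    rw [Finset.sum_filter]
    refine Finset.sum_congr rfl fun B _ => ?_
    by_cases hg : S.good fun p => decide (p ∈ B)
    · rw [if_pos hg, St.vec, if_pos hg, ← ei_add]
    · rw [if_neg hg, St.vec, if_neg hg, mul_zero]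
  rw [h2]
  have mR : ∀ x ∈ R, S.m x ∉ R := fun x hx => (h x (hR hx)).1 hx
  refine Finset.sum_bij' (fun B _ => B ∩ R)
    (fun C _ => C ∪ S.L.filter fun p => p ∉ R ∧ S.m p ∉ C) ?_ ?_ ?_ ?_ ?_
  · intro B _
    exact Finset.mem_powerset.2 Finset.inter_subset_right
  · intro C hC
    rw [Finset.mem_powerset] at hC
    rw [Finset.mem_filter, Finset.mem_powerset]
    refine ⟨Finset.union_subset (hC.trans hR) (Finset.filter_subset _ _), ?_⟩
    intro p hp
    have hmp := hS.mem p hp
    have hinv := hS.inv p hp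
    by_cases hpR : p ∈ R
    · have hm := (h p hp).1 hpR
      have hmC : S.m p ∉ C := fun k => hm (hC k)
      by_cases hpC : p ∈ C
      · simp [hpC, hmC, hm, hmp, hinv]
      · simp [hpC, hmC, hm, hmp, hinv, hpR]
    · have hm : S.m p ∈ R := by
        by_contra hc; exact hpR ((h p hp).2 hc)
      have hpC : p ∉ C := fun k => hpR (hC k)
      by_cases hmC : S.m p ∈ C
      · simp [hpC, hmC]
      · simp [hpC, hmC, hm, hmp, hpR, hp]
  · intro B hB
    rw [Finset.mem_filter, Finset.mem_powerset] at hB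
    obtain ⟨hBL, hg⟩ := hB
    ext p
    simp only [Finset.mem_union, Finset.mem_inter, Finset.mem_filter]
    constructor
    · rintro (k | ⟨hp, hpR, hk⟩)
      · exact k.1
      · have hm : S.m p ∈ R := by
          by_contra hc; exact hpR ((h p hp).2 hc)
        have h3 : S.m p ∉ B := fun k => hk ⟨k, hm⟩
        have h4 := hg p hp
        simp only [h3, decide_false] at h4
        by_contra hc
        simp [hc] at h4
    · intro hp
      by_cases hpR : p ∈ R
      · exact Or.inl ⟨hp, hpR⟩
      · refine Or.inr ⟨hBL hp, hpR, fun k => ?_⟩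
        have h4 := hg p (hBL hp)
        simp [hp, k.1] at h4
  · intro C hC
    rw [Finset.mem_powerset] at hC
    ext p
    simp only [Finset.mem_union, Finset.mem_inter, Finset.mem_filter]
    constructor
    · rintro ⟨k | ⟨_, k, _⟩, k'⟩
      · exact k
      · exact absurd k' k
    · intro k; exact ⟨Or.inl k, hC k⟩
  · intro B hB
    rw [Finset.mem_filter, Finset.mem_powerset] at hB
    obtain ⟨hBL, hg⟩ := hB
    have e1 : ∏ x ∈ B ∩ R, ei (-(a x)) = ∏ x ∈ R.filter (fun x => x ∈ B), ei (-(a x)) := by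
      refine Finset.prod_congr ?_ fun _ _ => rfl
      ext x; simp only [Finset.mem_inter, Finset.mem_filter]; tauto
    have e2 : ∏ x ∈ R \ (B ∩ R), ei (a x) = ∏ x ∈ R.filter (fun x => ¬ x ∈ B), ei (a x) := by
      refine Finset.prod_congr ?_ fun _ _ => rfl
      ext x; simp only [Finset.mem_inter, Finset.mem_filter, Finset.mem_sdiff]; tauto
    rw [e1, e2]
    have e3 : (∏ x ∈ R.filter (fun x => x ∈ B), ei (-(a x))) *
        ∏ x ∈ R.filter (fun x => ¬ x ∈ B), ei (a x) =
        ∏ x ∈ R, ei (-(a x) * sg (decide (x ∈ B))) := by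
      rw [← Finset.prod_filter_mul_prod_filter_not R (fun x => x ∈ B)
        (fun x => ei (-(a x) * sg (decide (x ∈ B))))]
      congr 1
      · refine Finset.prod_congr rfl fun x hx => ?_
        rw [Finset.mem_filter] at hx
        rw [decide_eq_true hx.2, sg_true, mul_one]
      · refine Finset.prod_congr rfl fun x hx => ?_
        rw [Finset.mem_filter] at hx
        rw [decide_eq_false hx.2, sg_false]
        congr 1; ring
    rw [e3, ei_sum]
    congr 1
    unfold St.ph
    rw [Finset.sum_div, ← Finset.sum_add_distrib, sum_reps hS hR h]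
    refine Finset.sum_congr rfl fun x hx => ?_
    have hxL := hR hx
    have h3 : sg (decide (S.m x ∈ B)) = -sg (decide (x ∈ B)) := by
      rw [← sg_not]; exact congrArg sg (hg x hxL)
    rw [hS.inv x hxL, hS.anti x hxL, h3, ha]
    simp only
    ring

/-- the vector depends only on the live ends -/
theorem vec_dep {S : St P} (hS : S.Ok) {σ σ' : P → Bool} (h : ∀ p ∈ S.L, σ p = σ' p) :
    S.vec σ = S.vec σ' := by
  have hg : S.good σ ↔ S.good σ' := by
    unfold St.good
    exact forall₂_congr fun p hp => by rw [h p hp, h _ (hS.mem p hp)]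
  have hp : S.ph σ = S.ph σ' := by
    unfold St.ph
    exact Finset.sum_congr rfl fun p hp => by rw [h _ (hS.mem p hp)]
  unfold St.vec
  simp only [hg, hp]

/-- **arrow reversal** -/
theorem tot_neg (L : Finset P) (γ : P → ℝ) {F : (P → Bool) → ℂ}
    (hd : ∀ σ σ' : P → Bool, (∀ p ∈ L, σ p = σ' p) → F σ = F σ')
    (hf : ∀ σ : P → Bool, F (fun p => !σ p) = F σ) :
    tot L γ F = tot L (fun p => -γ p) F := by
  unfold tot
  refine Finset.sum_bij' (fun B _ => L \ B) (fun B _ => L \ B) ?_ ?_ ?_ ?_ ?_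
  · intro B _; exact Finset.mem_powerset.2 Finset.sdiff_subset
  · intro B _; exact Finset.mem_powerset.2 Finset.sdiff_subset
  · intro B hB; exact Finset.sdiff_sdiff_eq_self (Finset.mem_powerset.1 hB)
  · intro B hB; exact Finset.sdiff_sdiff_eq_self (Finset.mem_powerset.1 hB)
  · intro B hB
    have key : ∀ p ∈ L, decide (p ∈ L \ B) = !decide (p ∈ B) := by
      intro p hp
      by_cases k : p ∈ B <;> simp [k, hp]
    congr 1
    · congr 1
      refine Finset.sum_congr rfl fun p hp => ?_
      rw [key p hp, sg_not]; ring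
    · rw [← hf fun p => decide (p ∈ B)]
      exact (hd _ _ fun p hp => (key p hp).symm)

theorem glueL_flip (l : List (ℝ × P × P)) : ∀ (_ : ∀ e ∈ l, e.1 = 0) (F : (P → Bool) → ℂ)
    (_ : ∀ σ : P → Bool, F (fun p => !σ p) = F σ) (σ : P → Bool),
    St.glueL l F (fun p => !σ p) = St.glueL l F σ := by
  induction l with
  | nil => intro _ F hF σ; exact hF σ
  | cons e l ih =>
    intro h F hF σ
    rw [St.glueL_cons]
    refine ih (fun e' he' => h e' (by simp [he'])) _ ?_ σ
    intro σ
    have h0 : e.1 = 0 := h e (by simp)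
    simp only [ctr, h0, zero_mul, ei_zero, one_mul]
    have key : ∀ τ : Bool, F (Function.update (Function.update (fun p => !σ p) e.2.1 τ) e.2.2 (!τ)) =
        F (Function.update (Function.update σ e.2.1 (!τ)) e.2.2 τ) := by
      intro τ
      rw [← hF (Function.update (Function.update σ e.2.1 (!τ)) e.2.2 τ)]
      congr 1
      funext p
      simp only [Function.update_apply]
      split_ifs <;> simp
    rw [Fintype.sum_bool, Fintype.sum_bool, key, key]
    simp only [Bool.not_true, Bool.not_false]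
    rw [add_comm]

end tot

/-! ### words -/

variable {T : Type*} [DecidableEq T]

theorem flat_glw : ∀ (w : Wd T), Pt266.Flat w → ∀ e ∈ glw w, e.1 = 0
  | .leg, _, e, he => by simp [glw] at he
  | .tile _, _, e, he => by simp [glw] at he
  | .att w p t d, h, e, he => by
      simp only [glw, List.mem_append, List.mem_singleton] at he
      rcases he with he | rfl
      · exact flat_glw w h e he
      · rfl
  | .con w p q, h, e, he => by
      simp only [glw, List.mem_append, List.mem_singleton] at he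
      rcases he with he | rfl
      · exact flat_glw w h.1 e he
      · have : phi w q - phi w p + 2 = 0 := by rw [h.2]; ring
        simp [this]

/-- the free ends of a word (marker removed) -/
def fe (w : Wd T) : Finset (Port T) := (L w).toFinset.erase none

omit [DecidableEq T] in
theorem mem_fe [DecidableEq T] {w : Wd T} {x : Port T} : x ∈ fe w ↔ x ≠ none ∧ x ∈ L w := by
  simp [fe]

/-- the starts of the arcs -/
def starts (s : T → Bool) (w : Wd T) : Finset (Port T) := (fe w).filter fun x => S s w x = true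

theorem mem_starts {s : T → Bool} {w : Wd T} {x : Port T} :
    x ∈ starts s w ↔ (x ≠ none ∧ x ∈ L w) ∧ S s w x = true := by
  simp [starts, mem_fe]

/-- the tiles of a word -/
abbrev tf (w : Wd T) : Finset T := (tls w).toFinset

theorem ws_L {s : T → Bool} {w : Wd T} (hw : Ok w) (hl : ¬ isLeg w) :
    ((ts (tf w) s).conL (glw w)).L = fe w := by
  have W := ws s w (tf w) hw hl fun t ht => List.mem_toFinset.2 ht
  ext x
  rw [W.Liff, mem_fe]
  constructor
  · rintro ⟨h1, h2⟩
    obtain ⟨t, d, rfl, ht⟩ := mem_ports' h1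
    exact ⟨by simp, h2 t d rfl (List.mem_toFinset.1 ht)⟩
  · rintro ⟨h1, h2⟩
    refine ⟨?_, fun _ _ _ _ => h2⟩
    exact mem_ports_L hw (fun t ht => List.mem_toFinset.2 ht) h2 h1

/-- the network of a word without leg as a sum over the splittings -/
theorem net_expand {w : Wd T} (hw : Ok w) (hl : ¬ isLeg w) (σ : Port T → Bool) :
    St.glueL (glw w) (tilesF (tf w)) σ = (1 / 2) ^ (tf w).card *
      ∑ B ∈ (tf w).powerset, ((ts (tf w) fun t => decide (t ∈ B)).conL (glw w)).vec σ := by
  have h1 : tilesF (tf w) = fun σ => (1 / 2) ^ (tf w).card *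
      ∑ B ∈ (tf w).powerset, (ts (tf w) fun t => decide (t ∈ B)).vec σ := by
    funext σ; exact tiles_expand _ _
  rw [h1, St.glueL_smul]
  simp only
  rw [St.glueL_sum]
  congr 1
  refine Finset.sum_congr rfl fun B _ => ?_
  have W := ws (fun t => decide (t ∈ B)) w (tf w) hw hl fun t ht => List.mem_toFinset.2 ht
  have h2 := (St.glueL_vec (glw w) (ts_ok (tf w) fun t => decide (t ∈ B)) W.fit).2 σ
  rw [h2, W.fac, one_mul]

theorem starts_rep {s : T → Bool} {w : Wd T} (hw : Ok w) (hl : ¬ isLeg w) :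
    starts s w ⊆ ((ts (tf w) s).conL (glw w)).L ∧
    ∀ p ∈ ((ts (tf w) s).conL (glw w)).L, p ∈ starts s w ↔
      ((ts (tf w) s).conL (glw w)).m p ∉ starts s w := by
  have W := ws s w (tf w) hw hl fun t ht => List.mem_toFinset.2 ht
  have I := Ok.inv s w hw
  rw [ws_L hw hl]
  refine ⟨Finset.filter_subset _ _, ?_⟩
  intro p hp
  obtain ⟨hn, hp⟩ := mem_fe.1 hp
  obtain ⟨hM1, hM2⟩ := M_ne_none (s := s) hw hl hp hn
  rw [W.m p hp hn, mem_starts, mem_starts]
  have hS := I.S_M hp (by rw [u_none s w hw hl]; exact hn)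
  rw [hS]
  cases S s w p <;> simp [hn, hp, hM1, hM2]

theorem tot_state {s : T → Bool} {w : Wd T} (hw : Ok w) (hl : ¬ isLeg w) (c : Port T → ℝ) :
    tot (fe w) c ((ts (tf w) s).conL (glw w)).vec =
      ((∏ x ∈ starts s w, 2 * Real.cos (Real.pi / 12 * (2 - (phi w (M s w x) - phi w x : ℤ)) +
        (c (M s w x) - c x)) : ℝ) : ℂ) := by
  have W := ws s w (tf w) hw hl fun t ht => List.mem_toFinset.2 ht
  have hok := (St.glueL_vec (glw w) (ts_ok (tf w) s) W.fit).1
  obtain ⟨h1, h2⟩ := starts_rep (s := s) hw hl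
  have h3 := vec_tot hok h1 h2 c
  rw [ws_L hw hl] at h3
  rw [h3]
  push_cast
  refine Finset.prod_congr rfl fun x hx => ?_
  obtain ⟨⟨hn, hx⟩, hS⟩ := mem_starts.1 hx
  have ht := (Ok.tau s w hw).arc x hx (by rw [u_none s w hw hl]; exact hn) hS
  rw [W.m x hx hn, W.θ x hx hn, ht]
  congr 2
  push_cast
  congr 1
  ring

/-- **arrow reversal identity, finite form** -/
theorem ari_sum {w : Wd T} (hw : Ok w) (hl : ¬ isLeg w) (hf : Pt266.Flat w) (c : Port T → ℝ) :
    ∑ B ∈ (tf w).powerset, ∏ x ∈ starts (fun t => decide (t ∈ B)) w,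
        2 * Real.cos (Real.pi / 12 * (2 - (phi w (M (fun t => decide (t ∈ B)) w x) - phi w x : ℤ)) +
          (c (M (fun t => decide (t ∈ B)) w x) - c x)) =
    ∑ B ∈ (tf w).powerset, ∏ x ∈ starts (fun t => decide (t ∈ B)) w,
        2 * Real.cos (Real.pi / 12 * (2 - (phi w (M (fun t => decide (t ∈ B)) w x) - phi w x : ℤ)) -
          (c (M (fun t => decide (t ∈ B)) w x) - c x)) := by
  set F : (Port T → Bool) → ℂ := St.glueL (glw w) (tilesF (tf w)) with hF
  have key : ∀ c : Port T → ℝ, tot (fe w) c F = (1 / 2) ^ (tf w).card *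
      ((∑ B ∈ (tf w).powerset, ∏ x ∈ starts (fun t => decide (t ∈ B)) w,
        2 * Real.cos (Real.pi / 12 * (2 - (phi w (M (fun t => decide (t ∈ B)) w x) - phi w x : ℤ)) +
          (c (M (fun t => decide (t ∈ B)) w x) - c x)) : ℝ) : ℂ) := by
    intro c
    have h1 : F = fun σ => (1 / 2) ^ (tf w).card *
      ∑ B ∈ (tf w).powerset, ((ts (tf w) fun t => decide (t ∈ B)).conL (glw w)).vec σ := by
      funext σ; exact net_expand hw hl σ
    rw [h1, tot_smul, tot_sum, Complex.ofReal_sum]
    congr 1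
    exact Finset.sum_congr rfl fun B _ => tot_state hw hl c
  have hd : ∀ σ σ' : Port T → Bool, (∀ p ∈ fe w, σ p = σ' p) → F σ = F σ' := by
    intro σ σ' h
    rw [hF, net_expand hw hl, net_expand hw hl]
    congr 1
    refine Finset.sum_congr rfl fun B _ => ?_
    have W := ws (fun t => decide (t ∈ B)) w (tf w) hw hl fun t ht => List.mem_toFinset.2 ht
    have hok := (St.glueL_vec (glw w) (ts_ok (tf w) fun t => decide (t ∈ B)) W.fit).1
    refine vec_dep hok ?_
    rw [ws_L hw hl]
    exact h
  have hflip : ∀ σ : Port T → Bool, F (fun p => !σ p) = F σ := by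
    refine glueL_flip (glw w) (flat_glw w hf) _ ?_
    intro σ
    unfold tilesF
    exact Finset.prod_congr rfl fun t _ => w6_flip _
  have h2 := tot_neg (fe w) c hd hflip
  rw [key, key] at h2
  have h3 : ((1 : ℂ) / 2) ^ (tf w).card ≠ 0 := pow_ne_zero _ (by norm_num)
  have h4 := mul_left_cancel₀ h3 h2
  have h5 := Complex.ofReal_injective h4
  rw [h5]
  refine Finset.sum_congr rfl fun B _ => Finset.prod_congr rfl fun x _ => ?_
  congr 2
  ring

/-! ### integrals over the splittings -/

omit [DecidableEq T] in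
theorem integral_pow [DecidableEq T] (A : Finset T) (f : (T → Bool) → ℝ)
    (h : ∀ s s' : T → Bool, (∀ t ∈ A, s t = s' t) → f s = f s') :
    ∫ s, f s ∂(PB fun _ : T => hf) =
      (1 / 2) ^ A.card * ∑ B ∈ A.powerset, f fun t => decide (t ∈ B) := by
  set g : (A → Bool) → ℝ := fun y => f fun t => if ht : t ∈ A then y ⟨t, ht⟩ else false with hg
  have h1 : ∀ s, f s = g (A.restrict s) := by
    intro s
    rw [hg]
    refine h _ _ fun t ht => ?_
    simp [ht]
  have h2 : ∫ s, f s ∂(PB fun _ : T => hf) = ∫ s, g (A.restrict s) ∂(PB fun _ : T => hf) := by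
    congr 1; funext s; exact h1 s
  have h3 : ∫ s, g (A.restrict s) ∂(PB fun _ : T => hf) =
      ∑ y, Rs689.wt (fun _ : T => hf) A y * g y := by
    convert Rs689.integral_restrict (fun _ : T => hf) A g
  rw [h2, h3, Finset.mul_sum]
  have hw : ∀ y, Rs689.wt (fun _ : T => hf) A y = (1 / 2) ^ A.card := by
    intro y
    unfold Rs689.wt
    rw [Finset.prod_congr rfl (g := fun _ => (1 / 2 : ℝ))]
    · rw [Finset.prod_const, Finset.card_univ, Fintype.card_coe]
    · intro e _
      cases y e
      · rw [Rs689.bern_real_false]; simp [hf]; norm_num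
      · rw [Rs689.bern_real_true]; simp [hf]
  refine Finset.sum_bij' (fun y _ => A.filter fun t => ∃ ht : t ∈ A, y ⟨t, ht⟩ = true)
    (fun B _ => fun t => decide ((t : T) ∈ B)) ?_ ?_ ?_ ?_ ?_
  · intro y _; exact Finset.mem_powerset.2 (Finset.filter_subset _ _)
  · intro B _; exact Finset.mem_univ _
  · intro y _
    funext t
    simp only [Finset.mem_filter]
    have := t.2
    cases hy : y t <;> simp [hy]
  · intro B hB
    rw [Finset.mem_powerset] at hB
    ext t
    simp only [Finset.mem_filter, decide_eq_true_eq]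
    exact ⟨fun k => k.2.2, fun k => ⟨hB k, hB k, k⟩⟩
  · intro y _
    rw [hw]
    congr 1
    rw [hg]
    refine h _ _ fun t ht => ?_
    simp only [Finset.mem_filter, ht, true_and, exists_true_left]
    rw [dif_pos trivial]
    cases y ⟨t, ht⟩ <;> simp

/-- product over the arcs of a function of start and end -/
def arcs (s : T → Bool) (w : Wd T) (f : Port T → Port T → ℝ) : ℝ :=
  ∏ x ∈ starts s w, f x (M s w x)

theorem arcs_congr {s s' : T → Bool} {w : Wd T} (h : ∀ t ∈ tls w, s t = s' t)
    (f : Port T → Port T → ℝ) : arcs s w f = arcs s' w f := by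
  obtain ⟨h1, h2, -⟩ := Ob664.state_congr w h
  unfold arcs starts
  rw [h1, h2]

theorem integral_arcs (w : Wd T) (f : Port T → Port T → ℝ) :
    ∫ s, arcs s w f ∂(PB fun _ : T => hf) =
      (1 / 2) ^ (tf w).card * ∑ B ∈ (tf w).powerset, arcs (fun t => decide (t ∈ B)) w f :=
  integral_pow (tf w) _ fun _ _ h => arcs_congr (fun t ht => h t (List.mem_toFinset.2 ht)) f

/-- **ARROW REVERSAL IDENTITY** -/
theorem ari {w : Wd T} (hw : Ok w) (hl : ¬ isLeg w) (hfl : Pt266.Flat w) (c : Port T → ℝ) :
    ∫ s, arcs s w (fun x y => 2 * Real.cos (Real.pi / 12 * (2 - (phi w y - phi w x : ℤ)) +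
      (c y - c x))) ∂(PB fun _ : T => hf) =
    ∫ s, arcs s w (fun x y => 2 * Real.cos (Real.pi / 12 * (2 - (phi w y - phi w x : ℤ)) -
      (c y - c x))) ∂(PB fun _ : T => hf) := by
  rw [integral_arcs, integral_arcs]
  congr 1
  exact ari_sum hw hl hfl c

end Crest.Agent.R158.Sn300
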