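import Mathlib

/-! R158 (helper896) BLOCK SP, file 0: definitions shared by the discrete part (helper331) and the
continuum part.  Cells of the grid are indexed by their lower left corner. -/

set_option autoImplicit false

namespace Crest.Agent.R158.Sp896

abbrev V := ℤ × ℤ

/-- unit step -/
def Adj (a b : V) : Prop :=
  (b.1 = a.1 + 1 ∧ b.2 = a.2) ∨ (b.1 = a.1 - 1 ∧ b.2 = a.2) ∨
  (b.1 = a.1 ∧ b.2 = a.2 + 1) ∨ (b.1 = a.1 ∧ b.2 = a.2 - 1)

/-- connection by unit steps whose targets lie in `S` -/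
def Con (S : Set V) (q q' : V) : Prop := Relation.ReflTransGen (fun a b => Adj a b ∧ b ∈ S) q q'

/-- cell on the left of the unit step `a → b` -/
def lc (a b : V) : V := ((a.1 + b.1 - (b.2 - a.2) - 1) / 2, (a.2 + b.2 + (b.1 - a.1) - 1) / 2)

/-- cell on the right of the unit step `a → b` -/
def rc (a b : V) : V := ((a.1 + b.1 + (b.2 - a.2) - 1) / 2, (a.2 + b.2 - (b.1 - a.1) - 1) / 2)

/-- the boundary of the set of cells `F` as one simple closed lattice walk with `F` on its left -/
structure Cyc (F : Set V) (L : ℕ) (v : ℕ → V) : Prop where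
  four_le : 4 ≤ L
  per : ∀ i, v (i + L) = v i
  inj : ∀ i < L, ∀ j < L, v i = v j → i = j
  step : ∀ i, Adj (v i) (v (i + 1))
  left : ∀ i, lc (v i) (v (i + 1)) ∈ F
  right : ∀ i, rc (v i) (v (i + 1)) ∉ F
  all : ∀ a b, Adj a b → lc a b ∈ F → rc a b ∉ F → ∃ i < L, v i = a ∧ v (i + 1) = b

theorem Adj.symm {a b : V} (h : Adj a b) : Adj b a := by
  unfold Adj at *
  omega

theorem adj_lc_rc {a b : V} (h : Adj a b) : Adj (lc a b) (rc a b) := by
  unfold Adj lc rc at *
  simp only
  omega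

/-- the two cells of adjacent type are the left and right cell of a unit step -/
theorem exists_dart {q q' : V} (h : Adj q q') : ∃ a b, Adj a b ∧ lc a b = q ∧ rc a b = q' := by
  rcases h with ⟨h1, h2⟩ | ⟨h1, h2⟩ | ⟨h1, h2⟩ | ⟨h1, h2⟩
  · refine ⟨(q.1 + 1, q.2), (q.1 + 1, q.2 + 1), by unfold Adj; simp, ?_, ?_⟩ <;>
      · simp only [lc, rc]
        ext <;> simp only <;> omega
  · refine ⟨(q.1, q.2 + 1), (q.1, q.2), by unfold Adj; simp, ?_, ?_⟩ <;>
      · simp only [lc, rc]
        ext <;> simp only <;> omega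
  · refine ⟨(q.1 + 1, q.2 + 1), (q.1, q.2 + 1), by unfold Adj; simp, ?_, ?_⟩ <;>
      · simp only [lc, rc]
        ext <;> simp only <;> omega
  · refine ⟨(q.1, q.2), (q.1 + 1, q.2), by unfold Adj; simp, ?_, ?_⟩ <;>
      · simp only [lc, rc]
        ext <;> simp only <;> omega

theorem Con.mono {S T : Set V} (h : S ⊆ T) {q q' : V} (hq : Con S q q') : Con T q q' := by
  induction hq with
  | refl => exact Relation.ReflTransGen.refl
  | tail _ h2 ih => exact Relation.ReflTransGen.tail ih ⟨h2.1, h h2.2⟩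

theorem Con.trans {S : Set V} {q q' q'' : V} (h : Con S q q') (h' : Con S q' q'') : Con S q q'' :=
  Relation.ReflTransGen.trans h h'

theorem Con.refl (S : Set V) (q : V) : Con S q q := Relation.ReflTransGen.refl

theorem Con.one {S : Set V} {q q' : V} (h : Adj q q') (hq : q' ∈ S) : Con S q q' :=
  Relation.ReflTransGen.single ⟨h, hq⟩

theorem Con.mem {S : Set V} {q q' : V} (h : Con S q q') (hq : q ∈ S) : q' ∈ S := by
  rcases Relation.ReflTransGen.cases_tail h with h1 | ⟨c, -, h1⟩
  · rw [h1]; exact hq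
  · exact h1.2

theorem Con.symm {S : Set V} {q q' : V} (h : Con S q q') (hq : q ∈ S) : Con S q' q := by
  induction h with
  | refl => exact Con.refl S q
  | tail h1 h2 ih =>
    exact (Con.one h2.1.symm (Con.mem h1 hq)).trans ih

/-- a path from `S` to its complement crosses -/
theorem Con.cross {T S : Set V} {q q' : V} (h : Con T q q') (hqT : q ∈ T) (hq : q ∈ S) (hq' : q' ∉ S) :
    ∃ a b, Adj a b ∧ a ∈ T ∧ b ∈ T ∧ a ∈ S ∧ b ∉ S := by
  induction h with
  | refl => exact absurd hq hq'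
  | @tail b c h1 h2 ih =>
    by_cases hb : b ∈ S
    · exact ⟨b, c, h2.1, Con.mem h1 hqT, h2.2, hb, hq'⟩
    · exact ih hb

end Crest.Agent.R158.Sp896
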