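import Crest.Agent.R158.Sp0_580

/-!
# Row 158, Block SEP (helper580): extension of the nice event

* `tubeE_box`, `tubeR_box` : location of tubes
* `ext_h`, `ext_v` : a gate crossing is prolonged by a row / column of cells to a new gate
* `nice_ext` : `c ^ 400 * P (Nice e n s t) ≤ P (Nice e (2 n) s t)` if both colours have `xpr ≥ c` at scale `n`
-/

set_option autoImplicit false
set_option linter.constructorNameAsVariable false

noncomputable section

namespace Crest.Agent.R158.Sp580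

open MeasureTheory ProbabilityTheory unitInterval
open Crest.Agent.R161.Geo729 Crest.Agent.R161.Topo374 Crest.Agent.R161.Dual374
open Crest.Agent.R161.Tas682 Crest.Agent.R158.Rs689 Crest.Agent.R158.Ru874

/-- all cells of `K` lie in the rectangle -/
def InC (K : Finset P2) (i0 i1 j0 j1 : ℤ) : Prop :=
  ∀ k ∈ K, i0 ≤ k.1 ∧ k.1 ≤ i1 ∧ j0 ≤ k.2 ∧ k.2 ≤ j1

theorem mul_bd {n : ℕ} {a b : ℤ} (h : a ≤ b) : a * (n : ℤ) ≤ b * n :=
  mul_le_mul_of_nonneg_right h (by positivity)

theorem tubeE_box {n : ℕ} {K : Finset P2} {i0 i1 j0 j1 : ℤ} (hK : InC K i0 i1 j0 j1) {e : Edge}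
    (he : e ∈ tubeE n K) :
    (i0 * n - n ≤ (src e).1 ∧ (src e).1 ≤ i1 * n + 2 * n ∧ j0 * n - n ≤ (src e).2 ∧
      (src e).2 ≤ j1 * n + 2 * n) ∧
    (i0 * n - n ≤ (tgt e).1 ∧ (tgt e).1 ≤ i1 * n + 2 * n ∧ j0 * n - n ≤ (tgt e).2 ∧
      (tgt e).2 ≤ j1 * n + 2 * n) := by
  classical
  unfold tubeE at he
  rw [Finset.mem_biUnion] at he
  obtain ⟨k, hk, he⟩ := he
  have h1 := mem_cellE he
  obtain ⟨h2, h3, h4, h5⟩ := hK k hk
  have b1 := mul_bd (n := n) h2
  have b2 := mul_bd (n := n) h3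
  have b3 := mul_bd (n := n) h4
  have b4 := mul_bd (n := n) h5
  omega

theorem tubeR_box {n : ℕ} {K : Finset P2} {i0 i1 j0 j1 : ℤ} (hK : InC K i0 i1 j0 j1) {w : P2}
    (hw : w ∈ tubeR n K) : i0 * n - n ≤ w.1 ∧ w.1 ≤ i1 * n + 2 * n ∧ j0 * n - n ≤ w.2 ∧
      w.2 ≤ j1 * n + 2 * n := by
  simp only [tubeR, Set.mem_iUnion] at hw
  obtain ⟨k, hk, hw⟩ := hw
  have h1 := mem_plusR hw
  obtain ⟨h2, h3, h4, h5⟩ := hK k hk
  have b1 := mul_bd (n := n) h2
  have b2 := mul_bd (n := n) h3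
  have b3 := mul_bd (n := n) h4
  have b4 := mul_bd (n := n) h5
  omega

theorem tubeE_union (n : ℕ) (K K' : Finset P2) : ∀ e : Edge,
    e ∈ tubeE n (K ∪ K') ↔ e ∈ tubeE n K ∨ e ∈ tubeE n K' := by
  classical
  intro e
  unfold tubeE
  simp only [Finset.mem_biUnion, Finset.mem_union]
  constructor
  · rintro ⟨k, h | h, he⟩
    · exact Or.inl ⟨k, h, he⟩
    · exact Or.inr ⟨k, h, he⟩
  · rintro (⟨k, h, he⟩ | ⟨k, h, he⟩)
    · exact ⟨k, Or.inl h, he⟩
    · exact ⟨k, Or.inr h, he⟩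

/-- the primal edge of a dual edge -/
theorem dual_loc (e : Edge) : ((src e).1 ≤ (src (dE.symm e)).1 ∧
    (src (dE.symm e)).1 ≤ (src e).1 + 1 ∧ (src e).2 ≤ (src (dE.symm e)).2 ∧
    (src (dE.symm e)).2 ≤ (src e).2 + 1) := by
  obtain ⟨⟨i, j⟩, b⟩ := e
  cases b <;> simp

/-! ### prolonging a gate crossing -/

/-- horizontal prolongation -/
theorem ext_h {z : Cf} {n : ℕ} {K : Finset P2} (hz : z ∈ tubeX n K) {i0 i1 c j0 j1 m : ℤ}
    (hi : i0 ≤ i1) (hc : c = i0 ∨ c = i1) (hj0 : j0 ≤ 0) (hj1 : 0 ≤ j1)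
    (hrow : rowC i0 i1 0 ⊆ K) (hcol : colC c j0 j1 ⊆ K) (hm : 2 * (n : ℤ) ≤ m)
    {D G : Set P2} {u A B : P2} (hu : OC z D u A) (hAB : OC z G A B)
    (hy : (A.2 ≤ -m ∧ m ≤ B.2) ∨ (m ≤ A.2 ∧ B.2 ≤ -m))
    (hG : ∀ w ∈ G, i0 * n - n ≤ w.1 ∧ w.1 ≤ i1 * n + 2 * n) :
    ∃ A' B' : P2, A'.2 = j0 * n - n ∧ B'.2 = j1 * n + 2 * n ∧
      OC z (tubeR n (colC c j0 j1)) A' B' ∧ OC z (D ∪ G ∪ tubeR n K) u A' := by
  obtain ⟨a, b, v, ha, hb, hv, h1, h2⟩ := row_path hz hi hrow
  obtain ⟨A', B', v', hA', hB', hv', h1', h2'⟩ := col_path hz (hj0.trans hj1) hcol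
  have hS : ∀ w ∈ tubeR n (rowC i0 i1 0), -(n : ℤ) ≤ w.2 ∧ w.2 ≤ 2 * n := by
    intro w hw
    have := mem_tubeR_row hw
    omega
  obtain ⟨w, hw1, hw2⟩ : ∃ w, OC z (tubeR n (rowC i0 i1 0)) a w ∧ OC z G A w := by
    rcases hy with ⟨y1, y2⟩ | ⟨y1, y2⟩
    · exact glue h1 hAB (fun w hw => by have := hS w hw; omega) (fun w hw => by
        have := hG w hw; omega)
    · obtain ⟨w, h3, h4⟩ := glue h1 hAB.symm (fun w hw => by have := hS w hw; omega)
        (fun w hw => by have := hG w hw; omega)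
      exact ⟨w, h3, hAB.trans h4⟩
  have m0 : ((i0, 0) : P2) ∈ K := hrow (mem_rowC.2 ⟨le_rfl, hi, rfl⟩)
  have hconn : CConn (K : Set P2) (i0, 0) (c, j0) := by
    have hcc : CConn (K : Set P2) (c, j0) (c, 0) := col_conn' hj0 fun j h3 h4 =>
      hcol (mem_colC.2 ⟨rfl, h3, h4.trans hj1⟩)
    rcases hc with rfl | rfl
    · exact hcc.symm
    · exact (row_conn' hi fun i h3 h4 => hrow (mem_rowC.2 ⟨h3, h4, rfl⟩)).trans hcc.symm
  have ht := tube hz m0 hconn hv hv'
  refine ⟨A', B', hA', hB', h1', ?_⟩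
  have s1 : D ⊆ D ∪ G ∪ tubeR n K := Set.subset_union_left.trans Set.subset_union_left
  have s2 : G ⊆ D ∪ G ∪ tubeR n K := Set.subset_union_right.trans Set.subset_union_left
  have s3 : tubeR n K ⊆ D ∪ G ∪ tubeR n K := Set.subset_union_right
  exact (((((hu.monoS s1).trans (hw2.monoS s2)).trans
    (hw1.symm.monoS ((tubeR_mono n hrow).trans s3))).trans
    (h2.symm.monoS ((tubeR_mono n hrow).trans s3))).trans (ht.monoS s3)).trans
    (h2'.monoS ((tubeR_mono n hcol).trans s3))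

/-- vertical prolongation -/
theorem ext_v {z : Cf} {n : ℕ} {K : Finset P2} (hz : z ∈ tubeX n K) {i0 i1 c j0 j1 m : ℤ}
    (hi : i0 ≤ i1) (hc : c = i0 ∨ c = i1) (hj0 : j0 ≤ 0) (hj1 : 0 ≤ j1)
    (hcol : colC 0 i0 i1 ⊆ K) (hrow : rowC j0 j1 c ⊆ K) (hm : 2 * (n : ℤ) ≤ m)
    {D G : Set P2} {u A B : P2} (hu : OC z D u A) (hAB : OC z G A B)
    (hy : (A.1 ≤ -m ∧ m ≤ B.1) ∨ (m ≤ A.1 ∧ B.1 ≤ -m))
    (hG : ∀ w ∈ G, i0 * n - n ≤ w.2 ∧ w.2 ≤ i1 * n + 2 * n) :
    ∃ A' B' : P2, A'.1 = j0 * n - n ∧ B'.1 = j1 * n + 2 * n ∧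
      OC z (tubeR n (rowC j0 j1 c)) A' B' ∧ OC z (D ∪ G ∪ tubeR n K) u A' := by
  obtain ⟨a, b, v, ha, hb, hv, h1, h2⟩ := col_path hz hi hcol
  obtain ⟨A', B', v', hA', hB', hv', h1', h2'⟩ := row_path hz (hj0.trans hj1) hrow
  have hS : ∀ w ∈ tubeR n (colC 0 i0 i1), -(n : ℤ) ≤ w.1 ∧ w.1 ≤ 2 * n := by
    intro w hw
    have := mem_tubeR_col hw
    omega
  obtain ⟨w, hw1, hw2⟩ : ∃ w, OC z (tubeR n (colC 0 i0 i1)) a w ∧ OC z G A w := by
    rcases hy with ⟨y1, y2⟩ | ⟨y1, y2⟩
    · obtain ⟨w, h3, h4⟩ := glue hAB h1 (fun w hw => by have := hG w hw; omega) (fun w hw => by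
        have := hS w hw; omega)
      exact ⟨w, h4, h3⟩
    · obtain ⟨w, h3, h4⟩ := glue hAB.symm h1 (fun w hw => by have := hG w hw; omega)
        (fun w hw => by have := hS w hw; omega)
      exact ⟨w, h4, hAB.trans h3⟩
  have m0 : ((0, i0) : P2) ∈ K := hcol (mem_colC.2 ⟨rfl, le_rfl, hi⟩)
  have hconn : CConn (K : Set P2) (0, i0) (j0, c) := by
    have hcc : CConn (K : Set P2) (j0, c) (0, c) := row_conn' hj0 fun j h3 h4 =>
      hrow (mem_rowC.2 ⟨h3, h4.trans hj1, rfl⟩)
    rcases hc with rfl | rfl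
    · exact hcc.symm
    · exact (col_conn' hi fun i h3 h4 => hcol (mem_colC.2 ⟨rfl, h3, h4⟩)).trans hcc.symm
  have ht := tube hz m0 hconn hv hv'
  refine ⟨A', B', hA', hB', h1', ?_⟩
  have s1 : D ⊆ D ∪ G ∪ tubeR n K := Set.subset_union_left.trans Set.subset_union_left
  have s2 : G ⊆ D ∪ G ∪ tubeR n K := Set.subset_union_right.trans Set.subset_union_left
  have s3 : tubeR n K ⊆ D ∪ G ∪ tubeR n K := Set.subset_union_right
  exact (((((hu.monoS s1).trans (hw2.monoS s2)).trans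
    (hw1.symm.monoS ((tubeR_mono n hcol).trans s3))).trans
    (h2.symm.monoS ((tubeR_mono n hcol).trans s3))).trans (ht.monoS s3)).trans
    (h2'.monoS ((tubeR_mono n hrow).trans s3))

/-! ### the cells of the extension -/

/-- cells of the prolongation in direction `d` -/
def XC (d : Fin 4) : Finset P2 :=
  match d with
  | 0 => rowC 21 50 0 ∪ colC 50 (-7) 6
  | 1 => colC 0 21 50 ∪ rowC (-7) 6 50
  | 2 => rowC (-51) (-22) 0 ∪ colC (-51) (-7) 6
  | 3 => colC 0 (-51) (-22) ∪ rowC (-7) 6 (-51)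

theorem XC_in0 : InC (XC 0) 21 50 (-7) 6 := by
  intro k hk
  simp only [XC, Finset.mem_union, mem_rowC, mem_colC] at hk
  omega

theorem XC_in1 : InC (XC 1) (-7) 6 21 50 := by
  intro k hk
  simp only [XC, Finset.mem_union, mem_rowC, mem_colC] at hk
  omega

theorem XC_in2 : InC (XC 2) (-51) (-22) (-7) 6 := by
  intro k hk
  simp only [XC, Finset.mem_union, mem_rowC, mem_colC] at hk
  omega

theorem XC_in3 : InC (XC 3) (-7) 6 (-51) (-22) := by
  intro k hk
  simp only [XC, Finset.mem_union, mem_rowC, mem_colC] at hk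
  omega

theorem garm_ext {z : Cf} {n : ℕ} {d : Fin 4} {u : P2} (h : GArm z d n u)
    (hz : z ∈ tubeX n (XC d)) : GArm z d (2 * n) u := by
  obtain ⟨A, B, hA, hB, hAB, hu⟩ := h
  have hn : (0 : ℤ) ≤ n := by positivity
  have key : ∀ {D' : Set P2} {A' : P2},
      OC z ((Sq (16 * n) ∪ Corr d n) ∪ Gate d n ∪ tubeR n (XC d)) u A' →
      (∀ w ∈ tubeR n (XC d), w ∈ Sq (16 * ((2 * n : ℕ) : ℤ)) ∪ Corr d (2 * n)) →
      OC z (Sq (16 * ((2 * n : ℕ) : ℤ)) ∪ Corr d (2 * n)) u A' := by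
    intro _ A' h1 h2
    refine h1.monoS ?_
    have h3 : Sq (16 * n) ∪ Corr d n ⊆ Sq (16 * ((2 * n : ℕ) : ℤ)) ∪ Corr d (2 * n) := by
      refine Set.union_subset (Set.Subset.trans (Sq_sub ?_) Set.subset_union_left)
        (Set.Subset.trans ((Corr_sub d n).trans (Sq_sub ?_)) Set.subset_union_left) <;>
        push_cast <;> omega
    exact Set.union_subset (Set.union_subset h3 (((Gate_sub d n).trans
      Set.subset_union_right).trans h3)) h2
  fin_cases d
  · -- east
    simp only [co, Fin.zero_eta] at hA hB ⊢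
    obtain ⟨A', B', hA', hB', h1, h2⟩ := ext_h hz (i0 := 21) (i1 := 50) (c := 50) (j0 := -7)
      (j1 := 6) (m := 4 * n) (by norm_num) (Or.inr rfl) (by norm_num) (by norm_num)
      Finset.subset_union_left Finset.subset_union_right (by omega) hu hAB
      (Or.inl ⟨hA, hB⟩) (fun w hw => by
        obtain ⟨h1, h2, h3, h4⟩ := hw
        simp only [co] at h1 h2 h3 h4
        omega)
    refine ⟨A', B', ?_, ?_, h1.monoS ?_, key (D' := ∅) h2 ?_⟩
    · simp only [co]; push_cast; omega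
    · simp only [co]; push_cast; omega
    · intro w hw
      have := mem_tubeR_col hw
      refine ⟨?_, ?_, ?_, ?_⟩ <;> simp only [co] <;> push_cast <;> omega
    · intro w hw
      have := tubeR_box XC_in0 hw
      by_cases hx : w.1 ≤ 32 * n
      · left
        rw [mem_Sq]
        push_cast
        omega
      · right
        refine ⟨?_, ?_, ?_, ?_⟩ <;> simp only [co] <;> push_cast <;> omega
  · -- north
    simp only [co, Fin.mk_one] at hA hB ⊢
    obtain ⟨A', B', hA', hB', h1, h2⟩ := ext_v hz (i0 := 21) (i1 := 50) (c := 50) (j0 := -7)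
      (j1 := 6) (m := 4 * n) (by norm_num) (Or.inr rfl) (by norm_num) (by norm_num)
      Finset.subset_union_left Finset.subset_union_right (by omega) hu hAB
      (Or.inr ⟨by omega, by omega⟩) (fun w hw => by
        obtain ⟨h1, h2, h3, h4⟩ := hw
        simp only [co] at h1 h2 h3 h4
        omega)
    have hs : tubeR n (rowC (-7) 6 50) ⊆ Gate 1 (2 * n) := by
      intro w hw
      have := mem_tubeR_row hw
      refine ⟨?_, ?_, ?_, ?_⟩ <;> simp only [co] <;> push_cast <;> omega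
    have h4 : OC z (Sq (16 * ((2 * n : ℕ) : ℤ)) ∪ Corr 1 (2 * n)) u A' := by
      refine key (D' := ∅) h2 fun w hw => ?_
      have := tubeR_box XC_in1 hw
      by_cases hx : w.2 ≤ 32 * n
      · left
        rw [mem_Sq]
        push_cast
        omega
      · right
        refine ⟨?_, ?_, ?_, ?_⟩ <;> simp only [co] <;> push_cast <;> omega
    refine ⟨B', A', ?_, ?_, h1.symm.monoS hs, h4.trans (h1.monoS ?_)⟩
    · simp only [co]; push_cast; omega
    · simp only [co]; push_cast; omega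
    · exact hs.trans ((Gate_sub 1 _).trans Set.subset_union_right)
  · -- west
    simp only [co, Fin.reduceFinMk] at hA hB ⊢
    obtain ⟨A', B', hA', hB', h1, h2⟩ := ext_h hz (i0 := -51) (i1 := -22) (c := -51) (j0 := -7)
      (j1 := 6) (m := 4 * n) (by norm_num) (Or.inl rfl) (by norm_num) (by norm_num)
      Finset.subset_union_left Finset.subset_union_right (by omega) hu hAB
      (Or.inr ⟨by omega, by omega⟩) (fun w hw => by
        obtain ⟨h1, h2, h3, h4⟩ := hw
        simp only [co, Fin.reduceFinMk] at h1 h2 h3 h4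
        omega)
    have hs : tubeR n (colC (-51) (-7) 6) ⊆ Gate 2 (2 * n) := by
      intro w hw
      have := mem_tubeR_col hw
      refine ⟨?_, ?_, ?_, ?_⟩ <;> simp only [co] <;> push_cast <;> omega
    have h4 : OC z (Sq (16 * ((2 * n : ℕ) : ℤ)) ∪ Corr 2 (2 * n)) u A' := by
      refine key (D' := ∅) h2 fun w hw => ?_
      have := tubeR_box XC_in2 hw
      by_cases hx : -(32 * (n : ℤ)) ≤ w.1
      · left
        rw [mem_Sq]
        push_cast
        omega
      · right
        refine ⟨?_, ?_, ?_, ?_⟩ <;> simp only [co] <;> push_cast <;> omega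
    refine ⟨B', A', ?_, ?_, h1.symm.monoS hs, h4.trans (h1.monoS ?_)⟩
    · simp only [co]; push_cast; omega
    · simp only [co]; push_cast; omega
    · exact hs.trans ((Gate_sub 2 _).trans Set.subset_union_right)
  · -- south
    simp only [co, Fin.reduceFinMk] at hA hB ⊢
    obtain ⟨A', B', hA', hB', h1, h2⟩ := ext_v hz (i0 := -51) (i1 := -22) (c := -51) (j0 := -7)
      (j1 := 6) (m := 4 * n) (by norm_num) (Or.inl rfl) (by norm_num) (by norm_num)
      Finset.subset_union_left Finset.subset_union_right (by omega) hu hAB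
      (Or.inl ⟨by omega, by omega⟩) (fun w hw => by
        obtain ⟨h1, h2, h3, h4⟩ := hw
        simp only [co, Fin.reduceFinMk] at h1 h2 h3 h4
        omega)
    refine ⟨A', B', ?_, ?_, h1.monoS ?_, key (D' := ∅) h2 ?_⟩
    · simp only [co]; push_cast; omega
    · simp only [co]; push_cast; omega
    · intro w hw
      have := mem_tubeR_row hw
      refine ⟨?_, ?_, ?_, ?_⟩ <;> simp only [co] <;> push_cast <;> omega
    · intro w hw
      have := tubeR_box XC_in3 hw
      by_cases hx : -(32 * (n : ℤ)) ≤ w.2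
      · left
        rw [mem_Sq]
        push_cast
        omega
      · right
        refine ⟨?_, ?_, ?_, ?_⟩ <;> simp only [co] <;> push_cast <;> omega

/-! ### probability -/

theorem XC_card (d : Fin 4) : (XC d).card ≤ 44 := by
  have h1 : ∀ i0 i1 j : ℤ, (rowC i0 i1 j).card = (i1 + 1 - i0).toNat := by
    intro i0 i1 j
    rw [rowC, Finset.card_product, Int.card_Icc, Finset.card_singleton, mul_one]
  have h2 : ∀ i j0 j1 : ℤ, (colC i j0 j1).card = (j1 + 1 - j0).toNat := by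
    intro i j0 j1
    rw [colC, Finset.card_product, Int.card_Icc, Finset.card_singleton, one_mul]
  fin_cases d <;> refine (Finset.card_union_le _ _).trans ?_ <;> rw [h1, h2] <;> omega

/-- tubes do not see an edge which is not in their support -/
theorem tubeX_frc {n : ℕ} {K : Finset P2} {z : Cf} {e : Edge} (b : Bool) (he : e ∉ tubeE n K)
    (hz : z ∈ tubeX n K) : frc e b z ∈ tubeX n K := by
  refine (tubeX_dep n K z _ fun i hi => ?_).1 hz
  refine (frc_ne ?_ b z).symm
  rintro rfl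
  exact he hi

/-- the same for dual tubes -/
theorem tubeX_frc_dual {n : ℕ} {K : Finset P2} {z : Cf} {e : Edge} (b : Bool)
    (he : dE e ∉ tubeE n K) (hz : dual z ∈ tubeX n K) : dual (frc e b z) ∈ tubeX n K := by
  refine (tubeX_dep n K _ _ fun i hi => ?_).1 hz
  show (!z (dE.symm i)) = !(frc e b z (dE.symm i))
  rw [frc_ne]
  rintro rfl
  rw [Equiv.apply_symm_apply] at he
  exact he hi

theorem dE_loc (e : Edge) : ((src (dE e)).1 ≤ (src e).1 ∧ (src e).1 ≤ (src (dE e)).1 + 1 ∧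
    (src (dE e)).2 ≤ (src e).2 ∧ (src e).2 ≤ (src (dE e)).2 + 1) := by
  have h := dual_loc (dE e)
  rwa [Equiv.symm_apply_apply] at h

theorem nice_ext {c : ℝ} {p : I} {n : ℕ} (hn : 1 ≤ n) (h : RSp c p n) {e : Edge}
    (he0 : src e = (0, 0)) (s t : Bool) :
    c ^ 352 * (nu p).real (Nice e n s t) ≤ (nu p).real (Nice e (2 * n) s t) := by
  classical
  have hn' : (1 : ℤ) ≤ n := by exact_mod_cast hn
  have k1 : (XC 0 ∪ XC 2).card ≤ 88 :=
    (Finset.card_union_le _ _).trans (by have := XC_card 0; have := XC_card 2; omega)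
  have k2 : (XC 1 ∪ XC 3).card ≤ 88 :=
    (Finset.card_union_le _ _).trans (by have := XC_card 1; have := XC_card 3; omega)
  have q1 := (h.tube hn le_rfl k1).1
  have q2 := (h.tube hn le_rfl k2).2
  have d1 : Disjoint (edF (NVP n)) ((tubeE n (XC 1 ∪ XC 3)).map dE.symm.toEmbedding) := by
    rw [Finset.disjoint_left]
    intro e he he'
    rw [Finset.mem_map] at he'
    obtain ⟨e', he', rfl⟩ := he'
    have h1 := (of_mem_edF he).1
    have h2 := dual_loc e'
    rw [tubeE_union] at he'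
    simp only [Equiv.coe_toEmbedding] at h1
    rcases he' with he' | he'
    · have h3 := tubeE_box XC_in1 he'
      rcases h1 with h1 | h1 | h1
      · rw [mem_Sq] at h1; omega
      · obtain ⟨a1, a2, a3, a4⟩ := h1
        simp only [co] at a1 a2 a3 a4
        omega
      · obtain ⟨a1, a2, a3, a4⟩ := h1
        simp only [co] at a1 a2 a3 a4
        omega
    · have h3 := tubeE_box XC_in3 he'
      rcases h1 with h1 | h1 | h1
      · rw [mem_Sq] at h1; omega
      · obtain ⟨a1, a2, a3, a4⟩ := h1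
        simp only [co] at a1 a2 a3 a4
        omega
      · obtain ⟨a1, a2, a3, a4⟩ := h1
        simp only [co] at a1 a2 a3 a4
        omega
  have d2 : Disjoint ((edF (NVD n)).map dE.symm.toEmbedding) (tubeE n (XC 0 ∪ XC 2)) := by
    rw [Finset.disjoint_left]
    intro e he' he
    rw [Finset.mem_map] at he'
    obtain ⟨e', he', rfl⟩ := he'
    have h1 := (of_mem_edF he').1
    have h2 := dual_loc e'
    rw [tubeE_union] at he
    simp only [Equiv.coe_toEmbedding] at he
    rcases he with he | he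
    · have h3 := tubeE_box XC_in0 he
      rcases h1 with h1 | h1 | h1
      · rw [mem_Sq] at h1; omega
      · obtain ⟨a1, a2, a3, a4⟩ := h1
        simp only [co] at a1 a2 a3 a4
        omega
      · obtain ⟨a1, a2, a3, a4⟩ := h1
        simp only [co] at a1 a2 a3 a4
        omega
    · have h3 := tubeE_box XC_in2 he
      rcases h1 with h1 | h1 | h1
      · rw [mem_Sq] at h1; omega
      · obtain ⟨a1, a2, a3, a4⟩ := h1
        simp only [co] at a1 a2 a3 a4
        omega
      · obtain ⟨a1, a2, a3, a4⟩ := h1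
        simp only [co] at a1 a2 a3 a4
        omega
  have d3 : Disjoint (tubeE n (XC 0 ∪ XC 2))
      ((tubeE n (XC 1 ∪ XC 3)).map dE.symm.toEmbedding) := by
    rw [Finset.disjoint_left]
    intro e he he'
    rw [Finset.mem_map] at he'
    obtain ⟨e', he', rfl⟩ := he'
    have h2 := dual_loc e'
    rw [tubeE_union] at he he'
    simp only [Equiv.coe_toEmbedding] at he
    rcases he with he | he <;> rcases he' with he' | he'
    · have h3 := tubeE_box XC_in0 he
      have h4 := tubeE_box XC_in1 he'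
      omega
    · have h3 := tubeE_box XC_in0 he
      have h4 := tubeE_box XC_in3 he'
      omega
    · have h3 := tubeE_box XC_in2 he
      have h4 := tubeE_box XC_in1 he'
      omega
    · have h3 := tubeE_box XC_in2 he
      have h4 := tubeE_box XC_in3 he'
      omega
  have hg := gen_fkg_dual p (dep_NiceP e n s) (dep_NiceD e n t) (tubeX_dep n (XC 0 ∪ XC 2))
    (tubeX_dep n (XC 1 ∪ XC 3)) d1 d2 d3 (inc_NiceP e n s) (decr_NiceD e n t) (tubeX_inc _ _)
    (tubeX_inc _ _)
  have hsub : (NiceP e n s ∩ NiceD e n t) ∩ (tubeX n (XC 0 ∪ XC 2) ∩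
      Rs689.dual ⁻¹' tubeX n (XC 1 ∪ XC 3)) ⊆ Nice e (2 * n) s t := by
    rintro z ⟨⟨⟨a1, a2⟩, ⟨a3, a4⟩⟩, hz1, hz2⟩
    have e0 := tubeX_mono (n := n) (Finset.subset_union_left (s₁ := XC 0) (s₂ := XC 2)) hz1
    have e2 := tubeX_mono (n := n) (Finset.subset_union_right (s₁ := XC 0) (s₂ := XC 2)) hz1
    have e1 : Rs689.dual z ∈ tubeX n (XC 1) :=
      tubeX_mono (n := n) (Finset.subset_union_left (s₁ := XC 1) (s₂ := XC 3)) hz2
    have e3 : Rs689.dual z ∈ tubeX n (XC 3) :=
      tubeX_mono (n := n) (Finset.subset_union_right (s₁ := XC 1) (s₂ := XC 3)) hz2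
    have s1 : (src e).1 = 0 := by rw [he0]
    have s2 : (src e).2 = 0 := by rw [he0]
    have s3 := dE_loc e
    have f0 := tubeX_frc (e := e) false (fun he => by have := tubeE_box XC_in0 he; omega) e0
    have f2 := tubeX_frc (e := e) false (fun he => by have := tubeE_box XC_in2 he; omega) e2
    have f1 := tubeX_frc_dual (e := e) true (fun he => by have := tubeE_box XC_in1 he; omega) e1
    have f3 := tubeX_frc_dual (e := e) true (fun he => by have := tubeE_box XC_in3 he; omega) e3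
    refine ⟨⟨?_, ?_⟩, ⟨?_, ?_⟩⟩
    · cases s
      · exact garm_ext a1 f2
      · exact garm_ext a1 f0
    · cases s
      · exact garm_ext a2 f0
      · exact garm_ext a2 f2
    · cases t
      · exact garm_ext a3 f3
      · exact garm_ext a3 f1
    · cases t
      · exact garm_ext a4 f1
      · exact garm_ext a4 f3
  have h0 : (0 : ℝ) ≤ (nu p).real (NiceP e n s ∩ NiceD e n t) := measureReal_nonneg
  calc c ^ 352 * (nu p).real (Nice e n s t)
      = (nu p).real (NiceP e n s ∩ NiceD e n t) * (c ^ (2 * 88) * c ^ (2 * 88)) := by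
        rw [Nice]; ring
    _ ≤ (nu p).real (NiceP e n s ∩ NiceD e n t) * ((nu p).real (tubeX n (XC 0 ∪ XC 2)) *
        (nu (σ p)).real (tubeX n (XC 1 ∪ XC 3))) := by
        refine mul_le_mul_of_nonneg_left ?_ h0
        exact mul_le_mul q1 q2 (pow_nonneg h.1.le _) measureReal_nonneg
    _ ≤ _ := hg
    _ ≤ _ := measureReal_mono hsub

end Crest.Agent.R158.Sp580
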