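import Crest.Agent.R158.Jt3_785

/-! R158 (helper896) BLOCK SP, file 1: polar coordinates of the closed Jordan domain of S0237 and the
compactness constants used for the sandwich polygons. -/

set_option autoImplicit false

open Set Topology Filter Metric
open Crest Crest.ProbabilityR Crest.ProbabilityR.Percolation
open Crest.Agent.R158.Jt785

namespace Crest.Agent.R158.Sp896

/-- polar coordinates of `closure D` centred at `Ψ 0 0`, the boundary being `γ` -/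
structure Pol (γ : ℝ → ℂ) (Ψ : ℝ → ℝ → ℂ) (D : Set ℂ) : Prop where
  cont : ContinuousOn (fun p : ℝ × ℝ => Ψ p.1 p.2) (Icc (0:ℝ) 1 ×ˢ (univ : Set ℝ))
  per : ∀ r t, Ψ r (t + 1) = Ψ r t
  one : ∀ t ∈ Icc (0:ℝ) 1, Ψ 1 t = γ t
  zero : ∀ t, Ψ 0 t = Ψ 0 0
  inj : ∀ r ∈ Icc (0:ℝ) 1, ∀ r' ∈ Icc (0:ℝ) 1, ∀ t ∈ Icc (0:ℝ) 1, ∀ t' ∈ Icc (0:ℝ) 1,
    Ψ r t = Ψ r' t' → r = r' ∧ (r = 0 ∨ t = t' ∨ t = t' + 1 ∨ t' = t + 1)
  mem : ∀ r ∈ Icc (0:ℝ) 1, ∀ t, Ψ r t ∈ closure D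
  surj : ∀ z ∈ closure D, ∃ r ∈ Icc (0:ℝ) 1, ∃ t ∈ Icc (0:ℝ) 1, Ψ r t = z
  opn : ∀ r0 : ℝ, 0 < r0 → r0 ≤ 1 → IsOpen {z : ℂ | ∃ r ∈ Ico (0:ℝ) r0, ∃ t ∈ Icc (0:ℝ) 1, Ψ r t = z}

theorem exists_pol {γ : ℝ → ℂ} {φ : ℂ → ℂ} (h : Unif γ φ) :
    ∃ Ψ : ℝ → ℝ → ℂ, Pol γ Ψ (jordanInterior γ) := by
  obtain ⟨ψ, hc, h1, h2, h3⟩ := h.exists_inv
  set g : ℝ → ℂ := fun t => φ (γ (Int.fract t)) with hg
  have hsub : ∀ s ∈ Icc (0:ℝ) 1, γ s ∈ curveTrace γ := fun s hs => mem_image_of_mem _ hs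
  have hgc : Continuous g := by
    have h4 : ContinuousOn (fun s => φ (γ s)) (Icc 0 1) :=
      h.cont.comp h.jc.1 (fun s hs => h.tr_subset (hsub s hs))
    have h5 := ContinuousOn.comp_fract'' h4 (by show φ (γ 0) = φ (γ 1); rw [h.jc.2.2])
    exact h5
  have hfr : ∀ t : ℝ, Int.fract t ∈ Icc (0:ℝ) 1 := fun t => ⟨Int.fract_nonneg t, (Int.fract_lt_one t).le⟩
  have hgn : ∀ t, ‖g t‖ = 1 := fun t => h.norm_eq (hsub _ (hfr t))
  have hg1 : ∀ t ∈ Icc (0:ℝ) 1, g t = φ (γ t) := by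
    intro t ht
    rcases eq_or_lt_of_le ht.2 with h6 | h6
    · subst h6
      simp only [hg, Int.fract_one, h.jc.2.2]
    · simp only [hg, Int.fract_eq_self.2 ⟨ht.1, h6⟩]
  have hball : ∀ r ∈ Icc (0:ℝ) 1, ∀ t, (r : ℂ) * g t ∈ closedBall (0:ℂ) 1 := by
    intro r hr t
    rw [mem_closedBall_zero_iff, norm_mul, hgn, mul_one, Complex.norm_real, Real.norm_eq_abs,
      abs_of_nonneg hr.1]
    exact hr.2
  have hinj : ∀ t ∈ Icc (0:ℝ) 1, ∀ t' ∈ Icc (0:ℝ) 1, g t = g t' → t = t' ∨ t = t' + 1 ∨ t' = t + 1 := by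
    intro t ht t' ht' he
    rw [hg1 t ht, hg1 t' ht'] at he
    have he' := h.inj (h.tr_subset (hsub t ht)) (h.tr_subset (hsub t' ht')) he
    rcases eq_or_lt_of_le ht.2 with h6 | h6
    · rcases eq_or_lt_of_le ht'.2 with h7 | h7
      · left; rw [h6, h7]
      · subst h6
        rw [← h.jc.2.2] at he'
        have := h.jc.2.1 (⟨le_rfl, one_pos⟩ : (0:ℝ) ∈ Ico (0:ℝ) 1) ⟨ht'.1, h7⟩ he'
        right; left; rw [← this]; ring
    · rcases eq_or_lt_of_le ht'.2 with h7 | h7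
      · subst h7
        rw [← h.jc.2.2] at he'
        have := h.jc.2.1 ⟨ht.1, h6⟩ (⟨le_rfl, one_pos⟩ : (0:ℝ) ∈ Ico (0:ℝ) 1) he'
        right; right; rw [this]; ring
      · left
        exact h.jc.2.1 ⟨ht.1, h6⟩ ⟨ht'.1, h7⟩ he'
  have hsurj : ∀ w : ℂ, ‖w‖ ≤ 1 → ∃ r ∈ Icc (0:ℝ) 1, ∃ t ∈ Icc (0:ℝ) 1, (r : ℂ) * g t = w ∧ r = ‖w‖ := by
    intro w hw
    by_cases h0 : w = 0
    · exact ⟨0, ⟨le_rfl, zero_le_one⟩, 0, ⟨le_rfl, zero_le_one⟩, by rw [h0]; simp, by rw [h0]; simp⟩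
    · have hn : ‖w‖ ≠ 0 := norm_ne_zero_iff.2 h0
      have h8 : w / ‖w‖ ∈ sphere (0:ℂ) 1 := by
        rw [mem_sphere_zero_iff_norm, norm_div, Complex.norm_real, norm_norm, div_self hn]
      rw [← h.img_tr] at h8
      obtain ⟨z, ⟨t, ht, rfl⟩, hz⟩ := h8
      refine ⟨‖w‖, ⟨norm_nonneg _, hw⟩, t, ht, ?_, rfl⟩
      rw [hg1 t ht, hz, mul_div_cancel₀ _ (Complex.ofReal_ne_zero.2 hn)]
  refine ⟨fun r t => ψ (r * g t), ?_, ?_, ?_, ?_, ?_, ?_, ?_, ?_⟩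
  · refine hc.comp ?_ (fun p hp => hball p.1 hp.1 p.2)
    exact ((Complex.continuous_ofReal.comp continuous_fst).mul (hgc.comp continuous_snd)).continuousOn
  · intro r t
    simp only [hg, Int.fract_add_one]
  · intro t ht
    simp only [Complex.ofReal_one, one_mul, hg1 t ht]
    exact h1 _ (h.tr_subset (hsub t ht))
  · intro t
    simp
  · intro r hr r' hr' t ht t' ht' he
    have h4 := congrArg φ he
    simp only [(h2 _ (hball r hr t)).1, (h2 _ (hball r' hr' t')).1] at h4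
    have h5 : r = r' := by
      have := congrArg norm h4
      rw [norm_mul, norm_mul, hgn, hgn, mul_one, mul_one, Complex.norm_real, Complex.norm_real,
        Real.norm_eq_abs, Real.norm_eq_abs, abs_of_nonneg hr.1, abs_of_nonneg hr'.1] at this
      exact this
    refine ⟨h5, ?_⟩
    by_cases h0 : r = 0
    · exact Or.inl h0
    · right
      rw [← h5] at h4
      exact hinj t ht t' ht' (mul_left_cancel₀ (Complex.ofReal_ne_zero.2 h0) h4)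
  · intro r hr t
    exact (h2 _ (hball r hr t)).2
  · intro z hz
    have h4 : φ z ∈ closedBall (0:ℂ) 1 := by
      rw [← h.img_closure]
      exact mem_image_of_mem _ hz
    obtain ⟨r, hr, t, ht, he, -⟩ := hsurj (φ z) (by simpa using h4)
    exact ⟨r, hr, t, ht, by simp only [he]; exact h1 z hz⟩
  · intro r0 hr0 hr1
    have h4 : {z : ℂ | ∃ r ∈ Ico (0:ℝ) r0, ∃ t ∈ Icc (0:ℝ) 1, ψ (r * g t) = z} =
        jordanInterior γ ∩ φ ⁻¹' (ball 0 r0) := by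
      ext z
      constructor
      · rintro ⟨r, hr, t, -, rfl⟩
        have hr' : r ∈ Icc (0:ℝ) 1 := ⟨hr.1, hr.2.le.trans hr1⟩
        have hw : (r : ℂ) * g t ∈ ball (0:ℂ) 1 := by
          rw [mem_ball_zero_iff, norm_mul, hgn, mul_one, Complex.norm_real, Real.norm_eq_abs,
            abs_of_nonneg hr.1]
          exact hr.2.trans_le hr1
        refine ⟨h3 ▸ mem_image_of_mem _ hw, ?_⟩
        rw [mem_preimage, (h2 _ (hball r hr' t)).1, mem_ball_zero_iff, norm_mul, hgn, mul_one,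
          Complex.norm_real, Real.norm_eq_abs, abs_of_nonneg hr.1]
        exact hr.2
      · rintro ⟨hz, hz'⟩
        rw [mem_preimage, mem_ball_zero_iff] at hz'
        obtain ⟨r, hr, t, ht, he, hn⟩ := hsurj (φ z) (hz'.le.trans hr1)
        exact ⟨r, ⟨hr.1, by rw [hn]; exact hz'⟩, t, ht, by rw [he]; exact h1 z (subset_closure hz)⟩
    rw [h4]
    exact (h.cont.mono subset_closure).isOpen_inter_preimage (isOpen_ji h.jc) isOpen_ball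

namespace Pol

variable {γ : ℝ → ℂ} {Ψ : ℝ → ℝ → ℂ} {D : Set ℂ}

theorem per_int (h : Pol γ Ψ D) (r t : ℝ) (n : ℤ) : Ψ r (t + n) = Ψ r t := by
  induction n using Int.induction_on with
  | zero => simp
  | succ i ih =>
    have : t + ((i : ℤ) + 1 : ℤ) = (t + (i : ℤ)) + 1 := by push_cast; ring
    rw [this, h.per, ih]
  | pred i ih =>
    have : t + ((-(i : ℤ) : ℤ) : ℝ) = (t + ((-(i:ℤ) - 1 : ℤ) : ℝ)) + 1 := by push_cast; ring
    rw [this, h.per] at ih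
    exact ih

/-- closeness modulo 1 for parameters in `[0,1]` -/
def near (η t t' : ℝ) : Prop := |t - t'| < η ∨ |t - t' - 1| < η ∨ |t - t' + 1| < η

/-- quantitative injectivity -/
theorem inv_unif (h : Pol γ Ψ D) {η : ℝ} (hη : 0 < η) : ∃ δ : ℝ, 0 < δ ∧
    ∀ r ∈ Icc (0:ℝ) 1, ∀ r' ∈ Icc (0:ℝ) 1, ∀ t ∈ Icc (0:ℝ) 1, ∀ t' ∈ Icc (0:ℝ) 1,
    ‖Ψ r t - Ψ r' t'‖ < δ → |r - r'| < η ∧ (r < η ∨ near η t t') := by
  let X : Set ((ℝ × ℝ) × (ℝ × ℝ)) := (Icc (0:ℝ) 1 ×ˢ Icc (0:ℝ) 1) ×ˢ (Icc (0:ℝ) 1 ×ˢ Icc (0:ℝ) 1)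
  have hX : IsCompact X := (isCompact_Icc.prod isCompact_Icc).prod (isCompact_Icc.prod isCompact_Icc)
  let O : Set ((ℝ × ℝ) × (ℝ × ℝ)) := {p | |p.1.1 - p.2.1| < η ∧
    (p.1.1 < η ∨ (|p.1.2 - p.2.2| < η ∨ |p.1.2 - p.2.2 - 1| < η ∨ |p.1.2 - p.2.2 + 1| < η))}
  have hO : IsOpen O := by
    have e1 : Continuous fun p : (ℝ × ℝ) × (ℝ × ℝ) => |p.1.1 - p.2.1| := by fun_prop
    have e2 : Continuous fun p : (ℝ × ℝ) × (ℝ × ℝ) => p.1.1 := by fun_prop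
    have e3 : Continuous fun p : (ℝ × ℝ) × (ℝ × ℝ) => |p.1.2 - p.2.2| := by fun_prop
    have e4 : Continuous fun p : (ℝ × ℝ) × (ℝ × ℝ) => |p.1.2 - p.2.2 - 1| := by fun_prop
    have e5 : Continuous fun p : (ℝ × ℝ) × (ℝ × ℝ) => |p.1.2 - p.2.2 + 1| := by fun_prop
    exact (isOpen_lt e1 continuous_const).inter ((isOpen_lt e2 continuous_const).union
      ((isOpen_lt e3 continuous_const).union ((isOpen_lt e4 continuous_const).union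
        (isOpen_lt e5 continuous_const))))
  have hK : IsCompact (X \ O) := hX.diff hO
  let F : ((ℝ × ℝ) × (ℝ × ℝ)) → ℝ := fun p => ‖Ψ p.1.1 p.1.2 - Ψ p.2.1 p.2.2‖
  have hF : ContinuousOn F (X \ O) := by
    refine ContinuousOn.norm (ContinuousOn.sub ?_ ?_)
    · exact h.cont.comp continuous_fst.continuousOn (fun p hp => ⟨hp.1.1.1, mem_univ _⟩)
    · exact h.cont.comp continuous_snd.continuousOn (fun p hp => ⟨hp.1.2.1, mem_univ _⟩)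
  rcases (X \ O).eq_empty_or_nonempty with he | hne
  · refine ⟨1, one_pos, fun r hr r' hr' t ht t' ht' _ => ?_⟩
    by_contra hcon
    have : ((r, t), (r', t')) ∈ X \ O := ⟨⟨⟨hr, ht⟩, ⟨hr', ht'⟩⟩, hcon⟩
    rw [he] at this
    exact this
  · obtain ⟨p, hp, hmin⟩ := hK.exists_isMinOn hne hF
    refine ⟨F p, ?_, fun r hr r' hr' t ht t' ht' hlt => ?_⟩
    · refine lt_of_le_of_ne (norm_nonneg _) (fun h0 => hp.2 ?_)
      have h1 : Ψ p.1.1 p.1.2 = Ψ p.2.1 p.2.2 := sub_eq_zero.1 (norm_eq_zero.1 h0.symm)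
      obtain ⟨h2, h3⟩ := h.inj _ hp.1.1.1 _ hp.1.2.1 _ hp.1.1.2 _ hp.1.2.2 h1
      refine ⟨by rw [h2]; simpa using hη, ?_⟩
      rcases h3 with h3 | h3 | h3 | h3
      · left; rw [h3]; exact hη
      · right; left; rw [h3]; simpa using hη
      · right; right; left; rw [h3]; simpa using hη
      · right; right; right; rw [h3]; simpa using hη
    · by_contra hcon
      have : ((r, t), (r', t')) ∈ X \ O := ⟨⟨⟨hr, ht⟩, ⟨hr', ht'⟩⟩, hcon⟩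
      exact absurd hlt (not_lt.2 (hmin this))

/-- uniform continuity -/
theorem unif (h : Pol γ Ψ D) {ε : ℝ} (hε : 0 < ε) : ∃ η : ℝ, 0 < η ∧
    ∀ r ∈ Icc (0:ℝ) 1, ∀ r' ∈ Icc (0:ℝ) 1, ∀ t ∈ Icc (-1:ℝ) 2, ∀ t' ∈ Icc (-1:ℝ) 2,
    |r - r'| < η → |t - t'| < η → ‖Ψ r t - Ψ r' t'‖ < ε := by
  have hK : IsCompact (Icc (0:ℝ) 1 ×ˢ Icc (-1:ℝ) 2) := isCompact_Icc.prod isCompact_Icc
  have hu := hK.uniformContinuousOn_of_continuous (h.cont.mono (prod_mono_right (subset_univ _)))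
  rw [Metric.uniformContinuousOn_iff] at hu
  obtain ⟨η, hη, hu⟩ := hu ε hε
  refine ⟨η, hη, fun r hr r' hr' t ht t' ht' h1 h2 => ?_⟩
  have := hu (r, t) ⟨hr, ht⟩ (r', t') ⟨hr', ht'⟩ (by
    rw [Prod.dist_eq, max_lt_iff]
    exact ⟨h1, h2⟩)
  rwa [dist_eq_norm] at this

/-- points of radius at most `r1 < r0` have a uniform ball inside the points of radius below `r0` -/
theorem deep (h : Pol γ Ψ D) {r1 r0 : ℝ} (h1 : r1 < r0) (h0 : 0 < r0) (h0' : r0 ≤ 1) :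
    ∃ δ : ℝ, 0 < δ ∧ ∀ r ∈ Icc (0:ℝ) r1, ∀ t ∈ Icc (0:ℝ) 1, ∀ z : ℂ, ‖z - Ψ r t‖ < δ →
      ∃ r' ∈ Ico (0:ℝ) r0, ∃ t' ∈ Icc (0:ℝ) 1, Ψ r' t' = z := by
  have hO := h.opn r0 h0 h0'
  have hK : IsCompact ((fun p : ℝ × ℝ => Ψ p.1 p.2) '' (Icc (0:ℝ) r1 ×ˢ Icc (0:ℝ) 1)) :=
    (isCompact_Icc.prod isCompact_Icc).image_of_continuousOn
      (h.cont.mono (prod_mono (Icc_subset_Icc_right (h1.le.trans h0')) (subset_univ _)))
  have hsub : (fun p : ℝ × ℝ => Ψ p.1 p.2) '' (Icc (0:ℝ) r1 ×ˢ Icc (0:ℝ) 1) ⊆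
      {z : ℂ | ∃ r ∈ Ico (0:ℝ) r0, ∃ t ∈ Icc (0:ℝ) 1, Ψ r t = z} := by
    rintro z ⟨p, hp, rfl⟩
    exact ⟨p.1, ⟨hp.1.1, hp.1.2.trans_lt h1⟩, p.2, hp.2, rfl⟩
  obtain ⟨δ, hδ, hth⟩ := hK.exists_thickening_subset_open hO hsub
  refine ⟨δ, hδ, fun r hr t ht z hz => hth ?_⟩
  rw [mem_thickening_iff]
  exact ⟨Ψ r t, ⟨(r, t), ⟨hr, ht⟩, rfl⟩, by rwa [dist_eq_norm]⟩

end Pol

end Crest.Agent.R158.Sp896
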