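import Crest.Agent.R158.Sp0_896

/-! R158 (helper896) BLOCK SP, file 2: closed cells of the grid of mesh `s`, the cells meeting a
connected set, the outer complement of a finite set of cells. -/

set_option autoImplicit false

open Set Topology Filter Metric

namespace Crest.Agent.R158.Sp896

/-- closed cell -/
def sq (s : ℝ) (q : V) : Set ℂ :=
  {z | s * q.1 ≤ z.re ∧ z.re ≤ s * (q.1 + 1) ∧ s * q.2 ≤ z.im ∧ z.im ≤ s * (q.2 + 1)}

theorem isClosed_sq (s : ℝ) (q : V) : IsClosed (sq s q) := by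
  refine (isClosed_le continuous_const Complex.continuous_re).inter
    ((isClosed_le Complex.continuous_re continuous_const).inter
      ((isClosed_le continuous_const Complex.continuous_im).inter
        (isClosed_le Complex.continuous_im continuous_const)))

theorem convex_sq (s : ℝ) (q : V) : Convex ℝ (sq s q) := by
  intro z hz w hw a b ha hb hab
  obtain ⟨h1, h2, h3, h4⟩ := hz
  obtain ⟨k1, k2, k3, k4⟩ := hw
  refine ⟨?_, ?_, ?_, ?_⟩
  all_goals
    simp only [Complex.add_re, Complex.add_im, Complex.real_smul, Complex.mul_re, Complex.mul_im,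
      Complex.ofReal_re, Complex.ofReal_im, zero_mul, sub_zero, add_zero]
    have e : b = 1 - a := by linarith
    subst e
    nlinarith

theorem sq_dist {s : ℝ} {q : V} {z w : ℂ} (hz : z ∈ sq s q) (hw : w ∈ sq s q) :
    ‖z - w‖ ≤ 2 * s := by
  obtain ⟨h1, h2, h3, h4⟩ := hz
  obtain ⟨k1, k2, k3, k4⟩ := hw
  have h5 := Complex.norm_le_abs_re_add_abs_im (z - w)
  have h6 : |(z - w).re| ≤ s := by
    rw [Complex.sub_re, abs_le]
    constructor <;> linarith
  have h7 : |(z - w).im| ≤ s := by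
    rw [Complex.sub_im, abs_le]
    constructor <;> linarith
  linarith

theorem sq_norm {s : ℝ} {q : V} {z : ℂ} (hs : 0 < s) (hz : z ∈ sq s q) :
    s * |(q.1 : ℝ)| ≤ ‖z‖ + s ∧ s * |(q.2 : ℝ)| ≤ ‖z‖ + s := by
  obtain ⟨h1, h2, h3, h4⟩ := hz
  have h5 := abs_le.1 (Complex.abs_re_le_norm z)
  have h6 := abs_le.1 (Complex.abs_im_le_norm z)
  constructor
  · rw [← abs_of_pos hs, ← abs_mul, abs_of_pos hs, abs_le]
    constructor <;> linarith [h5.1, h5.2]
  · rw [← abs_of_pos hs, ← abs_mul, abs_of_pos hs, abs_le]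
    constructor <;> linarith [h6.1, h6.2]

/-- the cell of a point -/
noncomputable def cellOf (s : ℝ) (z : ℂ) : V := (⌊z.re / s⌋, ⌊z.im / s⌋)

theorem mem_cellOf {s : ℝ} (hs : 0 < s) (z : ℂ) : z ∈ sq s (cellOf s z) := by
  have h1 := Int.floor_le (z.re / s)
  have h2 := (Int.lt_floor_add_one (z.re / s)).le
  have h3 := Int.floor_le (z.im / s)
  have h4 := (Int.lt_floor_add_one (z.im / s)).le
  rw [le_div_iff₀ hs] at h1 h3
  rw [div_le_iff₀ hs] at h2 h4
  refine ⟨?_, ?_, ?_, ?_⟩ <;> · simp only [cellOf]; linarith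

/-- the cells meeting `K` -/
def cells (s : ℝ) (K : Set ℂ) : Set V := {q | (sq s q ∩ K).Nonempty}

theorem cells_mono {s : ℝ} {K K' : Set ℂ} (h : K ⊆ K') : cells s K ⊆ cells s K' :=
  fun _ hq => hq.mono (inter_subset_inter_right _ h)

theorem cellOf_mem {s : ℝ} (hs : 0 < s) {K : Set ℂ} {z : ℂ} (hz : z ∈ K) : cellOf s z ∈ cells s K :=
  ⟨z, mem_cellOf hs z, hz⟩

theorem cells_box {s M : ℝ} (hs : 0 < s) {K : Set ℂ} (hK : ∀ z ∈ K, ‖z‖ ≤ M) {q : V}
    (hq : q ∈ cells s K) : |(q.1 : ℝ)| ≤ M / s + 1 ∧ |(q.2 : ℝ)| ≤ M / s + 1 := by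
  obtain ⟨z, hz, hzK⟩ := hq
  have h1 := sq_norm hs hz
  have h2 := hK z hzK
  have e : M / s + 1 = (M + s) / s := by field_simp
  rw [e]
  constructor
  · rw [le_div_iff₀ hs]; linarith [h1.1]
  · rw [le_div_iff₀ hs]; linarith [h1.2]

theorem cells_finite {s : ℝ} (hs : 0 < s) {K : Set ℂ} (hK : Bornology.IsBounded K) :
    (cells s K).Finite := by
  obtain ⟨M, hM⟩ := hK.exists_norm_le
  refine Set.Finite.subset ((Set.finite_Icc (-⌈M / s + 1⌉) ⌈M / s + 1⌉).prod
    (Set.finite_Icc (-⌈M / s + 1⌉) ⌈M / s + 1⌉)) ?_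
  intro q hq
  obtain ⟨h1, h2⟩ := cells_box hs hM hq
  have h3 := Int.le_ceil (M / s + 1)
  rw [abs_le] at h1 h2
  refine ⟨⟨?_, ?_⟩, ⟨?_, ?_⟩⟩
  · have : -(⌈M / s + 1⌉ : ℝ) ≤ q.1 := by linarith [h1.1]
    exact_mod_cast this
  · have : (q.1 : ℝ) ≤ (⌈M / s + 1⌉ : ℝ) := by linarith [h1.2]
    exact_mod_cast this
  · have : -(⌈M / s + 1⌉ : ℝ) ≤ q.2 := by linarith [h2.1]
    exact_mod_cast this
  · have : (q.2 : ℝ) ≤ (⌈M / s + 1⌉ : ℝ) := by linarith [h2.2]
    exact_mod_cast this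

/-! ### moves -/

theorem con_le_one {S : Set V} {x y : V} (h2 : x.2 = y.2) (h1 : x.1 ≤ y.1 + 1) (h1' : y.1 ≤ x.1 + 1)
    (hy : y ∈ S) : Con S x y := by
  by_cases he : x = y
  · rw [he]; exact Con.refl S y
  · refine Con.one ?_ hy
    have : x.1 ≠ y.1 := fun h => he (Prod.ext h h2)
    unfold Adj
    omega

theorem con_le_one' {S : Set V} {x y : V} (h2 : x.1 = y.1) (h1 : x.2 ≤ y.2 + 1) (h1' : y.2 ≤ x.2 + 1)
    (hy : y ∈ S) : Con S x y := by
  by_cases he : x = y
  · rw [he]; exact Con.refl S y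
  · refine Con.one ?_ hy
    have : x.2 ≠ y.2 := fun h => he (Prod.ext h2 h)
    unfold Adj
    omega

theorem int_le_of {s r : ℝ} (hs : 0 < s) {a b : ℤ} (h1 : s * a ≤ r) (h2 : r ≤ s * (b + 1)) :
    a ≤ b + 1 := by
  have : s * a ≤ s * (b + 1) := h1.trans h2
  have := le_of_mul_le_mul_left this hs
  exact_mod_cast this

/-- two cells with a common point of `K` are connected -/
theorem con_of_point {s : ℝ} (hs : 0 < s) {K : Set ℂ} {p : ℂ} (hp : p ∈ K) {x y : V}
    (hx : p ∈ sq s x) (hy : p ∈ sq s y) : Con (cells s K) x y := by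
  obtain ⟨h1, h2, h3, h4⟩ := hx
  obtain ⟨k1, k2, k3, k4⟩ := hy
  have hm : ((y.1, x.2) : V) ∈ cells s K := ⟨p, ⟨k1, k2, h3, h4⟩, hp⟩
  have hyK : y ∈ cells s K := ⟨p, ⟨k1, k2, k3, k4⟩, hp⟩
  refine (con_le_one (x := x) (y := (y.1, x.2)) rfl ?_ ?_ hm).trans
    (con_le_one' (x := (y.1, x.2)) (y := y) rfl ?_ ?_ hyK)
  · exact int_le_of hs h1 k2
  · exact int_le_of hs k1 h2
  · exact int_le_of hs h3 k4
  · exact int_le_of hs k3 h4

/-- the cells meeting a bounded connected set are connected through edges -/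
theorem cells_con {s : ℝ} (hs : 0 < s) {K : Set ℂ} (hK : IsPreconnected K)
    (hb : Bornology.IsBounded K) : ∀ q ∈ cells s K, ∀ q' ∈ cells s K, Con (cells s K) q q' := by
  intro q hq q' hq'
  by_contra hcon
  have hfin := cells_finite hs hb
  set X : Set V := {x | x ∈ cells s K ∧ Con (cells s K) q x} with hX
  set Y : Set V := {x | x ∈ cells s K ∧ ¬ Con (cells s K) q x} with hY
  have hXf : X.Finite := hfin.subset fun x hx => hx.1
  have hYf : Y.Finite := hfin.subset fun x hx => hx.1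
  have hC1 : IsClosed (⋃ x ∈ X, sq s x) := hXf.isClosed_biUnion fun x _ => isClosed_sq s x
  have hC2 : IsClosed (⋃ x ∈ Y, sq s x) := hYf.isClosed_biUnion fun x _ => isClosed_sq s x
  have hcov : K ⊆ (⋃ x ∈ X, sq s x) ∪ (⋃ x ∈ Y, sq s x) := by
    intro z hz
    have h1 := cellOf_mem hs hz
    by_cases h2 : Con (cells s K) q (cellOf s z)
    · left
      exact mem_biUnion (x := cellOf s z) ⟨h1, h2⟩ (mem_cellOf hs z)
    · right
      exact mem_biUnion (x := cellOf s z) ⟨h1, h2⟩ (mem_cellOf hs z)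
  have hn1 : (K ∩ ⋃ x ∈ X, sq s x).Nonempty := by
    obtain ⟨z, hz, hzK⟩ := hq
    exact ⟨z, hzK, mem_biUnion (x := q) ⟨⟨z, hz, hzK⟩, Con.refl _ q⟩ hz⟩
  have hn2 : (K ∩ ⋃ x ∈ Y, sq s x).Nonempty := by
    obtain ⟨z, hz, hzK⟩ := hq'
    exact ⟨z, hzK, mem_biUnion (x := q') ⟨⟨z, hz, hzK⟩, hcon⟩ hz⟩
  obtain ⟨p, hp, hp1, hp2⟩ := (isPreconnected_closed_iff.1 hK) _ _ hC1 hC2 hcov hn1 hn2
  rw [mem_iUnion₂] at hp1 hp2
  obtain ⟨x, hx, hpx⟩ := hp1
  obtain ⟨y, hy, hpy⟩ := hp2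
  exact hy.2 (hx.2.trans (con_of_point hs hp hpx hpy))

/-! ### the outer complement -/

/-- cells that can reach arbitrarily far to the right avoiding `F0` -/
def Out (F0 : Set V) : Set V := {q | q ∉ F0 ∧ ∀ N : ℤ, ∃ q' : V, N < q'.1 ∧ Con F0ᶜ q q'}

theorem con_right {S : Set V} (x y : ℤ) (n : ℕ) (h : ∀ i : ℕ, i ≤ n → ((x + i, y) : V) ∈ S) :
    Con S (x, y) (x + n, y) := by
  induction n with
  | zero => simpa using Con.refl S (x, y)
  | succ n ih =>
    refine (ih fun i hi => h i (hi.trans (Nat.le_succ n))).trans (Con.one ?_ (h (n + 1) le_rfl))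
    unfold Adj
    push_cast
    omega

theorem con_left {S : Set V} (x y : ℤ) (n : ℕ) (h : ∀ i : ℕ, i ≤ n → ((x - i, y) : V) ∈ S) :
    Con S (x, y) (x - n, y) := by
  induction n with
  | zero => simpa using Con.refl S (x, y)
  | succ n ih =>
    refine (ih fun i hi => h i (hi.trans (Nat.le_succ n))).trans (Con.one ?_ (h (n + 1) le_rfl))
    unfold Adj
    push_cast
    omega

theorem con_up {S : Set V} (x y : ℤ) (n : ℕ) (h : ∀ i : ℕ, i ≤ n → ((x, y + i) : V) ∈ S) :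
    Con S (x, y) (x, y + n) := by
  induction n with
  | zero => simpa using Con.refl S (x, y)
  | succ n ih =>
    refine (ih fun i hi => h i (hi.trans (Nat.le_succ n))).trans (Con.one ?_ (h (n + 1) le_rfl))
    unfold Adj
    push_cast
    omega

theorem con_down {S : Set V} (x y : ℤ) (n : ℕ) (h : ∀ i : ℕ, i ≤ n → ((x, y - i) : V) ∈ S) :
    Con S (x, y) (x, y - n) := by
  induction n with
  | zero => simpa using Con.refl S (x, y)
  | succ n ih =>
    refine (ih fun i hi => h i (hi.trans (Nat.le_succ n))).trans (Con.one ?_ (h (n + 1) le_rfl))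
    unfold Adj
    push_cast
    omega

/-- moving in a half plane `x > M` contained in `S` -/
theorem con_half {S : Set V} {M : ℤ} (hS : ∀ q : V, M < q.1 → q ∈ S) {p p' : V} (hp : M < p.1)
    (hp' : M < p'.1) : Con S p p' := by
  have h1 : Con S (p.1, p.2) (p.1, p'.2) := by
    rcases le_total p.2 p'.2 with h | h
    · obtain ⟨n, hn⟩ := Int.eq_ofNat_of_zero_le (sub_nonneg.2 h)
      have := con_up (S := S) p.1 p.2 n fun i _ => hS _ hp
      rwa [show p.2 + (n : ℤ) = p'.2 by omega] at this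
    · obtain ⟨n, hn⟩ := Int.eq_ofNat_of_zero_le (sub_nonneg.2 h)
      have := con_down (S := S) p.1 p.2 n fun i _ => hS _ hp
      rwa [show p.2 - (n : ℤ) = p'.2 by omega] at this
  have h2 : Con S (p.1, p'.2) (p'.1, p'.2) := by
    rcases le_total p.1 p'.1 with h | h
    · obtain ⟨n, hn⟩ := Int.eq_ofNat_of_zero_le (sub_nonneg.2 h)
      have := con_right (S := S) p.1 p'.2 n fun i _ => hS _ (by show M < p.1 + i; omega)
      rwa [show p.1 + (n : ℤ) = p'.1 by omega] at this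
    · obtain ⟨n, hn⟩ := Int.eq_ofNat_of_zero_le (sub_nonneg.2 h)
      have := con_left (S := S) p.1 p'.2 n fun i hi => hS _ (by show M < p.1 - i; omega)
      rwa [show p.1 - (n : ℤ) = p'.1 by omega] at this
  exact h1.trans h2

section outer

variable {F0 : Set V}

theorem out_of_con {q q' : V} (hq : q ∈ Out F0) (h : Con F0ᶜ q q') : q' ∈ Out F0 := by
  refine ⟨Con.mem h hq.1, fun N => ?_⟩
  obtain ⟨p, hp, hc⟩ := hq.2 N
  exact ⟨p, hp, (Con.symm h hq.1).trans hc⟩

theorem out_lift {q q' : V} (hq : q ∈ Out F0) (h : Con F0ᶜ q q') : Con (Out F0) q q' := by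
  induction h with
  | refl => exact Con.refl _ q
  | tail h1 h2 ih => exact ih.trans (Con.one h2.1 (out_of_con hq (h1.trans (Con.one h2.1 h2.2))))

theorem exists_box (hf : F0.Finite) : ∃ M : ℤ, ∀ q ∈ F0, |q.1| ≤ M ∧ |q.2| ≤ M := by
  obtain ⟨M1, h1⟩ := (hf.image fun q : V => |q.1|).bddAbove
  obtain ⟨M2, h2⟩ := (hf.image fun q : V => |q.2|).bddAbove
  exact ⟨max M1 M2, fun q hq => ⟨(h1 (mem_image_of_mem _ hq)).trans (le_max_left _ _),
    (h2 (mem_image_of_mem _ hq)).trans (le_max_right _ _)⟩⟩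

theorem out_con (hf : F0.Finite) : ∀ q ∈ Out F0, ∀ q' ∈ Out F0, Con (Out F0) q q' := by
  intro q hq q' hq'
  obtain ⟨M, hM⟩ := exists_box hf
  obtain ⟨p, hp, hc⟩ := hq.2 M
  obtain ⟨p', hp', hc'⟩ := hq'.2 M
  have h1 : Con F0ᶜ p p' := con_half (S := F0ᶜ) (M := M) (fun x hx hx' => by
    have := (hM x hx').1
    have := le_abs_self x.1
    omega) hp hp'
  exact out_lift hq ((hc.trans h1).trans (Con.symm hc' hq'.1))

theorem out_far {M : ℤ} (hM : ∀ q ∈ F0, |q.1| ≤ M ∧ |q.2| ≤ M) {q : V} (hq : M < |q.1| ∨ M < |q.2|) :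
    q ∈ Out F0 := by
  have hrow : ∀ y : ℤ, M < |y| → ∀ x : ℤ, ((x, y) : V) ∈ Out F0 := by
    intro y hy x
    have hS : ∀ x : ℤ, ((x, y) : V) ∈ F0ᶜ := fun x hx => absurd (hM _ hx).2 (not_le.2 hy)
    refine ⟨hS x, fun N => ?_⟩
    refine ⟨(x + ((N - x).toNat + 1 : ℕ), y), ?_, con_right x y _ fun i _ => hS _⟩
    show N < x + ((N - x).toNat + 1 : ℕ)
    omega
  have hright : ∀ q : V, M < q.1 → q ∈ Out F0 := by
    intro q hq
    have hS : ∀ q : V, M < q.1 → q ∈ F0ᶜ := fun q hq hx => by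
      have := (hM _ hx).1
      have := le_abs_self q.1
      omega
    refine ⟨hS q hq, fun N => ?_⟩
    exact ⟨(max N M + 1, q.2), by show N < max N M + 1; omega,
      con_half hS hq (by show M < max N M + 1; omega)⟩
  rcases hq with h | h
  · rcases lt_abs.1 h with h1 | h1
    · exact hright q h1
    · have hS : ∀ y : ℤ, ((q.1, y) : V) ∈ F0ᶜ := fun y hy => absurd (hM _ hy).1 (not_le.2 h)
      -- go up
      have h2 : ((q.1, q.2 + ((M - q.2).toNat + (-M - q.2).toNat + 1 : ℕ)) : V) ∈ Out F0 := by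
        apply hrow
        have : M < q.2 + ((M - q.2).toNat + (-M - q.2).toNat + 1 : ℕ) := by omega
        exact this.trans_le (le_abs_self _)
      have h3 : Con F0ᶜ q (q.1, q.2 + ((M - q.2).toNat + (-M - q.2).toNat + 1 : ℕ)) :=
        con_up q.1 q.2 _ fun i _ => hS _
      exact out_of_con h2 (Con.symm h3 (hS q.2))
  · exact hrow q.2 h q.1

theorem out_compl_finite (hf : F0.Finite) : (Out F0)ᶜ.Finite := by
  obtain ⟨M, hM⟩ := exists_box hf
  refine Set.Finite.subset ((Set.finite_Icc (-M) M).prod (Set.finite_Icc (-M) M)) ?_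
  intro q hq
  by_contra hcon
  apply hq
  apply out_far hM
  by_contra hno
  push Not at hno
  apply hcon
  exact ⟨abs_le.1 hno.1, abs_le.1 hno.2⟩

theorem subset_out_compl : F0 ⊆ (Out F0)ᶜ := fun _ hq h => h.1 hq

/-- a non-outer cell adjacent to an outer cell is in `F0` -/
theorem mem_of_adj {a b : V} (h : Adj a b) (ha : a ∉ Out F0) (hb : b ∈ Out F0) : a ∈ F0 := by
  by_contra h0
  exact ha (out_of_con hb (Con.one h.symm h0))

theorem compl_con (hf : F0.Finite) (hc : ∀ q ∈ F0, ∀ q' ∈ F0, Con F0 q q') :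
    ∀ q ∉ Out F0, ∀ q' ∉ Out F0, Con (Out F0)ᶜ q q' := by
  classical
  obtain ⟨M, hM⟩ := exists_box hf
  have key : ∀ q ∉ Out F0, ∃ f ∈ F0, Con (Out F0)ᶜ q f := by
    intro q hq
    by_cases h0 : ∃ i : ℕ, ((q.1 - i, q.2) : V) ∈ F0
    · have h1 := Nat.find_spec h0
      set n := Nat.find h0 with hn
      have h2 : ∀ i < n, ((q.1 - i, q.2) : V) ∉ F0 := fun i hi => Nat.find_min h0 hi
      refine ⟨_, h1, con_left q.1 q.2 n fun i hi => ?_⟩
      rcases eq_or_lt_of_le hi with h3 | h3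
      · subst h3
        exact subset_out_compl h1
      · intro h4
        apply hq
        have h5 : Con F0ᶜ (q.1, q.2) (q.1 - i, q.2) :=
          con_left q.1 q.2 i fun j hj => h2 j (hj.trans_lt h3)
        have h6 : ((q.1, q.2) : V) ∈ F0ᶜ := by
          have := h2 0 (by omega)
          simpa using this
        exact out_of_con h4 (Con.symm h5 h6)
    · exfalso
      push Not at h0
      apply hq
      have h1 : ((q.1 - ((q.1 + M).toNat + 1 + (M).toNat : ℕ), q.2) : V) ∈ Out F0 := by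
        apply out_far hM
        left
        show M < |q.1 - (((q.1 + M).toNat + 1 + M.toNat : ℕ) : ℤ)|
        rw [lt_abs]
        right
        omega
      have h2 : Con F0ᶜ (q.1, q.2) (q.1 - ((q.1 + M).toNat + 1 + (M).toNat : ℕ), q.2) :=
        con_left q.1 q.2 _ fun j _ => h0 j
      have h3 : ((q.1, q.2) : V) ∈ F0ᶜ := by
        have := h0 0
        simpa using this
      exact out_of_con h1 (Con.symm h2 h3)
  intro q hq q' hq'
  obtain ⟨f, hf1, hf2⟩ := key q hq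
  obtain ⟨f', hf1', hf2'⟩ := key q' hq'
  exact (hf2.trans ((hc f hf1 f' hf1').mono subset_out_compl)).trans (Con.symm hf2' hq')

end outer

end Crest.Agent.R158.Sp896
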