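import Crest.Agent.R158.Sp2_580
import Crest.Agent.R158.Kd4_458
import Crest.Agent.R158.Hp8_814
import Crest.Agent.R158.Sp4e_874
import Crest.Agent.R158.Sg1_158

/-!
# Row 158, Block SEP (helper580): inner cells from points, good boundary

* `cellOf N n v` : the cell of the ball `Sq (N n)` which contains `v`
* `cover_in` : four arms with a good boundary land in separated boundary cells
* `bad_small` : the boundary is good with probability `≥ 1 - δ`
* `a4_bad` : `P (A4 e R ∩ bad) ≤ P (A4 e (R/2)) P (bad)`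
-/

set_option autoImplicit false
set_option linter.constructorNameAsVariable false

noncomputable section

namespace Crest.Agent.R158.Sp580

open MeasureTheory ProbabilityTheory unitInterval
open Crest.Agent.R161.Geo729 Crest.Agent.R161.Topo374 Crest.Agent.R161.Dual374
open Crest.Agent.R161.Tas682 Crest.Agent.R158.Rs689
open Crest.Agent.R158.Ru874 hiding An
open Crest.Agent.R158.Cpl963 (An)
open Crest.Agent.R158.Kd458 (cl op GoodB core_edge gd_congr)
open Crest.Agent.R158.Sp874 (nr FarN)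
open Crest.Agent.R158.Sq200 (InE BdV)
open Crest.Agent.R158.Sg158 (LocD)

/-! ### cells of points -/

/-- the cell of `Sq (N n)` which contains `v` -/
def cellOf (N n : ℤ) (v : P2) : P2 :=
  (max (-N) (min (N - 1) (v.1 / n)), max (-N) (min (N - 1) (v.2 / n)))

theorem clamp_mem {N n a : ℤ} (hn : 1 ≤ n) (hN : 1 ≤ N) (h1 : -(N * n) ≤ a) (h2 : a ≤ N * n) :
    (max (-N) (min (N - 1) (a / n))) * n ≤ a ∧ a ≤ (max (-N) (min (N - 1) (a / n)) + 1) * n := by
  have hn0 : 0 < n := by omega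
  have e1 := Int.emod_nonneg a hn0.ne'
  have e2 := Int.emod_lt_of_pos a hn0
  have e3 := Int.mul_ediv_add_emod a n
  have q1 : -N ≤ a / n := by
    rw [Int.le_ediv_iff_mul_le hn0]; linarith
  have q2 : a / n ≤ N := Int.ediv_le_of_le_mul hn0 h2
  rcases eq_or_lt_of_le q2 with h3 | h3
  · have h4 : max (-N) (min (N - 1) (a / n)) = N - 1 := by omega
    rw [h4]
    rw [h3] at e3
    constructor
    · nlinarith
    · nlinarith
  · have h4 : max (-N) (min (N - 1) (a / n)) = a / n := by omega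
    rw [h4]
    constructor
    · nlinarith
    · nlinarith

theorem cellOf_mem {N n : ℕ} (hn : 1 ≤ n) (hN : 1 ≤ N) {v : P2} (hv : v ∈ Sq (N * n)) :
    v ∈ Bk n (cellOf N n v) 0 := by
  rw [mem_Sq] at hv
  have h1 := clamp_mem (N := N) (n := n) (a := v.1) (by omega) (by omega) hv.1 hv.2.1
  have h2 := clamp_mem (N := N) (n := n) (a := v.2) (by omega) (by omega) hv.2.2.1 hv.2.2.2
  rw [mem_Bk]
  simp only [cellOf, sub_zero, add_zero]
  exact ⟨h1.1, h1.2, h2.1, h2.2⟩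

theorem nr_cellOf {N n : ℕ} (hn : 1 ≤ n) (hN : 1 ≤ N) {v : P2}
    (hb : (N : ℤ) * n - 1 ≤ v.1 ∨ v.1 ≤ -((N : ℤ) * n) ∨ (N : ℤ) * n - 1 ≤ v.2 ∨
      v.2 ≤ -((N : ℤ) * n)) : nr (cellOf N n v) = N - 1 := by
  have hn0 : (0 : ℤ) < n := by omega
  have key1 : ∀ a : ℤ, (N : ℤ) * n - 1 ≤ a → (N : ℤ) - 1 ≤ a / n := by
    intro a ha
    rw [Int.le_ediv_iff_mul_le hn0]
    nlinarith
  have key2 : ∀ a : ℤ, a ≤ -((N : ℤ) * n) → a / n ≤ -(N : ℤ) := by
    intro a ha
    refine Int.ediv_le_of_le_mul hn0 ?_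
    linarith
  unfold nr cellOf
  simp only
  rcases hb with h | h | h | h
  · have := key1 _ h; omega
  · have := key2 _ h; omega
  · have := key1 _ h; omega
  · have := key2 _ h; omega

theorem far_of_sd {n : ℕ} {g : ℤ} {v v' k k' : P2} (hv : v ∈ Bk n k 0) (hv' : v' ∈ Bk n k' 0)
    (h : g * n < sd v v') : FarN g k k' := by
  by_contra hcon
  unfold FarN at hcon
  push Not at hcon
  obtain ⟨c1, c2, c3, c4⟩ := hcon
  rw [mem_Bk] at hv hv'
  simp only [sub_zero, add_zero] at hv hv'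
  have hn0 : (0 : ℤ) ≤ n := by positivity
  have h1 : sd v v' ≤ g * n := by
    rw [sd_le]
    refine ⟨?_, ?_, ?_, ?_⟩
    · have : (k.1 + 1 - g) * (n : ℤ) ≤ k'.1 * n := mul_le_mul_of_nonneg_right (by omega) hn0
      nlinarith
    · have : (k'.1 + 1) * (n : ℤ) ≤ (k.1 + g) * n := mul_le_mul_of_nonneg_right (by omega) hn0
      nlinarith
    · have : (k.2 + 1 - g) * (n : ℤ) ≤ k'.2 * n := mul_le_mul_of_nonneg_right (by omega) hn0
      nlinarith
    · have : (k'.2 + 1) * (n : ℤ) ≤ (k.2 + g) * n := mul_le_mul_of_nonneg_right (by omega) hn0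
      nlinarith
  omega

/-- points of the block of radius 8 of the cell of `f` are close to `f` -/
theorem near_of_Bk {n : ℕ} {k f v : P2} {m : ℤ} (hf : f ∈ Bk n k 0) (hv : v ∈ Bk n k m)
    (hm : 0 ≤ m) : sd f v ≤ (m + 1) * n := by
  rw [mem_Bk] at hf hv
  simp only [sub_zero, add_zero] at hf
  have e1 : (k.1 - m) * (n : ℤ) = k.1 * n - m * n := by ring
  have e2 : (k.1 + m + 1) * (n : ℤ) = k.1 * n + m * n + n := by ring
  have e3 : (k.2 - m) * (n : ℤ) = k.2 * n - m * n := by ring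
  have e4 : (k.2 + m + 1) * (n : ℤ) = k.2 * n + m * n + n := by ring
  have e5 : (m + 1) * (n : ℤ) = m * n + n := by ring
  have e6 : (k.1 + 1) * (n : ℤ) = k.1 * n + n := by ring
  have e7 : (k.2 + 1) * (n : ℤ) = k.2 * n + n := by ring
  rw [sd_le]
  omega

theorem Bk_mono {n : ℕ} {k : P2} {m m' : ℤ} (h : m ≤ m') : Bk n k m ⊆ Bk n k m' := by
  intro v hv
  rw [mem_Bk] at hv ⊢
  have hn0 : (0 : ℤ) ≤ n := by positivity
  have a1 : (k.1 - m') * (n : ℤ) ≤ (k.1 - m) * n := mul_le_mul_of_nonneg_right (by omega) hn0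
  have a2 : (k.1 + m + 1) * (n : ℤ) ≤ (k.1 + m' + 1) * n :=
    mul_le_mul_of_nonneg_right (by omega) hn0
  have a3 : (k.2 - m') * (n : ℤ) ≤ (k.2 - m) * n := mul_le_mul_of_nonneg_right (by omega) hn0
  have a4 : (k.2 + m + 1) * (n : ℤ) ≤ (k.2 + m' + 1) * n :=
    mul_le_mul_of_nonneg_right (by omega) hn0
  omega

theorem cl_eq (z : Cf) (e : Edge) : cl z e = frc e false z := by
  funext e'
  by_cases h : e' = e
  · subst h; rw [frc_self]; simp [cl]
  · rw [frc_ne h]; simp [cl, h]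

theorem op_eq (z : Cf) (e : Edge) : op z e = frc e true z := by
  funext e'
  by_cases h : e' = e
  · subst h; rw [frc_self]; simp [op]
  · rw [frc_ne h]; simp [op, h]

theorem ball_eq (R : ℤ) : {v : P2 | sd (0, 0) v ≤ R} = Sq R := by
  ext v
  rw [Set.mem_setOf_eq, sd_le, mem_Sq]
  simp

theorem bd_of_sd {R : ℤ} {x : P2} (h : sd (0, 0) x = R) : BdV (-R) R (-R) R x := by
  rcases sd_eq h with h1 | h1 | h1 | h1
  · left; simpa using h1
  · right; left; simpa using h1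
  · right; right; left; simpa using h1
  · right; right; right; simpa using h1

/-- positions of the ends of an edge at the origin -/
theorem e0_pos {e : Edge} (he : src e = (0, 0)) :
    ((src e).1 = 0 ∧ (src e).2 = 0) ∧
    (0 ≤ (tgt e).1 ∧ (tgt e).1 ≤ 1 ∧ 0 ≤ (tgt e).2 ∧ (tgt e).2 ≤ 1) ∧
    ((fA e).1 = 0 ∧ (fA e).2 = 0) ∧ (-1 ≤ (fB e).1 ∧ (fB e).1 ≤ 0 ∧ -1 ≤ (fB e).2 ∧ (fB e).2 ≤ 0) := by
  obtain ⟨⟨i, j⟩, b⟩ := e
  simp only [src_mk, Prod.mk.injEq] at he
  obtain ⟨rfl, rfl⟩ := he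
  cases b <;> simp

/-- **Inner covering, deterministic.** -/
theorem cover_in {e : Edge} (he : src e = (0, 0)) {n N : ℕ} (hn : 2 ≤ n) {g : ℤ} (hg : 1 ≤ g)
    {t r t1 s c s1 b : ℤ} (ht : 16 * (n : ℤ) ≤ t) (htr : t ≤ r) (hrt : t + r + 1 ≤ t1)
    (ht1b : t1 ≤ b) (hrs : r + 1 ≤ s) (hsc : s ≤ c) (hcs : s + c ≤ s1) (hs1b : s1 ≤ b)
    (hbR : b + 4 ≤ N * n) (gt1 : g * n ≤ t1) (gs : (g + 1) * n ≤ s) {z : Cf}
    (hz : z ∈ A4 e (N * n))
    (hG : GoodB z (-(N * n)) (N * n) (-(N * n)) (N * n) t r t1 s c s1 b) :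
    ∃ k1 k2 k3 k4 : P2, nr k1 = N - 1 ∧ nr k2 = N - 1 ∧ nr k3 = N - 1 ∧ nr k4 = N - 1 ∧
      FarN g k1 k2 ∧ FarN g k1 k3 ∧ FarN g k1 k4 ∧ FarN g k2 k3 ∧ FarN g k2 k4 ∧ FarN g k3 k4 ∧
      z ∈ Uin e (N * n) n k1 k2 k3 k4 := by
  obtain ⟨⟨p1, p2⟩, p3, ⟨p5, p6⟩, p7⟩ := e0_pos he
  have hn0 : (2 : ℤ) ≤ n := by exact_mod_cast hn
  have hgn : (n : ℤ) ≤ g * n := by nlinarith
  have hN : 1 ≤ N := by
    rcases Nat.eq_zero_or_pos N with h | h
    · subst h
      simp only [Nat.cast_zero, zero_mul] at hbR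
      omega
    · exact h
  set R : ℤ := (N : ℤ) * n with hR
  obtain ⟨⟨x, hx, h1⟩, ⟨x', hx', h2⟩, hnc⟩ := hz
  rw [he, ball_eq] at h1 h2 hnc
  rw [he] at hx hx'
  have hx0 : sd (0, 0) x = R := hx
  have hx0' : sd (0, 0) x' = R := hx'
  have deep0 : ∀ w v : P2, BdV (-R) R (-R) R w → (-1 ≤ v.1 ∧ v.1 ≤ 1 ∧ -1 ≤ v.2 ∧ v.2 ≤ 1) →
      b < sd w v := by
    intro w v hw hv
    by_contra hcon
    push Not at hcon
    rw [sd_le] at hcon
    rcases hw with hw | hw | hw | hw <;> omega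
  have deep1 : ∀ w v : P2, BdV (-R) (R - 1) (-R) (R - 1) w →
      (-1 ≤ v.1 ∧ v.1 ≤ 1 ∧ -1 ≤ v.2 ∧ v.2 ≤ 1) → b < sd w v := by
    intro w v hw hv
    by_contra hcon
    push Not at hcon
    rw [sd_le] at hcon
    rcases hw with hw | hw | hw | hw <;> omega
  obtain ⟨hsep, f, f', w, w', hf, hfb, hf', hfb', hw, hwb, hfw, hw', hwb', hfw', hff, d1, d2, o1,
    o2⟩ := core_edge (z := z) (e := e) (x0 := -R) (x1 := R) (y0 := -R) (y1 := R)
      (he := ⟨by rw [mem_rect]; omega, by rw [mem_rect]; omega⟩)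
      (hfA := by rw [mem_rect]; omega) (hfB := by rw [mem_rect]; omega)
      (x := x) (x' := x')
      (hx := by have := h1.right; exact this) (hbx := bd_of_sd hx0)
      (hx' := by have := h2.right; exact this) (hbx' := bd_of_sd hx0')
      (h1 := by rw [cl_eq, he]; exact h1) (h2 := by rw [cl_eq]; exact h2)
      (hn := by rw [cl_eq, he]; exact hnc)
      (t := t) (r := r) (t1 := t1) (s := s) (c := c) (s1 := s1) (b := b) (by omega) htr hrt ht1b
      hrs hsc hcs hs1b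
      (fun w _ hw => ⟨deep0 w _ hw (by omega), deep0 w _ hw (by omega)⟩)
      (fun w _ hw => ⟨deep1 w _ hw (by omega), deep1 w _ hw (by omega)⟩) hG
  -- membership of the four points
  have hfS : f ∈ Sq R := by rw [mem_rect] at hf; rw [mem_Sq]; omega
  have hfS' : f' ∈ Sq R := by rw [mem_rect] at hf'; rw [mem_Sq]; omega
  have m1 := cellOf_mem (n := n) (N := N) (by omega) hN (v := x) h1.right
  have m3 := cellOf_mem (n := n) (N := N) (by omega) hN (v := x') h2.right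
  have m2 := cellOf_mem (n := n) (N := N) (by omega) hN (v := f) hfS
  have m4 := cellOf_mem (n := n) (N := N) (by omega) hN (v := f') hfS'
  have nx : nr (cellOf N n x) = N - 1 := by
    refine nr_cellOf (by omega) hN ?_
    rcases bd_of_sd hx0 with h | h | h | h <;> omega
  have nx' : nr (cellOf N n x') = N - 1 := by
    refine nr_cellOf (by omega) hN ?_
    rcases bd_of_sd hx0' with h | h | h | h <;> omega
  have nf : nr (cellOf N n f) = N - 1 := by
    refine nr_cellOf (by omega) hN ?_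
    rcases hfb with h | h | h | h <;> omega
  have nf' : nr (cellOf N n f') = N - 1 := by
    refine nr_cellOf (by omega) hN ?_
    rcases hfb' with h | h | h | h <;> omega
  -- distances
  have q1 : s ≤ sd x f := d1.right.1.2
  have q2 : s ≤ sd x' f := d1.right.2
  have q3 : s ≤ sd x f' := d2.right.1.2
  have q4 : s ≤ sd x' f' := d2.right.2
  have gs' : g * (n : ℤ) < s := by nlinarith
  -- the regions
  have regP : ∀ v, v ∈ Rect (-R) R (-R) R ∩ {v | t ≤ sd w v} ∩ {v | t ≤ sd w' v} →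
      v ∈ Sq R \ Bk2 n (cellOf N n f) (cellOf N n f') 8 := by
    rintro v ⟨⟨hv, hv1⟩, hv2⟩
    refine ⟨hv, ?_⟩
    rintro (h | h)
    · have h3 := near_of_Bk m2 h (by norm_num)
      have h4 := Kd458.sd_tri w f v
      rw [Kd458.sd_symm w f] at h4
      have hv1' : t ≤ sd w v := hv1
      omega
    · have h3 := near_of_Bk m4 h (by norm_num)
      have h4 := Kd458.sd_tri w' f' v
      rw [Kd458.sd_symm w' f'] at h4
      have hv2' : t ≤ sd w' v := hv2
      omega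
  have regD : ∀ v, v ∈ Rect (-R) (R - 1) (-R) (R - 1) ∩ {v | s ≤ sd x v} ∩ {v | s ≤ sd x' v} →
      v ∈ FSq R \ Bk2 n (cellOf N n x) (cellOf N n x') 8 := by
    rintro v ⟨⟨hv, hv1⟩, hv2⟩
    refine ⟨?_, ?_⟩
    · rw [mem_rect] at hv
      rw [mem_FSq]
      omega
    rintro (h | h)
    · have h3 := near_of_Bk m1 h (by norm_num)
      have hv1' : s ≤ sd x v := hv1
      omega
    · have h3 := near_of_Bk m3 h (by norm_num)
      have hv2' : s ≤ sd x' v := hv2
      omega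
  refine ⟨cellOf N n x, cellOf N n f, cellOf N n x', cellOf N n f', nx, nf, nx', nf',
    far_of_sd m1 m2 (by omega), far_of_sd m1 m3 (by omega), far_of_sd m1 m4 (by omega),
    far_of_sd m2 m3 ?_, far_of_sd m2 m4 (by omega), far_of_sd m3 m4 (by omega), ?_, ?_⟩
  · rw [Kd458.sd_symm]; omega
  · refine ⟨⟨x, Bk_mono (by norm_num) m1, ?_⟩, ⟨x', Bk_mono (by norm_num) m3, ?_⟩⟩
    · rw [← cl_eq]; exact o1.monoS regP
    · rw [← cl_eq]; exact o2.monoS regP
  · refine ⟨⟨f, Bk_mono (by norm_num) m2, ?_⟩, ⟨f', Bk_mono (by norm_num) m4, ?_⟩⟩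
    · rw [← op_eq]; exact d1.monoS regD
    · rw [← op_eq]; exact d2.monoS regD

end Crest.Agent.R158.Sp580
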