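import Mathlib

/-! R158 (helper896) BLOCK SP, file 3: MARKS. From the separation property of the boundary edges of a
polygon near a Jordan curve to four contiguous boundary arcs. -/

set_option autoImplicit false

open Set

namespace Crest.Agent.R158.Sp896

/-- `x` is at distance at least `η` from `p` modulo 1 -/
def Avd (η p x : ℝ) : Prop := ∀ n : ℤ, η ≤ |x - p - n|

theorem avd_of {η p x : ℝ} (m : ℤ) (h1 : p + m + η ≤ x) (h2 : x ≤ p + m + 1 - η) : Avd η p x := by
  intro n
  rcases le_or_gt n m with h | h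
  · have h3 : (n : ℝ) ≤ m := by exact_mod_cast h
    exact le_trans (by linarith) (le_abs_self _)
  · have h3 : (m : ℝ) + 1 ≤ n := by exact_mod_cast h
    rw [le_abs]
    right
    linarith

/-- the separation property -/
def SProp (η : ℝ) (L : ℕ) (t : ℕ → ℝ) : Prop :=
  ∀ i j k k' : ℕ, i < j → j < L → k < L → k' < L → ∀ n : ℤ,
    (∀ x ∈ uIcc (t k) (t k' + n), Avd η (t i) x ∧ Avd η (t j) x) →
    ((i < k ∧ k < j) ↔ (i < k' ∧ k' < j))

theorem s_use {η : ℝ} {L : ℕ} {t : ℕ → ℝ} (hS : SProp η L t) {i j k k' : ℕ} (hij : i < j) (hj : j < L)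
    (hk : k < L) (hk' : k' < L) (n m1 m2 : ℤ) (lo hi : ℝ) (h1 : lo ≤ t k) (h2 : t k ≤ hi)
    (h3 : lo ≤ t k' + n) (h4 : t k' + n ≤ hi) (a1 : t i + m1 + η ≤ lo) (a2 : hi ≤ t i + m1 + 1 - η)
    (b1 : t j + m2 + η ≤ lo) (b2 : hi ≤ t j + m2 + 1 - η) :
    (i < k ∧ k < j) ↔ (i < k' ∧ k' < j) := by
  refine hS i j k k' hij hj hk hk' n fun x hx => ?_
  have h5 : lo ≤ x := le_trans (le_min h1 h3) hx.1
  have h6 : x ≤ hi := le_trans hx.2 (max_le h2 h4)
  exact ⟨avd_of m1 (a1.trans h5) (h6.trans a2), avd_of m2 (b1.trans h5) (h6.trans b2)⟩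

set_option maxHeartbeats 4000000 in
theorem marks {η κ : ℝ} {L b c d : ℕ} {t : ℕ → ℝ} {O : ℕ → Prop} (hη : 0 < η) (hη' : η ≤ κ)
    (hκ : κ ≤ 1 / 100) (h0 : ∀ m < L, 0 ≤ t m ∧ t m ≤ 1)
    (hO : ∀ m < L, O m → (1 / 4 ≤ t m ∧ t m ≤ 1 / 2) ∨ (3 / 4 ≤ t m))
    (hN : ∀ m < L, ¬ O m → t m ≤ 1 / 4 + κ ∨ (1 / 2 - κ ≤ t m ∧ t m ≤ 3 / 4 + κ) ∨ 1 - κ ≤ t m)
    (hS : SProp η L t) (ha : |t 0 - 1 / 8| < η) (hb : |t b - 3 / 8| < η) (hc : |t c - 5 / 8| < η)
    (hd : |t d - 7 / 8| < η) (h0b : 0 < b) (hbc : b < c) (hcd : c < d) (hdL : d < L) :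
    ∃ ib ic id ia : ℕ, 0 < ib ∧ ib ≤ b ∧ b < ic ∧ ic ≤ c ∧ c < id ∧ id ≤ d ∧ d < ia ∧ ia ≤ L ∧
      (∀ m, ib ≤ m → m < ic → O m ∧ 1 / 4 ≤ t m ∧ t m ≤ 1 / 2) ∧
      (∀ m, ic ≤ m → m < id → 1 / 2 - 2 * κ ≤ t m ∧ t m ≤ 3 / 4 + 2 * κ) ∧
      (∀ m, id ≤ m → m < ia → O m ∧ 3 / 4 ≤ t m) ∧
      (∀ m, m < ib ∨ (ia ≤ m ∧ m < L) → t m ≤ 1 / 4 + 2 * κ ∨ 1 - 2 * κ ≤ t m) := by
  classical
  rw [abs_lt] at ha hb hc hd
  have hcL : c < L := hcd.trans hdL
  have hbL : b < L := hbc.trans hcL
  have h0L : 0 < L := h0b.trans hbL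
  have R1 : ∀ k, 0 < k → k < b → 1 / 8 - 2 * η ≤ t k ∧ t k ≤ 3 / 8 + 2 * η := by
    intro k hk1 hk2
    have hkL : k < L := hk2.trans hbL
    have hk0 := h0 k hkL
    constructor
    · by_contra hcon
      push Not at hcon
      have := s_use hS h0b hbL hkL hdL (-1) (-1) (-1) (-1 / 8 - η) (1 / 8 - 2 * η)
        (by linarith) (by linarith) (by push_cast; linarith) (by push_cast; linarith)
        (by push_cast; linarith) (by push_cast; linarith) (by push_cast; linarith)
        (by push_cast; linarith)
      omega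
    · by_contra hcon
      push Not at hcon
      have := s_use hS h0b hbL hkL hdL 0 0 0 (3 / 8 + 2 * η) 1
        (by linarith) (by linarith) (by push_cast; linarith) (by push_cast; linarith)
        (by push_cast; linarith) (by push_cast; linarith) (by push_cast; linarith)
        (by push_cast; linarith)
      omega
  have R2 : ∀ k, b < k → k < c → 3 / 8 - 2 * η ≤ t k ∧ t k ≤ 5 / 8 + 2 * η := by
    intro k hk1 hk2
    have hkL : k < L := hk2.trans hcL
    have hk0 := h0 k hkL
    constructor
    · by_contra hcon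
      push Not at hcon
      have := s_use hS hbc hcL hkL h0L 0 (-1) (-1) 0 (3 / 8 - 2 * η)
        (by linarith) (by linarith) (by push_cast; linarith) (by push_cast; linarith)
        (by push_cast; linarith) (by push_cast; linarith) (by push_cast; linarith)
        (by push_cast; linarith)
      omega
    · by_contra hcon
      push Not at hcon
      have := s_use hS hbc hcL hkL h0L 1 0 0 (5 / 8 + 2 * η) (9 / 8 + η)
        (by linarith) (by linarith) (by push_cast; linarith) (by push_cast; linarith)
        (by push_cast; linarith) (by push_cast; linarith) (by push_cast; linarith)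
        (by push_cast; linarith)
      omega
  have R3 : ∀ k, c < k → k < d → 5 / 8 - 2 * η ≤ t k ∧ t k ≤ 7 / 8 + 2 * η := by
    intro k hk1 hk2
    have hkL : k < L := hk2.trans hdL
    have hk0 := h0 k hkL
    constructor
    · by_contra hcon
      push Not at hcon
      have := s_use hS hcd hdL hkL hbL 0 (-1) (-1) 0 (5 / 8 - 2 * η)
        (by linarith) (by linarith) (by push_cast; linarith) (by push_cast; linarith)
        (by push_cast; linarith) (by push_cast; linarith) (by push_cast; linarith)
        (by push_cast; linarith)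
      omega
    · by_contra hcon
      push Not at hcon
      have := s_use hS hcd hdL hkL hbL 1 0 0 (7 / 8 + 2 * η) (11 / 8 + η)
        (by linarith) (by linarith) (by push_cast; linarith) (by push_cast; linarith)
        (by push_cast; linarith) (by push_cast; linarith) (by push_cast; linarith)
        (by push_cast; linarith)
      omega
  have R4 : ∀ k, d < k → k < L → t k ≤ 1 / 8 + 2 * η ∨ 7 / 8 - 2 * η ≤ t k := by
    intro k hk1 hkL
    by_contra hcon
    push Not at hcon
    have := s_use hS (h0b.trans (hbc.trans hcd)) hdL hkL hbL 0 0 (-1) (1 / 8 + 2 * η) (7 / 8 - 2 * η)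
      (by linarith) (by linarith) (by push_cast; linarith) (by push_cast; linarith)
      (by push_cast; linarith) (by push_cast; linarith) (by push_cast; linarith)
      (by push_cast; linarith)
    omega
  have nO0 : ¬ O 0 := by
    intro h
    rcases hO 0 h0L h with h1 | h1
    · linarith [h1.1]
    · linarith
  have nOc : ¬ O c := by
    intro h
    rcases hO c hcL h with h1 | h1
    · linarith [h1.2]
    · linarith
  have yOb : O b := by
    by_contra h
    rcases hN b hbL h with h1 | h1 | h1
    · linarith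
    · linarith [h1.1]
    · linarith
  have yOd : O d := by
    by_contra h
    rcases hN d hdL h with h1 | h1 | h1
    · linarith
    · linarith [h1.2]
    · linarith
  -- last non-O index before b
  obtain ⟨g, hg1, hg2, hg3⟩ : ∃ g < b, ¬ O g ∧ ∀ k, g < k → k < b → O k := by
    have hmem : Nat.findGreatest (fun k => ¬ O k) (b - 1) ≤ b - 1 := Nat.findGreatest_le _
    refine ⟨Nat.findGreatest (fun k => ¬ O k) (b - 1), by omega, ?_, ?_⟩
    · exact Nat.findGreatest_spec (P := fun k => ¬ O k) (Nat.zero_le _) nO0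
    · intro k hk1 hk2
      by_contra hk
      exact absurd (Nat.le_findGreatest (P := fun k => ¬ O k) (by omega : k ≤ b - 1) hk) (not_le.2 hk1)
  obtain ⟨g', hg1', hg2', hg3', hg4'⟩ : ∃ g', c ≤ g' ∧ g' < d ∧ ¬ O g' ∧ ∀ k, g' < k → k < d → O k := by
    have hmem : Nat.findGreatest (fun k => ¬ O k) (d - 1) ≤ d - 1 := Nat.findGreatest_le _
    refine ⟨Nat.findGreatest (fun k => ¬ O k) (d - 1), ?_, by omega, ?_, ?_⟩
    · exact Nat.le_findGreatest (by omega) nOc
    · exact Nat.findGreatest_spec (P := fun k => ¬ O k) (by omega : c ≤ d - 1) nOc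
    · intro k hk1 hk2
      by_contra hk
      exact absurd (Nat.le_findGreatest (P := fun k => ¬ O k) (by omega : k ≤ d - 1) hk) (not_le.2 hk1)
  obtain ⟨ic, hic1, hic2, hic3, hic4⟩ : ∃ ic, b < ic ∧ ic ≤ c ∧ ¬ O ic ∧ ∀ k, b < k → k < ic → O k := by
    have hex : ∃ k, b < k ∧ ¬ O k := ⟨c, hbc, nOc⟩
    refine ⟨Nat.find hex, (Nat.find_spec hex).1, Nat.find_min' hex ⟨hbc, nOc⟩, (Nat.find_spec hex).2, ?_⟩
    intro k hk1 hk2
    by_contra hk
    exact Nat.find_min hex hk2 ⟨hk1, hk⟩
  obtain ⟨ia, hia1, hia2, hia3, hia4⟩ : ∃ ia, d < ia ∧ ia ≤ L ∧ (ia < L → ¬ O ia) ∧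
      ∀ k, d < k → k < ia → O k := by
    have hex : ∃ k, d < k ∧ (k < L → ¬ O k) := ⟨L, hdL, fun h => absurd h (lt_irrefl L)⟩
    refine ⟨Nat.find hex, (Nat.find_spec hex).1,
      Nat.find_min' hex ⟨hdL, fun h => absurd h (lt_irrefl L)⟩, (Nat.find_spec hex).2, ?_⟩
    intro k hk1 hk2
    by_contra hk
    exact Nat.find_min hex hk2 ⟨hk1, fun _ => hk⟩
  have hgL : g < L := hg1.trans hbL
  have tg : 1 / 8 - 2 * η ≤ t g ∧ t g ≤ 1 / 4 + κ := by
    have h1 : 1 / 8 - 2 * η ≤ t g ∧ t g ≤ 3 / 8 + 2 * η := by
      rcases Nat.eq_zero_or_pos g with h | h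
      · subst h
        constructor <;> linarith
      · exact R1 g h hg1
    refine ⟨h1.1, ?_⟩
    rcases hN g hgL hg2 with h2 | h2 | h2
    · exact h2
    · linarith [h2.1]
    · linarith
  have hg'L : g' < L := hg2'.trans hdL
  have tg' : 5 / 8 - 2 * η ≤ t g' ∧ t g' ≤ 3 / 4 + κ := by
    have h1 : 5 / 8 - 2 * η ≤ t g' ∧ t g' ≤ 7 / 8 + 2 * η := by
      rcases eq_or_lt_of_le hg1' with h | h
      · subst h
        constructor <;> linarith
      · exact R3 g' h hg2'
    refine ⟨h1.1, ?_⟩
    rcases hN g' hg'L hg3' with h2 | h2 | h2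
    · linarith
    · exact h2.2
    · linarith
  have hicL : ic < L := hic2.trans_lt hcL
  have tic : 1 / 2 - κ ≤ t ic ∧ t ic ≤ 5 / 8 + 2 * η := by
    have h1 : 3 / 8 - 2 * η ≤ t ic ∧ t ic ≤ 5 / 8 + 2 * η := by
      rcases eq_or_lt_of_le hic2 with h | h
      · subst h
        constructor <;> linarith
      · exact R2 ic hic1 h
    refine ⟨?_, h1.2⟩
    rcases hN ic hicL hic3 with h2 | h2 | h2
    · linarith
    · exact h2.1
    · linarith
  refine ⟨g + 1, ic, g' + 1, ia, by omega, by omega, hic1, hic2, by omega, by omega, hia1, hia2,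
    ?_, ?_, ?_, ?_⟩
  · intro m hm1 hm2
    have hOm : O m := by
      rcases lt_trichotomy m b with h | h | h
      · exact hg3 m (by omega) h
      · rw [h]; exact yOb
      · exact hic4 m h hm2
    refine ⟨hOm, ?_⟩
    have h1 : t m ≤ 5 / 8 + 2 * η := by
      rcases lt_trichotomy m b with h | h | h
      · linarith [(R1 m (by omega) h).2]
      · rw [h]; linarith
      · exact (R2 m h (hm2.trans_le hic2)).2
    rcases hO m (by omega) hOm with h2 | h2
    · exact h2
    · linarith
  · intro m hm1 hm2
    rcases lt_trichotomy m c with h | h | h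
    · have hR := R2 m (by omega) h
      refine ⟨?_, by linarith [hR.2]⟩
      rcases eq_or_lt_of_le hm1 with h1 | h1
      · rw [← h1]; linarith [tic.1]
      · by_contra hcon
        push Not at hcon
        have := s_use hS (by omega : 0 < m) (by omega) hicL hdL 0 0 0 (1 / 2 - κ) (7 / 8 + η)
          (by linarith [tic.1]) (by linarith [tic.2]) (by push_cast; linarith) (by push_cast; linarith)
          (by push_cast; linarith) (by push_cast; linarith) (by push_cast; linarith)
          (by push_cast; linarith [hR.1])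
        omega
    · rw [h]
      constructor <;> linarith
    · have hmd : m < d := by omega
      have hR := R3 m h hmd
      refine ⟨by linarith [hR.1], ?_⟩
      rcases eq_or_lt_of_le (by omega : m ≤ g') with h1 | h1
      · rw [h1]; linarith [tg'.2]
      · by_contra hcon
        push Not at hcon
        have := s_use hS (by omega : 0 < m) (by omega) hg'L hbL 0 0 (-1) (3 / 8 - η) (3 / 4 + κ)
          (by linarith [tg'.1]) (by linarith [tg'.2]) (by push_cast; linarith) (by push_cast; linarith)
          (by push_cast; linarith) (by push_cast; linarith) (by push_cast; linarith [hR.2])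
          (by push_cast; linarith)
        omega
  · intro m hm1 hm2
    have hOm : O m := by
      rcases lt_trichotomy m d with h | h | h
      · exact hg4' m (by omega) h
      · rw [h]; exact yOd
      · exact hia4 m h hm2
    refine ⟨hOm, ?_⟩
    rcases hO m (by omega) hOm with h2 | h2
    · exfalso
      rcases lt_trichotomy m d with h | h | h
      · linarith [(R3 m (by omega) h).1, h2.2]
      · rw [h] at h2; linarith [h2.2]
      · rcases R4 m h (by omega) with h3 | h3
        · linarith [h2.1]
        · linarith [h2.2]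
    · exact h2
  · rintro m (hm | ⟨hm1, hm2⟩)
    · left
      rcases eq_or_lt_of_le (by omega : m ≤ g) with h1 | h1
      · rw [h1]; linarith [tg.2]
      · rcases Nat.eq_zero_or_pos m with h2 | h2
        · rw [h2]; linarith
        · have hR := R1 m h2 (by omega)
          by_contra hcon
          push Not at hcon
          have := s_use hS (by omega : m < c) hcL hgL hdL (-1) (-1) (-1) (-1 / 8 - η) (1 / 4 + κ)
            (by linarith [tg.1]) (by linarith [tg.2]) (by push_cast; linarith)
            (by push_cast; linarith) (by push_cast; linarith [hR.2]) (by push_cast; linarith)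
            (by push_cast; linarith) (by push_cast; linarith)
          omega
    · have hR := R4 m (by omega) hm2
      rcases eq_or_lt_of_le hm1 with h1 | h1
      · subst h1
        rcases hN ia hm2 (hia3 hm2) with h2 | h2 | h2
        · left; linarith
        · exfalso
          rcases hR with h3 | h3
          · linarith [h2.1]
          · linarith [h2.2]
        · right; linarith
      · have hiaL : ia < L := h1.trans hm2
        rcases hR with h3 | h3
        · left; linarith
        · right
          by_contra hcon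
          push Not at hcon
          have hRia := R4 ia hia1 hiaL
          have h0ia := h0 ia hiaL
          have tia : t ia ≤ 1 / 8 + 2 * η ∨ 1 - κ ≤ t ia := by
            rcases hN ia hiaL (hia3 hiaL) with h2 | h2 | h2
            · rcases hRia with h4 | h4
              · left; exact h4
              · linarith
            · rcases hRia with h4 | h4
              · left; exact h4
              · linarith [h2.2]
            · right; exact h2
          rcases tia with h4 | h4
          · have := s_use hS (by omega : c < m) hm2 hiaL h0L 0 (-1) (-1) 0 (1 / 8 + 2 * η)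
              (by linarith) (by linarith) (by push_cast; linarith) (by push_cast; linarith)
              (by push_cast; linarith) (by push_cast; linarith) (by push_cast; linarith)
              (by push_cast; linarith)
            omega
          · have := s_use hS (by omega : c < m) hm2 hiaL h0L 1 0 0 (1 - κ) (9 / 8 + η)
              (by linarith) (by linarith) (by push_cast; linarith) (by push_cast; linarith)
              (by push_cast; linarith) (by push_cast; linarith) (by push_cast; linarith)
              (by push_cast; linarith)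
            omega

/-- the two possible cyclic orders -/
theorem order {η : ℝ} {L b c d : ℕ} {t : ℕ → ℝ} (hη : 0 < η) (hη' : η ≤ 1 / 100)
    (hS : SProp η L t) (ha : |t 0 - 1 / 8| < η) (hb : |t b - 3 / 8| < η) (hc : |t c - 5 / 8| < η)
    (hd : |t d - 7 / 8| < η) (hbL : b < L) (hcL : c < L) (hdL : d < L) :
    (0 < b ∧ b < c ∧ c < d) ∨ (0 < d ∧ d < c ∧ c < b) := by
  rw [abs_lt] at ha hb hc hd
  have h0L : 0 < L := by omega
  have e0b : 0 ≠ b := by rintro rfl; linarith
  have e0c : 0 ≠ c := by rintro rfl; linarith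
  have e0d : 0 ≠ d := by rintro rfl; linarith
  have ebc : b ≠ c := by rintro rfl; linarith
  have ebd : b ≠ d := by rintro rfl; linarith
  have ecd : c ≠ d := by rintro rfl; linarith
  -- pair {0,b}, c and d
  have h1 := s_use hS (by omega : 0 < b) hbL hcL hdL 0 0 0 (5 / 8 - η) (7 / 8 + η)
    (by linarith) (by linarith) (by push_cast; linarith) (by push_cast; linarith)
    (by push_cast; linarith) (by push_cast; linarith) (by push_cast; linarith)
    (by push_cast; linarith)
  -- pair {b,c}, d and 0
  have h2 : ¬ (b < d ∧ d < c) ∧ ¬ (c < d ∧ d < b) := by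
    rcases lt_or_gt_of_ne ebc with h | h
    · have := s_use hS h hcL hdL h0L 1 0 0 (7 / 8 - η) (9 / 8 + η)
        (by linarith) (by linarith) (by push_cast; linarith) (by push_cast; linarith)
        (by push_cast; linarith) (by push_cast; linarith) (by push_cast; linarith)
        (by push_cast; linarith)
      omega
    · have := s_use hS h hbL hdL h0L 1 0 0 (7 / 8 - η) (9 / 8 + η)
        (by linarith) (by linarith) (by push_cast; linarith) (by push_cast; linarith)
        (by push_cast; linarith) (by push_cast; linarith) (by push_cast; linarith)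
        (by push_cast; linarith)
      omega
  -- pair {c,d}, b and 0
  have h3 : ¬ (c < b ∧ b < d) ∧ ¬ (d < b ∧ b < c) := by
    rcases lt_or_gt_of_ne ecd with h | h
    · have := s_use hS h hdL hbL h0L 0 (-1) (-1) (1 / 8 - η) (3 / 8 + η)
        (by linarith) (by linarith) (by push_cast; linarith) (by push_cast; linarith)
        (by push_cast; linarith) (by push_cast; linarith) (by push_cast; linarith)
        (by push_cast; linarith)
      omega
    · have := s_use hS h hcL hbL h0L 0 (-1) (-1) (1 / 8 - η) (3 / 8 + η)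
        (by linarith) (by linarith) (by push_cast; linarith) (by push_cast; linarith)
        (by push_cast; linarith) (by push_cast; linarith) (by push_cast; linarith)
        (by push_cast; linarith)
      omega
  omega

/-- reversal of the cyclic order fixing `0` -/
def rev (L k : ℕ) : ℕ := if k = 0 then 0 else L - k

theorem rev_lt {L k : ℕ} (hk : k < L) : rev L k < L := by
  unfold rev
  split_ifs <;> omega

theorem rev_rev {L k : ℕ} (hk : k < L) : rev L (rev L k) = k := by
  unfold rev
  split_ifs <;> omega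

theorem sprop_rev {η : ℝ} {L : ℕ} {t : ℕ → ℝ} (hη : 0 < η) (hS : SProp η L t) :
    SProp η L fun k => t (rev L k) := by
  intro i j k k' hij hj hk hk' n hx
  have hki : k ≠ i ∧ k ≠ j := by
    have h1 := hx (t (rev L k)) left_mem_uIcc
    constructor
    · rintro rfl
      have := h1.1 0
      simp at this
      linarith
    · rintro rfl
      have := h1.2 0
      simp at this
      linarith
  have hki' : k' ≠ i ∧ k' ≠ j := by
    have h1 := hx (t (rev L k') + n) right_mem_uIcc
    constructor
    · rintro rfl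
      have := h1.1 n
      simp at this
      linarith
    · rintro rfl
      have := h1.2 n
      simp at this
      linarith
  have hri : rev L i < L := rev_lt (hij.trans hj)
  have hrj : rev L j < L := rev_lt hj
  have hrk : rev L k < L := rev_lt hk
  have hrk' : rev L k' < L := rev_lt hk'
  rcases Nat.eq_zero_or_pos i with h0 | h0
  · subst h0
    have h1 := hS (rev L 0) (rev L j) (rev L k) (rev L k') (by unfold rev; split_ifs <;> omega) hrj hrk hrk' n hx
    unfold rev at h1
    simp only [if_true] at h1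
    rw [if_neg (by omega : ¬ j = 0), if_neg hki.1, if_neg hki'.1] at h1
    omega
  · have h1 := hS (rev L j) (rev L i) (rev L k) (rev L k') (by unfold rev; split_ifs <;> omega) hri hrk
      hrk' n (fun x hx' => (hx x hx').symm)
    unfold rev at h1
    rw [if_neg (by omega : ¬ j = 0), if_neg (by omega : ¬ i = 0)] at h1
    split_ifs at h1 <;> omega

/-- MARKS, both orientations -/
theorem marks_all {η κ : ℝ} {L b c d : ℕ} {t : ℕ → ℝ} {O : ℕ → Prop} (hη : 0 < η) (hη' : η ≤ κ)
    (hκ : κ ≤ 1 / 100) (h0 : ∀ m < L, 0 ≤ t m ∧ t m ≤ 1)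
    (hO : ∀ m < L, O m → (1 / 4 ≤ t m ∧ t m ≤ 1 / 2) ∨ (3 / 4 ≤ t m))
    (hN : ∀ m < L, ¬ O m → t m ≤ 1 / 4 + κ ∨ (1 / 2 - κ ≤ t m ∧ t m ≤ 3 / 4 + κ) ∨ 1 - κ ≤ t m)
    (hS : SProp η L t) (ha : |t 0 - 1 / 8| < η) (hb : |t b - 3 / 8| < η) (hc : |t c - 5 / 8| < η)
    (hd : |t d - 7 / 8| < η) (hbL : b < L) (hcL : c < L) (hdL : d < L) :
    ∃ σ : ℕ → ℕ, (σ = id ∨ σ = rev L) ∧
    ∃ ib ic id ia : ℕ, 0 < ib ∧ ib < ic ∧ ic < id ∧ id < ia ∧ ia ≤ L ∧
      (∀ m, ib ≤ m → m < ic → O (σ m) ∧ 1 / 4 ≤ t (σ m) ∧ t (σ m) ≤ 1 / 2) ∧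
      (∀ m, ic ≤ m → m < id → 1 / 2 - 2 * κ ≤ t (σ m) ∧ t (σ m) ≤ 3 / 4 + 2 * κ) ∧
      (∀ m, id ≤ m → m < ia → O (σ m) ∧ 3 / 4 ≤ t (σ m)) ∧
      (∀ m, m < ib ∨ (ia ≤ m ∧ m < L) → t (σ m) ≤ 1 / 4 + 2 * κ ∨ 1 - 2 * κ ≤ t (σ m)) := by
  rcases order hη (hη'.trans hκ) hS ha hb hc hd hbL hcL hdL with h | h
  · obtain ⟨ib, ic, id', ia, h1, h2, h3, h4, h5, h6, h7, h8, h9⟩ :=
      marks hη hη' hκ h0 hO hN hS ha hb hc hd h.1 h.2.1 h.2.2 hdL
    exact ⟨id, Or.inl rfl, ib, ic, id', ia, h1, by omega, by omega, by omega, h8, h9⟩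
  · have hr : ∀ k, k < L → rev L (rev L k) = k := fun k hk => rev_rev hk
    have hb0 : rev L b = L - b := by unfold rev; rw [if_neg (by omega)]
    have hc0 : rev L c = L - c := by unfold rev; rw [if_neg (by omega)]
    have hd0 : rev L d = L - d := by unfold rev; rw [if_neg (by omega)]
    obtain ⟨ib, ic, id', ia, h1, h2, h3, h4, h5, h6, h7, h8, h9⟩ :=
      marks (η := η) (κ := κ) (L := L) (b := rev L b) (c := rev L c) (d := rev L d)
        (t := fun k => t (rev L k)) (O := fun k => O (rev L k)) hη hη' hκ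
        (fun m hm => h0 _ (rev_lt hm)) (fun m hm => hO _ (rev_lt hm)) (fun m hm => hN _ (rev_lt hm))
        (sprop_rev hη hS) (by simpa [rev] using ha) (by simpa [hr b hbL] using hb)
        (by simpa [hr c hcL] using hc) (by simpa [hr d hdL] using hd)
        (by omega) (by omega) (by omega) (by omega)
    exact ⟨rev L, Or.inr rfl, ib, ic, id', ia, h1, by omega, by omega, by omega, h8, h9⟩

end Crest.Agent.R158.Sp896
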