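import Crest.Agent.R158.Sp1_896
import Crest.Agent.R158.Sp2_896

/-! R158 (helper896) BLOCK SP, file 4: edges of cells as segments, compact paths in the exterior of the
Jordan curve, and the cells they meet. -/

set_option autoImplicit false

open Set Topology Filter Metric
open Crest Crest.ProbabilityR Crest.ProbabilityR.Percolation
open Crest.Agent.R158.Jt785

namespace Crest.Agent.R158.Sp896

/-- the mesh point of a vertex -/
def pt (s : ℝ) (a : V) : ℂ := ⟨s * a.1, s * a.2⟩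

/-- closed edge -/
def ed (s : ℝ) (a b : V) : Set ℂ := segment ℝ (pt s a) (pt s b)

theorem pt_mem {s : ℝ} (hs : 0 < s) {a b : V} (h : Adj a b) :
    pt s a ∈ sq s (lc a b) ∧ pt s b ∈ sq s (lc a b) ∧ pt s a ∈ sq s (rc a b) ∧ pt s b ∈ sq s (rc a b) := by
  have hb : b = (b.1, b.2) := rfl
  rcases h with ⟨h1, h2⟩ | ⟨h1, h2⟩ | ⟨h1, h2⟩ | ⟨h1, h2⟩
  · have e1 : lc a b = (a.1, a.2) := by unfold lc; ext <;> simp only <;> omega
    have e2 : rc a b = (a.1, a.2 - 1) := by unfold rc; ext <;> simp only <;> omega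
    rw [e1, e2, hb, h1, h2]
    refine ⟨⟨?_, ?_, ?_, ?_⟩, ⟨?_, ?_, ?_, ?_⟩, ⟨?_, ?_, ?_, ?_⟩, ⟨?_, ?_, ?_, ?_⟩⟩ <;>
      · simp only [pt]; push_cast; nlinarith
  · have e1 : lc a b = (a.1 - 1, a.2 - 1) := by unfold lc; ext <;> simp only <;> omega
    have e2 : rc a b = (a.1 - 1, a.2) := by unfold rc; ext <;> simp only <;> omega
    rw [e1, e2, hb, h1, h2]
    refine ⟨⟨?_, ?_, ?_, ?_⟩, ⟨?_, ?_, ?_, ?_⟩, ⟨?_, ?_, ?_, ?_⟩, ⟨?_, ?_, ?_, ?_⟩⟩ <;>
      · simp only [pt]; push_cast; nlinarith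
  · have e1 : lc a b = (a.1 - 1, a.2) := by unfold lc; ext <;> simp only <;> omega
    have e2 : rc a b = (a.1, a.2) := by unfold rc; ext <;> simp only <;> omega
    rw [e1, e2, hb, h1, h2]
    refine ⟨⟨?_, ?_, ?_, ?_⟩, ⟨?_, ?_, ?_, ?_⟩, ⟨?_, ?_, ?_, ?_⟩, ⟨?_, ?_, ?_, ?_⟩⟩ <;>
      · simp only [pt]; push_cast; nlinarith
  · have e1 : lc a b = (a.1, a.2 - 1) := by unfold lc; ext <;> simp only <;> omega
    have e2 : rc a b = (a.1 - 1, a.2 - 1) := by unfold rc; ext <;> simp only <;> omega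
    rw [e1, e2, hb, h1, h2]
    refine ⟨⟨?_, ?_, ?_, ?_⟩, ⟨?_, ?_, ?_, ?_⟩, ⟨?_, ?_, ?_, ?_⟩, ⟨?_, ?_, ?_, ?_⟩⟩ <;>
      · simp only [pt]; push_cast; nlinarith

theorem ed_sub_lc {s : ℝ} (hs : 0 < s) {a b : V} (h : Adj a b) : ed s a b ⊆ sq s (lc a b) :=
  (convex_sq s _).segment_subset (pt_mem hs h).1 (pt_mem hs h).2.1

theorem ed_sub_rc {s : ℝ} (hs : 0 < s) {a b : V} (h : Adj a b) : ed s a b ⊆ sq s (rc a b) :=
  (convex_sq s _).segment_subset (pt_mem hs h).2.2.1 (pt_mem hs h).2.2.2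

theorem adj_common {s : ℝ} (hs : 0 < s) {q q' : V} (h : Adj q q') : ∃ p, p ∈ sq s q ∧ p ∈ sq s q' := by
  obtain ⟨a, b, hab, rfl, rfl⟩ := exists_dart h
  exact ⟨pt s a, (pt_mem hs hab).1, (pt_mem hs hab).2.2.1⟩

theorem adj_dist {s : ℝ} (hs : 0 < s) {q q' : V} (h : Adj q q') {z w : ℂ} (hz : z ∈ sq s q)
    (hw : w ∈ sq s q') : ‖z - w‖ ≤ 4 * s := by
  obtain ⟨p, hp, hp'⟩ := adj_common hs h
  have h1 := sq_dist hz hp
  have h2 := sq_dist hp' hw
  have h3 : z - w = (z - p) + (p - w) := by ring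
  rw [h3]
  exact (norm_add_le _ _).trans (by linarith)

theorem sq_nonempty {s : ℝ} (hs : 0 < s) (q : V) : (sq s q).Nonempty :=
  ⟨pt s q, by simp only [pt]; constructor; exact le_rfl; refine ⟨?_, le_rfl, ?_⟩ <;> nlinarith⟩

/-! ### interior of a union of cells -/

theorem mem_interior_cells {s : ℝ} (hs : 0 < s) {F : Set V} {z : ℂ}
    (h : ∀ q : V, z ∈ sq s q → q ∈ F) : z ∈ interior (⋃ q ∈ F, sq s q) := by
  have hfin := cells_finite hs (isBounded_ball : Bornology.IsBounded (ball z 1))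
  set Y : Set V := {q | q ∈ cells s (ball z 1) ∧ z ∉ sq s q} with hY
  have hYf : Y.Finite := hfin.subset fun q hq => hq.1
  have hC : IsClosed (⋃ q ∈ Y, sq s q) := hYf.isClosed_biUnion fun q _ => isClosed_sq s q
  rw [mem_interior]
  refine ⟨ball z 1 ∩ (⋃ q ∈ Y, sq s q)ᶜ, ?_, isOpen_ball.inter hC.isOpen_compl,
    mem_ball_self one_pos, ?_⟩
  · rintro w ⟨hw1, hw2⟩
    refine mem_biUnion (x := cellOf s w) (h _ ?_) (mem_cellOf hs w)
    by_contra hcon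
    apply hw2
    exact mem_biUnion (x := cellOf s w) ⟨cellOf_mem hs hw1, hcon⟩ (mem_cellOf hs w)
  · intro hz
    rw [mem_iUnion₂] at hz
    obtain ⟨q, hq, hzq⟩ := hz
    exact hq.2 hzq

/-! ### distance constants -/

theorem pos_dist {K S : Set ℂ} (hK : IsCompact K) (hS : IsClosed S) (hd : Disjoint K S) :
    ∃ δ : ℝ, 0 < δ ∧ ∀ x ∈ K, ∀ y ∈ S, δ ≤ ‖x - y‖ := by
  obtain ⟨δ, hδ, hth⟩ := hK.exists_thickening_subset_open hS.isOpen_compl
    (fun x hx hxS => disjoint_left.1 hd hx hxS)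
  refine ⟨δ, hδ, fun x hx y hy => ?_⟩
  by_contra hcon
  push Not at hcon
  have : y ∈ thickening δ K := by
    rw [mem_thickening_iff]
    exact ⟨x, hx, by rw [dist_eq_norm, norm_sub_rev]; exact hcon⟩
  exact hth this hy

section ext

variable {γ : ℝ → ℂ} {φ : ℂ → ℂ}

theorem exists_R (h : Unif γ φ) : ∃ R : ℝ, 0 ≤ R ∧ (∀ z ∈ closure (jordanInterior γ), ‖z‖ ≤ R) ∧
    ∀ z : ℂ, R < ‖z‖ → z ∈ ext γ := by
  obtain ⟨R, hR⟩ := (h.isCompact).isBounded.exists_norm_le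
  refine ⟨max R 0, le_max_right _ _, fun z hz => (hR z hz).trans (le_max_left _ _), fun z hz => ?_⟩
  rcases cover h.jc z with h1 | h1 | h1
  · exact absurd (hR z (h.tr_subset h1)) (not_le.2 ((le_max_left _ _).trans_lt hz))
  · exact absurd (hR z (subset_closure h1)) (not_le.2 ((le_max_left _ _).trans_lt hz))
  · exact h1

theorem ext_disj (h : Unif γ φ) : Disjoint (ext γ) (closure (jordanInterior γ)) := by
  refine disjoint_left.2 fun z h1 h2 => ?_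
  rcases closure_ji_subset h.jc h2 with h3 | h3
  · exact disjoint_left.1 (disj_ji_ext h.jc) h3 h1
  · exact disjoint_left.1 (disj_ext_tr γ) h1 h3

theorem ext_or (h : Unif γ φ) (z : ℂ) : z ∈ ext γ ∨ z ∈ closure (jordanInterior γ) := by
  rcases cover h.jc z with h1 | h1 | h1
  · exact Or.inr (h.tr_subset h1)
  · exact Or.inr (subset_closure h1)
  · exact Or.inl h1

/-- compact connected sets joining exterior points -/
theorem ext_path (h : Unif γ φ) {z w : ℂ} (hz : z ∈ ext γ) (hw : w ∈ ext γ) :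
    ∃ K : Set ℂ, IsCompact K ∧ IsPreconnected K ∧ z ∈ K ∧ w ∈ K ∧ K ⊆ ext γ := by
  have hc : IsConnected (ext γ) := ⟨⟨z, hz⟩, isPreconnected_ext h.jc⟩
  have hp := (isOpen_ext h.jc).isConnected_iff_isPathConnected.1 hc
  obtain ⟨f, hf⟩ := hp.joinedIn z hz w hw
  refine ⟨range f, isCompact_range f.continuous, isPreconnected_range f.continuous,
    ⟨0, f.source⟩, ⟨1, f.target⟩, ?_⟩
  rintro x ⟨t, rfl⟩
  exact hf t

theorem near_ext (h : Unif γ φ) {t : ℝ} (ht : t ∈ Icc (0:ℝ) 1) {δ : ℝ} (hδ : 0 < δ) :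
    ∃ p ∈ ext γ, ‖p - γ t‖ < δ := by
  have h1 : γ t ∈ frontier (ext γ) := by
    rw [frontier_ext h.jc h.ne]
    exact mem_image_of_mem _ ht
  obtain ⟨p, hp, hd⟩ := Metric.mem_closure_iff.1 (frontier_subset_closure h1) δ hδ
  exact ⟨p, hp, by rw [← dist_eq_norm, dist_comm]; exact hd⟩

end ext

/-- cells meeting a connected set that reaches the far point and stays away from `Sg` are outer -/
theorem far_out {s R : ℝ} (hs : 0 < s) (hs1 : s ≤ 1) {Sg : Set ℂ} (hR : ∀ z ∈ Sg, ‖z‖ ≤ R)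
    {K : Set ℂ} (hK : IsPreconnected K) (hKb : Bornology.IsBounded K)
    (hd : ∀ x ∈ K, ∀ y ∈ Sg, 2 * s < ‖x - y‖) (hz : ((R + 3 : ℝ) : ℂ) ∈ K) :
    ∀ q ∈ cells s K, q ∈ Out (cells s Sg) := by
  have h1 : cells s K ⊆ (cells s Sg)ᶜ := by
    rintro q ⟨x, hx, hxK⟩ ⟨y, hy, hyS⟩
    exact absurd (sq_dist hx hy) (not_le.2 (hd x hxK y hyS))
  have hM : ∀ q ∈ cells s Sg, |q.1| ≤ ⌊R / s + 1⌋ ∧ |q.2| ≤ ⌊R / s + 1⌋ := by
    intro q hq
    obtain ⟨h2, h3⟩ := cells_box hs hR hq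
    constructor
    · apply Int.le_floor.2
      push_cast
      exact h2
    · apply Int.le_floor.2
      push_cast
      exact h3
  have h4 : cellOf s ((R + 3 : ℝ) : ℂ) ∈ Out (cells s Sg) := by
    apply out_far hM
    left
    refine lt_of_lt_of_le ?_ (le_abs_self _)
    show ⌊R / s + 1⌋ < ⌊((R + 3 : ℝ) : ℂ).re / s⌋
    rw [Complex.ofReal_re, Int.floor_lt]
    have h5 := Int.lt_floor_add_one ((R + 3) / s)
    have h6 : (3 : ℝ) ≤ 3 / s := by rw [le_div_iff₀ hs]; linarith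
    have h7 : (R + 3) / s = R / s + 3 / s := by rw [add_div]
    linarith
  intro q hq
  have h8 := cells_con hs hK hKb (cellOf s ((R + 3 : ℝ) : ℂ)) (cellOf_mem hs hz) q hq
  exact out_of_con h4 (h8.mono h1)

/-- a cell containing a point of large norm is outer -/
theorem norm_out {s R : ℝ} (hs : 0 < s) (hs1 : s ≤ 1) {Sg : Set ℂ} (hR : ∀ z ∈ Sg, ‖z‖ ≤ R)
    {q : V} {z : ℂ} (hz : z ∈ sq s q) (hn : 2 * R + 6 < ‖z‖) : q ∈ Out (cells s Sg) := by
  have hM : ∀ q ∈ cells s Sg, |q.1| ≤ ⌊R / s + 1⌋ ∧ |q.2| ≤ ⌊R / s + 1⌋ := by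
    intro q hq
    obtain ⟨h2, h3⟩ := cells_box hs hR hq
    constructor
    · apply Int.le_floor.2
      push_cast
      exact h2
    · apply Int.le_floor.2
      push_cast
      exact h3
  apply out_far hM
  obtain ⟨h1, h2, h3, h4⟩ := hz
  have h5 := Complex.norm_le_abs_re_add_abs_im z
  have h6 : R + 3 < |z.re| ∨ R + 3 < |z.im| := by
    by_contra hcon
    push Not at hcon
    linarith [hcon.1, hcon.2]
  have key : ∀ (x : ℝ) (a : ℤ), s * a ≤ x → x ≤ s * (a + 1) → R + 3 < |x| → ⌊R / s + 1⌋ < |a| := by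
    intro x a k1 k2 k3
    rw [Int.floor_lt]
    push_cast
    have k4 : R / s + 1 = (R + s) / s := by field_simp
    rw [k4, div_lt_iff₀ hs]
    rcases lt_abs.1 k3 with k5 | k5
    · have : (a : ℝ) ≤ |(a : ℝ)| := le_abs_self _
      nlinarith
    · have : -(a : ℝ) ≤ |(a : ℝ)| := neg_le_abs _
      nlinarith
  rcases h6 with h6 | h6
  · exact Or.inl (key z.re q.1 h1 h2 h6)
  · exact Or.inr (key z.im q.2 h3 h4 h6)

end Crest.Agent.R158.Sp896
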