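import Crest.Agent.R158.Rs6_689

/-!
# Row 158, Block SEP, S4 (helper874), file a: rings of cells, rays and arcs

Cells are given by their lower left corner (689's `Rs6_689`).  Everything here is `omega`.

* `rt q c`     : rotation of the cell `c` by `q` quarter turns about the origin
* `Far c c'`   : coarse sup distance at least `9`
* `nr c`       : the index of the ring of `c`
* `cl j w`     : the `w`-th cell of the ring `j` (period `4(2j+1)`)
* `ry a j x`   : the cell of ring `j ≥ a` on the straight ray starting at `cl a x`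
* `rc a j x`   : its coordinate on the ring `j`
-/

set_option autoImplicit false

namespace Crest.Agent.R158.Sp874

open Crest.Agent.R158.Rs689 Crest.Agent.R161.Geo729

/-- rotation of the cell grid by `q` quarter turns -/
def rt (q : ℤ) (c : P2) : P2 :=
  if q % 4 = 0 then c else if q % 4 = 1 then (-1 - c.2, c.1)
  else if q % 4 = 2 then (-1 - c.1, -1 - c.2) else (c.2, -1 - c.1)

/-- coarse sup distance at least `9` -/
def Far (c c' : P2) : Prop :=
  c.1 + 9 ≤ c'.1 ∨ c'.1 + 9 ≤ c.1 ∨ c.2 + 9 ≤ c'.2 ∨ c'.2 + 9 ≤ c.2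

theorem Far.symm {c c' : P2} (h : Far c c') : Far c' c := by
  unfold Far at *; tauto

theorem rt_cases (q : ℤ) (c : P2) :
    (q % 4 = 0 ∧ rt q c = c) ∨ (q % 4 = 1 ∧ rt q c = (-1 - c.2, c.1)) ∨
      (q % 4 = 2 ∧ rt q c = (-1 - c.1, -1 - c.2)) ∨ (q % 4 = 3 ∧ rt q c = (c.2, -1 - c.1)) := by
  have h : q % 4 = 0 ∨ q % 4 = 1 ∨ q % 4 = 2 ∨ q % 4 = 3 := by omega
  rcases h with h | h | h | h <;> simp [rt, h]

theorem rt_zero (c : P2) : rt 0 c = c := by simp [rt]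

theorem rt_one (c : P2) : rt 1 c = (-1 - c.2, c.1) := by simp [rt]

theorem rt_two (c : P2) : rt 2 c = (-1 - c.1, -1 - c.2) := by simp [rt]

theorem rt_three (c : P2) : rt 3 c = (c.2, -1 - c.1) := by simp [rt]

theorem rt_four (c : P2) : rt 4 c = c := by simp [rt]

theorem rt_mod {q r : ℤ} (h : q % 4 = r % 4) (c : P2) : rt q c = rt r c := by
  unfold rt
  rw [h]

theorem rt_add4 (q : ℤ) (c : P2) : rt (q + 4) c = rt q c := rt_mod (by omega) c

theorem rt_add (q r : ℤ) (c : P2) : rt (q + r) c = rt q (rt r c) := by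
  rcases rt_cases r c with ⟨h1, h2⟩ | ⟨h1, h2⟩ | ⟨h1, h2⟩ | ⟨h1, h2⟩ <;> rw [h2]
  · exact rt_mod (by omega) c
  · rcases rt_cases q (-1 - c.2, c.1) with ⟨h3, h4⟩ | ⟨h3, h4⟩ | ⟨h3, h4⟩ | ⟨h3, h4⟩ <;> rw [h4]
    · rw [rt_mod (r := 1) (by omega), rt_one]
    · rw [rt_mod (r := 2) (by omega), rt_two]
    · rw [rt_mod (r := 3) (by omega), rt_three]
      ext <;> simp
    · rw [rt_mod (r := 0) (by omega), rt_zero]
      ext <;> simp
  · rcases rt_cases q (-1 - c.1, -1 - c.2) with ⟨h3, h4⟩ | ⟨h3, h4⟩ | ⟨h3, h4⟩ | ⟨h3, h4⟩ <;> rw [h4]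
    · rw [rt_mod (r := 2) (by omega), rt_two]
    · rw [rt_mod (r := 3) (by omega), rt_three]
      ext <;> simp
    · rw [rt_mod (r := 0) (by omega), rt_zero]
      ext <;> simp
    · rw [rt_mod (r := 1) (by omega), rt_one]
      ext <;> simp
  · rcases rt_cases q (c.2, -1 - c.1) with ⟨h3, h4⟩ | ⟨h3, h4⟩ | ⟨h3, h4⟩ | ⟨h3, h4⟩ <;> rw [h4]
    · rw [rt_mod (r := 3) (by omega), rt_three]
    · rw [rt_mod (r := 0) (by omega), rt_zero]
      ext <;> simp
    · rw [rt_mod (r := 1) (by omega), rt_one]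
      ext <;> simp
    · rw [rt_mod (r := 2) (by omega), rt_two]

theorem far_rt (q : ℤ) (c c' : P2) : Far (rt q c) (rt q c') ↔ Far c c' := by
  unfold Far
  rcases rt_cases q c with ⟨h1, h2⟩ | ⟨h1, h2⟩ | ⟨h1, h2⟩ | ⟨h1, h2⟩ <;>
    rcases rt_cases q c' with ⟨h3, h4⟩ | ⟨h3, h4⟩ | ⟨h3, h4⟩ | ⟨h3, h4⟩ <;>
    first | omega | (rw [h2, h4]; done) | (rw [h2, h4]; omega)

theorem cadj_rt (q : ℤ) {c c' : P2} (h : CAdj c c') : CAdj (rt q c) (rt q c') := by
  unfold CAdj at *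
  rcases rt_cases q c with ⟨h1, h2⟩ | ⟨h1, h2⟩ | ⟨h1, h2⟩ | ⟨h1, h2⟩ <;>
    rcases rt_cases q c' with ⟨h3, h4⟩ | ⟨h3, h4⟩ | ⟨h3, h4⟩ | ⟨h3, h4⟩ <;>
    first | omega | (rw [h2, h4]; done) | (rw [h2, h4]; omega)

/-- index of the ring of a cell -/
def nr (c : P2) : ℤ := max (max c.1 (-1 - c.1)) (max c.2 (-1 - c.2))

theorem nr_rt (q : ℤ) (c : P2) : nr (rt q c) = nr c := by
  unfold nr
  rcases rt_cases q c with ⟨h1, h2⟩ | ⟨h1, h2⟩ | ⟨h1, h2⟩ | ⟨h1, h2⟩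
  · rw [h2]
  · rw [h2]; simp only; omega
  · rw [h2]; simp only; omega
  · rw [h2]; simp only; omega

theorem far_of_nr {c c' : P2} (h : nr c + 9 ≤ nr c') : Far c c' := by
  have h1 : max (max c.1 (-1 - c.1)) (max c.2 (-1 - c.2)) + 9 ≤
    max (max c'.1 (-1 - c'.1)) (max c'.2 (-1 - c'.2)) := h
  unfold Far
  omega

theorem nr_nonneg (c : P2) : 0 ≤ nr c := by
  unfold nr; omega

/-- coordinates with respect to the side length `2j+1` -/
theorem exists_coord {j : ℤ} (hj : 0 ≤ j) (w : ℤ) :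
    ∃ q t : ℤ, -j ≤ t ∧ t ≤ j ∧ w = q * (2 * j + 1) + t ∧ (w + j) / (2 * j + 1) = q := by
  have h0 : 0 < 2 * j + 1 := by omega
  refine ⟨(w + j) / (2 * j + 1), w - (w + j) / (2 * j + 1) * (2 * j + 1), ?_, ?_, by ring, rfl⟩
  · have := Int.ediv_mul_le (w + j) h0.ne'
    omega
  · have := Int.lt_ediv_add_one_mul_self (w + j) h0
    rw [add_mul, one_mul] at this
    omega

theorem coord_unique {j q t w : ℤ} (hj : 0 ≤ j) (h1 : -j ≤ t) (h2 : t ≤ j)
    (h : w = q * (2 * j + 1) + t) : (w + j) / (2 * j + 1) = q := by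
  have h0 : 0 < 2 * j + 1 := by omega
  rw [h, show q * (2 * j + 1) + t + j = (t + j) + q * (2 * j + 1) by ring,
    Int.add_mul_ediv_right _ _ h0.ne', Int.ediv_eq_zero_of_lt (by omega) (by omega), zero_add]

/-- the `w`-th cell of the ring `j` -/
def cl (j w : ℤ) : P2 :=
  rt ((w + j) / (2 * j + 1)) (j, w - (w + j) / (2 * j + 1) * (2 * j + 1))

/-- the cell of ring `j` on the ray which starts at `cl a x` -/
def ry (a j x : ℤ) : P2 :=
  rt ((x + a) / (2 * a + 1)) (j, x - (x + a) / (2 * a + 1) * (2 * a + 1))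

/-- the coordinate on ring `j` of the ray `x` -/
def rc (a j x : ℤ) : ℤ := x + 2 * (j - a) * ((x + a) / (2 * a + 1))

theorem cl_eq {j q t : ℤ} (hj : 0 ≤ j) (h1 : -j ≤ t) (h2 : t ≤ j) :
    cl j (q * (2 * j + 1) + t) = rt q (j, t) := by
  unfold cl
  rw [coord_unique hj h1 h2 rfl]
  congr 2
  ring

theorem ry_eq {a q t : ℤ} (ha : 0 ≤ a) (h1 : -a ≤ t) (h2 : t ≤ a) (j : ℤ) :
    ry a j (q * (2 * a + 1) + t) = rt q (j, t) := by
  unfold ry
  rw [coord_unique ha h1 h2 rfl]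
  congr 2
  ring

theorem rc_eq {a q t : ℤ} (ha : 0 ≤ a) (h1 : -a ≤ t) (h2 : t ≤ a) (j : ℤ) :
    rc a j (q * (2 * a + 1) + t) = q * (2 * j + 1) + t := by
  unfold rc
  rw [coord_unique ha h1 h2 rfl]
  ring

theorem ry_self (a x : ℤ) : ry a a x = cl a x := rfl

theorem rc_self (a x : ℤ) : rc a a x = x := by simp [rc]

theorem cl_rc {a j : ℤ} (ha : 0 ≤ a) (haj : a ≤ j) (x : ℤ) : cl j (rc a j x) = ry a j x := by
  obtain ⟨q, t, h1, h2, rfl, -⟩ := exists_coord ha x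
  rw [rc_eq ha h1 h2, ry_eq ha h1 h2, cl_eq (by omega) (by omega) (by omega)]

theorem rc_add_le {a j : ℤ} (ha : 0 ≤ a) (haj : a ≤ j) {x y d : ℤ} (h : x + d ≤ y) (hd : 0 ≤ d) :
    rc a j x + d ≤ rc a j y := by
  unfold rc
  have h0 : (0 : ℤ) < 2 * a + 1 := by omega
  have h1 : (x + a) / (2 * a + 1) ≤ (y + a) / (2 * a + 1) :=
    Int.ediv_le_ediv h0 (by omega)
  have h2 : 2 * (j - a) * ((x + a) / (2 * a + 1)) ≤ 2 * (j - a) * ((y + a) / (2 * a + 1)) :=
    mul_le_mul_of_nonneg_left h1 (by omega)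
  omega

theorem rc_period {a j : ℤ} (_ : 0 ≤ a) (x : ℤ) :
    rc a j (x + 4 * (2 * a + 1)) = rc a j x + 4 * (2 * j + 1) := by
  unfold rc
  have h0 : (2 * a + 1 : ℤ) ≠ 0 := by omega
  have h1 : (x + 4 * (2 * a + 1) + a) / (2 * a + 1) = (x + a) / (2 * a + 1) + 4 := by
    rw [show x + 4 * (2 * a + 1) + a = (x + a) + 4 * (2 * a + 1) by ring,
      Int.add_mul_ediv_right _ _ h0]
  rw [h1]
  ring

theorem ry_period {a : ℤ} (ha : 0 ≤ a) (j x : ℤ) : ry a j (x + 4 * (2 * a + 1)) = ry a j x := by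
  obtain ⟨q, t, h1, h2, rfl, -⟩ := exists_coord ha x
  rw [ry_eq ha h1 h2, show q * (2 * a + 1) + t + 4 * (2 * a + 1) = (q + 4) * (2 * a + 1) + t by ring,
    ry_eq ha h1 h2, rt_add4]

theorem ry_periods {a : ℤ} (ha : 0 ≤ a) (j x n : ℤ) :
    ry a j (x + n * (4 * (2 * a + 1))) = ry a j x := by
  obtain ⟨q, t, h1, h2, rfl, -⟩ := exists_coord ha x
  rw [ry_eq ha h1 h2, show q * (2 * a + 1) + t + n * (4 * (2 * a + 1)) =
    (q + 4 * n) * (2 * a + 1) + t by ring, ry_eq ha h1 h2]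
  exact rt_mod (by omega) _

theorem cl_period {j : ℤ} (hj : 0 ≤ j) (w : ℤ) : cl j (w + 4 * (2 * j + 1)) = cl j w := by
  rw [← ry_self, ← ry_self]
  exact ry_period hj j w

theorem nr_cl {j : ℤ} (hj : 0 ≤ j) (w : ℤ) : nr (cl j w) = j := by
  obtain ⟨q, t, h1, h2, rfl, -⟩ := exists_coord hj w
  rw [cl_eq hj h1 h2, nr_rt]
  unfold nr
  simp only
  omega

theorem nr_ry {a j : ℤ} (ha : 0 ≤ a) (haj : a ≤ j) (x : ℤ) : nr (ry a j x) = j := by
  rw [← cl_rc ha haj, nr_cl (by omega)]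

/-- every cell is on its ring -/
theorem exists_cl (c : P2) : ∃ w, -(nr c) ≤ w ∧ w < -(nr c) + 4 * (2 * nr c + 1) ∧
    c = cl (nr c) w := by
  obtain ⟨x, y⟩ := c
  set j := nr (x, y) with hj
  have hj' : j = max (max x (-1 - x)) (max y (-1 - y)) := hj
  have hj0 : 0 ≤ j := nr_nonneg _
  have h1 : (x = j ∧ -j ≤ y ∧ y ≤ j) ∨ (y = j ∧ -1 - j ≤ x ∧ x ≤ j - 1) ∨
      (x = -1 - j ∧ -1 - j ≤ y ∧ y ≤ j - 1) ∨ (y = -1 - j ∧ -j ≤ x ∧ x ≤ j) := by omega
  rcases h1 with ⟨h1, h2, h3⟩ | ⟨h1, h2, h3⟩ | ⟨h1, h2, h3⟩ | ⟨h1, h2, h3⟩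
  · refine ⟨0 * (2 * j + 1) + y, by omega, by omega, ?_⟩
    rw [cl_eq hj0 h2 h3, rt_zero, h1]
  · refine ⟨1 * (2 * j + 1) + (-1 - x), by omega, by omega, ?_⟩
    rw [cl_eq hj0 (by omega) (by omega), rt_one]
    ext <;> simp [h1]
  · refine ⟨2 * (2 * j + 1) + (-1 - y), by omega, by omega, ?_⟩
    rw [cl_eq hj0 (by omega) (by omega), rt_two]
    ext <;> simp [h1]
  · refine ⟨3 * (2 * j + 1) + x, by omega, by omega, ?_⟩
    rw [cl_eq hj0 (by omega) (by omega), rt_three]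
    ext <;> simp [h1]

/-! ### adjacency -/

theorem adj_cl {j : ℤ} (hj : 0 ≤ j) (w : ℤ) : CAdj (cl j w) (cl j (w + 1)) := by
  obtain ⟨q, t, h1, h2, rfl, -⟩ := exists_coord hj w
  rcases eq_or_lt_of_le h2 with rfl | h3
  · rw [cl_eq hj h1 h2, show q * (2 * t + 1) + t + 1 = (q + 1) * (2 * t + 1) + (-t) by ring,
      cl_eq hj (by omega) (by omega), rt_add, rt_one]
    refine cadj_rt _ ?_
    unfold CAdj
    dsimp only
    omega
  · rw [cl_eq hj h1 h2, add_assoc, cl_eq hj (by omega) (by omega)]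
    refine cadj_rt _ ?_
    unfold CAdj
    dsimp only
    omega

theorem adj_ry {a : ℤ} (ha : 0 ≤ a) (j x : ℤ) : CAdj (ry a j x) (ry a (j + 1) x) := by
  obtain ⟨q, t, h1, h2, rfl, -⟩ := exists_coord ha x
  rw [ry_eq ha h1 h2, ry_eq ha h1 h2]
  refine cadj_rt _ ?_
  unfold CAdj
  dsimp only
  omega

theorem CConn.symm {K : Set P2} {k k' : P2} (h : CConn K k k') : CConn K k' k := by
  unfold CConn at *
  induction h with
  | refl => exact .refl
  | tail _ h2 ih => exact Relation.ReflTransGen.head ⟨h2.1.symm, h2.2.2, h2.2.1⟩ ih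

theorem CConn.trans {K : Set P2} {k k' k'' : P2} (h : CConn K k k') (h' : CConn K k' k'') :
    CConn K k k'' := Relation.ReflTransGen.trans h h'

theorem CConn.mono {K K' : Set P2} (hK : K ⊆ K') {k k' : P2} (h : CConn K k k') :
    CConn K' k k' :=
  Relation.ReflTransGen.mono (fun _ _ h => ⟨h.1, hK h.2.1, hK h.2.2⟩) _ _ h

theorem conn_seq {K : Set P2} (f : ℤ → P2) (hf : ∀ i, CAdj (f i) (f (i + 1))) {i j : ℤ}
    (hij : i ≤ j) (h : ∀ k, i ≤ k → k ≤ j → f k ∈ K) : CConn K (f i) (f j) := by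
  obtain ⟨n, rfl⟩ : ∃ n : ℕ, j = i + n := ⟨(j - i).toNat, by omega⟩
  clear hij
  induction n with
  | zero => simp only [Nat.cast_zero, add_zero]; exact .refl
  | succ n ih =>
    have h1 := ih fun k hk1 hk2 => h k hk1 (by push_cast; omega)
    refine Relation.ReflTransGen.tail h1 ⟨?_, h _ (by omega) (by push_cast; omega),
      h _ (by push_cast; omega) (by push_cast; omega)⟩
    have h2 := hf (i + n)
    push_cast
    rwa [add_assoc] at h2

theorem conn_arc {K : Set P2} {j : ℤ} (hj : 0 ≤ j) {w w' : ℤ}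
    (h : ∀ v, min w w' ≤ v → v ≤ max w w' → cl j v ∈ K) : CConn K (cl j w) (cl j w') := by
  rcases le_total w w' with hw | hw
  · exact conn_seq (cl j) (adj_cl hj) hw fun k h1 h2 => h k (by omega) (by omega)
  · exact CConn.symm (conn_seq (cl j) (adj_cl hj) hw fun k h1 h2 => h k (by omega) (by omega))

theorem conn_ray {K : Set P2} {a : ℤ} (ha : 0 ≤ a) (x : ℤ) {j j' : ℤ} (hj : j ≤ j')
    (h : ∀ i, j ≤ i → i ≤ j' → ry a i x ∈ K) : CConn K (ry a j x) (ry a j' x) :=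
  conn_seq (fun i => ry a i x) (fun i => adj_ry ha i x) hj h

/-! ### distances -/

/-- number of sides between two positions -/
theorem side_diff {J q q' t t' : ℤ} (hJ : 0 ≤ J) (h1 : -J ≤ t) (h2 : t ≤ J) (h1' : -J ≤ t')
    (h2' : t' ≤ J) {w w' : ℤ} (hw : w = q * (2 * J + 1) + t) (hw' : w' = q' * (2 * J + 1) + t')
    (h3 : w < w') (h4 : w' < w + 4 * (2 * J + 1)) :
    0 ≤ q' - q ∧ q' - q ≤ 4 ∧ w' - w = (q' - q) * (2 * J + 1) + t' - t := by
  have e : w' - w = (q' - q) * (2 * J + 1) + t' - t := by rw [hw, hw']; ring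
  refine ⟨?_, ?_, e⟩
  · by_contra h
    have h5 : (q' - q) * (2 * J + 1) ≤ (-1) * (2 * J + 1) :=
      mul_le_mul_of_nonneg_right (by omega) (by omega)
    omega
  · by_contra h
    have h5 : 5 * (2 * J + 1) ≤ (q' - q) * (2 * J + 1) :=
      mul_le_mul_of_nonneg_right (by omega) (by omega)
    omega

/-- two rays -/
theorem far_ry_ry {a : ℤ} (ha : 4 ≤ a) {j j' x y : ℤ} (hj : a ≤ j) (hj' : a ≤ j')
    (h1 : x + 18 ≤ y) (h2 : y + 18 ≤ x + 4 * (2 * a + 1)) : Far (ry a j x) (ry a j' y) := by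
  obtain ⟨q, t, ht1, ht2, hx, -⟩ := exists_coord (by omega : 0 ≤ a) x
  obtain ⟨q', t', ht1', ht2', hy, -⟩ := exists_coord (by omega : 0 ≤ a) y
  obtain ⟨hd0, hd4, hd⟩ := side_diff (by omega) ht1 ht2 ht1' ht2' hx hy (by omega) (by omega)
  rw [hx, hy, ry_eq (by omega) ht1 ht2, ry_eq (by omega) ht1' ht2',
    show q' = q + (q' - q) by ring, rt_add, far_rt]
  generalize q' - q = d at *
  interval_cases d
  · rw [rt_zero]; unfold Far; simp only; omega
  · rw [rt_one]; unfold Far; simp only; omega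
  · rw [rt_two]; unfold Far; simp only; omega
  · rw [rt_three]; unfold Far; simp only; omega
  · rw [rt_four]; unfold Far; simp only; omega

/-- two cells of the same ring -/
theorem far_cl_cl {J : ℤ} (hJ : 4 ≤ J) {w w' : ℤ} (h1 : w + 18 ≤ w')
    (h2 : w' + 18 ≤ w + 4 * (2 * J + 1)) : Far (cl J w) (cl J w') := by
  rw [← ry_self, ← ry_self]
  exact far_ry_ry hJ le_rfl le_rfl h1 h2

/-- a cell of a ring and a ray, the ray being after the cell -/
theorem far_cl_ry {a : ℤ} (ha : 0 ≤ a) {J j w y : ℤ} (hJ : a + 9 ≤ J) (hj : a ≤ j)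
    (h1 : w + 9 ≤ rc a J y) (h2 : rc a J y + 9 ≤ w + 4 * (2 * J + 1)) :
    Far (cl J w) (ry a j y) := by
  obtain ⟨q, t, ht1, ht2, hw, -⟩ := exists_coord (by omega : 0 ≤ J) w
  obtain ⟨q', t', ht1', ht2', hy, -⟩ := exists_coord ha y
  have e := rc_eq (q := q') ha ht1' ht2' J
  rw [← hy] at e
  obtain ⟨hd0, hd4, hd⟩ := side_diff (J := J) (by omega) ht1 ht2 (by omega) (by omega) hw e
    (by omega) (by omega)
  rw [hw, hy, cl_eq (by omega) ht1 ht2, ry_eq ha ht1' ht2',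
    show q' = q + (q' - q) by ring, rt_add, far_rt]
  generalize q' - q = d at *
  interval_cases d
  · rw [rt_zero]; unfold Far; simp only; omega
  · rw [rt_one]; unfold Far; simp only; omega
  · rw [rt_two]; unfold Far; simp only; omega
  · rw [rt_three]; unfold Far; simp only; omega
  · rw [rt_four]; unfold Far; simp only; omega

/-- a ray and a cell of a ring, the cell being after the ray -/
theorem far_ry_cl {a : ℤ} (ha : 0 ≤ a) {J j w y : ℤ} (hJ : a + 9 ≤ J) (hj : a ≤ j)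
    (h1 : rc a J y + 9 ≤ w) (h2 : w + 9 ≤ rc a J y + 4 * (2 * J + 1)) :
    Far (ry a j y) (cl J w) := by
  have h := far_cl_ry ha hJ hj (w := w) (y := y + 4 * (2 * a + 1))
    (by rw [rc_period ha]; omega) (by rw [rc_period ha]; omega)
  rw [ry_period ha] at h
  exact h.symm

/-- coarse sup distance at least `F` -/
def FarN (F : ℤ) (c c' : P2) : Prop :=
  c.1 + F ≤ c'.1 ∨ c'.1 + F ≤ c.1 ∨ c.2 + F ≤ c'.2 ∨ c'.2 + F ≤ c.2

theorem farN_rt (F q : ℤ) (c c' : P2) : FarN F (rt q c) (rt q c') ↔ FarN F c c' := by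
  unfold FarN
  rcases rt_cases q c with ⟨h1, h2⟩ | ⟨h1, h2⟩ | ⟨h1, h2⟩ | ⟨h1, h2⟩ <;>
    rcases rt_cases q c' with ⟨h3, h4⟩ | ⟨h3, h4⟩ | ⟨h3, h4⟩ | ⟨h3, h4⟩ <;>
    first | omega | (rw [h2, h4]; done) | (rw [h2, h4]; omega)

/-- two cells of the same ring, quantitative -/
theorem farN_cl_cl {J F : ℤ} (hJ : 0 ≤ J) (hF0 : 1 ≤ F) (hF : F ≤ 2 * J + 1) {w w' : ℤ}
    (h1 : w + 2 * F ≤ w') (h2 : w' + 2 * F ≤ w + 4 * (2 * J + 1)) :
    FarN F (cl J w) (cl J w') := by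
  obtain ⟨q, t, ht1, ht2, hx, -⟩ := exists_coord hJ w
  obtain ⟨q', t', ht1', ht2', hy, -⟩ := exists_coord hJ w'
  obtain ⟨hd0, hd4, hd⟩ := side_diff hJ ht1 ht2 ht1' ht2' hx hy (by omega) (by omega)
  rw [hx, hy, cl_eq hJ ht1 ht2, cl_eq hJ ht1' ht2',
    show q' = q + (q' - q) by ring, rt_add, farN_rt]
  generalize q' - q = d at *
  interval_cases d
  · rw [rt_zero]; unfold FarN; simp only; omega
  · rw [rt_one]; unfold FarN; simp only; omega
  · rw [rt_two]; unfold FarN; simp only; omega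
  · rw [rt_three]; unfold FarN; simp only; omega
  · rw [rt_four]; unfold FarN; simp only; omega

end Crest.Agent.R158.Sp874
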