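import Crest.Agent.R158.Sp4a_874

/-!
# Row 158, Block SEP, S4 (helper874), file b: one sliding token at a time

* `PS a m B x` : the cells visited by a token whose angular position is `x b` around the ring `a + 18 b`,
  `b ≤ m`, sliding from `x b` to `x (b+1)` on the ring `a + 18 b + 9`, straight up to the ring `B`
* `conn_PS`, `far_PS`, `nr_PS`, `PS_start`, `PS_end`
-/

set_option autoImplicit false

namespace Crest.Agent.R158.Sp874

open Crest.Agent.R158.Rs689 Crest.Agent.R161.Geo729

/-- the path of a token -/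
def PS (a : ℤ) (m : ℕ) (B : ℤ) (x : ℕ → ℤ) : Set P2 :=
  {c | (∃ b : ℕ, b ≤ m ∧ ∃ j : ℤ, a ≤ j ∧ j ≤ B ∧ a + 18 * b - 9 ≤ j ∧
      (b < m → j ≤ a + 18 * b + 9) ∧ c = ry a j (x b)) ∨
    ∃ b : ℕ, b < m ∧ ∃ w : ℤ, min (rc a (a + 18 * b + 9) (x b)) (rc a (a + 18 * b + 9) (x (b + 1))) ≤ w ∧
      w ≤ max (rc a (a + 18 * b + 9) (x b)) (rc a (a + 18 * b + 9) (x (b + 1))) ∧
      c = cl (a + 18 * b + 9) w}

variable {a B : ℤ} {m : ℕ} {x y : ℕ → ℤ}

theorem nr_PS (ha : 0 ≤ a) (hB : a + 18 * m ≤ B) {c : P2} (hc : c ∈ PS a m B x) :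
    a ≤ nr c ∧ nr c ≤ B := by
  rcases hc with ⟨b, hb, j, h1, h2, -, -, rfl⟩ | ⟨b, hb, w, -, -, rfl⟩
  · rw [nr_ry ha h1]
    exact ⟨h1, h2⟩
  · rw [nr_cl (by omega)]
    omega

theorem PS_start (ha : 0 ≤ a) (_ : 1 ≤ m) {c : P2} (hc : c ∈ PS a m B x) (h : nr c < a + 9) :
    c = ry a (nr c) (x 0) := by
  rcases hc with ⟨b, hb, j, h1, h2, h3, -, rfl⟩ | ⟨b, hb, w, -, -, rfl⟩
  · rw [nr_ry ha h1] at h ⊢
    have : b = 0 := by omega
    rw [this]
  · rw [nr_cl (by omega)] at h
    omega

theorem PS_end (ha : 0 ≤ a) {c : P2} (hc : c ∈ PS a m B x) (h : a + 18 * m - 9 < nr c) :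
    c = ry a (nr c) (x m) := by
  rcases hc with ⟨b, hb, j, h1, h2, h3, h4, rfl⟩ | ⟨b, hb, w, -, -, rfl⟩
  · rw [nr_ry ha h1] at h ⊢
    have : b = m := by
      by_contra hne
      have := h4 (by omega)
      omega
    rw [this]
  · rw [nr_cl (by omega)] at h
    omega

theorem start_mem (hB : a + 18 * m ≤ B) : ry a a (x 0) ∈ PS a m B x :=
  Or.inl ⟨0, Nat.zero_le _, a, le_rfl, by omega, by push_cast; omega, fun _ => by push_cast; omega, rfl⟩

theorem end_mem (hB : a + 18 * m ≤ B) : ry a B (x m) ∈ PS a m B x :=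
  Or.inl ⟨m, le_rfl, B, by omega, le_rfl, by omega, fun h => absurd h (lt_irrefl _), rfl⟩

theorem conn_PS (ha : 0 ≤ a) (hB : a + 18 * m ≤ B) :
    CConn (PS a m B x) (ry a a (x 0)) (ry a B (x m)) := by
  have key : ∀ b : ℕ, b ≤ m → CConn (PS a m B x) (ry a a (x 0)) (ry a (a + 18 * b) (x b)) := by
    intro b
    induction b with
    | zero =>
      intro _
      simp only [Nat.cast_zero, mul_zero, add_zero]
      exact .refl
    | succ b ih =>
      intro hb
      refine (ih (by omega)).trans ?_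
      have e1 : CConn (PS a m B x) (ry a (a + 18 * b) (x b)) (ry a (a + 18 * b + 9) (x b)) := by
        refine conn_ray ha _ (by omega) fun i h1 h2 => ?_
        exact Or.inl ⟨b, by omega, i, by omega, by omega, by omega, fun _ => h2, rfl⟩
      have e2 : CConn (PS a m B x) (ry a (a + 18 * b + 9) (x b)) (ry a (a + 18 * b + 9) (x (b + 1))) := by
        rw [← cl_rc ha (by omega), ← cl_rc ha (by omega)]
        refine conn_arc (by omega) fun v h1 h2 => ?_
        exact Or.inr ⟨b, by omega, v, h1, h2, rfl⟩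
      have e3 : CConn (PS a m B x) (ry a (a + 18 * b + 9) (x (b + 1)))
          (ry a (a + 18 * (b + 1 : ℕ)) (x (b + 1))) := by
        refine conn_ray ha _ (by push_cast; omega) fun i h1 h2 => ?_
        push_cast at h2
        exact Or.inl ⟨b + 1, by omega, i, by omega, by omega, by push_cast; omega,
          fun _ => by push_cast; omega, rfl⟩
      exact (e1.trans e2).trans e3
  refine (key m le_rfl).trans ?_
  refine conn_ray ha _ hB fun i h1 h2 => ?_
  exact Or.inl ⟨m, le_rfl, i, by omega, h2, by omega, fun h => absurd h (lt_irrefl _), rfl⟩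

/-- the two positions are separated by at least `18`, cyclically -/
def Sp (a x y : ℤ) : Prop := x + 18 ≤ y ∧ y + 18 ≤ x + 4 * (2 * a + 1)

theorem far_arc_ray (ha : 0 ≤ a) {J j x1 x2 w y : ℤ} (hJ : a + 9 ≤ J) (hj : a ≤ j)
    (h1 : Sp a x1 y) (h2 : Sp a x2 y) (h3 : min (rc a J x1) (rc a J x2) ≤ w)
    (h4 : w ≤ max (rc a J x1) (rc a J x2)) : Far (cl J w) (ry a j y) := by
  have e1 := rc_add_le ha (by omega : a ≤ J) h1.1 (by omega)
  have e2 := rc_add_le ha (by omega : a ≤ J) h2.1 (by omega)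
  have e3 := rc_add_le ha (by omega : a ≤ J) h1.2 (by omega)
  have e4 := rc_add_le ha (by omega : a ≤ J) h2.2 (by omega)
  rw [rc_period ha] at e3 e4
  exact far_cl_ry ha hJ hj (by omega) (by omega)

theorem far_ray_arc (ha : 0 ≤ a) {J j y1 y2 w x : ℤ} (hJ : a + 9 ≤ J) (hj : a ≤ j)
    (h1 : Sp a x y1) (h2 : Sp a x y2) (h3 : min (rc a J y1) (rc a J y2) ≤ w)
    (h4 : w ≤ max (rc a J y1) (rc a J y2)) : Far (ry a j x) (cl J w) := by
  have e1 := rc_add_le ha (by omega : a ≤ J) h1.1 (by omega)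
  have e2 := rc_add_le ha (by omega : a ≤ J) h2.1 (by omega)
  have e3 := rc_add_le ha (by omega : a ≤ J) h1.2 (by omega)
  have e4 := rc_add_le ha (by omega : a ≤ J) h2.2 (by omega)
  rw [rc_period ha] at e3 e4
  exact far_ry_cl ha hJ hj (by omega) (by omega)

/-- **two tokens which move one at a time and stay separated have far paths** -/
theorem far_PS (ha : 4 ≤ a) (hsep : ∀ b ≤ m, Sp a (x b) (y b))
    (hone : ∀ b < m, x b = x (b + 1) ∨ y b = y (b + 1)) {c c' : P2} (hc : c ∈ PS a m B x)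
    (hc' : c' ∈ PS a m B y) : Far c c' := by
  have ha0 : 0 ≤ a := by omega
  by_cases hn1 : nr c + 9 ≤ nr c'
  · exact far_of_nr hn1
  by_cases hn2 : nr c' + 9 ≤ nr c
  · exact (far_of_nr hn2).symm
  rcases hc with ⟨b, hb, j, h1, h2, h3, h4, rfl⟩ | ⟨b, hb, w, hw1, hw2, rfl⟩ <;>
    rcases hc' with ⟨b', hb', j', h1', h2', h3', h4', rfl⟩ | ⟨b', hb', w', hw1', hw2', rfl⟩
  · rw [nr_ry ha0 h1, nr_ry ha0 h1'] at hn1 hn2
    have key : ∀ b b' : ℕ, b ≤ m → b' ≤ m → b' = b + 1 → Sp a (x b) (y b') ∧ Sp a (x b') (y b) := by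
      rintro b _ hb hb' rfl
      have e1 := hsep b hb
      have e2 := hsep (b + 1) hb'
      rcases hone b (by omega) with h | h
      · rw [h] at e1 ⊢
        exact ⟨e2, e1⟩
      · rw [h] at e1 ⊢
        exact ⟨e1, e2⟩
    rcases lt_trichotomy b b' with h | h | h
    · have e : b' = b + 1 := by
        have := h4 (by omega)
        by_contra hne
        omega
      obtain ⟨s1, s2⟩ := (key b b' hb hb' e).1
      exact far_ry_ry ha h1 h1' s1 s2
    · subst h
      obtain ⟨s1, s2⟩ := hsep b hb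
      exact far_ry_ry ha h1 h1' s1 s2
    · have e : b = b' + 1 := by
        have := h4' (by omega)
        by_contra hne
        omega
      obtain ⟨s1, s2⟩ := (key b' b hb' hb e).2
      exact far_ry_ry ha h1 h1' s1 s2
  · rw [nr_ry ha0 h1, nr_cl (by omega)] at hn1 hn2
    have e : b = b' ∨ b = b' + 1 := by
      by_contra hne
      rw [not_or] at hne
      have h5 : b < b' ∨ b' + 2 ≤ b := by omega
      rcases h5 with h5 | h5
      · have := h4 (by omega)
        omega
      · omega
    have e1 := hsep b' (by omega)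
    have e2 := hsep (b' + 1) (by omega)
    rcases hone b' hb' with h | h
    · have e3 : x b = x b' := by
        rcases e with rfl | rfl
        · rfl
        · exact h.symm
      rw [e3]
      rw [← h] at e2
      exact far_ray_arc ha0 (by omega) h1 e1 e2 hw1' hw2'
    · rw [← h, max_self] at hw2'
      rw [← h, min_self] at hw1'
      have e3 : w' = rc a (a + 18 * b' + 9) (y b') := le_antisymm hw2' hw1'
      rw [e3, cl_rc ha0 (by omega)]
      rcases e with rfl | rfl
      · exact far_ry_ry ha h1 (by omega) e1.1 e1.2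
      · rw [h]
        exact far_ry_ry ha h1 (by omega) e2.1 e2.2
  · rw [nr_ry ha0 h1', nr_cl (by omega)] at hn1 hn2
    have e : b' = b ∨ b' = b + 1 := by
      by_contra hne
      rw [not_or] at hne
      have h5 : b' < b ∨ b + 2 ≤ b' := by omega
      rcases h5 with h5 | h5
      · have := h4' (by omega)
        omega
      · omega
    have e1 := hsep b (by omega)
    have e2 := hsep (b + 1) (by omega)
    rcases hone b hb with h | h
    · rw [← h, max_self] at hw2
      rw [← h, min_self] at hw1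
      have e3 : w = rc a (a + 18 * b + 9) (x b) := le_antisymm hw2 hw1
      rw [e3, cl_rc ha0 (by omega)]
      rcases e with rfl | rfl
      · exact far_ry_ry ha (by omega) h1' e1.1 e1.2
      · rw [h]
        exact far_ry_ry ha (by omega) h1' e2.1 e2.2
    · have e3 : y b' = y b := by
        rcases e with rfl | rfl
        · rfl
        · exact h.symm
      rw [e3]
      rw [← h] at e2
      exact far_arc_ray ha0 (by omega) h1' e1 e2 hw1 hw2
  · rw [nr_cl (by omega), nr_cl (by omega)] at hn1 hn2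
    have e : b = b' := by omega
    subst e
    have e1 := hsep b (by omega)
    have e2 := hsep (b + 1) (by omega)
    rcases hone b hb with h | h
    · rw [← h, max_self] at hw2
      rw [← h, min_self] at hw1
      have e3 : w = rc a (a + 18 * b + 9) (x b) := le_antisymm hw2 hw1
      rw [e3, cl_rc ha0 (by omega)]
      rw [← h] at e2
      exact far_ray_arc ha0 (by omega) (by omega) e1 e2 hw1' hw2'
    · rw [← h, max_self] at hw2'
      rw [← h, min_self] at hw1'
      have e3 : w' = rc a (a + 18 * b + 9) (y b) := le_antisymm hw2' hw1'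
      rw [e3, cl_rc ha0 (by omega)]
      rw [← h] at e2
      exact far_arc_ray ha0 (by omega) (by omega) e1 e2 hw1 hw2

end Crest.Agent.R158.Sp874
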