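import Crest.Agent.R158.Sp5_580
import Crest.Agent.R158.Gl1_570
import Crest.Agent.R158.Qf6_808

/-!
# Row 158, block SEP (helper580): `sep_in` in the two literal forms used by 570 and 808

* `sepIn_570 : Ld570.SepIn`
* `sepIn_808 : Qf808.SepIn`
* `gl0_of'`, `hypU4_of'` : the consumers with the inner separation discharged
-/

set_option autoImplicit false

noncomputable section

namespace Crest.Agent.R158.Sp580

open MeasureTheory ProbabilityTheory unitInterval

theorem sepIn_570 : Ld570.SepIn := by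
  intro c hc
  obtain ⟨K, hK, h⟩ := sep_in hc
  refine ⟨K, hK, fun p j hp e he => h p j (hp.mono ?_) e he⟩
  exact Nat.pow_le_pow_right (by norm_num) (by omega)

theorem sepIn_808 : Qf808.SepIn := by
  intro c hc
  obtain ⟨K, _, h⟩ := sep_in hc
  refine ⟨K, fun p j hp e he => h p j (hp.mono ?_) e he⟩
  exact Nat.pow_le_pow_right (by norm_num) (by omega)

theorem hypU4_of' {T0 : ℕ} (hT0 : 1 ≤ T0) (hcov : Qf808.CovT2 T0) (hL : Cpl963.L4)
    (hU : Ax107.P4U) : Cpl963.HypU4 :=
  Qf808.hypU4_of hT0 hcov sepIn_808 hL hU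

end Crest.Agent.R158.Sp580
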