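import Crest.Agent.R158.Sp5_896

/-! R158 (helper896) BLOCK SP, file 6: uniform outer cells, target edges, rotation of the boundary
walk, and the combinatorial end: from four contiguous runs to marked edges. -/

set_option autoImplicit false

open Set Topology Filter Metric
open Crest Crest.ProbabilityR Crest.ProbabilityR.Percolation
open Crest.Agent.R158.Jt785

namespace Crest.Agent.R158.Sp896

/-- within `ε` of the set `K` -/
def Nr (ε : ℝ) (K : Set ℂ) (z : ℂ) : Prop := ∃ y ∈ K, ‖z - y‖ < ε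

theorem Nr.mono {ε ε' : ℝ} (h : ε ≤ ε') {K : Set ℂ} {z : ℂ} (hz : Nr ε K z) : Nr ε' K z := by
  obtain ⟨y, hy, hd⟩ := hz
  exact ⟨y, hy, hd.trans_le h⟩

theorem Nr.move {ε d : ℝ} {K : Set ℂ} {z w : ℂ} (hz : Nr ε K z) (hw : ‖w - z‖ ≤ d) : Nr (ε + d) K w := by
  obtain ⟨y, hy, hd⟩ := hz
  refine ⟨y, hy, ?_⟩
  have : w - y = (w - z) + (z - y) := by ring
  rw [this]
  exact (norm_add_le _ _).trans_lt (by linarith)

/-- `z` is joined to the far point off `Sg` -/
def Kp (Sg : Set ℂ) (R : ℝ) (z : ℂ) : Prop :=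
  ∃ K : Set ℂ, IsCompact K ∧ IsPreconnected K ∧ z ∈ K ∧ ((R + 3 : ℝ) : ℂ) ∈ K ∧ Disjoint K Sg

theorem unif_out {Sg : Set ℂ} (hSg : IsCompact Sg) {R : ℝ} (hR : ∀ z ∈ Sg, ‖z‖ ≤ R) {X : Set ℂ}
    (hX : IsCompact X) (hK : ∀ z ∈ X, Kp Sg R z) :
    ∃ s1 : ℝ, 0 < s1 ∧ ∀ s : ℝ, 0 < s → s < s1 → s ≤ 1 → ∀ w ∈ X, ∀ q : V, w ∈ sq s q →
      q ∈ Out (cells s Sg) := by
  refine hX.induction_on (p := fun X => ∃ s1 : ℝ, 0 < s1 ∧ ∀ s : ℝ, 0 < s → s < s1 → s ≤ 1 →
    ∀ w ∈ X, ∀ q : V, w ∈ sq s q → q ∈ Out (cells s Sg)) ?_ ?_ ?_ ?_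
  · exact ⟨1, one_pos, fun s _ _ _ w hw => absurd hw (notMem_empty w)⟩
  · rintro S T hST ⟨s1, h1, h2⟩
    exact ⟨s1, h1, fun s a b c w hw => h2 s a b c w (hST hw)⟩
  · rintro S T ⟨s1, h1, h2⟩ ⟨s2, k1, k2⟩
    refine ⟨min s1 s2, lt_min h1 k1, fun s a b c w hw => ?_⟩
    rcases hw with hw | hw
    · exact h2 s a (b.trans_le (min_le_left _ _)) c w hw
    · exact k2 s a (b.trans_le (min_le_right _ _)) c w hw
  · intro z hz
    obtain ⟨K, hKc, hKp, hzK, hfar, hdis⟩ := hK z hz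
    obtain ⟨δ, hδ, hd⟩ := pos_dist hKc hSg.isClosed hdis
    refine ⟨ball z (δ / 2), mem_nhdsWithin_of_mem_nhds (ball_mem_nhds z (by linarith)),
      δ / 4, by linarith, fun s hs hs' hs1 w hw q hq => ?_⟩
    rw [mem_ball, dist_eq_norm] at hw
    have hseg : IsPreconnected (segment ℝ z w) := (convex_segment z w).isPreconnected
    have hK' : IsPreconnected (K ∪ segment ℝ z w) :=
      hKp.union z hzK (left_mem_segment ℝ z w) hseg
    have hKb : Bornology.IsBounded (K ∪ segment ℝ z w) := by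
      refine (hKc.isBounded).union ?_
      rw [segment_eq_image_lineMap]
      exact (isCompact_Icc.image AffineMap.lineMap_continuous).isBounded
    refine far_out hs hs1 hR hK' hKb ?_ (Or.inl hfar) q ⟨w, hq, Or.inr (right_mem_segment ℝ z w)⟩
    intro x hx y hy
    rcases hx with hx | hx
    · have := hd x hx y hy
      linarith
    · have h1 := hd z hzK y hy
      have h2 : ‖x - z‖ ≤ ‖w - z‖ := by
        have h3 := norm_sub_le_of_mem_segment hx
        rw [norm_sub_rev x z, norm_sub_rev w z]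
        rw [norm_sub_rev] at h3
        rw [norm_sub_rev z w]
        exact h3
      have h4 : z - y = (z - x) + (x - y) := by ring
      have h5 : ‖z - y‖ ≤ ‖z - x‖ + ‖x - y‖ := by rw [h4]; exact norm_add_le _ _
      rw [norm_sub_rev z x] at h5
      linarith

section kp

variable {γ : ℝ → ℂ} {φ : ℂ → ℂ} {Ψ : ℝ → ℝ → ℂ}

theorem kp_ext (h : Unif γ φ) (P : Pol γ Ψ (jordanInterior γ)) {κ R : ℝ} (hR0 : 0 ≤ R)
    (hR : ∀ z : ℂ, R < ‖z‖ → z ∈ ext γ) {z : ℂ} (hz : z ∈ ext γ) : Kp (Sig Ψ κ) R z := by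
  have hf : ((R + 3 : ℝ) : ℂ) ∈ ext γ := by
    apply hR
    rw [Complex.norm_real, Real.norm_eq_abs, abs_of_nonneg (by linarith)]
    linarith
  obtain ⟨K, h1, h2, h3, h4, h5⟩ := ext_path h hz hf
  exact ⟨K, h1, h2, h3, h4, (ext_disj h).mono h5 (sig_sub P κ)⟩

theorem kp_arc (h : Unif γ φ) (P : Pol γ Ψ (jordanInterior γ)) {κ R : ℝ} (hR0 : 0 ≤ R)
    (hR : ∀ z : ℂ, R < ‖z‖ → z ∈ ext γ) {a b : ℝ} (ha : 0 ≤ a) (hab : a ≤ b) (hb : b ≤ 1)
    (hd : Disjoint (γ '' Icc a b) (Sig Ψ κ)) {z : ℂ} (hz : z ∈ γ '' Icc a b) :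
    Kp (Sig Ψ κ) R z := by
  have hsub : Icc a b ⊆ Icc (0:ℝ) 1 := Icc_subset_Icc ha hb
  have hAc : IsCompact (γ '' Icc a b) := isCompact_Icc.image_of_continuousOn (h.jc.1.mono hsub)
  have hAp : IsPreconnected (γ '' Icc a b) := isPreconnected_Icc.image _ (h.jc.1.mono hsub)
  obtain ⟨δ, hδ, hdist⟩ := pos_dist hAc (sig_compact P κ).isClosed hd
  have haI : a ∈ Icc a b := ⟨le_rfl, hab⟩
  obtain ⟨p, hp, hpd⟩ := near_ext h (hsub haI) hδ
  obtain ⟨K, h1, h2, h3, h4, h5⟩ := kp_ext h P (κ := κ) hR0 hR hp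
  have hseg : IsPreconnected (segment ℝ (γ a) p) := (convex_segment _ _).isPreconnected
  have hsc : IsCompact (segment ℝ (γ a) p) := by
    rw [segment_eq_image_lineMap]
    exact isCompact_Icc.image AffineMap.lineMap_continuous
  refine ⟨γ '' Icc a b ∪ segment ℝ (γ a) p ∪ K, (hAc.union hsc).union h1, ?_, Or.inl (Or.inl hz),
    Or.inr h4, ?_⟩
  · exact (hAp.union (γ a) (mem_image_of_mem _ haI) (left_mem_segment ℝ _ _) hseg).union p
      (Or.inr (right_mem_segment ℝ _ _)) h3 h2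
  · refine disjoint_left.2 ?_
    rintro x ((hx | hx) | hx) hxS
    · exact disjoint_left.1 hd hx hxS
    · have h6 := hdist (γ a) (mem_image_of_mem _ haI) x hxS
      have h7 : ‖x - γ a‖ ≤ ‖p - γ a‖ := by
        obtain ⟨t, ht, rfl⟩ : ∃ t ∈ Icc (0:ℝ) 1, AffineMap.lineMap (γ a) p t = x := by
          rw [segment_eq_image_lineMap] at hx
          exact hx
        have e : AffineMap.lineMap (γ a) p t - γ a = t • (p - γ a) := by
          rw [AffineMap.lineMap_apply]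
          simp
        rw [e, norm_smul, Real.norm_eq_abs, abs_of_nonneg ht.1]
        exact mul_le_of_le_one_left (norm_nonneg _) ht.2
      rw [norm_sub_rev] at h6
      linarith
    · exact disjoint_left.1 h5 hx hxS

/-- boundary points with parameter outside the two arcs are not in the star -/
theorem sig_miss (P : Pol γ Ψ (jordanInterior γ)) {κ : ℝ} (hκ : 0 < κ) {t : ℝ} (ht : t ∈ Icc (0:ℝ) 1)
    (h : t ≤ 1 / 4 ∨ (1 / 2 ≤ t ∧ t ≤ 3 / 4)) : γ t ∉ Sig Ψ κ := by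
  rintro ⟨r, hr, t', ht', hc, he⟩
  rw [← P.one t ht] at he
  obtain ⟨h1, h2⟩ := P.inj r hr 1 ⟨zero_le_one, le_rfl⟩ t' ht' t ht he
  subst h1
  rcases hc with hc | hc
  · linarith
  · unfold TT at hc
    rcases h2 with h2 | h2 | h2 | h2
    · norm_num at h2
    · subst h2
      rcases hc with hc | hc <;> rcases h with h | h
      · linarith [hc.1]
      · linarith [hc.2, h.1]
      · linarith [hc.1]
      · linarith [hc.1, h.2]
    · rcases hc with hc | hc
      · linarith [hc.2, ht.1]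
      · linarith [hc.2, ht.1]
    · rcases hc with hc | hc
      · linarith [hc.1, ht.2]
      · linarith [hc.1, ht.2]

/-- existence of boundary edges near a given parameter -/
theorem target {κ η δ s : ℝ} {L : ℕ} {v : ℕ → V} (S : Stg γ Ψ (jordanInterior γ) κ η δ s L v)
    {t : ℝ} (ht : 1 / 8 ≤ t) (ht' : t ≤ 7 / 8) {p : ℂ} (hp : ‖p - γ t‖ < δ / 2)
    (hpo : ∀ q : V, p ∈ sq s q → q ∈ Out (cells s (Sig Ψ κ))) :
    ∃ m < L, ∀ r ∈ Icc (0:ℝ) 1, ∀ t' ∈ Icc (0:ℝ) 1, Ψ r t' ∈ sq s (Stg.lf v m) → 1 - 2 * κ < r →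
      |t' - t| < η := by
  have htI : t ∈ Icc (0:ℝ) 1 := ⟨by linarith, by linarith⟩
  have hκ0 := S.κ0
  have hκ1 := S.κ1
  have hη := S.ηκ
  have hη0 := S.η0
  have hsδ := S.sδ
  have hs0 := S.s0
  have hseg : IsPreconnected (segment ℝ (γ t) p) := (convex_segment _ _).isPreconnected
  have hsc : IsCompact (segment ℝ (γ t) p) := by
    rw [segment_eq_image_lineMap]
    exact isCompact_Icc.image AffineMap.lineMap_continuous
  have h0 : (0:ℝ) ≤ 1 - κ := by linarith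
  set K : Set ℂ := rad Ψ (1 - κ) 1 t ∪ segment ℝ (γ t) p with hK
  have m1 : γ t ∈ rad Ψ (1 - κ) 1 t := ⟨1, ⟨by linarith, le_rfl⟩, S.P.one t htI⟩
  have hK1 : IsPreconnected K := (rad_preconn S.P h0 le_rfl t).union _ m1 (left_mem_segment ℝ _ _) hseg
  have hK2 : Bornology.IsBounded K := ((rad_compact S.P h0 le_rfl t).union hsc).isBounded
  have m2 : Ψ (1 - κ) t ∈ K := Or.inl ⟨1 - κ, ⟨le_rfl, by linarith⟩, rfl⟩
  have m3 : p ∈ K := Or.inr (right_mem_segment ℝ _ _)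
  have m4 : Ψ (1 - κ) t ∈ Sig Ψ κ := ⟨1 - κ, ⟨h0, by linarith⟩, t, htI, Or.inl le_rfl, rfl⟩
  have hcon := cells_con hs0 hK1 hK2 _ (cellOf_mem hs0 m2) _ (cellOf_mem hs0 m3)
  obtain ⟨a, b, hab, haK, hbK, ha, hb⟩ := Con.cross (S := (Out (cells s (Sig Ψ κ)))ᶜ) hcon
    (cellOf_mem hs0 m2) (subset_out_compl (cellOf_mem hs0 m4))
    (by rw [notMem_compl_iff]; exact hpo _ (mem_cellOf hs0 p))
  obtain ⟨x, y, hxy, rfl, rfl⟩ := exists_dart hab
  obtain ⟨m, hm, rfl, rfl⟩ := S.cyc.all x y hxy ha hb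
  refine ⟨m, hm, fun r hr t' ht' hz hr2 => ?_⟩
  obtain ⟨z, hz1, hz2⟩ := haK
  have hd := sq_dist hz hz1
  have hn : Pol.near η t' t := by
    have key : ∀ r0 ∈ Icc (0:ℝ) 1, ‖Ψ r t' - Ψ r0 t‖ < δ → Pol.near η t' t := by
      intro r0 hr0 hlt
      obtain ⟨-, h2⟩ := S.inv r hr r0 hr0 t' ht' t htI hlt
      rcases h2 with h2 | h2
      · exfalso; linarith
      · exact h2
    rcases hz2 with ⟨r0, hr0, rfl⟩ | hz2
    · exact key r0 ⟨by linarith [hr0.1], hr0.2⟩ (by linarith)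
    · have h7 : ‖z - γ t‖ ≤ ‖p - γ t‖ := by
        obtain ⟨τ, hτ, rfl⟩ : ∃ τ ∈ Icc (0:ℝ) 1, AffineMap.lineMap (γ t) p τ = z := by
          rw [segment_eq_image_lineMap] at hz2
          exact hz2
        have e : AffineMap.lineMap (γ t) p τ - γ t = τ • (p - γ t) := by
          rw [AffineMap.lineMap_apply]
          simp
        rw [e, norm_smul, Real.norm_eq_abs, abs_of_nonneg hτ.1]
        exact mul_le_of_le_one_left (norm_nonneg _) hτ.2
      apply key 1 ⟨zero_le_one, le_rfl⟩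
      rw [S.P.one t htI]
      have e : Ψ r t' - γ t = (Ψ r t' - z) + (z - γ t) := by ring
      rw [e]
      exact (norm_add_le _ _).trans_lt (by linarith)
  rcases hn with hn | hn | hn
  · exact hn
  · rw [abs_lt] at hn; linarith [ht'.2]
  · rw [abs_lt] at hn; linarith [ht'.1]

end kp

/-! ### rotation of the boundary walk -/

theorem Cyc.per_mul {F : Set V} {L : ℕ} {v : ℕ → V} (h : Cyc F L v) (i n : ℕ) : v (i + L * n) = v i := by
  induction n with
  | zero => simp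
  | succ n ih => rw [Nat.mul_succ, ← Nat.add_assoc, h.per, ih]

theorem Cyc.mod {F : Set V} {L : ℕ} {v : ℕ → V} (h : Cyc F L v) (i : ℕ) : v (i % L) = v i := by
  conv_rhs => rw [← Nat.mod_add_div i L]
  rw [h.per_mul]

theorem Cyc.rot {F : Set V} {L : ℕ} {v : ℕ → V} (h : Cyc F L v) (c : ℕ) :
    Cyc F L (fun m => v (m + c)) := by
  have hL : 0 < L := by have := h.four_le; omega
  refine ⟨h.four_le, ?_, ?_, ?_, ?_, ?_, ?_⟩
  · intro i
    show v (i + L + c) = v (i + c)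
    rw [show i + L + c = (i + c) + L by omega, h.per]
  · intro i hi j hj he
    have he' : v ((i + c) % L) = v ((j + c) % L) := by rw [h.mod, h.mod]; exact he
    have h1 := h.inj _ (Nat.mod_lt _ hL) _ (Nat.mod_lt _ hL) he'
    have h2 : (i + c) ≡ (j + c) [MOD L] := h1
    have h3 := Nat.ModEq.add_right_cancel' c h2
    rwa [Nat.ModEq, Nat.mod_eq_of_lt hi, Nat.mod_eq_of_lt hj] at h3
  · intro i
    show Adj (v (i + c)) (v (i + 1 + c))
    rw [show i + 1 + c = (i + c) + 1 by omega]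
    exact h.step _
  · intro i
    show lc (v (i + c)) (v (i + 1 + c)) ∈ F
    rw [show i + 1 + c = (i + c) + 1 by omega]
    exact h.left _
  · intro i
    show rc (v (i + c)) (v (i + 1 + c)) ∉ F
    rw [show i + 1 + c = (i + c) + 1 by omega]
    exact h.right _
  · intro a b hab ha hb
    obtain ⟨i, hi, h1, h2⟩ := h.all a b hab ha hb
    refine ⟨(i + L * c - c) % L, Nat.mod_lt _ hL, ?_, ?_⟩
    · have hle : c ≤ L * c := Nat.le_mul_of_pos_left c hL
      show v ((i + L * c - c) % L + c) = a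
      rw [← h.mod ((i + L * c - c) % L + c), Nat.mod_add_mod,
        show i + L * c - c + c = i + L * c by omega, h.mod, h.per_mul, h1]
    · have hle : c ≤ L * c := Nat.le_mul_of_pos_left c hL
      show v ((i + L * c - c) % L + 1 + c) = b
      rw [show (i + L * c - c) % L + 1 + c = (i + L * c - c) % L + (1 + c) by omega,
        ← h.mod ((i + L * c - c) % L + (1 + c)), Nat.mod_add_mod,
        show i + L * c - c + (1 + c) = (i + 1) + L * c by omega, h.mod, h.per_mul, h2]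

end Crest.Agent.R158.Sp896
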