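import Crest.Agent.R158.Gp5_949
import Crest.Agent.R158.Cb1_771

/-!
# Row 158 (S0237), SPL helpers (helper331), file 1: the law of `arcCrossingProb`

* `REG δ γ e` : the closed edge `e` (mesh `δ`) lies in the closed region of `γ`
* `XEv δ γ` : the crossing event on `Cfz = Edge → Bool`
* `arc_eq` : `arcCrossingProb δ γ = nu hf (XEv δ γ)`
-/

set_option autoImplicit false

noncomputable section

namespace Crest.Agent.R158.Spl331

open MeasureTheory ProbabilityTheory unitInterval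
open Crest.Agent.R161.Geo729 Crest.Agent.R161.Topo374 Crest.Agent.R161.Dual374
open Crest.Agent.R158.Rs689 Crest.Agent.R158.Cb771 Crest.Agent.R158.Gp949
open Crest.ProbabilityR.Percolation Crest.ProbabilityR.FirstPassage
open scoped ENNReal

/-- the closed edge lies in the closed region of the curve -/
def REG (δ : ℝ) (γ : ℝ → ℂ) (e : Edge) : Prop :=
  segment ℝ (gridPoint δ (src e)) (gridPoint δ (tgt e)) ⊆ jordanInterior γ ∪ curveTrace γ

/-- the crossing event of the closed region -/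
def XEv (δ : ℝ) (γ : ℝ → ℂ) : Set Cfz :=
  {z | ∃ u v : P2, gridPoint δ u ∈ γ '' Set.Icc 0 (1 / 4) ∧
    gridPoint δ v ∈ γ '' Set.Icc (1 / 2) (3 / 4) ∧
    Relation.ReflTransGen (PStep fun e => z e = true ∧ REG δ γ e) u v}

theorem pstep_meas {Ω : Type*} [MeasurableSpace Ω] {Z : Ω → Edge → Prop}
    (hZ : ∀ e, MeasurableSet {ω | Z ω e}) (a b : P2) : MeasurableSet {ω | PStep (Z ω) a b} := by
  have h : {ω | PStep (Z ω) a b} = ⋃ e : Edge, {ω | Z ω e} ∩
      {_ω : Ω | (a = src e ∧ b = tgt e) ∨ (a = tgt e ∧ b = src e)} := by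
    ext ω
    simp only [PStep, Set.mem_ofPred_eq, Set.mem_iUnion, Set.mem_inter_iff]
  rw [h]
  exact MeasurableSet.iUnion fun e => (hZ e).inter (MeasurableSet.const _)

theorem cross_meas {Ω : Type*} [MeasurableSpace Ω] {Z : Ω → Edge → Prop}
    (hZ : ∀ e, MeasurableSet {ω | Z ω e}) (P Q : P2 → Prop) :
    MeasurableSet {ω | ∃ u v : P2, P u ∧ Q v ∧ Relation.ReflTransGen (PStep (Z ω)) u v} := by
  have h : {ω | ∃ u v : P2, P u ∧ Q v ∧ Relation.ReflTransGen (PStep (Z ω)) u v} =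
      ⋃ u : P2, ⋃ v : P2, {_ω : Ω | P u ∧ Q v} ∩ {ω | Relation.ReflTransGen (PStep (Z ω)) u v} := by
    ext ω
    simp only [Set.mem_ofPred_eq, Set.mem_iUnion, Set.mem_inter_iff, and_assoc]
  rw [h]
  exact MeasurableSet.iUnion fun u => MeasurableSet.iUnion fun v =>
    (MeasurableSet.const _).inter (meas_rtg (fun a b => pstep_meas hZ a b) u v)

theorem measurableSet_XEv (δ : ℝ) (γ : ℝ → ℂ) : MeasurableSet (XEv δ γ) := by
  unfold XEv
  refine cross_meas (Z := fun (z : Cfz) e => z e = true ∧ REG δ γ e) (fun e => ?_) _ _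
  exact (measurableSet_eq_fun (measurable_pi_apply e) measurable_const).inter
    (MeasurableSet.const _)

theorem region_adj {δ : ℝ} {γ : ℝ → ℂ} {u v : P2} : (regionGraph δ γ).Adj u v ↔
    ∃ e : Edge, ((u = src e ∧ v = tgt e) ∨ (u = tgt e ∧ v = src e)) ∧ REG δ γ e := by
  simp only [regionGraph, SimpleGraph.fromRel_adj]
  constructor
  · rintro ⟨-, ⟨h1, h2⟩ | ⟨h1, h2⟩⟩
    · obtain ⟨e, ⟨rfl, rfl⟩ | ⟨rfl, rfl⟩⟩ := (sq_adj_iff u v).1 h1
      · exact ⟨e, Or.inl ⟨rfl, rfl⟩, h2⟩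
      · rw [segment_symm] at h2
        exact ⟨e, Or.inr ⟨rfl, rfl⟩, h2⟩
    · obtain ⟨e, ⟨rfl, rfl⟩ | ⟨rfl, rfl⟩⟩ := (sq_adj_iff v u).1 h1
      · exact ⟨e, Or.inr ⟨rfl, rfl⟩, h2⟩
      · rw [segment_symm] at h2
        exact ⟨e, Or.inl ⟨rfl, rfl⟩, h2⟩
  · rintro ⟨e, h1, h3⟩
    unfold REG at h3
    rcases h1 with ⟨rfl, rfl⟩ | ⟨rfl, rfl⟩
    · have h4 : squareLattice.Adj (src e) (tgt e) := (sq_adj_iff _ _).2 ⟨e, Or.inl ⟨rfl, rfl⟩⟩
      exact ⟨h4.ne, Or.inl ⟨h4, h3⟩⟩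
    · have h4 : squareLattice.Adj (tgt e) (src e) := (sq_adj_iff _ _).2 ⟨e, Or.inr ⟨rfl, rfl⟩⟩
      rw [segment_symm] at h3
      exact ⟨h4.ne, Or.inl ⟨h4, h3⟩⟩

theorem region_edge {δ : ℝ} {γ : ℝ → ℂ} {x : Sym2 P2} :
    x ∈ (regionGraph δ γ).edgeSet ↔ ∃ e, x = se e ∧ REG δ γ e := by
  constructor
  · induction x using Sym2.ind with
    | _ u v =>
      rw [SimpleGraph.mem_edgeSet, region_adj]
      rintro ⟨e, ⟨rfl, rfl⟩ | ⟨rfl, rfl⟩, h⟩
      · exact ⟨e, rfl, h⟩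
      · exact ⟨e, Sym2.eq_swap, h⟩
  · rintro ⟨e, rfl, h⟩
    rw [se, SimpleGraph.mem_edgeSet, region_adj]
    exact ⟨e, Or.inl ⟨rfl, rfl⟩, h⟩

/-- edges of the region -/
abbrev RSub (δ : ℝ) (γ : ℝ → ℂ) : Type := {e : Edge // REG δ γ e}

open Classical in
/-- configuration on the edges of the region -/
def confR (δ : ℝ) (γ : ℝ → ℂ) (ω : Set (Sym2 P2)) : RSub δ γ → Bool := fun e => decide (se e.1 ∈ ω)

theorem adj_openR {δ : ℝ} {γ : ℝ → ℂ} {ω : Set (Sym2 P2)} {u v : P2} :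
    (openSubgraph (regionGraph δ γ) ω).Adj u v ↔
      PStep (fun e => ∃ h : REG δ γ e, confR δ γ ω ⟨e, h⟩ = true) u v := by
  unfold openSubgraph
  rw [SimpleGraph.fromEdgeSet_adj]
  constructor
  · rintro ⟨⟨h1, h2⟩, h3⟩
    obtain ⟨e, he, hr⟩ := region_edge.1 h2
    refine ⟨e, ⟨hr, ?_⟩, ?_⟩
    · simp only [confR, decide_eq_true_eq]
      exact he ▸ h1
    · simp only [se, Sym2.eq_iff] at he
      exact he
  · rintro ⟨e, ⟨hr, he⟩, h⟩
    simp only [confR, decide_eq_true_eq] at he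
    have h4 : Nbr u v := nbr_iff.2 ⟨e, h⟩
    have h5 : s(u, v) = se e := by
      simp only [se, Sym2.eq_iff]
      exact h
    refine ⟨⟨h5 ▸ he, region_edge.2 ⟨e, h5, hr⟩⟩, ?_⟩
    rintro rfl
    unfold Nbr at h4
    omega

theorem reach_openR {δ : ℝ} {γ : ℝ → ℂ} {ω : Set (Sym2 P2)} {u v : P2} :
    (openSubgraph (regionGraph δ γ) ω).Reachable u v ↔
      Relation.ReflTransGen (PStep fun e => ∃ h : REG δ γ e, confR δ γ ω ⟨e, h⟩ = true) u v := by
  rw [SimpleGraph.reachable_iff_reflTransGen]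
  have h : (openSubgraph (regionGraph δ γ) ω).Adj =
      PStep fun e => ∃ h : REG δ γ e, confR δ γ ω ⟨e, h⟩ = true := by
    funext a b
    exact propext adj_openR
  rw [h]

theorem measurable_confR (δ : ℝ) (γ : ℝ → ℂ) : Measurable (confR δ γ) :=
  measurable_pi_lambda _ fun e => measurable_dec.comp (measurable_set_mem (se e.1))

theorem PB_res {ι : Type*} (p : I) (S : ι → Prop) :
    (PB fun _ : ι => p).map (fun (z : ι → Bool) (k : {e // S e}) => z k.1) =
      PB fun _ : {e // S e} => p := by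
  unfold PB
  exact infinitePi_map_inj (fun _ : ι => bern p) Subtype.val_injective

/-- **the law of the crossing probability** -/
theorem arc_eq (δ : ℝ) (γ : ℝ → ℂ) : arcCrossingProb δ γ = nu hf (XEv δ γ) := by
  set A : Set (RSub δ γ → Bool) := {x | ∃ u v : P2, gridPoint δ u ∈ γ '' Set.Icc 0 (1 / 4) ∧
    gridPoint δ v ∈ γ '' Set.Icc (1 / 2) (3 / 4) ∧
    Relation.ReflTransGen (PStep fun e => ∃ h : REG δ γ e, x ⟨e, h⟩ = true) u v} with hA
  have hmA : MeasurableSet A := by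
    refine cross_meas (Z := fun (x : RSub δ γ → Bool) e => ∃ h : REG δ γ e, x ⟨e, h⟩ = true)
      (fun e => ?_) _ _
    by_cases he : REG δ γ e
    · have : {x : RSub δ γ → Bool | ∃ h : REG δ γ e, x ⟨e, h⟩ = true} = {x | x ⟨e, he⟩ = true} := by
        ext x
        exact ⟨fun ⟨_, h⟩ => h, fun h => ⟨he, h⟩⟩
      rw [this]
      exact measurableSet_eq_fun (measurable_pi_apply _) measurable_const
    · have : {x : RSub δ γ → Bool | ∃ h : REG δ γ e, x ⟨e, h⟩ = true} = ∅ := by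
        ext x
        simp only [Set.mem_ofPred_eq, Set.mem_empty_iff_false, iff_false]
        exact fun ⟨h, _⟩ => he h
      rw [this]
      exact .empty
  have h1 : arcCrossingProb δ γ =
      setBernoulli (regionGraph δ γ).edgeSet hf (confR δ γ ⁻¹' A) := by
    unfold arcCrossingProb
    rw [clampUnit_half]
    congr 1
    ext ω
    simp only [Set.mem_ofPred_eq, Set.mem_preimage, hA, reach_openR]
  have h2 : (setBernoulli (regionGraph δ γ).edgeSet hf).map (confR δ γ) =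
      PB fun _ : RSub δ γ => hf :=
    map_conf _ hf (j := fun e : RSub δ γ => se e.1)
      (fun a b h => Subtype.ext (se_inj h)) (fun e => region_edge.2 ⟨e.1, rfl, e.2⟩)
  rw [h1, ← Measure.map_apply (measurable_confR δ γ) hmA, h2, ← PB_res hf (REG δ γ),
    Measure.map_apply (measurable_pi_lambda _ fun _ => measurable_pi_apply _) hmA]
  unfold nu
  congr 1
  ext z
  simp only [hA, XEv, Set.mem_preimage, Set.mem_ofPred_eq]
  have h3 : (fun e => ∃ h : REG δ γ e, (fun k : RSub δ γ => z k.1) ⟨e, h⟩ = true) =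
      fun e => z e = true ∧ REG δ γ e := by
    funext e
    simp only [exists_prop, eq_iff_iff]
    exact and_comm
  rw [h3]

theorem arc_real (δ : ℝ) (γ : ℝ → ℂ) : (arcCrossingProb δ γ).toReal = (nu hf).real (XEv δ γ) := by
  rw [arc_eq, measureReal_def]

/-- the region edges of a grid polygon -/
theorem reg_iff {δ : ℝ} {γ : ℝ → ℂ} (hδ : 0 < δ) (hγ : IsGridPolygon δ γ) (W : GWalk (uc δ γ))
    (e : Edge) : REG δ γ e ↔ W.par (fA e) = 1 ∨ W.par (fB e) = 1 :=
  segment_sub_iff hδ hγ W e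

end Crest.Agent.R158.Spl331
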