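import Crest.Agent.R158.Jt3_785
import Crest.Agent.R158.Spa_331

/-!
# Row 158 (S0237), SPL helpers (helper331), file 3: symmetries of the data of S0237

* `rp sg c γ t = γ (fract (c + sg t))`, `sg = ±1` : reparametrisations of the circle
  (`rv γ = rp (-1) (1/4) γ` keeps the arcs `A = γ[0,1/4]`, `C = γ[1/2,3/4]` and exchanges
  `B = γ[1/4,1/2]`, `E = γ[3/4,1]`)
* `cjc γ t = conj (γ t)` : reflection
* `arc_rv`, `arc_cjc` : same `arcCrossingProb`; `cross_rv`, `cross_cj` : same cross ratio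
-/

set_option autoImplicit false

noncomputable section

namespace Crest.Agent.R158.Spl331

open Set Topology Filter Metric MeasureTheory ProbabilityTheory unitInterval
open Crest.Agent.R161.Geo729 Crest.Agent.R161.Topo374 Crest.Agent.R161.Dual374
open Crest.Agent.R158.Rs689 Crest.Agent.R158.Cb771 Crest.Agent.R158.Gp949 Crest.Agent.R158.Jt785
open Crest.ProbabilityR.Percolation Crest.ProbabilityR.FirstPassage

/-! ### reparametrisation -/

/-- reparametrised closed curve -/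
def rp (sg c : ℝ) (γ : ℝ → ℂ) : ℝ → ℂ := fun t => γ (Int.fract (c + sg * t))

variable {γ : ℝ → ℂ} {sg c : ℝ}

theorem fract_Ico (t : ℝ) : Int.fract t ∈ Ico (0 : ℝ) 1 := ⟨Int.fract_nonneg t, Int.fract_lt_one t⟩

theorem fract_Icc (t : ℝ) : Int.fract t ∈ Icc (0 : ℝ) 1 := Ico_subset_Icc_self (fract_Ico t)

theorem rp_jordan (hs' : sg = 1 ∨ sg = -1) (h : IsJordanCurve γ) : IsJordanCurve (rp sg c γ) := by
  obtain ⟨hc, hi, h01⟩ := h
  refine ⟨?_, ?_, ?_⟩
  · have h1 : Continuous fun t => γ (Int.fract t) := ContinuousOn.comp_fract'' hc h01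
    exact (h1.comp (by fun_prop : Continuous fun t : ℝ => c + sg * t)).continuousOn
  · intro s hs t ht hst
    have h2 := hi (fract_Ico _) (fract_Ico _) hst
    have h3 := Int.fract_add_floor (c + sg * s)
    have h4 := Int.fract_add_floor (c + sg * t)
    have h5 : sg * (s - t) = ((⌊c + sg * s⌋ - ⌊c + sg * t⌋ : ℤ) : ℝ) := by
      push_cast
      linarith
    set m : ℤ := ⌊c + sg * s⌋ - ⌊c + sg * t⌋
    have h6 : |sg * (s - t)| < 1 := by
      rcases hs' with rfl | rfl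
      · rw [abs_lt]; constructor <;> linarith [hs.1, hs.2, ht.1, ht.2]
      · rw [abs_lt]; constructor <;> linarith [hs.1, hs.2, ht.1, ht.2]
    rw [h5] at h6
    have h7 : |m| < 1 := by exact_mod_cast h6
    have h8 : m = 0 := by
      rw [abs_lt] at h7; omega
    rw [h8] at h5
    rcases hs' with rfl | rfl
    · simp at h5; linarith
    · simp at h5; linarith
  · rcases hs' with rfl | rfl
    · simp only [rp, mul_zero, add_zero, mul_one, Int.fract_add_one]
    · simp only [rp, mul_zero, add_zero, mul_one]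
      rw [show c + -1 = c - 1 by ring, Int.fract_sub_one]

theorem rp_trace (hs : sg = 1 ∨ sg = -1) (h01 : γ 0 = γ 1) : curveTrace (rp sg c γ) = curveTrace γ := by
  have hs2 : sg * sg = 1 := by rcases hs with rfl | rfl <;> norm_num
  ext z
  constructor
  · rintro ⟨t, -, rfl⟩
    exact ⟨_, fract_Icc _, rfl⟩
  · rintro ⟨t, ht, rfl⟩
    refine ⟨Int.fract (sg * (t - c)), fract_Icc _, ?_⟩
    have h1 : Int.fract (c + sg * Int.fract (sg * (t - c))) = Int.fract t := by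
      rw [Int.fract_eq_fract]
      have h2 := Int.fract_add_floor (sg * (t - c))
      have h3 : Int.fract (sg * (t - c)) = sg * (t - c) - ⌊sg * (t - c)⌋ := by linarith
      rcases hs with rfl | rfl
      · refine ⟨-⌊(1 : ℝ) * (t - c)⌋, ?_⟩
        rw [h3]; push_cast; ring
      · refine ⟨⌊(-1 : ℝ) * (t - c)⌋, ?_⟩
        rw [h3]; push_cast; ring
    show γ (Int.fract (c + sg * Int.fract (sg * (t - c)))) = γ t
    rw [h1]
    rcases ht.2.lt_or_eq with h2 | h2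
    · rw [Int.fract_eq_self.2 ⟨ht.1, h2⟩]
    · rw [h2, Int.fract_one, h01]

theorem ji_congr {γ' : ℝ → ℂ} (h : curveTrace γ' = curveTrace γ) :
    jordanInterior γ' = jordanInterior γ := by
  unfold jordanInterior
  rw [h]

theorem rp_ji (hs : sg = 1 ∨ sg = -1) (h01 : γ 0 = γ 1) :
    jordanInterior (rp sg c γ) = jordanInterior γ := ji_congr (rp_trace hs h01)

theorem rp_grid {δ : ℝ} (hs : sg = 1 ∨ sg = -1) (h : IsGridPolygon δ γ) :
    IsGridPolygon δ (rp sg c γ) :=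
  ⟨rp_jordan hs h.1, by rw [rp_trace hs h.1.2.2]; exact h.2⟩

theorem rp_unif {φ : ℂ → ℂ} (hs : sg = 1 ∨ sg = -1) (h : Unif γ φ) : Unif (rp sg c γ) φ := by
  have h1 := rp_ji (c := c) hs h.jc.2.2
  exact ⟨rp_jordan hs h.jc, by rw [h1]; exact h.cont, by rw [h1]; exact h.inj, by rw [h1]; exact h.img⟩

theorem rp_tendsto {γs : ℕ → ℝ → ℂ} (h : TendstoUniformlyOn γs γ atTop (Icc 0 1)) :
    TendstoUniformlyOn (fun n => rp sg c (γs n)) (rp sg c γ) atTop (Icc 0 1) := by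
  rw [Metric.tendstoUniformlyOn_iff] at h ⊢
  intro ε hε
  filter_upwards [h ε hε] with n hn
  intro t _
  exact hn _ (fract_Icc _)

theorem rp_region {δ : ℝ} (hs : sg = 1 ∨ sg = -1) (h01 : γ 0 = γ 1) :
    regionGraph δ (rp sg c γ) = regionGraph δ γ := by
  unfold regionGraph
  rw [rp_ji hs h01, rp_trace hs h01]

theorem rp_image (S : Set ℝ) : rp sg c γ '' S = (fun t => γ (Int.fract t)) '' ((fun t => c + sg * t) '' S) := by
  rw [image_image]
  rfl

/-! ### time reversal exchanging `B` and `E` -/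

/-- the curve run backwards, keeping the arcs `A` and `C` -/
def rv (γ : ℝ → ℂ) : ℝ → ℂ := rp (-1) (1 / 4) γ

/-- the curve read from the mark `1/4` on (the arcs `A, B, C, E` become `B, C, E, A`) -/
def sh (γ : ℝ → ℂ) : ℝ → ℂ := rp 1 (1 / 4) γ

theorem fract_rv1 {t : ℝ} (h0 : 0 ≤ t) (h1 : t ≤ 1 / 4) : Int.fract (1 / 4 + -1 * t) = 1 / 4 - t := by
  rw [show (1 : ℝ) / 4 + -1 * t = 1 / 4 - t by ring]
  exact Int.fract_eq_self.2 ⟨by linarith, by linarith⟩

theorem fract_rv2 {t : ℝ} (h0 : 1 / 4 < t) (h1 : t ≤ 5 / 4) :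
    Int.fract (1 / 4 + -1 * t) = 5 / 4 - t := by
  rw [← Int.fract_add_one, show (1 : ℝ) / 4 + -1 * t + 1 = 5 / 4 - t by ring]
  exact Int.fract_eq_self.2 ⟨by linarith, by linarith⟩

theorem rv_A : rv γ '' Icc 0 (1 / 4) = γ '' Icc 0 (1 / 4) := by
  ext z
  constructor
  · rintro ⟨t, ht, rfl⟩
    refine ⟨1 / 4 - t, ⟨by linarith [ht.2], by linarith [ht.1]⟩, ?_⟩
    show _ = γ (Int.fract (1 / 4 + -1 * t))
    rw [fract_rv1 ht.1 ht.2]
  · rintro ⟨t, ht, rfl⟩
    refine ⟨1 / 4 - t, ⟨by linarith [ht.2], by linarith [ht.1]⟩, ?_⟩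
    show γ (Int.fract (1 / 4 + -1 * (1 / 4 - t))) = _
    rw [fract_rv1 (by linarith [ht.2]) (by linarith [ht.1])]
    congr 1
    ring

theorem rv_C : rv γ '' Icc (1 / 2) (3 / 4) = γ '' Icc (1 / 2) (3 / 4) := by
  ext z
  constructor
  · rintro ⟨t, ht, rfl⟩
    refine ⟨5 / 4 - t, ⟨by linarith [ht.2], by linarith [ht.1]⟩, ?_⟩
    show _ = γ (Int.fract (1 / 4 + -1 * t))
    rw [fract_rv2 (by linarith [ht.1]) (by linarith [ht.2])]
  · rintro ⟨t, ht, rfl⟩
    refine ⟨5 / 4 - t, ⟨by linarith [ht.2], by linarith [ht.1]⟩, ?_⟩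
    show γ (Int.fract (1 / 4 + -1 * (5 / 4 - t))) = _
    rw [fract_rv2 (by linarith [ht.2]) (by linarith [ht.1])]
    congr 1
    ring

theorem rv_B (h01 : γ 0 = γ 1) : rv γ '' Icc (1 / 4) (1 / 2) = γ '' Icc (3 / 4) 1 := by
  ext z
  constructor
  · rintro ⟨t, ht, rfl⟩
    rcases ht.1.eq_or_lt with h | h
    · refine ⟨1, ⟨by norm_num, le_refl _⟩, ?_⟩
      show _ = γ (Int.fract (1 / 4 + -1 * t))
      rw [← h, fract_rv1 (by norm_num) (by norm_num), sub_self, h01]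
    · refine ⟨5 / 4 - t, ⟨by linarith [ht.2], by linarith⟩, ?_⟩
      show _ = γ (Int.fract (1 / 4 + -1 * t))
      rw [fract_rv2 h (by linarith [ht.2])]
  · rintro ⟨t, ht, rfl⟩
    rcases ht.2.eq_or_lt with h | h
    · refine ⟨1 / 4, ⟨by norm_num, by norm_num⟩, ?_⟩
      show γ (Int.fract (1 / 4 + -1 * (1 / 4))) = _
      rw [fract_rv1 (by norm_num) (by norm_num), sub_self, h, h01]
    · refine ⟨5 / 4 - t, ⟨by linarith, by linarith [ht.1]⟩, ?_⟩
      show γ (Int.fract (1 / 4 + -1 * (5 / 4 - t))) = _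
      rw [fract_rv2 (by linarith) (by linarith [ht.1])]
      congr 1
      ring

theorem rv_E (h01 : γ 0 = γ 1) : rv γ '' Icc (3 / 4) 1 = γ '' Icc (1 / 4) (1 / 2) := by
  ext z
  constructor
  · rintro ⟨t, ht, rfl⟩
    refine ⟨5 / 4 - t, ⟨by linarith [ht.2], by linarith [ht.1]⟩, ?_⟩
    show _ = γ (Int.fract (1 / 4 + -1 * t))
    rw [fract_rv2 (by linarith [ht.1]) (by linarith [ht.2])]
  · rintro ⟨t, ht, rfl⟩
    refine ⟨5 / 4 - t, ⟨by linarith [ht.2], by linarith [ht.1]⟩, ?_⟩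
    show γ (Int.fract (1 / 4 + -1 * (5 / 4 - t))) = _
    rw [fract_rv2 (by linarith [ht.2]) (by linarith [ht.1])]
    congr 1
    ring

theorem rv_zero : rv γ 0 = γ (1 / 4) := by
  show γ (Int.fract (1 / 4 + -1 * 0)) = _
  rw [fract_rv1 (by norm_num) (by norm_num)]
  norm_num

theorem rv_quarter : rv γ (1 / 4) = γ 0 := by
  show γ (Int.fract (1 / 4 + -1 * (1 / 4))) = _
  rw [fract_rv1 (by norm_num) (by norm_num)]
  norm_num

theorem rv_half : rv γ (1 / 2) = γ (3 / 4) := by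
  show γ (Int.fract (1 / 4 + -1 * (1 / 2))) = _
  rw [fract_rv2 (by norm_num) (by norm_num)]
  norm_num

theorem rv_three : rv γ (3 / 4) = γ (1 / 2) := by
  show γ (Int.fract (1 / 4 + -1 * (3 / 4))) = _
  rw [fract_rv2 (by norm_num) (by norm_num)]
  norm_num

theorem rv_jordan (h : IsJordanCurve γ) : IsJordanCurve (rv γ) := rp_jordan (Or.inr rfl) h
theorem rv_trace (h01 : γ 0 = γ 1) : curveTrace (rv γ) = curveTrace γ := rp_trace (Or.inr rfl) h01
theorem rv_ji (h01 : γ 0 = γ 1) : jordanInterior (rv γ) = jordanInterior γ := rp_ji (Or.inr rfl) h01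
theorem rv_grid {δ : ℝ} (h : IsGridPolygon δ γ) : IsGridPolygon δ (rv γ) := rp_grid (Or.inr rfl) h
theorem rv_unif {φ : ℂ → ℂ} (h : Unif γ φ) : Unif (rv γ) φ := rp_unif (Or.inr rfl) h
theorem rv_tendsto {γs : ℕ → ℝ → ℂ} (h : TendstoUniformlyOn γs γ atTop (Icc 0 1)) :
    TendstoUniformlyOn (fun n => rv (γs n)) (rv γ) atTop (Icc 0 1) := rp_tendsto h

/-- the crossing probability does not see the reversal -/
theorem arc_rv (δ : ℝ) (h01 : γ 0 = γ 1) : arcCrossingProb δ (rv γ) = arcCrossingProb δ γ := by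
  unfold arcCrossingProb
  rw [rv_A, rv_C, show regionGraph δ (rv γ) = regionGraph δ γ from rp_region (Or.inr rfl) h01]

theorem cross_swap (p q r s : ℂ) : crossRatioAt q p s r = crossRatioAt p q r s := by
  unfold crossRatioAt
  congr 2
  · ring
  · ring

/-- the cross ratio does not see the reversal -/
theorem cross_rv (φ : ℂ → ℂ) :
    crossRatioAt (φ (rv γ 0)) (φ (rv γ (1 / 4))) (φ (rv γ (1 / 2))) (φ (rv γ (3 / 4))) =
      crossRatioAt (φ (γ 0)) (φ (γ (1 / 4))) (φ (γ (1 / 2))) (φ (γ (3 / 4))) := by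
  rw [rv_zero, rv_quarter, rv_half, rv_three, cross_swap]

/-! ### the shift by a quarter -/

theorem fract_sh1 {t : ℝ} (h0 : 0 ≤ t) (h1 : t < 3 / 4) : Int.fract (1 / 4 + 1 * t) = 1 / 4 + t := by
  rw [one_mul]
  exact Int.fract_eq_self.2 ⟨by linarith, by linarith⟩

theorem fract_sh2 {t : ℝ} (h0 : 3 / 4 ≤ t) (h1 : t ≤ 1) : Int.fract (1 / 4 + 1 * t) = t - 3 / 4 := by
  rw [← Int.fract_sub_one, show (1 : ℝ) / 4 + 1 * t - 1 = t - 3 / 4 by ring]
  exact Int.fract_eq_self.2 ⟨by linarith, by linarith⟩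

theorem sh_apply1 {t : ℝ} (h0 : 0 ≤ t) (h1 : t < 3 / 4) : sh γ t = γ (1 / 4 + t) := by
  show γ (Int.fract (1 / 4 + 1 * t)) = _
  rw [fract_sh1 h0 h1]

theorem sh_apply2 {t : ℝ} (h0 : 3 / 4 ≤ t) (h1 : t ≤ 1) : sh γ t = γ (t - 3 / 4) := by
  show γ (Int.fract (1 / 4 + 1 * t)) = _
  rw [fract_sh2 h0 h1]

theorem sh_A : sh γ '' Icc 0 (1 / 4) = γ '' Icc (1 / 4) (1 / 2) := by
  ext z
  constructor
  · rintro ⟨t, ht, rfl⟩
    exact ⟨1 / 4 + t, ⟨by linarith [ht.1], by linarith [ht.2]⟩,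
      (sh_apply1 ht.1 (by linarith [ht.2])).symm⟩
  · rintro ⟨t, ht, rfl⟩
    refine ⟨t - 1 / 4, ⟨by linarith [ht.1], by linarith [ht.2]⟩, ?_⟩
    rw [sh_apply1 (by linarith [ht.1]) (by linarith [ht.2])]
    congr 1; ring

theorem sh_B : sh γ '' Icc (1 / 4) (1 / 2) = γ '' Icc (1 / 2) (3 / 4) := by
  ext z
  constructor
  · rintro ⟨t, ht, rfl⟩
    exact ⟨1 / 4 + t, ⟨by linarith [ht.1], by linarith [ht.2]⟩,
      (sh_apply1 (by linarith [ht.1]) (by linarith [ht.2])).symm⟩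
  · rintro ⟨t, ht, rfl⟩
    refine ⟨t - 1 / 4, ⟨by linarith [ht.1], by linarith [ht.2]⟩, ?_⟩
    rw [sh_apply1 (by linarith [ht.1]) (by linarith [ht.2])]
    congr 1; ring

theorem sh_C (h01 : γ 0 = γ 1) : sh γ '' Icc (1 / 2) (3 / 4) = γ '' Icc (3 / 4) 1 := by
  ext z
  constructor
  · rintro ⟨t, ht, rfl⟩
    rcases ht.2.eq_or_lt with h | h
    · refine ⟨1, ⟨by norm_num, le_refl _⟩, ?_⟩
      rw [h, sh_apply2 (le_refl _) (by norm_num), sub_self, h01]
    · exact ⟨1 / 4 + t, ⟨by linarith [ht.1], by linarith⟩, (sh_apply1 (by linarith [ht.1]) h).symm⟩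
  · rintro ⟨t, ht, rfl⟩
    rcases ht.2.eq_or_lt with h | h
    · refine ⟨3 / 4, ⟨by norm_num, le_refl _⟩, ?_⟩
      rw [h, sh_apply2 (le_refl _) (by norm_num), sub_self, h01]
    · refine ⟨t - 1 / 4, ⟨by linarith [ht.1], by linarith⟩, ?_⟩
      rw [sh_apply1 (by linarith [ht.1]) (by linarith)]
      congr 1; ring

theorem sh_E : sh γ '' Icc (3 / 4) 1 = γ '' Icc 0 (1 / 4) := by
  ext z
  constructor
  · rintro ⟨t, ht, rfl⟩
    exact ⟨t - 3 / 4, ⟨by linarith [ht.1], by linarith [ht.2]⟩, (sh_apply2 ht.1 ht.2).symm⟩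
  · rintro ⟨t, ht, rfl⟩
    refine ⟨t + 3 / 4, ⟨by linarith [ht.1], by linarith [ht.2]⟩, ?_⟩
    rw [sh_apply2 (by linarith [ht.1]) (by linarith [ht.2])]
    congr 1; ring

theorem sh_jordan (h : IsJordanCurve γ) : IsJordanCurve (sh γ) := rp_jordan (Or.inl rfl) h
theorem sh_trace (h01 : γ 0 = γ 1) : curveTrace (sh γ) = curveTrace γ := rp_trace (Or.inl rfl) h01
theorem sh_ji (h01 : γ 0 = γ 1) : jordanInterior (sh γ) = jordanInterior γ := rp_ji (Or.inl rfl) h01
theorem sh_grid {δ : ℝ} (h : IsGridPolygon δ γ) : IsGridPolygon δ (sh γ) := rp_grid (Or.inl rfl) h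
theorem sh_unif {φ : ℂ → ℂ} (h : Unif γ φ) : Unif (sh γ) φ := rp_unif (Or.inl rfl) h
theorem sh_tendsto {γs : ℕ → ℝ → ℂ} (h : TendstoUniformlyOn γs γ atTop (Icc 0 1)) :
    TendstoUniformlyOn (fun n => sh (γs n)) (sh γ) atTop (Icc 0 1) := rp_tendsto h

/-! ### reflection -/

/-- the reflected curve -/
def cjc (γ : ℝ → ℂ) : ℝ → ℂ := fun t => (starRingEnd ℂ) (γ t)

/-- complex conjugation as a homeomorphism -/
def cjh : ℂ ≃ₜ ℂ := Complex.conjCLE.toHomeomorph

@[simp] theorem cjh_apply (z : ℂ) : cjh z = (starRingEnd ℂ) z := rfl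

theorem cj_mem_iff (S : Set ℂ) (z : ℂ) : (starRingEnd ℂ) z ∈ S ↔ z ∈ cjh '' S := by
  constructor
  · intro h
    exact ⟨_, h, by rw [cjh_apply, Complex.conj_conj]⟩
  · rintro ⟨w, hw, rfl⟩
    rwa [cjh_apply, Complex.conj_conj]

theorem cjc_cjc (γ : ℝ → ℂ) : cjc (cjc γ) = γ := by
  funext t
  simp [cjc]

theorem cjc_image (S : Set ℝ) : cjc γ '' S = cjh '' (γ '' S) := by
  rw [image_image]
  rfl

theorem cjc_jordan (h : IsJordanCurve γ) : IsJordanCurve (cjc γ) := by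
  obtain ⟨hc, hi, h01⟩ := h
  refine ⟨cjh.continuous.comp_continuousOn hc, ?_, ?_⟩
  · intro s hs t ht hst
    exact hi hs ht (cjh.injective hst)
  · simp only [cjc, h01]

theorem cjc_trace : curveTrace (cjc γ) = cjh '' curveTrace γ := cjc_image _

theorem bdd_cj (S : Set ℂ) : Bornology.IsBounded (cjh '' S) ↔ Bornology.IsBounded S := by
  rw [isBounded_iff_forall_norm_le, isBounded_iff_forall_norm_le]
  constructor
  · rintro ⟨C, hC⟩
    refine ⟨C, fun z hz => ?_⟩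
    have := hC _ (mem_image_of_mem _ hz)
    rwa [cjh_apply, Complex.norm_conj] at this
  · rintro ⟨C, hC⟩
    refine ⟨C, ?_⟩
    rintro _ ⟨z, hz, rfl⟩
    rw [cjh_apply, Complex.norm_conj]
    exact hC z hz

theorem cjc_ji : jordanInterior (cjc γ) = cjh '' jordanInterior γ := by
  ext z
  rw [← cj_mem_iff]
  unfold jordanInterior
  simp only [mem_ofPred_eq]
  rw [cjc_trace, cj_mem_iff]
  refine and_congr_right fun hz => ?_
  have h1 : (starRingEnd ℂ) z ∈ (curveTrace γ)ᶜ := by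
    intro hh
    exact hz ((cj_mem_iff _ _).1 hh)
  have h2 := cjh.image_connectedComponentIn (s := (curveTrace γ)ᶜ) (x := (starRingEnd ℂ) z) h1
  rw [cjh_apply, Complex.conj_conj, image_compl_eq cjh.bijective] at h2
  rw [← h2, bdd_cj]

theorem cjc_closure : closure (jordanInterior (cjc γ)) = cjh '' closure (jordanInterior γ) := by
  rw [cjc_ji, cjh.image_closure]

theorem cjc_grid {δ : ℝ} (h : IsGridPolygon δ γ) : IsGridPolygon δ (cjc γ) := by
  refine ⟨cjc_jordan h.1, ?_⟩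
  rw [cjc_trace]
  rintro _ ⟨z, hz, rfl⟩
  rcases h.2 hz with ⟨k, hk⟩ | ⟨k, hk⟩
  · left
    exact ⟨k, by simp [hk]⟩
  · right
    exact ⟨-k, by simp [hk]⟩

/-- the conjugated uniformisation -/
def cjφ (φ : ℂ → ℂ) : ℂ → ℂ := fun z => (starRingEnd ℂ) (φ ((starRingEnd ℂ) z))

theorem cjc_unif {φ : ℂ → ℂ} (h : Unif γ φ) : Unif (cjc γ) (cjφ φ) := by
  refine ⟨cjc_jordan h.jc, ?_, ?_, ?_⟩
  · rw [cjc_closure]
    refine cjh.continuous.comp_continuousOn (h.cont.comp cjh.continuous.continuousOn ?_)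
    rintro _ ⟨z, hz, rfl⟩
    simpa using hz
  · rw [cjc_closure]
    rintro _ ⟨z, hz, rfl⟩ _ ⟨w, hw, rfl⟩ he
    have h1 := cjh.injective he
    simp only [cjh_apply, Complex.conj_conj] at h1
    rw [h.inj hz hw h1]
  · rw [cjc_ji]
    ext w
    constructor
    · rintro ⟨_, ⟨z, hz, rfl⟩, rfl⟩
      have h1 : φ z ∈ ball (0 : ℂ) 1 := by rw [← h.img]; exact mem_image_of_mem _ hz
      simp only [cjφ, cjh_apply, Complex.conj_conj, mem_ball_zero_iff, Complex.norm_conj] at h1 ⊢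
      exact h1
    · intro hw
      have h1 : (starRingEnd ℂ) w ∈ φ '' jordanInterior γ := by
        rw [h.img]
        simpa using hw
      obtain ⟨z, hz, hzw⟩ := h1
      refine ⟨cjh z, mem_image_of_mem _ hz, ?_⟩
      simp only [cjφ, cjh_apply, Complex.conj_conj, hzw]

theorem cjφ_diff {φ : ℂ → ℂ} (h : DifferentiableOn ℂ φ (jordanInterior γ))
    (ho : IsOpen (jordanInterior γ)) : DifferentiableOn ℂ (cjφ φ) (jordanInterior (cjc γ)) := by
  intro z hz
  rw [cjc_ji, ← cj_mem_iff] at hz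
  have h1 : DifferentiableAt ℂ φ ((starRingEnd ℂ) z) := h.differentiableAt (ho.mem_nhds hz)
  have h2 : DifferentiableAt ℂ ((starRingEnd ℂ) ∘ φ ∘ (starRingEnd ℂ)) z := by
    rw [differentiableAt_conj_conj_iff]
    exact h1
  exact h2.differentiableWithinAt

theorem cjc_tendsto {γs : ℕ → ℝ → ℂ} (h : TendstoUniformlyOn γs γ atTop (Icc 0 1)) :
    TendstoUniformlyOn (fun n => cjc (γs n)) (cjc γ) atTop (Icc 0 1) := by
  rw [Metric.tendstoUniformlyOn_iff] at h ⊢
  intro ε hε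
  filter_upwards [h ε hε] with n hn
  intro t ht
  have h1 := hn t ht
  rw [dist_eq_norm] at h1 ⊢
  show ‖(starRingEnd ℂ) (γ t) - (starRingEnd ℂ) (γs n t)‖ < ε
  rw [← map_sub, Complex.norm_conj]
  exact h1

/-- reflected edges -/
def rfe : Edge ≃ Edge where
  toFun e := if e.2 then ((e.1.1, -e.1.2 - 1), true) else ((e.1.1, -e.1.2), false)
  invFun e := if e.2 then ((e.1.1, -e.1.2 - 1), true) else ((e.1.1, -e.1.2), false)
  left_inv := by rintro ⟨⟨a, b⟩, c⟩; cases c <;> simp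
  right_inv := by rintro ⟨⟨a, b⟩, c⟩; cases c <;> simp

/-- reflected vertices -/
def rfv (v : P2) : P2 := (v.1, -v.2)

theorem rfv_rfv (v : P2) : rfv (rfv v) = v := by simp [rfv]

theorem rfe_rfe (e : Edge) : rfe (rfe e) = e := rfe.left_inv e

theorem rfe_ends (e : Edge) : (src (rfe e) = rfv (src e) ∧ tgt (rfe e) = rfv (tgt e)) ∨
    (src (rfe e) = rfv (tgt e) ∧ tgt (rfe e) = rfv (src e)) := by
  obtain ⟨⟨a, b⟩, c⟩ := e
  cases c
  · left
    simp [rfe, rfv, tgt, src]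
  · right
    simp [rfe, rfv, tgt, src]
    ring

theorem gridPoint_rfv (δ : ℝ) (v : P2) : gridPoint δ (rfv v) = cjh (gridPoint δ v) := by
  rw [cjh_apply]
  apply Complex.ext
  · simp [gridPoint, rfv]
  · simp [gridPoint, rfv]

theorem segment_cj (z w : ℂ) : segment ℝ (cjh z) (cjh w) = cjh '' segment ℝ z w := by
  have h := image_segment ℝ (Complex.conjCLE.toContinuousLinearMap.toLinearMap.toAffineMap) z w
  exact h.symm

theorem reg_rfe {δ : ℝ} (e : Edge) : REG δ (cjc γ) (rfe e) ↔ REG δ γ e := by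
  unfold REG
  have h1 : segment ℝ (gridPoint δ (src (rfe e))) (gridPoint δ (tgt (rfe e))) =
      cjh '' segment ℝ (gridPoint δ (src e)) (gridPoint δ (tgt e)) := by
    rw [← segment_cj]
    rcases rfe_ends e with ⟨h, h'⟩ | ⟨h, h'⟩
    · rw [h, h', gridPoint_rfv, gridPoint_rfv]
    · rw [h, h', gridPoint_rfv, gridPoint_rfv, segment_symm]
  rw [h1, cjc_ji, cjc_trace, ← image_union, image_subset_image_iff cjh.injective]

theorem pstep_rfe {Z : Edge → Prop} {u v : P2} :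
    PStep Z (rfv u) (rfv v) ↔ PStep (fun e => Z (rfe e)) u v := by
  have key : ∀ (Z : Edge → Prop) (u v : P2), PStep (fun e => Z (rfe e)) u v →
      PStep Z (rfv u) (rfv v) := by
    rintro Z u v ⟨e, he, h⟩
    refine ⟨rfe e, he, ?_⟩
    rcases rfe_ends e with ⟨h1, h2⟩ | ⟨h1, h2⟩ <;> rcases h with ⟨rfl, rfl⟩ | ⟨rfl, rfl⟩
    · exact Or.inl ⟨h1.symm, h2.symm⟩
    · exact Or.inr ⟨h2.symm, h1.symm⟩
    · exact Or.inr ⟨h2.symm, h1.symm⟩
    · exact Or.inl ⟨h1.symm, h2.symm⟩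
  refine ⟨fun h => ?_, key Z u v⟩
  have h2 := key (fun e => Z (rfe e)) (rfv u) (rfv v) (by simpa only [rfe_rfe] using h)
  rwa [rfv_rfv, rfv_rfv] at h2

theorem walk_rfe {Z : Edge → Prop} {u v : P2} :
    Relation.ReflTransGen (PStep Z) (rfv u) (rfv v) ↔
      Relation.ReflTransGen (PStep fun e => Z (rfe e)) u v := by
  constructor
  · intro h
    have key : ∀ w, Relation.ReflTransGen (PStep Z) (rfv u) w →
        Relation.ReflTransGen (PStep fun e => Z (rfe e)) u (rfv w) := by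
      intro w hw
      induction hw with
      | refl => rw [rfv_rfv]
      | @tail a b _ h2 ih =>
        refine ih.tail (pstep_rfe.1 ?_)
        rwa [rfv_rfv, rfv_rfv]
    have := key _ h
    rwa [rfv_rfv] at this
  · intro h
    induction h with
    | refl => exact .refl
    | tail _ h2 ih => exact ih.tail (pstep_rfe.2 h2)

theorem mem_XEv_cjc {δ : ℝ} {z : Cfz} : z ∈ XEv δ (cjc γ) ↔ (fun e => z (rfe e)) ∈ XEv δ γ := by
  have key : ∀ (γ : ℝ → ℂ) (z : Cfz), z ∈ XEv δ (cjc γ) → (fun e => z (rfe e)) ∈ XEv δ γ := by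
    rintro γ z ⟨u, v, h1, h2, h3⟩
    have hu : gridPoint δ (rfv u) ∈ γ '' Icc 0 (1 / 4) := by
      rw [cjc_image] at h1
      obtain ⟨w, hw, hwu⟩ := h1
      rwa [gridPoint_rfv, ← hwu, cjh_apply, cjh_apply, Complex.conj_conj]
    have hv : gridPoint δ (rfv v) ∈ γ '' Icc (1 / 2) (3 / 4) := by
      rw [cjc_image] at h2
      obtain ⟨w, hw, hwu⟩ := h2
      rwa [gridPoint_rfv, ← hwu, cjh_apply, cjh_apply, Complex.conj_conj]
    refine ⟨rfv u, rfv v, hu, hv, ?_⟩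
    have h4 : (fun e : Edge => z (rfe e) = true ∧ REG δ γ e) =
        fun e => (fun e' => z e' = true ∧ REG δ (cjc γ) e') (rfe e) := by
      funext e
      simp only [reg_rfe]
    rw [h4]
    refine (walk_rfe (Z := fun e' => z e' = true ∧ REG δ (cjc γ) e')).1 ?_
    rw [rfv_rfv, rfv_rfv]
    exact h3
  refine ⟨key γ z, fun h => ?_⟩
  have h5 := key (cjc γ) (fun e => z (rfe e)) (by rw [cjc_cjc]; exact h)
  simpa only [rfe_rfe] using h5

theorem nu_map_equiv (p : I) (e : Edge ≃ Edge) : (nu p).map (fun z k => z (e k)) = nu p := by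
  have h := PB_map_equiv e.symm (fun _ : Edge => p)
  simpa [nu] using h

/-- the crossing probability does not see the reflection -/
theorem arc_cjc (δ : ℝ) (γ : ℝ → ℂ) : arcCrossingProb δ (cjc γ) = arcCrossingProb δ γ := by
  rw [arc_eq, arc_eq]
  conv_rhs => rw [← nu_map_equiv hf rfe]
  rw [Measure.map_apply (measurable_pi_lambda _ fun _ => measurable_pi_apply _)
    (measurableSet_XEv δ γ)]
  congr 1
  ext z
  exact mem_XEv_cjc

theorem cross_cj (p q r s : ℂ) :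
    crossRatioAt ((starRingEnd ℂ) p) ((starRingEnd ℂ) q) ((starRingEnd ℂ) r) ((starRingEnd ℂ) s) =
      crossRatioAt p q r s := by
  unfold crossRatioAt
  rw [← map_sub, ← map_sub, ← map_sub, ← map_sub, ← map_mul, ← map_mul, ← map_div₀, Complex.conj_re]

theorem cross_cjc (φ : ℂ → ℂ) (a b c d : ℝ) :
    crossRatioAt (cjφ φ (cjc γ a)) (cjφ φ (cjc γ b)) (cjφ φ (cjc γ c)) (cjφ φ (cjc γ d)) =
      crossRatioAt (φ (γ a)) (φ (γ b)) (φ (γ c)) (φ (γ d)) := by
  simp only [cjφ, cjc, Complex.conj_conj]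
  exact cross_cj _ _ _ _

end Crest.Agent.R158.Spl331
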