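import Crest.Agent.R158.Sp7_896
import Crest.Agent.R158.SplC_331

/-! R158 (helper896) BLOCK SP, file 8: the sandwich polygons in a rotated frame and with the roles of
the arcs exchanged. -/

set_option autoImplicit false

open Set Topology Filter Metric
open Crest Crest.ProbabilityR Crest.ProbabilityR.Percolation
open Crest.Agent.R158.Jt785 Crest.Agent.R158.Spl331

namespace Crest.Agent.R158.Sp896

variable {γ : ℝ → ℂ} {φ : ℂ → ℂ} {w : ℂ}

/-- the curve multiplied by `w` -/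
def mc (w : ℂ) (γ : ℝ → ℂ) : ℝ → ℂ := fun t => w * γ t

/-- multiplication by a nonzero number -/
noncomputable def mh (hw : w ≠ 0) : ℂ ≃ₜ ℂ := Homeomorph.mulLeft₀ w hw

@[simp] theorem mh_apply (hw : w ≠ 0) (z : ℂ) : mh hw z = w * z := rfl

theorem mc_image (hw : w ≠ 0) (S : Set ℝ) : mc w γ '' S = mh hw '' (γ '' S) := by
  rw [image_image]
  rfl

theorem mc_jordan (hw : w ≠ 0) (h : IsJordanCurve γ) : IsJordanCurve (mc w γ) := by
  obtain ⟨hc, hi, h01⟩ := h
  refine ⟨(mh hw).continuous.comp_continuousOn hc, ?_, ?_⟩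
  · intro s hs t ht hst
    exact hi hs ht ((mh hw).injective hst)
  · simp only [mc, h01]

theorem mc_trace (hw : w ≠ 0) : curveTrace (mc w γ) = mh hw '' curveTrace γ := mc_image hw _

theorem bdd_mh (hw : w ≠ 0) (S : Set ℂ) : Bornology.IsBounded (mh hw '' S) ↔ Bornology.IsBounded S := by
  have hn : 0 < ‖w‖ := norm_pos_iff.2 hw
  rw [isBounded_iff_forall_norm_le, isBounded_iff_forall_norm_le]
  constructor
  · rintro ⟨C, hC⟩
    refine ⟨C / ‖w‖, fun z hz => ?_⟩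
    have := hC _ (mem_image_of_mem _ hz)
    rw [mh_apply, norm_mul] at this
    rw [le_div_iff₀ hn]
    linarith
  · rintro ⟨C, hC⟩
    refine ⟨‖w‖ * C, ?_⟩
    rintro _ ⟨z, hz, rfl⟩
    rw [mh_apply, norm_mul]
    exact mul_le_mul_of_nonneg_left (hC z hz) hn.le

theorem mc_ji (hw : w ≠ 0) : jordanInterior (mc w γ) = mh hw '' jordanInterior γ := by
  have key : ∀ z : ℂ, w * z ∈ jordanInterior (mc w γ) ↔ z ∈ jordanInterior γ := by
    intro z
    unfold jordanInterior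
    simp only [mem_ofPred_eq]
    rw [mc_trace hw]
    have h0 : w * z ∈ mh hw '' curveTrace γ ↔ z ∈ curveTrace γ := by
      rw [← mh_apply hw z, (mh hw).injective.mem_set_image]
    rw [h0]
    refine and_congr_right fun hz => ?_
    have h2 := (mh hw).image_connectedComponentIn (s := (curveTrace γ)ᶜ) (x := z) hz
    rw [mh_apply, image_compl_eq (mh hw).bijective] at h2
    rw [← h2, bdd_mh]
  ext z
  constructor
  · intro hz
    refine ⟨w⁻¹ * z, (key _).1 ?_, ?_⟩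
    · rwa [mul_inv_cancel_left₀ hw]
    · rw [mh_apply, mul_inv_cancel_left₀ hw]
  · rintro ⟨y, hy, rfl⟩
    exact (key y).2 hy

theorem mc_closure (hw : w ≠ 0) :
    closure (jordanInterior (mc w γ)) = mh hw '' closure (jordanInterior γ) := by
  rw [mc_ji, (mh hw).image_closure]

theorem unif_mc (hw : w ≠ 0) (h : Unif γ φ) : Unif (mc w γ) (fun z => φ (w⁻¹ * z)) := by
  refine ⟨mc_jordan hw h.jc, ?_, ?_, ?_⟩
  · rw [mc_closure hw]
    have hcont : ContinuousOn (fun z : ℂ => w⁻¹ * z) (mh hw '' closure (jordanInterior γ)) := by fun_prop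
    refine h.cont.comp hcont ?_
    rintro _ ⟨z, hz, rfl⟩
    show w⁻¹ * (w * z) ∈ _
    rwa [inv_mul_cancel_left₀ hw]
  · rw [mc_closure hw]
    rintro _ ⟨z, hz, rfl⟩ _ ⟨y, hy, rfl⟩ he
    simp only [mh_apply, inv_mul_cancel_left₀ hw] at he
    rw [h.inj hz hy he]
  · rw [mc_ji hw, image_image]
    simp only [mh_apply, inv_mul_cancel_left₀ hw]
    exact h.img

theorem arc_mc (hw : w ≠ 0) (a b : ℝ) : arc (mc w γ) a b = mh hw '' arc γ a b := mc_image hw _

/-- UP type in the frame multiplied by `w`: the arcs `A`, `C` are cut off -/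
theorem sp_up (h : Unif γ φ) (hw : w ≠ 0) {ε s0 : ℝ} (hε : 0 < ε) (hs0 : 0 < s0) :
    ∃ (s : ℝ) (F : Set V) (L : ℕ) (v : ℕ → V) (mb mc' md : ℕ), s < s0 ∧
      (SPoly (arc (mc w γ) 0 (1/4)) (arc (mc w γ) (1/4) (1/2)) (arc (mc w γ) (1/2) (3/4))
          (arc (mc w γ) (3/4) 1) (jordanInterior (mc w γ)) ε s F L v mb mc' md ∨
       SPoly (arc (mc w γ) 0 (1/4)) (arc (mc w γ) (3/4) 1) (arc (mc w γ) (1/2) (3/4))
          (arc (mc w γ) (1/4) (1/2)) (jordanInterior (mc w γ)) ε s F L v mb mc' md) :=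
  sp_exists (unif_mc hw h) hε hs0

/-- LO type in the frame multiplied by `w`: the arcs `B`, `E` are cut off -/
theorem sp_lo (h : Unif γ φ) (hw : w ≠ 0) {ε s0 : ℝ} (hε : 0 < ε) (hs0 : 0 < s0) :
    ∃ (s : ℝ) (F : Set V) (L : ℕ) (v : ℕ → V) (mb mc' md : ℕ), s < s0 ∧
      (SPoly (arc (mc w γ) (1/4) (1/2)) (arc (mc w γ) (1/2) (3/4)) (arc (mc w γ) (3/4) 1)
          (arc (mc w γ) 0 (1/4)) (jordanInterior (mc w γ)) ε s F L v mb mc' md ∨
       SPoly (arc (mc w γ) (1/4) (1/2)) (arc (mc w γ) 0 (1/4)) (arc (mc w γ) (3/4) 1)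
          (arc (mc w γ) (1/2) (3/4)) (jordanInterior (mc w γ)) ε s F L v mb mc' md) := by
  have h1 := unif_mc hw h
  have h01 : mc w γ 0 = mc w γ 1 := h1.jc.2.2
  obtain ⟨s, F, L, v, mb, mc', md, hs, hor⟩ := sp_exists (sh_unif h1) hε hs0
  refine ⟨s, F, L, v, mb, mc', md, hs, ?_⟩
  have eA : arc (sh (mc w γ)) 0 (1/4) = arc (mc w γ) (1/4) (1/2) := sh_A
  have eB : arc (sh (mc w γ)) (1/4) (1/2) = arc (mc w γ) (1/2) (3/4) := sh_B
  have eC : arc (sh (mc w γ)) (1/2) (3/4) = arc (mc w γ) (3/4) 1 := sh_C h01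
  have eE : arc (sh (mc w γ)) (3/4) 1 = arc (mc w γ) 0 (1/4) := sh_E
  rw [eA, eB, eC, eE, sh_ji h01] at hor
  exact hor

end Crest.Agent.R158.Sp896
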