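import Crest.Agent.R158.Gp5_949
import Crest.Agent.R158.Mr1_679
import Crest.Agent.R158.SpD_331

/-!
# Row 158 (S0237), block SPL (helper949), file 1: discrete excursions

`pf d f` : position of the medial face `f` in the plane of the literal grid polygon of mesh `d`
`Loc` : the metric facts about a set `Φ` of faces near which the polygon only carries the parameters
of `TP` and `TQ`
`even_cross` : an open path of vertices from the outside near `P` to the outside near `Q` contains a
crossing of the closed region from `c '' TP` to `c '' TQ`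
`odd_block` : a dual path from the outside near `P` to the outside near `Q` blocks all crossings of
the region between the two other arcs
-/

set_option autoImplicit false

namespace Crest.Agent.R158.Spl949

open Set Filter Topology Crest.Agent.R161.Geo729 Crest.Agent.R161.Dual374
open Crest.Agent.R158.Gp949 Crest.Agent.R158.Mr679
open Crest.ProbabilityR.Percolation

noncomputable section

/-- position of a medial face -/
def pf (d : ℝ) (f : P2) : ℂ := ⟨d / 2 * (f.1 + f.2), d / 2 * (f.2 - f.1)⟩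

@[simp] theorem pf_re (d : ℝ) (f : P2) : (pf d f).re = d / 2 * (f.1 + f.2) := rfl
@[simp] theorem pf_im (d : ℝ) (f : P2) : (pf d f).im = d / 2 * (f.2 - f.1) := rfl

theorem pf_prim (d : ℝ) (v : P2) : pf d (prim v) = gridPoint d v := by
  apply Complex.ext
  · simp only [pf, prim, gridPoint]; push_cast; ring
  · simp only [pf, prim, gridPoint]; push_cast; ring

theorem pf_dufc (d : ℝ) (v : P2) : pf d (dufc v) = d * ctr v := by
  apply Complex.ext
  · simp only [pf, dufc, Complex.mul_re, Complex.ofReal_re, Complex.ofReal_im, ctr_re, ctr_im]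
    push_cast; ring
  · simp only [pf, dufc, Complex.mul_im, Complex.ofReal_re, Complex.ofReal_im, ctr_re, ctr_im]
    push_cast; ring

theorem norm_le_of_abs {z : ℂ} {a b : ℝ} (h1 : |z.re| ≤ a) (h2 : |z.im| ≤ b) : ‖z‖ ≤ a + b :=
  (Complex.norm_le_abs_re_add_abs_im z).trans (add_le_add h1 h2)

/-- steps have length at most `2 d` (exactly `d`) -/
theorem pf_step {d : ℝ} (hd : 0 < d) {f g : P2} (h : Dg f g) : ‖pf d f - pf d g‖ ≤ 2 * d := by
  have h1 : ((g.1 : ℝ) = f.1 + 1 ∨ (f.1 : ℝ) = g.1 + 1) ∧ ((g.2 : ℝ) = f.2 + 1 ∨ (f.2 : ℝ) = g.2 + 1) := by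
    obtain ⟨ha, hb⟩ := h
    constructor
    · rcases ha with h | h
      · left; exact_mod_cast h
      · right; exact_mod_cast h
    · rcases hb with h | h
      · left; exact_mod_cast h
      · right; exact_mod_cast h
  have h2 : |(pf d f - pf d g).re| ≤ d ∧ |(pf d f - pf d g).im| ≤ d := by
    simp only [Complex.sub_re, Complex.sub_im, pf_re, pf_im, abs_le]
    rcases h1 with ⟨h1 | h1, h3 | h3⟩ <;> rw [h1, h3] <;>
      refine ⟨⟨?_, ?_⟩, ?_, ?_⟩ <;> nlinarith
  have := norm_le_of_abs h2.1 h2.2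
  linarith

/-- metric facts about a set `Φ` of faces -/
structure Loc (d : ℝ) (c : ℝ → ℂ) (TP TQ : Set ℝ) (Φ : Set P2) (NP NQ : P2 → Prop) : Prop where
  tr : ∀ f ∈ Φ, ∀ t ∈ Icc (0:ℝ) 1, ‖pf d f - c t‖ ≤ 2 * d → (t ∈ TP ∧ NP f) ∨ (t ∈ TQ ∧ NQ f)
  out : ∀ f ∈ Φ, pf d f ∉ jordanInterior c → NP f ∨ NQ f
  sep : ∀ f g, f = g ∨ Dg f g → NP f → NQ g → False

variable {d : ℝ} {c : ℝ → ℂ} {TP TQ : Set ℝ} {Φ : Set P2} {NP NQ : P2 → Prop}

/-- region edges -/
def RG (d : ℝ) (c : ℝ → ℂ) (e : Edge) : Prop := (regionGraph d c).Adj (src e) (tgt e)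

theorem edge_eq {e e' : Edge} (h : (src e = src e' ∧ tgt e = tgt e') ∨
    (src e = tgt e' ∧ tgt e = src e')) : e = e' := by
  obtain ⟨⟨a, b⟩, x⟩ := e
  obtain ⟨⟨a', b'⟩, x'⟩ := e'
  cases x <;> cases x' <;>
    simp only [src, tgt, Prod.mk.injEq, if_true, if_false, Bool.false_eq_true, and_true, and_false,
      reduceCtorEq] at h ⊢ <;> omega

section lit

variable (hd : 0 < d) (hg : IsGridPolygon d c) (W : GWalk (uc d c))
include hd hg

theorem rg_iff (e : Edge) : RG d c e ↔ (W.par (fA e) = 1 ∨ W.par (fB e) = 1) := by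
  unfold RG
  rw [region_adj_iff hd hg W]
  constructor
  · rintro ⟨e', h1, h2⟩
    have : e = e' := by
      rcases h1 with h1 | h1
      · exact edge_eq (Or.inl h1)
      · exact edge_eq (Or.inr h1)
    rw [this]; exact h2
  · intro h
    exact ⟨e, Or.inl ⟨rfl, rfl⟩, h⟩

/-- a strictly inner vertex: the four cells are inside -/
theorem inner_corner {v : P2} (hv : gridPoint d v ∈ jordanInterior c) {q : P2}
    (hq : IsCorner v q) : W.par q = 1 := by
  rw [ji_iff hd hg W, gridPoint_div hd] at hv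
  have h1 : lp v ∈ cC q := by
    rcases hq with h | h | h | h <;> rw [h] <;> simp [cC, Gp949.lp]
  rw [W.par_closed (gc_uc hd hg) hv.1 h1]
  exact hv.2

theorem not_inner {e : Edge} (he : ¬ RG d c e) {w : P2} (hw : Inc e w) :
    gridPoint d w ∉ jordanInterior c := by
  obtain ⟨W⟩ := (gc_uc hd hg).exists_walk
  intro hv
  exact he ((rg_iff hd hg W e).2 (Or.inl (inner_corner hd hg W hv (corner_of_inc hw).1)))

theorem in_closed {e : Edge} (he : RG d c e) {w : P2} (hw : Inc e w) :
    gridPoint d w ∈ jordanInterior c ∪ curveTrace c := by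
  obtain ⟨W⟩ := (gc_uc hd hg).exists_walk
  rw [gridPoint_mem_iff hd hg W]
  rcases (rg_iff hd hg W e).1 he with h | h
  · exact ⟨_, (corner_of_inc hw).1, h⟩
  · exact ⟨_, (corner_of_inc hw).2, h⟩

end lit

theorem dg_of_pstep {Z : Edge → Prop} {u v : P2} (h : PStep Z u v) : Dg (prim u) (prim v) := by
  obtain ⟨e, -, ⟨rfl, rfl⟩ | ⟨rfl, rfl⟩⟩ := h
  · exact dg_prim e
  · exact (dg_prim e).symm

/-- **Excursion lemma for vertices.** -/
theorem even_cross (hd : 0 < d) (hg : IsGridPolygon d c) (hL : Loc d c TP TQ Φ NP NQ)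
    {Z : Edge → Prop} (hZ : ∀ e, Z e → prim (src e) ∈ Φ ∧ prim (tgt e) ∈ Φ) {u0 u1 : P2}
    (hp : Relation.ReflTransGen (PStep Z) u0 u1)
    (h0 : NP (prim u0)) (h0' : gridPoint d u0 ∉ jordanInterior c)
    (h1 : NQ (prim u1)) (h1' : gridPoint d u1 ∉ jordanInterior c ∪ curveTrace c) :
    ∃ a b : P2, gridPoint d a ∈ c '' TP ∧ gridPoint d b ∈ c '' TQ ∧
      Relation.ReflTransGen (PStep fun e => Z e ∧ RG d c e) a b := by
  by_contra hcon
  push Not at hcon
  have hclosed : ∀ a b : P2, gridPoint d a ∈ c '' TP → TP ⊆ Icc 0 1 →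
      Relation.ReflTransGen (PStep fun e => Z e ∧ RG d c e) a b →
      gridPoint d b ∈ jordanInterior c ∪ curveTrace c := by
    intro a b ha hT hab
    induction hab with
    | refl =>
      obtain ⟨t, ht, h⟩ := ha
      exact Or.inr ⟨t, hT ht, h⟩
    | tail _ h2 _ =>
      obtain ⟨e, he, ⟨_, rfl⟩ | ⟨_, rfl⟩⟩ := h2
      · exact in_closed hd hg he.2 (inc_tgt e)
      · exact in_closed hd hg he.2 (inc_src e)
  -- restrict the parameters
  have key : ∀ u, Relation.ReflTransGen (PStep Z) u0 u →
      (NP (prim u) ∧ gridPoint d u ∉ jordanInterior c) ∨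
      ∃ a, (∃ t ∈ TP ∩ Icc 0 1, c t = gridPoint d a) ∧
        Relation.ReflTransGen (PStep fun e => Z e ∧ RG d c e) a u := by
    intro u hu
    induction hu with
    | refl => exact Or.inl ⟨h0, h0'⟩
    | @tail u u' hu1 hs ih =>
      have hdg := dg_of_pstep hs
      obtain ⟨e, he, hue⟩ := hs
      have hincu : Inc e u := by
        rcases hue with ⟨h, _⟩ | ⟨h, _⟩
        · exact Or.inl h
        · exact Or.inr h
      have hincu' : Inc e u' := by
        rcases hue with ⟨_, h⟩ | ⟨_, h⟩
        · exact Or.inr h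
        · exact Or.inl h
      have hΦ : prim u ∈ Φ ∧ prim u' ∈ Φ := by
        have := hZ e he
        rcases hue with ⟨h, h'⟩ | ⟨h, h'⟩
        · rw [h, h']; exact this
        · rw [h, h']; exact this.symm
      -- trace vertices
      have htrace : ∀ w, prim w ∈ Φ → ∀ t ∈ Icc (0:ℝ) 1, c t = gridPoint d w →
          (t ∈ TP ∧ NP (prim w)) ∨ (t ∈ TQ ∧ NQ (prim w)) := by
        intro w hw t ht htw
        refine hL.tr _ hw t ht ?_
        rw [pf_prim, htw, sub_self, norm_zero]
        positivity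
      by_cases hR : RG d c e
      · have hstep : PStep (fun e => Z e ∧ RG d c e) u u' := ⟨e, ⟨he, hR⟩, hue⟩
        rcases ih with ⟨hN, hni⟩ | ⟨a, ha, hau⟩
        · right
          rcases in_closed hd hg hR hincu with h | ⟨t, ht, htu⟩
          · exact absurd h hni
          · rcases htrace u hΦ.1 t ht htu with h | h
            · exact ⟨u, ⟨t, ⟨h.1, ht⟩, htu⟩, .single hstep⟩
            · exact (hL.sep _ _ (Or.inl rfl) hN h.2).elim
        · exact Or.inr ⟨a, ha, hau.tail hstep⟩
      · have hni := not_inner hd hg hR hincu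
        have hni' := not_inner hd hg hR hincu'
        have hN' := hL.out _ hΦ.2 (by rw [pf_prim]; exact hni')
        have hfin : NP (prim u) → NP (prim u') := by
          intro hN
          rcases hN' with h | h
          · exact h
          · exact (hL.sep _ _ (Or.inr hdg) hN h).elim
        left
        refine ⟨?_, hni'⟩
        rcases ih with ⟨hN, -⟩ | ⟨a, ⟨t0, ht0, hta⟩, hau⟩
        · exact hfin hN
        · have hcl : gridPoint d u ∈ jordanInterior c ∪ curveTrace c := by
            rcases hau.cases_tail with h | ⟨b, -, e', he', hbe⟩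
            · rw [h, ← hta]
              exact Or.inr ⟨t0, ht0.2, rfl⟩
            · refine in_closed hd hg he'.2 ?_
              rcases hbe with ⟨_, h⟩ | ⟨_, h⟩
              · exact Or.inr h
              · exact Or.inl h
          rcases hcl with h | ⟨t, ht, htu⟩
          · exact absurd h hni
          · rcases htrace u hΦ.1 t ht htu with h | h
            · exact hfin h.2
            · exact (hcon a u ⟨t0, ht0.1, hta⟩ ⟨t, h.1, htu⟩ hau).elim
  rcases key u1 hp with ⟨h, -⟩ | ⟨a, ⟨t0, ht0, hta⟩, hau⟩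
  · exact hL.sep _ _ (Or.inl rfl) h h1
  · apply h1'
    rcases hau.cases_tail with h | ⟨b, -, e', he', hbe⟩
    · rw [h, ← hta]
      exact Or.inr ⟨t0, ht0.2, rfl⟩
    · refine in_closed hd hg he'.2 ?_
      rcases hbe with ⟨_, h⟩ | ⟨_, h⟩
      · exact Or.inr h
      · exact Or.inl h

end

end Crest.Agent.R158.Spl949
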