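import Crest.Agent.R158.Spl1_949

/-!
# Row 158 (S0237), block SPL (helper949), file 2: dual excursions

`odd_block` : a dual path through edges of `Z'` from the outside near the arc `[1/4,1/2]` to the
outside near the arc `[3/4,1]` blocks the crossings through `Z` between the two other arcs.
-/

set_option autoImplicit false

namespace Crest.Agent.R158.Spl949

open Set Filter Topology Crest.Agent.R161.Geo729 Crest.Agent.R161.Dual374
open Crest.Agent.R158.Gp949 Crest.Agent.R158.Mr679
open Crest.ProbabilityR.Percolation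

noncomputable section

open scoped Classical

theorem lc_rc (e : Edge) :
    (SpD331.lc (src e) (tgt e) = fA e ∧ SpD331.rc (src e) (tgt e) = fB e) ∨
    (SpD331.lc (src e) (tgt e) = fB e ∧ SpD331.rc (src e) (tgt e) = fA e) := by
  obtain ⟨⟨a, b⟩, x⟩ := e
  cases x
  · left
    constructor
    · simp only [SpD331.lc, src, tgt, fA, Prod.mk.injEq, if_false, Bool.false_eq_true]; omega
    · simp only [SpD331.rc, src, tgt, fB, Prod.mk.injEq, if_false, Bool.false_eq_true]; omega
  · right
    constructor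
    · simp only [SpD331.lc, src, tgt, fB, Prod.mk.injEq, if_true]; omega
    · simp only [SpD331.rc, src, tgt, fA, Prod.mk.injEq, if_true]; omega

theorem adj_src (e : Edge) : SpD331.Adj (src e) (tgt e) := by
  obtain ⟨⟨a, b⟩, x⟩ := e
  cases x
  · exact Or.inl ⟨rfl, Or.inl rfl⟩
  · exact Or.inr ⟨rfl, Or.inl rfl⟩

theorem src_ne (e : Edge) : src e ≠ tgt e := by
  obtain ⟨⟨a, b⟩, x⟩ := e
  cases x <;> simp [src, tgt]

/-- darts of a path -/
theorem exists_darts {Z : Edge → Prop} {a b : P2} (h : Relation.ReflTransGen (PStep Z) a b) :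
    ∃ l : List (P2 × P2), (∀ p ∈ l, ∃ e, Z e ∧ (p = (src e, tgt e) ∨ p = (tgt e, src e))) ∧
      ∀ k : P2 → ℤ, (l.map fun p => k p.2 - k p.1).sum = k b - k a := by
  induction h with
  | refl => exact ⟨[], by simp, by simp⟩
  | @tail u v _ h2 ih =>
    obtain ⟨l, h3, h4⟩ := ih
    obtain ⟨e, he, h5⟩ := h2
    refine ⟨(u, v) :: l, ?_, ?_⟩
    · intro p hp
      rcases List.mem_cons.1 hp with rfl | hp
      · refine ⟨e, he, ?_⟩
        rcases h5 with ⟨rfl, rfl⟩ | ⟨rfl, rfl⟩
        · exact Or.inl rfl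
        · exact Or.inr rfl
      · exact h3 p hp
    · intro k
      rw [List.map_cons, List.sum_cons, h4]
      ring

/-- `e` is not used by the list -/
def Off (l : List (P2 × P2)) (e : Edge) : Prop := (src e, tgt e) ∉ l ∧ (tgt e, src e) ∉ l

theorem pot_eq {l : List (P2 × P2)} (hl : ∀ p ∈ l, SpD331.Adj p.1 p.2) (hc : SpD331.Closed l)
    {e : Edge} (he : Off l e) : SpD331.W l (fA e) = SpD331.W l (fB e) := by
  have hj := SpD331.jump hl hc (adj_src e)
  rw [List.count_eq_zero.2 he.1, List.count_eq_zero.2 he.2] at hj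
  rcases lc_rc e with ⟨h1, h2⟩ | ⟨h1, h2⟩ <;> rw [h1, h2] at hj <;> push_cast at hj <;> linarith

theorem pot_ne {l : List (P2 × P2)} (hl : ∀ p ∈ l, SpD331.Adj p.1 p.2) (hc : SpD331.Closed l)
    {e : Edge} (he : (l.count (src e, tgt e) : ℤ) ≠ l.count (tgt e, src e)) :
    SpD331.W l (fA e) ≠ SpD331.W l (fB e) := by
  have hj := SpD331.jump hl hc (adj_src e)
  intro h
  rcases lc_rc e with ⟨h1, h2⟩ | ⟨h1, h2⟩ <;> rw [h1, h2, h, sub_self] at hj <;>
    exact he (by linarith)

theorem off_path {Z : Edge → Prop} {l : List (P2 × P2)}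
    (h : ∀ p ∈ l, ∃ e, Z e ∧ (p = (src e, tgt e) ∨ p = (tgt e, src e))) {e : Edge} (he : ¬ Z e) :
    Off l e := by
  constructor
  · intro hm
    obtain ⟨e', h1, h2⟩ := h _ hm
    have : e = e' := by
      rcases h2 with h2 | h2
      · rw [Prod.mk.injEq] at h2; exact edge_eq (Or.inl h2)
      · rw [Prod.mk.injEq] at h2; exact edge_eq (Or.inr h2)
    exact he (this ▸ h1)
  · intro hm
    obtain ⟨e', h1, h2⟩ := h _ hm
    have : e = e' := by
      rcases h2 with h2 | h2
      · rw [Prod.mk.injEq] at h2; exact edge_eq (Or.inr ⟨h2.2, h2.1⟩)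
      · rw [Prod.mk.injEq] at h2; exact edge_eq (Or.inl ⟨h2.2, h2.1⟩)
    exact he (this ▸ h1)

variable {d : ℝ} {c : ℝ → ℂ} {Φ : Set P2} {NP NQ : P2 → Prop}

section lit

variable (hd : 0 < d) (hg : IsGridPolygon d c) (W : GWalk (uc d c))
include hd hg

/-- the centre of a cell is inside iff the parity of the cell is one -/
theorem centre_iff (q : P2) : pf d (dufc q) ∈ jordanInterior c ↔ W.par q = 1 := by
  have hd' : (d : ℂ) ≠ 0 := by exact_mod_cast hd.ne'
  rw [ji_iff hd hg W, pf_dufc, mul_div_cancel_left₀ _ hd']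
  have h1 : ctr q ∈ oC q := by
    simp only [oC, Set.mem_ofPred_eq, ctr_re, ctr_im]
    refine ⟨⟨?_, ?_⟩, ?_, ?_⟩ <;> linarith
  have h2 : ctr q ∉ range (uc d c) := by
    rw [W.range_eq (gc_uc hd hg)]
    intro h
    obtain ⟨i, hi⟩ := mem_iUnion.1 h
    exact oC_GrL h1 (cE_sub_GrL _ hi)
  constructor
  · rintro ⟨-, h⟩
    have : W.par (cell (ctr q)) = 1 := h
    rwa [cell_oC h1] at this
  · intro h
    refine ⟨h2, ?_⟩
    show W.par (cell (ctr q)) = 1
    rwa [cell_oC h1]

omit hg in
theorem near_edge {i : ℤ} {s : ℝ} (hs : s ∈ Icc (W.t i) (W.t (i + 1))) {q : P2}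
    (hq : q = fA (W.e i) ∨ q = fB (W.e i)) : ‖pf d (dufc q) - c (Int.fract s)‖ ≤ 2 * d := by
  have hd' : (d : ℂ) ≠ 0 := by exact_mod_cast hd.ne'
  have h1 : uc d c s ∈ cE (W.e i) := by rw [← W.surj]; exact ⟨s, hs, rfl⟩
  obtain ⟨z, hz⟩ : ∃ z, z = uc d c s := ⟨_, rfl⟩
  have h2 : c (Int.fract s) = d * z := by
    rw [hz, uc]
    field_simp
  rw [← hz] at h1
  rw [h2, pf_dufc, ← mul_sub, norm_mul, Complex.norm_real, Real.norm_of_nonneg hd.le]
  have h3 : |(ctr q - z).re| ≤ 1 / 2 ∧ |(ctr q - z).im| ≤ 1 / 2 := by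
    generalize W.e i = e at h1 hq
    obtain ⟨⟨a, b⟩, x⟩ := e
    obtain ⟨hl, h4, h5⟩ := h1
    simp only [Complex.sub_re, Complex.sub_im, ctr_re, ctr_im, abs_le]
    cases x
    · rw [mem_line_h] at hl
      rw [co_h] at h4 h5
      simp only at hl h4 h5
      rcases hq with rfl | rfl
      · simp only [fA_mk]
        refine ⟨⟨?_, ?_⟩, ?_, ?_⟩ <;> linarith
      · simp only [fB_h]
        push_cast
        refine ⟨⟨?_, ?_⟩, ?_, ?_⟩ <;> linarith
    · rw [mem_line_v] at hl
      rw [co_v] at h4 h5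
      simp only at hl h4 h5
      rcases hq with rfl | rfl
      · simp only [fA_mk]
        refine ⟨⟨?_, ?_⟩, ?_, ?_⟩ <;> linarith
      · simp only [fB_v]
        push_cast
        refine ⟨⟨?_, ?_⟩, ?_, ?_⟩ <;> linarith
  have h6 := norm_le_of_abs h3.1 h3.2
  nlinarith

omit hd hg in
/-- the ends of the edge of a dart -/
theorem dart_ends (i : ℤ) : (src (W.e i) = W.v i ∧ tgt (W.e i) = W.v (i + 1)) ∨
    (src (W.e i) = W.v (i + 1) ∧ tgt (W.e i) = W.v i) := by
  rcases W.ends i with ⟨h1, h2, -⟩ | ⟨h1, h2, -⟩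
  · exact Or.inl ⟨h1.symm, h2.symm⟩
  · exact Or.inr ⟨h2.symm, h1.symm⟩

omit hd hg in
theorem dart_edge {i : ℤ} {e : Edge} (h : (W.v i, W.v (i + 1)) = (src e, tgt e) ∨
    (W.v i, W.v (i + 1)) = (tgt e, src e)) : W.e i = e := by
  have h' : (W.v i = src e ∧ W.v (i + 1) = tgt e) ∨ (W.v i = tgt e ∧ W.v (i + 1) = src e) := by
    rcases h with h | h
    · exact Or.inl ⟨congrArg Prod.fst h, congrArg Prod.snd h⟩
    · exact Or.inr ⟨congrArg Prod.fst h, congrArg Prod.snd h⟩
  apply edge_eq
  rcases dart_ends W i with ⟨h1, h2⟩ | ⟨h1, h2⟩ <;> rcases h' with ⟨h3, h4⟩ | ⟨h3, h4⟩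
  · exact Or.inl ⟨h1.trans h3, h2.trans h4⟩
  · exact Or.inr ⟨h1.trans h3, h2.trans h4⟩
  · exact Or.inr ⟨h1.trans h4, h2.trans h3⟩
  · exact Or.inl ⟨h1.trans h4, h2.trans h3⟩

end lit

/-- **Dual excursions block.** -/
theorem odd_block (hd : 0 < d) (hg : IsGridPolygon d c)
    (hL : Loc d c (Icc (1 / 4) (1 / 2)) (Icc (3 / 4) 1) Φ NP NQ) {Z Z' : Edge → Prop}
    (hZZ : ∀ e, Z' e → ¬ Z e) (hΦ : ∀ e, Z' e → dufc (fA e) ∈ Φ ∧ dufc (fB e) ∈ Φ) {c0 c1 : P2}
    (hp : Relation.ReflTransGen (DStep Z') c0 c1)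
    (h0 : NP (dufc c0)) (h0' : pf d (dufc c0) ∉ jordanInterior c)
    (h1 : NQ (dufc c1)) (h1' : pf d (dufc c1) ∉ jordanInterior c) {a b : P2}
    (ha : gridPoint d a ∈ c '' Icc 0 (1 / 4)) (hb : gridPoint d b ∈ c '' Icc (1 / 2) (3 / 4))
    (hab : Relation.ReflTransGen (PStep fun e => Z e ∧ RG d c e) a b) : False := by
  obtain ⟨W⟩ := (gc_uc hd hg).exists_walk
  have hgc := gc_uc hd hg
  obtain ⟨ta, hta, hta'⟩ := ha
  obtain ⟨tb, htb, htb'⟩ := hb
  obtain ⟨iu, hiu, hiu'⟩ := gridPoint_param hd hg W (s := ta)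
    ⟨hta.1, by linarith [hta.2]⟩ hta'
  obtain ⟨iv, hiv, hiv'⟩ := gridPoint_param hd hg W (s := tb)
    ⟨by linarith [htb.1], by linarith [htb.2]⟩ htb'
  have hlt : iu < iv := by
    rw [← W.mono.lt_iff_lt, hiu', hiv']
    linarith [hta.2, htb.1]
  have htop : W.t (iu + W.L) = ta + 1 := by rw [W.tper, hiu']
  have hLv : iv < iu + W.L := by
    rw [← W.mono.lt_iff_lt, hiv', htop]
    linarith [hta.1, htb.2]
  obtain ⟨n, hn⟩ : ∃ n : ℕ, (n : ℤ) = iu + W.L - iv :=
    ⟨(iu + W.L - iv).toNat, by rw [Int.toNat_of_nonneg (by omega)]⟩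
  have hnL : n < W.L := by omega
  obtain ⟨l1, hl1, hl1'⟩ := exists_darts hab
  obtain ⟨x, hx⟩ : ∃ x : ℕ → P2, ∀ k, x k = W.v (iv + k) := ⟨_, fun _ => rfl⟩
  have hxs : ∀ k, x (k + 1) = W.v (iv + k + 1) := by
    intro k; rw [hx]; push_cast; rw [add_assoc]
  obtain ⟨l, hl⟩ : ∃ l, l = l1 ++ SpD331.darts x n := ⟨_, rfl⟩
  -- the list is a closed list of unit darts
  have hadj : ∀ p ∈ l, SpD331.Adj p.1 p.2 := by
    intro p hpl
    rw [hl, List.mem_append] at hpl
    rcases hpl with hpl | hpl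
    · obtain ⟨e, -, h | h⟩ := hl1 p hpl
      · rw [h]; exact adj_src e
      · rw [h]; exact (adj_src e).symm
    · obtain ⟨k, -, rfl⟩ := SpD331.mem_darts.1 hpl
      rw [hx, hxs]
      rcases dart_ends W (iv + k) with ⟨h3, h4⟩ | ⟨h3, h4⟩
      · rw [← h3, ← h4]; exact adj_src _
      · rw [← h3, ← h4]; exact (adj_src _).symm
  have hclosed : SpD331.Closed l := by
    intro k
    rw [hl, List.map_append, List.sum_append, hl1', SpD331.darts_sum, hx, hx, hn]
    have e1 : iv + (iu + (W.L : ℤ) - iv) = iu + 1 * W.L := by ring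
    have e2 : iv + ((0 : ℕ) : ℤ) = iv := by simp
    rw [e1, e2, W.vper hgc, hiu, hiv]
    ring
  have hinj : ∀ i < n, ∀ j < n, x i = x j → i = j := by
    intro i hi j hj hij
    rw [hx, hx] at hij
    obtain ⟨k, hk⟩ := W.vinj hgc hij
    have hk0 : k = 0 := by
      by_contra hne
      rcases lt_or_gt_of_ne hne with h | h
      · have : k * (W.L : ℤ) ≤ -1 * W.L := by
          apply mul_le_mul_of_nonneg_right (by omega); positivity
        omega
      · have : 1 * (W.L : ℤ) ≤ k * W.L := by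
          apply mul_le_mul_of_nonneg_right (by omega); positivity
        omega
    rw [hk0, zero_mul] at hk
    omega
  -- the potential
  obtain ⟨H, hH⟩ : ∃ H : P2 → ℤ, H = SpD331.W l := ⟨_, rfl⟩
  have offl : ∀ e, ¬ (Z e ∧ RG d c e) → (∀ k < n, W.e (iv + k) ≠ e) → H (fA e) = H (fB e) := by
    intro e he1 he2
    rw [hH]
    apply pot_eq hadj hclosed
    have h3 := off_path hl1 he1
    constructor
    · rw [hl, List.mem_append]
      rintro (h | h)
      · exact h3.1 h
      · obtain ⟨k, hk, h⟩ := SpD331.mem_darts.1 h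
        rw [hx, hxs] at h
        exact he2 k hk (dart_edge W (Or.inl h))
    · rw [hl, List.mem_append]
      rintro (h | h)
      · exact h3.2 h
      · obtain ⟨k, hk, h⟩ := SpD331.mem_darts.1 h
        rw [hx, hxs] at h
        exact he2 k hk (dart_edge W (Or.inr h))
  have hne : ∀ e, ¬ (Z e ∧ RG d c e) → (∃ k < n, W.e (iv + k) = e) → H (fA e) ≠ H (fB e) := by
    rintro e he1 ⟨k, hk, rfl⟩
    rw [hH]
    apply pot_ne hadj hclosed
    have h3 := off_path hl1 he1
    have hnd : (SpD331.darts x n).Nodup := SpD331.darts_nodup hinj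
    have hmem : (W.v (iv + k), W.v (iv + k + 1)) ∈ SpD331.darts x n :=
      SpD331.mem_darts.2 ⟨k, hk, by rw [hx, hxs]⟩
    have hnot : (W.v (iv + k + 1), W.v (iv + k)) ∉ SpD331.darts x n := by
      intro h
      obtain ⟨j, hj, h⟩ := SpD331.mem_darts.1 h
      rw [hx, hxs] at h
      have h4 : W.e (iv + j) = W.e (iv + k) := by
        apply dart_edge W
        rcases dart_ends W (iv + k) with ⟨h5, h6⟩ | ⟨h5, h6⟩
        · right; rw [h, h5, h6]
        · left; rw [h, h5, h6]
      obtain ⟨m, hm⟩ := W.einj hgc h4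
      have h7 : W.v (iv + j) = W.v (iv + k) := by rw [hm, W.vper hgc]
      have h8 := hinj j hj k hk (by rw [hx, hx]; exact h7)
      rw [h8, Prod.mk.injEq] at h
      have h9 := src_ne (W.e (iv + k))
      rcases dart_ends W (iv + k) with ⟨h5, h6⟩ | ⟨h5, h6⟩
      · rw [h5, h6] at h9
        exact h9 h.1
      · rw [h5, h6] at h9
        exact h9 h.1.symm
    rw [hl, List.count_append, List.count_append, List.count_eq_zero.2 h3.1,
      List.count_eq_zero.2 h3.2, zero_add, zero_add]
    rcases dart_ends W (iv + k) with ⟨h5, h6⟩ | ⟨h5, h6⟩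
    · rw [h5, h6, List.count_eq_one_of_mem hnd hmem, List.count_eq_zero.2 hnot]
      norm_num
    · rw [h5, h6, List.count_eq_one_of_mem hnd hmem, List.count_eq_zero.2 hnot]
      norm_num
  -- constant outside
  have hout : ∀ q q', W.par q = 0 → W.par q' = 0 → H q = H q' := by
    intro q q' hq hq'
    have hr : W.Reach q q' := (W.reach_iff hgc q q').2 (by rw [hq, hq'])
    have key : ∀ r, W.Reach q r → H q = H r ∧ W.par r = 0 := by
      intro r hr
      induction hr with
      | refl => exact ⟨rfl, hq⟩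
      | @tail r r' _ hs ih =>
        have hp' : W.par r' = 0 := by rw [← W.par_step hgc hs]; exact ih.2
        refine ⟨ih.1.trans ?_, hp'⟩
        obtain ⟨e, he, hrr⟩ := hs
        have hpar : W.par (fA e) = 0 ∧ W.par (fB e) = 0 := by
          rcases hrr with ⟨h3, h4⟩ | ⟨h3, h4⟩
          · rw [← h3, ← h4]; exact ⟨ih.2, hp'⟩
          · rw [← h3, ← h4]; exact ⟨hp', ih.2⟩
        have hnR : ¬ RG d c e := by
          rw [rg_iff hd hg W, hpar.1, hpar.2]
          decide
        have h5 := offl e (fun h => hnR h.2) (fun k _ hk => he ⟨_, hk⟩)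
        rcases hrr with ⟨h3, h4⟩ | ⟨h3, h4⟩
        · rw [h3, h4, h5]
        · rw [h3, h4, h5]
    exact (key q' hr).1
  -- `P` edges are off the arc, `Q` edges are on the arc
  have hPedge : ∀ i, (∀ s ∈ Icc (W.t i) (W.t (i + 1)), Int.fract s ∈ Icc (1 / 4 : ℝ) (1 / 2)) →
      ∀ k < n, W.e (iv + k) ≠ W.e i := by
    intro i hi k hk heq
    obtain ⟨m, hm⟩ := W.einj hgc heq
    have h3 := W.mid_mem hgc i
    have h4 := hi _ ⟨h3.1.le, h3.2.le⟩
    have e1 := W.tper_int i m
    have e2 := W.tper_int (i + 1) m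
    have e3 : i + 1 + m * W.L = iv + k + 1 := by rw [← add_right_comm, ← hm]
    rw [← hm] at e1
    rw [e3] at e2
    have h5 : tb ≤ W.t (iv + k) := by
      rw [← hiv']; exact W.mono.monotone (by omega)
    have h6 : W.t (iv + k + 1) ≤ ta + 1 := by
      rw [← htop]; exact W.mono.monotone (by omega)
    have h7 : Int.fract ((W.t i + W.t (i + 1)) / 2) =
        Int.fract ((W.t (iv + k) + W.t (iv + k + 1)) / 2) := by
      rw [e1, e2]
      have : (W.t i + m + (W.t (i + 1) + m)) / 2 = (W.t i + W.t (i + 1)) / 2 + m := by ring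
      rw [this, Int.fract_add_intCast]
    have h8 := W.mid_mem hgc (iv + k)
    rw [h7] at h4
    set y := (W.t (iv + k) + W.t (iv + k + 1)) / 2 with hy
    have h9 : 1 / 2 < y := by linarith [htb.1, h8.1]
    have h10 : y < 5 / 4 := by linarith [hta.2, h8.2]
    rcases lt_or_ge y 1 with h11 | h11
    · rw [Int.fract_eq_self.2 ⟨by linarith, h11⟩] at h4
      linarith [h4.2]
    · have h12 : Int.fract y = y - 1 := by
        have : Int.fract y = Int.fract (y - 1) := by
          rw [Int.fract_sub_one]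
        rw [this]
        exact Int.fract_eq_self.2 ⟨by linarith, by linarith⟩
      rw [h12] at h4
      linarith [h4.1]
  have hQedge : ∀ i, (∀ s ∈ Icc (W.t i) (W.t (i + 1)), Int.fract s ∈ Icc (3 / 4 : ℝ) 1) →
      ∃ k < n, W.e (iv + k) = W.e i := by
    intro i hi
    have h3 := W.mid_mem hgc i
    have h4 := hi _ ⟨h3.1.le, h3.2.le⟩
    set y := (W.t i + W.t (i + 1)) / 2 with hy
    set m := ⌊y⌋ with hm
    have e1 := W.tper_int i (-m)
    have e2 := W.tper_int (i + 1) (-m)
    have hfr : Int.fract y = y - m := rfl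
    rw [hfr] at h4
    push_cast at e1 e2
    have h5 : iv < i + 1 + -m * W.L := by
      rw [← W.mono.lt_iff_lt, hiv', e2]
      linarith [htb.2, h3.2, h4.1]
    have h6 : i + -m * W.L < iu + W.L := by
      rw [← W.mono.lt_iff_lt, htop, e1]
      have : 0 ≤ ta := hta.1
      linarith [h3.1, h4.2]
    refine ⟨(i + -m * W.L - iv).toNat, by omega, ?_⟩
    rw [Int.toNat_of_nonneg (by omega)]
    have : iv + (i + -m * (W.L : ℤ) - iv) = i + -m * W.L := by ring
    rw [this, W.eper hgc]
  -- the induction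
  have hpar01 : ∀ q, W.par q = 0 ∨ W.par q = 1 := by
    intro q
    generalize W.par q = p
    revert p; decide
  have hpar0 : W.par c0 = 0 := by
    rcases hpar01 c0 with h | h
    · exact h
    · exact absurd ((centre_iff hd hg W c0).2 h) h0'
  have hpar1 : W.par c1 = 0 := by
    rcases hpar01 c1 with h | h
    · exact h
    · exact absurd ((centre_iff hd hg W c1).2 h) h1'
  have key : ∀ q, Relation.ReflTransGen (DStep Z') c0 q →
      (W.par q = 0 ∧ NP (dufc q)) ∨ (W.par q = 1 ∧ H q = H c0) := by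
    intro q hq
    induction hq with
    | refl => exact Or.inl ⟨hpar0, h0⟩
    | @tail q q' _ hs ih =>
      obtain ⟨e, he, hqq⟩ := hs
      have hfq : (dufc q ∈ Φ ∧ dufc q' ∈ Φ) := by
        have := hΦ e he
        rcases hqq with ⟨h3, h4⟩ | ⟨h3, h4⟩
        · rw [h3, h4]; exact this
        · rw [h3, h4]; exact this.symm
      have hdg : Dg (dufc q) (dufc q') := by
        rcases hqq with ⟨h3, h4⟩ | ⟨h3, h4⟩
        · rw [h3, h4]; exact dg_dufc e
        · rw [h3, h4]; exact (dg_dufc e).symm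
      have hHe : (H (fA e) = H (fB e)) ↔ H q = H q' := by
        rcases hqq with ⟨h3, h4⟩ | ⟨h3, h4⟩
        · rw [h3, h4]
        · rw [h3, h4]; exact eq_comm
      have heZ : ¬ (Z e ∧ RG d c e) := fun h => hZZ e he h.1
      by_cases htr : W.tr e
      · have hne' := W.par_ne hgc htr
        have hpne : W.par q ≠ W.par q' := by
          rcases hqq with ⟨h3, h4⟩ | ⟨h3, h4⟩
          · rw [h3, h4]; exact hne'
          · rw [h3, h4]; exact hne'.symm
        obtain ⟨i, rfl⟩ := htr
        have hqe : q = fA (W.e i) ∨ q = fB (W.e i) := by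
          rcases hqq with ⟨h3, _⟩ | ⟨h3, _⟩
          · exact Or.inl h3
          · exact Or.inr h3
        have hqe' : q' = fA (W.e i) ∨ q' = fB (W.e i) := by
          rcases hqq with ⟨_, h3⟩ | ⟨_, h3⟩
          · exact Or.inr h3
          · exact Or.inl h3
        have htrq := fun s hs => hL.tr _ hfq.1 (Int.fract s)
          ⟨Int.fract_nonneg s, (Int.fract_lt_one s).le⟩ (near_edge hd W (s := s) hs hqe)
        have htrq' := fun s hs => hL.tr _ hfq.2 (Int.fract s)
          ⟨Int.fract_nonneg s, (Int.fract_lt_one s).le⟩ (near_edge hd W (s := s) hs hqe')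
        have hti : W.t i ∈ Icc (W.t i) (W.t (i + 1)) := ⟨le_rfl, (W.hlt i).le⟩
        rcases htrq _ hti with ⟨-, hN⟩ | ⟨-, hN⟩
        · -- an edge of `P`
          have hall : ∀ s ∈ Icc (W.t i) (W.t (i + 1)), Int.fract s ∈ Icc (1 / 4 : ℝ) (1 / 2) := by
            intro s hs
            rcases htrq s hs with h | h
            · exact h.1
            · exact (hL.sep _ _ (Or.inl rfl) hN h.2).elim
          have h5 := hHe.1 (offl _ heZ (hPedge i hall))
          rcases ih with ⟨h6, h7⟩ | ⟨h6, h7⟩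
          · right
            refine ⟨?_, ?_⟩
            · rcases hpar01 q' with h | h
              · exact absurd (h6.trans h.symm) hpne
              · exact h
            · rw [← h5]; exact hout q c0 h6 hpar0
          · left
            refine ⟨?_, ?_⟩
            · rcases hpar01 q' with h | h
              · exact h
              · exact absurd (h6.trans h.symm) hpne
            · rcases htrq' _ hti with h | h
              · exact h.2
              · exact (hL.sep _ _ (Or.inr hdg) hN h.2).elim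
        · -- an edge of `Q`
          have hall : ∀ s ∈ Icc (W.t i) (W.t (i + 1)), Int.fract s ∈ Icc (3 / 4 : ℝ) 1 := by
            intro s hs
            rcases htrq s hs with h | h
            · exact (hL.sep _ _ (Or.inl rfl) h.2 hN).elim
            · exact h.1
          have h5 := hne _ heZ (hQedge i hall)
          rcases ih with ⟨h6, h7⟩ | ⟨h6, h7⟩
          · exact (hL.sep _ _ (Or.inl rfl) h7 hN).elim
          · exfalso
            have h8 : W.par q' = 0 := by
              rcases hpar01 q' with h | h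
              · exact h
              · exact absurd (h6.trans h.symm) hpne
            exact h5 (hHe.2 (h7.trans (hout c0 q' hpar0 h8)))
      · have hpeq : W.par q = W.par q' := by
          refine W.par_step hgc ⟨e, htr, hqq⟩
        rcases ih with ⟨h6, h7⟩ | ⟨h6, h7⟩
        · left
          refine ⟨hpeq ▸ h6, ?_⟩
          have h8 : pf d (dufc q') ∉ jordanInterior c := by
            rw [centre_iff hd hg W, ← hpeq, h6]
            decide
          rcases hL.out _ hfq.2 h8 with h | h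
          · exact h
          · exact (hL.sep _ _ (Or.inr hdg) h7 h).elim
        · right
          refine ⟨hpeq ▸ h6, ?_⟩
          rw [← hHe.1 (offl e heZ fun k _ hk => htr ⟨_, hk⟩)]
          exact h7
  rcases key c1 hp with ⟨-, h⟩ | ⟨h, -⟩
  · exact hL.sep _ _ (Or.inl rfl) h h1
  · rw [hpar1] at h
    exact absurd h (by decide)

end

end Crest.Agent.R158.Spl949
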