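import Crest.Agent.R158.Spl1_949
import Crest.Agent.R158.Jt4_785

/-!
# Row 158 (S0237), block SPL (helper949), file 3: the metric part

`loc_ev` : if the faces of `Φ n` are close to a compact set `R` that misses the parameters `TM` and
leaves the interior only near `TP`, `TQ`, then eventually `Loc` holds
`ji_rot` : interiors of rotated curves
-/

set_option autoImplicit false

namespace Crest.Agent.R158.Spl949

open Set Filter Topology Metric Crest.Agent.R161.Geo729
open Crest.Agent.R158.Gp949 Crest.Agent.R158.Mr679 Crest.Agent.R158.Jt785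
open Crest.ProbabilityR.Percolation

noncomputable section

/-- closeness of a point to the part of the curve over `T` -/
def NT (γ : ℝ → ℂ) (T : Set ℝ) (r : ℝ) (z : ℂ) : Prop := ∃ t ∈ T, ‖z - γ t‖ < r

theorem sep_compact {K K' : Set ℂ} (hK : IsCompact K) (hK' : IsCompact K') (h : Disjoint K K') :
    ∃ η : ℝ, 0 < η ∧ ∀ z ∈ K, ∀ w ∈ K', η < ‖z - w‖ := by
  obtain ⟨r, hr, hr'⟩ := exists_pos_forall_lt_edist hK hK'.isClosed h
  refine ⟨r, by exact_mod_cast hr, fun z hz w hw => ?_⟩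
  have h1 := hr' z hz w hw
  rw [edist_dist, ← ENNReal.ofReal_coe_nnreal, ENNReal.ofReal_lt_ofReal_iff_of_nonneg r.coe_nonneg]
    at h1
  rwa [dist_eq_norm] at h1

section ev

variable {γ : ℝ → ℂ} {γs : ℕ → ℝ → ℂ} {δ : ℕ → ℝ} (hγ : IsJordanCurve γ)
  (hγs : ∀ n, IsJordanCurve (γs n)) (hu : TendstoUniformlyOn γs γ atTop (Icc 0 1))
  (hδ : ∀ n, 0 < δ n) (hδ0 : Tendsto δ atTop (𝓝 0))

include hγ hγs hu hδ hδ0

/-- **The metric facts hold eventually.** -/
theorem loc_ev {TP TQ TM : Set ℝ} (hM : IsClosed TM) (hM1 : TM ⊆ Icc 0 1)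
    (hcov : ∀ t ∈ Icc (0:ℝ) 1, t ∈ TP ∨ t ∈ TQ ∨ t ∈ TM) {e : ℝ} (he : 0 < e)
    (hsep : ∀ t ∈ TP, ∀ t' ∈ TQ, 5 * e ≤ ‖γ t - γ t'‖) {R : Set ℂ} (hR : IsCompact R)
    (hmiss : ∀ z ∈ R, ∀ t ∈ TM, z ≠ γ t)
    (hout : ∀ z ∈ R, z ∉ jordanInterior γ → NT γ TP e z ∨ NT γ TQ e z) {Φ : ℕ → Set P2}
    (happ : ∀ η : ℝ, 0 < η → ∀ᶠ n in atTop, ∀ f ∈ Φ n, ∃ z ∈ R, ‖pf (δ n) f - z‖ ≤ η) :
    ∀ᶠ n in atTop, Loc (δ n) (γs n) TP TQ (Φ n) (fun f => NT γ TP (2 * e) (pf (δ n) f))
      (fun f => NT γ TQ (2 * e) (pf (δ n) f)) := by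
  -- distance to the missed arcs
  have hMc : IsCompact (γ '' TM) :=
    (isCompact_Icc.of_isClosed_subset hM hM1).image_of_continuousOn (hγ.1.mono hM1)
  obtain ⟨η1, hη1, hη1'⟩ := sep_compact hR hMc (by
    rw [disjoint_left]
    rintro z hz ⟨t, ht, hzt⟩
    exact hmiss z hz t ht hzt.symm)
  -- the deep part
  set K1 : Set ℂ := R ∩ {z | ¬ (NT γ TP e z ∨ NT γ TQ e z)} with hK1
  have hK1c : IsClosed {z : ℂ | ¬ (NT γ TP e z ∨ NT γ TQ e z)} := by
    have : {z : ℂ | ¬ (NT γ TP e z ∨ NT γ TQ e z)}ᶜ = ⋃ t ∈ TP ∪ TQ, ball (γ t) e := by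
      ext z
      simp only [NT, mem_compl_iff, mem_ofPred_eq, not_not, mem_iUnion, mem_ball, dist_eq_norm,
        exists_prop, mem_union]
      constructor
      · rintro (⟨t, ht, h⟩ | ⟨t, ht, h⟩)
        · exact ⟨t, Or.inl ht, h⟩
        · exact ⟨t, Or.inr ht, h⟩
      · rintro ⟨t, ht | ht, h⟩
        · exact Or.inl ⟨t, ht, h⟩
        · exact Or.inr ⟨t, ht, h⟩
    rw [← isOpen_compl_iff, this]
    exact isOpen_biUnion fun t _ => isOpen_ball
  have hK1D : K1 ⊆ jordanInterior γ := by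
    intro z hz
    by_contra h
    exact hz.2 (hout z hz.1 h)
  obtain ⟨η2, hη2, hη2'⟩ := (hR.inter_right hK1c).exists_cthickening_subset_open
    (isOpen_ji hγ) hK1D
  have hin := eventually_inside hγ hγs hu (isClosed_cthickening (δ := η2) (E := K1)) hη2'
  set η := min (η1 / 4) (min η2 (e / 2)) with hη
  have hη0 : 0 < η := lt_min (by linarith) (lt_min hη2 (by linarith))
  have hηa : η ≤ η1 / 4 := min_le_left _ _
  have hηb : η ≤ η2 := (min_le_right _ _).trans (min_le_left _ _)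
  have hηc : η ≤ e / 2 := (min_le_right _ _).trans (min_le_right _ _)
  have hsm : ∀ᶠ n in atTop, δ n < η / 4 := (tendsto_order.1 hδ0).2 _ (by linarith)
  filter_upwards [hin, happ η hη0, eventually_close hu (show 0 < η / 2 by linarith), hsm]
    with n h1 h2 h3 h4
  refine ⟨?_, ?_, ?_⟩
  · intro f hf t ht hft
    obtain ⟨z, hz, hfz⟩ := h2 f hf
    have h5 := h3 t ht
    have h6 : ‖pf (δ n) f - γ t‖ < 2 * e := by
      have : pf (δ n) f - γ t = (pf (δ n) f - γs n t) + (γs n t - γ t) := by ring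
      rw [this]
      refine (norm_add_le _ _).trans_lt ?_
      linarith
    have h7 : t ∉ TM := by
      intro hm
      have h8 := hη1' z hz _ ⟨t, hm, rfl⟩
      have : z - γ t = -(pf (δ n) f - z) + (pf (δ n) f - γs n t) + (γs n t - γ t) := by ring
      rw [this] at h8
      have h9 := (norm_add_le (-(pf (δ n) f - z) + (pf (δ n) f - γs n t)) (γs n t - γ t)).trans
        (add_le_add (norm_add_le (-(pf (δ n) f - z)) (pf (δ n) f - γs n t)) le_rfl)
      rw [norm_neg] at h9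
      linarith
    rcases hcov t ht with h | h | h
    · exact Or.inl ⟨h, t, h, h6⟩
    · exact Or.inr ⟨h, t, h, h6⟩
    · exact absurd h h7
  · intro f hf hfi
    obtain ⟨z, hz, hfz⟩ := h2 f hf
    by_cases hzK : NT γ TP e z ∨ NT γ TQ e z
    · have key : ∀ T : Set ℝ, NT γ T e z → NT γ T (2 * e) (pf (δ n) f) := by
        rintro T ⟨t, ht, h⟩
        refine ⟨t, ht, ?_⟩
        have : pf (δ n) f - γ t = (pf (δ n) f - z) + (z - γ t) := by ring
        rw [this]
        refine (norm_add_le _ _).trans_lt ?_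
        linarith
      rcases hzK with h | h
      · exact Or.inl (key _ h)
      · exact Or.inr (key _ h)
    · exfalso
      apply hfi
      apply h1
      apply mem_cthickening_of_dist_le _ z _ _ (⟨hz, hzK⟩ : z ∈ K1)
      rw [dist_eq_norm]
      linarith
  · rintro f g hfg ⟨t, ht, h5⟩ ⟨t', ht', h6⟩
    have h7 : ‖pf (δ n) f - pf (δ n) g‖ ≤ 2 * δ n := by
      rcases hfg with rfl | hfg
      · rw [sub_self, norm_zero]
        have := hδ n
        linarith
      · exact pf_step (hδ n) hfg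
    have h8 := hsep t ht t' ht'
    have : γ t - γ t' = -(pf (δ n) f - γ t) + (pf (δ n) f - pf (δ n) g) + (pf (δ n) g - γ t') := by
      ring
    rw [this] at h8
    have h9 := (norm_add_le (-(pf (δ n) f - γ t) + (pf (δ n) f - pf (δ n) g)) (pf (δ n) g - γ t')).trans
        (add_le_add (norm_add_le (-(pf (δ n) f - γ t)) (pf (δ n) f - pf (δ n) g)) le_rfl)
    rw [norm_neg] at h9
    linarith

omit hδ hδ0 in
/-- **Starting and final faces are eventually outside the closed region.** -/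
theorem end_ev {TP : Set ℝ} {e : ℝ} (he : 0 < e) {R : Set ℂ} (hR : IsCompact R)
    (hRD : ∀ z ∈ R, z ∉ jordanInterior γ ∪ curveTrace γ) (hRn : ∀ z ∈ R, NT γ TP e z)
    {Φ : ℕ → Set P2}
    (happ : ∀ η : ℝ, 0 < η → ∀ᶠ n in atTop, ∀ f ∈ Φ n, ∃ z ∈ R, ‖pf (δ n) f - z‖ ≤ η) :
    ∀ᶠ n in atTop, ∀ f ∈ Φ n, NT γ TP (2 * e) (pf (δ n) f) ∧
      pf (δ n) f ∉ jordanInterior (γs n) ∪ curveTrace (γs n) := by
  have hcl : IsClosed (jordanInterior γ ∪ curveTrace γ) := by
    rw [← isOpen_compl_iff]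
    have : (jordanInterior γ ∪ curveTrace γ)ᶜ = ext γ := by
      ext z
      constructor
      · intro hz
        rcases cover hγ z with h | h | h
        · exact absurd (Or.inr h) hz
        · exact absurd (Or.inl h) hz
        · exact h
      · intro hz hh
        rcases hh with h | h
        · exact disjoint_left.1 (disj_ji_ext hγ) h hz
        · exact hz.1 h
    rw [this]
    exact isOpen_ext hγ
  obtain ⟨η1, hη1, hη1'⟩ : ∃ η : ℝ, 0 < η ∧ ∀ z ∈ R, ∀ w ∈ jordanInterior γ ∪ curveTrace γ,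
      η < ‖z - w‖ := by
    obtain ⟨r, hr, hr'⟩ := exists_pos_forall_lt_edist hR hcl (by
      rw [disjoint_left]
      exact hRD)
    refine ⟨r, by exact_mod_cast hr, fun z hz w hw => ?_⟩
    have h1 := hr' z hz w hw
    rw [edist_dist, ← ENNReal.ofReal_coe_nnreal,
      ENNReal.ofReal_lt_ofReal_iff_of_nonneg r.coe_nonneg] at h1
    rwa [dist_eq_norm] at h1
  set η := min (η1 / 2) e with hη
  have hη0 : 0 < η := lt_min (by linarith) he
  have hηa : η ≤ η1 / 2 := min_le_left _ _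
  have hηb : η ≤ e := min_le_right _ _
  filter_upwards [happ (η / 2) (by linarith), eventually_thick hγ hγs hu (show 0 < η1 / 2 by linarith)]
    with n h1 h2 f hf
  obtain ⟨z, hz, hfz⟩ := h1 f hf
  constructor
  · obtain ⟨t, ht, h⟩ := hRn z hz
    refine ⟨t, ht, ?_⟩
    have : pf (δ n) f - γ t = (pf (δ n) f - z) + (z - γ t) := by ring
    rw [this]
    refine (norm_add_le _ _).trans_lt ?_
    linarith
  · intro h3
    have h4 := h2 h3
    rw [mem_thickening_iff] at h4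
    obtain ⟨w, hw, h5⟩ := h4
    rw [dist_eq_norm] at h5
    have h6 := hη1' z hz w hw
    have : z - w = -(pf (δ n) f - z) + (pf (δ n) f - w) := by ring
    rw [this] at h6
    have h7 := norm_add_le (-(pf (δ n) f - z)) (pf (δ n) f - w)
    rw [norm_neg] at h7
    linarith

end ev

/-! ### rotations -/

theorem ji_rot {γ : ℝ → ℂ} {w : ℂ} (hw : w ≠ 0) (z : ℂ) :
    w * z ∈ jordanInterior (fun t => w * γ t) ↔ z ∈ jordanInterior γ := by
  obtain ⟨H, hH⟩ : ∃ H : ℂ ≃ₜ ℂ, ∀ z, H z = w * z := ⟨Homeomorph.mulLeft₀ w hw, fun _ => rfl⟩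
  have h1 : curveTrace (fun t => w * γ t) = H '' curveTrace γ := by
    unfold curveTrace
    rw [image_image]
    exact image_congr fun t _ => (hH _).symm
  have h2 : (curveTrace fun t => w * γ t)ᶜ = H '' (curveTrace γ)ᶜ := by
    rw [h1, H.image_compl]
  have hw' : 0 < ‖w‖ := norm_pos_iff.2 hw
  simp only [jordanInterior, mem_ofPred_eq]
  have h3 : w * z ∈ curveTrace (fun t => w * γ t) ↔ z ∈ curveTrace γ := by
    rw [h1, ← hH, H.injective.mem_set_image]
  rw [h3]
  refine and_congr_right fun hz => ?_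
  have h4 := H.image_connectedComponentIn (s := (curveTrace γ)ᶜ) (x := z) hz
  rw [h2, ← hH, ← h4]
  constructor
  · intro hb
    obtain ⟨C, hC⟩ := hb.exists_norm_le
    refine isBounded_iff_forall_norm_le.2 ⟨C / ‖w‖, fun x hx => ?_⟩
    have h5 := hC _ (mem_image_of_mem _ hx)
    rw [hH, norm_mul] at h5
    rw [le_div_iff₀ hw']
    linarith
  · intro hb
    obtain ⟨C, hC⟩ := hb.exists_norm_le
    refine isBounded_iff_forall_norm_le.2 ⟨‖w‖ * C, ?_⟩
    rintro _ ⟨x, hx, rfl⟩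
    rw [hH, norm_mul]
    exact mul_le_mul_of_nonneg_left (hC x hx) hw'.le

theorem ji_rot_eq {γ : ℝ → ℂ} {w : ℂ} (hw : w ≠ 0) :
    jordanInterior (fun t => w * γ t) = (fun z => w * z) '' jordanInterior γ := by
  ext z
  constructor
  · intro hz
    have h1 : w * (z / w) = z := by field_simp
    refine ⟨z / w, ?_, h1⟩
    rw [← ji_rot hw, h1]
    exact hz
  · rintro ⟨x, hx, rfl⟩
    exact (ji_rot hw x).2 hx

theorem closure_ji_rot {γ : ℝ → ℂ} {w : ℂ} (hw : w ≠ 0) (z : ℂ) :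
    w * z ∈ closure (jordanInterior (fun t => w * γ t)) ↔ z ∈ closure (jordanInterior γ) := by
  obtain ⟨H, hH⟩ : ∃ H : ℂ ≃ₜ ℂ, ∀ z, H z = w * z := ⟨Homeomorph.mulLeft₀ w hw, fun _ => rfl⟩
  have h1 : jordanInterior (fun t => w * γ t) = H '' jordanInterior γ := by
    rw [ji_rot_eq hw]
    exact image_congr fun z _ => (hH z).symm
  rw [h1, ← H.image_closure, ← hH, H.injective.mem_set_image]

theorem jordan_rot {γ : ℝ → ℂ} {w : ℂ} (hw : w ≠ 0) (h : IsJordanCurve γ) :
    IsJordanCurve (fun t => w * γ t) := by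
  refine ⟨continuousOn_const.mul h.1, ?_, by show w * γ 0 = w * γ 1; rw [h.2.2]⟩
  intro s hs t ht hst
  exact h.2.1 hs ht (mul_left_cancel₀ hw hst)

end

end Crest.Agent.R158.Spl949
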