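import Crest.Agent.R158.Spa_331

/-!
# Row 158 (S0237), SPL helpers (helper331), file 2: the literal crossing event on tiles

* `RE δ γ t` : the edge of the tile `t` is an edge of the region graph
* `Lit δ γ` : crossing of the closed region, even face paths (771's `FP`)
* `lit_prob` : `(arcCrossingProb δ γ).toReal = (tau hf).real (Lit δ γ)`
* monotone wrappers
-/

set_option autoImplicit false

noncomputable section

namespace Crest.Agent.R158.Spl331

open MeasureTheory ProbabilityTheory unitInterval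
open Crest.Agent.R161.Geo729 Crest.Agent.R161.Topo374 Crest.Agent.R161.Dual374
open Crest.Agent.R158.Rs689 Crest.Agent.R158.Mr679 Crest.Agent.R158.Cb771 Crest.Agent.R158.Gp949
open Crest.ProbabilityR.Percolation Crest.ProbabilityR.FirstPassage
open scoped ENNReal

/-- the edge of the tile belongs to the region graph -/
def RE (δ : ℝ) (γ : ℝ → ℂ) (t : P2) : Prop :=
  (regionGraph δ γ).Adj (src (tE.symm t)) (tgt (tE.symm t))

/-- the literal crossing event on tile fields -/
def Lit (δ : ℝ) (γ : ℝ → ℂ) : Set TF :=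
  {o | ∃ u v : P2, gridPoint δ u ∈ γ '' Set.Icc 0 (1 / 4) ∧
    gridPoint δ v ∈ γ '' Set.Icc (1 / 2) (3 / 4) ∧ FP o (RE δ γ) (prim u) (prim v)}

theorem RE_tE {δ : ℝ} {γ : ℝ → ℂ} (e : Edge) : RE δ γ (tE e) ↔ REG δ γ e := by
  unfold RE
  rw [Equiv.symm_apply_apply, region_adj]
  constructor
  · rintro ⟨e', h1, h2⟩
    have h3 : se e = se e' := by
      simp only [se, Sym2.eq_iff]
      exact h1
    rw [se_inj h3]
    exact h2
  · intro h
    exact ⟨e, Or.inl ⟨rfl, rfl⟩, h⟩

theorem RE_iff {δ : ℝ} {γ : ℝ → ℂ} (t : P2) : RE δ γ t ↔ REG δ γ (tE.symm t) := by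
  rw [← RE_tE, Equiv.apply_symm_apply]

/-- the region tiles of a grid polygon -/
theorem RE_par {δ : ℝ} {γ : ℝ → ℂ} (hδ : 0 < δ) (hγ : IsGridPolygon δ γ) (W : GWalk (uc δ γ))
    (t : P2) : RE δ γ t ↔ W.par (fA (tE.symm t)) = 1 ∨ W.par (fB (tE.symm t)) = 1 := by
  rw [RE_iff, reg_iff hδ hγ W]

theorem fp_prim {o : TF} {Q : P2 → Prop} {u v : P2} : FP o Q (prim u) (prim v) ↔
    Relation.ReflTransGen (PStep fun e => xg o (tE e) = true ∧ Q (tE e)) u v := by
  rw [fp_even (prim_par u), tp_prim_iff]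
  have h : (fun e : Edge => Q (tE e) ∧ xg o (tE e) = true) =
      fun e => xg o (tE e) = true ∧ Q (tE e) := by
    funext e
    exact propext and_comm
  rw [h]

theorem mem_Lit {δ : ℝ} {γ : ℝ → ℂ} {o : TF} : o ∈ Lit δ γ ↔ (fun e => xg o (tE e)) ∈ XEv δ γ := by
  unfold Lit XEv
  simp only [Set.mem_ofPred_eq]
  refine exists_congr fun u => exists_congr fun v => and_congr_right fun _ =>
    and_congr_right fun _ => ?_
  rw [fp_prim]
  have h : (fun e : Edge => xg o (tE e) = true ∧ RE δ γ (tE e)) =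
      fun e => xg o (tE e) = true ∧ REG δ γ e := by
    funext e
    rw [RE_tE]
  rw [h]

theorem measurableSet_Lit (δ : ℝ) (γ : ℝ → ℂ) : MeasurableSet (Lit δ γ) := by
  have h : Lit δ γ = (fun (g : TF) (e : Edge) => xg g (tE e)) ⁻¹' XEv δ γ := by
    ext o
    exact mem_Lit
  rw [h]
  have hm : Measurable (fun (g : TF) (e : Edge) => xg g (tE e)) :=
    measurable_pi_lambda _ fun e => (measurable_pi_apply (tE e)).comp measurable_xg
  exact hm (measurableSet_XEv δ γ)

/-- **(H1)** the literal crossing probability is the probability of the literal tile event -/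
theorem lit_prob (δ : ℝ) (γ : ℝ → ℂ) :
    (arcCrossingProb δ γ).toReal = (tau hf).real (Lit δ γ) := by
  rw [arc_real, ← tau_real_tE (measurableSet_XEv δ γ)]
  congr 1
  ext o
  exact mem_Lit.symm

/-! ### wrappers -/

theorem lit_le {δ : ℝ} {γ : ℝ → ℂ} {X : Set TF} (h : Lit δ γ ⊆ X) :
    (arcCrossingProb δ γ).toReal ≤ (tau hf).real X := by
  rw [lit_prob]
  exact measureReal_mono h

theorem le_lit {δ : ℝ} {γ : ℝ → ℂ} {X : Set TF} (h : X ⊆ Lit δ γ) :
    (tau hf).real X ≤ (arcCrossingProb δ γ).toReal := by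
  rw [lit_prob]
  exact measureReal_mono h

/-- events disjoint from the literal crossing event -/
theorem disj_lit {δ : ℝ} {γ : ℝ → ℂ} {X : Set TF} (h : ∀ o ∈ X, o ∉ Lit δ γ) :
    (tau hf).real X ≤ 1 - (arcCrossingProb δ γ).toReal := by
  have h1 : X ⊆ (Lit δ γ)ᶜ := fun o ho => h o ho
  have h2 : (tau hf).real ((Lit δ γ)ᶜ) = 1 - (tau hf).real (Lit δ γ) := by
    rw [measureReal_compl (measurableSet_Lit δ γ), probReal_univ]
  rw [lit_prob, ← h2]
  exact measureReal_mono h1

/-- events covering the complement of the literal crossing event -/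
theorem cover_lit {δ : ℝ} {γ : ℝ → ℂ} {X : Set TF} (h : ∀ o, o ∉ Lit δ γ → o ∈ X) :
    1 - (arcCrossingProb δ γ).toReal ≤ (tau hf).real X := by
  have h1 : (Lit δ γ)ᶜ ⊆ X := fun o ho => h o ho
  have h2 : (tau hf).real ((Lit δ γ)ᶜ) = 1 - (tau hf).real (Lit δ γ) := by
    rw [measureReal_compl (measurableSet_Lit δ γ), probReal_univ]
  rw [lit_prob, ← h2]
  exact measureReal_mono h1

/-- face crossing events are measurable -/
theorem measurableSet_fpx (Q : P2 → Prop) (S S' : P2 → Prop) :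
    MeasurableSet {g : TF | ∃ a c : P2, S a ∧ S' c ∧ FP g Q a c} := by
  have h : {g : TF | ∃ a c : P2, S a ∧ S' c ∧ FP g Q a c} =
      ⋃ a : P2, ⋃ c : P2, {_g : TF | S a ∧ S' c} ∩ {g | FP g Q a c} := by
    ext g
    simp only [Set.mem_ofPred_eq, Set.mem_iUnion, Set.mem_inter_iff, and_assoc]
  rw [h]
  exact MeasurableSet.iUnion fun a => MeasurableSet.iUnion fun c =>
    (MeasurableSet.const _).inter (meas_fp Q a c)

end Crest.Agent.R158.Spl331
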