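import Crest.Agent.R158.Spl2_949
import Crest.Agent.R158.Spl3_949
import Crest.Agent.R158.SplH_331
import Crest.Agent.R158.Sp7_896

/-!
# Row 158 (S0237), block SPL (helper949), file 4: (S+) and (S-)

* `w8 = e^{iπ/4}`, `Ls s d` : number of medial steps of a macro edge, `DT F L` : tiles of the scaled
  polyomino, `Nk k S` : `k`-neighbourhood, `arcT` : medial points of macro boundary edges
* `XF p Q S S'` : faces of parity `p` joined through tiles of `Q` from `S` to `S'`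
* `splus`, `sminus` : the two one-sided comparisons with `arcCrossingProb`
-/

set_option autoImplicit false

namespace Crest.Agent.R158.Spl949

open Set Filter Topology Metric Crest.Agent.R161.Geo729 Crest.Agent.R161.Dual374
open Crest.Agent.R158.Gp949 Crest.Agent.R158.Mr679 Crest.Agent.R158.Jt785 Crest.Agent.R158.Cb771
open Crest.Agent.R158.Sp896 Crest.Agent.R158.Rs689 Crest.Agent.R158.Spl331
open Crest.ProbabilityR.Percolation

noncomputable section

/-- `e^{iπ/4}` -/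
def w8 : ℂ := ⟨Real.sqrt 2 / 2, Real.sqrt 2 / 2⟩

theorem s2 : Real.sqrt 2 * Real.sqrt 2 = 2 := Real.mul_self_sqrt (by norm_num)
theorem s2_pos : 0 < Real.sqrt 2 := Real.sqrt_pos.2 (by norm_num)
theorem s2_le : Real.sqrt 2 ≤ 2 := by
  nlinarith [s2, s2_pos]

theorem norm_w8 : ‖w8‖ = 1 := by
  have h1 : Complex.normSq w8 = 1 := by
    rw [Complex.normSq_apply]
    simp only [w8]
    nlinarith [s2]
  rw [Complex.normSq_eq_norm_sq] at h1
  nlinarith [norm_nonneg w8]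

theorem w8_ne : w8 ≠ 0 := by
  intro h
  have := norm_w8
  rw [h, norm_zero] at this
  exact zero_ne_one this

theorem w8_pf (d : ℝ) (f : P2) :
    w8 * pf d f = ⟨Real.sqrt 2 / 2 * d * f.1, Real.sqrt 2 / 2 * d * f.2⟩ := by
  apply Complex.ext
  · simp only [Complex.mul_re, w8, pf]; ring
  · simp only [Complex.mul_im, w8, pf]; ring

/-- number of medial steps of a macro edge (even) -/
def Ls (s d : ℝ) : ℕ := 2 * ⌊s / (Real.sqrt 2 * d)⌋₊

/-- tiles of the scaled polyomino -/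
def DT (F : Set P2) (L : ℕ) : Set P2 := {t | (t.1 / (L : ℤ), t.2 / (L : ℤ)) ∈ F}

/-- sup-norm neighbourhood -/
def Nk (k : ℕ) (S : Set P2) : Set P2 := {x | ∃ y ∈ S, |x.1 - y.1| ≤ k ∧ |x.2 - y.2| ≤ k}

/-- medial points of the macro edges `m0, ..., m1` -/
def arcT (L : ℕ) (v : ℕ → P2) (m0 m1 : ℕ) : Set P2 :=
  {f | ∃ m, m0 ≤ m ∧ m ≤ m1 ∧ ∃ r : ℕ, r ≤ L ∧
    f = (L * (v m).1 + r * ((v (m + 1)).1 - (v m).1), L * (v m).2 + r * ((v (m + 1)).2 - (v m).2))}

theorem Nk.mono {k k' : ℕ} (hk : k ≤ k') {S S' : Set P2} (hS : S ⊆ S') : Nk k S ⊆ Nk k' S' := by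
  rintro x ⟨y, hy, h1, h2⟩
  have : (k : ℤ) ≤ k' := by exact_mod_cast hk
  exact ⟨y, hS hy, h1.trans this, h2.trans this⟩

theorem Nk.grow {k k' : ℕ} {S : Set P2} {x y : P2} (hx : x ∈ Nk k S) (h1 : |y.1 - x.1| ≤ k')
    (h2 : |y.2 - x.2| ≤ k') : y ∈ Spl949.Nk (k + k') S := by
  obtain ⟨z, hz, h3, h4⟩ := hx
  refine ⟨z, hz, ?_, ?_⟩
  · have := abs_sub_le y.1 x.1 z.1; push_cast; linarith
  · have := abs_sub_le y.2 x.2 z.2; push_cast; linarith

theorem subset_Nk (k : ℕ) (S : Set P2) : S ⊆ Nk k S := fun x hx => ⟨x, hx, by simp, by simp⟩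

/-! ### approximation -/

section approx

variable {δ : ℕ → ℝ} (hδ : ∀ n, 0 < δ n) (hδ0 : Tendsto δ atTop (𝓝 0)) {s : ℝ} (hs : 0 < s)

theorem Ls_le (hs : 0 < s) {d : ℝ} (hd : 0 < d) : Real.sqrt 2 / 2 * d * Ls s d ≤ s := by
  have h1 : (⌊s / (Real.sqrt 2 * d)⌋₊ : ℝ) ≤ s / (Real.sqrt 2 * d) :=
    Nat.floor_le (by have := s2_pos; positivity)
  have h2 : 0 < Real.sqrt 2 * d := mul_pos s2_pos hd
  rw [le_div_iff₀ h2] at h1
  unfold Ls
  push_cast
  nlinarith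

theorem Ls_gt (_hs : 0 < s) {d : ℝ} (hd : 0 < d) : s - 2 * d < Real.sqrt 2 / 2 * d * Ls s d := by
  have h1 : s / (Real.sqrt 2 * d) < ⌊s / (Real.sqrt 2 * d)⌋₊ + 1 := Nat.lt_floor_add_one _
  have h2 : 0 < Real.sqrt 2 * d := mul_pos s2_pos hd
  rw [div_lt_iff₀ h2] at h1
  have h3 := s2_le
  unfold Ls
  push_cast
  nlinarith

include hδ hδ0 hs in
theorem Ls_pos : ∀ᶠ n in atTop, 0 < Ls s (δ n) := by
  filter_upwards [(tendsto_order.1 hδ0).2 (s / 2) (by linarith)] with n hn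
  have h1 := Ls_gt hs (hδ n)
  by_contra h
  have h2 : Ls s (δ n) = 0 := by omega
  rw [h2] at h1
  simp only [Nat.cast_zero, mul_zero] at h1
  linarith

include hδ hδ0 hs in
/-- **Approximation**: neighbourhoods of lattice sets whose macro positions lie in `K` -/
theorem approx {K : Set ℂ} (hK : Bornology.IsBounded K) {S : ℕ → Set P2}
    (hS : ∀ n, 0 < Ls s (δ n) → ∀ y ∈ S n,
      (⟨s / Ls s (δ n) * y.1, s / Ls s (δ n) * y.2⟩ : ℂ) ∈ K) (k : ℕ) {η : ℝ} (hη : 0 < η) :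
    ∀ᶠ n in atTop, ∀ f ∈ Nk k (S n), ∃ z ∈ {z | w8 * z ∈ K}, ‖pf (δ n) f - z‖ ≤ η := by
  obtain ⟨Rb, hRb⟩ := hK.exists_norm_le
  set R := max Rb 0 with hR
  have hR0 : 0 ≤ R := le_max_right _ _
  have hRb' : ∀ z ∈ K, ‖z‖ ≤ R := fun z hz => (hRb z hz).trans (le_max_left _ _)
  have hC : 0 < 2 * ((k : ℝ) + 2 * R / s) + 1 := by positivity
  filter_upwards [Ls_pos hδ hδ0 hs,
    (tendsto_order.1 hδ0).2 (η / (2 * ((k : ℝ) + 2 * R / s) + 1)) (by positivity)] with n h1 h2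
  rintro f ⟨y, hy, hf1, hf2⟩
  have hd := hδ n
  set d := δ n with hdd
  set L := Ls s d with hL
  have hL0 : (0 : ℝ) < L := by exact_mod_cast h1
  have hz := hS n h1 y hy
  rw [← hdd, ← hL] at hz
  set z : ℂ := ⟨s / L * y.1, s / L * y.2⟩ with hzz
  have hzw : w8 * (z / w8) = z := by
    have := w8_ne
    field_simp
  refine ⟨z / w8, by show w8 * (z / w8) ∈ K; rw [hzw]; exact hz, ?_⟩
  have e1 : ‖pf d f - z / w8‖ = ‖w8 * pf d f - z‖ := by
    have : w8 * pf d f - z = w8 * (pf d f - z / w8) := by rw [mul_sub, hzw]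
    rw [this, norm_mul, norm_w8, one_mul]
  rw [e1, w8_pf]
  have hzn := hRb' z hz
  have hre : |z.re| ≤ R := (Complex.abs_re_le_norm z).trans hzn
  have him : |z.im| ≤ R := (Complex.abs_im_le_norm z).trans hzn
  have hlo := Ls_gt hs hd
  have hhi := Ls_le hs hd
  rw [← hL] at hlo hhi
  have hs2 := s2_le
  have hs2p := s2_pos
  have coord : ∀ a b : ℤ, |a - b| ≤ k → |s / L * (b : ℝ)| ≤ R →
      |Real.sqrt 2 / 2 * d * a - s / L * b| ≤ d * (k + 2 * R / s) := by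
    intro a b hab hb
    have h3 : Real.sqrt 2 / 2 * d * a - s / L * b =
        Real.sqrt 2 / 2 * d * (a - b) + (Real.sqrt 2 / 2 * d * L - s) / s * (s / L * b) := by
      field_simp
      ring
    rw [h3]
    have h4 : |Real.sqrt 2 / 2 * d * ((a : ℝ) - b)| ≤ d * k := by
      rw [abs_mul, abs_of_nonneg (by positivity)]
      have h5 : |(a : ℝ) - b| ≤ k := by exact_mod_cast hab
      have h6 : Real.sqrt 2 / 2 * d ≤ d := by nlinarith
      have h7 : 0 ≤ |(a : ℝ) - b| := abs_nonneg _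
      calc Real.sqrt 2 / 2 * d * |(a : ℝ) - b| ≤ d * |(a : ℝ) - b| :=
            mul_le_mul_of_nonneg_right h6 h7
        _ ≤ d * k := mul_le_mul_of_nonneg_left h5 hd.le
    have h5 : |(Real.sqrt 2 / 2 * d * L - s) / s * (s / L * b)| ≤ d * (2 * R / s) := by
      rw [abs_mul]
      have h6 : |(Real.sqrt 2 / 2 * d * L - s) / s| ≤ 2 * d / s := by
        rw [abs_div, abs_of_pos hs]
        apply div_le_div_of_nonneg_right _ hs.le
        rw [abs_le]
        constructor <;> linarith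
      calc |(Real.sqrt 2 / 2 * d * L - s) / s| * |s / L * b| ≤ 2 * d / s * R :=
            mul_le_mul h6 hb (abs_nonneg _) (by positivity)
        _ = d * (2 * R / s) := by ring
    calc _ ≤ |Real.sqrt 2 / 2 * d * ((a : ℝ) - b)| +
          |(Real.sqrt 2 / 2 * d * L - s) / s * (s / L * b)| := abs_add_le _ _
      _ ≤ d * k + d * (2 * R / s) := add_le_add h4 h5
      _ = d * (k + 2 * R / s) := by ring
  have c1 := coord f.1 y.1 hf1 hre
  have c2 := coord f.2 y.2 hf2 him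
  have h3 : ‖(⟨Real.sqrt 2 / 2 * d * f.1, Real.sqrt 2 / 2 * d * f.2⟩ : ℂ) - z‖ ≤
      d * (k + 2 * R / s) + d * (k + 2 * R / s) := norm_le_of_abs c1 c2
  refine h3.trans ?_
  rw [lt_div_iff₀ hC] at h2
  nlinarith

theorem DT_mem {F : Set P2} (hs : 0 < s) {L : ℕ} (hL : 0 < L) {y : P2} (hy : y ∈ DT F L) :
    (⟨s / L * y.1, s / L * y.2⟩ : ℂ) ∈ ⋃ q ∈ F, sq s q := by
  have hL' : (0 : ℝ) < L := by exact_mod_cast hL
  have hLz : (0 : ℤ) < L := by exact_mod_cast hL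
  have key : ∀ a : ℤ, s * ((a / (L : ℤ) : ℤ) : ℝ) ≤ s / L * a ∧
      s / L * a ≤ s * (((a / (L : ℤ) : ℤ) : ℝ) + 1) := by
    intro a
    have h1 : (L : ℤ) * (a / L) ≤ a := Int.mul_ediv_self_le hLz.ne'
    have h2 : a < L * (a / L) + L := Int.lt_mul_ediv_self_add hLz
    have h3 : (L : ℝ) * ((a / (L : ℤ) : ℤ) : ℝ) ≤ a := by exact_mod_cast h1
    have h4 : (a : ℝ) < L * ((a / (L : ℤ) : ℤ) : ℝ) + L := by exact_mod_cast h2
    constructor
    · rw [div_mul_eq_mul_div, le_div_iff₀ hL']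
      nlinarith
    · rw [div_mul_eq_mul_div, div_le_iff₀ hL']
      nlinarith
  refine mem_iUnion₂.2 ⟨_, hy, ?_⟩
  exact ⟨(key y.1).1, (key y.1).2, (key y.2).1, (key y.2).2⟩

theorem arcT_mem {v : ℕ → P2} {m0 m1 L : ℕ} (hL : 0 < L) {y : P2} (hy : y ∈ arcT L v m0 m1) :
    (⟨s / L * y.1, s / L * y.2⟩ : ℂ) ∈ ⋃ m ∈ Icc m0 m1, ed s (v m) (v (m + 1)) := by
  have hL' : (0 : ℝ) < L := by exact_mod_cast hL
  obtain ⟨m, h1, h2, r, hr, rfl⟩ := hy
  refine mem_iUnion₂.2 ⟨m, ⟨h1, h2⟩, ?_⟩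
  have hr' : (r : ℝ) ≤ L := by exact_mod_cast hr
  refine ⟨1 - r / L, r / L, ?_, by positivity, by ring, ?_⟩
  · rw [sub_nonneg, div_le_one hL']
    exact hr'
  · apply Complex.ext
    · simp only [pt, Complex.add_re, Complex.smul_re, smul_eq_mul]
      push_cast
      field_simp
      ring
    · simp only [pt, Complex.add_im, Complex.smul_im, smul_eq_mul]
      push_cast
      field_simp
      ring

end approx

end

end Crest.Agent.R158.Spl949
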