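import Crest.Agent.R158.Spl4_949

/-!
# Row 158 (S0237), block SPL (helper949), file 5: (S+) and (S-)

* `env_ev` : the metric facts hold eventually for a sandwich polygon
* `XF p Q S S'` : faces of parity `p` joined through tiles of `Q` from `S` to `S'`
* `splus`, `sminus` : the two one-sided comparisons with `arcCrossingProb`
-/

set_option autoImplicit false

namespace Crest.Agent.R158.Spl949

open Set Filter Topology Metric MeasureTheory Crest.Agent.R161.Geo729 Crest.Agent.R161.Dual374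
open Crest.Agent.R158.Gp949 Crest.Agent.R158.Mr679 Crest.Agent.R158.Jt785 Crest.Agent.R158.Cb771
open Crest.Agent.R158.Sp896 Crest.Agent.R158.Rs689 Crest.Agent.R158.Spl331
open Crest.ProbabilityR.Percolation

noncomputable section

theorem nr_w8 {γ : ℝ → ℂ} {T : Set ℝ} {e : ℝ} {z : ℂ} :
    Nr e ((fun t => w8 * γ t) '' T) (w8 * z) ↔ NT γ T e z := by
  have key : ∀ t, ‖w8 * z - w8 * γ t‖ = ‖z - γ t‖ := by
    intro t
    rw [← mul_sub, norm_mul, norm_w8, one_mul]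
  constructor
  · rintro ⟨_, ⟨t, ht, rfl⟩, h⟩
    exact ⟨t, ht, by rw [← key]; exact h⟩
  · rintro ⟨t, ht, h⟩
    exact ⟨_, ⟨t, ht, rfl⟩, by rw [← key] at h; exact h⟩

theorem compact_pre {K : Set ℂ} (hK : IsCompact K) : IsCompact {z | w8 * z ∈ K} := by
  obtain ⟨H, hH⟩ : ∃ H : ℂ ≃ₜ ℂ, ∀ z, H z = w8 * z :=
    ⟨Homeomorph.mulLeft₀ w8 w8_ne, fun _ => rfl⟩
  have : {z | w8 * z ∈ K} = H ⁻¹' K := by
    ext z
    rw [mem_preimage, hH]
    rfl
  rw [this]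
  exact H.isCompact_preimage.2 hK

theorem isCompact_sq (s : ℝ) (q : P2) : IsCompact (sq s q) := by
  refine Metric.isCompact_of_isClosed_isBounded (isClosed_sq s q) ?_
  refine isBounded_iff_forall_norm_le.2
    ⟨(|s * q.1| + |s * (q.1 + 1)|) + (|s * q.2| + |s * (q.2 + 1)|), fun z hz => ?_⟩
  obtain ⟨h1, h2, h3, h4⟩ := hz
  refine norm_le_of_abs ?_ ?_
  · rw [abs_le]
    constructor
    · linarith [neg_abs_le (s * (q.1 : ℝ)), abs_nonneg (s * ((q.1 : ℝ) + 1))]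
    · linarith [le_abs_self (s * ((q.1 : ℝ) + 1)), abs_nonneg (s * (q.1 : ℝ))]
  · rw [abs_le]
    constructor
    · linarith [neg_abs_le (s * (q.2 : ℝ)), abs_nonneg (s * ((q.2 : ℝ) + 1))]
    · linarith [le_abs_self (s * ((q.2 : ℝ) + 1)), abs_nonneg (s * (q.2 : ℝ))]

theorem isCompact_ed (s : ℝ) (a b : P2) : IsCompact (ed s a b) := by
  unfold ed
  rw [segment_eq_image]
  exact isCompact_Icc.image (by fun_prop)

section ev

variable {γ : ℝ → ℂ} {γs : ℕ → ℝ → ℂ} {δ : ℕ → ℝ} (hγ : IsJordanCurve γ)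
  (hne : (jordanInterior γ).Nonempty)
  (hγs : ∀ n, IsJordanCurve (γs n)) (hu : TendstoUniformlyOn γs γ atTop (Icc 0 1))
  (hδ : ∀ n, 0 < δ n) (hδ0 : Tendsto δ atTop (𝓝 0))

include hγ hne hγs hu hδ hδ0

/-- **The metric facts for a sandwich polygon**: `T1`, `T3` are cut off. -/
theorem env_ev {T1 T2 T3 T4 : Set ℝ} (h1 : IsClosed T1) (h3 : IsClosed T3) (h1' : T1 ⊆ Icc 0 1)
    (h3' : T3 ⊆ Icc 0 1) (hcov : ∀ t ∈ Icc (0:ℝ) 1, t ∈ T2 ∨ t ∈ T4 ∨ t ∈ T1 ∪ T3) {e s : ℝ}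
    {F : Set P2} {N : ℕ} {v : ℕ → P2} {mb mc md : ℕ}
    (hsep : ∀ t ∈ T2, ∀ t' ∈ T4, 5 * e ≤ ‖γ t - γ t'‖)
    (hP : SPoly ((fun t => w8 * γ t) '' T1) ((fun t => w8 * γ t) '' T2)
      ((fun t => w8 * γ t) '' T3) ((fun t => w8 * γ t) '' T4)
      (jordanInterior fun t => w8 * γ t) e s F N v mb mc md) (k : ℕ) :
    ∀ᶠ n in atTop, Loc (δ n) (γs n) T2 T4 (Nk (k + 1) (DT F (Ls s (δ n))))
        (fun f => NT γ T2 (2 * e) (pf (δ n) f)) (fun f => NT γ T4 (2 * e) (pf (δ n) f)) ∧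
      (∀ f ∈ Nk k (arcT (Ls s (δ n)) v mb mc), NT γ T2 (2 * e) (pf (δ n) f) ∧
        pf (δ n) f ∉ jordanInterior (γs n) ∪ curveTrace (γs n)) ∧
      ∀ f ∈ Nk k (arcT (Ls s (δ n)) v md N), NT γ T4 (2 * e) (pf (δ n) f) ∧
        pf (δ n) f ∉ jordanInterior (γs n) ∪ curveTrace (γs n) := by
  have he : 0 < e := hP.s_pos.trans hP.s_lt
  have hcl := closure_ji hγ hne
  -- the region
  have hK : IsCompact (⋃ q ∈ F, sq s q) := hP.fin.isCompact_biUnion fun q _ => isCompact_sq s q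
  have hKP : IsCompact (⋃ m ∈ Icc mb mc, ed s (v m) (v (m + 1))) :=
    (finite_Icc mb mc).isCompact_biUnion fun m _ => isCompact_ed s _ _
  have hKQ : IsCompact (⋃ m ∈ Icc md N, ed s (v m) (v (m + 1))) :=
    (finite_Icc md N).isCompact_biUnion fun m _ => isCompact_ed s _ _
  have hloc := loc_ev hγ hγs hu hδ hδ0 (TP := T2) (TQ := T4) (TM := T1 ∪ T3) (h1.union h3)
    (union_subset h1' h3') hcov he hsep (compact_pre hK) (by
      rintro z hz t ht rfl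
      obtain ⟨q, hq, hzq⟩ := mem_iUnion₂.1 (show w8 * γ t ∈ ⋃ q ∈ F, sq s q from hz)
      have hd := disjoint_left.1 (hP.miss q hq) hzq
      rcases ht with ht | ht
      · exact hd (Or.inl ⟨t, ht, rfl⟩)
      · exact hd (Or.inr ⟨t, ht, rfl⟩)) (by
      intro z hz hzD
      obtain ⟨q, hq, hzq⟩ := mem_iUnion₂.1 (show w8 * z ∈ ⋃ q ∈ F, sq s q from hz)
      have hzD' : w8 * z ∉ jordanInterior fun t => w8 * γ t := by
        rw [ji_rot w8_ne]; exact hzD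
      rcases hP.outer q hq _ hzq hzD' with h | h
      · exact Or.inl (nr_w8.1 h)
      · exact Or.inr (nr_w8.1 h)) (Φ := fun n => Nk (k + 1) (DT F (Ls s (δ n)))) (fun η hη =>
      approx hδ hδ0 hP.s_pos hK.isBounded (S := fun n => DT F (Ls s (δ n)))
        (fun n hL y hy => DT_mem hP.s_pos hL hy) (k + 1) hη)
  have hout : ∀ z, w8 * z ∉ closure (jordanInterior fun t => w8 * γ t) →
      z ∉ jordanInterior γ ∪ curveTrace γ := by
    intro z hz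
    rw [closure_ji_rot w8_ne, hcl] at hz
    exact hz
  have hend1 := end_ev hγ hγs hu he (compact_pre hKP) (TP := T2) (by
      intro z hz
      obtain ⟨m, hm, hzm⟩ := mem_iUnion₂.1
        (show w8 * z ∈ ⋃ m ∈ Icc mb mc, ed s (v m) (v (m + 1)) from hz)
      exact hout z (hP.arcB m hm.1 hm.2 _ hzm).1) (by
      intro z hz
      obtain ⟨m, hm, hzm⟩ := mem_iUnion₂.1
        (show w8 * z ∈ ⋃ m ∈ Icc mb mc, ed s (v m) (v (m + 1)) from hz)
      exact nr_w8.1 (hP.arcB m hm.1 hm.2 _ hzm).2)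
      (Φ := fun n => Nk k (arcT (Ls s (δ n)) v mb mc)) (fun η hη =>
      approx hδ hδ0 hP.s_pos hKP.isBounded (S := fun n => arcT (Ls s (δ n)) v mb mc)
        (fun n hL y hy => arcT_mem hL hy) k hη)
  have hend2 := end_ev hγ hγs hu he (compact_pre hKQ) (TP := T4) (by
      intro z hz
      obtain ⟨m, hm, hzm⟩ := mem_iUnion₂.1
        (show w8 * z ∈ ⋃ m ∈ Icc md N, ed s (v m) (v (m + 1)) from hz)
      exact hout z (hP.arcE m hm.1 hm.2 _ hzm).1) (by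
      intro z hz
      obtain ⟨m, hm, hzm⟩ := mem_iUnion₂.1
        (show w8 * z ∈ ⋃ m ∈ Icc md N, ed s (v m) (v (m + 1)) from hz)
      exact nr_w8.1 (hP.arcE m hm.1 hm.2 _ hzm).2)
      (Φ := fun n => Nk k (arcT (Ls s (δ n)) v md N)) (fun η hη =>
      approx hδ hδ0 hP.s_pos hKQ.isBounded (S := fun n => arcT (Ls s (δ n)) v md N)
        (fun n hL y hy => arcT_mem hL hy) k hη)
  filter_upwards [hloc, hend1, hend2] with n a1 a2 a3
  exact ⟨a1, a2, a3⟩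

end ev

/-! ### paths of faces -/

/-- faces of parity `p` joined through tiles of `Q` from `S` to `S'` -/
def XF (p : ℤ) (Q S S' : Set P2) : Set TF :=
  {g | ∃ f0 f1 : P2, (f0.1 + f0.2) % 2 = p ∧ f0 ∈ S ∧ f1 ∈ S' ∧ FP g (fun t => t ∈ Q) f0 f1}

theorem XF_symm {p : ℤ} {Q S S' : Set P2} {g : TF} (h : g ∈ XF p Q S S') : g ∈ XF p Q S' S := by
  obtain ⟨f0, f1, h1, h2, h3, h4⟩ := h
  refine ⟨f1, f0, ?_, h3, h2, h4.symm⟩
  rw [← h1]
  clear h1 h2 h3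
  induction h4 with
  | refl => rfl
  | tail _ h2 ih => rw [← ih]; exact h2.1.par.symm

theorem XF_mono {p : ℤ} {Q Q' S S' R R' : Set P2} (hQ : Q ⊆ Q') (hS : S ⊆ R) (hS' : S' ⊆ R') :
    XF p Q S S' ⊆ XF p Q' R R' := by
  rintro g ⟨f0, f1, h1, h2, h3, h4⟩
  exact ⟨f0, f1, h1, hS h2, hS' h3, FP.mono (fun t ht => ⟨hQ ht, rfl⟩) h4⟩

theorem measurableSet_XF (p : ℤ) (Q S S' : Set P2) : MeasurableSet (XF p Q S S') := by
  have h := measurableSet_fpx (fun t => t ∈ Q) (fun a => (a.1 + a.2) % 2 = p ∧ a ∈ S)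
    (fun c => c ∈ S')
  convert h using 1
  ext g
  constructor
  · rintro ⟨f0, f1, h1, h2, h3, h4⟩
    exact ⟨f0, f1, ⟨h1, h2⟩, h3, h4⟩
  · rintro ⟨f0, f1, ⟨h1, h2⟩, h3, h4⟩
    exact ⟨f0, f1, h1, h2, h3, h4⟩

theorem face_tile (e : Edge) (f : P2) (hf : f = prim (src e) ∨ f = prim (tgt e) ∨
    f = dufc (fA e) ∨ f = dufc (fB e)) : |f.1 - (tE e).1| ≤ 1 ∧ |f.2 - (tE e).2| ≤ 1 := by
  obtain ⟨⟨a, b⟩, x⟩ := e
  cases x
  · simp only [src_mk, tgt_h, fA_mk, fB_h, prim, dufc, tE_h] at hf ⊢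
    rcases hf with rfl | rfl | rfl | rfl <;> simp only [abs_le] <;> omega
  · simp only [src_mk, tgt_v, fA_mk, fB_v, prim, dufc, tE_v] at hf ⊢
    rcases hf with rfl | rfl | rfl | rfl <;> simp only [abs_le] <;> omega

variable {d : ℝ} {c : ℝ → ℂ} {NP NQ : P2 → Prop}

theorem Loc.swap {TP TQ : Set ℝ} {Φ : Set P2} (h : Loc d c TP TQ Φ NP NQ) :
    Loc d c TQ TP Φ NQ NP :=
  ⟨fun f hf t ht hft => (h.tr f hf t ht hft).symm, fun f hf hfi => (h.out f hf hfi).symm,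
    fun f g hfg h1 h2 => h.sep g f (hfg.elim (fun h => Or.inl h.symm) fun h => Or.inr h.symm) h2 h1⟩

/-- even face paths give literal crossings -/
theorem even_lit (hd : 0 < d) (hg : IsGridPolygon d c) {TP TQ : Set ℝ} {k : ℕ} {Q S S' : Set P2}
    (hL : Loc d c TP TQ (Nk (k + 1) Q) NP NQ)
    (hS : ∀ f ∈ S, NP f ∧ pf d f ∉ jordanInterior c ∪ curveTrace c)
    (hS' : ∀ f ∈ S', NQ f ∧ pf d f ∉ jordanInterior c ∪ curveTrace c) {g : TF}
    (hgX : g ∈ XF 0 (Nk k Q) S S') :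
    ∃ a b : P2, gridPoint d a ∈ c '' TP ∧ gridPoint d b ∈ c '' TQ ∧ FP g (RE d c) (prim a) (prim b) := by
  obtain ⟨f0, f1, h1, h2, h3, h4⟩ := hgX
  obtain ⟨u0, rfl⟩ := exists_prim h1
  have h5 := (fp_even (prim_par u0)).1 h4
  obtain ⟨u1, rfl⟩ := exists_prim (F := f1) (by rw [← h5.parity]; exact prim_par u0)
  rw [tp_prim_iff] at h5
  obtain ⟨a, b, ha, hb, hab⟩ := even_cross hd hg hL (Z := fun e => tE e ∈ Nk k Q ∧ xg g (tE e) = true)
    (fun e he => ⟨Nk.grow he.1 (face_tile e _ (Or.inl rfl)).1 (face_tile e _ (Or.inl rfl)).2,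
      Nk.grow he.1 (face_tile e _ (Or.inr (Or.inl rfl))).1 (face_tile e _ (Or.inr (Or.inl rfl))).2⟩)
    h5 (hS _ h2).1 (fun h => (hS _ h2).2 (Or.inl (by rw [pf_prim]; exact h))) (hS' _ h3).1
    (fun h => (hS' _ h3).2 (by rw [pf_prim]; exact h))
  refine ⟨a, b, ha, hb, fp_prim.2 ?_⟩
  refine Relation.ReflTransGen.mono (fun x y h => ?_) _ _ hab
  obtain ⟨e, he, h6⟩ := h
  refine ⟨e, ⟨he.1.2, ?_⟩, h6⟩
  have h7 : RG d c e := he.2
  unfold Spl331.RE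
  rw [Equiv.symm_apply_apply]
  exact h7

/-- odd face paths block literal crossings -/
theorem odd_lit (hd : 0 < d) (hg : IsGridPolygon d c) {k : ℕ} {Q S S' : Set P2}
    (hL : Loc d c (Icc (1 / 4) (1 / 2)) (Icc (3 / 4) 1) (Nk (k + 1) Q) NP NQ)
    (hS : ∀ f ∈ S, NP f ∧ pf d f ∉ jordanInterior c ∪ curveTrace c)
    (hS' : ∀ f ∈ S', NQ f ∧ pf d f ∉ jordanInterior c ∪ curveTrace c) {g : TF}
    (hgX : g ∈ XF 1 (Nk k Q) S S') : g ∉ Lit d c := by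
  rintro ⟨a, b, ha, hb, hab⟩
  obtain ⟨f0, f1, h1, h2, h3, h4⟩ := hgX
  obtain ⟨c0, rfl⟩ := exists_dufc h1
  have h5 := (fp_odd (dufc_par c0)).1 h4
  obtain ⟨c1, rfl⟩ := exists_dufc (F := f1) (by rw [← h5.parity]; exact dufc_par c0)
  rw [tp_dufc_iff] at h5
  rw [fp_prim] at hab
  refine odd_block hd hg hL (Z := fun e => xg g (tE e) = true)
    (Z' := fun e => tE e ∈ Nk k Q ∧ xg g (tE e) = false) (fun e he h => ?_)
    (fun e he => ⟨Nk.grow he.1 (face_tile e _ (Or.inr (Or.inr (Or.inl rfl)))).1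
        (face_tile e _ (Or.inr (Or.inr (Or.inl rfl)))).2,
      Nk.grow he.1 (face_tile e _ (Or.inr (Or.inr (Or.inr rfl)))).1
        (face_tile e _ (Or.inr (Or.inr (Or.inr rfl)))).2⟩)
    h5 (hS _ h2).1 (fun h => (hS _ h2).2 (Or.inl h)) (hS' _ h3).1
    (fun h => (hS' _ h3).2 (Or.inl h)) ha hb ?_
  · rw [he.2] at h
    exact Bool.false_ne_true h
  · refine Relation.ReflTransGen.mono (fun x y h => ?_) _ _ hab
    obtain ⟨e, he, h6⟩ := h
    refine ⟨e, ⟨he.1, ?_⟩, h6⟩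
    have h7 := he.2
    unfold Spl331.RE at h7
    rw [Equiv.symm_apply_apply] at h7
    exact h7

theorem lit_symm {g : TF} {TP TQ : Set ℝ}
    (h : ∃ a b : P2, gridPoint d a ∈ c '' TP ∧ gridPoint d b ∈ c '' TQ ∧
      FP g (RE d c) (prim a) (prim b)) :
    ∃ a b : P2, gridPoint d a ∈ c '' TQ ∧ gridPoint d b ∈ c '' TP ∧
      FP g (RE d c) (prim a) (prim b) := by
  obtain ⟨a, b, h1, h2, h3⟩ := h
  exact ⟨b, a, h2, h1, h3.symm⟩

/-! ### the four arcs -/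

theorem arc_rot (γ : ℝ → ℂ) (a b : ℝ) : arc (fun t => w8 * γ t) a b =
    (fun t => w8 * γ t) '' Icc a b := rfl

/-- distance of two disjoint arcs -/
theorem arc_sep {γ : ℝ → ℂ} (hγ : IsJordanCurve γ) {T T' : Set ℝ} (hT : IsClosed T)
    (hT' : IsClosed T') (hT1 : T ⊆ Icc 0 1) (hT1' : T' ⊆ Icc 0 1)
    (hd : ∀ t ∈ T, ∀ t' ∈ T', γ t ≠ γ t') :
    ∃ e0 : ℝ, 0 < e0 ∧ ∀ e ≤ e0, ∀ t ∈ T, ∀ t' ∈ T', 5 * e ≤ ‖γ t - γ t'‖ := by
  have h1 : IsCompact (γ '' T) :=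
    (isCompact_Icc.of_isClosed_subset hT hT1).image_of_continuousOn (hγ.1.mono hT1)
  have h2 : IsCompact (γ '' T') :=
    (isCompact_Icc.of_isClosed_subset hT' hT1').image_of_continuousOn (hγ.1.mono hT1')
  obtain ⟨η, hη, h⟩ := sep_compact h1 h2 (by
    rw [disjoint_left]
    rintro _ ⟨t, ht, rfl⟩ ⟨t', ht', h⟩
    exact hd t ht t' ht' h.symm)
  refine ⟨η / 5, by linarith, fun e he t ht t' ht' => ?_⟩
  have := h _ ⟨t, ht, rfl⟩ _ ⟨t', ht', rfl⟩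
  linarith

theorem ne_BE {γ : ℝ → ℂ} (hγ : IsJordanCurve γ) : ∀ t ∈ Icc (1/4 : ℝ) (1/2),
    ∀ t' ∈ Icc (3/4 : ℝ) 1, γ t ≠ γ t' := by
  intro t ht t' ht' h
  rcases ht'.2.lt_or_eq with h1 | h1
  · have := hγ.2.1 ⟨by linarith [ht.1], by linarith [ht.2]⟩ ⟨by linarith [ht'.1], h1⟩ h
    linarith [ht.2, ht'.1]
  · rw [h1, ← hγ.2.2] at h
    have := hγ.2.1 ⟨by linarith [ht.1], by linarith [ht.2]⟩ ⟨le_rfl, zero_lt_one⟩ h
    linarith [ht.1]

theorem ne_AC {γ : ℝ → ℂ} (hγ : IsJordanCurve γ) : ∀ t ∈ Icc (0 : ℝ) (1/4),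
    ∀ t' ∈ Icc (1/2 : ℝ) (3/4), γ t ≠ γ t' := by
  intro t ht t' ht' h
  have := hγ.2.1 ⟨ht.1, by linarith [ht.2]⟩ ⟨by linarith [ht'.1], by linarith [ht'.2]⟩ h
  linarith [ht.2, ht'.1]

section final

variable {γ : ℝ → ℂ} {γs : ℕ → ℝ → ℂ} {δ : ℕ → ℝ} (hγ : IsJordanCurve γ)
  (hne : (jordanInterior γ).Nonempty)
  (hγs : ∀ n, IsGridPolygon (δ n) (γs n)) (hu : TendstoUniformlyOn γs γ atTop (Icc 0 1))
  (hδ : ∀ n, 0 < δ n) (hδ0 : Tendsto δ atTop (𝓝 0))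

include hγ hne hγs hu hδ hδ0

/-- **(S+)**: in a polygon with the arcs `B`, `E` outside (either orientation), dual crossings
between them block the literal crossing. -/
theorem splus : ∃ e0 : ℝ, 0 < e0 ∧ ∀ (e s : ℝ) (F : Set P2) (N : ℕ) (v : ℕ → P2) (mb mc md : ℕ),
    e ≤ e0 →
    (SPoly (arc (fun t => w8 * γ t) 0 (1/4)) (arc (fun t => w8 * γ t) (1/4) (1/2))
        (arc (fun t => w8 * γ t) (1/2) (3/4)) (arc (fun t => w8 * γ t) (3/4) 1)
        (jordanInterior fun t => w8 * γ t) e s F N v mb mc md ∨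
     SPoly (arc (fun t => w8 * γ t) 0 (1/4)) (arc (fun t => w8 * γ t) (3/4) 1)
        (arc (fun t => w8 * γ t) (1/2) (3/4)) (arc (fun t => w8 * γ t) (1/4) (1/2))
        (jordanInterior fun t => w8 * γ t) e s F N v mb mc md) →
    ∀ k : ℕ, ∀ᶠ n in atTop,
      (∀ g ∈ XF 1 (Nk k (DT F (Ls s (δ n)))) (Nk k (arcT (Ls s (δ n)) v mb mc))
        (Nk k (arcT (Ls s (δ n)) v md N)), g ∉ Lit (δ n) (γs n)) ∧
      (tau hf).real (XF 1 (Nk k (DT F (Ls s (δ n)))) (Nk k (arcT (Ls s (δ n)) v mb mc))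
        (Nk k (arcT (Ls s (δ n)) v md N))) ≤ 1 - (arcCrossingProb (δ n) (γs n)).toReal := by
  obtain ⟨e0, he0, hsep⟩ := arc_sep hγ isClosed_Icc isClosed_Icc
    (Icc_subset_Icc (by norm_num) (by norm_num)) (Icc_subset_Icc (by norm_num) (by norm_num))
    (ne_BE hγ)
  refine ⟨e0, he0, fun e s F N v mb mc md he hP k => ?_⟩
  have hcov1 : ∀ t ∈ Icc (0:ℝ) 1, t ∈ Icc (1/4 : ℝ) (1/2) ∨ t ∈ Icc (3/4 : ℝ) 1 ∨
      t ∈ Icc (0 : ℝ) (1/4) ∪ Icc (1/2) (3/4) := by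
    intro t ht
    rcases le_total t (1/4) with h | h
    · exact Or.inr (Or.inr (Or.inl ⟨ht.1, h⟩))
    rcases le_total t (1/2) with h' | h'
    · exact Or.inl ⟨h, h'⟩
    rcases le_total t (3/4) with h'' | h''
    · exact Or.inr (Or.inr (Or.inr ⟨h', h''⟩))
    · exact Or.inr (Or.inl ⟨h'', ht.2⟩)
  have hA : Icc (0 : ℝ) (1/4) ⊆ Icc 0 1 := Icc_subset_Icc (by norm_num) (by norm_num)
  have hC : Icc (1/2 : ℝ) (3/4) ⊆ Icc 0 1 := Icc_subset_Icc (by norm_num) (by norm_num)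
  have key : ∀ᶠ n in atTop, ∀ g ∈ XF 1 (Nk k (DT F (Ls s (δ n))))
      (Nk k (arcT (Ls s (δ n)) v mb mc)) (Nk k (arcT (Ls s (δ n)) v md N)),
      g ∉ Lit (δ n) (γs n) := by
    rcases hP with hP | hP
    · filter_upwards [env_ev hγ hne (fun n => (hγs n).1) hu hδ hδ0 isClosed_Icc isClosed_Icc hA hC
        hcov1 (hsep e he) hP k] with n hn g hg
      exact odd_lit (hδ n) (hγs n) hn.1 hn.2.1 hn.2.2 hg
    · filter_upwards [env_ev hγ hne (fun n => (hγs n).1) hu hδ hδ0 isClosed_Icc isClosed_Icc hA hC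
        (fun t ht => by rcases hcov1 t ht with h | h | h
                        · exact Or.inr (Or.inl h)
                        · exact Or.inl h
                        · exact Or.inr (Or.inr h))
        (fun t ht t' ht' => by rw [norm_sub_rev]; exact hsep e he t' ht' t ht) hP k] with n hn g hg
      exact odd_lit (hδ n) (hγs n) hn.1.swap hn.2.2 hn.2.1 (XF_symm hg)
  filter_upwards [key] with n hn
  exact ⟨hn, disj_lit hn⟩

/-- **(S-)**: in a polygon with the arcs `A`, `C` outside (either orientation), primal crossings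
between them give the literal crossing. -/
theorem sminus : ∃ e0 : ℝ, 0 < e0 ∧ ∀ (e s : ℝ) (F : Set P2) (N : ℕ) (v : ℕ → P2) (mb mc md : ℕ),
    e ≤ e0 →
    (SPoly (arc (fun t => w8 * γ t) (1/4) (1/2)) (arc (fun t => w8 * γ t) (1/2) (3/4))
        (arc (fun t => w8 * γ t) (3/4) 1) (arc (fun t => w8 * γ t) 0 (1/4))
        (jordanInterior fun t => w8 * γ t) e s F N v mb mc md ∨
     SPoly (arc (fun t => w8 * γ t) (1/4) (1/2)) (arc (fun t => w8 * γ t) 0 (1/4))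
        (arc (fun t => w8 * γ t) (3/4) 1) (arc (fun t => w8 * γ t) (1/2) (3/4))
        (jordanInterior fun t => w8 * γ t) e s F N v mb mc md) →
    ∀ k : ℕ, ∀ᶠ n in atTop,
      (∀ g ∈ XF 0 (Nk k (DT F (Ls s (δ n)))) (Nk k (arcT (Ls s (δ n)) v mb mc))
        (Nk k (arcT (Ls s (δ n)) v md N)), g ∈ Lit (δ n) (γs n)) ∧
      (tau hf).real (XF 0 (Nk k (DT F (Ls s (δ n)))) (Nk k (arcT (Ls s (δ n)) v mb mc))
        (Nk k (arcT (Ls s (δ n)) v md N))) ≤ (arcCrossingProb (δ n) (γs n)).toReal := by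
  obtain ⟨e0, he0, hsep⟩ := arc_sep hγ isClosed_Icc isClosed_Icc
    (Icc_subset_Icc (by norm_num) (by norm_num)) (Icc_subset_Icc (by norm_num) (by norm_num))
    (ne_AC hγ)
  refine ⟨e0, he0, fun e s F N v mb mc md he hP k => ?_⟩
  have hcov1 : ∀ t ∈ Icc (0:ℝ) 1, t ∈ Icc (0 : ℝ) (1/4) ∨ t ∈ Icc (1/2 : ℝ) (3/4) ∨
      t ∈ Icc (1/4 : ℝ) (1/2) ∪ Icc (3/4) 1 := by
    intro t ht
    rcases le_total t (1/4) with h | h
    · exact Or.inl ⟨ht.1, h⟩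
    rcases le_total t (1/2) with h' | h'
    · exact Or.inr (Or.inr (Or.inl ⟨h, h'⟩))
    rcases le_total t (3/4) with h'' | h''
    · exact Or.inr (Or.inl ⟨h', h''⟩)
    · exact Or.inr (Or.inr (Or.inr ⟨h'', ht.2⟩))
  have hB : Icc (1/4 : ℝ) (1/2) ⊆ Icc 0 1 := Icc_subset_Icc (by norm_num) (by norm_num)
  have hE : Icc (3/4 : ℝ) 1 ⊆ Icc 0 1 := Icc_subset_Icc (by norm_num) (by norm_num)
  have key : ∀ᶠ n in atTop, ∀ g ∈ XF 0 (Nk k (DT F (Ls s (δ n))))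
      (Nk k (arcT (Ls s (δ n)) v mb mc)) (Nk k (arcT (Ls s (δ n)) v md N)),
      g ∈ Lit (δ n) (γs n) := by
    rcases hP with hP | hP
    · filter_upwards [env_ev hγ hne (fun n => (hγs n).1) hu hδ hδ0 isClosed_Icc isClosed_Icc hB hE
        (fun t ht => by rcases hcov1 t ht with h | h | h
                        · exact Or.inr (Or.inl h)
                        · exact Or.inl h
                        · exact Or.inr (Or.inr h))
        (fun t ht t' ht' => by rw [norm_sub_rev]; exact hsep e he t' ht' t ht) hP k] with n hn g hg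
      exact lit_symm (even_lit (hδ n) (hγs n) hn.1 hn.2.1 hn.2.2 hg)
    · filter_upwards [env_ev hγ hne (fun n => (hγs n).1) hu hδ hδ0 isClosed_Icc isClosed_Icc hB hE
        hcov1 (hsep e he) hP k] with n hn g hg
      exact even_lit (hδ n) (hγs n) hn.1 hn.2.1 hn.2.2 hg
  filter_upwards [key] with n hn
  exact ⟨hn, le_lit hn⟩

end final

end

end Crest.Agent.R158.Spl949
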