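import Crest.Agent.R158.Spl5_949
import Crest.Agent.R158.SplC_331

/-!
# Row 158 (S0237), block SPL (helper949), file 6: existence of the polygons of (S+) and (S-)
-/

set_option autoImplicit false

namespace Crest.Agent.R158.Spl949

open Set Filter Topology Metric Crest.Agent.R158.Jt785 Crest.Agent.R158.Sp896
open Crest.Agent.R158.Spl331 Crest.Agent.R161.Geo729
open Crest.ProbabilityR.Percolation

noncomputable section

variable {γ : ℝ → ℂ} {φ : ℂ → ℂ}

theorem unif_rot (h : Unif γ φ) : Unif (fun t => w8 * γ t) (fun z => φ (w8⁻¹ * z)) := by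
  have hw := w8_ne
  have e1 : ∀ z, w8⁻¹ * (w8 * z) = z := fun z => by field_simp
  have e2 : ∀ z, w8 * (w8⁻¹ * z) = z := fun z => by field_simp
  have hc : ∀ z, z ∈ closure (jordanInterior fun t => w8 * γ t) ↔
      w8⁻¹ * z ∈ closure (jordanInterior γ) := fun z => by
    have := closure_ji_rot (γ := γ) hw (w8⁻¹ * z)
    rwa [e2] at this
  refine ⟨jordan_rot hw h.jc, ?_, ?_, ?_⟩
  · exact h.cont.comp (by fun_prop) fun z hz => (hc z).1 hz
  · intro z hz z' hz' hzz
    have := h.inj ((hc z).1 hz) ((hc z').1 hz') hzz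
    rw [← e2 z, this, e2]
  · rw [← h.img, ji_rot_eq hw, image_image]
    exact image_congr fun z _ => by rw [e1]

theorem unif_rot' (h : Unif γ φ) : ∃ ψ, Unif (fun t => w8 * γ t) ψ := ⟨_, unif_rot h⟩

/-- polygons for (S+) -/
theorem exists_up (h : Unif γ φ) {e s0 : ℝ} (he : 0 < e) (hs0 : 0 < s0) :
    ∃ (s : ℝ) (F : Set P2) (N : ℕ) (v : ℕ → P2) (mb mc md : ℕ), s < s0 ∧
      (SPoly (arc (fun t => w8 * γ t) 0 (1/4)) (arc (fun t => w8 * γ t) (1/4) (1/2))
          (arc (fun t => w8 * γ t) (1/2) (3/4)) (arc (fun t => w8 * γ t) (3/4) 1)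
          (jordanInterior fun t => w8 * γ t) e s F N v mb mc md ∨
       SPoly (arc (fun t => w8 * γ t) 0 (1/4)) (arc (fun t => w8 * γ t) (3/4) 1)
          (arc (fun t => w8 * γ t) (1/2) (3/4)) (arc (fun t => w8 * γ t) (1/4) (1/2))
          (jordanInterior fun t => w8 * γ t) e s F N v mb mc md) :=
  sp_exists (unif_rot h) he hs0

/-- polygons for (S-) -/
theorem exists_lo (h : Unif γ φ) {e s0 : ℝ} (he : 0 < e) (hs0 : 0 < s0) :
    ∃ (s : ℝ) (F : Set P2) (N : ℕ) (v : ℕ → P2) (mb mc md : ℕ), s < s0 ∧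
      (SPoly (arc (fun t => w8 * γ t) (1/4) (1/2)) (arc (fun t => w8 * γ t) (1/2) (3/4))
          (arc (fun t => w8 * γ t) (3/4) 1) (arc (fun t => w8 * γ t) 0 (1/4))
          (jordanInterior fun t => w8 * γ t) e s F N v mb mc md ∨
       SPoly (arc (fun t => w8 * γ t) (1/4) (1/2)) (arc (fun t => w8 * γ t) 0 (1/4))
          (arc (fun t => w8 * γ t) (3/4) 1) (arc (fun t => w8 * γ t) (1/2) (3/4))
          (jordanInterior fun t => w8 * γ t) e s F N v mb mc md) := by
  have hr := unif_rot h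
  have h01 : (fun t => w8 * γ t) 0 = (fun t => w8 * γ t) 1 := hr.jc.2.2
  have h1 := sp_exists (sh_unif hr) he hs0
  have a1 : arc (sh fun t => w8 * γ t) 0 (1/4) = arc (fun t => w8 * γ t) (1/4) (1/2) := sh_A
  have a2 : arc (sh fun t => w8 * γ t) (1/4) (1/2) = arc (fun t => w8 * γ t) (1/2) (3/4) := sh_B
  have a3 : arc (sh fun t => w8 * γ t) (1/2) (3/4) = arc (fun t => w8 * γ t) (3/4) 1 := sh_C h01
  have a4 : arc (sh fun t => w8 * γ t) (3/4) 1 = arc (fun t => w8 * γ t) 0 (1/4) := sh_E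
  rw [a1, a2, a3, a4, sh_ji h01] at h1
  exact h1

end

end Crest.Agent.R158.Spl949
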