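import Crest.Agent.R158.Spl5_949
import Crest.Agent.R158.Tj2_656

/-!
# Row 158 (S0237), block SPL (helper949), file 7: (S+) and (S-) in 656's frozen form
-/

set_option autoImplicit false

namespace Crest.Agent.R158.Spl949

open Set Filter Topology Metric MeasureTheory Crest.Agent.R158.Jt785 Crest.Agent.R158.Sp896
open Crest.Agent.R158.Spl331 Crest.Agent.R161.Geo729 Crest.Agent.R158.Mr679
open Crest.Agent.R158.Cb771 Crest.Agent.R158.Rs689
open Crest.Agent.R158.Tj656 (P4 Sp Sm XP)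
open Crest.ProbabilityR.Percolation

noncomputable section

theorem w8_eq : w8 = Tj656.ww := by
  unfold Tj656.ww
  rw [Complex.exp_mul_I]
  apply Complex.ext
  · simp only [w8, Complex.add_re, Complex.mul_re, Complex.I_re, Complex.I_im, mul_zero, mul_one,
      zero_sub]
    rw [Complex.cos_ofReal_re, Complex.sin_ofReal_im, Real.cos_pi_div_four]
    ring
  · simp only [w8, Complex.add_im, Complex.mul_im, Complex.I_re, Complex.I_im, mul_zero, mul_one]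
    rw [Complex.cos_ofReal_im, Complex.sin_ofReal_re, Real.sin_pi_div_four]
    ring

theorem Ls_cast {s d : ℝ} (hs : 0 < s) (hd : 0 < d) : Tj656.Ls s d = ((Ls s d : ℕ) : ℤ) := by
  unfold Tj656.Ls Ls
  have h : 0 ≤ s / (Real.sqrt 2 * d) := by
    have := s2_pos
    positivity
  push_cast
  rw [Int.natCast_floor_eq_floor h]

theorem Nk_sub {k : ℤ} {S S' : Set P2} (hS : S ⊆ S') : Tj656.Nk k S ⊆ Nk k.toNat S' := by
  rintro x ⟨y, hy, h1, h2⟩
  have h3 := abs_nonneg (x.1 - y.1)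
  refine ⟨y, hS hy, ?_, ?_⟩
  · rw [Int.toNat_of_nonneg (h3.trans h1)]; exact h1
  · rw [Int.toNat_of_nonneg (h3.trans h1)]; exact h2

theorem DT_cast (F : Set P2) (L : ℕ) : Tj656.DT F (L : ℤ) = DT F L := rfl

theorem arcT_sub {L : ℕ} {v v0 : ℕ → P2} {c m0 m1 n0 n1 : ℕ} (hv : ∀ i, v i = v0 (i + c))
    (h0 : m0 + c = n0) (h1 : m1 + c = n1) : Tj656.arcT (L : ℤ) v m0 m1 ⊆ arcT L v0 n0 n1 := by
  rintro f ⟨m, r, h2, h3, h4, h5, rfl⟩
  refine ⟨m + c, by omega, by omega, r.toNat, by omega, ?_⟩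
  rw [Int.toNat_of_nonneg h4, hv, hv, show m + 1 + c = m + c + 1 by omega]

theorem arcT_per {L : ℕ} {v0 : ℕ → P2} {N m0 m1 : ℕ} (hv : ∀ i, v0 (i + N) = v0 i) :
    arcT L v0 (m0 + N) (m1 + N) ⊆ arcT L v0 m0 m1 := by
  rintro f ⟨m, h2, h3, r, h4, rfl⟩
  refine ⟨m - N, by omega, by omega, r, h4, ?_⟩
  have e1 : v0 m = v0 (m - N) := by
    conv_lhs => rw [show m = (m - N) + N by omega]
    exact hv _
  have e2 : v0 (m + 1) = v0 (m - N + 1) := by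
    conv_lhs => rw [show m + 1 = (m - N + 1) + N by omega]
    exact hv _
  rw [e1, e2]

section final

variable {γ : ℝ → ℂ} {γs : ℕ → ℝ → ℂ} {δ : ℕ → ℝ} (hγ : IsJordanCurve γ)
  (hne : (jordanInterior γ).Nonempty)
  (hγs : ∀ n, IsGridPolygon (δ n) (γs n)) (hu : TendstoUniformlyOn γs γ atTop (Icc 0 1))
  (hδ : ∀ n, 0 < δ n) (hδ0 : Tendsto δ atTop (𝓝 0))

include hγ hne hγs hu hδ hδ0

/-- **(S+) in 656's form** -/
theorem sp_of : ∃ e0 : ℝ, 0 < e0 ∧ ∀ (e s : ℝ) (P : P4), e ≤ e0 →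
    (SPoly (arc (fun t => w8 * γ t) 0 (1/4)) (arc (fun t => w8 * γ t) (1/4) (1/2))
        (arc (fun t => w8 * γ t) (1/2) (3/4)) (arc (fun t => w8 * γ t) (3/4) 1)
        (jordanInterior fun t => w8 * γ t) e s (↑P.F) P.N P.v P.mb P.mc P.md ∨
     SPoly (arc (fun t => w8 * γ t) 0 (1/4)) (arc (fun t => w8 * γ t) (3/4) 1)
        (arc (fun t => w8 * γ t) (1/2) (3/4)) (arc (fun t => w8 * γ t) (1/4) (1/2))
        (jordanInterior fun t => w8 * γ t) e s (↑P.F) P.N P.v P.mb P.mc P.md) →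
    Sp s P δ (fun n => (arcCrossingProb (δ n) (γs n)).toReal) := by
  obtain ⟨e0, he0, h⟩ := splus hγ hne hγs hu hδ hδ0
  refine ⟨e0, he0, fun e s P he hP k => ?_⟩
  have hs : 0 < s := hP.elim (fun h => h.s_pos) fun h => h.s_pos
  filter_upwards [h e s _ _ _ _ _ _ he hP k.toNat] with n hn
  refine le_trans ?_ hn.2
  unfold P4.pp
  refine measureReal_mono ?_
  rw [Ls_cast hs (hδ n)]
  rintro g ⟨f0, f1, h1, h2, h3, h4⟩
  refine ⟨f0, f1, h1, Nk_sub (arcT_sub (c := 0) (fun i => rfl) rfl rfl) h3,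
    Nk_sub (arcT_sub (c := 0) (fun i => rfl) rfl rfl) h4, ?_⟩
  exact FP.mono (fun t ht => ⟨Nk_sub (le_of_eq (DT_cast _ _)) ht, rfl⟩) h2

/-- **(S-) in 656's form, first alternative** (rotation by `md0`) -/
theorem sm_of1 : ∃ e0 : ℝ, 0 < e0 ∧ ∀ (e s : ℝ) (P : P4) (v0 : ℕ → P2) (mb0 mc0 md0 : ℕ), e ≤ e0 →
    SPoly (arc (fun t => w8 * γ t) (1/4) (1/2)) (arc (fun t => w8 * γ t) (1/2) (3/4))
      (arc (fun t => w8 * γ t) (3/4) 1) (arc (fun t => w8 * γ t) 0 (1/4))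
      (jordanInterior fun t => w8 * γ t) e s (↑P.F) P.N v0 mb0 mc0 md0 →
    (∀ i, P.v i = v0 (i + md0)) → P.mb + md0 = P.N → P.mc = P.mb + mb0 → P.md = P.mb + mc0 →
    Sm s P δ (fun n => (arcCrossingProb (δ n) (γs n)).toReal) := by
  obtain ⟨e0, he0, h⟩ := sminus hγ hne hγs hu hδ hδ0
  refine ⟨e0, he0, fun e s P v0 mb0 mc0 md0 he hP hv hb hc hd k => ?_⟩
  have hs : 0 < s := hP.s_pos
  filter_upwards [h e s _ _ _ _ _ _ he (Or.inl hP) k.toNat] with n hn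
  refine le_trans ?_ hn.2
  unfold P4.pm
  refine measureReal_mono ?_
  rw [Ls_cast hs (hδ n)]
  rintro g ⟨f0, f1, h1, h2, h3, h4⟩
  apply XF_symm
  refine ⟨f0, f1, h1, Nk_sub (arcT_sub hv (by omega) hb) h3, ?_, ?_⟩
  · refine Nk_sub ?_ h4
    refine (arcT_sub hv (n0 := mb0 + P.N) (n1 := mc0 + P.N) (by omega) (by omega)).trans ?_
    exact arcT_per hP.cyc.per
  · exact FP.mono (fun t ht => ⟨Nk_sub (le_of_eq (DT_cast _ _)) ht, rfl⟩) h2

/-- **(S-) in 656's form, second alternative** (rotation by `mb0`, `P` is a polygon for `rv γ`) -/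
theorem sm_of2 : ∃ e0 : ℝ, 0 < e0 ∧ ∀ (e s : ℝ) (P : P4) (v0 : ℕ → P2) (mb0 mc0 md0 : ℕ), e ≤ e0 →
    SPoly (arc (fun t => w8 * γ t) (1/4) (1/2)) (arc (fun t => w8 * γ t) 0 (1/4))
      (arc (fun t => w8 * γ t) (3/4) 1) (arc (fun t => w8 * γ t) (1/2) (3/4))
      (jordanInterior fun t => w8 * γ t) e s (↑P.F) P.N v0 mb0 mc0 md0 →
    (∀ i, P.v i = v0 (i + mb0)) → P.mb + mb0 = mc0 → P.mc + mb0 = md0 → P.md + mb0 = P.N →
    Sm s P δ (fun n => (arcCrossingProb (δ n) (γs n)).toReal) := by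
  obtain ⟨e0, he0, h⟩ := sminus hγ hne hγs hu hδ hδ0
  refine ⟨e0, he0, fun e s P v0 mb0 mc0 md0 he hP hv hb hc hd k => ?_⟩
  have hs : 0 < s := hP.s_pos
  filter_upwards [h e s _ _ _ _ _ _ he (Or.inr hP) k.toNat] with n hn
  refine le_trans ?_ hn.2
  unfold P4.pm
  refine measureReal_mono ?_
  rw [Ls_cast hs (hδ n)]
  rintro g ⟨f0, f1, h1, h2, h3, h4⟩
  refine ⟨f0, f1, h1, Nk_sub (arcT_sub hv (by omega) hb) h3, Nk_sub (arcT_sub hv hc hd) h4, ?_⟩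
  exact FP.mono (fun t ht => ⟨Nk_sub (le_of_eq (DT_cast _ _)) ht, rfl⟩) h2

end final

end

end Crest.Agent.R158.Spl949
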