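import Crest.Agent.R158.Sq1_200

/-!
# Row 158, SEP leaf (helper200): cyclic order of the landing points of four arms

* `walk_chain` : a walk gives a mod 2 chain
* `cycle_potential` : a mod 2 cycle in the rectangle is the coboundary of a function on the faces that
  vanishes outside the rectangle
* `interlace_abs` : abstract interlacing
* `rv R w`, `be R w` : vertices and edges of the boundary of `[-R,R]²`, `w ∈ [-R, 7R)`
* `interlace` : the landing points of the open arms separate the exit edges of the dual arms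
-/

set_option autoImplicit false

noncomputable section

namespace Crest.Agent.R158.Sq200

open Crest.Agent.R161.Geo729 Crest.Agent.R161.Dual374 Crest.Agent.R161.Tas682
open Crest.Agent.R158.It200
open Finset

/-- point mass -/
def dl (u v : P2) : ZMod 2 := if v = u then 1 else 0

/-- one edge as a chain -/
def sgl (e : Edge) (e' : Edge) : ZMod 2 := if e' = e then 1 else 0

/-- boundary of a mod 2 chain -/
def bd (c : Edge → ZMod 2) (v : P2) : ZMod 2 :=
  c ((v.1, v.2), false) + c ((v.1, v.2), true) + c ((v.1 - 1, v.2), false) + c ((v.1, v.2 - 1), true)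

theorem two_self (x : ZMod 2) : x + x = 0 := by revert x; decide

theorem bd_add (c d : Edge → ZMod 2) (v : P2) : bd (c + d) v = bd c v + bd d v := by
  simp only [bd, Pi.add_apply]; ring

theorem bd_zero (v : P2) : bd 0 v = 0 := by simp [bd]

theorem bd_sgl (e : Edge) (v : P2) : bd (sgl e) v = dl (src e) v + dl (tgt e) v := by
  obtain ⟨⟨x, y⟩, s⟩ := e
  obtain ⟨a, b⟩ := v
  cases s
  · simp only [bd, sgl, dl, src, tgt, Prod.mk.injEq, and_true, Bool.true_eq_false,
      Bool.false_eq_true, and_false, if_false, add_zero]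
    congr 1
    congr 1
    apply propext
    constructor <;> rintro ⟨h1, h2⟩ <;> constructor <;> omega
  · simp only [bd, sgl, dl, src, tgt, Prod.mk.injEq, and_true, Bool.false_eq_true,
      and_false, if_false, add_zero, zero_add, if_true]
    congr 1
    congr 1
    apply propext
    constructor <;> rintro ⟨h1, h2⟩ <;> constructor <;> omega

/-- a walk gives a mod 2 chain supported by its edges -/
theorem walk_chain {Z : Edge → Prop} {u w : P2} (h : Relation.ReflTransGen (PStep Z) u w) :
    ∃ c : Edge → ZMod 2, (∀ e, c e ≠ 0 → Z e) ∧ ∀ v, bd c v = dl u v + dl w v := by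
  induction h with
  | refl => exact ⟨0, fun e h => absurd rfl h, fun v => by rw [bd_zero, two_self]⟩
  | tail _ hs ih =>
      obtain ⟨c, h1, h2⟩ := ih
      obtain ⟨e, he, hh⟩ := hs
      refine ⟨c + sgl e, fun e' h' => ?_, fun v => ?_⟩
      · by_cases h3 : e' = e
        · rw [h3]; exact he
        · apply h1
          intro h4
          apply h'
          rw [Pi.add_apply, h4, sgl, if_neg h3, add_zero]
      · rw [bd_add, h2, bd_sgl]
        rcases hh with ⟨rfl, rfl⟩ | ⟨rfl, rfl⟩
        · have := two_self (dl (src e) v)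
          linear_combination this
        · have := two_self (dl (tgt e) v)
          linear_combination this

/-- potential of a cycle -/
theorem cycle_potential {x0 x1 y0 y1 : ℤ} {c : Edge → ZMod 2}
    (hs : ∀ e, c e ≠ 0 → InE (Rect x0 x1 y0 y1) e) (hb : ∀ v, bd c v = 0) :
    ∃ g : P2 → ZMod 2, (∀ e, g (fA e) + g (fB e) = c e) ∧ ∀ f, OutF x0 x1 y0 y1 f → g f = 0 := by
  have hz : ∀ e, ¬ InE (Rect x0 x1 y0 y1) e → c e = 0 := fun e he => by
    by_contra h
    exact he (hs e h)
  have hzh : ∀ x y, ¬ (x0 ≤ x ∧ x + 1 ≤ x1 ∧ y0 ≤ y ∧ y ≤ y1) → c ((x, y), false) = 0 := by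
    intro x y h
    apply hz
    simp only [InE, Rect, src, tgt, Set.mem_setOf_eq, Bool.false_eq_true, if_false]
    omega
  have hzv : ∀ x y, ¬ (x0 ≤ x ∧ x ≤ x1 ∧ y0 ≤ y ∧ y + 1 ≤ y1) → c ((x, y), true) = 0 := by
    intro x y h
    apply hz
    simp only [InE, Rect, src, tgt, Set.mem_setOf_eq, if_true]
    omega
  obtain ⟨g, g1, g2, g3⟩ := poincare (fun p => c ((p.1 + 1, p.2), true))
    (fun p => c ((p.1, p.2 + 1), false)) (x0 - 1)
    (fun i j h => by
      show c ((i + 1, j), true) = 0
      exact hzv _ _ (by omega))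
    (fun i j h => by
      show c ((i, j + 1), false) = 0
      exact hzh _ _ (by omega))
    (fun i j => by
      show c ((i + 1, j), true) + c ((i + 1, j + 1), false)
        = c ((i, j + 1), false) + c ((i + 1, j + 1), true)
      have h1 := hb (i + 1, j + 1)
      simp only [bd] at h1
      rw [show i + 1 - 1 = i by ring, show j + 1 - 1 = j by ring] at h1
      have t1 := two_self (c ((i, j + 1), false))
      have t2 := two_self (c ((i + 1, j + 1), true))
      linear_combination h1 - t1 - t2)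
  refine ⟨g, ?_, ?_⟩
  · rintro ⟨⟨x, y⟩, s⟩
    cases s
    · have h := g2 x (y - 1)
      rw [show y - 1 + 1 = y by ring] at h
      simp only at h
      rw [fA_mk, fB_h, h]
      have t := two_self (g (x, y - 1))
      linear_combination t
    · have h := g1 (x - 1) y
      rw [show x - 1 + 1 = x by ring] at h
      simp only at h
      rw [fA_mk, fB_v, h]
      have t := two_self (g (x - 1, y))
      linear_combination t
  · rintro ⟨i, j⟩ hf
    simp only [OutF] at hf
    by_cases hi : i ≤ x0 - 1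
    · exact g3 i j hi
    · -- rows below / above
      have hrow : ∀ j', (j' < y0 ∨ y1 ≤ j') → ∀ n : ℕ, g (x0 - 1 + n, j') = 0 := by
        intro j' hj' n
        induction n with
        | zero => exact g3 _ _ (by simp)
        | succ n ih =>
            have h := g1 (x0 - 1 + n) j'
            rw [ih] at h
            simp only at h
            rw [hzv _ _ (by omega), add_zero] at h
            push_cast
            rw [← add_assoc]
            exact h
      by_cases hj : j < y0 ∨ y1 ≤ j
      · have := hrow j hj (i - (x0 - 1)).toNat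
        rwa [show x0 - 1 + ((i - (x0 - 1)).toNat : ℤ) = i by omega] at this
      · have hi1 : x1 ≤ i := by
          by_contra h
          apply hf
          omega
        have hcol : ∀ n : ℕ, g (i, y0 - 1 + n) = 0 := by
          intro n
          induction n with
          | zero =>
              have := hrow (y0 - 1) (Or.inl (by omega)) (i - (x0 - 1)).toNat
              rw [show x0 - 1 + ((i - (x0 - 1)).toNat : ℤ) = i by omega] at this
              simpa using this
          | succ n ih =>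
              have h := g2 i (y0 - 1 + n)
              rw [ih] at h
              simp only at h
              rw [hzh _ _ (by omega), add_zero] at h
              push_cast
              rw [← add_assoc]
              exact h
        have := hcol (j - (y0 - 1)).toNat
        rwa [show y0 - 1 + ((j - (y0 - 1)).toNat : ℤ) = j by omega] at this

/-- dual steps whose edges carry no mass do not change the potential -/
theorem pot_path {c : Edge → ZMod 2} {g : P2 → ZMod 2} (hg : ∀ e, g (fA e) + g (fB e) = c e)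
    {Z : Edge → Prop} (hZ : ∀ e, Z e → c e = 0) {f f' : P2}
    (h : Relation.ReflTransGen (DStep Z) f f') : g f = g f' := by
  induction h with
  | refl => rfl
  | tail _ hs ih =>
      obtain ⟨e, he, hh⟩ := hs
      have h1 := hg e
      rw [hZ e he] at h1
      have h2 : g (fA e) = g (fB e) := by
        have t := two_self (g (fB e))
        linear_combination h1 - t
      rcases hh with ⟨rfl, rfl⟩ | ⟨rfl, rfl⟩
      · rw [ih, h2]
      · rw [ih, h2]

/-- edges of the rectangle with both faces inside -/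
def Inn (x0 x1 y0 y1 : ℤ) (e : Edge) : Prop := ¬ OutF x0 x1 y0 y1 (fA e) ∧ ¬ OutF x0 x1 y0 y1 (fB e)

/-- **abstract interlacing.**  `A` is a mod 2 chain of boundary edges with boundary `x_u + x_v`.  The open
arms go from the end points of the inner edge `e` to `x_u`, `x_v`; the dual arms go from the faces of `e`
through inner closed edges to inner faces of the closed boundary edges `b₁`, `b₂`.  Then
`A b₁ + A b₂ = 1`. -/
theorem interlace_abs {z : Cf} {x0 x1 y0 y1 : ℤ} {e b1 b2 : Edge} {xu xv f1 f2 g1 g2 : P2}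
    {A : Edge → ZMod 2} (hA : ∀ e', A e' ≠ 0 → InE (Rect x0 x1 y0 y1) e' ∧ ¬ Inn x0 x1 y0 y1 e')
    (hbA : ∀ v, bd A v = dl xu v + dl xv v)
    (hein : InE (Rect x0 x1 y0 y1) e) (he : Inn x0 x1 y0 y1 e)
    (h1 : OCe z (Rect x0 x1 y0 y1) e (src e) xu) (h2 : OCe z (Rect x0 x1 y0 y1) e (tgt e) xv)
    (d1 : Relation.ReflTransGen (DStep (fun e' => z e' = false ∧ e' ≠ e ∧ Inn x0 x1 y0 y1 e'))
      (fA e) f1)
    (d2 : Relation.ReflTransGen (DStep (fun e' => z e' = false ∧ e' ≠ e ∧ Inn x0 x1 y0 y1 e'))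
      (fB e) f2)
    (hb1 : z b1 = false ∧ b1 ≠ e) (hb2 : z b2 = false ∧ b2 ≠ e)
    (c1 : (f1 = fA b1 ∧ g1 = fB b1) ∨ (f1 = fB b1 ∧ g1 = fA b1))
    (c2 : (f2 = fA b2 ∧ g2 = fB b2) ∨ (f2 = fB b2 ∧ g2 = fA b2))
    (o1' : OutF x0 x1 y0 y1 g1) (o2' : OutF x0 x1 y0 y1 g2) :
    A b1 + A b2 = 1 := by
  obtain ⟨cu, cu1, cu2⟩ := walk_chain h1
  obtain ⟨cv, cv1, cv2⟩ := walk_chain h2
  set c : Edge → ZMod 2 := cu + cv + sgl e + A with hc
  have hsupp : ∀ e', c e' ≠ 0 → InE (Rect x0 x1 y0 y1) e' := by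
    intro e' h
    by_contra hn
    apply h
    have a1 : cu e' = 0 := by by_contra h'; exact hn (cu1 e' h').2.2
    have a2 : cv e' = 0 := by by_contra h'; exact hn (cv1 e' h').2.2
    have a3 : A e' = 0 := by by_contra h'; exact hn (hA e' h').1
    have a4 : sgl e e' = 0 := by
      unfold sgl
      rw [if_neg]
      rintro rfl
      exact hn hein
    simp only [hc, Pi.add_apply, a1, a2, a3, a4, add_zero]
  have hbd : ∀ v, bd c v = 0 := by
    intro v
    rw [hc, bd_add, bd_add, bd_add, cu2, cv2, bd_sgl, hbA]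
    have t1 := two_self (dl (src e) v)
    have t2 := two_self (dl (tgt e) v)
    have t3 := two_self (dl xu v)
    have t4 := two_self (dl xv v)
    linear_combination t1 + t2 + t3 + t4
  obtain ⟨g, hg, hout⟩ := cycle_potential hsupp hbd
  have hcu : ∀ e', z e' = false → cu e' = 0 := by
    intro e' h
    by_contra h'
    have := (cu1 e' h').1
    rw [h] at this
    exact absurd this (by simp)
  have hcv : ∀ e', z e' = false → cv e' = 0 := by
    intro e' h
    by_contra h'
    have := (cv1 e' h').1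
    rw [h] at this
    exact absurd this (by simp)
  have hcz : ∀ e', z e' = false → e' ≠ e → c e' = A e' := by
    intro e' h h'
    simp only [hc, Pi.add_apply, hcu e' h, hcv e' h, sgl, if_neg h', zero_add]
  have hce : c e = 1 := by
    have a1 : cu e = 0 := by by_contra h'; exact (cu1 e h').2.1 rfl
    have a2 : cv e = 0 := by by_contra h'; exact (cv1 e h').2.1 rfl
    have a3 : A e = 0 := by by_contra h'; exact (hA e h').2 he
    simp only [hc, Pi.add_apply, a1, a2, a3, sgl, if_true, zero_add, add_zero]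
  have hZ : ∀ e', (z e' = false ∧ e' ≠ e ∧ Inn x0 x1 y0 y1 e') → c e' = 0 := by
    rintro e' ⟨a1, a2, a3⟩
    rw [hcz e' a1 a2]
    by_contra h
    exact (hA e' h).2 a3
  have p1 := pot_path hg hZ d1
  have p2 := pot_path hg hZ d2
  have q1 : g f1 = A b1 := by
    have h3 := hg b1
    rw [hcz b1 hb1.1 hb1.2] at h3
    have h4 := hout _ o1'
    rcases c1 with ⟨r1, r2⟩ | ⟨r1, r2⟩ <;> rw [← r1, ← r2, h4] at h3 <;> simpa using h3
  have q2 : g f2 = A b2 := by
    have h3 := hg b2
    rw [hcz b2 hb2.1 hb2.2] at h3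
    have h4 := hout _ o2'
    rcases c2 with ⟨r1, r2⟩ | ⟨r1, r2⟩ <;> rw [← r1, ← r2, h4] at h3 <;> simpa using h3
  rw [← q1, ← q2, ← p1, ← p2, hg e, hce]

/-! ### the boundary ring of `[-R,R]²` -/

/-- boundary vertices, `w ∈ [-R, 7R]` -/
def rv (R w : ℤ) : P2 :=
  if w ≤ R then (R, w) else if w ≤ 3 * R then (2 * R - w, R)
  else if w ≤ 5 * R then (-R, 4 * R - w) else (w - 6 * R, -R)

/-- boundary edges, `w ∈ [-R, 7R)`; `be R w` joins `rv R w` and `rv R (w+1)` -/
def be (R w : ℤ) : Edge :=
  if w < R then ((R, w), true) else if w < 3 * R then ((2 * R - w - 1, R), false)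
  else if w < 5 * R then ((-R, 4 * R - w - 1), true) else ((w - 6 * R, -R), false)

theorem be_ends {R w : ℤ} (hR : 1 ≤ R) (h0 : -R ≤ w) (h1 : w < 7 * R) :
    (src (be R w) = rv R w ∧ tgt (be R w) = rv R (w + 1)) ∨
      (src (be R w) = rv R (w + 1) ∧ tgt (be R w) = rv R w) := by
  unfold be rv
  split_ifs <;> simp only [src, tgt, if_true, if_false, Bool.false_eq_true, Prod.mk.injEq,
    true_and, and_true, true_or, or_true] <;> omega

theorem be_inj {R w w' : ℤ} (hR : 1 ≤ R) (h0 : -R ≤ w) (h1 : w < 7 * R) (h0' : -R ≤ w')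
    (h1' : w' < 7 * R) (h : be R w = be R w') : w = w' := by
  unfold be at h
  split_ifs at h <;> simp only [Prod.mk.injEq, Bool.false_eq_true, Bool.true_eq_false,
    and_false, and_true] at h <;> omega

theorem rv_bd {R w : ℤ} (hR : 1 ≤ R) (h0 : -R ≤ w) (h1 : w < 7 * R) :
    BdV (-R) R (-R) R (rv R w) ∧ rv R w ∈ Rect (-R) R (-R) R := by
  unfold rv BdV Rect
  split_ifs <;> simp only [Set.mem_setOf_eq, true_or, or_true, true_and, and_true, le_refl] <;>
    omega

theorem exists_rv {R : ℤ} {v : P2} (hR : 1 ≤ R) (hv : v ∈ Rect (-R) R (-R) R)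
    (hb : BdV (-R) R (-R) R v) : ∃ w, -R ≤ w ∧ w < 7 * R ∧ rv R w = v := by
  obtain ⟨a, b⟩ := v
  simp only [Rect, Set.mem_setOf_eq] at hv
  simp only [BdV] at hb
  by_cases h1 : a = R
  · refine ⟨b, by omega, by omega, ?_⟩
    unfold rv
    rw [if_pos (by omega), h1]
  · by_cases h2 : b = R
    · refine ⟨2 * R - a, by omega, by omega, ?_⟩
      unfold rv
      rw [if_neg (by omega), if_pos (by omega)]
      simp only [Prod.mk.injEq]
      omega
    · by_cases h3 : a = -R
      · refine ⟨4 * R - b, by omega, by omega, ?_⟩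
        unfold rv
        rw [if_neg (by omega), if_neg (by omega), if_pos (by omega)]
        simp only [Prod.mk.injEq]
        omega
      · refine ⟨a + 6 * R, by omega, by omega, ?_⟩
        unfold rv
        rw [if_neg (by omega), if_neg (by omega), if_neg (by omega)]
        simp only [Prod.mk.injEq]
        omega

theorem be_not_inn {R w : ℤ} (hR : 1 ≤ R) (h0 : -R ≤ w) (h1 : w < 7 * R) :
    InE (Rect (-R) R (-R) R) (be R w) ∧ ¬ Inn (-R) R (-R) R (be R w) := by
  unfold be InE Inn OutF Rect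
  split_ifs <;> simp only [src, tgt, fA, fB, if_true, if_false, Bool.false_eq_true,
    Set.mem_setOf_eq] <;> omega

theorem exists_be {R : ℤ} {b : Edge} (hR : 1 ≤ R) (hb : InE (Rect (-R) R (-R) R) b)
    (h : ¬ Inn (-R) R (-R) R b) : ∃ w, -R ≤ w ∧ w < 7 * R ∧ be R w = b := by
  obtain ⟨⟨x, y⟩, s⟩ := b
  cases s
  · simp only [InE, Rect, Inn, OutF, src, tgt, fA, fB, if_false, Bool.false_eq_true,
      Set.mem_setOf_eq] at hb h
    by_cases h1 : y = R
    · refine ⟨2 * R - x - 1, by omega, by omega, ?_⟩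
      unfold be
      rw [if_neg (by omega), if_pos (by omega)]
      simp only [Prod.mk.injEq, and_true]
      omega
    · refine ⟨x + 6 * R, by omega, by omega, ?_⟩
      unfold be
      rw [if_neg (by omega), if_neg (by omega), if_neg (by omega)]
      simp only [Prod.mk.injEq, and_true]
      omega
  · simp only [InE, Rect, Inn, OutF, src, tgt, fA, fB, if_true,
      Set.mem_setOf_eq] at hb h
    by_cases h1 : x = R
    · refine ⟨y, by omega, by omega, ?_⟩
      unfold be
      rw [if_pos (by omega), h1]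
    · refine ⟨4 * R - y - 1, by omega, by omega, ?_⟩
      unfold be
      rw [if_neg (by omega), if_neg (by omega), if_pos (by omega)]
      simp only [Prod.mk.injEq, and_true]
      omega

/-- the boundary arc from `rv R s` to `rv R t` -/
def arc (R s t : ℤ) : Edge → ZMod 2 := fun e => ∑ w ∈ Finset.Ico s t, sgl (be R w) e

theorem arc_be {R s t w : ℤ} (hR : 1 ≤ R) (hs : -R ≤ s) (ht : t ≤ 7 * R) (h0 : -R ≤ w)
    (h1 : w < 7 * R) : arc R s t (be R w) = if s ≤ w ∧ w < t then 1 else 0 := by
  unfold arc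
  by_cases h : s ≤ w ∧ w < t
  · rw [if_pos h, Finset.sum_eq_single w]
    · unfold sgl; rw [if_pos rfl]
    · intro w' hw' hne
      rw [Finset.mem_Ico] at hw'
      unfold sgl
      rw [if_neg]
      intro h'
      exact hne (be_inj hR (by omega) (by omega) h0 h1 h'.symm)
    · intro h'
      exact absurd (Finset.mem_Ico.2 h) h'
  · rw [if_neg h]
    refine Finset.sum_eq_zero fun w' hw' => ?_
    rw [Finset.mem_Ico] at hw'
    unfold sgl
    rw [if_neg]
    intro h'
    have := be_inj hR (by omega) (by omega) h0 h1 h'.symm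
    omega

theorem arc_supp {R s t : ℤ} (hR : 1 ≤ R) (hs : -R ≤ s) (ht : t ≤ 7 * R) (e : Edge)
    (h : arc R s t e ≠ 0) : InE (Rect (-R) R (-R) R) e ∧ ¬ Inn (-R) R (-R) R e := by
  unfold arc at h
  obtain ⟨w, hw, hne⟩ := Finset.exists_ne_zero_of_sum_ne_zero h
  rw [Finset.mem_Ico] at hw
  have : e = be R w := by
    by_contra h'
    apply hne
    unfold sgl
    rw [if_neg h']
  rw [this]
  exact be_not_inn hR (by omega) (by omega)

theorem arc_succ {R s : ℤ} (n : ℕ) :
    arc R s (s + (n + 1 : ℕ)) = arc R s (s + n) + sgl (be R (s + n)) := by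
  funext e
  unfold arc
  rw [Pi.add_apply]
  have : Finset.Ico s (s + ((n + 1 : ℕ) : ℤ)) = insert (s + (n : ℤ)) (Finset.Ico s (s + n)) := by
    ext w
    simp only [Finset.mem_Ico, Finset.mem_insert]
    push_cast
    omega
  rw [this, Finset.sum_insert (by simp), add_comm]

theorem arc_bd {R s t : ℤ} (hR : 1 ≤ R) (hs : -R ≤ s) (hst : s ≤ t) (ht : t ≤ 7 * R) (v : P2) :
    bd (arc R s t) v = dl (rv R s) v + dl (rv R t) v := by
  obtain ⟨n, rfl⟩ : ∃ n : ℕ, t = s + n := ⟨(t - s).toNat, by omega⟩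
  clear hst
  induction n with
  | zero =>
      have : arc R s (s + ((0 : ℕ) : ℤ)) = 0 := by
        funext e; unfold arc; simp
      rw [this, bd_zero]
      simp only [Nat.cast_zero, add_zero]
      rw [two_self]
  | succ n ih =>
      push_cast at ht
      rw [arc_succ, bd_add, ih (by omega), bd_sgl]
      have e1 : s + ((n + 1 : ℕ) : ℤ) = s + n + 1 := by push_cast; ring
      rw [e1]
      rcases be_ends hR (w := s + n) (by omega) (by omega) with ⟨h1, h2⟩ | ⟨h1, h2⟩ <;>
        rw [h1, h2]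
      · have := two_self (dl (rv R (s + n)) v)
        linear_combination this
      · have := two_self (dl (rv R (s + n)) v)
        linear_combination this

/-- first exit of a dual path from the rectangle -/
theorem first_exit {x0 x1 y0 y1 : ℤ} {Z : Edge → Prop} {f f' : P2}
    (h : Relation.ReflTransGen (DStep Z) f f') (hf : ¬ OutF x0 x1 y0 y1 f)
    (hf' : OutF x0 x1 y0 y1 f') :
    ∃ (b : Edge) (f1 g1 : P2), Z b ∧ ((f1 = fA b ∧ g1 = fB b) ∨ (f1 = fB b ∧ g1 = fA b)) ∧
      ¬ OutF x0 x1 y0 y1 f1 ∧ OutF x0 x1 y0 y1 g1 ∧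
      Relation.ReflTransGen (DStep (fun e' => Z e' ∧ Inn x0 x1 y0 y1 e')) f f1 := by
  induction h using Relation.ReflTransGen.head_induction_on with
  | refl => exact absurd hf' hf
  | @head f fm hs _ ih =>
      obtain ⟨b, hb, hh⟩ := hs
      by_cases hm : OutF x0 x1 y0 y1 fm
      · exact ⟨b, f, fm, hb, hh, hf, hm, .refl⟩
      · obtain ⟨b', f1, g1, p1, p2, p3, p4, p5⟩ := ih hm
        refine ⟨b', f1, g1, p1, p2, p3, p4, Relation.ReflTransGen.head ⟨b, ⟨hb, ?_⟩, hh⟩ p5⟩
        rcases hh with ⟨rfl, rfl⟩ | ⟨rfl, rfl⟩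
        · exact ⟨hf, hm⟩
        · exact ⟨hm, hf⟩

/-- **interlacing of the landing points.**  In the box `[-R,R]²`, `e` an inner edge, open arms
`src e → rv R s`, `tgt e → rv R t` off `e`, dual arms from `fA e`, `fB e` through inner closed edges to the
closed boundary edges `be R w₁`, `be R w₂`: exactly one of `w₁`, `w₂` lies in `[s, t)` (for `s ≤ t`). -/
theorem interlace {z : Cf} {R s t w1 w2 : ℤ} {e : Edge} {xu xv f1 f2 : P2} (hR : 1 ≤ R)
    (hs : -R ≤ s) (hst : s ≤ t) (ht : t < 7 * R) (h1l : -R ≤ w1) (h1r : w1 < 7 * R)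
    (h2l : -R ≤ w2) (h2r : w2 < 7 * R)
    (hx : (xu = rv R s ∧ xv = rv R t) ∨ (xu = rv R t ∧ xv = rv R s))
    (hein : InE (Rect (-R) R (-R) R) e) (he : Inn (-R) R (-R) R e)
    (h1 : OCe z (Rect (-R) R (-R) R) e (src e) xu) (h2 : OCe z (Rect (-R) R (-R) R) e (tgt e) xv)
    (d1 : Relation.ReflTransGen (DStep (fun e' => z e' = false ∧ e' ≠ e ∧ Inn (-R) R (-R) R e'))
      (fA e) f1)
    (d2 : Relation.ReflTransGen (DStep (fun e' => z e' = false ∧ e' ≠ e ∧ Inn (-R) R (-R) R e'))
      (fB e) f2)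
    (hb1 : z (be R w1) = false) (hb2 : z (be R w2) = false)
    (c1 : f1 = fA (be R w1) ∨ f1 = fB (be R w1)) (c2 : f2 = fA (be R w2) ∨ f2 = fB (be R w2)) :
    ((s ≤ w1 ∧ w1 < t) ∧ ¬ (s ≤ w2 ∧ w2 < t)) ∨ (¬ (s ≤ w1 ∧ w1 < t) ∧ (s ≤ w2 ∧ w2 < t)) := by
  have hne : ∀ w, -R ≤ w → w < 7 * R → be R w ≠ e := by
    intro w p1 p2 h
    exact (be_not_inn hR p1 p2).2 (h ▸ he)
  -- the end faces of the dual paths are inside
  have hin : ∀ {f f' : P2}, Relation.ReflTransGen
      (DStep (fun e' => z e' = false ∧ e' ≠ e ∧ Inn (-R) R (-R) R e')) f f' →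
      ¬ OutF (-R) R (-R) R f → ¬ OutF (-R) R (-R) R f' := by
    intro f f' h hf
    induction h with
    | refl => exact hf
    | tail _ hs' _ =>
        obtain ⟨e', ⟨_, _, h3⟩, ⟨_, rfl⟩ | ⟨_, rfl⟩⟩ := hs'
        · exact h3.2
        · exact h3.1
  have i1' := hin d1 he.1
  have i2' := hin d2 he.2
  have key : ∀ {w : ℤ} {f : P2}, -R ≤ w → w < 7 * R → ¬ OutF (-R) R (-R) R f →
      (f = fA (be R w) ∨ f = fB (be R w)) →
      ∃ g, ((f = fA (be R w) ∧ g = fB (be R w)) ∨ (f = fB (be R w) ∧ g = fA (be R w))) ∧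
        OutF (-R) R (-R) R g := by
    intro w f p1 p2 p3 p4
    have p5 := (be_not_inn hR p1 p2).2
    rcases p4 with p4 | p4
    · refine ⟨fB (be R w), Or.inl ⟨p4, rfl⟩, ?_⟩
      by_contra h
      exact p5 ⟨p4 ▸ p3, h⟩
    · refine ⟨fA (be R w), Or.inr ⟨p4, rfl⟩, ?_⟩
      by_contra h
      exact p5 ⟨h, p4 ▸ p3⟩
  obtain ⟨g1, q1, q1'⟩ := key h1l h1r i1' c1
  obtain ⟨g2, q2, q2'⟩ := key h2l h2r i2' c2
  have hbd : ∀ v, bd (arc R s t) v = dl xu v + dl xv v := by
    intro v
    rw [arc_bd hR hs hst ht.le]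
    rcases hx with ⟨rfl, rfl⟩ | ⟨rfl, rfl⟩
    · rfl
    · rw [add_comm]
  have main := interlace_abs (fun e' h => arc_supp hR hs ht.le e' h) hbd hein he h1 h2 d1 d2
    ⟨hb1, hne w1 h1l h1r⟩ ⟨hb2, hne w2 h2l h2r⟩ q1 q2 q1' q2'
  rw [arc_be hR hs ht.le h1l h1r, arc_be hR hs ht.le h2l h2r] at main
  by_cases A1 : s ≤ w1 ∧ w1 < t <;> by_cases A2 : s ≤ w2 ∧ w2 < t
  · rw [if_pos A1, if_pos A2] at main; exact absurd main (by decide)
  · exact Or.inl ⟨A1, A2⟩
  · exact Or.inr ⟨A1, A2⟩
  · rw [if_neg A1, if_neg A2] at main; exact absurd main (by decide)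

end Crest.Agent.R158.Sq200
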