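import Crest.Agent.R158.Kd2_458
import Crest.Agent.R158.Rs2_689

/-!
# Row 158, SEP leaf L2 (helper200): ring coordinates

* `rq q j t` : rotation number `q` of the cell `(j,t)`; `cel j w` : the cell number `w` of the ring `j`
  (ring `j` = boundary cells of `[-(j+1), j]²`), period `4 (2 j + 1)`
* `lv R w`, `le R w` : vertex and leaving edge of `[-R,R]²` between the ring faces `cel R (w-1)`, `cel R w`
* `ce R w` : the edge of the circle below the ring face `cel R w` (not at the corners)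
* `col_ring` : 458's colourings in ring coordinates
* `Wc` : the coarse coordinate; `near_coarse`, `order4`
-/

set_option autoImplicit false

noncomputable section

namespace Crest.Agent.R158.Sr200

open Crest.Agent.R161.Geo729 Crest.Agent.R161.Topo374 Crest.Agent.R161.Dual374
open Crest.Agent.R158.Kd458 Finset

/-- the cell `(j,t)` rotated `q` times -/
def rq (q j t : ℤ) : P2 :=
  if q % 4 = 0 then (j, t) else if q % 4 = 1 then (-1 - t, j)
  else if q % 4 = 2 then (-1 - j, -1 - t) else (t, -1 - j)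

/-- cell number `w` of the ring `j` -/
def cel (j w : ℤ) : P2 := rq ((w + j) / (2 * j + 1)) j (w - (w + j) / (2 * j + 1) * (2 * j + 1))

/-- boundary vertex of `[-R,R]²` -/
def lvq (q R t : ℤ) : P2 :=
  if q % 4 = 0 then (R, t) else if q % 4 = 1 then (-t, R)
  else if q % 4 = 2 then (-R, -t) else (t, -R)

/-- leaving edge -/
def leq (q R t : ℤ) : Edge :=
  if q % 4 = 0 then ((R, t), false) else if q % 4 = 1 then ((-t, R), true)
  else if q % 4 = 2 then ((-R - 1, -t), false) else ((t, -R - 1), true)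

/-- circle edge -/
def ceq (q R t : ℤ) : Edge :=
  if q % 4 = 0 then ((R, t), true) else if q % 4 = 1 then ((-t - 1, R), false)
  else if q % 4 = 2 then ((-R, -t - 1), true) else ((t, -R), false)

def lv (R w : ℤ) : P2 := lvq ((w + R) / (2 * R + 1)) R (w - (w + R) / (2 * R + 1) * (2 * R + 1))
def le (R w : ℤ) : Edge := leq ((w + R) / (2 * R + 1)) R (w - (w + R) / (2 * R + 1) * (2 * R + 1))
def ce (R w : ℤ) : Edge := ceq ((w + R) / (2 * R + 1)) R (w - (w + R) / (2 * R + 1) * (2 * R + 1))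

theorem div_mk {j q t : ℤ} (h1 : -j ≤ t) (h2 : t ≤ j) : (q * (2 * j + 1) + t + j) / (2 * j + 1) = q := by
  have h3 : (0 : ℤ) < 2 * j + 1 := by omega
  rw [show q * (2 * j + 1) + t + j = (t + j) + (2 * j + 1) * q by ring,
    Int.add_mul_ediv_left _ _ h3.ne', Int.ediv_eq_zero_of_lt (by omega) (by omega), zero_add]

theorem cel_mk {j q t : ℤ} (h1 : -j ≤ t) (h2 : t ≤ j) : cel j (q * (2 * j + 1) + t) = rq q j t := by
  unfold cel
  rw [div_mk h1 h2]
  congr 1
  ring

theorem lv_mk {j q t : ℤ} (h1 : -j ≤ t) (h2 : t ≤ j) : lv j (q * (2 * j + 1) + t) = lvq q j t := by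
  unfold lv
  rw [div_mk h1 h2]
  congr 1
  ring

theorem le_mk {j q t : ℤ} (h1 : -j ≤ t) (h2 : t ≤ j) : le j (q * (2 * j + 1) + t) = leq q j t := by
  unfold le
  rw [div_mk h1 h2]
  congr 1
  ring

theorem ce_mk {j q t : ℤ} (h1 : -j ≤ t) (h2 : t ≤ j) : ce j (q * (2 * j + 1) + t) = ceq q j t := by
  unfold ce
  rw [div_mk h1 h2]
  congr 1
  ring

theorem split {j : ℤ} (hj : 0 ≤ j) (w : ℤ) : ∃ q t, -j ≤ t ∧ t ≤ j ∧ w = q * (2 * j + 1) + t := by
  have h3 : (0 : ℤ) < 2 * j + 1 := by omega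
  have h4 := Int.emod_nonneg (w + j) h3.ne'
  have h5 := Int.emod_lt_of_pos (w + j) h3
  have h6 := Int.emod_add_mul_ediv (w + j) (2 * j + 1)
  refine ⟨(w + j) / (2 * j + 1), (w + j) % (2 * j + 1) - j, by omega, by omega, ?_⟩
  linarith

theorem q4 (q : ℤ) : q % 4 = 0 ∨ q % 4 = 1 ∨ q % 4 = 2 ∨ q % 4 = 3 := by omega

theorem rq_congr {q q' : ℤ} (h : q % 4 = q' % 4) (j t : ℤ) : rq q j t = rq q' j t := by
  unfold rq; rw [h]

theorem lvq_congr {q q' : ℤ} (h : q % 4 = q' % 4) (j t : ℤ) : lvq q j t = lvq q' j t := by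
  unfold lvq; rw [h]

theorem leq_congr {q q' : ℤ} (h : q % 4 = q' % 4) (j t : ℤ) : leq q j t = leq q' j t := by
  unfold leq; rw [h]

theorem ceq_congr {q q' : ℤ} (h : q % 4 = q' % 4) (j t : ℤ) : ceq q j t = ceq q' j t := by
  unfold ceq; rw [h]

/-- shift by periods -/
theorem cel_add {j : ℤ} (hj : 0 ≤ j) (w m : ℤ) : cel j (w + 4 * (2 * j + 1) * m) = cel j w := by
  obtain ⟨q, t, h1, h2, rfl⟩ := split hj w
  rw [show q * (2 * j + 1) + t + 4 * (2 * j + 1) * m = (q + 4 * m) * (2 * j + 1) + t by ring,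
    cel_mk h1 h2, cel_mk h1 h2]
  exact rq_congr (by omega) _ _

theorem lv_add {j : ℤ} (hj : 0 ≤ j) (w m : ℤ) : lv j (w + 4 * (2 * j + 1) * m) = lv j w := by
  obtain ⟨q, t, h1, h2, rfl⟩ := split hj w
  rw [show q * (2 * j + 1) + t + 4 * (2 * j + 1) * m = (q + 4 * m) * (2 * j + 1) + t by ring,
    lv_mk h1 h2, lv_mk h1 h2]
  exact lvq_congr (by omega) _ _

theorem le_add {j : ℤ} (hj : 0 ≤ j) (w m : ℤ) : le j (w + 4 * (2 * j + 1) * m) = le j w := by
  obtain ⟨q, t, h1, h2, rfl⟩ := split hj w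
  rw [show q * (2 * j + 1) + t + 4 * (2 * j + 1) * m = (q + 4 * m) * (2 * j + 1) + t by ring,
    le_mk h1 h2, le_mk h1 h2]
  exact leq_congr (by omega) _ _

theorem ce_add {j : ℤ} (hj : 0 ≤ j) (w m : ℤ) : ce j (w + 4 * (2 * j + 1) * m) = ce j w := by
  obtain ⟨q, t, h1, h2, rfl⟩ := split hj w
  rw [show q * (2 * j + 1) + t + 4 * (2 * j + 1) * m = (q + 4 * m) * (2 * j + 1) + t by ring,
    ce_mk h1 h2, ce_mk h1 h2]
  exact ceq_congr (by omega) _ _

/-- the ring `j` of cells -/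
def Rg (j : ℤ) (k : P2) : Prop :=
  (-1 - j ≤ k.1 ∧ k.1 ≤ j ∧ -1 - j ≤ k.2 ∧ k.2 ≤ j) ∧ (k.1 = j ∨ k.1 = -1 - j ∨ k.2 = j ∨ k.2 = -1 - j)

theorem rg_rq {q j t : ℤ} (h1 : -j ≤ t) (h2 : t ≤ j) : Rg j (rq q j t) := by
  unfold Rg rq
  split_ifs
  · exact ⟨⟨by simp only; omega, le_rfl, by simp only; omega, h2⟩, Or.inl rfl⟩
  · exact ⟨⟨by simp only; omega, by simp only; omega, by simp only; omega, le_rfl⟩,
      Or.inr (Or.inr (Or.inl rfl))⟩
  · exact ⟨⟨le_rfl, by simp only; omega, by simp only; omega, by simp only; omega⟩, Or.inr (Or.inl rfl)⟩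
  · exact ⟨⟨by simp only; omega, h2, le_rfl, by simp only; omega⟩, Or.inr (Or.inr (Or.inr rfl))⟩

theorem rg_cel {j : ℤ} (hj : 0 ≤ j) (w : ℤ) : Rg j (cel j w) := by
  obtain ⟨q, t, h1, h2, rfl⟩ := split hj w
  rw [cel_mk h1 h2]
  exact rg_rq h1 h2

theorem exists_rq {j : ℤ} {k : P2} (h : Rg j k) : ∃ q t, -j ≤ t ∧ t ≤ j ∧ rq q j t = k := by
  obtain ⟨x, y⟩ := k
  obtain ⟨⟨h1, h2, h3, h4⟩, h5⟩ := h
  simp only at h1 h2 h3 h4 h5
  by_cases a1 : x = j ∧ -j ≤ y
  · exact ⟨0, y, by omega, by omega, by unfold rq; rw [if_pos (by norm_num), a1.1]⟩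
  · by_cases a2 : y = j ∧ x ≤ j - 1
    · refine ⟨1, -1 - x, by omega, by omega, ?_⟩
      unfold rq
      rw [if_neg (by norm_num), if_pos (by norm_num), a2.1]
      ext <;> simp
    · by_cases a3 : x = -1 - j ∧ y ≤ j - 1
      · refine ⟨2, -1 - y, by omega, by omega, ?_⟩
        unfold rq
        rw [if_neg (by norm_num), if_neg (by norm_num), if_pos (by norm_num), a3.1]
        ext <;> simp
      · refine ⟨3, x, by omega, by omega, ?_⟩
        unfold rq
        rw [if_neg (by norm_num), if_neg (by norm_num), if_neg (by norm_num)]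
        ext <;> simp <;> omega

/-- translate a coordinate into a given period -/
theorem into_period {j : ℤ} (hj : 0 ≤ j) (B w : ℤ) :
    ∃ m, B ≤ w + 4 * (2 * j + 1) * m ∧ w + 4 * (2 * j + 1) * m < B + 4 * (2 * j + 1) := by
  have h3 : (0 : ℤ) < 4 * (2 * j + 1) := by omega
  have h4 := Int.emod_nonneg (w - B) h3.ne'
  have h5 := Int.emod_lt_of_pos (w - B) h3
  have h6 := Int.emod_add_mul_ediv (w - B) (4 * (2 * j + 1))
  refine ⟨-((w - B) / (4 * (2 * j + 1))), ?_, ?_⟩
  · rw [mul_neg]; linarith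
  · rw [mul_neg]; linarith

theorem exists_cel {j : ℤ} (hj : 0 ≤ j) {k : P2} (h : Rg j k) (B : ℤ) :
    ∃ w, B ≤ w ∧ w < B + 4 * (2 * j + 1) ∧ cel j w = k := by
  obtain ⟨q, t, h1, h2, h3⟩ := exists_rq h
  obtain ⟨m, hm1, hm2⟩ := into_period hj B (q * (2 * j + 1) + t)
  exact ⟨_, hm1, hm2, by rw [cel_add hj, cel_mk h1 h2, h3]⟩

theorem exists_lv {R : ℤ} (hR : 0 ≤ R) {v : P2} (hv : -R ≤ v.1 ∧ v.1 ≤ R ∧ -R ≤ v.2 ∧ v.2 ≤ R)
    (hb : v.1 = R ∨ v.1 = -R ∨ v.2 = R ∨ v.2 = -R) (B : ℤ) :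
    ∃ w, B ≤ w ∧ w < B + 4 * (2 * R + 1) ∧ lv R w = v := by
  have key : ∃ q t, -R ≤ t ∧ t ≤ R ∧ lvq q R t = v := by
    obtain ⟨x, y⟩ := v
    simp only at hv hb
    rcases hb with rfl | rfl | rfl | rfl
    · exact ⟨0, y, by omega, by omega, by unfold lvq; rw [if_pos (by norm_num)]⟩
    · exact ⟨2, -y, by omega, by omega, by
        unfold lvq; rw [if_neg (by norm_num), if_neg (by norm_num), if_pos (by norm_num)]
        ext <;> simp⟩
    · exact ⟨1, -x, by omega, by omega, by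
        unfold lvq; rw [if_neg (by norm_num), if_pos (by norm_num)]
        ext <;> simp⟩
    · exact ⟨3, x, by omega, by omega, by
        unfold lvq; rw [if_neg (by norm_num), if_neg (by norm_num), if_neg (by norm_num)]⟩
  obtain ⟨q, t, h1, h2, h3⟩ := key
  obtain ⟨m, hm1, hm2⟩ := into_period hR B (q * (2 * R + 1) + t)
  exact ⟨_, hm1, hm2, by rw [lv_add hR, lv_mk h1 h2, h3]⟩

/-- `le R w` leaves the box at `lv R w` -/
theorem out_le {R : ℤ} (hR : 0 ≤ R) (w : ℤ) : Out (-R) R (-R) R (le R w) (lv R w) := by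
  obtain ⟨q, t, h1, h2, rfl⟩ := split hR w
  rw [le_mk h1 h2, lv_mk h1 h2]
  unfold Out leq lvq
  split_ifs
  · exact Or.inl ⟨h1, h2, Or.inr ⟨rfl, rfl⟩⟩
  · exact Or.inr ⟨by simp only; omega, by simp only; omega, Or.inr ⟨rfl, rfl⟩⟩
  · exact Or.inl ⟨by simp only; omega, by simp only; omega, Or.inl ⟨rfl, rfl⟩⟩
  · exact Or.inr ⟨h1, h2, Or.inl ⟨rfl, rfl⟩⟩

/-- the faces of the leaving edge -/
theorem le_faces {R : ℤ} (hR : 0 ≤ R) (w : ℤ) :
    (fA (le R w) = cel R w ∧ fB (le R w) = cel R (w - 1)) ∨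
      (fA (le R w) = cel R (w - 1) ∧ fB (le R w) = cel R w) := by
  obtain ⟨q, t, h1, h2, rfl⟩ := split hR w
  rw [le_mk h1 h2, cel_mk h1 h2]
  by_cases ht : t = -R
  · rw [show q * (2 * R + 1) + t - 1 = (q - 1) * (2 * R + 1) + R by rw [ht]; ring,
      cel_mk (by omega) le_rfl]
    subst ht
    rcases q4 q with h | h | h | h
    · rw [rq_congr (q' := 0) (by omega), rq_congr (q := q - 1) (q' := 3) (by omega),
        leq_congr (q' := 0) (by omega)]
      simp [rq, leq]
      omega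
    · rw [rq_congr (q' := 1) (by omega), rq_congr (q := q - 1) (q' := 0) (by omega),
        leq_congr (q' := 1) (by omega)]
      simp [rq, leq]
      omega
    · rw [rq_congr (q' := 2) (by omega), rq_congr (q := q - 1) (q' := 1) (by omega),
        leq_congr (q' := 2) (by omega)]
      simp [rq, leq]
      omega
    · rw [rq_congr (q' := 3) (by omega), rq_congr (q := q - 1) (q' := 2) (by omega),
        leq_congr (q' := 3) (by omega)]
      simp [rq, leq]
      omega
  · rw [show q * (2 * R + 1) + t - 1 = q * (2 * R + 1) + (t - 1) by ring,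
      cel_mk (by omega) (by omega)]
    rcases q4 q with h | h | h | h
    · rw [rq_congr (q' := 0) (by omega), rq_congr (q := q) (q' := 0) (by omega),
        leq_congr (q' := 0) (by omega)]
      simp [rq, leq]
    · rw [rq_congr (q' := 1) (by omega), rq_congr (q := q) (q' := 1) (by omega),
        leq_congr (q' := 1) (by omega)]
      simp [rq, leq]
      omega
    · rw [rq_congr (q' := 2) (by omega), rq_congr (q := q) (q' := 2) (by omega),
        leq_congr (q' := 2) (by omega)]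
      simp [rq, leq]
      omega
    · rw [rq_congr (q' := 3) (by omega), rq_congr (q := q) (q' := 3) (by omega),
        leq_congr (q' := 3) (by omega)]
      simp [rq, leq]
      omega

theorem leq_inj {R q q' t t' : ℤ} (h1 : -R ≤ t) (h2 : t ≤ R) (h1' : -R ≤ t') (h2' : t' ≤ R)
    (h : leq q R t = leq q' R t') : q % 4 = q' % 4 ∧ t = t' := by
  unfold leq at h
  have hq := q4 q
  have hq' := q4 q'
  split_ifs at h <;> simp only [Prod.mk.injEq, Bool.false_eq_true, Bool.true_eq_false, and_false,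
    and_true] at h <;> omega

theorem ceq_inj {R q q' t t' : ℤ} (hR : 1 ≤ R) (h1 : -R ≤ t) (h2 : t < R) (h1' : -R ≤ t') (h2' : t' < R)
    (h : ceq q R t = ceq q' R t') : q % 4 = q' % 4 ∧ t = t' := by
  unfold ceq at h
  have hq := q4 q
  have hq' := q4 q'
  split_ifs at h <;> simp only [Prod.mk.injEq, Bool.false_eq_true, Bool.true_eq_false, and_false,
    and_true] at h <;> omega

theorem rq_inj {R q q' t t' : ℤ} (hR : 0 ≤ R) (h1 : -R ≤ t) (h2 : t ≤ R) (h1' : -R ≤ t') (h2' : t' ≤ R)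
    (h : rq q R t = rq q' R t') : q % 4 = q' % 4 ∧ t = t' := by
  unfold rq at h
  have hq := q4 q
  have hq' := q4 q'
  split_ifs at h <;> simp only [Prod.mk.injEq] at h <;> omega

/-- from residues to equality inside one period -/
theorem eq_of_period {j q q' t : ℤ} (hj : 0 ≤ j) (h : q % 4 = q' % 4)
    (h1 : q * (2 * j + 1) + t < q' * (2 * j + 1) + t + 4 * (2 * j + 1))
    (h2 : q' * (2 * j + 1) + t < q * (2 * j + 1) + t + 4 * (2 * j + 1)) : q = q' := by
  have h3 : (0 : ℤ) < 2 * j + 1 := by omega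
  have h4 : q < q' + 4 := by
    by_contra hc
    have : (q' + 4) * (2 * j + 1) ≤ q * (2 * j + 1) := by
      exact mul_le_mul_of_nonneg_right (by omega) h3.le
    linarith
  have h5 : q' < q + 4 := by
    by_contra hc
    have : (q + 4) * (2 * j + 1) ≤ q' * (2 * j + 1) := by
      exact mul_le_mul_of_nonneg_right (by omega) h3.le
    linarith
  omega

theorem le_inj {R w w' : ℤ} (hR : 0 ≤ R) (h : le R w = le R w') (h1 : w < w' + 4 * (2 * R + 1))
    (h2 : w' < w + 4 * (2 * R + 1)) : w = w' := by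
  obtain ⟨q, t, a1, a2, rfl⟩ := split hR w
  obtain ⟨q', t', b1, b2, rfl⟩ := split hR w'
  rw [le_mk a1 a2, le_mk b1 b2] at h
  obtain ⟨h3, rfl⟩ := leq_inj a1 a2 b1 b2 h
  rw [eq_of_period hR h3 h1 h2]

theorem cel_inj {R w w' : ℤ} (hR : 0 ≤ R) (h : cel R w = cel R w') (h1 : w < w' + 4 * (2 * R + 1))
    (h2 : w' < w + 4 * (2 * R + 1)) : w = w' := by
  obtain ⟨q, t, a1, a2, rfl⟩ := split hR w
  obtain ⟨q', t', b1, b2, rfl⟩ := split hR w'
  rw [cel_mk a1 a2, cel_mk b1 b2] at h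
  obtain ⟨h3, rfl⟩ := rq_inj hR a1 a2 b1 b2 h
  rw [eq_of_period hR h3 h1 h2]

/-- **colourings in ring coordinates** -/
theorem col_ring {R a b : ℤ} (hR : 0 ≤ R) (hab : a < b) (hb : b < a + 4 * (2 * R + 1)) {F : P2 → ZMod 2}
    (hF : IsCol (-R) R (-R) R (le R a) (le R b) F) {c : ℤ} (h1 : a ≤ c) (h2 : c < a + 4 * (2 * R + 1)) :
    F (cel R c) = F (cel R a) + (if c < b then 0 else 1) := by
  obtain ⟨n, rfl⟩ : ∃ n : ℕ, c = a + n := ⟨(c - a).toNat, by omega⟩
  clear h1
  induction n with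
  | zero => rw [if_pos (by push_cast; omega)]; simp
  | succ n ih =>
      push_cast at h2 ⊢
      have ih := ih (by omega)
      have hs := hF (le R (a + n + 1)) (lv R (a + n + 1)) (out_le hR _)
      have e1 : dl (le R a) (le R (a + n + 1)) = 0 := by
        apply ind_false
        intro h
        have := le_inj hR h (by omega) (by omega)
        omega
      have e2 : dl (le R b) (le R (a + n + 1)) = if a + (n : ℤ) + 1 = b then 1 else 0 := by
        by_cases h : a + (n : ℤ) + 1 = b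
        · rw [if_pos h, h]; exact ind_true rfl
        · rw [if_neg h]
          apply ind_false
          intro h'
          exact h (le_inj hR h' (by omega) (by omega))
      rw [e1, e2, zero_add] at hs
      have e3 : F (cel R (a + n + 1)) = F (cel R (a + n)) + if a + (n : ℤ) + 1 = b then 1 else 0 := by
        have z := zmod2_add_self (F (cel R (a + n)))
        rcases le_faces hR (a + n + 1) with ⟨p1, p2⟩ | ⟨p1, p2⟩
        · rw [p1, p2, show a + (n : ℤ) + 1 - 1 = a + n by ring] at hs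
          linear_combination hs - z
        · rw [p1, p2, show a + (n : ℤ) + 1 - 1 = a + n by ring] at hs
          linear_combination hs - z
      rw [show a + ((n : ℤ) + 1) = a + n + 1 by ring, e3, ih]
      by_cases h3 : a + (n : ℤ) < b
      · by_cases h4 : a + (n : ℤ) + 1 < b
        · rw [if_pos h3, if_neg (by omega), if_pos h4]; ring
        · rw [if_pos h3, if_pos (by omega), if_neg h4]; ring
      · rw [if_neg h3, if_neg (by omega), if_neg (by omega)]; ring

/-- two ring faces of different colours: exactly one lies in the arc -/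
theorem col_sep {R a b : ℤ} (hR : 0 ≤ R) (hab : a < b) (hb : b < a + 4 * (2 * R + 1)) {F : P2 → ZMod 2}
    (hF : IsCol (-R) R (-R) R (le R a) (le R b) F) {c d : ℤ} (h1 : a ≤ c) (h2 : c < a + 4 * (2 * R + 1))
    (h3 : a ≤ d) (h4 : d < a + 4 * (2 * R + 1)) (hne : F (cel R c) ≠ F (cel R d)) :
    (c < b ∧ b ≤ d) ∨ (d < b ∧ b ≤ c) := by
  rw [col_ring hR hab hb hF h1 h2, col_ring hR hab hb hF h3 h4] at hne
  by_cases hc : c < b <;> by_cases hd : d < b
  · rw [if_pos hc, if_pos hd] at hne; exact absurd rfl hne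
  · exact Or.inl ⟨hc, by omega⟩
  · exact Or.inr ⟨hd, by omega⟩
  · rw [if_neg hc, if_neg hd] at hne; exact absurd rfl hne

end Crest.Agent.R158.Sr200
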