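import Crest.Agent.R158.Sq4_200

/-!
# Row 158, SEP leaf L2-in (helper200): the landing cells of four inner arms alternate
-/

set_option autoImplicit false

noncomputable section

namespace Crest.Agent.R158.Sr200

open Crest.Agent.R161.Geo729 Crest.Agent.R161.Topo374 Crest.Agent.R161.Dual374
open Crest.Agent.R161.Tas682 hiding Sq
open Crest.Agent.R158.Rs689
open Crest.Agent.R158.Kd458 Finset
open Crest.Agent.R158.Sp874 (FarN nr Gd Gd')
open Crest.Agent.R158.Sp580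
open Crest.Agent.R158.Ru874 (frc frc_self frc_ne)

/-! ### segments -/

theorem hseg {S : Set P2} {y x1 x2 : ℤ} (h : ∀ i, (x1 ≤ i ∧ i ≤ x2) ∨ (x2 ≤ i ∧ i ≤ x1) → (i, y) ∈ S) :
    Relation.ReflTransGen (PStep (fun e => src e ∈ S ∧ tgt e ∈ S)) (x1, y) (x2, y) := by
  have key : ∀ n : ℕ, ∀ x : ℤ, (∀ i, x ≤ i → i ≤ x + n → (i, y) ∈ S) →
      Relation.ReflTransGen (PStep (fun e => src e ∈ S ∧ tgt e ∈ S)) (x, y) (x + n, y) := by
    intro n
    induction n with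
    | zero => intro x _; simp only [Nat.cast_zero, add_zero]; exact .refl
    | succ n ih =>
        intro x hx
        refine (ih x fun i h1 h2 => hx i h1 (by push_cast; omega)).tail ?_
        refine ⟨((x + n, y), false), ⟨?_, ?_⟩, Or.inl ⟨rfl, ?_⟩⟩
        · exact hx _ (by omega) (by push_cast; omega)
        · rw [tgt_h]
          exact hx _ (by omega) (by push_cast; omega)
        · rw [tgt_h]; ext <;> simp <;> ring
  rcases le_total x1 x2 with h1 | h1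
  · have := key (x2 - x1).toNat x1 fun i h2 h3 => h i (Or.inl ⟨h2, by omega⟩)
    rwa [show x1 + ((x2 - x1).toNat : ℤ) = x2 by omega] at this
  · have := key (x1 - x2).toNat x2 fun i h2 h3 => h i (Or.inr ⟨h2, by omega⟩)
    rw [show x2 + ((x1 - x2).toNat : ℤ) = x1 by omega] at this
    exact rtg_pstep_symm this

theorem vseg {S : Set P2} {x y1 y2 : ℤ} (h : ∀ i, (y1 ≤ i ∧ i ≤ y2) ∨ (y2 ≤ i ∧ i ≤ y1) → (x, i) ∈ S) :
    Relation.ReflTransGen (PStep (fun e => src e ∈ S ∧ tgt e ∈ S)) (x, y1) (x, y2) := by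
  have key : ∀ n : ℕ, ∀ y : ℤ, (∀ i, y ≤ i → i ≤ y + n → (x, i) ∈ S) →
      Relation.ReflTransGen (PStep (fun e => src e ∈ S ∧ tgt e ∈ S)) (x, y) (x, y + n) := by
    intro n
    induction n with
    | zero => intro y _; simp only [Nat.cast_zero, add_zero]; exact .refl
    | succ n ih =>
        intro y hy
        refine (ih y fun i h1 h2 => hy i h1 (by push_cast; omega)).tail ?_
        refine ⟨((x, y + n), true), ⟨?_, ?_⟩, Or.inl ⟨rfl, ?_⟩⟩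
        · exact hy _ (by omega) (by push_cast; omega)
        · rw [tgt_v]
          exact hy _ (by omega) (by push_cast; omega)
        · rw [tgt_v]; ext <;> simp <;> ring
  rcases le_total y1 y2 with h1 | h1
  · have := key (y2 - y1).toNat y1 fun i h2 h3 => h i (Or.inl ⟨h2, by omega⟩)
    rwa [show y1 + ((y2 - y1).toNat : ℤ) = y2 by omega] at this
  · have := key (y1 - y2).toNat y2 fun i h2 h3 => h i (Or.inr ⟨h2, by omega⟩)
    rw [show y2 + ((y1 - y2).toNat : ℤ) = y1 by omega] at this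
    exact rtg_pstep_symm this

/-- a path of faces -/
theorem face_path {S : Set P2} {f g : P2}
    (h : Relation.ReflTransGen (PStep (fun e => src e ∈ S ∧ tgt e ∈ S)) f g) :
    Relation.ReflTransGen (DStep (fun e => fA e ∈ S ∧ fB e ∈ S)) f g := by
  refine Relation.ReflTransGen.mono ?_ _ _ h
  intro a b hab
  rw [dstep_iff]
  obtain ⟨e, he, hh⟩ := hab
  refine ⟨e, ?_, hh⟩
  have h1 : fA (dE.symm e) = tgt e := by rw [← tgt_dE]; simp
  have h2 : fB (dE.symm e) = src e := by rw [← src_dE]; simp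
  show fA (dE.symm e) ∈ S ∧ fB (dE.symm e) ∈ S
  rw [h1, h2]
  exact ⟨he.2, he.1⟩

theorem oc_walk {z : Cf} {S : Set P2} {u a : P2} (h : OC z S u a) :
    Relation.ReflTransGen (PStep (fun e => z e = true ∧ src e ∈ S ∧ tgt e ∈ S)) u a := by
  refine Relation.ReflTransGen.mono ?_ _ _ h.2
  rintro p q ⟨⟨e, he, hh⟩, hp, hq⟩
  refine ⟨e, ⟨he, ?_⟩, hh⟩
  rcases hh with ⟨rfl, rfl⟩ | ⟨rfl, rfl⟩
  · exact ⟨hp, hq⟩
  · exact ⟨hq, hp⟩

theorem oc_dwalk {z : Cf} {S : Set P2} {f g : P2} (h : OC (dual z) S f g) :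
    Relation.ReflTransGen (DStep (fun e => z e = false ∧ fA e ∈ S ∧ fB e ∈ S)) f g := by
  refine Relation.ReflTransGen.mono ?_ _ _ h.2
  rintro p q ⟨hs, hp, hq⟩
  obtain ⟨e, he, hh⟩ := dstep_dual.2 hs
  refine ⟨e, ⟨by simpa using he, ?_⟩, hh⟩
  rcases hh with ⟨rfl, rfl⟩ | ⟨rfl, rfl⟩
  · exact ⟨hp, hq⟩
  · exact ⟨hq, hp⟩

/-- the faces of an edge are next to its end points -/
theorem face_src (e : Edge) :
    ((fA e).1 = (src e).1 ∧ (fA e).2 = (src e).2) ∧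
    ((src e).1 - 1 ≤ (fB e).1 ∧ (fB e).1 ≤ (src e).1 ∧ (src e).2 - 1 ≤ (fB e).2 ∧ (fB e).2 ≤ (src e).2) ∧
    ((src e).1 ≤ (tgt e).1 ∧ (tgt e).1 ≤ (src e).1 + 1 ∧ (src e).2 ≤ (tgt e).2 ∧
      (tgt e).2 ≤ (src e).2 + 1) := by
  obtain ⟨⟨x, y⟩, s⟩ := e
  cases s <;> simp

/-- an edge between two faces of the ring or of the box -/
theorem tb_of_faces {R : ℤ} (hR : 0 ≤ R) {e : Edge} (h1 : fA e ∈ FSq R) (h2 : fB e ∈ FSq R) :
    TB (-R) R (-R) R e := by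
  obtain ⟨⟨x, y⟩, s⟩ := e
  rw [mem_FSq] at h1 h2
  cases s
  · simp only [fA_mk, fB_h] at h1 h2
    simp only [TB, src_mk, tgt_h]
    omega
  · simp only [fA_mk, fB_v] at h1 h2
    simp only [TB, src_mk, tgt_v]
    omega

/-- blocks of far cells are disjoint -/
theorem bk_disj {n : ℕ} (hn : 1 ≤ n) {k k' : P2} {m m' F : ℤ} (hF : m + m' + 2 ≤ F) (h : FarN F k k') {p : P2}
    (h1 : p ∈ Bk n k m) (h2 : p ∈ Bk n k' m') : False := by
  rw [mem_Bk] at h1 h2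
  have hn' : (0 : ℤ) < n := by exact_mod_cast hn
  have key : ∀ x y : ℤ, x + F ≤ y → (x + m + 1) * n < (y - m') * n := by
    intro x y hxy
    exact mul_lt_mul_of_pos_right (by omega) hn'
  rcases h with h | h | h | h
  · have := key _ _ h; omega
  · have := mul_lt_mul_of_pos_right (show k'.1 + m' + 1 < k.1 - m by omega) hn'; omega
  · have := key _ _ h; omega
  · have := mul_lt_mul_of_pos_right (show k'.2 + m' + 1 < k.2 - m by omega) hn'; omega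

/-- enlarging a block by one unit -/
theorem bk_grow {n : ℕ} (hn : 1 ≤ n) {k : P2} {m : ℤ} {p p' : P2} (h : p ∈ Bk n k m)
    (h1 : p.1 - 1 ≤ p'.1) (h2 : p'.1 ≤ p.1 + 1) (h3 : p.2 - 1 ≤ p'.2) (h4 : p'.2 ≤ p.2 + 1) :
    p' ∈ Bk n k (m + 1) := by
  rw [mem_Bk] at h ⊢
  have hn' : (1 : ℤ) ≤ n := by exact_mod_cast hn
  have e1 : ∀ x : ℤ, (x - (m + 1)) * n = (x - m) * n - n := fun x => by ring
  have e2 : ∀ x : ℤ, (x + (m + 1) + 1) * n = (x + m + 1) * n + n := fun x => by ring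
  rw [e1, e2, e1, e2]
  omega

theorem bk_mono {n : ℕ} {k : P2} {m m' : ℤ} (h : m ≤ m') : Bk n k m ⊆ Bk n k m' := by
  intro p hp
  rw [mem_Bk] at hp ⊢
  have hn' : (0 : ℤ) ≤ n := by positivity
  have e1 : ∀ x : ℤ, (x - m') * n ≤ (x - m) * n := fun x => mul_le_mul_of_nonneg_right (by omega) hn'
  have e2 : ∀ x : ℤ, (x + m + 1) * n ≤ (x + m' + 1) * n := fun x =>
    mul_le_mul_of_nonneg_right (by omega) hn'
  have := e1 k.1
  have := e1 k.2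
  have := e2 k.1
  have := e2 k.2
  omega

/-- the coarse cell of a point of a block -/
theorem fl_bk {n : ℕ} (hn : 1 ≤ n) {k : P2} {m : ℤ} {p : P2} (h : p ∈ Bk n k m) :
    ¬ FarN (m + 2) k (fl n p) := by
  rw [mem_Bk] at h
  obtain ⟨h1, h2, h3, h4⟩ := h
  have hn' : (0 : ℤ) < n := by exact_mod_cast hn
  have a1 : k.1 - m ≤ p.1 / n := by rwa [Int.le_ediv_iff_mul_le hn']
  have a3 : k.2 - m ≤ p.2 / n := by rwa [Int.le_ediv_iff_mul_le hn']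
  have a2 : p.1 / n ≤ k.1 + m + 1 := by
    have := Int.ediv_le_ediv hn' h2
    rwa [Int.mul_ediv_cancel _ hn'.ne'] at this
  have a4 : p.2 / n ≤ k.2 + m + 1 := by
    have := Int.ediv_le_ediv hn' h4
    rwa [Int.mul_ediv_cancel _ hn'.ne'] at this
  rw [not_farN]
  unfold fl
  simp only
  omega

theorem fl_bk2 {n : ℕ} (hn : 1 ≤ n) {k : P2} {m : ℤ} {x p : P2} (h : x ∈ Bk n k m)
    (h1 : x.1 - 1 ≤ p.1) (h2 : p.1 ≤ x.1) (h3 : x.2 - 1 ≤ p.2) (h4 : p.2 ≤ x.2) :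
    ¬ FarN (m + 2) k (fl n p) := by
  rw [mem_Bk] at h
  have hn' : (1 : ℤ) ≤ n := by exact_mod_cast hn
  have b1 : ∀ y : ℤ, (y - m - 1) * n = (y - m) * n - n := fun y => by ring
  have a1 : k.1 - m - 1 ≤ p.1 / n := by
    rw [Int.le_ediv_iff_mul_le (by omega), b1]; omega
  have a3 : k.2 - m - 1 ≤ p.2 / n := by
    rw [Int.le_ediv_iff_mul_le (by omega), b1]; omega
  have a2 : p.1 / n ≤ k.1 + m + 1 := by
    have := Int.ediv_le_ediv (by omega : (0 : ℤ) < n) (show p.1 ≤ (k.1 + m + 1) * n by omega)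
    rwa [Int.mul_ediv_cancel _ (by omega)] at this
  have a4 : p.2 / n ≤ k.2 + m + 1 := by
    have := Int.ediv_le_ediv (by omega : (0 : ℤ) < n) (show p.2 ≤ (k.2 + m + 1) * n by omega)
    rwa [Int.mul_ediv_cancel _ (by omega)] at this
  rw [not_farN]
  unfold fl
  simp only
  omega

/-- the faces of a leaving edge are next to its boundary vertex -/
theorem out_near {x0 x1 y0 y1 : ℤ} {r : Edge} {x : P2} (h : Out x0 x1 y0 y1 r x) :
    (x.1 - 1 ≤ (fA r).1 ∧ (fA r).1 ≤ x.1 ∧ x.2 - 1 ≤ (fA r).2 ∧ (fA r).2 ≤ x.2) ∧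
    (x.1 - 1 ≤ (fB r).1 ∧ (fB r).1 ≤ x.1 ∧ x.2 - 1 ≤ (fB r).2 ∧ (fB r).2 ≤ x.2) := by
  obtain ⟨a, b⟩ := x
  unfold Out at h
  simp only at h
  rcases h with ⟨h1, h2, ⟨rfl, h3⟩ | ⟨rfl, h3⟩⟩ | ⟨h1, h2, ⟨rfl, h3⟩ | ⟨rfl, h3⟩⟩ <;>
    simp only [fA_mk, fB_h, fB_v] <;> omega

theorem cel_near {R : ℤ} (hR : 0 ≤ R) (w : ℤ) :
    (lv R w).1 - 1 ≤ (cel R w).1 ∧ (cel R w).1 ≤ (lv R w).1 ∧ (lv R w).2 - 1 ≤ (cel R w).2 ∧
      (cel R w).2 ≤ (lv R w).2 := by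
  have h := out_near (out_le hR w)
  rcases le_faces hR w with ⟨h1, _⟩ | ⟨_, h1⟩
  · rw [← h1]; exact h.1
  · rw [← h1]; exact h.2

theorem nr_cases {N : ℤ} {k : P2} (hk : nr k = N - 1) :
    (k.1 = N - 1 ∨ k.1 = -N ∨ k.2 = N - 1 ∨ k.2 = -N) ∧ -N ≤ k.1 ∧ k.1 ≤ N - 1 ∧ -N ≤ k.2 ∧
      k.2 ≤ N - 1 := by
  unfold nr at hk
  omega

theorem N_large {N g : ℤ} (hg : 15 ≤ g) {k k' : P2} (hk : nr k = N - 1) (hk' : nr k' = N - 1)
    (h : FarN g k k') : 8 ≤ N := by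
  have h1 := nr_cases hk
  have h2 := nr_cases hk'
  unfold FarN at h
  omega

/-- the blocks are away from the origin -/
theorem not_origin {n : ℕ} (hn : 1 ≤ n) {N : ℤ} (hN : 5 ≤ N) {k : P2} (hk : nr k = N - 1) {p : P2}
    (h1 : -1 ≤ p.1) (h2 : p.1 ≤ 1) (h3 : -1 ≤ p.2) (h4 : p.2 ≤ 1) : p ∉ Bk n k 2 := by
  intro h
  rw [mem_Bk] at h
  have hn' : (1 : ℤ) ≤ n := by exact_mod_cast hn
  have e1 : 2 * (n : ℤ) ≤ (N - 3) * n := mul_le_mul_of_nonneg_right (by omega) (by omega)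
  obtain ⟨h5, _⟩ := nr_cases hk
  rcases h5 with h5 | h5 | h5 | h5 <;> rw [h5] at h
  · have e2 : (N - 1 - 2) * (n : ℤ) = (N - 3) * n := by ring
    rw [e2] at h; omega
  · have e2 : (-N + 2 + 1) * (n : ℤ) = -((N - 3) * n) := by ring
    rw [e2] at h; omega
  · have e2 : (N - 1 - 2) * (n : ℤ) = (N - 3) * n := by ring
    rw [e2] at h; omega
  · have e2 : (-N + 2 + 1) * (n : ℤ) = -((N - 3) * n) := by ring
    rw [e2] at h; omega

/-- extension to the circle inside the landing block -/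
theorem ext_in {n : ℕ} {N : ℤ} {k : P2} (hk : nr k = N - 1) {a : P2} (ha : a ∈ Bk n k 1)
    (hS : a ∈ Sq (N * n)) : ∃ x ∈ Bk n k 1 ∩ Sq (N * n),
      (x.1 = N * n ∨ x.1 = -(N * n) ∨ x.2 = N * n ∨ x.2 = -(N * n)) ∧
      Relation.ReflTransGen (PStep (fun e => src e ∈ Bk n k 1 ∩ Sq (N * n) ∧
        tgt e ∈ Bk n k 1 ∩ Sq (N * n))) a x := by
  obtain ⟨a1, a2⟩ := a
  have ha' := ha
  have hS' := hS
  rw [mem_Bk] at ha
  rw [mem_Sq] at hS
  simp only at ha hS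
  have hn : (0 : ℤ) ≤ n := by positivity
  have e1 : (N - 1 - 1) * (n : ℤ) = N * n - 2 * n := by ring
  have e2 : (N - 1 + 1 + 1) * (n : ℤ) = N * n + n := by ring
  have e3 : (-N - 1) * (n : ℤ) = -(N * n) - n := by ring
  have e4 : (-N + 1 + 1) * (n : ℤ) = -(N * n) + 2 * n := by ring
  obtain ⟨h5, _⟩ := nr_cases hk
  rcases h5 with h5 | h5 | h5 | h5
  · have key : ∀ i, (a1 ≤ i ∧ i ≤ N * n) ∨ (N * n ≤ i ∧ i ≤ a1) → (i, a2) ∈ Bk n k 1 ∩ Sq (N * n) := by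
      intro i hi
      refine ⟨?_, ?_⟩
      · rw [mem_Bk]; rw [h5] at ha ⊢; rw [e1, e2] at ha ⊢; simp only; omega
      · rw [mem_Sq]; simp only; omega
    exact ⟨(N * n, a2), key _ (by omega), Or.inl rfl, hseg key⟩
  · have key : ∀ i, (a1 ≤ i ∧ i ≤ -(N * n)) ∨ (-(N * n) ≤ i ∧ i ≤ a1) →
        (i, a2) ∈ Bk n k 1 ∩ Sq (N * n) := by
      intro i hi
      refine ⟨?_, ?_⟩
      · rw [mem_Bk]; rw [h5] at ha ⊢; rw [e3, e4] at ha ⊢; simp only; omega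
      · rw [mem_Sq]; simp only; omega
    exact ⟨(-(N * n), a2), key _ (by omega), Or.inr (Or.inl rfl), hseg key⟩
  · have key : ∀ i, (a2 ≤ i ∧ i ≤ N * n) ∨ (N * n ≤ i ∧ i ≤ a2) → (a1, i) ∈ Bk n k 1 ∩ Sq (N * n) := by
      intro i hi
      refine ⟨?_, ?_⟩
      · rw [mem_Bk]; rw [h5] at ha ⊢; rw [e1, e2] at ha ⊢; simp only; omega
      · rw [mem_Sq]; simp only; omega
    exact ⟨(a1, N * n), key _ (by omega), Or.inr (Or.inr (Or.inl rfl)), vseg key⟩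
  · have key : ∀ i, (a2 ≤ i ∧ i ≤ -(N * n)) ∨ (-(N * n) ≤ i ∧ i ≤ a2) →
        (a1, i) ∈ Bk n k 1 ∩ Sq (N * n) := by
      intro i hi
      refine ⟨?_, ?_⟩
      · rw [mem_Bk]; rw [h5] at ha ⊢; rw [e3, e4] at ha ⊢; simp only; omega
      · rw [mem_Sq]; simp only; omega
    exact ⟨(a1, -(N * n)), key _ (by omega), Or.inr (Or.inr (Or.inr rfl)), vseg key⟩

/-- extension of a dual arm to the ring of faces -/
theorem ext_inD {n : ℕ} (hn1 : 1 ≤ n) {N : ℤ} {k : P2} (hk : nr k = N - 1) {a : P2} (ha : a ∈ Bk n k 1)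
    (hS : a ∈ FSq (N * n)) : ∃ x ∈ Bk n k 1 ∩ FSq (N * n), Rg (N * n) x ∧
      Relation.ReflTransGen (DStep (fun e => fA e ∈ Bk n k 1 ∩ FSq (N * n) ∧
        fB e ∈ Bk n k 1 ∩ FSq (N * n))) a x := by
  obtain ⟨a1, a2⟩ := a
  rw [mem_Bk] at ha
  rw [mem_FSq] at hS
  simp only at ha hS
  have hn : (1 : ℤ) ≤ n := by exact_mod_cast hn1
  have e1 : (N - 1 - 1) * (n : ℤ) = N * n - 2 * n := by ring
  have e2 : (N - 1 + 1 + 1) * (n : ℤ) = N * n + n := by ring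
  have e3 : (-N - 1) * (n : ℤ) = -(N * n) - n := by ring
  have e4 : (-N + 1 + 1) * (n : ℤ) = -(N * n) + 2 * n := by ring
  obtain ⟨h5, _⟩ := nr_cases hk
  rcases h5 with h5 | h5 | h5 | h5
  · have key : ∀ i, (a1 ≤ i ∧ i ≤ N * n) ∨ (N * n ≤ i ∧ i ≤ a1) → (i, a2) ∈ Bk n k 1 ∩ FSq (N * n) := by
      intro i hi
      refine ⟨?_, ?_⟩
      · rw [mem_Bk]; rw [h5] at ha ⊢; rw [e1, e2] at ha ⊢; simp only; omega
      · rw [mem_FSq]; simp only; omega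
    refine ⟨(N * n, a2), key _ (by omega), ⟨⟨?_, ?_, ?_, ?_⟩, Or.inl rfl⟩, face_path (hseg key)⟩ <;>
      simp only <;> omega
  · have key : ∀ i, (a1 ≤ i ∧ i ≤ -1 - N * n) ∨ (-1 - N * n ≤ i ∧ i ≤ a1) →
        (i, a2) ∈ Bk n k 1 ∩ FSq (N * n) := by
      intro i hi
      refine ⟨?_, ?_⟩
      · rw [mem_Bk]; rw [h5] at ha ⊢; rw [e3, e4] at ha ⊢; simp only; omega
      · rw [mem_FSq]; simp only; omega
    refine ⟨(-1 - N * n, a2), key _ (by omega), ⟨⟨?_, ?_, ?_, ?_⟩, Or.inr (Or.inl rfl)⟩,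
      face_path (hseg key)⟩ <;> simp only <;> omega
  · have key : ∀ i, (a2 ≤ i ∧ i ≤ N * n) ∨ (N * n ≤ i ∧ i ≤ a2) → (a1, i) ∈ Bk n k 1 ∩ FSq (N * n) := by
      intro i hi
      refine ⟨?_, ?_⟩
      · rw [mem_Bk]; rw [h5] at ha ⊢; rw [e1, e2] at ha ⊢; simp only; omega
      · rw [mem_FSq]; simp only; omega
    refine ⟨(a1, N * n), key _ (by omega), ⟨⟨?_, ?_, ?_, ?_⟩, Or.inr (Or.inr (Or.inl rfl))⟩,
      face_path (vseg key)⟩ <;> simp only <;> omega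
  · have key : ∀ i, (a2 ≤ i ∧ i ≤ -1 - N * n) ∨ (-1 - N * n ≤ i ∧ i ≤ a2) →
        (a1, i) ∈ Bk n k 1 ∩ FSq (N * n) := by
      intro i hi
      refine ⟨?_, ?_⟩
      · rw [mem_Bk]; rw [h5] at ha ⊢; rw [e3, e4] at ha ⊢; simp only; omega
      · rw [mem_FSq]; simp only; omega
    refine ⟨(a1, -1 - N * n), key _ (by omega), ⟨⟨?_, ?_, ?_, ?_⟩, Or.inr (Or.inr (Or.inr rfl))⟩,
      face_path (vseg key)⟩ <;> simp only <;> omega

end Crest.Agent.R158.Sr200
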