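import Crest.Agent.R158.Sq6_200

/-!
# Row 158, SEP leaf L2-out (helper200), part 1: the circle as a chain, extensions outside the hole
-/

set_option autoImplicit false

noncomputable section

namespace Crest.Agent.R158.Sr200

open Crest.Agent.R161.Geo729 Crest.Agent.R161.Topo374 Crest.Agent.R161.Dual374
open Crest.Agent.R161.Tas682 hiding Sq
open Crest.Agent.R158.Rs689
open Crest.Agent.R158.Kd458 Finset
open Crest.Agent.R158.Sp874 (FarN nr Gd Gd')
open Crest.Agent.R158.Sp580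
open Crest.Agent.R158.Ru874 (frc frc_self frc_ne)

/-- the position of a corner face -/
def Crn (R w : ℤ) : Prop := (w + R) % (2 * R + 1) = 2 * R

theorem crn_iff {R q t : ℤ} (h1 : -R ≤ t) (h2 : t ≤ R) : Crn R (q * (2 * R + 1) + t) ↔ t = R := by
  unfold Crn
  rw [show q * (2 * R + 1) + t + R = (t + R) + (2 * R + 1) * q by ring, Int.add_mul_emod_self_left,
    Int.emod_eq_of_lt (by omega) (by omega)]
  omega

/-- the faces of the hole -/
def HF (R : ℤ) : Set P2 := {f | -R ≤ f.1 ∧ f.1 ≤ R - 1 ∧ -R ≤ f.2 ∧ f.2 ≤ R - 1}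

theorem mem_HF {R : ℤ} {f : P2} : f ∈ HF R ↔ -R ≤ f.1 ∧ f.1 ≤ R - 1 ∧ -R ≤ f.2 ∧ f.2 ≤ R - 1 := Iff.rfl

/-- the circle edge at a non corner position -/
theorem ce_ends {R : ℤ} (hR : 0 ≤ R) {w : ℤ} (hw : ¬ Crn R w) :
    (src (ce R w) = lv R w ∧ tgt (ce R w) = lv R (w + 1)) ∨
      (src (ce R w) = lv R (w + 1) ∧ tgt (ce R w) = lv R w) := by
  obtain ⟨q, t, h1, h2, rfl⟩ := split hR w
  rw [crn_iff h1 h2] at hw
  rw [ce_mk h1 h2, lv_mk h1 h2, show q * (2 * R + 1) + t + 1 = q * (2 * R + 1) + (t + 1) by ring,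
    lv_mk (by omega) (by omega)]
  unfold ceq lvq
  split_ifs
  · left; simp
  · right; simp; ring
  · right; simp; ring
  · left; simp

theorem lv_crn {R : ℤ} (hR : 0 ≤ R) {w : ℤ} (hw : Crn R w) : lv R (w + 1) = lv R w := by
  obtain ⟨q, t, h1, h2, rfl⟩ := split hR w
  rw [crn_iff h1 h2] at hw
  subst hw
  rw [lv_mk h1 h2, show q * (2 * t + 1) + t + 1 = (q + 1) * (2 * t + 1) + -t by ring,
    lv_mk le_rfl (by omega)]
  rcases q4 q with h | h | h | h
  · rw [lvq_congr (q := q + 1) (q' := 1) (by omega), lvq_congr (q := q) (q' := 0) (by omega)]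
    simp [lvq]
  · rw [lvq_congr (q := q + 1) (q' := 2) (by omega), lvq_congr (q := q) (q' := 1) (by omega)]
    simp [lvq]
  · rw [lvq_congr (q := q + 1) (q' := 3) (by omega), lvq_congr (q := q) (q' := 2) (by omega)]
    simp [lvq]
  · rw [lvq_congr (q := q + 1) (q' := 0) (by omega), lvq_congr (q := q) (q' := 3) (by omega)]
    simp [lvq]

theorem ce_faces {R : ℤ} (hR : 0 ≤ R) {w : ℤ} (hw : ¬ Crn R w) :
    (fA (ce R w) = cel R w ∧ fB (ce R w) ∈ HF R) ∨ (fA (ce R w) ∈ HF R ∧ fB (ce R w) = cel R w) := by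
  obtain ⟨q, t, h1, h2, rfl⟩ := split hR w
  rw [crn_iff h1 h2] at hw
  rw [ce_mk h1 h2, cel_mk h1 h2]
  unfold ceq rq
  split_ifs
  · left; simp only [mem_HF, fA_mk, fB_v]; exact ⟨trivial, by omega⟩
  · left
    simp only [mem_HF, fA_mk, fB_h]
    exact ⟨by ext <;> simp; ring, by omega⟩
  · right
    simp only [mem_HF, fA_mk, fB_v]
    exact ⟨by omega, by ext <;> simp <;> ring⟩
  · right
    simp only [mem_HF, fA_mk, fB_h]
    exact ⟨by omega, by ext <;> simp; ring⟩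

theorem cel_not_HF {R : ℤ} (hR : 0 ≤ R) (w : ℤ) : cel R w ∉ HF R := by
  have := rg_cel hR w
  unfold Rg at this
  rw [mem_HF]
  omega

theorem not_crn {R : ℤ} (hR : 0 ≤ R) {w : ℤ}
    (h : ¬ (((cel R w).1 = R ∨ (cel R w).1 = -1 - R) ∧ ((cel R w).2 = R ∨ (cel R w).2 = -1 - R))) :
    ¬ Crn R w := by
  intro hc
  apply h
  obtain ⟨q, t, h1, h2, rfl⟩ := split hR w
  rw [crn_iff h1 h2] at hc
  rw [cel_mk h1 h2, hc]
  unfold rq
  split_ifs <;> simp

/-- the arc of the circle between two positions as a chain -/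
def arcN (R A B : ℤ) (e : Edge) : ZMod 2 := by
  classical
  exact ∑ w ∈ Finset.Ico A B, if Crn R w then 0 else dl (ce R w) e

theorem arcN_self (R A : ℤ) : arcN R A A = fun _ => 0 := by
  funext e
  simp [arcN]

theorem arcN_succ (R A : ℤ) (n : ℕ) (e : Edge) : arcN R A (A + n + 1) e =
    arcN R A (A + n) e + (by classical exact if Crn R (A + n) then 0 else dl (ce R (A + n)) e) := by
  classical
  unfold arcN
  have : Finset.Ico A (A + n + 1) = insert (A + (n : ℤ)) (Finset.Ico A (A + n)) := by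
    ext w
    simp only [Finset.mem_Ico, Finset.mem_insert]
    omega
  rw [this, Finset.sum_insert (by simp), add_comm]

theorem star_zero (v : P2) : Kd458.star (fun _ => 0) v = 0 := by simp [Kd458.star]

theorem arcN_star {R : ℤ} (hR : 0 ≤ R) (A : ℤ) (n : ℕ) (v : P2) :
    Kd458.star (arcN R A (A + n)) v = ind (v = lv R A) + ind (v = lv R (A + n)) := by
  classical
  induction n with
  | zero => simp only [Nat.cast_zero, add_zero]; rw [arcN_self, star_zero, zmod2_add_self]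
  | succ n ih =>
      have e1 : A + ((n + 1 : ℕ) : ℤ) = A + n + 1 := by push_cast; ring
      have e2 : arcN R A (A + n + 1) = fun e => arcN R A (A + n) e +
          (if Crn R (A + n) then 0 else dl (ce R (A + n)) e) := by
        funext e
        rw [arcN_succ]
      rw [e1, e2, star_add, ih]
      by_cases hc : Crn R (A + n)
      · simp only [hc, if_true]
        rw [star_zero, lv_crn hR hc, add_zero]
      · simp only [hc, if_false]
        have e3 : (fun e => dl (ce R (A + n)) e) = dl (ce R (A + n)) := rfl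
        rw [e3, star_dl]
        rcases ce_ends hR hc with ⟨p1, p2⟩ | ⟨p1, p2⟩
        · rw [p1, p2]
          have z := zmod2_add_self (ind (v = lv R (A + n)))
          linear_combination z
        · rw [p1, p2]
          have z := zmod2_add_self (ind (v = lv R (A + n)))
          linear_combination z

/-- the support of the arc -/
theorem arcN_supp {R A B : ℤ} (hR : 0 ≤ R) {e : Edge} (h : arcN R A B e ≠ 0) :
    ∃ w, A ≤ w ∧ w < B ∧ ¬ Crn R w ∧ e = ce R w := by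
  classical
  unfold arcN at h
  obtain ⟨w, hw, hne⟩ := Finset.exists_ne_zero_of_sum_ne_zero h
  rw [Finset.mem_Ico] at hw
  by_cases hc : Crn R w
  · rw [if_pos hc] at hne; exact absurd rfl hne
  · rw [if_neg hc] at hne
    refine ⟨w, hw.1, hw.2, hc, ?_⟩
    by_contra h'
    exact hne (ind_false h')

theorem ce_inj {R w w' : ℤ} (hR : 1 ≤ R) (hw : ¬ Crn R w) (hw' : ¬ Crn R w') (h : ce R w = ce R w')
    (h1 : w < w' + 4 * (2 * R + 1)) (h2 : w' < w + 4 * (2 * R + 1)) : w = w' := by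
  obtain ⟨q, t, a1, a2, rfl⟩ := split (by omega : 0 ≤ R) w
  obtain ⟨q', t', b1, b2, rfl⟩ := split (by omega : 0 ≤ R) w'
  rw [crn_iff a1 a2] at hw
  rw [crn_iff b1 b2] at hw'
  rw [ce_mk a1 a2, ce_mk b1 b2] at h
  obtain ⟨h3, rfl⟩ := ceq_inj hR a1 (by omega) b1 (by omega) h
  rw [eq_of_period (by omega) h3 h1 h2]

theorem arcN_ce {R A B c : ℤ} (hR : 1 ≤ R) (hB : B ≤ A + 4 * (2 * R + 1)) (h1 : A ≤ c)
    (h2 : c < A + 4 * (2 * R + 1)) (hc : ¬ Crn R c) : arcN R A B (ce R c) = if c < B then 1 else 0 := by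
  classical
  unfold arcN
  by_cases h : c < B
  · rw [if_pos h, Finset.sum_eq_single c]
    · rw [if_neg hc]; exact ind_true rfl
    · intro w hw hne
      rw [Finset.mem_Ico] at hw
      by_cases hw' : Crn R w
      · rw [if_pos hw']
      · rw [if_neg hw']
        apply ind_false
        intro h'
        exact hne (ce_inj hR hw' hc h'.symm (by omega) (by omega))
    · intro h'
      exact absurd (Finset.mem_Ico.2 ⟨h1, h⟩) h'
  · rw [if_neg h]
    refine Finset.sum_eq_zero fun w hw => ?_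
    rw [Finset.mem_Ico] at hw
    by_cases hw' : Crn R w
    · rw [if_pos hw']
    · rw [if_neg hw']
      apply ind_false
      intro h'
      have := ce_inj hR hw' hc h'.symm (by omega) (by omega)
      omega

/-! ### the hole is connected -/

theorem hole_conn {R : ℤ} {f g : P2} (hf : f ∈ HF R) (hg : g ∈ HF R) :
    Relation.ReflTransGen (DStep (fun e => fA e ∈ HF R ∧ fB e ∈ HF R)) f g := by
  obtain ⟨a, b⟩ := f
  obtain ⟨c, d⟩ := g
  rw [mem_HF] at hf hg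
  simp only at hf hg
  refine face_path ((hseg (S := HF R) (y := b) (x1 := a) (x2 := c) ?_).trans
    (vseg (S := HF R) (x := c) (y1 := b) (y2 := d) ?_))
  · intro i hi; rw [mem_HF]; simp only; omega
  · intro i hi; rw [mem_HF]; simp only; omega

/-! ### extensions outside the hole -/

theorem mem_outV {L : Set P2} {ρ : ℤ} (hρ : 1 ≤ ρ) {v : P2} :
    v ∈ OutV L ρ ↔ v ∈ L ∧ (v.1 ≤ -ρ ∨ ρ ≤ v.1 ∨ v.2 ≤ -ρ ∨ ρ ≤ v.2) := by
  unfold OutV
  rw [Set.mem_inter_iff, Set.mem_ofPred_eq]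
  have h : ρ ≤ sd (0, 0) v ↔ ¬ sd (0, 0) v ≤ ρ - 1 := by omega
  rw [h, sd_le]
  simp only [sub_zero]
  constructor
  · rintro ⟨h1, h2⟩; exact ⟨h1, by omega⟩
  · rintro ⟨h1, h2⟩; exact ⟨h1, by omega⟩

section out

variable {x0 x1 y0 y1 : ℤ} {n : ℕ} {N : ℤ}

/-- extension to the circle from outside -/
theorem ext_out (hn1 : 1 ≤ n) (hN : 1 ≤ N) (b1 : x0 ≤ -(N * n)) (b2 : N * n ≤ x1) (b3 : y0 ≤ -(N * n))
    (b4 : N * n ≤ y1) {k : P2} (hk : nr k = N - 1) {a : P2} (ha : a ∈ Bk n k 1)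
    (hS : a ∈ OutV (Rect x0 x1 y0 y1) (N * n)) : ∃ x ∈ Bk n k 1 ∩ OutV (Rect x0 x1 y0 y1) (N * n),
      x ∈ Sq (N * n) ∧ (x.1 = N * n ∨ x.1 = -(N * n) ∨ x.2 = N * n ∨ x.2 = -(N * n)) ∧
      Relation.ReflTransGen (PStep (fun e => src e ∈ Bk n k 1 ∩ OutV (Rect x0 x1 y0 y1) (N * n) ∧
        tgt e ∈ Bk n k 1 ∩ OutV (Rect x0 x1 y0 y1) (N * n))) a x := by
  have hn : (1 : ℤ) ≤ n := by exact_mod_cast hn1
  have hρ : 1 ≤ N * (n : ℤ) := by nlinarith
  obtain ⟨a1, a2⟩ := a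
  rw [mem_outV hρ, mem_rect] at hS
  rw [mem_Bk] at ha
  simp only at ha hS
  obtain ⟨-, k1, k2, k3, k4⟩ := nr_cases hk
  have e1 : (k.1 - 1) * (n : ℤ) ≤ N * n - 2 * n := by nlinarith
  have e2 : -(N * (n : ℤ)) + 2 * n ≤ (k.1 + 1 + 1) * n := by nlinarith
  have e3 : (k.2 - 1) * (n : ℤ) ≤ N * n - 2 * n := by nlinarith
  have e4 : -(N * (n : ℤ)) + 2 * n ≤ (k.2 + 1 + 1) * n := by nlinarith
  generalize N * (n : ℤ) = ρ at *
  set cx := max (-ρ) (min ρ a1) with hcx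
  set cy := max (-ρ) (min ρ a2) with hcy
  have s1 : ∀ i, (a1 ≤ i ∧ i ≤ cx) ∨ (cx ≤ i ∧ i ≤ a1) →
      (i, a2) ∈ Bk n k 1 ∩ OutV (Rect x0 x1 y0 y1) ρ := by
    intro i hi
    refine ⟨?_, ?_⟩
    · rw [mem_Bk]; simp only; omega
    · rw [mem_outV hρ, mem_rect]; simp only; omega
  have s2 : ∀ i, (a2 ≤ i ∧ i ≤ cy) ∨ (cy ≤ i ∧ i ≤ a2) →
      (cx, i) ∈ Bk n k 1 ∩ OutV (Rect x0 x1 y0 y1) ρ := by
    intro i hi
    refine ⟨?_, ?_⟩
    · rw [mem_Bk]; simp only; omega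
    · rw [mem_outV hρ, mem_rect]; simp only; omega
  refine ⟨(cx, cy), s2 _ (by omega), ?_, ?_, (hseg s1).trans (vseg s2)⟩
  · rw [mem_Sq]; simp only; omega
  · simp only; omega

/-- extension of a dual arm to a face next to the circle (not at a corner) -/
theorem ext_outD (hn1 : 1 ≤ n) (hN : 1 ≤ N) (b1 : x0 ≤ -(N * n)) (b2 : N * n ≤ x1) (b3 : y0 ≤ -(N * n))
    (b4 : N * n ≤ y1) {k : P2} (hk : nr k = N - 1) {a : P2} (ha : a ∈ Bk n k 1)
    (hS : a ∈ Rect (x0 - 1) x1 (y0 - 1) y1) (hH : a ∉ HF (N * n)) :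
    ∃ x, x ∈ Bk n k 1 ∩ (Rect (x0 - 1) x1 (y0 - 1) y1 \ HF (N * n)) ∧ Rg (N * n) x ∧
      ¬ ((x.1 = N * n ∨ x.1 = -1 - N * n) ∧ (x.2 = N * n ∨ x.2 = -1 - N * n)) ∧
      Relation.ReflTransGen (DStep (fun e => fA e ∈ Bk n k 1 ∩ (Rect (x0 - 1) x1 (y0 - 1) y1 \ HF (N * n)) ∧
        fB e ∈ Bk n k 1 ∩ (Rect (x0 - 1) x1 (y0 - 1) y1 \ HF (N * n)))) a x := by
  have hn : (1 : ℤ) ≤ n := by exact_mod_cast hn1
  have hρ : 1 ≤ N * (n : ℤ) := by nlinarith
  obtain ⟨a1, a2⟩ := a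
  rw [mem_rect] at hS
  rw [mem_HF] at hH
  rw [mem_Bk] at ha
  simp only at ha hS hH
  obtain ⟨-, k1, k2, k3, k4⟩ := nr_cases hk
  have e1 : (k.1 - 1) * (n : ℤ) ≤ N * n - 2 * n := by nlinarith
  have e2 : -(N * (n : ℤ)) + 2 * n ≤ (k.1 + 1 + 1) * n := by nlinarith
  have e3 : (k.2 - 1) * (n : ℤ) ≤ N * n - 2 * n := by nlinarith
  have e4 : -(N * (n : ℤ)) + 2 * n ≤ (k.2 + 1 + 1) * n := by nlinarith
  generalize N * (n : ℤ) = ρ at *
  by_cases c1 : -ρ ≤ a1 ∧ a1 ≤ ρ - 1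
  · set cy := max (-ρ - 1) (min ρ a2) with hcy
    have s2 : ∀ i, (a2 ≤ i ∧ i ≤ cy) ∨ (cy ≤ i ∧ i ≤ a2) →
        (a1, i) ∈ Bk n k 1 ∩ (Rect (x0 - 1) x1 (y0 - 1) y1 \ HF ρ) := by
      intro i hi
      refine ⟨?_, ?_, ?_⟩
      · rw [mem_Bk]; simp only; omega
      · rw [mem_rect]; simp only; omega
      · rw [mem_HF]; simp only; omega
    refine ⟨(a1, cy), s2 _ (by omega), ⟨⟨?_, ?_, ?_, ?_⟩, ?_⟩, ?_, face_path (vseg s2)⟩ <;>
      simp only <;> omega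
  · set cy := max (-ρ) (min (ρ - 1) a2) with hcy
    set cx := max (-ρ - 1) (min ρ a1) with hcx
    have s2 : ∀ i, (a2 ≤ i ∧ i ≤ cy) ∨ (cy ≤ i ∧ i ≤ a2) →
        (a1, i) ∈ Bk n k 1 ∩ (Rect (x0 - 1) x1 (y0 - 1) y1 \ HF ρ) := by
      intro i hi
      refine ⟨?_, ?_, ?_⟩
      · rw [mem_Bk]; simp only; omega
      · rw [mem_rect]; simp only; omega
      · rw [mem_HF]; simp only; omega
    have s1 : ∀ i, (a1 ≤ i ∧ i ≤ cx) ∨ (cx ≤ i ∧ i ≤ a1) →
        (i, cy) ∈ Bk n k 1 ∩ (Rect (x0 - 1) x1 (y0 - 1) y1 \ HF ρ) := by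
      intro i hi
      refine ⟨?_, ?_, ?_⟩
      · rw [mem_Bk]; simp only; omega
      · rw [mem_rect]; simp only; omega
      · rw [mem_HF]; simp only; omega
    refine ⟨(cx, cy), s1 _ (by omega), ⟨⟨?_, ?_, ?_, ?_⟩, ?_⟩, ?_, face_path ((vseg s2).trans (hseg s1))⟩ <;>
      simp only <;> omega

end out

end Crest.Agent.R158.Sr200
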