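import Crest.Agent.R158.Sq7_200

/-!
# Row 158, SEP leaf L2-out (helper200)

`uout_alt_gen`, `uout_alt` : the landing cells (on the circle of radius `N n`) of two open and two dual arms
outside the ball, whose outer ends are separated (458's colouring), alternate.
-/

set_option autoImplicit false

noncomputable section

namespace Crest.Agent.R158.Sr200

open Crest.Agent.R161.Geo729 Crest.Agent.R161.Topo374 Crest.Agent.R161.Dual374
open Crest.Agent.R161.Tas682 hiding Sq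
open Crest.Agent.R158.Rs689
open Crest.Agent.R158.Kd458 Finset
open Crest.Agent.R158.Sp874 (FarN nr Gd Gd')
open Crest.Agent.R158.Sp580
open Crest.Agent.R158.Ru874 (frc frc_self frc_ne)

section out

variable {x0 x1 y0 y1 : ℤ} {n : ℕ} {N : ℤ}

theorem ib_of_faces {e : Edge} (h1 : fA e ∈ Rect x0 (x1 - 1) y0 (y1 - 1))
    (h2 : fB e ∈ Rect x0 (x1 - 1) y0 (y1 - 1)) : IB x0 x1 y0 y1 e := by
  obtain ⟨⟨x, y⟩, s⟩ := e
  rw [mem_rect] at h1 h2
  cases s
  · simp only [fA_mk, fB_h] at h1 h2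
    simp only [IB, src_mk, tgt_h]
    omega
  · simp only [fA_mk, fB_v] at h1 h2
    simp only [IB, src_mk, tgt_v]
    omega

/-- an edge with both end points off the open ball has no two hole faces -/
theorem not_both_HF {ρ : ℤ} (hρ : 1 ≤ ρ) {L : Set P2} {e : Edge} (h1 : src e ∈ OutV L ρ)
    (h2 : tgt e ∈ OutV L ρ) : ¬ (fA e ∈ HF ρ ∧ fB e ∈ HF ρ) := by
  rw [mem_outV hρ] at h1 h2
  rw [mem_HF, mem_HF]
  obtain ⟨⟨x, y⟩, s⟩ := e
  cases s
  · simp only [src_mk, tgt_h, fA_mk, fB_h] at *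
    omega
  · simp only [src_mk, tgt_v, fA_mk, fB_v] at *
    omega

set_option maxHeartbeats 4000000 in
/-- **L2-out, general form.** -/
theorem uout_alt_gen (hn : 1 ≤ n) {g m : ℤ} (hg : 15 ≤ g) (hm : 2 ≤ m)
    (b1 : x0 ≤ -((N + 2) * n)) (b2 : (N + 2) * n ≤ x1) (b3 : y0 ≤ -((N + 2) * n)) (b4 : (N + 2) * n ≤ y1)
    {k1 k2 k3 k4 : P2} (h1 : nr k1 = N - 1) (h2 : nr k2 = N - 1) (h3 : nr k3 = N - 1) (h4 : nr k4 = N - 1)
    (f12 : FarN g k1 k2) (f23 : FarN g k2 k3) (f34 : FarN g k3 k4) (f41 : FarN g k4 k1)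
    (f13 : FarN g k1 k3) {z : Cf} {r r' : Edge} {p p' : P2} (hr : Out x0 x1 y0 y1 r p)
    (hr' : Out x0 x1 y0 y1 r' p') {F : P2 → ZMod 2} (hF : IsCol x0 x1 y0 y1 r r' F)
    {a b : P2} (ha : a ∈ Bk n k1 1) (hb : b ∈ Bk n k3 1)
    (hu : OC z (OutV (Rect x0 x1 y0 y1) (N * n) \ Bk2 n k2 k4 m) a p)
    (hv : OC z (OutV (Rect x0 x1 y0 y1) (N * n) \ Bk2 n k2 k4 m) b p')
    {C : Edge → Prop} (hC : ∀ e', C e' → z e' = false ∧
      (IB x0 x1 y0 y1 e' ∨ ((∃ v, Out x0 x1 y0 y1 e' v) ∧ e' ≠ r ∧ e' ≠ r')) ∧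
      fA e' ∉ HF (N * n) ∧ fB e' ∉ HF (N * n) ∧
      (src e' ∉ Bk n k1 1 ∨ tgt e' ∉ Bk n k1 1) ∧ (src e' ∉ Bk n k3 1 ∨ tgt e' ∉ Bk n k3 1))
    {f f' q q' : P2} (hf : f ∈ Bk n k2 1) (hf' : f' ∈ Bk n k4 1)
    (hfF : f ∈ Rect (x0 - 1) x1 (y0 - 1) y1) (hfF' : f' ∈ Rect (x0 - 1) x1 (y0 - 1) y1)
    (hfH : f ∉ HF (N * n)) (hfH' : f' ∉ HF (N * n))
    (hd1 : Relation.ReflTransGen (DStep C) f q) (hd2 : Relation.ReflTransGen (DStep C) f' q')
    (hq : RingF x0 x1 y0 y1 q) (hq' : RingF x0 x1 y0 y1 q') (hne : F q ≠ F q') :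
    ∃ w : Fin 4 → ℤ, Sp874.cl (N - 1) (w 0) = k1 ∧ Sp874.cl (N - 1) (w 1) = k2 ∧
      Sp874.cl (N - 1) (w 2) = k3 ∧ Sp874.cl (N - 1) (w 3) = k4 ∧
      (Gd (N - 1) g w ∨ Gd' (N - 1) g w) := by
  have hN : 8 ≤ N := N_large hg h1 h2 f12
  have hn' : (1 : ℤ) ≤ n := by exact_mod_cast hn
  have hR : 0 ≤ N * (n : ℤ) := by positivity
  have hR1 : 1 ≤ N * (n : ℤ) := by nlinarith
  have hb2n : (N + 2) * (n : ℤ) = N * n + 2 * n := by ring
  rw [hb2n] at b1 b2 b3 b4
  have hsym : ∀ {k k' : P2}, FarN g k k' → FarN g k' k := fun h => by unfold FarN at *; omega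
  obtain ⟨x, ⟨hx1, hx0⟩, hx2, hx3, hx4⟩ := ext_out (N := N) (x0 := x0) (x1 := x1) (y0 := y0) (y1 := y1) hn
    (by omega) (by omega) (by omega) (by omega) (by omega) h1 ha hu.left.1
  obtain ⟨x', ⟨hx1', hx0'⟩, hx2', hx3', hx4'⟩ := ext_out (N := N) (x0 := x0) (x1 := x1) (y0 := y0)
    (y1 := y1) hn (by omega) (by omega) (by omega) (by omega) (by omega) h3 hb hv.left.1
  obtain ⟨y, ⟨hy1, hy2⟩, hy3, hyc, hy4⟩ := ext_outD (N := N) hn (by omega) (by omega) (by omega)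
    (by omega) (by omega) h2 hf hfF hfH
  obtain ⟨y', ⟨hy1', hy2'⟩, hy3', hyc', hy4'⟩ := ext_outD (N := N) hn (by omega) (by omega) (by omega)
    (by omega) (by omega) h4 hf' hfF' hfH'
  rw [mem_Sq] at hx2 hx2'
  obtain ⟨A, -, -, hA⟩ := exists_lv hR hx2 hx3 0
  obtain ⟨B, hB1, hB2, hB⟩ := exists_lv hR hx2' hx3' A
  obtain ⟨c, hc1, hc2, hc⟩ := exists_cel hR hy3 A
  obtain ⟨d, hd1', hd2', hd⟩ := exists_cel hR hy3' A
  have hcc : ¬ Crn (N * n) c := not_crn hR (by rw [hc]; exact hyc)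
  have hdc : ¬ Crn (N * n) d := not_crn hR (by rw [hd]; exact hyc')
  -- chains
  obtain ⟨N1, m1, s1⟩ := walk_parity (oc_walk hu)
  obtain ⟨N2, m2, s2⟩ := walk_parity hx4
  obtain ⟨N3, m3, s3⟩ := walk_parity (oc_walk hv)
  obtain ⟨N4, m4, s4⟩ := walk_parity hx4'
  have sA := arcN_star hR A (B - A).toNat
  rw [show A + ((B - A).toNat : ℤ) = B by omega, hA, hB] at sA
  set arc := arcN (N * n) A B with harc
  set M : Edge → ZMod 2 := fun e' => ((N1 e' + N2 e') + (N3 e' + N4 e')) + arc e' with hM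
  have hMz : ∀ e', N1 e' = 0 → N2 e' = 0 → N3 e' = 0 → N4 e' = 0 → M e' = arc e' := by
    intro e' p1 p2 p3 p4
    simp only [hM, p1, p2, p3, p4, zero_add]
  have hstar : ∀ v, Kd458.star M v = ind (v = p) + ind (v = p') := by
    intro v
    have e1 : Kd458.star M v = ((Kd458.star N1 v + Kd458.star N2 v) + (Kd458.star N3 v + Kd458.star N4 v)) +
        Kd458.star arc v := by
      rw [hM, star_add, star_add, star_add, star_add]
    rw [e1, s1, s2, s3, s4, sA]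
    have z1 := zmod2_add_self (ind (v = a))
    have z2 := zmod2_add_self (ind (v = b))
    have z3 := zmod2_add_self (ind (v = x))
    have z4 := zmod2_add_self (ind (v = x'))
    linear_combination z1 + z2 + z3 + z4
  -- circle edges
  have harcF : ∀ e', arc e' ≠ 0 → (fA e' ∈ HF (N * n) ∨ fB e' ∈ HF (N * n)) ∧
      ¬ (fA e' ∈ HF (N * n) ∧ fB e' ∈ HF (N * n)) ∧ IB x0 x1 y0 y1 e' := by
    intro e' h
    obtain ⟨w, _, _, hw, rfl⟩ := arcN_supp hR h
    have hnh := cel_not_HF hR w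
    refine ⟨?_, ?_, ?_⟩
    · rcases ce_faces hR hw with ⟨_, h6⟩ | ⟨h6, _⟩
      · exact Or.inr h6
      · exact Or.inl h6
    · rintro ⟨h6, h7⟩
      rcases ce_faces hR hw with ⟨h8, _⟩ | ⟨_, h8⟩
      · rw [h8] at h6; exact hnh h6
      · rw [h8] at h7; exact hnh h7
    · have hfs := face_src (ce (N * n) w)
      rcases ce_faces hR hw with ⟨h8, h9⟩ | ⟨h9, h8⟩
      · rw [mem_HF] at h9
        constructor <;> omega
      · rw [mem_HF] at h9
        constructor <;> omega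
  have hsupp : ∀ e', M e' ≠ 0 → IB x0 x1 y0 y1 e' := by
    intro e' h
    by_contra hc'
    apply h
    rw [hMz]
    · by_contra h'
      exact hc' (harcF e' h').2.2
    · exact zero_of_not m1 fun hh => hc' ⟨hh.2.1.1.1, hh.2.2.1.1⟩
    · exact zero_of_not m2 fun hh => hc' ⟨hh.1.2.1, hh.2.2.1⟩
    · exact zero_of_not m3 fun hh => hc' ⟨hh.2.1.1.1, hh.2.2.1.1⟩
    · exact zero_of_not m4 fun hh => hc' ⟨hh.1.2.1, hh.2.2.1⟩
  obtain ⟨K, hK1, hK2⟩ := par (by omega) (by omega) hr hr' hsupp hstar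
  -- the hole
  have hH : ∀ e', (fA e' ∈ HF (N * n) ∧ fB e' ∈ HF (N * n)) → K (fA e') + K (fB e') = 0 := by
    intro e' hh
    have hIB : IB x0 x1 y0 y1 e' := by
      have hfs := face_src e'
      obtain ⟨h8, h9⟩ := hh
      rw [mem_HF] at h8 h9
      constructor <;> omega
    rw [hK2 e' hIB, hMz e']
    · by_contra h'
      exact (harcF e' h').2.1 hh
    · exact zero_of_not m1 fun h' => not_both_HF hR1 h'.2.1.1 h'.2.2.1 hh
    · exact zero_of_not m2 fun h' => not_both_HF hR1 h'.1.2 h'.2.2 hh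
    · exact zero_of_not m3 fun h' => not_both_HF hR1 h'.2.1.1 h'.2.2.1 hh
    · exact zero_of_not m4 fun h' => not_both_HF hR1 h'.1.2 h'.2.2 hh
  -- the arms
  have C1 : ∀ e', C e' → K (fA e') + K (fB e') = 0 := by
    intro e' he'
    obtain ⟨c1, c2, c3, c4, c5, c6⟩ := hC e' he'
    rcases c2 with c2 | ⟨⟨v, c2⟩, c7, c8⟩
    · rw [hK2 e' c2, hMz e']
      · by_contra h'
        rcases (harcF e' h').1 with h'' | h''
        · exact c3 h''
        · exact c4 h''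
      · exact zero_of_not m1 fun h' => by rw [c1] at h'; exact absurd h'.1 (by simp)
      · exact zero_of_not m2 fun h' => by
          rcases c5 with c5 | c5
          · exact c5 h'.1.1
          · exact c5 h'.2.1
      · exact zero_of_not m3 fun h' => by rw [c1] at h'; exact absurd h'.1 (by simp)
      · exact zero_of_not m4 fun h' => by
          rcases c6 with c6 | c6
          · exact c6 h'.1.1
          · exact c6 h'.2.1
    · rw [hK1 e' v c2]
      simp only [dl, ind_false c7, ind_false c8, add_zero]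
  -- zero of the arms in the landing blocks of the dual arms
  have hz0 : ∀ k', (k' = k2 ∨ k' = k4) → FarN g k' k1 → FarN g k' k3 → ∀ e', src e' ∈ Bk n k' 2 →
      N1 e' = 0 ∧ N2 e' = 0 ∧ N3 e' = 0 ∧ N4 e' = 0 := by
    intro k' hk' g1 g3 e' hsrc
    have hs8 : src e' ∉ OutV (Rect x0 x1 y0 y1) (N * n) \ Bk2 n k2 k4 m := by
      rintro ⟨_, hh⟩
      apply hh
      rcases hk' with rfl | rfl
      · exact Or.inl (bk_mono hm hsrc)
      · exact Or.inr (bk_mono hm hsrc)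
    exact ⟨zero_of_not m1 fun hh => hs8 hh.2.1, zero_of_not m2 fun hh => bk_disj hn (by omega) g1 hsrc hh.1.1,
      zero_of_not m3 fun hh => hs8 hh.2.1, zero_of_not m4 fun hh => bk_disj hn (by omega) g3 hsrc hh.1.1⟩
  -- blocks are inside `L`
  have hblk : ∀ k' : P2, nr k' = N - 1 → ∀ v ∈ Bk n k' 1, -(N * n) - n ≤ v.1 ∧ v.1 ≤ N * n + n ∧
      -(N * n) - n ≤ v.2 ∧ v.2 ≤ N * n + n := by
    intro k' hk' v hv'
    rw [mem_Bk] at hv'
    obtain ⟨-, g1, g2, g3, g4⟩ := nr_cases hk'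
    have e1 : -(N * (n : ℤ)) - n ≤ (k'.1 - 1) * n := by nlinarith
    have e2 : (k'.1 + 1 + 1) * (n : ℤ) ≤ N * n + n := by nlinarith
    have e3 : -(N * (n : ℤ)) - n ≤ (k'.2 - 1) * n := by nlinarith
    have e4 : (k'.2 + 1 + 1) * (n : ℤ) ≤ N * n + n := by nlinarith
    omega
  have C2 : ∀ k', (k' = k2 ∨ k' = k4) → nr k' = N - 1 → FarN g k' k1 → FarN g k' k3 → ∀ e',
      (fA e' ∈ Bk n k' 1 ∩ (Rect (x0 - 1) x1 (y0 - 1) y1 \ HF (N * n)) ∧
        fB e' ∈ Bk n k' 1 ∩ (Rect (x0 - 1) x1 (y0 - 1) y1 \ HF (N * n))) →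
      K (fA e') + K (fB e') = 0 := by
    rintro k' hk' hnr g1 g3 e' ⟨⟨p1, p2, p3⟩, p4, p5, p6⟩
    have hfs := face_src e'
    have hsrc : src e' ∈ Bk n k' 2 := bk_grow hn p1 (by omega) (by omega) (by omega) (by omega)
    have hIB : IB x0 x1 y0 y1 e' := by
      have q1 := hblk k' hnr _ p1
      have q2 := hblk k' hnr _ p4
      constructor <;> omega
    obtain ⟨z1, z2, z3, z4⟩ := hz0 k' hk' g1 g3 e' hsrc
    rw [hK2 e' hIB, hMz e' z1 z2 z3 z4]
    by_contra h'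
    rcases (harcF e' h').1 with h'' | h''
    · exact p3 h''
    · exact p6 h''
  have e1 : K q = K y := (dual_const C1 hd1).symm.trans
      (dual_const (C2 k2 (Or.inl rfl) h2 (hsym f12) f23) hy4)
  have e2 : K q' = K y' := (dual_const C1 hd2).symm.trans
      (dual_const (C2 k4 (Or.inr rfl) h4 f41 (hsym f34)) hy4')
  -- the value next to the circle
  have hval : ∀ k', (k' = k2 ∨ k' = k4) → FarN g k' k1 → FarN g k' k3 → ∀ w, ¬ Crn (N * n) w →
      A ≤ w → w < A + 4 * (2 * (N * n) + 1) → cel (N * n) w ∈ Bk n k' 1 →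
      K (cel (N * n) w) = K (0, 0) + if w < B then 1 else 0 := by
    intro k' hk' g1 g3 w hw w1 w2 w3
    have hfs := face_src (ce (N * n) w)
    have hO : (0, 0) ∈ HF (N * (n : ℤ)) := by rw [mem_HF]; simp only; omega
    have hsrc : src (ce (N * n) w) ∈ Bk n k' 2 := by
      rcases ce_faces hR hw with ⟨h8, _⟩ | ⟨_, h8⟩
      · rw [← h8] at w3
        exact bk_grow hn w3 (by omega) (by omega) (by omega) (by omega)
      · rw [← h8] at w3
        exact bk_grow hn w3 (by omega) (by omega) (by omega) (by omega)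
    obtain ⟨z1, z2, z3, z4⟩ := hz0 k' hk' g1 g3 _ hsrc
    have hIB : IB x0 x1 y0 y1 (ce (N * n) w) := by
      rcases ce_faces hR hw with ⟨h8, h9⟩ | ⟨h9, h8⟩
      · rw [mem_HF] at h9
        constructor <;> omega
      · rw [mem_HF] at h9
        constructor <;> omega
    have hj := hK2 _ hIB
    rw [hMz _ z1 z2 z3 z4, harc, arcN_ce hR1 hB2.le w1 w2 hw] at hj
    have z := zmod2_add_self (K (0, 0))
    rcases ce_faces hR hw with ⟨h8, h9⟩ | ⟨h9, h8⟩
    · have h10 := dual_const hH (hole_conn h9 hO)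
      rw [h8, h10] at hj
      linear_combination hj - z
    · have h10 := dual_const hH (hole_conn h9 hO)
      rw [h8, h10] at hj
      linear_combination hj - z
  have v1 := hval k2 (Or.inl rfl) (hsym f12) f23 c hcc hc1 hc2 (by rw [hc]; exact hy1)
  have v2 := hval k4 (Or.inr rfl) f41 (hsym f34) d hdc hd1' hd2' (by rw [hd]; exact hy1')
  rw [hc, ← e1] at v1
  rw [hd, ← e2] at v2
  have hcol := col_unique (by omega) (by omega) hF hK1 hq hq'
  have hs : (c < B ∧ B ≤ d) ∨ (d < B ∧ B ≤ c) := by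
    have hKne : K q ≠ K q' := by
      intro h
      apply hne
      rw [h, zmod2_add_self] at hcol
      exact zmod2_eq_of_add hcol
    rw [v1, v2] at hKne
    by_cases hcB : c < B <;> by_cases hdB : d < B
    · rw [if_pos hcB, if_pos hdB] at hKne; exact absurd rfl hKne
    · exact Or.inl ⟨hcB, by omega⟩
    · exact Or.inr ⟨hdB, by omega⟩
    · rw [if_neg hcB, if_neg hdB] at hKne; exact absurd rfl hKne
  refine order_both (by omega) (by omega) hg h1 h2 h3 h4 f12 f23 f34 f41 hc1 hc2 hd1' hd2' hs ?_ ?_ ?_ ?_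
  · have := cel_near hR A
    rw [hA] at this
    exact fl_bk2 hn hx1 this.1 this.2.1 this.2.2.1 this.2.2.2
  · rw [hc]
    exact fl_bk2 hn hy1 (by omega) le_rfl (by omega) le_rfl
  · have := cel_near hR B
    rw [hB] at this
    exact fl_bk2 hn hx1' this.1 this.2.1 this.2.2.1 this.2.2.2
  · rw [hd]
    exact fl_bk2 hn hy1' (by omega) le_rfl (by omega) le_rfl

end out

end Crest.Agent.R158.Sr200
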