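import Crest.Agent.R158.Sw0_300

/-!
# R158, exact lattice layer: abstract planarity of matchings on a circle

`Inv A pos M S u`: on the finite set `A` of ends with (cyclic) positions `pos` the partner map `M`
is a non-crossing matching with exactly one unmatched end `u`, and `S x = true` iff the clockwise
interval from `x` to `M x` does not contain `u`.  The three elementary moves preserve it.
-/

set_option autoImplicit false

namespace Crest.Agent.R158.Sw300

/-- cyclic order of three integers -/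
def cyc (a b c : ℤ) : Prop := (a < b ∧ b < c) ∨ (b < c ∧ c < a) ∨ (c < a ∧ a < b)

/-- non-crossing matching with one unmatched end -/
structure Inv {α : Type*} (A : α → Prop) (pos : α → ℤ) (M : α → α) (S : α → Bool) (u : α) :
    Prop where
  bd : ∃ N : ℤ, ∀ x, A x → -N < pos x ∧ pos x < N
  inj : ∀ x y, A x → A y → x ≠ y → pos x ≠ pos y
  um : A u
  uf : M u = u
  mem : ∀ x, A x → A (M x)
  inv : ∀ x, A x → M (M x) = x
  fix : ∀ x, A x → M x = x → x = u
  st : ∀ x, A x → x ≠ u → (S x = true ↔ cyc (pos x) (pos (M x)) (pos u))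
  nc : ∀ x y, A x → A y → x ≠ u → y ≠ u → y ≠ x → y ≠ M x →
    (cyc (pos x) (pos y) (pos (M x)) ↔ cyc (pos x) (pos (M y)) (pos (M x)))

variable {α : Type*} {A : α → Prop} {pos pos' : α → ℤ} {M : α → α} {S : α → Bool} {u : α}

theorem Inv.congr (h : Inv A pos M S u)
    (hc : ∀ x y z, A x → A y → A z → (cyc (pos' x) (pos' y) (pos' z) ↔
      cyc (pos x) (pos y) (pos z)))
    (hb : ∃ N : ℤ, ∀ x, A x → -N < pos' x ∧ pos' x < N)
    (hi : ∀ x y, A x → A y → x ≠ y → pos' x ≠ pos' y) : Inv A pos' M S u where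
  bd := hb
  inj := hi
  um := h.um
  uf := h.uf
  mem := h.mem
  inv := h.inv
  fix := h.fix
  st x hx hxu := by rw [h.st x hx hxu, hc x (M x) u hx (h.mem x hx) h.um]
  nc x y hx hy h1 h2 h3 h4 := by
    rw [hc _ _ _ hx hy (h.mem x hx), hc _ _ _ hx (h.mem y hy) (h.mem x hx)]
    exact h.nc x y hx hy h1 h2 h3 h4

/-- cut the circle at `p` -/
def cut (pos : α → ℤ) (p : α) (N : ℤ) (x : α) : ℤ :=
  if pos x < pos p then pos x + 2 * N else pos x

theorem cut_cyc {N : ℤ} (hN : ∀ x, A x → -N < pos x ∧ pos x < N) {p : α} (hp : A p) (x y z : α)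
    (hx : A x) (hy : A y) (hz : A z) :
    cyc (cut pos p N x) (cut pos p N y) (cut pos p N z) ↔ cyc (pos x) (pos y) (pos z) := by
  have h1 := hN x hx
  have h2 := hN y hy
  have h3 := hN z hz
  have h4 := hN p hp
  unfold cyc cut
  split_ifs <;> omega

theorem Inv.cut_inv (h : Inv A pos M S u) {p : α} (hp : A p) :
    ∃ N : ℤ, (∀ x, A x → -N < pos x ∧ pos x < N) ∧ Inv A (cut pos p N) M S u := by
  obtain ⟨N, hN⟩ := h.bd
  refine ⟨N, hN, h.congr (fun x y z hx hy hz => cut_cyc hN hp x y z hx hy hz) ⟨3 * N, ?_⟩ ?_⟩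
  · intro x hx
    have h1 := hN x hx
    unfold cut
    split_ifs <;> omega
  · intro x y hx hy hxy
    have h1 := hN x hx
    have h2 := hN y hy
    have h4 := hN p hp
    have := h.inj x y hx hy hxy
    unfold cut
    split_ifs <;> omega

theorem Inv.Mne (h : Inv A pos M S u) {x : α} (hx : A x) (hxu : x ≠ u) : M x ≠ x :=
  fun e => hxu (h.fix x hx e)

theorem Inv.Mu (h : Inv A pos M S u) {x : α} (hx : A x) (hxu : x ≠ u) : M x ≠ u := by
  intro e
  have := h.inv x hx
  rw [e, h.uf] at this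
  exact hxu this.symm

theorem Inv.Minj (h : Inv A pos M S u) {x y : α} (hx : A x) (hy : A y) (e : M x = M y) :
    x = y := by
  rw [← h.inv x hx, ← h.inv y hy, e]

/-- the three maps after the contraction of `p`, `q` -/
def conM [DecidableEq α] (M : α → α) (p q : α) (x : α) : α :=
  if M x = p then (if M q = q then x else M q)
  else if M x = q then (if M p = p then x else M p)
  else M x

def conS [DecidableEq α] (M : α → α) (S : α → Bool) (p q : α) (x : α) : Bool :=
  if M x = p then !(S p) && S q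
  else if M x = q then S p || !(S q)
  else S x

def conu [DecidableEq α] (M : α → α) (u p q : α) : α :=
  if u = p then M q else if u = q then M p else u

section lin

variable [DecidableEq α] {p q : α}

/-- contraction of the two lowest ends, general case -/
theorem con_gen (h : Inv A pos M S u) (hp : A p) (hq : A q) (hpq : pos p < pos q)
    (hlo : ∀ z, A z → z ≠ p → z ≠ q → pos q < pos z) (hpu : p ≠ u) (hqu : q ≠ u)
    (hM : M p ≠ q) :
    Inv (fun x => A x ∧ x ≠ p ∧ x ≠ q) pos (conM M p q) (conS M S p q) (conu M u p q) := by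
  have hpq' : p ≠ q := by rintro rfl; exact lt_irrefl _ hpq
  have hMp : M p ≠ p := h.Mne hp hpu
  have hMq : M q ≠ q := h.Mne hq hqu
  have hMqp : M q ≠ p := by
    intro e
    apply hM
    rw [← e, h.inv q hq]
  have hu' : conu M u p q = u := by
    unfold conu
    rw [if_neg (Ne.symm hpu), if_neg (Ne.symm hqu)]
  -- the partners `a = M p`, `b = M q`
  obtain ⟨a, ha⟩ : ∃ a, a = M p := ⟨_, rfl⟩
  obtain ⟨b, hb⟩ : ∃ b, b = M q := ⟨_, rfl⟩
  have hAa : A a := ha ▸ h.mem p hp
  have hAb : A b := hb ▸ h.mem q hq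
  have hMa : M a = p := by rw [ha]; exact h.inv p hp
  have hMb : M b = q := by rw [hb]; exact h.inv q hq
  have hap : a ≠ p := ha ▸ hMp
  have haq : a ≠ q := ha ▸ hM
  have hbp : b ≠ p := hb ▸ hMqp
  have hbq : b ≠ q := hb ▸ hMq
  have hab : a ≠ b := by
    intro e
    apply hpq'
    rw [← hMa, ← hMb, e]
  have hau : a ≠ u := ha ▸ h.Mu hp hpu
  have hbu : b ≠ u := hb ▸ h.Mu hq hqu
  have cMa : conM M p q a = b := by
    unfold conM; rw [if_pos hMa, if_neg hMq, hb]
  have cMb : conM M p q b = a := by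
    unfold conM; rw [if_neg (by rw [hMb]; exact Ne.symm hpq'), if_pos hMb, if_neg hMp, ha]
  have cMx : ∀ x, A x → x ≠ a → x ≠ b → conM M p q x = M x := by
    intro x hx h1 h2
    unfold conM
    rw [if_neg, if_neg]
    · intro e; exact h2 (h.Minj hx hAb (e.trans hMb.symm))
    · intro e; exact h1 (h.Minj hx hAa (e.trans hMa.symm))
  have nMp : ∀ x, A x → x ≠ a → M x ≠ p := fun x hx h1 e =>
    h1 (h.Minj hx hAa (e.trans hMa.symm))
  have nMq : ∀ x, A x → x ≠ b → M x ≠ q := fun x hx h1 e =>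
    h1 (h.Minj hx hAb (e.trans hMb.symm))
  have La := hlo a hAa hap haq
  have Lb := hlo b hAb hbp hbq
  have Lu := hlo u h.um (Ne.symm hpu) (Ne.symm hqu)
  have Dab := h.inj a b hAa hAb hab
  have Dau := h.inj a u hAa h.um hau
  have Dbu := h.inj b u hAb h.um hbu
  have N1 := h.nc p q hp hq hpu hqu (Ne.symm hpq') (Ne.symm hM)
  rw [← ha, ← hb] at N1
  have Sp := h.st p hp hpu
  have Sq := h.st q hq hqu
  rw [← ha] at Sp
  rw [← hb] at Sq
  have N1' : pos b < pos a := by
    unfold cyc at N1; omega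
  have Sp' : S p = true ↔ pos a < pos u := by
    rw [Sp]; unfold cyc; omega
  have Sq' : S q = true ↔ pos b < pos u := by
    rw [Sq]; unfold cyc; omega
  refine ⟨?_, ?_, ?_, ?_, ?_, ?_, ?_, ?_, ?_⟩
  · obtain ⟨N, hN⟩ := h.bd
    exact ⟨N, fun x hx => hN x hx.1⟩
  · exact fun x y hx hy => h.inj x y hx.1 hy.1
  · rw [hu']; exact ⟨h.um, Ne.symm hpu, Ne.symm hqu⟩
  · rw [hu', cMx u h.um (Ne.symm hau) (Ne.symm hbu), h.uf]
  · rintro x ⟨hx, h1, h2⟩
    by_cases xa : x = a
    · subst xa; rw [cMa]; exact ⟨hAb, hbp, hbq⟩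
    by_cases xb : x = b
    · subst xb; rw [cMb]; exact ⟨hAa, hap, haq⟩
    rw [cMx x hx xa xb]
    exact ⟨h.mem x hx, nMp x hx xa, nMq x hx xb⟩
  · rintro x ⟨hx, h1, h2⟩
    by_cases xa : x = a
    · subst xa; rw [cMa, cMb]
    by_cases xb : x = b
    · subst xb; rw [cMb, cMa]
    rw [cMx x hx xa xb, cMx (M x) (h.mem x hx), h.inv x hx]
    · intro e; apply h1; rw [← h.inv x hx, e, hMa]
    · intro e; apply h2; rw [← h.inv x hx, e, hMb]
  · rintro x ⟨hx, h1, h2⟩ e
    rw [hu']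
    by_cases xa : x = a
    · rw [xa, cMa] at e; exact absurd e.symm hab
    by_cases xb : x = b
    · rw [xb, cMb] at e; exact absurd e hab
    rw [cMx x hx xa xb] at e
    exact h.fix x hx e
  · rintro x ⟨hx, h1, h2⟩ hxu
    rw [hu'] at hxu ⊢
    by_cases xa : x = a
    · subst xa
      rw [cMa]
      have : conS M S p q x = (!(S p) && S q) := by unfold conS; rw [if_pos hMa]
      rw [this]
      rw [Bool.and_eq_true, Bool.not_eq_true', ← Bool.not_eq_true, Sp', Sq']
      unfold cyc; omega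
    by_cases xb : x = b
    · subst xb
      rw [cMb]
      have : conS M S p q x = (S p || !(S q)) := by
        unfold conS; rw [if_neg (by rw [hMb]; exact Ne.symm hpq'), if_pos hMb]
      rw [this]
      rw [Bool.or_eq_true, Bool.not_eq_true', ← Bool.not_eq_true, Sp', Sq']
      unfold cyc; omega
    rw [cMx x hx xa xb]
    have : conS M S p q x = S x := by
      unfold conS; rw [if_neg (nMp x hx xa), if_neg (nMq x hx xb)]
    rw [this]
    exact h.st x hx hxu
  · rintro x y ⟨hx, hxp, hxq⟩ ⟨hy, hyp, hyq⟩ hxu hyu hyx hyM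
    rw [hu'] at hxu hyu
    have Lx := hlo x hx hxp hxq
    have Ly := hlo y hy hyp hyq
    by_cases xa : x = a
    · have yb : y ≠ b := by rw [xa, cMa] at hyM; exact hyM
      have ya : y ≠ a := by rw [xa] at hyx; exact hyx
      have Lmy := hlo (M y) (h.mem y hy) (nMp y hy ya) (nMq y hy yb)
      rw [xa, cMa, cMx y hy ya yb]
      have n1 := h.nc p y hp hy hpu hyu hyp (by rw [← ha]; exact ya)
      have n2 := h.nc q y hq hy hqu hyu hyq (by rw [← hb]; exact yb)
      rw [← ha] at n1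
      rw [← hb] at n2
      have d1 := h.inj y a hy hAa ya
      have d2 := h.inj y b hy hAb yb
      have d3 : pos (M y) ≠ pos a := h.inj (M y) a (h.mem y hy) hAa (by
        intro e; apply hyp; rw [← h.inv y hy, e, hMa])
      have d4 : pos (M y) ≠ pos b := h.inj (M y) b (h.mem y hy) hAb (by
        intro e; apply hyq; rw [← h.inv y hy, e, hMb])
      have n1' : pos y < pos a ↔ pos (M y) < pos a := by unfold cyc at n1; omega
      have n2' : pos y < pos b ↔ pos (M y) < pos b := by unfold cyc at n2; omega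
      clear n1 n2 N1 Sp Sq
      unfold cyc; omega
    by_cases xb : x = b
    · have ya : y ≠ a := by rw [xb, cMb] at hyM; exact hyM
      have yb : y ≠ b := by rw [xb] at hyx; exact hyx
      have Lmy := hlo (M y) (h.mem y hy) (nMp y hy ya) (nMq y hy yb)
      rw [xb, cMb, cMx y hy ya yb]
      have n1 := h.nc p y hp hy hpu hyu hyp (by rw [← ha]; exact ya)
      have n2 := h.nc q y hq hy hqu hyu hyq (by rw [← hb]; exact yb)
      rw [← ha] at n1
      rw [← hb] at n2
      have d1 := h.inj y a hy hAa ya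
      have d2 := h.inj y b hy hAb yb
      have d3 : pos (M y) ≠ pos a := h.inj (M y) a (h.mem y hy) hAa (by
        intro e; apply hyp; rw [← h.inv y hy, e, hMa])
      have d4 : pos (M y) ≠ pos b := h.inj (M y) b (h.mem y hy) hAb (by
        intro e; apply hyq; rw [← h.inv y hy, e, hMb])
      have n1' : pos y < pos a ↔ pos (M y) < pos a := by unfold cyc at n1; omega
      have n2' : pos y < pos b ↔ pos (M y) < pos b := by unfold cyc at n2; omega
      clear n1 n2 N1 Sp Sq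
      unfold cyc; omega
    rw [cMx x hx xa xb] at hyM ⊢
    have Lmx := hlo (M x) (h.mem x hx) (nMp x hx xa) (nMq x hx xb)
    have Dx := h.inj x (M x) hx (h.mem x hx) (Ne.symm (h.Mne hx hxu))
    have key : cyc (pos x) (pos a) (pos (M x)) ↔ cyc (pos x) (pos b) (pos (M x)) := by
      have n1 := h.nc x p hx hp hxu hpu (Ne.symm hxp) (Ne.symm (nMp x hx xa))
      have n2 := h.nc x q hx hq hxu hqu (Ne.symm hxq) (Ne.symm (nMq x hx xb))
      rw [← ha] at n1
      rw [← hb] at n2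
      rw [← n1, ← n2]
      clear n1 n2 N1 Sp Sq
      unfold cyc; omega
    by_cases ya : y = a
    · rw [ya, cMa]; exact key
    by_cases yb : y = b
    · rw [yb, cMb]; exact key.symm
    rw [cMx y hy ya yb]
    exact h.nc x y hx hy hxu hyu hyx hyM

/-- contraction of the two ends of one arc (a loop is closed) -/
theorem con_loop (h : Inv A pos M S u) (hp : A p) (hq : A q) (hpu : p ≠ u) (hqu : q ≠ u)
    (hM : M p = q) :
    Inv (fun x => A x ∧ x ≠ p ∧ x ≠ q) pos (conM M p q) (conS M S p q) (conu M u p q) := by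
  have hMq : M q = p := by rw [← hM]; exact h.inv p hp
  have hu' : conu M u p q = u := by
    unfold conu
    rw [if_neg (Ne.symm hpu), if_neg (Ne.symm hqu)]
  have n1 : ∀ x, A x → x ≠ q → M x ≠ p := fun x hx h2 e =>
    h2 (h.Minj hx hq (e.trans hMq.symm))
  have n2 : ∀ x, A x → x ≠ p → M x ≠ q := fun x hx h1 e =>
    h1 (h.Minj hx hp (e.trans hM.symm))
  have cM : ∀ x, A x → x ≠ p → x ≠ q → conM M p q x = M x := by
    intro x hx h1 h2
    unfold conM
    rw [if_neg (n1 x hx h2), if_neg (n2 x hx h1)]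
  have cS : ∀ x, A x → x ≠ p → x ≠ q → conS M S p q x = S x := by
    intro x hx h1 h2
    unfold conS
    rw [if_neg (n1 x hx h2), if_neg (n2 x hx h1)]
  refine ⟨?_, ?_, ?_, ?_, ?_, ?_, ?_, ?_, ?_⟩
  · obtain ⟨N, hN⟩ := h.bd
    exact ⟨N, fun x hx => hN x hx.1⟩
  · exact fun x y hx hy => h.inj x y hx.1 hy.1
  · rw [hu']; exact ⟨h.um, Ne.symm hpu, Ne.symm hqu⟩
  · rw [hu', cM u h.um (Ne.symm hpu) (Ne.symm hqu), h.uf]
  · rintro x ⟨hx, h1, h2⟩
    rw [cM x hx h1 h2]
    exact ⟨h.mem x hx, n1 x hx h2, n2 x hx h1⟩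
  · rintro x ⟨hx, h1, h2⟩
    rw [cM x hx h1 h2, cM (M x) (h.mem x hx) (n1 x hx h2) (n2 x hx h1), h.inv x hx]
  · rintro x ⟨hx, h1, h2⟩ e
    rw [cM x hx h1 h2] at e
    rw [hu']; exact h.fix x hx e
  · rintro x ⟨hx, h1, h2⟩ hxu
    rw [hu'] at hxu ⊢
    rw [cM x hx h1 h2, cS x hx h1 h2]
    exact h.st x hx hxu
  · rintro x y ⟨hx, hxp, hxq⟩ ⟨hy, hyp, hyq⟩ hxu hyu hyx hyM
    rw [hu'] at hxu hyu
    rw [cM x hx hxp hxq] at hyM ⊢
    rw [cM y hy hyp hyq]
    exact h.nc x y hx hy hxu hyu hyx hyM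

/-- contraction of the unmatched end `p` with the next end `q` -/
theorem con_up (h : Inv A pos M S p) (hp : A p) (hq : A q) (hpq : pos p < pos q)
    (hlo : ∀ z, A z → z ≠ p → z ≠ q → pos q < pos z) :
    Inv (fun x => A x ∧ x ≠ p ∧ x ≠ q) pos (conM M p q) (conS M S p q) (conu M p p q) := by
  have hpq' : p ≠ q := by rintro rfl; exact lt_irrefl _ hpq
  have hMp : M p = p := h.uf
  have hqp : q ≠ p := Ne.symm hpq'
  obtain ⟨b, hb⟩ : ∃ b, b = M q := ⟨_, rfl⟩
  have hAb : A b := hb ▸ h.mem q hq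
  have hMb : M b = q := by rw [hb]; exact h.inv q hq
  have hbp : b ≠ p := hb ▸ h.Mu hq hqp
  have hbq : b ≠ q := hb ▸ h.Mne hq hqp
  have hu' : conu M p p q = b := by
    unfold conu
    rw [if_pos rfl, hb]
  have n1 : ∀ x, A x → x ≠ p → M x ≠ p := fun x hx h2 e => h2 (h.Minj hx hp (e.trans hMp.symm))
  have n2 : ∀ x, A x → x ≠ b → M x ≠ q := fun x hx h2 e =>
    h2 (h.Minj hx hAb (e.trans hMb.symm))
  have cM : ∀ x, A x → x ≠ p → x ≠ b → conM M p q x = M x := by
    intro x hx h1 h2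
    unfold conM
    rw [if_neg (n1 x hx h1), if_neg (n2 x hx h2)]
  have cMb : conM M p q b = b := by
    unfold conM
    rw [if_neg (by rw [hMb]; exact hqp), if_pos hMb, if_pos hMp]
  have cS : ∀ x, A x → x ≠ p → x ≠ b → conS M S p q x = S x := by
    intro x hx h1 h2
    unfold conS
    rw [if_neg (n1 x hx h1), if_neg (n2 x hx h2)]
  have Lb := hlo b hAb hbp hbq
  refine ⟨?_, ?_, ?_, ?_, ?_, ?_, ?_, ?_, ?_⟩
  · obtain ⟨N, hN⟩ := h.bd
    exact ⟨N, fun x hx => hN x hx.1⟩
  · exact fun x y hx hy => h.inj x y hx.1 hy.1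
  · rw [hu']; exact ⟨hAb, hbp, hbq⟩
  · rw [hu', cMb]
  · rintro x ⟨hx, h1, h2⟩
    by_cases xb : x = b
    · subst xb; rw [cMb]; exact ⟨hAb, hbp, hbq⟩
    rw [cM x hx h1 xb]
    exact ⟨h.mem x hx, n1 x hx h1, n2 x hx xb⟩
  · rintro x ⟨hx, h1, h2⟩
    by_cases xb : x = b
    · subst xb; rw [cMb, cMb]
    rw [cM x hx h1 xb, cM (M x) (h.mem x hx) (n1 x hx h1), h.inv x hx]
    intro e; apply h2; rw [← h.inv x hx, e, hMb]
  · rintro x ⟨hx, h1, h2⟩ e
    rw [hu']
    by_contra xb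
    rw [cM x hx h1 xb] at e
    exact h1 (h.fix x hx e)
  · rintro x ⟨hx, h1, h2⟩ hxu
    rw [hu'] at hxu ⊢
    rw [cM x hx h1 hxu, cS x hx h1 hxu, h.st x hx h1]
    have Lx := hlo x hx h1 h2
    have Lmx := hlo (M x) (h.mem x hx) (n1 x hx h1) (n2 x hx hxu)
    have d1 := h.inj x b hx hAb hxu
    have d2 := h.inj x (M x) hx (h.mem x hx) (Ne.symm (h.Mne hx h1))
    have d3 : pos (M x) ≠ pos b := h.inj (M x) b (h.mem x hx) hAb (by
        intro e; apply h2; rw [← h.inv x hx, e, hMb])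
    have n3 := h.nc q x hq hx hqp h1 h2 (by rw [← hb]; exact hxu)
    rw [← hb] at n3
    have n3' : pos x < pos b ↔ pos (M x) < pos b := by unfold cyc at n3; omega
    clear n3
    unfold cyc; omega
  · rintro x y ⟨hx, hxp, hxq⟩ ⟨hy, hyp, hyq⟩ hxu hyu hyx hyM
    rw [hu'] at hxu hyu
    rw [cM x hx hxp hxu] at hyM ⊢
    rw [cM y hy hyp hyu]
    exact h.nc x y hx hy hxp hyp hyx hyM

/-- contraction of the end `p` with the unmatched end `q` that follows it -/
theorem con_uq (h : Inv A pos M S q) (hp : A p) (hq : A q) (hpq : pos p < pos q)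
    (hlo : ∀ z, A z → z ≠ p → z ≠ q → pos q < pos z) :
    Inv (fun x => A x ∧ x ≠ p ∧ x ≠ q) pos (conM M p q) (conS M S p q) (conu M q p q) := by
  have hpq' : p ≠ q := by rintro rfl; exact lt_irrefl _ hpq
  have hMq : M q = q := h.uf
  obtain ⟨a, ha⟩ : ∃ a, a = M p := ⟨_, rfl⟩
  have hAa : A a := ha ▸ h.mem p hp
  have hMa : M a = p := by rw [ha]; exact h.inv p hp
  have haq : a ≠ q := ha ▸ h.Mu hp hpq'
  have hap : a ≠ p := ha ▸ h.Mne hp hpq'
  have hu' : conu M q p q = a := by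
    unfold conu
    rw [if_neg (Ne.symm hpq'), if_pos rfl, ha]
  have n1 : ∀ x, A x → x ≠ a → M x ≠ p := fun x hx h2 e =>
    h2 (h.Minj hx hAa (e.trans hMa.symm))
  have n2 : ∀ x, A x → x ≠ q → M x ≠ q := fun x hx h2 e => h2 (h.Minj hx hq (e.trans hMq.symm))
  have cM : ∀ x, A x → x ≠ q → x ≠ a → conM M p q x = M x := by
    intro x hx h1 h2
    unfold conM
    rw [if_neg (n1 x hx h2), if_neg (n2 x hx h1)]
  have cMa : conM M p q a = a := by
    unfold conM
    rw [if_pos hMa, if_pos hMq]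
  have cS : ∀ x, A x → x ≠ q → x ≠ a → conS M S p q x = S x := by
    intro x hx h1 h2
    unfold conS
    rw [if_neg (n1 x hx h2), if_neg (n2 x hx h1)]
  have La := hlo a hAa hap haq
  refine ⟨?_, ?_, ?_, ?_, ?_, ?_, ?_, ?_, ?_⟩
  · obtain ⟨N, hN⟩ := h.bd
    exact ⟨N, fun x hx => hN x hx.1⟩
  · exact fun x y hx hy => h.inj x y hx.1 hy.1
  · rw [hu']; exact ⟨hAa, hap, haq⟩
  · rw [hu', cMa]
  · rintro x ⟨hx, h1, h2⟩
    by_cases xa : x = a
    · subst xa; rw [cMa]; exact ⟨hAa, hap, haq⟩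
    rw [cM x hx h2 xa]
    exact ⟨h.mem x hx, n1 x hx xa, n2 x hx h2⟩
  · rintro x ⟨hx, h1, h2⟩
    by_cases xa : x = a
    · subst xa; rw [cMa, cMa]
    rw [cM x hx h2 xa, cM (M x) (h.mem x hx) (n2 x hx h2), h.inv x hx]
    intro e; apply h1; rw [← h.inv x hx, e, hMa]
  · rintro x ⟨hx, h1, h2⟩ e
    rw [hu']
    by_contra xa
    rw [cM x hx h2 xa] at e
    exact h2 (h.fix x hx e)
  · rintro x ⟨hx, h1, h2⟩ hxu
    rw [hu'] at hxu ⊢
    rw [cM x hx h2 hxu, cS x hx h2 hxu, h.st x hx h2]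
    have Lx := hlo x hx h1 h2
    have Lmx := hlo (M x) (h.mem x hx) (n1 x hx hxu) (n2 x hx h2)
    have d1 := h.inj x a hx hAa hxu
    have d2 := h.inj x (M x) hx (h.mem x hx) (Ne.symm (h.Mne hx h2))
    have d3 : pos (M x) ≠ pos a := h.inj (M x) a (h.mem x hx) hAa (by
        intro e; apply h1; rw [← h.inv x hx, e, hMa])
    have n3 := h.nc p x hp hx hpq' h2 h1 (by rw [← ha]; exact hxu)
    rw [← ha] at n3
    have n3' : pos x < pos a ↔ pos (M x) < pos a := by unfold cyc at n3; omega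
    clear n3
    unfold cyc; omega
  · rintro x y ⟨hx, hxp, hxq⟩ ⟨hy, hyp, hyq⟩ hxu hyu hyx hyM
    rw [hu'] at hxu hyu
    rw [cM x hx hxq hxu] at hyM ⊢
    rw [cM y hy hyq hyu]
    exact h.nc x y hx hy hxq hyq hyx hyM

theorem con_lin (h : Inv A pos M S u) (hp : A p) (hq : A q) (hpq : pos p < pos q)
    (hlo : ∀ z, A z → z ≠ p → z ≠ q → pos q < pos z) :
    Inv (fun x => A x ∧ x ≠ p ∧ x ≠ q) pos (conM M p q) (conS M S p q) (conu M u p q) := by
  by_cases hpu : p = u
  · subst hpu; exact con_up h hp hq hpq hlo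
  by_cases hqu : q = u
  · subst hqu; exact con_uq h hp hq hpq hlo
  by_cases hM : M p = q
  · exact con_loop h hp hq hpu hqu hM
  · exact con_gen h hp hq hpq hlo hpu hqu hM

/-- planarity facts used by a contraction: for cyclically consecutive `p`, `q` -/
theorem con_facts (h : Inv A pos M S u) (hp : A p) (hq : A q) (hpq : pos p < pos q)
    (hlo : ∀ z, A z → z ≠ p → z ≠ q → pos q < pos z) :
    (p = u → S q = true) ∧ (q = u → S p = false) ∧
    (p ≠ u → q ≠ u → M p = q → S p = true ∧ S q = false) ∧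
    (p ≠ u → q ≠ u → M p ≠ q → ¬ (S p = true ∧ S q = false)) := by
  have hpq' : p ≠ q := by rintro rfl; exact lt_irrefl _ hpq
  refine ⟨?_, ?_, ?_, ?_⟩
  · intro e
    have hqu : q ≠ u := by rw [← e]; exact Ne.symm hpq'
    rw [h.st q hq hqu]
    have L1 := hlo (M q) (h.mem q hq) (by rw [e]; exact h.Mu hq hqu) (h.Mne hq hqu)
    rw [← e]; unfold cyc; omega
  · intro e
    have hpu : p ≠ u := by rw [← e]; exact hpq'
    have L1 := hlo (M p) (h.mem p hp) (h.Mne hp hpu) (by rw [e]; exact h.Mu hp hpu)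
    have := h.st p hp hpu
    rw [Bool.eq_false_iff, Ne, this, ← e]
    unfold cyc; omega
  · intro hpu hqu hM
    have L1 := hlo u h.um (Ne.symm hpu) (Ne.symm hqu)
    have hMq : M q = p := by rw [← hM]; exact h.inv p hp
    constructor
    · rw [h.st p hp hpu, hM]; unfold cyc; omega
    · rw [Bool.eq_false_iff, Ne, h.st q hq hqu, hMq]; unfold cyc; omega
  · intro hpu hqu hM
    have hMp := h.Mne hp hpu
    have hMq := h.Mne hq hqu
    have hMqp : M q ≠ p := by
      intro e; apply hM; rw [← e, h.inv q hq]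
    have L1 := hlo u h.um (Ne.symm hpu) (Ne.symm hqu)
    have L2 := hlo (M p) (h.mem p hp) hMp hM
    have L3 := hlo (M q) (h.mem q hq) hMqp hMq
    have d1 : pos (M p) ≠ pos (M q) := h.inj _ _ (h.mem p hp) (h.mem q hq)
      (fun e => hpq' (h.Minj hp hq e))
    have d2 := h.inj _ _ (h.mem p hp) h.um (h.Mu hp hpu)
    have d3 := h.inj _ _ (h.mem q hq) h.um (h.Mu hq hqu)
    have n1 := h.nc p q hp hq hpu hqu (Ne.symm hpq') (Ne.symm hM)
    rintro ⟨h1, h2⟩
    rw [h.st p hp hpu] at h1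
    rw [Bool.eq_false_iff, Ne, h.st q hq hqu] at h2
    have n1' : pos (M q) < pos (M p) := by unfold cyc at n1; omega
    clear n1
    unfold cyc at h1 h2; omega

end lin

section cont

variable [DecidableEq α] {p q : α}

theorem low_of_adj (h : Inv A pos M S u) (hp : A p) (hq : A q) (hpq : p ≠ q)
    (hadj : ∀ z, A z → z ≠ p → z ≠ q → ¬ cyc (pos p) (pos z) (pos q)) {N : ℤ}
    (hN : ∀ x, A x → -N < pos x ∧ pos x < N) :
    cut pos p N p < cut pos p N q ∧
      ∀ z, A z → z ≠ p → z ≠ q → cut pos p N q < cut pos p N z := by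
  have hp1 := hN p hp
  have hq1 := hN q hq
  have d := h.inj p q hp hq hpq
  constructor
  · unfold cut; rw [if_neg (lt_irrefl _)]; split_ifs <;> omega
  · intro z hz h1 h2
    have hz1 := hN z hz
    have d1 := h.inj z p hz hp h1
    have d2 := h.inj z q hz hq h2
    have := hadj z hz h1 h2
    unfold cyc at this
    unfold cut
    split_ifs <;> omega

/-- **contraction of two cyclically consecutive ends** -/
theorem Inv.con (h : Inv A pos M S u) (hp : A p) (hq : A q) (hpq : p ≠ q)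
    (hadj : ∀ z, A z → z ≠ p → z ≠ q → ¬ cyc (pos p) (pos z) (pos q)) :
    Inv (fun x => A x ∧ x ≠ p ∧ x ≠ q) pos (conM M p q) (conS M S p q) (conu M u p q) := by
  obtain ⟨N, hN, h'⟩ := h.cut_inv hp
  obtain ⟨l1, l2⟩ := low_of_adj h hp hq hpq hadj hN
  have := con_lin h' hp hq l1 l2
  refine this.congr (fun x y z hx hy hz => (cut_cyc hN hp x y z hx.1 hy.1 hz.1).symm)
    ⟨N, fun x hx => hN x hx.1⟩ (fun x y hx hy => h.inj x y hx.1 hy.1)

theorem Inv.facts (h : Inv A pos M S u) (hp : A p) (hq : A q) (hpq : p ≠ q)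
    (hadj : ∀ z, A z → z ≠ p → z ≠ q → ¬ cyc (pos p) (pos z) (pos q)) :
    (p = u → S q = true) ∧ (q = u → S p = false) ∧
    (p ≠ u → q ≠ u → M p = q → S p = true ∧ S q = false) ∧
    (p ≠ u → q ≠ u → M p ≠ q → ¬ (S p = true ∧ S q = false)) := by
  obtain ⟨N, hN, h'⟩ := h.cut_inv hp
  obtain ⟨l1, l2⟩ := low_of_adj h hp hq hpq hadj hN
  exact con_facts h' hp hq l1 l2

end cont

end Crest.Agent.R158.Sw300
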