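import Crest.Agent.R158.Sw1_300

/-!
# R158, exact lattice layer: attaching a tile preserves planarity
-/

set_option autoImplicit false

namespace Crest.Agent.R158.Sw300

section ins

variable {α : Type*} [DecidableEq α] {A : α → Prop} {pos pos' : α → ℤ} {M M' : α → α}
  {S S' : α → Bool} {u p e f g : α}

/-- replace the end `p` by `e` and insert the matched consecutive ends `f, g` beside it -/
structure Ins (A : α → Prop) (pos pos' : α → ℤ) (M M' : α → α) (S S' : α → Bool)
    (p e f g : α) : Prop where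
  hp : A p
  he : ¬ A e
  hf : ¬ A f
  hg : ¬ A g
  hef : e ≠ f
  heg : e ≠ g
  hfg : f ≠ g
  px : ∀ x, A x → x ≠ p → pos' x = 4 * pos x
  pf : 4 * pos p ≤ pos' f ∧ pos' g ≤ 4 * pos p + 2 ∧ pos' f < pos' g
  pe : (4 * pos p ≤ pos' e ∧ pos' e < pos' f) ∨ (pos' g < pos' e ∧ pos' e ≤ 4 * pos p + 2)
  Me : M' e = if M p = p then e else M p
  Mf : M' f = g
  Mg : M' g = f
  Mx : ∀ x, A x → x ≠ p → M' x = if M x = p then e else M x
  Se : S' e = S p
  Sf : S' f = true
  Sg : S' g = false
  Sx : ∀ x, A x → x ≠ p → S' x = S x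

/-- attach at the unmatched end -/
theorem ins_u (h : Inv A pos M S p) (i : Ins A pos pos' M M' S S' p e f g) :
    Inv (fun x => (A x ∧ x ≠ p) ∨ x = e ∨ x = f ∨ x = g) pos' M' S' e := by
  obtain ⟨hp, he, hf, hg, hef, heg, hfg, px, pf, pe, Me, Mf, Mg, Mx, Se, Sf, Sg, Sx⟩ := i
  have Mp := h.uf
  rw [if_pos Mp] at Me
  have nM : ∀ x, A x → x ≠ p → M x ≠ p := fun x hx h1 e =>
    h1 (h.Minj hx hp (e.trans Mp.symm))
  have Mx' : ∀ x, A x → x ≠ p → M' x = M x := fun x hx h1 => by
    rw [Mx x hx h1, if_neg (nM x hx h1)]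
  have ne : ∀ x, A x → x ≠ e ∧ x ≠ f ∧ x ≠ g := fun x hx =>
    ⟨by rintro rfl; exact he hx, by rintro rfl; exact hf hx, by rintro rfl; exact hg hx⟩
  have old : ∀ x, A x → x ≠ p → pos' x < 4 * pos p ∨ 4 * pos p + 2 < pos' x := by
    intro x hx h1
    have d := h.inj x p hx hp h1
    rw [px x hx h1]; omega
  refine ⟨?_, ?_, ?_, ?_, ?_, ?_, ?_, ?_, ?_⟩
  · obtain ⟨N, hN⟩ := h.bd
    have np := hN p hp
    refine ⟨4 * N + 8, ?_⟩
    rintro x (⟨hx, h1⟩ | rfl | rfl | rfl)
    · have := hN x hx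
      rw [px x hx h1]; omega
    · omega
    · omega
    · omega
  · rintro x y (⟨hx, h1⟩ | rfl | rfl | rfl) (⟨hy, h2⟩ | rfl | rfl | rfl) hxy
    · have d := h.inj x y hx hy hxy
      rw [px x hx h1, px y hy h2]; omega
    all_goals first
      | exact absurd rfl hxy
      | (have := old _ (by assumption) (by assumption); omega)
      | omega
  · right; left; rfl
  · exact Me
  · rintro x (⟨hx, h1⟩ | rfl | rfl | rfl)
    · rw [Mx' x hx h1]; left; exact ⟨h.mem x hx, nM x hx h1⟩
    · rw [Me]; right; left; rfl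
    · rw [Mf]; right; right; right; rfl
    · rw [Mg]; right; right; left; rfl
  · rintro x (⟨hx, h1⟩ | rfl | rfl | rfl)
    · rw [Mx' x hx h1, Mx' _ (h.mem x hx) (nM x hx h1), h.inv x hx]
    · rw [Me, Me]
    · rw [Mf, Mg]
    · rw [Mg, Mf]
  · rintro x (⟨hx, h1⟩ | rfl | rfl | rfl) e1
    · rw [Mx' x hx h1] at e1; exact absurd (h.fix x hx e1) h1
    · rfl
    · rw [Mf] at e1; exact absurd e1.symm hfg
    · rw [Mg] at e1; exact absurd e1 hfg
  · rintro x (⟨hx, h1⟩ | rfl | rfl | rfl) hxu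
    · rw [Sx x hx h1, Mx' x hx h1, h.st x hx h1, px x hx h1, px _ (h.mem x hx) (nM x hx h1)]
      have d1 := h.inj x p hx hp h1
      have d2 := h.inj (M x) p (h.mem x hx) hp (nM x hx h1)
      have d3 := h.inj x (M x) hx (h.mem x hx) (Ne.symm (h.Mne hx h1))
      unfold cyc; omega
    · exact absurd rfl hxu
    · rw [Sf, Mf]
      simp only [true_iff]
      unfold cyc; omega
    · rw [Sg, Mg]
      simp only [Bool.false_eq_true, false_iff]
      unfold cyc; omega
  · have oldM : ∀ x, A x → x ≠ p → pos' (M' x) < 4 * pos p ∨ 4 * pos p + 2 < pos' (M' x) := by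
      intro x hx h1
      rw [Mx' x hx h1]
      exact old _ (h.mem x hx) (nM x hx h1)
    rintro x y (⟨hx, h1⟩ | rfl | rfl | rfl) (⟨hy, h2⟩ | rfl | rfl | rfl) hxu hyu hyx hyM
    · rw [Mx' x hx h1] at hyM
      have := h.nc x y hx hy h1 h2 hyx hyM
      rw [Mx' x hx h1, Mx' y hy h2, px x hx h1, px y hy h2, px _ (h.mem x hx) (nM x hx h1),
        px _ (h.mem y hy) (nM y hy h2)]
      unfold cyc at this ⊢; omega
    · exact absurd rfl hyu
    · have o1 := old x hx h1
      have o2 := oldM x hx h1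
      rw [Mf]; unfold cyc; omega
    · have o1 := old x hx h1
      have o2 := oldM x hx h1
      rw [Mg]; unfold cyc; omega
    · exact absurd rfl hxu
    · exact absurd rfl hxu
    · exact absurd rfl hxu
    · exact absurd rfl hxu
    · have o1 := old y hy h2
      have o2 := oldM y hy h2
      rw [Mf]; unfold cyc; omega
    · exact absurd rfl hyu
    · exact absurd rfl hyx
    · exact absurd Mf.symm hyM
    · have o1 := old y hy h2
      have o2 := oldM y hy h2
      rw [Mg]; unfold cyc; omega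
    · exact absurd rfl hyu
    · exact absurd Mg.symm hyM
    · exact absurd rfl hyx

/-- attach at a matched end -/
theorem ins_m (h : Inv A pos M S u) (i : Ins A pos pos' M M' S S' p e f g) (hpu : p ≠ u) :
    Inv (fun x => (A x ∧ x ≠ p) ∨ x = e ∨ x = f ∨ x = g) pos' M' S' u := by
  obtain ⟨hp, he, hf, hg, hef, heg, hfg, px, pf, pe, Me, Mf, Mg, Mx, Se, Sf, Sg, Sx⟩ := i
  have Mpp := h.Mne hp hpu
  rw [if_neg Mpp] at Me
  obtain ⟨a, ha⟩ : ∃ a, a = M p := ⟨_, rfl⟩
  rw [← ha] at Me Mpp
  have hAa : A a := ha ▸ h.mem p hp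
  have hMa : M a = p := by rw [ha]; exact h.inv p hp
  have hau : a ≠ u := ha ▸ h.Mu hp hpu
  have Ma' : M' a = e := by rw [Mx a hAa Mpp, if_pos hMa]
  have nM : ∀ x, A x → x ≠ a → M x ≠ p := fun x hx h1 e =>
    h1 (h.Minj hx hAa (e.trans hMa.symm))
  have Mx' : ∀ x, A x → x ≠ p → x ≠ a → M' x = M x := fun x hx h1 h2 => by
    rw [Mx x hx h1, if_neg (nM x hx h2)]
  have nMa : ∀ x, A x → x ≠ p → M x ≠ a := fun x hx h1 e => by
    apply h1; rw [← h.inv x hx, e, hMa]
  have hMu : M u = u := h.uf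
  have hu'e : M' u = u := by rw [Mx' u h.um (Ne.symm hpu) (Ne.symm hau), hMu]
  have nee : ∀ x, A x → x ≠ e := by rintro x hx rfl; exact he hx
  have nef : ∀ x, A x → x ≠ f := by rintro x hx rfl; exact hf hx
  have neg : ∀ x, A x → x ≠ g := by rintro x hx rfl; exact hg hx
  have old : ∀ x, A x → x ≠ p → pos' x < 4 * pos p ∨ 4 * pos p + 2 < pos' x := by
    intro x hx h1
    have d := h.inj x p hx hp h1
    rw [px x hx h1]; omega
  have pu := px u h.um (Ne.symm hpu)
  have pa := px a hAa Mpp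
  have dpa := h.inj a p hAa hp Mpp
  have dpu := h.inj p u hp h.um hpu
  have dau := h.inj a u hAa h.um hau
  refine ⟨?_, ?_, ?_, ?_, ?_, ?_, ?_, ?_, ?_⟩
  · obtain ⟨N, hN⟩ := h.bd
    have np := hN p hp
    refine ⟨4 * N + 8, ?_⟩
    rintro x (⟨hx, h1⟩ | rfl | rfl | rfl)
    · have := hN x hx
      rw [px x hx h1]; omega
    · omega
    · omega
    · omega
  · rintro x y (⟨hx, h1⟩ | rfl | rfl | rfl) (⟨hy, h2⟩ | rfl | rfl | rfl) hxy
    · have d := h.inj x y hx hy hxy
      rw [px x hx h1, px y hy h2]; omega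
    all_goals first
      | exact absurd rfl hxy
      | (have := old _ (by assumption) (by assumption); omega)
      | omega
  · left; exact ⟨h.um, Ne.symm hpu⟩
  · exact hu'e
  · rintro x (⟨hx, h1⟩ | rfl | rfl | rfl)
    · by_cases xa : x = a
      · subst xa; rw [Ma']; right; left; rfl
      rw [Mx' x hx h1 xa]; left; exact ⟨h.mem x hx, nM x hx xa⟩
    · rw [Me]; left; exact ⟨hAa, Mpp⟩
    · rw [Mf]; right; right; right; rfl
    · rw [Mg]; right; right; left; rfl
  · rintro x (⟨hx, h1⟩ | rfl | rfl | rfl)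
    · by_cases xa : x = a
      · subst xa; rw [Ma', Me]
      rw [Mx' x hx h1 xa, Mx' _ (h.mem x hx) (nM x hx xa) (nMa x hx h1), h.inv x hx]
    · rw [Me, Ma']
    · rw [Mf, Mg]
    · rw [Mg, Mf]
  · rintro x (⟨hx, h1⟩ | rfl | rfl | rfl) e1
    · by_cases xa : x = a
      · rw [xa, Ma'] at e1; exact absurd (e1 ▸ hAa) he
      rw [Mx' x hx h1 xa] at e1; exact h.fix x hx e1
    · rw [Me] at e1; exact absurd (e1 ▸ hAa) he
    · rw [Mf] at e1; exact absurd e1.symm hfg
    · rw [Mg] at e1; exact absurd e1 hfg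
  · rintro x (⟨hx, h1⟩ | rfl | rfl | rfl) hxu
    · have dxu := h.inj x u hx h.um hxu
      have dxp := h.inj x p hx hp h1
      by_cases xa : x = a
      · subst xa
        rw [Sx x hx h1, Ma', h.st x hx hxu, hMa, pa, pu]
        unfold cyc; omega
      rw [Sx x hx h1, Mx' x hx h1 xa, h.st x hx hxu, px x hx h1, px _ (h.mem x hx) (nM x hx xa),
        pu]
      unfold cyc; omega
    · rw [Se, Me, h.st p hp hpu, ← ha, pa, pu]
      unfold cyc; omega
    · rw [Sf, Mf, pu]
      simp only [true_iff]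
      unfold cyc; omega
    · rw [Sg, Mg, pu]
      simp only [Bool.false_eq_true, false_iff]
      unfold cyc; omega
  · have oldM : ∀ x, A x → x ≠ p → x ≠ a →
        pos' (M' x) < 4 * pos p ∨ 4 * pos p + 2 < pos' (M' x) := by
      intro x hx h1 h2
      rw [Mx' x hx h1 h2]
      exact old _ (h.mem x hx) (nM x hx h2)
    -- the arc of `p` against old ends
    have K1 : ∀ y, A y → y ≠ u → y ≠ p → y ≠ a →
        (cyc (pos p) (pos y) (pos a) ↔ cyc (pos p) (pos (M y)) (pos a)) := by
      intro y hy hyu hyp hya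
      have := h.nc p y hp hy hpu hyu hyp (by rw [← ha]; exact hya)
      rwa [← ha] at this
    rintro x y (⟨hx, h1⟩ | rfl | rfl | rfl) (⟨hy, h2⟩ | rfl | rfl | rfl) hxu hyu hyx hyM
    · by_cases xa : x = a
      · subst xa
        rw [Ma'] at hyM ⊢
        have hya : y ≠ x := hyx
        rw [Mx' y hy h2 hya, px x hx h1, px y hy h2, px _ (h.mem y hy) (nM y hy hya)]
        have k := K1 y hy hyu h2 hya
        have d1 := h.inj y p hy hp h2
        have d2 := h.inj (M y) p (h.mem y hy) hp (nM y hy hya)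
        have d3 := h.inj y x hy hx hyx
        have d4 := h.inj (M y) x (h.mem y hy) hx (nMa y hy h2)
        unfold cyc at k ⊢; omega
      · rw [Mx' x hx h1 xa] at hyM
        have k := h.nc x y hx hy hxu hyu hyx hyM
        have d1 := h.inj x p hx hp h1
        have d2 := h.inj (M x) p (h.mem x hx) hp (nM x hx xa)
        rw [Mx' x hx h1 xa, px x hx h1, px y hy h2, px _ (h.mem x hx) (nM x hx xa)]
        by_cases ya : y = a
        · subst ya
          rw [Ma']
          rw [hMa] at k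
          unfold cyc at k ⊢; omega
        rw [Mx' y hy h2 ya, px _ (h.mem y hy) (nM y hy ya)]
        unfold cyc at k ⊢; omega
    · have xa : x ≠ a := by
        intro e1; apply hyM; rw [e1, Ma']
      have k := h.nc x p hx hp hxu hpu (Ne.symm h1) (Ne.symm (nM x hx xa))
      rw [← ha] at k
      have d1 := h.inj x p hx hp h1
      have d2 := h.inj (M x) p (h.mem x hx) hp (nM x hx xa)
      rw [Me, Mx' x hx h1 xa, px x hx h1, px _ (h.mem x hx) (nM x hx xa), pa]
      unfold cyc at k ⊢; omega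
    · have o1 := old x hx h1
      rw [Mf]
      by_cases xa : x = a
      · subst xa; rw [Ma']; unfold cyc; omega
      have o2 := oldM x hx h1 xa
      unfold cyc; omega
    · have o1 := old x hx h1
      rw [Mg]
      by_cases xa : x = a
      · subst xa; rw [Ma']; unfold cyc; omega
      have o2 := oldM x hx h1 xa
      unfold cyc; omega
    · rw [Me] at hyM ⊢
      rw [Mx' y hy h2 hyM, px y hy h2, px _ (h.mem y hy) (nM y hy hyM), pa]
      have k := K1 y hy hyu h2 hyM
      have d1 := h.inj y p hy hp h2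
      have d2 := h.inj (M y) p (h.mem y hy) hp (nM y hy hyM)
      unfold cyc at k ⊢; omega
    · exact absurd rfl hyx
    · rw [Me, Mf, pa]; unfold cyc; omega
    · rw [Me, Mg, pa]; unfold cyc; omega
    · rw [Mf]
      have o1 := old y hy h2
      by_cases ya : y = a
      · subst ya; rw [Ma']; unfold cyc; omega
      have o2 := oldM y hy h2 ya
      unfold cyc; omega
    · rw [Mf, Me, pa]; unfold cyc; omega
    · exact absurd rfl hyx
    · exact absurd Mf.symm hyM
    · rw [Mg]
      have o1 := old y hy h2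
      by_cases ya : y = a
      · subst ya; rw [Ma']; unfold cyc; omega
      have o2 := oldM y hy h2 ya
      unfold cyc; omega
    · rw [Mg, Me, pa]; unfold cyc; omega
    · exact absurd Mg.symm hyM
    · exact absurd rfl hyx

/-- **attaching a tile** -/
theorem Inv.ins (h : Inv A pos M S u) (i : Ins A pos pos' M M' S S' p e f g) :
    Inv (fun x => (A x ∧ x ≠ p) ∨ x = e ∨ x = f ∨ x = g) pos' M' S'
      (if u = p then e else u) := by
  by_cases hpu : u = p
  · rw [if_pos hpu]; subst hpu; exact ins_u h i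
  · rw [if_neg hpu]; exact ins_m h i (Ne.symm hpu)

end ins

end Crest.Agent.R158.Sw300
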