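import Crest.Agent.R158.Zr3_110
import Crest.Agent.R158.Vx5_107
import Crest.Agent.R158.Ax2_107
import Crest.Agent.R158.Ac1_109
import Crest.Agent.R158.Wf1_850

/-!
# Row 158 (helper522): the two-arm event of a corner

`TM M c` : the strand of the corner `c` visits an edge of `M`.

* `dep_TM`, `meas_TM` : it only depends on the edges outside `M`
* `TM_shift` : translations
* `TM_four` : the four corners at an edge `x ∉ M` are comparable (factor `2`)
* `TM_p2` : `TM (Mo 0 (n+1)) ((0,0),0) ⊆ P2ev n`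
* `TM_far`, `TM_arms` : a far strand and the arms
* `two_arm_le` : every corner, every centre: `≤ 2 * p2 n`
-/

set_option autoImplicit false

noncomputable section

namespace Crest.Agent.R158.Ta522

open MeasureTheory ProbabilityTheory
open Crest.Agent.R161.Geo729 Crest.Agent.R161.Dual374 Crest.Agent.R161.Tas682
open Crest.Agent.R161.Ring421 (shiftZ)
open Crest.Agent.R158.Rs689 (Dep nu tInv hf PArm DArm)
open Crest.Agent.R158.It200 hiding hf
open Crest.Agent.R158.Fr158 (bx mem_bx mem_bx_sd eIn mem_eIn)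
open Crest.Agent.R158.Cpl963 (sd_add)
open Crest.Agent.R158.Wf850 Crest.Agent.R158.Zr110
open Crest.Agent.R158.Ax107 (P2ev p2 src_add tgt_add p2_nonneg)

local notation "μh" => Crest.Agent.R158.Rs689.nu Crest.Agent.R158.Rs689.hf

/-- the strand of `c` visits an edge of `M` -/
def TM (M : Set Edge) (c : Corner) : Set Cfz := {z | c ∈ Mk M z}

theorem mem_TM {M : Set Edge} {c : Corner} {z : Cfz} : z ∈ TM M c ↔ c ∈ Mk M z := Iff.rfl

theorem mk_mono {M M' : Set Edge} (h : M ⊆ M') (z : Cfz) : Mk M z ⊆ Mk M' z := fun _ hc => by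
  obtain ⟨e, he, hM⟩ := hc
  exact ⟨e, he, h hM⟩

theorem TM_mono {M M' : Set Edge} (h : M ⊆ M') (c : Corner) : TM M c ⊆ TM M' c := fun z hz =>
  mk_mono h z hz

/-! ### T1 -/

theorem dep_TM {M : Set Edge} (hM : Mᶜ.Finite) (c : Corner) : Dep hM.toFinset (TM M c) := by
  intro z z' h
  show c ∈ Mk M z ↔ c ∈ Mk M z'
  rw [mk_dep fun e he => h e (by rwa [Set.Finite.mem_toFinset])]

theorem dep_TM' {M : Set Edge} {S : Finset Edge} (hS : Mᶜ ⊆ (S : Set Edge)) (c : Corner) :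
    Dep S (TM M c) := by
  intro z z' h
  show c ∈ Mk M z ↔ c ∈ Mk M z'
  rw [mk_dep fun e he => h e (by simpa using hS he)]

theorem meas_TM {M : Set Edge} (hM : Mᶜ.Finite) (c : Corner) : MeasurableSet (TM M c) :=
  Rs689.Dep.measurableSet (dep_TM hM c)

/-- the complement of `Mo x n` in terms of edges inside a box -/
theorem Mo_compl (x : P2) (n : ℤ) :
    (Mo x n)ᶜ = ((eIn (bx x n) : Finset Edge) : Set Edge) := by
  ext e
  rw [Set.mem_compl_iff, Finset.mem_coe, mem_eIn, mem_bx_sd,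
    mem_bx_sd]
  show ¬ (n < sd x (src e) ∨ n < sd x (tgt e)) ↔ _
  rw [not_or, not_lt, not_lt]

theorem dep_Mo (x : P2) (n : ℤ) (c : Corner) :
    Dep (eIn (bx x n)) (TM (Mo x n) c) :=
  dep_TM' (by rw [Mo_compl]) c

theorem Mo_sub {x y : P2} {n m : ℤ} (h : n + sd x y ≤ m) : Mo x m ⊆ Mo y n := by
  intro e he
  rcases he with h1 | h1
  · left
    have := sd_tri x y (src e)
    linarith
  · right
    have := sd_tri x y (tgt e)
    linarith

theorem Mo_anti (x : P2) {n m : ℤ} (h : n ≤ m) : Mo x m ⊆ Mo x n :=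
  Mo_sub (by rw [sd_self]; linarith)

/-! ### T2 -/

theorem ah_shift (a : P2) (c : Corner) : ah (shC a c) = ((ah c).1 + a, (ah c).2) := by
  obtain ⟨⟨x, y⟩, q⟩ := c
  obtain ⟨a1, a2⟩ := a
  fin_cases q <;> simp [shC, ah] <;> ring

theorem mem_Mo_shift (x a : P2) (n : ℤ) (e : Edge) :
    (e.1 + a, e.2) ∈ Mo (x + a) n ↔ e ∈ Mo x n := by
  show (n < sd (x + a) (src (e.1 + a, e.2)) ∨ n < sd (x + a) (tgt (e.1 + a, e.2))) ↔
    (n < sd x (src e) ∨ n < sd x (tgt e))
  rw [src_add, tgt_add, sd_add, sd_add]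

theorem TM_shift (x a : P2) (n : ℤ) (c : Corner) :
    shiftZ a ⁻¹' TM (Mo x n) c = TM (Mo (x + a) n) (shC a c) := by
  ext z
  show c ∈ Mk (Mo x n) (shiftZ a z) ↔ shC a c ∈ Mk (Mo (x + a) n) z
  constructor
  · rintro ⟨e, ⟨d, hd, rfl⟩, he⟩
    exact ⟨ah (shC a d), ⟨shC a d, (lp_shift a z c d).2 hd, rfl⟩, by
      rw [ah_shift, mem_Mo_shift]; exact he⟩
  · rintro ⟨e, ⟨d', hd', rfl⟩, he⟩
    obtain ⟨d, rfl⟩ := shC_surj a d'
    rw [ah_shift, mem_Mo_shift] at he
    exact ⟨ah d, ⟨d, (lp_shift a z c d).1 hd', rfl⟩, he⟩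

theorem prob_shift' (a : P2) {A : Set Cfz} (hA : MeasurableSet A) :
    (μh).real (shiftZ a ⁻¹' A) = (μh).real A := by
  have h := tInv hf a
  have h1 : (μh) A = (μh) (shiftZ a ⁻¹' A) := by
    conv_lhs => rw [← h]
    rw [Measure.map_apply ?_ hA]
    exact measurable_pi_lambda _ fun e => measurable_pi_apply _
  rw [measureReal_def, measureReal_def, h1]

/-- **T2** -/
theorem TM_trans (x a : P2) (n : ℤ) (c : Corner) :
    (μh).real (TM (Mo (x + a) n) (shC a c)) = (μh).real (TM (Mo x n) c) := by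
  rw [← TM_shift, prob_shift' a (meas_TM (Mo_cofin x n) c)]

/-- **T2**: only the type of the corner matters -/
theorem TM_type (v w : P2) (q : Fin 4) (n : ℤ) :
    (μh).real (TM (Mo v n) (v, q)) = (μh).real (TM (Mo w n) (w, q)) := by
  have h := TM_trans v (w - v) n (v, q)
  have e1 : shC (w - v) (v, q) = (w, q) := by unfold shC; simp
  rw [e1, add_sub_cancel] at h
  exact h.symm

/-! ### T3 -/

/-- the four corners at an edge -/
def At4 (x : Edge) (c : Corner) : Prop := c = i1 x ∨ c = i2 x ∨ c = o1 x ∨ c = o2 x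

theorem at4_mem {x : Edge} {c : Corner} (h : At4 x c) (z : Cfz) :
    c ∈ Lp z (i1 x) ∪ Lp z (i2 x) := by
  rcases h with rfl | rfl | rfl | rfl
  · exact Or.inl (mem_Lp_self _ _)
  · exact Or.inr (mem_Lp_self _ _)
  · rcases Vx107.out_mem z x with ⟨h1, -⟩ | ⟨h1, -⟩
    · exact Or.inl h1
    · exact Or.inr h1
  · rcases Vx107.out_mem z x with ⟨-, h1⟩ | ⟨-, h1⟩
    · exact Or.inr h1
    · exact Or.inl h1

theorem TM_pt {M : Set Edge} {x : Edge} {c c' : Corner} (hc : At4 x c) (hc' : At4 x c')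
    {z : Cfz} (hfin : ∀ d, (Lp z d).Finite) (hz : z ∈ TM M c) : z ∈ TM M c' ∨ flip z x ∈ TM M c' := by
  by_cases h : i2 x ∈ Lp z (i1 x)
  · left
    have e : Lp z (i2 x) = Lp z (i1 x) := Lp_eq h
    have h1 := at4_mem hc z
    have h2 := at4_mem hc' z
    rw [e, Set.union_self] at h1 h2
    rw [mem_TM, mk_along h2, ← mk_along h1]
    exact hz
  · right
    have h3 := flip_merge (hfin (i2 x)) h
    have e : Lp (flip z x) (i2 x) = Lp (flip z x) (i1 x) := Lp_eq h3
    have h2 := at4_mem hc' (flip z x)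
    rw [e, Set.union_self] at h2
    rw [mem_TM, mk_along h2]
    obtain ⟨e', ⟨d, hd, rfl⟩, he'⟩ := hz
    refine ⟨ah d, ⟨d, ?_, rfl⟩, he'⟩
    have h4 : d ∈ Lp z (i1 x) ∪ Lp z (i2 x) := by
      rcases at4_mem hc z with h1 | h1
      · left; rw [← Lp_eq h1]; exact hd
      · right; rw [← Lp_eq h1]; exact hd
    rw [← flip_union, e, Set.union_self] at h4
    exact h4

theorem ae_allFin : ∀ᵐ z ∂(μh), ∀ d : Corner, (Lp z d).Finite :=
  ae_all_iff.2 fun c => ae_fin c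

/-- **T3** : the four corners at an edge are comparable -/
theorem TM_four {M : Set Edge} (hM : Mᶜ.Finite) {x : Edge} {c c' : Corner} (hc : At4 x c)
    (hc' : At4 x c') : (μh).real (TM M c) ≤ 2 * (μh).real (TM M c') := by
  have h1 : (μh) (TM M c) ≤ (μh) (TM M c' ∪ (fun z => flip z x) ⁻¹' TM M c') := by
    refine measure_mono_ae ?_
    filter_upwards [ae_allFin] with z hz hc0
    exact TM_pt hc hc' hz hc0
  have h2 : (μh) ((fun z => flip z x) ⁻¹' TM M c') = (μh) (TM M c') :=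
    (Vx107.flip_mp x).measure_preimage (meas_TM hM c').nullMeasurableSet
  have h3 : (μh) (TM M c) ≤ (μh) (TM M c') + (μh) (TM M c') := by
    refine h1.trans ((measure_union_le _ _).trans ?_)
    rw [h2]
  rw [measureReal_def, measureReal_def, two_mul,
    ← ENNReal.toReal_add (measure_ne_top _ _) (measure_ne_top _ _)]
  exact ENNReal.toReal_mono (by finiteness) h3

/-! ### T4, T5 -/

theorem Mo_corner {x : P2} {n : ℤ} {d : Corner} (h : ah d ∈ Mo x n) : n ≤ sd x d.1 ∧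
    n - 1 ≤ sd x (fc d) := by
  have h1 : n ≤ sd x d.1 := by
    rcases ah_ends' d with ⟨h2, h3⟩ | ⟨h2, h3⟩
    · rcases h with h4 | h4
      · rw [h2] at h4; exact h4.le
      · have := sd_tri x d.1 (tgt (ah d))
        linarith
    · rcases h with h4 | h4
      · have := sd_tri x d.1 (src (ah d))
        linarith
      · rw [h2] at h4; exact h4.le
  have := (sd_corner x d).1
  exact ⟨h1, by linarith⟩

/-- the two arms of a marked corner -/
theorem TM_far {x : P2} {n : ℤ} {c : Corner} {z : Cfz} (h : z ∈ TM (Mo x n) c) :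
    (∃ v ∈ OCl z c.1, n ≤ sd x v) ∧ ∃ g ∈ DCl z (fc c), n - 1 ≤ sd x g := by
  obtain ⟨e, ⟨d, hd, rfl⟩, he⟩ := h
  obtain ⟨h1, h2⟩ := Mo_corner he
  exact ⟨⟨d.1, Lp_v d hd, h1⟩, fc d, Lp_f d hd, h2⟩

/-- **T4** -/
theorem TM_p2 (n : ℕ) : TM (Mo (0, 0) ((n : ℤ) + 1)) ((0, 0), 0) ⊆ P2ev n := by
  intro z hz
  obtain ⟨⟨v, hv, h1⟩, g, hg, h2⟩ := TM_far hz
  rw [fc_zero] at hg
  exact ⟨⟨v, hv, by linarith⟩, g, hg, by linarith⟩

theorem TM_p2_le {n : ℕ} {m : ℤ} (h : (n : ℤ) + 1 ≤ m) :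
    (μh).real (TM (Mo (0, 0) m) ((0, 0), 0)) ≤ p2 n :=
  measureReal_mono ((TM_mono (Mo_anti _ h) _).trans (TM_p2 n))

/-- **T5** : arms of both colours in the annulus between `s` and `R` -/
theorem TM_arms {x : P2} {s R : ℤ} {c : Corner} (h1 : sd x c.1 ≤ s) (h2 : sd x (fc c) ≤ s)
    {z : Cfz} (h : z ∈ TM (Mo x R) c) :
    z ∈ PArm x s R ∧ z ∈ DArm x s (R - 1) := by
  obtain ⟨⟨v, hv, h3⟩, g, hg, h4⟩ := TM_far h
  exact ⟨⟨c.1, v, h1, h3, hv⟩, fc c, g, h2, h4, hg⟩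

/-- **T5** : a far strand is a two-arm event inside and arms outside -/
theorem TM_split {x : P2} {N R s : ℤ} {c : Corner} (hN : N ≤ R) (h1 : sd x c.1 + 1 ≤ s) {z : Cfz}
    (h : z ∈ TM (Mo x R) c) : z ∈ TM (Mo x N) c ∧ z ∈ PArm x s R ∧ z ∈ DArm x s (R - 1) := by
  have := (sd_corner x c).2
  exact ⟨TM_mono (Mo_anti _ hN) _ h, TM_arms (by linarith) (by linarith) h⟩

/-! ### all corners -/

theorem type_le (q : Fin 4) (n : ℕ) {m : ℤ} (h : (n : ℤ) + 2 ≤ m) :
    (μh).real (TM (Mo (0, 0) m) ((0, 0), q)) ≤ 2 * p2 n := by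
  set e : Edge := ((0, 0), false) with he
  have hi1 : At4 e ((0, 0), 0) := Or.inl (by simp [he, i1])
  have key : ∀ (v : P2), At4 e (v, q) → sd v (0, 0) ≤ 1 →
      (μh).real (TM (Mo (0, 0) m) ((0, 0), q)) ≤ 2 * p2 n := by
    intro v hv hsd
    rw [TM_type (0, 0) v q m]
    refine (measureReal_mono (TM_mono (Mo_sub (n := m - 1) (y := (0, 0)) (by linarith)) _)).trans ?_
    refine (TM_four (Mo_cofin _ _) hv hi1).trans ?_
    refine mul_le_mul_of_nonneg_left (TM_p2_le (by linarith)) (by norm_num)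
  have hs0 : sd (0, 0) ((0, 0) : P2) ≤ 1 := by rw [sd_self]; norm_num
  have hs1 : sd (1, 0) ((0, 0) : P2) ≤ 1 := by unfold sd; simp
  fin_cases q
  · exact key (0, 0) (Or.inl (by simp [he, i1])) hs0
  · exact key (0, 0) (Or.inr (Or.inr (Or.inl (by simp [he, o1])))) hs0
  · exact key (1, 0) (Or.inr (Or.inl (by simp [he, i2]))) hs1
  · exact key (1, 0) (Or.inr (Or.inr (Or.inr (by simp [he, o2])))) hs1

/-- **every corner, every centre** -/
theorem two_arm_le {x : P2} {c : Corner} {n : ℕ} {m : ℤ} (h : sd x c.1 + n + 2 ≤ m) :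
    (μh).real (TM (Mo x m) c) ≤ 2 * p2 n := by
  obtain ⟨v, q⟩ := c
  have h1 : TM (Mo x m) (v, q) ⊆ TM (Mo v (n + 2)) (v, q) :=
    TM_mono (Mo_sub (by dsimp only at h; linarith)) _
  refine (measureReal_mono h1).trans ?_
  rw [TM_type v (0, 0) q]
  exact type_le q n (le_refl _)

end Crest.Agent.R158.Ta522
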