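import Crest.Agent.R158.Tj1_656

/-!
# Row 158 (S0237), BLOCK GEO (helper331), file 1: plane topology of a scaled polyomino

`Om s F` (656) = interior of the union of the closed cells `sq s q`, `q ∈ F`.
* `conn_Om` : connected
* `mem_frontier_Om`, `frontier_Om` : the frontier is the union of the boundary edges
* `Op u s F = {z | u z ∈ Om s F}` : the same after a rotation
-/

set_option autoImplicit false

open Set Topology Filter Metric
open Crest.Agent.R158.Sp896 Crest.Agent.R158.Tj656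
open Crest.Agent.R158.Wl290 (Cone)

namespace Crest.Agent.R158.Tg331

/-- open cell -/
def so (s : ℝ) (q : V) : Set ℂ :=
  {z | s * q.1 < z.re ∧ z.re < s * (q.1 + 1) ∧ s * q.2 < z.im ∧ z.im < s * (q.2 + 1)}

variable {s : ℝ} {F : Set V}

theorem so_sub (s : ℝ) (q : V) : so s q ⊆ sq s q :=
  fun _ h => ⟨h.1.le, h.2.1.le, h.2.2.1.le, h.2.2.2.le⟩

theorem ce_so (hs : 0 < s) (q : V) : cen s q ∈ so s q := by
  refine ⟨?_, ?_, ?_, ?_⟩ <;> · simp only [cen]; nlinarith

/-- an open cell meets only its own closed cell -/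
theorem so_unique (hs : 0 < s) {q q' : V} {z : ℂ} (h : z ∈ so s q) (h' : z ∈ sq s q') : q' = q := by
  obtain ⟨h1, h2, h3, h4⟩ := h
  obtain ⟨k1, k2, k3, k4⟩ := h'
  have e1 : (q'.1 : ℝ) < q.1 + 1 := lt_of_mul_lt_mul_left (lt_of_le_of_lt k1 h2) hs.le
  have e2 : (q.1 : ℝ) < q'.1 + 1 := lt_of_mul_lt_mul_left (lt_of_lt_of_le h1 k2) hs.le
  have e3 : (q'.2 : ℝ) < q.2 + 1 := lt_of_mul_lt_mul_left (lt_of_le_of_lt k3 h4) hs.le
  have e4 : (q.2 : ℝ) < q'.2 + 1 := lt_of_mul_lt_mul_left (lt_of_lt_of_le h3 k4) hs.le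
  have e1' : q'.1 < q.1 + 1 := by exact_mod_cast e1
  have e2' : q.1 < q'.1 + 1 := by exact_mod_cast e2
  have e3' : q'.2 < q.2 + 1 := by exact_mod_cast e3
  have e4' : q.2 < q'.2 + 1 := by exact_mod_cast e4
  ext <;> omega

theorem to_ce (hs : 0 < s) {q : V} {z : ℂ} (h : z ∈ sq s q) {t : ℝ} (ht : 0 < t) (ht1 : t ≤ 1) :
    z + (t : ℂ) * (cen s q - z) ∈ so s q := by
  obtain ⟨h1, h2, h3, h4⟩ := strict_in h ht1
  have : 0 < t * s / 2 := by positivity
  exact ⟨by linarith, by linarith, by linarith, by linarith⟩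

/-- closed cells are in the closure of open cells -/
theorem sq_sub_closure (hs : 0 < s) (q : V) : sq s q ⊆ closure (so s q) := by
  intro z hz
  have hc : Continuous fun t : ℝ => z + (t : ℂ) * (cen s q - z) := by fun_prop
  have h0 : Tendsto (fun t : ℝ => z + (t : ℂ) * (cen s q - z)) (𝓝[>] 0) (𝓝 z) := by
    have h1 := (hc.tendsto 0).mono_left (nhdsWithin_le_nhds (s := Ioi (0 : ℝ)))
    simpa using h1
  refine mem_closure_of_tendsto h0 ?_
  have h2 : Ioc (0 : ℝ) 1 ∈ 𝓝[>] (0 : ℝ) := Ioc_mem_nhdsGT one_pos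
  filter_upwards [h2] with t ht
  exact to_ce hs hz ht.1 ht.2

theorem so_sub_Om (hs : 0 < s) {q : V} (hq : q ∈ F) : so s q ⊆ Om s F := by
  intro z hz
  rw [mem_om hs]
  intro q' hq'
  rw [so_unique hs hz hq']
  exact hq

theorem sq_sub_closure_Om (hs : 0 < s) {q : V} (hq : q ∈ F) : sq s q ⊆ closure (Om s F) :=
  (sq_sub_closure hs q).trans (closure_mono (so_sub_Om hs hq))

/-! ### connectedness -/

theorem seg_ce (hs : 0 < s) {q : V} {z : ℂ} (hz : z ∈ Om s F) (h : z ∈ sq s q) :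
    segment ℝ z (cen s q) ⊆ Om s F := by
  intro w hw
  rw [segment_eq_image'] at hw
  obtain ⟨t, ht, rfl⟩ := hw
  rcases ht.1.eq_or_lt with h0 | h0
  · rw [← h0]; simpa using hz
  · have := so_sub_Om hs ((mem_om hs).1 hz q h) (to_ce hs h h0 ht.2)
    simpa using this

theorem ce_mem (hs : 0 < s) {q : V} (hq : q ∈ F) : cen s q ∈ Om s F := so_sub_Om hs hq (ce_so hs q)

/-- middle of the common side of two adjacent cells -/
theorem mid_mem (hs : 0 < s) {q q' : V} (h : Adj q q') (hq : q ∈ F) (hq' : q' ∈ F) :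
    ∃ z ∈ Om s F, z ∈ sq s q ∧ z ∈ sq s q' := by
  have key : ∀ p : V, (⟨s * (q.1 + q'.1 + 1) / 2, s * (q.2 + q'.2 + 1) / 2⟩ : ℂ) ∈ sq s p →
      p = q ∨ p = q' := by
    rintro p ⟨h1, h2, h3, h4⟩
    simp only at h1 h2 h3 h4
    have e1 : (2 * p.1 : ℝ) ≤ q.1 + q'.1 + 1 := by
      have : s * (2 * p.1) ≤ s * ((q.1 : ℝ) + q'.1 + 1) := by linarith
      exact le_of_mul_le_mul_left this hs
    have e2 : (q.1 + q'.1 + 1 : ℝ) ≤ 2 * p.1 + 2 := by
      have : s * ((q.1 : ℝ) + q'.1 + 1) ≤ s * (2 * p.1 + 2) := by linarith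
      exact le_of_mul_le_mul_left this hs
    have e3 : (2 * p.2 : ℝ) ≤ q.2 + q'.2 + 1 := by
      have : s * (2 * p.2) ≤ s * ((q.2 : ℝ) + q'.2 + 1) := by linarith
      exact le_of_mul_le_mul_left this hs
    have e4 : (q.2 + q'.2 + 1 : ℝ) ≤ 2 * p.2 + 2 := by
      have : s * ((q.2 : ℝ) + q'.2 + 1) ≤ s * (2 * p.2 + 2) := by linarith
      exact le_of_mul_le_mul_left this hs
    have e1' : 2 * p.1 ≤ q.1 + q'.1 + 1 := by exact_mod_cast e1
    have e2' : q.1 + q'.1 + 1 ≤ 2 * p.1 + 2 := by exact_mod_cast e2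
    have e3' : 2 * p.2 ≤ q.2 + q'.2 + 1 := by exact_mod_cast e3
    have e4' : q.2 + q'.2 + 1 ≤ 2 * p.2 + 2 := by exact_mod_cast e4
    unfold Adj at h
    have : (p.1 = q.1 ∧ p.2 = q.2) ∨ (p.1 = q'.1 ∧ p.2 = q'.2) := by omega
    rcases this with h | h
    · left; ext <;> simp [h.1, h.2]
    · right; ext <;> simp [h.1, h.2]
  refine ⟨⟨s * (q.1 + q'.1 + 1) / 2, s * (q.2 + q'.2 + 1) / 2⟩, ?_, ?_, ?_⟩
  · rw [mem_om hs]
    intro p hp
    rcases key p hp with rfl | rfl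
    · exact hq
    · exact hq'
  · rcases h with ⟨h1, h2⟩ | ⟨h1, h2⟩ | ⟨h1, h2⟩ | ⟨h1, h2⟩ <;>
      · refine ⟨?_, ?_, ?_, ?_⟩ <;> · simp only [h1, h2]; push_cast; nlinarith
  · rcases h with ⟨h1, h2⟩ | ⟨h1, h2⟩ | ⟨h1, h2⟩ | ⟨h1, h2⟩ <;>
      · refine ⟨?_, ?_, ?_, ?_⟩ <;> · simp only [h1, h2]; push_cast; nlinarith

/-- the open polyomino is connected -/
theorem conn_Om (hs : 0 < s) (hc : ∀ q ∈ F, ∀ q' ∈ F, Con F q q') : IsPreconnected (Om s F) := by
  have hj : ∀ q ∈ F, ∀ q', Con F q q' → JoinedIn (Om s F) (cen s q) (cen s q') := by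
    intro q hq q' h
    have : JoinedIn (Om s F) (cen s q) (cen s q') ∧ q' ∈ F := by
      induction h with
      | refl => exact ⟨JoinedIn.refl (ce_mem hs hq), hq⟩
      | tail _ h2 ih =>
        refine ⟨?_, h2.2⟩
        obtain ⟨z, hz, h3, h4⟩ := mid_mem hs h2.1 ih.2 h2.2
        exact (ih.1.trans (JoinedIn.of_segment_subset (seg_ce hs hz h3)).symm).trans
          (JoinedIn.of_segment_subset (seg_ce hs hz h4))
    exact this.1
  have hp : ∀ z ∈ Om s F, ∀ w ∈ Om s F, JoinedIn (Om s F) z w := by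
    intro z hz w hw
    have hz' := mem_cellOf hs z
    have hw' := mem_cellOf hs w
    exact ((JoinedIn.of_segment_subset (seg_ce hs hz hz')).trans
      (hj _ ((mem_om hs).1 hz _ hz') _
        (hc _ ((mem_om hs).1 hz _ hz') _ ((mem_om hs).1 hw _ hw')))).trans
      (JoinedIn.of_segment_subset (seg_ce hs hw hw')).symm
  refine isPreconnected_of_forall_pair fun z hz w hw => ?_
  obtain ⟨p, hp'⟩ := hp z hz w hw
  exact ⟨range p, by rintro _ ⟨t, rfl⟩; exact hp' t, ⟨0, p.source⟩, ⟨1, p.target⟩,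
    isPreconnected_range p.continuous⟩

/-! ### the frontier -/

theorem common_cases (hs : 0 < s) {q q' : V} {z : ℂ} (h : z ∈ sq s q) (h' : z ∈ sq s q') :
    |q.1 - q'.1| ≤ 1 ∧ |q.2 - q'.2| ≤ 1 := by
  obtain ⟨h1, h2, h3, h4⟩ := h
  obtain ⟨k1, k2, k3, k4⟩ := h'
  have e1 := int_le_of hs h1 k2
  have e2 := int_le_of hs k1 h2
  have e3 := int_le_of hs h3 k4
  have e4 := int_le_of hs k3 h4
  rw [abs_le, abs_le]
  omega

/-- two closed cells with a common point are joined by a chain of adjacent cells containing it -/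
theorem mix (hs : 0 < s) {q q' : V} {z : ℂ} (h : z ∈ sq s q) (h' : z ∈ sq s q') :
    z ∈ sq s (q'.1, q.2) := by
  obtain ⟨h1, h2, h3, h4⟩ := h
  obtain ⟨k1, k2, k3, k4⟩ := h'
  exact ⟨k1, k2, h3, h4⟩

/-- a point on a cell of `F` and on a cell outside `F` lies on two adjacent such cells -/
theorem exists_adj (hs : 0 < s) {q q' : V} {z : ℂ} (h : z ∈ sq s q) (h' : z ∈ sq s q') (hq : q ∈ F)
    (hq' : q' ∉ F) : ∃ p p' : V, Adj p p' ∧ p ∈ F ∧ p' ∉ F ∧ z ∈ sq s p ∧ z ∈ sq s p' := by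
  have h2 := mix hs h h'
  by_cases hm : ((q'.1, q.2) : V) ∈ F
  · have e := common_cases hs h2 h'
    have hne : q.2 ≠ q'.2 := by
      intro h3
      rw [h3] at hm
      exact hq' hm
    refine ⟨(q'.1, q.2), q', ?_, hm, hq', h2, h'⟩
    rw [abs_le, abs_le] at e
    have e2 := e.2
    rcases lt_or_gt_of_ne hne with h4 | h4
    · exact Or.inr (Or.inr (Or.inl ⟨rfl, by simp only at e2 ⊢; omega⟩))
    · exact Or.inr (Or.inr (Or.inr ⟨rfl, by simp only at e2 ⊢; omega⟩))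
  · have e := common_cases hs h h2
    have hne : q.1 ≠ q'.1 := by
      intro h3
      rw [← h3] at hm
      exact hm hq
    refine ⟨q, (q'.1, q.2), ?_, hq, hm, h, h2⟩
    rw [abs_le, abs_le] at e
    have e2 := e.1
    rcases lt_or_gt_of_ne hne with h4 | h4
    · exact Or.inl ⟨by simp only at e2 ⊢; omega, rfl⟩
    · exact Or.inr (Or.inl ⟨by simp only at e2 ⊢; omega, rfl⟩)

theorem mem_ed_iff (hs : 0 < s) {a b : V} (h : Adj a b) {z : ℂ} :
    z ∈ ed s a b ↔ z ∈ sq s (lc a b) ∧ z ∈ sq s (rc a b) := by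
  refine ⟨fun hz => ⟨ed_sub_lc hs h hz, ed_sub_rc hs h hz⟩, ?_⟩
  rintro ⟨⟨h1, h2, h3, h4⟩, k1, k2, k3, k4⟩
  unfold ed
  rw [segment_eq_image']
  rcases h with ⟨e1, e2⟩ | ⟨e1, e2⟩ | ⟨e1, e2⟩ | ⟨e1, e2⟩
  · have f1 : lc a b = (a.1, a.2) := by unfold lc; ext <;> simp only <;> omega
    have f2 : rc a b = (a.1, a.2 - 1) := by unfold rc; ext <;> simp only <;> omega
    rw [f1] at h1 h2 h3 h4
    rw [f2] at k1 k2 k3 k4
    simp only at h1 h2 h3 h4 k1 k2 k3 k4
    push_cast at h1 h2 h3 h4 k1 k2 k3 k4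
    have hi : z.im = s * a.2 := by linarith
    refine ⟨(z.re - s * a.1) / s, ⟨div_nonneg (by linarith) hs.le, ?_⟩, ?_⟩
    · rw [div_le_one hs]; linarith
    · apply Complex.ext
      · simp only [pt, e1, Complex.add_re, Complex.sub_re, Complex.real_smul, Complex.mul_re,
          Complex.ofReal_re, Complex.ofReal_im, zero_mul, sub_zero]
        push_cast
        field_simp
        ring
      · simp only [pt, e2, Complex.add_im, Complex.sub_im, Complex.real_smul, Complex.mul_im,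
          Complex.ofReal_re, Complex.ofReal_im, zero_mul, add_zero, sub_self, mul_zero]
        linarith
  · have f1 : lc a b = (a.1 - 1, a.2 - 1) := by unfold lc; ext <;> simp only <;> omega
    have f2 : rc a b = (a.1 - 1, a.2) := by unfold rc; ext <;> simp only <;> omega
    rw [f1] at h1 h2 h3 h4
    rw [f2] at k1 k2 k3 k4
    simp only at h1 h2 h3 h4 k1 k2 k3 k4
    push_cast at h1 h2 h3 h4 k1 k2 k3 k4
    have hi : z.im = s * a.2 := by linarith
    refine ⟨(s * a.1 - z.re) / s, ⟨div_nonneg (by linarith) hs.le, ?_⟩, ?_⟩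
    · rw [div_le_one hs]; linarith
    · apply Complex.ext
      · simp only [pt, e1, Complex.add_re, Complex.sub_re, Complex.real_smul, Complex.mul_re,
          Complex.ofReal_re, Complex.ofReal_im, zero_mul, sub_zero]
        push_cast
        field_simp
        ring
      · simp only [pt, e2, Complex.add_im, Complex.sub_im, Complex.real_smul, Complex.mul_im,
          Complex.ofReal_re, Complex.ofReal_im, zero_mul, add_zero, sub_self, mul_zero]
        linarith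
  · have f1 : lc a b = (a.1 - 1, a.2) := by unfold lc; ext <;> simp only <;> omega
    have f2 : rc a b = (a.1, a.2) := by unfold rc; ext <;> simp only <;> omega
    rw [f1] at h1 h2 h3 h4
    rw [f2] at k1 k2 k3 k4
    simp only at h1 h2 h3 h4 k1 k2 k3 k4
    push_cast at h1 h2 h3 h4 k1 k2 k3 k4
    have hi : z.re = s * a.1 := by linarith
    refine ⟨(z.im - s * a.2) / s, ⟨div_nonneg (by linarith) hs.le, ?_⟩, ?_⟩
    · rw [div_le_one hs]; linarith
    · apply Complex.ext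
      · simp only [pt, e1, Complex.add_re, Complex.sub_re, Complex.real_smul, Complex.mul_re,
          Complex.ofReal_re, Complex.ofReal_im, zero_mul, sub_zero, sub_self, mul_zero]
        linarith
      · simp only [pt, e2, Complex.add_im, Complex.sub_im, Complex.real_smul, Complex.mul_im,
          Complex.ofReal_re, Complex.ofReal_im, zero_mul, add_zero]
        push_cast
        field_simp
        ring
  · have f1 : lc a b = (a.1, a.2 - 1) := by unfold lc; ext <;> simp only <;> omega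
    have f2 : rc a b = (a.1 - 1, a.2 - 1) := by unfold rc; ext <;> simp only <;> omega
    rw [f1] at h1 h2 h3 h4
    rw [f2] at k1 k2 k3 k4
    simp only at h1 h2 h3 h4 k1 k2 k3 k4
    push_cast at h1 h2 h3 h4 k1 k2 k3 k4
    have hi : z.re = s * a.1 := by linarith
    refine ⟨(s * a.2 - z.im) / s, ⟨div_nonneg (by linarith) hs.le, ?_⟩, ?_⟩
    · rw [div_le_one hs]; linarith
    · apply Complex.ext
      · simp only [pt, e1, Complex.add_re, Complex.sub_re, Complex.real_smul, Complex.mul_re,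
          Complex.ofReal_re, Complex.ofReal_im, zero_mul, sub_zero, sub_self, mul_zero]
        linarith
      · simp only [pt, e2, Complex.add_im, Complex.sub_im, Complex.real_smul, Complex.mul_im,
          Complex.ofReal_re, Complex.ofReal_im, zero_mul, add_zero]
        push_cast
        field_simp
        ring

/-- **the frontier consists of the boundary edges** -/
theorem mem_frontier_Om (hs : 0 < s) (hF : F.Finite) {z : ℂ} : z ∈ frontier (Om s F) ↔
    ∃ a b : V, Adj a b ∧ lc a b ∈ F ∧ rc a b ∉ F ∧ z ∈ ed s a b := by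
  rw [frontier, (om_open s F).interior_eq]
  constructor
  · rintro ⟨h1, h2⟩
    have h3 : IsClosed (⋃ q ∈ F, sq s q) := hF.isClosed_biUnion fun q _ => isClosed_sq s q
    have h4 : closure (Om s F) ⊆ ⋃ q ∈ F, sq s q := closure_minimal interior_subset h3
    have h5 := h4 h1
    rw [mem_iUnion₂] at h5
    obtain ⟨q, hq, hzq⟩ := h5
    have h6 : z ∈ (Om s F)ᶜ := h2
    rw [compl_om hs, mem_iUnion₂] at h6
    obtain ⟨q', hq', hzq'⟩ := h6
    obtain ⟨p, p', hpp, hp, hp', hzp, hzp'⟩ := exists_adj hs hzq hzq' hq hq'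
    obtain ⟨a, b, hab, rfl, rfl⟩ := exists_dart hpp
    exact ⟨a, b, hab, hp, hp', (mem_ed_iff hs hab).2 ⟨hzp, hzp'⟩⟩
  · rintro ⟨a, b, hab, h1, h2, h3⟩
    rw [mem_ed_iff hs hab] at h3
    exact ⟨sq_sub_closure_Om hs h1 h3.1, not_mem_om hs h2 h3.2⟩

theorem frontier_Om (hs : 0 < s) (hF : F.Finite) {L : ℕ} {v : ℕ → V} (hc : Cyc F L v) :
    frontier (Om s F) = ⋃ m ∈ Finset.range L, ed s (v m) (v (m + 1)) := by
  ext z
  rw [mem_frontier_Om hs hF, mem_iUnion₂]
  constructor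
  · rintro ⟨a, b, hab, h1, h2, h3⟩
    obtain ⟨i, hi, rfl, rfl⟩ := hc.all a b hab h1 h2
    exact ⟨i, Finset.mem_range.2 hi, h3⟩
  · rintro ⟨i, -, h3⟩
    exact ⟨_, _, hc.step i, hc.left i, hc.right i, h3⟩

/-! ### rotations -/

/-- the rotated polyomino -/
def Op (u : ℂ) (s : ℝ) (F : Set V) : Set ℂ := {z | u * z ∈ Om s F}

/-- multiplication by a nonzero number -/
noncomputable def mh (u : ℂ) (hu : u ≠ 0) : ℂ ≃ₜ ℂ := Homeomorph.mulLeft₀ u hu

@[simp] theorem mh_apply (u : ℂ) (hu : u ≠ 0) (z : ℂ) : mh u hu z = u * z := rfl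

theorem Op_eq (u : ℂ) (hu : u ≠ 0) : Op u s F = mh u hu ⁻¹' Om s F := rfl

theorem ne_of_norm {u : ℂ} (hu : ‖u‖ = 1) : u ≠ 0 := by
  intro h
  rw [h, norm_zero] at hu
  exact zero_ne_one hu

theorem isOpen_Op {u : ℂ} (hu : ‖u‖ = 1) : IsOpen (Op u s F) := by
  rw [Op_eq u (ne_of_norm hu)]
  exact (om_open s F).preimage (mh u _).continuous

theorem norm_mul_u {u : ℂ} (hu : ‖u‖ = 1) (z : ℂ) : ‖u * z‖ = ‖z‖ := by rw [norm_mul, hu, one_mul]

theorem bdd_Op {u : ℂ} (hu : ‖u‖ = 1) (hF : F.Finite) : Bornology.IsBounded (Op u s F) := by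
  obtain ⟨C, hC⟩ := (om_bdd (s := s) hF).exists_norm_le
  refine isBounded_iff_forall_norm_le.2 ⟨C, fun z hz => ?_⟩
  rw [← norm_mul_u hu]
  exact hC _ hz

theorem conn_compl_Op {u : ℂ} (hu : ‖u‖ = 1) (hs : 0 < s) (hc : ∀ q ∉ F, ∀ q' ∉ F, Con Fᶜ q q') :
    IsPreconnected (Op u s F)ᶜ := by
  rw [Op_eq u (ne_of_norm hu), ← preimage_compl]
  exact (mh u _).isPreconnected_preimage.2 (om_compl_preconn hs hc)

theorem conn_Op {u : ℂ} (hu : ‖u‖ = 1) (hs : 0 < s) (hc : ∀ q ∈ F, ∀ q' ∈ F, Con F q q') :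
    IsPreconnected (Op u s F) := by
  rw [Op_eq u (ne_of_norm hu)]
  exact (mh u _).isPreconnected_preimage.2 (conn_Om hs hc)

theorem cone_Op {u : ℂ} (hu : ‖u‖ = 1) (hs : 0 < s) : Cone (Op u s F) := by
  obtain ⟨m, hm, h⟩ := om_cone hs F
  have hu0 := ne_of_norm hu
  refine ⟨m, hm, fun w hw => ?_⟩
  obtain ⟨q, hq, h2⟩ := h (u * w) hw
  refine ⟨q / u, ?_, ?_⟩
  · rw [← norm_mul_u hu, mul_sub, mul_div_cancel₀ _ hu0]
    exact hq
  · intro t ht z hz
    have h3 := h2 t ht (u * z) hz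
    rw [← norm_mul_u hu (z - _)]
    have h4 : u * (z - (w + (t : ℂ) * (q / u - w))) = u * z - (u * w + (t : ℂ) * (q - u * w)) := by
      field_simp
    rw [h4]
    exact h3

theorem mem_frontier_Op {u : ℂ} (hu : ‖u‖ = 1) {z : ℂ} :
    z ∈ frontier (Op u s F) ↔ u * z ∈ frontier (Om s F) := by
  rw [Op_eq u (ne_of_norm hu), ← (mh u _).preimage_frontier]
  rfl

end Crest.Agent.R158.Tg331
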