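import Crest.Agent.R158.Tj3_656
import Crest.Agent.R158.Spl6_949

/-!
# Row 158 (S0237), BLOCK GEO (helper331), file 3: (A) polygons `P4` with `PolyOK` from `SPoly`

* `NB J e s F N v mb mc md` : the metric facts; `NB.of_up`, `NB.of_lo`, `NB.of_lo2`
* `toP`, `NB.polyOK`
* `poly_up`, `poly_lo` : existence, with the `SPoly` data in 949's form
-/

set_option autoImplicit false

open Set Topology Filter Metric
open Crest Crest.ProbabilityR Crest.ProbabilityR.Percolation
open Crest.Agent.R158.Sp896 Crest.Agent.R158.Tj656 Crest.Agent.R158.Jt785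
open Crest.Agent.R158.Spl331 Crest.Agent.R158.Spl949

namespace Crest.Agent.R158.Tg331

noncomputable section

theorem w8_eq : w8 = ww := by
  unfold w8 ww
  apply Complex.ext
  · rw [Complex.exp_ofReal_mul_I_re, Real.cos_pi_div_four]
  · rw [Complex.exp_ofReal_mul_I_im, Real.sin_pi_div_four]

/-- polyomino approximation of a Jordan curve with four marks (marked edges `0, mb, mc, md`) -/
structure NB (J : ℝ → ℂ) (e s : ℝ) (F : Set V) (N : ℕ) (v : ℕ → V) (mb mc md : ℕ) : Prop where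
  s_pos : 0 < s
  s_lt : s < e
  fin : F.Finite
  con : ∀ q ∈ F, ∀ q' ∈ F, Con F q q'
  con' : ∀ q ∉ F, ∀ q' ∉ F, Con Fᶜ q q'
  cyc : Cyc F N v
  ord1 : 0 < mb
  ord2 : mb < mc
  ord3 : mc < md
  ord4 : md < N
  arc0 : ∀ m ≤ mb, ∀ z ∈ ed s (v m) (v (m + 1)), Nr e (arc J 0 (1 / 4)) z
  arc1 : ∀ m, mb ≤ m → m ≤ mc → ∀ z ∈ ed s (v m) (v (m + 1)), Nr e (arc J (1 / 4) (1 / 2)) z
  arc2 : ∀ m, mc ≤ m → m ≤ md → ∀ z ∈ ed s (v m) (v (m + 1)), Nr e (arc J (1 / 2) (3 / 4)) z
  arc3 : ∀ m, md ≤ m → m ≤ N → ∀ z ∈ ed s (v m) (v (m + 1)), Nr e (arc J (3 / 4) 1) z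
  cover : ∀ z ∈ jordanInterior J, (∀ t ∈ Icc (0 : ℝ) 1, e ≤ ‖z - J t‖) → z ∈ Om s F
  near : ∀ t ∈ Icc (0 : ℝ) 1, ∃ q ∉ F, ∀ w ∈ sq s q, ‖w - J t‖ < e

theorem not_nr {J : ℝ → ℂ} {e a b : ℝ} (ha : 0 ≤ a) (hb : b ≤ 1) {z : ℂ}
    (h : ∀ t ∈ Icc (0 : ℝ) 1, e ≤ ‖z - J t‖) : ¬ Nr e (arc J a b) z := by
  rintro ⟨_, ⟨t, ht, rfl⟩, h1⟩
  exact absurd h1 (not_lt.2 (h t ⟨ha.trans ht.1, ht.2.trans hb⟩))

theorem arc_cases (J : ℝ → ℂ) {t : ℝ} (ht : t ∈ Icc (0 : ℝ) 1) :
    J t ∈ arc J 0 (1 / 4) ∨ J t ∈ arc J (1 / 4) (1 / 2) ∨ J t ∈ arc J (1 / 2) (3 / 4) ∨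
      J t ∈ arc J (3 / 4) 1 := by
  rcases le_total t (1 / 4) with h1 | h1
  · exact Or.inl ⟨t, ⟨ht.1, h1⟩, rfl⟩
  rcases le_total t (1 / 2) with h2 | h2
  · exact Or.inr (Or.inl ⟨t, ⟨h1, h2⟩, rfl⟩)
  rcases le_total t (3 / 4) with h3 | h3
  · exact Or.inr (Or.inr (Or.inl ⟨t, ⟨h2, h3⟩, rfl⟩))
  · exact Or.inr (Or.inr (Or.inr ⟨t, ⟨h3, ht.2⟩, rfl⟩))

variable {J : ℝ → ℂ} {e s : ℝ} {F : Set V} {N : ℕ} {v : ℕ → V} {mb mc md : ℕ}

/-- the UP family -/
theorem NB.of_up (h : SPoly (arc J 0 (1 / 4)) (arc J (1 / 4) (1 / 2)) (arc J (1 / 2) (3 / 4))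
    (arc J (3 / 4) 1) (jordanInterior J) e s F N v mb mc md) : NB J e s F N v mb mc md where
  s_pos := h.s_pos
  s_lt := h.s_lt
  fin := h.fin
  con := h.con
  con' := h.con'
  cyc := h.cyc
  ord1 := h.ord1
  ord2 := h.ord2
  ord3 := h.ord3
  ord4 := h.ord4
  arc0 := h.arcA
  arc1 := fun m h1 h2 z hz => (h.arcB m h1 h2 z hz).2
  arc2 := h.arcC
  arc3 := fun m h1 h2 z hz => (h.arcE m h1 h2 z hz).2
  cover := fun z hz hn => h.cover z (subset_closure hz) (not_nr le_rfl (by norm_num) hn)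
    (not_nr (by norm_num) (by norm_num) hn)
  near := by
    intro t ht
    refine h.near (J t) ?_
    rcases arc_cases J ht with h1 | h1 | h1 | h1
    · exact Or.inl (Or.inl (Or.inl h1))
    · exact Or.inl (Or.inl (Or.inr h1))
    · exact Or.inl (Or.inr h1)
    · exact Or.inr h1

/-- the LO family, first alternative, rotated by `md` -/
theorem NB.of_lo (h : SPoly (arc J (1 / 4) (1 / 2)) (arc J (1 / 2) (3 / 4)) (arc J (3 / 4) 1)
    (arc J 0 (1 / 4)) (jordanInterior J) e s F N v mb mc md) :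
    NB J e s F N (fun i => v (i + md)) (N - md) (N - md + mb) (N - md + mc) where
  s_pos := h.s_pos
  s_lt := h.s_lt
  fin := h.fin
  con := h.con
  con' := h.con'
  cyc := h.cyc.rot md
  ord1 := by have := h.ord4; omega
  ord2 := by have := h.ord1; omega
  ord3 := by have := h.ord2; omega
  ord4 := by have := h.ord3; have := h.ord4; omega
  arc0 := by
    intro m hm z hz
    have h4 := h.ord4
    refine (h.arcE (m + md) (by omega) (by omega) z ?_).2
    rw [show m + md + 1 = m + 1 + md by omega]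
    exact hz
  arc1 := by
    intro m h1 h2 z hz
    have h4 := h.ord4
    refine h.arcA (m - (N - md)) (by omega) z ?_
    have e1 : v (m + md) = v (m - (N - md)) := by
      rw [← h.cyc.per (m - (N - md))]; congr 1; omega
    have e2 : v (m + 1 + md) = v (m - (N - md) + 1) := by
      rw [← h.cyc.per (m - (N - md) + 1)]; congr 1; omega
    simp only [e1, e2] at hz
    exact hz
  arc2 := by
    intro m h1 h2 z hz
    have h4 := h.ord4
    refine (h.arcB (m - (N - md)) (by omega) (by omega) z ?_).2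
    have e1 : v (m + md) = v (m - (N - md)) := by
      rw [← h.cyc.per (m - (N - md))]; congr 1; omega
    have e2 : v (m + 1 + md) = v (m - (N - md) + 1) := by
      rw [← h.cyc.per (m - (N - md) + 1)]; congr 1; omega
    simp only [e1, e2] at hz
    exact hz
  arc3 := by
    intro m h1 h2 z hz
    have h4 := h.ord4
    refine h.arcC (m - (N - md)) (by omega) (by omega) z ?_
    have e1 : v (m + md) = v (m - (N - md)) := by
      rw [← h.cyc.per (m - (N - md))]; congr 1; omega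
    have e2 : v (m + 1 + md) = v (m - (N - md) + 1) := by
      rw [← h.cyc.per (m - (N - md) + 1)]; congr 1; omega
    simp only [e1, e2] at hz
    exact hz
  cover := fun z hz hn => h.cover z (subset_closure hz) (not_nr (by norm_num) (by norm_num) hn)
    (not_nr (by norm_num) le_rfl hn)
  near := by
    intro t ht
    refine h.near (J t) ?_
    rcases arc_cases J ht with h1 | h1 | h1 | h1
    · exact Or.inr h1
    · exact Or.inl (Or.inl (Or.inl h1))
    · exact Or.inl (Or.inl (Or.inr h1))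
    · exact Or.inl (Or.inr h1)

/-- the LO family, second alternative (for the reversed curve), rotated by `mb` -/
theorem NB.of_lo2 (h : SPoly (arc J (3 / 4) 1) (arc J 0 (1 / 4)) (arc J (1 / 4) (1 / 2))
    (arc J (1 / 2) (3 / 4)) (jordanInterior J) e s F N v mb mc md) :
    NB J e s F N (fun i => v (i + mb)) (mc - mb) (md - mb) (N - mb) where
  s_pos := h.s_pos
  s_lt := h.s_lt
  fin := h.fin
  con := h.con
  con' := h.con'
  cyc := h.cyc.rot mb
  ord1 := by have := h.ord2; omega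
  ord2 := by have := h.ord2; have := h.ord3; omega
  ord3 := by have := h.ord2; have := h.ord3; have := h.ord4; omega
  ord4 := by have := h.ord1; have := h.ord2; have := h.ord3; have := h.ord4; omega
  arc0 := by
    intro m hm z hz
    have h2 := h.ord2
    refine (h.arcB (m + mb) (by omega) (by omega) z ?_).2
    rw [show m + mb + 1 = m + 1 + mb by omega]
    exact hz
  arc1 := by
    intro m h1 h2 z hz
    have h3 := h.ord2
    have h4 := h.ord3
    refine h.arcC (m + mb) (by omega) (by omega) z ?_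
    rw [show m + mb + 1 = m + 1 + mb by omega]
    exact hz
  arc2 := by
    intro m h1 h2 z hz
    have h3 := h.ord2
    have h4 := h.ord3
    have h5 := h.ord4
    refine (h.arcE (m + mb) (by omega) (by omega) z ?_).2
    rw [show m + mb + 1 = m + 1 + mb by omega]
    exact hz
  arc3 := by
    intro m h1 h2 z hz
    have h3 := h.ord2
    have h4 := h.ord3
    have h5 := h.ord4
    refine h.arcA (m - (N - mb)) (by omega) z ?_
    have e1 : v (m + mb) = v (m - (N - mb)) := by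
      rw [← h.cyc.per (m - (N - mb))]; congr 1; omega
    have e2 : v (m + 1 + mb) = v (m - (N - mb) + 1) := by
      rw [← h.cyc.per (m - (N - mb) + 1)]; congr 1; omega
    simp only [e1, e2] at hz
    exact hz
  cover := fun z hz hn => h.cover z (subset_closure hz) (not_nr (by norm_num) le_rfl hn)
    (not_nr (by norm_num) (by norm_num) hn)
  near := by
    intro t ht
    refine h.near (J t) ?_
    rcases arc_cases J ht with h1 | h1 | h1 | h1
    · exact Or.inl (Or.inl (Or.inr h1))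
    · exact Or.inl (Or.inr h1)
    · exact Or.inr h1
    · exact Or.inl (Or.inl (Or.inl h1))

/-- the polygon -/
def toP (h : NB J e s F N v mb mc md) : P4 where
  F := h.fin.toFinset
  N := N
  v := v
  mb := mb
  mc := mc
  md := md
  con := fun q hq q' hq' => by
    rw [h.fin.coe_toFinset]
    exact h.con q (h.fin.mem_toFinset.1 hq) q' (h.fin.mem_toFinset.1 hq')
  con' := fun q hq q' hq' => by
    rw [h.fin.coe_toFinset]
    exact h.con' q (fun hh => hq (h.fin.mem_toFinset.2 hh)) q'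
      (fun hh => hq' (h.fin.mem_toFinset.2 hh))
  cyc := by rw [h.fin.coe_toFinset]; exact h.cyc
  h1 := h.ord1
  h2 := h.ord2
  h3 := h.ord3
  h4 := h.ord4

theorem toP_F (h : NB J e s F N v mb mc md) : (↑(toP h).F : Set V) = F := h.fin.coe_toFinset

theorem ept_mem (s : ℝ) (v : ℕ → V) (m : ℕ) {t : ℝ} (h0 : 0 ≤ t) (h1 : t ≤ 1) :
    (s : ℂ) * ept v m t ∈ ed s (v m) (v (m + 1)) := by
  unfold ed
  rw [segment_eq_image']
  refine ⟨t, ⟨h0, h1⟩, ?_⟩
  simp only [Complex.real_smul]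
  rw [ept, pt_smul s (v m), pt_smul s (v (m + 1))]
  ring

/-- **the metric facts** -/
theorem NB.polyOK {g : ℝ → ℂ} (h : NB (fun t => w8 * g t) e s F N v mb mc md) :
    PolyOK g e s (toP h) where
  s_pos := h.s_pos
  s_lt := h.s_lt
  arc := by
    have hN : v N = v 0 := by have := h.cyc.per 0; rwa [Nat.zero_add] at this
    have hN1 : v (N + 1) = v 1 := by have := h.cyc.per 1; rwa [Nat.add_comm] at this
    have key : ∀ a b : ℝ, ∀ z, Nr e (Sp896.arc (fun t => w8 * g t) a b) z →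
        ∃ t ∈ Icc a b, ‖z - ww * g t‖ < e := by
      rintro a b z ⟨_, ⟨t, ht, rfl⟩, h2⟩
      refine ⟨t, ht, ?_⟩
      rw [← w8_eq]
      exact h2
    intro j ζ hζ
    obtain ⟨m, t, h0, h1, hon, rfl⟩ := hζ
    have hm := ept_mem s v m h0.le h1.le
    have o1 := h.ord1
    have o2 := h.ord2
    have o3 := h.ord3
    have o4 := h.ord4
    fin_cases j
    · have hon' : (0 < m ∧ m < mb) ∨ (m = 0 ∧ 1 / 2 < t) ∨ (m = mb ∧ t < 1 / 2) := hon
      obtain ⟨t', ht', h7⟩ := key _ _ _ (h.arc0 m (by omega) _ hm)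
      exact ⟨t', by convert ht' using 2 <;> norm_num, h7⟩
    · have hon' : (mb < m ∧ m < mc) ∨ (m = mb ∧ 1 / 2 < t) ∨ (m = mc ∧ t < 1 / 2) := hon
      obtain ⟨t', ht', h7⟩ := key _ _ _ (h.arc1 m (by omega) (by omega) _ hm)
      exact ⟨t', by convert ht' using 2 <;> norm_num, h7⟩
    · have hon' : (mc < m ∧ m < md) ∨ (m = mc ∧ 1 / 2 < t) ∨ (m = md ∧ t < 1 / 2) := hon
      obtain ⟨t', ht', h7⟩ := key _ _ _ (h.arc2 m (by omega) (by omega) _ hm)
      exact ⟨t', by convert ht' using 2 <;> norm_num, h7⟩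
    · have hon' : (md < m ∧ m < N) ∨ (m = md ∧ 1 / 2 < t) ∨ (m = 0 ∧ t < 1 / 2) := hon
      rcases hon' with hh | hh | hh
      · obtain ⟨t', ht', h7⟩ := key _ _ _ (h.arc3 m (by omega) (by omega) _ hm)
        exact ⟨t', by convert ht' using 2 <;> norm_num, h7⟩
      · obtain ⟨t', ht', h7⟩ := key _ _ _ (h.arc3 m (by omega) (by omega) _ hm)
        exact ⟨t', by convert ht' using 2 <;> norm_num, h7⟩
      · obtain ⟨rfl, -⟩ := hh
        have hm' : (s : ℂ) * ept v 0 t ∈ ed s (v N) (v (N + 1)) := by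
          rw [hN, hN1]; exact hm
        obtain ⟨t', ht', h7⟩ := key _ _ _ (h.arc3 N o4.le le_rfl _ hm')
        exact ⟨t', by convert ht' using 2 <;> norm_num, h7⟩
  cover := by
    intro z hz hn
    rw [toP_F, ← w8_eq]
    refine h.cover (w8 * z) ((ji_rot w8_ne z).2 hz) ?_
    intro t ht
    show e ≤ ‖w8 * z - w8 * g t‖
    rw [← mul_sub, norm_mul, norm_w8, one_mul]
    exact hn t ht
  near := by
    intro t ht
    obtain ⟨q, hq, h2⟩ := h.near t ht
    obtain ⟨c, hc⟩ := sq_nonempty h.s_pos q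
    refine ⟨w8⁻¹ * c, ?_, ?_⟩
    · rw [toP_F, ← w8_eq, mul_inv_cancel_left₀ w8_ne]
      exact not_mem_om h.s_pos hq hc
    · have h5 := h2 c hc
      have h6 : ‖w8⁻¹ * c - g t‖ = ‖c - w8 * g t‖ := by
        have h7 : c - w8 * g t = w8 * (w8⁻¹ * c - g t) := by
          rw [mul_sub, mul_inv_cancel_left₀ w8_ne]
        rw [h7, norm_mul, norm_w8, one_mul]
      rw [h6]
      exact h5

section ex

variable {γ : ℝ → ℂ} {φ : ℂ → ℂ}

/-- **(A), UP family** -/
theorem poly_up (h : Unif γ φ) {e s0 : ℝ} (he : 0 < e) (hs0 : 0 < s0) :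
    ∃ (s : ℝ) (P : P4), s < s0 ∧
      ((PolyOK γ e s P ∧
        SPoly (arc (fun t => w8 * γ t) 0 (1/4)) (arc (fun t => w8 * γ t) (1/4) (1/2))
          (arc (fun t => w8 * γ t) (1/2) (3/4)) (arc (fun t => w8 * γ t) (3/4) 1)
          (jordanInterior fun t => w8 * γ t) e s ↑P.F P.N P.v P.mb P.mc P.md) ∨
       (PolyOK (rv γ) e s P ∧
        SPoly (arc (fun t => w8 * γ t) 0 (1/4)) (arc (fun t => w8 * γ t) (3/4) 1)
          (arc (fun t => w8 * γ t) (1/2) (3/4)) (arc (fun t => w8 * γ t) (1/4) (1/2))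
          (jordanInterior fun t => w8 * γ t) e s ↑P.F P.N P.v P.mb P.mc P.md)) := by
  obtain ⟨s, F, N, v, mb, mc, md, hs, h1⟩ := exists_up h he hs0
  rcases h1 with h1 | h1
  · refine ⟨s, toP (NB.of_up h1), hs, Or.inl ⟨(NB.of_up h1).polyOK, ?_⟩⟩
    rw [toP_F]
    exact h1
  · have h01 : (fun t => w8 * γ t) 0 = (fun t => w8 * γ t) 1 := (unif_rot h).jc.2.2
    have h2 : SPoly (arc (fun t => w8 * (rv γ) t) 0 (1/4)) (arc (fun t => w8 * (rv γ) t) (1/4) (1/2))
          (arc (fun t => w8 * (rv γ) t) (1/2) (3/4)) (arc (fun t => w8 * (rv γ) t) (3/4) 1)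
          (jordanInterior fun t => w8 * (rv γ) t) e s F N v mb mc md := by
      have e0 : (fun t => w8 * (rv γ) t) = rv (fun t => w8 * γ t) := rfl
      have a1 : arc (rv fun t => w8 * γ t) 0 (1/4) = arc (fun t => w8 * γ t) 0 (1/4) := rv_A
      have a2 : arc (rv fun t => w8 * γ t) (1/4) (1/2) = arc (fun t => w8 * γ t) (3/4) 1 := rv_B h01
      have a3 : arc (rv fun t => w8 * γ t) (1/2) (3/4) = arc (fun t => w8 * γ t) (1/2) (3/4) := rv_C
      have a4 : arc (rv fun t => w8 * γ t) (3/4) 1 = arc (fun t => w8 * γ t) (1/4) (1/2) := rv_E h01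
      rw [e0, a1, a2, a3, a4, rv_ji h01]
      exact h1
    refine ⟨s, toP (NB.of_up h2), hs, Or.inr ⟨(NB.of_up h2).polyOK, ?_⟩⟩
    rw [toP_F]
    exact h1

/-- **(A), LO family** -/
theorem poly_lo (h : Unif γ φ) {e s0 : ℝ} (he : 0 < e) (hs0 : 0 < s0) :
    ∃ (s : ℝ) (P : P4), s < s0 ∧
      ((PolyOK γ e s P ∧ ∃ (v0 : ℕ → V) (mb0 mc0 md0 : ℕ),
        SPoly (arc (fun t => w8 * γ t) (1/4) (1/2)) (arc (fun t => w8 * γ t) (1/2) (3/4))
          (arc (fun t => w8 * γ t) (3/4) 1) (arc (fun t => w8 * γ t) 0 (1/4))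
          (jordanInterior fun t => w8 * γ t) e s ↑P.F P.N v0 mb0 mc0 md0 ∧
        (∀ i, P.v i = v0 (i + md0)) ∧ P.mb + md0 = P.N ∧ P.mc = P.mb + mb0 ∧ P.md = P.mb + mc0) ∨
       (PolyOK (rv γ) e s P ∧ ∃ (v0 : ℕ → V) (mb0 mc0 md0 : ℕ),
        SPoly (arc (fun t => w8 * γ t) (1/4) (1/2)) (arc (fun t => w8 * γ t) 0 (1/4))
          (arc (fun t => w8 * γ t) (3/4) 1) (arc (fun t => w8 * γ t) (1/2) (3/4))
          (jordanInterior fun t => w8 * γ t) e s ↑P.F P.N v0 mb0 mc0 md0 ∧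
        (∀ i, P.v i = v0 (i + mb0)) ∧ P.mb + mb0 = mc0 ∧ P.mc + mb0 = md0 ∧ P.md + mb0 = P.N)) := by
  obtain ⟨s, F, N, v, mb, mc, md, hs, h1⟩ := exists_lo h he hs0
  rcases h1 with h1 | h1
  · refine ⟨s, toP (NB.of_lo h1), hs, Or.inl ⟨(NB.of_lo h1).polyOK, v, mb, mc, md, ?_, ?_, ?_, rfl, rfl⟩⟩
    · rw [toP_F]
      exact h1
    · exact fun i => rfl
    · show N - md + md = N
      have := h1.ord4
      omega
  · have h01 : (fun t => w8 * γ t) 0 = (fun t => w8 * γ t) 1 := (unif_rot h).jc.2.2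
    have h2 : SPoly (arc (fun t => w8 * (rv γ) t) (3/4) 1) (arc (fun t => w8 * (rv γ) t) 0 (1/4))
          (arc (fun t => w8 * (rv γ) t) (1/4) (1/2)) (arc (fun t => w8 * (rv γ) t) (1/2) (3/4))
          (jordanInterior fun t => w8 * (rv γ) t) e s F N v mb mc md := by
      have e0 : (fun t => w8 * (rv γ) t) = rv (fun t => w8 * γ t) := rfl
      have a1 : arc (rv fun t => w8 * γ t) 0 (1/4) = arc (fun t => w8 * γ t) 0 (1/4) := rv_A
      have a2 : arc (rv fun t => w8 * γ t) (1/4) (1/2) = arc (fun t => w8 * γ t) (3/4) 1 := rv_B h01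
      have a3 : arc (rv fun t => w8 * γ t) (1/2) (3/4) = arc (fun t => w8 * γ t) (1/2) (3/4) := rv_C
      have a4 : arc (rv fun t => w8 * γ t) (3/4) 1 = arc (fun t => w8 * γ t) (1/4) (1/2) := rv_E h01
      rw [e0, a1, a2, a3, a4, rv_ji h01]
      exact h1
    refine ⟨s, toP (NB.of_lo2 h2), hs,
      Or.inr ⟨(NB.of_lo2 h2).polyOK, v, mb, mc, md, ?_, fun i => rfl, ?_, ?_, ?_⟩⟩
    · rw [toP_F]
      exact h1
    · show mc - mb + mb = mc
      have := h1.ord2
      omega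
    · show md - mb + mb = md
      have := h1.ord2
      have := h1.ord3
      omega
    · show N - mb + mb = N
      have := h1.ord2
      have := h1.ord3
      have := h1.ord4
      omega

end ex

end

end Crest.Agent.R158.Tg331
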