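import Mathlib

/-!
R158, S0237 endgame: uniqueness of triangle maps WITHOUT continuity up to the boundary and
WITHOUT vertex conditions.

* `max_lim` : maximum principle with boundary limits only.
* `max_lim_fin` : the same with a finite exceptional set (bounded functions).
* `im_zero` : bounded holomorphic, imaginary part tends to `0` at all but finitely many boundary
  points ⟹ imaginary part `0`.
* `tri_zero` : bounded holomorphic `g`, at every boundary point outside a finite set `g` is
  asymptotically parallel to a direction `d` with `c d³` real, two different directions occur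
  ⟹ `g = 0`.
-/

set_option autoImplicit false

namespace Crest.Agent.R158.Un434

open Complex Set Filter Topology

/-- Maximum principle with boundary limits. -/
theorem max_lim {U : Set ℂ} (hU : IsOpen U) (hb : Bornology.IsBounded U) {f : ℂ → ℂ}
    (hf : DifferentiableOn ℂ f U) {C : ℝ}
    (h : ∀ b ∈ frontier U, ∀ ε > 0, ∀ᶠ z in 𝓝[U] b, ‖f z‖ ≤ C + ε) {z : ℂ} (hz : z ∈ U) :
    ‖f z‖ ≤ C := by
  by_contra hcon
  push Not at hcon
  set ε : ℝ := (‖f z‖ - C) / 2 with hε
  have hε0 : 0 < ε := by rw [hε]; linarith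
  have hzε : C + ε < ‖f z‖ := by rw [hε]; linarith
  set V : Set ℂ := U ∩ {w | C + ε < ‖f w‖} with hV
  have hcont : ContinuousOn (fun w => ‖f w‖) U := hf.continuousOn.norm
  have hVo : IsOpen V := hcont.isOpen_inter_preimage hU isOpen_Ioi
  have hVU : V ⊆ U := inter_subset_left
  have hclV : closure V ⊆ U := by
    intro b hbV
    by_contra hbU
    have hbf : b ∈ frontier U := by
      rw [hU.frontier_eq]
      exact ⟨closure_mono hVU hbV, hbU⟩
    have h1 := h b hbf ε hε0
    rw [eventually_nhdsWithin_iff] at h1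
    have h2 : ∃ᶠ w in 𝓝 b, w ∈ V := mem_closure_iff_frequently.mp hbV
    obtain ⟨w, hw1, hw2⟩ := (h2.and_eventually h1).exists
    have h3 := hw2 (hVU hw1)
    have h4 := hw1.2
    simp only [mem_ofPred_eq] at h4
    linarith
  have hd : DiffContOnCl ℂ f V :=
    ⟨hf.mono hVU, (hf.continuousOn.mono hclV)⟩
  have hfr : ∀ w ∈ frontier V, ‖f w‖ ≤ C + ε := by
    intro w hw
    rw [hVo.frontier_eq] at hw
    by_contra hc
    push Not at hc
    exact hw.2 ⟨hclV hw.1, hc⟩
  have hzV : z ∈ closure V := subset_closure ⟨hz, hzε⟩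
  have := Complex.norm_le_of_forall_mem_frontier_norm_le (hb.subset hVU) hd hfr hzV
  linarith

/-- Maximum principle with boundary limits off a finite set, for bounded functions. -/
theorem max_lim_fin {U : Set ℂ} (hU : IsOpen U) (hb : Bornology.IsBounded U) {f : ℂ → ℂ}
    (hf : DifferentiableOn ℂ f U) {B : ℝ} (hB : ∀ z ∈ U, ‖f z‖ ≤ B) (E : Finset ℂ)
    (hE : ∀ e ∈ E, e ∉ U)
    (h : ∀ b ∈ frontier U, b ∉ E → ∀ ε > 0, ∀ᶠ z in 𝓝[U] b, ‖f z‖ ≤ 1 + ε) {z : ℂ}
    (hz : z ∈ U) : ‖f z‖ ≤ 1 := by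
  classical
  obtain ⟨R0, hR0⟩ := hb.subset_closedBall 0
  -- a common bound for the distances
  obtain ⟨R, hR, hRE⟩ : ∃ R : ℝ, 0 < R ∧ ∀ w ∈ U, ∀ e ∈ E, ‖w - e‖ ≤ R := by
    refine ⟨1 + |R0| + ∑ e ∈ E, ‖e‖, by positivity, ?_⟩
    intro w hw e he
    have h1 : ‖w‖ ≤ R0 := by simpa using hR0 hw
    have h2 : ‖e‖ ≤ ∑ e ∈ E, ‖e‖ := Finset.single_le_sum (f := fun e : ℂ => ‖e‖) (fun _ _ => norm_nonneg _) he
    have h3 := norm_sub_le w e
    have h4 := le_abs_self R0
    linarith
  have hB0 : 0 ≤ B := (norm_nonneg _).trans (hB z hz)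
  have hfac : ∀ w ∈ U, ∀ e ∈ E, ‖(w - e) / (R : ℂ)‖ ≤ 1 := by
    intro w hw e he
    rw [norm_div, Complex.norm_real, Real.norm_of_nonneg hR.le, div_le_one hR]
    exact hRE w hw e he
  have key : ∀ m : ℕ, ‖f z ^ m * ∏ e ∈ E, (z - e) / (R : ℂ)‖ ≤ 1 := by
    intro m
    have hd : DifferentiableOn ℂ (fun w => f w ^ m * ∏ e ∈ E, (w - e) / (R : ℂ)) U := by
      refine (hf.pow m).mul ?_
      have : Differentiable ℂ (fun w : ℂ => ∏ e ∈ E, (w - e) / (R : ℂ)) := by
        fun_prop
      exact this.differentiableOn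
    refine max_lim hU hb hd (C := 1) ?_ hz
    intro b hbf ε hε
    by_cases hbE : b ∈ E
    · -- near an exceptional point the product is small
      have hlim : Tendsto (fun w : ℂ => B ^ m * ‖(w - b) / (R : ℂ)‖) (𝓝[U] b) (𝓝 0) := by
        have h1 : Continuous (fun w : ℂ => B ^ m * ‖(w - b) / (R : ℂ)‖) := by fun_prop
        have h2 := h1.tendsto b
        simp only [sub_self, zero_div, norm_zero, mul_zero] at h2
        exact h2.mono_left nhdsWithin_le_nhds
      have hev := hlim.eventually (gt_mem_nhds (show (0 : ℝ) < 1 + ε by linarith))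
      filter_upwards [hev, self_mem_nhdsWithin] with w hw hwU
      refine le_trans ?_ hw.le
      rw [norm_mul, norm_pow]
      refine mul_le_mul (pow_le_pow_left₀ (norm_nonneg _) (hB w hwU) m) ?_ (norm_nonneg _)
        (pow_nonneg hB0 m)
      rw [norm_prod, ← Finset.mul_prod_erase E _ hbE]
      refine mul_le_of_le_one_right (norm_nonneg _) ?_
      exact Finset.prod_le_one (fun _ _ => norm_nonneg _)
        (fun e he => hfac w hwU e (Finset.mem_of_mem_erase he))
    · -- ordinary boundary point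
      have hcont : Continuous fun t : ℝ => (1 + t) ^ m := by fun_prop
      have h1 : Tendsto (fun t : ℝ => (1 + t) ^ m) (𝓝[>] 0) (𝓝 1) := by
        have := hcont.tendsto 0
        simp only [add_zero, one_pow] at this
        exact this.mono_left nhdsWithin_le_nhds
      have h2 := (h1.eventually (gt_mem_nhds (show (1 : ℝ) < 1 + ε by linarith))).and
        self_mem_nhdsWithin
      obtain ⟨t, ht1, ht2⟩ := h2.exists
      filter_upwards [h b hbf hbE t ht2, self_mem_nhdsWithin] with w hw hwU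
      rw [norm_mul, norm_pow]
      have h3 : ‖f w‖ ^ m ≤ (1 + t) ^ m := pow_le_pow_left₀ (norm_nonneg _) hw m
      have h4 : ‖∏ e ∈ E, (w - e) / (R : ℂ)‖ ≤ 1 := by
        rw [norm_prod]
        exact Finset.prod_le_one (fun _ _ => norm_nonneg _) (fun e he => hfac w hwU e he)
      calc ‖f w‖ ^ m * ‖∏ e ∈ E, (w - e) / (R : ℂ)‖ ≤ (1 + t) ^ m * 1 :=
            mul_le_mul h3 h4 (norm_nonneg _) (pow_nonneg (by have : (0:ℝ) < t := ht2; linarith) m)
        _ ≤ 1 + ε := by rw [mul_one]; exact ht1.le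
  by_contra hcon
  push Not at hcon
  have hP : 0 < ‖∏ e ∈ E, (z - e) / (R : ℂ)‖ := by
    rw [norm_pos_iff, Finset.prod_ne_zero_iff]
    intro e he
    refine div_ne_zero (sub_ne_zero.mpr ?_) (by exact_mod_cast hR.ne')
    rintro rfl
    exact hE _ he hz
  obtain ⟨m, hm⟩ := pow_unbounded_of_one_lt (1 / ‖∏ e ∈ E, (z - e) / (R : ℂ)‖) hcon
  have h1 := key m
  rw [norm_mul, norm_pow] at h1
  rw [div_lt_iff₀ hP] at hm
  linarith


/-- Bounded holomorphic, imaginary part tends to `0` at all but finitely many boundary points. -/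
theorem im_zero {U : Set ℂ} (hU : IsOpen U) (hb : Bornology.IsBounded U) {u : ℂ → ℂ}
    (hu : DifferentiableOn ℂ u U) {B : ℝ} (hB : ∀ z ∈ U, ‖u z‖ ≤ B) (E : Finset ℂ)
    (hE : ∀ e ∈ E, e ∉ U)
    (h : ∀ b ∈ frontier U, b ∉ E → Tendsto (fun z => (u z).im) (𝓝[U] b) (𝓝 0)) {z : ℂ}
    (hz : z ∈ U) : (u z).im = 0 := by
  have key : ∀ s : ℝ, s = 1 ∨ s = -1 → -(s * (u z).im) ≤ 0 := by
    intro s hs
    have hd : DifferentiableOn ℂ (fun z => Complex.exp ((s : ℂ) * (I * u z))) U :=
      ((hu.const_mul I).const_mul (s : ℂ)).cexp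
    have hn : ∀ z, ‖Complex.exp ((s : ℂ) * (I * u z))‖ = Real.exp (-(s * (u z).im)) := by
      intro z
      rw [Complex.norm_exp]
      congr 1
      simp
    have hsabs : |s| = 1 := by rcases hs with rfl | rfl <;> simp
    have h1 := max_lim_fin hU hb hd (B := Real.exp B) ?_ E hE ?_ hz
    · rw [hn z] at h1
      exact Real.exp_le_one_iff.mp h1
    · intro w hw
      rw [hn w, Real.exp_le_exp]
      have h2 : |s * (u w).im| ≤ B := by
        rw [abs_mul, hsabs, one_mul]
        exact (Complex.abs_im_le_norm _).trans (hB w hw)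
      linarith [neg_abs_le (s * (u w).im)]
    · intro b hbf hbE ε hε
      have h2 : Tendsto (fun w => Real.exp (-(s * (u w).im))) (𝓝[U] b) (𝓝 1) := by
        have h3 := (h b hbf hbE).const_mul s
        rw [mul_zero] at h3
        have h4 := (Real.continuous_exp.tendsto _).comp h3.neg
        rw [neg_zero, Real.exp_zero] at h4
        exact h4
      filter_upwards [h2.eventually (gt_mem_nhds (show (1 : ℝ) < 1 + ε by linarith))] with w hw
      rw [hn w]
      exact hw.le
  have h1 := key 1 (Or.inl rfl)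
  have h2 := key (-1) (Or.inr rfl)
  linarith

/-- A holomorphic function with vanishing imaginary part on a connected open set is constant. -/
theorem const_of_im {U : Set ℂ} (hU : IsOpen U) (hc : IsPreconnected U) {u : ℂ → ℂ}
    (hu : DifferentiableOn ℂ u U) (hr : ∀ z ∈ U, (u z).im = 0) {a b : ℂ}
    (ha : a ∈ U) (hb : b ∈ U) : u a = u b := by
  refine hU.is_const_of_deriv_eq_zero hc hu ?_ ha hb
  intro z hz
  have hd : HasDerivAt u (deriv u z) z := (hu.differentiableAt (hU.mem_nhds hz)).hasDerivAt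
  have hdir : ∀ w : ℂ, (deriv u z * w).im = 0 := by
    intro w
    have h2 : HasDerivAt (fun t : ℝ => u (z + t * w)) (deriv u z * w) 0 := by
      have h3 : HasDerivAt (fun t : ℂ => u (z + t * w)) (deriv u z * w) ((0 : ℝ) : ℂ) := by
        have h4 : HasDerivAt u (deriv u z) (z + ((0 : ℝ) : ℂ) * w) := by simpa using hd
        have h5 : HasDerivAt (fun t : ℂ => z + t * w) w ((0 : ℝ) : ℂ) := by
          simpa using ((hasDerivAt_id ((0 : ℝ) : ℂ)).mul_const w).const_add z
        exact HasDerivAt.comp (h₂ := u) (h := fun t : ℂ => z + t * w) ((0 : ℝ) : ℂ) h4 h5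
      exact h3.comp_ofReal
    have h3 := Complex.imCLM.hasFDerivAt.comp_hasDerivAt (0 : ℝ) h2
    have hev : (fun t : ℝ => (u (z + t * w)).im) =ᶠ[𝓝 0] fun _ => 0 := by
      have : Tendsto (fun t : ℝ => z + (t : ℂ) * w) (𝓝 0) (𝓝 z) := by
        have : Continuous fun t : ℝ => z + (t : ℂ) * w := by fun_prop
        simpa using this.tendsto 0
      filter_upwards [this (hU.mem_nhds hz)] with t ht
      exact hr _ ht
    exact (h3.congr_of_eventuallyEq hev.symm).unique (hasDerivAt_const (0 : ℝ) (0 : ℝ))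
  have e1 := hdir 1
  have e2 := hdir I
  refine Complex.ext ?_ ?_
  · simpa using e2
  · simpa using e1

/-- Uniqueness: bounded holomorphic, asymptotically parallel to directions `d` with `c d³` real
at every boundary point outside a finite set, two different directions occur. -/
theorem tri_zero {U : Set ℂ} (hU : IsOpen U) (hb : Bornology.IsBounded U) (hc : IsPreconnected U)
    {g : ℂ → ℂ} (hg : DifferentiableOn ℂ g U) {B : ℝ} (hB : ∀ z ∈ U, ‖g z‖ ≤ B)
    (E : Finset ℂ) (hE : ∀ e ∈ E, e ∉ U) {c : ℂ} (hc0 : c ≠ 0)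
    (h : ∀ b ∈ frontier U, b ∉ E → ∃ d : ℂ, ‖d‖ = 1 ∧ (c * d ^ 3).im = 0 ∧
      Tendsto (fun z => ((starRingEnd ℂ) d * g z).im) (𝓝[U] b) (𝓝 0))
    {b1 b2 d1 d2 : ℂ} (hb1 : b1 ∈ closure U) (hb2 : b2 ∈ closure U)
    (hd : ((starRingEnd ℂ) d1 * d2).im ≠ 0)
    (h1 : Tendsto (fun z => ((starRingEnd ℂ) d1 * g z).im) (𝓝[U] b1) (𝓝 0))
    (h2 : Tendsto (fun z => ((starRingEnd ℂ) d2 * g z).im) (𝓝[U] b2) (𝓝 0)) {z : ℂ}
    (hz : z ∈ U) : g z = 0 := by
  -- `c g ^ 3` has vanishing imaginary part
  have hBz : 0 ≤ B := (norm_nonneg _).trans (hB z hz)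
  have hcu : DifferentiableOn ℂ (fun z => c * g z ^ 3) U := (hg.pow 3).const_mul c
  have him : ∀ w ∈ U, (c * g w ^ 3).im = 0 := by
    intro w hw
    refine im_zero hU hb hcu (B := ‖c‖ * B ^ 3) ?_ E hE ?_ hw
    · intro v hv
      rw [norm_mul, norm_pow]
      exact mul_le_mul_of_nonneg_left (pow_le_pow_left₀ (norm_nonneg _) (hB v hv) 3)
        (norm_nonneg _)
    · intro b hbf hbE
      obtain ⟨d, hd1, hd2, hd3⟩ := h b hbf hbE
      have hdd : d * (starRingEnd ℂ) d = 1 := by
        rw [Complex.mul_conj, Complex.normSq_eq_norm_sq, hd1]; simp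
      have hform : ∀ v, (c * g v ^ 3).im = (c * d ^ 3).re *
          (3 * ((starRingEnd ℂ) d * g v).re ^ 2 * ((starRingEnd ℂ) d * g v).im
            - ((starRingEnd ℂ) d * g v).im ^ 3) := by
        intro v
        have e1 : c * g v ^ 3 = (c * d ^ 3) * ((starRingEnd ℂ) d * g v) ^ 3 := by
          have : g v = (d * (starRingEnd ℂ) d) * g v := by rw [hdd, one_mul]
          rw [this]
          have h5 : d * (starRingEnd ℂ) d = 1 := hdd
          calc c * (d * (starRingEnd ℂ) d * g v) ^ 3
              = (c * d ^ 3) * ((starRingEnd ℂ) d * g v) ^ 3 := by ring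
            _ = (c * d ^ 3) * ((starRingEnd ℂ) d * (d * (starRingEnd ℂ) d * g v)) ^ 3 := by
                rw [h5, one_mul]
        rw [e1, Complex.mul_im, hd2, zero_mul, add_zero]
        congr 1
        generalize (starRingEnd ℂ) d * g v = q
        simp only [pow_succ, pow_zero, one_mul, Complex.mul_im, Complex.mul_re]
        ring
      simp only [hform]
      have hbd : ∀ᶠ v in 𝓝[U] b, |3 * ((starRingEnd ℂ) d * g v).re ^ 2| ≤ 3 * B ^ 2 := by
        filter_upwards [self_mem_nhdsWithin] with v hv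
        have e1 : |((starRingEnd ℂ) d * g v).re| ≤ B := by
          refine (Complex.abs_re_le_norm _).trans ?_
          rw [norm_mul, RCLike.norm_conj, hd1, one_mul]
          exact hB v hv
        rw [abs_mul, abs_of_pos (by norm_num : (0 : ℝ) < 3), abs_pow]
        gcongr
      have l1 : Tendsto (fun v => 3 * ((starRingEnd ℂ) d * g v).re ^ 2 *
          ((starRingEnd ℂ) d * g v).im) (𝓝[U] b) (𝓝 0) := by
        refine squeeze_zero_norm' (a := fun v => 3 * B ^ 2 * |((starRingEnd ℂ) d * g v).im|) ?_ ?_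
        · filter_upwards [hbd] with v hv
          rw [norm_mul, Real.norm_eq_abs, Real.norm_eq_abs]
          exact mul_le_mul_of_nonneg_right hv (abs_nonneg _)
        · have := hd3.abs.const_mul (3 * B ^ 2)
          simpa using this
      have l2 : Tendsto (fun v => ((starRingEnd ℂ) d * g v).im ^ 3) (𝓝[U] b) (𝓝 0) := by
        simpa using hd3.pow 3
      have l3 := (l1.sub l2).const_mul (c * d ^ 3).re
      simpa using l3
  have hconst : ∀ w ∈ U, c * g w ^ 3 = c * g z ^ 3 := fun w hw => const_of_im hU hc hcu him hw hz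
  have hcube : ∀ w ∈ U, g w ^ 3 = g z ^ 3 := fun w hw => mul_left_cancel₀ hc0 (hconst w hw)
  by_contra hne
  -- `g` is constant
  have hgc : ∀ w ∈ U, g w = g z := by
    intro w hw
    refine hU.is_const_of_deriv_eq_zero hc hg ?_ hw hz
    intro v hv
    have hgv : g v ≠ 0 := by
      intro h0
      have := hcube v hv
      rw [h0] at this
      exact hne (pow_eq_zero_iff (n := 3) (by norm_num) |>.mp (by rw [← this]; ring))
    have hdv : HasDerivAt g (deriv g v) v := (hg.differentiableAt (hU.mem_nhds hv)).hasDerivAt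
    have h3 := hdv.pow 3
    have hev : (fun w => g w ^ 3) =ᶠ[𝓝 v] fun _ => g z ^ 3 := by
      filter_upwards [hU.mem_nhds hv] with w hw
      exact hcube w hw
    have h4 := (h3.congr_of_eventuallyEq hev.symm).unique (hasDerivAt_const v (g z ^ 3))
    have h5 : ((3 : ℕ) : ℂ) * g v ^ (3 - 1) ≠ 0 := mul_ne_zero (by norm_num) (pow_ne_zero _ hgv)
    simp only [Pi.zero_apply]
    exact (mul_eq_zero.mp h4).resolve_left h5
  have lim1 : ∀ {b d : ℂ}, b ∈ closure U →
      Tendsto (fun z => ((starRingEnd ℂ) d * g z).im) (𝓝[U] b) (𝓝 0) →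
      ((starRingEnd ℂ) d * g z).im = 0 := by
    intro b d hbU ht
    have : (𝓝[U] b).NeBot := mem_closure_iff_nhdsWithin_neBot.mp hbU
    have hev : (fun z => ((starRingEnd ℂ) d * g z).im) =ᶠ[𝓝[U] b]
        fun _ => ((starRingEnd ℂ) d * g z).im := by
      filter_upwards [self_mem_nhdsWithin] with w hw
      rw [hgc w hw]
    exact tendsto_nhds_unique (tendsto_const_nhds.congr' hev.symm) ht
  have q1 := lim1 hb1 h1
  have q2 := lim1 hb2 h2
  generalize g z = k at hne q1 q2
  simp only [Complex.mul_im, Complex.conj_re, Complex.conj_im] at q1 q2 hd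
  apply hne
  have hre : k.re * (d1.re * d2.im + -d1.im * d2.re) = 0 := by
    linear_combination (-d1.re) * q2 + (d2.re) * q1
  have him' : k.im * (d1.re * d2.im + -d1.im * d2.re) = 0 := by
    linear_combination (-d1.im) * q2 + (d2.im) * q1
  exact Complex.ext ((mul_eq_zero.mp hre).resolve_right hd)
    ((mul_eq_zero.mp him').resolve_right hd)

end Crest.Agent.R158.Un434
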