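import Mathlib
import Crest.Agent.R158.Un1_434

/-!
R158 (helper290): a weak Beurling estimate by finite logarithmic potentials.

`weak_beurling`: `Ω` open, `b ∈ ℂ`, every circle of radius in `[s,2s]` around `b` meets the complement and
`Ω` satisfies an exterior cone condition; `f` holomorphic on `Ω`, `re f ≤ 1`, boundary limits of `re f` at most `0` in
`ball b R` off a finite set.  Then `re f ≤ 5 / log (R/s)` on `closedBall b s`.  The bound does not
depend on the cone constant.
-/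

set_option autoImplicit false
open Complex Metric Set Topology Filter

namespace Crest.Agent.R158.Wl290

open Crest.Agent.R158.Un434

theorem prod_max_ge (k : ℕ) : ((k.factorial : ℝ)) / 2 ^ k ≤ ∏ i ∈ Finset.range k, max (i:ℝ) 1 := by
  induction k with
  | zero => simp
  | succ k ih =>
      rw [Finset.prod_range_succ, Nat.factorial_succ, pow_succ]
      have h1 : ((k:ℝ) + 1) / 2 ≤ max (k:ℝ) 1 := by
        rcases le_total (k:ℝ) 1 with h | h
        · rw [max_eq_right h]; linarith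
        · rw [max_eq_left h]; linarith
      have h2 : (0:ℝ) ≤ (k.factorial : ℝ) / 2 ^ k := by positivity
      calc (((k + 1) * k.factorial : ℕ) : ℝ) / (2 ^ k * 2)
          = ((k.factorial : ℝ) / 2 ^ k) * (((k:ℝ) + 1) / 2) := by push_cast; field_simp
        _ ≤ (∏ i ∈ Finset.range k, max (i:ℝ) 1) * max (k:ℝ) 1 := by
            apply mul_le_mul ih h1 (by positivity)
            exact Finset.prod_nonneg fun i _ => le_max_of_le_right zero_le_one

theorem factorial_ge (n : ℕ) : ((n:ℝ) / Real.exp 1) ^ n ≤ n.factorial := by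
  have h := Real.pow_div_factorial_le_exp (x := (n:ℝ)) (by positivity) n
  have h2 : (0:ℝ) < n.factorial := by exact_mod_cast n.factorial_pos
  rw [div_le_iff₀ h2] at h
  rw [div_pow, div_le_iff₀ (by positivity)]
  calc (n:ℝ) ^ n ≤ Real.exp n * n.factorial := h
    _ = (n.factorial : ℝ) * Real.exp 1 ^ n := by
        rw [← Real.exp_nat_mul, mul_one, mul_comm]

theorem prod_lower {s x : ℝ} (hs : 0 < s) {n : ℕ} (hn : 0 < n) {a : ℕ → ℝ}
    (h1 : ∀ i < n, |x - s * (1 + i / n)| ≤ a i) (h2 : ∀ i < n, s / n ≤ a i) :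
    (s / (4 * Real.exp 1)) ^ n ≤ ∏ i ∈ Finset.range n, a i := by
  classical
  have hn' : (0:ℝ) < n := by exact_mod_cast hn
  have hex : ∃ k : ℕ, k ≤ n ∧ ∀ i : ℕ, k ≤ i → i < n → x < s * (1 + (i:ℝ) / n) :=
    ⟨n, le_rfl, fun i h h' => absurd h' (by omega)⟩
  obtain ⟨hk, hk2⟩ := Nat.find_spec hex
  set k := Nat.find hex with hkdef
  have hk3 : ∀ i : ℕ, i < k → s / n * ((k:ℝ) - 1 - i) ≤ x - s * (1 + (i:ℝ) / n) := by
    intro i hi
    have hk0 : k - 1 < k := by omega
    have := Nat.find_min hex hk0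
    push Not at this
    obtain ⟨j, hj1, hj2, hj3⟩ := this (by omega)
    have hjk : j = k - 1 := by
      by_contra hne
      have : k ≤ j := by omega
      exact absurd (hk2 j this hj2) (not_lt.mpr hj3)
    subst hjk
    have e : ((k - 1 : ℕ) : ℝ) = (k:ℝ) - 1 := by
      have : 1 ≤ k := by omega
      push_cast [Nat.cast_sub this]; ring
    rw [e] at hj3
    have e2 : s * (1 + (i:ℝ) / n) + s / n * ((k:ℝ) - 1 - i) = s * (1 + ((k:ℝ) - 1) / n) := by
      field_simp; ring
    linarith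
  obtain ⟨m, hm⟩ : ∃ m, n = k + m := ⟨n - k, by omega⟩
  have hsn : 0 < s / n := by positivity
  have hpow : ∀ (q : ℕ) (g : ℕ → ℝ), (∀ i ∈ Finset.range q, s / n * max (i:ℝ) 1 ≤ g i) →
      (s / n) ^ q * ((q.factorial : ℝ) / 2 ^ q) ≤ ∏ i ∈ Finset.range q, g i := by
    intro q g hg
    calc (s / n) ^ q * ((q.factorial : ℝ) / 2 ^ q)
        ≤ (s / n) ^ q * ∏ i ∈ Finset.range q, max (i:ℝ) 1 :=
          mul_le_mul_of_nonneg_left (prod_max_ge q) (by positivity)
      _ = ∏ i ∈ Finset.range q, (s / n * max (i:ℝ) 1) := by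
          rw [Finset.prod_mul_distrib, Finset.prod_const, Finset.card_range]
      _ ≤ _ := Finset.prod_le_prod (fun i _ => by positivity) hg
  -- first block
  have b1 : (s / n) ^ k * ((k.factorial : ℝ) / 2 ^ k) ≤ ∏ i ∈ Finset.range k, a i := by
    rw [← Finset.prod_range_reflect a k]
    refine hpow k _ ?_
    intro i hi
    rw [Finset.mem_range] at hi
    have hlt : k - 1 - i < n := by omega
    have e : ((k - 1 - i : ℕ) : ℝ) = (k:ℝ) - 1 - i := by
      rw [Nat.cast_sub (by omega), Nat.cast_sub (by omega)]; simp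
    have g1 := h1 _ hlt
    have g2 := h2 _ hlt
    have g3 := hk3 (k - 1 - i) (by omega)
    rw [e] at g3 g1
    have g4 := le_abs_self (x - s * (1 + ((k:ℝ) - 1 - i) / n))
    rcases le_total (i:ℝ) 1 with h | h
    · rw [max_eq_right h, mul_one]; exact g2
    · rw [max_eq_left h]
      have : s / n * ((k:ℝ) - 1 - ((k:ℝ) - 1 - i)) = s / n * i := by ring
      rw [this] at g3
      linarith
  have b2 : (s / n) ^ m * ((m.factorial : ℝ) / 2 ^ m) ≤ ∏ i ∈ Finset.range m, a (k + i) := by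
    refine hpow m _ ?_
    intro i hi
    rw [Finset.mem_range] at hi
    have hlt : k + i < n := by omega
    have g1 := h1 _ hlt
    have g2 := h2 _ hlt
    have g3 : s / n * i ≤ s * (1 + ((k + i : ℕ):ℝ) / n) - x := by
      rcases Nat.eq_zero_or_pos m with hm0 | hm0
      · omega
      · have := hk2 k le_rfl (by omega)
        have e : s * (1 + ((k + i : ℕ):ℝ) / n) = s * (1 + (k:ℝ) / n) + s / n * i := by
          push_cast; field_simp; ring
        rw [e]; linarith
    have g4 := neg_abs_le (x - s * (1 + ((k + i : ℕ):ℝ) / n))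
    rcases le_total (i:ℝ) 1 with h | h
    · rw [max_eq_right h, mul_one]; exact g2
    · rw [max_eq_left h]; linarith
  have hprod : ∏ i ∈ Finset.range n, a i =
      (∏ i ∈ Finset.range k, a i) * ∏ i ∈ Finset.range m, a (k + i) := by
    conv_lhs => rw [hm]
    rw [Finset.prod_range_add]
  rw [hprod]
  have hchoose : (n.factorial : ℝ) ≤ 2 ^ n * ((k.factorial : ℝ) * m.factorial) := by
    have h5 : n.choose k * k.factorial * (n - k).factorial = n.factorial :=
      Nat.choose_mul_factorial_mul_factorial hk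
    have h6 : n - k = m := by omega
    rw [h6] at h5
    have h7 := Nat.choose_le_two_pow n k
    have h8 : n.factorial ≤ 2 ^ n * (k.factorial * m.factorial) := by
      rw [← h5, mul_assoc]
      exact Nat.mul_le_mul_right _ h7
    exact_mod_cast h8
  calc (s / (4 * Real.exp 1)) ^ n = (s / n) ^ n * (((n:ℝ) / Real.exp 1) ^ n / 4 ^ n) := by
        rw [← div_pow, ← mul_pow]
        congr 1
        field_simp
    _ ≤ (s / n) ^ n * ((n.factorial : ℝ) / 4 ^ n) := by
        apply mul_le_mul_of_nonneg_left _ (by positivity)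
        exact div_le_div_of_nonneg_right (factorial_ge n) (by positivity)
    _ ≤ (s / n) ^ n * ((2 ^ n * ((k.factorial : ℝ) * m.factorial)) / 4 ^ n) := by
        apply mul_le_mul_of_nonneg_left _ (by positivity)
        exact div_le_div_of_nonneg_right hchoose (by positivity)
    _ = ((s / n) ^ k * ((k.factorial : ℝ) / 2 ^ k)) * ((s / n) ^ m * ((m.factorial : ℝ) / 2 ^ m)) := by
        have h4 : (4:ℝ) ^ n = 2 ^ n * (2 ^ k * 2 ^ m) := by
          rw [← pow_add, ← hm, ← mul_pow]; norm_num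
        have h5 : (s / n) ^ n = (s / n) ^ k * (s / n) ^ m := by rw [← pow_add, ← hm]
        rw [h4, h5]
        field_simp
    _ ≤ _ := by
        apply mul_le_mul b1 b2 (by positivity)
        exact (by positivity : (0:ℝ) ≤ (s / n) ^ k * ((k.factorial : ℝ) / 2 ^ k)).trans b1

/-- Weak Beurling estimate with explicit points. -/
theorem weak_beurling_core {Ω : Set ℂ} (hΩ : IsOpen Ω) {b : ℂ} {s R : ℝ} (hs : 0 < s)
    (hR : 4 * s ≤ R) {n : ℕ} (hn : 0 < n) {w : ℕ → ℂ}
    (hwb : ∀ i < n, ‖w i - b‖ ≤ 3 * s)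
    (hw1 : ∀ i < n, ∀ z ∈ Ω, |‖z - b‖ - s * (1 + i / n)| ≤ 3 * ‖z - w i‖)
    (hw2 : ∀ i < n, ∀ z ∈ Ω, s / n ≤ 3 * ‖z - w i‖)
    {f : ℂ → ℂ} (hf : DifferentiableOn ℂ f Ω) (h1 : ∀ z ∈ Ω, (f z).re ≤ 1) (E : Finset ℂ)
    (hE : ∀ e ∈ E, e ∉ Ω)
    (hb : ∀ ζ ∈ frontier Ω, ‖ζ - b‖ < R → ζ ∉ E → ∀ ε > 0, ∀ᶠ z in 𝓝[Ω] ζ, (f z).re ≤ ε)
    {z : ℂ} (hz : z ∈ Ω) (hzb : ‖z - b‖ ≤ s) : (f z).re ≤ 5 / Real.log (R / s) := by
  classical
  have hR0 : 0 < R := by linarith
  have hn' : (0:ℝ) < n := by exact_mod_cast hn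
  set c : ℝ := R / 4 with hc
  have hc0 : 0 < c := by rw [hc]; positivity
  have hcR : c ≤ R - 3 * s := by rw [hc]; linarith
  set L : ℝ := Real.log (12 * Real.exp 1 * c / s) with hL
  have hexp : (2:ℝ) ≤ Real.exp 1 := by
    have := Real.add_one_le_exp (1:ℝ)
    linarith
  have hL1 : 0 < L := by
    apply Real.log_pos
    rw [lt_div_iff₀ hs, hc]
    nlinarith
  set K : ℝ := n * L with hK
  have hK0 : 0 < K := by positivity
  set Ψ : ℂ → ℂ := fun z => Complex.exp (K * (f z - 1)) *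
    ∏ i ∈ Finset.range n, ((c : ℂ) / (z - w i)) with hΨ
  have hposw : ∀ i < n, ∀ z ∈ Ω, 0 < ‖z - w i‖ := by
    intro i hi z hz
    have := hw2 i hi z hz
    have h0 : 0 < s / n := by positivity
    linarith
  have hne : ∀ i ∈ Finset.range n, ∀ z ∈ Ω, z - w i ≠ 0 := by
    intro i hi z hz
    exact norm_pos_iff.mp (hposw i (Finset.mem_range.mp hi) z hz)
  have hnormΨ : ∀ z ∈ Ω, ‖Ψ z‖ = Real.exp (K * ((f z).re - 1)) *
      ∏ i ∈ Finset.range n, (c / ‖z - w i‖) := by
    intro z _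
    simp only [hΨ]
    rw [norm_mul, norm_exp, norm_prod]
    congr 1
    · congr 1
      simp
    · refine Finset.prod_congr rfl fun i _ => ?_
      rw [norm_div]
      congr 1
      simp [abs_of_pos hc0]
  have hprod_lb : ∀ z ∈ Ω, (s / (12 * Real.exp 1)) ^ n ≤ ∏ i ∈ Finset.range n, ‖z - w i‖ := by
    intro z hz
    have h := prod_lower hs hn (x := ‖z - b‖) (a := fun i => 3 * ‖z - w i‖)
      (fun i hi => hw1 i hi z hz) (fun i hi => hw2 i hi z hz)
    rw [Finset.prod_mul_distrib, Finset.prod_const, Finset.card_range] at h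
    have e : (s / (4 * Real.exp 1)) ^ n = 3 ^ n * (s / (12 * Real.exp 1)) ^ n := by
      rw [← mul_pow]; congr 1; field_simp; norm_num
    rw [e] at h
    exact le_of_mul_le_mul_left h (by positivity)
  have hprod_ub : ∀ z ∈ Ω, ∏ i ∈ Finset.range n, (c / ‖z - w i‖) ≤ Real.exp K := by
    intro z hz
    rw [Finset.prod_div_distrib, Finset.prod_const, Finset.card_range]
    have hpos : 0 < (s / (12 * Real.exp 1)) ^ n := by positivity
    calc c ^ n / ∏ i ∈ Finset.range n, ‖z - w i‖ ≤ c ^ n / (s / (12 * Real.exp 1)) ^ n :=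
          div_le_div_of_nonneg_left (by positivity) hpos (hprod_lb z hz)
      _ = (12 * Real.exp 1 * c / s) ^ n := by
          rw [← div_pow]; congr 1; field_simp
      _ = Real.exp K := by
          rw [hK, hL, Real.exp_nat_mul, Real.exp_log (by positivity)]
  -- local region
  set Ω' : Set ℂ := Ω ∩ ball b R with hΩ'
  have hΩ'o : IsOpen Ω' := hΩ.inter isOpen_ball
  have hΩ'b : Bornology.IsBounded Ω' := isBounded_ball.subset inter_subset_right
  have hzΩ' : z ∈ Ω' := ⟨hz, by rw [mem_ball, dist_eq_norm]; linarith⟩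
  have hΨd : DifferentiableOn ℂ Ψ Ω' := by
    have hf' := hf.mono (inter_subset_left : Ω' ⊆ Ω)
    refine DifferentiableOn.mul ?_ ?_
    · exact ((hf'.sub_const 1).const_mul _).cexp
    · refine DifferentiableOn.fun_finsetProd fun i hi => ?_
      refine DifferentiableOn.div (differentiableOn_const _) (differentiableOn_id.sub_const _) ?_
      intro z hz
      exact hne i hi z hz.1
  have hB : ∀ z ∈ Ω', ‖Ψ z‖ ≤ Real.exp K := by
    intro z hz
    rw [hnormΨ z hz.1]
    have e1 : Real.exp (K * ((f z).re - 1)) ≤ 1 := by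
      rw [Real.exp_le_one_iff]
      have := h1 z hz.1
      nlinarith
    calc _ ≤ 1 * Real.exp K := mul_le_mul e1 (hprod_ub z hz.1)
            (Finset.prod_nonneg fun i _ => by positivity) zero_le_one
      _ = _ := one_mul _
  have hfr : ∀ ζ ∈ frontier Ω', ζ ∉ E → ∀ ε > 0, ∀ᶠ z in 𝓝[Ω'] ζ, ‖Ψ z‖ ≤ 1 + ε := by
    intro ζ hζ hζE ε hε
    have hcl : ζ ∈ closure Ω' := frontier_subset_closure hζ
    have hclR : ‖ζ - b‖ ≤ R := by
      have : ζ ∈ closedBall b R := closure_ball_subset_closedBall (closure_mono inter_subset_right hcl)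
      rwa [mem_closedBall, dist_eq_norm] at this
    rcases lt_or_eq_of_le hclR with hlt | heq
    · -- boundary point of Ω inside the ball
      have hζΩ : ζ ∈ frontier Ω := by
        rw [hΩ.frontier_eq]
        refine ⟨closure_mono inter_subset_left hcl, fun hin => ?_⟩
        rw [hΩ'o.frontier_eq] at hζ
        exact hζ.2 ⟨hin, by rw [mem_ball, dist_eq_norm]; exact hlt⟩
      obtain ⟨ε', hε', hεe⟩ : ∃ ε' > 0, Real.exp (K * ε') ≤ 1 + ε := by
        refine ⟨Real.log (1 + ε) / K, by have := Real.log_pos (by linarith : 1 < 1 + ε); positivity, ?_⟩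
        rw [mul_div_cancel₀ _ hK0.ne', Real.exp_log (by linarith)]
      have hev := hb ζ hζΩ hlt hζE ε' hε'
      have hev' : ∀ᶠ z in 𝓝[Ω'] ζ, (f z).re ≤ ε' :=
        hev.filter_mono (nhdsWithin_mono _ inter_subset_left)
      filter_upwards [hev', self_mem_nhdsWithin] with z hz1 hz2
      rw [hnormΨ z hz2.1]
      calc _ ≤ Real.exp (K * (ε' - 1)) * Real.exp K := by
            apply mul_le_mul _ (hprod_ub z hz2.1)
              (Finset.prod_nonneg fun i _ => by positivity) (Real.exp_pos _).le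
            apply Real.exp_le_exp.mpr
            nlinarith
        _ = Real.exp (K * ε') := by rw [← Real.exp_add]; congr 1; ring
        _ ≤ _ := hεe
    · -- outer circle
      have hcont : Tendsto (fun z : ℂ => (c / (‖z - b‖ - 3 * s)) ^ n) (𝓝[Ω'] ζ)
          (𝓝 ((c / (R - 3 * s)) ^ n)) := by
        have h0 : Tendsto (fun z : ℂ => ‖z - b‖ - 3 * s) (𝓝[Ω'] ζ) (𝓝 (R - 3 * s)) := by
          rw [← heq]
          have : Continuous fun z : ℂ => ‖z - b‖ - 3 * s := by fun_prop
          exact (this.tendsto ζ).mono_left nhdsWithin_le_nhds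
        exact ((tendsto_const_nhds.div h0 (by linarith)).pow n)
      have hle : (c / (R - 3 * s)) ^ n ≤ 1 := by
        apply pow_le_one₀ (by apply div_nonneg hc0.le; linarith)
        rw [div_le_one (by linarith)]
        exact hcR
      have hev := hcont.eventually (gt_mem_nhds (by linarith : (c / (R - 3 * s)) ^ n < 1 + ε))
      have hev2 : ∀ᶠ z in 𝓝[Ω'] ζ, 3 * s < ‖z - b‖ := by
        have : Continuous fun z : ℂ => ‖z - b‖ := by fun_prop
        exact ((this.tendsto ζ).mono_left nhdsWithin_le_nhds).eventually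
          (lt_mem_nhds (by rw [heq]; linarith))
      filter_upwards [hev, hev2, self_mem_nhdsWithin] with z hz1 hz2 hz3
      rw [hnormΨ z hz3.1]
      have e1 : Real.exp (K * ((f z).re - 1)) ≤ 1 := by
        rw [Real.exp_le_one_iff]
        have := h1 z hz3.1
        nlinarith
      have e2 : ∏ i ∈ Finset.range n, (c / ‖z - w i‖) ≤ (c / (‖z - b‖ - 3 * s)) ^ n := by
        rw [← Finset.card_range n, ← Finset.prod_const, Finset.card_range]
        refine Finset.prod_le_prod (fun i _ => by positivity) fun i hi => ?_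
        have h3 := hwb i (Finset.mem_range.mp hi)
        have h4 : ‖z - b‖ ≤ ‖z - w i‖ + ‖w i - b‖ := by
          have := norm_add_le (z - w i) (w i - b); simpa using this
        apply div_le_div_of_nonneg_left hc0.le (by linarith) (by linarith)
      calc _ ≤ 1 * (c / (‖z - b‖ - 3 * s)) ^ n :=
            mul_le_mul e1 e2 (Finset.prod_nonneg fun i _ => by positivity) zero_le_one
        _ ≤ _ := by rw [one_mul]; exact hz1.le
  have hfin := max_lim_fin hΩ'o hΩ'b hΨd hB E (fun e he h => hE e he h.1) hfr hzΩ'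
  rw [hnormΨ z hz] at hfin
  -- evaluate at z
  have hlow : (c / (4 * s)) ^ n ≤ ∏ i ∈ Finset.range n, (c / ‖z - w i‖) := by
    rw [← Finset.card_range n, ← Finset.prod_const, Finset.card_range]
    refine Finset.prod_le_prod (fun i _ => by positivity) fun i hi => ?_
    have h3 := hwb i (Finset.mem_range.mp hi)
    have h4 : ‖z - w i‖ ≤ ‖z - b‖ + ‖w i - b‖ := by
      have := norm_sub_le (z - b) (w i - b); simpa using this
    have h5 : 0 < ‖z - w i‖ := norm_pos_iff.mpr (hne i hi z hz)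
    apply div_le_div_of_nonneg_left hc0.le h5 (by linarith)
  set l3 : ℝ := Real.log (c / (4 * s)) with hl3
  have hlow' : Real.exp (n * l3) ≤ ∏ i ∈ Finset.range n, (c / ‖z - w i‖) := by
    rw [Real.exp_nat_mul, hl3, Real.exp_log (by positivity)]
    exact hlow
  have h6 : Real.exp (K * ((f z).re - 1)) * Real.exp (n * l3) ≤ 1 :=
    (mul_le_mul_of_nonneg_left hlow' (Real.exp_pos _).le).trans hfin
  rw [← Real.exp_add, Real.exp_le_one_iff] at h6
  have h7 : L * ((f z).re - 1) + l3 ≤ 0 := by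
    have : (n:ℝ) * (L * ((f z).re - 1) + l3) ≤ 0 := by
      calc (n:ℝ) * (L * ((f z).re - 1) + l3) = K * ((f z).re - 1) + n * l3 := by rw [hK]; ring
        _ ≤ 0 := h6
    by_contra hcon
    push Not at hcon
    have := mul_pos hn' hcon
    linarith
  -- L - l3 = log (48 e)
  have h8 : L - l3 = Real.log (48 * Real.exp 1) := by
    rw [hL, hl3, ← Real.log_div (by positivity) (by positivity)]
    congr 1
    field_simp
    ring
  have h9 : Real.log (48 * Real.exp 1) ≤ 5 := by
    rw [Real.log_mul (by norm_num) (by positivity), Real.log_exp]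
    have : Real.log 48 ≤ 4 := by
      rw [Real.log_le_iff_le_exp (by norm_num)]
      have h3 : Real.exp 4 = Real.exp 1 ^ 4 := by rw [← Real.exp_nat_mul]; norm_num
      rw [h3]
      have := Real.exp_one_gt_d9
      have h4 : (2.7:ℝ) ^ 4 ≤ Real.exp 1 ^ 4 := pow_le_pow_left₀ (by norm_num) (by linarith) 4
      norm_num at h4
      linarith
    linarith
  have h10 : Real.log (R / s) ≤ L := by
    apply Real.log_le_log (by positivity)
    rw [div_le_div_iff_of_pos_right hs, hc]
    nlinarith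
  have h11 : 0 < Real.log (R / s) := by
    apply Real.log_pos
    rw [lt_div_iff₀ hs]; linarith
  rw [le_div_iff₀ h11]
  rcases le_total ((f z).re) 0 with h0 | h0
  · nlinarith
  · have : (f z).re * L ≤ 5 := by nlinarith
    nlinarith

/-- exterior cone condition (satisfied by interiors of unions of square cells) -/
def Cone (Ω : Set ℂ) : Prop :=
  ∃ m > 0, ∀ w, w ∉ Ω → ∃ q : ℂ, ‖q - w‖ ≤ m ∧
    ∀ t ∈ Ioc (0:ℝ) 1, ∀ z ∈ Ω, t * m / 2 ≤ ‖z - (w + (t:ℂ) * (q - w))‖

/-- **Weak Beurling estimate**: every circle of radius in `[s,2s]` around `b` meets the complement. -/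
theorem weak_beurling {Ω : Set ℂ} (hΩ : IsOpen Ω) (hcone : Cone Ω) {b : ℂ} {s R : ℝ} (hs : 0 < s)
    (hR : 4 * s ≤ R)
    (hw : ∀ ρ ∈ Icc s (2 * s), ∃ w : ℂ, ‖w - b‖ = ρ ∧ w ∉ Ω)
    {f : ℂ → ℂ} (hf : DifferentiableOn ℂ f Ω) (h1 : ∀ z ∈ Ω, (f z).re ≤ 1) (E : Finset ℂ)
    (hE : ∀ e ∈ E, e ∉ Ω)
    (hb : ∀ ζ ∈ frontier Ω, ‖ζ - b‖ < R → ζ ∉ E → ∀ ε > 0, ∀ᶠ z in 𝓝[Ω] ζ, (f z).re ≤ ε)
    {z : ℂ} (hz : z ∈ Ω) (hzb : ‖z - b‖ ≤ s) : (f z).re ≤ 5 / Real.log (R / s) := by
  classical
  obtain ⟨m, hm, hcone⟩ := hcone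
  obtain ⟨n, hn2, hnm⟩ : ∃ n : ℕ, 2 ≤ n ∧ 2 * s / n ≤ m := by
    obtain ⟨n, hn⟩ := exists_nat_gt (2 * s / m)
    refine ⟨n + 2, by omega, ?_⟩
    rw [div_le_iff₀ (by positivity)]
    rw [div_lt_iff₀ hm] at hn
    push_cast
    nlinarith
  have hn : 0 < n := by omega
  have hn' : (0:ℝ) < n := by exact_mod_cast hn
  have hn2' : (2:ℝ) ≤ n := by exact_mod_cast hn2
  set t : ℝ := 2 * s / n / m with ht
  have ht0 : 0 < t := by positivity
  have ht1 : t ≤ 1 := by rw [ht, div_le_one hm]; exact hnm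
  have htm : t * m = 2 * s / n := by rw [ht]; field_simp
  have hpt : ∀ i : ℕ, ∃ w' : ℂ, i < n → (∃ w : ℂ, ‖w - b‖ = s * (1 + i / n) ∧ ‖w' - w‖ ≤ 2 * s / n) ∧
      ∀ z ∈ Ω, s / n ≤ ‖z - w'‖ := by
    intro i
    by_cases hi : i < n
    · have hin : (i:ℝ) / n ≤ 1 := by
        rw [div_le_one hn']; exact_mod_cast hi.le
      have hin0 : (0:ℝ) ≤ (i:ℝ) / n := by positivity
      obtain ⟨w, hw1, hw2⟩ := hw (s * (1 + i / n)) ⟨by nlinarith, by nlinarith⟩
      obtain ⟨q, hq1, hq2⟩ := hcone w hw2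
      refine ⟨w + (t:ℂ) * (q - w), fun _ => ⟨⟨w, hw1, ?_⟩, ?_⟩⟩
      · have e : w + (t:ℂ) * (q - w) - w = (t:ℂ) * (q - w) := by ring
        rw [e, norm_mul, Complex.norm_real, Real.norm_eq_abs, abs_of_pos ht0, ← htm]
        exact mul_le_mul_of_nonneg_left hq1 ht0.le
      · intro z hz
        have := hq2 t ⟨ht0, ht1⟩ z hz
        rw [htm] at this
        have e : 2 * s / n / 2 = s / n := by field_simp
        rw [e] at this
        exact this
    · exact ⟨0, fun h => absurd h hi⟩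
  choose w hw' using hpt
  have hsn : s / n ≤ s / 2 := div_le_div_of_nonneg_left hs.le (by norm_num) hn2'
  have e2 : 2 * s / n = 2 * (s / n) := by ring
  have hsn0 : 0 < s / n := by positivity
  refine weak_beurling_core hΩ hs hR hn (w := w) ?_ ?_ ?_ hf h1 E hE hb hz hzb
  · intro i hi
    obtain ⟨⟨u, hu1, hu2⟩, -⟩ := hw' i hi
    have hin : (i:ℝ) / n ≤ 1 - 1 / n := by
      rw [le_sub_iff_add_le, ← add_div, div_le_one hn']
      have : (i:ℝ) + 1 ≤ n := by exact_mod_cast hi
      linarith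
    have h3 : ‖w i - b‖ ≤ ‖w i - u‖ + ‖u - b‖ := by
      have := norm_add_le (w i - u) (u - b); simpa using this
    rw [hu1] at h3
    have h4 : s * (1 + (i:ℝ) / n) ≤ s * (1 + (1 - 1 / n)) :=
      mul_le_mul_of_nonneg_left (by linarith) hs.le
    have h5 : s * (1 + (1 - 1 / (n:ℝ))) = 2 * s - s / n := by ring
    rw [e2] at hu2
    linarith
  · intro i hi z hz
    obtain ⟨⟨u, hu1, hu2⟩, h3⟩ := hw' i hi
    have h4 := h3 z hz
    have h5 : |‖z - b‖ - ‖u - b‖| ≤ ‖z - u‖ := by
      have := abs_norm_sub_norm_le (z - b) (u - b); simpa using this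
    have h6 : ‖z - u‖ ≤ ‖z - w i‖ + ‖w i - u‖ := by
      have := norm_add_le (z - w i) (w i - u); simpa using this
    rw [hu1] at h5
    rw [e2] at hu2
    linarith
  · intro i hi z hz
    obtain ⟨-, h3⟩ := hw' i hi
    have := h3 z hz
    linarith

end Crest.Agent.R158.Wl290
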