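import Crest.Agent.R158.Sp4_896
import Crest.Agent.R158.Wb1_290

/-!
R158, Lean architect of S0237 (helper656), J2 part 1: geometry of the interior of a finite union of
grid cells: `mem_om`, `compl_om`, `om_compl_preconn`, `om_cone`, `om_frontier`.
-/

set_option autoImplicit false

namespace Crest.Agent.R158.Tj656

open Filter Topology Set Metric
open Complex (I)
open Crest.Agent.R158.Sp896

noncomputable section

/-- the open region of the cells `F` at scale `s` -/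
def Om (s : ℝ) (F : Set V) : Set ℂ := interior (⋃ q ∈ F, sq s q)

theorem om_open (s : ℝ) (F : Set V) : IsOpen (Om s F) := isOpen_interior

/-- centre of a cell -/
def cen (s : ℝ) (q : V) : ℂ := ⟨s * (q.1 + 1 / 2), s * (q.2 + 1 / 2)⟩

theorem lin_re (z c : ℂ) (t : ℝ) : (z + (t : ℂ) * (c - z)).re = z.re + t * (c.re - z.re) := by
  simp

theorem lin_im (z c : ℂ) (t : ℝ) : (z + (t : ℂ) * (c - z)).im = z.im + t * (c.im - z.im) := by
  simp

/-- points on the way to the centre are strictly inside, at distance `t s / 2` -/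
theorem strict_in {s : ℝ} {q : V} {z : ℂ} (hz : z ∈ sq s q) {t : ℝ} (ht1 : t ≤ 1) :
    s * q.1 + t * s / 2 ≤ (z + (t : ℂ) * (cen s q - z)).re ∧
    (z + (t : ℂ) * (cen s q - z)).re ≤ s * (q.1 + 1) - t * s / 2 ∧
    s * q.2 + t * s / 2 ≤ (z + (t : ℂ) * (cen s q - z)).im ∧
    (z + (t : ℂ) * (cen s q - z)).im ≤ s * (q.2 + 1) - t * s / 2 := by
  obtain ⟨h1, h2, h3, h4⟩ := hz
  rw [lin_re, lin_im]
  simp only [cen]
  refine ⟨?_, ?_, ?_, ?_⟩ <;> nlinarith

theorem cell_unique {s : ℝ} (hs : 0 < s) {q q' : V} {z : ℂ}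
    (h1 : s * q.1 < z.re) (h2 : z.re < s * (q.1 + 1)) (h3 : s * q.2 < z.im)
    (h4 : z.im < s * (q.2 + 1)) (hz : z ∈ sq s q') : q' = q := by
  obtain ⟨k1, k2, k3, k4⟩ := hz
  have a1 : (q'.1 : ℝ) < q.1 + 1 := by
    have : s * (q'.1 : ℝ) < s * (q.1 + 1) := by linarith
    exact lt_of_mul_lt_mul_left this hs.le
  have a2 : (q.1 : ℝ) < q'.1 + 1 := by
    have : s * (q.1 : ℝ) < s * (q'.1 + 1) := by linarith
    exact lt_of_mul_lt_mul_left this hs.le
  have a3 : (q'.2 : ℝ) < q.2 + 1 := by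
    have : s * (q'.2 : ℝ) < s * (q.2 + 1) := by linarith
    exact lt_of_mul_lt_mul_left this hs.le
  have a4 : (q.2 : ℝ) < q'.2 + 1 := by
    have : s * (q.2 : ℝ) < s * (q'.2 + 1) := by linarith
    exact lt_of_mul_lt_mul_left this hs.le
  have b1 : q'.1 < q.1 + 1 := by exact_mod_cast a1
  have b2 : q.1 < q'.1 + 1 := by exact_mod_cast a2
  have b3 : q'.2 < q.2 + 1 := by exact_mod_cast a3
  have b4 : q.2 < q'.2 + 1 := by exact_mod_cast a4
  ext <;> omega

theorem mem_om {s : ℝ} (hs : 0 < s) {F : Set V} {z : ℂ} :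
    z ∈ Om s F ↔ ∀ q : V, z ∈ sq s q → q ∈ F := by
  constructor
  · intro hz q hq
    have hcont : Tendsto (fun t : ℝ => z + (t : ℂ) * (cen s q - z)) (𝓝[>] 0) (𝓝 z) := by
      have hc : Continuous (fun t : ℝ => z + (t : ℂ) * (cen s q - z)) := by fun_prop
      have h0 := hc.tendsto 0
      simp only [Complex.ofReal_zero, zero_mul, add_zero] at h0
      exact h0.mono_left nhdsWithin_le_nhds
    have hnb : (⋃ q ∈ F, sq s q) ∈ 𝓝 z := mem_interior_iff_mem_nhds.mp hz
    have h1 : ∀ᶠ t : ℝ in 𝓝[>] 0, z + (t : ℂ) * (cen s q - z) ∈ ⋃ q ∈ F, sq s q :=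
      hcont.eventually_mem hnb
    have h2 : ∀ᶠ t : ℝ in 𝓝[>] 0, 0 < t ∧ t ≤ 1 := by
      have e1 : ∀ᶠ t : ℝ in 𝓝[>] 0, 0 < t := self_mem_nhdsWithin
      have e2 : ∀ᶠ t : ℝ in 𝓝[>] 0, t < 1 := mem_nhdsWithin_of_mem_nhds (Iio_mem_nhds one_pos)
      filter_upwards [e1, e2] with t a b using ⟨a, b.le⟩
    obtain ⟨t, ht, ht0, ht1⟩ := (h1.and h2).exists
    rw [mem_iUnion₂] at ht
    obtain ⟨q', hq'F, hq'⟩ := ht
    obtain ⟨b1, b2, b3, b4⟩ := strict_in hq ht1
    have hts : 0 < t * s / 2 := by positivity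
    have := cell_unique hs (q := q) (q' := q') (by linarith) (by linarith) (by linarith)
      (by linarith) hq'
    rw [← this]; exact hq'F
  · exact fun h => mem_interior_cells hs h

theorem compl_om {s : ℝ} (hs : 0 < s) (F : Set V) : (Om s F)ᶜ = ⋃ q ∈ Fᶜ, sq s q := by
  ext z
  rw [mem_compl_iff, mem_om hs, mem_iUnion₂]
  push Not
  constructor
  · rintro ⟨q, h1, h2⟩; exact ⟨q, h2, h1⟩
  · rintro ⟨q, h1, h2⟩; exact ⟨q, h2, h1⟩

theorem not_mem_om {s : ℝ} (hs : 0 < s) {F : Set V} {q : V} (hq : q ∉ F) {z : ℂ}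
    (hz : z ∈ sq s q) : z ∉ Om s F := fun h => hq ((mem_om hs).mp h q hz)

theorem om_bdd {s : ℝ} {F : Set V} (hF : F.Finite) : Bornology.IsBounded (Om s F) := by
  refine Bornology.IsBounded.subset ?_ interior_subset
  refine (Bornology.isBounded_biUnion hF).mpr (fun q _ => ?_)
  rw [Metric.isBounded_iff]
  exact ⟨2 * s, fun z hz w hw => by rw [dist_eq_norm]; exact sq_dist hz hw⟩

/-- union of the cells of an edge connected set of cells is preconnected -/
theorem cells_preconn {s : ℝ} (hs : 0 < s) {S : Set V} (h : ∀ q ∈ S, ∀ q' ∈ S, Con S q q') :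
    IsPreconnected (⋃ q ∈ S, sq s q) := by
  refine IsPreconnected.biUnion_of_reflTransGen (fun q _ => (convex_sq s q).isPreconnected) ?_
  intro q hq q' hq'
  have hc := h q hq q' hq'
  have key : Relation.ReflTransGen (fun i j => (sq s i ∩ sq s j).Nonempty ∧ i ∈ S) q q' ∧ q' ∈ S := by
    induction hc with
    | refl => exact ⟨.refl, hq⟩
    | tail h1 h2 ih =>
        obtain ⟨i1, i2⟩ := ih (Con.mem h1 hq)
        obtain ⟨p, hp1, hp2⟩ := adj_common hs h2.1
        exact ⟨i1.tail ⟨⟨p, hp1, hp2⟩, i2⟩, h2.2⟩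
  exact key.1

theorem om_compl_preconn {s : ℝ} (hs : 0 < s) {F : Set V}
    (h : ∀ q ∈ Fᶜ, ∀ q' ∈ Fᶜ, Con Fᶜ q q') : IsPreconnected (Om s F)ᶜ := by
  rw [compl_om hs]; exact cells_preconn hs h

theorem om_cone {s : ℝ} (hs : 0 < s) (F : Set V) : Crest.Agent.R158.Wl290.Cone (Om s F) := by
  refine ⟨s, hs, fun w hw => ?_⟩
  have hw' : w ∈ (Om s F)ᶜ := hw
  rw [compl_om hs, mem_iUnion₂] at hw'
  obtain ⟨q, hq, hwq⟩ := hw'
  refine ⟨cen s q, ?_, ?_⟩
  · obtain ⟨h1, h2, h3, h4⟩ := hwq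
    have hre : |(cen s q - w).re| ≤ s / 2 := by
      rw [Complex.sub_re, abs_le]; simp only [cen]; constructor <;> linarith
    have him : |(cen s q - w).im| ≤ s / 2 := by
      rw [Complex.sub_im, abs_le]; simp only [cen]; constructor <;> linarith
    have := Complex.norm_le_abs_re_add_abs_im (cen s q - w)
    linarith
  · intro t ht z hz
    by_contra hcon
    push Not at hcon
    obtain ⟨b1, b2, b3, b4⟩ := strict_in hwq ht.2
    set y := w + (t : ℂ) * (cen s q - w) with hy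
    have hre := (Complex.abs_re_le_norm (z - y)).trans_lt hcon
    have him := (Complex.abs_im_le_norm (z - y)).trans_lt hcon
    rw [Complex.sub_re, abs_lt] at hre
    rw [Complex.sub_im, abs_lt] at him
    have hzq : z ∈ sq s q := by
      refine ⟨?_, ?_, ?_, ?_⟩ <;> linarith [hre.1, hre.2, him.1, him.2]
    exact not_mem_om hs hq hzq hz

end

end Crest.Agent.R158.Tj656
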