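import Crest.Agent.R158.Tj2_656

/-!
R158, Lean architect of S0237 (helper656), J2 part 3: `geoOf` : a sequence of polygons with
`PolyOK γ (e k) (s k) (P k)`, `e k → 0`, gives 290's `Geo γ`.
-/

set_option autoImplicit false

namespace Crest.Agent.R158.Tj656

open Filter Topology Set Metric MeasureTheory
open Complex (I)
open Crest.Agent.R158.Sp896
open Crest.Agent.R158.Wl290 (CSr sg Geo Cone)
open Crest.ProbabilityR.Percolation

noncomputable section

theorem pt_smul (s : ℝ) (a : V) : pt s a = (s : ℂ) * pt 1 a := by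
  apply Complex.ext <;> simp [pt]

theorem pt_re (s : ℝ) (a : V) : (pt s a).re = s * a.1 := rfl
theorem pt_im (s : ℝ) (a : V) : (pt s a).im = s * a.2 := rfl

/-- the two cells of a step meet in its edge -/
theorem both_mem {s : ℝ} (hs : 0 < s) {a b : V} (h : Adj a b) {z : ℂ} (h1 : z ∈ sq s (lc a b))
    (h2 : z ∈ sq s (rc a b)) : ∃ t : ℝ, 0 ≤ t ∧ t ≤ 1 ∧ z = pt s a + (t : ℂ) * (pt s b - pt s a) := by
  obtain ⟨b1, b2⟩ := b
  rcases h with ⟨e1, e2⟩ | ⟨e1, e2⟩ | ⟨e1, e2⟩ | ⟨e1, e2⟩ <;> simp only at e1 e2 <;> subst e1 e2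
  · have l1 : lc a (a.1 + 1, a.2) = (a.1, a.2) := by unfold lc; ext <;> simp only <;> omega
    have l2 : rc a (a.1 + 1, a.2) = (a.1, a.2 - 1) := by unfold rc; ext <;> simp only <;> omega
    rw [l1] at h1; rw [l2] at h2
    obtain ⟨p1, p2, p3, p4⟩ := h1
    obtain ⟨q1, q2, q3, q4⟩ := h2
    push_cast at q3 q4
    refine ⟨(z.re - s * a.1) / s, by apply div_nonneg <;> linarith,
      by rw [div_le_one hs]; linarith, ?_⟩
    apply Complex.ext
    · rw [Complex.add_re, Complex.re_ofReal_mul, Complex.sub_re, pt_re, pt_re]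
      push_cast
      field_simp
      ring
    · rw [Complex.add_im, Complex.im_ofReal_mul, Complex.sub_im, pt_im, pt_im]
      have : z.im = s * a.2 := by linarith
      rw [this]; ring
  · have l1 : lc a (a.1 - 1, a.2) = (a.1 - 1, a.2 - 1) := by unfold lc; ext <;> simp only <;> omega
    have l2 : rc a (a.1 - 1, a.2) = (a.1 - 1, a.2) := by unfold rc; ext <;> simp only <;> omega
    rw [l1] at h1; rw [l2] at h2
    obtain ⟨p1, p2, p3, p4⟩ := h1
    obtain ⟨q1, q2, q3, q4⟩ := h2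
    push_cast at p1 p2 p3 p4 q1 q2
    refine ⟨(s * a.1 - z.re) / s, by apply div_nonneg <;> linarith,
      by rw [div_le_one hs]; linarith, ?_⟩
    apply Complex.ext
    · rw [Complex.add_re, Complex.re_ofReal_mul, Complex.sub_re, pt_re, pt_re]
      push_cast
      field_simp
      ring
    · rw [Complex.add_im, Complex.im_ofReal_mul, Complex.sub_im, pt_im, pt_im]
      have : z.im = s * a.2 := by linarith
      rw [this]; ring
  · have l1 : lc a (a.1, a.2 + 1) = (a.1 - 1, a.2) := by unfold lc; ext <;> simp only <;> omega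
    have l2 : rc a (a.1, a.2 + 1) = (a.1, a.2) := by unfold rc; ext <;> simp only <;> omega
    rw [l1] at h1; rw [l2] at h2
    obtain ⟨p1, p2, p3, p4⟩ := h1
    obtain ⟨q1, q2, q3, q4⟩ := h2
    push_cast at p1 p2
    refine ⟨(z.im - s * a.2) / s, by apply div_nonneg <;> linarith,
      by rw [div_le_one hs]; linarith, ?_⟩
    apply Complex.ext
    · rw [Complex.add_re, Complex.re_ofReal_mul, Complex.sub_re, pt_re, pt_re]
      have : z.re = s * a.1 := by linarith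
      rw [this]; ring
    · rw [Complex.add_im, Complex.im_ofReal_mul, Complex.sub_im, pt_im, pt_im]
      push_cast
      field_simp
      ring
  · have l1 : lc a (a.1, a.2 - 1) = (a.1, a.2 - 1) := by unfold lc; ext <;> simp only <;> omega
    have l2 : rc a (a.1, a.2 - 1) = (a.1 - 1, a.2 - 1) := by unfold rc; ext <;> simp only <;> omega
    rw [l1] at h1; rw [l2] at h2
    obtain ⟨p1, p2, p3, p4⟩ := h1
    obtain ⟨q1, q2, q3, q4⟩ := h2
    push_cast at p3 p4 q1 q2 q3 q4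
    refine ⟨(s * a.2 - z.im) / s, by apply div_nonneg <;> linarith,
      by rw [div_le_one hs]; linarith, ?_⟩
    apply Complex.ext
    · rw [Complex.add_re, Complex.re_ofReal_mul, Complex.sub_re, pt_re, pt_re]
      have : z.re = s * a.1 := by linarith
      rw [this]; ring
    · rw [Complex.add_im, Complex.im_ofReal_mul, Complex.sub_im, pt_im, pt_im]
      push_cast
      field_simp
      ring

/-- two cells containing the same point are neighbours (also diagonally) -/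
theorem cell_close {s : ℝ} (hs : 0 < s) {q q' : V} {z : ℂ} (h : z ∈ sq s q) (h' : z ∈ sq s q') :
    (q.1 - q'.1 = 0 ∨ q.1 - q'.1 = 1 ∨ q.1 - q'.1 = -1) ∧
    (q.2 - q'.2 = 0 ∨ q.2 - q'.2 = 1 ∨ q.2 - q'.2 = -1) := by
  obtain ⟨p1, p2, p3, p4⟩ := h
  obtain ⟨q1, q2, q3, q4⟩ := h'
  have a1 : (q.1 : ℝ) ≤ q'.1 + 1 := le_of_mul_le_mul_left (by linarith) hs
  have a2 : (q'.1 : ℝ) ≤ q.1 + 1 := le_of_mul_le_mul_left (by linarith) hs
  have a3 : (q.2 : ℝ) ≤ q'.2 + 1 := le_of_mul_le_mul_left (by linarith) hs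
  have a4 : (q'.2 : ℝ) ≤ q.2 + 1 := le_of_mul_le_mul_left (by linarith) hs
  have b1 : q.1 ≤ q'.1 + 1 := by exact_mod_cast a1
  have b2 : q'.1 ≤ q.1 + 1 := by exact_mod_cast a2
  have b3 : q.2 ≤ q'.2 + 1 := by exact_mod_cast a3
  have b4 : q'.2 ≤ q.2 + 1 := by exact_mod_cast a4
  omega

/-- the boundary of the region consists of boundary edges -/
theorem om_frontier {s : ℝ} (hs : 0 < s) {F : Set V} (hF : F.Finite) {N : ℕ} {v : ℕ → V}
    (hc : Cyc F N v) {z : ℂ} (hz : z ∈ frontier (Om s F)) :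
    ∃ m < N, ∃ t : ℝ, 0 ≤ t ∧ t ≤ 1 ∧ z = pt s (v m) + (t : ℂ) * (pt s (v (m + 1)) - pt s (v m)) := by
  have hcl : IsClosed (⋃ q ∈ F, sq s q) := hF.isClosed_biUnion fun q _ => isClosed_sq s q
  have h1 : z ∈ ⋃ q ∈ F, sq s q := by
    have : closure (Om s F) ⊆ ⋃ q ∈ F, sq s q := closure_minimal interior_subset hcl
    exact this hz.1
  have h2 : z ∉ Om s F := by
    have := hz.2
    rwa [(om_open s F).interior_eq] at this
  rw [mem_iUnion₂] at h1
  obtain ⟨q', hq'F, hq'⟩ := h1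
  rw [mem_om hs] at h2
  push Not at h2
  obtain ⟨q, hq, hqF⟩ := h2
  -- middle cell
  obtain ⟨c1, c2⟩ := cell_close hs hq hq'
  have hmid : z ∈ sq s (q'.1, q.2) := ⟨hq'.1, hq'.2.1, hq.2.2.1, hq.2.2.2⟩
  have key : ∃ a b : V, Adj a b ∧ a ∈ F ∧ b ∉ F ∧ z ∈ sq s a ∧ z ∈ sq s b := by
    by_cases hm : ((q'.1, q.2) : V) ∈ F
    · refine ⟨(q'.1, q.2), q, ?_, hm, hqF, hmid, hq⟩
      have hne : q ≠ (q'.1, q.2) := fun h => hqF (h ▸ hm)
      have : q.1 ≠ q'.1 := by
        intro h; apply hne; ext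
        · exact h
        · rfl
      show (q.1 = q'.1 + 1 ∧ q.2 = q.2) ∨ (q.1 = q'.1 - 1 ∧ q.2 = q.2) ∨
        (q.1 = q'.1 ∧ q.2 = q.2 + 1) ∨ (q.1 = q'.1 ∧ q.2 = q.2 - 1)
      omega
    · refine ⟨q', (q'.1, q.2), ?_, hq'F, hm, hq', hmid⟩
      have hne : q' ≠ (q'.1, q.2) := fun h => hm (h ▸ hq'F)
      have : q.2 ≠ q'.2 := by
        intro h; apply hne; ext
        · rfl
        · exact h.symm
      show (q'.1 = q'.1 + 1 ∧ q.2 = q'.2) ∨ (q'.1 = q'.1 - 1 ∧ q.2 = q'.2) ∨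
        (q'.1 = q'.1 ∧ q.2 = q'.2 + 1) ∨ (q'.1 = q'.1 ∧ q.2 = q'.2 - 1)
      omega
  obtain ⟨a, b, hab, haF, hbF, hza, hzb⟩ := key
  obtain ⟨x, y, hxy, e1, e2⟩ := exists_dart hab
  obtain ⟨m, hm, e3, e4⟩ := hc.all x y hxy (by rw [e1]; exact haF) (by rw [e2]; exact hbF)
  obtain ⟨t, t0, t1, ht⟩ := both_mem hs hxy (z := z) (by rw [e1]; exact hza) (by rw [e2]; exact hzb)
  exact ⟨m, hm, t, t0, t1, by rw [e3, e4]; exact ht⟩

theorem ept_smul (s : ℝ) (v : ℕ → V) (m : ℕ) (t : ℝ) :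
    (s : ℂ) * ept v m t = pt s (v m) + (t : ℂ) * (pt s (v (m + 1)) - pt s (v m)) := by
  rw [ept, pt_smul s (v m), pt_smul s (v (m + 1))]; ring

theorem ept_zero (v : ℕ → V) (m : ℕ) : ept v m 0 = pt 1 (v m) := by simp [ept]
theorem ept_one (v : ℕ → V) (m : ℕ) : ept v m 1 = pt 1 (v (m + 1)) := by simp [ept]

/-- boundary points are not in the region -/
theorem ept_not_mem (P : P4) {s : ℝ} (hs : 0 < s) (m : ℕ) {t : ℝ} (h0 : 0 ≤ t) (h1 : t ≤ 1) :
    (s : ℂ) * ept P.v m t ∉ Om s (↑P.F) := by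
  have hst := P.cyc.step m
  have h2 := P.cyc.right m
  refine not_mem_om hs h2 ?_
  rw [ept_smul]
  have := (convex_sq s (rc (P.v m) (P.v (m + 1)))).add_smul_sub_mem (pt_mem hs hst).2.2.1
    (pt_mem hs hst).2.2.2 (t := t) ⟨h0, h1⟩
  simpa using this

theorem P4.class (P : P4) {m : ℕ} (hm : m < P.N) {t : ℝ} (h0 : 0 ≤ t) (h1 : t ≤ 1)
    (hE : ept P.v m t ∉ P.Ex) : ∃ j, ept P.v m t ∈ P.hA j := by
  have a1 := P.h1; have a2 := P.h2; have a3 := P.h3; have a4 := P.h4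
  have t0 : t ≠ 0 := by
    rintro rfl
    apply hE
    rw [ept_zero, P4.Ex, Finset.mem_union, Finset.mem_image]
    exact Or.inl ⟨m, Finset.mem_range.mpr hm, rfl⟩
  have t1 : t ≠ 1 := by
    rintro rfl
    apply hE
    rw [ept_one, P4.Ex, Finset.mem_union, Finset.mem_image]
    left
    rcases eq_or_lt_of_le (show m + 1 ≤ P.N by omega) with h | h
    · refine ⟨0, Finset.mem_range.mpr (by omega), ?_⟩
      rw [h]
      have := P.cyc.per 0
      rw [zero_add] at this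
      rw [this]
    · exact ⟨m + 1, Finset.mem_range.mpr h, rfl⟩
  have b0 : 0 < t := lt_of_le_of_ne h0 (Ne.symm t0)
  have b1 : t < 1 := lt_of_le_of_ne h1 t1
  have hmark : ∀ m', (m' = 0 ∨ m' = P.mb ∨ m' = P.mc ∨ m' = P.md) → m = m' → t ≠ 1 / 2 := by
    rintro m' hm' rfl rfl
    apply hE
    rw [P4.Ex, Finset.mem_union]
    right
    simp only [Finset.mem_insert, Finset.mem_singleton]
    rcases hm' with h | h | h | h <;> rw [h] <;> simp
  have fin : ∀ j, P.on j m t → ∃ j, ept P.v m t ∈ P.hA j := fun j hj => ⟨j, m, t, b0, b1, hj, rfl⟩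
  have n10 : (1 : Fin 4) ≠ 0 := by decide
  have n20 : (2 : Fin 4) ≠ 0 := by decide
  have n21 : (2 : Fin 4) ≠ 1 := by decide
  have n30 : (3 : Fin 4) ≠ 0 := by decide
  have n31 : (3 : Fin 4) ≠ 1 := by decide
  have n32 : (3 : Fin 4) ≠ 2 := by decide
  by_cases c0 : m = 0
  · rcases lt_or_gt_of_ne (hmark 0 (Or.inl rfl) c0) with h | h
    · exact fin 3 (by unfold P4.on; rw [if_neg n30, if_neg n31, if_neg n32]; exact Or.inr (Or.inr ⟨c0, h⟩))
    · exact fin 0 (by unfold P4.on; rw [if_pos rfl]; exact Or.inr (Or.inl ⟨c0, h⟩))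
  by_cases c1 : m < P.mb
  · exact fin 0 (by unfold P4.on; rw [if_pos rfl]; exact Or.inl ⟨by omega, c1⟩)
  by_cases c2 : m = P.mb
  · rcases lt_or_gt_of_ne (hmark _ (Or.inr (Or.inl rfl)) c2) with h | h
    · exact fin 0 (by unfold P4.on; rw [if_pos rfl]; exact Or.inr (Or.inr ⟨c2, h⟩))
    · exact fin 1 (by unfold P4.on; rw [if_neg n10, if_pos rfl]; exact Or.inr (Or.inl ⟨c2, h⟩))
  by_cases c3 : m < P.mc
  · exact fin 1 (by unfold P4.on; rw [if_neg n10, if_pos rfl]; exact Or.inl ⟨by omega, c3⟩)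
  by_cases c4 : m = P.mc
  · rcases lt_or_gt_of_ne (hmark _ (Or.inr (Or.inr (Or.inl rfl))) c4) with h | h
    · exact fin 1 (by unfold P4.on; rw [if_neg n10, if_pos rfl]; exact Or.inr (Or.inr ⟨c4, h⟩))
    · exact fin 2 (by unfold P4.on; rw [if_neg n20, if_neg n21, if_pos rfl]; exact Or.inr (Or.inl ⟨c4, h⟩))
  by_cases c5 : m < P.md
  · exact fin 2 (by unfold P4.on; rw [if_neg n20, if_neg n21, if_pos rfl]; exact Or.inl ⟨by omega, c5⟩)
  by_cases c6 : m = P.md
  · rcases lt_or_gt_of_ne (hmark _ (Or.inr (Or.inr (Or.inr rfl))) c6) with h | h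
    · exact fin 2 (by unfold P4.on; rw [if_neg n20, if_neg n21, if_pos rfl]; exact Or.inr (Or.inr ⟨c6, h⟩))
    · exact fin 3 (by unfold P4.on; rw [if_neg n30, if_neg n31, if_neg n32]; exact Or.inr (Or.inl ⟨c6, h⟩))
  · exact fin 3 (by unfold P4.on; rw [if_neg n30, if_neg n31, if_neg n32]; exact Or.inl ⟨by omega, hm⟩)

theorem norm_ww : ‖ww‖ = 1 := by unfold ww; exact Complex.norm_exp_ofReal_mul_I _

theorem ww_ne : ww ≠ 0 := by
  intro h; have := norm_ww; rw [h, norm_zero] at this; exact zero_ne_one this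

/-- the domain of the polygon `P` at scale `s`, in the frame of `γ` -/
def GOm (s : ℝ) (P : P4) : Set ℂ := {z | ww * z ∈ Om s (↑P.F)}

theorem mul_homeo_frontier (S : Set ℂ) (z : ℂ) :
    z ∈ frontier {z : ℂ | ww * z ∈ S} ↔ ww * z ∈ frontier S := by
  have h := (Homeomorph.mulLeft₀ ww ww_ne).preimage_frontier S
  have e : (Homeomorph.mulLeft₀ ww ww_ne) ⁻¹' S = {z : ℂ | ww * z ∈ S} := rfl
  rw [e] at h
  rw [← h]
  rfl

/-- **The domains of 290's final theorem.** -/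
def geoOf {γ : ℝ → ℂ} (hγ : IsJordanCurve γ) {e s : ℕ → ℝ} {P : ℕ → P4}
    (h : ∀ k, PolyOK γ (e k) (s k) (P k)) (he : Tendsto e atTop (𝓝 0)) : Geo γ where
  Ω k := GOm (s k) (P k)
  E k := (P k).Ex.image (fun ζ => ww⁻¹ * ((s k : ℂ) * ζ))
  A k j := {z | ∃ ζ ∈ (P k).hA j, ww * z = (s k : ℂ) * ζ}
  opn k := (om_open _ _).preimage (by fun_prop : Continuous fun z : ℂ => ww * z)
  bdd k := by
    have hb := om_bdd (s := s k) (F := (↑(P k).F : Set V)) (P k).F.finite_toSet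
    obtain ⟨M, hM⟩ := hb.exists_norm_le
    rw [isBounded_iff_forall_norm_le]
    refine ⟨M, fun z hz => ?_⟩
    have := hM _ hz
    rwa [norm_mul, norm_ww, one_mul] at this
  con k := by
    have h1 : IsPreconnected (Om (s k) (↑(P k).F : Set V))ᶜ :=
      om_compl_preconn (h k).s_pos (fun q hq q' hq' => (P k).con' q hq q' hq')
    have h2 := h1.image (fun z : ℂ => ww⁻¹ * z) (by fun_prop)
    have e3 : (fun z : ℂ => ww⁻¹ * z) '' (Om (s k) (↑(P k).F : Set V))ᶜ = (GOm (s k) (P k))ᶜ := by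
      ext z
      constructor
      · rintro ⟨w, hw, rfl⟩
        change ¬ (ww * (ww⁻¹ * w) ∈ Om (s k) (↑(P k).F : Set V))
        rw [mul_inv_cancel_left₀ ww_ne]; exact hw
      · intro hz
        exact ⟨ww * z, hz, by simp only; rw [inv_mul_cancel_left₀ ww_ne]⟩
    rwa [e3] at h2
  cone k := by
    obtain ⟨m, hm, h1⟩ := om_cone (h k).s_pos (↑(P k).F : Set V)
    refine ⟨m, hm, fun w hw => ?_⟩
    obtain ⟨q, hq, h2⟩ := h1 (ww * w) hw
    refine ⟨ww⁻¹ * q, ?_, fun t ht z hz => ?_⟩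
    · have e1 : q - ww * w = ww * (ww⁻¹ * q - w) := by
        rw [mul_sub, mul_inv_cancel_left₀ ww_ne]
      rw [e1, norm_mul, norm_ww, one_mul] at hq
      exact hq
    · have h3 := h2 t ht (ww * z) hz
      have e1 : ww * z - (ww * w + (t : ℂ) * (q - ww * w)) =
          ww * (z - (w + (t : ℂ) * (ww⁻¹ * q - w))) := by
        have : ww * (ww⁻¹ * q) = q := mul_inv_cancel_left₀ ww_ne q
        linear_combination (t : ℂ) * this
      rw [e1, norm_mul, norm_ww, one_mul] at h3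
      exact h3
  Enot k x hx := by
    rw [Finset.mem_image] at hx
    obtain ⟨ζ, hζ, rfl⟩ := hx
    change ¬ (ww * (ww⁻¹ * ((s k : ℂ) * ζ)) ∈ Om (s k) (↑(P k).F : Set V))
    rw [mul_inv_cancel_left₀ ww_ne]
    rw [P4.Ex, Finset.mem_union, Finset.mem_image] at hζ
    have hpos := (h k).s_pos
    rcases hζ with ⟨m, -, rfl⟩ | hζ
    · rw [← ept_zero]
      exact ept_not_mem _ hpos m le_rfl zero_le_one
    · simp only [Finset.mem_insert, Finset.mem_singleton] at hζ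
      rcases hζ with rfl | rfl | rfl | rfl <;>
        exact ept_not_mem _ hpos _ (by norm_num) (by norm_num)
  exh K hK hKD := by
    have hT : IsCompact (curveTrace γ) := isCompact_Icc.image_of_continuousOn hγ.1
    have hd : Disjoint K (curveTrace γ) := by
      rw [Set.disjoint_left]
      intro z hz h1
      exact (hKD hz).1 h1
    obtain ⟨r, hr, h1⟩ := pos_dist hK hT.isClosed hd
    filter_upwards [(tendsto_order.mp he).2 r hr] with k hk z hz
    refine (h k).cover z (hKD hz) (fun t ht => ?_)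
    have := h1 z hz (γ t) ⟨t, ht, rfl⟩
    linarith
  cover k ζ hζ hE := by
    rw [GOm, mul_homeo_frontier] at hζ
    obtain ⟨m, hm, t, t0, t1, ht⟩ := om_frontier (h k).s_pos (P k).F.finite_toSet (P k).cyc hζ
    rw [← ept_smul] at ht
    have hne : ept (P k).v m t ∉ (P k).Ex := by
      intro hmem
      apply hE
      rw [Finset.mem_image]
      refine ⟨_, hmem, ?_⟩
      rw [← ht, inv_mul_cancel_left₀ ww_ne]
    obtain ⟨j, hj⟩ := (P k).class hm t0 t1 hne
    exact ⟨j, _, hj, ht⟩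
  near j ε hε := by
    filter_upwards [(tendsto_order.mp he).2 ε hε] with k hk z hz
    obtain ⟨ζ, hζ, hz⟩ := hz
    obtain ⟨t, ht, h1⟩ := (h k).arc j ζ hζ
    refine ⟨t, ht, lt_of_le_of_lt ?_ (h1.trans hk)⟩
    rw [← hz, ← mul_sub, norm_mul, norm_ww, one_mul]
  app t ht ε hε := by
    filter_upwards [(tendsto_order.mp he).2 ε hε] with k hk
    obtain ⟨z, hz, h1⟩ := (h k).near t ht
    exact ⟨z, hz, h1.trans hk⟩

end

end Crest.Agent.R158.Tj656
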