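import Crest.Agent.R158.Wk4_290
import Crest.Agent.R158.Tj1_656
import Crest.Agent.R158.Al2_194

/-!
R158 (helper290): (J3a) from statements in macroscopic coordinates to the fields of `Obs`.

Conventions P4 of helper656: plane point of the lattice point `(x, y)` at scale `L` =
`s w⁻¹ (x + y I) / L`, double steps, `W = 1 + (om - 1) H`, `H` in the triangle `0, 1, v2`.
-/

set_option autoImplicit false
open Complex Metric Set Topology Filter

namespace Crest.Agent.R158.Wl290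

open Crest.Agent.R158.Cd83
open Crest.Agent.R158.Sp896 Crest.Agent.R158.Tj656
open Crest.Agent.R158.Vt300 (v2 v2_eq)
open Crest.Agent.R158.Sk656 (sd1 sd2 sd3)

/-! ### affine change of the values -/

theorem csum_affine (s α β : ℂ) (H : ℤ → ℤ → ℂ) (i1 i2 j1 j2 : ℤ) :
    csum s (fun i j => α + β * H i j) i1 i2 j1 j2 = β * csum s H i1 i2 j1 j2 := by
  unfold csum
  have h1 : ∀ x y : ℂ, (α + β * x) - (α + β * y) = β * (x - y) := fun x y => by ring
  simp only [h1, ← Finset.mul_sum]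
  ring

theorem CSr.affine {ι : Type*} {l : Filter ι} {s : ℂ} {d : ι → ℝ} (hd : ∀ᶠ n in l, 0 ≤ d n)
    {H : ι → ℤ → ℤ → ℂ} {a b c e : ℝ} (h : CSr l s d H a b c e) (α β : ℂ) :
    CSr l s d (fun n i j => α + β * H n i j) a b c e := by
  intro ε hε
  have hε' : 0 < ε / (‖β‖ + 1) := by positivity
  filter_upwards [h _ hε', hd] with n hn hdn i1 i2 j1 j2 hi hj h1 h2 h3 h4
  have key := hn i1 i2 j1 j2 hi hj h1 h2 h3 h4
  rw [csum_affine, norm_mul]
  rw [le_div_iff₀ (by positivity)] at key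
  have h5 : 0 ≤ d n * ‖csum s (H n) i1 i2 j1 j2‖ := by positivity
  nlinarith

/-! ### the triangle -/

theorem v2_val : v2 = 1 + om := by
  rw [v2_eq, om_eq]
  apply Complex.ext
  · simp; norm_num
  · simp

theorem lam_W (h : ℂ) : lam (1 + (om - 1) * h) = h.re := by
  unfold lam
  rw [add_sub_cancel_left, mul_div_cancel_left₀ _ om_sub_ne]

theorem sd1_W (h : ℂ) : sd1 (1 + (om - 1) * h) = h.im := by
  unfold sd1
  rw [add_sub_cancel_left, mul_div_cancel_left₀ _ om_sub_ne]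

theorem sd2_W (h : ℂ) : sd2 (1 + (om - 1) * h) = (om ^ 2 * (h - 1)).im := by
  rw [sd2_eq, lam_W, sd1_W, om_sq_eq, mul_im, sub_re, sub_im, one_re, one_im]
  ring

theorem sd3_W' (h : ℂ) : sd3 (1 + (om - 1) * h) = (om * h).im := by
  have hre : om.re = -1/2 := by rw [om_eq]
  have him : om.im = Real.sqrt 3 / 2 := by rw [om_eq]
  rw [sd3_eq, lam_W, sd1_W, mul_im, hre, him]
  ring

theorem om_mul_v2 : om * v2 = -1 := by
  have h1 := om_cube
  have h2 : (om - 1) * (om ^ 2 + om + 1) = 0 := by linear_combination h1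
  have h3 : om ^ 2 + om + 1 = 0 := (mul_eq_zero.mp h2).resolve_left om_sub_ne
  rw [v2_val]
  linear_combination h3

theorem sd3_W (h : ℂ) : sd3 (1 + (om - 1) * h) = (om * (h - v2)).im := by
  rw [sd3_W', mul_sub, om_mul_v2]
  simp

theorem W_tri {h : ℂ} (hh : h ∈ Crest.Agent.R158.Al194.Tri) : 1 + (om - 1) * h ∈ Tri := by
  have hconv : Convex ℝ {h : ℂ | 1 + (om - 1) * h ∈ Tri} := by
    intro x hx y hy a b ha hb hab
    simp only [mem_ofPred_eq] at hx hy ⊢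
    have := Tri_convex hx hy ha hb hab
    have e : a • (1 + (om - 1) * x) + b • (1 + (om - 1) * y) =
        1 + (om - 1) * (a • x + b • y) := by
      simp only [real_smul]
      have : (a : ℂ) + b = 1 := by exact_mod_cast hab
      linear_combination this
    rwa [e] at this
  have hsub : ({0, 1, v2} : Set ℂ) ⊆ {h : ℂ | 1 + (om - 1) * h ∈ Tri} := by
    have h3 := sqrt3_pos
    have h3' := sqrt3_sq
    intro z hz
    simp only [mem_insert_iff, mem_singleton_iff] at hz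
    show 0 ≤ sd1 _ ∧ 0 ≤ sd2 _ ∧ 0 ≤ sd3 _
    rw [sd1_W, sd2_W, sd3_W', om_sq_eq, mul_im, mul_im, sub_re, sub_im, one_re, one_im, om_eq]
    rcases hz with rfl | rfl | rfl
    · simp; positivity
    · simp; positivity
    · rw [v2_eq]
      simp
      refine ⟨by positivity, ?_, ?_⟩ <;> nlinarith
  exact convexHull_min hsub hconv hh

/-! ### macroscopic coordinates -/

/-- lattice point of the double step at scale `L`, macroscopic coordinates -/
noncomputable def mpt (L : ℕ) (i j : ℤ) : ℂ := ((2 * (i : ℝ) / L : ℝ) : ℂ) + ((2 * (j : ℝ) / L : ℝ) : ℂ) * I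

theorem om_scale {s : ℝ} (hs : 0 < s) {F : Set V} {z : ℂ} :
    (s : ℂ) * z ∈ Om s F ↔ z ∈ Om 1 F := by
  rw [mem_om hs, mem_om one_pos]
  have : ∀ q : V, (s : ℂ) * z ∈ sq s q ↔ z ∈ sq 1 q := by
    intro q
    unfold Crest.Agent.R158.Sp896.sq
    simp only [mem_ofPred_eq, re_ofReal_mul, im_ofReal_mul, one_mul]
    constructor
    · rintro ⟨h1, h2, h3, h4⟩
      exact ⟨le_of_mul_le_mul_left h1 hs, le_of_mul_le_mul_left h2 hs,
        le_of_mul_le_mul_left h3 hs, le_of_mul_le_mul_left h4 hs⟩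
    · rintro ⟨h1, h2, h3, h4⟩
      exact ⟨mul_le_mul_of_nonneg_left h1 hs.le, mul_le_mul_of_nonneg_left h2 hs.le,
        mul_le_mul_of_nonneg_left h3 hs.le, mul_le_mul_of_nonneg_left h4 hs.le⟩
  simp only [this]

theorem pos_mpt {w : ℂ} (s : ℝ) (L : ℕ) (i j : ℤ) :
    pos 0 (s * w⁻¹) (2 / (L : ℝ)) i j = s * w⁻¹ * mpt L i j := by
  unfold pos mpt
  push_cast
  ring

theorem w_pos {w : ℂ} (hw : w ≠ 0) (s : ℝ) (z : ℂ) : w * (s * w⁻¹ * z) = s * z := by
  field_simp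

theorem near_of_macro {w : ℂ} (hw : ‖w‖ = 1) {s : ℝ} (hs : 0 < s) {F : Set V} {Ln : ℕ → ℕ}
    {Hd : ℕ → ℤ → ℤ → ℂ} {ζ : ℂ} {u : ℕ → ℂ → ℝ}
    (h : ∀ ε > 0, ∃ r > 0, ∀ᶠ n in atTop, ∀ i j : ℤ, mpt (Ln n) i j ∈ Om 1 F →
      ‖mpt (Ln n) i j - w * ζ / s‖ < r → u n (1 + (om - 1) * Hd (Ln n) (2 * i) (2 * j)) ≤ ε) :
    NearB {z | w * z ∈ Om s F} 0 (s * w⁻¹) (fun n => 2 / (Ln n : ℝ))
      (fun n i j => 1 + (om - 1) * Hd (Ln n) (2 * i) (2 * j)) ζ u := by
  have hw0 : w ≠ 0 := by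
    intro h0; rw [h0] at hw; simp at hw
  have hs0 : (s : ℂ) ≠ 0 := by exact_mod_cast hs.ne'
  intro ε hε
  obtain ⟨r, hr, h⟩ := h ε hε
  refine ⟨s * r, by positivity, ?_⟩
  filter_upwards [h] with n hn i j hij hd
  rw [pos_mpt] at hij hd
  refine hn i j ?_ ?_
  · have h1 : w * (s * w⁻¹ * mpt (Ln n) i j) ∈ Om s F := hij
    rw [w_pos hw0, om_scale hs] at h1
    exact h1
  · have e : s * w⁻¹ * mpt (Ln n) i j - ζ = s * w⁻¹ * (mpt (Ln n) i j - w * ζ / s) := by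
      field_simp
    rw [e, norm_mul, norm_mul, norm_inv, hw, inv_one, mul_one, Complex.norm_real,
      Real.norm_of_nonneg hs.le] at hd
    exact lt_of_mul_lt_mul_left hd hs.le

/-- side functionals of the triangle `0, 1, v2` -/
noncomputable def sdH : Fin 4 → ℂ → ℝ := ![fun h => h.im, fun h => h.im,
  fun h => (om ^ 2 * (h - 1)).im, fun h => (om * (h - v2)).im]

/-- macroscopic one-sided boundary value at `b`: for all even `L ≥ L0` -/
def MB (F : Set V) (Hd : ℕ → ℤ → ℤ → ℂ) (b : ℂ) (u : ℕ → ℂ → ℝ) : Prop :=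
  ∀ ε > 0, ∃ r > 0, ∃ L0 : ℕ, ∀ L : ℕ, Even L → L0 ≤ L → ∀ i j : ℤ, mpt L i j ∈ Om 1 F →
    ‖mpt L i j - b‖ < r → u L (Hd L (2 * i) (2 * j)) ≤ ε

theorem MB.near {w : ℂ} (hw : ‖w‖ = 1) {s : ℝ} (hs : 0 < s) {F : Set V} {Ln : ℕ → ℕ}
    (hev : ∀ n, Even (Ln n)) (hL : Tendsto Ln atTop atTop) {Hd : ℕ → ℤ → ℤ → ℂ} {ζ : ℂ}
    {u : ℕ → ℂ → ℝ} (h : MB F Hd (w * ζ / s) u) {v : ℕ → ℂ → ℝ} {e : ℕ → ℝ}
    (he : ∀ ε > 0, ∀ᶠ n in atTop, e n ≤ ε)
    (hv : ∀ n H, v n (1 + (om - 1) * H) ≤ u (Ln n) H + e n) :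
    NearB {z | w * z ∈ Om s F} 0 (s * w⁻¹) (fun n => 2 / (Ln n : ℝ))
      (fun n i j => 1 + (om - 1) * Hd (Ln n) (2 * i) (2 * j)) ζ v := by
  refine near_of_macro hw hs fun ε hε => ?_
  obtain ⟨r, hr, L0, h⟩ := h (ε / 2) (half_pos hε)
  refine ⟨r, hr, ?_⟩
  filter_upwards [hL.eventually_ge_atTop L0, he (ε / 2) (half_pos hε)] with n hn hen i j hij hd
  have h1 := h (Ln n) (hev n) hn i j hij hd
  have h2 := hv n (Hd (Ln n) (2 * i) (2 * j))
  linarith

/-- **`Obs` from the macroscopic statements.** -/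
noncomputable def obs_of_macro {γ : ℝ → ℂ} (G : Geo γ) (p : ℕ → ℝ) (up an : Bool) {w : ℂ}
    (hw : ‖w‖ = 1) {s : ℕ → ℝ} (hs : ∀ k, 0 < s k) {F : ℕ → Set V}
    (hΩ : ∀ k, G.Ω k = {z | w * z ∈ Om (s k) (F k)}) {Ln : ℕ → ℕ → ℕ}
    (hev : ∀ k n, Even (Ln k n)) (hL : ∀ k, Tendsto (Ln k) atTop atTop)
    {Hd : ℕ → ℕ → ℤ → ℤ → ℂ} (QT : ∀ k L x y, Hd k L x y ∈ Crest.Agent.R158.Al194.Tri)
    (Q1 : ∀ k, ∀ a b c e : ℝ, a ≤ b → c ≤ e →
      (∀ x ∈ Icc a b, ∀ y ∈ Icc c e, (x : ℂ) + (y : ℂ) * I ∈ Om 1 (F k)) →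
      CSr atTop (sg an) (fun n => 2 / (Ln k n : ℝ)) (fun n i j => Hd k (Ln k n) (2 * i) (2 * j))
        a b c e)
    (Q2 : ∀ k, ∀ j : Fin 4, ∀ ζ ∈ frontier (G.Ω k), ζ ∉ G.E k → ζ ∈ G.A k j →
      MB (F k) (Hd k) (w * ζ / s k) fun _ => sdH j)
    {qm qp : ℕ → ℕ → ℝ}
    (Q3m : up = false → ∀ k, ∀ ζ ∈ frontier (G.Ω k), ζ ∉ G.E k → ζ ∈ G.A k 0 →
      MB (F k) (Hd k) (w * ζ / s k) fun L h => h.re - qm k L)
    (Sm : up = false → ∀ k, ∀ᶠ n in atTop, qm k (Ln k n) ≤ p n)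
    (Q3p : up = true → ∀ k, ∀ ζ ∈ frontier (G.Ω k), ζ ∉ G.E k → ζ ∈ G.A k 1 →
      MB (F k) (Hd k) (w * ζ / s k) fun L h => 1 - h.re - qp k L)
    (Sp : up = true → ∀ k, ∀ᶠ n in atTop, qp k (Ln k n) ≤ 1 - p n) :
    Obs G p up where
  an := an
  c := fun _ => 0
  a := fun k => s k * w⁻¹
  d := fun k n => 2 / (Ln k n : ℝ)
  H := fun k n i j => 1 + (om - 1) * Hd k (Ln k n) (2 * i) (2 * j)
  a0 := fun k => by
    have hw0 : w ≠ 0 := by
      intro h0; rw [h0] at hw; simp at hw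
    have : (s k : ℂ) ≠ 0 := by exact_mod_cast (hs k).ne'
    exact mul_ne_zero this (inv_ne_zero hw0)
  dpos := fun k => by
    filter_upwards [(hL k).eventually_gt_atTop 0] with n hn
    have : (0 : ℝ) < Ln k n := by exact_mod_cast hn
    positivity
  dlim := fun k => by
    have := tendsto_natCast_atTop_atTop (R := ℝ) |>.comp (hL k)
    exact this.const_div_atTop 2
  tri := fun k => Eventually.of_forall fun n i j _ => W_tri (QT k _ _ _)
  cs := fun k x1 x2 y1 y2 hx hy hin => by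
    have hw0 : w ≠ 0 := by
      intro h0; rw [h0] at hw; simp at hw
    refine CSr.affine (Eventually.of_forall fun n => by positivity)
      (Q1 k x1 x2 y1 y2 hx hy fun x hx' y hy' => ?_) 1 (om - 1)
    have h1 := hin x hx' y hy'
    rw [hΩ, zero_add] at h1
    have h2 : w * (s k * w⁻¹ * ((x : ℂ) + (y : ℂ) * I)) ∈ Om (s k) (F k) := h1
    rwa [w_pos hw0, om_scale (hs k)] at h2
  b0 := fun k ζ h1 h2 h3 => by
    have := (Q2 k 0 ζ h1 h2 h3).near hw (hs k) (hev k) (hL k) (v := fun _ => sd1)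
      (e := fun _ => 0) (fun ε hε => Eventually.of_forall fun _ => hε.le) (fun n H => by
        rw [sd1_W]; simp [sdH])
    rw [hΩ]; exact this
  b1 := fun k ζ h1 h2 h3 => by
    have := (Q2 k 1 ζ h1 h2 h3).near hw (hs k) (hev k) (hL k) (v := fun _ => sd1)
      (e := fun _ => 0) (fun ε hε => Eventually.of_forall fun _ => hε.le) (fun n H => by
        rw [sd1_W]; simp [sdH])
    rw [hΩ]; exact this
  b2 := fun k ζ h1 h2 h3 => by
    have := (Q2 k 2 ζ h1 h2 h3).near hw (hs k) (hev k) (hL k) (v := fun _ => sd2)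
      (e := fun _ => 0) (fun ε hε => Eventually.of_forall fun _ => hε.le) (fun n H => by
        rw [sd2_W]; simp [sdH])
    rw [hΩ]; exact this
  b3 := fun k ζ h1 h2 h3 => by
    have := (Q2 k 3 ζ h1 h2 h3).near hw (hs k) (hev k) (hL k) (v := fun _ => sd3)
      (e := fun _ => 0) (fun ε hε => Eventually.of_forall fun _ => hε.le) (fun n H => by
        rw [sd3_W]; simp [sdH])
    rw [hΩ]; exact this
  lo := fun hup k ζ h1 h2 h3 => by
    have := (Q3m hup k ζ h1 h2 h3).near hw (hs k) (hev k) (hL k)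
      (v := fun n W => lam W - p n)
      (e := fun n => qm k (Ln k n) - p n) (fun ε hε => by
        filter_upwards [Sm hup k] with n hn
        linarith) (fun n H => by
        simp only [lam_W]; linarith)
    rw [hΩ]; exact this
  hi := fun hup k ζ h1 h2 h3 => by
    have := (Q3p hup k ζ h1 h2 h3).near hw (hs k) (hev k) (hL k)
      (v := fun n W => p n - lam W)
      (e := fun n => qp k (Ln k n) - (1 - p n)) (fun ε hε => by
        filter_upwards [Sp hup k] with n hn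
        linarith) (fun n H => by
        simp only [lam_W]; linarith)
    rw [hΩ]; exact this

end Crest.Agent.R158.Wl290
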