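import Crest.Agent.R158.Tj3_656
import Crest.Agent.R158.Wt1_290

/-!
R158, Lean architect of S0237 (helper656), J2 part 4: `obsOf` : a sequence of polygons with
`PolyOK`, the inputs `Q1 an, Q2, Q3m, Q3p` and one of the sides `(S-)`, `(S+)` give 290's `Obs`.
-/

set_option autoImplicit false

namespace Crest.Agent.R158.Tj656

open Filter Topology Set Metric MeasureTheory
open Complex (I)
open Crest.Agent.R158.Sp896
open Crest.Agent.R158.Wl290 (CSr sg Geo Cone Obs MB mpt sdH obs_of_macro)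
open Crest.Agent.R158.Cd83 (om)
open Crest.ProbabilityR.Percolation

noncomputable section

theorem mpt_mpos (L : ℕ) (i j : ℤ) : mpt L i j = mpos (L : ℤ) (2 * i) (2 * j) := by
  apply Complex.ext
  · simp [mpt, mpos]
  · simp [mpt, mpos]

theorem NB.mb {P : P4} {b : ℂ} {u : ℤ → ℂ → ℝ} (h : NB P b u) {v : ℕ → ℂ → ℝ}
    (hv : ∀ (L : ℕ) w, v L w = u L w) : MB (↑P.F) (fun L x y => P.HD (L : ℤ) x y) b v := by
  intro ε hε
  obtain ⟨r, hr, L0, h1⟩ := h ε hε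
  refine ⟨r, hr, L0.toNat, fun L hL hL0 i j h2 h3 => ?_⟩
  rw [mpt_mpos] at h2 h3
  rw [hv]
  exact h1 L (by omega) (by exact_mod_cast hL) i j h2 h3

theorem Ls_tend {s : ℝ} (hs : 0 < s) {δ : ℕ → ℝ} (hδ : ∀ n, 0 < δ n)
    (hδ0 : Tendsto δ atTop (𝓝 0)) : Tendsto (fun n => Ls s (δ n)) atTop atTop := by
  have h1 : Tendsto δ atTop (𝓝[>] 0) :=
    tendsto_nhdsWithin_iff.2 ⟨hδ0, Eventually.of_forall fun n => hδ n⟩
  have h2 : Tendsto (fun n => s / (Real.sqrt 2 * δ n)) atTop atTop := by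
    have h3 : Tendsto (fun n => (s / Real.sqrt 2) * (δ n)⁻¹) atTop atTop :=
      Tendsto.const_mul_atTop (by positivity) (tendsto_inv_nhdsGT_zero.comp h1)
    refine h3.congr fun n => ?_
    have := (hδ n).ne'
    field_simp
  have h4 : Tendsto (fun n => ⌊s / (Real.sqrt 2 * δ n)⌋) atTop atTop :=
    tendsto_floor_atTop.comp h2
  refine tendsto_atTop_mono' _ ?_ h4
  filter_upwards [h4.eventually_ge_atTop 0] with n hn
  show ⌊s / (Real.sqrt 2 * δ n)⌋ ≤ 2 * ⌊s / (Real.sqrt 2 * δ n)⌋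
  omega

theorem Ls_toNat_tend {s : ℝ} (hs : 0 < s) {δ : ℕ → ℝ} (hδ : ∀ n, 0 < δ n)
    (hδ0 : Tendsto δ atTop (𝓝 0)) : Tendsto (fun n => (Ls s (δ n)).toNat) atTop atTop := by
  refine tendsto_atTop.2 fun a => ?_
  filter_upwards [(Ls_tend hs hδ hδ0).eventually_ge_atTop (a : ℤ)] with n hn
  omega

theorem Ls_toNat_even (s d : ℝ) : Even (Ls s d).toNat := by
  unfold Ls
  generalize ⌊s / (Real.sqrt 2 * d)⌋ = a
  rcases le_total 0 a with h | h
  · exact ⟨a.toNat, by omega⟩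
  · exact ⟨0, by omega⟩

variable {γ : ℝ → ℂ}

theorem geo_pt {e s : ℕ → ℝ} {P : ℕ → P4} (hγ : IsJordanCurve γ)
    (h : ∀ k, PolyOK γ (e k) (s k) (P k)) (he : Tendsto e atTop (𝓝 0)) {k : ℕ} {j : Fin 4} {ζ : ℂ}
    (hζ : ζ ∈ (geoOf hγ h he).A k j) : ww * ζ / s k ∈ (P k).hA j := by
  obtain ⟨z, hz, hw⟩ := hζ
  have h0 : ((s k : ℝ) : ℂ) ≠ 0 := by exact_mod_cast (h k).s_pos.ne'
  rw [hw, mul_div_cancel_left₀ _ h0]
  exact hz

theorem sdH_val : sdH = ![fun w : ℂ => w.im, fun w => w.im, fun w => (om ^ 2 * (w - 1)).im,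
    fun w => (om * (w - (1 + om))).im] := by
  unfold sdH
  rw [Wl290.v2_val]

/-- **`Obs` from a sequence of polygons** -/
def obsOf (hγ : IsJordanCurve γ) {e s : ℕ → ℝ} {P : ℕ → P4}
    (h : ∀ k, PolyOK γ (e k) (s k) (P k)) (he : Tendsto e atTop (𝓝 0)) {δ : ℕ → ℝ}
    (hδ : ∀ n, 0 < δ n) (hδ0 : Tendsto δ atTop (𝓝 0)) {p : ℕ → ℝ} (up an : Bool)
    (q1 : Q1 an) (q2 : Q2) {κm κp : ℤ}
    (q3m : ∀ P : P4, ∀ b ∈ P.hA 0, NB P b fun L w => w.re - P.pm κm L)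
    (q3p : ∀ P : P4, ∀ b ∈ P.hA 1, NB P b fun L w => (1 - w.re) - P.pp κp L)
    (hm : up = false → ∀ k, ∀ᶠ n in atTop, (P k).pm κm (Ls (s k) (δ n)) ≤ p n)
    (hp : up = true → ∀ k, ∀ᶠ n in atTop, (P k).pp κp (Ls (s k) (δ n)) ≤ 1 - p n) :
    Obs (geoOf hγ h he) p up := by
  refine obs_of_macro (geoOf hγ h he) p up an (w := ww) norm_ww (s := s) (fun k => (h k).s_pos)
    (F := fun k => ↑(P k).F) (fun k => rfl) (Ln := fun k n => (Ls (s k) (δ n)).toNat)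
    (fun k n => Ls_toNat_even _ _) (fun k => Ls_toNat_tend (h k).s_pos hδ hδ0)
    (Hd := fun k L x y => (P k).HD (L : ℤ) x y) (fun k L x y => Ob664.HD_mem _ _ _ _ _)
    ?_ ?_ (qm := fun k L => (P k).pm κm L) (qp := fun k L => (P k).pp κp L) ?_ ?_ ?_ ?_
  · intro k a b c e hab hce hin
    have := q1 (P k) a b c e hab hce hin (fun n => (((Ls (s k) (δ n)).toNat : ℕ) : ℤ))
      (fun n => by exact_mod_cast Ls_toNat_even (s k) (δ n))
      (tendsto_natCast_atTop_atTop.comp (Ls_toNat_tend (h k).s_pos hδ hδ0))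
    simpa only [Int.cast_natCast] using this
  · intro k j ζ _ _ hζ
    have hb := geo_pt hγ h he hζ
    obtain ⟨c0, c1, c2, c3⟩ := q2 (P k)
    rw [sdH_val]
    fin_cases j
    · exact (c0 _ hb).mb fun _ _ => rfl
    · exact (c1 _ hb).mb fun _ _ => rfl
    · exact (c2 _ hb).mb fun _ _ => rfl
    · exact (c3 _ hb).mb fun _ _ => rfl
  · intro _ k ζ _ _ hζ
    exact (q3m _ _ (geo_pt hγ h he hζ)).mb fun _ _ => rfl
  · intro hup k
    filter_upwards [hm hup k, (Ls_tend (h k).s_pos hδ hδ0).eventually_ge_atTop 0] with n hn h0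
    show (P k).pm κm (((Ls (s k) (δ n)).toNat : ℕ) : ℤ) ≤ p n
    rwa [Int.toNat_of_nonneg h0]
  · intro _ k ζ _ _ hζ
    exact (q3p _ _ (geo_pt hγ h he hζ)).mb fun _ _ => rfl
  · intro hup k
    filter_upwards [hp hup k, (Ls_tend (h k).s_pos hδ hδ0).eventually_ge_atTop 0] with n hn h0
    show (P k).pp κp (((Ls (s k) (δ n)).toNat : ℕ) : ℤ) ≤ 1 - p n
    rwa [Int.toNat_of_nonneg h0]

theorem PolyOK.mono {e e' s : ℝ} {P : P4} (h : PolyOK γ e s P) (he : e ≤ e') : PolyOK γ e' s P where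
  s_pos := h.s_pos
  s_lt := h.s_lt.trans_le he
  arc := fun j ζ hζ => by
    obtain ⟨t, ht, h1⟩ := h.arc j ζ hζ
    exact ⟨t, ht, h1.trans_le he⟩
  cover := fun z hz h1 => h.cover z hz fun t ht => he.trans (h1 t ht)
  near := fun t ht => by
    obtain ⟨z, h1, h2⟩ := h.near t ht
    exact ⟨z, h1, h2.trans_le he⟩

end

end Crest.Agent.R158.Tj656
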