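import Crest.Agent.R158.Tj4_656
import Crest.Agent.R158.SplC_331
import Crest.Agent.R158.Sk4_656

/-!
R158, Lean architect of S0237 (helper656), J2 part 5: the top.

`LoSide γ δ p` : for every `e` a polygon at distance `e` with `(S-)`; `UpSide` : with `(S+)`.
`top_of` : the four inputs and `LoSide γ ∨ LoSide (rv γ)`, `UpSide γ ∨ UpSide (rv γ)` give `S0237Body`.
-/

set_option autoImplicit false

namespace Crest.Agent.R158.Tj656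

open Filter Topology Set Metric MeasureTheory
open Complex (I)
open Crest Crest.ProbabilityR Crest.ProbabilityR.Percolation
open Crest.Agent.R158.Cd83
open Crest.Agent.R158.Spl331 (rv rv_jordan rv_ji cross_rv)
open Crest.Agent.R158.Wl290 (obs_lower obs_upper tendsto_of_sides arc_prob_mem)
open Crest.Agent.R158.Sk656 (S0237Body)

noncomputable section

/-- lower bound: polygons of `γ` with `(S-)` at every scale -/
def LoSide (γ : ℝ → ℂ) (δ : ℕ → ℝ) (p : ℕ → ℝ) : Prop :=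
  ∀ e : ℝ, 0 < e → ∃ (s : ℝ) (P : P4), PolyOK γ e s P ∧ Sm s P δ p

/-- upper bound: polygons of `γ` with `(S+)` at every scale -/
def UpSide (γ : ℝ → ℂ) (δ : ℕ → ℝ) (p : ℕ → ℝ) : Prop :=
  ∀ e : ℝ, 0 < e → ∃ (s : ℝ) (P : P4), PolyOK γ e s P ∧ Sp s P δ p

theorem dich {R1 R2 : ℝ → Prop} (m1 : ∀ e e', e ≤ e' → R1 e → R1 e')
    (m2 : ∀ e e', e ≤ e' → R2 e → R2 e') {e0 : ℝ} (he0 : 0 < e0)
    (h : ∀ e, 0 < e → e ≤ e0 → R1 e ∨ R2 e) : (∀ e, 0 < e → R1 e) ∨ (∀ e, 0 < e → R2 e) := by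
  by_contra hc
  push Not at hc
  obtain ⟨⟨e1, h1, h1'⟩, e2, h2, h2'⟩ := hc
  have h3 : 0 < min e0 (min e1 e2) := lt_min he0 (lt_min h1 h2)
  rcases h _ h3 (min_le_left _ _) with h4 | h4
  · exact h1' (m1 _ _ ((min_le_right _ _).trans (min_le_left _ _)) h4)
  · exact h2' (m2 _ _ ((min_le_right _ _).trans (min_le_right _ _)) h4)

variable {γ : ℝ → ℂ} {φ : ℂ → ℂ} {δ : ℕ → ℝ} {p : ℕ → ℝ}

theorem lo_or {γ' : ℝ → ℂ} {e0 : ℝ} (he0 : 0 < e0) (h : ∀ e, 0 < e → e ≤ e0 →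
    (∃ (s : ℝ) (P : P4), PolyOK γ e s P ∧ Sm s P δ p) ∨
    (∃ (s : ℝ) (P : P4), PolyOK γ' e s P ∧ Sm s P δ p)) : LoSide γ δ p ∨ LoSide γ' δ p :=
  dich (fun _ _ he ⟨s, P, h1, h2⟩ => ⟨s, P, h1.mono he, h2⟩)
    (fun _ _ he ⟨s, P, h1, h2⟩ => ⟨s, P, h1.mono he, h2⟩) he0 h

theorem up_or {γ' : ℝ → ℂ} {e0 : ℝ} (he0 : 0 < e0) (h : ∀ e, 0 < e → e ≤ e0 →
    (∃ (s : ℝ) (P : P4), PolyOK γ e s P ∧ Sp s P δ p) ∨
    (∃ (s : ℝ) (P : P4), PolyOK γ' e s P ∧ Sp s P δ p)) : UpSide γ δ p ∨ UpSide γ' δ p :=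
  dich (fun _ _ he ⟨s, P, h1, h2⟩ => ⟨s, P, h1.mono he, h2⟩)
    (fun _ _ he ⟨s, P, h1, h2⟩ => ⟨s, P, h1.mono he, h2⟩) he0 h

theorem cdat_rv (C : CDat γ φ) : CDat (rv γ) φ := by
  have h := rv_ji C.hγ.2.2
  exact ⟨rv_jordan C.hγ, by rw [h]; exact C.hc, by rw [h]; exact C.hi, by rw [h]; exact C.hd,
    by rw [h]; exact C.hD⟩

/-- the value of Cardy's formula -/
def cv (γ : ℝ → ℂ) (φ : ℂ → ℂ) : ℝ :=
  cardyRatio (crossRatioAt (φ (γ 0)) (φ (γ (1 / 4))) (φ (γ (1 / 2))) (φ (γ (3 / 4))))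

theorem cv_rv : cv (rv γ) φ = cv γ φ := by
  unfold cv
  rw [cross_rv]

theorem lim_e : Tendsto (fun k : ℕ => 1 / ((k : ℝ) + 1)) atTop (𝓝 0) :=
  tendsto_one_div_add_atTop_nhds_zero_nat

theorem pos_e (k : ℕ) : 0 < 1 / ((k : ℝ) + 1) := by positivity

variable {an : Bool}

theorem lower_of (C : CDat γ φ) (hp : ∀ n, p n ∈ Icc (0 : ℝ) 1) (hδ : ∀ n, 0 < δ n)
    (hδ0 : Tendsto δ atTop (𝓝 0)) (q1 : Q1 an) (q2 : Q2) (q3m : Q3m) (q3p : Q3p)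
    (h : LoSide γ δ p) {ε : ℝ} (hε : 0 < ε) : ∀ᶠ n in atTop, cv γ φ - ε < p n := by
  obtain ⟨κm, q3m⟩ := q3m
  obtain ⟨κp, q3p⟩ := q3p
  choose s P h1 h2 using fun k : ℕ => h _ (pos_e k)
  exact obs_lower C hp (obsOf C.hγ h1 lim_e hδ hδ0 false an q1 q2 q3m q3p
    (fun _ k => h2 k κm) (fun h => absurd h (by decide))) hε

theorem upper_of (C : CDat γ φ) (hp : ∀ n, p n ∈ Icc (0 : ℝ) 1) (hδ : ∀ n, 0 < δ n)
    (hδ0 : Tendsto δ atTop (𝓝 0)) (q1 : Q1 an) (q2 : Q2) (q3m : Q3m) (q3p : Q3p)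
    (h : UpSide γ δ p) {ε : ℝ} (hε : 0 < ε) : ∀ᶠ n in atTop, p n < cv γ φ + ε := by
  obtain ⟨κm, q3m⟩ := q3m
  obtain ⟨κp, q3p⟩ := q3p
  choose s P h1 h2 using fun k : ℕ => h _ (pos_e k)
  exact obs_upper C hp (obsOf C.hγ h1 lim_e hδ hδ0 true an q1 q2 q3m q3p
    (fun h => absurd h (by decide)) (fun _ k => h2 k κp)) hε

theorem tend_of (C : CDat γ φ) (hp : ∀ n, p n ∈ Icc (0 : ℝ) 1) (hδ : ∀ n, 0 < δ n)
    (hδ0 : Tendsto δ atTop (𝓝 0)) (q1 : Q1 an) (q2 : Q2) (q3m : Q3m) (q3p : Q3p)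
    (hlo : LoSide γ δ p ∨ LoSide (rv γ) δ p) (hup : UpSide γ δ p ∨ UpSide (rv γ) δ p) :
    Tendsto p atTop (𝓝 (cv γ φ)) := by
  refine tendsto_of_sides (fun ε hε => ?_) (fun ε hε => ?_)
  · rcases hlo with h | h
    · exact lower_of C hp hδ hδ0 q1 q2 q3m q3p h hε
    · rw [← cv_rv]
      exact lower_of (cdat_rv C) hp hδ hδ0 q1 q2 q3m q3p h hε
  · rcases hup with h | h
    · exact upper_of C hp hδ hδ0 q1 q2 q3m q3p h hε
    · rw [← cv_rv]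
      exact upper_of (cdat_rv C) hp hδ hδ0 q1 q2 q3m q3p h hε

/-- the sandwich: everything except the observable -/
def Sandwich : Prop :=
  ∀ (γ : ℝ → ℂ) (φ : ℂ → ℂ), CDat γ φ → ∀ (δ : ℕ → ℝ), (∀ n, 0 < δ n) →
    Tendsto δ atTop (𝓝 0) → ∀ γs : ℕ → ℝ → ℂ, (∀ n, IsGridPolygon (δ n) (γs n)) →
      TendstoUniformlyOn γs γ atTop (Icc 0 1) →
      (LoSide γ δ (fun n => (arcCrossingProb (δ n) (γs n)).toReal) ∨
        LoSide (rv γ) δ (fun n => (arcCrossingProb (δ n) (γs n)).toReal)) ∧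
      (UpSide γ δ (fun n => (arcCrossingProb (δ n) (γs n)).toReal) ∨
        UpSide (rv γ) δ (fun n => (arcCrossingProb (δ n) (γs n)).toReal))

/-- **S0237 from the sandwich and the four inputs** -/
theorem top_of (hS : Sandwich) (q1 : Q1 an) (q2 : Q2) (q3m : Q3m) (q3p : Q3p) : S0237Body := by
  intro γ hγ δ hδ _ hδ0 γs hγs hunif φ hφc hφi hφd hφD
  have C : CDat γ φ := ⟨hγ, hφc, hφi, hφd, hφD⟩
  obtain ⟨hlo, hup⟩ := hS γ φ C δ hδ hδ0 γs hγs hunif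
  exact tend_of C (fun n => arc_prob_mem _ _) hδ hδ0 q1 q2 q3m q3p hlo hup

end

end Crest.Agent.R158.Tj656
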