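import Crest.Agent.R158.Tj5_656
import Crest.Agent.R158.Tg3_331
import Crest.Agent.R158.Spl7_949

/-!
R158, Lean architect of S0237 (helper656), J2 part 6: `sandwich : Sandwich` (331, 949, 896) and
**`S0237_of : Q1 an → Q2 → Q3m → Q3p → S0237Body`**.
-/

set_option autoImplicit false

namespace Crest.Agent.R158.Tj656

open Filter Topology Set Metric MeasureTheory
open Crest Crest.ProbabilityR Crest.ProbabilityR.Percolation
open Crest.Agent.R158.Cd83
open Crest.Agent.R158.Jt785 (Unif)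
open Crest.Agent.R158.Spl331 (rv)
open Crest.Agent.R158.Sk656 (S0237Body)

theorem unif_of {γ : ℝ → ℂ} {φ : ℂ → ℂ} (C : CDat γ φ) : Unif γ φ := ⟨C.hγ, C.hc, C.hi, C.hD⟩

theorem sandwich : Sandwich := by
  intro γ φ C δ hδ hδ0 γs hγs hu
  have hU := unif_of C
  constructor
  · obtain ⟨e1, he1, h1⟩ := Spl949.sm_of1 C.hγ C.nonempty hγs hu hδ hδ0
    obtain ⟨e2, he2, h2⟩ := Spl949.sm_of2 C.hγ C.nonempty hγs hu hδ hδ0
    refine lo_or (lt_min he1 he2) fun e he hle => ?_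
    obtain ⟨s, P, -, h3 | h3⟩ := Tg331.poly_lo hU he one_pos
    · obtain ⟨h3, v0, mb0, mc0, md0, h4, h5, h6, h7, h8⟩ := h3
      exact Or.inl ⟨s, P, h3, h1 e s P v0 mb0 mc0 md0 (hle.trans (min_le_left _ _)) h4 h5 h6 h7 h8⟩
    · obtain ⟨h3, v0, mb0, mc0, md0, h4, h5, h6, h7, h8⟩ := h3
      exact Or.inr ⟨s, P, h3, h2 e s P v0 mb0 mc0 md0 (hle.trans (min_le_right _ _)) h4 h5 h6 h7 h8⟩
  · obtain ⟨e0, he0, h1⟩ := Spl949.sp_of C.hγ C.nonempty hγs hu hδ hδ0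
    refine up_or he0 fun e he hle => ?_
    obtain ⟨s, P, -, h3 | h3⟩ := Tg331.poly_up hU he one_pos
    · exact Or.inl ⟨s, P, h3.1, h1 e s P hle (Or.inl h3.2)⟩
    · exact Or.inr ⟨s, P, h3.1, h1 e s P hle (Or.inr h3.2)⟩

/-- **S0237 from the four inputs on macroscopic polygons** -/
theorem S0237_of {an : Bool} (q1 : Q1 an) (q2 : Q2) (q3m : Q3m) (q3p : Q3p) : S0237Body :=
  top_of sandwich q1 q2 q3m q3p

end Crest.Agent.R158.Tj656
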