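import Mathlib

/-!
# R158, block B3, part 1: local laws of weakly tilted product measures

`V` finite, `w : (V → Bool) → ℝ` with `1 ≤ w ≤ W`; `A i` the event that the configuration agrees
with a given pattern on `S i`, the `S i` pairwise disjoint of the same size `s`.  If the tilted
probabilities of all the `A i` are equal to `P`, then for `0 < t ≤ 1`

`P ≤ 2^{-s} (1 + t) + log W / (t K)`, `K` the number of indices.
-/

set_option autoImplicit false

namespace Crest.Agent.R158.Tl405

open Finset

variable {V : Type*} [Fintype V] [DecidableEq V]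

/-- number of configurations agreeing with `y` on `T` -/
theorem card_agree (T : Finset V) (y : V → Bool) :
    (univ.filter fun ω : V → Bool => ∀ v ∈ T, ω v = y v).card
      = 2 ^ (Fintype.card V - T.card) := by
  classical
  have h1 : (univ.filter fun ω : V → Bool => ∀ v ∈ T, ω v = y v)
      = Fintype.piFinset (fun v => if v ∈ T then ({y v} : Finset Bool) else univ) := by
    ext ω
    simp only [mem_filter, mem_univ, true_and, Fintype.mem_piFinset]
    constructor
    · intro h v
      by_cases hv : v ∈ T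
      · simp [hv, h v hv]
      · simp [hv]
    · intro h v hv
      have := h v
      simpa [hv] using this
  rw [h1, Fintype.card_piFinset]
  have h2 : ∀ v : V, (if v ∈ T then ({y v} : Finset Bool) else univ).card
      = if v ∈ T then 1 else 2 := by
    intro v
    by_cases hv : v ∈ T <;> simp [hv]
  rw [Finset.prod_congr rfl (fun v _ => h2 v), Finset.prod_ite]
  simp only [prod_const_one, one_mul, prod_const]
  congr 1
  rw [← Finset.card_compl]
  congr 1
  ext v
  simp

/-- indicator of agreement with `y` on `T` -/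
noncomputable def ag (T : Finset V) (y : V → Bool) (ω : V → Bool) : ℝ :=
  by classical exact if ∀ v ∈ T, ω v = y v then 1 else 0

theorem sum_ag (T : Finset V) (y : V → Bool) :
    ∑ ω : V → Bool, ag T y ω = 2 ^ (Fintype.card V) * (1 / 2 : ℝ) ^ T.card := by
  classical
  unfold ag
  rw [Finset.sum_boole, card_agree]
  have hT : T.card ≤ Fintype.card V := Finset.card_le_univ T
  push_cast
  have : (2 : ℝ) ^ (Fintype.card V) = 2 ^ (Fintype.card V - T.card) * 2 ^ T.card := by
    rw [← pow_add]; congr 1; omega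
  rw [this, mul_assoc, ← mul_pow]
  norm_num

variable {ι : Type*} [Fintype ι] [DecidableEq ι]

theorem prod_ag (S : ι → Finset V) (hd : ∀ i j, i ≠ j → Disjoint (S i) (S j))
    (y : ι → V → Bool) (J : Finset ι) :
    ∃ z : V → Bool, ∀ ω : V → Bool, ∏ i ∈ J, ag (S i) (y i) ω = ag (J.biUnion S) z ω := by
  classical
  refine ⟨fun v => if h : ∃ i, v ∈ S i then y h.choose v else false, fun ω => ?_⟩
  have key : ∀ i, ∀ v ∈ S i, (if h : ∃ i, v ∈ S i then y h.choose v else false) = y i v := by
    intro i v hv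
    have h : ∃ i, v ∈ S i := ⟨i, hv⟩
    rw [dif_pos h]
    have h3 : h.choose = i := by
      by_contra hne
      exact (Finset.disjoint_left.mp (hd _ _ hne) h.choose_spec) hv
    rw [h3]
  unfold ag
  by_cases hall : ∀ v ∈ J.biUnion S, ω v = (if h : ∃ i, v ∈ S i then y h.choose v else false)
  · rw [if_pos hall]
    refine Finset.prod_eq_one fun i hi => ?_
    rw [if_pos]
    intro v hv
    rw [hall v (Finset.mem_biUnion.mpr ⟨i, hi, hv⟩), key i v hv]
  · rw [if_neg hall]
    simp only [not_forall] at hall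
    obtain ⟨v, hv, hne⟩ := hall
    obtain ⟨i, hi, hvi⟩ := Finset.mem_biUnion.mp hv
    refine Finset.prod_eq_zero hi ?_
    rw [if_neg]
    intro h
    exact hne (by rw [h v hvi, key i v hvi])

/-- exponential moment of the number of agreements -/
theorem sum_exp (S : ι → Finset V) (hd : ∀ i j, i ≠ j → Disjoint (S i) (S j))
    (y : ι → V → Bool) (s : ℕ) (hs : ∀ i, (S i).card = s) (t : ℝ) :
    ∑ ω : V → Bool, Real.exp (t * ∑ i, ag (S i) (y i) ω)
      = 2 ^ (Fintype.card V) * (1 + (Real.exp t - 1) * (1 / 2 : ℝ) ^ s) ^ (Fintype.card ι) := by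
  classical
  have h1 : ∀ ω : V → Bool, Real.exp (t * ∑ i, ag (S i) (y i) ω)
      = ∏ i, ((Real.exp t - 1) * ag (S i) (y i) ω + 1) := by
    intro ω
    rw [Finset.mul_sum, Real.exp_sum]
    refine Finset.prod_congr rfl fun i _ => ?_
    unfold ag
    split_ifs <;> simp
  simp_rw [h1]
  have h2 : ∀ ω : V → Bool, ∏ i, ((Real.exp t - 1) * ag (S i) (y i) ω + 1)
      = ∑ J : Finset ι, (Real.exp t - 1) ^ J.card * ∏ i ∈ J, ag (S i) (y i) ω := by
    intro ω
    rw [Finset.prod_add]
    simp only [prod_const_one, mul_one, Finset.powerset_univ]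
    refine Finset.sum_congr rfl fun J _ => ?_
    rw [Finset.prod_mul_distrib, Finset.prod_const]
  simp_rw [h2]
  rw [Finset.sum_comm]
  have h3 : ∀ J : Finset ι, ∑ ω : V → Bool, (Real.exp t - 1) ^ J.card * ∏ i ∈ J, ag (S i) (y i) ω
      = 2 ^ (Fintype.card V) * ((Real.exp t - 1) * (1 / 2 : ℝ) ^ s) ^ J.card := by
    intro J
    obtain ⟨z, hz⟩ := prod_ag S hd y J
    simp_rw [hz]
    rw [← Finset.mul_sum, sum_ag]
    have hc : (J.biUnion S).card = J.card * s := by
      rw [Finset.card_biUnion (fun i _ j _ hij => hd i j hij)]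
      simp [hs]
    rw [hc, mul_comm J.card s, pow_mul, mul_pow]
    ring
  rw [Finset.sum_congr rfl (fun J _ => h3 J), ← Finset.mul_sum]
  congr 1
  have h4 := Finset.prod_add (fun _ : ι => (Real.exp t - 1) * (1 / 2 : ℝ) ^ s) (fun _ => (1 : ℝ))
    (univ : Finset ι)
  simp only [prod_const, Finset.powerset_univ, Finset.card_univ, one_pow, mul_one] at h4
  rw [add_comm, h4]

/-- **local law of a tilted product measure, upper bound** -/
theorem tilt_upper (w : (V → Bool) → ℝ) (W : ℝ) (hw1 : ∀ ω, 1 ≤ w ω) (hwW : ∀ ω, w ω ≤ W)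
    [Nonempty ι] (S : ι → Finset V) (hd : ∀ i j, i ≠ j → Disjoint (S i) (S j))
    (y : ι → V → Bool) (s : ℕ) (hs : ∀ i, (S i).card = s) (P : ℝ)
    (hP : ∀ i, ∑ ω : V → Bool, w ω * ag (S i) (y i) ω = P * ∑ ω : V → Bool, w ω)
    (t : ℝ) (ht : 0 < t) (ht1 : t ≤ 1) :
    P ≤ (1 / 2 : ℝ) ^ s * (1 + t) + Real.log W / (t * Fintype.card ι) := by
  classical
  set K : ℝ := (Fintype.card ι : ℝ) with hK
  have hKpos : 0 < K := by
    rw [hK]; exact_mod_cast Fintype.card_pos
  set q : ℝ := (1 / 2 : ℝ) ^ s with hq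
  have hq0 : 0 ≤ q := by positivity
  have hW1 : 1 ≤ W := le_trans (hw1 (fun _ => false)) (hwW _)
  set Z : ℝ := ∑ ω : V → Bool, w ω with hZ
  have hZ2 : (2 : ℝ) ^ (Fintype.card V) ≤ Z := by
    have : ∑ ω : V → Bool, (1 : ℝ) ≤ Z := Finset.sum_le_sum fun ω _ => hw1 ω
    simpa using this
  have hZpos : 0 < Z := lt_of_lt_of_le (by positivity) hZ2
  set c : ℝ := t * K * P with hc
  -- Jensen by the tangent line
  have hJ : Real.exp c * Z ≤ ∑ ω : V → Bool, w ω * Real.exp (t * ∑ i, ag (S i) (y i) ω) := by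
    have h1 : ∀ ω : V → Bool, w ω * (Real.exp c * (1 + (t * ∑ i, ag (S i) (y i) ω - c)))
        ≤ w ω * Real.exp (t * ∑ i, ag (S i) (y i) ω) := by
      intro ω
      refine mul_le_mul_of_nonneg_left ?_ (le_trans zero_le_one (hw1 ω))
      have h2 : Real.exp (t * ∑ i, ag (S i) (y i) ω)
          = Real.exp c * Real.exp (t * ∑ i, ag (S i) (y i) ω - c) := by
        rw [← Real.exp_add]; congr 1; ring
      rw [h2]
      refine mul_le_mul_of_nonneg_left ?_ (Real.exp_nonneg _)
      have := Real.add_one_le_exp (t * ∑ i, ag (S i) (y i) ω - c)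
      linarith
    refine le_trans (le_of_eq ?_) (Finset.sum_le_sum fun ω _ => h1 ω)
    have h3 : ∀ ω : V → Bool, w ω * (Real.exp c * (1 + (t * ∑ i, ag (S i) (y i) ω - c)))
        = Real.exp c * (1 - c) * w ω
          + Real.exp c * t * ∑ i, w ω * ag (S i) (y i) ω := by
      intro ω
      rw [← Finset.mul_sum]; ring
    simp_rw [h3]
    rw [Finset.sum_add_distrib, ← Finset.mul_sum, ← Finset.mul_sum, Finset.sum_comm]
    rw [Finset.sum_congr rfl (fun i _ => hP i)]
    simp only [Finset.sum_const, Finset.card_univ, nsmul_eq_mul]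
    rw [← hK, ← hZ, hc]; ring
  have hU : ∑ ω : V → Bool, w ω * Real.exp (t * ∑ i, ag (S i) (y i) ω)
      ≤ W * (2 ^ (Fintype.card V) * (1 + (Real.exp t - 1) * q) ^ (Fintype.card ι)) := by
    rw [hq, ← sum_exp S hd y s hs t, Finset.mul_sum]
    exact Finset.sum_le_sum fun ω _ =>
      mul_le_mul_of_nonneg_right (hwW ω) (Real.exp_nonneg _)
  have hE : Real.exp c ≤ W * (1 + (Real.exp t - 1) * q) ^ (Fintype.card ι) := by
    have h5 : Real.exp c * 2 ^ (Fintype.card V)
        ≤ (W * (1 + (Real.exp t - 1) * q) ^ (Fintype.card ι)) * 2 ^ (Fintype.card V) := by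
      calc Real.exp c * 2 ^ (Fintype.card V) ≤ Real.exp c * Z :=
            mul_le_mul_of_nonneg_left hZ2 (Real.exp_nonneg _)
        _ ≤ _ := le_trans hJ hU
        _ = _ := by ring
    exact le_of_mul_le_mul_right h5 (by positivity)
  have hexp1 : Real.exp t - 1 ≤ t + t ^ 2 := by
    have := Real.abs_exp_sub_one_sub_id_le (x := t) (by rw [abs_of_pos ht]; exact ht1)
    have h6 := (abs_le.mp this).2
    linarith
  have hexp0 : 0 ≤ Real.exp t - 1 := by
    have := Real.add_one_le_exp t
    linarith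
  have hlog : c ≤ Real.log W + K * (q * (t + t ^ 2)) := by
    have h7 : Real.exp c ≤ W * Real.exp (K * (q * (t + t ^ 2))) := by
      refine le_trans hE ?_
      refine mul_le_mul_of_nonneg_left ?_ (by linarith)
      have h8 : (1 + (Real.exp t - 1) * q) ≤ Real.exp (q * (t + t ^ 2)) := by
        have := Real.add_one_le_exp (q * (t + t ^ 2))
        nlinarith
      calc (1 + (Real.exp t - 1) * q) ^ (Fintype.card ι)
          ≤ (Real.exp (q * (t + t ^ 2))) ^ (Fintype.card ι) :=
            pow_le_pow_left₀ (by positivity) h8 _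
        _ = Real.exp (K * (q * (t + t ^ 2))) := by
            rw [← Real.exp_nat_mul]
    have h9 : Real.exp c ≤ Real.exp (Real.log W + K * (q * (t + t ^ 2))) := by
      rw [Real.exp_add, Real.exp_log (by linarith)]
      exact h7
    exact Real.exp_le_exp.mp h9
  have htK : 0 < t * K := by positivity
  have h10 : P = c / (t * K) := by
    rw [hc]; field_simp
  rw [h10]
  have h11 : c / (t * K) ≤ (Real.log W + K * (q * (t + t ^ 2))) / (t * K) :=
    div_le_div_of_nonneg_right hlog htK.le
  refine le_trans h11 (le_of_eq ?_)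
  field_simp
  ring

end Crest.Agent.R158.Tl405
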