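import Crest.Agent.R158.Tl1_405
import Crest.Agent.R158.Ts9_405

/-!
# R158, block B3: the tilted law of the splittings of the torus converges locally to the
uniform product law of the plane

`B3 : (∑ s, wG s * g (sL s)) / (∑ s, wG s) → E g` for every local function `g`, uniformly in
the even length `M ≥ L` of the torus `M × L`, as the even number `L → ∞`.
-/

set_option autoImplicit false

namespace Crest.Agent.R158.Tl405

open Finset
open Crest.Agent.R158.Bk430 (ME HasPar par vp ori hd tl kap turn proj orb Orb nxE so Gw wG Bal sgb)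
open Crest.Agent.R158.Ts405 (sL Ctr TT_torus)

section Trans

variable {A B : Type*} [AddCommGroupWithOne A] [AddCommGroupWithOne B] [HasPar A] [HasPar B]

/-- translation of vertices -/
def trV (a : A) (b : B) (v : A × B) : A × B := (v.1 + a, v.2 + b)

/-- translation of edges -/
def trE (a : A) (b : B) (e : ME A B) : ME A B := (trV a b e.1, e.2)

theorem hd_tr {a : A} {b : B} (hab : ∀ v : A × B, vp (trV a b v) = vp v) (e : ME A B) :
    hd (trE a b e) = trV a b (hd e) := by
  obtain ⟨⟨i, j⟩, c⟩ := e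
  have h := hab (i, j)
  simp only [trV] at h
  cases c <;> cases hv : vp ((i, j) : A × B) <;> rw [hv] at h <;>
    simp [hd, trE, trV, h, hv, add_right_comm]

theorem nx_tr {a : A} {b : B} (hab : ∀ v : A × B, vp (trV a b v) = vp v) (s : A × B → Bool)
    (e : ME A B) : Bk430.nx s (trE a b e) = trE a b (Bk430.nx (fun v => s (trV a b v)) e) := by
  have h1 := hd_tr hab e
  unfold Bk430.nx
  rw [h1]
  have h2 : vp (trE a b e).1 = vp e.1 := hab e.1
  rw [h2]
  have h3 : (trE a b e).2 = e.2 := rfl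
  rw [h3]
  split_ifs <;> simp [trE, trV, sub_add_eq_add_sub]

theorem turn_tr {a : A} {b : B} (hab : ∀ v : A × B, vp (trV a b v) = vp v) (s : A × B → Bool)
    (e : ME A B) : turn s (trE a b e) = turn (fun v => s (trV a b v)) e := by
  unfold turn kap
  rw [hd_tr hab, hab]

theorem so_tr {a : A} {b : B} (hab : ∀ v : A × B, vp (trV a b v) = vp v) (e : ME A B) :
    so (trE a b e) = so e := by
  unfold so ori
  have h2 : vp (trE a b e).1 = vp e.1 := hab e.1
  rw [h2]
  rfl

/-- translation of edges as an equivalence -/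
def trEq (a : A) (b : B) : ME A B ≃ ME A B where
  toFun := trE a b
  invFun := trE (-a) (-b)
  left_inv e := by simp [trE, trV]
  right_inv e := by simp [trE, trV]

variable [Fintype A] [Fintype B] [DecidableEq A] [DecidableEq B]

open Classical in
theorem wG_tr {a : A} {b : B} (hab : ∀ v : A × B, vp (trV a b v) = vp v) (s : A × B → Bool) :
    wG (fun v => s (trV a b v)) = wG s := by
  unfold wG Gw
  refine Fintype.sum_equiv (Equiv.arrowCongr (trEq a b) (Equiv.refl Bool)) _ _ fun f => ?_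
  have hf : ∀ e, (Equiv.arrowCongr (trEq a b) (Equiv.refl Bool)) f (trE a b e) = f e := by
    intro e
    simp only [Equiv.arrowCongr_apply, Equiv.coe_refl, Function.comp_apply, id_eq]
    congr 1
    exact (trEq a b).symm_apply_apply e
  set F := (Equiv.arrowCongr (trEq a b) (Equiv.refl Bool)) f with hF
  have h1 : (∀ e, f (Bk430.nx (fun v => s (trV a b v)) e) = f e) ↔ ∀ e, F (Bk430.nx s e) = F e := by
    constructor
    · intro h e
      obtain ⟨e', rfl⟩ := (trEq a b).surjective e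
      show F (Bk430.nx s (trE a b e')) = F (trE a b e')
      rw [nx_tr hab, hf, hf, h]
    · intro h e
      have := h (trE a b e)
      rw [nx_tr hab, hf, hf] at this
      exact this
  have h2 : Bal f ↔ Bal F := by
    unfold Bal
    have key : ∀ i : A, ∑ j : B, so (((i, j), false) : ME A B) * sgb (f ((i, j), false))
        = ∑ j : B, so (((i + a, j), false) : ME A B) * sgb (F ((i + a, j), false)) := by
      intro i
      refine Fintype.sum_equiv (Equiv.addRight b) _ _ fun j => ?_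
      have e1 : (((i + a, (Equiv.addRight b) j), false) : ME A B) = trE a b ((i, j), false) := by
        simp [trE, trV]
      rw [e1, so_tr hab, hf]
    constructor
    · intro h i
      have := key (i - a)
      rw [sub_add_cancel] at this
      rw [← this]; exact h _
    · intro h i
      rw [key]; exact h _
  have h3 : (∑ e, (Real.pi / 3 / 4 * turn (fun v => s (trV a b v)) e + 0 * so e) * sgb (f e) : ℝ)
      = ∑ e, (Real.pi / 3 / 4 * turn s e + 0 * so e) * sgb (F e) := by
    refine Fintype.sum_equiv (trEq a b) _ _ fun e => ?_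
    show _ = (Real.pi / 3 / 4 * (turn s (trE a b e) : ℝ) + 0 * (so (trE a b e) : ℝ))
      * (sgb (F (trE a b e)) : ℝ)
    rw [turn_tr hab, so_tr hab, hf]
  by_cases c1 : ∀ e, f (Bk430.nx (fun v => s (trV a b v)) e) = f e
  · rw [if_pos c1, if_pos (h1.mp c1)]
    by_cases c2 : Bal f
    · rw [if_pos c2, if_pos (h2.mp c2), h3]
    · rw [if_neg c2, if_neg (fun h => c2 (h2.mpr h))]
  · rw [if_neg c1, if_neg (fun h => c1 (h1.mpr h))]

end Trans


/-! ### windows on the torus -/

section Torus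

variable {M L : ℕ} [NeZero M] [NeZero L] [Fact (Even M)] [Fact (Even L)]

theorem par_even (k : ZMod M) (c : ℤ) : par (k + ((2 * c : ℤ) : ZMod M)) = par k := by
  have e1 : k = ((k.val : ℤ) : ZMod M) := by simp
  rw [e1, ← Int.cast_add, Bk430.par_intCast, Bk430.par_intCast]
  show decide (((k.val : ℤ) + 2 * c) % 2 = 1) = decide ((k.val : ℤ) % 2 = 1)
  congr 1
  apply propext
  omega

theorem vp_even (c d : ℤ) (v : ZMod M × ZMod L) :
    vp (trV ((2 * c : ℤ) : ZMod M) ((2 * d : ℤ) : ZMod L) v) = vp v := by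
  unfold vp trV
  simp only [par_even]

/-- the vertex of the torus under `u + (2 n i, 2 n j)` -/
def pv (M L : ℕ) (n : ℕ) (ij : ℕ × ℕ) (u : ℤ × ℤ) : ZMod M × ZMod L :=
  (((u.1 + 2 * n * ij.1 : ℤ) : ZMod M), ((u.2 + 2 * n * ij.2 : ℤ) : ZMod L))

theorem coord_inj {M n : ℕ} (hn : 0 < n) {u u' : ℤ} (hu : -n ≤ u ∧ u < n)
    (hu' : -n ≤ u' ∧ u' < n) {i i' : ℕ} (hi : i < M / (2 * n)) (hi' : i' < M / (2 * n))
    (h : ((u + 2 * n * i : ℤ) : ZMod M) = ((u' + 2 * n * i' : ℤ) : ZMod M)) : u = u' ∧ i = i' := by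
  obtain ⟨c, hc⟩ := (ZMod.intCast_eq_intCast_iff_dvd_sub _ _ M).mp h
  have hMn : (M / (2 * n)) * (2 * n) ≤ M := Nat.div_mul_le_self _ _
  have h1 : ((i : ℤ) + 1) * (2 * n) ≤ M := by
    have : (i + 1) * (2 * n) ≤ (M / (2 * n)) * (2 * n) := Nat.mul_le_mul_right _ hi
    exact_mod_cast le_trans this hMn
  have h2 : ((i' : ℤ) + 1) * (2 * n) ≤ M := by
    have : (i' + 1) * (2 * n) ≤ (M / (2 * n)) * (2 * n) := Nat.mul_le_mul_right _ hi'
    exact_mod_cast le_trans this hMn
  have e1 : ((i : ℤ) + 1) * (2 * n) = 2 * n * i + 2 * n := by ring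
  have e2 : ((i' : ℤ) + 1) * (2 * n) = 2 * n * i' + 2 * n := by ring
  rw [e1] at h1
  rw [e2] at h2
  have p1 : (0 : ℤ) ≤ 2 * n * i := by positivity
  have p2 : (0 : ℤ) ≤ 2 * n * i' := by positivity
  have hc0 : c = 0 := by
    by_contra hne
    rcases lt_or_gt_of_ne hne with h3 | h3
    · have : (M : ℤ) * c ≤ -M := by nlinarith [Int.natCast_nonneg M]
      omega
    · have : (M : ℤ) ≤ M * c := by nlinarith [Int.natCast_nonneg M]
      omega
  rw [hc0, mul_zero] at hc
  have h5 : (2 * (n : ℤ)) * ((i' : ℤ) - i) = u - u' := by linarith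
  have h6 : (i' : ℤ) - i = 0 := by
    by_contra hne
    have hn' : (0 : ℤ) < 2 * n := by positivity
    rcases lt_or_gt_of_ne hne with h7 | h7
    · have : (2 * (n : ℤ)) * ((i' : ℤ) - i) ≤ -(2 * n) := by nlinarith
      omega
    · have : (2 * (n : ℤ)) ≤ (2 * (n : ℤ)) * ((i' : ℤ) - i) := by nlinarith
      omega
  rw [h6, mul_zero] at h5
  exact ⟨by omega, by omega⟩

/-- agreement with the pattern `y` on the window `B` -/
noncomputable def agB (B : Finset (ℤ × ℤ)) (y : ℤ × ℤ → Bool) (s : ℤ × ℤ → Bool) : ℝ :=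
  by classical exact if ∀ u ∈ B, s u = y u then 1 else 0

/-- **upper bound for the local law** -/
theorem local_upper (B : Finset (ℤ × ℤ)) (n : ℕ) (hn : 0 < n)
    (hB : ∀ u ∈ B, (-(n : ℤ) ≤ u.1 ∧ u.1 < n) ∧ (-(n : ℤ) ≤ u.2 ∧ u.2 < n))
    (hM : 2 * n ≤ M) (hL : 2 * n ≤ L) (y : ℤ × ℤ → Bool) (t : ℝ) (ht : 0 < t) (ht1 : t ≤ 1) :
    (∑ s : ZMod M × ZMod L → Bool, wG s * agB B y (sL s)) / (∑ s : ZMod M × ZMod L → Bool, wG s)
      ≤ (1 / 2 : ℝ) ^ B.card * (1 + t) +
        Real.log (2 ^ (2 * max M L)) / (t * ((M / (2 * n) : ℕ) * (L / (2 * n) : ℕ) : ℝ)) := by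
  classical
  have hw1 : ∀ s : ZMod M × ZMod L → Bool, 1 ≤ wG s := fun s => Bk430.one_le_wG (TT_torus s)
  have hwW : ∀ s : ZMod M × ZMod L → Bool, wG s ≤ 2 ^ (2 * max M L) := by
    intro s
    have := Bk430.wG_le (TT_torus s) Fintype.card_pos Fintype.card_pos
    rw [ZMod.card, ZMod.card] at this
    exact this
  set ι := Fin (M / (2 * n)) × Fin (L / (2 * n)) with hι
  have hK1 : 0 < M / (2 * n) := Nat.div_pos hM (by omega)
  have hK2 : 0 < L / (2 * n) := Nat.div_pos hL (by omega)
  have : Nonempty ι := ⟨(⟨0, hK1⟩, ⟨0, hK2⟩)⟩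
  set pw : ι → ℤ × ℤ → ZMod M × ZMod L := fun i u => pv M L n ((i.1 : ℕ), (i.2 : ℕ)) u with hpw
  have hinj : ∀ (i j : ι) (u v : ℤ × ℤ), u ∈ B → v ∈ B → pw i u = pw j v → u = v ∧ i = j := by
    intro i j u v hu hv h
    have h1 := congrArg (fun x : ZMod M × ZMod L => x.1) h
    have h2 := congrArg (fun x : ZMod M × ZMod L => x.2) h
    obtain ⟨a1, a2⟩ := coord_inj hn (hB u hu).1 (hB v hv).1 i.1.2 j.1.2 h1
    obtain ⟨b1, b2⟩ := coord_inj hn (hB u hu).2 (hB v hv).2 i.2.2 j.2.2 h2
    exact ⟨Prod.ext a1 b1, Prod.ext (Fin.ext a2) (Fin.ext b2)⟩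
  set S : ι → Finset (ZMod M × ZMod L) := fun i => B.image (pw i) with hS
  set Y : ι → ZMod M × ZMod L → Bool := fun i v =>
    if h : ∃ u ∈ B, pw i u = v then y h.choose else false with hY
  have hYv : ∀ i, ∀ u ∈ B, Y i (pw i u) = y u := by
    intro i u hu
    have h : ∃ u' ∈ B, pw i u' = pw i u := ⟨u, hu, rfl⟩
    simp only [hY]
    rw [dif_pos h]
    have := (hinj i i _ _ h.choose_spec.1 hu h.choose_spec.2).1
    rw [this]
  have hagS : ∀ i (ω : ZMod M × ZMod L → Bool), ag (S i) (Y i) ω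
      = if ∀ u ∈ B, ω (pw i u) = y u then 1 else 0 := by
    intro i ω
    unfold ag
    by_cases h : ∀ u ∈ B, ω (pw i u) = y u
    · rw [if_pos h, if_pos]
      intro v hv
      obtain ⟨u, hu, rfl⟩ := Finset.mem_image.mp hv
      rw [hYv i u hu, h u hu]
    · rw [if_neg h, if_neg]
      intro h2
      apply h
      intro u hu
      rw [h2 _ (Finset.mem_image_of_mem _ hu), hYv i u hu]
  have hcard : ∀ i, (S i).card = B.card := by
    intro i
    apply Finset.card_image_of_injOn
    intro u hu v hv h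
    exact (hinj i i u v hu hv h).1
  have hdisj : ∀ i j, i ≠ j → Disjoint (S i) (S j) := by
    intro i j hij
    rw [Finset.disjoint_left]
    intro v hv1 hv2
    obtain ⟨u, hu, rfl⟩ := Finset.mem_image.mp hv1
    obtain ⟨u', hu', h⟩ := Finset.mem_image.mp hv2
    exact hij ((hinj i j u u' hu hu' h.symm).2)
  set Z : ℝ := ∑ s : ZMod M × ZMod L → Bool, wG s with hZ
  have hZpos : 0 < Z := by
    have : ∑ s : ZMod M × ZMod L → Bool, (1 : ℝ) ≤ Z := Finset.sum_le_sum fun s _ => hw1 s
    refine lt_of_lt_of_le ?_ this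
    simp
  set P : ℝ := (∑ s : ZMod M × ZMod L → Bool, wG s * agB B y (sL s)) / Z with hP
  have hPi : ∀ i, ∑ ω : ZMod M × ZMod L → Bool, wG ω * ag (S i) (Y i) ω = P * Z := by
    intro i
    rw [hP, div_mul_cancel₀ _ hZpos.ne']
    -- substitution by the translation
    set a : ZMod M := ((2 * (n * (i.1 : ℕ)) : ℤ) : ZMod M) with ha
    set b : ZMod L := ((2 * (n * (i.2 : ℕ)) : ℤ) : ZMod L) with hb
    have hab : ∀ v : ZMod M × ZMod L, vp (trV a b v) = vp v := fun v => vp_even _ _ v
    let τ : (ZMod M × ZMod L → Bool) ≃ (ZMod M × ZMod L → Bool) :=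
      { toFun := fun s v => s (trV a b v)
        invFun := fun s v => s (trV (-a) (-b) v)
        left_inv := fun s => by funext v; simp [trV]
        right_inv := fun s => by funext v; simp [trV] }
    refine Fintype.sum_equiv τ _ _ fun s => ?_
    have h1 : wG (τ s) = wG s := wG_tr hab s
    rw [h1, hagS]
    congr 1
    unfold agB
    have h2 : ∀ u : ℤ × ℤ, sL (τ s) u = s (pw i u) := by
      intro u
      show s (trV a b ((u.1 : ZMod M), (u.2 : ZMod L))) = _
      congr 1
      simp only [hpw, pv, trV, ha, hb]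
      push_cast
      refine Prod.ext ?_ ?_
      · simp only; ring
      · simp only; ring
    simp_rw [h2]
  have hmain := tilt_upper wG (2 ^ (2 * max M L)) hw1 hwW S hdisj Y B.card hcard P hPi t ht ht1
  refine le_trans hmain (le_of_eq ?_)
  have hcι : (Fintype.card ι : ℝ) = ((M / (2 * n) : ℕ) : ℝ) * ((L / (2 * n) : ℕ) : ℝ) := by
    have h0 : Fintype.card ι = (M / (2 * n)) * (L / (2 * n)) := by
      show Fintype.card (Fin (M / (2 * n)) × Fin (L / (2 * n))) = _
      rw [Fintype.card_prod, Fintype.card_fin, Fintype.card_fin]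
    rw [h0]
    push_cast
    rfl
  rw [hcι]

end Torus

end Crest.Agent.R158.Tl405
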