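import Crest.Agent.R158.Tl2_405

/-!
# R158, block B3: the local limit of the tilted law of the torus, two sided form
-/

set_option autoImplicit false

namespace Crest.Agent.R158.Tl405

open Finset
open Crest.Agent.R158.Bk430 (wG)
open Crest.Agent.R158.Ts405 (sL Ctr TT_torus)

/-- extension of a pattern by `false` -/
def ext (B : Finset (ℤ × ℤ)) (y : B → Bool) (u : ℤ × ℤ) : Bool :=
  if h : u ∈ B then y ⟨u, h⟩ else false

theorem ext_mem (B : Finset (ℤ × ℤ)) (y : B → Bool) {u : ℤ × ℤ} (h : u ∈ B) :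
    ext B y u = y ⟨u, h⟩ := dif_pos h

theorem agB_ext (B : Finset (ℤ × ℤ)) (y : B → Bool) (s : ℤ × ℤ → Bool) :
    agB B (ext B y) s = if y = (fun u : B => s u) then 1 else 0 := by
  classical
  unfold agB
  by_cases h : y = fun u : B => s u
  · rw [if_pos h, if_pos]
    intro u hu
    rw [ext_mem B y hu, h]
  · rw [if_neg h, if_neg]
    intro h2
    apply h
    funext u
    rw [h2 u u.2, ext_mem B y u.2]

theorem sum_agB (B : Finset (ℤ × ℤ)) (F : (B → Bool) → ℝ) (s : ℤ × ℤ → Bool) :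
    ∑ y : B → Bool, F y * agB B (ext B y) s = F (fun u : B => s u) := by
  classical
  simp_rw [agB_ext]
  simp

theorem div_two_le {M n : ℕ} (hn : 0 < n) (hM : 2 * n ≤ M) :
    (M : ℝ) / (4 * n) ≤ ((M / (2 * n) : ℕ) : ℝ) := by
  have h1 : M < (M / (2 * n) + 1) * (2 * n) := by
    rw [mul_comm]; exact Nat.lt_mul_div_succ M (by omega)
  have h2 : 1 ≤ M / (2 * n) := Nat.div_pos hM (by omega)
  have h3 : M ≤ (M / (2 * n)) * (4 * n) := by nlinarith
  rw [div_le_iff₀ (by positivity)]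
  exact_mod_cast h3

theorem local_upper' (B : Finset (ℤ × ℤ)) (n : ℕ) (hn : 0 < n)
    (hB : ∀ u ∈ B, (-(n : ℤ) ≤ u.1 ∧ u.1 < n) ∧ (-(n : ℤ) ≤ u.2 ∧ u.2 < n))
    (δ : ℝ) (hδ : 0 < δ) (hδ1 : δ ≤ 1) {M L : ℕ} [NeZero M] [NeZero L] [Fact (Even M)]
    [Fact (Even L)] (hL : 2 * n ≤ L) (hL2 : 128 * (n : ℝ) ^ 2 / δ ^ 2 ≤ L) (hML : L ≤ M)
    (y : ℤ × ℤ → Bool) :
    (∑ s : ZMod M × ZMod L → Bool, wG s * agB B y (sL s)) / (∑ s : ZMod M × ZMod L → Bool, wG s)
      ≤ (1 / 2 : ℝ) ^ B.card + δ := by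
  have h := local_upper (M := M) (L := L) B n hn hB (le_trans hL hML) hL y (δ / 2) (by positivity)
    (by linarith)
  refine le_trans h ?_
  have hn' : (0 : ℝ) < n := by exact_mod_cast hn
  have hLpos : (0 : ℝ) < L := by
    have : 0 < L := by omega
    exact_mod_cast this
  have hMpos : (0 : ℝ) < M := by
    have : 0 < M := by omega
    exact_mod_cast this
  have h1 : Real.log (2 ^ (2 * max M L)) ≤ 2 * M := by
    rw [max_eq_left hML, Real.log_pow]
    push_cast
    have : Real.log 2 ≤ 1 := by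
      have := Real.log_two_lt_d9
      linarith
    nlinarith
  have h2 : (M : ℝ) / (4 * n) * (L / (4 * n)) ≤ ((M / (2 * n) : ℕ) : ℝ) * ((L / (2 * n) : ℕ) : ℝ) :=
    mul_le_mul (div_two_le hn (le_trans hL hML)) (div_two_le hn hL) (by positivity) (by positivity)
  have h0 : 0 < (M : ℝ) / (4 * n) * (L / (4 * n)) := by positivity
  have h3 : Real.log (2 ^ (2 * max M L)) / (δ / 2 * (((M / (2 * n) : ℕ) : ℝ) *
      ((L / (2 * n) : ℕ) : ℝ))) ≤ 2 * M / (δ / 2 * ((M : ℝ) / (4 * n) * (L / (4 * n)))) := by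
    apply div_le_div₀ (by positivity) h1 (by positivity)
    exact mul_le_mul_of_nonneg_left h2 (by positivity)
  have h4 : 2 * (M : ℝ) / (δ / 2 * ((M : ℝ) / (4 * n) * (L / (4 * n)))) = 64 * n ^ 2 / (δ * L) := by
    field_simp
    ring
  have h5 : 64 * (n : ℝ) ^ 2 / (δ * L) ≤ δ / 2 := by
    rw [div_le_iff₀ (by positivity)]
    rw [div_le_iff₀ (by positivity)] at hL2
    nlinarith
  have h6 : (1 / 2 : ℝ) ^ B.card ≤ 1 := pow_le_one₀ (by norm_num) (by norm_num)
  have h7 : (0 : ℝ) ≤ (1 / 2 : ℝ) ^ B.card := by positivity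
  nlinarith

/-- **B3** -/
theorem B3 (B : Finset (ℤ × ℤ)) (g : (ℤ × ℤ → Bool) → ℝ)
    (hg : ∀ s s', (∀ u ∈ B, s u = s' u) → g s = g s') (ε : ℝ) (hε : 0 < ε) :
    ∃ L0 : ℕ, ∀ (M L : ℕ) [NeZero M] [NeZero L] [Fact (Even M)] [Fact (Even L)],
      L0 ≤ L → L ≤ M →
      |(∑ s : ZMod M × ZMod L → Bool, wG s * g (sL s)) / (∑ s : ZMod M × ZMod L → Bool, wG s)
        - (1 / 2 : ℝ) ^ B.card * ∑ y : B → Bool, g (ext B y)| ≤ ε := by
  classical
  obtain ⟨n, hn, hB⟩ : ∃ n : ℕ, 0 < n ∧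
      ∀ u ∈ B, (-(n : ℤ) ≤ u.1 ∧ u.1 < n) ∧ (-(n : ℤ) ≤ u.2 ∧ u.2 < n) := by
    refine ⟨(∑ u ∈ B, (u.1.natAbs + u.2.natAbs)) + 1, by omega, fun u hu => ?_⟩
    have := Finset.single_le_sum (f := fun u : ℤ × ℤ => u.1.natAbs + u.2.natAbs)
      (fun _ _ => Nat.zero_le _) hu
    omega
  set Q : ℝ := 2 ^ B.card with hQ
  have hQ1 : 1 ≤ Q := one_le_pow₀ (by norm_num)
  have hq : (1 / 2 : ℝ) ^ B.card * Q = 1 := by
    rw [hQ, ← mul_pow]; norm_num
  set G : ℝ := 1 + ∑ y : B → Bool, |g (ext B y)| with hG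
  have hG1 : 1 ≤ G := by
    rw [hG]
    have : 0 ≤ ∑ y : B → Bool, |g (ext B y)| := Finset.sum_nonneg fun _ _ => abs_nonneg _
    linarith
  set δ : ℝ := min 1 (ε / (G * Q)) with hδ
  have hδpos : 0 < δ := by
    rw [hδ]; exact lt_min one_pos (by positivity)
  have hδ1 : δ ≤ 1 := min_le_left _ _
  have hδ2 : δ * (G * Q) ≤ ε := by
    have : δ ≤ ε / (G * Q) := min_le_right _ _
    rwa [le_div_iff₀ (by positivity)] at this
  refine ⟨max (2 * n) (⌈128 * (n : ℝ) ^ 2 / δ ^ 2⌉₊), ?_⟩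
  intro M L _ _ _ _ hL0 hML
  have hL1 : 2 * n ≤ L := le_trans (le_max_left _ _) hL0
  have hL2 : 128 * (n : ℝ) ^ 2 / δ ^ 2 ≤ L := by
    refine le_trans (Nat.le_ceil _) ?_
    exact_mod_cast le_trans (le_max_right _ _) hL0
  set Z : ℝ := ∑ s : ZMod M × ZMod L → Bool, wG s with hZ
  have hw1 : ∀ s : ZMod M × ZMod L → Bool, 1 ≤ wG s := fun s => Bk430.one_le_wG (TT_torus s)
  have hZpos : 0 < Z := by
    have : ∑ s : ZMod M × ZMod L → Bool, (1 : ℝ) ≤ Z := Finset.sum_le_sum fun s _ => hw1 s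
    refine lt_of_lt_of_le ?_ this
    simp
  set P : (B → Bool) → ℝ := fun y =>
    (∑ s : ZMod M × ZMod L → Bool, wG s * agB B (ext B y) (sL s)) / Z with hP
  set q : ℝ := (1 / 2 : ℝ) ^ B.card with hqd
  have hup : ∀ y, P y ≤ q + δ := fun y =>
    local_upper' B n hn hB δ hδpos hδ1 hL1 hL2 hML (ext B y)
  -- representation of the mean
  have hrep : ∀ F : (B → Bool) → ℝ,
      (∑ s : ZMod M × ZMod L → Bool, wG s * F (fun u : B => sL s u)) / Z = ∑ y, F y * P y := by
    intro F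
    have h1 : ∀ s : ZMod M × ZMod L → Bool, wG s * F (fun u : B => sL s u)
        = ∑ y, F y * (wG s * agB B (ext B y) (sL s)) := by
      intro s
      rw [← sum_agB B F (sL s), Finset.mul_sum]
      refine Finset.sum_congr rfl fun y _ => ?_
      ring
    rw [Finset.sum_congr rfl (fun s _ => h1 s), Finset.sum_comm, Finset.sum_div]
    refine Finset.sum_congr rfl fun y _ => ?_
    rw [← Finset.mul_sum, mul_div_assoc]
  have hsumP : ∑ y, P y = 1 := by
    have := hrep (fun _ => 1)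
    simp only [mul_one, one_mul] at this
    rw [← this]
    exact div_self hZpos.ne'
  have hcardQ : ((Fintype.card (B → Bool) : ℕ) : ℝ) = Q := by
    rw [Fintype.card_fun, Fintype.card_bool, Fintype.card_coe, hQ]
    push_cast
    rfl
  have habs : ∀ y, |P y - q| ≤ Q * δ := by
    intro y
    rw [abs_le]
    constructor
    · -- lower bound from the total mass
      have h1 : ∑ y', P y' = P y + ∑ y' ∈ univ.erase y, P y' := by
        rw [← Finset.add_sum_erase univ P (mem_univ y)]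
      have h2 : ∑ y' ∈ univ.erase y, P y' ≤ ∑ y' ∈ (univ.erase y : Finset (B → Bool)), (q + δ) :=
        Finset.sum_le_sum fun y' _ => hup y'
      rw [Finset.sum_const, Finset.card_erase_of_mem (mem_univ y), Finset.card_univ,
        nsmul_eq_mul] at h2
      have h3 : ((Fintype.card (B → Bool) - 1 : ℕ) : ℝ) = Q - 1 := by
        rw [Nat.cast_sub Fintype.card_pos, hcardQ]
        push_cast
        rfl
      rw [h3] at h2
      have h4 : (Q - 1) * (q + δ) = 1 - q + (Q - 1) * δ := by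
        have : Q * q = 1 := by rw [mul_comm]; exact hq
        nlinarith
      nlinarith
    · have h1 := hup y
      nlinarith
  have hgrep : (∑ s : ZMod M × ZMod L → Bool, wG s * g (sL s)) / Z = ∑ y, g (ext B y) * P y := by
    rw [← hrep (fun y => g (ext B y))]
    congr 1
    refine Finset.sum_congr rfl fun s _ => ?_
    congr 1
    apply hg
    intro u hu
    rw [ext_mem B _ hu]
  rw [hgrep, Finset.mul_sum, ← Finset.sum_sub_distrib]
  have h5 : ∀ y : B → Bool, |g (ext B y) * P y - q * g (ext B y)| ≤ |g (ext B y)| * (Q * δ) := by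
    intro y
    have : g (ext B y) * P y - q * g (ext B y) = g (ext B y) * (P y - q) := by ring
    rw [this, abs_mul]
    exact mul_le_mul_of_nonneg_left (habs y) (abs_nonneg _)
  calc |∑ y : B → Bool, (g (ext B y) * P y - q * g (ext B y))|
      ≤ ∑ y : B → Bool, |g (ext B y) * P y - q * g (ext B y)| := Finset.abs_sum_le_sum_abs _ _
    _ ≤ ∑ y : B → Bool, |g (ext B y)| * (Q * δ) := Finset.sum_le_sum fun y _ => h5 y
    _ = (∑ y : B → Bool, |g (ext B y)|) * (Q * δ) := by rw [Finset.sum_mul]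
    _ ≤ G * (Q * δ) := by
        refine mul_le_mul_of_nonneg_right ?_ (by positivity)
        rw [hG]; linarith
    _ ≤ ε := by nlinarith

end Crest.Agent.R158.Tl405
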