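import Crest.Agent.R158.Ze5_96
import Crest.Agent.R158.FrA_158

/-!
# Row 158, Block Z (helper96), part 6: `HypA`, `HypB`, `HypC`, `HypD` imply the literal S0236

* `S0236_of` : `HypA → HypB → HypC → HypD →` statement S0236
-/

set_option autoImplicit false

noncomputable section

namespace Crest.Agent.R158.Zf96

open MeasureTheory Filter Topology unitInterval
open Crest.ProbabilityR.Percolation Crest.ProbabilityR.FirstPassage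
open Crest.Agent.R158.Rs689 Crest.Agent.R161.Tas682 Crest.Agent.R161.Geo729
open Crest.Agent.R161.Topo374 Crest.Agent.R161.Dual374
open Crest.Agent.R158.Fr158

/-- the one-arm upper bound at all scales -/
theorem hypA_all (hA : HypA) {η : ℝ} (hη : 0 < η) :
    ∃ C : ℝ, 1 ≤ C ∧ ∀ n : ℕ, 1 ≤ n →
      Fr158.Pr (1 / 2) (Arm1 n) ≤ C * (n : ℝ) ^ (-(5 / 48 : ℝ) + η) := by
  obtain ⟨N, hN⟩ := eventually_atTop.1 (hA η hη)
  refine ⟨(N : ℝ) + 1, by have : (0 : ℝ) ≤ N := by positivity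
                          linarith, fun n hn => ?_⟩
  have hn1 : (1 : ℝ) ≤ n := by exact_mod_cast hn
  have h0 : 0 < (n : ℝ) ^ (-(5 / 48 : ℝ) + η) := Real.rpow_pos_of_pos (by linarith) _
  have hN0 : (0 : ℝ) ≤ N := by positivity
  by_cases h : N ≤ n
  · have h1 := (hN n h).2
    nlinarith
  · have h1 : (n : ℝ) ≤ N := by exact_mod_cast (not_le.1 h).le
    have h2 : (n : ℝ) ^ (-1 : ℝ) ≤ (n : ℝ) ^ (-(5 / 48 : ℝ) + η) :=
      Real.rpow_le_rpow_of_exponent_le hn1 (by linarith)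
    rw [Real.rpow_neg_one] at h2
    have h3 : 1 ≤ (N : ℝ) * (n : ℝ)⁻¹ := by
      rw [← div_eq_mul_inv, le_div_iff₀ (by linarith)]
      linarith
    have h4 : (N : ℝ) * (n : ℝ)⁻¹ ≤ N * (n : ℝ) ^ (-(5 / 48 : ℝ) + η) :=
      mul_le_mul_of_nonneg_left h2 hN0
    have h5 := Pr_le_one (1 / 2) (Arm1 n)
    nlinarith

/-- upper bound of the two-point function inside the window -/
theorem F_window {p C' β : ℝ} {m K : ℕ} (_hC : 0 ≤ C') (hβ : 0 ≤ β) (hβ1 : β ≤ 1)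
    (hm : 1 ≤ m) (hmK : m ≤ K)
    (h : ∀ n : ℕ, 1 ≤ n → n ≤ m → Fr158.Pr p (Arm1 n) ≤ C' * (n : ℝ) ^ (-(β / 2)))
    {x : P2} (h3 : 3 ≤ sd (0, 0) x) (hK : sd (0, 0) x ≤ K) :
    (sd (0, 0) x : ℝ) * F p x ≤ 6 * C' ^ 2 * K * (m : ℝ) ^ (-β) := by
  obtain ⟨r, hr⟩ : ∃ r : ℕ, sd (0, 0) x = r := ⟨(sd (0, 0) x).toNat, by omega⟩
  rw [hr] at h3 hK ⊢
  have hr3 : 3 ≤ r := by exact_mod_cast h3
  have hrK : r ≤ K := by exact_mod_cast hK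
  set n : ℕ := min ((r - 1) / 2) m with hn
  have hn1 : 1 ≤ n := by
    rw [hn, le_min_iff]
    exact ⟨by omega, hm⟩
  have hnm : n ≤ m := min_le_right _ _
  have hn2 : 2 * n < r := by
    have : n ≤ (r - 1) / 2 := min_le_left _ _
    omega
  have e1 : F p x ≤ Fr158.Pr p (Arm1 n) ^ 2 := F_le_arm p (by omega) (by rw [hr]; omega)
  have e2 := h n hn1 hnm
  have hn0 : (0 : ℝ) < n := by exact_mod_cast hn1
  have hm0 : (0 : ℝ) < m := by exact_mod_cast hm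
  have hr0 : (0 : ℝ) < r := by exact_mod_cast (by omega : 0 < r)
  have hK0 : (0 : ℝ) < K := hm0.trans_le (by exact_mod_cast hmK)
  have hmK' : (m : ℝ) ≤ K := by exact_mod_cast hmK
  have hrK' : (r : ℝ) ≤ K := by exact_mod_cast hrK
  have e3 : Fr158.Pr p (Arm1 n) ^ 2 ≤ C' ^ 2 * (n : ℝ) ^ (-β) := by
    calc Fr158.Pr p (Arm1 n) ^ 2 ≤ (C' * (n : ℝ) ^ (-(β / 2))) ^ 2 :=
          pow_le_pow_left₀ (Pr_nonneg _ _) e2 2
      _ = C' ^ 2 * (n : ℝ) ^ (-β) := by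
        rw [mul_pow, ← Real.rpow_natCast ((n : ℝ) ^ (-(β / 2))) 2, ← Real.rpow_mul hn0.le]
        congr 2
        push_cast
        ring
  set u : ℝ := r * m / (6 * K) with hu
  have hu0 : 0 < u := by positivity
  have e4 : u ≤ n := by
    rcases min_choice ((r - 1) / 2) m with h5 | h5
    · have h6 : r ≤ 6 * n := by
        rw [hn, h5]
        omega
      have h7 : (r : ℝ) ≤ 6 * n := by exact_mod_cast h6
      rw [hu, div_le_iff₀ (by positivity)]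
      nlinarith
    · have h6 : n = m := by rw [hn, h5]
      rw [h6, hu, div_le_iff₀ (by positivity)]
      nlinarith
  have e5 : (n : ℝ) ^ (-β) ≤ u ^ (-β) := Real.rpow_le_rpow_of_nonpos hu0 e4 (by linarith)
  have e6 : (r : ℝ) = (6 * K / m) * u := by
    rw [hu]
    field_simp
  have e7 : u ≤ m := by
    rw [hu, div_le_iff₀ (by positivity)]
    nlinarith
  have e8 : (r : ℝ) * u ^ (-β) ≤ 6 * K * (m : ℝ) ^ (-β) := by
    have e9 : u * u ^ (-β) = u ^ (1 - β) := by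
      rw [Real.rpow_sub hu0, Real.rpow_one, Real.rpow_neg hu0.le]
      rfl
    have e10 : u ^ (1 - β) ≤ (m : ℝ) ^ (1 - β) := Real.rpow_le_rpow hu0.le e7 (by linarith)
    have e11 : (m : ℝ) ^ (1 - β) = m * (m : ℝ) ^ (-β) := by
      rw [Real.rpow_sub hm0, Real.rpow_one, Real.rpow_neg hm0.le]
      rfl
    calc (r : ℝ) * u ^ (-β) = (6 * K / m) * (u * u ^ (-β)) := by
          conv_lhs => rw [e6]
          ring
      _ ≤ (6 * K / m) * (m * (m : ℝ) ^ (-β)) := by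
        rw [e9, ← e11]
        exact mul_le_mul_of_nonneg_left e10 (by positivity)
      _ = _ := by field_simp
  calc (r : ℝ) * F p x ≤ r * (C' ^ 2 * u ^ (-β)) := by
        refine mul_le_mul_of_nonneg_left (e1.trans (e3.trans ?_)) hr0.le
        exact mul_le_mul_of_nonneg_left e5 (by positivity)
    _ = C' ^ 2 * (r * u ^ (-β)) := by ring
    _ ≤ C' ^ 2 * (6 * K * (m : ℝ) ^ (-β)) := mul_le_mul_of_nonneg_left e8 (by positivity)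
    _ = _ := by ring

/-- the tail at scale `d^{-4/3-2η}` -/
theorem ev_tail {l : Filter ℝ} {d : ℝ → ℝ} (hd : Tendsto d l (𝓝[>] 0)) {η : ℝ} (hη : 0 < η)
    (A : ℝ) : ∀ᶠ p in l,
      Real.exp (-(d p ^ (-η) / 4)) * (A * (d p ^ (-(4 / 3 : ℝ) - η)) ^ 6) ≤ 1 := by
  have h1 := tendsto_rpow_neg hd hη
  have h2 := (tendsto_rpow_mul_exp_neg_mul_atTop_nhds_zero ((8 + 6 * η) / η) (1 / 4)
    (by norm_num)).const_mul A
  rw [mul_zero] at h2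
  have h3 := (h2.comp h1).eventually (eventually_le_nhds (show (0 : ℝ) < 1 by norm_num))
  filter_upwards [h3, ev_pos_lt hd one_pos] with p h4 h5
  refine le_trans (le_of_eq ?_) h4
  have h6 : (d p ^ (-(4 / 3 : ℝ) - η)) ^ 6 = (d p ^ (-η)) ^ ((8 + 6 * η) / η) := by
    rw [← Real.rpow_natCast (d p ^ (-(4 / 3 : ℝ) - η)) 6, ← Real.rpow_mul h5.1.le,
      ← Real.rpow_mul h5.1.le]
    congr 1
    field_simp
    push_cast
    ring
  simp only [Function.comp]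
  rw [h6]
  have h7 : -(d p ^ (-η) / 4) = -(1 / 4) * d p ^ (-η) := by ring
  rw [h7]
  ring

/-- exponents of both sums -/
theorem core_exp {d η c C : ℝ} {j K m : ℕ} {X Y : ℝ} (hd0 : 0 < d) (hd1 : d < 1) (hη : 0 < η)
    (hη1 : η ≤ 1 / 100) (hdc : d ^ η ≤ c ^ 8)
    (hdC : 6 * C ^ 2 ≤ d ^ (-η)) (hd9 : 9 ≤ d ^ (-η)) (hd26 : 26 ≤ d ^ (-(43 / 18 + 13 * η)))
    (m3 : d ^ (-(4 / 3 - 2 * η)) ≤ m) (j3 : d ^ (-(4 / 3 - 2 * η) + η) ≤ j)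
    (K1 : 1 ≤ K) (K2 : (K : ℝ) ≤ d ^ (-(4 / 3 + 3 * η)))
    (b1 : 2 * (j : ℝ) ^ 2 * (c ^ 8 * d ^ (5 / 18 + 4 * η)) ≤ X)
    (b2 : X ≤ 26 + 8 * K * (6 * (d ^ (-η) * C) ^ 2 * K * (m : ℝ) ^ (-(5 / 24 - 2 * η))))
    (b3 : 2 * (j : ℝ) ^ 4 * (c ^ 8 * d ^ (5 / 18 + 4 * η)) ≤ Y)
    (b4 : Y ≤ 2 * (K : ℝ) ^ 2 * X + 1) :
    d ^ (-(43 : ℝ) / 18 + 11 * η) ≤ X ∧ X ≤ d ^ (-(43 : ℝ) / 18 - 14 * η) ∧
      d ^ (-(8 : ℝ) / 3 + 31 * η) ≤ Y / X ∧ Y / X ≤ d ^ (-(8 : ℝ) / 3 - 7 * η) := by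
  have hrp : ∀ a : ℝ, 0 < d ^ a := fun a => Real.rpow_pos_of_pos hd0 a
  have hadd : ∀ a b : ℝ, d ^ a * d ^ b = d ^ (a + b) := fun a b => (Real.rpow_add hd0 a b).symm
  have hanti : ∀ a b : ℝ, a ≤ b → d ^ b ≤ d ^ a := fun a b hab =>
    Real.rpow_le_rpow_of_exponent_ge hd0 hd1.le hab
  have K0 : (0 : ℝ) < K := by exact_mod_cast K1
  have K1' : (1 : ℝ) ≤ K := by exact_mod_cast K1
  have hL : d ^ (5 / 18 + 5 * η) ≤ c ^ 8 * d ^ (5 / 18 + 4 * η) := by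
    calc d ^ (5 / 18 + 5 * η) = d ^ η * d ^ (5 / 18 + 4 * η) := by
          rw [hadd]
          congr 1
          ring
      _ ≤ _ := mul_le_mul_of_nonneg_right hdc (hrp _).le
  have hL0 : 0 ≤ c ^ 8 * d ^ (5 / 18 + 4 * η) := (hrp _).le.trans hL
  have hj2 : d ^ (-(8 / 3 : ℝ) + 6 * η) ≤ (j : ℝ) ^ 2 := by
    calc d ^ (-(8 / 3 : ℝ) + 6 * η) = (d ^ (-(4 / 3 - 2 * η) + η)) ^ 2 := by
          rw [sq, hadd]
          congr 1
          ring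
      _ ≤ _ := pow_le_pow_left₀ (hrp _).le j3 2
  have hj0 : 0 ≤ (j : ℝ) ^ 2 := by positivity
  have hK2 : (K : ℝ) ^ 2 ≤ d ^ (-(8 / 3 : ℝ) - 6 * η) := by
    calc (K : ℝ) ^ 2 ≤ (d ^ (-(4 / 3 + 3 * η))) ^ 2 := pow_le_pow_left₀ K0.le K2 2
      _ = _ := by
        rw [sq, hadd]
        congr 1
        ring
  have X1 : d ^ (-(43 : ℝ) / 18 + 11 * η) ≤ X := by
    refine le_trans ?_ b1
    have e1 : d ^ (-(43 : ℝ) / 18 + 11 * η) =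
        d ^ (-(8 / 3 : ℝ) + 6 * η) * d ^ (5 / 18 + 5 * η) := by
      rw [hadd]
      congr 1
      ring
    rw [e1]
    refine mul_le_mul ?_ hL (hrp _).le (by linarith)
    linarith
  have X1' : 1 ≤ X := by
    refine le_trans ?_ X1
    calc (1 : ℝ) = d ^ (0 : ℝ) := (Real.rpow_zero _).symm
      _ ≤ _ := hanti _ _ (by linarith)
  have X0 : 0 < X := by linarith
  have hmβ : (m : ℝ) ^ (-(5 / 24 - 2 * η)) ≤ d ^ (5 / 18 - 4 * η) := by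
    calc (m : ℝ) ^ (-(5 / 24 - 2 * η)) ≤ (d ^ (-(4 / 3 - 2 * η))) ^ (-(5 / 24 - 2 * η)) :=
          Real.rpow_le_rpow_of_nonpos (hrp _) m3 (by linarith)
      _ = d ^ (-(4 / 3 - 2 * η) * (-(5 / 24 - 2 * η))) := (Real.rpow_mul hd0.le _ _).symm
      _ ≤ _ := hanti _ _ (by nlinarith)
  have X2 : X ≤ d ^ (-(43 : ℝ) / 18 - 14 * η) := by
    have h1 : 8 * (K : ℝ) * (6 * (d ^ (-η) * C) ^ 2 * K * (m : ℝ) ^ (-(5 / 24 - 2 * η))) ≤
        8 * d ^ (-(43 : ℝ) / 18 - 13 * η) := by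
      have q1 : (6 * C ^ 2) * (d ^ (-η) * d ^ (-η)) ≤ d ^ (-η) * (d ^ (-η) * d ^ (-η)) :=
        mul_le_mul_of_nonneg_right hdC (mul_pos (hrp _) (hrp _)).le
      have q2 : (6 * C ^ 2) * (d ^ (-η) * d ^ (-η)) * (K : ℝ) ^ 2 ≤
          d ^ (-η) * (d ^ (-η) * d ^ (-η)) * d ^ (-(8 / 3 : ℝ) - 6 * η) :=
        mul_le_mul q1 hK2 (by positivity) (mul_pos (hrp _) (mul_pos (hrp _) (hrp _))).le
      have q3 : (6 * C ^ 2) * (d ^ (-η) * d ^ (-η)) * (K : ℝ) ^ 2 *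
            (m : ℝ) ^ (-(5 / 24 - 2 * η)) ≤
          d ^ (-η) * (d ^ (-η) * d ^ (-η)) * d ^ (-(8 / 3 : ℝ) - 6 * η) *
            d ^ (5 / 18 - 4 * η) :=
        mul_le_mul q2 hmβ (Real.rpow_nonneg (Nat.cast_nonneg _) _)
          (mul_pos (mul_pos (hrp _) (mul_pos (hrp _) (hrp _))) (hrp _)).le
      have q4 : d ^ (-η) * (d ^ (-η) * d ^ (-η)) * d ^ (-(8 / 3 : ℝ) - 6 * η) *
            d ^ (5 / 18 - 4 * η) = d ^ (-(43 : ℝ) / 18 - 13 * η) := by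
        rw [hadd, hadd, hadd, hadd]
        congr 1
        ring
      rw [q4] at q3
      calc 8 * (K : ℝ) * (6 * (d ^ (-η) * C) ^ 2 * K * (m : ℝ) ^ (-(5 / 24 - 2 * η)))
          = 8 * ((6 * C ^ 2) * (d ^ (-η) * d ^ (-η)) * (K : ℝ) ^ 2 *
            (m : ℝ) ^ (-(5 / 24 - 2 * η))) := by ring
        _ ≤ _ := mul_le_mul_of_nonneg_left q3 (by norm_num)
    have h2 : (26 : ℝ) ≤ d ^ (-(43 : ℝ) / 18 - 13 * η) := by
      have : -(43 / 18 + 13 * η) = -(43 : ℝ) / 18 - 13 * η := by ring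
      rwa [this] at hd26
    have h3 : 9 * d ^ (-(43 : ℝ) / 18 - 13 * η) ≤ d ^ (-(43 : ℝ) / 18 - 14 * η) := by
      calc 9 * d ^ (-(43 : ℝ) / 18 - 13 * η) ≤ d ^ (-η) * d ^ (-(43 : ℝ) / 18 - 13 * η) :=
            mul_le_mul_of_nonneg_right hd9 (hrp _).le
        _ = _ := by
          rw [hadd]
          congr 1
          ring
    linarith
  refine ⟨X1, X2, ?_, ?_⟩
  · rw [le_div_iff₀ X0]
    have h1 : d ^ (-(16 / 3 : ℝ) + 17 * η + 5 / 18) ≤ Y := by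
      refine le_trans ?_ b3
      have e1 : d ^ (-(16 / 3 : ℝ) + 17 * η + 5 / 18) =
          (d ^ (-(8 / 3 : ℝ) + 6 * η)) ^ 2 * d ^ (5 / 18 + 5 * η) := by
        rw [sq, hadd, hadd]
        congr 1
        ring
      have e2 : (d ^ (-(8 / 3 : ℝ) + 6 * η)) ^ 2 ≤ ((j : ℝ) ^ 2) ^ 2 :=
        pow_le_pow_left₀ (hrp _).le hj2 2
      have e3 : ((j : ℝ) ^ 2) ^ 2 = (j : ℝ) ^ 4 := by ring
      rw [e3] at e2
      have e4 : (0 : ℝ) ≤ (j : ℝ) ^ 4 := by positivity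
      rw [e1]
      refine mul_le_mul ?_ hL (hrp _).le (by linarith)
      linarith
    refine le_trans ?_ h1
    calc d ^ (-(8 : ℝ) / 3 + 31 * η) * X ≤
        d ^ (-(8 : ℝ) / 3 + 31 * η) * d ^ (-(43 : ℝ) / 18 - 14 * η) :=
          mul_le_mul_of_nonneg_left X2 (hrp _).le
      _ = _ := by
        rw [hadd]
        congr 1
        ring
  · rw [div_le_iff₀ X0]
    have h1 : d ^ (-(8 : ℝ) / 3 - 7 * η) = d ^ (-(8 / 3 : ℝ) - 6 * η) * d ^ (-η) := by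
      rw [hadd]
      congr 1
      ring
    have h3 := hrp (-(8 / 3 : ℝ) - 6 * η)
    have h5 : d ^ (-(8 / 3 : ℝ) - 6 * η) * 9 ≤ d ^ (-(8 / 3 : ℝ) - 6 * η) * d ^ (-η) :=
      mul_le_mul_of_nonneg_left hd9 h3.le
    have h2 : 3 * (K : ℝ) ^ 2 ≤ d ^ (-(8 : ℝ) / 3 - 7 * η) := by
      rw [h1]
      linarith
    have h4 : (1 : ℝ) ≤ (K : ℝ) ^ 2 := one_le_pow₀ K1'
    have h6 : 1 ≤ (K : ℝ) ^ 2 * X := one_le_mul_of_one_le_of_one_le h4 X1'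
    calc Y ≤ 2 * (K : ℝ) ^ 2 * X + 1 := b4
      _ ≤ 3 * (K : ℝ) ^ 2 * X := by linarith
      _ ≤ _ := mul_le_mul_of_nonneg_right h2 X0.le

/-- (a): lower bound of the two-point function -/
theorem F_low {p d η c : ℝ} {j : ℕ} (hd0 : 0 < d) (hc0 : 0 < c) (j1 : 1 ≤ j)
    (h2 : c ≤ Fr158.Pr p (LR (4 * j : ℕ))) (h3 : Fr158.Pr p (BT (20 * j + 2 : ℕ)) ≤ 1 - c)
    (h4 : d ^ η * Fr158.Pr (1 / 2) (Arm1 (8 * j : ℕ)) ≤ Fr158.Pr p (Arm1 (8 * j : ℕ)))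
    (hA2 : d ^ (5 / 48 * (4 / 3) + η) ≤ Fr158.Pr (1 / 2) (Arm1 (8 * j : ℕ)))
    (x : P2) (hx : sd (0, 0) x ≤ 2 * j) : c ^ 8 * d ^ (5 / 18 + 4 * η) ≤ F p x := by
  have hrp : ∀ a : ℝ, 0 < d ^ a := fun a => Real.rpow_pos_of_pos hd0 a
  have hadd : ∀ a b : ℝ, d ^ a * d ^ b = d ^ (a + b) := fun a b => (Real.rpow_add hd0 a b).symm
  have h1 := F_ge p (k := 2 * (j : ℤ)) (by positivity) hx
  have e2 : ((4 * j : ℕ) : ℤ) = 2 * (2 * (j : ℤ)) := by push_cast; ring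
  have e3 : ((20 * j + 2 : ℕ) : ℤ) = 10 * (2 * (j : ℤ)) + 2 := by push_cast; ring
  have e4 : ((8 * j : ℕ) : ℤ) = 4 * (2 * (j : ℤ)) := by push_cast; ring
  rw [e2] at h2
  rw [e3] at h3
  rw [e4] at h4 hA2
  refine le_trans ?_ h1
  have h5 : d ^ (5 / 36 + 2 * η) ≤ Fr158.Pr p (Arm1 (4 * (2 * (j : ℤ)))) := by
    refine le_trans ?_ h4
    calc d ^ (5 / 36 + 2 * η) = d ^ η * d ^ (5 / 48 * (4 / 3) + η) := by
          rw [hadd]
          congr 1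
          ring
      _ ≤ _ := mul_le_mul_of_nonneg_left hA2 (hrp η).le
  have h6 : d ^ (5 / 18 + 4 * η) = (d ^ (5 / 36 + 2 * η)) ^ 2 := by
    rw [sq, hadd]
    congr 1
    ring
  have h7 := hrp (5 / 36 + 2 * η)
  have h8 : c ≤ 1 - Fr158.Pr p (BT (10 * (2 * (j : ℤ)) + 2)) := by linarith
  have g1 := pow_le_pow_left₀ hc0.le h2 4
  have g2 := pow_le_pow_left₀ h7.le h5 2
  have g3 := pow_le_pow_left₀ hc0.le h8 4
  calc c ^ 8 * d ^ (5 / 18 + 4 * η) = (c ^ 4 * (d ^ (5 / 36 + 2 * η)) ^ 2) * c ^ 4 := by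
        rw [h6]; ring
    _ ≤ _ := mul_le_mul (mul_le_mul g1 g2 (by positivity) (by positivity)) g3 (by positivity)
      (by positivity)

/-- **Bounds at one parameter.** -/
theorem main_at {p d η c C : ℝ} {j K m M : ℕ} (hd0 : 0 < d) (hd1 : d < 1) (hη : 0 < η)
    (hη1 : η ≤ 1 / 100) (hc0 : 0 < c) (hdc : d ^ η ≤ c ^ 8) (hd22 : d ^ η ≤ 1 / 22)
    (hC0 : 0 ≤ C)
    (hdC : 6 * C ^ 2 ≤ d ^ (-η)) (hd9 : 9 ≤ d ^ (-η)) (hd26 : 26 ≤ d ^ (-(43 / 18 + 13 * η)))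
    (m1 : 1 ≤ m) (m2 : (m : ℝ) ≤ d ^ (-(4 / 3 : ℝ) + η)) (m3 : d ^ (-(4 / 3 - 2 * η)) ≤ m)
    (j1 : 1 ≤ j) (j2 : (j : ℝ) ≤ d ^ (-(4 / 3 - 2 * η))) (j3 : d ^ (-(4 / 3 - 2 * η) + η) ≤ j)
    (K1 : 1 ≤ K) (K2 : (K : ℝ) ≤ d ^ (-(4 / 3 + 3 * η))) (K3 : d ^ (-(4 / 3 + 3 * η) + η) ≤ K)
    (M1 : 1 ≤ M) (M2 : (M : ℝ) ≤ d ^ (-(4 / 3 : ℝ) - η))
    (M3 : Ze96.Q (clampUnit p) M ≤ 1 / 500 ∨ Ze96.Q (σ (clampUnit p)) M ≤ 1 / 500)
    (hA1 : ∀ n : ℕ, 1 ≤ n → Fr158.Pr (1 / 2) (Arm1 n) ≤ C * (n : ℝ) ^ (-(5 / 48 : ℝ) + η))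
    (hA2 : d ^ (5 / 48 * (4 / 3) + η) ≤ Fr158.Pr (1 / 2) (Arm1 (8 * j : ℕ)))
    (hB : ∀ n : ℕ, 1 ≤ n → (n : ℝ) ≤ d ^ (-(4 / 3 : ℝ) + η) →
      d ^ η * Fr158.Pr (1 / 2) (Arm1 n) ≤ Fr158.Pr p (Arm1 n) ∧
        Fr158.Pr p (Arm1 n) ≤ d ^ (-η) * Fr158.Pr (1 / 2) (Arm1 n))
    (hC : ∀ n : ℕ, 1 ≤ n → (n : ℝ) ≤ d ^ (-(4 / 3 : ℝ) + η) →
      c ≤ Fr158.Pr p (LR n) ∧ Fr158.Pr p (BT n) ≤ 1 - c)
    (htail : Real.exp (-(d ^ (-η) / 4)) * (CT * W2 * (d ^ (-(4 / 3 : ℝ) - η)) ^ 6) ≤ 1) :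
    d ^ (-(43 : ℝ) / 18 + 11 * η) ≤ Xs p ∧ Xs p ≤ d ^ (-(43 : ℝ) / 18 - 14 * η) ∧
      d ^ (-(8 : ℝ) / 3 + 31 * η) ≤ Ys p / Xs p ∧
      Ys p / Xs p ≤ d ^ (-(8 : ℝ) / 3 - 7 * η) := by
  have hrp : ∀ a : ℝ, 0 < d ^ a := fun a => Real.rpow_pos_of_pos hd0 a
  have hadd : ∀ a b : ℝ, d ^ a * d ^ b = d ^ (a + b) := fun a b => (Real.rpow_add hd0 a b).symm
  have hanti : ∀ a b : ℝ, a ≤ b → d ^ b ≤ d ^ a := fun a b hab =>
    Real.rpow_le_rpow_of_exponent_ge hd0 hd1.le hab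
  have j0 : (0 : ℝ) < j := by exact_mod_cast j1
  have m0 : (0 : ℝ) < m := by exact_mod_cast m1
  have K0 : (0 : ℝ) < K := by exact_mod_cast K1
  have M0 : (0 : ℝ) < M := by exact_mod_cast M1
  have j1' : (1 : ℝ) ≤ j := by exact_mod_cast j1
  -- scales
  have hj22 : 22 * (j : ℝ) ≤ d ^ (-(4 / 3 : ℝ) + η) := by
    have h1 : d ^ (-(4 / 3 - 2 * η)) = d ^ (-(4 / 3 : ℝ) + η) * d ^ η := by
      rw [hadd]
      congr 1
      ring
    rw [h1] at j2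
    have h2 := mul_le_mul_of_nonneg_left hd22 (hrp (-(4 / 3 : ℝ) + η)).le
    linarith
  have hmK : m ≤ K := by
    have h1 : (m : ℝ) ≤ K := by
      calc (m : ℝ) ≤ d ^ (-(4 / 3 : ℝ) + η) := m2
        _ ≤ d ^ (-(4 / 3 + 3 * η) + η) := hanti _ _ (by linarith)
        _ ≤ K := K3
    exact_mod_cast h1
  have hK3 : d ^ (-(4 / 3 : ℝ) - η) * d ^ (-η) ≤ K := by
    refine le_trans (le_of_eq ?_) K3
    rw [hadd]
    congr 1
    ring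
  have hMKη : (M : ℝ) * d ^ (-η) ≤ K :=
    (mul_le_mul_of_nonneg_right M2 (hrp _).le).trans hK3
  have hMK : 2 * (M : ℝ) ≤ K := by
    have h1 : (M : ℝ) * 9 ≤ M * d ^ (-η) := mul_le_mul_of_nonneg_left hd9 M0.le
    linarith
  -- (a)
  have ha : ∀ x : P2, sd (0, 0) x ≤ 2 * j → c ^ 8 * d ^ (5 / 18 + 4 * η) ≤ F p x := by
    have h2 := (hC (4 * j) (by omega) (by push_cast; linarith)).1
    have h3 := (hC (20 * j + 2) (by omega) (by push_cast; linarith)).2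
    have h4 := (hB (8 * j) (by omega) (by push_cast; linarith)).1
    exact F_low hd0 hc0 j1 h2 h3 h4 hA2
  -- (b)
  have hb : ∀ x : P2, 3 ≤ sd (0, 0) x → sd (0, 0) x ≤ K →
      (sd (0, 0) x : ℝ) * F p x ≤ 6 * (d ^ (-η) * C) ^ 2 * K * (m : ℝ) ^ (-(5 / 24 - 2 * η)) := by
    intro x h3 h4
    refine F_window (mul_nonneg (hrp _).le hC0) (by linarith) (by linarith) m1 hmK ?_ h3 h4
    intro n hn1 hnm
    have h5 : (n : ℝ) ≤ d ^ (-(4 / 3 : ℝ) + η) := le_trans (by exact_mod_cast hnm) m2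
    have h6 := (hB n hn1 h5).2
    have h7 := hA1 n hn1
    have h8 : -(5 / 48 : ℝ) + η = -((5 / 24 - 2 * η) / 2) := by ring
    rw [← h8]
    calc Fr158.Pr p (Arm1 n) ≤ d ^ (-η) * Fr158.Pr (1 / 2) (Arm1 n) := h6
      _ ≤ d ^ (-η) * (C * (n : ℝ) ^ (-(5 / 48 : ℝ) + η)) :=
        mul_le_mul_of_nonneg_left h7 (hrp _).le
      _ = _ := (mul_assoc _ _ _).symm
  -- (c)
  have hcc : ∀ x : P2, (K : ℤ) < sd (0, 0) x →
      F p x ≤ Real.exp (-(sd (0, 0) x : ℝ) / (2 * M)) := by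
    intro x hx
    have h1 : (2 : ℤ) * M ≤ K := by exact_mod_cast hMK
    have := F_decay p (M := M) (by exact_mod_cast M1) M3 (x := x) (by omega)
    rwa [Int.cast_natCast] at this
  -- (d)
  have hdd' : Real.exp (-(K : ℝ) / (4 * M)) * (CT * (M : ℝ) ^ 6) * W2 ≤ 1 := by
    have h1 : d ^ (-η) / 4 ≤ (K : ℝ) / (4 * M) := by
      rw [div_le_div_iff₀ (by norm_num) (by positivity)]
      linarith
    have h2 : Real.exp (-(K : ℝ) / (4 * M)) ≤ Real.exp (-(d ^ (-η) / 4)) := by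
      apply Real.exp_le_exp.2
      rw [neg_div]
      exact neg_le_neg h1
    have h3 : (M : ℝ) ^ 6 ≤ (d ^ (-(4 / 3 : ℝ) - η)) ^ 6 := pow_le_pow_left₀ M0.le M2 6
    have h4 : 0 ≤ W2 := tsum_nonneg w2_nonneg
    have h5 : 0 ≤ CT := by unfold CT; norm_num
    have h6 : 0 ≤ CT * W2 := mul_nonneg h5 h4
    calc Real.exp (-(K : ℝ) / (4 * M)) * (CT * (M : ℝ) ^ 6) * W2
        = Real.exp (-(K : ℝ) / (4 * M)) * ((CT * W2) * (M : ℝ) ^ 6) := by ring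
      _ ≤ Real.exp (-(d ^ (-η) / 4)) * ((CT * W2) * (d ^ (-(4 / 3 : ℝ) - η)) ^ 6) :=
        mul_le_mul h2 (mul_le_mul_of_nonneg_left h3 h6)
          (mul_nonneg h6 (by positivity)) (Real.exp_pos _).le
      _ ≤ 1 := htail
  have hL0 : 0 ≤ c ^ 8 * d ^ (5 / 18 + 4 * η) := mul_nonneg (by positivity) (hrp _).le
  have hG0 : 0 ≤ 6 * (d ^ (-η) * C) ^ 2 * K * (m : ℝ) ^ (-(5 / 24 - 2 * η)) := by
    have := Real.rpow_nonneg m0.le (-(5 / 24 - 2 * η))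
    positivity
  obtain ⟨b1, b2, b3, b4⟩ := sum_bounds j1 M1 hL0 hG0 K1 ha hb hcc hdd'
  exact core_exp hd0 hd1 hη hη1 hdc hdC hd9 hd26 m3 j3 K1 K2 b1 b2 b3 b4

/-- **Bounds of both sums.** -/
theorem main_bounds (hA : HypA) (hB : HypB) (hC : HypC) (hD : HypD) {η : ℝ} (hη : 0 < η)
    (hη1 : η ≤ 1 / 100) : ∀ᶠ p : ℝ in 𝓝[≠] (1 / 2),
      |p - 1 / 2| ^ (-(43 : ℝ) / 18 + 11 * η) ≤ Xs p ∧
      Xs p ≤ |p - 1 / 2| ^ (-(43 : ℝ) / 18 - 14 * η) ∧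
      |p - 1 / 2| ^ (-(8 : ℝ) / 3 + 31 * η) ≤ Ys p / Xs p ∧
      Ys p / Xs p ≤ |p - 1 / 2| ^ (-(8 : ℝ) / 3 - 7 * η) := by
  have hd := tendsto_abs_sub_half
  obtain ⟨c, hc0, hC⟩ := hC
  obtain ⟨C, hC1, hA1⟩ := hypA_all hA hη
  have s1 := scale_minus hd hη (by linarith)
  have s2 := ev_floor hd (s := 4 / 3 - 2 * η) (ε := η) (by linarith) hη
  have s3 := ev_floor hd (s := 4 / 3 + 3 * η) (ε := η) (by linarith) hη
  have hA2 := hypA_lower hA hd (t := 4 / 3) (by norm_num)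
    (n := fun p => 8 * ⌊|p - 1 / 2| ^ (-(4 / 3 - 2 * η))⌋₊) (ε := η) (by
      filter_upwards [s2, ev_rpow_le hd hη (by norm_num : (0 : ℝ) < 1 / 22),
        ev_pos_lt hd one_pos] with p h1 h2 h3
      have h4 : |p - 1 / 2| ^ (-(4 / 3 - 2 * η)) =
          |p - 1 / 2| ^ (-(4 / 3 : ℝ)) * (|p - 1 / 2| ^ η * |p - 1 / 2| ^ η) := by
        rw [← Real.rpow_add h3.1, ← Real.rpow_add h3.1]
        congr 1
        ring
      have h5 : 0 < |p - 1 / 2| ^ (-(4 / 3 : ℝ)) := Real.rpow_pos_of_pos h3.1 _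
      have h6 : 0 < |p - 1 / 2| ^ η := Real.rpow_pos_of_pos h3.1 _
      have h7 := h1.2.1
      have h9 : |p - 1 / 2| ^ η * |p - 1 / 2| ^ η ≤ 1 / 22 * 1 :=
        mul_le_mul h2 (by linarith) h6.le (by norm_num)
      have h8 := mul_le_mul_of_nonneg_left h9 h5.le
      rw [← h4] at h8
      push_cast
      linarith) hη
  filter_upwards [s1, s2, s3, hA2, hB η hη, hC η hη,
    hypD_Q hD (δ := 1 / 500) (by norm_num) hη,
    ev_tail hd hη (CT * W2), ev_pos_lt hd one_pos,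
    ev_rpow_le hd hη (by norm_num : (0 : ℝ) < 1 / 22),
    ev_rpow_le hd hη (show (0 : ℝ) < c ^ 8 by positivity),
    ev_const_le hd hη (6 * C ^ 2), ev_const_le hd hη 9,
    ev_const_le hd (show 0 < 43 / 18 + 13 * η by linarith) 26]
    with p s1 s2 s3 hA2 hB hC hD htail hd01 hd22 hdc hdC hd9 hd26
  obtain ⟨M, M1, M2, M3⟩ := hD
  exact main_at hd01.1 hd01.2 hη hη1 hc0 hdc hd22 (by linarith) hdC hd9 hd26 s1.1 s1.2.1 s1.2.2
    s2.1 s2.2.1 s2.2.2 s3.1 s3.2.1 s3.2.2 M1 M2 M3 hA1 hA2 hB hC htail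

/-- **Statement S0236 from the four inputs.** -/
theorem S0236_of (hA : HypA) (hB : HypB) (hC : HypC) (hD : HypD) :
    Filter.Tendsto
        (fun p : ℝ => Real.log (truncSusceptibility p) / Real.log (abs (p - 1 / 2)))
        (nhdsWithin (1 / 2) {(1 / 2 : ℝ)}ᶜ) (nhds (-(43 : ℝ) / 18)) ∧
      Filter.Tendsto
        (fun p : ℝ => Real.log (correlationLength p) / Real.log (abs (p - 1 / 2)))
        (nhdsWithin (1 / 2) {(1 / 2 : ℝ)}ᶜ) (nhds (-(4 : ℝ) / 3)) := by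
  have hd := tendsto_abs_sub_half
  constructor
  · apply tendsto_logratio hd
    intro ε hε
    have hη : 0 < min (ε / 14) (1 / 100) := lt_min (by positivity) (by norm_num)
    filter_upwards [main_bounds hA hB hC hD hη (min_le_right _ _), ev_pos_lt hd one_pos]
      with p h1 h2
    have h3 : min (ε / 14) (1 / 100) ≤ ε / 14 := min_le_left _ _
    rw [trunc_real]
    refine ⟨le_trans ?_ h1.1, h1.2.1.trans ?_⟩ <;>
      exact Real.rpow_le_rpow_of_exponent_ge h2.1 h2.2.le (by linarith)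
  · apply tendsto_logratio hd
    intro ε hε
    have hη : 0 < min (ε / 31) (1 / 100) := lt_min (by positivity) (by norm_num)
    filter_upwards [main_bounds hA hB hC hD hη (min_le_right _ _), ev_pos_lt hd one_pos]
      with p h1 h2
    have h3 : min (ε / 31) (1 / 100) ≤ ε / 31 := min_le_left _ _
    have hsq : ∀ a : ℝ, |p - 1 / 2| ^ a = √(|p - 1 / 2| ^ (2 * a)) := by
      intro a
      rw [Real.sqrt_eq_rpow, ← Real.rpow_mul h2.1.le]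
      congr 1
      ring
    rw [corr_real, hsq (-(4 : ℝ) / 3 + ε), hsq (-(4 : ℝ) / 3 - ε)]
    constructor
    · apply Real.sqrt_le_sqrt
      refine le_trans ?_ h1.2.2.1
      exact Real.rpow_le_rpow_of_exponent_ge h2.1 h2.2.le (by linarith)
    · apply Real.sqrt_le_sqrt
      refine h1.2.2.2.trans ?_
      exact Real.rpow_le_rpow_of_exponent_ge h2.1 h2.2.le (by linarith)

end Crest.Agent.R158.Zf96
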