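import Crest.Agent.R158.FrEnd_158
import Crest.Agent.R158.Ze6_96
import Crest.Agent.R158.Ld5_570
import Crest.Agent.R158.Cpl9_963
import Crest.Agent.R158.Ax2_107

/-!
# Row 158 (helper772, integration of S0235 + S0236): the two statements from the open leaves

State of the tree: everything except the hypotheses of `s0235_of`, `s0236_of` below is on main.

* `HypA`                     : one arm at `p = 1/2` (Block W: 850, 297, 522, 109)
* `SB p2`, `SC p2 p4`, `SD p2 p4` : identities B, C, D of doc 1912 (612; 841, 468, 110; 61, 107)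
* `QM`                       : `P4U → L4 → HypU4` (808: Qf*, with 158's glue_out, 458, 200, 814, 874)
* `HypBD`                    : boundary blocks (488)
* `HypGl A4c`                : one-scale separation and gluing (580, 689, 158, 458, 200, 814, 874)
-/

set_option autoImplicit false

noncomputable section

namespace Crest.Agent.R158.Top772

open MeasureTheory Filter Topology unitInterval
open Crest.ProbabilityR.Percolation Crest.ProbabilityR.FirstPassage
open Crest.Agent.R161.Geo729 Crest.Agent.R161.Tas682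
open Crest.Agent.R158.Fr158 Crest.Agent.R158.Cpl963 Crest.Agent.R158.Ld570
open Crest.Agent.R158.Ax107

/-- four arms, natural number radius -/
def A4c : Edge → ℕ → Set Cf := fun e r => Sp580.A4 e (r : ℤ)

/-- the annulus form of the four-arm upper bound from the point form -/
def QM : Prop := Ax107.P4U → Cpl963.L4 → Cpl963.HypU4

theorem hypA4_of (hU : HypU4) (hL : Cpl963.L4) : HypA4 A4c := by
  intro δ ε hδ hε
  exact Cpl963.A4low hU hL hδ hε

theorem hypD_of' (hU : HypU4) (hL : Cpl963.L4) (hBD : HypBD) (hGl : HypGl A4c) : HypD :=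
  Ld570.hypD_of (hypC_of_U4 hU) hBD hGl (hypA4_of hU hL)

/-- S0235, literal statement -/
def St235 : Prop :=
  Filter.Tendsto (fun R : ℝ => Real.log (oneArmProb R).toReal / Real.log R)
      Filter.atTop (nhds (-(5 : ℝ) / 48)) ∧
    Filter.Tendsto (fun p : ℝ => Real.log (percolationProb p).toReal / Real.log (p - 1 / 2))
      (nhdsWithin (1 / 2) (Set.Ioi (1 / 2))) (nhds ((5 : ℝ) / 36))

/-- S0236, literal statement -/
def St236 : Prop :=
  Filter.Tendsto
      (fun p : ℝ => Real.log (truncSusceptibility p) / Real.log (abs (p - 1 / 2)))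
      (nhdsWithin (1 / 2) {(1 / 2 : ℝ)}ᶜ) (nhds (-(43 : ℝ) / 18)) ∧
    Filter.Tendsto
      (fun p : ℝ => Real.log (correlationLength p) / Real.log (abs (p - 1 / 2)))
      (nhdsWithin (1 / 2) {(1 / 2 : ℝ)}ᶜ) (nhds (-(4 : ℝ) / 3))

/-- S0235 from `HypA`, the two critical four-arm bounds, the boundary blocks and the gluing -/
theorem s0235_of (hA : HypA) (hU : HypU4) (hL : Cpl963.L4) (hBD : HypBD) (hGl : HypGl A4c) :
    St235 :=
  Fr158.s0235 hA (hypB_of_U4 hU) (hypD_of' hU hL hBD hGl)

theorem s0236_of (hA : HypA) (hU : HypU4) (hL : Cpl963.L4) (hBD : HypBD) (hGl : HypGl A4c) :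
    St236 :=
  Fr158.s0236' hA (hypB_of_U4 hU) (hypC_of_U4 hU) (hypD_of' hU hL hBD hGl)

/-- both statements from the leaves open on Nov 16, 22:40 -/
theorem both_of (hA : HypA) (hB : SB p2) (hC : SC p2 p4) (hD : SD p2 p4) (hQM : QM)
    (hBD : HypBD) (hGl : HypGl A4c) : St235 ∧ St236 := by
  obtain ⟨hL, hP, _, _⟩ := Ax107.final hB hC hD
  have hU : HypU4 := hQM hP hL
  exact ⟨s0235_of hA hU hL hBD hGl, s0236_of hA hU hL hBD hGl⟩

end Crest.Agent.R158.Top772
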