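import Crest.Agent.R158.Wh1_109
import Crest.Agent.R158.Ac1_109
import Crest.Agent.R158.Wf1_850
import Crest.Agent.R158.We1_297
import Crest.Agent.R158.Cn4_109

/-!
# Row 158, BLOCK W-F (helper109), part 2: the one-arm exponent

* `MM`, `DD` : the data of `We297.Hyp`
* `arm_sub`, `zero_sub` : arms against `NN = 0`
* `F1z` : the bound `F1` at `a = π / 6`
* `hypA` : `We297.Hyp` and `F1z` ⟹ `Fr158.HypA`
-/

set_option autoImplicit false

noncomputable section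

namespace Crest.Agent.R158.Wh109

open MeasureTheory Filter Topology Real
open Crest.Agent.R161.Geo729 Crest.Agent.R161.Topo374 Crest.Agent.R161.Dual374
open Crest.Agent.R161.Tas682 Crest.Agent.R158.Rs689
open Crest.Agent.R158.Qm522 Crest.Agent.R158.Ac109
open Crest.Agent.R158.Wf850 (NN NN_dep NN_zero_iff BF mem_BF Cl Face Lps lps_open lps_closed
  loop_between BF_mono annF)
open Crest.Agent.R158.We297 (kap ff lam eta)

/-- generating function of the number of loops in the annulus -/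
def MM (i : ℕ × ℕ) (x : ℝ) : ℝ :=
  ∫ z, x ^ NN (0, 0) (i.2 : ℤ) ((i.1 * i.2 / 2 : ℕ) : ℤ) z ∂(nu hf)

/-- difference of the local means -/
def DD (i : ℕ × ℕ) : ℝ := Cn109.VV (Nat.log 2 (i.1 * i.2)) - Cn109.VV (Nat.log 2 i.2)

/-- the parameter filter `K → ∞` after `r → ∞` -/
def FF : Filter (ℕ × ℕ) := Filter.curry atTop atTop

/-- probability of no loop -/
def Q0 (r R : ℤ) : ℝ := (nu hf).real {z | NN (0, 0) r R z = 0}

theorem meas_zero (r R : ℤ) : MeasurableSet {z : Cfz | NN (0, 0) r R z = 0} := by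
  have h : Dep (annF (0, 0) r R) {z : Cfz | NN (0, 0) r R z = 0} := by
    intro z z' hz
    show NN (0, 0) r R z = 0 ↔ NN (0, 0) r R z' = 0
    rw [NN_dep (0, 0) r R z z' hz]
  exact h.measurableSet

theorem MM_zero (i : ℕ × ℕ) : MM i 0 = Q0 (i.2 : ℤ) ((i.1 * i.2 / 2 : ℕ) : ℤ) := by
  unfold MM Q0
  rw [← integral_indicator_one (meas_zero _ _)]
  refine integral_congr_ae (Filter.Eventually.of_forall fun z => ?_)
  by_cases h : NN (0, 0) (i.2 : ℤ) ((i.1 * i.2 / 2 : ℕ) : ℤ) z = 0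
  · rw [Set.indicator_of_mem (a := z) (s := {z | NN (0, 0) (i.2 : ℤ) ((i.1 * i.2 / 2 : ℕ) : ℤ) z = 0}) h]
    show (0 : ℝ) ^ NN (0, 0) (i.2 : ℤ) ((i.1 * i.2 / 2 : ℕ) : ℤ) z = 1
    rw [h, pow_zero]
  · rw [Set.indicator_of_notMem (a := z) (s := {z | NN (0, 0) (i.2 : ℤ) ((i.1 * i.2 / 2 : ℕ) : ℤ) z = 0}) h]
    show (0 : ℝ) ^ NN (0, 0) (i.2 : ℤ) ((i.1 * i.2 / 2 : ℕ) : ℤ) z = 0
    exact zero_pow h

/-- an arm forbids loops -/
theorem arm_sub (r R : ℤ) : PArm (0, 0) r (R + 1) ⊆ {z | NN (0, 0) r R z = 0} := by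
  rintro z ⟨u, v, hu, hv, huv⟩
  show NN (0, 0) r R z = 0
  rw [NN_zero_iff]
  intro A hA h1 h2
  have h3 : (u, false) ∈ A := h1 (mem_BF.2 hu)
  have h4 : (v, false) ∈ A := (lps_open hA huv).1 h3
  have h5 := mem_BF.1 (h2 h4)
  have h6 : sd (0, 0) v ≤ R := h5
  linarith

/-- no loop forces an arm -/
theorem zero_sub {r R : ℤ} (hr : 0 ≤ r) :
    {z | NN (0, 0) r (R + 1) z = 0} ⊆ PArm (0, 0) r (R + 1) ∪ DArm (0, 0) r (R + 1) := by
  intro z hz
  have hz' : NN (0, 0) r (R + 1) z = 0 := hz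
  rw [NN_zero_iff] at hz'
  by_contra hcon
  rw [Set.mem_union, not_or] at hcon
  obtain ⟨A, hA, h1, h2⟩ := loop_between (z := z) (x := (0, 0)) (r := r) (R := R) hr (by
    intro f g hf hfg
    by_contra hg
    rw [mem_BF] at hf hg
    obtain ⟨hc, hcl⟩ := hfg
    rcases hcl with ⟨_, h3⟩ | ⟨_, h3⟩
    · exact hcon.1 ⟨f.1, g.1, hf, by omega, h3⟩
    · exact hcon.2 ⟨f.1, g.1, hf, by omega, h3⟩)
  exact hz' A hA h1 h2

theorem P1_le_Q0 {r R : ℤ} (h : r ≤ R + 1) : P1 r (R + 1) ≤ Q0 r R := by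
  rw [← parm_P1 (0, 0) h]
  exact measureReal_mono (arm_sub r R)

theorem Q0_le_P1 {r R : ℤ} (hr : 0 ≤ r) (h : r ≤ R) : Q0 r R ≤ 2 * P1 r R := by
  have h1 : Q0 r R ≤ (nu hf).real (PArm (0, 0) r R ∪ DArm (0, 0) r R) := by
    have := zero_sub (r := r) (R := R - 1) hr
    rw [sub_add_cancel] at this
    exact measureReal_mono this
  exact h1.trans (any_le h)

theorem P1_anti' : Antitone fun n : ℕ => P1 0 n := fun n m h =>
  P1_anti (by omega) (by exact_mod_cast h)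

/-- **F1 at `a = π/6`** -/
def F1z : Prop := ∀ p : ℝ, 1 < p → ∃ C, 0 < C ∧ ∀ᶠ i in FF,
  Real.exp (-(kap * (π / 6) ^ 2 / 2) * Real.log (i.1 : ℝ))
    ≤ C * Real.exp (√3 * (π / 6) * DD i) * (MM i 0) ^ (1 / p)

/-- the exponent at `t = π/2` -/
theorem eta_half : eta (π / 2) = 5 / 48 := by
  unfold eta
  have := pi_ne_zero
  field_simp
  norm_num

theorem eta_cont : Continuous eta := by unfold eta; fun_prop

theorem exp_log_rpow {K : ℕ} (hK : 1 ≤ K) (x : ℝ) : Real.exp (x * Real.log (K : ℝ)) = (K : ℝ) ^ x := by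
  have : (0 : ℝ) < K := by exact_mod_cast hK
  rw [Real.rpow_def_of_pos this, mul_comm]

/-- upper bound of `P(NN = 0)` -/
theorem Q0_upper (H : We297.Hyp FF (fun i => Real.log (i.1 : ℝ)) DD MM) {d : ℝ} (hd : 0 < d) :
    ∀ᶠ K : ℕ in atTop, ∀ᶠ r : ℕ in atTop,
      Q0 (r : ℤ) ((K * r / 2 : ℕ) : ℤ) ≤ (K : ℝ) ^ (-(5 / 48 : ℝ) + d) := by
  have hpi := pi_pos
  obtain ⟨t, ht0, ht1, ht2⟩ : ∃ t, π / 6 < t ∧ t < π / 2 ∧ 5 / 48 - d / 2 < eta t := by
    have h1 : ∀ᶠ t in 𝓝 (π / 2), 5 / 48 - d / 2 < eta t :=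
      eta_cont.continuousAt.eventually (lt_mem_nhds (by rw [eta_half]; linarith))
    have h2 : ∀ᶠ t in 𝓝 (π / 2), π / 6 < t := lt_mem_nhds (by linarith)
    obtain ⟨t, h3, h4, h5⟩ := ((h1.filter_mono nhdsWithin_le_nhds).and
      ((h2.filter_mono nhdsWithin_le_nhds).and
        (self_mem_nhdsWithin : ∀ᶠ t in 𝓝[<] (π / 2), t ∈ Set.Iio (π / 2)))).exists
    exact ⟨t, h4, h5, h3⟩
  have h1 := We297.X H ht0 ht1 (d := d / 2) (by positivity)
  have h2 : ∀ᶠ i in FF, Q0 (i.2 : ℤ) ((i.1 * i.2 / 2 : ℕ) : ℤ) ≤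
      Real.exp ((-(5 / 48) + d) * Real.log (i.1 : ℝ)) := by
    filter_upwards [h1, H.ell_top.eventually_ge_atTop 0] with i h3 h4
    rw [← MM_zero]
    have hcos : 0 ≤ 2 * Real.cos t := by
      have := Real.cos_pos_of_mem_Ioo (x := t) ⟨by linarith, ht1⟩
      linarith
    refine (H.mono i 0 _ le_rfl hcos).trans (h3.2.trans ?_)
    apply Real.exp_le_exp.2
    apply mul_le_mul_of_nonneg_right _ h4
    linarith
  have h3 := Filter.eventually_curry_iff.1 h2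
  filter_upwards [h3, eventually_ge_atTop 1] with K hK hK1
  filter_upwards [hK] with r hr
  rw [← exp_log_rpow hK1]
  exact hr

/-- lower bound of `P(NN = 0)` -/
theorem Q0_lower (H : We297.Hyp FF (fun i => Real.log (i.1 : ℝ)) DD MM) (hF : F1z) {d : ℝ}
    (hd : 0 < d) : ∀ᶠ K : ℕ in atTop, ∀ᶠ r : ℕ in atTop,
      (K : ℝ) ^ (-(5 / 48 : ℝ) - d) ≤ Q0 (r : ℤ) ((K * r / 2 : ℕ) : ℤ) := by
  have hpi := pi_pos
  -- choose p
  obtain ⟨p, hp, hpd⟩ : ∃ p : ℝ, 1 < p ∧ p * (5 / 48 + d / 2) ≤ 5 / 48 + 3 * d / 4 := by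
    refine ⟨1 + (d / 4) / (5 / 48 + d / 2), ?_, le_of_eq ?_⟩
    · have : 0 < (d / 4) / (5 / 48 + d / 2) := by positivity
      linarith
    · have : (5 / 48 + d / 2 : ℝ) ≠ 0 := by positivity
      field_simp
      ring
  have hp0 : 0 < p := by linarith
  obtain ⟨C, hC, h1⟩ := hF p hp
  have hden := (Metric.tendsto_nhds.mp (We297.density H)) (d / (4 * π)) (by positivity)
  have hs := We297.small_div H.ell_top (p * Real.log C) (d := d / 4) (by positivity)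
  have h2 : ∀ᶠ i in FF, Real.exp ((-(5 / 48) - d) * Real.log (i.1 : ℝ)) ≤
      Q0 (i.2 : ℤ) ((i.1 * i.2 / 2 : ℕ) : ℤ) := by
    filter_upwards [h1, hden, hs, H.ell_top.eventually_gt_atTop 0] with i h1 h2 h3 hell
    rw [← MM_zero]
    obtain ⟨hm, k⟩ := We297.log1 hC (H.nonneg i 0 le_rfl) hp0 h1
    refine le_trans (Real.exp_le_exp.2 ?_) (le_of_eq (Real.exp_log hm))
    set X := Real.log (MM i 0)
    set ell := Real.log (i.1 : ℝ)
    have hD : √3 * DD i = (√3 * DD i / ell) * ell := by field_simp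
    set c := √3 * DD i / ell
    rw [Real.dist_eq, abs_lt, We297.kap_lam] at h2
    have hkap : kap * (π / 6) ^ 2 / 2 = 1 / 48 := by
      unfold We297.kap
      field_simp
      norm_num
    rw [hkap] at k
    have k1 : -(1 / 48) * ell ≤ Real.log C + (π / 6) * (c * ell) + (1 / p) * X := by
      have : √3 * (π / 6) * DD i = (π / 6) * (c * ell) := by rw [← hD]; ring
      rw [this] at k; exact k
    have k2 : (π / 6) * c ≤ 1 / 12 + d / 24 := by
      have h5 : c ≤ 1 / (2 * π) + d / (4 * π) := by linarith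
      calc (π / 6) * c ≤ (π / 6) * (1 / (2 * π) + d / (4 * π)) :=
            mul_le_mul_of_nonneg_left h5 (by positivity)
        _ = 1 / 12 + d / 24 := by field_simp; ring
    have k3 : (π / 6) * (c * ell) ≤ (1 / 12 + d / 24) * ell := by
      rw [← mul_assoc]
      exact mul_le_mul_of_nonneg_right k2 hell.le
    have k4 : p * (-(5 / 48) * ell - d / 24 * ell - Real.log C) ≤ X := by
      have h6 : -(5 / 48) * ell - d / 24 * ell - Real.log C ≤ (1 / p) * X := by linarith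
      have h7 := mul_le_mul_of_nonneg_left h6 hp0.le
      have h8 : p * ((1 / p) * X) = X := by field_simp
      linarith
    have k5 : p * Real.log C ≤ d / 4 * ell := by
      rwa [div_le_iff₀ hell] at h3
    have k6 : p * ((5 / 48 + d / 24) * ell) ≤ (5 / 48 + 3 * d / 4) * ell := by
      have h9 : p * (5 / 48 + d / 24) ≤ 5 / 48 + 3 * d / 4 := by nlinarith
      calc p * ((5 / 48 + d / 24) * ell) = (p * (5 / 48 + d / 24)) * ell := by ring
        _ ≤ _ := mul_le_mul_of_nonneg_right h9 hell.le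
    nlinarith
  have h3 := Filter.eventually_curry_iff.1 h2
  filter_upwards [h3, eventually_ge_atTop 1] with K hK hK1
  filter_upwards [hK] with r hr
  rw [← exp_log_rpow hK1]
  exact hr

/-- **the one-arm exponent, upper bound** -/
theorem arm_upper (H : We297.Hyp FF (fun i => Real.log (i.1 : ℝ)) DD MM) {e : ℝ} (he : 0 < e) :
    ∀ᶠ n : ℕ in atTop, P1 0 n ≤ (n : ℝ) ^ (-(5 / 48 : ℝ) + e) := by
  set d := min (e / 2) (1 / 48) with hd
  have hd0 : 0 < d := lt_min (by positivity) (by norm_num)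
  have hd1 : d ≤ e / 2 := min_le_left _ _
  have hd2 : d ≤ 1 / 48 := min_le_right _ _
  obtain ⟨K, hK, hK2⟩ := ((Q0_upper H hd0).and (eventually_ge_atTop 2)).exists
  obtain ⟨r0, hr0⟩ := eventually_atTop.1 hK
  have h1 := chain_upper (p := fun n : ℕ => P1 0 n) P1_anti' (fun n => P1_nonneg _ _) (M := K)
    (r0 := max r0 2) hK2 (β := (K : ℝ) ^ (-(5 / 48 : ℝ) + d)) (θ := 5 / 48 - d) (by linarith)
    (le_of_eq (by congr 1; ring)) (fun r hr => ?_) (ε := e / 2) (by positivity)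
  · filter_upwards [h1, eventually_ge_atTop 1] with n hn hn1
    refine hn.trans (Real.rpow_le_rpow_of_exponent_le (by exact_mod_cast hn1) ?_)
    linarith
  · have hr1 : r0 ≤ r := (le_max_left _ _).trans hr
    have hr2 : 2 ≤ r := (le_max_right _ _).trans hr
    have hKr : K * (r + 1) / 2 + 1 ≤ K * r := by
      have : K * (r + 1) + 2 ≤ 2 * (K * r) := by nlinarith
      omega
    have hrR : r + 1 ≤ K * (r + 1) / 2 + 1 := by
      have : r + 1 ≤ K * (r + 1) / 2 := by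
        rw [Nat.le_div_iff_mul_le (by norm_num)]
        nlinarith
      omega
    have a1 : P1 0 ((K * r : ℕ) : ℤ) ≤ P1 0 r * P1 ((r + 1 : ℕ) : ℤ) ((K * r : ℕ) : ℤ) :=
      P1_mul_le (by omega) (by push_cast; omega) (by exact_mod_cast hrR.trans hKr)
    have a2 : P1 ((r + 1 : ℕ) : ℤ) ((K * r : ℕ) : ℤ) ≤
        Q0 ((r + 1 : ℕ) : ℤ) ((K * (r + 1) / 2 : ℕ) : ℤ) := by
      refine le_trans (P1_anti (R := ((K * (r + 1) / 2 : ℕ) : ℤ) + 1) ?_ ?_) (P1_le_Q0 ?_)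
      · exact_mod_cast hrR
      · exact_mod_cast hKr
      · exact_mod_cast hrR
    have a3 := hr0 (r + 1) (by omega)
    calc P1 0 ((K * r : ℕ) : ℤ) ≤ P1 0 r * P1 ((r + 1 : ℕ) : ℤ) ((K * r : ℕ) : ℤ) := a1
      _ ≤ P1 0 r * (K : ℝ) ^ (-(5 / 48 : ℝ) + d) :=
          mul_le_mul_of_nonneg_left (a2.trans a3) (P1_nonneg _ _)
      _ = _ := mul_comm _ _

theorem P1_pos (n : ℕ) : 0 < P1 0 n := by
  have h := arm_ge n
  have h1 : (nu hf).real (Arm0 n) ≤ P1 0 n := by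
    rw [← parm_P1 (0, 0) (by omega : (0 : ℤ) ≤ n)]
    refine measureReal_mono ?_
    rintro z ⟨v, hv, h2⟩
    refine ⟨(0, 0), v, by simp [sd], ?_, h2⟩
    unfold sd
    simpa using hv
  have h2 : (0 : ℝ) < 1 / (2 * ((n : ℝ) + 1)) := by positivity
  linarith

/-- **the one-arm exponent, lower bound** -/
theorem arm_lower (H : We297.Hyp FF (fun i => Real.log (i.1 : ℝ)) DD MM) (hF : F1z) {e : ℝ}
    (he : 0 < e) : ∀ᶠ n : ℕ in atTop, (n : ℝ) ^ (-(5 / 48 : ℝ) - e) ≤ P1 0 n := by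
  set d := e / 4 with hd
  have hd0 : 0 < d := by positivity
  obtain ⟨c, hc, hqm⟩ := P1_qm 1
  -- K large enough
  have hbig : ∀ᶠ K : ℕ in atTop, (3 : ℝ) ^ (5 / 48 + 2 * d) * (2 / c) ≤ (K : ℝ) ^ d :=
    ((tendsto_rpow_atTop hd0).comp tendsto_natCast_atTop_atTop).eventually_ge_atTop _
  obtain ⟨K, ⟨hK, hKb⟩, hK2⟩ := (((Q0_lower H hF hd0).and hbig).and (eventually_ge_atTop 4)).exists
  obtain ⟨r0, hr0⟩ := eventually_atTop.1 hK
  have hK0 : (0 : ℝ) < K := by exact_mod_cast (by omega : 0 < K)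
  have hM0 : (K : ℝ) / 3 ≤ ((K / 2 : ℕ) : ℝ) := by
    have : K ≤ 3 * (K / 2) := by omega
    have h2 : (K : ℝ) ≤ 3 * ((K / 2 : ℕ) : ℝ) := by exact_mod_cast this
    linarith
  have hβ : ((K / 2 : ℕ) : ℝ) ^ (-(5 / 48 + 2 * d)) ≤ c / 2 * (K : ℝ) ^ (-(5 / 48 : ℝ) - d) := by
    calc ((K / 2 : ℕ) : ℝ) ^ (-(5 / 48 + 2 * d)) ≤ ((K : ℝ) / 3) ^ (-(5 / 48 + 2 * d)) :=
          Real.rpow_le_rpow_of_nonpos (by positivity) hM0 (by linarith)
      _ = (K : ℝ) ^ (-(5 / 48 + 2 * d)) * (3 : ℝ) ^ (5 / 48 + 2 * d) := by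
          rw [Real.div_rpow hK0.le (by norm_num), Real.rpow_neg (by norm_num : (0:ℝ) ≤ 3),
            div_inv_eq_mul]
      _ = c / 2 * ((K : ℝ) ^ (-(5 / 48 + 2 * d)) * ((3 : ℝ) ^ (5 / 48 + 2 * d) * (2 / c))) := by
          field_simp
      _ ≤ c / 2 * ((K : ℝ) ^ (-(5 / 48 + 2 * d)) * (K : ℝ) ^ d) := by
          gcongr
      _ = c / 2 * (K : ℝ) ^ (-(5 / 48 : ℝ) - d) := by
          rw [← Real.rpow_add hK0]
          congr 2
          ring
  have h1 := chain_lower (p := fun n : ℕ => P1 0 n) P1_anti' P1_pos (M := K / 2)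
    (r0 := max r0 1) (by omega) (β := c / 2 * (K : ℝ) ^ (-(5 / 48 : ℝ) - d))
    (θ := 5 / 48 + 2 * d) (by positivity) hβ (fun r hr => ?_) (ε := e / 2) (by positivity)
  · filter_upwards [h1] with n hn
    refine le_trans (le_of_eq ?_) hn
    congr 1
    rw [hd]; ring
  · have hr1 : r0 ≤ r := (le_max_left _ _).trans hr
    have hr2 : 1 ≤ r := (le_max_right _ _).trans hr
    have b1 := hr0 r hr1
    have b0 : r ≤ K * r / 2 := by
      rw [Nat.le_div_iff_mul_le (by norm_num)]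
      nlinarith
    have b2 : Q0 (r : ℤ) ((K * r / 2 : ℕ) : ℤ) ≤ 2 * P1 (r : ℤ) ((K * r / 2 : ℕ) : ℤ) :=
      Q0_le_P1 (by omega) (by exact_mod_cast b0)
    have b3 := hqm 0 r r ((K * r / 2 : ℕ) : ℤ) le_rfl (by omega) (by exact_mod_cast hr2) le_rfl
      (by omega) (by exact_mod_cast b0)
    have b4 : P1 0 ((K * r / 2 : ℕ) : ℤ) ≤ P1 0 ((K / 2 * r : ℕ) : ℤ) := by
      refine P1_anti (by omega) ?_
      have : K / 2 * r ≤ K * r / 2 := by
        rw [Nat.le_div_iff_mul_le (by norm_num)]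
        have : K / 2 * 2 ≤ K := Nat.div_mul_le_self K 2
        nlinarith
      exact_mod_cast this
    have b5 : 0 ≤ P1 0 (r : ℤ) := P1_nonneg _ _
    calc c / 2 * (K : ℝ) ^ (-(5 / 48 : ℝ) - d) * P1 0 (r : ℤ)
        ≤ c / 2 * (2 * P1 (r : ℤ) ((K * r / 2 : ℕ) : ℤ)) * P1 0 (r : ℤ) := by
          gcongr
          exact b1.trans b2
      _ = c * (P1 0 (r : ℤ) * P1 (r : ℤ) ((K * r / 2 : ℕ) : ℤ)) := by ring
      _ ≤ P1 0 ((K * r / 2 : ℕ) : ℤ) := b3
      _ ≤ _ := b4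

/-- **W-F: the one-arm exponent `5/48`** -/
theorem hypA (H : We297.Hyp FF (fun i => Real.log (i.1 : ℝ)) DD MM) (hF : F1z) : Fr158.HypA := by
  intro e he
  filter_upwards [arm_upper H he, arm_lower H hF he] with n h1 h2
  have h3 : Fr158.Pr (1 / 2) (Fr158.Arm1 n) = P1 0 n := by
    unfold Fr158.Pr Fr158.nu P1
    rw [clampUnit_half, ar_arm1]
    rfl
  rw [h3]
  exact ⟨h2, h1⟩

end Crest.Agent.R158.Wh109
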