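import Crest.Agent.R158.Top1_772
import Crest.Agent.R158.Bb2_488
import Crest.Agent.R158.Sg5_158
import Crest.Agent.R158.Wh2_109
import Crest.Agent.R158.Lc6_522
import Crest.Agent.R158.Vg1_109
import Crest.Agent.R158.Wf6_850

/-!
# Row 158 (helper772, integration of S0235 + S0236), part 2: state of Nov 16, 22:45

* `HypW`  : `We297.Hyp` for the loops (850), `F1z` : its `F1` at `a = π/6` (850)
* `hypA_main`, `E2_main`, `VV_main` : HypA, identity E, density from them
* `both2` : S0235 and S0236 from `HypW`, `F1z`, `SB`, `SC`, `SD`, `QM`, `HypGl0`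
-/

set_option autoImplicit false

noncomputable section

namespace Crest.Agent.R158.Top772

open MeasureTheory Filter Topology unitInterval
open Crest.ProbabilityR.Percolation Crest.ProbabilityR.FirstPassage
open Crest.Agent.R161.Geo729 Crest.Agent.R161.Tas682
open Crest.Agent.R158.Fr158 Crest.Agent.R158.Cpl963 Crest.Agent.R158.Ld570
open Crest.Agent.R158.Ax107

/-- the analytic input of Block W -/
def HypW : Prop :=
  We297.Hyp (Filter.curry (atTop : Filter ℕ) (atTop : Filter ℕ))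
    (fun i : ℕ × ℕ => Real.log (i.1 : ℝ)) Wh109.DD Wh109.MM

theorem MM_eq : Wf850.MM = Wh109.MM := rfl

theorem MM_eq' : Lc522.MM = Wh109.MM := rfl

theorem DD_eq : Wf850.DD = Wh109.DD := rfl

theorem hypA_main (hW : HypW) (hz : Wh109.F1z) : HypA := Wh109.hypA hW hz

theorem E2_main (hW : HypW) : ∀ d : ℝ, d > 0 → ∃ η > 0, ∀ᶠ n : ℕ in atTop, ∀ s : ℝ,
    |s - Real.log 2| ≤ η →
      (n : ℝ) ^ (1 / 12 - d) ≤
        ∫ z, Real.exp (s * Wf850.NN (0, 0) 0 n z) ∂(Rs689.nu Rs689.hf) ∧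
      ∫ z, Real.exp (s * Wf850.NN (0, 0) 0 n z) ∂(Rs689.nu Rs689.hf) ≤ (n : ℝ) ^ (1 / 12 + d) :=
  Lc522.E2_of_hyp hW

theorem HD_main (hW : HypW) : Vg109.HD := Vg109.HD_of_hyp hW

theorem hypD_main (hU : HypU4) (hL : Cpl963.L4) (hGl : Sg158.HypGl0 A4c) : HypD :=
  hypD_of' hU hL Bb488.hypBD (Sg158.gl_of_gl0 hGl)

/-- both statements from the leaves open on Nov 16, 22:45 -/
theorem both2 (hW : HypW) (hz : Wh109.F1z) (hB : SB p2) (hC : SC p2 p4) (hD : SD p2 p4)
    (hQM : QM) (hGl : Sg158.HypGl0 A4c) : St235 ∧ St236 :=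
  both_of (hypA_main hW hz) hB hC hD hQM Bb488.hypBD (Sg158.gl_of_gl0 hGl)

end Crest.Agent.R158.Top772
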