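import Crest.Agent.R158.Wf4_850
import Crest.Agent.R158.Vx4_107
import Crest.Agent.R158.Lc4_522

/-!
# Row 158, BLOCK W (helper850), part 5: F1 and F2

* `Blobs us ws` : the properties of the square blobs and of the rings, and (STAR)
* `hF1`, `hF2` : the fields F1 and F2 of `We297.Hyp`
-/

set_option autoImplicit false

noncomputable section

namespace Crest.Agent.R158.Wf850

open Real Finset MeasureTheory Filter Topology
open Crest.Agent.R161.Geo729 Crest.Agent.R161.Tas682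
open Crest.Agent.R158.Rs689 (nu hf PB Dep)
open Crest.Agent.R158.It200 (Cfz Corner fc fc_zero)
open Crest.Agent.R158.We297 (ff kap)
open Crest.Agent.R158.Cn109 (DepF lsW SS QQ smalls mem_smalls SS_eq VV VV_inc)
open Crest.Agent.R158.Vx107 (mass W Ntr Fw tot)
open Crest.Agent.R158.Hd109 (Dens hoelder_exp rev_hoelder)

/-- the square blobs, the rings and (STAR) -/
structure Blobs (us ws : ℕ → Face →₀ ℝ) : Prop where
  us_nn : ∀ r f, 0 ≤ us r f
  us_tot : ∀ r, 1 ≤ r → tot (us r) = 1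
  us_sub : ∀ (r : ℕ) (f : Face), us r f ≠ 0 → f ∈ BF (0, 0) (r : ℤ)
  us_le : ∀ (r : ℕ) (f : Face), us r f ≤ 1 / (4 * (r : ℝ) ^ 2)
  ws_nn : ∀ r, 1 ≤ r → ∀ f, 0 ≤ ws r f
  ws_tot : ∀ r, 1 ≤ r → tot (ws r) = 1
  ws_sub : ∀ (r : ℕ), 1 ≤ r → ∀ (f : Face), ws r f ≠ 0 → f ∈ BF (0, 0) (2 * (r : ℤ)) ∧
    f ∉ BF (0, 0) (((r : ℕ) : ℤ) / 2 - 1)
  ws_le : ∀ (r : ℕ), 1 ≤ r → ∀ (f : Face), ws r f ≤ 1 / (12 * (r : ℝ) ^ 2)
  star2 : ∀ a : ℝ, ∃ C : ℝ, 0 < C ∧ ∀ K : ℕ, 1 ≤ K → ∀ᶠ r : ℕ in atTop,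
    exp (-(3 * a ^ 2 / (4 * π ^ 2)) * log K) / C ≤ ∫ z, W (a • (us r - ws (K * r))) z ∂(nu hf) ∧
    ∫ z, W (a • (us r - ws (K * r))) z ∂(nu hf) ≤ C * exp (-(3 * a ^ 2 / (4 * π ^ 2)) * log K)
  star3 : ∀ b : ℝ, ∃ C : ℝ, 0 < C ∧ ∀ K : ℕ, 1 ≤ K → ∀ L : ℕ, 1 ≤ L → ∀ᶠ r : ℕ in atTop,
    ∫ z, W ((-2 * b) • us r + b • ws (K * r) + b • ws (K * L * r)) z ∂(nu hf) ≤
      C * exp (-(3 / (4 * π ^ 2)) * (b ^ 2 * (4 * log K + log L)))

theorem dens_of {C : ℝ} {κ : ℕ} {u : Face →₀ ℝ} (h0 : ∀ f, 0 ≤ u f) (h1 : tot u = 1)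
    (h2 : ∀ f, u f ≤ C / 4 ^ κ) : Dens C κ u.support u :=
  ⟨fun v _ => h0 v, h1, fun v _ => h2 v⟩

theorem le_four {κ n : ℕ} (h : 2 ^ κ ≤ n) {c : ℝ} (hc : 1 ≤ c) : 1 / (c * (n : ℝ) ^ 2) ≤ 1 / 4 ^ κ := by
  have h1 : (4 : ℝ) ^ κ = (2 ^ κ) ^ 2 := by
    rw [← pow_mul, mul_comm, pow_mul]; norm_num
  have h2 : (2 : ℝ) ^ κ ≤ n := by exact_mod_cast h
  have h3 : (0 : ℝ) < 2 ^ κ := by positivity
  refine one_div_le_one_div_of_le (by positivity) ?_
  rw [h1]
  have h4 : ((2 : ℝ) ^ κ) ^ 2 ≤ (n : ℝ) ^ 2 := by gcongr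
  nlinarith [sq_nonneg (n : ℝ)]

theorem log_half {n : ℕ} (hn : 2 ≤ n) : 2 ^ (Nat.log 2 n - 1) ≤ n / 2 ∧ n < 4 * 2 ^ (Nat.log 2 n - 1) ∧
    1 ≤ Nat.log 2 n := by
  have h1 : 1 ≤ Nat.log 2 n := Nat.log_pos (by norm_num) hn
  obtain ⟨l, hl⟩ : ∃ l, Nat.log 2 n = l + 1 := ⟨Nat.log 2 n - 1, by omega⟩
  have h2 := Nat.pow_log_le_self 2 (x := n) (by omega)
  have h3 := Nat.lt_pow_succ_log_self (b := 2) (by norm_num) n
  rw [hl] at h2 h3 ⊢
  rw [pow_succ] at h2
  rw [pow_succ, pow_succ] at h3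
  simp only [Nat.add_sub_cancel]
  refine ⟨by omega, by omega, by omega⟩

variable {us ws : ℕ → Face →₀ ℝ}

/-- families of two densities -/
def u2 (us ws : ℕ → Face →₀ ℝ) (K r : ℕ) (i : ℕ) : Face →₀ ℝ := if i = 0 then us r else ws ((K + 1) * r)
/-- outer radii -/
def s2 (K r : ℕ) (i : ℕ) : ℤ := if i = 0 then r else 2 * (((K + 1) * r : ℕ) : ℤ)
/-- inner radii -/
def t2 (K r : ℕ) (i : ℕ) : ℤ := if i = 0 then -1 else ((K * r / 2 : ℕ) : ℤ)
/-- levels -/
def k2 (K r : ℕ) (i : ℕ) : ℕ := if i = 0 then Nat.log 2 r else Nat.log 2 (K * r) - 1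
/-- charges -/
def c2 (a : ℝ) (i : ℕ) : ℝ := if i = 0 then a else if i = 1 then -a else 0

theorem sys2 (B : Blobs us ws) {K r : ℕ} (hK : 2 ≤ K) (hr : 2 ≤ r) :
    Sys 1 1 16 (s2 K r) (t2 K r) (k2 K r) (u2 us ws K r) := by
  have hKr : 2 * r ≤ K * r := Nat.mul_le_mul_right r hK
  have hK1 : (K + 1) * r = K * r + r := by ring
  obtain ⟨l1, l2, l3⟩ := log_half (n := K * r) (by omega)
  have p1 := Nat.pow_log_le_self 2 (x := r) (by omega)
  have p2 := Nat.lt_pow_succ_log_self (b := 2) (by norm_num) r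
  rw [pow_succ] at p2
  have hc : ∀ i, i ≤ 1 → i = 0 ∨ i = 1 := by intro i hi; omega
  refine ⟨?_, ?_, ?_, ?_, ?_, ?_, ?_, ?_⟩
  · simp only [s2, if_true]; omega
  · intro i hi
    rcases hc i hi with rfl | rfl
    · simp only [t2, s2, if_true]; omega
    · simp only [t2, s2, one_ne_zero, if_false]; rw [hK1]; push_cast; omega
  · intro i hi
    have : i = 0 := by omega
    subst this
    simp only [s2, t2, if_true, zero_add, one_ne_zero, if_false]
    omega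
  · intro i hi
    rcases hc i hi with rfl | rfl
    · simp only [k2, s2, if_true]
      have : (2 : ℤ) ^ Nat.log 2 r ≤ r := by exact_mod_cast p1
      omega
    · simp only [k2, s2, one_ne_zero, if_false]
      have : (2 : ℤ) ^ (Nat.log 2 (K * r) - 1) ≤ ((K * r / 2 : ℕ) : ℤ) := by exact_mod_cast l1
      rw [hK1]
      push_cast
      push_cast at this
      omega
  · intro i hi hi1
    have : i = 1 := by omega
    subst this
    simp only [k2, t2, one_ne_zero, if_false]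
    have : (2 : ℤ) ^ (Nat.log 2 (K * r) - 1) ≤ ((K * r / 2 : ℕ) : ℤ) := by exact_mod_cast l1
    linarith
  · intro i hi
    rcases hc i hi with rfl | rfl
    · simp only [k2, s2, if_true]
      have : (r : ℤ) < 2 ^ Nat.log 2 r * 2 := by exact_mod_cast p2
      push_cast
      have h0 : (0 : ℤ) < 2 ^ Nat.log 2 r := by positivity
      linarith
    · simp only [k2, s2, one_ne_zero, if_false]
      have h5 : ((K * r : ℕ) : ℤ) < 4 * 2 ^ (Nat.log 2 (K * r) - 1) := by exact_mod_cast l2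
      have h6 : (((K + 1) * r : ℕ) : ℤ) ≤ 2 * ((K * r : ℕ) : ℤ) := by
        rw [hK1]; push_cast; nlinarith
      push_cast at h5 h6 ⊢
      linarith
  · intro i hi
    rcases hc i hi with rfl | rfl
    · simp only [k2, u2, if_true]
      exact dens_of (B.us_nn r) (B.us_tot r (by omega)) fun f =>
        (B.us_le r f).trans (le_four p1 (by norm_num))
    · simp only [k2, u2, one_ne_zero, if_false]
      refine dens_of (B.ws_nn _ (by omega)) (B.ws_tot _ (by omega)) fun f =>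
        (B.ws_le _ (by omega) f).trans (le_four ?_ (by norm_num))
      omega
  · intro i hi v hv
    rcases hc i hi with rfl | rfl
    · simp only [u2, if_true] at hv
      simp only [s2, t2, if_true]
      refine ⟨B.us_sub r v hv, ?_⟩
      rw [mem_BF]
      have := sd_nonneg' ((0 : ℤ), (0 : ℤ)) v.1
      have h0 : ¬ sd ((0 : ℤ), (0 : ℤ)) v.1 ≤ -1 := by omega
      exact h0
    · simp only [u2, one_ne_zero, if_false] at hv
      simp only [s2, t2, one_ne_zero, if_false]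
      obtain ⟨h1, h2⟩ := B.ws_sub _ (by omega) v hv
      refine ⟨h1, fun h3 => h2 (BF_mono ?_ h3)⟩
      rw [hK1]
      push_cast
      omega

theorem sum_c2 (a : ℝ) : ∑ i ∈ range (1 + 1), c2 a i = 0 := by
  simp [Finset.sum_range_succ, c2]

theorem cs_c2 (a : ℝ) : cs (c2 a) 0 = a := by
  simp [cs, c2]

theorem mm2 (us ws : ℕ → Face →₀ ℝ) (a : ℝ) (K r : ℕ) :
    mm 1 (c2 a) (u2 us ws K r) = a • (us r - ws ((K + 1) * r)) := by
  unfold mm
  rw [Finset.sum_range_succ, Finset.sum_range_one]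
  simp only [c2, u2, if_true, one_ne_zero, if_false]
  rw [smul_sub, neg_smul, sub_eq_add_neg]

/-- number of long loops -/
def N0 (K r : ℕ) (z : Cfz) : ℕ := NN (0, 0) (r : ℤ) ((K * r / 2 : ℕ) : ℤ) z

/-- its generating function -/
def MM (i : ℕ × ℕ) (x : ℝ) : ℝ := ∫ z, x ^ N0 i.1 i.2 z ∂(nu hf)

/-- the difference of the means -/
def DD (i : ℕ × ℕ) : ℝ := VV (Nat.log 2 (i.1 * i.2)) - VV (Nat.log 2 i.2)

theorem n0_dep (K r : ℕ) : DepF (annF (0, 0) (r : ℤ) ((K * r / 2 : ℕ) : ℤ)) (N0 K r) :=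
  NN_dep _ _ _

/-- the exponent of the two-blob system -/
theorem lin2 : ∃ C : ℝ, 0 ≤ C ∧ ∀ (a : ℝ) (K r : ℕ), 2 ≤ K → 2 ≤ r →
    |-lin 1 (c2 a) (k2 K r) - √3 * a * DD (K, r)| ≤ |a| * C := by
  obtain ⟨C, hC, h⟩ := VV_inc
  refine ⟨√3 * C, by positivity, fun a K r hK hr => ?_⟩
  have hKr : 2 * r ≤ K * r := Nat.mul_le_mul_right r hK
  obtain ⟨l1, l2, l3⟩ := log_half (n := K * r) (by omega)
  unfold lin
  rw [Finset.sum_range_succ, Finset.sum_range_one]
  simp only [c2, k2, if_true, one_ne_zero, if_false, DD]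
  have h1 := h (Nat.log 2 (K * r) - 1)
  rw [show Nat.log 2 (K * r) - 1 + 1 = Nat.log 2 (K * r) by omega] at h1
  have e : -(√3 * (a * VV (Nat.log 2 r) + -a * VV (Nat.log 2 (K * r) - 1))) -
      √3 * a * (VV (Nat.log 2 (K * r)) - VV (Nat.log 2 r)) =
      -(a * (√3 * (VV (Nat.log 2 (K * r)) - VV (Nat.log 2 (K * r) - 1)))) := by ring
  rw [e, abs_neg, abs_mul, abs_mul, abs_of_nonneg (Real.sqrt_nonneg 3), abs_of_nonneg h1.1]
  exact mul_le_mul_of_nonneg_left (mul_le_mul_of_nonneg_left h1.2 (Real.sqrt_nonneg 3))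
    (abs_nonneg a)

theorem log_succ_le (K : ℕ) (hK : 1 ≤ K) : log ((K + 1 : ℕ) : ℝ) ≤ log K + log 2 := by
  have h1 : (1 : ℝ) ≤ K := by exact_mod_cast hK
  rw [← Real.log_mul (by positivity) (by norm_num)]
  refine Real.log_le_log (by positivity) ?_
  push_cast
  linarith

theorem kap_eq (a : ℝ) : kap * a ^ 2 / 2 = 3 * a ^ 2 / (4 * π ^ 2) := by
  unfold kap
  have := Real.pi_pos
  field_simp
  ring

theorem rpow_pow_comm {x : ℝ} (hx : 0 ≤ x) (p : ℝ) (n : ℕ) : (x ^ n) ^ p = (x ^ p) ^ n := by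
  rw [← Real.rpow_natCast, ← Real.rpow_mul hx, ← Real.rpow_natCast, ← Real.rpow_mul hx, mul_comm]

/-- the filter of the two scales -/
theorem ev_curry {P : ℕ × ℕ → Prop} (h : ∀ᶠ K : ℕ in atTop, ∀ᶠ r : ℕ in atTop, P (K, r)) :
    ∀ᶠ i in Filter.curry (atTop : Filter ℕ) (atTop : Filter ℕ), P i :=
  Filter.eventually_curry_iff.2 h

/-- **F1** -/
theorem hF1 (B : Blobs us ws) (a : ℝ) (ha : ff a ≠ 0) {p : ℝ} (hp : 1 < p) :
    ∃ C, 0 < C ∧ ∀ᶠ i in Filter.curry (atTop : Filter ℕ) (atTop : Filter ℕ),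
      exp (-(kap * a ^ 2 / 2) * log i.1) ≤
        C * exp (√3 * a * DD i) * (MM i (|ff a| ^ p)) ^ (1 / p) := by
  have hp0 : 0 < p := by linarith
  have hp1 : 0 < p - 1 := by linarith
  set q := p / (p - 1) with hq
  have hq0 : 0 ≤ q := by positivity
  obtain ⟨Cs, hCs, hs⟩ := B.star2 a
  obtain ⟨Cl, hCl, hl⟩ := lin2
  obtain ⟨G, hG, hsys⟩ := sys_bd 1 (C := 1) zero_le_one 16 (c2 a) (sum_c2 a) (C' := 0) le_rfl hq0
  set k := 3 * a ^ 2 / (4 * π ^ 2) with hk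
  have hk0 : 0 ≤ k := by positivity
  refine ⟨Cs * exp (k * log 2) * exp (|a| * Cl) * G ^ ((p - 1) / p), by positivity, ev_curry ?_⟩
  filter_upwards [eventually_ge_atTop 2] with K hK
  filter_upwards [hs (K + 1) (by omega), eventually_ge_atTop 2] with r hr1 hr2
  obtain ⟨S, E, hE1, hE2, hE3, hE4, -⟩ := hsys _ _ _ _ (sys2 B hK hr2)
  have hneu := ntr_mm (sys2 B hK hr2) (sum_c2 a)
  have hWi := Vx107.integrable_W hneu (nu hf)
  rw [← mm2] at hr1
  have hd := n0_dep K r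
  set x := |ff a| with hx
  have hx0 : 0 ≤ x := abs_nonneg _
  -- pointwise
  have hpt : ∀ z, W (mm 1 (c2 a) (u2 us ws K r)) z ≤
      exp (-lin 1 (c2 a) (k2 K r)) * (x ^ N0 K r z * exp (E z)) := by
    intro z
    refine (le_abs_self _).trans ((hE4 z).trans (le_of_eq ?_))
    rw [Finset.prod_range_one, cs_c2, Real.exp_add]
    have e : NN (0, 0) (s2 K r 0) (t2 K r (0 + 1)) z = N0 K r z := by
      simp [s2, t2, N0]
    rw [e]
    ring
  have hYd : DepF (annF (0, 0) (r : ℤ) ((K * r / 2 : ℕ) : ℤ)) (fun z => x ^ N0 K r z) :=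
    hd.comp fun n => x ^ n
  have hho := hoelder_exp (μ := nu hf) hp (Y := fun z => x ^ N0 K r z) (L := E)
    (fun z => pow_nonneg hx0 _) hYd.measurable.aestronglyMeasurable
    hE1.measurable.aestronglyMeasurable ((hYd.comp fun y => y ^ p).integrable _)
    ((hE1.comp fun y => exp (q * y)).integrable _)
  have hYE : Integrable (fun z => x ^ N0 K r z * exp (E z)) (nu hf) :=
    ((hYd.mono Finset.subset_union_left).mul
      ((hE1.comp fun y => exp y).mono (Finset.subset_union_right (s₁ := annF (0, 0) (r : ℤ)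
        ((K * r / 2 : ℕ) : ℤ))))).integrable _
  have h1 : ∫ z, W (mm 1 (c2 a) (u2 us ws K r)) z ∂(nu hf) ≤
      exp (-lin 1 (c2 a) (k2 K r)) * ∫ z, x ^ N0 K r z * exp (E z) ∂(nu hf) := by
    rw [← integral_const_mul]
    exact integral_mono hWi (hYE.const_mul _) hpt
  have e1 : (∫ z, (x ^ N0 K r z) ^ p ∂(nu hf)) = MM (K, r) (x ^ p) := by
    unfold MM
    refine integral_congr_ae (Filter.Eventually.of_forall fun z => ?_)
    exact rpow_pow_comm hx0 p _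
  rw [e1] at hho
  have hM0 : 0 ≤ MM (K, r) (x ^ p) := integral_nonneg fun z => pow_nonneg (Real.rpow_nonneg hx0 _) _
  have h2 : (∫ z, exp (p / (p - 1) * E z) ∂(nu hf)) ^ ((p - 1) / p) ≤ G ^ ((p - 1) / p) :=
    Real.rpow_le_rpow (integral_nonneg fun z => (exp_pos _).le) hE3 (by positivity)
  have h3 : exp (-lin 1 (c2 a) (k2 K r)) ≤ exp (|a| * Cl) * exp (√3 * a * DD (K, r)) := by
    rw [← Real.exp_add]
    apply exp_le_exp.2
    have := (abs_le.1 (hl a K r hK hr2)).2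
    linarith
  have h4 : exp (-(kap * a ^ 2 / 2) * log K) ≤
      exp (k * log 2) * exp (-k * log ((K + 1 : ℕ) : ℝ)) := by
    rw [kap_eq, ← Real.exp_add]
    apply exp_le_exp.2
    have := log_succ_le K (by omega)
    nlinarith
  have h5 : exp (-k * log ((K + 1 : ℕ) : ℝ)) ≤ Cs * ∫ z, W (mm 1 (c2 a) (u2 us ws K r)) z ∂(nu hf) := by
    have := hr1.1
    rw [div_le_iff₀ hCs] at this
    linarith
  have h6 : ∫ z, W (mm 1 (c2 a) (u2 us ws K r)) z ∂(nu hf) ≤
      (exp (|a| * Cl) * exp (√3 * a * DD (K, r))) *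
        ((MM (K, r) (x ^ p)) ^ (1 / p) * G ^ ((p - 1) / p)) := by
    refine h1.trans (mul_le_mul h3 (hho.trans (mul_le_mul_of_nonneg_left h2 (by positivity)))
      (integral_nonneg fun z => by positivity) (by positivity))
  calc exp (-(kap * a ^ 2 / 2) * log ((K, r) : ℕ × ℕ).1)
      ≤ exp (k * log 2) * exp (-k * log ((K + 1 : ℕ) : ℝ)) := h4
    _ ≤ exp (k * log 2) * (Cs * ((exp (|a| * Cl) * exp (√3 * a * DD (K, r))) *
        ((MM (K, r) (x ^ p)) ^ (1 / p) * G ^ ((p - 1) / p)))) := by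
        refine mul_le_mul_of_nonneg_left (h5.trans (mul_le_mul_of_nonneg_left h6 hCs.le)) (by positivity)
    _ = _ := by ring

/-- masses of the two-blob system -/
theorem mass2 (B : Blobs us ws) {K r : ℕ} (hK : 2 ≤ K) (hr : 2 ≤ r) (a : ℝ) (A : Finset Face) :
    |∑ i ∈ range (1 + 1), c2 a i * mass (u2 us ws K r i) A| ≤ |a| := by
  have H := sys2 B hK hr
  have h0 := H.mass_nonneg (i := 0) (by omega) A
  have h1 := H.mass_nonneg (i := 1) (by omega) A
  have h2 := H.mass_le_one (i := 0) (by omega) A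
  have h3 := H.mass_le_one (i := 1) (by omega) A
  rw [Finset.sum_range_succ, Finset.sum_range_one]
  have e : c2 a 0 * mass (u2 us ws K r 0) A + c2 a 1 * mass (u2 us ws K r 1) A =
      a * (mass (u2 us ws K r 0) A - mass (u2 us ws K r 1) A) := by
    simp only [c2, if_true, one_ne_zero, if_false]; ring
  rw [e, abs_mul]
  refine mul_le_of_le_one_right (abs_nonneg a) ?_
  rw [abs_le]
  constructor <;> linarith

/-- **F2** -/
theorem hF2 (B : Blobs us ws) (a : ℝ) (ha : |a| < π / 6) {p : ℝ} (hp : 1 < p) :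
    ∃ C, 0 < C ∧ ∀ᶠ i in Filter.curry (atTop : Filter ℕ) (atTop : Filter ℕ),
      exp (√3 * a * DD i) * (MM i ((ff a) ^ (1 / p))) ^ p ≤
        C * exp (-(kap * a ^ 2 / 2) * log i.1) := by
  have hp0 : 0 < p := by linarith
  have hp1 : 0 < p - 1 := by linarith
  have hq0 : 0 ≤ 1 / (p - 1) := by positivity
  have hpi := Real.pi_pos
  obtain ⟨Cs, hCs, hs⟩ := B.star2 a
  obtain ⟨Cl, hCl, hl⟩ := lin2
  obtain ⟨C', hC', hlow⟩ := ff_lower (lo := -|a|) (hi := |a|) (by linarith) ha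
  obtain ⟨G, hG, hsys⟩ := sys_bd 1 (C := 1) zero_le_one 16 (c2 a) (sum_c2 a) (C' := C') hC' hq0
  set k := 3 * a ^ 2 / (4 * π ^ 2) with hk
  have hk0 : 0 ≤ k := by positivity
  have hfa : 0 < ff a := lt_of_lt_of_le (exp_pos _) (hlow a (neg_abs_le a) (le_abs_self a))
  refine ⟨Cs * exp (|a| * Cl) * G ^ (p - 1), by positivity, ev_curry ?_⟩
  filter_upwards [eventually_ge_atTop 2] with K hK
  filter_upwards [hs (K + 1) (by omega), eventually_ge_atTop 2] with r hr1 hr2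
  obtain ⟨S, E, hE1, hE2, hE3, -, hE5⟩ := hsys _ _ _ _ (sys2 B hK hr2)
  have hneu := ntr_mm (sys2 B hK hr2) (sum_c2 a)
  have hWi := Vx107.integrable_W hneu (nu hf)
  rw [← mm2] at hr1
  have hd := n0_dep K r
  set x := ff a with hx
  have hpt : ∀ z, exp (-lin 1 (c2 a) (k2 K r)) * (x ^ N0 K r z * exp (-E z)) ≤
      W (mm 1 (c2 a) (u2 us ws K r)) z := by
    intro z
    refine le_trans (le_of_eq ?_) (hE5 z ?_ ?_)
    · rw [Finset.prod_range_one, cs_c2, sub_eq_add_neg, Real.exp_add]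
      have e : NN (0, 0) (s2 K r 0) (t2 K r (0 + 1)) z = N0 K r z := by
        simp [s2, t2, N0]
      rw [e]
      ring
    · intro j hj
      have : j = 0 := by omega
      subst this
      rw [cs_c2]
      exact hfa.le
    · intro A _
      have h1 := abs_le.1 (mass2 B hK hr2 a A)
      exact hlow _ h1.1 h1.2
  have hYd : DepF (annF (0, 0) (r : ℤ) ((K * r / 2 : ℕ) : ℤ)) (fun z => x ^ N0 K r z) :=
    hd.comp fun n => x ^ n
  have hYE : Integrable (fun z => x ^ N0 K r z * exp (-E z)) (nu hf) :=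
    ((hYd.mono Finset.subset_union_left).mul
      ((hE1.comp fun y => exp (-y)).mono (Finset.subset_union_right (s₁ := annF (0, 0) (r : ℤ)
        ((K * r / 2 : ℕ) : ℤ))))).integrable _
  have hrev := rev_hoelder (μ := nu hf) hp (Y := fun z => x ^ N0 K r z) (L := E)
    (fun z => pow_nonneg hfa.le _) hYd.measurable.aestronglyMeasurable
    hE1.measurable.aestronglyMeasurable hYE
    ((hE1.comp fun y => exp (y / (p - 1))).integrable _)
  have e1 : (∫ z, (x ^ N0 K r z) ^ (1 / p) ∂(nu hf)) = MM (K, r) (x ^ (1 / p)) := by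
    unfold MM
    refine integral_congr_ae (Filter.Eventually.of_forall fun z => ?_)
    exact rpow_pow_comm hfa.le (1 / p) _
  rw [e1] at hrev
  have e2 : (∫ z, exp (E z / (p - 1)) ∂(nu hf)) = ∫ z, exp (1 / (p - 1) * E z) ∂(nu hf) := by
    refine integral_congr_ae (Filter.Eventually.of_forall fun z => ?_)
    show exp (E z / (p - 1)) = exp (1 / (p - 1) * E z)
    congr 1
    ring
  rw [e2] at hrev
  have h2 : (∫ z, exp (1 / (p - 1) * E z) ∂(nu hf)) ^ (p - 1) ≤ G ^ (p - 1) :=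
    Real.rpow_le_rpow (integral_nonneg fun z => (exp_pos _).le) hE3 hp1.le
  have h1 : exp (-lin 1 (c2 a) (k2 K r)) * ∫ z, x ^ N0 K r z * exp (-E z) ∂(nu hf) ≤
      ∫ z, W (mm 1 (c2 a) (u2 us ws K r)) z ∂(nu hf) := by
    rw [← integral_const_mul]
    exact integral_mono (hYE.const_mul _) hWi hpt
  have h3 : exp (√3 * a * DD (K, r)) ≤ exp (|a| * Cl) * exp (-lin 1 (c2 a) (k2 K r)) := by
    rw [← Real.exp_add]
    apply exp_le_exp.2
    have := (abs_le.1 (hl a K r hK hr2)).1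
    linarith
  have h4 : exp (-k * log ((K + 1 : ℕ) : ℝ)) ≤ exp (-(kap * a ^ 2 / 2) * log K) := by
    rw [kap_eq]
    apply exp_le_exp.2
    have h5 : log (K : ℝ) ≤ log ((K + 1 : ℕ) : ℝ) :=
      Real.log_le_log (by positivity) (by push_cast; linarith)
    nlinarith
  have hI0 : 0 ≤ ∫ z, x ^ N0 K r z * exp (-E z) ∂(nu hf) :=
    integral_nonneg fun z => by positivity
  calc exp (√3 * a * DD (K, r)) * (MM (K, r) (x ^ (1 / p))) ^ p
      ≤ (exp (|a| * Cl) * exp (-lin 1 (c2 a) (k2 K r))) *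
        ((∫ z, x ^ N0 K r z * exp (-E z) ∂(nu hf)) * G ^ (p - 1)) := by
        refine mul_le_mul h3 (hrev.trans (mul_le_mul_of_nonneg_left h2 hI0)) ?_ (by positivity)
        exact Real.rpow_nonneg (integral_nonneg fun z =>
          pow_nonneg (Real.rpow_nonneg hfa.le _) _) _
    _ = exp (|a| * Cl) * G ^ (p - 1) * (exp (-lin 1 (c2 a) (k2 K r)) *
        ∫ z, x ^ N0 K r z * exp (-E z) ∂(nu hf)) := by ring
    _ ≤ exp (|a| * Cl) * G ^ (p - 1) * (Cs * exp (-k * log ((K + 1 : ℕ) : ℝ))) :=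
        mul_le_mul_of_nonneg_left (h1.trans hr1.2) (by positivity)
    _ ≤ exp (|a| * Cl) * G ^ (p - 1) * (Cs * exp (-(kap * a ^ 2 / 2) * log K)) :=
        mul_le_mul_of_nonneg_left (mul_le_mul_of_nonneg_left h4 hCs.le) (by positivity)
    _ = _ := by ring

end Crest.Agent.R158.Wf850
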