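import Crest.Agent.R158.Wh2_109
import Crest.Agent.R158.Wf5_850

/-!
# Row 158, BLOCK W-F (helper109), part 3: `F1z` from the blobs, `HypA`
-/

set_option autoImplicit false

noncomputable section

namespace Crest.Agent.R158.Wh109

open Real Finset MeasureTheory Filter Topology
open Crest.Agent.R161.Geo729 Crest.Agent.R161.Tas682
open Crest.Agent.R158.Rs689 (nu hf PB Dep)
open Crest.Agent.R158.It200 (Cfz Corner fc fc_zero)
open Crest.Agent.R158.We297 (ff kap)
open Crest.Agent.R158.Cn109 (DepF lsW SS QQ smalls mem_smalls SS_eq VV VV_inc)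
open Crest.Agent.R158.Vx107 (mass W Ntr Fw tot)
open Crest.Agent.R158.Hd109 (Dens hoelder_exp rev_hoelder)
open Crest.Agent.R158.Wf850 hiding MM DD

theorem MM_eq : MM = Wf850.MM := rfl

theorem DD_eq : DD = Wf850.DD := rfl

variable {us ws : ℕ → Face →₀ ℝ}

/-- **F1 for every `a`** (also at the zero `π/6` of the weight; proof of `Wf850.hF1`) -/
theorem hF1' (B : Blobs us ws) (a : ℝ) {p : ℝ} (hp : 1 < p) :
    ∃ C, 0 < C ∧ ∀ᶠ i in Filter.curry (atTop : Filter ℕ) (atTop : Filter ℕ),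
      exp (-(kap * a ^ 2 / 2) * log i.1) ≤
        C * exp (√3 * a * Wf850.DD i) * (Wf850.MM i (|ff a| ^ p)) ^ (1 / p) := by
  have hp0 : 0 < p := by linarith
  have hp1 : 0 < p - 1 := by linarith
  set q := p / (p - 1) with hq
  have hq0 : 0 ≤ q := by positivity
  obtain ⟨Cs, hCs, hs⟩ := B.star2 a
  obtain ⟨Cl, hCl, hl⟩ := lin2
  obtain ⟨G, hG, hsys⟩ := sys_bd 1 (C := 1) zero_le_one 16 (c2 a) (sum_c2 a) (C' := 0) le_rfl hq0
  set k := 3 * a ^ 2 / (4 * π ^ 2) with hk
  have hk0 : 0 ≤ k := by positivity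
  refine ⟨Cs * exp (k * log 2) * exp (|a| * Cl) * G ^ ((p - 1) / p), by positivity, ev_curry ?_⟩
  filter_upwards [eventually_ge_atTop 2] with K hK
  filter_upwards [hs (K + 1) (by omega), eventually_ge_atTop 2] with r hr1 hr2
  obtain ⟨S, E, hE1, hE2, hE3, hE4, -⟩ := hsys _ _ _ _ (sys2 B hK hr2)
  have hneu := ntr_mm (sys2 B hK hr2) (sum_c2 a)
  have hWi := Vx107.integrable_W hneu (nu hf)
  rw [← mm2] at hr1
  have hd := n0_dep K r
  set x := |ff a| with hx
  have hx0 : 0 ≤ x := abs_nonneg _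
  -- pointwise
  have hpt : ∀ z, W (mm 1 (c2 a) (u2 us ws K r)) z ≤
      exp (-lin 1 (c2 a) (k2 K r)) * (x ^ N0 K r z * exp (E z)) := by
    intro z
    refine (le_abs_self _).trans ((hE4 z).trans (le_of_eq ?_))
    rw [Finset.prod_range_one, cs_c2, Real.exp_add]
    have e : NN (0, 0) (s2 K r 0) (t2 K r (0 + 1)) z = N0 K r z := by
      simp [s2, t2, N0]
    rw [e]
    ring
  have hYd : DepF (annF (0, 0) (r : ℤ) ((K * r / 2 : ℕ) : ℤ)) (fun z => x ^ N0 K r z) :=
    hd.comp fun n => x ^ n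
  have hho := hoelder_exp (μ := nu hf) hp (Y := fun z => x ^ N0 K r z) (L := E)
    (fun z => pow_nonneg hx0 _) hYd.measurable.aestronglyMeasurable
    hE1.measurable.aestronglyMeasurable ((hYd.comp fun y => y ^ p).integrable _)
    ((hE1.comp fun y => exp (q * y)).integrable _)
  have hYE : Integrable (fun z => x ^ N0 K r z * exp (E z)) (nu hf) :=
    ((hYd.mono Finset.subset_union_left).mul
      ((hE1.comp fun y => exp y).mono (Finset.subset_union_right (s₁ := annF (0, 0) (r : ℤ)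
        ((K * r / 2 : ℕ) : ℤ))))).integrable _
  have h1 : ∫ z, W (mm 1 (c2 a) (u2 us ws K r)) z ∂(nu hf) ≤
      exp (-lin 1 (c2 a) (k2 K r)) * ∫ z, x ^ N0 K r z * exp (E z) ∂(nu hf) := by
    rw [← integral_const_mul]
    exact integral_mono hWi (hYE.const_mul _) hpt
  have e1 : (∫ z, (x ^ N0 K r z) ^ p ∂(nu hf)) = Wf850.MM (K, r) (x ^ p) := by
    unfold Wf850.MM
    refine integral_congr_ae (Filter.Eventually.of_forall fun z => ?_)
    exact rpow_pow_comm hx0 p _
  rw [e1] at hho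
  have hM0 : 0 ≤ Wf850.MM (K, r) (x ^ p) := integral_nonneg fun z => pow_nonneg (Real.rpow_nonneg hx0 _) _
  have h2 : (∫ z, exp (p / (p - 1) * E z) ∂(nu hf)) ^ ((p - 1) / p) ≤ G ^ ((p - 1) / p) :=
    Real.rpow_le_rpow (integral_nonneg fun z => (exp_pos _).le) hE3 (by positivity)
  have h3 : exp (-lin 1 (c2 a) (k2 K r)) ≤ exp (|a| * Cl) * exp (√3 * a * Wf850.DD (K, r)) := by
    rw [← Real.exp_add]
    apply exp_le_exp.2
    have := (abs_le.1 (hl a K r hK hr2)).2
    linarith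
  have h4 : exp (-(kap * a ^ 2 / 2) * log K) ≤
      exp (k * log 2) * exp (-k * log ((K + 1 : ℕ) : ℝ)) := by
    rw [kap_eq, ← Real.exp_add]
    apply exp_le_exp.2
    have := log_succ_le K (by omega)
    nlinarith
  have h5 : exp (-k * log ((K + 1 : ℕ) : ℝ)) ≤ Cs * ∫ z, W (mm 1 (c2 a) (u2 us ws K r)) z ∂(nu hf) := by
    have := hr1.1
    rw [div_le_iff₀ hCs] at this
    linarith
  have h6 : ∫ z, W (mm 1 (c2 a) (u2 us ws K r)) z ∂(nu hf) ≤
      (exp (|a| * Cl) * exp (√3 * a * Wf850.DD (K, r))) *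
        ((Wf850.MM (K, r) (x ^ p)) ^ (1 / p) * G ^ ((p - 1) / p)) := by
    refine h1.trans (mul_le_mul h3 (hho.trans (mul_le_mul_of_nonneg_left h2 (by positivity)))
      (integral_nonneg fun z => by positivity) (by positivity))
  calc exp (-(kap * a ^ 2 / 2) * log ((K, r) : ℕ × ℕ).1)
      ≤ exp (k * log 2) * exp (-k * log ((K + 1 : ℕ) : ℝ)) := h4
    _ ≤ exp (k * log 2) * (Cs * ((exp (|a| * Cl) * exp (√3 * a * Wf850.DD (K, r))) *
        ((Wf850.MM (K, r) (x ^ p)) ^ (1 / p) * G ^ ((p - 1) / p)))) := by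
        refine mul_le_mul_of_nonneg_left (h5.trans (mul_le_mul_of_nonneg_left h6 hCs.le)) (by positivity)
    _ = _ := by ring


/-- `F1z` -/
theorem f1z (B : Blobs us ws) : F1z := by
  intro p hp
  obtain ⟨C, hC, h⟩ := hF1' B (π / 6) hp
  refine ⟨C, hC, ?_⟩
  have e : |ff (π / 6)| ^ p = 0 := by
    have h1 : ff (π / 6) = 0 := by
      unfold ff We297.lam
      rw [show π / 3 + π / 6 = π / 2 by ring, Real.cos_pi_div_two, mul_zero]
    rw [h1, abs_zero, Real.zero_rpow (by linarith)]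
  rw [e] at h
  exact h

/-- **`HypA` from the blobs and `We297.Hyp`** -/
theorem hypA' (B : Blobs us ws)
    (H : We297.Hyp (Filter.curry (atTop : Filter ℕ) (atTop : Filter ℕ))
      (fun i : ℕ × ℕ => Real.log (i.1 : ℝ)) Wf850.DD Wf850.MM) : Fr158.HypA :=
  hypA H (f1z B)

end Crest.Agent.R158.Wh109
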