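import Crest.Agent.R158.Top2_772
import Crest.Agent.R158.Gl2_570
import Crest.Agent.R158.Sp6_580
import Crest.Agent.R158.Wh3_109

/-!
# Row 158 (helper772, integration of S0235 + S0236), part 3: state of Nov 16, 23:00

* `hypA_of`  : HypA from `Bs410.Law3` and `HypW`
* `near_of`  : `HypB`, `HypC`, `HypD` from the covers `CovPiv`, `CovT2` and `SB`, `SC`, `SD`
* `both3`    : S0235 and S0236
-/

set_option autoImplicit false

noncomputable section

namespace Crest.Agent.R158.Top772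

open MeasureTheory Filter Topology unitInterval
open Crest.ProbabilityR.Percolation Crest.ProbabilityR.FirstPassage
open Crest.Agent.R161.Geo729 Crest.Agent.R161.Tas682
open Crest.Agent.R158.Fr158 Crest.Agent.R158.Cpl963 Crest.Agent.R158.Ld570
open Crest.Agent.R158.Ax107

theorem hypA_of (hLaw : Bs410.Law3) (hW : HypW) : HypA :=
  Wh109.hypA' (Wf850.blobs_main hLaw) hW

/-- the near-critical inputs from the critical four-arm bounds -/
theorem near_of {T0 T1 : ℕ} (hT0 : 500 ≤ T0) (hP : CovPiv T0) (hT1 : 1 ≤ T1)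
    (hT : Qf808.CovT2 T1) (h4 : Ax107.P4U) (hL : Cpl963.L4) : HypB ∧ HypC ∧ HypD := by
  have hU : HypU4 := Sp580.hypU4_of' hT1 hT hL h4
  exact ⟨hypB_of_U4 hU, hypC_of_U4 hU, Ld570.hypD_of_U4 hT0 hP hU hL⟩

/-- both statements from the leaves open on Nov 16, 23:00 -/
theorem both3 (hLaw : Bs410.Law3) (hW : HypW) (hB : SB p2) (hC : SC p2 p4) (hD : SD p2 p4)
    {T0 T1 : ℕ} (hT0 : 500 ≤ T0) (hP : CovPiv T0) (hT1 : 1 ≤ T1) (hT : Qf808.CovT2 T1) :
    St235 ∧ St236 := by
  obtain ⟨hL, h4, _, _⟩ := Ax107.final hB hC hD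
  obtain ⟨nB, nC, nD⟩ := near_of hT0 hP hT1 hT h4 hL
  have hA := hypA_of hLaw hW
  exact ⟨Fr158.s0235 hA nB nD, Fr158.s0236' hA nB nC nD⟩

end Crest.Agent.R158.Top772
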