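import Crest.Agent.R158.Top3_772
import Crest.Agent.R158.Oc3_874
import Crest.Agent.R158.Qf8_808
import Crest.Agent.R158.Wf9_850

/-!
# Row 158 (helper772, integration of S0235 + S0236), part 4: state of Nov 16, 23:10

* `hypW_main`, `hypA_law` : `HypW`, `HypA` from `Bs410.Law3`
* `near4` : `HypB`, `HypC`, `HypD` from `SB`, `SC`, `SD`
* `both4` : S0235 and S0236 from `Bs410.Law3`, `SB`, `SC`, `SD`
-/

set_option autoImplicit false

noncomputable section

namespace Crest.Agent.R158.Top772

open MeasureTheory Filter Topology unitInterval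
open Crest.ProbabilityR.Percolation Crest.ProbabilityR.FirstPassage
open Crest.Agent.R161.Geo729 Crest.Agent.R161.Tas682
open Crest.Agent.R158.Fr158 Crest.Agent.R158.Cpl963 Crest.Agent.R158.Ld570
open Crest.Agent.R158.Ax107

theorem hypW_main (hLaw : Bs410.Law3) : HypW := Wf850.hyp_main hLaw

/-- **the one-arm exponent** -/
theorem hypA_law (hLaw : Bs410.Law3) : HypA := hypA_of hLaw (hypW_main hLaw)

/-- the near-critical inputs from the critical two-arm and four-arm inequalities -/
theorem near4 (hB : SB p2) (hC : SC p2 p4) (hD : SD p2 p4) : HypB ∧ HypC ∧ HypD := by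
  obtain ⟨hL, h4, _, _⟩ := Ax107.final hB hC hD
  have hU : HypU4 := Qf808.hypU4 hL h4
  exact ⟨hypB_of_U4 hU, hypC_of_U4 hU,
    Ld570.hypD_of_U4 le_rfl (Oc874.covPiv (le_refl 500)) hU hL⟩

/-- both statements from the leaves open on Nov 16, 23:10 -/
theorem both4 (hLaw : Bs410.Law3) (hB : SB p2) (hC : SC p2 p4) (hD : SD p2 p4) :
    St235 ∧ St236 := by
  obtain ⟨nB, nC, nD⟩ := near4 hB hC hD
  have hA := hypA_law hLaw
  exact ⟨Fr158.s0235 hA nB nD, Fr158.s0236' hA nB nC nD⟩

end Crest.Agent.R158.Top772
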