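import Crest.Agent.R158.Top4_772
import Crest.Agent.R158.Bg7_612
import Crest.Agent.R158.Bf1_109
import Crest.Agent.R158.Ud6_107
import Crest.Agent.R158.Sc4_689
import Crest.Agent.R158.Lb7_841
import Crest.Agent.R158.Uc4_31

/-!
# Row 158 (helper772, integration of S0235 + S0236), part 5: state of Nov 16, 23:15

* `sb_law` : `SB p2` from `Bs410.Law3` (identity B)
* `sd_law` : `SD p2 p4` from `DRight` (identity D, right side)
* `both6`  : S0235 and S0236 from `Bs410.Law3`, `SC p2 p4`, `DRight`
-/

set_option autoImplicit false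

noncomputable section

namespace Crest.Agent.R158.Top772

open MeasureTheory Filter Topology unitInterval
open Crest.Agent.R158.Ax107

/-- lower bound of two arms -/
theorem sb_law (hLaw : Bs410.Law3) : SB p2 :=
  Bf109.sb_of_hyp B612.main_est (hypW_main hLaw)

/-- `SD` from the right side of identity D -/
theorem sd_law (hLaw : Bs410.Law3) (hR : Ud107.DRight) : SD p2 p4 :=
  Ud107.sd_of_right (HD_main (hypW_main hLaw)) (E2_main (hypW_main hLaw)) hR

/-- both statements from the leaves open on Nov 16, 23:15 -/
theorem both6 (hLaw : Bs410.Law3) (hC : SC p2 p4) (hR : Ud107.DRight) : St235 ∧ St236 :=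
  both4 hLaw (sb_law hLaw) hC (sd_law hLaw hR)

end Crest.Agent.R158.Top772
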