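import Crest.Agent.R158.Uc6_31
import Crest.Agent.R158.Mc8_468

/-!
# Row 158, Block A4 (helper31), `SC` over the operator lower bound

* `lb3p` : `LB3P` (from 468's `Mc468.lb3 : Lb841.LB3`)
* `sc_final (hLaw) (hQ) (hB) : SC p2 p4`
-/

set_option autoImplicit false

noncomputable section

namespace Crest.Agent.R158.Uc31

open Real Function MeasureTheory Filter Topology
open Crest.Agent.R158.Rs689 (nu hf)

/-- **the operator lower bound** -/
theorem lb3p : LB3P := by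
  intro ε hε κ hκ
  obtain ⟨τ0, h0, h1, hX⟩ := Mc468.lb3 ε hε
  have hτ : 0 < min τ0 (κ / 4) := lt_min h0 (by linarith)
  have hτ1 : min τ0 (κ / 4) ≤ τ0 := min_le_left _ _
  have hτ2 : min τ0 (κ / 4) ≤ κ / 4 := min_le_right _ _
  generalize min τ0 (κ / 4) = τ at hτ hτ1 hτ2
  have hj : Tendsto (fun j : ℕ => 256 * 2 ^ j) atTop atTop :=
    Tendsto.const_mul_atTop' (by norm_num) (tendsto_pow_atTop_atTop_of_one_lt (by norm_num))
  filter_upwards [hX τ hτ hτ1, hj.eventually (Ax107.ev_pow (κ / 2) (by linarith) 4),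
    hj.eventually (Ax107.ev_pow (1 - τ) (by linarith) 2)] with j hj1 hj2 hj3
  obtain ⟨hg, hL⟩ := hj1
  refine ⟨_, _, hg, ?_, ?_⟩
  · have hn : (1 : ℝ) ≤ ((256 * 2 ^ j : ℕ) : ℝ) := by
      exact_mod_cast (by have := Nat.one_le_two_pow (n := j); omega : 1 ≤ 256 * 2 ^ j)
    have hr0 : (0 : ℝ) < (Lb841.rr τ (2 ^ j) : ℝ) := by
      exact_mod_cast (by have := hg.r3; omega : 0 < Lb841.rr τ (2 ^ j))
    rw [← div_le_iff₀ hr0]
    calc (Lb841.RR τ (2 ^ j) : ℝ) / Lb841.rr τ (2 ^ j)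
        ≤ 4 * ((256 * 2 ^ j : ℕ) : ℝ) ^ (2 * τ) :=
          Lb841.ratio_le (Nat.one_le_two_pow) hτ.le hj3
      _ ≤ ((256 * 2 ^ j : ℕ) : ℝ) ^ (κ / 2) * ((256 * 2 ^ j : ℕ) : ℝ) ^ (2 * τ) :=
          mul_le_mul_of_nonneg_right hj2 (Real.rpow_nonneg (by linarith) _)
      _ = ((256 * 2 ^ j : ℕ) : ℝ) ^ (κ / 2 + 2 * τ) := by
          rw [← Real.rpow_add (by linarith)]
      _ ≤ ((256 * 2 ^ j : ℕ) : ℝ) ^ κ :=
          Real.rpow_le_rpow_of_exponent_le hn (by linarith)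
  · have := hL e00 rfl
    push_cast at this ⊢
    exact this

/-- **`SC` modulo quasi-multiplicativity and `SB`** -/
theorem sc_final (hLaw : Bs410.Law3) (hQ : Zs110.QM2) (hB : Ax107.SB Ax107.p2) :
    Ax107.SC Ax107.p2 Ax107.p4 :=
  sc_law hLaw lb3p hQ hB

end Crest.Agent.R158.Uc31
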