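import Crest.Agent.R158.Top5_772
import Crest.Agent.R158.Uc7_31

/-!
# Row 158 (helper772, integration of S0235 + S0236), part 6: `SC` plugged in

* `sc_law' (hLaw)` : `SC p2 p4`
* `both7 (hLaw) (hR : Ud107.DRight)` : S0235 and S0236
-/

set_option autoImplicit false

noncomputable section

namespace Crest.Agent.R158.Top772

open MeasureTheory Filter Topology unitInterval
open Crest.Agent.R158.Ax107

/-- upper bound of four arms -/
theorem sc_law' (hLaw : Bs410.Law3) : SC p2 p4 :=
  Uc31.sc_final hLaw Sc689.qm2 (sb_law hLaw)

/-- both statements from the law of the first moments and `DRight` -/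
theorem both7 (hLaw : Bs410.Law3) (hR : Ud107.DRight) : St235 ∧ St236 :=
  both6 hLaw (sc_law' hLaw) hR

end Crest.Agent.R158.Top772
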