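import Crest.Agent.R158.Bs2_410
import Crest.Agent.R158.Top4_772

/-!
# Row 158 (helper772, integration of S0235 + S0236): the scaling limit plugged in

* `hypA_final` : the one-arm exponent at `p = 1/2`, unconditional
* `both5` : S0235 and S0236 from `SB`, `SC`, `SD`
-/

set_option autoImplicit false

noncomputable section

namespace Crest.Agent.R158.Top772

open Crest.Agent.R158.Ax107

theorem hypA_final : Fr158.HypA := hypA_law Bs410.law3

theorem both5 (hB : SB p2) (hC : SC p2 p4) (hD : SD p2 p4) : St235 ∧ St236 :=
  both4 Bs410.law3 hB hC hD

end Crest.Agent.R158.Top772
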