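import Crest.Agent.R158.TopA_772
import Crest.Agent.R158.Top6_772
import Crest.Agent.R158.Fe2_110

/-!
# Row 158 (helper772, integration): the statements S0235 and S0236

All inputs are plugged in: the law of the first moments (`Bs410.law3`, from S0211), `SB`, `SC`, `DRight`.
-/

set_option autoImplicit false

noncomputable section

namespace Crest.Agent.R158.Top772

open Crest.Agent.R158.Ax107

/-- both statements -/
theorem both_main : St235 ∧ St236 :=
  both7 Bs410.law3 (Fe110.dright Bs410.law3 (HD_main (hypW_main Bs410.law3)))

theorem st0235 : St235 := both_main.1

theorem st0236 : St236 := both_main.2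

end Crest.Agent.R158.Top772
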