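import Mathlib

/-!
# R158, T1 part 1: non crossing matchings of a half plane (abstract strand diagrams)

A diagram: at every integer level `t` (between the levels `t` and `t+1`) at most one generator
`g t = some q` (a cap on the lower strands `q, q+1` and a cup on the upper strands `q, q+1`).
`mt g K p` = position where the path entering the slab `0..K` from above at `p` comes back to the
top (or `none`).  It is an involution without fixed points and non crossing, and the rotation
number of the path is `sign (j - p)` (`0` for a path through the slab).
-/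

set_option autoImplicit false

namespace Crest.Agent.R158.Ts405

/-- fixed point free partial involution -/
def Inv (m : ℤ → Option ℤ) : Prop := ∀ p j, m p = some j → m j = some p ∧ j ≠ p

/-- non crossing: everything below an arc is matched below the arc -/
def NC (m : ℤ → Option ℤ) : Prop :=
  ∀ p j, m p = some j → ∀ l, p < l → l < j → ∃ l', m l = some l' ∧ p < l' ∧ l' < j

/-- add the generator `q` on top -/
def ap (q : ℤ) (m : ℤ → Option ℤ) (p : ℤ) : Option ℤ :=
  if p = q then some (q + 1) else if p = q + 1 then some q else
    match m p with
    | none => none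
    | some j => if j = q then m (q + 1) else if j = q + 1 then m q else some j

theorem ap_q (q : ℤ) (m : ℤ → Option ℤ) : ap q m q = some (q + 1) := by simp [ap]

theorem ap_q1 (q : ℤ) (m : ℤ → Option ℤ) : ap q m (q + 1) = some q := by simp [ap]

theorem ap_none {q p : ℤ} {m : ℤ → Option ℤ} (h1 : p ≠ q) (h2 : p ≠ q + 1) (h : m p = none) :
    ap q m p = none := by simp [ap, h1, h2, h]

theorem ap_other {q p j : ℤ} {m : ℤ → Option ℤ} (h1 : p ≠ q) (h2 : p ≠ q + 1)
    (h : m p = some j) (h3 : j ≠ q) (h4 : j ≠ q + 1) : ap q m p = some j := by
  simp [ap, h1, h2, h, h3, h4]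

theorem ap_left {q p : ℤ} {m : ℤ → Option ℤ} (h1 : p ≠ q) (h2 : p ≠ q + 1)
    (h : m p = some q) : ap q m p = m (q + 1) := by simp [ap, h1, h2, h]

theorem ap_right {q p : ℤ} {m : ℤ → Option ℤ} (h1 : p ≠ q) (h2 : p ≠ q + 1)
    (h : m p = some (q + 1)) : ap q m p = m q := by simp [ap, h1, h2, h]

/-- case analysis for `ap q m p = some j` -/
theorem ap_cases {q p j : ℤ} {m : ℤ → Option ℤ} (h : ap q m p = some j) :
    (p = q ∧ j = q + 1) ∨ (p = q + 1 ∧ j = q) ∨
    (p ≠ q ∧ p ≠ q + 1 ∧
      ((m p = some j ∧ j ≠ q ∧ j ≠ q + 1) ∨ (m p = some q ∧ m (q + 1) = some j) ∨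
        (m p = some (q + 1) ∧ m q = some j))) := by
  by_cases h1 : p = q
  · left
    subst h1
    rw [ap_q] at h
    exact ⟨rfl, (Option.some.inj h).symm⟩
  by_cases h2 : p = q + 1
  · right; left
    subst h2
    rw [ap_q1] at h
    exact ⟨rfl, (Option.some.inj h).symm⟩
  right; right
  refine ⟨h1, h2, ?_⟩
  rcases hm : m p with _ | j0
  · rw [ap_none h1 h2 hm] at h; exact absurd h (by simp)
  · by_cases h3 : j0 = q
    · subst h3
      rw [ap_left h1 h2 hm] at h
      right; left; exact ⟨rfl, h⟩
    · by_cases h4 : j0 = q + 1
      · subst h4
        rw [ap_right h1 h2 hm] at h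
        right; right; exact ⟨rfl, h⟩
      · rw [ap_other h1 h2 hm h3 h4] at h
        have := Option.some.inj h
        subst this
        left; exact ⟨rfl, h3, h4⟩

theorem inv_ap {m : ℤ → Option ℤ} (hi : Inv m) (q : ℤ) : Inv (ap q m) := by
  intro p j h
  rcases ap_cases h with ⟨rfl, rfl⟩ | ⟨rfl, rfl⟩ | ⟨h1, h2, h3⟩
  · exact ⟨ap_q1 _ _, by omega⟩
  · exact ⟨ap_q _ _, by omega⟩
  · rcases h3 with ⟨h4, h5, h6⟩ | ⟨h4, h5⟩ | ⟨h4, h5⟩
    · obtain ⟨h7, h8⟩ := hi _ _ h4
      exact ⟨ap_other h5 h6 h7 h1 h2, h8⟩
    · obtain ⟨h7, h8⟩ := hi _ _ h4
      obtain ⟨h9, h10⟩ := hi _ _ h5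
      -- j ≠ q : else m q = some (q+1), p = q+1
      have hjq : j ≠ q := by
        rintro rfl
        rw [h7] at h9
        exact h2 (Option.some.inj h9)
      refine ⟨?_, ?_⟩
      · rw [ap_right hjq h10 h9, h7]
      · rintro rfl
        rw [h9] at h4
        have := Option.some.inj h4
        omega
    · obtain ⟨h7, h8⟩ := hi _ _ h4
      obtain ⟨h9, h10⟩ := hi _ _ h5
      have hjq : j ≠ q + 1 := by
        rintro rfl
        rw [h7] at h9
        exact h1 (Option.some.inj h9)
      refine ⟨?_, ?_⟩
      · rw [ap_left h10 hjq h9, h7]
      · rintro rfl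
        rw [h9] at h4
        have := Option.some.inj h4
        omega

theorem nc_ap {m : ℤ → Option ℤ} (hi : Inv m) (hn : NC m) (q : ℤ) : NC (ap q m) := by
  intro p j h l hpl hlj
  rcases ap_cases h with ⟨rfl, rfl⟩ | ⟨rfl, rfl⟩ | ⟨h1, h2, h3⟩
  · omega
  · omega
  · rcases h3 with ⟨h4, h5, h6⟩ | ⟨h4, h5⟩ | ⟨h4, h5⟩
    · by_cases hlq : l = q
      · subst hlq
        exact ⟨l + 1, ap_q _ _, by omega, by omega⟩
      by_cases hlq1 : l = q + 1
      · subst hlq1
        exact ⟨q, ap_q1 _ _, by omega, by omega⟩
      obtain ⟨l', h7, h8, h9⟩ := hn _ _ h4 l hpl hlj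
      by_cases h10 : l' = q
      · subst h10
        obtain ⟨l'', h11, h12, h13⟩ := hn _ _ h4 (l' + 1) (by omega) (by omega)
        exact ⟨l'', by rw [ap_left hlq hlq1 h7, h11], h12, h13⟩
      by_cases h10' : l' = q + 1
      · subst h10'
        obtain ⟨l'', h11, h12, h13⟩ := hn _ _ h4 q (by omega) (by omega)
        exact ⟨l'', by rw [ap_right hlq hlq1 h7, h11], h12, h13⟩
      exact ⟨l', ap_other hlq hlq1 h7 h10 h10', h8, h9⟩
    · -- p matched with q, q+1 matched with j
      obtain ⟨h7, h8⟩ := hi _ _ h4
      obtain ⟨h9, h10⟩ := hi _ _ h5
      have hjq : j ≠ q := by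
        rintro rfl
        rw [h7] at h9
        exact h2 (Option.some.inj h9)
      by_cases hlq : l = q
      · subst hlq
        exact ⟨l + 1, ap_q _ _, by omega, by omega⟩
      by_cases hlq1 : l = q + 1
      · subst hlq1
        exact ⟨q, ap_q1 _ _, by omega, by omega⟩
      rcases lt_or_gt_of_ne h1 with hpq | hpq
      · -- p < q
        have hj : q + 1 < j := by
          rcases lt_or_gt_of_ne h10 with hj | hj
          · exfalso
            obtain ⟨l', h11, h12, h13⟩ := hn _ _ h4 j (by omega) (by omega)
            rw [h9] at h11
            have := Option.some.inj h11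
            omega
          · exact hj
        rcases lt_or_gt_of_ne hlq with hl | hl
        · obtain ⟨l', h11, h12, h13⟩ := hn _ _ h4 l hpl hl
          exact ⟨l', ap_other hlq hlq1 h11 (by omega) (by omega), by omega, by omega⟩
        · obtain ⟨l', h11, h12, h13⟩ := hn _ _ h5 l (by omega) hlj
          exact ⟨l', ap_other hlq hlq1 h11 (by omega) (by omega), by omega, by omega⟩
      · -- q < p
        exfalso
        obtain ⟨l', h11, h12, h13⟩ := hn _ _ h7 (q + 1) (by omega) (by omega)
        rw [h5] at h11
        have := Option.some.inj h11
        omega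
    · -- p matched with q+1, q matched with j
      obtain ⟨h7, h8⟩ := hi _ _ h4
      obtain ⟨h9, h10⟩ := hi _ _ h5
      have hjq : j ≠ q + 1 := by
        rintro rfl
        rw [h7] at h9
        exact h1 (Option.some.inj h9)
      by_cases hlq : l = q
      · subst hlq
        exact ⟨l + 1, ap_q _ _, by omega, by omega⟩
      by_cases hlq1 : l = q + 1
      · subst hlq1
        exact ⟨q, ap_q1 _ _, by omega, by omega⟩
      rcases lt_or_gt_of_ne h1 with hpq | hpq
      · -- p < q: p < j < q
        obtain ⟨l0, h11, h12, h13⟩ := hn _ _ h4 q (by omega) (by omega)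
        rw [h5] at h11
        have hl0 := Option.some.inj h11
        subst hl0
        obtain ⟨l', h14, h15, h16⟩ := hn _ _ h4 l hpl (by omega)
        have hl'q : l' ≠ q := by
          rintro rfl
          have := (hi _ _ h14).1
          rw [h5] at this
          have := Option.some.inj this
          omega
        have hl'j : l' < j := by
          rcases lt_trichotomy l' j with h17 | h17 | h17
          · exact h17
          · exfalso
            subst h17
            have := (hi _ _ h14).1
            rw [h9] at this
            have := Option.some.inj this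
            omega
          · exfalso
            obtain ⟨l2, h18, h19, h20⟩ := hn _ _ h9 l' (by omega) (by omega)
            have := (hi _ _ h14).1
            rw [this] at h18
            have := Option.some.inj h18
            omega
        exact ⟨l', ap_other hlq hlq1 h14 hl'q (by omega), h15, hl'j⟩
      · -- q + 1 < p < j
        obtain ⟨l', h14, h15, h16⟩ := hn _ _ h5 l (by omega) hlj
        have hl'q : l' ≠ q + 1 := by
          rintro rfl
          have := (hi _ _ h14).1
          rw [h7] at this
          have := Option.some.inj this
          omega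
        have hl'j : p < l' := by
          rcases lt_trichotomy l' p with h17 | h17 | h17
          · exfalso
            obtain ⟨l2, h18, h19, h20⟩ := hn _ _ h7 l' (by omega) (by omega)
            have := (hi _ _ h14).1
            rw [this] at h18
            have := Option.some.inj h18
            omega
          · exfalso
            subst h17
            have := (hi _ _ h14).1
            rw [h4] at this
            have := Option.some.inj this
            omega
          · exact h17
        exact ⟨l', ap_other hlq hlq1 h14 (by omega) hl'q, hl'j, h16⟩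

/-- matching at the top of the slab `0..K` -/
def mt (g : ℤ → Option ℤ) : ℕ → ℤ → Option ℤ
  | 0 => fun _ => none
  | K + 1 => match g K with
    | none => mt g K
    | some q => ap q (mt g K)

theorem mt_inv (g : ℤ → Option ℤ) (K : ℕ) : Inv (mt g K) := by
  induction K with
  | zero => intro p j h; simp [mt] at h
  | succ K ih =>
    rcases hg : g K with _ | q
    · simpa [mt, hg] using ih
    · simpa [mt, hg] using inv_ap ih q

theorem mt_nc (g : ℤ → Option ℤ) (K : ℕ) : NC (mt g K) := by
  induction K with
  | zero => intro p j h; simp [mt] at h
  | succ K ih =>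
    rcases hg : g K with _ | q
    · simpa [mt, hg] using ih
    · simpa [mt, hg] using nc_ap (mt_inv g K) ih q

/-! ## darts and paths -/

/-- position, level, direction (`true` = up) -/
abbrev AD : Type := ℤ × ℤ × Bool

/-- next dart -/
def nx (g : ℤ → Option ℤ) (d : AD) : AD :=
  if d.2.2 then
    match g d.2.1 with
    | none => (d.1, d.2.1 + 1, true)
    | some q => if d.1 = q then (q + 1, d.2.1, false) else
        if d.1 = q + 1 then (q, d.2.1, false) else (d.1, d.2.1 + 1, true)
  else
    match g (d.2.1 - 1) with
    | none => (d.1, d.2.1 - 1, false)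
    | some q => if d.1 = q then (q + 1, d.2.1, true) else
        if d.1 = q + 1 then (q, d.2.1, true) else (d.1, d.2.1 - 1, false)

/-- rotation (in half turns, after the correction by the type of the edge) -/
def rho (g : ℤ → Option ℤ) (d : AD) : ℤ :=
  if d.2.2 then
    match g d.2.1 with
    | none => 0
    | some q => if d.1 = q then -1 else if d.1 = q + 1 then 1 else 0
  else
    match g (d.2.1 - 1) with
    | none => 0
    | some q => if d.1 = q then 1 else if d.1 = q + 1 then -1 else 0

/-- strictly inside the slab of height `K` (a dart that goes down from the top is inside) -/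
def Ins (K : ℤ) (d : AD) : Prop := d.2.1 ≤ K ∧ (d.2.2 = true → d.2.1 < K)

/-- path from `d` to `d'`, all darts but the last one inside the slab of height `K` -/
inductive Seg (g : ℤ → Option ℤ) (K : ℤ) : AD → AD → ℤ → Prop
  | refl (d : AD) : Seg g K d d 0
  | step {d d' : AD} {k : ℤ} (h : Ins K d) (hs : Seg g K (nx g d) d' k) :
      Seg g K d d' (rho g d + k)

theorem Seg.trans {g : ℤ → Option ℤ} {K : ℤ} {d d' d'' : AD} {k k' : ℤ}
    (h : Seg g K d d' k) (h' : Seg g K d' d'' k') : Seg g K d d'' (k + k') := by
  induction h with
  | refl d => simpa using h'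
  | step hi _ ih =>
    have := Seg.step hi (ih h')
    rw [add_assoc]; exact this

theorem Seg.mono {g : ℤ → Option ℤ} {K K' : ℤ} (hK : K ≤ K') {d d' : AD} {k : ℤ}
    (h : Seg g K d d' k) : Seg g K' d d' k := by
  induction h with
  | refl d => exact Seg.refl d
  | step hi _ ih => exact Seg.step ⟨le_trans hi.1 hK, fun h => lt_of_lt_of_le (hi.2 h) hK⟩ ih

theorem Seg.one {g : ℤ → Option ℤ} {K : ℤ} {d d' : AD} {k : ℤ} (h : Ins K d)
    (hd : nx g d = d') (hk : rho g d = k) : Seg g K d d' k := by
  subst hd; subst hk
  have := Seg.step (g := g) (d' := nx g d) (k := 0) h (Seg.refl _)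
  simpa using this

/-- sign of `j - p` -/
def sg (p j : ℤ) : ℤ := if p < j then 1 else -1

/-- **rotation of the paths that enter a slab from above** -/
theorem seg_top (g : ℤ → Option ℤ) (K : ℕ) :
    ∀ p : ℤ, (∀ j, mt g K p = some j → Seg g K (p, (K : ℤ), false) (j, (K : ℤ), true) (sg p j)) ∧
      (mt g K p = none → ∃ p', Seg g K (p, (K : ℤ), false) (p', 0, false) 0) := by
  induction K with
  | zero =>
    intro p
    refine ⟨fun j h => by simp [mt] at h, fun _ => ⟨p, ?_⟩⟩
    exact Seg.refl _
  | succ K ih =>
    intro p
    have hKK : ((K : ℕ) : ℤ) ≤ ((K + 1 : ℕ) : ℤ) := by push_cast; omega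
    have hlev : (((K + 1 : ℕ) : ℤ)) - 1 = (K : ℤ) := by push_cast; ring
    have hcast : (((K + 1 : ℕ) : ℤ)) = (K : ℤ) + 1 := by push_cast; ring
    have insTop : Ins ((K + 1 : ℕ) : ℤ) (p, ((K + 1 : ℕ) : ℤ), false) :=
      ⟨le_refl _, fun h => by simp at h⟩
    have insUp : ∀ j : ℤ, Ins ((K + 1 : ℕ) : ℤ) (j, (K : ℤ), true) := fun j =>
      ⟨hKK, fun _ => by push_cast; omega⟩
    rcases hg : g K with _ | q
    · -- no generator
      have hmt : mt g (K + 1) = mt g K := by simp [mt, hg]
      have hdown : Seg g ((K + 1 : ℕ) : ℤ) (p, ((K + 1 : ℕ) : ℤ), false) (p, (K : ℤ), false) 0 := by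
        refine Seg.one insTop ?_ ?_
        · simp [nx, hg]
        · simp [rho, hg]
      have hup : ∀ j : ℤ, Seg g ((K + 1 : ℕ) : ℤ) (j, (K : ℤ), true) (j, ((K + 1 : ℕ) : ℤ), true) 0 := by
        intro j
        refine Seg.one (insUp j) ?_ ?_
        · simp [nx, hg]
        · simp [rho, hg]
      rw [hmt]
      refine ⟨fun j h => ?_, fun h => ?_⟩
      · have h1 := (((ih p).1 j h).mono hKK)
        have := (hdown.trans h1).trans (hup j)
        simpa using this
      · obtain ⟨p', h1⟩ := (ih p).2 h
        exact ⟨p', by simpa using hdown.trans (h1.mono hKK)⟩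
    · have hmt : mt g (K + 1) = ap q (mt g K) := by simp [mt, hg]
      rw [hmt]
      have hinv := mt_inv g K
      have hnc := mt_nc g K
      -- elementary moves
      have hupo : ∀ j : ℤ, j ≠ q → j ≠ q + 1 →
          Seg g ((K + 1 : ℕ) : ℤ) (j, (K : ℤ), true) (j, ((K + 1 : ℕ) : ℤ), true) 0 := by
        intro j h1 h2
        refine Seg.one (insUp j) ?_ ?_
        · simp [nx, hg, h1, h2]
        · simp [rho, hg, h1, h2]
      have hupq : Seg g ((K + 1 : ℕ) : ℤ) (q, (K : ℤ), true) (q + 1, (K : ℤ), false) (-1) := by
        refine Seg.one (insUp q) ?_ ?_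
        · simp [nx, hg]
        · simp [rho, hg]
      have hupq1 : Seg g ((K + 1 : ℕ) : ℤ) (q + 1, (K : ℤ), true) (q, (K : ℤ), false) 1 := by
        refine Seg.one (insUp (q + 1)) ?_ ?_
        · simp [nx, hg]
        · simp [rho, hg]
      by_cases hpq : p = q
      · subst hpq
        refine ⟨fun j h => ?_, fun h => ?_⟩
        · rw [ap_q] at h
          have := Option.some.inj h
          subst this
          refine Seg.one insTop ?_ ?_
          · simp [nx, hg]
          · simp [rho, hg, sg]
        · rw [ap_q] at h; exact absurd h (by simp)
      by_cases hpq1 : p = q + 1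
      · subst hpq1
        refine ⟨fun j h => ?_, fun h => ?_⟩
        · rw [ap_q1] at h
          have := Option.some.inj h
          subst this
          refine Seg.one insTop ?_ ?_
          · simp [nx, hg]
          · simp [rho, hg, sg]
        · rw [ap_q1] at h; exact absurd h (by simp)
      have hdown : Seg g ((K + 1 : ℕ) : ℤ) (p, ((K + 1 : ℕ) : ℤ), false) (p, (K : ℤ), false) 0 := by
        refine Seg.one insTop ?_ ?_
        · simp [nx, hg, hpq, hpq1]
        · simp [rho, hg, hpq, hpq1]
      refine ⟨fun j h => ?_, fun h => ?_⟩
      · rcases ap_cases h with ⟨h1, _⟩ | ⟨h1, _⟩ | ⟨_, _, h3⟩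
        · exact absurd h1 hpq
        · exact absurd h1 hpq1
        · rcases h3 with ⟨h4, h5, h6⟩ | ⟨h4, h5⟩ | ⟨h4, h5⟩
          · have h1 := (((ih p).1 j h4).mono hKK)
            have := (hdown.trans h1).trans (hupo j h5 h6)
            simpa using this
          · obtain ⟨h7, h8⟩ := hinv _ _ h4
            obtain ⟨h9, h10⟩ := hinv _ _ h5
            have hjq : j ≠ q := by
              rintro rfl
              rw [h7] at h9
              exact hpq1 (Option.some.inj h9)
            have h1 := (((ih p).1 q h4).mono hKK)
            have h2 := (((ih (q + 1)).1 j h5).mono hKK)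
            have h3 := (((hdown.trans h1).trans hupq).trans h2).trans (hupo j hjq h10)
            have hs : 0 + sg p q + -1 + sg (q + 1) j + 0 = sg p j := by
              unfold sg
              rcases lt_or_gt_of_ne hpq with hp | hp
              · rcases lt_or_gt_of_ne h10 with hj | hj
                · by_cases hjp : j < p
                  · rw [if_pos hp, if_neg (by omega), if_neg (by omega)]; norm_num
                  · exfalso
                    have hne : j ≠ p := by
                      rintro rfl
                      rw [h9] at h4
                      have := Option.some.inj h4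
                      omega
                    obtain ⟨l', h11, h12, h13⟩ := hnc _ _ h4 j (by omega) (by omega)
                    rw [h9] at h11
                    have := Option.some.inj h11
                    omega
                · rw [if_pos hp, if_pos (by omega), if_pos (by omega)]; norm_num
              · obtain ⟨l', h11, h12, h13⟩ := hnc _ _ h7 (q + 1) (by omega) (by omega)
                rw [h5] at h11
                have := Option.some.inj h11
                subst this
                rw [if_neg (by omega), if_pos (by omega), if_neg (by omega)]; norm_num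
            rw [← hs]; exact h3
          · obtain ⟨h7, h8⟩ := hinv _ _ h4
            obtain ⟨h9, h10⟩ := hinv _ _ h5
            have hjq : j ≠ q + 1 := by
              rintro rfl
              rw [h7] at h9
              exact hpq (Option.some.inj h9)
            have h1 := (((ih p).1 (q + 1) h4).mono hKK)
            have h2 := (((ih q).1 j h5).mono hKK)
            have h3 := (((hdown.trans h1).trans hupq1).trans h2).trans (hupo j h10 hjq)
            have hs : 0 + sg p (q + 1) + 1 + sg q j + 0 = sg p j := by
              unfold sg
              rcases lt_or_gt_of_ne hpq with hp | hp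
              · obtain ⟨l', h11, h12, h13⟩ := hnc _ _ h4 q (by omega) (by omega)
                rw [h5] at h11
                have := Option.some.inj h11
                subst this
                rw [if_pos (by omega), if_neg (by omega), if_pos (by omega)]; norm_num
              · by_cases hj : j < q
                · rw [if_neg (by omega), if_neg (by omega), if_neg (by omega)]; norm_num
                · by_cases hjp : p < j
                  · rw [if_neg (by omega), if_pos (by omega), if_pos (by omega)]; norm_num
                  · exfalso
                    have hne : j ≠ p := by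
                      rintro rfl
                      rw [h9] at h4
                      have := Option.some.inj h4
                      omega
                    obtain ⟨l', h11, h12, h13⟩ := hnc _ _ h7 j (by omega) (by omega)
                    rw [h9] at h11
                    have := Option.some.inj h11
                    omega
            rw [← hs]; exact h3
      · rcases hm : mt g K p with _ | j0
        · obtain ⟨p', h1⟩ := (ih p).2 hm
          exact ⟨p', by simpa using hdown.trans (h1.mono hKK)⟩
        · by_cases h3 : j0 = q
          · subst h3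
            rw [ap_left hpq hpq1 hm] at h
            obtain ⟨p', h1⟩ := (ih (j0 + 1)).2 h
            refine ⟨p', ?_⟩
            have h2 := (((ih p).1 j0 hm).mono hKK)
            have h5 := ((hdown.trans h2).trans hupq).trans (h1.mono hKK)
            have hp : p < j0 := by
              by_contra hc
              obtain ⟨h7, h8⟩ := hinv _ _ hm
              obtain ⟨l', h11, _, _⟩ := hnc _ _ h7 (j0 + 1) (by omega) (by omega)
              rw [h] at h11
              exact absurd h11 (by simp)
            have hs : 0 + sg p j0 + -1 + 0 = 0 := by
              unfold sg; rw [if_pos hp]; norm_num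
            rw [hs] at h5; exact h5
          · by_cases h4 : j0 = q + 1
            · subst h4
              rw [ap_right hpq hpq1 hm] at h
              obtain ⟨p', h1⟩ := (ih q).2 h
              refine ⟨p', ?_⟩
              have h2 := (((ih p).1 (q + 1) hm).mono hKK)
              have h5 := ((hdown.trans h2).trans hupq1).trans (h1.mono hKK)
              have hp : ¬ p < q + 1 := by
                intro hc
                obtain ⟨l', h11, _, _⟩ := hnc _ _ hm q (by omega) (by omega)
                rw [h] at h11
                exact absurd h11 (by simp)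
              have hs : 0 + sg p (q + 1) + 1 + 0 = 0 := by
                unfold sg; rw [if_neg hp]; norm_num
              rw [hs] at h5; exact h5
            · rw [ap_other hpq hpq1 hm h3 h4] at h
              exact absurd h (by simp)

end Crest.Agent.R158.Ts405
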