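import Crest.Agent.R158.Ts1_405

/-!
# R158, T1 part 2: rotation number of closed loops and of through paths (abstract diagrams)
-/

set_option autoImplicit false

namespace Crest.Agent.R158.Ts405

/-- total rotation of the first `m` steps -/
def rot (g : ℤ → Option ℤ) (m : ℕ) (d : AD) : ℤ :=
  ∑ i ∈ Finset.range m, rho g ((nx g)^[i] d)

theorem rot_zero (g : ℤ → Option ℤ) (d : AD) : rot g 0 d = 0 := by simp [rot]

theorem rot_add (g : ℤ → Option ℤ) (a b : ℕ) (d : AD) :
    rot g (a + b) d = rot g a d + rot g b ((nx g)^[a] d) := by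
  unfold rot
  rw [Finset.sum_range_add]
  congr 1
  refine Finset.sum_congr rfl fun i _ => ?_
  rw [← Function.iterate_add_apply, add_comm i a]

theorem rot_succ (g : ℤ → Option ℤ) (a : ℕ) (d : AD) :
    rot g (a + 1) d = rho g d + rot g a (nx g d) := by
  rw [add_comm a 1, rot_add]
  simp [rot]

theorem rot_one (g : ℤ → Option ℤ) (d : AD) : rot g 1 d = rho g d := by
  simp [rot]

theorem Seg.iter {g : ℤ → Option ℤ} {K : ℤ} {d d' : AD} {k : ℤ} (h : Seg g K d d' k) :
    ∃ m : ℕ, (∀ i < m, Ins K ((nx g)^[i] d)) ∧ (nx g)^[m] d = d' ∧ rot g m d = k := by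
  induction h with
  | refl d => exact ⟨0, by simp, rfl, rot_zero g d⟩
  | @step d d' k hi _ ih =>
    obtain ⟨m, h1, h2, h3⟩ := ih
    refine ⟨m + 1, ?_, ?_, ?_⟩
    · intro i hi'
      rcases i with _ | i
      · simpa using hi
      · rw [Function.iterate_succ_apply]
        exact h1 i (by omega)
    · rw [Function.iterate_succ_apply]; exact h2
    · rw [rot_succ, h3]

/-! ### reversal -/

/-- reversed dart -/
def rv (d : AD) : AD := (d.1, d.2.1, !d.2.2)

theorem rv_rv (d : AD) : rv (rv d) = d := by simp [rv]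

theorem nx_rv (g : ℤ → Option ℤ) (d : AD) : nx g (rv (nx g d)) = rv d := by
  obtain ⟨p, t, b⟩ := d
  cases b
  · rcases hg : g (t - 1) with _ | q
    · simp [nx, rv, hg]
    · by_cases h1 : p = q
      · subst h1; simp [nx, rv, hg]
      · by_cases h2 : p = q + 1
        · subst h2; simp [nx, rv, hg]
        · simp [nx, rv, hg, h1, h2]
  · rcases hg : g t with _ | q
    · simp [nx, rv, hg]
    · by_cases h1 : p = q
      · subst h1; simp [nx, rv, hg]
      · by_cases h2 : p = q + 1
        · subst h2; simp [nx, rv, hg]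
        · simp [nx, rv, hg, h1, h2]

theorem rho_rv (g : ℤ → Option ℤ) (d : AD) : rho g (rv (nx g d)) = - rho g d := by
  obtain ⟨p, t, b⟩ := d
  cases b
  · rcases hg : g (t - 1) with _ | q
    · simp [nx, rv, rho, hg]
    · by_cases h1 : p = q
      · subst h1; simp [nx, rv, rho, hg]
      · by_cases h2 : p = q + 1
        · subst h2; simp [nx, rv, rho, hg]
        · simp [nx, rv, rho, hg, h1, h2]
  · rcases hg : g t with _ | q
    · simp [nx, rv, rho, hg]
    · by_cases h1 : p = q
      · subst h1; simp [nx, rv, rho, hg]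
      · by_cases h2 : p = q + 1
        · subst h2; simp [nx, rv, rho, hg]
        · simp [nx, rv, rho, hg, h1, h2]

theorem nx_inj (g : ℤ → Option ℤ) : Function.Injective (nx g) := by
  intro a b h
  have h1 := nx_rv g a
  have h2 := nx_rv g b
  rw [h] at h1
  have h3 : rv a = rv b := by rw [← h1, ← h2]
  have := congrArg rv h3
  rwa [rv_rv, rv_rv] at this

theorem iter_rv (g : ℤ → Option ℤ) (m : ℕ) (d : AD) :
    (nx g)^[m] (rv ((nx g)^[m] d)) = rv d := by
  induction m generalizing d with
  | zero => rfl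
  | succ m ih =>
    have h1 : (nx g)^[m + 1] d = nx g ((nx g)^[m] d) := Function.iterate_succ_apply' _ _ _
    rw [h1, Function.iterate_succ_apply, nx_rv, ih]

theorem rot_rv (g : ℤ → Option ℤ) (m : ℕ) (d : AD) :
    rot g m (rv ((nx g)^[m] d)) = - rot g m d := by
  induction m generalizing d with
  | zero => simp [rot]
  | succ m ih =>
    have h1 : (nx g)^[m + 1] d = nx g ((nx g)^[m] d) := Function.iterate_succ_apply' _ _ _
    have h2 : rot g (m + 1) d = rot g m d + rho g ((nx g)^[m] d) := by
      rw [rot_add, rot_one]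
    rw [h1, rot_succ, nx_rv, ih, h2, rho_rv]
    ring

/-! ### closed loops -/

/-- what precedes a dart at level `t` pointing down, when level `t+1` is not visited -/
theorem pred_down {g : ℤ → Option ℤ} {d : AD} {p t : ℤ} (h : nx g d = (p, t, false))
    (hl : d.2.1 ≤ t) : ∃ q, g t = some q ∧
      ((p = q ∧ d = (q + 1, t, true)) ∨ (p = q + 1 ∧ d = (q, t, true))) := by
  obtain ⟨a, s, b⟩ := d
  simp only at hl
  cases b
  · rcases hg : g (s - 1) with _ | q
    · simp [nx, hg] at h
      omega
    · by_cases h1 : a = q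
      · subst h1; simp [nx, hg] at h
      · by_cases h2 : a = q + 1
        · subst h2; simp [nx, hg] at h
        · simp [nx, hg, h1, h2] at h
          omega
  · rcases hg : g s with _ | q
    · simp [nx, hg] at h
    · by_cases h1 : a = q
      · subst h1
        simp [nx, hg] at h
        obtain ⟨h3, h4⟩ := h
        subst h4
        exact ⟨a, hg, Or.inr ⟨h3.symm, rfl⟩⟩
      · by_cases h2 : a = q + 1
        · subst h2
          simp [nx, hg] at h
          obtain ⟨h3, h4⟩ := h
          subst h4
          exact ⟨q, hg, Or.inl ⟨h3.symm, rfl⟩⟩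
        · simp [nx, hg, h1, h2] at h

/-- what follows a dart at level `t` pointing up, when level `t+1` is not visited -/
theorem succ_up {g : ℤ → Option ℤ} {j t : ℤ} (hl : (nx g (j, t, true)).2.1 ≤ t) :
    ∃ q, g t = some q ∧ ((j = q ∧ nx g (j, t, true) = (q + 1, t, false)) ∨
      (j = q + 1 ∧ nx g (j, t, true) = (q, t, false))) := by
  rcases hg : g t with _ | q
  · simp [nx, hg] at hl
  · by_cases h1 : j = q
    · subst h1
      exact ⟨j, rfl, Or.inl ⟨rfl, by simp [nx, hg]⟩⟩
    · by_cases h2 : j = q + 1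
      · subst h2
        exact ⟨q, rfl, Or.inr ⟨rfl, by simp [nx, hg]⟩⟩
      · simp [nx, hg, h1, h2] at hl

theorem iter_mod {α : Type*} (f : α → α) {N : ℕ} {d : α} (h : f^[N] d = d) (i k : ℕ) :
    f^[i + k * N] d = f^[i] d := by
  induction k with
  | zero => simp
  | succ k ih =>
    have : i + (k + 1) * N = (i + k * N) + N := by ring
    rw [this, Function.iterate_add_apply, h, ih]

/-- the total rotation over a period does not depend on the starting point -/
theorem rot_shift (g : ℤ → Option ℤ) {N : ℕ} {d : AD} (h : (nx g)^[N] d = d) (i : ℕ) :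
    rot g N ((nx g)^[i] d) = rot g N d := by
  have h1 := rot_add g i N d
  have h2 := rot_add g N i d
  rw [h] at h2
  rw [add_comm N i] at h2
  linarith

/-- **rotation number of a closed loop, and its top vertex** -/
theorem closed_loop (g : ℤ → Option ℤ) (N : ℕ) (hN : 0 < N) (d : AD)
    (hper : (nx g)^[N] d = d) (hmin : ∀ i, 0 < i → i < N → (nx g)^[i] d ≠ d)
    (hlow : ∀ i, 0 < ((nx g)^[i] d).2.1) :
    ∃ (i : ℕ) (q t : ℤ), i < N ∧ g t = some q ∧ (∀ k, ((nx g)^[k] d).2.1 ≤ t) ∧
      (((nx g)^[i] d = (q + 1, t, true) ∧ rot g N d = 2) ∨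
        ((nx g)^[i] d = (q, t, true) ∧ rot g N d = -2)) := by
  classical
  -- the highest level
  obtain ⟨i0, hi0, hmax⟩ := Finset.exists_max_image (Finset.range N)
    (fun i => ((nx g)^[i] d).2.1) ⟨0, Finset.mem_range.mpr hN⟩
  set t : ℤ := ((nx g)^[i0] d).2.1 with ht
  have hall : ∀ k, ((nx g)^[k] d).2.1 ≤ t := by
    intro k
    have h1 : k = k % N + (k / N) * N := by rw [mul_comm]; exact (Nat.mod_add_div k N).symm
    rw [h1, iter_mod _ hper]
    exact hmax _ (Finset.mem_range.mpr (Nat.mod_lt _ hN))
  -- a dart pointing down at level t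
  obtain ⟨i1, p, hi1⟩ : ∃ i1 p, (nx g)^[i1] d = (p, t, false) := by
    rcases hb : (nx g)^[i0] d with ⟨a, s, b⟩
    have hs : s = t := by rw [ht, hb]
    subst hs
    cases b
    · exact ⟨i0, a, hb⟩
    · have h1 : (nx g)^[i0 + 1] d = nx g (a, t, true) := by
        rw [Function.iterate_succ_apply', hb]
      have h2 : (nx g (a, t, true)).2.1 ≤ t := by
        rw [← h1]; exact hall _
      obtain ⟨q, _, h3 | h3⟩ := succ_up h2
      · exact ⟨i0 + 1, q + 1, by rw [h1, h3.2]⟩
      · exact ⟨i0 + 1, q, by rw [h1, h3.2]⟩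
  -- predecessor
  have hpred : ∃ a, nx g a = (p, t, false) ∧ a.2.1 ≤ t ∧ ∃ k, a = (nx g)^[k] d := by
    rcases i1 with _ | i1
    · refine ⟨(nx g)^[N - 1] d, ?_, hall _, _, rfl⟩
      rw [← Function.iterate_succ_apply' (nx g)]
      have : N - 1 + 1 = N := by omega
      rw [Nat.succ_eq_add_one, this, hper]
      exact hi1
    · refine ⟨(nx g)^[i1] d, ?_, hall _, _, rfl⟩
      rw [← Function.iterate_succ_apply' (nx g)]; exact hi1
  obtain ⟨a, ha, hal, ka, hka⟩ := hpred
  obtain ⟨q, hq, hcase⟩ := pred_down ha hal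
  have htpos : 0 < t := by
    have := hlow i0
    rw [← ht] at this; exact this
  obtain ⟨K, hK⟩ : ∃ K : ℕ, (K : ℤ) = t := ⟨t.toNat, Int.toNat_of_nonneg htpos.le⟩
  have hq' : g (K : ℤ) = some q := by rw [hK]; exact hq
  have hperi : (nx g)^[N] (p, t, false) = (p, t, false) := by
    rw [← hi1, ← Function.iterate_add_apply, add_comm, Function.iterate_add_apply, hper]
  have hmini : ∀ i, 0 < i → i < N → (nx g)^[i] (p, t, false) ≠ (p, t, false) := by
    intro i h1 h2 h3
    -- shift back to d
    have h4 : (nx g)^[i1] ((nx g)^[i] d) = (nx g)^[i1] d := by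
      rw [← Function.iterate_add_apply, add_comm, Function.iterate_add_apply, hi1, h3]
    exact hmin i h1 h2 ((nx_inj g).iterate i1 h4)
  have hrot : rot g N (p, t, false) = rot g N d := by
    rw [← hi1]; exact rot_shift g hper i1
  -- top path
  rcases hm : mt g K p with _ | j
  · exfalso
    obtain ⟨p', hseg⟩ := (seg_top g K p).2 hm
    obtain ⟨m, _, h2, _⟩ := hseg.iter
    have h3 := hlow (m + i1)
    rw [Function.iterate_add_apply, hi1, ← hK, h2] at h3
    simp at h3
  · obtain ⟨m, h1, h2, h3⟩ := ((seg_top g K p).1 j hm).iter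
    have hjp := (mt_inv g K _ _ hm).2
    rw [hK] at h1 h2 h3
    have hnext : (nx g (j, t, true)).2.1 ≤ t := by
      have := hall ((m + i1) + 1)
      rw [Function.iterate_succ_apply', Function.iterate_add_apply, hi1, h2] at this
      exact this
    obtain ⟨q2, hq2, hcase2⟩ := succ_up hnext
    have hqq : q2 = q := by
      rw [hq] at hq2
      exact (Option.some.inj hq2).symm
    subst hqq
    have hclose : (nx g)^[m + 1] (p, t, false) = (p, t, false) := by
      rw [Function.iterate_succ_apply', h2]
      rcases hcase with ⟨hp, _⟩ | ⟨hp, _⟩ <;> rcases hcase2 with ⟨hj, hx⟩ | ⟨hj, hx⟩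
      · exfalso; omega
      · rw [hx, hp]
      · rw [hx, hp]
      · exfalso; omega
    have hfirst : ∀ i, 0 < i → i < m + 1 → (nx g)^[i] (p, t, false) ≠ (p, t, false) := by
      intro i h4 h5 h6
      obtain ⟨i', rfl⟩ : ∃ i', i = i' + 1 := ⟨i - 1, by omega⟩
      rw [Function.iterate_succ_apply'] at h6
      have h7 := h1 i' (by omega)
      obtain ⟨q3, _, h8⟩ := pred_down h6 h7.1
      rcases h8 with ⟨_, h9⟩ | ⟨_, h9⟩
      · rw [h9] at h7
        have := h7.2 rfl
        simp at this
      · rw [h9] at h7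
        have := h7.2 rfl
        simp at this
    have hNm : N = m + 1 := by
      rcases lt_trichotomy N (m + 1) with h4 | h4 | h4
      · exact absurd hperi (hfirst N hN h4)
      · exact h4
      · exact absurd hclose (hmini (m + 1) (by omega) h4)
    have hrN : rot g N d = sg p j + rho g (j, t, true) := by
      rw [← hrot, hNm, rot_add, rot_one, h3, h2]
    -- the index of (j, t, true)
    have hidx : ∃ i, i < N ∧ (nx g)^[i] d = (j, t, true) := by
      refine ⟨(m + i1) % N, Nat.mod_lt _ hN, ?_⟩
      have h5 : (m + i1) = (m + i1) % N + ((m + i1) / N) * N := by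
        rw [mul_comm]; exact (Nat.mod_add_div _ N).symm
      have h6 : (nx g)^[m + i1] d = (j, t, true) := by
        rw [Function.iterate_add_apply, hi1, h2]
      rw [h5, iter_mod _ hper] at h6
      exact h6
    obtain ⟨i, hiN, hi⟩ := hidx
    rcases hcase with ⟨hp, _⟩ | ⟨hp, _⟩ <;> rcases hcase2 with ⟨hj, hx⟩ | ⟨hj, hx⟩
    · exfalso; omega
    · refine ⟨i, q2, t, hiN, hq, hall, Or.inl ⟨by rw [hi, hj], ?_⟩⟩
      rw [hrN, hj, hp]
      simp [sg, rho, hq]
    · refine ⟨i, q2, t, hiN, hq, hall, Or.inr ⟨by rw [hi, hj], ?_⟩⟩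
      rw [hrN, hj, hp]
      simp [sg, rho, hq]
    · exfalso; omega

/-! ### through paths -/

theorem down_forever {g : ℤ → Option ℤ} (hg : ∀ t < 0, g t = none) (p : ℤ) (m : ℕ) :
    (nx g)^[m] (p, 0, false) = (p, -(m : ℤ), false) := by
  induction m with
  | zero => simp
  | succ m ih =>
    rw [Function.iterate_succ_apply', ih]
    have : g (-(m : ℤ) - 1) = none := hg _ (by omega)
    simp [nx, this]
    ring

/-- **rotation of a path from the bottom to the top of a slab vanishes** -/
theorem through (g : ℤ → Option ℤ) (hg : ∀ t < 0, g t = none) (K m : ℕ) (p j : ℤ)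
    (hend : (nx g)^[m] (p, 0, true) = (j, (K : ℤ), true))
    (hins : ∀ i, i < m → Ins (K : ℤ) ((nx g)^[i] (p, 0, true))) :
    rot g m (p, 0, true) = 0 := by
  -- the reversed path
  have hr1 : (nx g)^[m] (j, (K : ℤ), false) = (p, 0, false) := by
    have := iter_rv g m (p, 0, true)
    rw [hend] at this
    simpa [rv] using this
  have hr2 : rot g m (j, (K : ℤ), false) = - rot g m (p, 0, true) := by
    have := rot_rv g m (p, 0, true)
    rw [hend] at this
    simpa [rv] using this
  have hr3 : ∀ i, i ≤ m → (nx g)^[i] (j, (K : ℤ), false) = rv ((nx g)^[m - i] (p, 0, true)) := by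
    intro i hi
    have h1 : (nx g)^[i] ((nx g)^[m - i] (p, 0, true)) = (j, (K : ℤ), true) := by
      rw [← Function.iterate_add_apply]
      have : i + (m - i) = m := by omega
      rw [this, hend]
    have h2 := iter_rv g i ((nx g)^[m - i] (p, 0, true))
    rw [h1] at h2
    simpa [rv] using h2
  rcases hm : mt g K j with _ | j'
  · obtain ⟨p', hseg⟩ := (seg_top g K j).2 hm
    obtain ⟨m', h1, h2, h3⟩ := hseg.iter
    have hmm : m' = m := by
      rcases lt_trichotomy m' m with h4 | h4 | h4
      · exfalso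
        obtain ⟨e, rfl⟩ : ∃ e, m = e + m' := ⟨m - m', by omega⟩
        rw [Function.iterate_add_apply, h2, down_forever hg] at hr1
        have := congrArg (fun x : AD => x.2.1) hr1
        simp at this
        omega
      · exact h4
      · exfalso
        obtain ⟨e, rfl⟩ : ∃ e, m' = e + m := ⟨m' - m, by omega⟩
        rw [Function.iterate_add_apply, hr1, down_forever hg] at h2
        have := congrArg (fun x : AD => x.2.1) h2
        simp at this
        omega
    subst hmm
    rw [h3] at hr2
    linarith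
  · exfalso
    obtain ⟨m', h1, h2, h3⟩ := ((seg_top g K j).1 j' hm).iter
    rcases le_or_gt m' m with h4 | h4
    · have h5 := hr3 m' h4
      rw [h2] at h5
      have h6 : (nx g)^[m - m'] (p, 0, true) = (j', (K : ℤ), false) := by
        have := congrArg rv h5
        rw [rv_rv] at this
        rw [← this]; simp [rv]
      rcases hk : m - m' with _ | k
      · rw [hk] at h6
        simp at h6
      · rw [hk, Function.iterate_succ_apply'] at h6
        have h7 := hins k (by omega)
        obtain ⟨q3, _, h8⟩ := pred_down h6 h7.1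
        rcases h8 with ⟨_, h9⟩ | ⟨_, h9⟩
        · rw [h9] at h7
          have := h7.2 rfl
          simp at this
        · rw [h9] at h7
          have := h7.2 rfl
          simp at this
    · obtain ⟨e, rfl⟩ : ∃ e, m' = e + m := ⟨m' - m, by omega⟩
      rw [Function.iterate_add_apply, hr1, down_forever hg] at h2
      simp at h2

end Crest.Agent.R158.Ts405
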