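import Crest.Agent.R158.Ts2_405

/-!
# R158, T1 part 3: brickwork lattice, simulation by abstract diagrams

Brickwork lattice: edge `(p, n)` joins row `n` to row `n + 1`; the vertex `(q, n)` (`q ≡ n` mod 2)
touches the edges `(q, n-1), (q+1, n-1)` below and `(q, n), (q+1, n)` above.  `s q n = true`:
the two lower edges are joined and the two upper edges are joined; `false`: straight.
-/

set_option autoImplicit false

namespace Crest.Agent.R158.Ts405

/-- position of the vertex of row `r` touching the edge position `p` -/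
def vq (p r : ℤ) : ℤ := if (p - r) % 2 = 0 then p else p - 1

theorem vq_spec (p r : ℤ) : (vq p r - r) % 2 = 0 ∧ (vq p r = p ∨ vq p r + 1 = p) := by
  unfold vq
  split_ifs with h
  · exact ⟨h, Or.inl rfl⟩
  · exact ⟨by omega, Or.inr (by omega)⟩

theorem vq_unique {p r q : ℤ} (h : (q - r) % 2 = 0) (h2 : p = q ∨ p = q + 1) : vq p r = q := by
  unfold vq
  rcases h2 with rfl | rfl
  · rw [if_pos h]
  · rw [if_neg (by omega)]; ring

/-- next dart in the brickwork lattice; `(p, n, true)` = edge `(p, n)` directed up -/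
def nb (s : ℤ → ℤ → Bool) (d : AD) : AD :=
  if d.2.2 then
    if s (vq d.1 (d.2.1 + 1)) (d.2.1 + 1) then (2 * vq d.1 (d.2.1 + 1) + 1 - d.1, d.2.1, false)
    else (d.1, d.2.1 + 1, true)
  else
    if s (vq d.1 d.2.1) d.2.1 then (2 * vq d.1 d.2.1 + 1 - d.1, d.2.1, true)
    else (d.1, d.2.1 - 1, false)

/-- rotation of one step in the brickwork lattice -/
def rb (s : ℤ → ℤ → Bool) (d : AD) : ℤ :=
  if d.2.2 then
    if s (vq d.1 (d.2.1 + 1)) (d.2.1 + 1) then
      (if d.1 = vq d.1 (d.2.1 + 1) then -1 else 1) else 0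
  else
    if s (vq d.1 d.2.1) d.2.1 then (if d.1 = vq d.1 d.2.1 then 1 else -1) else 0

/-- letters of the window `[-X, X]`, rows `≥ b` -/
def gw (s : ℤ → ℤ → Bool) (X b : ℤ) (t : ℤ) : Option ℤ :=
  if 0 ≤ t ∧ ((t % (2 * X + 1) - X) - (b + t / (2 * X + 1))) % 2 = 0 ∧
      s (t % (2 * X + 1) - X) (b + t / (2 * X + 1)) = true then
    some (t % (2 * X + 1) - X) else none

/-- level of the edges between row `n` and row `n+1` -/
def lv (X b n : ℤ) : ℤ := (n + 1 - b) * (2 * X + 1)

def ph (X b : ℤ) (d : AD) : AD := (d.1, lv X b d.2.1, d.2.2)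

theorem gw_neg (s : ℤ → ℤ → Bool) (X b t : ℤ) (h : t < 0) : gw s X b t = none := by
  unfold gw
  rw [if_neg]
  rintro ⟨h1, _⟩
  omega

/-- the letter of the vertex `(q, r)` -/
theorem gw_at (s : ℤ → ℤ → Bool) {X b : ℤ} (hX : 0 ≤ X) {q r : ℤ} (hr : b ≤ r)
    (hq1 : -X ≤ q) (hq2 : q ≤ X) :
    gw s X b ((r - b) * (2 * X + 1) + (q + X)) =
      if (q - r) % 2 = 0 ∧ s q r = true then some q else none := by
  have hW : 0 < 2 * X + 1 := by omega
  have h1 : ((r - b) * (2 * X + 1) + (q + X)) % (2 * X + 1) = q + X := by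
    rw [add_comm, mul_comm, Int.add_mul_emod_self_left]
    exact Int.emod_eq_of_lt (by omega) (by omega)
  have h2 : ((r - b) * (2 * X + 1) + (q + X)) / (2 * X + 1) = r - b := by
    rw [add_comm, mul_comm, Int.add_mul_ediv_left _ _ (by omega)]
    rw [Int.ediv_eq_zero_of_lt (by omega) (by omega)]
    ring
  have h3 : 0 ≤ (r - b) * (2 * X + 1) + (q + X) := by
    have : 0 ≤ (r - b) * (2 * X + 1) := mul_nonneg (by omega) (by omega)
    omega
  unfold gw
  rw [h1, h2]
  have h4 : q + X - X = q := by ring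
  have h5 : b + (r - b) = r := by ring
  rw [h4, h5]
  by_cases hc : (q - r) % 2 = 0 ∧ s q r = true
  · rw [if_pos hc, if_pos ⟨h3, hc⟩]
  · rw [if_neg hc, if_neg (fun h => hc h.2)]

/-- every level of the slab between the edge rows is of the form above -/
theorem level_form {X t k : ℤ} (h1 : k * (2 * X + 1) ≤ t)
    (h2 : t < (k + 1) * (2 * X + 1)) :
    ∃ q, t = k * (2 * X + 1) + (q + X) ∧ -X ≤ q ∧ q ≤ X := by
  refine ⟨t - k * (2 * X + 1) - X, by ring, by omega, ?_⟩
  have : (k + 1) * (2 * X + 1) = k * (2 * X + 1) + (2 * X + 1) := by ring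
  omega

/-- the letter at level `t` does not touch the strand `p` -/
def Free (g : ℤ → Option ℤ) (t p : ℤ) : Prop := ∀ q, g t = some q → p ≠ q ∧ p ≠ q + 1

theorem nx_up_free {g : ℤ → Option ℤ} {t p : ℤ} (h : Free g t p) :
    nx g (p, t, true) = (p, t + 1, true) ∧ rho g (p, t, true) = 0 := by
  rcases hg : g t with _ | q
  · simp [nx, rho, hg]
  · obtain ⟨h1, h2⟩ := h q hg
    simp [nx, rho, hg, h1, h2]

theorem nx_down_free {g : ℤ → Option ℤ} {t p : ℤ} (h : Free g (t - 1) p) :
    nx g (p, t, false) = (p, t - 1, false) ∧ rho g (p, t, false) = 0 := by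
  rcases hg : g (t - 1) with _ | q
  · simp [nx, rho, hg]
  · obtain ⟨h1, h2⟩ := h q hg
    simp [nx, rho, hg, h1, h2]

theorem pass_up {g : ℤ → Option ℤ} {t p : ℤ} {k : ℕ}
    (h : ∀ i : ℕ, i < k → Free g (t + i) p) :
    ∀ i, i ≤ k → (nx g)^[i] (p, t, true) = (p, t + i, true) ∧ rot g i (p, t, true) = 0 := by
  intro i
  induction i with
  | zero => intro _; simp [rot]
  | succ i ih =>
    intro hi
    obtain ⟨h1, h2⟩ := ih (by omega)
    obtain ⟨h3, h4⟩ := nx_up_free (h i (by omega))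
    refine ⟨?_, ?_⟩
    · rw [Function.iterate_succ_apply', h1, h3]
      push_cast; rw [add_assoc]
    · rw [rot_add, rot_one, h1, h2, h4]; norm_num

theorem pass_down {g : ℤ → Option ℤ} {t p : ℤ} {k : ℕ}
    (h : ∀ i : ℕ, i < k → Free g (t - 1 - i) p) :
    ∀ i, i ≤ k → (nx g)^[i] (p, t, false) = (p, t - i, false) ∧ rot g i (p, t, false) = 0 := by
  intro i
  induction i with
  | zero => intro _; simp [rot]
  | succ i ih =>
    intro hi
    obtain ⟨h1, h2⟩ := ih (by omega)
    have h0 : Free g (t - i - 1) p := by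
      have := h i (by omega)
      have he : t - 1 - (i : ℤ) = t - i - 1 := by ring
      rwa [he] at this
    obtain ⟨h3, h4⟩ := nx_down_free h0
    refine ⟨?_, ?_⟩
    · rw [Function.iterate_succ_apply', h1, h3]
      push_cast
      congr 2
      ring
    · rw [rot_add, rot_one, h1, h2, h4]; norm_num

/-- properties of the simulation of one lattice step from `d` by `m` abstract steps -/
structure Sim (s : ℤ → ℤ → Bool) (X b : ℤ) (d : AD) (m : ℕ) : Prop where
  pos : 0 < m
  fin : (nx (gw s X b))^[m] (ph X b d) = ph X b (nb s d)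
  rot : rot (gw s X b) m (ph X b d) = rb s d
  mid : ∀ i, 0 < i → i < m → ¬ (2 * X + 1) ∣ ((nx (gw s X b))^[i] (ph X b d)).2.1
  lo : ∀ i, i ≤ m → lv X b d.2.1 - (if d.2.2 then 0 else (2 * X + 1)) ≤
    ((nx (gw s X b))^[i] (ph X b d)).2.1
  hi : ∀ i, i ≤ m → ((nx (gw s X b))^[i] (ph X b d)).2.1 ≤
    lv X b d.2.1 + (if d.2.2 then (2 * X + 1) else 0)
  ins : ∀ i, i < m → ((nx (gw s X b))^[i] (ph X b d)).2.2 = true →
    ((nx (gw s X b))^[i] (ph X b d)).2.1 < lv X b d.2.1 + (if d.2.2 then (2 * X + 1) else 0)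
  cap : ∀ i, i < m → ∀ a t q, (nx (gw s X b))^[i] (ph X b d) = (a, t, true) →
    gw s X b t = some q → (a = q ∨ a = q + 1) → d = (a, b + t / (2 * X + 1) - 1, true)

theorem not_dvd_mid {X k t : ℤ} (h1 : k * (2 * X + 1) < t) (h2 : t < (k + 1) * (2 * X + 1)) :
    ¬ (2 * X + 1) ∣ t := by
  rintro ⟨c, hc⟩
  have hW : 0 < 2 * X + 1 := by nlinarith
  rw [hc, mul_comm (2 * X + 1) c] at h1 h2
  have h3 := lt_of_mul_lt_mul_right h1 hW.le
  have h4 := lt_of_mul_lt_mul_right h2 hW.le
  omega


theorem bounce_up {g : ℤ → Option ℤ} {t p q : ℤ} {k : ℕ}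
    (h : ∀ i : ℕ, i < k → Free g (t + i) p) (h' : ∀ i : ℕ, i < k → Free g (t + i) (2 * q + 1 - p))
    (hq : g (t + k) = some q) (hp : p = q ∨ p = q + 1) :
    ∀ i, i ≤ k → (nx g)^[k + 1 + i] (p, t, true) = (2 * q + 1 - p, t + k - i, false) ∧
      rot g (k + 1 + i) (p, t, true) = if p = q then -1 else 1 := by
  have hb : nx g (p, t + k, true) = (2 * q + 1 - p, t + k, false) ∧
      rho g (p, t + k, true) = if p = q then -1 else 1 := by
    rcases hp with rfl | rfl
    · simp [nx, rho, hq]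
      ring
    · simp [nx, rho, hq]
      ring
  have h1 := pass_up h k le_rfl
  have h2 : (nx g)^[k + 1] (p, t, true) = (2 * q + 1 - p, t + k, false) := by
    rw [Function.iterate_succ_apply', h1.1, hb.1]
  have h3 : rot g (k + 1) (p, t, true) = if p = q then -1 else 1 := by
    rw [rot_add, rot_one, h1.1, h1.2, hb.2, zero_add]
  intro i hi
  have h4 := pass_down (g := g) (t := t + k) (p := 2 * q + 1 - p) (k := k) (by
    intro j hj
    have := h' (k - 1 - j) (by omega)
    have he : t + ((k - 1 - j : ℕ) : ℤ) = t + k - 1 - j := by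
      have : ((k - 1 - j : ℕ) : ℤ) = k - 1 - j := by omega
      rw [this]; ring
    rwa [he] at this) i hi
  refine ⟨?_, ?_⟩
  · rw [add_comm (k + 1) i, Function.iterate_add_apply, h2, h4.1]
  · rw [rot_add, h3, h2, h4.2, add_zero]

theorem bounce_down {g : ℤ → Option ℤ} {t p q : ℤ} {k : ℕ}
    (h : ∀ i : ℕ, i < k → Free g (t - 1 - i) p)
    (h' : ∀ i : ℕ, i < k → Free g (t - 1 - i) (2 * q + 1 - p))
    (hq : g (t - 1 - k) = some q) (hp : p = q ∨ p = q + 1) :
    ∀ i, i ≤ k → (nx g)^[k + 1 + i] (p, t, false) = (2 * q + 1 - p, t - k + i, true) ∧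
      rot g (k + 1 + i) (p, t, false) = if p = q then 1 else -1 := by
  have hq' : g (t - k - 1) = some q := by
    rw [← hq]; congr 1; ring
  have hb : nx g (p, t - k, false) = (2 * q + 1 - p, t - k, true) ∧
      rho g (p, t - k, false) = if p = q then 1 else -1 := by
    rcases hp with rfl | rfl
    · simp [nx, rho, hq']
      ring
    · simp [nx, rho, hq']
      ring
  have h1 := pass_down h k le_rfl
  have h2 : (nx g)^[k + 1] (p, t, false) = (2 * q + 1 - p, t - k, true) := by
    rw [Function.iterate_succ_apply', h1.1, hb.1]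
  have h3 : rot g (k + 1) (p, t, false) = if p = q then 1 else -1 := by
    rw [rot_add, rot_one, h1.1, h1.2, hb.2, zero_add]
  intro i hi
  have h4 := pass_up (g := g) (t := t - k) (p := 2 * q + 1 - p) (k := k) (by
    intro j hj
    have := h' (k - 1 - j) (by omega)
    have he : t - 1 - ((k - 1 - j : ℕ) : ℤ) = t - k + j := by
      have : ((k - 1 - j : ℕ) : ℤ) = k - 1 - j := by omega
      rw [this]; ring
    rwa [he] at this) i hi
  refine ⟨?_, ?_⟩
  · rw [add_comm (k + 1) i, Function.iterate_add_apply, h2, h4.1]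
  · rw [rot_add, h3, h2, h4.2, add_zero]

/-- letters of row `r` not touching `p` -/
theorem free_row (s : ℤ → ℤ → Bool) {X b : ℤ} (hX : 0 ≤ X) {r : ℤ} (hr : b ≤ r) {p q : ℤ}
    (hq1 : -X ≤ q) (hq2 : q ≤ X) (hne : q ≠ vq p r ∨ s (vq p r) r = false) :
    Free (gw s X b) ((r - b) * (2 * X + 1) + (q + X)) p := by
  intro q' hq'
  rw [gw_at s hX hr hq1 hq2] at hq'
  split_ifs at hq' with hc
  have hqq := Option.some.inj hq'
  subst hqq
  constructor
  · intro hp
    have := vq_unique hc.1 (Or.inl hp)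
    rcases hne with h | h
    · exact h this.symm
    · rw [this, hc.2] at h
      exact absurd h (by simp)
  · intro hp
    have := vq_unique hc.1 (Or.inr hp)
    rcases hne with h | h
    · exact h this.symm
    · rw [this, hc.2] at h
      exact absurd h (by simp)

end Crest.Agent.R158.Ts405
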