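import Crest.Agent.R158.Ts3_405

/-!
# R158, T1 part 4: simulation of the brickwork lattice by abstract diagrams
-/

set_option autoImplicit false

namespace Crest.Agent.R158.Ts405

theorem vq_mate (p r : ℤ) : vq (2 * vq p r + 1 - p) r = vq p r := by
  obtain ⟨h1, h2⟩ := vq_spec p r
  apply vq_unique h1
  rcases h2 with h | h
  · right; omega
  · left; omega

theorem sim_up (s : ℤ → ℤ → Bool) {X b : ℤ} (hX : 0 ≤ X) {p n : ℤ} (hb : b ≤ n + 1)
    (hp1 : -X < p) (hp2 : p ≤ X) : ∃ m, Sim s X b (p, n, true) m := by
  obtain ⟨W, hW⟩ : ∃ W : ℕ, (W : ℤ) = 2 * X + 1 := ⟨(2 * X + 1).toNat, by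
    rw [Int.toNat_of_nonneg]; omega⟩
  set L : ℤ := lv X b n with hL
  have hL' : L = (n + 1 - b) * (2 * X + 1) := rfl
  obtain ⟨hv1, hv2⟩ := vq_spec p (n + 1)
  set q : ℤ := vq p (n + 1) with hq
  have hqX1 : -X ≤ q := by omega
  have hqX2 : q ≤ X := by omega
  have hfree : ∀ p' : ℤ, vq p' (n + 1) = q → ∀ i : ℕ, i < W →
      ((i : ℤ) ≠ q + X ∨ s q (n + 1) = false) → Free (gw s X b) (L + i) p' := by
    intro p' hp' i hi hne
    have h1 := free_row s hX (b := b) (r := n + 1) hb (p := p') (q := (i : ℤ) - X) (by omega)
      (by omega) (by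
        rw [hp']
        rcases hne with h | h
        · left; omega
        · right; exact h)
    have h2 : (n + 1 - b) * (2 * X + 1) + ((i : ℤ) - X + X) = L + i := by rw [hL']; ring
    rwa [h2] at h1
  have hph : ph X b (p, n, true) = (p, L, true) := rfl
  rcases hs : s q (n + 1) with _ | _
  · -- straight
    have hpass := pass_up (g := gw s X b) (t := L) (p := p) (k := W)
      (fun i hi => hfree p rfl i hi (Or.inr hs))
    have hnb : nb s (p, n, true) = (p, n + 1, true) := by
      simp [nb, ← hq, hs]
    have hrb : rb s (p, n, true) = 0 := by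
      simp [rb, ← hq, hs]
    refine ⟨W, ⟨by omega, ?_, ?_, ?_, ?_, ?_, ?_, ?_⟩⟩
    · rw [hph, (hpass W le_rfl).1, hnb]
      unfold ph lv
      simp only
      rw [hW, hL']
      congr 2
      ring
    · rw [hph, (hpass W le_rfl).2, hrb]
    · intro i h1 h2
      rw [hph, (hpass i h2.le).1]
      refine not_dvd_mid (k := n + 1 - b) ?_ ?_
      · simp only; rw [hL']; omega
      · simp only; rw [hL']
        have : (n + 1 - b + 1) * (2 * X + 1) = (n + 1 - b) * (2 * X + 1) + (2 * X + 1) := by ring
        omega
    · intro i hi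
      rw [hph, (hpass i hi).1]
      simp only [if_true]; rw [← hL]; omega
    · intro i hi
      rw [hph, (hpass i hi).1]
      simp only [if_true]; rw [← hL]; omega
    · intro i hi _
      rw [hph, (hpass i hi.le).1]
      simp only [if_true]; rw [← hL]; omega
    · intro i hi a t q' h1 h2 h3
      rw [hph, (hpass i hi.le).1] at h1
      have ha : p = a := congrArg (fun x : AD => x.1) h1
      have ht : L + i = t := congrArg (fun x : AD => x.2.1) h1
      subst ha
      subst ht
      have := hfree p rfl i hi (Or.inr hs) q' h2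
      rcases h3 with h3 | h3
      · exact absurd h3 this.1
      · exact absurd h3 this.2
  · -- cap
    obtain ⟨k, hk⟩ : ∃ k : ℕ, (k : ℤ) = q + X := ⟨(q + X).toNat, Int.toNat_of_nonneg (by omega)⟩
    have hgq : gw s X b (L + k) = some q := by
      have h1 := gw_at s hX (b := b) (r := n + 1) hb hqX1 hqX2
      rw [if_pos ⟨hv1, hs⟩] at h1
      rw [← h1, hL', hk]
    have hpq : p = q ∨ p = q + 1 := by
      rcases hv2 with h | h
      · left; exact h.symm
      · right; exact h.symm
    have hf1 : ∀ i : ℕ, i < k → Free (gw s X b) (L + i) p := fun i hi =>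
      hfree p rfl i (by omega) (Or.inl (by omega))
    have hf2 : ∀ i : ℕ, i < k → Free (gw s X b) (L + i) (2 * q + 1 - p) := fun i hi =>
      hfree _ (vq_mate p (n + 1)) i (by omega) (Or.inl (by omega))
    have hA := pass_up hf1
    have hB := bounce_up hf1 hf2 hgq hpq
    have hnb : nb s (p, n, true) = (2 * q + 1 - p, n, false) := by
      simp [nb, ← hq, hs]
    have hrb : rb s (p, n, true) = if p = q then -1 else 1 := by
      simp [rb, ← hq, hs]
    have hsplit : ∀ i : ℕ, i ≤ 2 * k + 1 → i ≤ k ∨ ∃ i', i = k + 1 + i' ∧ i' ≤ k := by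
      intro i hi
      rcases le_or_gt i k with h | h
      · exact Or.inl h
      · exact Or.inr ⟨i - (k + 1), by omega, by omega⟩
    refine ⟨k + 1 + k, ⟨by omega, ?_, ?_, ?_, ?_, ?_, ?_, ?_⟩⟩
    · rw [hph, (hB k le_rfl).1, hnb]
      unfold ph
      simp only
      rw [← hL]
      congr 2
      ring
    · rw [hph, (hB k le_rfl).2, hrb]
    · intro i h1 h2
      rcases hsplit i (by omega) with h3 | ⟨i', rfl, h3⟩
      · rw [hph, (hA i h3).1]
        refine not_dvd_mid (k := n + 1 - b) ?_ ?_
        · simp only; rw [hL']; omega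
        · simp only; rw [hL']
          have : (n + 1 - b + 1) * (2 * X + 1) = (n + 1 - b) * (2 * X + 1) + (2 * X + 1) := by ring
          omega
      · rw [hph, (hB i' h3).1]
        refine not_dvd_mid (k := n + 1 - b) ?_ ?_
        · simp only; rw [hL']; omega
        · simp only; rw [hL']
          have : (n + 1 - b + 1) * (2 * X + 1) = (n + 1 - b) * (2 * X + 1) + (2 * X + 1) := by ring
          omega
    · intro i hi
      rcases hsplit i (by omega) with h3 | ⟨i', rfl, h3⟩
      · rw [hph, (hA i h3).1]
        simp only [if_true]; rw [← hL]; omega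
      · rw [hph, (hB i' h3).1]
        simp only [if_true]; rw [← hL]; omega
    · intro i hi
      rcases hsplit i (by omega) with h3 | ⟨i', rfl, h3⟩
      · rw [hph, (hA i h3).1]
        simp only [if_true]; rw [← hL]; omega
      · rw [hph, (hB i' h3).1]
        simp only [if_true]; rw [← hL]; omega
    · intro i hi hup
      rcases hsplit i (by omega) with h3 | ⟨i', rfl, h3⟩
      · rw [hph, (hA i h3).1]
        simp only [if_true]; rw [← hL]; omega
      · rw [hph, (hB i' h3).1] at hup
        simp at hup
    · intro i hi a t q' h1 h2 h3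
      rcases hsplit i (by omega) with h4 | ⟨i', rfl, h4⟩
      · rw [hph, (hA i h4).1] at h1
        have ha : p = a := congrArg (fun x : AD => x.1) h1
        have ht : L + i = t := congrArg (fun x : AD => x.2.1) h1
        subst ha
        have hdiv : t / (2 * X + 1) = n + 1 - b := by
          rw [← ht, hL', add_comm, mul_comm, Int.add_mul_ediv_left _ _ (by omega),
            Int.ediv_eq_zero_of_lt (by omega) (by omega)]
          ring
        rw [hdiv]
        congr 2
        ring
      · rw [hph, (hB i' h4).1] at h1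
        simp at h1

theorem sim_down (s : ℤ → ℤ → Bool) {X b : ℤ} (hX : 0 ≤ X) {p n : ℤ} (hb : b ≤ n)
    (hp1 : -X < p) (hp2 : p ≤ X) : ∃ m, Sim s X b (p, n, false) m := by
  obtain ⟨W, hW⟩ : ∃ W : ℕ, (W : ℤ) = 2 * X + 1 := ⟨(2 * X + 1).toNat, by
    rw [Int.toNat_of_nonneg]; omega⟩
  set L : ℤ := lv X b n with hL
  have hL' : L = (n - b) * (2 * X + 1) + (2 * X + 1) := by rw [hL]; unfold lv; ring
  have hup : (n - b + 1) * (2 * X + 1) = (n - b) * (2 * X + 1) + (2 * X + 1) := by ring
  obtain ⟨hv1, hv2⟩ := vq_spec p n
  set q : ℤ := vq p n with hq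
  have hqX1 : -X ≤ q := by omega
  have hqX2 : q ≤ X := by omega
  have hfree : ∀ p' : ℤ, vq p' n = q → ∀ i : ℕ, i < W →
      ((i : ℤ) ≠ X - q ∨ s q n = false) → Free (gw s X b) (L - 1 - i) p' := by
    intro p' hp' i hi hne
    have h1 := free_row s hX (b := b) (r := n) hb (p := p') (q := X - (i : ℤ)) (by omega)
      (by omega) (by
        rw [hp']
        rcases hne with h | h
        · left; omega
        · right; exact h)
    have h2 : (n - b) * (2 * X + 1) + (X - (i : ℤ) + X) = L - 1 - i := by rw [hL']; ring
    rwa [h2] at h1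
  have hph : ph X b (p, n, false) = (p, L, false) := rfl
  rcases hs : s q n with _ | _
  · -- straight
    have hpass := pass_down (g := gw s X b) (t := L) (p := p) (k := W)
      (fun i hi => hfree p rfl i hi (Or.inr hs))
    have hnb : nb s (p, n, false) = (p, n - 1, false) := by
      simp [nb, ← hq, hs]
    have hrb : rb s (p, n, false) = 0 := by
      simp [rb, ← hq, hs]
    refine ⟨W, ⟨by omega, ?_, ?_, ?_, ?_, ?_, ?_, ?_⟩⟩
    · rw [hph, (hpass W le_rfl).1, hnb]
      unfold ph lv
      simp only
      rw [hW, hL']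
      congr 2
      ring
    · rw [hph, (hpass W le_rfl).2, hrb]
    · intro i h1 h2
      rw [hph, (hpass i h2.le).1]
      refine not_dvd_mid (k := n - b) ?_ ?_
      · simp only; omega
      · simp only; omega
    · intro i hi
      rw [hph, (hpass i hi).1]
      simp only; rw [← hL]; simp only [Bool.false_eq_true, if_false]; omega
    · intro i hi
      rw [hph, (hpass i hi).1]
      simp only; rw [← hL]; simp only [Bool.false_eq_true, if_false]; omega
    · intro i hi hup'
      rw [hph, (hpass i hi.le).1] at hup'
      simp at hup'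
    · intro i hi a t q' h1 h2 h3
      rw [hph, (hpass i hi.le).1] at h1
      simp at h1
  · -- cup
    obtain ⟨k, hk⟩ : ∃ k : ℕ, (k : ℤ) = X - q := ⟨(X - q).toNat, Int.toNat_of_nonneg (by omega)⟩
    have hgq : gw s X b (L - 1 - k) = some q := by
      have h1 := gw_at s hX (b := b) (r := n) hb hqX1 hqX2
      rw [if_pos ⟨hv1, hs⟩] at h1
      rw [← h1, hL', hk]
      congr 1
      ring
    have hpq : p = q ∨ p = q + 1 := by
      rcases hv2 with h | h
      · left; exact h.symm
      · right; exact h.symm
    have hf1 : ∀ i : ℕ, i < k → Free (gw s X b) (L - 1 - i) p := fun i hi =>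
      hfree p rfl i (by omega) (Or.inl (by omega))
    have hf2 : ∀ i : ℕ, i < k → Free (gw s X b) (L - 1 - i) (2 * q + 1 - p) := fun i hi =>
      hfree _ (vq_mate p n) i (by omega) (Or.inl (by omega))
    have hA := pass_down hf1
    have hB := bounce_down hf1 hf2 hgq hpq
    have hnb : nb s (p, n, false) = (2 * q + 1 - p, n, true) := by
      simp [nb, ← hq, hs]
    have hrb : rb s (p, n, false) = if p = q then 1 else -1 := by
      simp [rb, ← hq, hs]
    have hsplit : ∀ i : ℕ, i ≤ 2 * k + 1 → i ≤ k ∨ ∃ i', i = k + 1 + i' ∧ i' ≤ k := by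
      intro i hi
      rcases le_or_gt i k with h | h
      · exact Or.inl h
      · exact Or.inr ⟨i - (k + 1), by omega, by omega⟩
    refine ⟨k + 1 + k, ⟨by omega, ?_, ?_, ?_, ?_, ?_, ?_, ?_⟩⟩
    · rw [hph, (hB k le_rfl).1, hnb]
      unfold ph
      simp only
      rw [← hL]
      congr 2
      ring
    · rw [hph, (hB k le_rfl).2, hrb]
    · intro i h1 h2
      rcases hsplit i (by omega) with h3 | ⟨i', rfl, h3⟩
      · rw [hph, (hA i h3).1]
        refine not_dvd_mid (k := n - b) ?_ ?_
        · simp only; omega
        · simp only; omega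
      · rw [hph, (hB i' h3).1]
        refine not_dvd_mid (k := n - b) ?_ ?_
        · simp only; omega
        · simp only; omega
    · intro i hi
      rcases hsplit i (by omega) with h3 | ⟨i', rfl, h3⟩
      · rw [hph, (hA i h3).1]
        simp only; rw [← hL]; simp only [Bool.false_eq_true, if_false]; omega
      · rw [hph, (hB i' h3).1]
        simp only; rw [← hL]; simp only [Bool.false_eq_true, if_false]; omega
    · intro i hi
      rcases hsplit i (by omega) with h3 | ⟨i', rfl, h3⟩
      · rw [hph, (hA i h3).1]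
        simp only; rw [← hL]; simp only [Bool.false_eq_true, if_false]; omega
      · rw [hph, (hB i' h3).1]
        simp only; rw [← hL]; simp only [Bool.false_eq_true, if_false]; omega
    · intro i hi hup'
      rcases hsplit i (by omega) with h3 | ⟨i', rfl, h3⟩
      · rw [hph, (hA i h3).1] at hup'
        simp at hup'
      · rw [hph, (hB i' h3).1]
        simp only; rw [← hL]; simp only [Bool.false_eq_true, if_false]; omega
    · intro i hi a t q' h1 h2 h3
      rcases hsplit i (by omega) with h4 | ⟨i', rfl, h4⟩
      · rw [hph, (hA i h4).1] at h1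
        simp at h1
      · exfalso
        rw [hph, (hB i' h4).1] at h1
        have ha : 2 * q + 1 - p = a := congrArg (fun x : AD => x.1) h1
        have ht : L - k + i' = t := congrArg (fun x : AD => x.2.1) h1
        subst ha
        subst ht
        have h5 := hfree _ (vq_mate p n) (k - 1 - i') (by omega) (Or.inl (by omega)) q'
        have h6 : L - 1 - ((k - 1 - i' : ℕ) : ℤ) = L - k + i' := by
          have : ((k - 1 - i' : ℕ) : ℤ) = k - 1 - i' := by omega
          rw [this]; ring
        rw [h6] at h5
        have h7 := h5 h2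
        rcases h3 with h3 | h3
        · exact h7.1 h3
        · exact h7.2 h3

end Crest.Agent.R158.Ts405
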