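import Crest.Agent.R158.Ts4_405

/-!
# R158, T1 part 5: rotation numbers in the brickwork lattice

* `brick_closed`: a closed strand has rotation `±2` (in half turns), sign read at its top vertex
* `brick_through`: a path from level `n0` to level `n1` inside the strip has rotation `0`
* `brick_periodic`: a strand that is periodic under `(P, D)`, `D ≠ 0`, has rotation `0` per period
-/

set_option autoImplicit false

namespace Crest.Agent.R158.Ts405

/-- total rotation of the first `m` steps in the brickwork lattice -/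
def rotb (s : ℤ → ℤ → Bool) (m : ℕ) (d : AD) : ℤ :=
  ∑ i ∈ Finset.range m, rb s ((nb s)^[i] d)

theorem rotb_add (s : ℤ → ℤ → Bool) (a b : ℕ) (d : AD) :
    rotb s (a + b) d = rotb s a d + rotb s b ((nb s)^[a] d) := by
  unfold rotb
  rw [Finset.sum_range_add]
  congr 1
  refine Finset.sum_congr rfl fun i _ => ?_
  rw [← Function.iterate_add_apply, add_comm i a]

theorem rotb_one (s : ℤ → ℤ → Bool) (d : AD) : rotb s 1 d = rb s d := by simp [rotb]

theorem rotb_succ (s : ℤ → ℤ → Bool) (a : ℕ) (d : AD) :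
    rotb s (a + 1) d = rb s d + rotb s a (nb s d) := by
  rw [add_comm a 1, rotb_add]
  simp [rotb]

/-! ### chaining the simulations -/

theorem chain {s : ℤ → ℤ → Bool} {X b : ℤ} {d : AD} {m : ℕ → ℕ} (N : ℕ)
    (hm : ∀ i, i < N → Sim s X b ((nb s)^[i] d) (m i)) :
    ∀ i, i ≤ N → (nx (gw s X b))^[∑ j ∈ Finset.range i, m j] (ph X b d) = ph X b ((nb s)^[i] d) ∧
      rot (gw s X b) (∑ j ∈ Finset.range i, m j) (ph X b d) = rotb s i d := by
  intro i
  induction i with
  | zero => intro _; simp [rot, rotb]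
  | succ i ih =>
    intro hi
    obtain ⟨h1, h2⟩ := ih (by omega)
    have h3 := hm i (by omega)
    rw [Finset.sum_range_succ]
    refine ⟨?_, ?_⟩
    · rw [add_comm, Function.iterate_add_apply, h1, h3.fin, Function.iterate_succ_apply']
    · rw [rot_add, h2, h1, h3.rot, rotb_add, rotb_one]

theorem chain_le {m : ℕ → ℕ} {N : ℕ} (hm : ∀ i, i < N → 0 < m i) :
    ∀ i, i ≤ N → i ≤ ∑ j ∈ Finset.range i, m j := by
  intro i
  induction i with
  | zero => intro _; simp
  | succ i ih =>
    intro hi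
    have h1 := ih (by omega)
    have h2 := hm i (by omega)
    rw [Finset.sum_range_succ]
    omega

theorem chain_split {m : ℕ → ℕ} : ∀ (N k : ℕ), k < ∑ j ∈ Finset.range N, m j →
    ∃ j e, j < N ∧ e < m j ∧ k = (∑ i ∈ Finset.range j, m i) + e := by
  intro N
  induction N with
  | zero => intro k hk; simp at hk
  | succ N ih =>
    intro k hk
    rw [Finset.sum_range_succ] at hk
    by_cases h : k < ∑ j ∈ Finset.range N, m j
    · obtain ⟨j, e, h1, h2, h3⟩ := ih k h
      exact ⟨j, e, by omega, h2, h3⟩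
    · exact ⟨N, k - ∑ j ∈ Finset.range N, m j, by omega, by omega, by omega⟩

theorem ph_inj {X b : ℤ} (hX : 0 ≤ X) {d d' : AD} (h : ph X b d = ph X b d') : d = d' := by
  obtain ⟨p, n, c⟩ := d
  obtain ⟨p', n', c'⟩ := d'
  have h1 : p = p' := congrArg (fun x : AD => x.1) h
  have h2 : lv X b n = lv X b n' := congrArg (fun x : AD => x.2.1) h
  have h3 : c = c' := congrArg (fun x : AD => x.2.2) h
  unfold lv at h2
  have h4 := mul_right_cancel₀ (by omega : (2 * X + 1) ≠ 0) h2
  have h5 : n = n' := by omega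
  rw [h1, h3, h5]

/-- **closed strands** -/
theorem brick_closed (s : ℤ → ℤ → Bool) (N : ℕ) (hN : 0 < N) (d : AD)
    (hper : (nb s)^[N] d = d) (hmin : ∀ i, 0 < i → i < N → (nb s)^[i] d ≠ d) :
    ∃ (j : ℕ) (q n : ℤ), j < N ∧ (q - n) % 2 = 0 ∧ s q n = true ∧
      (∀ k, ((nb s)^[k] d).2.1 ≤ n - 1) ∧
      (((nb s)^[j] d = (q + 1, n - 1, true) ∧ rotb s N d = 2) ∨
        ((nb s)^[j] d = (q, n - 1, true) ∧ rotb s N d = -2)) := by
  classical
  -- window
  obtain ⟨X, hX0, hX⟩ : ∃ X : ℤ, 0 ≤ X ∧ ∀ k, -X < ((nb s)^[k] d).1 ∧ ((nb s)^[k] d).1 ≤ X := by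
    refine ⟨∑ i ∈ Finset.range N, (|((nb s)^[i] d).1| + 1), ?_, ?_⟩
    · exact Finset.sum_nonneg fun i _ => by positivity
    · intro k
      have h1 : k = k % N + (k / N) * N := by rw [mul_comm]; exact (Nat.mod_add_div k N).symm
      rw [h1, iter_mod _ hper]
      have h2 := Finset.single_le_sum (f := fun i => |((nb s)^[i] d).1| + 1)
        (fun i _ => by positivity) (Finset.mem_range.mpr (Nat.mod_lt k hN))
      have h3 := abs_lt.mp (lt_of_lt_of_le (lt_add_one _) h2)
      exact ⟨h3.1, h3.2.le⟩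
  obtain ⟨b, hb⟩ : ∃ b : ℤ, ∀ k, b + 1 ≤ ((nb s)^[k] d).2.1 := by
    refine ⟨-∑ i ∈ Finset.range N, (|((nb s)^[i] d).2.1| + 1), ?_⟩
    intro k
    have h1 : k = k % N + (k / N) * N := by rw [mul_comm]; exact (Nat.mod_add_div k N).symm
    rw [h1, iter_mod _ hper]
    have h2 := Finset.single_le_sum (f := fun i => |((nb s)^[i] d).2.1| + 1)
      (fun i _ => by positivity) (Finset.mem_range.mpr (Nat.mod_lt k hN))
    have h3 := abs_lt.mp (lt_of_lt_of_le (lt_add_one _) h2)
    omega
  have hW : 0 < 2 * X + 1 := by omega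
  have hsim : ∀ k, ∃ m, Sim s X b ((nb s)^[k] d) m := by
    intro k
    rcases hd : (nb s)^[k] d with ⟨p, n, c⟩
    have h1 := hX k
    have h2 := hb k
    rw [hd] at h1 h2
    simp only at h1 h2
    cases c
    · exact sim_down s hX0 (by omega) h1.1 h1.2
    · exact sim_up s hX0 (by omega) h1.1 h1.2
  choose m hm using hsim
  have hch := chain (s := s) (X := X) (b := b) (d := d) (m := m) N (fun i _ => hm i)
  set g := gw s X b with hg
  set T : ℕ := ∑ j ∈ Finset.range N, m j with hT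
  have hTN : N ≤ T := chain_le (fun i _ => (hm i).pos) N le_rfl
  have hperT : (nx g)^[T] (ph X b d) = ph X b d := by
    have := (hch N le_rfl).1
    rw [hper] at this
    exact this
  have hminT : ∀ k, 0 < k → k < T → (nx g)^[k] (ph X b d) ≠ ph X b d := by
    intro k h1 h2 h3
    obtain ⟨j, e, h4, h5, h6⟩ := chain_split N k h2
    have h7 : (nx g)^[k] (ph X b d) = (nx g)^[e] (ph X b ((nb s)^[j] d)) := by
      rw [h6, add_comm, Function.iterate_add_apply, (hch j h4.le).1]
    rcases Nat.eq_zero_or_pos e with h8 | h8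
    · subst h8
      rw [h7] at h3
      simp only [Function.iterate_zero, id_eq] at h3
      have h9 := ph_inj hX0 h3
      have hj0 : 0 < j := by
        rcases Nat.eq_zero_or_pos j with h10 | h10
        · subst h10; simp at h6; omega
        · exact h10
      exact hmin j hj0 h4 h9
    · apply (hm j).mid e h8 h5
      rw [← hg, ← h7, h3]
      exact ⟨d.2.1 + 1 - b, by unfold ph lv; ring⟩
  have hlow : ∀ k, 0 < ((nx g)^[k] (ph X b d)).2.1 := by
    intro k
    have hT0 : 0 < T := by omega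
    have h1 : k = k % T + (k / T) * T := by rw [mul_comm]; exact (Nat.mod_add_div k T).symm
    rw [h1, iter_mod _ hperT]
    obtain ⟨j, e, h4, h5, h6⟩ := chain_split N (k % T) (Nat.mod_lt k hT0)
    have h7 : (nx g)^[k % T] (ph X b d) = (nx g)^[e] (ph X b ((nb s)^[j] d)) := by
      rw [h6, add_comm, Function.iterate_add_apply, (hch j h4.le).1]
    rw [h7]
    refine lt_of_lt_of_le ?_ ((hm j).lo e h5.le)
    have h8 := hb j
    have h9 : 1 * (2 * X + 1) ≤ (((nb s)^[j] d).2.1 - b) * (2 * X + 1) :=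
      mul_le_mul_of_nonneg_right (by omega) hW.le
    have h10 : lv X b ((nb s)^[j] d).2.1
        = (((nb s)^[j] d).2.1 - b) * (2 * X + 1) + (2 * X + 1) := by unfold lv; ring
    rw [h10]
    split_ifs <;> omega
  obtain ⟨i, q, t, hi, hq, hmax, hcase⟩ := closed_loop g T (by omega) (ph X b d) hperT hminT hlow
  have hrot : rot g T (ph X b d) = rotb s N d := (hch N le_rfl).2
  -- data of the letter
  have hq' : 0 ≤ t ∧ ((t % (2 * X + 1) - X) - (b + t / (2 * X + 1))) % 2 = 0 ∧
      s (t % (2 * X + 1) - X) (b + t / (2 * X + 1)) = true ∧ t % (2 * X + 1) - X = q := by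
    rw [hg] at hq
    unfold gw at hq
    split_ifs at hq with hc
    exact ⟨hc.1, hc.2.1, hc.2.2, Option.some.inj hq⟩
  obtain ⟨ht0, hpar, hst, hqe⟩ := hq'
  rw [hqe] at hpar hst
  obtain ⟨j, e, h4, h5, h6⟩ := chain_split N i hi
  have h7 : (nx g)^[i] (ph X b d) = (nx g)^[e] (ph X b ((nb s)^[j] d)) := by
    rw [h6, add_comm, Function.iterate_add_apply, (hch j h4.le).1]
  refine ⟨j, q, b + t / (2 * X + 1), h4, hpar, hst, ?_, ?_⟩
  · intro k
    have h1 : k = k % N + (k / N) * N := by rw [mul_comm]; exact (Nat.mod_add_div k N).symm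
    rw [h1, iter_mod _ hper]
    have h2 := (hch (k % N) (Nat.mod_lt k hN).le).1
    have h3 := hmax (∑ j ∈ Finset.range (k % N), m j)
    rw [h2] at h3
    have h8 : (((nb s)^[k % N] d).2.1 + 1 - b) * (2 * X + 1) ≤ t := h3
    have h9 := (Int.le_ediv_iff_mul_le hW).mpr h8
    omega
  · rcases hcase with ⟨h8, h9⟩ | ⟨h8, h9⟩
    · left
      refine ⟨?_, by rw [← hrot, h9]⟩
      rw [h7] at h8
      exact (hm j).cap e h5 _ _ q h8 hq (Or.inr rfl)
    · right
      refine ⟨?_, by rw [← hrot, h9]⟩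
      rw [h7] at h8
      exact (hm j).cap e h5 _ _ q h8 hq (Or.inl rfl)

/-- **paths through a strip** -/
theorem brick_through (s : ℤ → ℤ → Bool) (m' : ℕ) (p n0 j n1 : ℤ)
    (hend : (nb s)^[m'] (p, n0, true) = (j, n1, true))
    (hlo : ∀ i, 0 < i → i < m' → n0 + 1 ≤ ((nb s)^[i] (p, n0, true)).2.1)
    (hhi : ∀ i, i < m' → ((nb s)^[i] (p, n0, true)).2.1 ≤ n1 - 1) :
    rotb s m' (p, n0, true) = 0 := by
  classical
  rcases Nat.eq_zero_or_pos m' with h0 | hpos
  · subst h0; simp [rotb]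
  have hn01 : n0 ≤ n1 - 1 := by simpa using hhi 0 hpos
  set d : AD := (p, n0, true) with hd
  obtain ⟨X, hX0, hX⟩ : ∃ X : ℤ, 0 ≤ X ∧ ∀ k, k < m' →
      -X < ((nb s)^[k] d).1 ∧ ((nb s)^[k] d).1 ≤ X := by
    refine ⟨∑ i ∈ Finset.range m', (|((nb s)^[i] d).1| + 1), ?_, ?_⟩
    · exact Finset.sum_nonneg fun i _ => by positivity
    · intro k hk
      have h2 := Finset.single_le_sum (f := fun i => |((nb s)^[i] d).1| + 1)
        (fun i _ => by positivity) (Finset.mem_range.mpr hk)
      have h3 := abs_lt.mp (lt_of_lt_of_le (lt_add_one _) h2)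
      exact ⟨h3.1, h3.2.le⟩
  have hW : 0 < 2 * X + 1 := by omega
  have hsim : ∀ k, k < m' → ∃ m, Sim s X (n0 + 1) ((nb s)^[k] d) m := by
    intro k hk
    rcases hdd : (nb s)^[k] d with ⟨a, n, c⟩
    have h1 := hX k hk
    rw [hdd] at h1
    simp only at h1
    rcases Nat.eq_zero_or_pos k with h2 | h2
    · subst h2
      simp only [Function.iterate_zero, id_eq] at hdd
      rw [hd] at hdd
      have e1 : n0 = n := congrArg (fun x : AD => x.2.1) hdd
      have e2 : true = c := congrArg (fun x : AD => x.2.2) hdd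
      subst e1; subst e2
      exact sim_up s hX0 (by omega) h1.1 h1.2
    · have h3 := hlo k h2 hk
      rw [hdd] at h3
      simp only at h3
      cases c
      · exact sim_down s hX0 (by omega) h1.1 h1.2
      · exact sim_up s hX0 (by omega) h1.1 h1.2
  have hsim' : ∀ k, ∃ m, k < m' → Sim s X (n0 + 1) ((nb s)^[k] d) m := by
    intro k
    by_cases hk : k < m'
    · obtain ⟨m, hm⟩ := hsim k hk; exact ⟨m, fun _ => hm⟩
    · exact ⟨0, fun h => absurd h hk⟩
  choose m hm using hsim'
  have hch := chain (s := s) (X := X) (b := n0 + 1) (d := d) (m := m) m' hm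
  set g := gw s X (n0 + 1) with hg
  set T : ℕ := ∑ j ∈ Finset.range m', m j with hT
  have hphd : ph X (n0 + 1) d = (p, 0, true) := by
    unfold ph lv; rw [hd]; simp
  obtain ⟨K, hK⟩ : ∃ K : ℕ, (K : ℤ) = lv X (n0 + 1) n1 := ⟨(lv X (n0 + 1) n1).toNat, by
    rw [Int.toNat_of_nonneg]
    unfold lv
    exact mul_nonneg (by omega) hW.le⟩
  have hphe : ph X (n0 + 1) (j, n1, true) = (j, (K : ℤ), true) := by
    unfold ph; simp only; rw [hK]
  have hres := through g (fun t ht => gw_neg s X _ t ht) K T p j (by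
    have := (hch m' le_rfl).1
    rw [hend, hphe, hphd] at this
    exact this) (by
    intro k hk
    obtain ⟨i, e, h4, h5, h6⟩ := chain_split m' k hk
    have h7 : (nx g)^[k] (ph X (n0 + 1) d) = (nx g)^[e] (ph X (n0 + 1) ((nb s)^[i] d)) := by
      rw [h6, add_comm, Function.iterate_add_apply, (hch i h4.le).1]
    rw [hphd] at h7
    rw [h7]
    have hS := hm i h4
    have hbd : lv X (n0 + 1) ((nb s)^[i] d).2.1 + (2 * X + 1) ≤ K := by
      rw [hK]
      have h8 := hhi i h4
      have h9 : (((nb s)^[i] d).2.1 + 1 - (n0 + 1) + 1) * (2 * X + 1)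
          ≤ (n1 + 1 - (n0 + 1)) * (2 * X + 1) := mul_le_mul_of_nonneg_right (by omega) hW.le
      unfold lv
      have h10 : (((nb s)^[i] d).2.1 + 1 - (n0 + 1) + 1) * (2 * X + 1)
        = (((nb s)^[i] d).2.1 + 1 - (n0 + 1)) * (2 * X + 1) + (2 * X + 1) := by ring
      omega
    refine ⟨?_, fun hup => ?_⟩
    · have h8 := hS.hi e h5.le
      rw [← hg] at h8
      split_ifs at h8 <;> omega
    · have h8 := hS.ins e h5 hup
      rw [← hg] at h8
      split_ifs at h8 <;> omega)
  have h9 := (hch m' le_rfl).2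
  rw [hphd] at h9
  rw [← h9]
  exact hres

end Crest.Agent.R158.Ts405
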