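import Crest.Agent.R158.Ts5_405

/-!
# R158, T1 part 6: periodic strands have rotation zero
-/

set_option autoImplicit false

namespace Crest.Agent.R158.Ts405

/-! ### reversal in the brickwork lattice -/

theorem nb_rv (s : ℤ → ℤ → Bool) (d : AD) : nb s (rv (nb s d)) = rv d := by
  obtain ⟨p, n, c⟩ := d
  cases c
  · rcases hs : s (vq p n) n with _ | _
    · have h1 : nb s (p, n, false) = (p, n - 1, false) := by simp [nb, hs]
      have hs' : s (vq p (n - 1 + 1)) (n - 1 + 1) = false := by
        rw [sub_add_cancel]; exact hs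
      rw [h1]
      simp only [rv, Bool.not_false]
      simp only [nb, if_true]
      rw [hs']
      simp
    · have h1 : nb s (p, n, false) = (2 * vq p n + 1 - p, n, true) := by simp [nb, hs]
      rw [h1]
      simp only [rv, Bool.not_true, Bool.not_false]
      have h2 := vq_mate p n
      simp only [nb, Bool.false_eq_true, if_false]
      rw [h2, hs]
      simp
  · rcases hs : s (vq p (n + 1)) (n + 1) with _ | _
    · have h1 : nb s (p, n, true) = (p, n + 1, true) := by simp [nb, hs]
      rw [h1]
      simp [rv, nb, hs]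
    · have h1 : nb s (p, n, true) = (2 * vq p (n + 1) + 1 - p, n, false) := by simp [nb, hs]
      rw [h1]
      simp only [rv, Bool.not_true, Bool.not_false]
      have h2 := vq_mate p (n + 1)
      simp only [nb, if_true]
      rw [h2, hs]
      simp

theorem rb_rv (s : ℤ → ℤ → Bool) (d : AD) : rb s (rv (nb s d)) = - rb s d := by
  obtain ⟨p, n, c⟩ := d
  cases c
  · rcases hs : s (vq p n) n with _ | _
    · have h1 : nb s (p, n, false) = (p, n - 1, false) := by simp [nb, hs]
      have hs' : s (vq p (n - 1 + 1)) (n - 1 + 1) = false := by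
        rw [sub_add_cancel]; exact hs
      rw [h1]
      simp only [rv, Bool.not_false]
      simp only [rb, if_true]
      rw [hs']
      simp [hs]
    · have h1 : nb s (p, n, false) = (2 * vq p n + 1 - p, n, true) := by simp [nb, hs]
      rw [h1]
      simp only [rv, Bool.not_true]
      have h2 := vq_mate p n
      obtain ⟨_, h4⟩ := vq_spec p n
      simp only [rb, Bool.false_eq_true, if_false]
      rw [h2, hs]
      simp only [if_true]
      split_ifs <;> omega
  · rcases hs : s (vq p (n + 1)) (n + 1) with _ | _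
    · have h1 : nb s (p, n, true) = (p, n + 1, true) := by simp [nb, hs]
      rw [h1]
      simp [rv, rb, hs]
    · have h1 : nb s (p, n, true) = (2 * vq p (n + 1) + 1 - p, n, false) := by simp [nb, hs]
      rw [h1]
      simp only [rv, Bool.not_false]
      have h2 := vq_mate p (n + 1)
      obtain ⟨_, h4⟩ := vq_spec p (n + 1)
      simp only [rb, if_true]
      rw [h2, hs]
      simp only [if_true]
      split_ifs <;> omega

theorem nb_inj (s : ℤ → ℤ → Bool) : Function.Injective (nb s) := by
  intro a b h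
  have h1 := nb_rv s a
  have h2 := nb_rv s b
  rw [h] at h1
  have h3 : rv a = rv b := by rw [← h1, ← h2]
  have := congrArg rv h3
  rwa [rv_rv, rv_rv] at this

theorem iterb_rv (s : ℤ → ℤ → Bool) (m : ℕ) (d : AD) :
    (nb s)^[m] (rv ((nb s)^[m] d)) = rv d := by
  induction m generalizing d with
  | zero => rfl
  | succ m ih =>
    have h1 : (nb s)^[m + 1] d = nb s ((nb s)^[m] d) := Function.iterate_succ_apply' _ _ _
    rw [h1, Function.iterate_succ_apply, nb_rv, ih]

theorem rotb_rv (s : ℤ → ℤ → Bool) (m : ℕ) (d : AD) :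
    rotb s m (rv ((nb s)^[m] d)) = - rotb s m d := by
  induction m generalizing d with
  | zero => simp [rotb]
  | succ m ih =>
    have h1 : (nb s)^[m + 1] d = nb s ((nb s)^[m] d) := Function.iterate_succ_apply' _ _ _
    have h2 : rotb s (m + 1) d = rotb s m d + rb s ((nb s)^[m] d) := by
      rw [rotb_add, rotb_one]
    rw [h1, rotb_succ, nb_rv, ih, h2, rb_rv]
    ring

/-! ### translations -/

def sh (P D : ℤ) (d : AD) : AD := (d.1 + P, d.2.1 + D, d.2.2)

theorem vq_sh {P D : ℤ} (hPD : (P - D) % 2 = 0) (p r : ℤ) : vq (p + P) (r + D) = vq p r + P := by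
  obtain ⟨h1, h2⟩ := vq_spec p r
  apply vq_unique (by omega)
  rcases h2 with h | h
  · left; omega
  · right; omega

theorem nb_sh {s : ℤ → ℤ → Bool} {P D : ℤ} (hPD : (P - D) % 2 = 0)
    (hs : ∀ q n, s (q + P) (n + D) = s q n) (d : AD) : nb s (sh P D d) = sh P D (nb s d) := by
  obtain ⟨p, n, c⟩ := d
  have e1 : n + D + 1 = n + 1 + D := by ring
  cases c
  · have h0 : s (vq (p + P) (n + D)) (n + D) = s (vq p n) n := by rw [vq_sh hPD, hs]
    have h1 := vq_sh hPD p n
    rcases hc : s (vq p n) n with _ | _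
    · rw [hc] at h0
      simp [nb, sh, h0, hc]
      ring
    · rw [hc, h1] at h0
      simp [nb, sh, h0, hc, h1]
      ring
  · have h1 := vq_sh hPD p (n + 1)
    have h0 : s (vq (p + P) (n + 1 + D)) (n + 1 + D) = s (vq p (n + 1)) (n + 1) := by
      rw [h1, hs]
    rcases hc : s (vq p (n + 1)) (n + 1) with _ | _
    · rw [hc] at h0
      simp [nb, sh, e1, h0, hc]
    · rw [hc, h1] at h0
      simp [nb, sh, e1, h0, hc, h1]
      ring

theorem rb_sh {s : ℤ → ℤ → Bool} {P D : ℤ} (hPD : (P - D) % 2 = 0)
    (hs : ∀ q n, s (q + P) (n + D) = s q n) (d : AD) : rb s (sh P D d) = rb s d := by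
  obtain ⟨p, n, c⟩ := d
  have e1 : n + D + 1 = n + 1 + D := by ring
  cases c
  · have h0 : s (vq (p + P) (n + D)) (n + D) = s (vq p n) n := by rw [vq_sh hPD, hs]
    have h1 := vq_sh hPD p n
    rcases hc : s (vq p n) n with _ | _
    · rw [hc] at h0
      simp [rb, sh, h0, hc]
    · rw [hc, h1] at h0
      simp [rb, sh, h0, hc, h1]
  · have h1 := vq_sh hPD p (n + 1)
    have h0 : s (vq (p + P) (n + 1 + D)) (n + 1 + D) = s (vq p (n + 1)) (n + 1) := by
      rw [h1, hs]
    rcases hc : s (vq p (n + 1)) (n + 1) with _ | _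
    · rw [hc] at h0
      simp [rb, sh, e1, h0, hc]
    · rw [hc, h1] at h0
      simp [rb, sh, e1, h0, hc, h1]

theorem iterb_sh {s : ℤ → ℤ → Bool} {P D : ℤ} (hPD : (P - D) % 2 = 0)
    (hs : ∀ q n, s (q + P) (n + D) = s q n) (d : AD) (m : ℕ) :
    (nb s)^[m] (sh P D d) = sh P D ((nb s)^[m] d) := by
  induction m with
  | zero => rfl
  | succ m ih => rw [Function.iterate_succ_apply', ih, nb_sh hPD hs, Function.iterate_succ_apply']

theorem rotb_sh {s : ℤ → ℤ → Bool} {P D : ℤ} (hPD : (P - D) % 2 = 0)
    (hs : ∀ q n, s (q + P) (n + D) = s q n) (d : AD) (m : ℕ) :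
    rotb s m (sh P D d) = rotb s m d := by
  unfold rotb
  refine Finset.sum_congr rfl fun i _ => ?_
  rw [iterb_sh hPD hs, rb_sh hPD hs]

/-! ### levels -/

theorem level_up {s : ℤ → ℤ → Bool} {d : AD} {n0 : ℤ} (h1 : d.2.1 ≤ n0)
    (h2 : n0 < (nb s d).2.1) : d.2.1 = n0 ∧ d.2.2 = true ∧ nb s d = (d.1, n0 + 1, true) := by
  obtain ⟨p, n, c⟩ := d
  simp only at h1
  cases c
  · rcases hs : s (vq p n) n with _ | _
    · have h3 : nb s (p, n, false) = (p, n - 1, false) := by simp [nb, hs]
      rw [h3] at h2; simp only at h2; omega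
    · have h3 : nb s (p, n, false) = (2 * vq p n + 1 - p, n, true) := by simp [nb, hs]
      rw [h3] at h2; simp only at h2; omega
  · rcases hs : s (vq p (n + 1)) (n + 1) with _ | _
    · have h3 : nb s (p, n, true) = (p, n + 1, true) := by simp [nb, hs]
      rw [h3] at h2 ⊢; simp only at h2 ⊢
      have : n = n0 := by omega
      subst this
      exact ⟨rfl, trivial, rfl⟩
    · have h3 : nb s (p, n, true) = (2 * vq p (n + 1) + 1 - p, n, false) := by simp [nb, hs]
      rw [h3] at h2; simp only at h2; omega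

/-- **periodic strands, upward drift** -/
theorem periodic_pos {s : ℤ → ℤ → Bool} {P D : ℤ} (hPD : (P - D) % 2 = 0)
    (hs : ∀ q n, s (q + P) (n + D) = s q n) (hD : 0 < D) {N : ℕ} (hN : 0 < N) {d : AD}
    (hper : (nb s)^[N] d = sh P D d) : rotb s N d = 0 := by
  classical
  set ν : ℕ → ℤ := fun i => ((nb s)^[i] d).2.1 with hν
  have hadd : ∀ i, (nb s)^[i + N] d = sh P D ((nb s)^[i] d) := by
    intro i
    rw [Function.iterate_add_apply, hper, iterb_sh hPD hs]
  have hνN : ∀ i, ν (i + N) = ν i + D := by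
    intro i
    simp only [hν]
    rw [hadd i]
    rfl
  have hνk : ∀ k i, ν (i + k * N) = ν i + k * D := by
    intro k
    induction k with
    | zero => intro i; simp
    | succ k ih =>
      intro i
      have h1 : i + (k + 1) * N = (i + k * N) + N := by ring
      rw [h1, hνN, ih]
      push_cast; ring
  -- bounds over a period
  obtain ⟨n0, hn0⟩ : ∃ n0 : ℤ, ∀ i, i < N → ν i ≤ n0 := by
    refine ⟨∑ i ∈ Finset.range N, |ν i|, fun i hi => ?_⟩
    exact le_trans (le_abs_self _) (Finset.single_le_sum (f := fun i => |ν i|)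
      (fun i _ => abs_nonneg _) (Finset.mem_range.mpr hi))
  obtain ⟨n2, hn2⟩ : ∃ n2 : ℤ, ∀ i, i < N → n2 ≤ ν i := by
    refine ⟨-∑ i ∈ Finset.range N, |ν i|, fun i hi => ?_⟩
    have h1 := Finset.single_le_sum (f := fun i => |ν i|)
      (fun i _ => abs_nonneg _) (Finset.mem_range.mpr hi)
    have h2 := neg_abs_le (ν i)
    omega
  have hgrow : ∀ i, n2 + (i / N : ℕ) ≤ ν i := by
    intro i
    have h1 : i = i % N + (i / N) * N := by rw [mul_comm]; exact (Nat.mod_add_div i N).symm
    have h2 := hνk (i / N) (i % N)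
    rw [← h1] at h2
    rw [h2]
    have h3 := hn2 (i % N) (Nat.mod_lt i hN)
    have h4 : ((i / N : ℕ) : ℤ) * 1 ≤ ((i / N : ℕ) : ℤ) * D :=
      mul_le_mul_of_nonneg_left (by omega) (by positivity)
    omega
  -- the last visit below n0
  obtain ⟨k0, hk0, hk0'⟩ : ∃ k0, ν k0 ≤ n0 ∧ ∀ i, k0 < i → n0 < ν i := by
    have hbdd : ∀ i, ν i ≤ n0 → i < (n0 - n2 + 1).toNat * N := by
      intro i hi
      by_contra hc
      push Not at hc
      have h1 := hgrow i
      have h2 : (n0 - n2 + 1).toNat ≤ i / N := (Nat.le_div_iff_mul_le hN).mpr hc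
      have h3 := Int.self_le_toNat (n0 - n2 + 1)
      omega
    have hex : ∃ i, ν i ≤ n0 := ⟨0, hn0 0 hN⟩
    set B := (n0 - n2 + 1).toNat * N with hB
    refine ⟨Nat.findGreatest (fun i => ν i ≤ n0) B, ?_, ?_⟩
    · exact Nat.findGreatest_spec (P := fun i => ν i ≤ n0) (m := 0) (Nat.zero_le _) (hn0 0 hN)
    · intro i hi
      by_contra hc
      push Not at hc
      have h1 := hbdd i hc
      exact absurd hc (Nat.findGreatest_is_greatest hi h1.le)
  -- first visits
  have hexF : ∀ c : ℕ, ∃ i, n0 + c * D ≤ ν i := by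
    intro c
    refine ⟨(n0 + c * D - n2).toNat * N, ?_⟩
    have h1 := hgrow ((n0 + c * D - n2).toNat * N)
    rw [Nat.mul_div_cancel _ hN] at h1
    have h3 := Int.self_le_toNat (n0 + c * D - n2)
    omega
  set F : ℕ → ℕ := fun c => Nat.find (hexF c) with hF
  have hFspec : ∀ c : ℕ, n0 + c * D ≤ ν (F c) := fun c => Nat.find_spec (hexF c)
  have hFmin : ∀ (c : ℕ) i, i < F c → ν i < n0 + c * D := fun c i hi => by
    have := Nat.find_min (hexF c) hi
    push Not at this; exact this
  have hFsucc : ∀ c, F (c + 1) = F c + N := by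
    intro c
    apply le_antisymm
    · apply Nat.find_min'
      rw [hνN]
      have := hFspec c
      push_cast
      have h2 : (((c : ℤ) + 1)) * D = c * D + D := by ring
      omega
    · by_contra hc
      push Not at hc
      have h1 := hFspec (c + 1)
      have h2 : N ≤ F (c + 1) := by
        by_contra h3
        push Not at h3
        have h4 := hn0 _ h3
        have h5 : (0 : ℤ) ≤ (c : ℤ) * D := by positivity
        push_cast at h1
        have h6 : (((c : ℤ) + 1)) * D = c * D + D := by ring
        omega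
      obtain ⟨e, he⟩ := Nat.exists_eq_add_of_le h2
      have h3 : e < F c := by omega
      have h4 := hFmin c e h3
      have h5 : F (c + 1) = e + N := by omega
      rw [h5, hνN] at h1
      push_cast at h1
      have h6 : (((c : ℤ) + 1)) * D = c * D + D := by ring
      omega
  have hFge : ∀ c, c ≤ F c := by
    intro c
    induction c with
    | zero => omega
    | succ c ih => rw [hFsucc]; omega
  -- rotation from k0 to F c
  have hk0n : ν (k0 + 1) > n0 := hk0' _ (by omega)
  have hstart : (nb s)^[k0] d = (((nb s)^[k0] d).1, n0, true) := by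
    have h1 : (nb s)^[k0 + 1] d = nb s ((nb s)^[k0] d) := Function.iterate_succ_apply' _ _ _
    have h2 := level_up (s := s) (d := (nb s)^[k0] d) (n0 := n0) hk0 (by rw [← h1]; exact hk0n)
    rcases hd : (nb s)^[k0] d with ⟨a, n, c⟩
    rw [hd] at h2
    simp only at h2
    rw [h2.1, h2.2.1]
  have key : ∀ c, 1 ≤ c → k0 < F c → rotb s (F c - k0) ((nb s)^[k0] d) = 0 := by
    intro c hc1 hc
    have hcD : (0 : ℤ) < (c : ℤ) * D := by positivity
    have hF1 : 1 ≤ F c := by omega
    have h1 : ν (F c - 1) ≤ n0 + c * D - 1 := by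
      have := hFmin c (F c - 1) (by omega)
      omega
    have h2 : (nb s)^[F c] d = nb s ((nb s)^[F c - 1] d) := by
      rw [← Function.iterate_succ_apply' (nb s)]
      congr 1
      omega
    have h3 := level_up (s := s) (d := (nb s)^[F c - 1] d) (n0 := n0 + c * D - 1) h1 (by
      rw [← h2]
      have := hFspec c
      simp only [hν] at this
      omega)
    have h4 : (nb s)^[F c] d = (((nb s)^[F c - 1] d).1, n0 + c * D, true) := by
      rw [h2, h3.2.2]
      congr 2
      ring
    have h5 : (nb s)^[F c - k0] ((nb s)^[k0] d) = (nb s)^[F c] d := by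
      rw [← Function.iterate_add_apply]; congr 1; omega
    rw [hstart]
    refine brick_through s (F c - k0) _ n0 (((nb s)^[F c - 1] d).1) (n0 + c * D) ?_ ?_ ?_
    · rw [← hstart, h5, h4]
    · intro i hi1 _
      rw [← hstart, ← Function.iterate_add_apply]
      have := hk0' (i + k0) (by omega)
      simp only [hν] at this
      omega
    · intro i hi
      rw [← hstart, ← Function.iterate_add_apply]
      have := hFmin c (i + k0) (by omega)
      simp only [hν] at this
      omega
  have hc0 := hFge (k0 + 1)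
  have e1 := key (k0 + 1) (by omega) (by omega)
  have e2 := key (k0 + 1 + 1) (by omega) (by rw [hFsucc]; omega)
  have e3 : F (k0 + 1 + 1) - k0 = (F (k0 + 1) - k0) + N := by rw [hFsucc]; omega
  rw [e3, rotb_add, e1, zero_add] at e2
  have e4 : (nb s)^[F (k0 + 1) - k0] ((nb s)^[k0] d) = (nb s)^[F (k0 + 1)] d := by
    rw [← Function.iterate_add_apply]; congr 1; omega
  rw [e4] at e2
  -- shift invariance of the period sum
  set i := F (k0 + 1) with hi
  have h1 := rotb_add s i N d
  have h2 := rotb_add s N i d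
  rw [hper, rotb_sh hPD hs] at h2
  rw [add_comm N i] at h2
  linarith

/-- **periodic strands with vertical drift have rotation zero** -/
theorem brick_periodic {s : ℤ → ℤ → Bool} {P D : ℤ} (hPD : (P - D) % 2 = 0)
    (hs : ∀ q n, s (q + P) (n + D) = s q n) (hD : D ≠ 0) {N : ℕ} (hN : 0 < N) {d : AD}
    (hper : (nb s)^[N] d = sh P D d) : rotb s N d = 0 := by
  rcases lt_or_gt_of_ne hD with h | h
  · -- reversed strand
    have hs' : ∀ q n, s (q + -P) (n + -D) = s q n := by
      intro q n
      have := hs (q + -P) (n + -D)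
      rw [← this]
      congr 1 <;> ring
    have h1 := iterb_rv s N d
    rw [hper] at h1
    have h2 : rv d = sh (-P) (-D) (rv (sh P D d)) := by
      simp [rv, sh]
    rw [h2] at h1
    have h3 := periodic_pos (P := -P) (D := -D) (by omega) hs' (by omega) hN h1
    have h4 := rotb_rv s N d
    rw [hper, h3] at h4
    linarith
  · exact periodic_pos hPD hs h hN hper

end Crest.Agent.R158.Ts405
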