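import Crest.Agent.R158.Ts7_405

/-!
# R158, T1 part 8: periodic strands of `Bk0_430` over `ℤ × ℤ` have turning number zero
-/

set_option autoImplicit false

namespace Crest.Agent.R158.Ts405

open Crest.Agent.R158.Bk430 (ME HasPar par vp ori hd tl kap turn)

theorem iter_rf (s : ℤ × ℤ → Bool) (e : ME ℤ ℤ) (k : ℕ) :
    (Bk430.nx (rfS s))^[k] (rfE e) = rfE ((Bk430.nx s)^[k] e) := by
  induction k with
  | zero => rfl
  | succ k ih =>
    rw [Function.iterate_succ_apply', ih, (nx_rf s _).1, Function.iterate_succ_apply']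

/-- **T1 (b)**: `s` invariant under the even translation `P ≠ 0`; a strand with
`nx^[k] e = e + P` has total turn `0` over the `k` steps. -/
theorem T1_periodic (s : ℤ × ℤ → Bool) (P : ℤ × ℤ) (hP : (P.1 + P.2) % 2 = 0)
    (hs : ∀ u : ℤ × ℤ, s (u.1 + P.1, u.2 + P.2) = s u) (hne : P ≠ 0)
    (e : ME ℤ ℤ) (k : ℕ) (hk : 0 < k) (hper : (Bk430.nx s)^[k] e = shE P e) :
    ∑ l ∈ Finset.range k, turn s ((Bk430.nx s)^[l] e) = 0 := by
  by_cases h : P.1 + P.2 = 0
  · have h2 : -P.1 + P.2 ≠ 0 := by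
      intro h3
      apply hne
      have e1 : P.1 = 0 := by omega
      have e2 : P.2 = 0 := by omega
      exact Prod.ext e1 e2
    have h3 := T1_periodic_diag (rfS s) (-P.1, P.2) (by simp only; omega) (by
      intro u
      simp only [rfS]
      have := hs (-u.1 + -P.1 , u.2)
      have h4 := hs (-(u.1 + -P.1) + -P.1, u.2 + P.2 + -P.2)
      simp only at h4
      have e1 : -(u.1 + -P.1) + -P.1 + P.1 = -(u.1 + -P.1) := by ring
      have e2 : u.2 + P.2 + -P.2 + P.2 = u.2 + P.2 := by ring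
      have e3 : -(u.1 + -P.1) + -P.1 = -u.1 := by ring
      have e4 : u.2 + P.2 + -P.2 = u.2 := by ring
      rw [e1, e2, e3, e4] at h4
      rw [h4]) h2 (rfE e) k hk (by
      rw [iter_rf, hper]
      obtain ⟨⟨i, j⟩, c⟩ := e
      cases c
      · simp [rfE, shE]; ring
      · simp [rfE, shE]; ring)
    have h5 : ∀ l, turn (rfS s) ((Bk430.nx (rfS s))^[l] (rfE e)) = - turn s ((Bk430.nx s)^[l] e) := by
      intro l
      rw [iter_rf, (nx_rf s _).2]
    rw [Finset.sum_congr rfl (fun l _ => h5 l), Finset.sum_neg_distrib] at h3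
    linarith
  · exact T1_periodic_diag s P hP hs h e k hk hper

end Crest.Agent.R158.Ts405
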