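import Crest.Agent.R158.Gx3_31
import Crest.Agent.R158.Vn3_841

/-!
# Row 158, Block A4 (helper31), C upper bounds, file 1: geometry and the pointwise bound

`n` main scale, `y0 n = (n, 0)`, box `BF (y0 n) (4 r)` with charge `5π/6`, ring `rg 0 R` with
charge `π/6`, base point near `0`; `Geo n r R : 3 ≤ r, 128 r ≤ n, 16 n ≤ R`.

* `mu n r R`, `tot_mu = π`, `sys` : the system (any point charge within distance `2` of `0`)
* `loc_far` : a local loop does not contain faces within distance `2` of `0`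
* `Fs`, `Fs_sub` : the free loops with a non trivial weight
* `pt_bound` : `|∏ᶠ A ∈ S, fx (s • mu) u A| ≤ exp (-s Lin + EC) * 2 ^ #Fs`, `s = ± 1`
-/

set_option autoImplicit false

noncomputable section

namespace Crest.Agent.R158.Uc31

open Real Function MeasureTheory
open Crest.Agent.R161.Tas682 (sd)
open Crest.Agent.R161.Geo729
open Crest.Agent.R158.It200 (Cfz Corner fc i1 i2)
open Crest.Agent.R158.Wf850 (Lps Face BF mem_BF Splits sd_self sd_tri sd_symm' sepC cv cf
  sd_corner NN)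
open Crest.Agent.R158.Vx107 (Fw Ntr W Rest mass_add mass_smul mass_single tot_add tot_smul
  tot_single rest_sub fin_supp)
open Crest.Agent.R158.Vn841 (fx Bs Fw_base)
open Crest.Agent.R158.Cn109 (lsW smalls mem_smalls VV DepF)
open Crest.Agent.R158.Hd109 (Err)
open Crest.Agent.R158.Rs689 (nu hf)
open Crest.Agent.R158.Gx31
open Crest.Agent.R158.Lc522 (nnF mem_nnF nnF_card)

/-! ### geometry -/

/-- centre of the box -/
def y0 (n : ℕ) : P2 := ((n : ℤ), 0)

/-- the scales -/
structure Geo (n r R : ℕ) : Prop where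
  r3 : 3 ≤ r
  rn : 128 * r ≤ n
  nR : 16 * n ≤ R

/-- the box -/
def Vb (n r : ℕ) : Finset Face := BF (y0 n) (4 * r : ℕ)

/-- supports -/
def VC (n r R : ℕ) (b : Bool) : Finset Face := if b then Vb n r else rg (0, 0) R

/-- levels -/
def kC (r R : ℕ) (b : Bool) : ℕ := if b then Nat.log 2 (4 * r) else Nat.log 2 (R / 2)

/-- amplitudes -/
def aC (b : Bool) : ℝ := if b then 5 * π / 6 else π / 6

/-- the smeared charge, total `π` -/
def mu (n r R : ℕ) : Face →₀ ℝ := (5 * π / 6) • ud (Vb n r) + (π / 6) • ud (rg (0, 0) R)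

theorem sd_y0 (n : ℕ) : sd (0, 0) (y0 n) = n := by
  unfold sd y0
  simp

theorem Vb_ne (n r : ℕ) : (Vb n r).Nonempty := BF_nonempty _ _

theorem tot_mu {n r R : ℕ} (hR : 1 ≤ R) : Vx107.tot (mu n r R) = π := by
  unfold mu
  rw [tot_add, tot_smul, tot_smul, tot_ud (Vb_ne n r), tot_ud (rg_nonempty hR)]
  ring

theorem mass_mu (n r R : ℕ) (A : Finset Face) : Vx107.mass (mu n r R) A =
    (5 * π / 6) * Vx107.mass (ud (Vb n r)) A + (π / 6) * Vx107.mass (ud (rg (0, 0) R)) A := by
  unfold mu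
  rw [mass_add, mass_smul, mass_smul]

section geo

variable {n r R : ℕ}

theorem Geo.ints (h : Geo n r R) : (3 : ℤ) ≤ r ∧ (128 : ℤ) * r ≤ n ∧ (16 : ℤ) * n ≤ R :=
  ⟨by exact_mod_cast h.r3, by exact_mod_cast h.rn, by exact_mod_cast h.nR⟩

theorem two_pow_log_le {a : ℕ} (ha : 1 ≤ a) : (2 : ℤ) ^ Nat.log 2 a ≤ a := by
  have : 2 ^ Nat.log 2 a ≤ a := Nat.pow_log_le_self 2 (by omega)
  exact_mod_cast this

theorem Geo.kb (h : Geo n r R) : (2 : ℤ) ^ kC r R true ≤ 4 * r := by
  have := two_pow_log_le (a := 4 * r) (by have := h.r3; omega)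
  unfold kC
  simpa using this

theorem Geo.kw (h : Geo n r R) : (2 : ℤ) * 2 ^ kC r R false ≤ R := by
  have h1 := h.r3
  have h2 := h.rn
  have h3 := h.nR
  have := two_pow_log_le (a := R / 2) (by omega)
  unfold kC
  simp only [Bool.false_eq_true, if_false]
  omega

/-- distances from the origin -/
theorem Geo.box_far (h : Geo n r R) {v : Face} (hv : v ∈ Vb n r) :
    (n : ℤ) - 4 * r ≤ sd (0, 0) v.1 ∧ sd (0, 0) v.1 ≤ n + 4 * r := by
  unfold Vb at hv
  rw [mem_BF] at hv
  have h1 := sd_tri (0, 0) (y0 n) v.1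
  have h2 := sd_tri (0, 0) v.1 (y0 n)
  rw [sd_y0] at h1 h2
  rw [sd_symm' v.1] at h2
  push_cast at hv
  constructor <;> linarith

theorem far_of_sd {v w : P2} {a b : ℤ} (hv : sd (0, 0) v ≤ a) (hw : b ≤ sd (0, 0) w) :
    b - a ≤ sd v w := by
  have := sd_tri (0, 0) v w
  linarith

/-- all the charges near the origin are far -/
theorem Geo.far0 (h : Geo n r R) {b : Bool} {v : Face} (hv : v ∈ VC n r R b) {w : P2}
    (hw : sd (0, 0) w ≤ 2) : (2 : ℤ) ^ kC r R b ≤ sd v.1 w ∧ 2 < sd (0, 0) v.1 := by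
  obtain ⟨i1, i2, i3⟩ := h.ints
  cases b
  · have hv' : v ∈ rg (0, 0) R := hv
    rw [mem_rg] at hv'
    have h1 := far_of_sd hw hv'.1.le
    rw [sd_symm'] at h1
    have h2 := h.kw
    have h3 : (0 : ℤ) < 2 ^ kC r R false := by positivity
    constructor <;> linarith
  · have hv' : v ∈ Vb n r := hv
    have h1 := h.box_far hv'
    have h2 := far_of_sd hw h1.1
    rw [sd_symm'] at h2
    have h3 := h.kb
    constructor <;> linarith

theorem Geo.sepV (h : Geo n r R) {b b' : Bool} (hb : b ≠ b') {v w : Face} (hv : v ∈ VC n r R b)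
    (hw : w ∈ VC n r R b') : (2 : ℤ) ^ kC r R b ≤ sd v.1 w.1 ∧ 1 ≤ sd v.1 w.1 := by
  obtain ⟨i1, i2, i3⟩ := h.ints
  have key : ∀ v w : Face, v ∈ Vb n r → w ∈ rg (0, 0) R →
      (R : ℤ) - n - 4 * r ≤ sd v.1 w.1 := by
    intro v w hv hw
    rw [mem_rg] at hw
    have := far_of_sd (h.box_far hv).2 hw.1.le
    linarith
  cases b <;> cases b'
  · exact absurd rfl hb
  · have h1 := key w v hw hv
    rw [sd_symm'] at h1
    have h2 := h.kw
    have h3 : (0 : ℤ) < 2 ^ kC r R false := by positivity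
    constructor <;> linarith
  · have h1 := key v w hv hw
    have h2 := h.kb
    constructor <;> linarith
  · exact absurd rfl hb

/-- **the system** -/
theorem Geo.sys (h : Geo n r R) {u : Face} (hu : sd (0, 0) u.1 ≤ 2) (s : ℝ) (t : ℝ) :
    Sys (kC r R) (VC n r R) (fun b => uf (VC n r R b)) (fun b => s * aC b)
      (s • mu n r R + Finsupp.single u t) := by
  have hR : 1 ≤ R := by
    have h1 := h.r3
    have h2 := h.rn
    have h3 := h.nR
    omega
  refine Sys.of_ud (m0 := Finsupp.single u t) ?_ ?_ ?_ ?_ ?_ ?_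
  · intro f
    rw [Fintype.sum_bool]
    show (s • mu n r R) f + _ = _
    rw [Finsupp.smul_apply]
    unfold mu VC aC
    simp only [Finsupp.add_apply, Finsupp.smul_apply, smul_eq_mul, if_true, Bool.false_eq_true,
      if_false]
    ring
  · intro b
    cases b
    · exact rg_nonempty hR
    · exact Vb_ne n r
  · intro b b' hb v hv hv'
    have := (h.sepV hb hv hv').2
    rw [sd_self] at this
    linarith
  · intro b b' hb v hv w hw
    have := (h.sepV hb hv hw).1
    linarith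
  · intro b v hv
    rw [Finsupp.single_apply, if_neg]
    rintro rfl
    have := (h.far0 hv hu).2
    linarith
  · intro b v hv w hw
    rw [Finsupp.single_apply] at hw
    have hw' : u = w := by
      by_contra hne
      exact hw (if_neg hne)
    subst hw'
    have := (h.far0 hv hu).1
    linarith

/-- a local loop does not reach the origin -/
theorem Geo.loc_far (h : Geo n r R) {z : Cfz} {A : Finset Face}
    (hA : A ∈ Loc (kC r R) (VC n r R) z) {u : Face} (hu : sd (0, 0) u.1 ≤ 2) : u ∉ A := by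
  intro huA
  obtain ⟨_, b, ⟨v, hv, hvA⟩, hd⟩ := mem_Loc'.1 hA
  have h1 := (h.far0 hv hu).1
  have h2 := Cn109.sd_le_dia hvA huA
  have h3 : ((Cn109.dia A + 1 : ℕ) : ℤ) < ((2 ^ kC r R b : ℕ) : ℤ) := by exact_mod_cast hd
  push_cast at h3
  linarith

theorem Geo.loc_sep (h : Geo n r R) {z : Cfz} {A : Finset Face}
    (hA : A ∈ Loc (kC r R) (VC n r R) z) {c : Corner} (hc : sd (0, 0) c.1 ≤ 1) : ¬ sepC A c := by
  have h1 : cv c ∉ A := h.loc_far hA (u := cv c) (by show sd (0, 0) c.1 ≤ 2; linarith)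
  have h2 : cf c ∉ A := h.loc_far hA (u := cf c) (by
    show sd (0, 0) (fc c) ≤ 2
    have := (sd_corner (0, 0) c).2
    linarith)
  unfold sepC
  rw [not_not]
  exact ⟨fun h' => absurd h' h1, fun h' => absurd h' h2⟩

/-! ### free loops -/

/-- the free loops with a non trivial weight -/
def Fs (n r R : ℕ) (z : Cfz) : Set (Finset Face) :=
  {A | A ∈ Lps z ∧ A ∉ Loc (kC r R) (VC n r R) z ∧ Vx107.mass (mu n r R) A ≠ 0 ∧
    Vx107.mass (mu n r R) A ≠ π}

theorem lt_two_pow_log (a : ℕ) : a < 2 * 2 ^ Nat.log 2 a := by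
  have := Nat.lt_pow_succ_log_self (b := 2) (by norm_num) a
  rw [pow_succ] at this
  omega

theorem not_splits {A B : Finset Face} (h : ¬ Splits A B) {f : Face} (hf : f ∈ B) (hfA : f ∈ A) :
    B ⊆ A := by
  intro g hg
  by_contra hgA
  exact h ⟨⟨f, hf, hfA⟩, g, hg, hgA⟩

theorem Geo.Fs_sub (h : Geo n r R) (z : Cfz) : Fs n r R z ⊆
    CR (y0 n) (4 * r) 2 z ∪ CR (0, 0) (2 * R) 8 z ∪ (nnF (y0 n) (4 * r : ℕ) (R : ℕ) z : Set _) := by
  rintro A ⟨hA, hloc, h0, h1⟩
  have hR : 1 ≤ R := by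
    have h1 := h.r3
    have h2 := h.rn
    have h3 := h.nR
    omega
  have hl : ∀ b : Bool, ∀ v ∈ VC n r R b, v ∈ A → 2 ^ kC r R b ≤ Cn109.dia A + 1 := by
    intro b v hv hvA
    by_contra hcon
    push Not at hcon
    exact hloc (mem_Loc'.2 ⟨hA, b, ⟨v, hv, hvA⟩, hcon⟩)
  by_cases hw : Cn109.dia A + 1 < 2 ^ kC r R false
  · -- no ring mass
    have e1 : Vx107.mass (ud (rg (0, 0) R)) A = 0 := mass_ud_zero fun v hv hvA => by
      have := hl false v hv hvA
      omega
    obtain ⟨v, hv, hvA⟩ : ∃ v ∈ Vb n r, v ∈ A := by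
      by_contra hcon
      push Not at hcon
      apply h0
      rw [mass_mu, e1, mass_ud_zero hcon]
      ring
    have h2 : 2 ^ Nat.log 2 (4 * r) ≤ Cn109.dia A + 1 := hl true v hv hvA
    have h3 := lt_two_pow_log (4 * r)
    by_cases hs : Splits A (BF (y0 n) (4 * r : ℕ))
    · exact Or.inl (Or.inl ⟨hA, hs, by omega⟩)
    · have h4 := not_splits hs hv hvA
      refine Or.inr (mem_nnF.2 ⟨fun f hf => ?_, h4, hA⟩)
      have hc : ((y0 n, false) : Face) ∈ A := h4 (by rw [mem_BF, sd_self]; positivity)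
      have h5 := Cn109.sd_le_dia hc hf
      have h6 : ((Cn109.dia A + 1 : ℕ) : ℤ) < ((2 ^ kC r R false : ℕ) : ℤ) := by exact_mod_cast hw
      have h7 := h.kw
      push_cast at h6
      rw [mem_BF]
      have h8 : (0 : ℤ) ≤ Cn109.dia A := Nat.cast_nonneg _
      linarith
  · -- a big loop
    push Not at hw
    have h3 := lt_two_pow_log (R / 2)
    have h4 : 2 ^ Nat.log 2 (R / 2) ≤ Cn109.dia A + 1 := hw
    by_cases hs : Splits A (BF (0, 0) (2 * R : ℕ))
    · exact Or.inl (Or.inr ⟨hA, hs, by omega⟩)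
    · exfalso
      have hin : ∀ v, v ∈ Vb n r ∨ v ∈ rg (0, 0) R → v ∈ BF (0, 0) (2 * R : ℕ) := by
        obtain ⟨i1, i2, i3⟩ := h.ints
        rintro v (hv | hv)
        · have := (h.box_far hv).2
          rw [mem_BF]
          push_cast
          linarith
        · rw [mem_rg] at hv
          rw [mem_BF]
          push_cast
          exact hv.2
      by_cases hex : ∃ f ∈ BF (0, 0) (2 * R : ℕ), f ∈ A
      · obtain ⟨f, hf, hfA⟩ := hex
        have h5 := not_splits hs hf hfA
        apply h1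
        rw [mass_mu, mass_ud_one (Vb_ne n r) fun v hv => h5 (hin v (Or.inl hv)),
          mass_ud_one (rg_nonempty hR) fun v hv => h5 (hin v (Or.inr hv))]
        ring
      · push Not at hex
        apply h0
        rw [mass_mu, mass_ud_zero fun v hv => hex v (hin v (Or.inl hv)),
          mass_ud_zero fun v hv => hex v (hin v (Or.inr hv))]
        ring

theorem Geo.Fs_fin (h : Geo n r R) (z : Cfz) : (Fs n r R z).Finite :=
  (((CR_fin _ _ _ z).union (CR_fin _ _ _ z)).union (Finset.finite_toSet _)).subset (h.Fs_sub z)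

theorem Geo.Fs_card (h : Geo n r R) (z : Cfz) : (Fs n r R z).ncard ≤
    (CR (y0 n) (4 * r) 2 z).ncard + (CR (0, 0) (2 * R) 8 z).ncard +
      NN (y0 n) (4 * r : ℕ) (R : ℕ) z := by
  refine (Set.ncard_le_ncard (h.Fs_sub z)
    (((CR_fin _ _ _ z).union (CR_fin _ _ _ z)).union (Finset.finite_toSet _))).trans ?_
  refine (Set.ncard_union_le _ _).trans ?_
  rw [nnF_card, Set.ncard_coe_finset]
  exact Nat.add_le_add_right (Set.ncard_union_le _ _) _

theorem fx_abs_le_two (μ : Face →₀ ℝ) (u : Face) (A : Finset Face) : |fx μ u A| ≤ 2 := by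
  unfold fx
  split_ifs
  · rw [abs_neg]; exact Vx107.abs_Fw_le _
  · exact Vx107.abs_Fw_le _

theorem fx_abs (μ : Face →₀ ℝ) (u : Face) (A : Finset Face) :
    |fx μ u A| = |Fw (Vx107.mass μ A)| := by
  unfold fx
  split_ifs
  · rw [abs_neg]
  · rfl

theorem Fw_pi : Fw π = -1 := by
  have := Vx107.Fw_add_pi 0
  rw [zero_add, Vx107.Fw_zero] at this
  exact this

/-- error term -/
def EC (n r R : ℕ) (s : ℝ) (z : Cfz) : ℝ :=
  Err (fun b => √3 * (s * aC b)) (fun b => 12 * (s * aC b) ^ 2) (kC r R) (VC n r R)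
    (fun b => uf (VC n r R b)) z

/-- **pointwise bound of the product over the other loops**, total charge `s π`, `s = ± 1` -/
theorem Geo.pt_bound (h : Geo n r R) {s : ℝ} (hs : s = 1 ∨ s = -1) {z : Cfz} {u : Face}
    (hu : sd (0, 0) u.1 ≤ 2) {S : Set (Finset Face)} (hS : S ⊆ Lps z)
    (hL : ∀ A ∈ Loc (kC r R) (VC n r R) z, A ∈ S) :
    |∏ᶠ A ∈ S, fx (s • mu n r R) u A| ≤
      exp (-(s * Lin aC (kC r R)) + EC n r R s z) * 2 ^ (Fs n r R z).ncard := by
  have hR : 1 ≤ R := by
    have h1 := h.r3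
    have h2 := h.rn
    have h3 := h.nR
    omega
  have hsys := h.sys hu s (-(s * π))
  have hb : Bs (-(s * π)) := by
    rcases hs with rfl | rfl
    · right; ring
    · left; ring
  have hm : Ntr (s • mu n r R + Finsupp.single u (-(s * π))) := by
    unfold Ntr
    rw [tot_add, tot_smul, tot_mu hR, tot_single]
    ring
  have e1 : fx (s • mu n r R) u =
      fun A => Fw (Vx107.mass (s • mu n r R + Finsupp.single u (-(s * π))) A) := by
    funext A
    exact (Fw_base hb _ _ _).symm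
  have hfin : (S ∩ mulSupport (fx (s • mu n r R) u)).Finite := by
    rw [e1]; exact fin_supp hm hS
  have h1 := GU hsys (z := z) hL hfin (fun A _ => by rw [e1])
  have e2 : Lin (fun b => s * aC b) (kC r R) = s * Lin aC (kC r R) := by
    unfold Lin
    rw [← mul_assoc, mul_comm s (√3), mul_assoc, Finset.mul_sum (a := s)]
    congr 1
    exact Finset.sum_congr rfl fun b _ => by ring
  rw [e2] at h1
  refine h1.trans (mul_le_mul_of_nonneg_left ?_ (exp_pos _).le)
  refine free_le' (h.Fs_fin z) (fun A hA hAF => ?_) fun A _ => fx_abs_le_two _ _ _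
  rw [fx_abs]
  have h3 : Vx107.mass (mu n r R) A = 0 ∨ Vx107.mass (mu n r R) A = π := by
    by_contra hcon
    push Not at hcon
    exact hAF ⟨hS hA.1, fun h' => hA.2 h', hcon.1, hcon.2⟩
  rw [mass_smul]
  rcases h3 with h3 | h3
  · rw [h3, mul_zero, Vx107.Fw_zero, abs_one]
  · rw [h3]
    rcases hs with rfl | rfl
    · rw [one_mul, Fw_pi, abs_neg, abs_one]
    · have := Vx107.Fw_sub_pi 0
      rw [zero_sub, Vx107.Fw_zero] at this
      rw [neg_one_mul, this, abs_neg, abs_one]

end geo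

end Crest.Agent.R158.Uc31
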