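import Crest.Agent.R158.Uc1_31

/-!
# Row 158, Block A4 (helper31), C upper bounds, file 2: the envelope and its moments

* `lin_C`   : `|Lin aC (kC r R) - √3 π VV (log2 n)| ≤ c (1 + log (R / r))`
* `env`     : for all `q` there are `C` and (for each geometry) a local `L` with
  `|∏ᶠ A ∈ S, fx (s • mu) u A| ≤ exp (-s √3 π VV (log2 n)) * exp (L z)` and
  `∫ exp (q L) ≤ C (R / r) ^ C`
* `env_ind` : `∫ 1_A exp L ≤ C (R / r) ^ C * P(A) ^ (1 - δ)`
-/

set_option autoImplicit false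

noncomputable section

namespace Crest.Agent.R158.Uc31

open Real Function MeasureTheory
open Crest.Agent.R161.Tas682 (sd)
open Crest.Agent.R161.Geo729
open Crest.Agent.R158.It200 (Cfz Corner fc i1 i2)
open Crest.Agent.R158.Wf850 (Lps Face BF mem_BF Splits NN NN_dep)
open Crest.Agent.R158.Vn841 (fx)
open Crest.Agent.R158.Cn109 (lsW smalls mem_smalls VV DepF)
open Crest.Agent.R158.Hd109 (Err Dens)
open Crest.Agent.R158.Rs689 (nu hf)
open Crest.Agent.R158.Gx31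

/-- integer and real logarithms -/
theorem log_diff {a b : ℕ} (ha : 1 ≤ a) (hab : a ≤ b) :
    |(Nat.log 2 a : ℝ) - Nat.log 2 b| ≤ Real.log (b / a) / Real.log 2 + 1 := by
  have hb : 1 ≤ b := ha.trans hab
  have h2 : 0 < Real.log 2 := Real.log_pos (by norm_num)
  have hm : Nat.log 2 a ≤ Nat.log 2 b := Nat.log_mono_right hab
  have hm' : (Nat.log 2 a : ℝ) ≤ Nat.log 2 b := by exact_mod_cast hm
  rw [abs_sub_comm, abs_of_nonneg (by linarith)]
  have ha0 : (0 : ℝ) < a := by exact_mod_cast ha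
  have hb0 : (0 : ℝ) < b := by exact_mod_cast hb
  have h3 : (Nat.log 2 b : ℝ) * Real.log 2 ≤ Real.log b := by
    rw [← Real.log_pow]
    apply Real.log_le_log (by positivity)
    exact_mod_cast Nat.pow_log_le_self 2 (by omega)
  have h4 : Real.log a ≤ ((Nat.log 2 a : ℝ) + 1) * Real.log 2 := by
    have h5 : (a : ℝ) ≤ 2 ^ (Nat.log 2 a + 1) := by
      exact_mod_cast (Nat.lt_pow_succ_log_self (by norm_num) a).le
    calc Real.log a ≤ Real.log (2 ^ (Nat.log 2 a + 1)) := Real.log_le_log ha0 h5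
      _ = _ := by rw [Real.log_pow]; push_cast; ring
  rw [Real.log_div hb0.ne' ha0.ne', ← sub_le_iff_le_add, le_div_iff₀ h2]
  nlinarith

variable {n r R : ℕ}

theorem Geo.ratio (h : Geo n r R) : (1 : ℝ) ≤ (R : ℝ) / r := by
  have h1 := h.r3
  have h2 := h.rn
  have h3 := h.nR
  have hr : (0 : ℝ) < r := by exact_mod_cast (by omega : 0 < r)
  rw [le_div_iff₀ hr, one_mul]
  exact_mod_cast (by omega : r ≤ R)

/-- **the linear exponent** -/
theorem lin_C : ∃ c : ℝ, 0 ≤ c ∧ ∀ n r R : ℕ, Geo n r R →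
    |Lin aC (kC r R) - √3 * π * VV (Nat.log 2 n)| ≤ c * (1 + Real.log ((R : ℝ) / r)) := by
  obtain ⟨C, hC, h⟩ := VV_abs
  have h2 : 0 < Real.log 2 := Real.log_pos (by norm_num)
  refine ⟨√3 * π * (C * (1 / Real.log 2 + 1)), by positivity, fun n r R hg => ?_⟩
  have g1 := hg.r3
  have g2 := hg.rn
  have g3 := hg.nR
  have hr0 : (0 : ℝ) < r := by exact_mod_cast (by omega : 0 < r)
  have hn0 : (0 : ℝ) < n := by exact_mod_cast (by omega : 0 < n)
  have hR0 : (0 : ℝ) < R := by exact_mod_cast (by omega : 0 < R)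
  set D := Real.log ((R : ℝ) / r) with hD
  have hD0 : 0 ≤ D := Real.log_nonneg hg.ratio
  -- the two levels
  have k1 : |VV (Nat.log 2 (4 * r)) - VV (Nat.log 2 n)| ≤ C * (1 / Real.log 2 + 1) * (1 + D) := by
    refine (h _ _).trans ?_
    rw [mul_assoc]
    refine mul_le_mul_of_nonneg_left ?_ hC
    refine (log_diff (a := 4 * r) (b := n) (by omega) (by omega)).trans ?_
    have h4 : Real.log ((n : ℝ) / (4 * r : ℕ)) ≤ D := by
      apply Real.log_le_log (by push_cast; positivity)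
      push_cast
      apply div_le_div₀ hR0.le (by exact_mod_cast (by omega : n ≤ R)) hr0 (by linarith)
    have h5 : Real.log ((n : ℝ) / (4 * r : ℕ)) / Real.log 2 ≤ D / Real.log 2 :=
      div_le_div_of_nonneg_right h4 h2.le
    have h6 : D / Real.log 2 = 1 / Real.log 2 * D := by ring
    have h7 : 0 ≤ 1 / Real.log 2 := by positivity
    nlinarith
  have k2 : |VV (Nat.log 2 (R / 2)) - VV (Nat.log 2 n)| ≤ C * (1 / Real.log 2 + 1) * (1 + D) := by
    rw [abs_sub_comm]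
    refine (h _ _).trans ?_
    rw [mul_assoc]
    refine mul_le_mul_of_nonneg_left ?_ hC
    refine (log_diff (a := n) (b := R / 2) (by omega) (by omega)).trans ?_
    have h4 : Real.log (((R / 2 : ℕ) : ℝ) / n) ≤ D := by
      apply Real.log_le_log
      · have : 0 < R / 2 := by omega
        positivity
      · apply div_le_div₀ hR0.le (by exact_mod_cast (by omega : R / 2 ≤ R)) hr0
          (by exact_mod_cast (by omega : r ≤ n))
    have h5 : Real.log (((R / 2 : ℕ) : ℝ) / n) / Real.log 2 ≤ D / Real.log 2 :=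
      div_le_div_of_nonneg_right h4 h2.le
    have h6 : D / Real.log 2 = 1 / Real.log 2 * D := by ring
    have h7 : 0 ≤ 1 / Real.log 2 := by positivity
    nlinarith
  have e1 : Lin aC (kC r R) - √3 * π * VV (Nat.log 2 n) =
      √3 * ((5 * π / 6) * (VV (Nat.log 2 (4 * r)) - VV (Nat.log 2 n)) +
        (π / 6) * (VV (Nat.log 2 (R / 2)) - VV (Nat.log 2 n))) := by
    unfold Lin
    rw [Fintype.sum_bool]
    unfold aC kC
    simp only [if_true, Bool.false_eq_true, if_false]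
    ring
  rw [e1, abs_mul, abs_of_nonneg (sqrt_nonneg 3)]
  have hpi := pi_pos
  calc √3 * |(5 * π / 6) * (VV (Nat.log 2 (4 * r)) - VV (Nat.log 2 n)) +
        (π / 6) * (VV (Nat.log 2 (R / 2)) - VV (Nat.log 2 n))|
      ≤ √3 * ((5 * π / 6) * |VV (Nat.log 2 (4 * r)) - VV (Nat.log 2 n)| +
        (π / 6) * |VV (Nat.log 2 (R / 2)) - VV (Nat.log 2 n)|) := by
        refine mul_le_mul_of_nonneg_left ((abs_add_le _ _).trans ?_) (sqrt_nonneg 3)
        rw [abs_mul, abs_mul, abs_of_nonneg (by positivity : 0 ≤ 5 * π / 6),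
          abs_of_nonneg (by positivity : 0 ≤ π / 6)]
    _ ≤ √3 * ((5 * π / 6) * (C * (1 / Real.log 2 + 1) * (1 + D)) +
        (π / 6) * (C * (1 / Real.log 2 + 1) * (1 + D))) := by
        refine mul_le_mul_of_nonneg_left (add_le_add ?_ ?_) (sqrt_nonneg 3)
        · exact mul_le_mul_of_nonneg_left k1 (by positivity)
        · exact mul_le_mul_of_nonneg_left k2 (by positivity)
    _ = _ := by ring

theorem Geo.dens (h : Geo n r R) (b : Bool) : Dens (1 / 8) (kC r R b) (VC n r R b)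
    (uf (VC n r R b)) := by
  have g1 := h.r3
  have g2 := h.rn
  have g3 := h.nR
  cases b
  · refine dens_ud (V := rg (0, 0) R) (rg_nonempty (by omega)) ?_
    have h1 : 2 ^ kC r R false ≤ R := by
      have := Nat.pow_log_le_self 2 (x := R / 2) (by omega)
      show 2 ^ Nat.log 2 (R / 2) ≤ R
      omega
    refine (rg_card (x := (0, 0)) h1).trans ?_
    have h2 : (0 : ℝ) ≤ (rg (0, 0) R).card := Nat.cast_nonneg _
    linarith
  · refine dens_ud (V := Vb n r) (Vb_ne n r) ?_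
    have h1 : 2 ^ kC r R true ≤ 4 * r := Nat.pow_log_le_self 2 (x := 4 * r) (by omega)
    exact bq_card h1

theorem EC_dep (n r R : ℕ) (s : ℝ) : ∃ S : Finset Edge, DepF S (EC n r R s) :=
  ⟨_, Hd109.Err_dep _ _ _ _ _⟩

/-- the majorants of the numbers of free loops -/
structure Maj (n r R : ℕ) (T1 T2 : Cfz → ℕ) : Prop where
  d1 : DepF (Em522.starE (y0 n) (6 * (4 * r))) T1
  d2 : DepF (Em522.starE (0, 0) (6 * (2 * R))) T2
  b1 : ∀ z, (CR (y0 n) (4 * r) 2 z).ncard ≤ T1 z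
  b2 : ∀ z, (CR (0, 0) (2 * R) 8 z).ncard ≤ T2 z

/-- the exponent of the envelope -/
def LL (n r R : ℕ) (s K0 : ℝ) (T1 T2 : Cfz → ℕ) (z : Cfz) : ℝ :=
  EC n r R s z + Real.log 2 * (T1 z : ℝ) + Real.log 2 * (T2 z : ℝ) +
    (Real.log 2 * (NN (y0 n) (4 * r : ℕ) (R : ℕ) z : ℝ) + K0)

theorem LL_dep {n r R : ℕ} (s K0 : ℝ) {T1 T2 : Cfz → ℕ} (h : Maj n r R T1 T2) :
    ∃ T : Finset Edge, DepF T (LL n r R s K0 T1 T2) := by
  classical
  obtain ⟨E, hE⟩ := EC_dep n r R s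
  have d2 : DepF (Em522.starE (y0 n) (6 * (4 * r))) fun z => Real.log 2 * (T1 z : ℝ) :=
    h.d1.comp fun k : ℕ => Real.log 2 * (k : ℝ)
  have d3 : DepF (Em522.starE (0, 0) (6 * (2 * R))) fun z => Real.log 2 * (T2 z : ℝ) :=
    h.d2.comp fun k : ℕ => Real.log 2 * (k : ℝ)
  have d4 : DepF (Wf850.annF (y0 n) (4 * r : ℕ) (R : ℕ)) fun z =>
      Real.log 2 * (NN (y0 n) (4 * r : ℕ) (R : ℕ) z : ℝ) + K0 :=
    (NN_dep (y0 n) (4 * r : ℕ) (R : ℕ)).comp fun k : ℕ => Real.log 2 * (k : ℝ) + K0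
  exact ⟨E ∪ Em522.starE (y0 n) (6 * (4 * r)) ∪ Em522.starE (0, 0) (6 * (2 * R)) ∪
    Wf850.annF (y0 n) (4 * r : ℕ) (R : ℕ),
    (((hE.mono (Finset.subset_union_left.trans (Finset.subset_union_left.trans
      Finset.subset_union_left))).add (d2.mono (Finset.subset_union_right.trans
      (Finset.subset_union_left.trans Finset.subset_union_left)))).add
      (d3.mono (Finset.subset_union_right.trans Finset.subset_union_left))).add
      (d4.mono Finset.subset_union_right)⟩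

/-- integrability of the four exponentials and the moment inequality -/
theorem LL_mom {n r R : ℕ} (s K0 q : ℝ) {T1 T2 : Cfz → ℕ} (h : Maj n r R T1 T2) :
    ∫ z, exp (q * LL n r R s K0 T1 T2 z) ∂(nu hf) ≤
      (∫ z, exp (4 * q * EC n r R s z) ∂(nu hf)) +
      (∫ z, exp (4 * q * Real.log 2) ^ T1 z ∂(nu hf)) +
      (∫ z, exp (4 * q * Real.log 2) ^ T2 z ∂(nu hf)) +
      exp (4 * q * K0) *
        ∫ z, exp (4 * q * Real.log 2 * NN (y0 n) (4 * r : ℕ) (R : ℕ) z) ∂(nu hf) := by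
  obtain ⟨E, hE⟩ := EC_dep n r R s
  have d2 : DepF (Em522.starE (y0 n) (6 * (4 * r))) fun z => Real.log 2 * (T1 z : ℝ) :=
    h.d1.comp fun k : ℕ => Real.log 2 * (k : ℝ)
  have d3 : DepF (Em522.starE (0, 0) (6 * (2 * R))) fun z => Real.log 2 * (T2 z : ℝ) :=
    h.d2.comp fun k : ℕ => Real.log 2 * (k : ℝ)
  have d4 : DepF (Wf850.annF (y0 n) (4 * r : ℕ) (R : ℕ)) fun z =>
      Real.log 2 * (NN (y0 n) (4 * r : ℕ) (R : ℕ) z : ℝ) + K0 :=
    (NN_dep (y0 n) (4 * r : ℕ) (R : ℕ)).comp fun k : ℕ => Real.log 2 * (k : ℝ) + K0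
  have i1 := (hE.comp fun x => exp (4 * q * x)).integrable (fun _ => hf)
  have i2 := (d2.comp fun x => exp (4 * q * x)).integrable (fun _ => hf)
  have i3 := (d3.comp fun x => exp (4 * q * x)).integrable (fun _ => hf)
  have i4 := (d4.comp fun x => exp (4 * q * x)).integrable (fun _ => hf)
  refine (exp_four i1 i2 i3 i4).trans (le_of_eq ?_)
  congr 1
  · congr 1
    · congr 1
      refine integral_congr_ae (Filter.Eventually.of_forall fun z => ?_)
      show exp (4 * q * (Real.log 2 * (T1 z : ℝ))) = exp (4 * q * Real.log 2) ^ T1 z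
      rw [← exp_nat_mul]; congr 1; ring
    · refine integral_congr_ae (Filter.Eventually.of_forall fun z => ?_)
      show exp (4 * q * (Real.log 2 * (T2 z : ℝ))) = exp (4 * q * Real.log 2) ^ T2 z
      rw [← exp_nat_mul]; congr 1; ring
  · rw [← integral_const_mul]
    refine integral_congr_ae (Filter.Eventually.of_forall fun z => ?_)
    show exp (4 * q * (Real.log 2 * (NN (y0 n) (4 * r : ℕ) (R : ℕ) z : ℝ) + K0)) =
      exp (4 * q * K0) * exp (4 * q * Real.log 2 * (NN (y0 n) (4 * r : ℕ) (R : ℕ) z : ℝ))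
    rw [← exp_add]; congr 1; ring

/-- pointwise bound by the envelope -/
theorem LL_pt {n r R : ℕ} (hg : Geo n r R) {s c : ℝ} (hs : s = 1 ∨ s = -1)
    (hlin : |Lin aC (kC r R) - √3 * π * VV (Nat.log 2 n)| ≤ c) {T1 T2 : Cfz → ℕ}
    (h : Maj n r R T1 T2) {z : Cfz} {u : Face} {S : Set (Finset Face)} (hu : sd (0, 0) u.1 ≤ 2)
    (hS : S ⊆ Lps z) (hL : ∀ A ∈ Loc (kC r R) (VC n r R) z, A ∈ S) :
    |∏ᶠ A ∈ S, fx (s • mu n r R) u A| ≤
      exp (-(s * (√3 * π * VV (Nat.log 2 n)))) * exp (LL n r R s c T1 T2 z) := by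
  refine (hg.pt_bound hs hu hS hL).trans ?_
  have hl2 : 0 < Real.log 2 := Real.log_pos (by norm_num)
  have e1 : (2 : ℝ) ^ (Fs n r R z).ncard ≤ exp (Real.log 2 * (T1 z : ℝ) +
      Real.log 2 * (T2 z : ℝ) + Real.log 2 * (NN (y0 n) (4 * r : ℕ) (R : ℕ) z : ℝ)) := by
    have h3 := hg.Fs_card z
    have h4 := h.b1 z
    have h5 := h.b2 z
    have h6 : ((Fs n r R z).ncard : ℝ) ≤ T1 z + T2 z + NN (y0 n) (4 * r : ℕ) (R : ℕ) z := by
      exact_mod_cast h3.trans (Nat.add_le_add_right (Nat.add_le_add h4 h5) _)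
    have h7 : (2 : ℝ) ^ (Fs n r R z).ncard = exp (Real.log 2 * ((Fs n r R z).ncard : ℝ)) := by
      rw [mul_comm, exp_nat_mul, exp_log (by norm_num)]
    rw [h7, ← mul_add, ← mul_add]
    exact exp_le_exp.2 (mul_le_mul_of_nonneg_left h6 hl2.le)
  have e2 : -(s * Lin aC (kC r R)) ≤ -(s * (√3 * π * VV (Nat.log 2 n))) + c := by
    have h3 := abs_le.1 hlin
    rcases hs with rfl | rfl
    · linarith [h3.1]
    · linarith [h3.2]
  calc exp (-(s * Lin aC (kC r R)) + EC n r R s z) * 2 ^ (Fs n r R z).ncard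
      ≤ exp (-(s * (√3 * π * VV (Nat.log 2 n))) + c + EC n r R s z) *
          exp (Real.log 2 * (T1 z : ℝ) +
            Real.log 2 * (T2 z : ℝ) + Real.log 2 * (NN (y0 n) (4 * r : ℕ) (R : ℕ) z : ℝ)) := by
        refine mul_le_mul (exp_le_exp.2 ?_) e1 (pow_nonneg (by norm_num) _) (exp_pos _).le
        linarith
    _ = _ := by
        rw [← exp_add, ← exp_add]
        congr 1
        unfold LL
        ring

/-- arithmetic of the moments -/
theorem mom_arith {G G' C1 C2 C3 q c D x1 x2 x3 x4 : ℝ} {Rr : ℝ} (hG : 1 ≤ G) (hG' : 1 ≤ G')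
    (hC1 : 1 ≤ C1)
    (hC2 : 1 ≤ C2) (hC3 : 1 ≤ C3) (hq : 0 < q) (hc : 0 ≤ c) (hRr : 1 ≤ Rr) (hD : D = Real.log Rr)
    (h1 : x1 ≤ G + G') (h2 : x2 ≤ C1) (h3 : x3 ≤ C2) (h4 : x4 ≤ C3 * Rr ^ C3) :
    x1 + x2 + x3 + exp (4 * q * (c * (1 + D))) * x4 ≤
      max (G + G' + C1 + C2 + exp (4 * q * c) * C3) (4 * q * c + C3) *
        Rr ^ (max (G + G' + C1 + C2 + exp (4 * q * c) * C3) (4 * q * c + C3)) := by
  have hRr0 : 0 < Rr := by linarith
  have e7 : exp (4 * q * (c * (1 + D))) = exp (4 * q * c) * Rr ^ (4 * q * c) := by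
    rw [rpow_def_of_pos hRr0, ← exp_add, hD]
    congr 1; ring
  set A : ℝ := G + G' + C1 + C2 + exp (4 * q * c) * C3 with hA
  set B : ℝ := 4 * q * c + C3 with hB
  have hqc : 0 ≤ 4 * q * c := by positivity
  have hp : 1 ≤ Rr ^ B := one_le_rpow hRr (by linarith)
  have hE := exp_pos (4 * q * c)
  have m4 : exp (4 * q * (c * (1 + D))) * x4 ≤ exp (4 * q * c) * C3 * Rr ^ B := by
    rw [e7, hB, rpow_add hRr0]
    have h5 : exp (4 * q * c) * Rr ^ (4 * q * c) * x4 ≤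
        exp (4 * q * c) * Rr ^ (4 * q * c) * (C3 * Rr ^ C3) :=
      mul_le_mul_of_nonneg_left h4 (mul_nonneg hE.le (rpow_nonneg hRr0.le _))
    refine h5.trans (le_of_eq ?_)
    ring
  have hEC : 0 < exp (4 * q * c) * C3 := mul_pos hE (by linarith)
  have hA0 : 0 ≤ A := by rw [hA]; linarith
  have k1 : x1 + x2 + x3 + exp (4 * q * (c * (1 + D))) * x4 ≤ A * Rr ^ B := by
    have k2 : (G + G' + C1 + C2) * 1 ≤ (G + G' + C1 + C2) * Rr ^ B :=
      mul_le_mul_of_nonneg_left hp (by linarith)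
    have k3 : A * Rr ^ B = (G + G' + C1 + C2) * Rr ^ B + exp (4 * q * c) * C3 * Rr ^ B := by
      rw [hA]; ring
    rw [k3]
    linarith
  refine k1.trans ?_
  refine mul_le_mul (le_max_left _ _) (rpow_le_rpow_of_exponent_le hRr (le_max_right _ _))
    (rpow_nonneg hRr0.le _) ?_
  exact hA0.trans (le_max_left _ _)

/-- **the envelope** -/
theorem env {q : ℝ} (hq : 0 < q) : ∃ C : ℝ, 1 ≤ C ∧ ∀ n r R : ℕ, Geo n r R → ∀ s : ℝ,
    (s = 1 ∨ s = -1) → ∃ (L : Cfz → ℝ) (T : Finset Edge), DepF T L ∧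
      ∫ z, exp (q * L z) ∂(nu hf) ≤ C * ((R : ℝ) / r) ^ C ∧
      ∀ (z : Cfz) (u : Face) (S : Set (Finset Face)), sd (0, 0) u.1 ≤ 2 → S ⊆ Lps z →
        (∀ A ∈ Loc (kC r R) (VC n r R) z, A ∈ S) →
        |∏ᶠ A ∈ S, fx (s • mu n r R) u A| ≤
          exp (-(s * (√3 * π * VV (Nat.log 2 n)))) * exp (L z) := by
  obtain ⟨c, hc, hlin⟩ := lin_C
  -- moments
  have hlm : ∀ s : ℝ, ∃ G : ℝ, 1 ≤ G ∧ ∀ n r R : ℕ, Geo n r R →
      ∫ z, exp (4 * q * EC n r R s z) ∂(nu hf) ≤ G := by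
    intro s
    obtain ⟨G, hG, h⟩ := Hd109.lin_moments (ι := Bool) (C := 1 / 8) (by norm_num)
      (fun b => √3 * (s * aC b)) (fun b => 12 * (s * aC b) ^ 2) (4 * q) (by linarith)
      (fun b => mul_nonneg (by norm_num) (sq_nonneg _))
    exact ⟨G, hG, fun n r R hg => h (kC r R) (VC n r R) (fun b => uf (VC n r R b)) hg.dens⟩
  obtain ⟨G1, hG1, h1⟩ := hlm 1
  obtain ⟨G2, hG2, h2⟩ := hlm (-1)
  have hl2 : 0 < Real.log 2 := Real.log_pos (by norm_num)
  have hql : 0 ≤ 4 * q * Real.log 2 := by positivity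
  obtain ⟨C1, hC1, hT1⟩ := T_mom (exp (4 * q * Real.log 2)) (one_le_exp hql) 2
  obtain ⟨C2, hC2, hT2⟩ := T_mom (exp (4 * q * Real.log 2)) (one_le_exp hql) 8
  obtain ⟨C3, hC3, hN⟩ := Lc522.apriori_pow (4 * q * Real.log 2) hql
  refine ⟨max (G1 + G2 + C1 + C2 + exp (4 * q * c) * C3) (4 * q * c + C3),
    le_max_of_le_left ?_, fun n r R hg s hs => ?_⟩
  · have := mul_pos (exp_pos (4 * q * c)) (by linarith : (0 : ℝ) < C3)
    linarith
  have g1 := hg.r3
  have g2 := hg.rn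
  have g3 := hg.nR
  obtain ⟨T1, t1, t2, t3⟩ := hT1 (y0 n) (4 * r) (by omega)
  obtain ⟨T2, u1, u2, u3⟩ := hT2 (0, 0) (2 * R) (by omega)
  have hM : Maj n r R T1 T2 := ⟨t1, u1, t3, u3⟩
  obtain ⟨T, hT⟩ := LL_dep s (c * (1 + Real.log ((R : ℝ) / r))) hM
  refine ⟨LL n r R s (c * (1 + Real.log ((R : ℝ) / r))) T1 T2, T, hT, ?_,
    fun z u S hu hS hL => LL_pt hg hs (hlin n r R hg) hM hu hS hL⟩
  refine (LL_mom s _ q hM).trans ?_
  refine mom_arith hG1 hG2 hC1 hC2 hC3 hq hc hg.ratio rfl ?_ t2 u2 ?_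
  · rcases hs with rfl | rfl
    · exact (h1 n r R hg).trans (by linarith)
    · exact (h2 n r R hg).trans (by linarith)
  · refine (hN (y0 n) (4 * r) R (by omega) (by omega)).trans ?_
    have hr0 : (0 : ℝ) < r := by exact_mod_cast (by omega : 0 < r)
    have hR0 : (0 : ℝ) ≤ R := Nat.cast_nonneg _
    refine mul_le_mul_of_nonneg_left ?_ (by linarith)
    apply rpow_le_rpow (div_nonneg hR0 (Nat.cast_nonneg _)) _ (by linarith)
    push_cast
    exact div_le_div_of_nonneg_left hR0 hr0 (by linarith)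

/-- **the envelope on an event** -/
theorem env_ind {δ : ℝ} (h0 : 0 < δ) (h1 : δ < 1) : ∃ C : ℝ, 1 ≤ C ∧ ∀ n r R : ℕ, Geo n r R →
    ∀ s : ℝ, (s = 1 ∨ s = -1) → ∃ (L : Cfz → ℝ) (T : Finset Edge), DepF T L ∧
      (∀ A : Set Cfz, MeasurableSet A → ∫ z, A.indicator (fun z => exp (L z)) z ∂(nu hf) ≤
        C * ((R : ℝ) / r) ^ C * (nu hf).real A ^ (1 - δ)) ∧
      ∀ (z : Cfz) (u : Face) (S : Set (Finset Face)), sd (0, 0) u.1 ≤ 2 → S ⊆ Lps z →
        (∀ A ∈ Loc (kC r R) (VC n r R) z, A ∈ S) →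
        |∏ᶠ A ∈ S, fx (s • mu n r R) u A| ≤
          exp (-(s * (√3 * π * VV (Nat.log 2 n)))) * exp (L z) := by
  obtain ⟨C, hC, h⟩ := env (q := 1 / δ) (by positivity)
  refine ⟨C, hC, fun n r R hg s hs => ?_⟩
  obtain ⟨L, T, hd, hm, hb⟩ := h n r R hg s hs
  refine ⟨L, T, hd, fun A hA => ?_, hb⟩
  refine (ind_hoelder h0 h1 hA hd.measurable
    ((hd.comp fun x => exp (1 / δ * x)).integrable (fun _ => hf))).trans ?_
  rw [mul_comm]
  refine mul_le_mul_of_nonneg_right ?_ (rpow_nonneg measureReal_nonneg _)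
  have hRr := hg.ratio
  have h2 : 1 ≤ C * ((R : ℝ) / r) ^ C := by
    have := one_le_rpow hRr (by linarith : (0 : ℝ) ≤ C)
    nlinarith
  calc (∫ z, exp (1 / δ * L z) ∂(nu hf)) ^ δ ≤ (C * ((R : ℝ) / r) ^ C) ^ δ :=
        rpow_le_rpow (integral_nonneg fun z => (exp_pos _).le) hm h0.le
    _ ≤ (C * ((R : ℝ) / r) ^ C) ^ (1 : ℝ) := rpow_le_rpow_of_exponent_le h2 h1.le
    _ = _ := rpow_one _

end Crest.Agent.R158.Uc31
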