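import Crest.Agent.R158.Uc4_31

/-!
# Row 158, Block A4 (helper31), C bounds, file 5: the envelope for the negative charge

For `s = -1` a loop around the box without ring mass has the factor `0`, so the product has an
envelope with **constant** moments.

* `env_neg`     : `|∏ᶠ A ∈ S, fx (-mu) u A| ≤ exp (Lin aC (kC r R)) exp (L z)`, `∫ exp (q L) ≤ C`
* `nab_ind_neg` : `∫ 1_A |nab (mC n r R (-1) u)| ≤ C exp (Lin aC (kC r R)) P(A) ^ (1 - δ)`
-/

set_option autoImplicit false

noncomputable section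

namespace Crest.Agent.R158.Uc31

open Real Function MeasureTheory
open Crest.Agent.R161.Tas682 (sd)
open Crest.Agent.R161.Geo729 Crest.Agent.R161.Dual374
open Crest.Agent.R158.It200 (Cfz Corner fc i1 i2 fst_i1 fst_i2)
open Crest.Agent.R158.Wf850 (Lps Face BF mem_BF cv sd_self NN)
open Crest.Agent.R158.Vx107 (Fw Rest rest_sub AllFin Ntr tot_add tot_single tot_smul mass_smul
  fin_supp)
open Crest.Agent.R158.Vn841 (fx Bs nab RX nab_cases Fw_base)
open Crest.Agent.R158.Cn109 (VV DepF)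
open Crest.Agent.R158.Rs689 (nu hf)
open Crest.Agent.R158.Gx31
open Crest.Agent.R158.Lc522 (nnF mem_nnF nnF_card)

theorem Fw_neg_150 : Fw (-(5 * π / 6)) = 0 := by
  unfold Vx107.Fw
  rw [show π / 3 + -(5 * π / 6) = -(π / 2) by ring, cos_neg, cos_pi_div_two, mul_zero]

/-- a free loop with a non trivial weight is a crossing loop or has the mass `5π/6` -/
theorem Geo.Fs_cases {n r R : ℕ} (h : Geo n r R) {z : Cfz} {A : Finset Face}
    (hA : A ∈ Fs n r R z) : A ∈ CR (y0 n) (4 * r) 2 z ∪ CR (0, 0) (2 * R) 8 z ∨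
      Vx107.mass (mu n r R) A = 5 * π / 6 := by
  have hR := h.R1
  rcases h.Fs_sub z hA with hc | hc
  · exact Or.inl hc
  · by_cases hw : Cn109.dia A + 1 < 2 ^ kC r R false
    · right
      have hc' := mem_nnF.1 hc
      have e1 : Vx107.mass (ud (rg (0, 0) R)) A = 0 := mass_ud_zero fun v hv hvA =>
        hA.2.1 (mem_Loc'.2 ⟨hA.1, false, ⟨v, hv, hvA⟩, hw⟩)
      rw [mass_mu, e1, mass_ud_one (Vb_ne n r) fun v hv => hc'.2.1 hv]
      ring
    · -- a big loop: crossing
      left; right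
      push Not at hw
      have hc' := mem_nnF.1 hc
      have h3 := lt_two_pow_log (R / 2)
      have h4 : 2 ^ Nat.log 2 (R / 2) ≤ Cn109.dia A + 1 := hw
      refine ⟨hA.1, ?_, by omega⟩
      obtain ⟨i1, i2, i3⟩ := h.ints
      have hy : ((y0 n, false) : Face) ∈ BF (y0 n) (4 * r : ℕ) := by
        rw [mem_BF, sd_self]; positivity
      refine ⟨⟨(y0 n, false), ?_, hc'.2.1 hy⟩, ?_⟩
      · rw [mem_BF]
        show sd (0, 0) (y0 n) ≤ _
        rw [sd_y0]
        push_cast
        linarith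
      · refine ⟨(((-(2 * R : ℕ) : ℤ), 0), false), ?_, fun h' => ?_⟩
        · rw [mem_BF]
          unfold sd
          simp
        · have h5 := hc'.1 h'
          rw [mem_BF] at h5
          unfold sd y0 at h5
          simp only [sub_self, abs_zero] at h5
          have h6 := (le_max_left _ _).trans h5
          rw [abs_le] at h6
          push_cast at h6
          linarith [h6.1]

/-- **pointwise bound, negative charge** -/
theorem Geo.pt_neg {n r R : ℕ} (h : Geo n r R) {z : Cfz} {u : Face} (hu : sd (0, 0) u.1 ≤ 2)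
    {S : Set (Finset Face)} (hS : S ⊆ Lps z) (hL : ∀ A ∈ Loc (kC r R) (VC n r R) z, A ∈ S) :
    |∏ᶠ A ∈ S, fx ((-1 : ℝ) • mu n r R) u A| ≤
      exp (Lin aC (kC r R) + EC n r R (-1) z) *
        2 ^ ((CR (y0 n) (4 * r) 2 z).ncard + (CR (0, 0) (2 * R) 8 z).ncard) := by
  have hR := h.R1
  have hsys := h.sys hu (-1) (-(-1 * π))
  have hb : Bs (-(-1 * π)) := bs_of (Or.inr rfl)
  have hm : Ntr ((-1 : ℝ) • mu n r R + Finsupp.single u (-(-1 * π))) := by
    unfold Ntr
    rw [tot_add, tot_smul, tot_mu hR, tot_single]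
    ring
  have e1 : fx ((-1 : ℝ) • mu n r R) u =
      fun A => Fw (Vx107.mass ((-1 : ℝ) • mu n r R + Finsupp.single u (-(-1 * π))) A) := by
    funext A
    exact (Fw_base hb _ _ _).symm
  have hfin : (S ∩ mulSupport (fx ((-1 : ℝ) • mu n r R) u)).Finite := by
    rw [e1]; exact fin_supp hm hS
  have h1 := GU hsys (z := z) hL hfin (fun A _ => by rw [e1])
  have e2 : Lin (fun b => -1 * aC b) (kC r R) = -Lin aC (kC r R) := by
    unfold Lin
    rw [← mul_neg, ← Finset.sum_neg_distrib]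
    congr 1
    exact Finset.sum_congr rfl fun b _ => by ring
  rw [e2, neg_neg] at h1
  refine h1.trans (mul_le_mul_of_nonneg_left ?_ (exp_pos _).le)
  set S' := S \ (Loc (kC r R) (VC n r R) z : Set (Finset Face)) with hS'
  by_cases hz : ∃ A ∈ S', Vx107.mass (mu n r R) A = 5 * π / 6
  · obtain ⟨A, hA, hmA⟩ := hz
    have hzero : fx ((-1 : ℝ) • mu n r R) u A = 0 := by
      rw [← abs_eq_zero, fx_abs, mass_smul, hmA, neg_one_mul, Fw_neg_150, abs_zero]
    have hfin' : (S' ∩ mulSupport (fx ((-1 : ℝ) • mu n r R) u)).Finite :=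
      hfin.subset (Set.inter_subset_inter_left _ Set.sdiff_subset)
    have : ∏ᶠ A ∈ S', fx ((-1 : ℝ) • mu n r R) u A = 0 := by
      rw [finprod_mem_eq_prod _ hfin']
      refine Finset.prod_eq_zero (i := A) ?_ hzero
      rw [Set.Finite.mem_toFinset]
      refine ⟨hA, ?_⟩
      rw [mem_mulSupport, hzero]
      norm_num
    rw [this, abs_zero]
    exact pow_nonneg (by norm_num) _
  · push Not at hz
    have hfinC : (CR (y0 n) (4 * r) 2 z ∪ CR (0, 0) (2 * R) 8 z).Finite :=
      (CR_fin _ _ _ z).union (CR_fin _ _ _ z)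
    refine (free_le' hfinC (fun A hA hAF => ?_) fun A _ => fx_abs_le_two _ _ _).trans ?_
    · rw [fx_abs, mass_smul]
      have h3 : Vx107.mass (mu n r R) A = 0 ∨ Vx107.mass (mu n r R) A = π := by
        by_contra hcon
        push Not at hcon
        rcases h.Fs_cases ⟨hS hA.1, fun h' => hA.2 h', hcon.1, hcon.2⟩ with h4 | h4
        · exact hAF h4
        · exact hz A hA h4
      rcases h3 with h3 | h3
      · rw [h3, mul_zero, Vx107.Fw_zero, abs_one]
      · rw [h3]
        have := Vx107.Fw_sub_pi 0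
        rw [zero_sub, Vx107.Fw_zero] at this
        rw [neg_one_mul, this, abs_neg, abs_one]
    · exact pow_le_pow_right₀ (by norm_num) (Set.ncard_union_le _ _)

/-- the exponent of the envelope -/
def LN (n r R : ℕ) (T1 T2 : Cfz → ℕ) (z : Cfz) : ℝ :=
  EC n r R (-1) z + Real.log 2 * (T1 z : ℝ) + Real.log 2 * (T2 z : ℝ)

theorem LN_dep {n r R : ℕ} {T1 T2 : Cfz → ℕ} (h : Maj n r R T1 T2) :
    ∃ T : Finset Edge, DepF T (LN n r R T1 T2) := by
  classical
  obtain ⟨E, hE⟩ := EC_dep n r R (-1)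
  have d2 : DepF (Em522.starE (y0 n) (6 * (4 * r))) fun z => Real.log 2 * (T1 z : ℝ) :=
    h.d1.comp fun k : ℕ => Real.log 2 * (k : ℝ)
  have d3 : DepF (Em522.starE (0, 0) (6 * (2 * R))) fun z => Real.log 2 * (T2 z : ℝ) :=
    h.d2.comp fun k : ℕ => Real.log 2 * (k : ℝ)
  exact ⟨E ∪ Em522.starE (y0 n) (6 * (4 * r)) ∪ Em522.starE (0, 0) (6 * (2 * R)),
    ((hE.mono (Finset.subset_union_left.trans Finset.subset_union_left)).add
      (d2.mono (Finset.subset_union_right.trans Finset.subset_union_left))).add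
      (d3.mono Finset.subset_union_right)⟩

/-- **the envelope, negative charge: constant moments** -/
theorem env_neg {q : ℝ} (hq : 0 < q) : ∃ C : ℝ, 1 ≤ C ∧ ∀ n r R : ℕ, Geo n r R →
    ∃ (L : Cfz → ℝ) (T : Finset Edge), DepF T L ∧ ∫ z, exp (q * L z) ∂(nu hf) ≤ C ∧
      ∀ (z : Cfz) (u : Face) (S : Set (Finset Face)), sd (0, 0) u.1 ≤ 2 → S ⊆ Lps z →
        (∀ A ∈ Loc (kC r R) (VC n r R) z, A ∈ S) →
        |∏ᶠ A ∈ S, fx ((-1 : ℝ) • mu n r R) u A| ≤ exp (Lin aC (kC r R)) * exp (L z) := by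
  obtain ⟨G, hG, h1⟩ := Hd109.lin_moments (ι := Bool) (C := 1 / 8) (by norm_num)
    (fun b => √3 * (-1 * aC b)) (fun b => 12 * (-1 * aC b) ^ 2) (4 * q) (by linarith)
    (fun b => mul_nonneg (by norm_num) (sq_nonneg _))
  have hl2 : 0 < Real.log 2 := Real.log_pos (by norm_num)
  have hql : 0 ≤ 4 * q * Real.log 2 := by positivity
  obtain ⟨C1, hC1, hT1⟩ := T_mom (exp (4 * q * Real.log 2)) (one_le_exp hql) 2
  obtain ⟨C2, hC2, hT2⟩ := T_mom (exp (4 * q * Real.log 2)) (one_le_exp hql) 8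
  refine ⟨G + C1 + C2 + 1, by linarith, fun n r R hg => ?_⟩
  have g1 := hg.r3
  have g2 := hg.rn
  have g3 := hg.nR
  obtain ⟨T1, t1, t2, t3⟩ := hT1 (y0 n) (4 * r) (by omega)
  obtain ⟨T2, u1, u2, u3⟩ := hT2 (0, 0) (2 * R) (by omega)
  have hM : Maj n r R T1 T2 := ⟨t1, u1, t3, u3⟩
  obtain ⟨T, hT⟩ := LN_dep hM
  refine ⟨LN n r R T1 T2, T, hT, ?_, fun z u S hu hS hL => ?_⟩
  · obtain ⟨E, hE⟩ := EC_dep n r R (-1)
    have d2 : DepF (Em522.starE (y0 n) (6 * (4 * r))) fun z => Real.log 2 * (T1 z : ℝ) :=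
      hM.d1.comp fun k : ℕ => Real.log 2 * (k : ℝ)
    have d3 : DepF (Em522.starE (0, 0) (6 * (2 * R))) fun z => Real.log 2 * (T2 z : ℝ) :=
      hM.d2.comp fun k : ℕ => Real.log 2 * (k : ℝ)
    have i1 := (hE.comp fun x => exp (4 * q * x)).integrable (fun _ => hf)
    have i2 := (d2.comp fun x => exp (4 * q * x)).integrable (fun _ => hf)
    have i3 := (d3.comp fun x => exp (4 * q * x)).integrable (fun _ => hf)
    have i4 : Integrable (fun z : Cfz => exp (4 * q * (fun _ : Cfz => (0 : ℝ)) z)) (nu hf) :=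
      integrable_const _
    have h4 := exp_four i1 i2 i3 i4
    have e0 : ∀ z, exp (q * LN n r R T1 T2 z) = exp (q * (EC n r R (-1) z +
        Real.log 2 * (T1 z : ℝ) + Real.log 2 * (T2 z : ℝ) + (fun _ : Cfz => (0 : ℝ)) z)) := by
      intro z
      congr 2
      show LN n r R T1 T2 z = _ + 0
      rw [add_zero]
      rfl
    simp only [e0]
    refine h4.trans ?_
    have m1 : ∫ z, exp (4 * q * EC n r R (-1) z) ∂(nu hf) ≤ G :=
      h1 (kC r R) (VC n r R) (fun b => uf (VC n r R b)) hg.dens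
    have m2 : ∫ z, exp (4 * q * (Real.log 2 * (T1 z : ℝ))) ∂(nu hf) ≤ C1 := by
      refine le_trans (le_of_eq ?_) t2
      refine integral_congr_ae (Filter.Eventually.of_forall fun z => ?_)
      show exp (4 * q * (Real.log 2 * (T1 z : ℝ))) = exp (4 * q * Real.log 2) ^ T1 z
      rw [← exp_nat_mul]; congr 1; ring
    have m3 : ∫ z, exp (4 * q * (Real.log 2 * (T2 z : ℝ))) ∂(nu hf) ≤ C2 := by
      refine le_trans (le_of_eq ?_) u2
      refine integral_congr_ae (Filter.Eventually.of_forall fun z => ?_)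
      show exp (4 * q * (Real.log 2 * (T2 z : ℝ))) = exp (4 * q * Real.log 2) ^ T2 z
      rw [← exp_nat_mul]; congr 1; ring
    have m4 : ∫ z : Cfz, exp (4 * q * (fun _ : Cfz => (0 : ℝ)) z) ∂(nu hf) = 1 := by
      simp
    rw [m4]
    linarith
  · refine (hg.pt_neg hu hS hL).trans ?_
    have h3 := hM.b1 z
    have h5 := hM.b2 z
    have h6 : (((CR (y0 n) (4 * r) 2 z).ncard + (CR (0, 0) (2 * R) 8 z).ncard : ℕ) : ℝ) ≤
        T1 z + T2 z := by exact_mod_cast Nat.add_le_add h3 h5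
    have h7 : (2 : ℝ) ^ ((CR (y0 n) (4 * r) 2 z).ncard + (CR (0, 0) (2 * R) 8 z).ncard) ≤
        exp (Real.log 2 * (T1 z : ℝ) + Real.log 2 * (T2 z : ℝ)) := by
      have h8 : (2 : ℝ) ^ ((CR (y0 n) (4 * r) 2 z).ncard + (CR (0, 0) (2 * R) 8 z).ncard) =
          exp (Real.log 2 * (((CR (y0 n) (4 * r) 2 z).ncard +
            (CR (0, 0) (2 * R) 8 z).ncard : ℕ) : ℝ)) := by
        rw [mul_comm (Real.log 2), exp_nat_mul, exp_log (by norm_num)]
      rw [h8, ← mul_add]
      exact exp_le_exp.2 (mul_le_mul_of_nonneg_left h6 hl2.le)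
    refine (mul_le_mul_of_nonneg_left h7 (exp_pos _).le).trans (le_of_eq ?_)
    rw [← exp_add, ← exp_add]
    congr 1
    unfold LN
    ring

/-- **`nab` on an event, negative charge** -/
theorem nab_ind_neg {δ : ℝ} (h0 : 0 < δ) (h1 : δ < 1) : ∃ C : ℝ, 1 ≤ C ∧ ∀ n r R : ℕ,
    Geo n r R → ∀ (e : Edge) (u : P2), src e = (0, 0) → (u = src e ∨ u = tgt e) →
      ∀ A : Set Cfz, MeasurableSet A →
      ∫ z, A.indicator (fun z => |nab (mC n r R (-1) u) z e|) z ∂(nu hf) ≤
        C * exp (Lin aC (kC r R)) * (nu hf).real A ^ (1 - δ) := by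
  obtain ⟨C, hC, h⟩ := env_neg (q := 1 / δ) (by positivity)
  refine ⟨4 * C, by linarith, fun n r R hg e u he hu A hA => ?_⟩
  obtain ⟨L, T, hd, hm, hb⟩ := h n r R hg
  set W := exp (Lin aC (kC r R)) with hWd
  have hW : 0 < W := exp_pos _
  -- the pointwise bound
  have hu' : ((u, false) : Face) = cv (i1 e) ∨ ((u, false) : Face) = cv (i2 e) := by
    rcases hu with rfl | rfl
    · left; unfold cv; rw [fst_i1]
    · right; unfold cv; rw [fst_i2]
  have hu2 : sd (0, 0) ((u, false) : Face).1 ≤ 2 := by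
    show sd (0, 0) u ≤ 2
    rcases hu with rfl | rfl
    · rw [he, sd_self]; norm_num
    · have := Cpl963.sd_src_tgt e
      rw [he] at this
      linarith
  have hpt : ∀ z, AllFin z → |nab (mC n r R (-1) u) z e| ≤ 4 * W * exp (L z) := by
    intro z hz
    have hRX : |RX ((-1 : ℝ) • mu n r R) (u, false) z e| ≤ W * exp (L z) := by
      unfold RX
      exact hb z (u, false) (Rest z e) hu2 (rest_sub z e) fun A hA => hg.loc_Rest he hA
    have key : ∀ a b x : ℝ, |a| ≤ 4 → |b| ≤ 1 → |x| ≤ W * exp (L z) →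
        |a * b * x| ≤ 4 * W * exp (L z) := by
      intro a b x ha hb hx
      rw [abs_mul, abs_mul]
      have h1 : |a| * |b| ≤ 4 * 1 := mul_le_mul ha hb (abs_nonneg _) (by norm_num)
      calc |a| * |b| * |x| ≤ 4 * 1 * (W * exp (L z)) :=
            mul_le_mul h1 hx (abs_nonneg _) (by norm_num)
        _ = _ := by ring
    have h4 : ∀ t : ℝ, |4 * sin t| ≤ 4 := fun t => by
      rw [abs_mul, abs_of_pos (by norm_num : (0 : ℝ) < 4)]
      linarith [abs_sin_le_one t]
    have h4' : ∀ t : ℝ, |-4 * sin t| ≤ 4 := fun t => by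
      rw [abs_mul, abs_neg, abs_of_pos (by norm_num : (0 : ℝ) < 4)]
      linarith [abs_sin_le_one t]
    obtain ⟨z', -, -, -, -, hc⟩ := nab_cases (hz (i1 e)) (hz (i2 e)) (bs_of (Or.inr rfl))
      (ntr_mC hg (-1) u) hu'
    unfold mC
    rcases hc with ⟨-, hc⟩ | ⟨-, hc⟩ | ⟨-, hc⟩
    · rw [hc]; exact key _ _ _ (h4 _) (abs_sin_le_one _) hRX
    · rw [hc]; exact key _ _ _ (h4' _) (abs_sin_le_one _) hRX
    · rw [hc]; exact key _ _ _ (h4' _) (abs_sin_le_one _) hRX
  have hi : Integrable (fun z => 4 * W * A.indicator (fun z => exp (L z)) z) (nu hf) :=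
    (((hd.comp fun x => exp x).integrable (fun _ => hf)).indicator hA).const_mul _
  have hC1 : (∫ z, exp (1 / δ * L z) ∂(nu hf)) ^ δ ≤ C := by
    calc (∫ z, exp (1 / δ * L z) ∂(nu hf)) ^ δ ≤ C ^ δ :=
          rpow_le_rpow (integral_nonneg fun z => (exp_pos _).le) hm h0.le
      _ ≤ C ^ (1 : ℝ) := rpow_le_rpow_of_exponent_le hC h1.le
      _ = C := rpow_one _
  calc ∫ z, A.indicator (fun z => |nab (mC n r R (-1) u) z e|) z ∂(nu hf)
      ≤ ∫ z, 4 * W * A.indicator (fun z => exp (L z)) z ∂(nu hf) := by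
        refine integral_mono_ae ((nab_int hg (-1) u e).abs.indicator hA) hi
          (Vx107.ae_fin.mono fun z hz => ?_)
        by_cases hzA : z ∈ A
        · simp only [Set.indicator_of_mem hzA]; exact hpt z hz
        · simp only [Set.indicator_of_notMem hzA]; simp
    _ = 4 * W * ∫ z, A.indicator (fun z => exp (L z)) z ∂(nu hf) := integral_const_mul _ _
    _ ≤ 4 * W * ((nu hf).real A ^ (1 - δ) * (∫ z, exp (1 / δ * L z) ∂(nu hf)) ^ δ) :=
        mul_le_mul_of_nonneg_left (ind_hoelder h0 h1 hA hd.measurable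
          ((hd.comp fun x => exp (1 / δ * x)).integrable (fun _ => hf))) (by positivity)
    _ ≤ 4 * W * ((nu hf).real A ^ (1 - δ) * C) := by
        refine mul_le_mul_of_nonneg_left ?_ (by positivity)
        exact mul_le_mul_of_nonneg_left hC1 (rpow_nonneg measureReal_nonneg _)
    _ = _ := by ring

end Crest.Agent.R158.Uc31
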