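import Crest.Agent.R158.Uc7_31
import Crest.Agent.R158.Sc4_689
import Crest.Agent.R158.Bg8_612

/-!
# Row 158, Block A4 (helper31): identity C is closed

* `sc_all (hLaw : Bs410.Law3) : SC p2 p4`
-/

set_option autoImplicit false

noncomputable section

namespace Crest.Agent.R158.Uc31

/-- **`SC`**, unconditional up to the law of the crossing clusters -/
theorem sc_all (hLaw : Bs410.Law3) : Ax107.SC Ax107.p2 Ax107.p4 :=
  sc_final hLaw Sc689.qm2 (B612.sb_law hLaw)

end Crest.Agent.R158.Uc31
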