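import Crest.Agent.R158.Gx3_31
import Crest.Agent.R158.Vx7_107
import Crest.Agent.R158.Ax2_107
import Crest.Agent.R158.Lc5_522
import Crest.Agent.R158.Bk11_430

/-!
# R158, Block A4, leaf D (helper107), file 1: UB4, the left side

* `RingW C0 R w` : `w` is a probability density `≤ C0 / R²` on the ring `R / 2 ≤ sd ≤ 2 R`
* `cg a w g = a w - a δ_g` : the charges of leaf D
* `ab_pos`, `ab_neg` : pointwise bounds of `W (cg (± 2π/3) w g)`
* `int_nab_le` : charges far from `e` : `|∫ nab m e| ≤ 2 ∫ 1_{A4} |W m|`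
-/

set_option autoImplicit false

noncomputable section

namespace Crest.Agent.R158.Ud107

open Real Function MeasureTheory
open Crest.Agent.R161.Tas682 (sd)
open Crest.Agent.R161.Geo729
open Crest.Agent.R158.It200 (Cfz Corner fc)
open Crest.Agent.R158.Wf850 (Lps Face BF mem_BF Splits BF_mono sd_self sd_tri sd_symm' NN NN_dep
  annF)
open Crest.Agent.R158.Vx107 (Fw Sw Ntr W mass tot nab op cl mass_add mass_neg mass_smul tot_add
  tot_neg tot_smul AllFin fin_supp abs_Fw_le Fw_zero)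
open Crest.Agent.R158.Cn109 (VV DepF dia)
open Crest.Agent.R158.Hd109 (Dens Err)
open Crest.Agent.R158.Gx31 (Sys Loc Lin CR CR_fin shr)
open Crest.Agent.R158.Rs689 (nu hf Dep)
open Crest.Agent.R158.Em522 (starE)
open Crest.Agent.R158.Lc522 (Sh shE nnF mem_nnF nnF_card)

local notation "μh" => nu Crest.Agent.R158.Rs689.hf

/-! ### the gradient -/

theorem A4_flip {e : Edge} {N : ℤ} {z : Cfz} : It200.flip z e ∈ Sp580.A4 e N ↔ z ∈ Sp580.A4 e N := by
  have h : Ru874.frc e false (It200.flip z e) = Ru874.frc e false z := by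
    unfold Ru874.frc
    funext e'
    by_cases h' : e' = e
    · subst h'; simp
    · unfold Function.update
      rw [dif_neg h', dif_neg h', It200.flip_ne z h']
  unfold Sp580.A4
  simp only [Set.mem_ofPred_eq, h]

/-- indicator of the four arm event times `|W m|` -/
def GA (m : Face →₀ ℝ) (e : Edge) (N : ℤ) (z : Cfz) : ℝ :=
  (Sp580.A4 e N).indicator (fun z => |W m z|) z

theorem GA_nonneg (m : Face →₀ ℝ) (e : Edge) (N : ℤ) (z : Cfz) : 0 ≤ GA m e N z :=
  Set.indicator_nonneg (fun _ _ => abs_nonneg _) z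

theorem GA_int {m : Face →₀ ℝ} (hm : Ntr m) (e : Edge) (N : ℤ) : Integrable (GA m e N) μh :=
  (Vx107.integrable_W hm _).abs.indicator (Ax107.A4_meas e N)

/-- **charges far from `e`** -/
theorem int_nab_le {m : Face →₀ ℝ} (hm : Ntr m) {e : Edge} {N : ℕ} (hN : 1 ≤ N)
    (hfar : ∀ f, m f ≠ 0 → (N : ℤ) + 2 ≤ sd (src e) f.1) :
    |∫ z, nab m e z ∂μh| ≤ 2 * ∫ z, GA m e N z ∂μh := by
  have hG := GA_int hm e N
  have hGf := Vx107.int_flip hG e
  have hp : ∀ z, AllFin z → |nab m e z| ≤ GA m e N z + GA m e N (It200.flip z e) := by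
    intro z hz
    by_cases h : nab m e z = 0
    · rw [h, abs_zero]
      exact add_nonneg (GA_nonneg _ _ _ _) (GA_nonneg _ _ _ _)
    · have h4 := Vx107.nab_ne hz hm hN hfar h
      have h4' : It200.flip z e ∈ Sp580.A4 e N := A4_flip.2 h4
      rw [← Vx107.op_add_cl (GA m e N) z e]
      have a1 : op z e ∈ Sp580.A4 e N := by
        cases hc : z e with
        | true => rw [Vx107.op_of hc]; exact h4
        | false => rw [Vx107.op_of' hc]; exact h4'
      have a2 : cl z e ∈ Sp580.A4 e N := by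
        cases hc : z e with
        | true => rw [Vx107.cl_of' hc]; exact h4'
        | false => rw [Vx107.cl_of hc]; exact h4
      unfold GA
      rw [Set.indicator_of_mem a1, Set.indicator_of_mem a2]
      unfold nab
      exact abs_sub _ _
  calc |∫ z, nab m e z ∂μh| ≤ ∫ z, |nab m e z| ∂μh := abs_integral_le_integral_abs
    _ ≤ ∫ z, (GA m e N z + GA m e N (It200.flip z e)) ∂μh :=
        integral_mono_ae (Vx107.integrable_nab hm e).abs (hG.add hGf)
          (Vx107.ae_fin.mono fun z hz => hp z hz)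
    _ = 2 * ∫ z, GA m e N z ∂μh := by
        rw [integral_add hG hGf, Vx107.integral_flip hG]; ring

/-! ### the charges -/

/-- probability density `≤ C0 / R²` on the ring `R / 2 ≤ sd ≤ 2 R` -/
structure RingW (C0 : ℝ) (R : ℕ) (w : Face →₀ ℝ) : Prop where
  nn : ∀ f, 0 ≤ w f
  tot : tot w = 1
  sub : ∀ f, w f ≠ 0 → f ∈ BF (0, 0) (2 * (R : ℤ)) ∧ f ∉ BF (0, 0) ((R : ℤ) / 2 - 1)
  le : ∀ f, w f ≤ C0 / (R : ℝ) ^ 2

theorem ringW_ws {R : ℕ} (hR : 1 ≤ R) : RingW 1 R (Bk430.ws R) where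
  nn := Bk430.ws_nonneg hR
  tot := Bk430.tot_ws hR
  sub := fun f hf => by
    obtain ⟨h1, h2⟩ := Bk430.ws_support hR hf
    refine ⟨?_, ?_⟩
    · rw [mem_BF] at h1 ⊢; push_cast at h1; exact h1
    · rw [mem_BF]; omega
  le := fun f => (Bk430.ws_le hR f).trans (by
    have h0 : (0 : ℝ) < (R : ℝ) ^ 2 := by positivity
    rw [one_div]
    exact inv_anti₀ h0 (by linarith))

/-- the charges of leaf D -/
def cg (a : ℝ) (w : Face →₀ ℝ) (g : Face) : Face →₀ ℝ := a • w - Finsupp.single g a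

theorem cg_neg (a : ℝ) (w : Face →₀ ℝ) (g : Face) : -cg a w g = cg (-a) w g := by
  unfold cg
  rw [neg_sub, neg_smul, Finsupp.single_neg]
  abel

theorem mass_single (g : Face) (a : ℝ) (A : Finset Face) [Decidable (g ∈ A)] :
    mass (Finsupp.single g a) A = if g ∈ A then a else 0 := by
  classical
  unfold mass
  simp only [Finsupp.single_apply]
  rw [Finset.sum_ite_eq]
  split_ifs <;> rfl

theorem mass_cg (a : ℝ) (w : Face →₀ ℝ) (g : Face) (A : Finset Face) [Decidable (g ∈ A)] :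
    mass (cg a w g) A = a * mass w A - if g ∈ A then a else 0 := by
  unfold cg
  rw [sub_eq_add_neg, mass_add, mass_neg, mass_smul, mass_single, sub_eq_add_neg]

theorem tot_single (g : Face) (a : ℝ) : tot (Finsupp.single g a) = a := by
  unfold tot
  rw [Finsupp.sum_single_index rfl]

section ring

variable {C0 : ℝ} {R : ℕ} {w : Face →₀ ℝ}

theorem RingW.ntr (h : RingW C0 R w) (a : ℝ) (g : Face) : Ntr (cg a w g) := by
  show Vx107.tot (cg a w g) = 0
  unfold cg
  rw [sub_eq_add_neg, tot_add, tot_neg, tot_smul, h.tot, tot_single]; ring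

theorem RingW.sd_le (h : RingW C0 R w) {f : Face} (hf : w f ≠ 0) : sd (0, 0) f.1 ≤ 2 * R := by
  have := (h.sub f hf).1
  rwa [mem_BF] at this

theorem RingW.sd_ge (h : RingW C0 R w) {f : Face} (hf : w f ≠ 0) : (R : ℤ) ≤ 2 * sd (0, 0) f.1 + 1 := by
  have := (h.sub f hf).2
  rw [mem_BF] at this
  omega

theorem RingW.exists_mem (h : RingW C0 R w) : ∃ f, w f ≠ 0 := by
  by_contra hcon
  push Not at hcon
  have h0 : w = 0 := Finsupp.ext hcon
  have h1 := h.tot
  rw [h0] at h1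
  unfold Vx107.tot at h1
  rw [Finsupp.sum_zero_index] at h1
  exact zero_ne_one h1

theorem RingW.sum_supp (h : RingW C0 R w) : ∑ f ∈ w.support, w f = 1 := h.tot

/-- mass of the density in a set -/
theorem RingW.mass_mem (h : RingW C0 R w) (A : Finset Face) : 0 ≤ mass w A ∧ mass w A ≤ 1 := by
  classical
  constructor
  · exact Finset.sum_nonneg fun f _ => h.nn f
  · rw [← h.sum_supp]
    unfold mass
    calc ∑ f ∈ A, w f = ∑ f ∈ A.filter (fun f => w f ≠ 0), w f :=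
          (Finset.sum_filter_ne_zero A).symm
      _ ≤ ∑ f ∈ w.support, w f := by
          refine Finset.sum_le_sum_of_subset_of_nonneg ?_ fun f _ _ => h.nn f
          intro f hf
          exact Finsupp.mem_support_iff.2 (Finset.mem_filter.1 hf).2

theorem RingW.mass_one (h : RingW C0 R w) {A : Finset Face} (hA : BF (0, 0) (2 * (R : ℤ)) ⊆ A) :
    mass w A = 1 := by
  classical
  rw [← h.sum_supp]
  unfold mass
  refine (Finset.sum_subset (fun f hf => hA (h.sub f (Finsupp.mem_support_iff.1 hf)).1)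
    fun f _ hf => ?_).symm
  exact Finsupp.notMem_support_iff.1 hf

theorem mass_zero_of {A : Finset Face} (hA : ∀ f ∈ A, w f = 0) : mass w A = 0 :=
  Finset.sum_eq_zero hA

/-- a nonlocal loop which meets the ring and does not contain `BF 0 2R` is crossing -/
theorem RingW.cross (h : RingW C0 R w) {κ : ℕ} (hκ : R < 8 * 2 ^ κ) {z : Cfz} {A : Finset Face}
    (hA : A ∈ Lps z) (hm : ∃ f ∈ A, w f ≠ 0) (hl : ¬ dia A + 1 < 2 ^ κ)
    (hB : ¬ BF (0, 0) (2 * (R : ℤ)) ⊆ A) : A ∈ CR (0, 0) (2 * R) 16 z := by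
  obtain ⟨f, hf, hw⟩ := hm
  rw [Finset.not_subset] at hB
  have e1 : ((2 * R : ℕ) : ℤ) = 2 * (R : ℤ) := by push_cast; ring
  refine ⟨hA, ?_, ?_⟩
  · rw [e1]
    exact ⟨⟨f, (h.sub f hw).1, hf⟩, hB⟩
  · omega

/-- `Sys` of the ring -/
theorem RingW.sys (h : RingW C0 R w) {κ : ℕ} (hκ : 4 * 2 ^ κ ≤ R) (a : ℝ) {g : Face}
    (hg : 4 * sd (0, 0) g.1 ≤ R) (hR : 4 ≤ R) :
    Sys (fun _ : Unit => κ) (fun _ => w.support) (fun _ => w) (fun _ => a) (cg a w g) where
  nn := fun _ f _ => h.nn f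
  sum := fun _ => h.sum_supp
  val := fun _ f hf => by
    have hne : g ≠ f := by
      rintro rfl
      have := h.sd_ge (Finsupp.mem_support_iff.1 hf)
      omega
    unfold cg
    rw [Finsupp.sub_apply, Finsupp.smul_apply, Finsupp.single_apply, if_neg hne, sub_zero]
    rfl
  sepV := fun i j hij => absurd (Subsingleton.elim i j) hij
  sepm := fun _ f hf f' hf' hn => by
    have h1 : f' = g := by
      by_contra hne
      apply hf'
      unfold cg
      rw [Finsupp.sub_apply, Finsupp.smul_apply, Finsupp.single_apply, if_neg (Ne.symm hne),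
        sub_zero, Finsupp.notMem_support_iff.1 hn, smul_zero]
    rw [h1]
    have h2 := h.sd_ge (Finsupp.mem_support_iff.1 hf)
    have h3 := sd_tri (0, 0) g.1 f.1
    have h4 := sd_symm' f.1 g.1
    have h5 : (4 : ℤ) * 2 ^ κ ≤ R := by exact_mod_cast hκ
    omega

theorem RingW.dens (h : RingW C0 R w) (hC0 : 0 ≤ C0) {κ : ℕ} (hκ : 4 * 2 ^ κ ≤ R) :
    Dens C0 κ w.support w where
  nn := fun f _ => h.nn f
  sum := h.sum_supp
  le := fun f _ => by
    refine (h.le f).trans ?_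
    have h1 : (4 : ℝ) * 2 ^ κ ≤ R := by exact_mod_cast hκ
    have h2 : (4 : ℝ) ^ κ = (2 ^ κ) ^ 2 := by rw [← pow_mul, mul_comm κ 2, pow_mul]; norm_num
    have h3 : (0 : ℝ) < 2 ^ κ := by positivity
    refine div_le_div_of_nonneg_left hC0 (by positivity) ?_
    rw [h2]
    nlinarith

/-! ### values of the weight -/

theorem Fw_23 : Fw (-(2 * π / 3)) = 1 := by
  unfold Fw
  have : π / 3 + -(2 * π / 3) = -(π / 3) := by ring
  rw [this, cos_neg, cos_pi_div_three]; norm_num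

/-- the error exponent of the ring -/
def Er (a : ℝ) (κ : ℕ) (w : Face →₀ ℝ) (z : Cfz) : ℝ :=
  Err (fun _ : Unit => √3 * a) (fun _ => 12 * a ^ 2) (fun _ => κ) (fun _ => w.support) (fun _ => w) z

theorem Lin_unit (a : ℝ) (κ : ℕ) : Lin (fun _ : Unit => a) (fun _ => κ) = √3 * a * VV κ := by
  unfold Gx31.Lin
  simp [mul_assoc]

theorem mem_Loc_unit {κ : ℕ} {z : Cfz} {A : Finset Face} (hA : A ∈ Lps z)
    (hm : ∃ f ∈ A, w f ≠ 0) (hl : dia A + 1 < 2 ^ κ) :
    A ∈ Loc (fun _ : Unit => κ) (fun _ => w.support) z := by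
  rw [Gx31.mem_Loc']
  obtain ⟨f, hf, hw⟩ := hm
  exact ⟨hA, (), ⟨f, Finsupp.mem_support_iff.2 hw, hf⟩, hl⟩

/-- **pointwise bound, `a = 2π/3`** -/
theorem ab_pos (h : RingW C0 R w) {κ : ℕ} (hκ : 4 * 2 ^ κ ≤ R) (hκ' : R < 8 * 2 ^ κ) {g : Face}
    (hg : 4 * sd (0, 0) g.1 ≤ R) (hR : 4 ≤ R) (z : Cfz) :
    |W (cg (2 * π / 3) w g) z| ≤ exp (-(√3 * (2 * π / 3) * VV κ) + Er (2 * π / 3) κ w z) *
      2 ^ (CR (0, 0) (2 * R) 16 z).ncard := by
  classical
  have hs := h.sys hκ (2 * π / 3) hg hR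
  have h1 := Gx31.GU hs (z := z) (S := Lps z) (fun A hA => Gx31.Loc_sub hA)
    (g := fun A => Fw (mass (cg (2 * π / 3) w g) A)) (fin_supp (h.ntr _ g) subset_rfl)
    (fun A _ => le_rfl)
  rw [Lin_unit] at h1
  refine h1.trans (mul_le_mul_of_nonneg_left ?_ (exp_pos _).le)
  refine Gx31.free_le' (CR_fin _ _ _ z) (fun A hA hA' => ?_) fun A _ => abs_Fw_le _
  rw [mass_cg]
  by_cases hm : ∃ f ∈ A, w f ≠ 0
  · have hl : ¬ dia A + 1 < 2 ^ κ := fun hl => hA.2 (mem_Loc_unit hA.1 hm hl)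
    have hB : BF (0, 0) (2 * (R : ℤ)) ⊆ A := by
      by_contra hB
      exact hA' (h.cross hκ' hA.1 hm hl hB)
    have hgA : g ∈ A := hB (by rw [mem_BF]; omega)
    rw [if_pos hgA, h.mass_one hB, mul_one, sub_self, Fw_zero, abs_one]
  · push Not at hm
    rw [mass_zero_of hm, mul_zero, zero_sub]
    split_ifs
    · rw [Fw_23, abs_one]
    · rw [neg_zero, Fw_zero, abs_one]

/-- the loops around `g` which do not contain `BF 0 2R` -/
def FB (R : ℕ) (g : Face) (z : Cfz) : Set (Finset Face) :=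
  {A | A ∈ Lps z ∧ g ∈ A ∧ ¬ BF (0, 0) (2 * (R : ℤ)) ⊆ A}

theorem FB_fin {g : Face} (hg : sd (0, 0) g.1 ≤ 2 * R) (z : Cfz) : (FB R g z).Finite := by
  refine (Wf850.fin_split z (0, 0) (2 * (R : ℤ))).subset fun A hA => ⟨hA.1, ?_⟩
  refine ⟨⟨g, ?_, hA.2.1⟩, Finset.not_subset.1 hA.2.2⟩
  rw [mem_BF]; exact hg

/-- **pointwise bound, `a = -2π/3`** -/
theorem ab_neg (h : RingW C0 R w) {κ : ℕ} (hκ : 4 * 2 ^ κ ≤ R) (hκ' : R < 8 * 2 ^ κ) {g : Face}
    (hg : 4 * sd (0, 0) g.1 ≤ R) (hR : 4 ≤ R) (z : Cfz) :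
    |W (cg (-(2 * π / 3)) w g) z| ≤ exp (√3 * (2 * π / 3) * VV κ + Er (-(2 * π / 3)) κ w z) *
      2 ^ ((CR (0, 0) (2 * R) 16 z).ncard + (FB R g z).ncard) := by
  classical
  have hs := h.sys hκ (-(2 * π / 3)) hg hR
  have h1 := Gx31.GU hs (z := z) (S := Lps z) (fun A hA => Gx31.Loc_sub hA)
    (g := fun A => Fw (mass (cg (-(2 * π / 3)) w g) A)) (fin_supp (h.ntr _ g) subset_rfl)
    (fun A _ => le_rfl)
  rw [Lin_unit] at h1
  have e1 : -(√3 * -(2 * π / 3) * VV κ) = √3 * (2 * π / 3) * VV κ := by ring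
  rw [e1] at h1
  refine h1.trans (mul_le_mul_of_nonneg_left ?_ (exp_pos _).le)
  have hF2 : (FB R g z).Finite := FB_fin (by omega) z
  refine (Gx31.free_le' ((CR_fin _ _ _ z).union hF2) (fun A hA hA' => ?_)
    fun A _ => abs_Fw_le _).trans (pow_le_pow_right₀ (by norm_num) (Set.ncard_union_le _ _))
  rw [mass_cg]
  rw [Set.mem_union, not_or] at hA'
  by_cases hm : ∃ f ∈ A, w f ≠ 0
  · have hl : ¬ dia A + 1 < 2 ^ κ := fun hl => hA.2 (mem_Loc_unit hA.1 hm hl)
    have hB : BF (0, 0) (2 * (R : ℤ)) ⊆ A := by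
      by_contra hB
      exact hA'.1 (h.cross hκ' hA.1 hm hl hB)
    have hgA : g ∈ A := hB (by rw [mem_BF]; omega)
    rw [if_pos hgA, h.mass_one hB, mul_one, sub_self, Fw_zero, abs_one]
  · have hgA : g ∉ A := by
      intro hgA
      refine hA'.2 ⟨hA.1, hgA, fun hB => hm ?_⟩
      obtain ⟨f, hf⟩ := h.exists_mem
      exact ⟨f, hB (h.sub f hf).1, hf⟩
    push Not at hm
    rw [mass_zero_of hm, mul_zero, zero_sub, if_neg hgA, neg_zero, Fw_zero, abs_one]

end ring

end Crest.Agent.R158.Ud107
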