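import Crest.Agent.R158.Ud1_107

/-!
# R158, Block A4, leaf D (helper107), file 2: UB4

* `card_FB` : the loops around `g = (v, b)` which do not contain `BF 0 2R`
* `NN_tr`   : `∫ exp (s NN v r R) = ∫ exp (s NN 0 r R)`
* `ub4_pos`, `ub4_neg` : UB4
-/

set_option autoImplicit false

noncomputable section

namespace Crest.Agent.R158.Ud107

open Real Function MeasureTheory
open Crest.Agent.R161.Tas682 (sd)
open Crest.Agent.R161.Geo729
open Crest.Agent.R158.It200 (Cfz Corner fc)
open Crest.Agent.R158.Wf850 (Lps Face BF mem_BF Splits BF_mono sd_self sd_tri sd_symm' NN NN_dep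
  annF)
open Crest.Agent.R158.Vx107 (Fw Sw Ntr W mass tot nab op cl mass_add mass_neg mass_smul tot_add
  tot_neg tot_smul AllFin fin_supp abs_Fw_le Fw_zero)
open Crest.Agent.R158.Cn109 (VV DepF dia)
open Crest.Agent.R158.Hd109 (Dens Err)
open Crest.Agent.R158.Gx31 (Sys Loc Lin CR CR_fin shr)
open Crest.Agent.R158.Rs689 (nu hf Dep)
open Crest.Agent.R161.Ring421 (shiftZ measurable_shiftZ)
open Crest.Agent.R158.Em522 (starE)
open Crest.Agent.R158.Lc522 (Sh shE nnF mem_nnF nnF_card)

local notation "μh" => nu Crest.Agent.R158.Rs689.hf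

/-- dyadic radii -/
abbrev dr (r : ℕ) (i : ℕ) : ℕ := 2 ^ i * r

open Classical in
/-- **loops around `g`** -/
theorem card_FB {v : P2} {b : Bool} {R r k : ℕ} {K : ℕ → Cfz → ℕ}
    (hK : ∀ z i (s : Finset (Finset Face)), (∀ A ∈ s, Sh z v (dr r i) (dr r (i + 1)) A) →
      s.card ≤ K i z) (hv : sd (0, 0) v ≤ R) (hk : 3 * R ≤ 2 ^ k * r) (z : Cfz) :
    (FB R (v, b) z).ncard ≤ 4 + NN v 0 r z + (CR v r 1 z).ncard + ∑ i ∈ Finset.range k, K i z := by
  have hfin : (FB R (v, b) z).Finite := FB_fin (by show sd (0, 0) v ≤ 2 * (R : ℤ); omega) z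
  rw [Set.ncard_eq_toFinset_card _ hfin]
  set F := hfin.toFinset with hF
  have hmem : ∀ A, A ∈ F ↔ A ∈ FB R (v, b) z := fun A => by rw [hF, Set.Finite.mem_toFinset]
  have hC := CR_fin v r 1 z
  have hsub : F ⊆ (F.filter (fun A => ¬ BF v 0 ⊆ A) ∪ nnF v 0 r z ∪ hC.toFinset) ∪
      (Finset.range k).biUnion fun i => F.filter (Sh z v (dr r i) (dr r (i + 1))) := by
    intro A hA
    obtain ⟨h1, h2, h3⟩ := (hmem A).1 hA
    by_cases h4 : BF v 0 ⊆ A
    swap
    · exact Finset.mem_union_left _ (Finset.mem_union_left _ (Finset.mem_union_left _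
        (Finset.mem_filter.2 ⟨hA, h4⟩)))
    by_cases h5 : A ⊆ BF v r
    · exact Finset.mem_union_left _ (Finset.mem_union_left _ (Finset.mem_union_right _
        (mem_nnF.2 ⟨h5, h4, h1⟩)))
    by_cases h6 : BF v r ⊆ A
    swap
    · refine Finset.mem_union_left _ (Finset.mem_union_right _ ?_)
      rw [Set.Finite.mem_toFinset]
      have h7 := Lc522.dia_ge' (x := v) (r := 0) h4 h5
      refine ⟨h1, ⟨⟨(v, b), ?_, h2⟩, Finset.not_subset.1 h6⟩, by omega⟩
      rw [mem_BF, sd_self]; positivity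
    · refine Finset.mem_union_right _ ?_
      have h8 : ¬ BF v (dr r k) ⊆ A := by
        intro h8
        apply h3
        refine Finset.Subset.trans (fun f hf => ?_) h8
        rw [mem_BF] at hf ⊢
        have h9 := sd_tri v (0, 0) f.1
        have h10 := sd_symm' v (0, 0)
        have h11 : (3 : ℤ) * R ≤ ((dr r k : ℕ) : ℤ) := by exact_mod_cast hk
        omega
      obtain ⟨i, hi, h9, h10⟩ := Lc522.exists_first (x := v) (ρ := dr r) (A := A) (k := k)
        (by simpa [dr] using h6) h8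
      rw [Finset.mem_biUnion]
      refine ⟨i, Finset.mem_range.2 hi, Finset.mem_filter.2 ⟨hA, h1, h9,
        Lc522.splits_of h9 h10, ?_⟩⟩
      have h11 := Lc522.dia_ge h9
      have h12 : dr r (i + 1) = 2 * dr r i := by unfold dr; rw [pow_succ]; ring
      omega
  have h1 : (F.filter (fun A => ¬ BF v 0 ⊆ A)).card ≤ 4 := by
    have := Lc522.card_split_le (z := z) (x := v) (n := 0) (F.filter (fun A => ¬ BF v 0 ⊆ A))
      (fun A hA => by
        obtain ⟨h2, h3⟩ := Finset.mem_filter.1 hA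
        obtain ⟨h4, h5, h6⟩ := (hmem A).1 h2
        refine ⟨h4, ⟨(v, b), ?_, h5⟩, Finset.not_subset.1 h3⟩
        rw [mem_BF, sd_self]; positivity)
    simpa using this
  refine (Finset.card_le_card hsub).trans ((Finset.card_union_le _ _).trans (add_le_add
    ((Finset.card_union_le _ _).trans (add_le_add
      ((Finset.card_union_le _ _).trans (add_le_add h1 ?_)) ?_)) ?_))
  · rw [nnF_card]
  · rw [Set.ncard_eq_toFinset_card _ hC]
  · refine Finset.card_biUnion_le.trans (Finset.sum_le_sum fun i _ => ?_)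
    exact hK z i _ fun A hA => (Finset.mem_filter.1 hA).2

/-! ### translation of `NN` -/

theorem BF_map (v : P2) (n : ℤ) : (BF (0, 0) n).map (Wf850.shF v) = BF v n := by
  ext f
  rw [Wf850.mem_shF, mem_BF, mem_BF]
  have : sd (0, 0) (f.1 - v) = sd v f.1 := by
    unfold sd; simp
  rw [this]

theorem NN_shift (v : P2) (r R : ℤ) (z : Cfz) :
    NN v r R z = NN (0, 0) r R (shiftZ v z) := by
  classical
  rw [nnF_card, nnF_card]
  have h : nnF v r R z = (nnF (0, 0) r R (shiftZ v z)).image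
      fun A => A.map (Wf850.shF v) := by
    ext A
    rw [Finset.mem_image]
    constructor
    · intro hA
      obtain ⟨B, rfl⟩ := Cn109.shF_surj v A
      obtain ⟨h1, h2, h3⟩ := mem_nnF.1 hA
      refine ⟨B, mem_nnF.2 ⟨?_, ?_, (Wf850.lps_shift v z B).1 h3⟩, rfl⟩
      · rw [← BF_map v R, Finset.map_subset_map] at h1; exact h1
      · rw [← BF_map v r, Finset.map_subset_map] at h2; exact h2
    · rintro ⟨B, hB, rfl⟩
      obtain ⟨h1, h2, h3⟩ := mem_nnF.1 hB
      refine mem_nnF.2 ⟨?_, ?_, (Wf850.lps_shift v z B).2 h3⟩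
      · rw [← BF_map v R, Finset.map_subset_map]; exact h1
      · rw [← BF_map v r, Finset.map_subset_map]; exact h2
  rw [h, Finset.card_image_of_injective _ (Finset.map_injective _)]

theorem NN_tr (s : ℝ) (v : P2) (r R : ℤ) :
    ∫ z, exp (s * NN v r R z) ∂μh = ∫ z, exp (s * NN (0, 0) r R z) ∂μh := by
  simp only [NN_shift v]
  have h2 : Measure.map (shiftZ v) μh = μh := Rs689.tInv hf v
  have h3 := integral_map (μ := μh) (φ := shiftZ v)
    (f := fun z => exp (s * NN (0, 0) r R z)) (measurable_shiftZ v).aemeasurable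
    (((NN_dep (0, 0) r R).comp fun n : ℕ => exp (s * n)).measurable.aestronglyMeasurable)
  rw [h2] at h3
  exact h3.symm

end Crest.Agent.R158.Ud107
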