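import Crest.Agent.R158.Ud2_107

/-!
# R158, Block A4, leaf D (helper107), file 3: UB4

* `ub4_pos`, `ub4_neg` : bounds of `∫ nab (± cg (2π/3) w g) x`
-/

set_option autoImplicit false

noncomputable section

namespace Crest.Agent.R158.Ud107

open Real Function MeasureTheory
open Crest.Agent.R161.Tas682 (sd)
open Crest.Agent.R161.Geo729
open Crest.Agent.R158.It200 (Cfz Corner fc)
open Crest.Agent.R158.Wf850 (Lps Face BF mem_BF Splits BF_mono sd_self sd_tri sd_symm' NN NN_dep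
  annF)
open Crest.Agent.R158.Vx107 (Fw Sw Ntr W mass tot nab op cl)
open Crest.Agent.R158.Cn109 (VV DepF dia)
open Crest.Agent.R158.Hd109 (Dens Err)
open Crest.Agent.R158.Gx31 (CR CR_fin)
open Crest.Agent.R158.Rs689 (nu hf Dep)
open Crest.Agent.R158.Em522 (starE)
open Crest.Agent.R158.Lc522 (Sh shE nnF mem_nnF nnF_card)

local notation "μh" => nu Crest.Agent.R158.Rs689.hf

/-! ### tools -/

theorem exp_log2 (n : ℕ) : exp (log 2 * n) = 2 ^ n := by
  rw [exp_mul, exp_log (by norm_num), rpow_natCast]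

theorem A4_depF (e : Edge) (N : ℤ) (f : Cfz → ℝ) {S : Finset Edge} (hf : DepF S f) :
    DepF (Cpl963.eAn (src e) 0 N ∪ S) (fun z => (Sp580.A4 e N).indicator f z) := by
  classical
  intro z z' h
  have h1 : z ∈ Sp580.A4 e N ↔ z' ∈ Sp580.A4 e N := by
    rw [Cpl963.A4_eq]
    exact Cpl963.A4_dep e N z z' fun e' he' => h e' (Finset.mem_union_left _ he')
  have h2 := hf z z' fun e' he' => h e' (Finset.mem_union_right _ he')
  show (Sp580.A4 e N).indicator f z = (Sp580.A4 e N).indicator f z'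
  by_cases h3 : z ∈ Sp580.A4 e N
  · rw [Set.indicator_of_mem h3, Set.indicator_of_mem (h1.1 h3), h2]
  · rw [Set.indicator_of_notMem h3, Set.indicator_of_notMem fun h4 => h3 (h1.2 h4)]

/-- union of the supports of finitely many functions -/
theorem exp_int {S : Finset Edge} {f : Cfz → ℝ} (hf : DepF S f) (c : ℝ) :
    Integrable (fun z => exp (c * f z)) μh :=
  (hf.comp fun y => exp (c * y)).integrable _

theorem log_lev {R : ℕ} (hR : 8 ≤ R) : 4 * 2 ^ (Nat.log 2 R - 2) ≤ R ∧ R < 8 * 2 ^ (Nat.log 2 R - 2) := by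
  have h1 : 3 ≤ Nat.log 2 R := (Nat.le_log_iff_pow_le (by norm_num) (by omega)).2 (by simpa using hR)
  obtain ⟨l, hl⟩ : ∃ l, Nat.log 2 R = l + 2 := ⟨Nat.log 2 R - 2, by omega⟩
  have h2 := Nat.pow_log_le_self 2 (x := R) (by omega)
  have h3 := Nat.lt_pow_succ_log_self (b := 2) (by norm_num) R
  rw [hl] at h2 h3 ⊢
  simp only [Nat.add_sub_cancel]
  have e1 : 2 ^ (l + 2) = 4 * 2 ^ l := by rw [pow_add]; ring
  have e2 : 2 ^ (l + 2).succ = 8 * 2 ^ l := by rw [pow_succ, pow_add]; ring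
  rw [e1] at h2
  rw [e2] at h3
  exact ⟨h2, h3⟩

/-- `C ^ k ≤ B (R / n) ^ B` for the dyadic number of shells -/
theorem shells_pow {C : ℝ} (hC : 1 ≤ C) : ∃ B : ℝ, 1 ≤ B ∧ ∀ n R : ℕ, 2 ≤ n → n ≤ R →
    ∃ k : ℕ, 3 * R ≤ 2 ^ k * (n / 2) ∧ C ^ k ≤ B * ((R : ℝ) / n) ^ B := by
  have hC0 : 0 < C := by linarith
  set α : ℝ := Real.logb 2 C with hα
  have hα0 : 0 ≤ α := Real.logb_nonneg (by norm_num) hC
  have hCα : (2 : ℝ) ^ α = C := Real.rpow_logb (by norm_num) (by norm_num) hC0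
  refine ⟨max (C * 9 ^ α) α, le_max_of_le_left ?_, fun n R hn hR => ?_⟩
  · have : (1 : ℝ) ≤ 9 ^ α := Real.one_le_rpow (by norm_num) hα0
    nlinarith
  have hr : 0 < n / 2 := by omega
  set j := Nat.log 2 (3 * R / (n / 2)) with hj
  have h1 : 3 * R < 2 ^ (j + 1) * (n / 2) := by
    have h2 : 3 * R / (n / 2) < 2 ^ (j + 1) := Nat.lt_pow_succ_log_self (by norm_num) _
    exact (Nat.div_lt_iff_lt_mul hr).1 h2
  refine ⟨j + 1, h1.le, ?_⟩
  have hn0 : (0 : ℝ) < n := by exact_mod_cast (by omega : 0 < n)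
  have hRn : 1 ≤ (R : ℝ) / n := by
    rw [le_div_iff₀ hn0, one_mul]; exact_mod_cast hR
  have h2 : (2 : ℝ) ^ j ≤ 9 * ((R : ℝ) / n) := by
    have h3 : 3 * R / (n / 2) ≠ 0 := by
      have : 0 < 3 * R / (n / 2) := Nat.div_pos (by omega) hr
      omega
    have h4 : 2 ^ j ≤ 3 * R / (n / 2) := Nat.pow_log_le_self 2 h3
    have h5 : (n : ℝ) ≤ 3 * ((n / 2 : ℕ) : ℝ) := by
      have : n ≤ 3 * (n / 2) := by omega
      exact_mod_cast this
    have h6 : (0 : ℝ) < ((n / 2 : ℕ) : ℝ) := by exact_mod_cast hr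
    calc (2 : ℝ) ^ j = ((2 ^ j : ℕ) : ℝ) := by push_cast; ring
      _ ≤ ((3 * R / (n / 2) : ℕ) : ℝ) := by exact_mod_cast h4
      _ ≤ ((3 * R : ℕ) : ℝ) / ((n / 2 : ℕ) : ℝ) := Nat.cast_div_le
      _ ≤ 9 * ((R : ℝ) / n) := by
          rw [div_le_iff₀ h6]
          push_cast
          have h7 : (0 : ℝ) ≤ R := Nat.cast_nonneg _
          have h8 : (R : ℝ) / n * n = R := by field_simp
          have h9 : (0 : ℝ) ≤ (R : ℝ) / n := by positivity
          nlinarith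
  calc C ^ (j + 1) = C * C ^ j := by rw [pow_succ]; ring
    _ = C * ((2 : ℝ) ^ j) ^ α := by
        rw [← hCα, ← Real.rpow_natCast, ← Real.rpow_natCast (2 : ℝ) j, ← Real.rpow_mul (by norm_num),
          ← Real.rpow_mul (by norm_num), hCα, mul_comm α]
    _ ≤ C * (9 * ((R : ℝ) / n)) ^ α := by gcongr
    _ = C * 9 ^ α * ((R : ℝ) / n) ^ α := by
        rw [Real.mul_rpow (by norm_num) (by positivity)]; ring
    _ ≤ max (C * 9 ^ α) α * ((R : ℝ) / n) ^ (max (C * 9 ^ α) α) := by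
        refine mul_le_mul (le_max_left _ _) ?_ (by positivity) (by positivity)
        exact Real.rpow_le_rpow_of_exponent_le hRn (le_max_right _ _)

/-- disjointness of the four arm event and the loops around `v` -/
theorem disj_A4 {e : Edge} {v : P2} {n : ℕ} (he : src e = (0, 0)) (hn : 32 ≤ n)
    (hv : (n : ℤ) ≤ sd (0, 0) v) :
    Disjoint (Cpl963.eAn (src e) 0 ((n / 4 : ℕ) : ℤ)) (annF v 0 ((n / 2 : ℕ) : ℤ)) := by
  rw [Finset.disjoint_left]
  intro e' h1 h2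
  rw [Cpl963.mem_eAn] at h1
  unfold Wf850.annF at h2
  rw [Finset.mem_sdiff] at h2
  have h3 := h2.1
  rw [Fr158.mem_eIn] at h3
  have h4 := h3.1
  rw [Fr158.mem_bx_sd] at h4
  have h5 := h1.1.2
  rw [he] at h5
  have h6 := sd_tri (0, 0) (src e') v
  have h7 := sd_symm' v (src e')
  omega

/-! ### UB4 -/

/-- **UB4, charge `+`** -/
theorem ub4_pos {C0 : ℝ} (hC0 : 0 ≤ C0) {δ : ℝ} (h0 : 0 < δ) (h1 : δ < 1) : ∃ C : ℝ, 1 ≤ C ∧
    ∀ (R n : ℕ) (w : Face →₀ ℝ) (v : P2) (b : Bool) (x : Edge), 32 ≤ n → 16 * n ≤ R →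
      RingW C0 R w → (n : ℤ) ≤ sd (0, 0) v → sd (0, 0) v ≤ 2 * n → src x = (0, 0) →
      |∫ z, nab (cg (2 * π / 3) w (v, b)) x z ∂μh| ≤
        C * exp (-(√3 * (2 * π / 3) * VV (Nat.log 2 R))) *
          (μh).real (Sp580.A4 x (n / 4 : ℕ)) ^ (1 - δ) := by
  obtain ⟨G, hG, hG'⟩ := Hd109.lin_moments (ι := Unit) hC0 (fun _ => √3 * (2 * π / 3))
    (fun _ => 12 * (2 * π / 3) ^ 2) (2 * (1 / δ)) (by positivity) (fun _ => by positivity)
  obtain ⟨C1, hC1, hT⟩ := Gx31.T_mom (exp (log 2 * (2 * (1 / δ))))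
    (Real.one_le_exp (by have := Real.log_pos (by norm_num : (1 : ℝ) < 2); positivity)) 16
  obtain ⟨C2, hC2, hV⟩ := Gx31.VV_abs
  set B : ℝ := exp (√3 * (2 * π / 3) * (2 * C2)) with hB
  have hB1 : 1 ≤ B := Real.one_le_exp (by positivity)
  refine ⟨2 * B * (G + C1), by nlinarith, fun R n w v b x hn hR hw hv1 hv2 hx => ?_⟩
  obtain ⟨hκ, hκ'⟩ := log_lev (R := R) (by omega)
  set κ := Nat.log 2 R - 2 with hk
  have hfar : ∀ f, cg (2 * π / 3) w (v, b) f ≠ 0 → ((n / 4 : ℕ) : ℤ) + 2 ≤ sd (src x) f.1 := by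
    intro f hf
    rw [hx]
    by_cases h2 : f = (v, b)
    · rw [h2]; show ((n / 4 : ℕ) : ℤ) + 2 ≤ sd (0, 0) v; omega
    · have h3 : w f ≠ 0 := by
        intro h3
        apply hf
        unfold cg
        rw [Finsupp.sub_apply, Finsupp.smul_apply, Finsupp.single_apply, if_neg (Ne.symm h2), h3]
        simp
      have := hw.sd_ge h3
      omega
  refine (int_nab_le (hw.ntr _ _) (by omega) hfar).trans ?_
  obtain ⟨T, hT1, hT2, hT3⟩ := hT (0, 0) (2 * R) (by omega)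
  -- pointwise
  set L : Cfz → ℝ := fun z => Er (2 * π / 3) κ w z + log 2 * T z with hL
  have hdE : DepF _ (fun z => Er (2 * π / 3) κ w z) := Hd109.Err_dep (fun _ : Unit => √3 * (2 * π / 3))
    (fun _ => 12 * (2 * π / 3) ^ 2) (fun _ => κ) (fun _ => w.support) (fun _ => w)
  set S1 : Finset Edge := (Finset.univ : Finset Unit).biUnion fun i => (w.support).biUnion fun v =>
      (Finset.range κ).biUnion fun k => Cn109.Sup Cn109.lsW k v with hS1
  have hdL : DepF (S1 ∪ starE (0, 0) (6 * (2 * R))) L := by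
    refine DepF.add (hdE.mono Finset.subset_union_left) ?_
    exact (hT1.comp fun m : ℕ => log 2 * (m : ℝ)).mono Finset.subset_union_right
  have hpt : ∀ z, GA (cg (2 * π / 3) w (v, b)) x ((n / 4 : ℕ) : ℤ) z ≤
      exp (-(√3 * (2 * π / 3) * VV κ)) * (Sp580.A4 x ((n / 4 : ℕ) : ℤ)).indicator
        (fun z => exp (L z)) z := by
    intro z
    unfold GA
    by_cases h4 : z ∈ Sp580.A4 x ((n / 4 : ℕ) : ℤ)
    · rw [Set.indicator_of_mem h4, Set.indicator_of_mem h4]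
      refine (ab_pos hw hκ hκ' (by show 4 * sd (0, 0) v ≤ (R : ℤ); omega) (by omega) z).trans ?_
      rw [hL, exp_add, exp_add, exp_log2, mul_assoc]
      refine mul_le_mul_of_nonneg_left ?_ (exp_pos _).le
      exact mul_le_mul_of_nonneg_left (pow_le_pow_right₀ (by norm_num) (hT3 z)) (exp_pos _).le
    · rw [Set.indicator_of_notMem h4, Set.indicator_of_notMem h4, mul_zero]
  have hi1 : Integrable (fun z => (Sp580.A4 x ((n / 4 : ℕ) : ℤ)).indicator
      (fun z => exp (L z)) z) μh := (A4_depF x _ _ (hdL.comp exp)).integrable _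
  have a1 : ∫ z, GA (cg (2 * π / 3) w (v, b)) x ((n / 4 : ℕ) : ℤ) z ∂μh ≤
      exp (-(√3 * (2 * π / 3) * VV κ)) *
        ∫ z, (Sp580.A4 x ((n / 4 : ℕ) : ℤ)).indicator (fun z => exp (L z)) z ∂μh := by
    rw [← integral_const_mul]
    exact integral_mono (GA_int (hw.ntr _ _) _ _) (hi1.const_mul _) hpt
  have a2 := Gx31.ind_hoelder h0 h1 (Ax107.A4_meas x ((n / 4 : ℕ) : ℤ)) hdL.measurable
    (exp_int hdL _)
  have a3 : ∫ z, exp (1 / δ * L z) ∂μh ≤ G + C1 := by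
    have e1 : ∀ z, exp (1 / δ * L z) ≤ exp (2 * (1 / δ) * Er (2 * π / 3) κ w z) +
        exp (log 2 * (2 * (1 / δ))) ^ T z := by
      intro z
      have h5 : exp (log 2 * (2 * (1 / δ))) ^ T z = exp (2 * (1 / δ) * (log 2 * T z)) := by
        rw [← Real.exp_nat_mul]; congr 1; ring
      rw [h5]
      have h6 : 1 / δ * L z ≤ max (2 * (1 / δ) * Er (2 * π / 3) κ w z)
          (2 * (1 / δ) * (log 2 * T z)) := by
        rw [hL]
        rcases le_total (2 * (1 / δ) * Er (2 * π / 3) κ w z) (2 * (1 / δ) * (log 2 * T z)) with h | h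
        · rw [max_eq_right h]; simp only; linarith
        · rw [max_eq_left h]; simp only; linarith
      refine (exp_le_exp.2 h6).trans ?_
      rcases max_cases (2 * (1 / δ) * Er (2 * π / 3) κ w z) (2 * (1 / δ) * (log 2 * T z)) with h | h
      · rw [h.1]; linarith [exp_pos (2 * (1 / δ) * (log 2 * T z))]
      · rw [h.1]; linarith [exp_pos (2 * (1 / δ) * Er (2 * π / 3) κ w z)]
    have i1 := exp_int hdE (2 * (1 / δ))
    have i2 : Integrable (fun z => exp (log 2 * (2 * (1 / δ))) ^ T z) μh :=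
      (hT1.comp fun m : ℕ => exp (log 2 * (2 * (1 / δ))) ^ m).integrable _
    calc ∫ z, exp (1 / δ * L z) ∂μh ≤ ∫ z, (exp (2 * (1 / δ) * Er (2 * π / 3) κ w z) +
        exp (log 2 * (2 * (1 / δ))) ^ T z) ∂μh := integral_mono (exp_int hdL _) (i1.add i2) e1
      _ ≤ G + C1 := by
          rw [integral_add i1 i2]
          exact add_le_add (hG' (fun _ => κ) (fun _ => w.support) (fun _ => w)
            fun _ => hw.dens hC0 hκ) hT2
  have a4 : (∫ z, exp (1 / δ * L z) ∂μh) ^ δ ≤ G + C1 := by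
    have h7 : 0 ≤ ∫ z, exp (1 / δ * L z) ∂μh := integral_nonneg fun z => (exp_pos _).le
    calc (∫ z, exp (1 / δ * L z) ∂μh) ^ δ ≤ (G + C1) ^ δ := rpow_le_rpow h7 a3 h0.le
      _ ≤ (G + C1) ^ (1 : ℝ) := rpow_le_rpow_of_exponent_le (by linarith) h1.le
      _ = G + C1 := rpow_one _
  have a5 : exp (-(√3 * (2 * π / 3) * VV κ)) ≤ B * exp (-(√3 * (2 * π / 3) * VV (Nat.log 2 R))) := by
    rw [hB, ← exp_add]
    apply exp_le_exp.2
    have h8 := (abs_le.1 (hV κ (Nat.log 2 R))).1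
    have h9 : |(κ : ℝ) - (Nat.log 2 R : ℕ)| ≤ 2 := by
      have : κ ≤ Nat.log 2 R ∧ Nat.log 2 R ≤ κ + 2 := by omega
      have b1 : (κ : ℝ) ≤ (Nat.log 2 R : ℕ) := by exact_mod_cast this.1
      have b2 : ((Nat.log 2 R : ℕ) : ℝ) ≤ κ + 2 := by exact_mod_cast this.2
      rw [abs_le]; constructor <;> linarith
    have h10 : -(2 * C2) ≤ VV κ - VV (Nat.log 2 R) := by nlinarith
    have h11 : (0 : ℝ) ≤ √3 * (2 * π / 3) := by positivity
    nlinarith
  have hP : 0 ≤ (μh).real (Sp580.A4 x ((n / 4 : ℕ) : ℤ)) ^ (1 - δ) := by positivity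
  calc 2 * ∫ z, GA (cg (2 * π / 3) w (v, b)) x ((n / 4 : ℕ) : ℤ) z ∂μh
      ≤ 2 * (exp (-(√3 * (2 * π / 3) * VV κ)) *
        ((μh).real (Sp580.A4 x ((n / 4 : ℕ) : ℤ)) ^ (1 - δ) * (G + C1))) := by
        refine mul_le_mul_of_nonneg_left (a1.trans (mul_le_mul_of_nonneg_left ?_ (exp_pos _).le))
          (by norm_num)
        exact a2.trans (mul_le_mul_of_nonneg_left a4 hP)
    _ ≤ 2 * ((B * exp (-(√3 * (2 * π / 3) * VV (Nat.log 2 R)))) *
        ((μh).real (Sp580.A4 x ((n / 4 : ℕ) : ℤ)) ^ (1 - δ) * (G + C1))) := by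
        refine mul_le_mul_of_nonneg_left (mul_le_mul_of_nonneg_right a5 ?_) (by norm_num)
        exact mul_nonneg hP (by linarith)
    _ = _ := by ring

end Crest.Agent.R158.Ud107
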