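import Crest.Agent.R158.Ud3_107

/-!
# R158, Block A4, leaf D (helper107), file 4: UB4, charge `-`

* `ub4_neg` : bound of `∫ nab (-cg (2π/3) w g) x`
-/

set_option autoImplicit false

noncomputable section

namespace Crest.Agent.R158.Ud107

open Real Function MeasureTheory
open Crest.Agent.R161.Tas682 (sd)
open Crest.Agent.R161.Geo729
open Crest.Agent.R158.It200 (Cfz Corner fc)
open Crest.Agent.R158.Wf850 (Lps Face BF mem_BF Splits BF_mono sd_self sd_tri sd_symm' NN NN_dep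
  annF)
open Crest.Agent.R158.Vx107 (Fw Sw Ntr W mass tot nab op cl)
open Crest.Agent.R158.Cn109 (VV DepF dia)
open Crest.Agent.R158.Hd109 (Dens Err)
open Crest.Agent.R158.Gx31 (CR CR_fin)
open Crest.Agent.R158.Rs689 (nu hf Dep)
open Crest.Agent.R158.Em522 (starE)
open Crest.Agent.R158.Lc522 (Sh shE nnF mem_nnF nnF_card)

local notation "μh" => nu Crest.Agent.R158.Rs689.hf

set_option maxHeartbeats 1000000 in
/-- **UB4, charge `-`** -/
theorem ub4_neg {C0 : ℝ} (hC0 : 0 ≤ C0) {δ : ℝ} (h0 : 0 < δ) (h1 : δ < 1) : ∃ C : ℝ, 1 ≤ C ∧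
    ∀ (R n : ℕ) (w : Face →₀ ℝ) (v : P2) (b : Bool) (x : Edge), 32 ≤ n → 16 * n ≤ R →
      RingW C0 R w → (n : ℤ) ≤ sd (0, 0) v → sd (0, 0) v ≤ 2 * n → src x = (0, 0) →
      |∫ z, nab (-cg (2 * π / 3) w (v, b)) x z ∂μh| ≤
        C * ((R : ℝ) / n) ^ C * exp (√3 * (2 * π / 3) * VV (Nat.log 2 R)) *
          (μh).real (Sp580.A4 x (n / 4 : ℕ)) ^ (1 - δ) *
            ∫ z, exp (1 / (1 - δ) * log 2 * NN (0, 0) 0 ((n / 2 : ℕ) : ℤ) z) ∂μh := by
  have hl2 : (0 : ℝ) < log 2 := Real.log_pos (by norm_num)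
  have h1' : 0 < 1 - δ := by linarith
  obtain ⟨G, hG, hG'⟩ := Hd109.lin_moments (ι := Unit) hC0 (fun _ => √3 * (-(2 * π / 3)))
    (fun _ => 12 * (-(2 * π / 3)) ^ 2) (4 * (1 / δ)) (by positivity) (fun _ => by positivity)
  obtain ⟨C1, hC1, hT⟩ := Gx31.T_mom (exp (log 2 * (4 * (1 / δ))))
    (Real.one_le_exp (by positivity)) 16
  obtain ⟨C2, hC2, hV⟩ := Gx31.VV_abs
  obtain ⟨C3, hC3, hT'⟩ := Gx31.T_mom (exp (log 2 * (4 * (1 / δ))))
    (Real.one_le_exp (by positivity)) 1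
  obtain ⟨C4, hC4, hS⟩ := Lc522.shells (4 * (1 / δ) * log 2) (by positivity)
  obtain ⟨C5, hC5, hS'⟩ := shells_pow hC4
  set B : ℝ := exp (√3 * (2 * π / 3) * (2 * C2)) with hB
  have hB1 : 1 ≤ B := Real.one_le_exp (by positivity)
  set D : ℝ := 2 * B * 16 * (G + C1 + C3 + 1) * C5 with hD
  have hD5 : C5 ≤ D := by
    rw [hD]
    have : 1 ≤ 2 * B * 16 * (G + C1 + C3 + 1) := by nlinarith
    nlinarith
  refine ⟨D, hC5.trans hD5, fun R n w v b x hn hR hw hv1 hv2 hx => ?_⟩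
  obtain ⟨hκ, hκ'⟩ := log_lev (R := R) (by omega)
  set κ := Nat.log 2 R - 2 with hk
  rw [cg_neg]
  have hfar : ∀ f, cg (-(2 * π / 3)) w (v, b) f ≠ 0 → ((n / 4 : ℕ) : ℤ) + 2 ≤ sd (src x) f.1 := by
    intro f hf
    rw [hx]
    by_cases h2 : f = (v, b)
    · rw [h2]; show ((n / 4 : ℕ) : ℤ) + 2 ≤ sd (0, 0) v; omega
    · have h3 : w f ≠ 0 := by
        intro h3
        apply hf
        unfold cg
        rw [Finsupp.sub_apply, Finsupp.smul_apply, Finsupp.single_apply, if_neg (Ne.symm h2), h3]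
        simp
      have := hw.sd_ge h3
      omega
  refine (int_nab_le (hw.ntr _ _) (by omega) hfar).trans ?_
  obtain ⟨T, hT1, hT2, hT3⟩ := hT (0, 0) (2 * R) (by omega)
  obtain ⟨T', hT1', hT2', hT3'⟩ := hT' v (n / 2) (by omega)
  obtain ⟨K, hK1, hK2, _, hK3⟩ := hS v (dr (n / 2)) (by unfold dr; simp; omega)
    (fun i => by unfold dr; rw [pow_succ]; exact le_of_eq (by ring))
  obtain ⟨k, hk1, hk2⟩ := hS' n R (by omega) (by omega)
  have hFB := fun z => card_FB (v := v) (b := b) (R := R) (r := n / 2) (k := k) hK2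
    (by omega) hk1 z
  -- the four terms
  set L2 : Cfz → ℝ := fun z => log 2 * T z with hL2
  set L3 : Cfz → ℝ := fun z => log 2 * T' z with hL3
  set L4 : Cfz → ℝ := fun z => log 2 * ∑ i ∈ Finset.range k, (K i z : ℝ) with hL4
  have hdE : DepF _ (fun z => Er (-(2 * π / 3)) κ w z) :=
    Hd109.Err_dep (fun _ : Unit => √3 * (-(2 * π / 3)))
    (fun _ => 12 * (-(2 * π / 3)) ^ 2) (fun _ => κ) (fun _ => w.support) (fun _ => w)
  have hd2 : DepF (starE (0, 0) (6 * (2 * R))) L2 := hT1.comp fun m : ℕ => log 2 * (m : ℝ)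
  have hd3 : DepF (starE v (6 * (n / 2))) L3 := hT1'.comp fun m : ℕ => log 2 * (m : ℝ)
  set S4 : Finset Edge := (Finset.range k).biUnion fun i =>
    shE v (dr (n / 2) i) (dr (n / 2) (i + 1)) with hS4
  have hd4 : DepF S4 L4 := by
    refine DepF.smul (log 2) (DepF.sum fun i hi => ?_)
    exact ((hK1 i).comp fun m : ℕ => (m : ℝ)).mono (Finset.subset_biUnion_of_mem
      (fun i => shE v (dr (n / 2) i) (dr (n / 2) (i + 1))) hi)
  set S1 : Finset Edge := (Finset.univ : Finset Unit).biUnion fun i => (w.support).biUnion fun v =>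
      (Finset.range κ).biUnion fun k => Cn109.Sup Cn109.lsW k v with hS1
  set S0 : Finset Edge := ((S1 ∪ starE (0, 0) (6 * (2 * R))) ∪ starE v (6 * (n / 2))) ∪ S4 with hS0
  set L : Cfz → ℝ := fun z => Er (-(2 * π / 3)) κ w z + L2 z + L3 z + L4 z with hL
  have hdL : DepF S0 L := by
    refine DepF.add ((DepF.add ((DepF.add (hdE.mono Finset.subset_union_left)
      (hd2.mono Finset.subset_union_right)).mono Finset.subset_union_left)
      (hd3.mono Finset.subset_union_right)).mono Finset.subset_union_left)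
      (hd4.mono Finset.subset_union_right)
  set NV : Cfz → ℕ := NN v 0 ((n / 2 : ℕ) : ℤ) with hNV
  have hdN : DepF (annF v 0 ((n / 2 : ℕ) : ℤ)) NV := NN_dep v 0 _
  set AA : Set Cfz := Sp580.A4 x ((n / 4 : ℕ) : ℤ) with hAA
  set Y : Cfz → ℝ := fun z => AA.indicator (fun z => exp (log 2 * NV z)) z with hY
  have hY0 : ∀ z, 0 ≤ Y z := fun z => Set.indicator_nonneg (fun _ _ => (exp_pos _).le) z
  have hdY : DepF _ Y := A4_depF x ((n / 4 : ℕ) : ℤ) (fun z => exp (log 2 * NV z))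
    (hdN.comp fun m : ℕ => exp (log 2 * m))
  have hpt : ∀ z, GA (cg (-(2 * π / 3)) w (v, b)) x ((n / 4 : ℕ) : ℤ) z ≤
      exp (√3 * (2 * π / 3) * VV κ) * 16 * (Y z * exp (L z)) := by
    intro z
    unfold GA
    by_cases h4 : z ∈ AA
    · rw [Set.indicator_of_mem h4]
      have e1 : Y z = exp (log 2 * NV z) := by rw [hY]; exact Set.indicator_of_mem h4 _
      refine (ab_neg hw hκ hκ' (by show 4 * sd (0, 0) v ≤ (R : ℤ); omega) (by omega) z).trans ?_
      have e2 : (2 : ℝ) ^ ((CR (0, 0) (2 * R) 16 z).ncard + (FB R (v, b) z).ncard) ≤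
          16 * (exp (log 2 * NV z) * exp (L2 z) * exp (L3 z) * exp (L4 z)) := by
        have e3 : (CR (0, 0) (2 * R) 16 z).ncard + (FB R (v, b) z).ncard ≤
            4 + (NV z + T z + T' z + ∑ i ∈ Finset.range k, K i z) := by
          have a1 := hT3 z
          have a2 := hT3' z
          have a3 := hFB z
          omega
        refine (pow_le_pow_right₀ (by norm_num) e3).trans (le_of_eq ?_)
        rw [pow_add, pow_add, pow_add, pow_add, hL2, hL3, hL4]
        simp only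
        rw [exp_log2, exp_log2, exp_log2, ← Nat.cast_sum, exp_log2]
        norm_num
      calc exp (√3 * (2 * π / 3) * VV κ + Er (-(2 * π / 3)) κ w z) *
            2 ^ ((CR (0, 0) (2 * R) 16 z).ncard + (FB R (v, b) z).ncard)
          ≤ exp (√3 * (2 * π / 3) * VV κ + Er (-(2 * π / 3)) κ w z) *
            (16 * (exp (log 2 * NV z) * exp (L2 z) * exp (L3 z) * exp (L4 z))) :=
            mul_le_mul_of_nonneg_left e2 (exp_pos _).le
        _ = _ := by
            rw [e1, hL, exp_add]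
            simp only
            rw [exp_add, exp_add, exp_add]
            ring
    · rw [Set.indicator_of_notMem h4]
      have := hY0 z
      positivity
  have hi1 : Integrable (fun z => Y z * exp (L z)) μh :=
    ((hdY.mono Finset.subset_union_left).mul ((hdL.comp exp).mono
      Finset.subset_union_right)).integrable _
  have a1 : ∫ z, GA (cg (-(2 * π / 3)) w (v, b)) x ((n / 4 : ℕ) : ℤ) z ∂μh ≤
      exp (√3 * (2 * π / 3) * VV κ) * 16 * ∫ z, Y z * exp (L z) ∂μh := by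
    rw [← integral_const_mul]
    exact integral_mono (GA_int (hw.ntr _ _) _ _) (hi1.const_mul _) hpt
  -- Hölder
  have hp : 1 < 1 / (1 - δ) := by
    rw [lt_div_iff₀ h1']; linarith
  have e1 : 1 / (1 - δ) / (1 / (1 - δ) - 1) = 1 / δ := by
    have : 1 - δ ≠ 0 := h1'.ne'
    have h2 : (1 / (1 - δ) - 1) = δ / (1 - δ) := by field_simp; ring
    rw [h2]
    field_simp
  have e2 : (1 / (1 - δ) - 1) / (1 / (1 - δ)) = δ := by
    have : 1 - δ ≠ 0 := h1'.ne'
    field_simp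
    ring
  have e3 : 1 / (1 / (1 - δ)) = 1 - δ := one_div_one_div _
  have a2 := Hd109.hoelder_exp (μ := μh) hp (Y := Y) (L := L) hY0
    hdY.measurable.aestronglyMeasurable hdL.measurable.aestronglyMeasurable
    ((hdY.comp fun y => y ^ (1 / (1 - δ))).integrable _) (exp_int hdL _)
  rw [e1, e2, e3] at a2
  -- the first factor
  set EE : ℝ := ∫ z, exp (1 / (1 - δ) * log 2 * NN (0, 0) 0 ((n / 2 : ℕ) : ℤ) z) ∂μh with hEE
  have hE1 : 1 ≤ EE := Lc522.one_le_exp_nn (by positivity)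
  have a3 : ∫ z, Y z ^ (1 / (1 - δ)) ∂μh = (μh).real AA * EE := by
    have b1 : ∀ z, Y z ^ (1 / (1 - δ)) = AA.indicator (fun _ => (1 : ℝ)) z *
        exp (1 / (1 - δ) * log 2 * NV z) := by
      intro z
      show AA.indicator (fun z => exp (log 2 * NV z)) z ^ (1 / (1 - δ)) = _
      by_cases h4 : z ∈ AA
      · rw [Set.indicator_of_mem h4, Set.indicator_of_mem h4, one_mul, ← exp_mul]
        congr 1; ring
      · rw [Set.indicator_of_notMem h4, Set.indicator_of_notMem h4, zero_mul,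
          zero_rpow (by positivity)]
    simp only [b1]
    have b2 : DepF (Cpl963.eAn (src x) 0 ((n / 4 : ℕ) : ℤ))
        (fun z => AA.indicator (fun _ => (1 : ℝ)) z) := by
      have := A4_depF x ((n / 4 : ℕ) : ℤ) (fun _ => (1 : ℝ)) (DepF.const ∅ (1 : ℝ))
      rwa [Finset.union_empty] at this
    have b3 := Cn109.integral_mul_indep (fun _ : Edge => hf) (disj_A4 hx hn hv1) b2
      (hdN.comp fun m : ℕ => exp (1 / (1 - δ) * log 2 * m))
    have b4 : ∫ z, AA.indicator (fun _ => (1 : ℝ)) z ∂μh = (μh).real AA := by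
      rw [integral_indicator_const _ (Ax107.A4_meas x _), smul_eq_mul, mul_one]
    have b5 : ∫ z, exp (1 / (1 - δ) * log 2 * NV z) ∂μh = EE :=
      NN_tr (1 / (1 - δ) * log 2) v 0 _
    refine Eq.trans b3 ?_
    exact congrArg₂ (· * ·) b4 b5
  have hP0 : 0 ≤ (μh).real AA := measureReal_nonneg
  have a4 : (∫ z, Y z ^ (1 / (1 - δ)) ∂μh) ^ (1 - δ) ≤ (μh).real AA ^ (1 - δ) * EE := by
    rw [a3, mul_rpow hP0 (by linarith)]
    refine mul_le_mul_of_nonneg_left ?_ (by positivity)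
    calc EE ^ (1 - δ) ≤ EE ^ (1 : ℝ) := rpow_le_rpow_of_exponent_le hE1 (by linarith)
      _ = EE := rpow_one _
  -- the second factor
  have hRn : 1 ≤ (R : ℝ) / n := by
    have hn0 : (0 : ℝ) < n := by exact_mod_cast (by omega : 0 < n)
    rw [le_div_iff₀ hn0, one_mul]; exact_mod_cast (by omega : n ≤ R)
  have a5 : ∫ z, exp (1 / δ * L z) ∂μh ≤ G + C1 + C3 + C4 ^ k := by
    refine (Gx31.exp_four (exp_int hdE _) (exp_int hd2 _) (exp_int hd3 _)
      (exp_int hd4 _)).trans ?_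
    have c1 : ∀ z, exp (4 * (1 / δ) * L2 z) = exp (log 2 * (4 * (1 / δ))) ^ T z := fun z => by
      rw [← Real.exp_nat_mul]; congr 1; rw [hL2]; ring
    have c2 : ∀ z, exp (4 * (1 / δ) * L3 z) = exp (log 2 * (4 * (1 / δ))) ^ T' z := fun z => by
      rw [← Real.exp_nat_mul]; congr 1; rw [hL3]; ring
    have c3 : ∀ z, exp (4 * (1 / δ) * L4 z) =
        exp (4 * (1 / δ) * log 2 * ∑ i ∈ Finset.range k, (K i z : ℝ)) := fun z => by
      congr 1; rw [hL4]; ring
    simp only [c1, c2, c3]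
    exact add_le_add (add_le_add (add_le_add (hG' (fun _ => κ) (fun _ => w.support) (fun _ => w)
      fun _ => hw.dens hC0 hκ) hT2) hT2') (hK3 k)
  have a6 : (∫ z, exp (1 / δ * L z) ∂μh) ^ δ ≤ (G + C1 + C3 + 1) * (C5 * ((R : ℝ) / n) ^ C5) := by
    have h7 : 0 ≤ ∫ z, exp (1 / δ * L z) ∂μh := integral_nonneg fun z => (exp_pos _).le
    have h8 : 1 ≤ C5 * ((R : ℝ) / n) ^ C5 := by
      have := Real.one_le_rpow hRn (by linarith : 0 ≤ C5)
      nlinarith
    have h9 : G + C1 + C3 + C4 ^ k ≤ (G + C1 + C3 + 1) * (C5 * ((R : ℝ) / n) ^ C5) := by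
      nlinarith
    calc (∫ z, exp (1 / δ * L z) ∂μh) ^ δ
        ≤ ((G + C1 + C3 + 1) * (C5 * ((R : ℝ) / n) ^ C5)) ^ δ :=
          rpow_le_rpow h7 (a5.trans h9) h0.le
      _ ≤ ((G + C1 + C3 + 1) * (C5 * ((R : ℝ) / n) ^ C5)) ^ (1 : ℝ) :=
          rpow_le_rpow_of_exponent_le (by nlinarith) h1.le
      _ = _ := rpow_one _
  have a7 : exp (√3 * (2 * π / 3) * VV κ) ≤ B * exp (√3 * (2 * π / 3) * VV (Nat.log 2 R)) := by
    rw [hB, ← exp_add]
    apply exp_le_exp.2
    have h8 := (abs_le.1 (hV κ (Nat.log 2 R))).2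
    have h9 : |(κ : ℝ) - (Nat.log 2 R : ℕ)| ≤ 2 := by
      have : κ ≤ Nat.log 2 R ∧ Nat.log 2 R ≤ κ + 2 := by omega
      have b1 : (κ : ℝ) ≤ (Nat.log 2 R : ℕ) := by exact_mod_cast this.1
      have b2 : ((Nat.log 2 R : ℕ) : ℝ) ≤ κ + 2 := by exact_mod_cast this.2
      rw [abs_le]; constructor <;> linarith
    have h10 : VV κ - VV (Nat.log 2 R) ≤ 2 * C2 := by nlinarith
    have h11 : (0 : ℝ) ≤ √3 * (2 * π / 3) := by positivity
    nlinarith
  have hP : 0 ≤ (μh).real AA ^ (1 - δ) := by positivity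
  set Q := (R : ℝ) / n with hQ
  set P := (μh).real AA ^ (1 - δ) with hPP
  set V := exp (√3 * (2 * π / 3) * VV (Nat.log 2 R)) with hVV
  have hV0 : 0 < V := exp_pos _
  have hI0 : 0 ≤ ∫ z, Y z * exp (L z) ∂μh := integral_nonneg fun z =>
    mul_nonneg (hY0 z) (exp_pos _).le
  have a8 : ∫ z, Y z * exp (L z) ∂μh ≤ P * EE * ((G + C1 + C3 + 1) * (C5 * Q ^ C5)) := by
    refine a2.trans (mul_le_mul a4 a6 ?_ (by positivity))
    exact rpow_nonneg (integral_nonneg fun z => (exp_pos _).le) _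
  have a9 : Q ^ C5 ≤ Q ^ D := Real.rpow_le_rpow_of_exponent_le hRn hD5
  calc 2 * ∫ z, GA (cg (-(2 * π / 3)) w (v, b)) x ((n / 4 : ℕ) : ℤ) z ∂μh
      ≤ 2 * (exp (√3 * (2 * π / 3) * VV κ) * 16 * ∫ z, Y z * exp (L z) ∂μh) :=
        mul_le_mul_of_nonneg_left a1 (by norm_num)
    _ ≤ 2 * ((B * V) * 16 * (P * EE * ((G + C1 + C3 + 1) * (C5 * Q ^ C5)))) := by
        refine mul_le_mul_of_nonneg_left ?_ (by norm_num)
        refine mul_le_mul (mul_le_mul_of_nonneg_right a7 (by norm_num)) a8 hI0 (by positivity)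
    _ = D * Q ^ C5 * V * P * EE := by rw [hD]; ring
    _ ≤ D * Q ^ D * V * P * EE := by
        have hD0 : 0 ≤ D := by linarith
        exact mul_le_mul_of_nonneg_right (mul_le_mul_of_nonneg_right (mul_le_mul_of_nonneg_right
          (mul_le_mul_of_nonneg_left a9 hD0) hV0.le) hP) (by linarith)

end Crest.Agent.R158.Ud107
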