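import Crest.Agent.R158.Ud4_107
import Crest.Agent.R158.Vg1_109
import Crest.Agent.R158.Sp4_580
import Crest.Agent.R158.Sh1_158
import Crest.Agent.R158.Sb3_689
import Crest.Agent.R158.Hp5_814

/-!
# R158, Block A4, leaf D (helper107), file 5: the left side of (ID) and its exponent

* `dleft`     : `|∑ over the four corners, ∫ Dr (cg (2π/3) w g) c|` by (ID) and UB4
* `HE2`       : the literal form of identity E
* `dleft_exp` : exponent `5/12`
* `p2_poly`   : `n ^ (-K) ≤ p2 n`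
-/

set_option autoImplicit false

noncomputable section

namespace Crest.Agent.R158.Ud107

open Real Function MeasureTheory Filter
open Crest.Agent.R161.Tas682 (sd)
open Crest.Agent.R161.Geo729
open Crest.Agent.R158.It200 (Cfz Corner fc i1 i2 o1 o2)
open Crest.Agent.R158.Wf850 (Lps Face BF NN NN_dep)
open Crest.Agent.R158.Vx107 (Fw Sw Ntr W mass tot nab op cl Dr)
open Crest.Agent.R158.Cn109 (VV DepF dia)
open Crest.Agent.R158.Rs689 (nu hf Dep)
open Crest.Agent.R158.Vg109 (den)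
open Crest.Agent.R158.Ax107 (p2 p4)

local notation "μh" => nu Crest.Agent.R158.Rs689.hf

/-- sum over the four corners at `x` -/
def S4D (m : Face →₀ ℝ) (x : Edge) : ℝ :=
  ∫ z, Dr m (i1 x) z ∂μh + ∫ z, Dr m (i2 x) z ∂μh + ∫ z, Dr m (o1 x) z ∂μh +
    ∫ z, Dr m (o2 x) z ∂μh

theorem VV_nonneg (k : ℕ) : 0 ≤ VV k := by
  obtain ⟨C, hC, h⟩ := Cn109.VV_diff
  have h1 := (h 0 k).1
  rw [zero_add] at h1
  have h2 : VV 0 = 0 := by
    unfold Cn109.VV
    simp [Cn109.tot]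
  linarith

/-- **left side of (ID)** -/
theorem dleft {C0 : ℝ} (hC0 : 0 ≤ C0) {δ : ℝ} (h0 : 0 < δ) (h1 : δ < 1) : ∃ C : ℝ, 1 ≤ C ∧
    ∀ (R n : ℕ) (w : Face →₀ ℝ) (v : P2) (b : Bool) (x : Edge), 32 ≤ n → 16 * n ≤ R →
      RingW C0 R w → (n : ℤ) ≤ sd (0, 0) v → sd (0, 0) v ≤ 2 * n → src x = (0, 0) →
      |S4D (cg (2 * π / 3) w (v, b)) x| ≤
        C * ((R : ℝ) / n) ^ C * exp (√3 * (2 * π / 3) * VV (Nat.log 2 R)) *
          (μh).real (Sp580.A4 x (n / 4 : ℕ)) ^ (1 - δ) *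
            ∫ z, exp (1 / (1 - δ) * log 2 * NN (0, 0) 0 ((n / 2 : ℕ) : ℤ) z) ∂μh := by
  have h1' : 0 < 1 - δ := by linarith
  have hl2 : (0 : ℝ) < log 2 := Real.log_pos (by norm_num)
  obtain ⟨A, hA, hpos⟩ := ub4_pos hC0 h0 h1
  obtain ⟨B, hB, hneg⟩ := ub4_neg hC0 h0 h1
  refine ⟨2 * (A + B), by linarith, fun R n w v b x hn hR hw hv1 hv2 hx => ?_⟩
  have a1 := hpos R n w v b x hn hR hw hv1 hv2 hx
  have a2 := hneg R n w v b x hn hR hw hv1 hv2 hx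
  set m := cg (2 * π / 3) w (v, b) with hm
  have hID := Vx107.IDlat Vx107.ae_fin Bk430.even_main (hw.ntr (2 * π / 3) (v, b)) x
  rw [← hm] at hID
  set P := (μh).real (Sp580.A4 x (n / 4 : ℕ)) ^ (1 - δ) with hP
  have hP0 : 0 ≤ P := by positivity
  set E := ∫ z, exp (1 / (1 - δ) * log 2 * NN (0, 0) 0 ((n / 2 : ℕ) : ℤ) z) ∂μh with hE
  have hE1 : 1 ≤ E := Lc522.one_le_exp_nn (by positivity)
  set V := √3 * (2 * π / 3) * VV (Nat.log 2 R) with hV
  have hV0 : 0 ≤ V := by have := VV_nonneg (Nat.log 2 R); positivity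
  set Q := (R : ℝ) / n with hQ
  have hQ1 : 1 ≤ Q := by
    have hn0 : (0 : ℝ) < n := by exact_mod_cast (by omega : 0 < n)
    rw [hQ, le_div_iff₀ hn0, one_mul]; exact_mod_cast (by omega : n ≤ R)
  have e1 : tan (π / 6) * S4D m x = ∫ z, nab (-m) x z ∂μh - ∫ z, nab m x z ∂μh := by
    unfold S4D; exact hID.symm
  have ht : tan (π / 6) = 1 / √3 := tan_pi_div_six
  have h3 : (0 : ℝ) < √3 := by positivity
  have h3' : √3 ≤ 2 := by
    rw [Real.sqrt_le_left (by norm_num)]; norm_num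
  have e2 : |S4D m x| ≤ 2 * (|∫ z, nab (-m) x z ∂μh| + |∫ z, nab m x z ∂μh|) := by
    have e3 : S4D m x = √3 * (∫ z, nab (-m) x z ∂μh - ∫ z, nab m x z ∂μh) := by
      rw [← e1, ht]; field_simp
    rw [e3, abs_mul, abs_of_pos h3]
    exact mul_le_mul h3' (abs_sub _ _) (abs_nonneg _) (by norm_num)
  set T := Q ^ (2 * (A + B)) * exp V * P * E with hT
  have hQp : ∀ y : ℝ, y ≤ 2 * (A + B) → Q ^ y ≤ Q ^ (2 * (A + B)) := fun y hy =>
    Real.rpow_le_rpow_of_exponent_le hQ1 hy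
  have b1 : |∫ z, nab (-m) x z ∂μh| ≤ B * T := by
    refine a2.trans ?_
    have c1 : Q ^ B ≤ Q ^ (2 * (A + B)) := hQp B (by linarith)
    have c2 : B * Q ^ B * exp V * P * E = B * (Q ^ B * exp V * P * E) := by ring
    rw [c2, hT]
    refine mul_le_mul_of_nonneg_left ?_ (by linarith)
    exact mul_le_mul_of_nonneg_right (mul_le_mul_of_nonneg_right (mul_le_mul_of_nonneg_right c1
      (exp_pos _).le) hP0) (by linarith)
  have b2 : |∫ z, nab m x z ∂μh| ≤ A * T := by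
    refine a1.trans ?_
    have c1 : 1 ≤ Q ^ (2 * (A + B)) := Real.one_le_rpow hQ1 (by linarith)
    have c2 : exp (-V) ≤ exp V := exp_le_exp.2 (by linarith)
    have c3 : A * exp (-V) * P = A * (1 * exp (-V) * P * 1) := by ring
    rw [c3, hT]
    refine mul_le_mul_of_nonneg_left ?_ (by linarith)
    refine mul_le_mul (mul_le_mul_of_nonneg_right (mul_le_mul c1 c2 (exp_pos _).le
      (by positivity)) hP0) hE1 zero_le_one ?_
    have := exp_pos V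
    positivity
  calc |S4D m x| ≤ 2 * (B * T + A * T) := e2.trans (by linarith)
    _ = _ := by rw [hT]; ring

/-! ### exponents -/

/-- identity E in the literal form of 522 -/
def HE2 : Prop := ∀ d : ℝ, d > 0 → ∃ η > 0, ∀ᶠ n : ℕ in atTop, ∀ s : ℝ, |s - Real.log 2| ≤ η →
  (n : ℝ) ^ (1 / 12 - d) ≤ ∫ z, Real.exp (s * NN (0, 0) 0 n z) ∂(nu hf) ∧
    ∫ z, Real.exp (s * NN (0, 0) 0 n z) ∂(nu hf) ≤ (n : ℝ) ^ (1 / 12 + d)

theorem cst_den : √3 * (2 * π / 3) * den = 1 / 3 := by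
  unfold Vg109.den
  have h1 : √3 ≠ 0 := by positivity
  have h2 : π ≠ 0 := Real.pi_pos.ne'
  field_simp

/-- the local factor at the level `log2 R` -/
theorem loc_factor (hD : Vg109.HD) {e : ℝ} (he : 0 < e) : ∃ K : ℝ, 0 ≤ K ∧ ∀ R : ℕ, 1 ≤ R →
    |√3 * (2 * π / 3) * VV (Nat.log 2 R) - 1 / 3 * log R| ≤ e * log R + K := by
  have hc : 0 < √3 * (2 * π / 3) := by positivity
  obtain ⟨K, hK, h⟩ := Vg109.VV_log hD (e := e / (√3 * (2 * π / 3))) (by positivity)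
  refine ⟨√3 * (2 * π / 3) * K, by positivity, fun R hR => ?_⟩
  have h1 := h R hR
  have h2 : √3 * (2 * π / 3) * VV (Nat.log 2 R) - 1 / 3 * log R =
      √3 * (2 * π / 3) * (VV (Nat.log 2 R) - den * log R) := by
    rw [← cst_den]; ring
  rw [h2, abs_mul, abs_of_pos hc]
  calc √3 * (2 * π / 3) * |VV (Nat.log 2 R) - den * log R|
      ≤ √3 * (2 * π / 3) * (e / (√3 * (2 * π / 3)) * log R + K) :=
        mul_le_mul_of_nonneg_left h1 hc.le
    _ = _ := by field_simp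

theorem exp_log_rpow {n : ℕ} (hn : 1 ≤ n) (y : ℝ) : exp (y * log n) = (n : ℝ) ^ y := by
  rw [Real.rpow_def_of_pos (by exact_mod_cast hn), mul_comm]

/-- upper and lower bound of the local factor for `n ≤ R ≤ n ^ (1 + τ)` -/
theorem loc_pow (hD : Vg109.HD) {ε : ℝ} (hε : 0 < ε) : ∃ τ0 : ℝ, 0 < τ0 ∧ ∀ᶠ n : ℕ in atTop,
    ∀ R : ℕ, n ≤ R → (R : ℝ) ≤ (n : ℝ) ^ (1 + τ0) →
      exp (√3 * (2 * π / 3) * VV (Nat.log 2 R)) ≤ (n : ℝ) ^ (1 / 3 + ε) := by
  set e : ℝ := min (ε / 4) 1 with hedef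
  have he : 0 < e := lt_min (by linarith) one_pos
  have he1 : e ≤ ε / 4 := min_le_left _ _
  have he2 : e ≤ 1 := min_le_right _ _
  obtain ⟨K, hK, h⟩ := loc_factor hD he
  have hlog : Tendsto (fun n : ℕ => Real.log (n : ℝ)) atTop atTop :=
    Real.tendsto_log_atTop.comp tendsto_natCast_atTop_atTop
  refine ⟨e, he, ?_⟩
  filter_upwards [hlog.eventually_ge_atTop (4 * K / ε), eventually_ge_atTop 1] with n hn1 hn2 R hR1 hR2
  have hn0 : (0 : ℝ) < n := by exact_mod_cast hn2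
  have hR0 : (0 : ℝ) < R := by exact_mod_cast (by omega : 0 < R)
  have h2 := (abs_le.1 (h R (by omega))).2
  have hlR : log R ≤ (1 + e) * log n := by
    have := Real.log_le_log hR0 hR2
    rwa [Real.log_rpow hn0] at this
  have hln : 0 ≤ log n := Real.log_nonneg (by exact_mod_cast hn2)
  rw [← exp_log_rpow hn2]
  apply exp_le_exp.2
  have h3 : 4 * K ≤ ε * log n := by
    rw [div_le_iff₀ hε] at hn1; linarith
  have h4 : (1 / 3 + e) * log R ≤ (1 / 3 + e) * ((1 + e) * log n) :=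
    mul_le_mul_of_nonneg_left hlR (by linarith)
  have h5 : (1 / 3 + e) * (1 + e) ≤ 1 / 3 + 3 * e := by nlinarith
  have h6 : (1 / 3 + e) * (1 + e) * log n ≤ (1 / 3 + 3 * e) * log n :=
    mul_le_mul_of_nonneg_right h5 hln
  nlinarith

theorem loc_pow_neg (hD : Vg109.HD) {ε : ℝ} (hε : 0 < ε) : ∃ τ0 : ℝ, 0 < τ0 ∧
    ∀ᶠ n : ℕ in atTop, ∀ R : ℕ, n ≤ R → (R : ℝ) ≤ (n : ℝ) ^ (1 + τ0) →
      (n : ℝ) ^ (-(1 / 3 : ℝ) - ε) ≤ exp (-(√3 * (2 * π / 3) * VV (Nat.log 2 R))) := by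
  obtain ⟨τ0, h0, h⟩ := loc_pow hD hε
  refine ⟨τ0, h0, ?_⟩
  filter_upwards [h, eventually_ge_atTop 1] with n hn hn1 R h1 h2
  have hn0 : (0 : ℝ) < n := by exact_mod_cast hn1
  have h3 := hn R h1 h2
  rw [exp_neg]
  have h4 : (n : ℝ) ^ (-(1 / 3 : ℝ) - ε) = ((n : ℝ) ^ (1 / 3 + ε))⁻¹ := by
    rw [← Real.rpow_neg hn0.le]; congr 1; ring
  rw [h4]
  exact inv_anti₀ (exp_pos _) h3

end Crest.Agent.R158.Ud107
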