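import Crest.Agent.R158.Gx3_31
import Crest.Agent.R158.Lc5_522
import Crest.Agent.R158.Vx5_107

/-!
# Row 158, Block A4, leaf UB3b (helper430), file 1: the deterministic bound

Two objects: the box `BF (n,0) (4r)` (amplitude `a`) and the ring `rg 0 R` (amplitude `b`), and any
charges `m0` in the box `BF 0 k0`, with `|Fw (tot m0)| ≤ 1`.

* `mG a b n r R m0`, `sysG` : the system
* `FG`, `det`  : `|W m z| ≤ exp (- Lin + Err) * 2 ^ #FG`
-/

set_option autoImplicit false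

noncomputable section

namespace Crest.Agent.R158.Uf430

open Real Function MeasureTheory
open Crest.Agent.R161.Tas682 (sd)
open Crest.Agent.R161.Geo729
open Crest.Agent.R158.It200 (Cfz Corner fc)
open Crest.Agent.R158.Wf850 (Lps Face BF mem_BF Splits card_BF BF_mono sd_self sd_tri sd_symm' NN)
open Crest.Agent.R158.Vx107 (Fw Ntr W tot)
open Crest.Agent.R158.Cn109 (SS QQ lsW smalls mem_smalls VV SS_eq DepF)
open Crest.Agent.R158.Hd109 (Dens Err)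
open Crest.Agent.R158.Rs689 (nu hf)
open Crest.Agent.R158.Em522 (starE)
open Crest.Agent.R158.Gx31

/-- the two objects -/
def Vs (n r R : ℕ) : Fin 2 → Finset Face :=
  ![BF ((n : ℤ), 0) ((4 * r : ℕ) : ℤ), rg (0, 0) R]

/-- levels -/
def ks (r R : ℕ) : Fin 2 → ℕ := ![Nat.log 2 r, Nat.log 2 R - 1]

/-- the charges -/
def mG (a b : ℝ) (n r R : ℕ) (m0 : Face →₀ ℝ) : Face →₀ ℝ :=
  a • ud (BF ((n : ℤ), 0) ((4 * r : ℕ) : ℤ)) + b • ud (rg (0, 0) R) + m0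

/-- the geometry -/
structure Gm (k0 n r R : ℕ) : Prop where
  r3 : 3 ≤ r
  rn : 128 * r ≤ n
  nR : 16 * n ≤ R
  k0n : 2 * k0 ≤ n

section
variable {k0 n r R : ℕ}

theorem Gm.p0 (h : Gm k0 n r R) : 2 ^ Nat.log 2 r ≤ r :=
  Nat.pow_log_le_self 2 (by have := h.r3; omega)

theorem Gm.p0' (h : Gm k0 n r R) : r < 2 * 2 ^ Nat.log 2 r := by
  have := Nat.lt_pow_succ_log_self (b := 2) (by norm_num) r
  rw [pow_succ] at this; omega

theorem Gm.R0 (h : Gm k0 n r R) : 16 * 128 * 3 ≤ R := by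
  have := h.r3; have := h.rn; have := h.nR; omega

theorem Gm.p1 (h : Gm k0 n r R) : 2 * 2 ^ (Nat.log 2 R - 1) ≤ R := by
  have h1 : 2 ^ Nat.log 2 R ≤ R := Nat.pow_log_le_self 2 (by have := h.R0; omega)
  have h2 : 1 ≤ Nat.log 2 R := by
    have := Nat.log_pos (b := 2) (n := R) (by norm_num) (by have := h.R0; omega)
    omega
  have h3 : 2 * 2 ^ (Nat.log 2 R - 1) = 2 ^ Nat.log 2 R := by
    rw [← pow_succ']; congr 1; omega
  omega

theorem Gm.p1' (h : Gm k0 n r R) : R < 4 * 2 ^ (Nat.log 2 R - 1) := by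
  have h1 := Nat.lt_pow_succ_log_self (b := 2) (by norm_num) R
  have h2 : 1 ≤ Nat.log 2 R := by
    have := Nat.log_pos (b := 2) (n := R) (by norm_num) (by have := h.R0; omega)
    omega
  have h3 : 4 * 2 ^ (Nat.log 2 R - 1) = 2 ^ (Nat.log 2 R + 1) := by
    have e : Nat.log 2 R + 1 = Nat.log 2 R - 1 + 2 := by omega
    rw [e, pow_add]; ring
  omega

theorem sd0n (n : ℕ) : sd ((0 : ℤ), (0 : ℤ)) ((n : ℤ), 0) = n := by
  unfold sd; simp

theorem near {v : P2} {n : ℕ} {t : ℤ} (h : sd ((n : ℤ), 0) v ≤ t) :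
    (n : ℤ) - t ≤ sd (0, 0) v ∧ sd (0, 0) v ≤ n + t := by
  have h1 := sd_tri ((0 : ℤ), (0 : ℤ)) ((n : ℤ), 0) v
  have h2 := sd_tri ((0 : ℤ), (0 : ℤ)) v ((n : ℤ), 0)
  rw [sd0n] at h1 h2
  rw [sd_symm' v] at h2
  constructor <;> linarith

theorem Gm.sepVm (h : Gm k0 n r R) {v w : Face} (hv : v ∈ BF ((n : ℤ), 0) ((4 * r : ℕ) : ℤ))
    (hw : w ∈ BF (0, 0) (k0 : ℤ)) : (r : ℤ) ≤ sd v.1 w.1 ∧ (w ∉ BF ((n : ℤ), 0) ((4 * r : ℕ) : ℤ)) := by
  rw [mem_BF] at hv hw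
  have h1 := near hv
  have h2 := sd_tri ((0 : ℤ), (0 : ℤ)) w.1 v.1
  rw [sd_symm' w.1] at h2
  have e1 := h.r3; have e2 := h.rn; have e3 := h.k0n
  constructor
  · push_cast at h1 hw ⊢
    omega
  · intro hw'
    rw [mem_BF] at hw'
    have h3 := near hw'
    push_cast at h3 hw
    omega

theorem Gm.sepVV (h : Gm k0 n r R) {v w : Face} (hv : v ∈ BF ((n : ℤ), 0) ((4 * r : ℕ) : ℤ))
    (hw : w ∈ rg (0, 0) R) : (R : ℤ) ≤ 2 * sd v.1 w.1 := by
  rw [mem_BF] at hv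
  rw [mem_rg] at hw
  have h1 := near hv
  have h2 := sd_tri ((0 : ℤ), (0 : ℤ)) v.1 w.1
  have e1 := h.r3; have e2 := h.rn; have e3 := h.nR
  push_cast at h1 hw ⊢
  omega

theorem Gm.sepRm (h : Gm k0 n r R) {v w : Face} (hv : v ∈ rg (0, 0) R)
    (hw : w ∈ BF (0, 0) (k0 : ℤ)) : (R : ℤ) ≤ 2 * sd v.1 w.1 ∧ w ∉ rg (0, 0) R := by
  rw [mem_BF] at hw
  rw [mem_rg] at hv
  have h2 := sd_tri ((0 : ℤ), (0 : ℤ)) w.1 v.1
  rw [sd_symm' w.1] at h2
  have e1 := h.r3; have e2 := h.rn; have e3 := h.nR; have e4 := h.k0n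
  constructor
  · push_cast at hw ⊢
    omega
  · intro hw'
    rw [mem_rg] at hw'
    push_cast at hw
    omega

theorem Gm.k0R (h : Gm k0 n r R) : (k0 : ℤ) ≤ ((2 * R : ℕ) : ℤ) := by
  have e1 := h.r3; have e2 := h.rn; have e3 := h.nR; have e4 := h.k0n
  push_cast; omega

theorem Gm.V0_sub (h : Gm k0 n r R) :
    BF ((n : ℤ), 0) ((4 * r : ℕ) : ℤ) ⊆ BF (0, 0) ((2 * R : ℕ) : ℤ) := by
  intro f hf
  rw [mem_BF] at hf ⊢
  have h1 := near hf
  have e1 := h.r3; have e2 := h.rn; have e3 := h.nR; have e4 := h.k0n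
  push_cast at h1 ⊢
  omega

theorem rg_sub : rg (0, 0) R ⊆ BF (0, 0) ((2 * R : ℕ) : ℤ) := Finset.sdiff_subset

/-- **the system** -/
theorem sysG (h : Gm k0 n r R) (a b : ℝ) {m0 : Face →₀ ℝ}
    (h0 : m0.support ⊆ BF (0, 0) (k0 : ℤ)) :
    Sys (ks r R) (Vs n r R) (fun i => uf (Vs n r R i)) ![a, b] (mG a b n r R m0) := by
  have c0 : ((2 ^ Nat.log 2 r : ℕ) : ℤ) ≤ r := by exact_mod_cast h.p0
  have c1 : ((2 * 2 ^ (Nat.log 2 R - 1) : ℕ) : ℤ) ≤ R := by exact_mod_cast h.p1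
  have cR : (r : ℤ) * 2 ≤ R := by
    have e1 := h.r3; have e2 := h.rn; have e3 := h.nR
    omega
  push_cast at c0 c1
  have hm0 : ∀ w, m0 w ≠ 0 → w ∈ BF (0, 0) (k0 : ℤ) := fun w hw =>
    h0 (Finsupp.mem_support_iff.2 hw)
  refine Sys.of_ud (m0 := m0) ?_ ?_ ?_ ?_ ?_ ?_
  · intro f
    unfold mG Vs
    rw [Fin.sum_univ_two]
    simp only [Finsupp.add_apply, Finsupp.smul_apply, smul_eq_mul, Matrix.cons_val_zero,
      Matrix.cons_val_one]
  · intro i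
    fin_cases i
    · exact BF_nonempty _ _
    · exact rg_nonempty (by have := h.R0; omega)
  · intro i j hij v hv hw
    fin_cases i <;> fin_cases j
    · exact hij rfl
    · have := h.sepVV (v := v) (w := v) hv hw
      rw [sd_self] at this
      have := h.R0
      omega
    · have := h.sepVV (v := v) (w := v) hw hv
      rw [sd_self] at this
      have := h.R0
      omega
    · exact hij rfl
  · intro i j hij v hv w hw
    fin_cases i <;> fin_cases j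
    · exact absurd rfl hij
    · have := h.sepVV hv hw
      show (2 : ℤ) ^ Nat.log 2 r ≤ _
      omega
    · have := h.sepVV hw hv
      rw [sd_symm'] at this
      show (2 : ℤ) ^ (Nat.log 2 R - 1) ≤ _
      omega
    · exact absurd rfl hij
  · intro i v hv
    by_contra hne
    fin_cases i
    · exact (h.sepVm hv (hm0 v hne)).2 hv
    · exact (h.sepRm hv (hm0 v hne)).2 hv
  · intro i v hv w hw
    fin_cases i
    · have := (h.sepVm hv (hm0 w hw)).1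
      show (2 : ℤ) ^ Nat.log 2 r ≤ _
      omega
    · have := (h.sepRm hv (hm0 w hw)).1
      show (2 : ℤ) ^ (Nat.log 2 R - 1) ≤ _
      omega

/-- the exceptional loops -/
def FG (k0 n r R : ℕ) (z : Cfz) : Set (Finset Face) :=
  (({A | A ∈ Lps z ∧ Splits A (BF (0, 0) (k0 : ℤ))} ∪ CR ((n : ℤ), 0) (4 * r) 8 z) ∪
    CR (0, 0) (2 * R) 8 z) ∪
    {A | A ∈ Lps z ∧ BF ((n : ℤ), 0) ((4 * r : ℕ) : ℤ) ⊆ A ∧ A ⊆ BF ((n : ℤ), 0) ((2 * R : ℕ) : ℤ)}

theorem nn_set (x : P2) (s t : ℤ) (z : Cfz) :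
    {A | A ∈ Lps z ∧ BF x s ⊆ A ∧ A ⊆ BF x t} = (Lc522.nnF x s t z : Set (Finset Face)) := by
  ext A
  rw [Finset.mem_coe, Lc522.mem_nnF]
  constructor
  · rintro ⟨h1, h2, h3⟩; exact ⟨h3, h2, h1⟩
  · rintro ⟨h1, h2, h3⟩; exact ⟨h3, h2, h1⟩

theorem FG_fin (k0 n r R : ℕ) (z : Cfz) : (FG k0 n r R z).Finite := by
  refine (((Wf850.fin_split z _ _).union (CR_fin _ _ _ _)).union (CR_fin _ _ _ _)).union ?_
  rw [nn_set]
  exact Finset.finite_toSet _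

theorem FG_card (k0 n r R : ℕ) (z : Cfz) : (FG k0 n r R z).ncard ≤
    (2 * k0 + 1) ^ 2 * 4 + (CR ((n : ℤ), 0) (4 * r) 8 z).ncard + (CR (0, 0) (2 * R) 8 z).ncard +
      NN ((n : ℤ), 0) ((4 * r : ℕ) : ℤ) ((2 * R : ℕ) : ℤ) z := by
  have h1 := Set.ncard_union_le
    (({A | A ∈ Lps z ∧ Splits A (BF (0, 0) (k0 : ℤ))} ∪ CR ((n : ℤ), 0) (4 * r) 8 z) ∪
      CR (0, 0) (2 * R) 8 z)
    {A | A ∈ Lps z ∧ BF ((n : ℤ), 0) ((4 * r : ℕ) : ℤ) ⊆ A ∧
      A ⊆ BF ((n : ℤ), 0) ((2 * R : ℕ) : ℤ)}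
  have h2 := Set.ncard_union_le
    ({A | A ∈ Lps z ∧ Splits A (BF (0, 0) (k0 : ℤ))} ∪ CR ((n : ℤ), 0) (4 * r) 8 z)
    (CR (0, 0) (2 * R) 8 z)
  have h3 := Set.ncard_union_le {A | A ∈ Lps z ∧ Splits A (BF (0, 0) (k0 : ℤ))}
    (CR ((n : ℤ), 0) (4 * r) 8 z)
  have h4 : {A | A ∈ Lps z ∧ Splits A (BF (0, 0) (k0 : ℤ))}.ncard ≤ (2 * k0 + 1) ^ 2 * 4 := by
    have hfin := Wf850.fin_split z (0, 0) (k0 : ℤ)
    rw [Set.ncard_eq_toFinset_card _ hfin]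
    refine Lc522.card_split_le (z := z) (x := (0, 0)) _ fun A hA => ?_
    exact (hfin.mem_toFinset).1 hA
  have h5 : {A | A ∈ Lps z ∧ BF ((n : ℤ), 0) ((4 * r : ℕ) : ℤ) ⊆ A ∧
      A ⊆ BF ((n : ℤ), 0) ((2 * R : ℕ) : ℤ)}.ncard =
      NN ((n : ℤ), 0) ((4 * r : ℕ) : ℤ) ((2 * R : ℕ) : ℤ) z := by
    rw [nn_set, Set.ncard_coe_finset, Lc522.nnF_card]
  unfold FG
  omega

theorem mass_mG (a b : ℝ) (n r R : ℕ) (m0 : Face →₀ ℝ) (A : Finset Face) :
    Vx107.mass (mG a b n r R m0) A =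
      a * Vx107.mass (ud (BF ((n : ℤ), 0) ((4 * r : ℕ) : ℤ))) A +
        b * Vx107.mass (ud (rg (0, 0) R)) A + Vx107.mass m0 A := by
  unfold mG
  rw [Vx107.mass_add, Vx107.mass_add, Vx107.mass_smul, Vx107.mass_smul]

/-- all the charges inside -/
theorem mass_all {m : Face →₀ ℝ} {A : Finset Face} (h : m.support ⊆ A) :
    Vx107.mass m A = tot m := by
  unfold Vx107.mass tot Finsupp.sum
  exact (Finset.sum_subset h fun f _ hf => Finsupp.notMem_support_iff.1 hf).symm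

theorem mass_none {m : Face →₀ ℝ} {A : Finset Face} (h : ∀ f ∈ m.support, f ∉ A) :
    Vx107.mass m A = 0 := by
  unfold Vx107.mass
  refine Finset.sum_eq_zero fun f hf => ?_
  by_contra hne
  exact h f (Finsupp.mem_support_iff.2 hne) hf

/-- either all or none of a box, if it is not split -/
theorem all_or_none {A B : Finset Face} (h : ¬ Splits A B) : B ⊆ A ∨ ∀ f ∈ B, f ∉ A := by
  by_contra hcon
  push Not at hcon
  obtain ⟨h1, f, hf, hfA⟩ := hcon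
  rw [Finset.not_subset] at h1
  exact h ⟨⟨f, hf, hfA⟩, h1⟩

/-- the loops which are neither local nor exceptional -/
theorem free1 (h : Gm k0 n r R) {a b : ℝ} {m0 : Face →₀ ℝ}
    (h0 : m0.support ⊆ BF (0, 0) (k0 : ℤ)) (h1 : |Fw (tot m0)| ≤ 1)
    (hm : Ntr (mG a b n r R m0)) {z : Cfz} {A : Finset Face} (hA : A ∈ Lps z)
    (hL : A ∉ Loc (ks r R) (Vs n r R) z) (hF : A ∉ FG k0 n r R z) :
    |Fw (Vx107.mass (mG a b n r R m0) A)| ≤ 1 := by
  have hF0 : ¬ Splits A (BF (0, 0) (k0 : ℤ)) := fun h' => hF (Or.inl (Or.inl (Or.inl ⟨hA, h'⟩)))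
  have hF1 : A ∉ CR ((n : ℤ), 0) (4 * r) 8 z := fun h' => hF (Or.inl (Or.inl (Or.inr h')))
  have hF2 : A ∉ CR (0, 0) (2 * R) 8 z := fun h' => hF (Or.inl (Or.inr h'))
  have hF3 : BF ((n : ℤ), 0) ((4 * r : ℕ) : ℤ) ⊆ A →
      ¬ A ⊆ BF ((n : ℤ), 0) ((2 * R : ℕ) : ℤ) := fun h2 h3 => hF (Or.inr ⟨hA, h2, h3⟩)
  -- the box is not split
  have k1 : ¬ Splits A (BF ((n : ℤ), 0) ((4 * r : ℕ) : ℤ)) := by
    intro hs
    apply hL
    rw [mem_Loc']
    refine ⟨hA, 0, ?_, ?_⟩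
    · obtain ⟨⟨f, hf, hfA⟩, _⟩ := hs
      exact ⟨f, hf, hfA⟩
    · by_contra hcon
      refine hF1 ⟨hA, hs, ?_⟩
      have h2 : ¬ Cn109.dia A + 1 < 2 ^ Nat.log 2 r := hcon
      have := h.p0'
      omega
  have k2 : (∃ v ∈ BF (0, 0) ((2 * R : ℕ) : ℤ), v ∈ A) →
      ((∃ v ∈ rg (0, 0) R, v ∈ A) ∨ 2 * R ≤ 8 * (Cn109.dia A + 1)) →
      BF (0, 0) ((2 * R : ℕ) : ℤ) ⊆ A := by
    intro hv hd
    by_contra hcon
    rw [Finset.not_subset] at hcon
    have hs : Splits A (BF (0, 0) ((2 * R : ℕ) : ℤ)) := ⟨hv, hcon⟩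
    rcases hd with hd | hd
    · apply hL
      rw [mem_Loc']
      refine ⟨hA, 1, hd, ?_⟩
      by_contra hcon'
      refine hF2 ⟨hA, hs, ?_⟩
      have h2 : ¬ Cn109.dia A + 1 < 2 ^ (Nat.log 2 R - 1) := hcon'
      have := h.p1'
      omega
    · exact hF2 ⟨hA, hs, hd⟩
  -- everything inside
  have kall : BF (0, 0) ((2 * R : ℕ) : ℤ) ⊆ A → |Fw (Vx107.mass (mG a b n r R m0) A)| ≤ 1 := by
    intro hall
    have e : Vx107.mass (mG a b n r R m0) A = 0 := by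
      rw [mass_all, hm]
      intro f hf
      refine hall ?_
      by_contra hcon
      rw [Finsupp.mem_support_iff] at hf
      apply hf
      unfold mG
      rw [Finsupp.add_apply, Finsupp.add_apply, Finsupp.smul_apply, Finsupp.smul_apply,
        ud_not_mem (fun h' => hcon (h.V0_sub h')), ud_not_mem (fun h' => hcon (rg_sub h'))]
      have : m0 f = 0 := by
        by_contra hne
        exact hcon (BF_mono h.k0R (h0 (Finsupp.mem_support_iff.2 hne)))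
      rw [this]
      simp
    rw [e, Vx107.Fw_zero, abs_one]
  by_cases kr : ∃ v ∈ rg (0, 0) R, v ∈ A
  · obtain ⟨v, hv, hvA⟩ := kr
    exact kall (k2 ⟨v, rg_sub hv, hvA⟩ (Or.inl ⟨v, hv, hvA⟩))
  · push Not at kr
    rcases all_or_none k1 with k3 | k3
    · -- contains the box
      have h4 := hF3 k3
      have hd := Lc522.dia_ge' (x := ((n : ℤ), 0)) (n := 2 * R) (r := 4 * r) k3 h4
      refine kall (k2 ?_ (Or.inr (by omega)))
      obtain ⟨f, hf⟩ := BF_nonempty ((n : ℤ), 0) (4 * r)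
      exact ⟨f, h.V0_sub hf, k3 hf⟩
    · rw [mass_mG, mass_ud_zero k3, mass_ud_zero kr, mul_zero, mul_zero, zero_add, zero_add]
      rcases all_or_none hF0 with k4 | k4
      · rw [mass_all (h0.trans k4)]; exact h1
      · rw [mass_none (fun f hf => k4 f (h0 hf)), Vx107.Fw_zero, abs_one]

/-- **deterministic bound** -/
theorem det (h : Gm k0 n r R) {a b : ℝ} {m0 : Face →₀ ℝ}
    (h0 : m0.support ⊆ BF (0, 0) (k0 : ℤ)) (h1 : |Fw (tot m0)| ≤ 1)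
    (hm : Ntr (mG a b n r R m0)) (z : Cfz) :
    |W (mG a b n r R m0) z| ≤
      exp (-Lin ![a, b] (ks r R) + Err (fun i => √3 * ![a, b] i) (fun i => 12 * ![a, b] i ^ 2)
        (ks r R) (Vs n r R) (fun i => uf (Vs n r R i)) z) * 2 ^ (FG k0 n r R z).ncard := by
  have hg := GU (sysG h a b h0) (z := z) (S := Lps z) (fun A hA => Loc_sub hA)
    (g := fun A => Fw (Vx107.mass (mG a b n r R m0) A))
    (Vx107.fin_supp hm (le_refl _)) (fun A _ => le_rfl)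
  refine hg.trans (mul_le_mul_of_nonneg_left ?_ (exp_pos _).le)
  refine free_le' (FG_fin k0 n r R z) (fun A hA hF => ?_) (fun A hA => Vx107.abs_Fw_le _)
  exact free1 h h0 h1 hm hA.1 hA.2 hF

end

end Crest.Agent.R158.Uf430
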