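import Crest.Agent.R158.Uf1_430
import Crest.Agent.R158.Fi3_442

/-!
# Row 158, Block A4, leaf UB3b (helper430), file 2: the moments

* `lin_cmp`   : `|Lin - √3 (a + b) VV (log2 n)| ≤ C log (R / r)`
* `um_gen`    : `∫ |W (mG a b n r R m0)|^q ≤ (C (R/r)^C exp (- √3 (a+b) VV (log2 n)))^q`
* `uf_gen`    : `∫ 1_E |W| ≤ C (R/r)^C exp (..) P(E)^(1-δ)`
* `Um`, `Uf`  : the same for `Xs μ c`, `μ = (5π/6) ud (BF (n,0) (4r)) + (π/6) ud (rg 0 R)`
-/

set_option autoImplicit false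

noncomputable section

namespace Crest.Agent.R158.Uf430

open Real Function MeasureTheory
open Crest.Agent.R161.Tas682 (sd)
open Crest.Agent.R161.Geo729
open Crest.Agent.R158.It200 (Cfz Corner fc)
open Crest.Agent.R158.Wf850 (Lps Face BF mem_BF Splits card_BF BF_mono sd_self sd_tri sd_symm' NN
  cv cf)
open Crest.Agent.R158.Vx107 (Fw Ntr W tot chv dC Xs)
open Crest.Agent.R158.Cn109 (SS QQ lsW smalls mem_smalls VV SS_eq DepF)
open Crest.Agent.R158.Hd109 (Dens Err)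
open Crest.Agent.R158.Rs689 (nu hf)
open Crest.Agent.R158.Em522 (starE)
open Crest.Agent.R158.Gx31

variable {k0 n r R : ℕ}

theorem Gm.rpos (h : Gm k0 n r R) : (0 : ℝ) < r := by
  have := h.r3
  exact_mod_cast (by omega : 0 < r)

theorem Gm.ratio (h : Gm k0 n r R) : (2 : ℝ) ≤ (R : ℝ) / r := by
  rw [le_div_iff₀ h.rpos]
  have h1 := h.rn
  have h2 := h.nR
  have h3 := h.r3
  exact_mod_cast (by omega : 2 * r ≤ R)

/-- the number of dyadic scales -/
theorem Gm.scales (h : Gm k0 n r R) :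
    ((Nat.log 2 R : ℕ) : ℝ) - Nat.log 2 r ≤ 3 * Real.log ((R : ℝ) / r) := by
  have hr := h.rpos
  have hR : (0 : ℝ) < R := by have := h.R0; exact_mod_cast (by omega : 0 < R)
  have h1 : ((2 ^ Nat.log 2 R : ℕ) : ℝ) ≤ R := by
    exact_mod_cast Nat.pow_log_le_self 2 (by have := h.R0; omega)
  have h2 : (r : ℝ) ≤ ((2 * 2 ^ Nat.log 2 r : ℕ) : ℝ) := by exact_mod_cast h.p0'.le
  push_cast at h1 h2
  have l1 : (Nat.log 2 R : ℝ) * Real.log 2 ≤ Real.log R := by
    rw [← Real.log_pow]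
    exact Real.log_le_log (by positivity) h1
  have l2 : Real.log r ≤ Real.log 2 + (Nat.log 2 r : ℝ) * Real.log 2 := by
    rw [← Real.log_pow, ← Real.log_mul (by norm_num) (by positivity)]
    exact Real.log_le_log hr h2
  have l3 : Real.log ((R : ℝ) / r) = Real.log R - Real.log r := Real.log_div hR.ne' hr.ne'
  have l4 : Real.log 2 ≤ Real.log ((R : ℝ) / r) := Real.log_le_log (by norm_num) h.ratio
  have l5 : (0.6931471803 : ℝ) < Real.log 2 := Real.log_two_gt_d9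
  set x : ℝ := ((Nat.log 2 R : ℕ) : ℝ)
  set y : ℝ := ((Nat.log 2 r : ℕ) : ℝ)
  set L := Real.log ((R : ℝ) / r)
  have l6 : (x - y) * Real.log 2 ≤ 2 * L := by linarith
  by_contra hcon
  push Not at hcon
  have hL : 0 < L := by linarith
  nlinarith

/-- comparison of the linear exponent -/
theorem lin_cmp (a b : ℝ) : ∃ C : ℝ, 0 ≤ C ∧ ∀ k0 n r R : ℕ, Gm k0 n r R →
    |Lin ![a, b] (ks r R) - √3 * ((a + b) * VV (Nat.log 2 n))| ≤ C * Real.log ((R : ℝ) / r) := by
  obtain ⟨C, hC, hV⟩ := VV_abs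
  refine ⟨√3 * ((|a| + |b|) * (C * 3)), by positivity, fun k0 n r R h => ?_⟩
  have hs := h.scales
  have g1 : Nat.log 2 r ≤ Nat.log 2 n := Nat.log_mono_right (by have := h.rn; omega)
  have g2 : Nat.log 2 n ≤ Nat.log 2 R - 1 := by
    have h1 : Nat.log 2 (n * 2) ≤ Nat.log 2 R := Nat.log_mono_right (by have := h.nR; omega)
    rw [Nat.log_mul_base (by norm_num) (by have := h.rn; have := h.r3; omega)] at h1
    omega
  have g3 : Nat.log 2 R - 1 ≤ Nat.log 2 R := Nat.sub_le _ _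
  have c1 : (Nat.log 2 r : ℝ) ≤ Nat.log 2 n := by exact_mod_cast g1
  have c2 : (Nat.log 2 n : ℝ) ≤ ((Nat.log 2 R - 1 : ℕ) : ℝ) := by exact_mod_cast g2
  have c3 : ((Nat.log 2 R - 1 : ℕ) : ℝ) ≤ Nat.log 2 R := by exact_mod_cast g3
  have v0 : |VV (Nat.log 2 r) - VV (Nat.log 2 n)| ≤ C * (3 * Real.log ((R : ℝ) / r)) := by
    refine (hV _ _).trans (mul_le_mul_of_nonneg_left ?_ hC)
    rw [abs_sub_comm, abs_of_nonneg (by linarith)]
    linarith
  have v1 : |VV (Nat.log 2 R - 1) - VV (Nat.log 2 n)| ≤ C * (3 * Real.log ((R : ℝ) / r)) := by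
    refine (hV _ _).trans (mul_le_mul_of_nonneg_left ?_ hC)
    rw [abs_of_nonneg (by linarith)]
    linarith
  have e : Lin ![a, b] (ks r R) - √3 * ((a + b) * VV (Nat.log 2 n)) =
      √3 * (a * (VV (Nat.log 2 r) - VV (Nat.log 2 n)) +
        b * (VV (Nat.log 2 R - 1) - VV (Nat.log 2 n))) := by
    unfold Lin ks
    rw [Fin.sum_univ_two]
    simp only [Matrix.cons_val_zero, Matrix.cons_val_one]
    ring
  rw [e, abs_mul, abs_of_nonneg (Real.sqrt_nonneg 3)]
  have h1 : |a * (VV (Nat.log 2 r) - VV (Nat.log 2 n)) +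
      b * (VV (Nat.log 2 R - 1) - VV (Nat.log 2 n))| ≤
      |a| * (C * (3 * Real.log ((R : ℝ) / r))) + |b| * (C * (3 * Real.log ((R : ℝ) / r))) := by
    refine (abs_add_le _ _).trans (add_le_add ?_ ?_)
    · rw [abs_mul]; exact mul_le_mul_of_nonneg_left v0 (abs_nonneg a)
    · rw [abs_mul]; exact mul_le_mul_of_nonneg_left v1 (abs_nonneg b)
  calc √3 * _ ≤ √3 * (|a| * (C * (3 * Real.log ((R : ℝ) / r))) +
        |b| * (C * (3 * Real.log ((R : ℝ) / r)))) :=
        mul_le_mul_of_nonneg_left h1 (Real.sqrt_nonneg 3)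
    _ = _ := by ring

/-- the densities -/
theorem dens (h : Gm k0 n r R) (i : Fin 2) :
    Dens (1 / 8) (ks r R i) (Vs n r R i) (uf (Vs n r R i)) := by
  fin_cases i
  · refine dens_ud (BF_nonempty _ _) (bq_card (ρ := 4 * r) ?_)
    show 2 ^ Nat.log 2 r ≤ 4 * r
    have := h.p0
    omega
  · refine dens_ud (rg_nonempty (by have := h.R0; omega)) ?_
    refine (rg_card (x := (0, 0)) (R := R) ?_).trans ?_
    · show 2 ^ (Nat.log 2 R - 1) ≤ R
      have := h.p1
      omega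
    · have : (0 : ℝ) ≤ (rg (0, 0) R).card := by positivity
      show _ ≤ 1 / 8 * ((rg (0, 0) R).card : ℝ)
      linarith

theorem exp_pow_nat (t : ℝ) (k : ℕ) : exp (t * k) = exp t ^ k := by
  rw [mul_comm, Real.exp_nat_mul]

open Classical in
theorem dadd {S T : Finset Edge} {f g : Cfz → ℝ} (hf : DepF S f) (hg : DepF T g) :
    DepF (S ∪ T) (fun z => f z + g z) :=
  (hf.mono Finset.subset_union_left).add (hg.mono Finset.subset_union_right)

/-- **moments of the free part**: all constants fixed -/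
theorem mom (a b : ℝ) (k0 : ℕ) {q : ℝ} (hq : 1 ≤ q) : ∃ C : ℝ, 1 ≤ C ∧ ∀ n r R : ℕ,
    Gm k0 n r R → ∃ L : Cfz → ℝ, (∃ S, DepF S L) ∧
      (∀ z, exp (Err (fun i => √3 * ![a, b] i) (fun i => 12 * ![a, b] i ^ 2)
        (ks r R) (Vs n r R) (fun i => uf (Vs n r R i)) z) * 2 ^ (FG k0 n r R z).ncard ≤
          C * exp (L z)) ∧
      ∫ z, exp (q * L z) ∂(nu hf) ≤ C * ((R : ℝ) / r) ^ C := by
  have hlog : 0 < Real.log 2 := Real.log_pos (by norm_num)
  obtain ⟨G, hG, hGm⟩ := Hd109.lin_moments (ι := Fin 2) (C := 1 / 8) (by norm_num)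
    (fun i => √3 * ![a, b] i) (fun i => 12 * ![a, b] i ^ 2) (4 * q) (by linarith)
    (fun i => by positivity)
  obtain ⟨C1, hC1, hT⟩ := T_mom (exp (4 * q * Real.log 2)) (Real.one_le_exp (by positivity)) 8
  obtain ⟨C2, hC2, hN⟩ := Lc522.apriori_pow (4 * q * Real.log 2) (by positivity)
  set K0 : ℕ := (2 * k0 + 1) ^ 2 * 4 with hK0
  set C := max (2 ^ K0) (G + C1 + C1 + C2) with hC
  have hCC : G + C1 + C1 + C2 ≤ C := le_max_right _ _
  refine ⟨C, by linarith, fun n r R h => ?_⟩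
  obtain ⟨T1, hT1, hT1', hT1''⟩ := hT ((n : ℤ), 0) (4 * r) (by have := h.r3; omega)
  obtain ⟨T2, hT2, hT2', hT2''⟩ := hT (0, 0) (2 * R) (by have := h.R0; omega)
  set E := Err (fun i => √3 * ![a, b] i) (fun i => 12 * ![a, b] i ^ 2)
        (ks r R) (Vs n r R) (fun i => uf (Vs n r R i)) with hE
  set N := NN ((n : ℤ), 0) ((4 * r : ℕ) : ℤ) ((2 * R : ℕ) : ℤ) with hNdef
  have dE := Hd109.Err_dep (fun i => √3 * ![a, b] i) (fun i => 12 * ![a, b] i ^ 2)
        (ks r R) (Vs n r R) (fun i => uf (Vs n r R i))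
  have dN : DepF _ N := Wf850.NN_dep ((n : ℤ), 0) ((4 * r : ℕ) : ℤ) ((2 * R : ℕ) : ℤ)
  classical
  refine ⟨fun z => E z + Real.log 2 * T1 z + Real.log 2 * T2 z + Real.log 2 * N z, ?_, ?_, ?_⟩
  · exact ⟨_, dadd (dadd (dadd dE (hT1.comp fun t : ℕ => Real.log 2 * t))
      (hT2.comp fun t : ℕ => Real.log 2 * t)) (dN.comp fun t : ℕ => Real.log 2 * t)⟩
  · intro z
    have h1 := FG_card k0 n r R z
    have h2 : (FG k0 n r R z).ncard ≤ K0 + T1 z + T2 z + N z :=
      h1.trans (Nat.add_le_add_right (Nat.add_le_add (Nat.add_le_add_left (hT1'' z) _)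
        (hT2'' z)) _)
    have h3 : (2 : ℝ) ^ (FG k0 n r R z).ncard ≤
        2 ^ K0 * exp (Real.log 2 * T1 z + Real.log 2 * T2 z + Real.log 2 * N z) := by
      refine (pow_le_pow_right₀ (by norm_num) h2).trans (le_of_eq ?_)
      rw [Real.exp_add, Real.exp_add, exp_pow_nat, exp_pow_nat, exp_pow_nat,
        Real.exp_log (by norm_num), pow_add, pow_add, pow_add]
      ring
    calc exp (E z) * 2 ^ (FG k0 n r R z).ncard ≤ exp (E z) *
          (2 ^ K0 * exp (Real.log 2 * T1 z + Real.log 2 * T2 z + Real.log 2 * N z)) :=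
          mul_le_mul_of_nonneg_left h3 (exp_pos _).le
      _ = 2 ^ K0 * exp (E z + Real.log 2 * T1 z + Real.log 2 * T2 z + Real.log 2 * N z) := by
          have e1 : E z + Real.log 2 * T1 z + Real.log 2 * T2 z + Real.log 2 * N z =
            E z + (Real.log 2 * T1 z + Real.log 2 * T2 z + Real.log 2 * N z) := by ring
          rw [e1, Real.exp_add (E z)]
          ring
      _ ≤ _ := mul_le_mul_of_nonneg_right (le_max_left _ _) (exp_pos _).le
  · have i1 : Integrable (fun z => exp (4 * q * E z)) (nu hf) :=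
      (dE.comp fun x => exp (4 * q * x)).integrable _
    have i2 : Integrable (fun z => exp (4 * q * (Real.log 2 * T1 z))) (nu hf) :=
      (hT1.comp fun x : ℕ => exp (4 * q * (Real.log 2 * x))).integrable _
    have i3 : Integrable (fun z => exp (4 * q * (Real.log 2 * T2 z))) (nu hf) :=
      (hT2.comp fun x : ℕ => exp (4 * q * (Real.log 2 * x))).integrable _
    have i4 : Integrable (fun z => exp (4 * q * (Real.log 2 * N z))) (nu hf) :=
      (dN.comp fun x : ℕ => exp (4 * q * (Real.log 2 * x))).integrable _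
    have b1 : ∫ z, exp (4 * q * E z) ∂(nu hf) ≤ G := hGm _ _ _ fun i => dens h i
    have b2 : ∫ z, exp (4 * q * (Real.log 2 * T1 z)) ∂(nu hf) ≤ C1 := by
      refine le_trans (le_of_eq ?_) hT1'
      refine integral_congr_ae (Filter.Eventually.of_forall fun z => ?_)
      simp only
      rw [← exp_pow_nat]; congr 1; ring
    have b3 : ∫ z, exp (4 * q * (Real.log 2 * T2 z)) ∂(nu hf) ≤ C1 := by
      refine le_trans (le_of_eq ?_) hT2'
      refine integral_congr_ae (Filter.Eventually.of_forall fun z => ?_)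
      simp only
      rw [← exp_pow_nat]; congr 1; ring
    have hrat := h.ratio
    have b4 : ∫ z, exp (4 * q * (Real.log 2 * N z)) ∂(nu hf) ≤ C2 * ((R : ℝ) / r) ^ C2 := by
      have h4 := hN ((n : ℤ), 0) (4 * r) (2 * R) (by have := h.r3; omega)
        (by have := h.rn; have := h.nR; omega)
      have h5 : ∫ z, exp (4 * q * (Real.log 2 * N z)) ∂(nu hf) =
          ∫ z, exp (4 * q * Real.log 2 * NN ((n : ℤ), 0) ((4 * r : ℕ) : ℤ) ((2 * R : ℕ) : ℤ) z)
            ∂(nu hf) := by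
        refine integral_congr_ae (Filter.Eventually.of_forall fun z => ?_)
        simp only
        rw [hNdef]
        congr 1; ring
      rw [h5]
      refine h4.trans (mul_le_mul_of_nonneg_left ?_ (by linarith))
      refine Real.rpow_le_rpow (by positivity) ?_ (by linarith)
      push_cast
      rw [div_le_div_iff₀ (by have := h.rpos; positivity) h.rpos]
      have := h.rpos
      have : (0 : ℝ) ≤ R := by positivity
      nlinarith
    refine (exp_four i1 i2 i3 i4).trans ?_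
    have c1 : 1 ≤ ((R : ℝ) / r) ^ C2 := Real.one_le_rpow (by linarith) (by linarith)
    have c2 : ((R : ℝ) / r) ^ C2 ≤ ((R : ℝ) / r) ^ C :=
      Real.rpow_le_rpow_of_exponent_le (by linarith) (by linarith)
    calc _ ≤ G + C1 + C1 + C2 * ((R : ℝ) / r) ^ C2 := by linarith
      _ ≤ (G + C1 + C1 + C2) * ((R : ℝ) / r) ^ C2 := by
          have : 0 ≤ G + C1 + C1 := by linarith
          nlinarith
      _ ≤ C * ((R : ℝ) / r) ^ C := mul_le_mul hCC c2 (by positivity) (by linarith)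

/-- pointwise majorant -/
theorem major (a b : ℝ) (k0 : ℕ) {q : ℝ} (hq : 1 ≤ q) : ∃ C : ℝ, 1 ≤ C ∧ ∀ n r R : ℕ,
    Gm k0 n r R → ∃ L : Cfz → ℝ, (∃ S, DepF S L) ∧
      (∀ m0 : Face →₀ ℝ, m0.support ⊆ BF (0, 0) (k0 : ℤ) → |Fw (tot m0)| ≤ 1 →
        Ntr (mG a b n r R m0) → ∀ z, |W (mG a b n r R m0) z| ≤
          C * ((R : ℝ) / r) ^ C * exp (-(√3 * ((a + b) * VV (Nat.log 2 n)))) * exp (L z)) ∧
      ∫ z, exp (q * L z) ∂(nu hf) ≤ C * ((R : ℝ) / r) ^ C := by
  obtain ⟨C1, hC1, h1⟩ := lin_cmp a b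
  obtain ⟨C2, hC2, h2⟩ := mom a b k0 hq
  set C := max C2 C1 with hC
  have k1 : C1 ≤ C := le_max_right _ _
  have k2 : C2 ≤ C := le_max_left _ _
  refine ⟨C, by linarith, fun n r R h => ?_⟩
  obtain ⟨L, hL, hL1, hL2⟩ := h2 n r R h
  have hrat := h.ratio
  have hpos : 0 < (R : ℝ) / r := by linarith
  refine ⟨L, hL, fun m0 hm0 hm1 hm2 z => ?_, ?_⟩
  · refine (det h hm0 hm1 hm2 z).trans ?_
    rw [Real.exp_add, mul_assoc]
    have e1 : exp (-Lin ![a, b] (ks r R)) ≤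
        ((R : ℝ) / r) ^ C1 * exp (-(√3 * ((a + b) * VV (Nat.log 2 n)))) := by
      rw [Real.rpow_def_of_pos hpos, ← Real.exp_add]
      apply exp_le_exp.2
      have h3 := h1 k0 n r R h
      rw [abs_le] at h3
      linarith [h3.1]
    have e2 : ((R : ℝ) / r) ^ C1 ≤ ((R : ℝ) / r) ^ C :=
      Real.rpow_le_rpow_of_exponent_le (by linarith) k1
    calc _ ≤ (((R : ℝ) / r) ^ C * exp (-(√3 * ((a + b) * VV (Nat.log 2 n))))) * (C * exp (L z)) := by
          refine mul_le_mul (e1.trans (mul_le_mul_of_nonneg_right e2 (exp_pos _).le))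
            ((hL1 z).trans (mul_le_mul_of_nonneg_right k2 (exp_pos _).le)) (by positivity)
            (by positivity)
      _ = _ := by ring
  · refine hL2.trans (mul_le_mul k2 ?_ (by positivity) (by linarith))
    exact Real.rpow_le_rpow_of_exponent_le (by linarith) k2

/-- **(Um), general form** -/
theorem um_gen (a b : ℝ) (k0 : ℕ) {q : ℝ} (hq : 1 ≤ q) : ∃ C : ℝ, 1 ≤ C ∧ ∀ n r R : ℕ,
    Gm k0 n r R → ∀ m0 : Face →₀ ℝ, m0.support ⊆ BF (0, 0) (k0 : ℤ) → |Fw (tot m0)| ≤ 1 →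
      Ntr (mG a b n r R m0) → ∫ z, |W (mG a b n r R m0) z| ^ q ∂(nu hf) ≤
        (C * ((R : ℝ) / r) ^ C * exp (-(√3 * ((a + b) * VV (Nat.log 2 n))))) ^ q := by
  obtain ⟨C, hC, h1⟩ := major a b k0 hq
  refine ⟨C ^ 2 + 2 * C, by nlinarith, fun n r R h m0 hm0 hm1 hm2 => ?_⟩
  obtain ⟨L, ⟨S, hL⟩, hL1, hL2⟩ := h1 n r R h
  have hrat := h.ratio
  set ρ : ℝ := (R : ℝ) / r with hρ
  have hpos : 0 < ρ := by linarith
  set B := exp (-(√3 * ((a + b) * VV (Nat.log 2 n)))) with hB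
  have hB0 : 0 < B := exp_pos _
  have hq0 : 0 ≤ q := by linarith
  have hA : 1 ≤ C * ρ ^ C := by
    have : 1 ≤ ρ ^ C := Real.one_le_rpow (by linarith) (by linarith)
    nlinarith
  have i1 : Integrable (fun z => exp (q * L z)) (nu hf) :=
    (hL.comp fun x => exp (q * x)).integrable _
  calc ∫ z, |W (mG a b n r R m0) z| ^ q ∂(nu hf)
      ≤ ∫ z, (C * ρ ^ C * B) ^ q * exp (q * L z) ∂(nu hf) := by
        refine integral_mono_of_nonneg (Filter.Eventually.of_forall fun z => by positivity)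
          (i1.const_mul _) (Filter.Eventually.of_forall fun z => ?_)
        simp only
        have h2 := hL1 m0 hm0 hm1 hm2 z
        refine (Real.rpow_le_rpow (abs_nonneg _) h2 hq0).trans (le_of_eq ?_)
        rw [Real.mul_rpow (by positivity) (exp_pos _).le, ← Real.exp_mul, mul_comm (L z) q]
    _ = (C * ρ ^ C * B) ^ q * ∫ z, exp (q * L z) ∂(nu hf) := integral_const_mul _ _
    _ ≤ (C * ρ ^ C * B) ^ q * (C * ρ ^ C) ^ q := by
        refine mul_le_mul_of_nonneg_left (hL2.trans ?_) (by positivity)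
        exact Real.self_le_rpow_of_one_le hA hq
    _ = (C ^ 2 * ρ ^ (2 * C) * B) ^ q := by
        rw [← Real.mul_rpow (by positivity) (by positivity)]
        congr 1
        rw [two_mul, Real.rpow_add hpos]
        ring
    _ ≤ ((C ^ 2 + 2 * C) * ρ ^ (C ^ 2 + 2 * C) * B) ^ q := by
        refine Real.rpow_le_rpow (by positivity) ?_ hq0
        refine mul_le_mul_of_nonneg_right (mul_le_mul (by nlinarith) ?_ (by positivity)
          (by positivity)) hB0.le
        exact Real.rpow_le_rpow_of_exponent_le (by linarith) (by nlinarith)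

/-- Hölder for a bounded function and an event -/
theorem hoelder_ev {δ : ℝ} (h0 : 0 < δ) (h1 : δ < 1) {X : Cfz → ℝ} (hX : Measurable X)
    (hi : Integrable (fun z => |X z| ^ (1 / δ)) (nu hf)) {E : Set Cfz} (hE : MeasurableSet E) :
    |∫ z, E.indicator X z ∂(nu hf)| ≤
      (nu hf).real E ^ (1 - δ) * (∫ z, |X z| ^ (1 / δ) ∂(nu hf)) ^ δ := by
  have h1' : 0 < 1 - δ := by linarith
  have hpq : (1 / (1 - δ)).HolderConjugate (1 / δ) := by
    rw [Real.holderConjugate_iff]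
    refine ⟨?_, ?_⟩
    · rw [lt_div_iff₀ h1']; linarith
    · simp
  have hind : ∀ z, E.indicator (fun _ => (1 : ℝ)) z ^ (1 / (1 - δ)) =
      E.indicator (fun _ => (1 : ℝ)) z := by
    intro z
    by_cases hz : z ∈ E
    · rw [Set.indicator_of_mem hz, one_rpow]
    · rw [Set.indicator_of_notMem hz, zero_rpow (by positivity)]
  have hY0 : ∀ z, 0 ≤ E.indicator (fun _ => (1 : ℝ)) z := fun z =>
    Set.indicator_nonneg (fun _ _ => zero_le_one) z
  have hY : MemLp (E.indicator fun _ => (1 : ℝ)) (ENNReal.ofReal (1 / (1 - δ))) (nu hf) := by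
    refine MemLp.indicator hE ?_
    exact memLp_const _
  have hZ : MemLp (fun z => |X z|) (ENNReal.ofReal (1 / δ)) (nu hf) := by
    rw [← integrable_norm_rpow_iff hX.abs.aestronglyMeasurable
      (by simpa using h0) ENNReal.ofReal_ne_top, ENNReal.toReal_ofReal (by positivity)]
    simpa using hi
  have h := integral_mul_le_Lp_mul_Lq_of_nonneg hpq
    (Filter.Eventually.of_forall hY0) (Filter.Eventually.of_forall fun z => abs_nonneg (X z)) hY hZ
  simp only [hind, one_div_one_div] at h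
  have e4 : ∫ z, E.indicator (fun _ => (1 : ℝ)) z ∂(nu hf) = (nu hf).real E := by
    rw [integral_indicator_const _ hE]; simp
  rw [e4] at h
  refine le_trans ?_ h
  rw [← Real.norm_eq_abs]
  refine (norm_integral_le_integral_norm (E.indicator X)).trans (le_of_eq ?_)
  refine integral_congr_ae (Filter.Eventually.of_forall fun z => ?_)
  by_cases hz : z ∈ E
  · simp [hz]
  · simp [hz]

/-- moments of a bounded weight -/
theorem integrable_W_pow {m : Face →₀ ℝ} (hm : Ntr m) {q : ℝ} (hq : 0 ≤ q) :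
    Integrable (fun z => |W m z| ^ q) (nu hf) := by
  obtain ⟨K, hK⟩ := Vx107.abs_W_le hm
  refine Integrable.of_bound
    (((Vx107.measurable_W hm).abs.pow_const q).aestronglyMeasurable) (K ^ q)
    (Filter.Eventually.of_forall fun z => ?_)
  rw [Real.norm_eq_abs, abs_of_nonneg (by positivity)]
  exact Real.rpow_le_rpow (abs_nonneg _) (hK z) hq

/-- **(Uf), general form** -/
theorem uf_gen (a b : ℝ) (k0 : ℕ) {δ : ℝ} (h0 : 0 < δ) (h1 : δ < 1) : ∃ C : ℝ, 1 ≤ C ∧
    ∀ n r R : ℕ, Gm k0 n r R → ∀ m0 : Face →₀ ℝ, m0.support ⊆ BF (0, 0) (k0 : ℤ) →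
      |Fw (tot m0)| ≤ 1 → Ntr (mG a b n r R m0) → ∀ E : Set Cfz, MeasurableSet E →
        |∫ z, E.indicator (W (mG a b n r R m0)) z ∂(nu hf)| ≤
          C * ((R : ℝ) / r) ^ C * exp (-(√3 * ((a + b) * VV (Nat.log 2 n)))) *
            (nu hf).real E ^ (1 - δ) := by
  have hq : 1 ≤ 1 / δ := by rw [le_div_iff₀ h0]; linarith
  obtain ⟨C, hC, h⟩ := um_gen a b k0 hq
  refine ⟨C, hC, fun n r R hG m0 hm0 hm1 hm2 E hE => ?_⟩
  have hrat := hG.ratio
  have h2 := hoelder_ev h0 h1 (Vx107.measurable_W hm2) (integrable_W_pow hm2 (by positivity)) hE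
  have h3 := h n r R hG m0 hm0 hm1 hm2
  set B := C * ((R : ℝ) / r) ^ C * exp (-(√3 * ((a + b) * VV (Nat.log 2 n)))) with hB
  have hB0 : 0 ≤ B := by positivity
  refine h2.trans ?_
  rw [mul_comm B]
  refine mul_le_mul_of_nonneg_left ?_ (by positivity)
  refine (Real.rpow_le_rpow (integral_nonneg fun z => by positivity) h3 h0.le).trans (le_of_eq ?_)
  rw [← Real.rpow_mul hB0, one_div, inv_mul_cancel₀ h0.ne', Real.rpow_one]

/-! ### the strand weight `Xs` -/

/-- the charge of 31 / 468 / 110 -/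
def muF (n r R : ℕ) : Face →₀ ℝ :=
  (5 * π / 6) • ud (BF ((n : ℤ), 0) ((4 * r : ℕ) : ℤ)) + (π / 6) • ud (rg (0, 0) R)

theorem tot_muF (h : Gm k0 n r R) : tot (muF n r R) = π := by
  unfold muF
  rw [Vx107.tot_add, Vx107.tot_smul, Vx107.tot_smul, tot_ud (BF_nonempty _ _),
    tot_ud (rg_nonempty (by have := h.R0; omega))]
  ring

/-- the charges near `0` -/
def m0F (c : Corner) : Face →₀ ℝ := (-(π / 2)) • dC c - Finsupp.single (c.1, false) π

theorem mG_eq (n r R : ℕ) (c : Corner) :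
    chv (muF n r R) c.1 + (-(π / 2)) • dC c = mG (5 * π / 6) (π / 6) n r R (m0F c) := by
  unfold chv muF mG m0F
  abel

theorem tot_m0F (c : Corner) : tot (m0F c) = -π := by
  unfold m0F
  rw [Vx107.tot_sub, Vx107.tot_smul, Vx107.tot_single, Vx107.ntr_dC]
  ring

theorem fw_m0F (c : Corner) : |Fw (tot (m0F c))| ≤ 1 := by
  rw [tot_m0F, ← zero_sub, Vx107.Fw_sub_pi, Vx107.Fw_zero]
  simp

theorem supp_m0F {c : Corner} (hc : sd (0, 0) c.1 ≤ 1) :
    (m0F c).support ⊆ BF (0, 0) ((2 : ℕ) : ℤ) := by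
  intro f hf
  rw [Finsupp.mem_support_iff] at hf
  by_contra hcon
  apply hf
  rw [mem_BF, not_le] at hcon
  push_cast at hcon
  have h2 := (Wf850.sd_corner (0, 0) c).2
  have n1 : f ≠ (c.1, false) := by rintro rfl; simp only at hcon; omega
  have n2 : f ≠ cv c := n1
  have n3 : f ≠ cf c := by
    rintro rfl
    have : sd (0, 0) (cf c).1 = sd (0, 0) (fc c) := rfl
    omega
  unfold m0F dC
  rw [Finsupp.sub_apply, Finsupp.smul_apply, Finsupp.sub_apply, Finsupp.single_apply,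
    Finsupp.single_apply, Finsupp.single_apply, if_neg (Ne.symm n1), if_neg (Ne.symm n2),
    if_neg (Ne.symm n3)]
  simp

theorem ntr_mF (h : Gm k0 n r R) (c : Corner) : Ntr (mG (5 * π / 6) (π / 6) n r R (m0F c)) := by
  rw [← mG_eq]
  exact (Vx107.ntr_chv (tot_muF h) _).add ((Vx107.ntr_dC c).smul _)

theorem xs_ae (h : Gm k0 n r R) (c : Corner) :
    ∀ᵐ z ∂(nu hf), Xs (muF n r R) c z = W (mG (5 * π / 6) (π / 6) n r R (m0F c)) z := by
  filter_upwards [Fi442.allFin] with z hz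
  rw [Vx107.Xs_W (hz c) (tot_muF h), mG_eq]

theorem gm2 {n r R : ℕ} (h1 : 3 ≤ r) (h2 : 128 * r ≤ n) (h3 : 16 * n ≤ R) : Gm 2 n r R :=
  ⟨h1, h2, h3, by omega⟩

theorem pi56 (x : ℝ) : √3 * ((5 * π / 6 + π / 6) * x) = √3 * (π * x) := by ring

/-- **(Um)** : all the moments of `Xs` (110's form) -/
theorem Um {q : ℝ} (hq : 1 ≤ q) : ∃ C : ℝ, 1 ≤ C ∧ ∀ n r R : ℕ, 3 ≤ r → 128 * r ≤ n →
    16 * n ≤ R → ∀ c : Corner, sd (0, 0) c.1 ≤ 1 →
      Integrable (fun z => |Xs (muF n r R) c z| ^ q) (nu hf) ∧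
      ∫ z, |Xs (muF n r R) c z| ^ q ∂(nu hf) ≤
        (C * ((R : ℝ) / r) ^ C * exp (-(√3 * (π * VV (Nat.log 2 n))))) ^ q := by
  obtain ⟨C, hC, h⟩ := um_gen (5 * π / 6) (π / 6) 2 hq
  refine ⟨C, hC, fun n r R h1 h2 h3 c hc => ?_⟩
  have hG := gm2 h1 h2 h3
  have h4 := h n r R hG (m0F c) (supp_m0F hc) (fw_m0F c) (ntr_mF hG c)
  have h5 := xs_ae hG c
  rw [pi56] at h4
  constructor
  · refine (integrable_W_pow (ntr_mF hG c) (by linarith : (0 : ℝ) ≤ q)).congr ?_
    filter_upwards [h5] with z hz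
    rw [hz]
  · refine le_trans (le_of_eq (integral_congr_ae ?_)) h4
    filter_upwards [h5] with z hz
    rw [hz]

/-- **(Uf)** : `Xs` on an event -/
theorem Uf {δ : ℝ} (h0 : 0 < δ) (h1 : δ < 1) : ∃ C : ℝ, 1 ≤ C ∧ ∀ n r R : ℕ, 3 ≤ r →
    128 * r ≤ n → 16 * n ≤ R → ∀ c : Corner, sd (0, 0) c.1 ≤ 1 → ∀ E : Set Cfz,
      MeasurableSet E → |∫ z, E.indicator (Xs (muF n r R) c) z ∂(nu hf)| ≤
        C * ((R : ℝ) / r) ^ C * exp (-(√3 * (π * VV (Nat.log 2 n)))) *
          (nu hf).real E ^ (1 - δ) := by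
  obtain ⟨C, hC, h⟩ := uf_gen (5 * π / 6) (π / 6) 2 h0 h1
  refine ⟨C, hC, fun n r R g1 g2 g3 c hc E hE => ?_⟩
  have hG := gm2 g1 g2 g3
  have h4 := h n r R hG (m0F c) (supp_m0F hc) (fw_m0F c) (ntr_mF hG c) E hE
  have h5 := xs_ae hG c
  rw [pi56] at h4
  refine le_trans (le_of_eq ?_) h4
  congr 1
  refine integral_congr_ae ?_
  filter_upwards [h5] with z hz
  by_cases hzE : z ∈ E
  · rw [Set.indicator_of_mem hzE, Set.indicator_of_mem hzE, hz]
  · rw [Set.indicator_of_notMem hzE, Set.indicator_of_notMem hzE]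

end Crest.Agent.R158.Uf430
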