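import Crest.Agent.R158.Cd6_83
import Crest.Agent.R158.Un1_434

/-!
R158, S0237 endgame, identification in LIMIT FORM on the disc.

* `disc_match` : a bounded holomorphic function on the disc whose values approach the three sides
  of the triangle on the three OPEN arcs (right order) is `Cd83.tri`.
* `disc_mis` : the wrong cyclic order is impossible.
No continuity up to the circle and nothing at the marks is assumed.
-/

set_option autoImplicit false

namespace Crest.Agent.R158.Un434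

open Complex Set Filter Topology MeasureTheory
open Crest.ProbabilityR.Percolation
open Crest.Agent.R158.Cd83

/-- component of `w - A` orthogonal to `B - A`, controlled by the distance to the segment. -/
theorem im_le_infDist (A B w : ℂ) :
    |((starRingEnd ℂ) (B - A) * (w - A)).im| ≤ ‖B - A‖ * Metric.infDist w (segment ℝ A B) := by
  have hne : (segment ℝ A B).Nonempty := ⟨A, left_mem_segment ℝ A B⟩
  have hcl : IsCompact (segment ℝ A B) := by
    rw [segment_eq_image']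
    exact isCompact_Icc.image (by fun_prop)
  obtain ⟨y, hy, hyd⟩ := hcl.exists_infDist_eq_dist hne w
  rw [hyd, dist_eq_norm]
  obtain ⟨t, ht, hts⟩ := (segment_eq_image' ℝ A B) ▸ hy
  have h0 : ((starRingEnd ℂ) (B - A) * (y - A)).im = 0 := by
    have e1 : y - A = (t : ℂ) * (B - A) := by rw [← hts]; simp
    rw [e1]
    have e2 : (starRingEnd ℂ) (B - A) * ((t : ℂ) * (B - A)) =
        ((t * Complex.normSq (B - A) : ℝ) : ℂ) := by
      have := Complex.mul_conj (B - A)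
      push_cast
      rw [← this]; ring
    rw [e2, Complex.ofReal_im]
  have e : (starRingEnd ℂ) (B - A) * (w - A) =
      (starRingEnd ℂ) (B - A) * (w - y) + (starRingEnd ℂ) (B - A) * (y - A) := by ring
  rw [e, Complex.add_im, h0, add_zero]
  refine (Complex.abs_im_le_norm _).trans ?_
  rw [norm_mul, RCLike.norm_conj]

theorem im_tendsto_of_infDist {X : Type*} {l : Filter X} {f : X → ℂ} {A B : ℂ}
    (h : Tendsto (fun x => Metric.infDist (f x) (segment ℝ A B)) l (𝓝 0)) :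
    Tendsto (fun x => ((starRingEnd ℂ) (B - A) * (f x - A)).im) l (𝓝 0) := by
  have h1 := h.const_mul ‖B - A‖
  rw [mul_zero] at h1
  refine squeeze_zero_norm (fun x => ?_) h1
  rw [Real.norm_eq_abs]
  exact im_le_infDist A B (f x)

theorem exists_angle (α : ℝ) {b : ℂ} (hb : ‖b‖ = 1) :
    ∃ s ∈ Ico α (α + 2 * Real.pi), exp ((s : ℂ) * I) = b := by
  refine ⟨toIcoMod Real.two_pi_pos α (arg b), toIcoMod_mem_Ico _ _ _, ?_⟩
  have h1 : exp ((arg b : ℂ) * I) = b := by
    have := Complex.norm_mul_exp_arg_mul_I b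
    rwa [hb, Complex.ofReal_one, one_mul] at this
  rw [toIcoMod, zsmul_eq_mul]
  have h2 : (((arg b - (toIcoDiv Real.two_pi_pos α (arg b) : ℤ) * (2 * Real.pi) : ℝ) : ℂ) * I) =
      (arg b : ℂ) * I - (toIcoDiv Real.two_pi_pos α (arg b) : ℤ) * (2 * Real.pi * I) := by
    push_cast; ring
  rw [h2, Complex.exp_sub, Complex.exp_int_mul_two_pi_mul_I, div_one, h1]

/-- boundary hypothesis: `f` approaches the line through `A` in direction `D` at `exp (s I)`. -/
def Apr (f : ℂ → ℂ) (A D : ℂ) (s : ℝ) : Prop :=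
  Tendsto (fun z => ((starRingEnd ℂ) D * (f z - A)).im)
    (𝓝[Metric.ball 0 1] (exp ((s : ℂ) * I))) (𝓝 0)

theorem om_sub_one_norm_pos : 0 < ‖om - 1‖ := norm_pos_iff.mpr om_sub_ne

/-- matched order: the function is the triangle map. -/
theorem disc_match {α β γ : ℝ} (h : Marks α β γ) {f : ℂ → ℂ}
    (hfd : DifferentiableOn ℂ f (Metric.ball 0 1)) {M : ℝ}
    (hM : ∀ z ∈ Metric.ball (0 : ℂ) 1, ‖f z‖ ≤ M)
    (h1 : ∀ s ∈ Ioo α β, Apr f 1 (om - 1) s)
    (h2 : ∀ s ∈ Ioo β γ, Apr f om (om ^ 2 - om) s)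
    (h3 : ∀ s ∈ Ioo γ (α + 2 * Real.pi), Apr f (om ^ 2) (1 - om ^ 2) s) :
    ∀ z ∈ Metric.ball (0 : ℂ) 1, f z = tri α β γ z := by
  classical
  obtain ⟨tc, td, t1, t2, t3, -⟩ := tri_main h
  obtain ⟨g1, g2, g3⟩ := h
  have h : Marks α β γ := ⟨g1, g2, g3⟩
  have hpi := Real.pi_pos
  obtain ⟨M', hM'⟩ : ∃ M' : ℝ, ∀ w ∈ Metric.closedBall (0:ℂ) 1, ‖tri α β γ w‖ ≤ M' :=
    (isCompact_closedBall 0 1).exists_bound_of_continuousOn tc
  have hom3 := om_cube
  -- unit direction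
  set N : ℝ := ‖om - 1‖ with hN
  have hNpos : 0 < N := om_sub_one_norm_pos
  set d : ℂ := (om - 1) / (N : ℂ) with hd
  have hdn : ‖d‖ = 1 := by
    rw [hd, norm_div, Complex.norm_real, Real.norm_of_nonneg hNpos.le, ← hN, div_self hNpos.ne']
  have homn : ‖om‖ = 1 := by
    unfold om; exact Complex.norm_exp_ofReal_mul_I _
  have hdd : (starRingEnd ℂ) d * d = 1 := by
    rw [mul_comm, Complex.mul_conj, Complex.normSq_eq_norm_sq, hdn]; simp
  have hd0 : d ≠ 0 := by
    intro h0; rw [h0, norm_zero] at hdn; exact zero_ne_one hdn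
  -- the boundary behaviour of the difference
  have tri_side : ∀ (s : ℝ) (A D : ℂ) (y : ℝ), tri α β γ (exp ((s : ℂ) * I)) = A + D * (y : ℂ) →
      Tendsto (fun z => ((starRingEnd ℂ) D * (tri α β γ z - A)).im)
        (𝓝[Metric.ball 0 1] (exp ((s : ℂ) * I))) (𝓝 0) := by
    intro s A D y hy
    have hc : ContinuousWithinAt (tri α β γ) (Metric.closedBall 0 1) (exp ((s : ℂ) * I)) :=
      tc _ (by simp [Complex.norm_exp_ofReal_mul_I])
    have hc2 : Tendsto (tri α β γ) (𝓝[Metric.ball 0 1] (exp ((s : ℂ) * I)))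
        (𝓝 (tri α β γ (exp ((s : ℂ) * I)))) :=
      hc.tendsto.mono_left (nhdsWithin_mono _ Metric.ball_subset_closedBall)
    have hc3 := (Complex.continuous_im.tendsto _).comp ((hc2.sub_const A).const_mul ((starRingEnd ℂ) D))
    have e : ((starRingEnd ℂ) D * (tri α β γ (exp ((s : ℂ) * I)) - A)).im = 0 := by
      rw [hy]
      have : (starRingEnd ℂ) D * (A + D * (y : ℂ) - A) = ((Complex.normSq D * y : ℝ) : ℂ) := by
        have := Complex.mul_conj D
        push_cast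
        rw [← this]; ring
      rw [this, Complex.ofReal_im]
    rw [e] at hc3
    exact hc3
  -- scaling of a direction
  have scal : ∀ (s : ℝ) (A : ℂ) (k : ℂ) (D : ℂ), D = (N : ℂ) * (k * d) → Apr f A D s →
      (∃ y : ℝ, tri α β γ (exp ((s : ℂ) * I)) = A + D * (y : ℂ)) →
      Tendsto (fun z => ((starRingEnd ℂ) (k * d) * (f z - tri α β γ z)).im)
        (𝓝[Metric.ball 0 1] (exp ((s : ℂ) * I))) (𝓝 0) := by
    intro s A k D hD ha ⟨y, hy⟩
    have l1 := (ha.sub (tri_side s A D y hy)).const_mul (1 / N)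
    rw [sub_zero, mul_zero] at l1
    refine l1.congr fun z => ?_
    have e : (starRingEnd ℂ) D * (f z - A) - (starRingEnd ℂ) D * (tri α β γ z - A) =
        (N : ℂ) * ((starRingEnd ℂ) (k * d) * (f z - tri α β γ z)) := by
      rw [hD]; simp only [map_mul, Complex.conj_ofReal]; ring
    have e2 : ((starRingEnd ℂ) D * (f z - A)).im - ((starRingEnd ℂ) D * (tri α β γ z - A)).im =
        N * ((starRingEnd ℂ) (k * d) * (f z - tri α β γ z)).im := by
      rw [← Complex.sub_im, e, Complex.im_ofReal_mul]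
    rw [e2]; field_simp
  have hNd : om - 1 = (N : ℂ) * (1 * d) := by
    rw [hd, one_mul, mul_div_cancel₀]; exact_mod_cast hNpos.ne'
  have hNd2 : om ^ 2 - om = (N : ℂ) * (om * d) := by
    have : om ^ 2 - om = om * (om - 1) := by ring
    rw [this, hNd]; ring
  have hNd3 : 1 - om ^ 2 = (N : ℂ) * (om ^ 2 * d) := by
    have : 1 - om ^ 2 = om ^ 2 * (om - 1) := by
      have : om ^ 2 * (om - 1) = om ^ 3 - om ^ 2 := by ring
      rw [this, hom3]
    rw [this, hNd]; ring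
  have A1 : ∀ s ∈ Ioo α β, Tendsto (fun z => ((starRingEnd ℂ) (1 * d) * (f z - tri α β γ z)).im)
      (𝓝[Metric.ball 0 1] (exp ((s : ℂ) * I))) (𝓝 0) := fun s hs =>
    scal s 1 1 _ hNd (h1 s hs) ⟨_, t1 s ⟨hs.1.le, hs.2.le⟩⟩
  have A2 : ∀ s ∈ Ioo β γ, Tendsto (fun z => ((starRingEnd ℂ) (om * d) * (f z - tri α β γ z)).im)
      (𝓝[Metric.ball 0 1] (exp ((s : ℂ) * I))) (𝓝 0) := fun s hs =>
    scal s om om _ hNd2 (h2 s hs) (t2 s ⟨hs.1.le, hs.2.le⟩)
  have A3 : ∀ s ∈ Ioo γ (α + 2 * Real.pi),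
      Tendsto (fun z => ((starRingEnd ℂ) (om ^ 2 * d) * (f z - tri α β γ z)).im)
      (𝓝[Metric.ball 0 1] (exp ((s : ℂ) * I))) (𝓝 0) := fun s hs =>
    scal s (om ^ 2) (om ^ 2) _ hNd3 (h3 s hs) (t3 s ⟨hs.1.le, hs.2.le⟩)
  have hsph : ∀ s : ℝ, exp ((s : ℂ) * I) ∈ closure (Metric.ball (0 : ℂ) 1) := by
    intro s
    rw [closure_ball (0 : ℂ) one_ne_zero]
    simp [Complex.norm_exp_ofReal_mul_I]
  have hc3 : ∀ k : ℂ, k ^ 3 = 1 → (((starRingEnd ℂ) d) ^ 3 * (k * d) ^ 3).im = 0 := by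
    intro k hk
    have : ((starRingEnd ℂ) d) ^ 3 * (k * d) ^ 3 = ((starRingEnd ℂ) d * d) ^ 3 * k ^ 3 := by ring
    rw [this, hdd, hk]; simp
  intro z hz
  have key := tri_zero (U := Metric.ball (0 : ℂ) 1) Metric.isOpen_ball Metric.isBounded_ball
    (convex_ball (0 : ℂ) 1).isPreconnected (g := fun z => f z - tri α β γ z) (hfd.sub td)
    (B := M + M') ?_ ({exp ((α : ℂ) * I), exp ((β : ℂ) * I), exp ((γ : ℂ) * I)} : Finset ℂ) ?_
    (c := ((starRingEnd ℂ) d) ^ 3) (pow_ne_zero 3 ((map_ne_zero _).mpr hd0)) ?_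
    (b1 := exp ((((α + β) / 2 : ℝ) : ℂ) * I)) (b2 := exp ((((β + γ) / 2 : ℝ) : ℂ) * I))
    (d1 := 1 * d) (d2 := om * d) (hsph _) (hsph _) ?_
    (A1 _ ⟨by linarith, by linarith⟩) (A2 _ ⟨by linarith, by linarith⟩) hz
  · exact sub_eq_zero.mp key
  · intro w hw
    exact (norm_sub_le _ _).trans (add_le_add (hM w hw) (hM' w (Metric.ball_subset_closedBall hw)))
  · intro e he
    have hn : ∀ s : ℝ, exp ((s : ℂ) * I) ∉ Metric.ball (0 : ℂ) 1 := by
      intro s; simp [Complex.norm_exp_ofReal_mul_I]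
    simp only [Finset.mem_insert, Finset.mem_singleton] at he
    rcases he with rfl | rfl | rfl <;> exact hn _
  · intro b hb hbE
    rw [frontier_ball (0 : ℂ) one_ne_zero, mem_sphere_zero_iff_norm] at hb
    obtain ⟨s, hs, rfl⟩ := exists_angle α hb
    simp only [Finset.mem_insert, Finset.mem_singleton, not_or] at hbE
    obtain ⟨n1, n2, n3⟩ := hbE
    have hsα : s ≠ α := by rintro rfl; exact n1 rfl
    have hsβ : s ≠ β := by rintro rfl; exact n2 rfl
    have hsγ : s ≠ γ := by rintro rfl; exact n3 rfl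
    rcases lt_or_gt_of_ne hsβ with q | q
    · exact ⟨1 * d, by rw [norm_mul, norm_one, one_mul, hdn], hc3 1 (by norm_num),
        A1 s ⟨lt_of_le_of_ne hs.1 (Ne.symm hsα), q⟩⟩
    · rcases lt_or_gt_of_ne hsγ with q' | q'
      · exact ⟨om * d, by rw [norm_mul, homn, one_mul, hdn], hc3 om hom3, A2 s ⟨q, q'⟩⟩
      · refine ⟨om ^ 2 * d, by rw [norm_mul, norm_pow, homn, one_pow, one_mul, hdn],
          hc3 (om ^ 2) ?_, A3 s ⟨q', hs.2⟩⟩
        have : (om ^ 2) ^ 3 = (om ^ 3) ^ 2 := by ring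
        rw [this, hom3, one_pow]
  · have : (starRingEnd ℂ) (1 * d) * (om * d) = om * ((starRingEnd ℂ) d * d) := by
      rw [one_mul]; ring
    rw [this, hdd, mul_one, om_eq]
    have : (0 : ℝ) < Real.sqrt 3 := Real.sqrt_pos.mpr (by norm_num)
    simp only [ne_eq]
    positivity


theorem arc_R {R x : ℝ → ℝ} {a b : ℝ} (hab : a < b) (hx : ContinuousOn x (Icc a b))
    (hd : ∀ s ∈ Ioo a b, HasDerivAt x (R s) s) (hR : ∀ s ∈ Ioo a b, 0 ≤ R s) :
    IntervalIntegrable R volume a b ∧ ∫ s in a..b, R s = x b - x a := by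
  have hint0 := intervalIntegral.integrableOn_deriv_of_nonneg hx hd hR
  have hint : IntervalIntegrable R volume a b :=
    (intervalIntegrable_iff_integrableOn_Ioc_of_le hab.le).mpr hint0
  exact ⟨hint, intervalIntegral.integral_eq_sub_of_hasDerivAt_of_le hab.le hx hd hint⟩

/-- pointwise limit on one arc. -/
theorem lim_arc {α β γ s M : ℝ} {f : ℂ → ℂ} (hM : ∀ z ∈ Metric.ball (0 : ℂ) 1, ‖f z‖ ≤ M)
    {A B k : ℂ} (hk : A * k = 1) (hB : B * k = om ^ 2 - 1)
    (hdir : Wf α β γ (exp ((s : ℂ) * I)) * (exp ((s : ℂ) * I) * I) =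
      (Rd α β γ s : ℂ) * (k * Dd α β γ))
    (hne : exp ((s : ℂ) * I) ≠ exp ((α : ℂ) * I) ∧ exp ((s : ℂ) * I) ≠ exp ((β : ℂ) * I) ∧
        exp ((s : ℂ) * I) ≠ exp ((γ : ℂ) * I))
    (ha : Apr f A B s) :
    Tendsto (fun r : ℝ => ((f ((r : ℂ) * exp ((s : ℂ) * I)) *
      (Wf α β γ ((r : ℂ) * exp ((s : ℂ) * I)) * (((r : ℂ) * exp ((s : ℂ) * I)) * I))) /
        ((om ^ 2 - 1) * Dd α β γ)).im) (𝓝[<] 1)
      (𝓝 ((1 / (om ^ 2 - 1)).im * Rd α β γ s)) := by
  have hD := Dd_ne α β γ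
  have hom : om ^ 2 - 1 ≠ 0 := by
    intro hh; apply om_sq_sub_im; rw [hh]; simp
  have hk0 : k ≠ 0 := by rintro rfl; simp at hk
  have hB0 : B ≠ 0 := by rintro rfl; rw [zero_mul] at hB; exact hom hB.symm
  obtain ⟨k1, k2, k3⟩ := hne
  have hzc : Tendsto (fun r : ℝ => (r : ℂ) * exp ((s : ℂ) * I)) (𝓝[<] 1)
      (𝓝 (exp ((s : ℂ) * I))) := by
    have : Continuous (fun r : ℝ => (r : ℂ) * exp ((s : ℂ) * I)) := by fun_prop
    have h0 := this.tendsto 1
    simp only [Complex.ofReal_one, one_mul] at h0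
    exact h0.mono_left nhdsWithin_le_nhds
  have hev : ∀ᶠ r : ℝ in 𝓝[<] 1, (r : ℂ) * exp ((s : ℂ) * I) ∈ Metric.ball (0 : ℂ) 1 := by
    have e1 : ∀ᶠ r : ℝ in 𝓝[<] 1, r < 1 := self_mem_nhdsWithin
    have e2 : ∀ᶠ r : ℝ in 𝓝[<] 1, 0 < r :=
      mem_nhdsWithin_of_mem_nhds (Ioi_mem_nhds zero_lt_one)
    filter_upwards [e1, e2] with r a b
    simp only [Metric.mem_ball, dist_zero_right, norm_mul, Complex.norm_exp_ofReal_mul_I,
      mul_one, Complex.norm_real, Real.norm_of_nonneg b.le]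
    exact a
  have hzc' : Tendsto (fun r : ℝ => (r : ℂ) * exp ((s : ℂ) * I)) (𝓝[<] 1)
      (𝓝[Metric.ball 0 1] (exp ((s : ℂ) * I))) := tendsto_nhdsWithin_iff.mpr ⟨hzc, hev⟩
  -- the weight
  have t2 : Tendsto (fun r : ℝ => Wf α β γ ((r : ℂ) * exp ((s : ℂ) * I))) (𝓝[<] 1)
      (𝓝 (Wf α β γ (exp ((s : ℂ) * I)))) :=
    (Wf_diffAt (circle_slit k1) (circle_slit k2) (circle_slit k3)).continuousAt.tendsto.comp hzc
  have t3 := t2.mul (hzc.mul_const I)
  rw [hdir] at t3
  -- first part: `f * (weight - limit) / K → 0`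
  have t4 : Tendsto (fun r : ℝ => (f ((r : ℂ) * exp ((s : ℂ) * I)) *
      (Wf α β γ ((r : ℂ) * exp ((s : ℂ) * I)) * (((r : ℂ) * exp ((s : ℂ) * I)) * I) -
        (Rd α β γ s : ℂ) * (k * Dd α β γ))) / ((om ^ 2 - 1) * Dd α β γ)) (𝓝[<] 1) (𝓝 0) := by
    have t5 : Tendsto (fun r : ℝ => M * ‖Wf α β γ ((r : ℂ) * exp ((s : ℂ) * I)) *
        (((r : ℂ) * exp ((s : ℂ) * I)) * I) - (Rd α β γ s : ℂ) * (k * Dd α β γ)‖) (𝓝[<] 1)
        (𝓝 0) := by
      have := ((t3.sub_const ((Rd α β γ s : ℂ) * (k * Dd α β γ))).norm).const_mul M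
      simpa using this
    have t6 : Tendsto (fun r : ℝ => f ((r : ℂ) * exp ((s : ℂ) * I)) *
      (Wf α β γ ((r : ℂ) * exp ((s : ℂ) * I)) * (((r : ℂ) * exp ((s : ℂ) * I)) * I) -
        (Rd α β γ s : ℂ) * (k * Dd α β γ))) (𝓝[<] 1) (𝓝 0) := by
      refine squeeze_zero_norm' ?_ t5
      filter_upwards [hev] with r hr
      rw [norm_mul]
      exact mul_le_mul_of_nonneg_right (hM _ hr) (norm_nonneg _)
    have := t6.div_const ((om ^ 2 - 1) * Dd α β γ)
    simpa using this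
  -- second part
  have t7 := (ha.comp hzc').div_const (Complex.normSq B)
  rw [zero_div] at t7
  have t8 := ((t7.add_const (1 / (om ^ 2 - 1)).im).mul_const (Rd α β γ s)).add
    ((Complex.continuous_im.tendsto _).comp t4)
  simp only [zero_add, Complex.zero_im, add_zero] at t8
  refine t8.congr fun r => ?_
  simp only [Function.comp_apply]
  set w := f ((r : ℂ) * exp ((s : ℂ) * I)) with hw
  set W := Wf α β γ ((r : ℂ) * exp ((s : ℂ) * I)) * (((r : ℂ) * exp ((s : ℂ) * I)) * I) with hW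
  have e1 : ((starRingEnd ℂ) B * (w - A)).im / Complex.normSq B = ((w - A) / B).im := by
    have hn : Complex.normSq B ≠ 0 := by simpa [Complex.normSq_eq_zero] using hB0
    have : (w - A) / B = ((Complex.normSq B)⁻¹ : ℝ) * ((starRingEnd ℂ) B * (w - A)) := by
      rw [div_eq_mul_inv, Complex.inv_def]; push_cast; ring
    rw [this, Complex.im_ofReal_mul]; field_simp
  rw [e1]
  have e2 : ((w - A) / B).im + (1 / (om ^ 2 - 1)).im = (w * k / (om ^ 2 - 1)).im := by
    rw [← Complex.add_im]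
    congr 1
    have hkB : B = (om ^ 2 - 1) / k := by rw [eq_div_iff hk0, hB]
    rw [hkB]
    field_simp
    linear_combination (-1 : ℂ) * hk
  rw [e2]
  have e3 : (w * k / (om ^ 2 - 1)).im * Rd α β γ s =
      (w * ((Rd α β γ s : ℂ) * (k * Dd α β γ)) / ((om ^ 2 - 1) * Dd α β γ)).im := by
    have : w * ((Rd α β γ s : ℂ) * (k * Dd α β γ)) / ((om ^ 2 - 1) * Dd α β γ) =
        (Rd α β γ s : ℂ) * (w * k / (om ^ 2 - 1)) := by
      field_simp
    rw [this, Complex.im_ofReal_mul]; ring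
  rw [e3, ← Complex.add_im]
  congr 1
  ring


/-- the wrong cyclic order is impossible. -/
theorem disc_mis {α β γ : ℝ} (h : Marks α β γ) {f : ℂ → ℂ}
    (hfd : DifferentiableOn ℂ f (Metric.ball 0 1)) {M : ℝ}
    (hM : ∀ z ∈ Metric.ball (0 : ℂ) 1, ‖f z‖ ≤ M)
    (h1 : ∀ s ∈ Ioo α β, Apr f 1 (om ^ 2 - 1) s)
    (h2 : ∀ s ∈ Ioo β γ, Apr f (om ^ 2) (om - om ^ 2) s)
    (h3 : ∀ s ∈ Ioo γ (α + 2 * Real.pi), Apr f om (1 - om) s) : False := by
  obtain ⟨g1, g2, g3⟩ := h
  have h : Marks α β γ := ⟨g1, g2, g3⟩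
  have hpi := Real.pi_pos
  obtain ⟨x, hxc, hx0, hx1, -, hxd⟩ := side1 h
  obtain ⟨y, hyc, hy0, hy1, -, hyd⟩ := side2 h
  obtain ⟨z, hzc, hz0, hz1, -, hzd⟩ := side3 h
  have hR0 : ∀ s, 0 ≤ Rd α β γ s := fun s => by unfold Rd; positivity
  have hom3 := om_cube
  have hD := Dd_ne α β γ
  have hom : om ^ 2 - 1 ≠ 0 := by
    intro hh; apply om_sq_sub_im; rw [hh]; simp
  have hM0 : 0 ≤ M := (norm_nonneg _).trans (hM 0 (by simp))
  obtain ⟨i1, e1⟩ := arc_R g1 hxc hxd (fun s _ => hR0 s)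
  obtain ⟨i2, e2⟩ := arc_R g2 hyc hyd (fun s _ => hR0 s)
  obtain ⟨i3, e3⟩ := arc_R g3 hzc hzd (fun s _ => hR0 s)
  have hiR : IntervalIntegrable (Rd α β γ) volume α (α + 2 * Real.pi) := (i1.trans i2).trans i3
  have hRpos : 0 < ∫ s in α..(α + 2 * Real.pi), Rd α β γ s := by
    rw [← intervalIntegral.integral_add_adjacent_intervals (i1.trans i2) i3,
      ← intervalIntegral.integral_add_adjacent_intervals i1 i2, e1, e2, e3]
    linarith
  have hnull : ∀ᵐ s : ℝ ∂volume, s ≠ β ∧ s ≠ γ ∧ s ≠ α + 2 * Real.pi := by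
    have a1 : ∀ᵐ t : ℝ ∂volume, t ≠ β := by simp [ae_iff, measure_singleton]
    have a2 : ∀ᵐ t : ℝ ∂volume, t ≠ γ := by simp [ae_iff, measure_singleton]
    have a3 : ∀ᵐ t : ℝ ∂volume, t ≠ α + 2 * Real.pi := by simp [ae_iff, measure_singleton]
    filter_upwards [a1, a2, a3] with t b1 b2 b3 using ⟨b1, b2, b3⟩
  have hsin : ∀ s : ℝ, s ∈ Ioo α (α + 2 * Real.pi) → s ≠ β → s ≠ γ →
      Real.sin ((s - α) / 2) ≠ 0 ∧ Real.sin ((s - β) / 2) ≠ 0 ∧ Real.sin ((s - γ) / 2) ≠ 0 := by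
    intro s hs hb hc
    refine ⟨(sin_half_ne (x := α) (y := s) hs.1 hs.2).2, ?_, ?_⟩
    · rcases lt_or_gt_of_ne hb with hlt | hlt
      · exact (sin_half_ne (x := s) (y := β) hlt (by linarith [hs.1])).1
      · exact (sin_half_ne (x := β) (y := s) hlt (by linarith [hs.2])).2
    · rcases lt_or_gt_of_ne hc with hlt | hlt
      · exact (sin_half_ne (x := s) (y := γ) hlt (by linarith [hs.1])).1
      · exact (sin_half_ne (x := γ) (y := s) hlt (by linarith [hs.2])).2
  have hne : ∀ s : ℝ, s ∈ Ioo α (α + 2 * Real.pi) → s ≠ β → s ≠ γ →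
      exp ((s : ℂ) * I) ≠ exp ((α : ℂ) * I) ∧ exp ((s : ℂ) * I) ≠ exp ((β : ℂ) * I) ∧
        exp ((s : ℂ) * I) ≠ exp ((γ : ℂ) * I) := by
    intro s hs hb hc
    refine ⟨(exp_ne_of hs.1 hs.2).symm, ?_, ?_⟩
    · rcases lt_or_gt_of_ne hb with hlt | hlt
      · exact exp_ne_of hlt (by linarith [hs.1])
      · exact (exp_ne_of hlt (by linarith [hs.2])).symm
    · rcases lt_or_gt_of_ne hc with hlt | hlt
      · exact exp_ne_of hlt (by linarith [hs.1])
      · exact (exp_ne_of hlt (by linarith [hs.2])).symm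
  let J : ℝ → ℝ → ℂ := fun r s => f ((r : ℂ) * exp ((s : ℂ) * I)) *
    (Wf α β γ ((r : ℂ) * exp ((s : ℂ) * I)) * (((r : ℂ) * exp ((s : ℂ) * I)) * I))
  have hin : ∀ r : ℝ, 0 < r → r < 1 → ∀ s : ℝ, ‖(r : ℂ) * exp ((s : ℂ) * I)‖ < 1 := by
    intro r hr0 hr1 s
    rw [norm_mul, Complex.norm_exp_ofReal_mul_I, mul_one, Complex.norm_real,
      Real.norm_of_nonneg hr0.le]
    exact hr1
  have hJc : ∀ r : ℝ, 0 < r → r < 1 → Continuous (J r) := by
    intro r hr0 hr1
    have c0 : Continuous (fun s : ℝ => (r : ℂ) * exp ((s : ℂ) * I)) := by fun_prop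
    have c1 : Continuous (fun s : ℝ => f ((r : ℂ) * exp ((s : ℂ) * I))) :=
      hfd.continuousOn.comp_continuous c0 (fun s => by simpa using (hin r hr0 hr1 s))
    have c2 : Continuous (fun s : ℝ => Wf α β γ ((r : ℂ) * exp ((s : ℂ) * I))) := by
      have : ContinuousOn (Wf α β γ) (Metric.ball 0 1) := fun w hw =>
        (Wf_diffAt_ball (by simpa using hw)).continuousAt.continuousWithinAt
      exact this.comp_continuous c0 (fun s => by simpa using hin r hr0 hr1 s)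
    exact c1.mul (c2.mul (c0.mul continuous_const))
  have hJzero : ∀ r : ℝ, 0 < r → r < 1 → ∫ s in α..(α + 2 * Real.pi), J r s = 0 := by
    intro r hr0 hr1
    have hper : Function.Periodic (J r) (2 * Real.pi) := by
      intro s
      simp only [J]
      have := shift_exp s
      rw [this]
    rw [hper.intervalIntegral_add_eq α 0, zero_add]
    have hsub : Metric.closedBall (0:ℂ) r ⊆ Metric.ball 0 1 := Metric.closedBall_subset_ball hr1
    have hW : DifferentiableOn ℂ (fun w => f w * Wf α β γ w) (Metric.ball 0 1) :=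
      hfd.mul (fun w hw => (Wf_diffAt_ball (by simpa using hw)).differentiableWithinAt)
    have hC := Complex.circleIntegral_eq_zero_of_differentiable_on_off_countable hr0.le
      (c := 0) (f := fun w => f w * Wf α β γ w) countable_empty (hW.continuousOn.mono hsub)
      (fun w hw => (hW.differentiableAt (Metric.isOpen_ball.mem_nhds
        (hsub (Metric.ball_subset_closedBall hw.1)))))
    rw [circleIntegral] at hC
    rw [← hC]
    apply intervalIntegral.integral_congr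
    intro s _
    simp only [J, deriv_circleMap, circleMap, zero_add, smul_eq_mul]
    ring
  set K : ℂ := (om ^ 2 - 1) * Dd α β γ with hK
  have hK0 : K ≠ 0 := mul_ne_zero hom hD
  have hvzero : ∀ r : ℝ, 0 < r → r < 1 → ∫ s in α..(α + 2 * Real.pi), (J r s / K).im = 0 := by
    intro r hr0 hr1
    have e1 : ∫ s in α..(α + 2 * Real.pi), J r s / K = 0 := by
      rw [intervalIntegral.integral_div, hJzero r hr0 hr1, zero_div]
    have hi : IntervalIntegrable (fun s => J r s / K) volume α (α + 2 * Real.pi) :=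
      ((hJc r hr0 hr1).div_const K).intervalIntegrable _ _
    have e2 := Complex.imCLM.intervalIntegral_comp_comm hi
    simp only [Complex.imCLM_apply] at e2
    rw [e2, e1, Complex.zero_im]
  have hlim : Tendsto (fun r : ℝ => ∫ s in α..(α + 2 * Real.pi), (J r s / K).im) (𝓝[<] 1)
      (𝓝 (∫ s in α..(α + 2 * Real.pi), (1 / (om ^ 2 - 1)).im * Rd α β γ s)) := by
    apply intervalIntegral.tendsto_integral_filter_of_dominated_convergence
      (fun s => M * (4 * Rd α β γ s) / ‖K‖)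
    · have hev : ∀ᶠ r : ℝ in 𝓝[<] 1, 0 < r ∧ r < 1 := by
        have e1 : ∀ᶠ r : ℝ in 𝓝[<] 1, r < 1 := self_mem_nhdsWithin
        have e2 : ∀ᶠ r : ℝ in 𝓝[<] 1, 0 < r :=
          mem_nhdsWithin_of_mem_nhds (Ioi_mem_nhds zero_lt_one)
        filter_upwards [e1, e2] with r a b using ⟨b, a⟩
      filter_upwards [hev] with r hr
      exact (Complex.continuous_im.comp ((hJc r hr.1 hr.2).div_const K)).aestronglyMeasurable
    · have hev : ∀ᶠ r : ℝ in 𝓝[<] 1, 1/4 < r ∧ r < 1 := by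
        have e1 : ∀ᶠ r : ℝ in 𝓝[<] 1, r < 1 := self_mem_nhdsWithin
        have e2 : ∀ᶠ r : ℝ in 𝓝[<] 1, 1/4 < r :=
          mem_nhdsWithin_of_mem_nhds (Ioi_mem_nhds (by norm_num))
        filter_upwards [e1, e2] with r a b using ⟨b, a⟩
      filter_upwards [hev] with r hr
      filter_upwards [hnull] with s hs hsI
      rw [uIoc_of_le (by linarith)] at hsI
      have hs' : s ∈ Ioo α (α + 2 * Real.pi) := ⟨hsI.1, lt_of_le_of_ne hsI.2 hs.2.2⟩
      obtain ⟨k1, k2, k3⟩ := hsin s hs' hs.1 hs.2.1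
      have hr0 : 0 < r := by linarith [hr.1]
      have hnz : ‖(r : ℂ) * exp ((s : ℂ) * I)‖ = r := by
        rw [norm_mul, Complex.norm_exp_ofReal_mul_I, mul_one, Complex.norm_real,
          Real.norm_of_nonneg hr0.le]
      rw [Real.norm_eq_abs]
      refine (Complex.abs_im_le_norm _).trans ?_
      rw [norm_div]
      refine div_le_div_of_nonneg_right ?_ (norm_nonneg K)
      simp only [J]
      rw [norm_mul, norm_mul, norm_mul, hnz, Complex.norm_I, mul_one]
      have b1 := hM ((r : ℂ) * exp ((s : ℂ) * I))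
        (by rw [Metric.mem_ball, dist_zero_right, hnz]; exact hr.2)
      have b2 := Wf_circle_bound (α := α) (β := β) (γ := γ) (s := s) (r := r) hr.1.le k1 k2 k3
      apply mul_le_mul b1 _ (by positivity) hM0
      calc ‖Wf α β γ ((r : ℂ) * exp ((s : ℂ) * I))‖ * r
          ≤ ‖Wf α β γ ((r : ℂ) * exp ((s : ℂ) * I))‖ * 1 := by gcongr; exact hr.2.le
        _ ≤ 4 * Rd α β γ s := by rw [mul_one]; exact b2
    · exact ((hiR.const_mul 4).const_mul M).div_const _
    · filter_upwards [hnull] with s hs hsI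
      rw [uIoc_of_le (by linarith)] at hsI
      have hs' : s ∈ Ioo α (α + 2 * Real.pi) := ⟨hsI.1, lt_of_le_of_ne hsI.2 hs.2.2⟩
      have hn := hne s hs' hs.1 hs.2.1
      rcases lt_or_gt_of_ne hs.1 with q | q
      · exact lim_arc hM (A := 1) (B := om ^ 2 - 1) (k := 1) (by ring) (by ring)
          (by rw [one_mul]; exact Wf_arc1 g2 g3 hs'.1 q) hn (h1 s ⟨hs'.1, q⟩)
      · rcases lt_or_gt_of_ne hs.2.1 with q' | q'
        · exact lim_arc hM (A := om ^ 2) (B := om - om ^ 2) (k := om)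
            (by rw [← hom3]; ring)
            (by have : (om - om ^ 2) * om = om ^ 2 - om ^ 3 := by ring
                rw [this, hom3])
            (Wf_arc2 g1 g3 q q') hn (h2 s ⟨q, q'⟩)
        · exact lim_arc hM (A := om) (B := 1 - om) (k := om ^ 2)
            (by rw [← hom3]; ring)
            (by have : (1 - om) * om ^ 2 = om ^ 2 - om ^ 3 := by ring
                rw [this, hom3])
            (Wf_arc3 g1 g2 q' hs'.2) hn (h3 s ⟨q', hs'.2⟩)
  have hlim0 : Tendsto (fun r : ℝ => ∫ s in α..(α + 2 * Real.pi), (J r s / K).im) (𝓝[<] 1)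
      (𝓝 0) := by
    apply tendsto_const_nhds.congr'
    have e1 : ∀ᶠ r : ℝ in 𝓝[<] 1, r < 1 := self_mem_nhdsWithin
    have e2 : ∀ᶠ r : ℝ in 𝓝[<] 1, 0 < r :=
      mem_nhdsWithin_of_mem_nhds (Ioi_mem_nhds zero_lt_one)
    filter_upwards [e1, e2] with r a b
    exact (hvzero r b a).symm
  have hfin := tendsto_nhds_unique hlim hlim0
  rw [intervalIntegral.integral_const_mul] at hfin
  have hκ : (1 / (om ^ 2 - 1)).im ≠ 0 := by
    rw [one_div, Complex.inv_im]
    exact div_ne_zero (neg_ne_zero.mpr om_sq_sub_im) (by simpa [Complex.normSq_eq_zero] using hom)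
  rcases mul_eq_zero.mp hfin with q | q
  · exact hκ q
  · exact hRpos.ne' q

end Crest.Agent.R158.Un434
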