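import Crest.Agent.R158.Cd8_83
import Crest.Agent.R158.Un2_434

/-!
R158, S0237 endgame: literal identification in limit form.

`ident` : `h` bounded on the Jordan interior, `h` or `conj h` holomorphic there, `h` approaches the
line of the side `j` at every point of the OPEN arc `j` (nothing at the marks, no continuity up to
the boundary, no orientation input) ⟹ `h` has the Cardy limit at `γ (1/4)`.
-/

set_option autoImplicit false

namespace Crest.Agent.R158.Un434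

open Complex Set Filter Topology MeasureTheory
open Crest.ProbabilityR.Percolation
open Crest.Agent.R158.Cd83

/-- `h` approaches the line through `A` in direction `D` at the boundary point `γ t`. -/
def Arc (γ : ℝ → ℂ) (h : ℂ → ℂ) (A D : ℂ) (t : ℝ) : Prop :=
  Tendsto (fun z => ((h z - A) / D).im) (𝓝[jordanInterior γ] (γ t)) (𝓝 0)

theorem im_conj_mul (x D : ℂ) : ((starRingEnd ℂ) D * x).im = Complex.normSq D * (x / D).im := by
  by_cases hD : D = 0
  · simp [hD]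
  have hn : Complex.normSq D ≠ 0 := by simpa [Complex.normSq_eq_zero] using hD
  have : x / D = ((Complex.normSq D)⁻¹ : ℝ) * ((starRingEnd ℂ) D * x) := by
    rw [div_eq_mul_inv, Complex.inv_def]; push_cast; ring
  rw [this, Complex.im_ofReal_mul]; field_simp

theorem Arc.of_infDist {γ : ℝ → ℂ} {h : ℂ → ℂ} {A B : ℂ} {t : ℝ} (hAB : A ≠ B)
    (ht : Tendsto (fun z => Metric.infDist (h z) (segment ℝ A B)) (𝓝[jordanInterior γ] (γ t))
      (𝓝 0)) : Arc γ h A (B - A) t := by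
  have h1 := im_tendsto_of_infDist ht
  have hn : Complex.normSq (B - A) ≠ 0 := by
    simpa [Complex.normSq_eq_zero, sub_eq_zero] using hAB.symm
  have h2 := h1.const_mul (Complex.normSq (B - A))⁻¹
  rw [mul_zero] at h2
  refine h2.congr fun z => ?_
  rw [im_conj_mul]; field_simp

variable {γ : ℝ → ℂ} {φ : ℂ → ℂ}

/-- boundary transport. -/
theorem psi_tendsto (C : CDat γ φ) {σ : ℂ → ℂ} (hσc : Continuous σ) (hσn : ∀ w, ‖σ w‖ = ‖w‖)
    {t s : ℝ} (ht : t ∈ Icc (0 : ℝ) 1) (hst : σ (exp ((s : ℂ) * I)) = φ (γ t)) :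
    Tendsto (fun w => psi γ φ (σ w)) (𝓝[Metric.ball 0 1] (exp ((s : ℂ) * I)))
      (𝓝[jordanInterior γ] (γ t)) := by
  have hb : ∀ᶠ w in 𝓝[Metric.ball 0 1] (exp ((s : ℂ) * I)), σ w ∈ Metric.ball (0 : ℂ) 1 := by
    filter_upwards [self_mem_nhdsWithin] with w hw
    simpa [hσn] using hw
  have h1 : Tendsto σ (𝓝[Metric.ball 0 1] (exp ((s : ℂ) * I)))
      (𝓝[Metric.closedBall 0 1] (φ (γ t))) := by
    rw [tendsto_nhdsWithin_iff]
    refine ⟨?_, hb.mono fun w hw => Metric.ball_subset_closedBall hw⟩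
    rw [← hst]
    exact (hσc.tendsto _).mono_left nhdsWithin_le_nhds
  have hmem : φ (γ t) ∈ Metric.closedBall (0 : ℂ) 1 := by
    rw [mem_closedBall_zero_iff, C.norm_gam ht]
  have h2 := (C.psi_cont _ hmem).tendsto.comp h1
  rw [C.psi_phi (C.gam_mem ht)] at h2
  exact tendsto_nhdsWithin_iff.mpr ⟨h2, hb.mono fun w hw => C.psi_mem_int hw⟩

theorem Arc.apr (C : CDat γ φ) {h : ℂ → ℂ} {A D : ℂ} {t s : ℝ} (ha : Arc γ h A D t)
    {σ : ℂ → ℂ} (hσc : Continuous σ) (hσn : ∀ w, ‖σ w‖ = ‖w‖)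
    (ht : t ∈ Icc (0 : ℝ) 1) (hst : σ (exp ((s : ℂ) * I)) = φ (γ t)) :
    Apr (fun w => h (psi γ φ (σ w))) A D s := by
  have h1 := (ha.comp (psi_tendsto C hσc hσn ht hst)).const_mul (Complex.normSq D)
  rw [mul_zero] at h1
  refine h1.congr fun w => ?_
  simp only [Function.comp_apply]
  rw [im_conj_mul]

theorem Arc.conj {h : ℂ → ℂ} {A D : ℂ} {t : ℝ} (ha : Arc γ h A D t) :
    Arc γ (fun z => (starRingEnd ℂ) (h z)) ((starRingEnd ℂ) A) ((starRingEnd ℂ) D) t := by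
  unfold Arc at *
  have h1 := ha.neg
  rw [neg_zero] at h1
  refine h1.congr fun z => ?_
  rw [← map_sub, ← map_div₀, Complex.conj_im]

theorem conj_om : (starRingEnd ℂ) om = om ^ 2 := by
  have h1 : om * (starRingEnd ℂ) om = 1 := by
    rw [Complex.mul_conj, Complex.normSq_eq_norm_sq]
    have : ‖om‖ = 1 := by unfold om; exact Complex.norm_exp_ofReal_mul_I _
    rw [this]; simp
  have h2 : om * om ^ 2 = 1 := by rw [← om_cube]; ring
  exact mul_left_cancel₀ om_ne (h1.trans h2.symm)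

theorem crossRatio_conj (p q r s : ℂ) :
    crossRatioAt ((starRingEnd ℂ) p) ((starRingEnd ℂ) q) ((starRingEnd ℂ) r) ((starRingEnd ℂ) s) =
      crossRatioAt p q r s := by
  unfold crossRatioAt
  have : ((starRingEnd ℂ) q - (starRingEnd ℂ) p) * ((starRingEnd ℂ) r - (starRingEnd ℂ) s) /
      (((starRingEnd ℂ) q - (starRingEnd ℂ) s) * ((starRingEnd ℂ) r - (starRingEnd ℂ) p)) =
      (starRingEnd ℂ) ((q - p) * (r - s) / ((q - s) * (r - p))) := by
    simp only [map_div₀, map_mul, map_sub]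
  rw [this, Complex.conj_re]

theorem conj_exp (s : ℝ) : (starRingEnd ℂ) (exp ((s : ℂ) * I)) = exp (((-s : ℝ) : ℂ) * I) := by
  rw [← Complex.exp_conj]
  simp

/-- The conclusion of `ident`. -/
def Conc (γ : ℝ → ℂ) (φ h : ℂ → ℂ) : Prop :=
  Tendsto h (𝓝[jordanInterior γ] (γ (1 / 4)))
    (𝓝 (1 + (om - 1) * ((cardyRatio (crossRatioAt (φ (γ 0)) (φ (γ (1 / 4))) (φ (γ (1 / 2)))
      (φ (γ (3 / 4)))) : ℝ) : ℂ)))

/-- matched case: `h (psi (σ w)) = tri w`. -/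
theorem conc_of_tri (C : CDat γ φ) {h : ℂ → ℂ} {σ : ℂ → ℂ} (hσc : Continuous σ)
    (hσn : ∀ w, ‖σ w‖ = ‖w‖) (hσσ : ∀ w, σ (σ w) = w) {ϑ : ℝ → ℝ}
    (hϑ : ∀ t ∈ Icc (0 : ℝ) 1, σ (φ (γ t)) = exp ((ϑ t : ℂ) * I))
    (hm : StrictMonoOn ϑ (Icc 0 1)) (h1 : ϑ 1 = ϑ 0 + 2 * Real.pi)
    (hcr : crossRatioAt (σ (φ (γ 0))) (σ (φ (γ (1 / 4)))) (σ (φ (γ (1 / 2)))) (σ (φ (γ (3 / 4)))) =
      crossRatioAt (φ (γ 0)) (φ (γ (1 / 4))) (φ (γ (1 / 2))) (φ (γ (3 / 4))))
    (hf : ∀ w ∈ Metric.ball (0 : ℂ) 1,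
      h (psi γ φ (σ w)) = tri (ϑ 0) (ϑ (1 / 2)) (ϑ (3 / 4)) w) : Conc γ φ h := by
  have m : ∀ {a b : ℝ}, a ∈ Icc (0 : ℝ) 1 → b ∈ Icc (0 : ℝ) 1 → a < b → ϑ a < ϑ b :=
    fun ha hb hab => hm ha hb hab
  have i0 : (0 : ℝ) ∈ Icc (0 : ℝ) 1 := by norm_num
  have i1 : (1 / 4 : ℝ) ∈ Icc (0 : ℝ) 1 := by constructor <;> norm_num
  have i2 : (1 / 2 : ℝ) ∈ Icc (0 : ℝ) 1 := by constructor <;> norm_num
  have i3 : (3 / 4 : ℝ) ∈ Icc (0 : ℝ) 1 := by constructor <;> norm_num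
  have i4 : (1 : ℝ) ∈ Icc (0 : ℝ) 1 := by norm_num
  have hM : Marks (ϑ 0) (ϑ (1 / 2)) (ϑ (3 / 4)) :=
    ⟨m i0 i2 (by norm_num), m i2 i3 (by norm_num), by rw [← h1]; exact m i3 i4 (by norm_num)⟩
  obtain ⟨tc, -, t1, -, -, -⟩ := tri_main hM
  -- `h z = tri (σ (φ z))` on the interior
  have hh : ∀ z ∈ jordanInterior γ, h z = tri (ϑ 0) (ϑ (1 / 2)) (ϑ (3 / 4)) (σ (φ z)) := by
    intro z hz
    have hw : σ (φ z) ∈ Metric.ball (0 : ℂ) 1 := by
      have := C.phi_mem_ball hz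
      simpa [hσn] using this
    have := hf _ hw
    rwa [hσσ, C.psi_phi (subset_closure hz)] at this
  unfold Conc
  have hlim : Tendsto (fun z => tri (ϑ 0) (ϑ (1 / 2)) (ϑ (3 / 4)) (σ (φ z)))
      (𝓝[jordanInterior γ] (γ (1 / 4)))
      (𝓝 (tri (ϑ 0) (ϑ (1 / 2)) (ϑ (3 / 4)) (σ (φ (γ (1 / 4)))))) := by
    have hmem : σ (φ (γ (1 / 4))) ∈ Metric.closedBall (0 : ℂ) 1 := by
      rw [mem_closedBall_zero_iff, hσn, C.norm_gam i1]
    refine (tc _ hmem).tendsto.comp ?_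
    rw [tendsto_nhdsWithin_iff]
    constructor
    · have : Tendsto φ (𝓝[jordanInterior γ] (γ (1 / 4))) (𝓝 (φ (γ (1 / 4)))) :=
        (C.hc _ (C.gam_mem i1)).tendsto.mono_left (nhdsWithin_mono _ subset_closure)
      exact (hσc.tendsto _).comp this
    · filter_upwards [self_mem_nhdsWithin] with z hz
      rw [mem_closedBall_zero_iff, hσn]
      exact mem_closedBall_zero_iff.mp (C.phi_mem (subset_closure hz))
  have hval : tri (ϑ 0) (ϑ (1 / 2)) (ϑ (3 / 4)) (σ (φ (γ (1 / 4)))) =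
      1 + (om - 1) * ((cardyRatio (crossRatioAt (φ (γ 0)) (φ (γ (1 / 4))) (φ (γ (1 / 2)))
      (φ (γ (3 / 4)))) : ℝ) : ℂ) := by
    rw [hϑ _ i1, t1 (ϑ (1 / 4)) ⟨(m i0 i1 (by norm_num)).le, (m i1 i2 (by norm_num)).le⟩,
      ← hϑ _ i0, ← hϑ _ i1, ← hϑ _ i2, ← hϑ _ i3, hcr]
  rw [hval] at hlim
  refine hlim.congr' ?_
  filter_upwards [self_mem_nhdsWithin] with z hz
  exact (hh z hz).symm

/-- Points of the circle between two marks come from the arc. -/
theorem exists_param {ϑ : ℝ → ℝ} (hc : Continuous ϑ) {a b s : ℝ} (hab : a < b)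
    (hs : s ∈ Ioo (ϑ a) (ϑ b)) : ∃ t ∈ Ioo a b, ϑ t = s :=
  intermediate_value_Ioo hab.le hc.continuousOn hs

/-- Generic step: given a holomorphic function on the disc obtained from `h` through `σ`. -/
theorem match_step (C : CDat γ φ) {h : ℂ → ℂ} {M : ℝ} (hM : ∀ z ∈ jordanInterior γ, ‖h z‖ ≤ M)
    {σ : ℂ → ℂ} (hσc : Continuous σ) (hσn : ∀ w, ‖σ w‖ = ‖w‖) (hσσ : ∀ w, σ (σ w) = w)
    {ϑ : ℝ → ℝ} (hϑc : Continuous ϑ)
    (hϑ : ∀ t ∈ Icc (0 : ℝ) 1, σ (φ (γ t)) = exp ((ϑ t : ℂ) * I))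
    (hm : StrictMonoOn ϑ (Icc 0 1)) (h1 : ϑ 1 = ϑ 0 + 2 * Real.pi)
    (_hd : DifferentiableOn ℂ (fun w => h (psi γ φ (σ w))) (Metric.ball 0 1)) :
    (∀ {A D : ℂ} {a b : ℝ}, 0 ≤ a → a < b → b ≤ 1 → (∀ t ∈ Ioo a b, Arc γ h A D t) →
      ∀ s ∈ Ioo (ϑ a) (ϑ b), Apr (fun w => h (psi γ φ (σ w))) A D s) ∧
    Marks (ϑ 0) (ϑ (1 / 2)) (ϑ (3 / 4)) ∧
    (∀ w ∈ Metric.ball (0 : ℂ) 1, ‖h (psi γ φ (σ w))‖ ≤ M) := by
  have m : ∀ {a b : ℝ}, a ∈ Icc (0 : ℝ) 1 → b ∈ Icc (0 : ℝ) 1 → a < b → ϑ a < ϑ b :=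
    fun ha hb hab => hm ha hb hab
  have i0 : (0 : ℝ) ∈ Icc (0 : ℝ) 1 := by norm_num
  have i2 : (1 / 2 : ℝ) ∈ Icc (0 : ℝ) 1 := by constructor <;> norm_num
  have i3 : (3 / 4 : ℝ) ∈ Icc (0 : ℝ) 1 := by constructor <;> norm_num
  have i4 : (1 : ℝ) ∈ Icc (0 : ℝ) 1 := by norm_num
  refine ⟨?_, ⟨m i0 i2 (by norm_num), m i2 i3 (by norm_num), by
    rw [← h1]; exact m i3 i4 (by norm_num)⟩, ?_⟩
  · intro A D a b ha hab hb harc s hs
    obtain ⟨t, ht, hts⟩ := exists_param hϑc hab hs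
    have htI : t ∈ Icc (0 : ℝ) 1 := ⟨ha.trans ht.1.le, ht.2.le.trans hb⟩
    refine (harc t ht).apr C hσc hσn htI ?_
    rw [← hts, ← hϑ t htI, hσσ]
  · intro w hw
    refine hM _ (C.psi_mem_int ?_)
    simpa [hσn] using hw

theorem om_id1 : om ^ 2 - om = om * (om - 1) := by ring

theorem om_id2 : 1 - om ^ 2 = om ^ 2 * (om - 1) := by
  have : om ^ 2 * (om - 1) = om ^ 3 - om ^ 2 := by ring
  rw [this, om_cube]

/-- **Literal identification in limit form.** -/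
theorem ident (C : CDat γ φ) {h : ℂ → ℂ} {M : ℝ} (hM : ∀ z ∈ jordanInterior γ, ‖h z‖ ≤ M)
    (hh : DifferentiableOn ℂ h (jordanInterior γ) ∨
      DifferentiableOn ℂ (fun z => (starRingEnd ℂ) (h z)) (jordanInterior γ))
    (h1 : ∀ t ∈ Ioo (0 : ℝ) (1 / 2), Arc γ h 1 (om - 1) t)
    (h2 : ∀ t ∈ Ioo (1 / 2 : ℝ) (3 / 4), Arc γ h om (om ^ 2 - om) t)
    (h3 : ∀ t ∈ Ioo (3 / 4 : ℝ) 1, Arc γ h (om ^ 2) (1 - om ^ 2) t) : Conc γ φ h := by
  obtain ⟨θ, hθc, hθ, hcase⟩ := C.lift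
  have hM' : ∀ z ∈ jordanInterior γ, ‖(starRingEnd ℂ) (h z)‖ ≤ M := by
    intro z hz; rw [RCLike.norm_conj]; exact hM z hz
  -- conjugated arcs
  have c1 : ∀ t ∈ Ioo (0 : ℝ) (1 / 2), Arc γ (fun z => (starRingEnd ℂ) (h z)) 1 (om ^ 2 - 1) t := by
    intro t ht
    have := (h1 t ht).conj
    simpa [conj_om] using this
  have e4 : (om ^ 2) ^ 2 = om := by
    have : (om ^ 2) ^ 2 = om ^ 3 * om := by ring
    rw [this, om_cube, one_mul]
  have c2 : ∀ t ∈ Ioo (1 / 2 : ℝ) (3 / 4),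
      Arc γ (fun z => (starRingEnd ℂ) (h z)) (om ^ 2) (om - om ^ 2) t := by
    intro t ht
    have := (h2 t ht).conj
    simpa [conj_om, e4] using this
  have c3 : ∀ t ∈ Ioo (3 / 4 : ℝ) 1,
      Arc γ (fun z => (starRingEnd ℂ) (h z)) om (1 - om) t := by
    intro t ht
    have := (h3 t ht).conj
    simpa [conj_om, e4] using this
  -- the two maps
  have cc : Continuous (starRingEnd ℂ) := Complex.continuous_conj
  have cn : ∀ w : ℂ, ‖(starRingEnd ℂ) w‖ = ‖w‖ := fun w => RCLike.norm_conj w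
  have hpsid := C.psi_diff
  -- differentiability through conjugation
  have dconj : ∀ {F : ℂ → ℂ}, DifferentiableOn ℂ F (Metric.ball 0 1) →
      DifferentiableOn ℂ (fun w => (starRingEnd ℂ) (F ((starRingEnd ℂ) w))) (Metric.ball 0 1) := by
    intro F hF w hw
    have hw' : (starRingEnd ℂ) w ∈ Metric.ball (0 : ℂ) 1 := by
      rw [mem_ball_zero_iff, cn]; exact mem_ball_zero_iff.mp hw
    have hdF := hF.differentiableAt (Metric.isOpen_ball.mem_nhds hw')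
    have h2 : DifferentiableAt ℂ ((starRingEnd ℂ) ∘ F ∘ (starRingEnd ℂ)) w :=
      differentiableAt_conj_conj_iff.mpr hdF
    exact h2.differentiableWithinAt
  rcases hcase with ⟨hm, h01⟩ | ⟨hm, h01⟩
  · -- increasing
    have hid : ∀ t ∈ Icc (0 : ℝ) 1, id (φ (γ t)) = exp ((θ t : ℂ) * I) := hθ
    rcases hh with hh | hh
    · have hd : DifferentiableOn ℂ (fun w => h (psi γ φ (id w))) (Metric.ball 0 1) :=
        hh.comp hpsid (fun w hw => C.psi_mem_int hw)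
      obtain ⟨T, hMk, hB⟩ := match_step C hM continuous_id (fun _ => rfl) (fun _ => rfl) hθc hid hm
        h01 hd
      refine conc_of_tri C continuous_id (fun _ => rfl) (fun _ => rfl) hid hm h01 rfl ?_
      refine disc_match hMk hd hB (T le_rfl (by norm_num) (by norm_num) h1)
        (T (by norm_num) (by norm_num) (by norm_num) h2) ?_
      rw [← h01]
      exact T (by norm_num) (by norm_num) le_rfl h3
    · exfalso
      have hd : DifferentiableOn ℂ (fun w => (fun z => (starRingEnd ℂ) (h z)) (psi γ φ (id w)))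
          (Metric.ball 0 1) := hh.comp hpsid (fun w hw => C.psi_mem_int hw)
      obtain ⟨T, hMk, hB⟩ := match_step C hM' continuous_id (fun _ => rfl) (fun _ => rfl) hθc hid hm
        h01 hd
      refine disc_mis hMk hd hB (T le_rfl (by norm_num) (by norm_num) c1)
        (T (by norm_num) (by norm_num) (by norm_num) c2) ?_
      rw [← h01]
      exact T (by norm_num) (by norm_num) le_rfl c3
  · -- decreasing: use the conjugated angle
    have hϑ' : ∀ t ∈ Icc (0 : ℝ) 1,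
        (starRingEnd ℂ) (φ (γ t)) = exp ((((-θ) t : ℝ) : ℂ) * I) := by
      intro t ht
      rw [hθ t ht, conj_exp, Pi.neg_apply]
    have hm' : StrictMonoOn (-θ) (Icc 0 1) := hm.neg
    have h01' : (-θ) 1 = (-θ) 0 + 2 * Real.pi := by
      simp only [Pi.neg_apply]; linarith
    rcases hh with hh | hh
    · exfalso
      have hF : DifferentiableOn ℂ (fun w => h (psi γ φ w)) (Metric.ball 0 1) :=
        hh.comp hpsid (fun w hw => C.psi_mem_int hw)
      have hd : DifferentiableOn ℂ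
          (fun w => (fun z => (starRingEnd ℂ) (h z)) (psi γ φ ((starRingEnd ℂ) w)))
          (Metric.ball 0 1) := dconj hF
      obtain ⟨T, hMk, hB⟩ := match_step C hM' cc cn (fun w => Complex.conj_conj w) hθc.neg hϑ' hm'
        h01' hd
      refine disc_mis hMk hd hB (T le_rfl (by norm_num) (by norm_num) c1)
        (T (by norm_num) (by norm_num) (by norm_num) c2) ?_
      rw [← h01']
      exact T (by norm_num) (by norm_num) le_rfl c3
    · have hF : DifferentiableOn ℂ (fun w => (starRingEnd ℂ) (h (psi γ φ w))) (Metric.ball 0 1) :=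
        hh.comp hpsid (fun w hw => C.psi_mem_int hw)
      have hd : DifferentiableOn ℂ (fun w => h (psi γ φ ((starRingEnd ℂ) w)))
          (Metric.ball 0 1) := by
        refine (dconj hF).congr fun w _ => ?_
        simp
      obtain ⟨T, hMk, hB⟩ := match_step C hM cc cn (fun w => Complex.conj_conj w) hθc.neg hϑ' hm'
        h01' hd
      refine conc_of_tri C cc cn (fun w => Complex.conj_conj w) hϑ' hm' h01'
        (crossRatio_conj _ _ _ _) ?_
      refine disc_match hMk hd hB (T le_rfl (by norm_num) (by norm_num) h1)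
        (T (by norm_num) (by norm_num) (by norm_num) h2) ?_
      rw [← h01']
      exact T (by norm_num) (by norm_num) le_rfl h3

end Crest.Agent.R158.Un434
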