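import Crest.Agent.R158.Un3_434

/-!
R158, S0237 endgame.

* `ident_full` : as `ident`, with the full conclusion: `h` extends to a continuous function on the
  closure which takes Cardy's value at `γ (1/4)`.
* `ultra_hol` : pointwise limits along an ultrafilter of uniformly bounded holomorphic functions on
  domains exhausting `D` are holomorphic on `D`.
-/

set_option autoImplicit false

namespace Crest.Agent.R158.Un434

open Complex Set Filter Topology MeasureTheory
open Crest.ProbabilityR.Percolation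
open Crest.Agent.R158.Cd83

variable {γ : ℝ → ℂ} {φ : ℂ → ℂ}

/-- matched case, full form. -/
theorem full_of_tri (C : CDat γ φ) {h : ℂ → ℂ} {σ : ℂ → ℂ} (hσc : Continuous σ)
    (hσn : ∀ w, ‖σ w‖ = ‖w‖) (hσσ : ∀ w, σ (σ w) = w) {ϑ : ℝ → ℝ}
    (hϑ : ∀ t ∈ Icc (0 : ℝ) 1, σ (φ (γ t)) = exp ((ϑ t : ℂ) * I))
    (hm : StrictMonoOn ϑ (Icc 0 1)) (h1 : ϑ 1 = ϑ 0 + 2 * Real.pi)
    (hcr : crossRatioAt (σ (φ (γ 0))) (σ (φ (γ (1 / 4)))) (σ (φ (γ (1 / 2)))) (σ (φ (γ (3 / 4)))) =
      crossRatioAt (φ (γ 0)) (φ (γ (1 / 4))) (φ (γ (1 / 2))) (φ (γ (3 / 4))))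
    (hf : ∀ w ∈ Metric.ball (0 : ℂ) 1,
      h (psi γ φ (σ w)) = tri (ϑ 0) (ϑ (1 / 2)) (ϑ (3 / 4)) w) :
    ∃ f : ℂ → ℂ, ContinuousOn f (closure (jordanInterior γ)) ∧
      (∀ z ∈ jordanInterior γ, h z = f z) ∧
      f (γ (1 / 4)) = 1 + (om - 1) * ((cardyRatio (crossRatioAt (φ (γ 0)) (φ (γ (1 / 4)))
        (φ (γ (1 / 2))) (φ (γ (3 / 4)))) : ℝ) : ℂ) := by
  have m : ∀ {a b : ℝ}, a ∈ Icc (0 : ℝ) 1 → b ∈ Icc (0 : ℝ) 1 → a < b → ϑ a < ϑ b :=
    fun ha hb hab => hm ha hb hab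
  have i0 : (0 : ℝ) ∈ Icc (0 : ℝ) 1 := by norm_num
  have i1 : (1 / 4 : ℝ) ∈ Icc (0 : ℝ) 1 := by constructor <;> norm_num
  have i2 : (1 / 2 : ℝ) ∈ Icc (0 : ℝ) 1 := by constructor <;> norm_num
  have i3 : (3 / 4 : ℝ) ∈ Icc (0 : ℝ) 1 := by constructor <;> norm_num
  have i4 : (1 : ℝ) ∈ Icc (0 : ℝ) 1 := by norm_num
  have hM : Marks (ϑ 0) (ϑ (1 / 2)) (ϑ (3 / 4)) :=
    ⟨m i0 i2 (by norm_num), m i2 i3 (by norm_num), by rw [← h1]; exact m i3 i4 (by norm_num)⟩
  obtain ⟨tc, -, t1, -, -, -⟩ := tri_main hM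
  refine ⟨fun z => tri (ϑ 0) (ϑ (1 / 2)) (ϑ (3 / 4)) (σ (φ z)), ?_, ?_, ?_⟩
  · refine tc.comp (hσc.comp_continuousOn C.hc) ?_
    intro z hz
    show σ (φ z) ∈ _
    rw [mem_closedBall_zero_iff, hσn]
    exact mem_closedBall_zero_iff.mp (C.phi_mem hz)
  · intro z hz
    have hw : σ (φ z) ∈ Metric.ball (0 : ℂ) 1 := by
      have := C.phi_mem_ball hz
      simpa [hσn] using this
    have := hf _ hw
    rwa [hσσ, C.psi_phi (subset_closure hz)] at this
  · simp only
    rw [hϑ _ i1, t1 (ϑ (1 / 4)) ⟨(m i0 i1 (by norm_num)).le, (m i1 i2 (by norm_num)).le⟩,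
      ← hϑ _ i0, ← hϑ _ i1, ← hϑ _ i2, ← hϑ _ i3, hcr]

/-- **Literal identification in limit form**, full conclusion. -/
theorem ident_full (C : CDat γ φ) {h : ℂ → ℂ} {M : ℝ} (hM : ∀ z ∈ jordanInterior γ, ‖h z‖ ≤ M)
    (hh : DifferentiableOn ℂ h (jordanInterior γ) ∨
      DifferentiableOn ℂ (fun z => (starRingEnd ℂ) (h z)) (jordanInterior γ))
    (h1 : ∀ t ∈ Ioo (0 : ℝ) (1 / 2), Arc γ h 1 (om - 1) t)
    (h2 : ∀ t ∈ Ioo (1 / 2 : ℝ) (3 / 4), Arc γ h om (om ^ 2 - om) t)
    (h3 : ∀ t ∈ Ioo (3 / 4 : ℝ) 1, Arc γ h (om ^ 2) (1 - om ^ 2) t) :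
    ∃ f : ℂ → ℂ, ContinuousOn f (closure (jordanInterior γ)) ∧
      (∀ z ∈ jordanInterior γ, h z = f z) ∧
      f (γ (1 / 4)) = 1 + (om - 1) * ((cardyRatio (crossRatioAt (φ (γ 0)) (φ (γ (1 / 4)))
        (φ (γ (1 / 2))) (φ (γ (3 / 4)))) : ℝ) : ℂ) := by
  obtain ⟨θ, hθc, hθ, hcase⟩ := C.lift
  have hM' : ∀ z ∈ jordanInterior γ, ‖(starRingEnd ℂ) (h z)‖ ≤ M := by
    intro z hz; rw [RCLike.norm_conj]; exact hM z hz
  have c1 : ∀ t ∈ Ioo (0 : ℝ) (1 / 2), Arc γ (fun z => (starRingEnd ℂ) (h z)) 1 (om ^ 2 - 1) t := by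
    intro t ht
    have := (h1 t ht).conj
    simpa [conj_om] using this
  have e4 : (om ^ 2) ^ 2 = om := by
    have : (om ^ 2) ^ 2 = om ^ 3 * om := by ring
    rw [this, om_cube, one_mul]
  have c2 : ∀ t ∈ Ioo (1 / 2 : ℝ) (3 / 4),
      Arc γ (fun z => (starRingEnd ℂ) (h z)) (om ^ 2) (om - om ^ 2) t := by
    intro t ht
    have := (h2 t ht).conj
    simpa [conj_om, e4] using this
  have c3 : ∀ t ∈ Ioo (3 / 4 : ℝ) 1,
      Arc γ (fun z => (starRingEnd ℂ) (h z)) om (1 - om) t := by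
    intro t ht
    have := (h3 t ht).conj
    simpa [conj_om, e4] using this
  have cc : Continuous (starRingEnd ℂ) := Complex.continuous_conj
  have cn : ∀ w : ℂ, ‖(starRingEnd ℂ) w‖ = ‖w‖ := fun w => RCLike.norm_conj w
  have hpsid := C.psi_diff
  have dconj : ∀ {F : ℂ → ℂ}, DifferentiableOn ℂ F (Metric.ball 0 1) →
      DifferentiableOn ℂ (fun w => (starRingEnd ℂ) (F ((starRingEnd ℂ) w))) (Metric.ball 0 1) := by
    intro F hF w hw
    have hw' : (starRingEnd ℂ) w ∈ Metric.ball (0 : ℂ) 1 := by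
      rw [mem_ball_zero_iff, cn]; exact mem_ball_zero_iff.mp hw
    have hdF := hF.differentiableAt (Metric.isOpen_ball.mem_nhds hw')
    have h2 : DifferentiableAt ℂ ((starRingEnd ℂ) ∘ F ∘ (starRingEnd ℂ)) w :=
      differentiableAt_conj_conj_iff.mpr hdF
    exact h2.differentiableWithinAt
  rcases hcase with ⟨hm, h01⟩ | ⟨hm, h01⟩
  · have hid : ∀ t ∈ Icc (0 : ℝ) 1, id (φ (γ t)) = exp ((θ t : ℂ) * I) := hθ
    rcases hh with hh | hh
    · have hd : DifferentiableOn ℂ (fun w => h (psi γ φ (id w))) (Metric.ball 0 1) :=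
        hh.comp hpsid (fun w hw => C.psi_mem_int hw)
      obtain ⟨T, hMk, hB⟩ := match_step C hM continuous_id (fun _ => rfl) (fun _ => rfl) hθc hid hm
        h01 hd
      refine full_of_tri C continuous_id (fun _ => rfl) (fun _ => rfl) hid hm h01 rfl ?_
      refine disc_match hMk hd hB (T le_rfl (by norm_num) (by norm_num) h1)
        (T (by norm_num) (by norm_num) (by norm_num) h2) ?_
      rw [← h01]
      exact T (by norm_num) (by norm_num) le_rfl h3
    · exfalso
      have hd : DifferentiableOn ℂ (fun w => (fun z => (starRingEnd ℂ) (h z)) (psi γ φ (id w)))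
          (Metric.ball 0 1) := hh.comp hpsid (fun w hw => C.psi_mem_int hw)
      obtain ⟨T, hMk, hB⟩ := match_step C hM' continuous_id (fun _ => rfl) (fun _ => rfl) hθc hid hm
        h01 hd
      refine disc_mis hMk hd hB (T le_rfl (by norm_num) (by norm_num) c1)
        (T (by norm_num) (by norm_num) (by norm_num) c2) ?_
      rw [← h01]
      exact T (by norm_num) (by norm_num) le_rfl c3
  · have hϑ' : ∀ t ∈ Icc (0 : ℝ) 1,
        (starRingEnd ℂ) (φ (γ t)) = exp ((((-θ) t : ℝ) : ℂ) * I) := by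
      intro t ht
      rw [hθ t ht, conj_exp, Pi.neg_apply]
    have hm' : StrictMonoOn (-θ) (Icc 0 1) := hm.neg
    have h01' : (-θ) 1 = (-θ) 0 + 2 * Real.pi := by
      simp only [Pi.neg_apply]; linarith
    rcases hh with hh | hh
    · exfalso
      have hF : DifferentiableOn ℂ (fun w => h (psi γ φ w)) (Metric.ball 0 1) :=
        hh.comp hpsid (fun w hw => C.psi_mem_int hw)
      have hd : DifferentiableOn ℂ
          (fun w => (fun z => (starRingEnd ℂ) (h z)) (psi γ φ ((starRingEnd ℂ) w)))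
          (Metric.ball 0 1) := dconj hF
      obtain ⟨T, hMk, hB⟩ := match_step C hM' cc cn (fun w => Complex.conj_conj w) hθc.neg hϑ' hm'
        h01' hd
      refine disc_mis hMk hd hB (T le_rfl (by norm_num) (by norm_num) c1)
        (T (by norm_num) (by norm_num) (by norm_num) c2) ?_
      rw [← h01']
      exact T (by norm_num) (by norm_num) le_rfl c3
    · have hF : DifferentiableOn ℂ (fun w => (starRingEnd ℂ) (h (psi γ φ w))) (Metric.ball 0 1) :=
        hh.comp hpsid (fun w hw => C.psi_mem_int hw)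
      have hd : DifferentiableOn ℂ (fun w => h (psi γ φ ((starRingEnd ℂ) w)))
          (Metric.ball 0 1) := by
        refine (dconj hF).congr fun w _ => ?_
        simp
      obtain ⟨T, hMk, hB⟩ := match_step C hM cc cn (fun w => Complex.conj_conj w) hθc.neg hϑ' hm'
        h01' hd
      refine full_of_tri C cc cn (fun w => Complex.conj_conj w) hϑ' hm' h01'
        (crossRatio_conj _ _ _ _) ?_
      refine disc_match hMk hd hB (T le_rfl (by norm_num) (by norm_num) h1)
        (T (by norm_num) (by norm_num) (by norm_num) h2) ?_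
      rw [← h01']
      exact T (by norm_num) (by norm_num) le_rfl h3

/-! ### Ultrafilter limits -/

/-- Cauchy estimate in Lipschitz form. -/
theorem lip_of_bdd {f : ℂ → ℂ} {c : ℂ} {r B : ℝ} (hr : 0 < r)
    (hf : DifferentiableOn ℂ f (Metric.ball c (2 * r))) (hB : ∀ z ∈ Metric.ball c (2 * r), ‖f z‖ ≤ B)
    {z w : ℂ} (hz : z ∈ Metric.ball c r) (hw : w ∈ Metric.ball c r) :
    ‖f z - f w‖ ≤ 2 * B / r * ‖z - w‖ := by
  have hB0 : 0 ≤ B := (norm_nonneg _).trans (hB c (by simp [hr]))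
  have hsub : ∀ x ∈ Metric.ball c r, Metric.closedBall x (r / 2) ⊆ Metric.ball c (2 * r) := by
    intro x hx y hy
    rw [Metric.mem_ball] at *
    have h1 := Metric.mem_closedBall.mp hy
    have := dist_triangle y x c
    linarith
  have hder : ∀ x ∈ Metric.ball c r, ‖deriv f x‖ ≤ 2 * B / r := by
    intro x hx
    have h1 := Complex.norm_deriv_le_of_forall_mem_sphere_norm_le (c := x) (R := r / 2) (f := f)
      (C := B) (by linarith) ((hf.mono (hsub x hx)).diffContOnCl_ball le_rfl)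
      (fun y hy => hB y (hsub x hx (Metric.sphere_subset_closedBall hy)))
    calc ‖deriv f x‖ ≤ B / (r / 2) := h1
      _ = 2 * B / r := by field_simp
  have hd : ∀ x ∈ Metric.ball c r, DifferentiableAt ℂ f x := by
    intro x hx
    refine hf.differentiableAt (Metric.isOpen_ball.mem_nhds ?_)
    rw [Metric.mem_ball] at *
    linarith
  exact (convex_ball c r).norm_image_sub_le_of_norm_deriv_le hd hder hw hz

/-- Pointwise ultrafilter limits of bounded holomorphic functions are holomorphic. -/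
theorem ultra_hol {D : Set ℂ} (hD : IsOpen D) {ι : Type*} (U : Ultrafilter ι) {Om : ι → Set ℂ}
    {h : ι → ℂ → ℂ} {B : ℝ} (hex : ∀ K : Set ℂ, IsCompact K → K ⊆ D → ∀ᶠ k in (U : Filter ι), K ⊆ Om k)
    (hd : ∀ k, DifferentiableOn ℂ (h k) (Om k)) (hB : ∀ k, ∀ z ∈ Om k, ‖h k z‖ ≤ B) :
    ∃ g : ℂ → ℂ, DifferentiableOn ℂ g D ∧ (∀ z ∈ D, ‖g z‖ ≤ B) ∧
      ∀ z ∈ D, Tendsto (fun k => h k z) (U : Filter ι) (𝓝 (g z)) := by
  classical
  have hpt : ∀ z ∈ D, ∃ y : ℂ, ‖y‖ ≤ B ∧ Tendsto (fun k => h k z) (U : Filter ι) (𝓝 y) := by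
    intro z hz
    have hev : ∀ᶠ k in (U : Filter ι), h k z ∈ Metric.closedBall (0 : ℂ) B := by
      filter_upwards [hex {z} isCompact_singleton (singleton_subset_iff.mpr hz)] with k hk
      rw [mem_closedBall_zero_iff]
      exact hB k z (hk (mem_singleton z))
    have hle : ((U.map fun k => h k z : Ultrafilter ℂ) : Filter ℂ) ≤
        𝓟 (Metric.closedBall (0 : ℂ) B) := by
      rw [le_principal_iff]; exact hev
    obtain ⟨y, hy, hyl⟩ := (isCompact_closedBall (0 : ℂ) B).ultrafilter_le_nhds _ hle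
    exact ⟨y, by simpa using hy, hyl⟩
  choose! g hgB hg using hpt
  refine ⟨g, ?_, hgB, hg⟩
  intro z0 hz0
  obtain ⟨R, hR, hRD⟩ := Metric.isOpen_iff.mp hD z0 hz0
  set r : ℝ := R / 4 with hr
  have hr0 : 0 < r := by rw [hr]; linarith
  have hcb : Metric.closedBall z0 (2 * r) ⊆ D := by
    refine (Metric.closedBall_subset_ball ?_).trans hRD
    rw [hr]; linarith
  have hevk : ∀ᶠ k in (U : Filter ι), Metric.closedBall z0 (2 * r) ⊆ Om k :=
    hex _ (isCompact_closedBall _ _) hcb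
  have hbD : Metric.ball z0 r ⊆ D :=
    (Metric.ball_subset_closedBall.trans (Metric.closedBall_subset_closedBall (by linarith))).trans hcb
  have hB0 : 0 ≤ B := (norm_nonneg _).trans (hgB z0 hz0)
  set L : ℝ := 2 * B / r with hL
  have hL0 : 0 ≤ L := by rw [hL]; positivity
  -- Lipschitz bounds
  have hlipk : ∀ᶠ k in (U : Filter ι), ∀ z ∈ Metric.ball z0 r, ∀ w ∈ Metric.ball z0 r,
      ‖h k z - h k w‖ ≤ L * ‖z - w‖ := by
    filter_upwards [hevk] with k hk z hz w hw
    exact lip_of_bdd hr0 ((hd k).mono (Metric.ball_subset_closedBall.trans hk))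
      (fun x hx => hB k x (hk (Metric.ball_subset_closedBall hx))) hz hw
  have hlipg : ∀ z ∈ Metric.ball z0 r, ∀ w ∈ Metric.ball z0 r, ‖g z - g w‖ ≤ L * ‖z - w‖ := by
    intro z hz w hw
    have h1 := ((hg z (hbD hz)).sub (hg w (hbD hw))).norm
    exact le_of_tendsto h1 (hlipk.mono fun k hk => hk z hz w hw)
  -- uniform convergence on the ball of radius `r`
  have hunif : TendstoUniformlyOn h g (U : Filter ι) (Metric.ball z0 r) := by
    rw [Metric.tendstoUniformlyOn_iff]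
    intro ε hε
    set δ : ℝ := ε / (4 * (L + 1)) with hδ
    have hδ0 : 0 < δ := by rw [hδ]; positivity
    have hLδ : L * δ ≤ ε / 4 := by
      rw [hδ]
      have : L * (ε / (4 * (L + 1))) = (L / (L + 1)) * (ε / 4) := by field_simp
      rw [this]
      have h2 : L / (L + 1) ≤ 1 := by rw [div_le_one (by positivity)]; linarith
      nlinarith
    -- finite net inside the ball
    have htb : TotallyBounded (Metric.ball z0 r) :=
      (isCompact_closedBall z0 r).totallyBounded.subset Metric.ball_subset_closedBall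
    obtain ⟨F, hFsub, hFfin, hFcov⟩ := Metric.finite_approx_of_totallyBounded htb δ hδ0
    have hnet : ∀ᶠ k in (U : Filter ι), ∀ x ∈ F, ‖g x - h k x‖ < ε / 4 := by
      rw [Filter.eventually_all_finite hFfin]
      intro x hx
      have h1 := (hg x (hbD (hFsub hx)))
      rw [Metric.tendsto_nhds] at h1
      filter_upwards [h1 (ε / 4) (by linarith)] with k hk
      rwa [dist_comm, dist_eq_norm] at hk
    filter_upwards [hnet, hlipk] with k hk1 hk2 z hz
    obtain ⟨x, hx, hzx⟩ : ∃ x ∈ F, z ∈ Metric.ball x δ := by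
      have := hFcov hz
      simpa using this
    rw [Metric.mem_ball, dist_eq_norm] at hzx
    rw [dist_eq_norm]
    have e : g z - h k z = (g z - g x) + (g x - h k x) + (h k x - h k z) := by ring
    rw [e]
    have a1 := hlipg z hz x (hFsub hx)
    have a2 := hk1 x hx
    have a3 := hk2 x (hFsub hx) z hz
    have a4 : L * ‖z - x‖ ≤ ε / 4 := (mul_le_mul_of_nonneg_left hzx.le hL0).trans hLδ
    have a5 : ‖x - z‖ = ‖z - x‖ := norm_sub_rev _ _
    rw [a5] at a3
    calc ‖(g z - g x) + (g x - h k x) + (h k x - h k z)‖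
        ≤ ‖g z - g x‖ + ‖g x - h k x‖ + ‖h k x - h k z‖ := norm_add₃_le
      _ < ε := by linarith
  have hdiff : DifferentiableOn ℂ g (Metric.ball z0 r) := by
    refine hunif.tendstoLocallyUniformlyOn.differentiableOn ?_ Metric.isOpen_ball
    filter_upwards [hevk] with k hk
    refine (hd k).mono ?_
    exact (Metric.ball_subset_closedBall.trans
      (Metric.closedBall_subset_closedBall (by linarith))).trans hk
  exact (hdiff.differentiableAt (Metric.ball_mem_nhds z0 hr0)).differentiableWithinAt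

end Crest.Agent.R158.Un434
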