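import Crest.Agent.R158.Vt4_300

/-!
# R158 block V: (A2) of doc 1777, the triangle valued observable and its three-leg identity

`VV F y1 y2 y3` is the value of the observable: `F` is the forest of arcs read from the leg,
`y1 y2 y3` are the gaps of the three marks read from the leg (a cyclic rotation of a weakly
increasing triple).  `A2` is the three-leg identity.
-/

set_option linter.unusedSimpArgs false
set_option linter.unusedVariables false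

namespace Crest.Agent.R158.Va954

open Crest.Agent.R158.Vt300 NC

/-! ### concatenation of forests -/

/-- concatenation -/
def app : NC → NC → NC
  | nil, g => g
  | cons a b, g => cons a (app b g)

lemma sz_app (f g : NC) : sz (app f g) = sz f + sz g := by
  induction f with
  | nil => simp [app, sz]
  | cons a b _ ihb => simp only [app, sz, ihb]; omega

lemma arcs_app (f g : NC) (s : ℕ) : (app f g).arcs s = f.arcs s ++ g.arcs (s + sz f) := by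
  induction f generalizing s with
  | nil => simp [app, sz, arcs]
  | cons a b _ ihb =>
    simp only [app, arcs, ihb, sz, List.cons_append, List.append_assoc]
    rw [show s + sz a + 2 + sz b = s + (sz a + sz b + 2) by omega]

lemma mem_arcs_shift {F : NC} {s : ℕ} {e : ℕ × ℕ} :
    e ∈ F.arcs s ↔ ∃ e' ∈ F.arcs 0, e = (e'.1 + s, e'.2 + s) := by
  induction F generalizing s e with
  | nil => simp [arcs]
  | cons a b iha ihb =>
    simp only [arcs, List.mem_cons, List.mem_append]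
    constructor
    · rintro (rfl | h | h)
      · exact ⟨_, Or.inl rfl, by simp; omega⟩
      · obtain ⟨e', he', rfl⟩ := iha.1 h
        refine ⟨(e'.1 + 1, e'.2 + 1), Or.inr (Or.inl (iha.2 ⟨e', he', rfl⟩)), ?_⟩
        ext <;> simp <;> omega
      · obtain ⟨e', he', rfl⟩ := ihb.1 h
        refine ⟨(e'.1 + (0 + sz a + 2), e'.2 + (0 + sz a + 2)),
          Or.inr (Or.inr (ihb.2 ⟨e', he', rfl⟩)), ?_⟩
        ext <;> simp <;> omega
    · rintro ⟨e', (rfl | h | h), rfl⟩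
      · left; simp; omega
      · right; left
        obtain ⟨e'', he'', rfl⟩ := iha.1 h
        exact iha.2 ⟨e'', he'', by ext <;> simp <;> omega⟩
      · right; right
        obtain ⟨e'', he'', rfl⟩ := ihb.1 h
        exact ihb.2 ⟨e'', he'', by ext <;> simp <;> omega⟩

lemma ins_shift {x s : ℕ} {e : ℕ × ℕ} : ins x (e.1 + s, e.2 + s) ↔ ins (x - s) e := by
  simp only [ins]; omega

lemma sep_shift {F : NC} {s x y z : ℕ} :
    sep F s x y z ↔ sep F 0 (x - s) (y - s) (z - s) := by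
  simp only [sep]
  constructor
  · rintro ⟨e, he, h1, h2, h3⟩
    obtain ⟨e', he', rfl⟩ := mem_arcs_shift.1 he
    exact ⟨e', he', ins_shift.1 h1, ins_shift.1 h2, fun h => h3 (ins_shift.2 h)⟩
  · rintro ⟨e', he', h1, h2, h3⟩
    exact ⟨_, mem_arcs_shift.2 ⟨e', he', rfl⟩, ins_shift.2 h1, ins_shift.2 h2,
      fun h => h3 (ins_shift.1 h)⟩

/-- two positions which no arc of `F` (started at `0`) can distinguish -/
def Eqv (F : NC) (u u' : ℕ) : Prop :=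
  u = u' ∨ ((u = 0 ∨ sz F ≤ u) ∧ (u' = 0 ∨ sz F ≤ u'))

lemma Eqv.ins {F : NC} {u u' : ℕ} (h : Eqv F u u') {e : ℕ × ℕ} (he : e ∈ F.arcs 0) :
    ins u e ↔ ins u' e := by
  have := arcs_range he
  simp only [Eqv, Vt300.ins] at *
  omega

lemma sep_congr {F : NC} {u v w u' v' w' : ℕ} (hu : Eqv F u u') (hv : Eqv F v v')
    (hw : Eqv F w w') : sep F 0 u v w ↔ sep F 0 u' v' w' := by
  simp only [sep]
  constructor
  · rintro ⟨e, he, h1, h2, h3⟩
    exact ⟨e, he, (hu.ins he).1 h1, (hv.ins he).1 h2, fun h => h3 ((hw.ins he).2 h)⟩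
  · rintro ⟨e, he, h1, h2, h3⟩
    exact ⟨e, he, (hu.ins he).2 h1, (hv.ins he).2 h2, fun h => h3 ((hw.ins he).1 h)⟩

/-- separation by the pattern `F1, b, F2, c, F3` where `b, c` are joined -/
lemma sep_legs {F1 F2 F3 : NC} {x y z : ℕ} :
    sep (app F1 (cons F2 F3)) 0 x y z ↔
      (sep F1 0 x y z ∨ sep F2 0 (x - (sz F1 + 1)) (y - (sz F1 + 1)) (z - (sz F1 + 1)) ∨
        sep F3 0 (x - (sz F1 + sz F2 + 2)) (y - (sz F1 + sz F2 + 2)) (z - (sz F1 + sz F2 + 2))) ∨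
      ((sz F1 < x ∧ x ≤ sz F1 + sz F2 + 1) ∧ (sz F1 < y ∧ y ≤ sz F1 + sz F2 + 1) ∧
        ¬ (sz F1 < z ∧ z ≤ sz F1 + sz F2 + 1)) := by
  have h1 : sep (app F1 (cons F2 F3)) 0 x y z ↔ sep F1 0 x y z ∨ sep (cons F2 F3) (sz F1) x y z := by
    simp only [sep, arcs_app, List.mem_append, zero_add]
    constructor
    · rintro ⟨e, h | h, h2⟩
      · exact Or.inl ⟨e, h, h2⟩
      · exact Or.inr ⟨e, h, h2⟩
    · rintro (⟨e, h, h2⟩ | ⟨e, h, h2⟩)
      · exact ⟨e, Or.inl h, h2⟩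
      · exact ⟨e, Or.inr h, h2⟩
  rw [h1, sep_cons, sep_shift (F := F2) (s := sz F1 + 1), sep_shift (F := F3)]
  tauto

/-! ### the observable -/

/-- value when no arc separates: middle of the side of the triangle the leg points to -/
noncomputable def mid (y1 y2 y3 : ℕ) : ℂ :=
  if y1 ≤ y2 ∧ y2 ≤ y3 then 1 / 2 else if y2 ≤ y3 ∧ y3 ≤ y1 then v2 / 2 else (v2 + 1) / 2

/-- the triangle valued observable -/
noncomputable def VV (F : NC) (y1 y2 y3 : ℕ) : ℂ :=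
  if sep F 0 y2 y3 y1 then 0 else if sep F 0 y1 y2 y3 then 1 else if sep F 0 y3 y1 y2 then v2
    else mid y1 y2 y3

/-- an arc is an interval -/
lemma not_sep_mid {F : NC} {s x y z : ℕ} (h1 : x ≤ z) (h2 : z ≤ y) : ¬ sep F s x y z := by
  rintro ⟨e, _, hx, hy, hz⟩
  simp only [ins] at *
  omega

lemma not_sep_mid' {F : NC} {s x y z : ℕ} (h1 : y ≤ z) (h2 : z ≤ x) : ¬ sep F s x y z := by
  rintro ⟨e, _, hx, hy, hz⟩
  simp only [ins] at *
  omega

lemma VV_31 {F : NC} {y1 y2 y3 : ℕ} (h12 : y1 ≤ y2) (h23 : y2 ≤ y3) :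
    VV F y1 y2 y3 = if sep F 0 y2 y3 y1 then 0 else if sep F 0 y1 y2 y3 then 1 else 1 / 2 := by
  have h1 : ¬ sep F 0 y3 y1 y2 := not_sep_mid' h12 h23
  simp only [VV, mid, h1, if_false, if_pos (And.intro h12 h23)]

lemma VV_12 {F : NC} {y1 y2 y3 : ℕ} (h23 : y2 ≤ y3) (h31 : y3 ≤ y1) (h : y2 < y1) :
    VV F y1 y2 y3 = if sep F 0 y2 y3 y1 then 0 else if sep F 0 y3 y1 y2 then v2 else v2 / 2 := by
  have h1 : ¬ sep F 0 y1 y2 y3 := not_sep_mid' h23 h31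
  have h2 : ¬ (y1 ≤ y2 ∧ y2 ≤ y3) := by omega
  simp only [VV, mid, h1, h2, if_false, if_pos (And.intro h23 h31)]

lemma VV_23 {F : NC} {y1 y2 y3 : ℕ} (h31 : y3 ≤ y1) (h12 : y1 ≤ y2) (h : y3 < y2) :
    VV F y1 y2 y3 =
      if sep F 0 y1 y2 y3 then 1 else if sep F 0 y3 y1 y2 then v2 else (v2 + 1) / 2 := by
  have h1 : ¬ sep F 0 y2 y3 y1 := not_sep_mid' h31 h12
  have h2 : ¬ (y1 ≤ y2 ∧ y2 ≤ y3) := by omega
  have h3 : ¬ (y2 ≤ y3 ∧ y3 ≤ y1) := by omega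
  simp only [VV, mid, h1, h2, h3, if_false]

/-- (A1) in terms of `VV`, leg in `(x3, x1)` -/
theorem A1_31' {y1 y2 y3 : ℕ} {F : NC} (h12 : y1 ≤ y2) (h23 : y2 ≤ y3) (h3 : y3 ≤ sz F) :
    VV F y1 y2 y3 =
      (∑ m ∈ Finset.Icc y2 y3, (hh y1 y2 m F 0 : ℂ)) - hh y1 y2 y3 F 0 / 2 := by
  rw [A1_31 h12 h23 h3, VV_31 h12 h23]

/-- (A1) in terms of `VV`, leg in `(x1, x2)` -/
theorem A1_12' {y1 y2 y3 : ℕ} {F : NC} (h23 : y2 ≤ y3) (h31 : y3 ≤ y1) (h : y2 < y1)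
    (h1 : y1 ≤ sz F) :
    VV F y1 y2 y3 =
      v2 * ((∑ m ∈ Finset.Icc y2 y3, (hh y1 y2 m F 0 : ℂ)) - hh y1 y2 y3 F 0 / 2) := by
  rw [A1_12 h23 h31 h1, VV_12 h23 h31 h]

/-- (A1) in terms of `VV`, leg in `(x2, x3)` -/
theorem A1_23' {y1 y2 y3 : ℕ} {F : NC} (h31 : y3 ≤ y1) (h12 : y1 ≤ y2) (h : y3 < y2)
    (h2 : y2 ≤ sz F) :
    VV F y1 y2 y3 = (∑ m ∈ Finset.Icc y2 (sz F), (hh y1 y2 m F 0 : ℂ)) +
      (v2 - 1) * ((∑ m ∈ Finset.Icc 0 y3, (hh y1 y2 m F 0 : ℂ)) - hh y1 y2 y3 F 0 / 2) := by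
  rw [A1_23 h31 h12 h2, VV_23 h31 h12 h]

lemma norm_v2 : ‖v2‖ = 1 := by
  rw [v2, show Complex.I * (Real.pi / 3) = ((Real.pi / 3 : ℝ) : ℂ) * Complex.I by push_cast; ring]
  exact Complex.norm_exp_ofReal_mul_I _

lemma norm_VV (F : NC) (y1 y2 y3 : ℕ) : ‖VV F y1 y2 y3‖ ≤ 1 := by
  have h := norm_v2
  have h2 : ‖v2 / 2‖ ≤ 1 := by
    rw [norm_div, h]; norm_num
  have h3 : ‖(v2 + 1) / 2‖ ≤ 1 := by
    rw [norm_div]
    have : ‖v2 + 1‖ ≤ 2 := (norm_add_le _ _).trans (by rw [h, norm_one]; norm_num)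
    rw [Complex.norm_ofNat]
    linarith
  rw [VV, mid]
  split_ifs
  · simp
  · simp
  · exact h.le
  · norm_num
  · exact h2
  · exact h3

/-- rotation of the gaps: read from the leg whose point is number `k - 1` of the old order -/
def rot (n k y : ℕ) : ℕ := if k ≤ y then y - k else y + (n - k)

/-- separation by the common arcs of a three-leg pattern (`a, F1, b, F2, c, F3`, gaps read
from `a`) -/
def Com (F1 F2 F3 : NC) (x y z : ℕ) : Prop :=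
  sep F1 0 x y z ∨ sep F2 0 (x - (sz F1 + 1)) (y - (sz F1 + 1)) (z - (sz F1 + 1)) ∨
    sep F3 0 (x - (sz F1 + sz F2 + 2)) (y - (sz F1 + sz F2 + 2)) (z - (sz F1 + sz F2 + 2))

/-- the gap `x` is in the sector between two consecutive legs -/
def Sec (F1 F2 F3 : NC) (j x : ℕ) : Prop :=
  (j = 1 ∧ x ≤ sz F1) ∨ (j = 2 ∧ sz F1 < x ∧ x ≤ sz F1 + sz F2 + 1) ∨
    (j = 3 ∧ sz F1 + sz F2 + 1 < x ∧ x ≤ sz F1 + sz F2 + sz F3 + 2)

lemma Com.sec {F1 F2 F3 : NC} {x y z : ℕ} (h : Com F1 F2 F3 x y z) :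
    (x ≤ sz F1 ∧ y ≤ sz F1) ∨
    ((sz F1 < x ∧ x ≤ sz F1 + sz F2 + 1) ∧ (sz F1 < y ∧ y ≤ sz F1 + sz F2 + 1)) ∨
    (sz F1 + sz F2 + 1 < x ∧ sz F1 + sz F2 + 1 < y) := by
  rcases h with ⟨e, he, h1, h2, -⟩ | ⟨e, he, h1, h2, -⟩ | ⟨e, he, h1, h2, -⟩ <;>
  · have := arcs_range he
    simp only [ins] at *
    omega

lemma sep_a {F1 F2 F3 : NC} {x y z : ℕ} :
    sep (app F1 (cons F2 F3)) 0 x y z ↔ Com F1 F2 F3 x y z ∨
      ((sz F1 < x ∧ x ≤ sz F1 + sz F2 + 1) ∧ (sz F1 < y ∧ y ≤ sz F1 + sz F2 + 1) ∧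
        ¬ (sz F1 < z ∧ z ≤ sz F1 + sz F2 + 1)) := sep_legs

lemma sep_b {F1 F2 F3 : NC} {x y z n : ℕ} (hn : n = sz F1 + sz F2 + sz F3 + 3) (hx : x < n)
    (hy : y < n) (hz : z < n) :
    sep (app F2 (cons F3 F1)) 0 (rot n (sz F1 + 1) x) (rot n (sz F1 + 1) y)
      (rot n (sz F1 + 1) z) ↔ Com F1 F2 F3 x y z ∨
      ((sz F1 + sz F2 + 1 < x) ∧ (sz F1 + sz F2 + 1 < y) ∧ ¬ (sz F1 + sz F2 + 1 < z)) := by
  have e2 : ∀ x, x < n → Eqv F2 (rot n (sz F1 + 1) x) (x - (sz F1 + 1)) := by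
    intro x hx; simp only [Eqv, rot]; split_ifs <;> omega
  have e3 : ∀ x, x < n → Eqv F3 (rot n (sz F1 + 1) x - (sz F2 + 1)) (x - (sz F1 + sz F2 + 2)) := by
    intro x hx; simp only [Eqv, rot]; split_ifs <;> omega
  have e1 : ∀ x, x < n → Eqv F1 (rot n (sz F1 + 1) x - (sz F2 + sz F3 + 2)) x := by
    intro x hx; simp only [Eqv, rot]; split_ifs <;> omega
  have ea : ∀ x, x < n → ((sz F2 < rot n (sz F1 + 1) x ∧ rot n (sz F1 + 1) x ≤ sz F2 + sz F3 + 1) ↔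
      sz F1 + sz F2 + 1 < x) := by
    intro x hx; simp only [rot]; split_ifs <;> omega
  rw [sep_legs, sep_congr (e2 x hx) (e2 y hy) (e2 z hz), sep_congr (e3 x hx) (e3 y hy) (e3 z hz),
    sep_congr (e1 x hx) (e1 y hy) (e1 z hz), ea x hx, ea y hy, ea z hz, Com]
  tauto

lemma sep_c {F1 F2 F3 : NC} {x y z n : ℕ} (hn : n = sz F1 + sz F2 + sz F3 + 3) (hx : x < n)
    (hy : y < n) (hz : z < n) :
    sep (app F3 (cons F1 F2)) 0 (rot n (sz F1 + sz F2 + 2) x) (rot n (sz F1 + sz F2 + 2) y)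
      (rot n (sz F1 + sz F2 + 2) z) ↔ Com F1 F2 F3 x y z ∨
      ((x ≤ sz F1) ∧ (y ≤ sz F1) ∧ ¬ (z ≤ sz F1)) := by
  have e3 : ∀ x, x < n → Eqv F3 (rot n (sz F1 + sz F2 + 2) x) (x - (sz F1 + sz F2 + 2)) := by
    intro x hx; simp only [Eqv, rot]; split_ifs <;> omega
  have e1 : ∀ x, x < n → Eqv F1 (rot n (sz F1 + sz F2 + 2) x - (sz F3 + 1)) x := by
    intro x hx; simp only [Eqv, rot]; split_ifs <;> omega
  have e2 : ∀ x, x < n →
      Eqv F2 (rot n (sz F1 + sz F2 + 2) x - (sz F3 + sz F1 + 2)) (x - (sz F1 + 1)) := by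
    intro x hx; simp only [Eqv, rot]; split_ifs <;> omega
  have ea : ∀ x, x < n → ((sz F3 < rot n (sz F1 + sz F2 + 2) x ∧
      rot n (sz F1 + sz F2 + 2) x ≤ sz F3 + sz F1 + 1) ↔ x ≤ sz F1) := by
    intro x hx; simp only [rot]; split_ifs <;> omega
  rw [sep_legs, sep_congr (e2 x hx) (e2 y hy) (e2 z hz), sep_congr (e3 x hx) (e3 y hy) (e3 z hz),
    sep_congr (e1 x hx) (e1 y hy) (e1 z hz), ea x hx, ea y hy, ea z hz, Com]
  tauto

/-! #### finite bookkeeping for the case without a common separating arc -/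

/-- codes of the six values `0, 1, v2, 1/2, v2/2, (v2+1)/2` -/
def cod (N1 N3 N2 m1 m2 : Bool) : Fin 6 :=
  if N1 then 0 else if N3 then 1 else if N2 then 2 else if m1 then 3 else if m2 then 4 else 5

/-- twice the value is `cp + cq * v2` -/
def cp : Fin 6 → ℤ := ![0, 2, 0, 1, 0, 1]

/-- see `cp` -/
def cq : Fin 6 → ℤ := ![0, 0, 2, 0, 1, 1]

/-- the value of a code -/
noncomputable def cval (c : Fin 6) : ℂ := ((cp c : ℂ) + cq c * v2) / 2

/-- order of two marks -/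
def leb (t t' : Fin 3) (o : Bool) : Bool := decide (t < t') || (decide (t = t') && o)

/-- code of a leg from the (rotated) sectors and the orders inside the sectors -/
def fc (t1 t2 t3 : Fin 3) (o12 o23 o31 : Bool) : Fin 6 :=
  cod (decide (t2 = 1) && decide (t3 = 1) && !decide (t1 = 1))
    (decide (t1 = 1) && decide (t2 = 1) && !decide (t3 = 1))
    (decide (t3 = 1) && decide (t1 = 1) && !decide (t2 = 1))
    (leb t1 t2 o12 && leb t2 t3 o23) (leb t2 t3 o23 && leb t3 t1 o31)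

lemma key_dec : ∀ (s1 s2 s3 : Fin 3) (o12 o23 o31 : Bool),
    ((leb s1 s2 o12 && leb s2 s3 o23) || (leb s2 s3 o23 && leb s3 s1 o31) ||
      (leb s3 s1 o31 && leb s1 s2 o12)) = true →
    cp (fc (s1 - 2) (s2 - 2) (s3 - 2) o12 o23 o31) - cp (fc s1 s2 s3 o12 o23 o31) =
      (cp (fc (s1 - 1) (s2 - 1) (s3 - 1) o12 o23 o31) - cp (fc s1 s2 s3 o12 o23 o31)) +
      (cq (fc (s1 - 1) (s2 - 1) (s3 - 1) o12 o23 o31) - cq (fc s1 s2 s3 o12 o23 o31)) ∧
    cq (fc (s1 - 2) (s2 - 2) (s3 - 2) o12 o23 o31) - cq (fc s1 s2 s3 o12 o23 o31) =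
      -(cp (fc (s1 - 1) (s2 - 1) (s3 - 1) o12 o23 o31) - cp (fc s1 s2 s3 o12 o23 o31)) := by
  decide

lemma key_val {A B C : Fin 6} (h1 : cp C - cp A = (cp B - cp A) + (cq B - cq A))
    (h2 : cq C - cq A = -(cp B - cp A)) :
    cval C - cval A = (1 - v2) * (cval B - cval A) := by
  have h1' := congrArg (fun z : ℤ => (z : ℂ)) h1
  have h2' := congrArg (fun z : ℤ => (z : ℂ)) h2
  push_cast at h1' h2'
  simp only [cval]
  linear_combination (1 / 2) * h1' + (1 / 2) * v2 * h2' + (1 / 2) * ((cq B : ℂ) - cq A) * v2_sq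

/-- value of `VV` through the code -/
lemma VV_cod {F : NC} {y1 y2 y3 : ℕ} {N1 N3 N2 m1 m2 : Bool}
    (h1 : sep F 0 y2 y3 y1 ↔ N1 = true) (h3 : sep F 0 y1 y2 y3 ↔ N3 = true)
    (h2 : sep F 0 y3 y1 y2 ↔ N2 = true) (hm1 : (y1 ≤ y2 ∧ y2 ≤ y3) ↔ m1 = true)
    (hm2 : (y2 ≤ y3 ∧ y3 ≤ y1) ↔ m2 = true) :
    VV F y1 y2 y3 = cval (cod N1 N3 N2 m1 m2) := by
  simp only [VV, mid, h1, h2, h3, hm1, hm2, cod]
  cases N1 <;> cases N3 <;> cases N2 <;> cases m1 <;> cases m2 <;> simp [cval, cp, cq] <;> ring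

/-- sector of a gap -/
def sct (p q y : ℕ) : Fin 3 := if y ≤ p then 0 else if y ≤ q then 1 else 2

lemma sct_cases (p q y : ℕ) : (y ≤ p ∧ sct p q y = 0) ∨ (p < y ∧ y ≤ q ∧ sct p q y = 1) ∨
    (p < y ∧ q < y ∧ sct p q y = 2) := by
  unfold sct
  by_cases h : y ≤ p
  · left; exact ⟨h, if_pos h⟩
  · by_cases h' : y ≤ q
    · right; left; exact ⟨by omega, h', by rw [if_neg h, if_pos h']⟩
    · right; right; exact ⟨by omega, by omega, by rw [if_neg h, if_neg h']⟩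

lemma leb_iff (t t' : Fin 3) (o : Bool) : leb t t' o = true ↔ (t < t' ∨ (t = t' ∧ o = true)) := by
  simp [leb]

lemma rot_cases (n k y : ℕ) : (k ≤ y ∧ rot n k y = y - k) ∨ (y < k ∧ rot n k y = y + (n - k)) := by
  unfold rot; split_ifs <;> omega

lemma fin_facts : (0 : Fin 3) - 1 = 2 ∧ (1 : Fin 3) - 1 = 0 ∧ (2 : Fin 3) - 1 = 1 ∧
    (0 : Fin 3) - 2 = 1 ∧ (1 : Fin 3) - 2 = 2 ∧ (2 : Fin 3) - 2 = 0 := by decide

lemma le_a (p q y y' : ℕ) (hpq : p < q) : (y ≤ y') ↔ leb (sct p q y) (sct p q y')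
      (decide (y ≤ y')) = true := by
  rw [leb_iff, decide_eq_true_eq]
  rcases sct_cases p q y with ⟨h, e⟩ | ⟨h, h1, e⟩ | ⟨h, h1, e⟩ <;>
  rcases sct_cases p q y' with ⟨h', e'⟩ | ⟨h', h1', e'⟩ | ⟨h', h1', e'⟩ <;>
  rw [e, e'] <;>
  simp (decide := true) only [true_and, false_and, false_or, or_false, true_or, iff_true,
    iff_false] <;> omega

lemma le_b {n1 n2 n3 n y y' : ℕ} (hn : n = n1 + n2 + n3 + 3) (hy : y < n) (hy' : y' < n) :
    (rot n (n1 + 1) y ≤ rot n (n1 + 1) y') ↔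
      leb (sct n1 (n1 + n2 + 1) y - 1) (sct n1 (n1 + n2 + 1) y' - 1)
      (decide (y ≤ y')) = true := by
  obtain ⟨f1, f2, f3, -, -, -⟩ := fin_facts
  rw [leb_iff, decide_eq_true_eq]
  have hr := rot_cases n (n1 + 1) y
  have hr' := rot_cases n (n1 + 1) y'
  rcases sct_cases n1 (n1 + n2 + 1) y with ⟨h, e⟩ | ⟨h, h1, e⟩ | ⟨h, h1, e⟩ <;>
  rcases sct_cases n1 (n1 + n2 + 1) y' with ⟨h', e'⟩ | ⟨h', h1', e'⟩ | ⟨h', h1', e'⟩ <;>
  rw [e, e'] <;>
  simp (decide := true) only [f1, f2, f3, true_and, false_and, false_or, or_false, true_or,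
    iff_true, iff_false] <;> omega

lemma le_c {n1 n2 n3 n y y' : ℕ} (hn : n = n1 + n2 + n3 + 3) (hy : y < n) (hy' : y' < n) :
    (rot n (n1 + n2 + 2) y ≤ rot n (n1 + n2 + 2) y') ↔
      leb (sct n1 (n1 + n2 + 1) y - 2) (sct n1 (n1 + n2 + 1) y' - 2)
      (decide (y ≤ y')) = true := by
  obtain ⟨-, -, -, f1, f2, f3⟩ := fin_facts
  rw [leb_iff, decide_eq_true_eq]
  have hr := rot_cases n (n1 + n2 + 2) y
  have hr' := rot_cases n (n1 + n2 + 2) y'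
  rcases sct_cases n1 (n1 + n2 + 1) y with ⟨h, e⟩ | ⟨h, h1, e⟩ | ⟨h, h1, e⟩ <;>
  rcases sct_cases n1 (n1 + n2 + 1) y' with ⟨h', e'⟩ | ⟨h', h1', e'⟩ | ⟨h', h1', e'⟩ <;>
  rw [e, e'] <;>
  simp (decide := true) only [f1, f2, f3, true_and, false_and, false_or, or_false, true_or,
    iff_true, iff_false] <;> omega

lemma sct_one {p q y : ℕ} (hpq : p < q) : (p < y ∧ y ≤ q) ↔ sct p q y = 1 := by
  rcases sct_cases p q y with ⟨h, e⟩ | ⟨h, h1, e⟩ | ⟨h, h1, e⟩ <;> rw [e] <;>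
    simp (decide := true) only [iff_true, iff_false] <;> omega

lemma sct_two {p q y : ℕ} (hpq : p < q) : (q < y) ↔ sct p q y - 1 = 1 := by
  obtain ⟨f1, f2, f3, -, -, -⟩ := fin_facts
  rcases sct_cases p q y with ⟨h, e⟩ | ⟨h, h1, e⟩ | ⟨h, h1, e⟩ <;> rw [e] <;>
    simp (decide := true) only [f1, f2, f3, iff_true, iff_false] <;> omega

lemma sct_zero {p q y : ℕ} : (y ≤ p) ↔ sct p q y - 2 = 1 := by
  obtain ⟨-, -, -, f1, f2, f3⟩ := fin_facts
  rcases sct_cases p q y with ⟨h, e⟩ | ⟨h, h1, e⟩ | ⟨h, h1, e⟩ <;> rw [e] <;>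
    simp (decide := true) only [f1, f2, f3, iff_true, iff_false] <;> omega

lemma bool_N {P Q R : Prop} {t t' t'' : Fin 3} (h1 : P ↔ t = 1) (h2 : Q ↔ t' = 1)
    (h3 : R ↔ t'' = 1) : (P ∧ Q ∧ ¬ R) ↔
    (decide (t = 1) && decide (t' = 1) && !decide (t'' = 1)) = true := by
  rw [h1, h2, h3]; simp [and_assoc]

/-- **(A2)** of doc 1777: three legs `a, b, c` in ccw order, sectors `F1` (from `a` to `b`), `F2`
(from `b` to `c`), `F3` (from `c` to `a`); the gaps `y1 y2 y3` of the marks are read from `a`. -/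
theorem A2 {F1 F2 F3 : NC} {y1 y2 y3 n : ℕ} (hn : n = sz F1 + sz F2 + sz F3 + 3) (h1 : y1 < n)
    (h2 : y2 < n) (h3 : y3 < n)
    (hc : (y1 ≤ y2 ∧ y2 ≤ y3) ∨ (y2 ≤ y3 ∧ y3 ≤ y1) ∨ (y3 ≤ y1 ∧ y1 ≤ y2)) :
    VV (app F3 (cons F1 F2)) (rot n (sz F1 + sz F2 + 2) y1) (rot n (sz F1 + sz F2 + 2) y2)
        (rot n (sz F1 + sz F2 + 2) y3) - VV (app F1 (cons F2 F3)) y1 y2 y3 =
      (1 - v2) * (VV (app F2 (cons F3 F1)) (rot n (sz F1 + 1) y1) (rot n (sz F1 + 1) y2)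
        (rot n (sz F1 + 1) y3) - VV (app F1 (cons F2 F3)) y1 y2 y3) := by
  classical
  by_cases c1 : Com F1 F2 F3 y2 y3 y1
  · have ea : VV (app F1 (cons F2 F3)) y1 y2 y3 = 0 := by
      rw [VV, if_pos (sep_a.2 (Or.inl c1))]
    have eb : VV (app F2 (cons F3 F1)) (rot n (sz F1 + 1) y1) (rot n (sz F1 + 1) y2)
        (rot n (sz F1 + 1) y3) = 0 := by
      rw [VV, if_pos ((sep_b hn h2 h3 h1).2 (Or.inl c1))]
    have ec : VV (app F3 (cons F1 F2)) (rot n (sz F1 + sz F2 + 2) y1)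
        (rot n (sz F1 + sz F2 + 2) y2) (rot n (sz F1 + sz F2 + 2) y3) = 0 := by
      rw [VV, if_pos ((sep_c hn h2 h3 h1).2 (Or.inl c1))]
    rw [ea, eb, ec]; ring
  by_cases c3 : Com F1 F2 F3 y1 y2 y3
  · have hs := c3.sec
    have ea : VV (app F1 (cons F2 F3)) y1 y2 y3 = 1 := by
      rw [VV, if_neg, if_pos (sep_a.2 (Or.inl c3))]
      rw [sep_a]; rintro (h | h)
      · exact c1 h
      · omega
    have eb : VV (app F2 (cons F3 F1)) (rot n (sz F1 + 1) y1) (rot n (sz F1 + 1) y2)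
        (rot n (sz F1 + 1) y3) = 1 := by
      rw [VV, if_neg, if_pos ((sep_b hn h1 h2 h3).2 (Or.inl c3))]
      rw [sep_b hn h2 h3 h1]; rintro (h | h)
      · exact c1 h
      · omega
    have ec : VV (app F3 (cons F1 F2)) (rot n (sz F1 + sz F2 + 2) y1)
        (rot n (sz F1 + sz F2 + 2) y2) (rot n (sz F1 + sz F2 + 2) y3) = 1 := by
      rw [VV, if_neg, if_pos ((sep_c hn h1 h2 h3).2 (Or.inl c3))]
      rw [sep_c hn h2 h3 h1]; rintro (h | h)
      · exact c1 h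
      · omega
    rw [ea, eb, ec]; ring
  by_cases c2 : Com F1 F2 F3 y3 y1 y2
  · have hs := c2.sec
    have ea : VV (app F1 (cons F2 F3)) y1 y2 y3 = v2 := by
      rw [VV, if_neg, if_neg, if_pos (sep_a.2 (Or.inl c2))]
      · rw [sep_a]; rintro (h | h)
        · exact c3 h
        · omega
      · rw [sep_a]; rintro (h | h)
        · exact c1 h
        · omega
    have eb : VV (app F2 (cons F3 F1)) (rot n (sz F1 + 1) y1) (rot n (sz F1 + 1) y2)
        (rot n (sz F1 + 1) y3) = v2 := by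
      rw [VV, if_neg, if_neg, if_pos ((sep_b hn h3 h1 h2).2 (Or.inl c2))]
      · rw [sep_b hn h1 h2 h3]; rintro (h | h)
        · exact c3 h
        · omega
      · rw [sep_b hn h2 h3 h1]; rintro (h | h)
        · exact c1 h
        · omega
    have ec : VV (app F3 (cons F1 F2)) (rot n (sz F1 + sz F2 + 2) y1)
        (rot n (sz F1 + sz F2 + 2) y2) (rot n (sz F1 + sz F2 + 2) y3) = v2 := by
      rw [VV, if_neg, if_neg, if_pos ((sep_c hn h3 h1 h2).2 (Or.inl c2))]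
      · rw [sep_c hn h1 h2 h3]; rintro (h | h)
        · exact c3 h
        · omega
      · rw [sep_c hn h2 h3 h1]; rintro (h | h)
        · exact c1 h
        · omega
    rw [ea, eb, ec]; ring
  -- no common arc separates
  have hpq : sz F1 < sz F1 + sz F2 + 1 := by omega
  have eA : VV (app F1 (cons F2 F3)) y1 y2 y3 =
      cval (fc (sct (sz F1) (sz F1 + sz F2 + 1) y1) (sct (sz F1) (sz F1 + sz F2 + 1) y2) (sct (sz F1) (sz F1 + sz F2 + 1) y3)
        (decide (y1 ≤ y2)) (decide (y2 ≤ y3)) (decide (y3 ≤ y1))) :=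
    VV_cod ((sep_a.trans (or_iff_right c1)).trans
        (bool_N (sct_one hpq) (sct_one hpq) (sct_one hpq)))
      ((sep_a.trans (or_iff_right c3)).trans (bool_N (sct_one hpq) (sct_one hpq) (sct_one hpq)))
      ((sep_a.trans (or_iff_right c2)).trans (bool_N (sct_one hpq) (sct_one hpq) (sct_one hpq)))
      (by rw [Bool.and_eq_true, ← le_a _ _ y1 y2 hpq, ← le_a _ _ y2 y3 hpq])
      (by rw [Bool.and_eq_true, ← le_a _ _ y2 y3 hpq, ← le_a _ _ y3 y1 hpq])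
  have eB : VV (app F2 (cons F3 F1)) (rot n (sz F1 + 1) y1) (rot n (sz F1 + 1) y2)
      (rot n (sz F1 + 1) y3) =
      cval (fc (sct (sz F1) (sz F1 + sz F2 + 1) y1 - 1)
        (sct (sz F1) (sz F1 + sz F2 + 1) y2 - 1)
        (sct (sz F1) (sz F1 + sz F2 + 1) y3 - 1)
        (decide (y1 ≤ y2)) (decide (y2 ≤ y3)) (decide (y3 ≤ y1))) :=
    VV_cod (((sep_b hn h2 h3 h1).trans (or_iff_right c1)).trans
        (bool_N (sct_two hpq) (sct_two hpq) (sct_two hpq)))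
      (((sep_b hn h1 h2 h3).trans (or_iff_right c3)).trans
        (bool_N (sct_two hpq) (sct_two hpq) (sct_two hpq)))
      (((sep_b hn h3 h1 h2).trans (or_iff_right c2)).trans
        (bool_N (sct_two hpq) (sct_two hpq) (sct_two hpq)))
      (by rw [Bool.and_eq_true, ← le_b hn h1 h2, ← le_b hn h2 h3])
      (by rw [Bool.and_eq_true, ← le_b hn h2 h3, ← le_b hn h3 h1])
  have eC : VV (app F3 (cons F1 F2)) (rot n (sz F1 + sz F2 + 2) y1)
      (rot n (sz F1 + sz F2 + 2) y2) (rot n (sz F1 + sz F2 + 2) y3) =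
      cval (fc (sct (sz F1) (sz F1 + sz F2 + 1) y1 - 2)
        (sct (sz F1) (sz F1 + sz F2 + 1) y2 - 2)
        (sct (sz F1) (sz F1 + sz F2 + 1) y3 - 2)
        (decide (y1 ≤ y2)) (decide (y2 ≤ y3)) (decide (y3 ≤ y1))) :=
    VV_cod (((sep_c hn h2 h3 h1).trans (or_iff_right c1)).trans
        (bool_N sct_zero sct_zero sct_zero))
      (((sep_c hn h1 h2 h3).trans (or_iff_right c3)).trans
        (bool_N sct_zero sct_zero sct_zero))
      (((sep_c hn h3 h1 h2).trans (or_iff_right c2)).trans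
        (bool_N sct_zero sct_zero sct_zero))
      (by rw [Bool.and_eq_true, ← le_c hn h1 h2, ← le_c hn h2 h3])
      (by rw [Bool.and_eq_true, ← le_c hn h2 h3, ← le_c hn h3 h1])
  rw [eA, eB, eC]
  have hk := key_dec (sct (sz F1) (sz F1 + sz F2 + 1) y1) (sct (sz F1) (sz F1 + sz F2 + 1) y2)
    (sct (sz F1) (sz F1 + sz F2 + 1) y3) (decide (y1 ≤ y2)) (decide (y2 ≤ y3))
    (decide (y3 ≤ y1)) (by
      rw [Bool.or_eq_true, Bool.or_eq_true, Bool.and_eq_true, Bool.and_eq_true, Bool.and_eq_true,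
        ← le_a _ _ y1 y2 hpq, ← le_a _ _ y2 y3 hpq, ← le_a _ _ y3 y1 hpq]
      tauto)
  exact key_val hk.1 hk.2

end Crest.Agent.R158.Va954
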