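import Mathlib

/-!
# R158, V4 (helper841): trigonometric normal forms at one vertex

`F q = 2 cos (π/3 + q)` is the weight of a loop with enclosed charge `q`; in canonical orientation
a loop has a sign `k = ±1` and a pairing `t` with `q = k t`, and the weight is
`2 cos (k π/3 + t)`.

* `side`  : two loops of sign `k = k_S` (side by side) minus the merged loop `= 4 sin t1 sin t2`
* `nest`  : loops of signs `k` (inner) and `-k` (outer) minus the merged loop
  `= -4 k sin t1 cos (t2 - k π/6)`
* `side_mass`, `nest_mass` : the same in terms of the enclosed masses of `μ` with the base point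
  `-π` in any of the admissible positions (doc 1849 (P))
* `F_sub_pi`, `F_add_pi`, values of `F` at the multiples of `π/6`
-/

set_option autoImplicit false

noncomputable section

namespace Crest.Agent.R158.Vn841

open Real

/-- weight of a loop with enclosed charge `q` -/
def F (q : ℝ) : ℝ := 2 * cos (π / 3 + q)

theorem F_zero : F 0 = 1 := by unfold F; rw [add_zero, cos_pi_div_three]; norm_num

theorem F_sub_pi (q : ℝ) : F (q - π) = -F q := by
  unfold F
  rw [show π / 3 + (q - π) = (π / 3 + q) - π by ring, cos_sub_pi]; ring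

theorem F_add_pi (q : ℝ) : F (q + π) = -F q := by
  unfold F
  rw [show π / 3 + (q + π) = (π / 3 + q) + π by ring, cos_add_pi]; ring

theorem abs_F_le (q : ℝ) : |F q| ≤ 2 := by
  unfold F
  rw [abs_mul, abs_of_pos (by norm_num : (0 : ℝ) < 2)]
  have := abs_cos_le_one (π / 3 + q)
  linarith

theorem F_neg_pi : F (-π) = -1 := by
  have h := F_sub_pi 0
  rw [zero_sub, F_zero] at h
  exact h

theorem F_pi : F π = -1 := by
  have h := F_add_pi 0
  rw [zero_add, F_zero] at h
  exact h

theorem F_pi_six : F (π / 6) = 0 := by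
  unfold F
  rw [show π / 3 + π / 6 = π / 2 by ring, cos_pi_div_two]; norm_num

theorem F_pi_three : F (π / 3) = -1 := by
  unfold F
  rw [show π / 3 + π / 3 = π - π / 3 by ring, cos_pi_sub, cos_pi_div_three]; norm_num

theorem F_pi_two : F (π / 2) = -√3 := by
  unfold F
  rw [show π / 3 + π / 2 = π - π / 6 by ring, cos_pi_sub, cos_pi_div_six]; ring

theorem F_two_pi_three : F (2 * π / 3) = -2 := by
  unfold F
  rw [show π / 3 + 2 * π / 3 = π by ring, cos_pi]; norm_num

theorem F_five_pi_six : F (5 * π / 6) = -√3 := by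
  unfold F
  rw [show π / 3 + 5 * π / 6 = π / 6 + π by ring, cos_add_pi, cos_pi_div_six]; ring

theorem F_neg_pi_six : F (-(π / 6)) = √3 := by
  unfold F
  rw [show π / 3 + -(π / 6) = π / 6 by ring, cos_pi_div_six]; ring

theorem F_neg_pi_three : F (-(π / 3)) = 2 := by
  unfold F
  rw [show π / 3 + -(π / 3) = 0 by ring, cos_zero]; norm_num

theorem F_neg_pi_two : F (-(π / 2)) = √3 := by
  unfold F
  rw [show π / 3 + -(π / 2) = -(π / 6) by ring, cos_neg, cos_pi_div_six]; ring

theorem F_neg_two_pi_three : F (-(2 * π / 3)) = 1 := by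
  unfold F
  rw [show π / 3 + -(2 * π / 3) = -(π / 3) by ring, cos_neg, cos_pi_div_three]; norm_num

theorem F_neg_five_pi_six : F (-(5 * π / 6)) = 0 := by
  unfold F
  rw [show π / 3 + -(5 * π / 6) = -(π / 2) by ring, cos_neg, cos_pi_div_two]; norm_num

/-- weight in canonical form -/
theorem F_sign {k t : ℝ} (hk : k = 1 ∨ k = -1) : F (k * t) = 2 * cos (k * (π / 3) + t) := by
  unfold F
  rcases hk with rfl | rfl
  · rw [one_mul, one_mul]
  · rw [show π / 3 + -1 * t = -(-1 * (π / 3) + t) by ring, cos_neg]

/-- **side by side**: both loops have the sign of the state -/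
theorem side {k : ℝ} (hk : k = 1 ∨ k = -1) (t1 t2 : ℝ) :
    2 * cos (k * (π / 3) + t1) * (2 * cos (k * (π / 3) + t2))
      - 2 * cos (k * (π / 3) + (t1 + t2)) = 4 * sin t1 * sin t2 := by
  have h3 : cos (π / 3) = 1 / 2 := cos_pi_div_three
  have h4 : sin (π / 3) = √3 / 2 := sin_pi_div_three
  have h5 : (√3) ^ 2 = 3 := Real.sq_sqrt (by norm_num)
  rcases hk with rfl | rfl
  · simp only [one_mul, cos_add, sin_add, h3, h4]
    linear_combination (sin t1 * sin t2) * h5
  · rw [show (-1 : ℝ) * (π / 3) = -(π / 3) by ring]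
    simp only [cos_add, sin_add, cos_neg, sin_neg, h3, h4]
    linear_combination (sin t1 * sin t2) * h5

/-- **nested**: the inner loop `1` has the sign of the state, the outer loop `2` the opposite one -/
theorem nest {k : ℝ} (hk : k = 1 ∨ k = -1) (t1 t2 : ℝ) :
    2 * cos (k * (π / 3) + t1) * (2 * cos (-k * (π / 3) + t2))
      - 2 * cos (-k * (π / 3) + (t1 + t2)) = -4 * k * sin t1 * cos (t2 - k * (π / 6)) := by
  have h3 : cos (π / 3) = 1 / 2 := cos_pi_div_three
  have h4 : sin (π / 3) = √3 / 2 := sin_pi_div_three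
  have h6 : cos (π / 6) = √3 / 2 := cos_pi_div_six
  have h7 : sin (π / 6) = 1 / 2 := sin_pi_div_six
  have h5 : (√3) ^ 2 = 3 := Real.sq_sqrt (by norm_num)
  rcases hk with rfl | rfl
  · rw [show (-1 : ℝ) * (π / 3) = -(π / 3) by ring]
    simp only [one_mul, cos_add, cos_sub, sin_add, cos_neg, sin_neg, h3, h4, h6, h7]
    linear_combination (-sin t1 * sin t2) * h5
  · rw [show (-1 : ℝ) * (π / 3) = -(π / 3) by ring, show -(-1 : ℝ) * (π / 3) = π / 3 by ring,
      show t2 - -1 * (π / 6) = t2 + π / 6 by ring]
    simp only [cos_add, sin_add, cos_neg, sin_neg, h3, h4, h6, h7]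
    linear_combination (-sin t1 * sin t2) * h5

/-- side by side, enclosed masses -/
theorem F_side (a b : ℝ) : F a * F b - F (a + b) = 4 * sin a * sin b := by
  have h := side (Or.inl rfl) a b
  unfold F
  simpa only [one_mul] using h

/-- nested, enclosed masses: `a` inner, `b` outer (`b` = mass of the outer interior) -/
theorem F_nest (a b : ℝ) : F a * F b - F (b - a) = -4 * sin a * cos (b + π / 6) := by
  have h := nest (Or.inl rfl) a (-b)
  have e1 : F b = 2 * cos (-1 * (π / 3) + -b) := by
    unfold F; rw [show (-1 : ℝ) * (π / 3) + -b = -(π / 3 + b) by ring, cos_neg]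
  have e2 : F (b - a) = 2 * cos (-1 * (π / 3) + (a + -b)) := by
    unfold F; rw [show (-1 : ℝ) * (π / 3) + (a + -b) = -(π / 3 + (b - a)) by ring, cos_neg]
  have e3 : F a = 2 * cos (1 * (π / 3) + a) := by unfold F; rw [one_mul]
  rw [e1, e2, e3, h, show -b - 1 * (π / 6) = -(b + π / 6) by ring, cos_neg]
  ring

theorem cos_add_pi_six (x : ℝ) : cos (x + π / 6) = -sin (x - π / 3) := by
  rw [show x - π / 3 = x + π / 6 - π / 2 by ring, sin_sub_pi_div_two, neg_neg]

/-- nested, enclosed masses, form of doc 1849: outer mass `M`, inner mass `m` -/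
theorem F_nest' (m M : ℝ) : F m * F M - F (M - m) = 4 * sin (M - π / 3) * sin m := by
  rw [F_nest, cos_add_pi_six]; ring

/-- open minus closed, closed state split side by side, base point inside the first loop -/
theorem nab_side_closed (M1 M2 : ℝ) :
    F (M1 - π + M2) - F (M1 - π) * F M2 = 4 * sin M1 * sin M2 := by
  have h := F_side (M1 - π) M2
  rw [sin_sub_pi] at h
  linarith

/-- open minus closed, open state split side by side, base point outside -/
theorem nab_side_open (M1 M2 : ℝ) :
    F M1 * F M2 - F (M1 + M2) = 4 * sin M1 * sin M2 := F_side M1 M2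

/-- open minus closed, open state nested, base point between the loops -/
theorem nab_nest_open (m M : ℝ) :
    F m * F (M - π) - F (M - π - m) = -4 * sin (M - π / 3) * sin m := by
  have h := F_nest' m (M - π)
  rw [h, show M - π - π / 3 = (M - π / 3) - π by ring, sin_sub_pi]; ring

/-- open minus closed, closed state nested, base point inside the inner loop -/
theorem nab_nest_closed_in (m M : ℝ) :
    F ((M - π) - (m - π)) - F (m - π) * F (M - π) = -4 * sin (M - π / 3) * sin m := by
  have h := F_nest' (m - π) (M - π)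
  rw [show M - π - π / 3 = (M - π / 3) - π by ring, sin_sub_pi, sin_sub_pi] at h
  linarith

/-- open minus closed, closed state nested, base point outside the outer loop -/
theorem nab_nest_closed_out (m M : ℝ) :
    F (M - m) - F m * F M = -4 * sin (M - π / 3) * sin m := by
  have h := F_nest' m M
  linarith

end Crest.Agent.R158.Vn841
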