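import Crest.Agent.R158.It4_200
import Crest.Agent.R158.Wf0_850
import Crest.Agent.R158.Vn1_841

/-!
# R158, V4 (helper841), part 2: surgery of the interiors of the loops at one edge

In the language of `Wf0_850` (`Lps z : Set (Finset Face)`):

* `In z c` : interior of the (finite) strand through the corner `c`
* `Rst z e` : the loops that do not visit `e` (common to both states of `e`), `rst_four`: they contain all
  the four faces at `e` or none of them
* `lps_two`, `lps_one` : `Lps z = Rst z e ∪ {In z (i1 e), In z (i2 e)}`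
* `surg` : relation between the two loops of the two-loop state and the merged loop: `Side` or `Nest`
-/

set_option autoImplicit false

noncomputable section

namespace Crest.Agent.R158.Vn841

open Crest.Agent.R161.Geo729 Crest.Agent.R161.Dual374
open Crest.Agent.R158.Rs689 (Dep)
open Crest.Agent.R158.It200 Crest.Agent.R158.Wf850

/-! ### interiors -/

open Classical in
/-- interior of the strand through `c` (`∅` if it is infinite) -/
def In (z : Cfz) (c : Corner) : Finset Face :=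
  if h : (Lp z c).Finite then (exists_int h).choose else ∅

theorem In_spec {z : Cfz} {c : Corner} (h : (Lp z c).Finite) :
    In z c ∈ Lps z ∧ ∀ f, f ∈ In z c ↔ ht z c f ≠ 0 := by
  unfold In
  rw [dif_pos h]
  exact (exists_int h).choose_spec

theorem mem_In {z : Cfz} {c : Corner} (h : (Lp z c).Finite) {f : Face} :
    f ∈ In z c ↔ ht z c f ≠ 0 := (In_spec h).2 f

theorem In_mem {z : Cfz} {c : Corner} (h : (Lp z c).Finite) : In z c ∈ Lps z := (In_spec h).1

theorem ht_eq {z : Cfz} {c d : Corner} (h : d ∈ Lp z c) : ht z d = ht z c := by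
  funext f; unfold ht; rw [hv_eq h, hf_eq h]

theorem In_eq {z : Cfz} {c d : Corner} (hfin : (Lp z c).Finite) (h : d ∈ Lp z c) :
    In z d = In z c := by
  have hd : (Lp z d).Finite := by rw [Lp_eq h]; exact hfin
  ext f
  rw [mem_In hd, mem_In hfin, ht_eq h]

theorem sep_In {z : Cfz} {c : Corner} (hfin : (Lp z c).Finite) (d : Corner) :
    sepC (In z c) d ↔ d ∈ Lp z c := sep_iff hfin (In_spec hfin).2 d

theorem In_ne {z : Cfz} {c d : Corner} (hc : (Lp z c).Finite) (hd : (Lp z d).Finite)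
    (h : d ∉ Lp z c) : In z c ≠ In z d := by
  intro heq
  have h1 := (sep_In hd d).2 (mem_Lp_self z d)
  rw [← heq] at h1
  exact h ((sep_In hc d).1 h1)

theorem eq_In {z : Cfz} {A : Finset Face} {d : Corner} (hA : A ∈ Lps z) (h : sepC A d) :
    (Lp z d).Finite ∧ A = In z d := by
  obtain ⟨c, hc, hA'⟩ := id hA
  have h1 := (sep_iff hc hA' d).1 h
  have hd : (Lp z d).Finite := by rw [Lp_eq h1]; exact hc
  exact ⟨hd, sep_uniq hA (In_mem hd) h ((sep_In hd d).2 (mem_Lp_self z d))⟩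

/-! ### the four faces at an edge -/

theorem cf_o2 (e : Edge) : cf (o2 e) = cf (i1 e) := by
  unfold cf; rw [← nxo_i1, fc_nxo]

theorem cf_o1 (e : Edge) : cf (o1 e) = cf (i2 e) := by
  unfold cf; rw [← nxo_i2, fc_nxo]

theorem cv_o1 (e : Edge) : cv (o1 e) = cv (i1 e) := by
  unfold cv; rw [fst_o1, fst_i1]

theorem cv_o2 (e : Edge) : cv (o2 e) = cv (i2 e) := by
  unfold cv; rw [fst_o2, fst_i2]

theorem cv_i1 (e : Edge) : cv (i1 e) = (src e, false) := by unfold cv; rw [fst_i1]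
theorem cv_i2 (e : Edge) : cv (i2 e) = (tgt e, false) := by unfold cv; rw [fst_i2]

theorem cf_cases (e : Edge) : (cf (i1 e) = (fA e, true) ∧ cf (i2 e) = (fB e, true)) ∨
    (cf (i1 e) = (fB e, true) ∧ cf (i2 e) = (fA e, true)) := by
  rw [← cf_o1]
  unfold cf
  rcases fA_or_fB e with ⟨h1, h2⟩ | ⟨h1, h2⟩
  · exact Or.inl ⟨by rw [h1], by rw [h2]⟩
  · exact Or.inr ⟨by rw [h1], by rw [h2]⟩

theorem mem_bdE' {A : Finset Face} {e : Edge} : e ∈ bdE A ↔ sepC A (i1 e) ∨ sepC A (i2 e) := by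
  rw [mem_bdE]
  constructor
  · rintro ⟨d, hd, h⟩
    rcases (ah_eq_iff d e).1 h with rfl | rfl
    · exact Or.inl hd
    · exact Or.inr hd
  · rintro (h | h)
    · exact ⟨_, h, ah_i1 e⟩
    · exact ⟨_, h, ah_i2 e⟩

/-! ### the loops that do not visit the edge -/

/-- the loops that do not visit `e` -/
def Rst (z : Cfz) (e : Edge) : Set (Finset Face) := {A | A ∈ Lps z ∧ e ∉ bdE A}

theorem rst_congr {z z' : Cfz} {e : Edge} (h : ∀ e', e' ≠ e → z e' = z' e') :
    Rst z e = Rst z' e := by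
  ext A
  constructor
  · rintro ⟨h1, h2⟩
    exact ⟨(loc A z z' fun e' he' => h e' fun h' => h2 (h' ▸ he')).1 h1, h2⟩
  · rintro ⟨h1, h2⟩
    exact ⟨(loc A z z' fun e' he' => h e' fun h' => h2 (h' ▸ he')).2 h1, h2⟩

theorem rst_flip (z : Cfz) (e : Edge) : Rst (flip z e) e = Rst z e :=
  rst_congr fun _ h => flip_ne z h

/-- a loop that does not visit `e` contains all the four faces at `e` or none -/
theorem rst_four {z : Cfz} {e : Edge} {A : Finset Face} (hA : A ∈ Rst z e) :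
    (cf (i1 e) ∈ A ↔ cv (i1 e) ∈ A) ∧ (cf (i2 e) ∈ A ↔ cv (i1 e) ∈ A) ∧
      (cv (i2 e) ∈ A ↔ cv (i1 e) ∈ A) := by
  obtain ⟨h1, h2⟩ := hA
  rw [mem_bdE', not_or] at h2
  obtain ⟨h3, h4⟩ := h2
  unfold sepC at h3 h4
  rw [not_not] at h3 h4
  cases hz : z e with
  | true =>
      have h5 : cv (i1 e) ∈ A ↔ cv (i2 e) ∈ A := by
        rw [cv_i1, cv_i2]
        exact lps_open h1 (Relation.ReflTransGen.single ⟨e, hz, Or.inl ⟨rfl, rfl⟩⟩)
      exact ⟨h3.symm, h4.symm.trans h5.symm, h5.symm⟩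
  | false =>
      have h5 : cf (i1 e) ∈ A ↔ cf (i2 e) ∈ A := by
        rcases cf_cases e with ⟨ha, hb⟩ | ⟨ha, hb⟩
        · rw [ha, hb]
          exact lps_closed h1 (Relation.ReflTransGen.single ⟨e, hz, Or.inl ⟨rfl, rfl⟩⟩)
        · rw [ha, hb]
          exact lps_closed h1 (Relation.ReflTransGen.single ⟨e, hz, Or.inr ⟨rfl, rfl⟩⟩)
      exact ⟨h3.symm, h5.symm.trans h3.symm, h4.trans (h5.symm.trans h3.symm)⟩

/-- decomposition, all states -/
theorem lps_eq {z : Cfz} {e : Edge} (h1 : (Lp z (i1 e)).Finite) (h2 : (Lp z (i2 e)).Finite) :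
    Lps z = Rst z e ∪ {In z (i1 e), In z (i2 e)} := by
  ext A
  constructor
  · intro hA
    by_cases he : e ∈ bdE A
    · right
      rcases mem_bdE'.1 he with h | h
      · exact Or.inl (eq_In hA h).2
      · exact Or.inr (eq_In hA h).2
    · exact Or.inl ⟨hA, he⟩
  · rintro (h | h | h)
    · exact h.1
    · rw [h]; exact In_mem h1
    · rw [h]; exact In_mem h2

theorem In_not_rst1 {z : Cfz} {e : Edge} (h1 : (Lp z (i1 e)).Finite) : In z (i1 e) ∉ Rst z e :=
  fun h => h.2 (mem_bdE'.2 (Or.inl ((sep_In h1 _).2 (mem_Lp_self _ _))))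

theorem In_not_rst2 {z : Cfz} {e : Edge} (h1 : (Lp z (i2 e)).Finite) : In z (i2 e) ∉ Rst z e :=
  fun h => h.2 (mem_bdE'.2 (Or.inr ((sep_In h1 _).2 (mem_Lp_self _ _))))

/-! ### surgery -/

/-- two loops side by side, `A` = the merged loop; `X1, X2` the separated faces, `Y1, Y2` the others -/
structure Side (X1 X2 Y1 Y2 : Face) (A1 A2 A : Finset Face) : Prop where
  dis : Disjoint A1 A2
  mem : ∀ f, f ∈ A ↔ f ∈ A1 ∨ f ∈ A2
  x1 : X1 ∈ A1
  x2 : X2 ∈ A2
  y1 : Y1 ∉ A
  y2 : Y2 ∉ A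

/-- `Ai` inside `Ao`, `A` = the merged loop -/
structure Nest (Xo Xi Y1 Y2 : Face) (Ao Ai A : Finset Face) : Prop where
  sub : Ai ⊆ Ao
  mem : ∀ f, f ∈ A ↔ f ∈ Ao ∧ f ∉ Ai
  xo : Xo ∉ Ao
  xi : Xi ∈ Ai
  y1 : Y1 ∈ A
  y2 : Y2 ∈ A

/-- first separated face of the two-loop state `z` at `e` -/
def X1 (z : Cfz) (e : Edge) : Face := if z e then cf (i1 e) else cv (i1 e)
/-- second separated face -/
def X2 (z : Cfz) (e : Edge) : Face := if z e then cf (i2 e) else cv (i2 e)
/-- the faces on the other side of both strands -/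
def Y1 (z : Cfz) (e : Edge) : Face := if z e then cv (i1 e) else cf (i1 e)
/-- the faces on the other side of both strands -/
def Y2 (z : Cfz) (e : Edge) : Face := if z e then cv (i2 e) else cf (i2 e)

theorem ht_split {z : Cfz} {e : Edge} (hfin : (Lp z (i1 e)).Finite) (h : i2 e ∈ Lp z (i1 e))
    (f : Face) : ht z (i1 e) f = ht (flip z e) (i1 e) f + ht (flip z e) (i2 e) f := by
  unfold ht
  split_ifs
  · exact hf_split hfin h f.1
  · exact hv_split hfin h f.1

/-- values of the heights according to the sign -/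
theorem ht_pos {z : Cfz} {c : Corner} (hfin : (Lp z c).Finite) (h : sg z c = 1) :
    (∀ f, ht z c f = 0 ∨ ht z c f = 1) ∧ ∀ d ∈ Lp z c, ht z c (cv d) = 0 ∧ ht z c (cf d) = 1 := by
  rcases sg_cases hfin with ⟨h0, _⟩ | ⟨_, h1, h2, h3⟩
  · rw [h] at h0; norm_num at h0
  · refine ⟨fun f => ?_, fun d hd => ?_⟩
    · unfold ht; split_ifs
      · exact h3 _
      · exact h2 _
    · rw [ht_cv, ht_cf]; exact h1 d hd

theorem ht_neg {z : Cfz} {c : Corner} (hfin : (Lp z c).Finite) (h : sg z c = -1) :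
    (∀ f, ht z c f = 0 ∨ ht z c f = -1) ∧ ∀ d ∈ Lp z c, ht z c (cv d) = -1 ∧ ht z c (cf d) = 0 := by
  rcases sg_cases hfin with ⟨_, h1, h2, h3⟩ | ⟨h0, _⟩
  · refine ⟨fun f => ?_, fun d hd => ?_⟩
    · unfold ht; split_ifs
      · exact (h3 _).symm
      · exact (h2 _).symm
    · rw [ht_cv, ht_cf]; exact h1 d hd
  · rw [h] at h0; norm_num at h0

/-- the strands at `e` of `flip z e` are finite -/
theorem fin_flip1 {z : Cfz} {e : Edge} (h1 : (Lp z (i1 e)).Finite) (h2 : (Lp z (i2 e)).Finite) :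
    (Lp (flip z e) (i1 e)).Finite :=
  (h1.union h2).subset (by rw [← flip_union z e]; exact Set.subset_union_left)

theorem fin_flip2 {z : Cfz} {e : Edge} (h1 : (Lp z (i1 e)).Finite) (h2 : (Lp z (i2 e)).Finite) :
    (Lp (flip z e) (i2 e)).Finite :=
  (h1.union h2).subset (by rw [← flip_union z e]; exact Set.subset_union_right)

/-- **surgery**: `z` is the two-loop state -/
theorem surg {z : Cfz} {e : Edge} (h1 : (Lp z (i1 e)).Finite) (h2 : (Lp z (i2 e)).Finite)
    (hne : i2 e ∉ Lp z (i1 e)) :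
    Side (X1 z e) (X2 z e) (Y1 z e) (Y2 z e) (In z (i1 e)) (In z (i2 e)) (In (flip z e) (i1 e)) ∨
    Nest (X1 z e) (X2 z e) (Y1 z e) (Y2 z e) (In z (i1 e)) (In z (i2 e)) (In (flip z e) (i1 e)) ∨
    Nest (X2 z e) (X1 z e) (Y1 z e) (Y2 z e) (In z (i2 e)) (In z (i1 e))
      (In (flip z e) (i1 e)) := by
  have hm := flip_merge h2 hne
  have f1 := fin_flip1 h1 h2
  have f2 := fin_flip2 h1 h2
  have hsp := ht_split f1 hm
  rw [It200.flip_flip] at hsp
  have a1 : i1 e ∈ Lp z (i1 e) := mem_Lp_self _ _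
  have a2 : i2 e ∈ Lp z (i2 e) := mem_Lp_self _ _
  -- the sign pattern
  have hpat : (sg (flip z e) (i1 e) = 1 ∧ sg z (i1 e) = 1 ∧ sg z (i2 e) = 1 ∧ z e = true) ∨
      (sg (flip z e) (i1 e) = -1 ∧ sg z (i1 e) = -1 ∧ sg z (i2 e) = 1 ∧ z e = true) ∨
      (sg (flip z e) (i1 e) = -1 ∧ sg z (i1 e) = 1 ∧ sg z (i2 e) = -1 ∧ z e = true) ∨
      (sg (flip z e) (i1 e) = -1 ∧ sg z (i1 e) = -1 ∧ sg z (i2 e) = -1 ∧ z e = false) ∨
      (sg (flip z e) (i1 e) = 1 ∧ sg z (i1 e) = 1 ∧ sg z (i2 e) = -1 ∧ z e = false) ∨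
      (sg (flip z e) (i1 e) = 1 ∧ sg z (i1 e) = -1 ∧ sg z (i2 e) = 1 ∧ z e = false) := by
    cases hz : z e with
    | true =>
        have hz' : flip z e e = false := by rw [flip_same, hz]; rfl
        have h := split_closed_open hz' f1 hm
        rw [It200.flip_flip] at h
        rcases h with ⟨b, c, d, -, -⟩ | ⟨b, c, d, -, -⟩ | ⟨b, c, d, -, -⟩ <;> simp [b, c, d]
    | false =>
        have hz' : flip z e e = true := by rw [flip_same, hz]; rfl
        have h := split_open_closed hz' f1 hm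
        rw [It200.flip_flip] at h
        rcases h with ⟨b, c, d, -, -⟩ | ⟨b, c, d, -, -⟩ | ⟨b, c, d, -, -⟩ <;> simp [b, c, d]
  rcases hpat with ⟨s0, s1, s2, hz⟩ | ⟨s0, s1, s2, hz⟩ | ⟨s0, s1, s2, hz⟩ | ⟨s0, s1, s2, hz⟩ |
    ⟨s0, s1, s2, hz⟩ | ⟨s0, s1, s2, hz⟩
  · -- side by side, open
    left
    obtain ⟨p0, -⟩ := ht_pos f1 s0
    obtain ⟨p1, q1⟩ := ht_pos h1 s1
    obtain ⟨p2, q2⟩ := ht_pos h2 s2
    have o1' := q1 _ (o2_mem_open hz)
    have o2' := q2 _ (o1_mem_open hz)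
    rw [cv_o2, cf_o2] at o1'
    rw [cv_o1, cf_o1] at o2'
    refine ⟨?_, ?_, ?_, ?_, ?_, ?_⟩
    · rw [Finset.disjoint_left]
      intro f hf1 hf2
      rw [mem_In h1] at hf1
      rw [mem_In h2] at hf2
      have := hsp f
      rcases p0 f with h | h <;> rcases p1 f with h' | h' <;> rcases p2 f with h'' | h'' <;> omega
    · intro f
      rw [mem_In f1, mem_In h1, mem_In h2]
      have := hsp f
      rcases p0 f with h | h <;> rcases p1 f with h' | h' <;> rcases p2 f with h'' | h'' <;> omega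
    · rw [X1, hz, if_pos rfl, mem_In h1, (q1 _ a1).2]; norm_num
    · rw [X2, hz, if_pos rfl, mem_In h2, (q2 _ a2).2]; norm_num
    · rw [Y1, hz, if_pos rfl, mem_In f1, hsp, (q1 _ a1).1, o2'.1]; norm_num
    · rw [Y2, hz, if_pos rfl, mem_In f1, hsp, (q2 _ a2).1, o1'.1]; norm_num
  · right; left
    obtain ⟨p0, -⟩ := ht_neg f1 s0
    obtain ⟨p1, q1⟩ := ht_neg h1 s1
    obtain ⟨p2, q2⟩ := ht_pos h2 s2
    have o1' := q1 _ (o2_mem_open hz)
    have o2' := q2 _ (o1_mem_open hz)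
    rw [cv_o2, cf_o2] at o1'
    rw [cv_o1, cf_o1] at o2'
    refine ⟨?_, ?_, ?_, ?_, ?_, ?_⟩
    · intro f hf2
      rw [mem_In h2] at hf2
      rw [mem_In h1]
      have := hsp f
      rcases p0 f with h | h <;> rcases p1 f with h' | h' <;> rcases p2 f with h'' | h'' <;> omega
    · intro f
      rw [mem_In f1, mem_In h1, mem_In h2]
      have := hsp f
      rcases p0 f with h | h <;> rcases p1 f with h' | h' <;> rcases p2 f with h'' | h'' <;> omega
    · rw [X1, hz, if_pos rfl, mem_In h1, (q1 _ a1).2]; norm_num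
    · rw [X2, hz, if_pos rfl, mem_In h2, (q2 _ a2).2]; norm_num
    · rw [Y1, hz, if_pos rfl, mem_In f1, hsp, (q1 _ a1).1, o2'.1]; norm_num
    · rw [Y2, hz, if_pos rfl, mem_In f1, hsp, (q2 _ a2).1, o1'.1]; norm_num
  · right; right
    obtain ⟨p0, -⟩ := ht_neg f1 s0
    obtain ⟨p1, q1⟩ := ht_pos h1 s1
    obtain ⟨p2, q2⟩ := ht_neg h2 s2
    have o1' := q1 _ (o2_mem_open hz)
    have o2' := q2 _ (o1_mem_open hz)
    rw [cv_o2, cf_o2] at o1'
    rw [cv_o1, cf_o1] at o2'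
    refine ⟨?_, ?_, ?_, ?_, ?_, ?_⟩
    · intro f hf2
      rw [mem_In h1] at hf2
      rw [mem_In h2]
      have := hsp f
      rcases p0 f with h | h <;> rcases p1 f with h' | h' <;> rcases p2 f with h'' | h'' <;> omega
    · intro f
      rw [mem_In f1, mem_In h1, mem_In h2]
      have := hsp f
      rcases p0 f with h | h <;> rcases p1 f with h' | h' <;> rcases p2 f with h'' | h'' <;> omega
    · rw [X2, hz, if_pos rfl, mem_In h2, (q2 _ a2).2]; norm_num
    · rw [X1, hz, if_pos rfl, mem_In h1, (q1 _ a1).2]; norm_num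
    · rw [Y1, hz, if_pos rfl, mem_In f1, hsp, (q1 _ a1).1, o2'.1]; norm_num
    · rw [Y2, hz, if_pos rfl, mem_In f1, hsp, (q2 _ a2).1, o1'.1]; norm_num
  · -- side by side, closed
    left
    obtain ⟨p0, -⟩ := ht_neg f1 s0
    obtain ⟨p1, q1⟩ := ht_neg h1 s1
    obtain ⟨p2, q2⟩ := ht_neg h2 s2
    have o1' := q1 _ (o1_mem_closed hz)
    have o2' := q2 _ (o2_mem_closed hz)
    rw [cv_o1, cf_o1] at o1'
    rw [cv_o2, cf_o2] at o2'
    have hb : ¬ (false = true) := by simp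
    refine ⟨?_, ?_, ?_, ?_, ?_, ?_⟩
    · rw [Finset.disjoint_left]
      intro f hf1 hf2
      rw [mem_In h1] at hf1
      rw [mem_In h2] at hf2
      have := hsp f
      rcases p0 f with h | h <;> rcases p1 f with h' | h' <;> rcases p2 f with h'' | h'' <;> omega
    · intro f
      rw [mem_In f1, mem_In h1, mem_In h2]
      have := hsp f
      rcases p0 f with h | h <;> rcases p1 f with h' | h' <;> rcases p2 f with h'' | h'' <;> omega
    · rw [X1, hz, if_neg hb, mem_In h1, (q1 _ a1).1]; norm_num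
    · rw [X2, hz, if_neg hb, mem_In h2, (q2 _ a2).1]; norm_num
    · rw [Y1, hz, if_neg hb, mem_In f1, hsp, (q1 _ a1).2, o2'.2]; norm_num
    · rw [Y2, hz, if_neg hb, mem_In f1, hsp, (q2 _ a2).2, o1'.2]; norm_num
  · right; left
    obtain ⟨p0, -⟩ := ht_pos f1 s0
    obtain ⟨p1, q1⟩ := ht_pos h1 s1
    obtain ⟨p2, q2⟩ := ht_neg h2 s2
    have o1' := q1 _ (o1_mem_closed hz)
    have o2' := q2 _ (o2_mem_closed hz)
    rw [cv_o1, cf_o1] at o1'
    rw [cv_o2, cf_o2] at o2'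
    have hb : ¬ (false = true) := by simp
    refine ⟨?_, ?_, ?_, ?_, ?_, ?_⟩
    · intro f hf2
      rw [mem_In h2] at hf2
      rw [mem_In h1]
      have := hsp f
      rcases p0 f with h | h <;> rcases p1 f with h' | h' <;> rcases p2 f with h'' | h'' <;> omega
    · intro f
      rw [mem_In f1, mem_In h1, mem_In h2]
      have := hsp f
      rcases p0 f with h | h <;> rcases p1 f with h' | h' <;> rcases p2 f with h'' | h'' <;> omega
    · rw [X1, hz, if_neg hb, mem_In h1, (q1 _ a1).1]; norm_num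
    · rw [X2, hz, if_neg hb, mem_In h2, (q2 _ a2).1]; norm_num
    · rw [Y1, hz, if_neg hb, mem_In f1, hsp, (q1 _ a1).2, o2'.2]; norm_num
    · rw [Y2, hz, if_neg hb, mem_In f1, hsp, (q2 _ a2).2, o1'.2]; norm_num
  · right; right
    obtain ⟨p0, -⟩ := ht_pos f1 s0
    obtain ⟨p1, q1⟩ := ht_neg h1 s1
    obtain ⟨p2, q2⟩ := ht_pos h2 s2
    have o1' := q1 _ (o1_mem_closed hz)
    have o2' := q2 _ (o2_mem_closed hz)
    rw [cv_o1, cf_o1] at o1'
    rw [cv_o2, cf_o2] at o2'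
    have hb : ¬ (false = true) := by simp
    refine ⟨?_, ?_, ?_, ?_, ?_, ?_⟩
    · intro f hf2
      rw [mem_In h1] at hf2
      rw [mem_In h2]
      have := hsp f
      rcases p0 f with h | h <;> rcases p1 f with h' | h' <;> rcases p2 f with h'' | h'' <;> omega
    · intro f
      rw [mem_In f1, mem_In h1, mem_In h2]
      have := hsp f
      rcases p0 f with h | h <;> rcases p1 f with h' | h' <;> rcases p2 f with h'' | h'' <;> omega
    · rw [X2, hz, if_neg hb, mem_In h2, (q2 _ a2).1]; norm_num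
    · rw [X1, hz, if_neg hb, mem_In h1, (q1 _ a1).1]; norm_num
    · rw [Y1, hz, if_neg hb, mem_In f1, hsp, (q1 _ a1).2, o2'.2]; norm_num
    · rw [Y2, hz, if_neg hb, mem_In f1, hsp, (q2 _ a2).2, o1'.2]; norm_num

end Crest.Agent.R158.Vn841
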