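import Mathlib

/-!
# R158 block V: combinatorics of the triangle observable (doc 1777 (A1))

Non-crossing perfect matchings of a linearly ordered set of points are coded by Catalan trees
`NC`.  The forest `F` started at `s` has the points `s, ..., s + sz F - 1` and the gaps
`s, ..., s + sz F` (gap `g` is just before point `g`).  The arc `(i, j)` has the gap `g` inside iff
`i < g ∧ g ≤ j`.
-/

namespace Crest.Agent.R158.Vt300

/-- Catalan trees: `cons a b` = an arc around `a`, followed by `b`. -/
inductive NC : Type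
  | nil : NC
  | cons : NC → NC → NC
deriving DecidableEq, Repr, Inhabited

namespace NC

/-- number of points -/
def sz : NC → ℕ
  | nil => 0
  | cons a b => sz a + sz b + 2

/-- the arcs of the forest whose first point is `s` -/
def arcs : NC → ℕ → List (ℕ × ℕ)
  | nil, _ => []
  | cons a b, s => (s, s + sz a + 1) :: (arcs a (s + 1) ++ arcs b (s + sz a + 2))

end NC

open NC

/-- gap `x` lies inside the arc `(i, j)` -/
def ins (x : ℕ) (e : ℕ × ℕ) : Prop := e.1 < x ∧ x ≤ e.2

instance (x : ℕ) (e : ℕ × ℕ) : Decidable (ins x e) := inferInstanceAs (Decidable (_ ∧ _))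

/-- indicator of `ins` -/
def ind (x : ℕ) (e : ℕ × ℕ) : ℤ := if ins x e then 1 else 0

/-- the arc weight in units of `π / 3` -/
def wz (k : ℤ) : ℤ := if k = 0 ∨ k = 1 then 1 else if k = -2 then -1 else 0

@[simp] lemma wz_0 : wz 0 = 1 := by decide
@[simp] lemma wz_1 : wz 1 = 1 := by decide
@[simp] lemma wz_2 : wz 2 = 0 := by decide
@[simp] lemma wz_m1 : wz (-1) = 0 := by decide
@[simp] lemma wz_m2 : wz (-2) = -1 := by decide

/-- the product functional `h_m` (without phase): charges `+1` at `x1, x2`, `-2` at `m`. -/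
def hh (x1 x2 m : ℕ) (F : NC) (s : ℕ) : ℤ :=
  ((F.arcs s).map fun e => wz (ind x1 e + ind x2 e - 2 * ind m e)).prod

/-- the product functional with `m` outside -/
def PP (x1 x2 : ℕ) : NC → ℕ → ℤ
  | nil, _ => 1
  | cons a b, s => wz (ind x1 (s, s + sz a + 1) + ind x2 (s, s + sz a + 1))
      * PP x1 x2 a (s + 1) * PP x1 x2 b (s + sz a + 2)

/-- the weighted sum over all positions of `m` (recursive form) -/
def SS (φ : ℕ → ℤ) (x1 x2 : ℕ) : NC → ℕ → ℤ
  | nil, s => φ s
  | cons a b, s =>
      φ s * (wz (ind x1 (s, s + sz a + 1) + ind x2 (s, s + sz a + 1))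
        * PP x1 x2 a (s + 1) * PP x1 x2 b (s + sz a + 2))
      + wz (ind x1 (s, s + sz a + 1) + ind x2 (s, s + sz a + 1) - 2)
        * SS φ x1 x2 a (s + 1) * PP x1 x2 b (s + sz a + 2)
      + wz (ind x1 (s, s + sz a + 1) + ind x2 (s, s + sz a + 1))
        * PP x1 x2 a (s + 1) * SS φ x1 x2 b (s + sz a + 2)

/-- arcs stay in the range of the forest -/
lemma arcs_range {F : NC} {s : ℕ} {e : ℕ × ℕ} (he : e ∈ F.arcs s) :
    s ≤ e.1 ∧ e.1 < e.2 ∧ e.2 < s + sz F := by
  induction F generalizing s with
  | nil => simp [arcs] at he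
  | cons a b iha ihb =>
    simp only [arcs, List.mem_cons, List.mem_append] at he
    rcases he with rfl | he | he
    · simp only [sz]; omega
    · have := iha he; simp only [sz]; omega
    · have := ihb he; simp only [sz]; omega

/-- `m` is outside `F` : `hh = PP` -/
lemma hh_out {x1 x2 m : ℕ} {F : NC} {s : ℕ} (hm : m ≤ s ∨ s + sz F ≤ m) :
    hh x1 x2 m F s = PP x1 x2 F s := by
  induction F generalizing s with
  | nil => simp [hh, PP, arcs]
  | cons a b iha ihb =>
    have h1 : ¬ ins m (s, s + sz a + 1) := by simp only [ins, sz] at *; omega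
    have ha := iha (s := s + 1) (by simp only [sz] at hm; omega)
    have hb := ihb (s := s + sz a + 2) (by simp only [sz] at hm; omega)
    simp only [hh, PP, arcs, List.map_cons, List.map_append, List.prod_cons,
      List.prod_append] at *
    rw [ha, hb]
    have h2 : ind m (s, s + sz a + 1) = 0 := by simp [ind, h1]
    rw [h2]; ring_nf

/-- recursive evaluation of the sum over `m` -/
theorem SS_eq (φ : ℕ → ℤ) (x1 x2 : ℕ) (F : NC) (s : ℕ) :
    SS φ x1 x2 F s = ∑ m ∈ Finset.Icc s (s + sz F), φ m * hh x1 x2 m F s := by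
  induction F generalizing s with
  | nil => simp [SS, sz, hh, arcs]
  | cons a b iha ihb =>
    have hsplit : Finset.Icc s (s + sz (cons a b)) =
        insert s (Finset.Icc (s + 1) (s + 1 + sz a) ∪
          Finset.Icc (s + sz a + 2) (s + sz a + 2 + sz b)) := by
      ext t; simp only [sz, Finset.mem_Icc, Finset.mem_insert, Finset.mem_union]; omega
    rw [hsplit, Finset.sum_insert, Finset.sum_union]
    · have e0 : hh x1 x2 s (cons a b) s = wz (ind x1 (s, s + sz a + 1) + ind x2 (s, s + sz a + 1))
          * PP x1 x2 a (s + 1) * PP x1 x2 b (s + sz a + 2) := by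
        rw [hh_out (Or.inl le_rfl)]; rfl
      have ea : ∀ m ∈ Finset.Icc (s + 1) (s + 1 + sz a), φ m * hh x1 x2 m (cons a b) s =
          wz (ind x1 (s, s + sz a + 1) + ind x2 (s, s + sz a + 1) - 2)
          * (φ m * hh x1 x2 m a (s + 1)) * PP x1 x2 b (s + sz a + 2) := by
        intro m hm
        rw [Finset.mem_Icc] at hm
        have hi : ind m (s, s + sz a + 1) = 1 := by
          have : ins m (s, s + sz a + 1) := by simp only [ins]; omega
          simp [ind, this]
        have hb : hh x1 x2 m b (s + sz a + 2) = PP x1 x2 b (s + sz a + 2) :=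
          hh_out (Or.inl (by omega))
        rw [← hb]
        simp only [hh, arcs, List.map_cons, List.map_append, List.prod_cons, List.prod_append, hi]
        ring_nf
      have eb : ∀ m ∈ Finset.Icc (s + sz a + 2) (s + sz a + 2 + sz b),
          φ m * hh x1 x2 m (cons a b) s =
          wz (ind x1 (s, s + sz a + 1) + ind x2 (s, s + sz a + 1)) * PP x1 x2 a (s + 1)
          * (φ m * hh x1 x2 m b (s + sz a + 2)) := by
        intro m hm
        rw [Finset.mem_Icc] at hm
        have hi : ind m (s, s + sz a + 1) = 0 := by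
          have : ¬ ins m (s, s + sz a + 1) := by simp only [ins]; omega
          simp [ind, this]
        have ha : hh x1 x2 m a (s + 1) = PP x1 x2 a (s + 1) := hh_out (Or.inr (by omega))
        rw [← ha]
        simp only [hh, arcs, List.map_cons, List.map_append, List.prod_cons, List.prod_append, hi]
        ring_nf
      rw [Finset.sum_congr rfl ea, Finset.sum_congr rfl eb, e0]
      simp only [SS]
      rw [iha, ihb, Finset.mul_sum, Finset.sum_mul, Finset.mul_sum, add_assoc]
    · rw [Finset.disjoint_left]; intro t ht; simp only [Finset.mem_Icc] at ht ⊢; omega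
    · simp only [Finset.mem_union, Finset.mem_Icc]; omega

/-- some arc contains both `x` and `y` and not `z` -/
def sep (F : NC) (s : ℕ) (x y z : ℕ) : Prop := ∃ e ∈ F.arcs s, ins x e ∧ ins y e ∧ ¬ ins z e

instance (F : NC) (s x y z : ℕ) : Decidable (sep F s x y z) :=
  inferInstanceAs (Decidable (∃ e ∈ F.arcs s, ins x e ∧ ins y e ∧ ¬ ins z e))

end Crest.Agent.R158.Vt300
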