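import Crest.Agent.R158.Wd7_377

/-!
# R158, block WD (helper377), file Wd8: one tile at a flat wall, mean values

* **`tile_MK`** (any chart): `MK A b m → MK A' b' m ∧ ‖HG A b m - HG A' b' m‖ ≤ C (1/n)^(1+c)`
* **`right_tile`** : new tile `(X+1, Y)` at a right wall, rows below already displaced
* **`left_tile`** : new tile `(X-1, Y)` at a left wall, rows above already displaced
* `beD_plain`, `beD_far` : the glueing `beD A p y0 xr` away from the slit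
* **`HA_right_tile`, `HA_left_tile`** : the same for the official `HA A m p y0`
-/

set_option autoImplicit false
set_option linter.unusedSectionVars false

namespace Crest.Agent.R158.Wd377

open MeasureTheory
open Crest.Agent.R158.Sw300 (Port Wd L M S u be tls pos Ok Fc cyc Adj thru sd)
open Crest.Agent.R158.Ob664 (GW HW HV HG HG_spec Gl HA rgt)
open Crest.Agent.R158.Env664 (IsWord PortOf portOf_some beP nbP res beD nbD nbP_W nbP_N nbP_E nbP_S)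
open Crest.Agent.R158.Xr249 (Nx addP bas rot)
open Crest.Agent.R158.Sl434 hiding cyc mem_L_of_free Loc
open Crest.Agent.R158.Gc748 (stp InS mem_stp N1 N2 JlS JlE JlN JoS JoW JoN mem_fl fl RW)
open Crest.Agent.R158.Pj679 (nbt nbt_0 nbt_1 nbt_2 nbt_3)
open Crest.Agent.R158.Rs689 (PB hf)

variable {ρ : Equiv.Perm (ℤ × ℤ)} {k : ZMod 4} {X Y : ℤ} {r n e m : ℕ}
variable {A A' : Finset (ℤ × ℤ)} {b b' : Port (ℤ × ℤ) → Port (ℤ × ℤ)}
variable {w w' : Wd (ℤ × ℤ)}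

theorem map_near {l : List (Port (ℤ × ℤ))}
    (h : ∀ x ∈ l, ∃ t d, x = some (t, d) ∧ Inn X Y n 1 t) {x : Port (ℤ × ℤ)}
    (hx : x ∈ l.map (ph ρ k)) : x ∉ Far ρ X Y n 1 := by
  obtain ⟨y, hy, rfl⟩ := List.mem_map.1 hx
  obtain ⟨t, d, rfl, ht⟩ := h y hy
  intro h2
  exact far_ph.1 h2 ht

/-- **one tile, any chart, words** -/
theorem Std.step (S : Std ρ k X Y n A b) (hn : 2 ≤ n) (hk : k = 0 ∨ k = 2)
    (P : Pln ρ k (Inn X Y n 1) (insert (ρ (X + 1, Y)) A) b')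
    (hF : ∀ x ∈ Far ρ X Y n 1, b' x = b x) (hw : GW A b w) {m1 m2 m3 : Port (ℤ × ℤ)}
    (h1 : m1 ∈ L w) (h2 : m2 ∈ L w) (h3 : m3 ∈ L w) (f1 : m1 ∈ Far ρ X Y n 1)
    (f2 : m2 ∈ Far ρ X Y n 1) (f3 : m3 ∈ Far ρ X Y n 1)
    (hc : cyc (pos w m1) (pos w m2) (pos w m3)) {wS : Wd (ℤ × ℤ)} {bS : ℤ × ℤ}
    (h : StW X Y 1 n 1 wS bS) :
    ∃ w', GW (insert (ρ (X + 1, Y)) A) b' w' ∧ m1 ∈ L w' ∧ m2 ∈ L w' ∧ m3 ∈ L w' ∧
      cyc (pos w' m1) (pos w' m2) (pos w' m3) ∧ ‖HW w m1 m2 m3 - HW w' m1 m2 m3‖ ≤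
        2 * (PB fun _ : ℤ × ℤ => hf).real (X2 wS (JL X Y 1 1) (JO X Y n 1)) := by
  obtain ⟨w', A0, hw', hA0, hr, hr'⟩ := S.tile hn P hF hw
  have far : ∀ {x}, x ∈ L w → x ∈ Far ρ X Y n 1 → x ∈ A0 := by
    intro x hx hf
    have h4 := hr.mem_iff.1 hx
    simp only [List.mem_append] at h4
    rcases h4 with ((h4 | h4) | h4) | h4
    · exact h4
    · exact absurd hf (map_near (fun x hx => wall_inn hn (by simp [hx])) h4)
    · exact absurd hf (map_near (fun x hx => wall_inn hn (by simp [hx])) h4)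
    · exact absurd hf (map_near (fun x hx => wall_inn hn (by simp [hx])) h4)
  have a1 := far h1 f1
  have a2 := far h2 f2
  have a3 := far h3 f3
  have nD : ∀ a ∈ (DiL X Y).map (ph ρ k), a ∈ Near ρ X Y 1 1 := by
    intro a ha
    obtain ⟨y, hy, rfl⟩ := List.mem_map.1 ha
    simp only [DiL, List.mem_cons, List.not_mem_nil, or_false] at hy
    rcases hy with rfl | rfl | rfl <;> exact near_ph.2 (by unfold Inn; simp only; omega)
  have nG : ∀ a ∈ (GiL X Y).map (ph ρ k), a ∈ Near ρ X Y 1 1 := by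
    intro a ha
    obtain ⟨y, hy, rfl⟩ := List.mem_map.1 ha
    simp only [GiL, List.mem_cons, List.not_mem_nil, or_false] at hy
    rcases hy with rfl | rfl | rfl <;> exact near_ph.2 (by unfold Inn; simp only; omega)
  obtain ⟨k1, k2⟩ := gls_norm S.win (S.win' P) le_rfl hk hF hw hw' h hr hr' hA0 nD nG a1 a2 a3 hc
  have memL' : ∀ {x}, x ∈ A0 → x ∈ L w' := fun hx => hr'.mem_iff.2 (by simp [hx])
  exact ⟨w', hw', memL' a1, memL' a2, memL' a3, k1, k2⟩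

/-- **one tile, any chart** -/
theorem tile_MK : ∃ C c : ℝ, 1 ≤ C ∧ 0 < c ∧ c ≤ 1 ∧ ∀ (ρ : Equiv.Perm (ℤ × ℤ)) (k : ZMod 4)
    (X Y : ℤ) (n : ℕ) (A : Finset (ℤ × ℤ)) (b b' : Port (ℤ × ℤ) → Port (ℤ × ℤ))
    (m1 m2 m3 : Port (ℤ × ℤ)), (k = 0 ∨ k = 2) → 2 ≤ n → Std ρ k X Y n A b →
    Pln ρ k (Inn X Y n 1) (insert (ρ (X + 1, Y)) A) b' → (∀ x ∈ Far ρ X Y n 1, b' x = b x) →
    m1 ∈ Far ρ X Y n 1 → m2 ∈ Far ρ X Y n 1 → m3 ∈ Far ρ X Y n 1 → MK A b m1 m2 m3 →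
    MK (insert (ρ (X + 1, Y)) A) b' m1 m2 m3 ∧
      ‖HG A b m1 m2 m3 - HG (insert (ρ (X + 1, Y)) A) b' m1 m2 m3‖ ≤
        C * ((1 : ℝ) / n) ^ (1 + c) := by
  obtain ⟨c, hc, hc1, hP⟩ := Pj679.stp_prob''
  obtain ⟨C, hC, hP⟩ := hP 1
  refine ⟨2 * C, c, by linarith, hc, hc1, ?_⟩
  intro ρ k X Y n A b b' m1 m2 m3 hk hn S P hF f1 f2 f3 hMK
  obtain ⟨w, hw, h1, h2, h3, hcy, e1⟩ := hMK.spec
  obtain ⟨wS, bS, hS⟩ := exists_stW X Y 1 n 1 le_rfl (by omega)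
  obtain ⟨w', hw', k1, k2, k3, hcy', hle⟩ := S.step hn hk P hF hw h1 h2 h3 f1 f2 f3 hcy hS
  refine ⟨⟨w', hw', k1, k2, k3, hcy'⟩, ?_⟩
  rw [e1, HG_eq hw' k1 k2 k3 hcy']
  refine hle.trans ?_
  have h4 := hP X Y 1 n le_rfl (by omega) wS bS hS.rwd
  rw [Nat.cast_one] at h4
  have h5 : (PB fun _ : ℤ × ℤ => hf).real (X2 wS (JL X Y 1 1) (JO X Y n 1)) ≤
      C * ((1 : ℝ) / n) ^ (1 + c) := by
    refine (measureReal_mono ?_).trans h4
    rintro s ⟨i, hi, j, hj, h6, h7, h8⟩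
    exact ⟨i, j, mem_JL.1 hi, mem_JL.1 hj, h6, mem_JO.1 h7, mem_JO.1 h8⟩
  linarith

/-! ### plain coordinates -/

theorem nbP_nbt (t : ℤ × ℤ) (d : ZMod 4) : nbP (some (t, d)) = some (nbt t d, d + 2) := by
  obtain ⟨x, y⟩ := t
  rcases Xr249.Reg.d4 d with rfl | rfl | rfl | rfl
  · rw [nbP_W, nbt_0]; rfl
  · rw [nbP_N, nbt_1]; rfl
  · rw [nbP_E, nbt_2]; rfl
  · rw [nbP_S, nbt_3]; rfl

theorem beP_pos {t : ℤ × ℤ} {d : ZMod 4} (h : t ∈ A ∧ nbt t d ∈ A) :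
    beP A (some (t, d)) = some (nbt t d, d + 2) := by
  unfold beP res
  rw [nbP_nbt, if_pos ⟨portOf_some.2 h.1, portOf_some.2 h.2⟩]

theorem beP_neg {t : ℤ × ℤ} {d : ZMod 4} (h : ¬ (t ∈ A ∧ nbt t d ∈ A)) :
    beP A (some (t, d)) = some (t, d) := by
  unfold beP res
  rw [nbP_nbt, if_neg fun h' => h ⟨portOf_some.1 h'.1, portOf_some.1 h'.2⟩]

/-- plain glueing, identity chart -/
theorem pln_id {Q : ℤ × ℤ → Prop}
    (h : ∀ t, Q t → ∀ d, b (some (t, d)) = beP A (some (t, d))) :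
    Pln (Equiv.refl _) 0 Q A b := by
  constructor
  · intro t ht d h1 h2
    simp only [ph_some, Equiv.refl_apply, add_zero] at h1 h2 ⊢
    rw [h t ht, beP_pos ⟨h1, h2⟩]
  · intro t ht d h1
    simp only [ph_some, Equiv.refl_apply, add_zero] at h1 ⊢
    rw [h t ht, beP_neg h1]

/-- rotation by 180 degrees -/
def ng : Equiv.Perm (ℤ × ℤ) where
  toFun t := (-t.1, -t.2)
  invFun t := (-t.1, -t.2)
  left_inv t := by simp
  right_inv t := by simp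

theorem ng_nbt (t : ℤ × ℤ) (d : ZMod 4) : ng (nbt t d) = nbt (ng t) (d + 2) := by
  obtain ⟨x, y⟩ := t
  have z3 : (3 : ZMod 4) + 2 = 1 := by decide
  have z2 : (2 : ZMod 4) + 2 = 0 := by decide
  have z1 : (1 : ZMod 4) + 2 = 3 := by decide
  have z0 : (0 : ZMod 4) + 2 = 2 := by decide
  rcases Xr249.Reg.d4 d with rfl | rfl | rfl | rfl
  · rw [z0, nbt_0, nbt_2]
    exact Prod.ext (show -(x - 1) = -x + 1 by ring) rfl
  · rw [z1, nbt_1, nbt_3]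
    exact Prod.ext rfl (show -(y + 1) = -y - 1 by ring)
  · rw [z2, nbt_2, nbt_0]
    exact Prod.ext (show -(x + 1) = -x - 1 by ring) rfl
  · rw [z3, nbt_3, nbt_1]
    exact Prod.ext rfl (show -(y - 1) = -y + 1 by ring)

/-- plain glueing, rotated chart -/
theorem pln_ng {Q : ℤ × ℤ → Prop}
    (h : ∀ t, Q t → ∀ d, b (some (ng t, d)) = beP A (some (ng t, d))) :
    Pln ng 2 Q A b := by
  constructor
  · intro t ht d h1 h2
    simp only [ph_some]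
    rw [h t ht, beP_pos ⟨h1, by rw [← ng_nbt]; exact h2⟩, ← ng_nbt]
  · intro t ht d h1
    simp only [ph_some]
    rw [h t ht, beP_neg (by rw [← ng_nbt]; exact h1)]

/-- the box of a right wall tile -/
def BxR (X Y : ℤ) (n : ℕ) (t : ℤ × ℤ) : Prop :=
  X - n < t.1 ∧ t.1 ≤ X + 1 ∧ Y - n ≤ t.2 ∧ t.2 < Y + n
/-- the box of a left wall tile -/
def BxL (X Y : ℤ) (n : ℕ) (t : ℤ × ℤ) : Prop :=
  X - 1 ≤ t.1 ∧ t.1 < X + n ∧ Y - n < t.2 ∧ t.2 ≤ Y + n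

/-- ports of tiles outside `Q`, and the leg -/
def Off (Q : ℤ × ℤ → Prop) (x : Port (ℤ × ℤ)) : Prop := ∀ t d, x = some (t, d) → ¬ Q t

theorem off_right {x : Port (ℤ × ℤ)} :
    x ∈ Far (Equiv.refl _) X Y n 1 ↔ Off (BxR X Y n) x := by
  unfold Far Off Inn BxR
  simp only [Equiv.refl_apply, Set.mem_ofPred_eq]
  exact Iff.rfl

theorem off_left {x : Port (ℤ × ℤ)} :
    x ∈ Far ng (-X) (-Y) n 1 ↔ Off (BxL X Y n) x := by
  constructor
  · intro h t d e' ht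
    refine h (-t.1, -t.2) d (by rw [e']; simp [ng]) ?_
    unfold BxL at ht
    unfold Inn
    simp only
    omega
  · intro h t d e' ht
    refine h (ng t) d e' ?_
    unfold Inn at ht
    unfold BxL
    simp only [ng, Equiv.coe_fn_mk]
    omega

/-- **one tile at a right wall** -/
theorem right_tile : ∃ C c : ℝ, 1 ≤ C ∧ 0 < c ∧ c ≤ 1 ∧ ∀ (X Y : ℤ) (n : ℕ)
    (A : Finset (ℤ × ℤ)) (b b' : Port (ℤ × ℤ) → Port (ℤ × ℤ)) (m1 m2 m3 : Port (ℤ × ℤ)), 2 ≤ n →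
    (∀ x y, X - n ≤ x → x ≤ X + 2 → Y - n - 1 ≤ y → y ≤ Y + n →
      ((x, y) ∈ A ↔ (y < Y → x ≤ X + 1) ∧ (Y ≤ y → x ≤ X))) →
    (∀ t, BxR X Y n t → ∀ d, b (some (t, d)) = beP A (some (t, d))) →
    (∀ t, BxR X Y n t → ∀ d, b' (some (t, d)) = beP (insert (X + 1, Y) A) (some (t, d))) →
    (∀ x, Off (BxR X Y n) x → b' x = b x) →
    Off (BxR X Y n) m1 → Off (BxR X Y n) m2 → Off (BxR X Y n) m3 → MK A b m1 m2 m3 →
    MK (insert (X + 1, Y) A) b' m1 m2 m3 ∧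
      ‖HG A b m1 m2 m3 - HG (insert (X + 1, Y) A) b' m1 m2 m3‖ ≤ C * ((1 : ℝ) / n) ^ (1 + c) := by
  obtain ⟨C, c, hC, hc, hc1, h⟩ := tile_MK
  refine ⟨C, c, hC, hc, hc1, ?_⟩
  intro X Y n A b b' m1 m2 m3 hn hs hb hb' hF f1 f2 f3 hMK
  have h2 := h (Equiv.refl _) 0 X Y n A b b' m1 m2 m3 (Or.inl rfl) hn ⟨fun t ht => ?_, pln_id hb⟩
    (pln_id hb') (fun x hx => hF x (off_right.1 hx)) (off_right.2 f1) (off_right.2 f2)
    (off_right.2 f3) hMK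
  · exact h2
  · unfold Big at ht
    simp only [Equiv.refl_apply]
    have := hs t.1 t.2 (by omega) (by omega) (by omega) (by omega)
    rw [this]
    unfold Shp
    simp only [Nat.cast_one]

/-- **one tile at a left wall** -/
theorem left_tile : ∃ C c : ℝ, 1 ≤ C ∧ 0 < c ∧ c ≤ 1 ∧ ∀ (X Y : ℤ) (n : ℕ)
    (A : Finset (ℤ × ℤ)) (b b' : Port (ℤ × ℤ) → Port (ℤ × ℤ)) (m1 m2 m3 : Port (ℤ × ℤ)), 2 ≤ n →
    (∀ x y, X - 2 ≤ x → x ≤ X + n → Y - n ≤ y → y ≤ Y + n + 1 →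
      ((x, y) ∈ A ↔ (Y < y → X - 1 ≤ x) ∧ (y ≤ Y → X ≤ x))) →
    (∀ t, BxL X Y n t → ∀ d, b (some (t, d)) = beP A (some (t, d))) →
    (∀ t, BxL X Y n t → ∀ d, b' (some (t, d)) = beP (insert (X - 1, Y) A) (some (t, d))) →
    (∀ x, Off (BxL X Y n) x → b' x = b x) →
    Off (BxL X Y n) m1 → Off (BxL X Y n) m2 → Off (BxL X Y n) m3 → MK A b m1 m2 m3 →
    MK (insert (X - 1, Y) A) b' m1 m2 m3 ∧
      ‖HG A b m1 m2 m3 - HG (insert (X - 1, Y) A) b' m1 m2 m3‖ ≤ C * ((1 : ℝ) / n) ^ (1 + c) := by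
  obtain ⟨C, c, hC, hc, hc1, h⟩ := tile_MK
  refine ⟨C, c, hC, hc, hc1, ?_⟩
  intro X Y n A b b' m1 m2 m3 hn hs hb hb' hF f1 f2 f3 hMK
  have enew : ng (-X + 1, -Y) = (X - 1, Y) := by
    simp only [ng, Equiv.coe_fn_mk, Prod.mk.injEq]; omega
  have hQ : ∀ t, Inn (-X) (-Y) n 1 t → BxL X Y n (ng t) := by
    intro t ht
    unfold Inn at ht
    unfold BxL
    simp only [ng, Equiv.coe_fn_mk]
    omega
  have h2 := h ng 2 (-X) (-Y) n A b b' m1 m2 m3 (Or.inr rfl) hn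
    ⟨fun t ht => ?_, pln_ng fun t ht d => hb (ng t) (hQ t ht) d⟩
    (pln_ng fun t ht d => by rw [enew]; exact hb' (ng t) (hQ t ht) d)
    (fun x hx => hF x (off_left.1 hx)) (off_left.2 f1) (off_left.2 f2) (off_left.2 f3) hMK
  · rw [enew] at h2
    exact h2
  · unfold Big at ht
    have := hs (-t.1) (-t.2) (by omega) (by omega) (by omega) (by omega)
    show (-t.1, -t.2) ∈ A ↔ _
    rw [this]
    unfold Shp
    omega

end Crest.Agent.R158.Wd377
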