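import Crest.Agent.R158.Bh4_679
import Crest.Agent.R158.Vw2_802
import Crest.Agent.R158.Wd8_377

/-!
# R158, BL (helper748), file Vt1: thin groups of the left walls

* `mq_pos`, `mq_insert` : position of the marks
* `ThinL` : mirror of `ThinR` of `Bh6_679`
* **`thinL : ThinL`**
-/

set_option autoImplicit false
set_option linter.unusedVariables false

namespace Crest.Agent.R158.Vt748

open Crest.Agent.R158.Sp896 (V)
open Crest.Agent.R158.Sw300 (Port)
open Crest.Agent.R158.Env664 (D mark nbc beD mem_D div_iff)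
open Crest.Agent.R158.Hb656 (Hang shD RL LL mkS mem_shD mem_LL)
open Crest.Agent.R158.Wd377 (MK BxR BxL Off)
open Crest.Agent.R158.Bh679 (NP Away mq Gr mem_Gr)
open Crest.Agent.R158.Hc854 (Sd mem_Sd)
open Crest.Agent.R158.Vw802 (ll_col flatL)

/-- the mark of a macroscopic boundary edge as (tile, side) -/
theorem mark_cases (L : ℤ) {L2 : ℤ} (hL : L = 2 * L2) (c : V) (d : ZMod 4) :
    (∃ t : V, (mark L c d).2 = some (t, 0) ∧ t.2 = (2 * c.2 + 1) * L2) ∨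
    (∃ t : V, (mark L c d).2 = some (t, 2) ∧ t.2 = (2 * c.2 + 1) * L2 - 1) ∨
    (∃ (t : V) (d' : ZMod 4), (mark L c d).2 = some (t, d') ∧ d' ≠ 0 ∧ d' ≠ 2 ∧
      c.1 * L + L2 - 1 ≤ t.1 ∧ t.1 ≤ c.1 * L + L2) := by
  have e0 : L / 2 = L2 := by omega
  have e1 : (2 * c.2 + 1) * L2 = c.2 * L + L2 := by rw [hL]; ring
  unfold mark
  by_cases h0 : d = 0
  · subst h0
    exact Or.inl ⟨_, by simp only [if_true]; rfl, by simp only; omega⟩
  by_cases h1 : d = 1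
  · subst h1
    refine Or.inr (Or.inr ⟨(c.1 * L + L / 2, c.2 * L + L - 1), 1, ?_, by decide, by decide, ?_, ?_⟩)
    · rw [if_neg (by decide), if_pos rfl]
    · simp only; omega
    · simp only; omega
  by_cases h2 : d = 2
  · subst h2
    refine Or.inr (Or.inl ⟨(c.1 * L + L - 1, c.2 * L + L / 2 - 1), ?_, ?_⟩)
    · rw [if_neg (by decide), if_neg (by decide), if_pos rfl]
    · simp only; omega
  · refine Or.inr (Or.inr ⟨(c.1 * L + L / 2 - 1, c.2 * L), 3, ?_, by decide, by decide, ?_, ?_⟩)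
    · rw [if_neg h0, if_neg h1, if_neg h2]
    · simp only; omega
    · simp only; omega

/-- `mkS` keeps the height and the side and moves the column by at most `2` (by `δ` on a horizontal
side) -/
theorem mkS_pos (H : Finset V) (L δ : ℤ) (S : Finset V) (t : V) (d : ZMod 4) :
    ∃ t' : V, mkS H L δ S (t, d) = (t', d) ∧ t'.2 = t.2 ∧
      (d ≠ 0 → d ≠ 2 → t'.1 = t.1 ∨ t'.1 = t.1 + δ) := by
  unfold mkS
  simp only
  split_ifs with h1 h2 h3
  · exact ⟨_, rfl, rfl, fun _ h => absurd h2.1 h⟩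
  · exact ⟨_, rfl, rfl, fun h _ => absurd h3.1 h⟩
  · exact ⟨_, rfl, rfl, fun _ _ => Or.inr rfl⟩
  · exact ⟨_, rfl, rfl, fun _ _ => Or.inl rfl⟩

/-- **position of the marks of a state** -/
theorem mq_pos {H : Finset V} {L L2 δ : ℤ} (hL : L = 2 * L2) (hδ : -1 ≤ δ) (hδ' : δ ≤ 1)
    (S : Finset V) (c : V × ZMod 4) : ∃ (t : V) (d : ZMod 4), mq H L δ S c = some (t, d) ∧
      ((∃ j : ℤ, t.2 = j * L2 ∨ t.2 = j * L2 - 1) ∨
        (∃ e : ℤ, e * L + L2 - 2 ≤ t.1 ∧ t.1 ≤ e * L + L2 + 1)) := by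
  unfold mq
  rcases mark_cases L hL c.1 c.2 with ⟨t, h1, h2⟩ | ⟨t, h1, h2⟩ | ⟨t, d, h1, h2, h3, h4, h5⟩
  · obtain ⟨t', e1, e2, -⟩ := mkS_pos H L δ S t 0
    rw [h1]
    exact ⟨t', 0, by rw [Option.map_some, e1], Or.inl ⟨_, Or.inl (e2.trans h2)⟩⟩
  · obtain ⟨t', e1, e2, -⟩ := mkS_pos H L δ S t 2
    rw [h1]
    exact ⟨t', 2, by rw [Option.map_some, e1], Or.inl ⟨_, Or.inr (e2.trans h2)⟩⟩
  · obtain ⟨t', e1, e2, e3⟩ := mkS_pos H L δ S t d
    rw [h1]
    refine ⟨t', d, by rw [Option.map_some, e1], Or.inr ⟨c.1.1, ?_, ?_⟩⟩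
    · rcases e3 h2 h3 with e | e <;> omega
    · rcases e3 h2 h3 with e | e <;> omega

/-- **a tile at a generic height does not change the marks** -/
theorem mq_insert {H : Finset V} {L L2 δ : ℤ} (hL : L = 2 * L2) (S : Finset V) (c : V × ZMod 4)
    {X y : ℤ} (hy : ∀ j : ℤ, y ≠ j * L2 ∧ y ≠ j * L2 - 1) :
    mq H L δ (insert (X, y) S) c = mq H L δ S c := by
  unfold mq
  have key : ∀ (t : V) (d : ZMod 4), (d = 0 ∨ d = 2 → t.2 ≠ y) →
      mkS H L δ (insert (X, y) S) (t, d) = mkS H L δ S (t, d) := by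
    intro t d h
    unfold mkS
    simp only
    have a1 : (d = 2 ∧ (t.1 + δ + 1, t.2) ∈ insert (X, y) S) ↔
        (d = 2 ∧ (t.1 + δ + 1, t.2) ∈ S) := by
      constructor
      · rintro ⟨h1, h2⟩
        refine ⟨h1, (Finset.mem_insert.1 h2).resolve_left fun e => ?_⟩
        exact h (Or.inr h1) (congrArg Prod.snd e)
      · rintro ⟨h1, h2⟩; exact ⟨h1, Finset.mem_insert_of_mem h2⟩
    have a2 : (d = 0 ∧ (t.1 + δ - 1, t.2) ∈ insert (X, y) S) ↔
        (d = 0 ∧ (t.1 + δ - 1, t.2) ∈ S) := by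
      constructor
      · rintro ⟨h1, h2⟩
        refine ⟨h1, (Finset.mem_insert.1 h2).resolve_left fun e => ?_⟩
        exact h (Or.inl h1) (congrArg Prod.snd e)
      · rintro ⟨h1, h2⟩; exact ⟨h1, Finset.mem_insert_of_mem h2⟩
    simp only [a1, a2]
  rcases mark_cases L hL c.1 c.2 with ⟨t, h1, h2⟩ | ⟨t, h1, h2⟩ | ⟨t, d, h1, h2, h3, h4, h5⟩
  · rw [h1, Option.map_some, Option.map_some, key t 0 fun _ e => (hy _).1 (e.symm.trans h2)]
  · rw [h1, Option.map_some, Option.map_some, key t 2 fun _ e => (hy _).2 (e.symm.trans h2)]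
  · rw [h1, Option.map_some, Option.map_some, key t d fun h => (h.elim h2 h3).elim]

/-- **thin groups, left walls** (mirror of `ThinR` of `Bh6_679`) -/
def ThinL : Prop := ∀ {F H : Finset V} {k i0 i1 : ℤ} {up : Bool}, Hang F H k i0 i1 up → NP F →
  ∀ {L L2 δ p y0 xr : ℤ} {g n : ℕ}, L = 2 * L2 → (δ = 0 ∨ δ = 1) → 8 ≤ g → 64 * (g : ℤ) ≤ L →
  n + 2 ≤ g → p ≤ xr → Away H L p y0 xr →
  ∀ {m : Fin 3 → V × ZMod 4}, Function.Injective m →
  (∀ i, (m i).1 ∈ F ∧ nbc (m i).1 (m i).2 ∉ F) →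
  ∀ {κ X y : ℤ}, (X, y) ∈ LL F H L δ → κ * L2 + g ≤ y → y < (κ + 1) * L2 - g →
  (∀ x y', X + 1 - 2 ≤ x → x ≤ X + 1 + n → y - n ≤ y' → y' ≤ y + n + 1 →
    ((x, y') ∈ shD F H L δ ∪ Sd (LL F H L δ) y (y + 1) X ↔
      (y < y' → X + 1 - 1 ≤ x) ∧ (y' ≤ y → X + 1 ≤ x))) ∧
  (∀ t, BxL (X + 1) y n t → ¬ ((t.2 = y0 ∨ t.2 = y0 - 1) ∧ p ≤ t.1 ∧ t.1 ≤ xr + 1)) ∧
  (∀ i, Off (BxL (X + 1) y n) (mq H L δ (Sd (LL F H L δ) y (y + 1) X) (m i))) ∧
  (∀ i, mq H L δ (insert (X, y) (Sd (LL F H L δ) y (y + 1) X)) (m i) =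
    mq H L δ (Sd (LL F H L δ) y (y + 1) X) (m i))

/-- heights of the thin rows -/
theorem thin_gen {L2 κ y g : ℤ} (hL2 : 0 < L2) (h1 : κ * L2 + g ≤ y) (h2 : y < (κ + 1) * L2 - g)
    (j : ℤ) : j * L2 ≤ y - g ∨ y + g < j * L2 := by
  by_cases h : j ≤ κ
  · left
    have : j * L2 ≤ κ * L2 := mul_le_mul_of_nonneg_right h hL2.le
    omega
  · right
    have : (κ + 1) * L2 ≤ j * L2 := mul_le_mul_of_nonneg_right (by omega) hL2.le
    omega

/-- the macroscopic row of a thin row -/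
theorem thin_row {L L2 κ y g r y' : ℤ} (hL : L = 2 * L2) (hL2 : 0 < L2) (h1 : κ * L2 + g ≤ y)
    (h2 : y < (κ + 1) * L2 - g) (hr : r * L ≤ y) (hr' : y < r * L + L) (h3 : y - g ≤ y')
    (h4 : y' < y + g) : r * L ≤ y' ∧ y' < r * L + L := by
  have a1 := thin_gen hL2 h1 h2 (2 * r)
  have a2 := thin_gen hL2 h1 h2 (2 * r + 2)
  have e1 : 2 * r * L2 = r * L := by rw [hL]; ring
  have e2 : (2 * r + 2) * L2 = r * L + L := by rw [hL]; ring
  rw [e1] at a1
  rw [e2] at a2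
  constructor <;> omega

theorem thinL : ThinL := by
  intro F H k i0 i1 up hH hnp L L2 δ p y0 xr g n hL hδ hg hgL hn hp haw m hinj hm κ X y hX h1 h2
  have hg0 : (8 : ℤ) ≤ g := by exact_mod_cast hg
  have hn0 : (n : ℤ) + 2 ≤ g := by exact_mod_cast hn
  have hL2 : 0 < L2 := by omega
  have hL0 : 0 < L := by omega
  have hδ1 : -1 ≤ δ := by omega
  have hδ2 : δ ≤ 1 := by omega
  obtain ⟨c, r, hc, hr, hr', hc1, hc2⟩ := ll_col hL0 hH.sub hX
  have hrow : ∀ y', y - g ≤ y' → y' < y + g → r * L ≤ y' ∧ y' < r * L + L := fun y' a b =>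
    thin_row hL hL2 h1 h2 hr hr' a b
  refine ⟨?_, ?_, ?_, ?_⟩
  · intro x y' a1 a2 a3 a4
    obtain ⟨b1, b2⟩ := hrow y' (by omega) (by omega)
    have key := (flatL (δ := δ) (by omega : (8 : ℤ) ≤ L) ⟨hδ1, hδ2⟩ hH.sub hc1 hc2
      (by omega : y ≤ y + 1) (x1 := x) (y1 := y') (by omega) (by omega) b1 b2).1
    rw [← hc] at key
    rw [key]
    omega
  · rintro t ht ⟨ht2, ht3, ht4⟩
    have hD : (X + 1 - δ, y) ∈ D H L := (mem_LL.1 hX).1
    unfold BxL at ht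
    rcases le_or_gt p t.1 with _ | _
    · rcases haw (min t.1 (xr + 1)) (by omega) (by omega) _ hD with h | h
      · simp only at h
        rw [min_eq_left ht4] at h
        rcases abs_cases (t.1 - (X + 1 - δ)) with ⟨e, _⟩ | ⟨e, _⟩ <;> rw [e] at h <;> omega
      · simp only at h
        rcases abs_cases (y0 - y) with ⟨e, _⟩ | ⟨e, _⟩ <;> rw [e] at h <;> omega
    · omega
  · intro i
    obtain ⟨t, d, e, hpos⟩ := mq_pos (H := H) hL hδ1 hδ2 (Sd (LL F H L δ) y (y + 1) X) (m i)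
    intro t' d' e' hb
    rw [e] at e'
    obtain ⟨rfl, rfl⟩ := Prod.mk.inj (Option.some.inj e')
    unfold BxL at hb
    rcases hpos with ⟨j, hj⟩ | ⟨q, hq1, hq2⟩
    · have := thin_gen hL2 h1 h2 j
      omega
    · have e1 : q * L = c * L + (q - c) * L := by ring
      rcases lt_trichotomy (q - c) 0 with h | h | h
      · have : (q - c) * L ≤ -L := by nlinarith
        omega
      · rw [h] at e1
        omega
      · have : L ≤ (q - c) * L := by nlinarith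
        omega
  · intro i
    refine mq_insert hL _ _ fun j => ?_
    have := thin_gen hL2 h1 h2 j
    constructor <;> omega

end Crest.Agent.R158.Vt748
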