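import Crest.Agent.R158.Vt1_300

/-!
# R158 block V: proof of (A1) of doc 1777 by structural induction
-/

namespace Crest.Agent.R158.Vt300

open NC

lemma ind_one {x i j : ℕ} (h : i < x ∧ x ≤ j) : ind x (i, j) = 1 := by
  have : ins x (i, j) := h
  simp [ind, this]

lemma ind_zero {x i j : ℕ} (h : ¬ (i < x ∧ x ≤ j)) : ind x (i, j) = 0 := by
  have : ¬ ins x (i, j) := h
  simp [ind, this]

/-- `x` is in no arc of the forest -/
def Out (x : ℕ) (F : NC) (s : ℕ) : Prop := x ≤ s ∨ s + sz F ≤ x

lemma sep_cons {a b : NC} {s x y z : ℕ} : sep (cons a b) s x y z ↔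
    ((s < x ∧ x ≤ s + sz a + 1) ∧ (s < y ∧ y ≤ s + sz a + 1) ∧ ¬ (s < z ∧ z ≤ s + sz a + 1))
      ∨ sep a (s + 1) x y z ∨ sep b (s + sz a + 2) x y z := by
  simp only [sep, arcs, List.mem_cons, List.mem_append]
  constructor
  · rintro ⟨e, rfl | h | h, h2⟩
    · exact Or.inl h2
    · exact Or.inr (Or.inl ⟨e, h, h2⟩)
    · exact Or.inr (Or.inr ⟨e, h, h2⟩)
  · rintro (h | ⟨e, h, h2⟩ | ⟨e, h, h2⟩)
    · exact ⟨_, Or.inl rfl, h⟩
    · exact ⟨e, Or.inr (Or.inl h), h2⟩
    · exact ⟨e, Or.inr (Or.inr h), h2⟩

lemma not_sep {F : NC} {s x y z : ℕ} (h : Out x F s ∨ Out y F s) : ¬ sep F s x y z := by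
  rintro ⟨e, he, h1, h2, -⟩
  have := arcs_range he
  simp only [ins, Out] at *
  omega

/-- at most one of the two marks inside: `PP = 1` -/
lemma PP_one {x1 x2 : ℕ} {F : NC} {s : ℕ}
    (h : Out x1 F s ∨ Out x2 F s) : PP x1 x2 F s = 1 := by
  induction F generalizing s with
  | nil => rfl
  | cons a b iha ihb =>
    simp only [Out, sz] at h iha ihb
    simp only [PP]
    rw [iha (by omega), ihb (by omega)]
    rcases h with h | h
    · rw [ind_zero (x := x1) (by omega)]
      by_cases h2 : s < x2 ∧ x2 ≤ s + sz a + 1
      · rw [ind_one h2]; simp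
      · rw [ind_zero h2]; simp
    · rw [ind_zero (x := x2) (by omega)]
      by_cases h2 : s < x1 ∧ x1 ≤ s + sz a + 1
      · rw [ind_one h2]; simp
      · rw [ind_zero h2]; simp

/-- position trichotomy inside `cons a b` -/
lemma tri {x s p q : ℕ} (h1 : s ≤ x) (h2 : x ≤ s + (p + q + 2)) :
    x = s ∨ (s + 1 ≤ x ∧ x ≤ s + 1 + p) ∨ (s + p + 2 ≤ x ∧ x ≤ s + p + 2 + q) := by omega

lemma PP_eq {x1 x2 z : ℕ} {F : NC} {s : ℕ} (hz : Out z F s) :
    PP x1 x2 F s = if sep F s x1 x2 z then 0 else 1 := by
  induction F generalizing s with
  | nil => simp [PP, sep, arcs]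
  | cons a b iha ihb =>
    simp only [Out, sz] at hz iha ihb
    simp only [PP]
    rw [iha (by omega), ihb (by omega)]
    by_cases h1 : s < x1 ∧ x1 ≤ s + sz a + 1
    · by_cases h2 : s < x2 ∧ x2 ≤ s + sz a + 1
      · have : sep (cons a b) s x1 x2 z := sep_cons.2 (Or.inl ⟨h1, h2, by omega⟩)
        rw [ind_one h1, ind_one h2, if_pos this]; simp
      · rw [ind_one h1, ind_zero h2]
        have ha : ¬ sep a (s + 1) x1 x2 z := not_sep (by simp only [Out]; omega)
        have hb : ¬ sep b (s + sz a + 2) x1 x2 z := not_sep (by simp only [Out]; omega)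
        have : ¬ sep (cons a b) s x1 x2 z := by rw [sep_cons]; tauto
        simp [ha, hb, this]
    · by_cases h2 : s < x2 ∧ x2 ≤ s + sz a + 1
      · rw [ind_zero h1, ind_one h2]
        have ha : ¬ sep a (s + 1) x1 x2 z := not_sep (by simp only [Out]; omega)
        have hb : ¬ sep b (s + sz a + 2) x1 x2 z := not_sep (by simp only [Out]; omega)
        have : ¬ sep (cons a b) s x1 x2 z := by rw [sep_cons]; tauto
        simp [ha, hb, this]
      · rw [ind_zero h1, ind_zero h2]
        have ha : ¬ sep a (s + 1) x1 x2 z := not_sep (by simp only [Out]; omega)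
        by_cases hb : sep b (s + sz a + 2) x1 x2 z
        · have : sep (cons a b) s x1 x2 z := sep_cons.2 (Or.inr (Or.inr hb))
          simp [hb, this]
        · have : ¬ sep (cons a b) s x1 x2 z := by rw [sep_cons]; tauto
          simp [ha, hb, this]

/-- no weight: the sum vanishes (marks anywhere) -/
lemma SS_zero {φ : ℕ → ℤ} {x1 x2 : ℕ} {F : NC} {s : ℕ}
    (hφ : ∀ m, s ≤ m → m ≤ s + sz F → φ m = 0) : SS φ x1 x2 F s = 0 := by
  induction F generalizing s with
  | nil => exact hφ s le_rfl (by simp)
  | cons a b iha ihb =>
    simp only [sz] at hφ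
    simp only [SS]
    rw [hφ s le_rfl (by omega), iha (fun m h1 h2 => hφ m (by omega) (by omega)),
      ihb (fun m h1 h2 => hφ m (by omega) (by omega))]
    ring

/-- constant weight, no marks: the sum is the constant -/
lemma SS_const {φ : ℕ → ℤ} {c : ℤ} {x1 x2 : ℕ} {F : NC} {s : ℕ}
    (h1 : Out x1 F s) (h2 : Out x2 F s)
    (hφ : ∀ m, s ≤ m → m ≤ s + sz F → φ m = c) : SS φ x1 x2 F s = c := by
  induction F generalizing s with
  | nil => exact hφ s le_rfl (by simp)
  | cons a b iha ihb =>
    simp only [Out, sz] at *
    simp only [SS]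
    rw [hφ s le_rfl (by omega), iha (by omega) (by omega) (fun m h1 h2 => hφ m (by omega) (by omega)),
      ihb (by omega) (by omega) (fun m h1 h2 => hφ m (by omega) (by omega)),
      PP_one (Or.inl (by simp only [Out]; omega)), PP_one (Or.inl (by simp only [Out]; omega)),
      ind_zero (x := x1) (by omega), ind_zero (x := x2) (by omega)]
    simp

/-- weight `2` below `x3`, `1` at `x3`, `0` above; `x1, x2` in no arc -/
lemma SS_3 {φ : ℕ → ℤ} {x1 x2 x3 : ℕ} {F : NC} {s : ℕ}
    (h1 : Out x1 F s) (h2 : Out x2 F s) (h3 : s ≤ x3) (h3' : x3 ≤ s + sz F)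
    (hφ : ∀ m, s ≤ m → m ≤ s + sz F → φ m = if m < x3 then 2 else if m = x3 then 1 else 0) :
    SS φ x1 x2 F s = 1 := by
  induction F generalizing s with
  | nil =>
    simp only [sz] at h3'
    have : x3 = s := by omega
    rw [show SS φ x1 x2 nil s = φ s from rfl, hφ s le_rfl (by simp)]; simp [this]
  | cons a b iha ihb =>
    have hPa : PP x1 x2 a (s + 1) = 1 := PP_one (Or.inl (by simp only [Out, sz] at *; omega))
    have hPb : PP x1 x2 b (s + sz a + 2) = 1 :=
      PP_one (Or.inl (by simp only [Out, sz] at *; omega))
    simp only [Out, sz] at *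
    have hi1 : ind x1 (s, s + sz a + 1) = 0 := ind_zero (by omega)
    have hi2 : ind x2 (s, s + sz a + 1) = 0 := ind_zero (by omega)
    have hs := hφ s le_rfl (by omega)
    simp only [SS, hPa, hPb, hi1, hi2, hs]
    rcases tri h3 h3' with h | h | h
    · have ea : SS φ x1 x2 a (s + 1) = 0 := SS_zero (fun m ha hb => by
        rw [hφ m (by omega) (by omega), if_neg (by omega), if_neg (by omega)])
      have eb : SS φ x1 x2 b (s + sz a + 2) = 0 := SS_zero (fun m ha hb => by
        rw [hφ m (by omega) (by omega), if_neg (by omega), if_neg (by omega)])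
      rw [ea, eb]
      simp [h]
    · have eb : SS φ x1 x2 b (s + sz a + 2) = 0 := SS_zero (fun m ha hb => by
        rw [hφ m (by omega) (by omega), if_neg (by omega), if_neg (by omega)])
      rw [iha (by omega) (by omega) (by omega) (by omega)
          (fun m ha hb => hφ m (by omega) (by omega)), eb]
      simp [show s < x3 by omega]
    · have ea : SS φ x1 x2 a (s + 1) = 2 := SS_const (by simp only [Out]; omega)
        (by simp only [Out]; omega) (fun m ha hb => by
          rw [hφ m (by omega) (by omega), if_pos (by omega)])
      rw [ea, ihb (by omega) (by omega) (by omega) (by omega)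
          (fun m ha hb => hφ m (by omega) (by omega))]
      simp [show s < x3 by omega]

/-- weight `0` below `x2`, `2` from `x2` on; `x1` in no arc -/
lemma SS_2 {φ : ℕ → ℤ} {x1 x2 : ℕ} {F : NC} {s : ℕ}
    (h1 : Out x1 F s) (h2 : s ≤ x2) (h2' : x2 ≤ s + sz F)
    (hφ : ∀ m, s ≤ m → m ≤ s + sz F → φ m = if m < x2 then 0 else 2) :
    SS φ x1 x2 F s = 2 := by
  induction F generalizing s with
  | nil =>
    simp only [sz] at h2'
    have : x2 = s := by omega
    rw [show SS φ x1 x2 nil s = φ s from rfl, hφ s le_rfl (by simp)]; simp [this]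
  | cons a b iha ihb =>
    have hPa : PP x1 x2 a (s + 1) = 1 := PP_one (Or.inl (by simp only [Out, sz] at *; omega))
    have hPb : PP x1 x2 b (s + sz a + 2) = 1 :=
      PP_one (Or.inl (by simp only [Out, sz] at *; omega))
    simp only [Out, sz] at *
    have hi1 : ind x1 (s, s + sz a + 1) = 0 := ind_zero (by omega)
    have hs := hφ s le_rfl (by omega)
    simp only [SS, hPa, hPb, hi1, hs]
    rcases tri h2 h2' with h | h | h
    · rw [SS_const (F := a) (c := 2) (by simp only [Out]; omega) (by simp only [Out]; omega)
          (fun m ha hb => by rw [hφ m (by omega) (by omega)]; simp; omega),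
        SS_const (F := b) (c := 2) (by simp only [Out]; omega) (by simp only [Out]; omega)
          (fun m ha hb => by rw [hφ m (by omega) (by omega)]; simp; omega),
        ind_zero (x := x2) (by omega)]
      simp [h]
    · rw [SS_const (F := b) (c := 2) (by simp only [Out]; omega) (by simp only [Out]; omega)
          (fun m ha hb => by rw [hφ m (by omega) (by omega)]; simp; omega),
        ind_one (x := x2) (by omega)]
      simp [show s < x2 by omega]
    · rw [SS_zero (F := a) (fun m ha hb => by rw [hφ m (by omega) (by omega)]; simp; omega),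
        ihb (by omega) (by omega) (by omega)
          (fun m ha hb => hφ m (by omega) (by omega)),
        ind_zero (x := x2) (by omega)]
      simp [show s < x2 by omega]

/-- `x1 ≤ x2` inside, weight `0` below `x2`, `2` from `x2` on -/
lemma SS_12 {φ : ℕ → ℤ} {x1 x2 : ℕ} {F : NC} {s : ℕ}
    (h1 : s ≤ x1) (h12 : x1 ≤ x2) (h2' : x2 ≤ s + sz F)
    (hφ : ∀ m, s ≤ m → m ≤ s + sz F → φ m = if m < x2 then 0 else 2) :
    SS φ x1 x2 F s = 2 := by
  induction F generalizing s with
  | nil => exact SS_2 (by simp only [Out, sz] at *; omega) (by omega) h2' hφ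
  | cons a b iha ihb =>
    by_cases hx1 : x1 ≤ s
    · exact SS_2 (Or.inl hx1) (by omega) h2' hφ
    simp only [Out, sz] at *
    have hs := hφ s le_rfl (by omega)
    simp only [SS, hs]
    rw [if_pos (show s < x2 by omega)]
    rcases tri h1 (show x1 ≤ s + (sz a + sz b + 2) by omega) with h | h | h
    · omega
    · rcases tri (show s ≤ x2 by omega) h2' with h' | h' | h'
      · omega
      · rw [iha (by omega) (by omega) (fun m ha hb => hφ m (by omega) (by omega)),
          PP_one (F := b) (Or.inl (by simp only [Out]; omega)),
          ind_one (x := x1) (by omega), ind_one (x := x2) (by omega)]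
        simp
      · rw [PP_one (F := a) (Or.inr (by simp only [Out]; omega)),
          SS_2 (F := b) (by simp only [Out]; omega) (by omega) (by omega)
            (fun m ha hb => hφ m (by omega) (by omega)),
          ind_one (x := x1) (by omega), ind_zero (x := x2) (by omega)]
        simp
    · rw [SS_zero (F := a) (fun m ha hb => by rw [hφ m (by omega) (by omega)]; simp; omega),
        PP_one (F := a) (Or.inl (by simp only [Out]; omega)),
        ihb (by omega) (by omega) (fun m ha hb => hφ m (by omega) (by omega)),
        ind_zero (x := x1) (by omega), ind_zero (x := x2) (by omega)]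
      simp

/-- the standard weight: `0` below `x2`, `2` on `[x2, x3)`, `1` at `x3`, `0` above -/
def ph (x2 x3 m : ℕ) : ℤ := if m < x2 then 0 else if m < x3 then 2 else if m = x3 then 1 else 0

/-- `x2 ≤ x3` inside, `x1` in no arc -/
lemma SS_23 {φ : ℕ → ℤ} {x1 x2 x3 : ℕ} {F : NC} {s : ℕ}
    (h1 : Out x1 F s) (h2 : s ≤ x2) (h23 : x2 ≤ x3) (h3' : x3 ≤ s + sz F)
    (hφ : ∀ m, s ≤ m → m ≤ s + sz F → φ m = ph x2 x3 m) :
    SS φ x1 x2 F s = if sep F s x2 x3 x1 then 0 else 1 := by
  induction F generalizing s with
  | nil =>
    simp only [sz] at h3'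
    rw [show SS φ x1 x2 nil s = φ s from rfl, hφ s le_rfl (by simp)]
    simp [ph, sep, arcs, show x2 = s by omega, show x3 = s by omega]
  | cons a b iha ihb =>
    by_cases hx2 : x2 ≤ s
    · rw [if_neg (not_sep (Or.inl (Or.inl hx2)))]
      exact SS_3 h1 (Or.inl hx2) (by omega) h3' (fun m ha hb => by
        rw [hφ m ha hb]; simp only [ph]; rw [if_neg (by omega)])
    have hPa : PP x1 x2 a (s + 1) = 1 := PP_one (Or.inl (by simp only [Out, sz] at *; omega))
    have hPb : PP x1 x2 b (s + sz a + 2) = 1 :=
      PP_one (Or.inl (by simp only [Out, sz] at *; omega))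
    simp only [Out, sz] at *
    have hi1 : ind x1 (s, s + sz a + 1) = 0 := ind_zero (by omega)
    have hs : φ s = 0 := by rw [hφ s le_rfl (by omega)]; simp [ph]; omega
    simp only [SS, hPa, hPb, hi1, hs]
    rcases tri h2 (show x2 ≤ s + (sz a + sz b + 2) by omega) with h | h | h
    · omega
    · rcases tri (show s ≤ x3 by omega) h3' with h' | h' | h'
      · omega
      · rw [ind_one (x := x2) (by omega),
          SS_zero (F := b) (fun m ha hb => by
            rw [hφ m (by omega) (by omega)]; simp only [ph]
            rw [if_neg (by omega), if_neg (by omega), if_neg (by omega)]),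
          if_pos (sep_cons.2 (Or.inl ⟨by omega, by omega, by omega⟩))]
        simp
      · have hns : ¬ sep (cons a b) s x2 x3 x1 := by
          rw [sep_cons]
          have ha : ¬ sep a (s + 1) x2 x3 x1 := not_sep (by simp only [Out]; omega)
          have hb : ¬ sep b (s + sz a + 2) x2 x3 x1 := not_sep (by simp only [Out]; omega)
          rintro (h | h | h)
          · omega
          · exact ha h
          · exact hb h
        have eb : SS φ x1 x2 b (s + sz a + 2) = 1 :=
          SS_3 (x3 := x3) (by simp only [Out]; omega) (by simp only [Out]; omega) (by omega)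
            (by omega) (fun m ha hb => by
              rw [hφ m (by omega) (by omega)]; simp only [ph]; rw [if_neg (by omega)])
        rw [ind_one (x := x2) (by omega), eb, if_neg hns]
        simp
    · have hiff : sep (cons a b) s x2 x3 x1 ↔ sep b (s + sz a + 2) x2 x3 x1 := by
        rw [sep_cons]
        have ha : ¬ sep a (s + 1) x2 x3 x1 := not_sep (by simp only [Out]; omega)
        constructor
        · rintro (h | h | h)
          · omega
          · exact absurd h ha
          · exact h
        · exact fun h => Or.inr (Or.inr h)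
      rw [ind_zero (x := x2) (by omega),
        SS_zero (F := a) (fun m ha hb => by
            rw [hφ m (by omega) (by omega)]; simp only [ph]
            rw [if_pos (by omega)]),
        ihb (by omega) (by omega) (by omega) (fun m ha hb => hφ m (by omega) (by omega))]
      simp [hiff]

/-- `x1 ≤ x2 ≤ x3` all inside -/
theorem SS_123 {φ : ℕ → ℤ} {x1 x2 x3 : ℕ} {F : NC} {s : ℕ}
    (h1 : s ≤ x1) (h12 : x1 ≤ x2) (h23 : x2 ≤ x3) (h3' : x3 ≤ s + sz F)
    (hφ : ∀ m, s ≤ m → m ≤ s + sz F → φ m = ph x2 x3 m) :
    SS φ x1 x2 F s = if sep F s x2 x3 x1 then 0 else if sep F s x1 x2 x3 then 2 else 1 := by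
  induction F generalizing s with
  | nil =>
    rw [SS_23 (by simp only [Out, sz] at *; omega) (by omega) h23 h3' hφ]
    simp [sep, arcs]
  | cons a b iha ihb =>
    by_cases hx1 : x1 ≤ s
    · rw [SS_23 (Or.inl hx1) (by omega) h23 h3' hφ,
        if_neg (not_sep (Or.inl (Or.inl hx1)) : ¬ sep (cons a b) s x1 x2 x3)]
    simp only [Out, sz] at *
    have hs : φ s = 0 := by rw [hφ s le_rfl (by omega)]; simp [ph]; omega
    simp only [SS, hs]
    rcases tri h1 (show x1 ≤ s + (sz a + sz b + 2) by omega) with h | h | h
    · omega
    · rcases tri (show s ≤ x2 by omega) (show x2 ≤ s + (sz a + sz b + 2) by omega) with h' | h' | h'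
      · omega
      · rcases tri (show s ≤ x3 by omega) h3' with h'' | h'' | h''
        · omega
        · -- all in a
          have e1 : sep (cons a b) s x2 x3 x1 ↔ sep a (s + 1) x2 x3 x1 := by
            rw [sep_cons]
            have hb : ¬ sep b (s + sz a + 2) x2 x3 x1 := not_sep (by simp only [Out]; omega)
            constructor
            · rintro (h | h | h)
              · omega
              · exact h
              · exact absurd h hb
            · exact fun h => Or.inr (Or.inl h)
          have e2 : sep (cons a b) s x1 x2 x3 ↔ sep a (s + 1) x1 x2 x3 := by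
            rw [sep_cons]
            have hb : ¬ sep b (s + sz a + 2) x1 x2 x3 := not_sep (by simp only [Out]; omega)
            constructor
            · rintro (h | h | h)
              · omega
              · exact h
              · exact absurd h hb
            · exact fun h => Or.inr (Or.inl h)
          rw [iha (by omega) (by omega) (fun m ha hb => hφ m (by omega) (by omega)),
            PP_one (F := b) (Or.inl (by simp only [Out]; omega)),
            ind_one (x := x1) (by omega), ind_one (x := x2) (by omega)]
          simp [e1, e2]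
        · -- x1, x2 in a, x3 in b
          have e1 : ¬ sep (cons a b) s x2 x3 x1 := by
            rw [sep_cons]
            have ha : ¬ sep a (s + 1) x2 x3 x1 := not_sep (by simp only [Out]; omega)
            have hb : ¬ sep b (s + sz a + 2) x2 x3 x1 := not_sep (by simp only [Out]; omega)
            rintro (h | h | h)
            · omega
            · exact ha h
            · exact hb h
          have e2 : sep (cons a b) s x1 x2 x3 := sep_cons.2 (Or.inl ⟨by omega, by omega, by omega⟩)
          rw [SS_12 (F := a) (by omega) (by omega) (by omega) (fun m ha hb => by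
              rw [hφ m (by omega) (by omega)]; simp only [ph]
              by_cases hm : m < x2
              · simp [hm]
              · rw [if_neg hm, if_pos (by omega), if_neg hm]),
            PP_one (F := b) (Or.inl (by simp only [Out]; omega)),
            ind_one (x := x1) (by omega), ind_one (x := x2) (by omega), if_neg e1, if_pos e2]
          simp
      · -- x1 in a, x2, x3 in b
        have e1 : sep (cons a b) s x2 x3 x1 ↔ sep b (s + sz a + 2) x2 x3 x1 := by
          rw [sep_cons]
          have ha : ¬ sep a (s + 1) x2 x3 x1 := not_sep (by simp only [Out]; omega)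
          constructor
          · rintro (h | h | h)
            · omega
            · exact absurd h ha
            · exact h
          · exact fun h => Or.inr (Or.inr h)
        have e2 : ¬ sep (cons a b) s x1 x2 x3 := by
          rw [sep_cons]
          have ha : ¬ sep a (s + 1) x1 x2 x3 := not_sep (by simp only [Out]; omega)
          have hb : ¬ sep b (s + sz a + 2) x1 x2 x3 := not_sep (by simp only [Out]; omega)
          rintro (h | h | h)
          · omega
          · exact ha h
          · exact hb h
        rw [PP_one (F := a) (Or.inr (by simp only [Out]; omega)),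
          SS_23 (F := b) (by simp only [Out]; omega) (by omega) (by omega) (by omega)
            (fun m ha hb => hφ m (by omega) (by omega)),
          ind_one (x := x1) (by omega), ind_zero (x := x2) (by omega)]
        simp [e1, e2]
    · -- all in b
      have e1 : sep (cons a b) s x2 x3 x1 ↔ sep b (s + sz a + 2) x2 x3 x1 := by
        rw [sep_cons]
        have ha : ¬ sep a (s + 1) x2 x3 x1 := not_sep (by simp only [Out]; omega)
        constructor
        · rintro (h | h | h)
          · omega
          · exact absurd h ha
          · exact h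
        · exact fun h => Or.inr (Or.inr h)
      have e2 : sep (cons a b) s x1 x2 x3 ↔ sep b (s + sz a + 2) x1 x2 x3 := by
        rw [sep_cons]
        have ha : ¬ sep a (s + 1) x1 x2 x3 := not_sep (by simp only [Out]; omega)
        constructor
        · rintro (h | h | h)
          · omega
          · exact absurd h ha
          · exact h
        · exact fun h => Or.inr (Or.inr h)
      rw [SS_zero (F := a) (fun m ha hb => by
            rw [hφ m (by omega) (by omega)]; simp only [ph]
            rw [if_pos (by omega)]),
        PP_one (F := a) (Or.inl (by simp only [Out]; omega)),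
        ihb (by omega) (by omega) (fun m ha hb => hφ m (by omega) (by omega)),
        ind_zero (x := x1) (by omega), ind_zero (x := x2) (by omega)]
      simp [e1, e2]

end Crest.Agent.R158.Vt300
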