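import Crest.Agent.R158.Vt2_300

/-!
# R158 block V: (A1) of doc 1777 for the two other positions of the leg
-/

namespace Crest.Agent.R158.Vt300

open NC

/-- reduction of `sep` to the left part -/
lemma sep_left {a b : NC} {s x y z : ℕ}
    (h0 : ¬ ((s < x ∧ x ≤ s + sz a + 1) ∧ (s < y ∧ y ≤ s + sz a + 1) ∧
      ¬ (s < z ∧ z ≤ s + sz a + 1)))
    (hb : Out x b (s + sz a + 2) ∨ Out y b (s + sz a + 2)) :
    sep (cons a b) s x y z ↔ sep a (s + 1) x y z := by
  rw [sep_cons]
  have hb' : ¬ sep b (s + sz a + 2) x y z := not_sep hb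
  tauto

/-- reduction of `sep` to the right part -/
lemma sep_right {a b : NC} {s x y z : ℕ}
    (h0 : ¬ ((s < x ∧ x ≤ s + sz a + 1) ∧ (s < y ∧ y ≤ s + sz a + 1) ∧
      ¬ (s < z ∧ z ≤ s + sz a + 1)))
    (ha : Out x a (s + 1) ∨ Out y a (s + 1)) :
    sep (cons a b) s x y z ↔ sep b (s + sz a + 2) x y z := by
  rw [sep_cons]
  have ha' : ¬ sep a (s + 1) x y z := not_sep ha
  tauto

lemma sep_none {a b : NC} {s x y z : ℕ}
    (h0 : ¬ ((s < x ∧ x ≤ s + sz a + 1) ∧ (s < y ∧ y ≤ s + sz a + 1) ∧
      ¬ (s < z ∧ z ≤ s + sz a + 1)))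
    (ha : Out x a (s + 1) ∨ Out y a (s + 1))
    (hb : Out x b (s + sz a + 2) ∨ Out y b (s + sz a + 2)) :
    ¬ sep (cons a b) s x y z := by
  rw [sep_right h0 ha]; exact not_sep hb

/-- low weight: `2` below `x3`, `1` at `x3`, `0` above -/
def pl (x3 m : ℕ) : ℤ := if m < x3 then 2 else if m = x3 then 1 else 0

lemma pl_lo {x3 m : ℕ} (h : m < x3) : pl x3 m = 2 := if_pos h
lemma pl_eq {x3 m : ℕ} (h : m = x3) : pl x3 m = 1 := by simp [pl, h]
lemma pl_hi {x3 m : ℕ} (h : x3 < m) : pl x3 m = 0 := by
  unfold pl; rw [if_neg (by omega), if_neg (by omega)]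

/-- `x3 ≤ x1` inside, `x2` in no arc -/
lemma SS_31 {φ : ℕ → ℤ} {x1 x2 x3 : ℕ} {F : NC} {s : ℕ}
    (h2 : Out x2 F s) (h3 : s ≤ x3) (h31 : x3 ≤ x1) (h1' : x1 ≤ s + sz F)
    (hφ : ∀ m, s ≤ m → m ≤ s + sz F → φ m = pl x3 m) :
    SS φ x1 x2 F s = if sep F s x3 x1 x2 then 2 else 1 := by
  induction F generalizing s with
  | nil =>
    simp only [sz] at h1'
    rw [show SS φ x1 x2 nil s = φ s from rfl, hφ s le_rfl (by simp), pl_eq (by omega)]
    simp [sep, arcs]
  | cons a b iha ihb =>
    have hPa : PP x1 x2 a (s + 1) = 1 := PP_one (Or.inr (by simp only [Out, sz] at *; omega))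
    have hPb : PP x1 x2 b (s + sz a + 2) = 1 :=
      PP_one (Or.inr (by simp only [Out, sz] at *; omega))
    simp only [Out, sz] at h2 h1' hφ iha ihb
    have hi2 : ind x2 (s, s + sz a + 1) = 0 := ind_zero (by omega)
    have hs := hφ s le_rfl (by omega)
    simp only [SS, hPa, hPb, hi2, hs]
    rcases tri h3 (show x3 ≤ s + (sz a + sz b + 2) by omega) with h | h | h
    · -- x3 = s
      have ea : SS φ x1 x2 a (s + 1) = 0 := SS_zero (fun m ha hb => by
        rw [hφ m (by omega) (by omega), pl_hi (by omega)])
      have eb : SS φ x1 x2 b (s + sz a + 2) = 0 := SS_zero (fun m ha hb => by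
        rw [hφ m (by omega) (by omega), pl_hi (by omega)])
      have e1 : ¬ sep (cons a b) s x3 x1 x2 := not_sep (Or.inl (Or.inl (by omega)))
      rw [ea, eb, if_neg e1, pl_eq (by omega)]
      by_cases h4 : s < x1 ∧ x1 ≤ s + sz a + 1
      · rw [ind_one h4]; simp
      · rw [ind_zero h4]; simp
    · have eb : SS φ x1 x2 b (s + sz a + 2) = 0 := SS_zero (fun m ha hb => by
        rw [hφ m (by omega) (by omega), pl_hi (by omega)])
      rcases tri (show s ≤ x1 by omega) h1' with h' | h' | h'
      · omega
      · have e1 : sep (cons a b) s x3 x1 x2 := sep_cons.2 (Or.inl ⟨by omega, by omega, by omega⟩)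
        rw [eb, pl_lo (by omega), ind_one (x := x1) (by omega), if_pos e1]
        simp
      · have ea : SS φ x1 x2 a (s + 1) = 1 := SS_3 (x3 := x3) (by simp only [Out]; omega)
          (by simp only [Out]; omega) (by omega) (by omega)
          (fun m ha hb => by rw [hφ m (by omega) (by omega)]; rfl)
        have e1 : ¬ sep (cons a b) s x3 x1 x2 := sep_none (by omega)
          (by simp only [Out]; omega) (by simp only [Out]; omega)
        rw [ea, eb, pl_lo (by omega), ind_zero (x := x1) (by omega), if_neg e1]
        simp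
    · have ea : SS φ x1 x2 a (s + 1) = 2 := SS_const (by simp only [Out]; omega)
        (by simp only [Out]; omega) (fun m ha hb => by
          rw [hφ m (by omega) (by omega), pl_lo (by omega)])
      have e1 : sep (cons a b) s x3 x1 x2 ↔ sep b (s + sz a + 2) x3 x1 x2 :=
        sep_right (by omega) (by simp only [Out]; omega)
      rw [ea, ihb (by omega) (by omega) (by omega) (fun m ha hb => hφ m (by omega) (by omega)),
        pl_lo (by omega), ind_zero (x := x1) (by omega)]
      simp [e1]

/-- `x2 ≤ x3 ≤ x1` all inside -/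
theorem SS_231 {φ : ℕ → ℤ} {x1 x2 x3 : ℕ} {F : NC} {s : ℕ}
    (h2 : s ≤ x2) (h23 : x2 ≤ x3) (h31 : x3 ≤ x1) (h1' : x1 ≤ s + sz F)
    (hφ : ∀ m, s ≤ m → m ≤ s + sz F → φ m = ph x2 x3 m) :
    SS φ x1 x2 F s = if sep F s x2 x3 x1 then 0 else if sep F s x3 x1 x2 then 2 else 1 := by
  induction F generalizing s with
  | nil =>
    simp only [sz] at h1'
    rw [show SS φ x1 x2 nil s = φ s from rfl, hφ s le_rfl (by simp)]
    simp [ph, sep, arcs, show x2 = s by omega, show x3 = s by omega]
  | cons a b iha ihb =>
    by_cases hx2 : x2 ≤ s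
    · rw [if_neg (not_sep (Or.inl (Or.inl hx2)) : ¬ sep (cons a b) s x2 x3 x1)]
      exact SS_31 (Or.inl hx2) (by omega) h31 h1' (fun m ha hb => by
        rw [hφ m ha hb]; simp only [ph, pl]; rw [if_neg (by omega)])
    simp only [sz] at h1' hφ iha ihb
    have hs : φ s = 0 := by rw [hφ s le_rfl (by omega)]; simp only [ph]; rw [if_pos (by omega)]
    simp only [SS, hs]
    rcases tri h2 (show x2 ≤ s + (sz a + sz b + 2) by omega) with h | h | h
    · omega
    · rcases tri (show s ≤ x3 by omega) (show x3 ≤ s + (sz a + sz b + 2) by omega) with h' | h' | h'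
      · omega
      · rcases tri (show s ≤ x1 by omega) h1' with h'' | h'' | h''
        · omega
        · -- all in a
          have e1 : sep (cons a b) s x2 x3 x1 ↔ sep a (s + 1) x2 x3 x1 :=
            sep_left (by omega) (by simp only [Out]; omega)
          have e2 : sep (cons a b) s x3 x1 x2 ↔ sep a (s + 1) x3 x1 x2 :=
            sep_left (by omega) (by simp only [Out]; omega)
          have hPb : PP x1 x2 b (s + sz a + 2) = 1 := PP_one (by simp only [Out]; omega)
          rw [iha (by omega) (by omega) (fun m ha hb => hφ m (by omega) (by omega)), hPb,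
            ind_one (x := x1) (by omega), ind_one (x := x2) (by omega)]
          simp [e1, e2]
        · -- x2, x3 in a, x1 in b
          have e1 : sep (cons a b) s x2 x3 x1 := sep_cons.2 (Or.inl ⟨by omega, by omega, by omega⟩)
          have eb : SS φ x1 x2 b (s + sz a + 2) = 0 := SS_zero (fun m ha hb => by
            rw [hφ m (by omega) (by omega)]; simp only [ph]
            rw [if_neg (by omega), if_neg (by omega), if_neg (by omega)])
          rw [eb, ind_zero (x := x1) (by omega), ind_one (x := x2) (by omega), if_pos e1]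
          simp
      · -- x2 in a, x3, x1 in b
        have e1 : ¬ sep (cons a b) s x2 x3 x1 := sep_none (by omega)
          (by simp only [Out]; omega) (by simp only [Out]; omega)
        have e2 : sep (cons a b) s x3 x1 x2 ↔ sep b (s + sz a + 2) x3 x1 x2 :=
          sep_right (by omega) (by simp only [Out]; omega)
        have hPa : PP x1 x2 a (s + 1) = 1 := PP_one (by simp only [Out]; omega)
        have eb : SS φ x1 x2 b (s + sz a + 2) =
            if sep b (s + sz a + 2) x3 x1 x2 then 2 else 1 :=
          SS_31 (by simp only [Out]; omega) (by omega) (by omega) (by omega)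
            (fun m ha hb => by
              rw [hφ m (by omega) (by omega)]; simp only [ph, pl]; rw [if_neg (by omega)])
        rw [eb, hPa, ind_zero (x := x1) (by omega), ind_one (x := x2) (by omega), if_neg e1]
        simp [e2]
    · -- all in b
      have e1 : sep (cons a b) s x2 x3 x1 ↔ sep b (s + sz a + 2) x2 x3 x1 :=
        sep_right (by omega) (by simp only [Out]; omega)
      have e2 : sep (cons a b) s x3 x1 x2 ↔ sep b (s + sz a + 2) x3 x1 x2 :=
        sep_right (by omega) (by simp only [Out]; omega)
      have ea : SS φ x1 x2 a (s + 1) = 0 := SS_zero (fun m ha hb => by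
            rw [hφ m (by omega) (by omega)]; simp only [ph]
            rw [if_pos (by omega)])
      have hPa : PP x1 x2 a (s + 1) = 1 := PP_one (by simp only [Out]; omega)
      rw [ea, hPa, ihb (by omega) (by omega) (fun m ha hb => hφ m (by omega) (by omega)),
        ind_zero (x := x1) (by omega), ind_zero (x := x2) (by omega)]
      simp [e1, e2]

/-- `x3 ≤ x1 ≤ x2` all inside, low sum -/
theorem SS_312 {φ : ℕ → ℤ} {x1 x2 x3 : ℕ} {F : NC} {s : ℕ}
    (h3 : s ≤ x3) (h31 : x3 ≤ x1) (h12 : x1 ≤ x2) (h2' : x2 ≤ s + sz F)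
    (hφ : ∀ m, s ≤ m → m ≤ s + sz F → φ m = pl x3 m) :
    SS φ x1 x2 F s = if sep F s x1 x2 x3 then 0 else if sep F s x3 x1 x2 then 2 else 1 := by
  induction F generalizing s with
  | nil =>
    simp only [sz] at h2'
    rw [show SS φ x1 x2 nil s = φ s from rfl, hφ s le_rfl (by simp), pl_eq (by omega)]
    simp [sep, arcs]
  | cons a b iha ihb =>
    simp only [sz] at h2' hφ iha ihb
    have hs := hφ s le_rfl (by omega)
    rcases tri h3 (show x3 ≤ s + (sz a + sz b + 2) by omega) with h | h | h
    · -- x3 = s
      have ea : SS φ x1 x2 a (s + 1) = 0 := SS_zero (fun m ha hb => by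
        rw [hφ m (by omega) (by omega), pl_hi (by omega)])
      have eb : SS φ x1 x2 b (s + sz a + 2) = 0 := SS_zero (fun m ha hb => by
        rw [hφ m (by omega) (by omega), pl_hi (by omega)])
      have e2 : ¬ sep (cons a b) s x3 x1 x2 := not_sep (Or.inl (Or.inl (by omega)))
      have e3 : PP x1 x2 (cons a b) s = if sep (cons a b) s x1 x2 x3 then 0 else 1 :=
        PP_eq (Or.inl (by omega))
      simp only [PP] at e3
      simp only [SS, hs]
      rw [ea, eb, if_neg e2, pl_eq (by omega), e3]
      ring
    · have eb : SS φ x1 x2 b (s + sz a + 2) = 0 := SS_zero (fun m ha hb => by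
        rw [hφ m (by omega) (by omega), pl_hi (by omega)])
      simp only [SS, hs]
      rcases tri (show s ≤ x1 by omega) (show x1 ≤ s + (sz a + sz b + 2) by omega) with h' | h' | h'
      · omega
      · rcases tri (show s ≤ x2 by omega) h2' with h'' | h'' | h''
        · omega
        · -- all in a
          have e1 : sep (cons a b) s x1 x2 x3 ↔ sep a (s + 1) x1 x2 x3 :=
            sep_left (by omega) (by simp only [Out]; omega)
          have e2 : sep (cons a b) s x3 x1 x2 ↔ sep a (s + 1) x3 x1 x2 :=
            sep_left (by omega) (by simp only [Out]; omega)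
          have hPb : PP x1 x2 b (s + sz a + 2) = 1 := PP_one (by simp only [Out]; omega)
          rw [iha (by omega) (by omega) (fun m ha hb => hφ m (by omega) (by omega)), eb, hPb,
            ind_one (x := x1) (by omega), ind_one (x := x2) (by omega)]
          simp [e1, e2]
        · -- x3, x1 in a, x2 in b
          have e1 : ¬ sep (cons a b) s x1 x2 x3 := sep_none (by omega)
            (by simp only [Out]; omega) (by simp only [Out]; omega)
          have e2 : sep (cons a b) s x3 x1 x2 := sep_cons.2 (Or.inl ⟨by omega, by omega, by omega⟩)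
          have hPa : PP x1 x2 a (s + 1) = 1 := PP_one (by simp only [Out]; omega)
          have hPb : PP x1 x2 b (s + sz a + 2) = 1 := PP_one (by simp only [Out]; omega)
          rw [eb, hPa, hPb, ind_one (x := x1) (by omega), ind_zero (x := x2) (by omega),
            if_neg e1, if_pos e2, pl_lo (by omega)]
          simp
      · -- x3 in a, x1, x2 in b
        have e1 : sep (cons a b) s x1 x2 x3 ↔ sep b (s + sz a + 2) x1 x2 x3 :=
          sep_right (by omega) (by simp only [Out]; omega)
        have e2 : ¬ sep (cons a b) s x3 x1 x2 := sep_none (by omega)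
            (by simp only [Out]; omega) (by simp only [Out]; omega)
        have hPa : PP x1 x2 a (s + 1) = 1 := PP_one (by simp only [Out]; omega)
        have hPb : PP x1 x2 b (s + sz a + 2) = if sep b (s + sz a + 2) x1 x2 x3 then 0 else 1 :=
          PP_eq (Or.inl (by omega))
        have ea : SS φ x1 x2 a (s + 1) = 1 := SS_3 (x3 := x3) (by simp only [Out]; omega)
          (by simp only [Out]; omega) (by omega) (by omega)
          (fun m ha hb => by rw [hφ m (by omega) (by omega)]; rfl)
        rw [ea, eb, hPa, hPb, ind_zero (x := x1) (by omega), ind_zero (x := x2) (by omega),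
            if_neg e2, pl_lo (by omega)]
        by_cases h5 : sep b (s + sz a + 2) x1 x2 x3 <;> simp [e1, h5]
    · -- all in b
      have e1 : sep (cons a b) s x1 x2 x3 ↔ sep b (s + sz a + 2) x1 x2 x3 :=
        sep_right (by omega) (by simp only [Out]; omega)
      have e2 : sep (cons a b) s x3 x1 x2 ↔ sep b (s + sz a + 2) x3 x1 x2 :=
        sep_right (by omega) (by simp only [Out]; omega)
      have ea : SS φ x1 x2 a (s + 1) = 2 := SS_const (by simp only [Out]; omega)
        (by simp only [Out]; omega) (fun m ha hb => by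
          rw [hφ m (by omega) (by omega), pl_lo (by omega)])
      have hPa : PP x1 x2 a (s + 1) = 1 := PP_one (by simp only [Out]; omega)
      simp only [SS, hs]
      rw [ea, hPa, ihb (by omega) (by omega) (fun m ha hb => hφ m (by omega) (by omega)),
        ind_zero (x := x1) (by omega), ind_zero (x := x2) (by omega), pl_lo (by omega)]
      simp only [e1, e2]
      simp

end Crest.Agent.R158.Vt300
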