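import Crest.Agent.R158.Hb0_656
import Crest.Agent.R158.Bh2_679

/-!
# R158, block BL, leaf (B3) (helper802), file Vw1: windows of the layer of the right walls

* state of the chain by height = 679's `St (RL F H L δ) y y' X`, group `Gr (RL F H L δ) y y' X`
* `rl_col`, `row_sh`, `row_rl` : membership near a macroscopic vertical line
* `flatR` : window of a flat segment
* `Pat`, `vertR`, `midR` : patterns at a macroscopic vertex / in the middle of a wall
-/

set_option autoImplicit false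

namespace Crest.Agent.R158.Vw802

open Crest.Agent.R158.Sp896 (V)
open Crest.Agent.R158.Env664 (D mem_D div_iff)
open Crest.Agent.R158.Hb656
open Crest.Agent.R158.Bh679 (St Gr mem_St mem_Gr)

variable {F H : Finset V} {L δ : ℤ}

theorem mD {G : Finset V} (hL : 0 < L) {q r x y : ℤ} (h1 : q * L ≤ x) (h2 : x < q * L + L)
    (h3 : r * L ≤ y) (h4 : y < r * L + L) : (x, y) ∈ D G L ↔ (q, r) ∈ G := by
  rw [mem_D hL]
  simp only
  rw [(div_iff hL x q).2 ⟨h1, h2⟩, (div_iff hL y r).2 ⟨h3, h4⟩]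

/-- the macroscopic wall behind a tile of the layer -/
theorem rl_col (hL : 0 < L) (hs : H ⊆ F) {X y : ℤ} (h : (X, y) ∈ RL F H L δ) :
    ∃ c r : ℤ, X = c * L + L + δ ∧ r * L ≤ y ∧ y < r * L + L ∧ (c, r) ∈ H ∧ (c + 1, r) ∉ F := by
  rw [mem_RL] at h
  simp only at h
  obtain ⟨h1, h2⟩ := h
  obtain ⟨r, hr1, hr2⟩ : ∃ r : ℤ, r * L ≤ y ∧ y < r * L + L := ⟨y / L, (div_iff hL y _).1 rfl⟩
  obtain ⟨c, hc1, hc2⟩ : ∃ c : ℤ, c * L ≤ X - 1 - δ ∧ X - 1 - δ < c * L + L :=
    ⟨_, (div_iff hL (X - 1 - δ) _).1 rfl⟩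
  rw [mD hL hc1 hc2 hr1 hr2] at h1
  have h3 : ¬ (X - δ < c * L + L) := by
    intro h4
    rw [mD hL (by omega) h4 hr1 hr2] at h2
    exact h2 (hs h1)
  have e : (c + 1) * L = c * L + L := by ring
  refine ⟨c, r, by omega, hr1, hr2, h1, ?_⟩
  rwa [mD hL (q := c + 1) (by rw [e]; omega) (by rw [e]; omega) hr1 hr2] at h2

/-- the moved region near the macroscopic vertical line `x = (c + 1) L` -/
theorem row_sh (hL : 8 ≤ L) (hδ : -1 ≤ δ ∧ δ ≤ 1) {c r x y : ℤ} (hx1 : c * L + L + δ - L / 4 ≤ x)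
    (hx2 : x ≤ c * L + L + δ + L / 4) (h3 : r * L ≤ y) (h4 : y < r * L + L) :
    (x, y) ∈ shD F H L δ ↔ ((if x < c * L + L then (c, r) else (c + 1, r)) ∈ F ∧
      (if x < c * L + L then (c, r) else (c + 1, r)) ∉ H) ∨
      (if x < c * L + L + δ then (c, r) else (c + 1, r)) ∈ H := by
  have hL0 : 0 < L := by omega
  have e : (c + 1) * L = c * L + L := by ring
  rw [mem_shD]
  simp only
  refine or_congr ?_ ?_
  · split_ifs with h
    · rw [mD (G := F) hL0 (q := c) (by omega) h h3 h4, mD (G := H) hL0 (q := c) (by omega) h h3 h4]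
    · rw [mD (G := F) hL0 (q := c + 1) (by omega) (by omega) h3 h4,
        mD (G := H) hL0 (q := c + 1) (by omega) (by omega) h3 h4]
  · split_ifs with h
    · rw [mD (G := H) hL0 (q := c) (by omega) (by omega) h3 h4]
    · rw [mD (G := H) hL0 (q := c + 1) (by omega) (by omega) h3 h4]

/-- the layer near the macroscopic vertical line `x = (c + 1) L` -/
theorem row_rl (hL : 8 ≤ L) (hs : H ⊆ F) {c r x y : ℤ} (hx1 : c * L + L + δ - L / 4 ≤ x)
    (hx2 : x ≤ c * L + L + δ + L / 4) (h3 : r * L ≤ y) (h4 : y < r * L + L) :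
    (x, y) ∈ RL F H L δ ↔ x = c * L + L + δ ∧ (c, r) ∈ H ∧ (c + 1, r) ∉ F := by
  have hL0 : 0 < L := by omega
  have e : (c + 1) * L = c * L + L := by ring
  rw [mem_RL]
  simp only
  rcases lt_trichotomy x (c * L + L + δ) with h | h | h
  · rw [mD (G := H) hL0 (q := c) (by omega) (by omega) h3 h4,
      mD (G := F) hL0 (q := c) (by omega) (by omega) h3 h4]
    constructor
    · rintro ⟨h5, h6⟩; exact absurd (hs h5) h6
    · rintro ⟨h5, -⟩; omega
  · rw [mD (G := H) hL0 (q := c) (by omega) (by omega) h3 h4,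
      mD (G := F) hL0 (q := c + 1) (by omega) (by omega) h3 h4]
    simp only [h, true_and]
  · rw [mD (G := H) hL0 (q := c + 1) (by omega) (by omega) h3 h4,
      mD (G := F) hL0 (q := c + 1) (by omega) (by omega) h3 h4]
    constructor
    · rintro ⟨h5, h6⟩; exact absurd (hs h5) h6
    · rintro ⟨h5, -⟩; omega

/-- **window of a flat segment**: before and after the group of the column `X` -/
theorem flatR (hL : 8 ≤ L) (hδ : -1 ≤ δ ∧ δ ≤ 1) (hs : H ⊆ F) {c r y y' : ℤ} (h1 : (c, r) ∈ H)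
    (h2 : (c + 1, r) ∉ F) (hy : y ≤ y') {x1 y1 : ℤ}
    (hx1 : c * L + L + δ - L / 4 ≤ x1) (hx2 : x1 ≤ c * L + L + δ + L / 4) (h3 : r * L ≤ y1)
    (h4 : y1 < r * L + L) :
    ((x1, y1) ∈ shD F H L δ ∪ St (RL F H L δ) y y' (c * L + L + δ) ↔
      x1 < c * L + L + δ ∨ (x1 = c * L + L + δ ∧ y1 < y)) ∧
    ((x1, y1) ∈ shD F H L δ ∪ (St (RL F H L δ) y y' (c * L + L + δ) ∪ Gr (RL F H L δ) y y' (c * L + L + δ)) ↔
      x1 < c * L + L + δ ∨ (x1 = c * L + L + δ ∧ y1 < y')) := by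
  have hF : (c, r) ∈ F := hs h1
  have hH : (c + 1, r) ∉ H := fun h => h2 (hs h)
  simp only [Finset.mem_union, mem_St, mem_Gr, row_sh hL hδ hx1 hx2 h3 h4,
    row_rl (δ := δ) hL hs hx1 hx2 h3 h4]
  generalize c * L + L = X0 at *
  have q1 : ((if x1 < X0 then (c, r) else (c + 1, r)) ∈ F ∧
      (if x1 < X0 then (c, r) else (c + 1, r)) ∉ H) ↔ False := by
    split_ifs <;> simp [h1, h2, hF, hH]
  have q2 : (if x1 < X0 + δ then (c, r) else (c + 1, r)) ∈ H ↔ x1 < X0 + δ := by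
    split_ifs with h5 <;> simp [h1, hH, h5]
  simp only [q1, q2, h1, h2, false_or, not_false_eq_true, and_true]
  constructor <;> constructor <;> intro h5 <;> omega

/-- the six patterns at a right wall: `h1` stepped wall, `h0` flat wall, `qa`, `qb` the quadrant above /
below, `ta`, `tb` the complement of the quadrant to the right above / below -/
inductive Pat
  | h1 | h0 | qa | qb | ta | tb

/-- the pattern with wall column `a` at the height `Y` -/
def Pat.ok : Pat → ℤ → ℤ → ℤ → ℤ → Prop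
  | .h1, a, Y, x, y => (y < Y ∧ x ≤ a + 1) ∨ (Y ≤ y ∧ x ≤ a)
  | .h0, a, _, x, _ => x ≤ a
  | .qa, a, Y, x, y => Y ≤ y ∧ x ≤ a
  | .qb, a, Y, x, y => y < Y ∧ x ≤ a
  | .ta, a, Y, x, y => y < Y ∨ x ≤ a
  | .tb, a, Y, x, y => Y ≤ y ∨ x ≤ a

/-- no two cells of `F` touch only at a corner -/
structure NoPinch (F : Finset V) : Prop where
  ne : ∀ a b : ℤ, (a, b) ∈ F → (a + 1, b + 1) ∈ F → (a + 1, b) ∈ F ∨ (a, b + 1) ∈ F
  se : ∀ a b : ℤ, (a, b + 1) ∈ F → (a + 1, b) ∈ F → (a, b) ∈ F ∨ (a + 1, b + 1) ∈ F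

/-- membership in the moved region, one macroscopic row -/
def InSh (F H : Finset V) (c r X0 δ x : ℤ) : Prop :=
  ((if x < X0 then (c, r) else (c + 1, r)) ∈ F ∧ (if x < X0 then (c, r) else (c + 1, r)) ∉ H) ∨
    (if x < X0 + δ then (c, r) else (c + 1, r)) ∈ H

section types

variable {c r X0 x : ℤ}

theorem inSh_i (hs : H ⊆ F) (h1 : (c, r) ∈ H) (h2 : (c + 1, r) ∉ F) :
    InSh F H c r X0 δ x ↔ x < X0 + δ := by
  have h3 := hs h1
  have h4 : (c + 1, r) ∉ H := fun h => h2 (hs h)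
  unfold InSh
  split_ifs <;> simp [*]

theorem inSh_all (h1 : (c, r) ∈ F) (h2 : (c + 1, r) ∈ F)
    (h3 : ((c, r) ∈ H ∧ (c + 1, r) ∈ F) ∨ ((c, r) ∈ F ∧ (c + 1, r) ∈ H) →
      (c, r) ∈ H ∧ (c + 1, r) ∈ H) : InSh F H c r X0 δ x := by
  unfold InSh
  by_cases h4 : (c, r) ∈ H
  · have h5 := (h3 (Or.inl ⟨h4, h2⟩)).2
    right
    split_ifs <;> assumption
  · have h5 : (c + 1, r) ∉ H := fun h => h4 (h3 (Or.inr ⟨h1, h⟩)).1
    left
    split_ifs <;> exact ⟨by assumption, by assumption⟩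

theorem inSh_v (hs : H ⊆ F) (h1 : (c, r) ∈ F) (h1' : (c, r) ∉ H) (h2 : (c + 1, r) ∉ F) :
    InSh F H c r X0 δ x ↔ x < X0 := by
  have h4 : (c + 1, r) ∉ H := fun h => h2 (hs h)
  unfold InSh
  split_ifs <;> simp [*]

theorem inSh_none (hs : H ⊆ F) (h1 : (c, r) ∉ F) (h2 : (c + 1, r) ∉ F) :
    ¬ InSh F H c r X0 δ x := by
  have h3 : (c, r) ∉ H := fun h => h1 (hs h)
  have h4 : (c + 1, r) ∉ H := fun h => h2 (hs h)
  unfold InSh
  split_ifs <;> simp [*]

end types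

/-- reduction of the vertex picture to its two rows -/
theorem vert_red (hL : 8 ≤ L) (hδ : -1 ≤ δ ∧ δ ≤ 1) (hs : H ⊆ F) {c j g : ℤ} (hg : 0 ≤ g)
    {P : ℤ → ℤ → Prop}
    (hA : ∀ x1 y1 : ℤ, j * L ≤ y1 → (InSh F H c j (c * L + L) δ x1 ↔ P x1 y1))
    (hB : ∀ x1 y1 : ℤ, y1 < j * L → ((InSh F H c (j - 1) (c * L + L) δ x1 ∨
        (x1 = c * L + L + δ ∧ (c, j - 1) ∈ H ∧ (c + 1, j - 1) ∉ F)) ↔ P x1 y1)) (x1 y1 : ℤ)
    (hx1 : c * L + L + δ - L / 4 ≤ x1) (hx2 : x1 ≤ c * L + L + δ + L / 4)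
    (hy1 : j * L - L / 4 ≤ y1) (hy2 : y1 ≤ j * L + L / 4)
    (hout : y1 < j * L - g ∨ j * L + g ≤ y1 ∨ x1 ≠ c * L + L + δ) :
    ((x1, y1) ∈ shD F H L δ ∪ St (RL F H L δ) (j * L - g) (j * L + g) (c * L + L + δ) ↔ P x1 y1) ∧
      ((x1, y1) ∈ shD F H L δ ∪ (St (RL F H L δ) (j * L - g) (j * L + g) (c * L + L + δ) ∪
        Gr (RL F H L δ) (j * L - g) (j * L + g) (c * L + L + δ)) ↔ P x1 y1) := by
  have e1 : (j - 1) * L = j * L - L := by ring
  simp only [Finset.mem_union, mem_St, mem_Gr]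
  rcases lt_or_ge y1 (j * L) with hy | hy
  · have h3 : (j - 1) * L ≤ y1 := by rw [e1]; omega
    have h4 : y1 < (j - 1) * L + L := by rw [e1]; omega
    rw [← hB x1 y1 hy, row_sh hL hδ hx1 hx2 h3 h4, row_rl (δ := δ) hL hs hx1 hx2 h3 h4]
    constructor <;> refine or_congr_right ?_
    · constructor
      · rintro ⟨h5, -⟩; exact h5
      · intro h5
        refine ⟨h5, Or.inl ?_⟩
        have := h5.1
        omega
    · constructor
      · rintro (⟨h5, -⟩ | ⟨h5, -⟩) <;> exact h5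
      · intro h5
        refine Or.inl ⟨h5, Or.inl ?_⟩
        have := h5.1
        omega
  · have h3 : j * L ≤ y1 := hy
    have h4 : y1 < j * L + L := by omega
    rw [← hA x1 y1 hy, row_sh hL hδ hx1 hx2 h3 h4, row_rl (δ := δ) hL hs hx1 hx2 h3 h4]
    constructor
    · refine or_iff_left ?_
      rintro ⟨⟨h5, -⟩, h6⟩
      omega
    · refine or_iff_left ?_
      rintro (⟨⟨h5, -⟩, h6⟩ | ⟨⟨h5, -⟩, h6⟩)
      · omega
      · omega

/-- **pattern at a macroscopic vertex** of a right wall, before and after the thick group -/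
theorem vertR (hL : 8 ≤ L) (hδ : δ = -1 ∨ δ = 0) {k i0 i1 : ℤ} {up : Bool} (hH : Hang F H k i0 i1 up)
    (hp : NoPinch F) {c j g : ℤ} (hg : 0 ≤ g)
    (h : ((c, j) ∈ H ∧ (c + 1, j) ∉ F) ∨ ((c, j - 1) ∈ H ∧ (c + 1, j - 1) ∉ F)) :
    ∃ (q : Pat) (a : ℤ), (a = c * L + L + δ - 1 ∨ a = c * L + L + δ) ∧ ∀ x1 y1 : ℤ,
      c * L + L + δ - L / 4 ≤ x1 → x1 ≤ c * L + L + δ + L / 4 → j * L - L / 4 ≤ y1 →
      y1 ≤ j * L + L / 4 → (y1 < j * L - g ∨ j * L + g ≤ y1 ∨ x1 ≠ c * L + L + δ) →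
      ((x1, y1) ∈ shD F H L δ ∪ St (RL F H L δ) (j * L - g) (j * L + g) (c * L + L + δ) ↔
        q.ok a (j * L) x1 y1) ∧
      ((x1, y1) ∈ shD F H L δ ∪ (St (RL F H L δ) (j * L - g) (j * L + g) (c * L + L + δ) ∪
        Gr (RL F H L δ) (j * L - g) (j * L + g) (c * L + L + δ)) ↔ q.ok a (j * L) x1 y1) := by
  have hs := hH.sub
  have hδ' : -1 ≤ δ ∧ δ ≤ 1 := by omega
  have main : ∀ (q : Pat) (a : ℤ), (a = c * L + L + δ - 1 ∨ a = c * L + L + δ) →
      (∀ x1 y1 : ℤ, j * L ≤ y1 → (InSh F H c j (c * L + L) δ x1 ↔ q.ok a (j * L) x1 y1)) →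
      (∀ x1 y1 : ℤ, y1 < j * L → ((InSh F H c (j - 1) (c * L + L) δ x1 ∨
        (x1 = c * L + L + δ ∧ (c, j - 1) ∈ H ∧ (c + 1, j - 1) ∉ F)) ↔ q.ok a (j * L) x1 y1)) → _ :=
    fun q a ha hA hB => (⟨q, a, ha, fun x1 y1 => vert_red hL hδ' hs hg hA hB x1 y1⟩ :
      ∃ (q : Pat) (a : ℤ), (a = c * L + L + δ - 1 ∨ a = c * L + L + δ) ∧ ∀ x1 y1 : ℤ,
      c * L + L + δ - L / 4 ≤ x1 → x1 ≤ c * L + L + δ + L / 4 → j * L - L / 4 ≤ y1 →
      y1 ≤ j * L + L / 4 → (y1 < j * L - g ∨ j * L + g ≤ y1 ∨ x1 ≠ c * L + L + δ) →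
      ((x1, y1) ∈ shD F H L δ ∪ St (RL F H L δ) (j * L - g) (j * L + g) (c * L + L + δ) ↔
        q.ok a (j * L) x1 y1) ∧
      ((x1, y1) ∈ shD F H L δ ∪ (St (RL F H L δ) (j * L - g) (j * L + g) (c * L + L + δ) ∪
        Gr (RL F H L δ) (j * L - g) (j * L + g) (c * L + L + δ)) ↔ q.ok a (j * L) x1 y1))
  rcases h with ⟨h1, h2⟩ | ⟨h1, h2⟩
  · have hF := hs h1
    by_cases b1 : (c, j - 1) ∈ F <;> by_cases b2 : (c + 1, j - 1) ∈ F
    · refine main .ta (c * L + L + δ - 1) (Or.inl rfl) ?_ ?_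
      · intro x1 y1 hy
        rw [inSh_i hs h1 h2]
        simp only [Pat.ok]; omega
      · intro x1 y1 hy
        have := inSh_all (X0 := c * L + L) (δ := δ) (x := x1) b1 b2 (hH.hor c (j - 1))
        simp only [this, Pat.ok, hy, true_or]
    · by_cases b3 : (c, j - 1) ∈ H
      · refine main .h1 (c * L + L + δ - 1) (Or.inl rfl) ?_ ?_
        · intro x1 y1 hy
          rw [inSh_i hs h1 h2]
          simp only [Pat.ok]; omega
        · intro x1 y1 hy
          rw [inSh_i hs b3 b2]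
          simp only [Pat.ok, b3, b2, not_false_eq_true, and_true]; omega
      · rcases hδ with rfl | rfl
        · refine main .h1 (c * L + L + -1 - 1) (Or.inl rfl) ?_ ?_
          · intro x1 y1 hy
            rw [inSh_i hs h1 h2]
            simp only [Pat.ok]; omega
          · intro x1 y1 hy
            rw [inSh_v hs b1 b3 b2]
            simp only [Pat.ok, b3, false_and, and_false, or_false]; omega
        · refine main .h0 (c * L + L + 0 - 1) (Or.inl rfl) ?_ ?_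
          · intro x1 y1 hy
            rw [inSh_i hs h1 h2]
            simp only [Pat.ok]; omega
          · intro x1 y1 hy
            rw [inSh_v hs b1 b3 b2]
            simp only [Pat.ok, b3, false_and, and_false, or_false]; omega
    · exfalso
      have := hp.se c (j - 1)
      rw [sub_add_cancel] at this
      rcases this hF b2 with h3 | h3
      · exact b1 h3
      · exact h2 h3
    · refine main .qa (c * L + L + δ - 1) (Or.inl rfl) ?_ ?_
      · intro x1 y1 hy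
        rw [inSh_i hs h1 h2]
        simp only [Pat.ok]; omega
      · intro x1 y1 hy
        have h3 : (c, j - 1) ∉ H := fun h => b1 (hs h)
        simp only [inSh_none hs b1 b2, Pat.ok, h3, false_and, and_false, or_false, false_iff]; omega
  · have hF := hs h1
    by_cases b1 : (c, j) ∈ F <;> by_cases b2 : (c + 1, j) ∈ F
    · refine main .tb (c * L + L + δ) (Or.inr rfl) ?_ ?_
      · intro x1 y1 hy
        have := inSh_all (X0 := c * L + L) (δ := δ) (x := x1) b1 b2 (hH.hor c j)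
        simp only [this, Pat.ok, hy, true_or]
      · intro x1 y1 hy
        rw [inSh_i hs h1 h2]
        simp only [Pat.ok, h1, h2, not_false_eq_true, and_true]; omega
    · by_cases b3 : (c, j) ∈ H
      · refine main .h1 (c * L + L + δ - 1) (Or.inl rfl) ?_ ?_
        · intro x1 y1 hy
          rw [inSh_i hs b3 b2]
          simp only [Pat.ok]; omega
        · intro x1 y1 hy
          rw [inSh_i hs h1 h2]
          simp only [Pat.ok, h1, h2, not_false_eq_true, and_true]; omega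
      · rcases hδ with rfl | rfl
        · refine main .h0 (c * L + L + -1) (Or.inr rfl) ?_ ?_
          · intro x1 y1 hy
            rw [inSh_v hs b1 b3 b2]
            simp only [Pat.ok]; omega
          · intro x1 y1 hy
            rw [inSh_i hs h1 h2]
            simp only [Pat.ok, h1, h2, not_false_eq_true, and_true]; omega
        · refine main .h1 (c * L + L + 0 - 1) (Or.inl rfl) ?_ ?_
          · intro x1 y1 hy
            rw [inSh_v hs b1 b3 b2]
            simp only [Pat.ok]; omega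
          · intro x1 y1 hy
            rw [inSh_i hs h1 h2]
            simp only [Pat.ok, h1, h2, not_false_eq_true, and_true]; omega
    · exfalso
      have := hp.ne c (j - 1)
      rw [sub_add_cancel] at this
      rcases this hF b2 with h3 | h3
      · exact h2 h3
      · exact b1 h3
    · refine main .qb (c * L + L + δ) (Or.inr rfl) ?_ ?_
      · intro x1 y1 hy
        have h3 : (c, j) ∉ H := fun h => b1 (hs h)
        simp only [inSh_none hs b1 b2, Pat.ok, false_iff]; omega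
      · intro x1 y1 hy
        rw [inSh_i hs h1 h2]
        simp only [Pat.ok, h1, h2, not_false_eq_true, and_true]; omega

/-- **pattern in the middle of a right wall**, before and after the thick group (centre `Y`) -/
theorem midR (hL : 8 ≤ L) (hδ : -1 ≤ δ ∧ δ ≤ 1) (hs : H ⊆ F) {c r Y g : ℤ} (hg : 0 ≤ g)
    (h1 : (c, r) ∈ H) (h2 : (c + 1, r) ∉ F) (hY1 : r * L + L / 4 ≤ Y) (hY2 : Y + L / 4 < r * L + L)
    (x1 y1 : ℤ) (hx1 : c * L + L + δ - L / 4 ≤ x1) (hx2 : x1 ≤ c * L + L + δ + L / 4)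
    (hy1 : Y - L / 4 ≤ y1) (hy2 : y1 ≤ Y + L / 4)
    (hout : y1 < Y - g ∨ Y + g ≤ y1 ∨ x1 ≠ c * L + L + δ) :
    ((x1, y1) ∈ shD F H L δ ∪ St (RL F H L δ) (Y - g) (Y + g) (c * L + L + δ) ↔
      Pat.ok .h1 (c * L + L + δ - 1) Y x1 y1) ∧
    ((x1, y1) ∈ shD F H L δ ∪ (St (RL F H L δ) (Y - g) (Y + g) (c * L + L + δ) ∪
      Gr (RL F H L δ) (Y - g) (Y + g) (c * L + L + δ)) ↔
      Pat.ok .h1 (c * L + L + δ - 1) Y x1 y1) := by
  obtain ⟨h3, h4⟩ := flatR (δ := δ) (y := Y - g) (y' := Y + g) hL hδ hs h1 h2 (by omega) hx1 hx2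
    (y1 := y1) (by omega) (by omega)
  rw [h3, h4]
  simp only [Pat.ok]
  constructor <;> omega

end Crest.Agent.R158.Vw802
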