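import Crest.Agent.R158.Vw3_802
import Crest.Agent.R158.Wd10_377

/-!
# R158, block BL, leaf (B3) (helper802), file Vw4: the inputs of the step theorems

* `thickR`, `thickL` : everything `Hc854.ball_mk` needs for one thick group, marks included
* `thinR`, `thinL` : everything `Wd377.right_D`, `left_D` need for one flat tile
-/

set_option autoImplicit false

namespace Crest.Agent.R158.Vw802

open Crest.Agent.R158.Sp896 (V)
open Crest.Agent.R158.Sw300 (Port)
open Crest.Agent.R158.Env664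
open Crest.Agent.R158.Hb656
open Crest.Agent.R158.Bh679 (St Gr mem_St mem_Gr mq Away)
open Crest.Agent.R158.Hc854 (Sd mem_Sd MkP)
open Crest.Agent.R158.Cw161 hiding portOf_some
open Crest.Agent.R158.Wd377 (BxR BxL Off)

variable {F H : Finset V} {L L2 δ κ X k i0 i1 p y0 xr : ℤ} {up : Bool} {g n : ℕ}

/-- the four positions of a mark -/
def MkPos (L : ℤ) (c : V) (d : ZMod 4) (t : V) : Prop :=
  (d = 0 ∧ t = (c.1 * L, c.2 * L + L / 2)) ∨ (d = 1 ∧ t = (c.1 * L + L / 2, c.2 * L + L - 1)) ∨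
    (d = 2 ∧ t = (c.1 * L + L - 1, c.2 * L + L / 2 - 1)) ∨
    (d = 3 ∧ t = (c.1 * L + L / 2 - 1, c.2 * L))

/-- a mark near the vertical line `x = (c + 1) L` and the height `κ L / 2` -/
theorem mark_near (hL2 : L = 2 * L2) {B : ℤ} (hB0 : 0 ≤ B) (hB : B + 4 ≤ L2) {cc : V} {d : ZMod 4}
    {t : V} (ht : MkPos L cc d t) {c : ℤ} (h1 : c * L + L - B ≤ t.1) (h2 : t.1 ≤ c * L + L + B)
    (h3 : κ * L2 - B ≤ t.2) (h4 : t.2 ≤ κ * L2 + B) :
    ∃ r, κ * L2 = r * L + L2 ∧ ((d = 2 ∧ cc = (c, r)) ∨ (d = 0 ∧ cc = (c + 1, r))) := by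
  obtain ⟨c1, c2⟩ := cc
  have hL0 : 0 < L := by omega
  have eL : L / 2 = L2 := by omega
  unfold MkPos at ht
  rw [eL] at ht
  have u1 := tri hL0 c1 c
  have u2 := tri hL0 c1 (c + 1)
  have e3 : (c + 1) * L = c * L + L := by ring
  rw [e3] at u2
  rcases Int.even_or_odd' κ with ⟨j, rfl | rfl⟩
  · exfalso
    have e6 : 2 * j * L2 = j * L := by rw [hL2]; ring
    rw [e6] at h3 h4
    have u3 := tri hL0 c2 j
    rcases ht with ⟨-, rfl⟩ | ⟨-, rfl⟩ | ⟨-, rfl⟩ | ⟨-, rfl⟩ <;> simp only at h1 h2 h3 h4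
    · rcases u3 with u3 | rfl | u3 <;> omega
    · rcases u1 with u1 | rfl | u1 <;> rcases u2 with u2 | u2 | u2 <;>
        first | omega | (subst u2; omega)
    · rcases u3 with u3 | rfl | u3 <;> omega
    · rcases u1 with u1 | rfl | u1 <;> rcases u2 with u2 | u2 | u2 <;>
        first | omega | (subst u2; omega)
  · have e6 : (2 * j + 1) * L2 = j * L + L2 := by rw [hL2]; ring
    rw [e6] at h3 h4 ⊢
    refine ⟨j, rfl, ?_⟩
    have u3 := tri hL0 c2 j
    rcases ht with ⟨rfl, rfl⟩ | ⟨-, rfl⟩ | ⟨rfl, rfl⟩ | ⟨-, rfl⟩ <;> simp only at h1 h2 h3 h4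
    · right
      have v1 : c1 = c + 1 := by
        rcases u2 with u2 | u2 | u2
        · omega
        · exact u2
        · omega
      have v2 : c2 = j := by
        rcases u3 with u3 | u3 | u3
        · omega
        · exact u3
        · omega
      rw [v1, v2]; exact ⟨rfl, rfl⟩
    · exfalso
      rcases u1 with u1 | rfl | u1 <;> rcases u2 with u2 | u2 | u2 <;>
        first | omega | (subst u2; omega)
    · left
      have v1 : c1 = c := by
        rcases u1 with u1 | u1 | u1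
        · omega
        · exact u1
        · omega
      have v2 : c2 = j := by
        rcases u3 with u3 | u3 | u3
        · omega
        · exact u3
        · omega
      rw [v1, v2]; exact ⟨rfl, rfl⟩
    · exfalso
      rcases u1 with u1 | rfl | u1 <;> rcases u2 with u2 | u2 | u2 <;>
        first | omega | (subst u2; omega)

/-- heights of the marks -/
theorem mark_row (hL2 : L = 2 * L2) {cc : V} {d : ZMod 4} {t : V} (ht : MkPos L cc d t) :
    ∃ l : ℤ, t.2 = l * L2 ∨ t.2 = l * L2 - 1 := by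
  have eL : L / 2 = L2 := by omega
  unfold MkPos at ht
  rw [eL, hL2] at ht
  rcases ht with ⟨-, rfl⟩ | ⟨-, rfl⟩ | ⟨-, rfl⟩ | ⟨-, rfl⟩ <;> simp only
  · exact ⟨2 * cc.2 + 1, Or.inl (by ring)⟩
  · exact ⟨2 * cc.2 + 2, Or.inr (by ring)⟩
  · exact ⟨2 * cc.2 + 1, Or.inr (by ring)⟩
  · exact ⟨2 * cc.2, Or.inl (by ring)⟩

/-- the slit is not in the window -/
theorem away_box (hA : Away H L p y0 xr) {a Y x0 y1 : ℤ} {th : V} (hth : th ∈ D H L)
    {B : ℤ} (h1 : |a - th.1| ≤ B) (h2 : |Y - th.2| ≤ B) {m : ℕ} (hB : 2 * (B + m + 3) < L)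
    {t : V} (ht : Bx a Y m t) (hx0 : p ≤ x0) (hx1 : x0 ≤ xr + 1) (hx : x0 = t.1)
    (hy : t.2 = y1) (hy1 : y1 = y0 - 1 ∨ y1 = y0) : False := by
  have := hA x0 hx0 hx1 th hth
  unfold Bx at ht
  rw [abs_le] at h1 h2
  rcases this with h | h
  · rcases abs_cases (x0 - th.1) with ⟨e, -⟩ | ⟨e, -⟩ <;> rw [e] at h <;> omega
  · rcases abs_cases (y0 - th.2) with ⟨e, -⟩ | ⟨e, -⟩ <;> rw [e] at h <;> omega

theorem boundary_cell {cc : V} {d : ZMod 4} (h : cc ∈ F ∧ nbc cc d ∉ F) : cc ∈ F := h.1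

/-- **thick groups, right walls** -/
theorem thickR (hL2 : L = 2 * L2) (hg : 32 * (g : ℤ) ≤ L) (hg1 : 1 ≤ g) (hn : (n : ℤ) + 8 ≤ L / 4)
    (hrn : g + 4 ≤ n) (hH : Hang F H k i0 i1 up) (hp : NoPinch F) (hδ : δ = -1 ∨ δ = 0)
    (hpx : p ≤ xr) (hA : Away H L p y0 xr) {m : Fin 3 → V × ZMod 4}
    (hF : ∀ i, (m i).1 ∈ F ∧ nbc (m i).1 (m i).2 ∉ F)
    (ht : ∃ t ∈ RL F H L δ, t.1 = X ∧ κ * L2 - g ≤ t.2 ∧ t.2 < κ * L2 + g) :
    ∃ (sh : Sh) (kk : ZMod 4) (a : ℤ),
      Win sh kk a (κ * L2 - 1) (g + 3) n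
        (shD F H L δ ∪ St (RL F H L δ) (κ * L2 - g) (κ * L2 + g) X)
        (beD (shD F H L δ ∪ St (RL F H L δ) (κ * L2 - g) (κ * L2 + g) X) p y0 xr) ∧
      Win sh kk a (κ * L2 - 1) (g + 3) n
        (shD F H L δ ∪ (St (RL F H L δ) (κ * L2 - g) (κ * L2 + g) X ∪
          Gr (RL F H L δ) (κ * L2 - g) (κ * L2 + g) X))
        (beD (shD F H L δ ∪ (St (RL F H L δ) (κ * L2 - g) (κ * L2 + g) X ∪
          Gr (RL F H L δ) (κ * L2 - g) (κ * L2 + g) X)) p y0 xr) ∧
      (∀ t, Bx a (κ * L2 - 1) n t → ¬ Bx a (κ * L2 - 1) (g + 3) t →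
        t ∈ shD F H L δ ∪ St (RL F H L δ) (κ * L2 - g) (κ * L2 + g) X →
        pat a (κ * L2 - 1) sh kk t) ∧
      (∀ t, Bx a (κ * L2 - 1) n t → ¬ Bx a (κ * L2 - 1) (g + 3) t →
        t ∈ shD F H L δ ∪ (St (RL F H L δ) (κ * L2 - g) (κ * L2 + g) X ∪
          Gr (RL F H L δ) (κ * L2 - g) (κ * L2 + g) X) → pat a (κ * L2 - 1) sh kk t) ∧
      (∀ x, FarM a (κ * L2 - 1) n x →
        beD (shD F H L δ ∪ (St (RL F H L δ) (κ * L2 - g) (κ * L2 + g) X ∪
          Gr (RL F H L δ) (κ * L2 - g) (κ * L2 + g) X)) p y0 xr x =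
        beD (shD F H L δ ∪ St (RL F H L δ) (κ * L2 - g) (κ * L2 + g) X) p y0 xr x) ∧
      (∀ t, ¬ Bx a (κ * L2 - 1) (g + 3) t →
        (t ∈ shD F H L δ ∪ St (RL F H L δ) (κ * L2 - g) (κ * L2 + g) X ↔
          t ∈ shD F H L δ ∪ (St (RL F H L δ) (κ * L2 - g) (κ * L2 + g) X ∪
            Gr (RL F H L δ) (κ * L2 - g) (κ * L2 + g) X))) ∧
      ∃ e0 : V × ZMod 4, ∀ i,
        (FarM a (κ * L2 - 1) n (mq H L δ (St (RL F H L δ) (κ * L2 - g) (κ * L2 + g) X) (m i)) ∧
          mq H L δ (St (RL F H L δ) (κ * L2 - g) (κ * L2 + g) X ∪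
            Gr (RL F H L δ) (κ * L2 - g) (κ * L2 + g) X) (m i) =
          mq H L δ (St (RL F H L δ) (κ * L2 - g) (κ * L2 + g) X) (m i)) ∨
        (m i = e0 ∧
          MkP a (κ * L2 - 1) (g + 3)
            (shD F H L δ ∪ (St (RL F H L δ) (κ * L2 - g) (κ * L2 + g) X ∪
              Gr (RL F H L δ) (κ * L2 - g) (κ * L2 + g) X))
            (beD (shD F H L δ ∪ (St (RL F H L δ) (κ * L2 - g) (κ * L2 + g) X ∪
              Gr (RL F H L δ) (κ * L2 - g) (κ * L2 + g) X)) p y0 xr)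
            (mq H L δ (St (RL F H L δ) (κ * L2 - g) (κ * L2 + g) X) (m i))
            (mq H L δ (St (RL F H L δ) (κ * L2 - g) (κ * L2 + g) X ∪
              Gr (RL F H L δ) (κ * L2 - g) (κ * L2 + g) X) (m i)) ∧
          MkP a (κ * L2 - 1) (g + 3)
            (shD F H L δ ∪ St (RL F H L δ) (κ * L2 - g) (κ * L2 + g) X)
            (beD (shD F H L δ ∪ St (RL F H L δ) (κ * L2 - g) (κ * L2 + g) X) p y0 xr)
            (mq H L δ (St (RL F H L δ) (κ * L2 - g) (κ * L2 + g) X ∪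
              Gr (RL F H L δ) (κ * L2 - g) (κ * L2 + g) X) (m i))
            (mq H L δ (St (RL F H L δ) (κ * L2 - g) (κ * L2 + g) X) (m i))) := by
  have hL : 8 ≤ L := by omega
  have hL0 : 0 < L := by omega
  have hs := hH.sub
  obtain ⟨c, r, eX, hcH, hcF, hκ, q, a, ha, hpat⟩ := catR hL2 hL hδ hH hp
    (Int.natCast_nonneg g) (by omega : 4 * (g : ℤ) ≤ L2) ht
  have hκ' : ∀ P : Prop, (((∃ j, κ * L2 = j * L) ∨ κ * L2 = r * L + L2) → P) → P := fun P f => f hκ
  clear hκ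
  obtain ⟨t0, ht0, ht0x, ht0y, ht0y'⟩ := ht
  have hth : (X - 1 - δ, t0.2) ∈ D H L := by
    have := (mem_RL.1 ht0).1
    rwa [ht0x] at this
  -- the slit
  have hslit : ∀ t, Bx a (κ * L2 - 1) n t → ¬ ((t.2 = y0 - 1 ∨ t.2 = y0) ∧ p ≤ t.1 ∧ t.1 ≤ xr) := by
    rintro t h1 ⟨h2, h3, h4⟩
    refine away_box hA hth (B := g + 3) ?_ ?_ (m := n) ?_ h1 h3 (by omega) rfl rfl h2
    · simp only; rw [abs_le]; constructor <;> omega
    · simp only; rw [abs_le]; constructor <;> omega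
    · omega
  have hleg : ¬ Bx a (κ * L2 - 1) (g + 3) (p, y0) := by
    intro h1
    have h1' : Bx a (κ * L2 - 1) n (p, y0) := by unfold Bx at *; push_cast at h1; omega
    exact hslit _ h1' ⟨Or.inr rfl, le_rfl, hpx⟩
  -- the group
  have hgr : ∀ t, ¬ Bx a (κ * L2 - 1) (g + 3) t →
      t ∉ Gr (RL F H L δ) (κ * L2 - g) (κ * L2 + g) X := by
    intro t h1 h2
    obtain ⟨-, h3, h4, h5⟩ := mem_Gr.1 h2
    apply h1
    unfold Bx; push_cast; omega
  have hAA : ∀ t, ¬ Bx a (κ * L2 - 1) (g + 3) t →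
      (t ∈ shD F H L δ ∪ St (RL F H L δ) (κ * L2 - g) (κ * L2 + g) X ↔
        t ∈ shD F H L δ ∪ (St (RL F H L δ) (κ * L2 - g) (κ * L2 + g) X ∪
          Gr (RL F H L δ) (κ * L2 - g) (κ * L2 + g) X)) := by
    intro t h1
    have h2 := hgr t h1
    simp only [Finset.mem_union, h2, or_false]
  obtain ⟨w1, w2⟩ := win_of (M := L / 4) (g := g) (r := g + 3) (n := n) (X := X) (Y := κ * L2)
    (A := shD F H L δ ∪ St (RL F H L δ) (κ * L2 - g) (κ * L2 + g) X)
    (b := beD (shD F H L δ ∪ St (RL F H L δ) (κ * L2 - g) (κ * L2 + g) X) p y0 xr)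
    ha (by omega) (by omega) (by omega)
    (fun x1 y1 h1 h2 h3 h4 h5 => (hpat x1 y1 h1 h2 h3 h4 h5).1)
    (fun t d h => beD_plain (hslit t h) hpx d)
  obtain ⟨w3, w4⟩ := win_of (M := L / 4) (g := g) (r := g + 3) (n := n) (X := X) (Y := κ * L2)
    (A := shD F H L δ ∪ (St (RL F H L δ) (κ * L2 - g) (κ * L2 + g) X ∪
          Gr (RL F H L δ) (κ * L2 - g) (κ * L2 + g) X))
    (b := beD (shD F H L δ ∪ (St (RL F H L δ) (κ * L2 - g) (κ * L2 + g) X ∪
          Gr (RL F H L δ) (κ * L2 - g) (κ * L2 + g) X)) p y0 xr)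
    ha (by omega) (by omega) (by omega)
    (fun x1 y1 h1 h2 h3 h4 h5 => (hpat x1 y1 h1 h2 h3 h4 h5).2)
    (fun t d h => beD_plain (hslit t h) hpx d)
  refine ⟨q.sh, q.kR, a, w1, w3, w2, w4, ?_, hAA, ?_⟩
  · intro x hx
    exact beD_far (by omega) hAA hleg hx
  -- the marks
  refine ⟨((c, r), 2), fun i => ?_⟩
  have hFi := hF i
  rcases hmi : m i with ⟨cc, d⟩
  rw [hmi] at hFi
  obtain ⟨t, emk, hpos⟩ := mk_cases L cc d
  have emq : ∀ S, mq H L δ S (cc, d) = some (mkS H L δ S (t, d)) := by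
    intro S; unfold mq; simp only [emk, Option.map_some]
  rw [emq, emq]
  obtain ⟨n1, n2, n3, n4⟩ := mkS_near (H := H) (L := L) (δ := δ) (by omega)
    (St (RL F H L δ) (κ * L2 - g) (κ * L2 + g) X) (t, d)
  simp only at n1 n2 n3 n4
  by_cases hnear : Bx a (κ * L2 - 1) n (mkS H L δ (St (RL F H L δ) (κ * L2 - g) (κ * L2 + g) X) (t, d)).1
  · -- the mark of the wall
    right
    unfold Bx at hnear
    obtain ⟨r', hr', hcase⟩ := mark_near (κ := κ) (c := c) hL2 (B := n + 5) (by omega) (by omega)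
      (show MkPos L cc d t from hpos) (by omega) (by omega) (by omega) (by omega)
    have hrr : r' = r := by
      have e1 : κ * L2 - g ≤ t0.2 := ht0y
      refine hκ' _ fun hκ => ?_
      rcases hκ with ⟨j, hj⟩ | hj
      · exfalso
        rw [hj] at hr'
        rcases tri hL0 j r' with h | h | h
        · omega
        · subst h; omega
        · omega
      · rw [hj] at hr'
        rcases tri hL0 r r' with h | h | h
        · omega
        · exact h.symm
        · omega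
    subst hrr
    rcases hcase with ⟨rfl, rfl⟩ | ⟨rfl, rfl⟩
    swap
    · exact absurd hFi.1 hcF
    have et : t = (c * L + L - 1, r' * L + L2 - 1) := by
      rcases hpos with ⟨h, -⟩ | ⟨h, -⟩ | ⟨-, h⟩ | ⟨h, -⟩
      · exact absurd h n20
      · exact absurd h n21
      · rw [h]; ext <;> simp only <;> omega
      · exact absurd h.symm n32
    have hrow : ∀ x1 y1 : ℤ, X - L / 4 ≤ x1 → x1 ≤ X + L / 4 → r' * L ≤ y1 → y1 < r' * L + L → _ :=
      fun x1 y1 h1 h2 h3 h4 => flatR (δ := δ) (y := κ * L2 - g) (y' := κ * L2 + g) (F := F) (H := H)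
        (c := c) (r := r') (x1 := x1) (y1 := y1) hL (by omega) hs hcH hcF (by omega)
        (by omega) (by omega) h3 h4
    rw [← eX] at hrow
    have htD : t ∈ D H L := by
      rw [et, mD hL0 (q := c) (r := r') (by omega) (by omega) (by omega) (by omega)]
      exact hcH
    have hXRL : (X, κ * L2 - 1) ∈ RL F H L δ := by
      rw [eX, row_rl hL hs (c := c) (r := r') (by omega) (by omega) (by omega) (by omega)]
      exact ⟨rfl, hcH, hcF⟩
    have hfr : ((t.1 + δ + 1, t.2) : V) = (X, κ * L2 - 1) := by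
      rw [et]; ext <;> simp only <;> omega
    have hnS : (X, κ * L2 - 1) ∉ St (RL F H L δ) (κ * L2 - g) (κ * L2 + g) X := by
      rw [mem_St]; simp only; omega
    have hiS : (X, κ * L2 - 1) ∈ St (RL F H L δ) (κ * L2 - g) (κ * L2 + g) X ∪
        Gr (RL F H L δ) (κ * L2 - g) (κ * L2 + g) X := by
      rw [Finset.mem_union, mem_Gr]
      right
      exact ⟨hXRL, rfl, by simp only; omega, by simp only; omega⟩
    have m0 : mkS H L δ (St (RL F H L δ) (κ * L2 - g) (κ * L2 + g) X) (t, 2) =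
        ((X - 1, κ * L2 - 1), 2) := by
      unfold mkS
      simp only [htD, if_true, true_and, hfr, hnS, if_false]
      rw [if_neg (fun h => n20 h.1)]
      rw [et]
      simp only [Prod.mk.injEq, and_true]
      constructor <;> omega
    have m1 : mkS H L δ (St (RL F H L δ) (κ * L2 - g) (κ * L2 + g) X ∪
        Gr (RL F H L δ) (κ * L2 - g) (κ * L2 + g) X) (t, 2) = ((X, κ * L2 - 1), 2) := by
      unfold mkS
      simp only [htD, if_true, true_and, hfr, hiS]
    rw [m0, m1]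
    have a1 := (hrow (X - 1) (κ * L2 - 1) (by omega) (by omega) (by omega) (by omega)).1
    have a2 := (hrow X (κ * L2 - 1) (by omega) (by omega) (by omega) (by omega)).1
    have a3 := (hrow X (κ * L2 - 1) (by omega) (by omega) (by omega) (by omega)).2
    have a4 := (hrow (X + 1) (κ * L2 - 1) (by omega) (by omega) (by omega) (by omega)).2
    have b1 : Bx a (κ * L2 - 1) (g + 3) (X - 1, κ * L2 - 1) := by
      unfold Bx; simp only; push_cast; omega
    have b2 : Bx a (κ * L2 - 1) (g + 3) (X, κ * L2 - 1) := by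
      unfold Bx; simp only; push_cast; omega
    have b1' : Bx a (κ * L2 - 1) n (X - 1, κ * L2 - 1) := by
      unfold Bx; simp only; omega
    have b2' : Bx a (κ * L2 - 1) n (X, κ * L2 - 1) := by
      unfold Bx; simp only; omega
    refine ⟨rfl, Or.inr ⟨_, _, _, _, rfl, b1, rfl, b2, a3.2 (by omega), ?_⟩,
      Or.inr ⟨_, _, _, _, rfl, b2, rfl, b1, a1.2 (by omega), ?_⟩⟩
    · rw [beD_plain (hslit _ b2') hpx]
      refine beP_free (Or.inr ?_)
      rw [dir2]
      simp only [Prod.mk_add_mk, add_zero]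
      rw [a4]; omega
    · rw [beD_plain (hslit _ b1') hpx]
      refine beP_free (Or.inr ?_)
      rw [dir2]
      simp only [Prod.mk_add_mk, add_zero, sub_add_cancel]
      rw [a2]; omega
  · left
    refine ⟨fun t' d' h => ?_, ?_⟩
    · have h' := Option.some.inj h
      rw [h'] at hnear
      exact hnear
    · congr 1
      symm
      refine mkS_congr ?_ ?_
      · simp only [Finset.mem_union, mem_Gr]
        constructor
        · exact Or.inl
        · rintro (h | ⟨-, h1, h2, h3⟩)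
          · exact h
          · exfalso; apply hnear
            unfold Bx; omega
      · simp only [Finset.mem_union, mem_Gr]
        constructor
        · exact Or.inl
        · rintro (h | ⟨-, h1, h2, h3⟩)
          · exact h
          · exfalso; apply hnear
            unfold Bx; omega

end Crest.Agent.R158.Vw802
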