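import Crest.Agent.R158.Vw4_802
import Crest.Agent.R158.Bh7_679

/-!
# R158, block BL (helper802), file Vw5: the chain of the right walls

* `thickR' : Bh679.ThickR`
* **`rlchain : Bh679.RLchain`** (over 679's assembly)
-/

set_option autoImplicit false

namespace Crest.Agent.R158.Vw802

open Crest.Agent.R158.Bh679 (NP ThickR RLchain rl_chain thinR MkR)

theorem noPinch_of {F : Finset Crest.Agent.R158.Sp896.V} (h : NP F) : NoPinch F where
  ne a b h1 h2 := by
    by_contra h3
    rw [not_or] at h3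
    exact (h a b).1 ⟨h1, h2, h3.1, h3.2⟩
  se a b h1 h2 := by
    by_contra h3
    rw [not_or] at h3
    exact (h a b).2 ⟨h2, h1, h3.1, h3.2⟩

theorem thickR' : ThickR := by
  intro F H k i0 i1 up hH hp L L2 δ p y0 xr g r n hL2 hδ hg hgL hr hrn hn hpx hA m _ hF κ X ht
    S S' A A' b b' hS hS' hAe hAe' hb hb'
  subst hr hb hb' hAe hAe' hS' hS
  obtain ⟨sh, kk, a, h1, h2, h3, h4, h5, h6, e, h7⟩ := thickR (n := n) hL2 (by omega) (by omega)
    hn (by omega) hH (noPinch_of hp) hδ hpx hA hF ht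
  refine ⟨sh, kk, a, κ * L2 - 1, h1, h2, h3, h4, h5, h6, e, fun i => ?_⟩
  rcases h7 i with h | h
  · exact Or.inl h
  · exact Or.inr ⟨h.1, h.2.1, h.2.2⟩

/-- **(B7), right walls** -/
theorem rlchain : RLchain := rl_chain thinR thickR'

end Crest.Agent.R158.Vw802
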