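import Crest.Agent.R158.Sl4_434
import Crest.Agent.R158.Xr6_249
import Crest.Agent.R158.Gc4_748

/-!
# R158, block WD (helper377), file Wd1: leg words, rings, independence of the word

* `wd_of_ok`, `gw_mk` : an `Ok` leg word is a word of 249, so `IsWord w A b`, `bas w = none` give `GW`
* `mem_L` : free ends of a leg word
* `ring_pre` : an explicit deterministic chain is a block of the ring
* `ring_uniq` : two words of the same region have the same ring
* `HW_uniq`, `HG_eq` : the observable does not depend on the word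
* `MK A b m1 m2 m3` : the region has a word with the marks in clockwise order
-/

set_option autoImplicit false
set_option linter.unusedSectionVars false

namespace Crest.Agent.R158.Wd377

open Crest.Agent.R158.Sw300 (Port Wd L M S u be tls pos Ok Fc cyc Adj)
open Crest.Agent.R158.Ob664 (GW HW HV HG HG_spec Gl)
open Crest.Agent.R158.Env664 (IsWord PortOf)
open Crest.Agent.R158.Xr249 (Nx addP bas)
open Crest.Agent.R158.Sl434 hiding cyc

variable {T : Type*} [DecidableEq T]

/-! ### lists -/

section lists

variable {α : Type*}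

theorem adj_of_rot {l l' : List α} {p q : α} (h : l ~r p :: q :: l') : Adj l p q := by
  obtain ⟨n, hn, e⟩ := List.isRotated_iff_mod.1 h
  rw [List.rotate_eq_drop_append_take hn] at e
  have e0 : l.take n ++ l.drop n = l := List.take_append_drop n l
  generalize l.take n = U at e e0
  generalize l.drop n = V at e e0
  subst e0
  match V, e with
  | [], e =>
    simp only [List.nil_append] at e
    subst e
    exact Or.inl ⟨[], l', by simp⟩
  | [a], e =>
    simp only [List.cons_append, List.nil_append, List.cons.injEq] at e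
    obtain ⟨rfl, rfl⟩ := e
    exact Or.inr ⟨l', by simp⟩
  | a :: b :: V', e =>
    simp only [List.cons_append, List.cons.injEq] at e
    obtain ⟨rfl, rfl, -⟩ := e
    exact Or.inl ⟨U, V', rfl⟩

/-- a function on lists which respects `++` respects rotations -/
theorem rot_hom {β : Type*} {f : List α → List β} (hf : ∀ a b, f (a ++ b) = f a ++ f b)
    {l l' : List α} (h : l ~r l') : f l ~r f l' := by
  obtain ⟨n, hn, e⟩ := List.isRotated_iff_mod.1 h
  rw [List.rotate_eq_drop_append_take hn] at e
  have e0 : l.take n ++ l.drop n = l := List.take_append_drop n l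
  rw [← e0, hf, ← e, hf]
  exact List.isRotated_append

/-- a deterministic chain which does not return is a prefix of the cycle -/
theorem pre_aux {r : α → α → Prop} (hr : ∀ a b c, r a b → r a c → b = c) {y : α} :
    ∀ {m P : List α} {a : α}, List.IsChain r (a :: (P ++ [y])) → List.IsChain r (a :: m) →
      y ∉ m → ∃ rest, P = m ++ rest
  | [], P, _, _, _, _ => ⟨P, rfl⟩
  | c :: m, [], a, h, h', hy => by
    simp only [List.nil_append, List.isChain_cons_cons] at h h'
    exact absurd (by rw [hr _ _ _ h.1 h'.1]; simp) hy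
  | c :: m, d :: P, a, h, h', hy => by
    simp only [List.cons_append, List.isChain_cons_cons] at h h'
    obtain rfl := hr _ _ _ h.1 h'.1
    simp only [List.mem_cons, not_or] at hy
    obtain ⟨rest, e⟩ := pre_aux hr h.2 h'.2 hy.2
    exact ⟨rest, by rw [e]; rfl⟩

theorem cyc_at {r : α → α → Prop} {l : List α} (h : Cycle.Chain r (l : Cycle α)) {y : α}
    (hy : y ∈ l) : ∃ P, l ~r y :: P ∧ List.IsChain r (y :: (P ++ [y])) := by
  obtain ⟨U, V, rfl⟩ := List.append_of_mem hy
  refine ⟨V ++ U, ?_, ?_⟩
  · have := List.isRotated_append (l := U) (l' := y :: V)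
    simpa using this
  · have e : ((U ++ y :: V : List α) : Cycle α) = ((y :: (V ++ U) : List α) : Cycle α) := by
      rw [Cycle.coe_eq_coe]
      have := List.isRotated_append (l := U) (l' := y :: V)
      simpa using this
    rw [e, Cycle.chain_coe_cons] at h
    exact h

/-- **an explicit chain is a block of the ring** -/
theorem ring_pre {r : α → α → Prop} (hr : ∀ a b c, r a b → r a c → b = c) {l : List α}
    (h : Cycle.Chain r (l : Cycle α)) {y : α} {m : List α} (hy : y ∈ l)
    (hm : List.IsChain r (y :: m)) (hn : y ∉ m) : ∃ rest, l ~r y :: (m ++ rest) := by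
  obtain ⟨P, h1, h2⟩ := cyc_at h hy
  obtain ⟨rest, rfl⟩ := pre_aux hr h2 hm hn
  exact ⟨rest, h1⟩

/-- **uniqueness of rings** -/
theorem ring_uniq {r : α → α → Prop} (hr : ∀ a b c, r a b → r a c → b = c) {l l' : List α}
    (h : Cycle.Chain r (l : Cycle α)) (h' : Cycle.Chain r (l' : Cycle α)) (hn : l.Nodup)
    (hn' : l'.Nodup) {y : α} (hy : y ∈ l) (hy' : y ∈ l') : l ~r l' := by
  obtain ⟨P, h1, h2⟩ := cyc_at h hy
  obtain ⟨P', h1', h2'⟩ := cyc_at h' hy'
  have e : P = P' := Gc748.chain_det hr h2 h2'
    (List.nodup_cons.1 ((h1.nodup_iff).1 hn)).1 (List.nodup_cons.1 ((h1'.nodup_iff).1 hn')).1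
  subst e
  exact h1.trans h1'.symm

end lists

/-! ### an `Ok` leg word is a word of 249 -/

theorem gl_det (b : Port T → Port T) : ∀ x y z, Gl b x y → Gl b x z → y = z := by
  rintro x y z ⟨h, -⟩ ⟨h', -⟩
  rw [← h, ← h']

theorem nx_det (b : Port T → Port T) : ∀ x y z, Nx (Gl b) x y → Nx (Gl b) x z → y = z :=
  fun _ _ _ h h' => Nx.det (gl_det b) h h'

theorem L_att_rot {w : Wd T} {p : Port T} {t : T} {d : ZMod 4} {l : List (Port T)}
    (hn : (L w).Nodup) (h : L w ~r p :: l) :
    L (.att w p t d) ~r some (t, d + 1) :: some (t, d + 2) :: some (t, d + 3) :: l := by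
  have h1 := rot_hom (f := fun l : List (Port T) => l.flatMap fun x =>
      if x = p then [some (t, d + 1), some (t, d + 2), some (t, d + 3)] else [x])
    (fun a b => by simp) h
  have h2 : p ∉ l := (List.nodup_cons.1 ((h.nodup_iff).1 hn)).1
  refine h1.trans ?_
  have := Xr249.flatMap_at (p := p) (m := [some (t, d + 1), some (t, d + 2), some (t, d + 3)])
    (l1 := []) (l2 := l) (by simp) h2
  simp only [List.nil_append] at this
  rw [this]
  rfl

theorem L_con_rot {w : Wd T} {p q : Port T} {l : List (Port T)}
    (hn : (L w).Nodup) (h : L w ~r p :: q :: l) : L (.con w p q) ~r l := by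
  have h1 := rot_hom (f := fun l : List (Port T) => l.filter fun x => x ≠ p ∧ x ≠ q)
    (fun a b => by simp) h
  have h2 := (h.nodup_iff).1 hn
  have h3 : p ∉ l := fun hp => (List.nodup_cons.1 h2).1 (by simp [hp])
  have h4 : q ∉ l := (List.nodup_cons.1 (List.nodup_cons.1 h2).2).1
  refine h1.trans ?_
  simp only [ne_eq]
  rw [List.filter_cons_of_neg (by simp), List.filter_cons_of_neg (by simp)]
  have := Xr249.filter_id h3 h4
  simp only [ne_eq] at this
  rw [this]

theorem wd_of_ok : ∀ {w : Wd T}, Ok w → bas w = none →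
    Xr249.Wd none (L w : Cycle (Port T)) {o | o = none ∨ ∃ t ∈ tls w, o = some t} (Gl (be w))
  | .leg, _, _ => by
    have e1 : ({o | o = none ∨ ∃ t ∈ tls (Wd.leg : Wd T), o = some t} : Set (Option T)) = {none} := by
      ext o; simp [tls]
    have e2 : Gl (be (Wd.leg : Wd T)) = fun _ _ => False := by
      funext x y; simp [Gl, be]
    rw [e1, e2]
    exact Xr249.Wd.base
  | .tile t, _, h => by simp [bas] at h
  | .att w p t d, h, hb => by
    obtain ⟨hw, hp, ht, -⟩ := h
    have ih := wd_of_ok hw hb
    have bs := Gc748.be_state hw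
    obtain ⟨U, V, e⟩ := List.append_of_mem hp
    have hr : L w ~r p :: (V ++ U) := by
      rw [e]
      have := List.isRotated_append (l := U) (l' := p :: V)
      simpa using this
    have ec : (L w : Cycle (Port T)) = ((p :: (V ++ U) : List (Port T)) : Cycle (Port T)) :=
      Cycle.coe_eq_coe.2 hr
    rw [ec] at ih
    have h1 := Xr249.Wd.att t d ih (by simpa using ht)
    have e1 : (L (.att w p t d) : Cycle (Port T)) =
        ((some (t, d + 1) :: some (t, d + 2) :: some (t, d + 3) :: (V ++ U) : List (Port T)) :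
          Cycle (Port T)) := Cycle.coe_eq_coe.2 (L_att_rot (Sw300.nodup hw) hr)
    have e2 : ({o | o = none ∨ ∃ t' ∈ tls (.att w p t d), o = some t'} : Set (Option T)) =
        insert (some t) {o | o = none ∨ ∃ t' ∈ tls w, o = some t'} := by
      ext o
      simp only [tls, List.mem_cons, Set.mem_ofPred_eq, Set.mem_insert_iff]
      constructor
      · rintro (h | ⟨t', h | h, h'⟩)
        · exact Or.inr (Or.inl h)
        · subst h; exact Or.inl h'
        · exact Or.inr (Or.inr ⟨t', h, h'⟩)
      · rintro (h | h | ⟨t', h, h'⟩)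
        · exact Or.inr ⟨t, Or.inl rfl, h⟩
        · exact Or.inl h
        · exact Or.inr ⟨t', Or.inr h, h'⟩
    have hpt : p ≠ some (t, d) := Sw300.ne_port hw ht d hp
    have e3 : Gl (be (.att w p t d)) = addP (Gl (be w)) p (some (t, d)) := by
      funext x y
      apply propext
      simp only [Gl, addP, be]
      by_cases hxp : x = p
      · subst hxp
        rw [if_pos rfl, bs.free _ hp]
        constructor
        · rintro ⟨rfl, -⟩; exact Or.inr (Or.inl ⟨rfl, rfl⟩)
        · rintro (⟨h1, h2⟩ | ⟨-, rfl⟩ | ⟨h1, -⟩)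
          · exact absurd h1 h2
          · exact ⟨rfl, hpt⟩
          · exact absurd h1 hpt
      by_cases hxt : x = some (t, d)
      · subst hxt
        rw [if_neg hxp, if_pos rfl, bs.out _ _ ht]
        constructor
        · rintro ⟨rfl, -⟩; exact Or.inr (Or.inr ⟨rfl, rfl⟩)
        · rintro (⟨h1, h2⟩ | ⟨h1, -⟩ | ⟨-, rfl⟩)
          · exact absurd h1 h2
          · exact absurd h1 hxp
          · exact ⟨rfl, fun h => hpt h.symm⟩
      · rw [if_neg hxp, if_neg hxt]
        constructor
        · intro h; exact Or.inl h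
        · rintro (h | ⟨h, -⟩ | ⟨h, -⟩)
          · exact h
          · exact absurd h hxp
          · exact absurd h hxt
    rw [e1, e2, e3]
    exact h1
  | .con w p q, h, hb => by
    obtain ⟨hw, hpn, hqn, hpq, hadj⟩ := h
    have ih := wd_of_ok hw hb
    have bs := Gc748.be_state hw
    have hm := Sw300.mem_adj hadj
    obtain ⟨l, hr⟩ : ∃ l, L w ~r p :: q :: l := by
      rcases hadj with ⟨l1, l2, e⟩ | ⟨l1, e⟩
      · refine ⟨l2 ++ l1, ?_⟩
        rw [e]
        have := List.isRotated_append (l := l1) (l' := p :: q :: l2)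
        simpa using this
      · refine ⟨l1, ?_⟩
        rw [e]
        have := List.isRotated_append (l := q :: l1) (l' := [p])
        simpa using this
    have ec : (L w : Cycle (Port T)) = ((p :: q :: l : List (Port T)) : Cycle (Port T)) :=
      Cycle.coe_eq_coe.2 hr
    rw [ec] at ih
    have h1 := Xr249.Wd.con ih
    have e1 : (L (.con w p q) : Cycle (Port T)) = ((l : List (Port T)) : Cycle (Port T)) :=
      Cycle.coe_eq_coe.2 (L_con_rot (Sw300.nodup hw) hr)
    have e3 : Gl (be (.con w p q)) = addP (Gl (be w)) p q := by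
      funext x y
      apply propext
      simp only [Gl, addP, be]
      by_cases hxp : x = p
      · subst hxp
        rw [if_pos rfl, bs.free _ hm.1]
        constructor
        · rintro ⟨rfl, -⟩; exact Or.inr (Or.inl ⟨rfl, rfl⟩)
        · rintro (⟨h1, h2⟩ | ⟨-, rfl⟩ | ⟨h1, -⟩)
          · exact absurd h1 h2
          · exact ⟨rfl, hpq⟩
          · exact absurd h1 hpq
      by_cases hxt : x = q
      · subst hxt
        rw [if_neg hxp, if_pos rfl, bs.free _ hm.2]
        constructor
        · rintro ⟨rfl, -⟩; exact Or.inr (Or.inr ⟨rfl, rfl⟩)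
        · rintro (⟨h1, h2⟩ | ⟨h1, -⟩ | ⟨-, rfl⟩)
          · exact absurd h1 h2
          · exact absurd h1 hxp
          · exact ⟨rfl, fun h => hpq h.symm⟩
      · rw [if_neg hxp, if_neg hxt]
        constructor
        · intro h; exact Or.inl h
        · rintro (h | ⟨h, -⟩ | ⟨h, -⟩)
          · exact h
          · exact absurd h hxp
          · exact absurd h hxt
    rw [e1, e3]
    exact h1

theorem ring_chain {w : Wd T} (h : Ok w) (hb : bas w = none) :
    Cycle.Chain (Nx (Gl (be w))) (L w : Cycle (Port T)) := (wd_of_ok h hb).inv.chain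

theorem L_ne {w : Wd T} (h : Ok w) : L w ≠ [] := by
  have := (Sw300.Ok.inv (fun _ => true) w h).um
  intro e
  rw [e] at this
  simp at this

theorem tls_nodup : ∀ {w : Wd T}, Ok w → (tls w).Nodup
  | .leg, _ => by simp [tls]
  | .tile t, _ => by simp [tls]
  | .att w p t d, h => by
    simp only [tls, List.nodup_cons]
    exact ⟨h.2.2.1, tls_nodup h.1⟩
  | .con w p q, h => by
    simp only [tls]
    exact tls_nodup h.1

/-- **`IsWord` leg words are good words** -/
theorem gw_mk {A : Finset T} {b : Port T → Port T} {w : Wd T} (h : IsWord w A b)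
    (hb : bas w = none) : GW A b w := by
  have hc := ring_chain h.1 hb
  have e : be w = b := funext h.2.2.2
  rw [e] at hc
  obtain ⟨x, l, hl⟩ := List.exists_cons_of_ne_nil (L_ne h.1)
  refine ⟨h, hb, tls_nodup h.1, x, l, hl, ?_⟩
  rw [hl, Cycle.chain_coe_cons] at hc
  exact hc

theorem be_eq {A : Finset T} {b : Port T → Port T} {w : Wd T} (h : GW A b w) : be w = b :=
  funext h.word.2.2.2

theorem gw_ring {A : Finset T} {b : Port T → Port T} {w : Wd T} (h : GW A b w) :
    Cycle.Chain (Nx (Gl b)) (L w : Cycle (Port T)) := by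
  have := ring_chain h.word.1 h.leg
  rwa [be_eq h] at this

/-- **free ends of a leg word** -/
theorem mem_L {A : Finset T} {b : Port T → Port T} {w : Wd T} (h : GW A b w) {t : T} {d : ZMod 4} :
    some (t, d) ∈ L w ↔ t ∈ A ∧ b (some (t, d)) = some (t, d) := by
  have hi := (wd_of_ok h.word.1 h.leg).inv
  have h1 := hi.mem (some (t, d))
  rw [Cycle.mem_coe_iff] at h1
  rw [h1, be_eq h]
  simp only [Xr249.tl_some, Set.mem_ofPred_eq, reduceCtorEq, Option.some.injEq, exists_eq_right',
    false_or, Gl, not_and, not_not]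
  rw [h.word.2.2.1]
  constructor
  · rintro ⟨h2, h3⟩
    exact ⟨h2, (h3 _ rfl).symm⟩
  · rintro ⟨h2, h3⟩
    exact ⟨h2, fun q hq => by rw [← hq, h3]⟩

/-- the ports of the tiles and the leg: glueings stay inside -/
theorem none_mem_L : ∀ {w : Wd T}, Ok w → bas w = none → none ∈ L w → w = .leg
  | .leg, _, _, _ => rfl
  | .tile t, _, h, _ => by simp [bas] at h
  | .att w p t d, h, hb, hm => by
    rw [Sw300.mem_att h.2.1] at hm
    rcases hm with ⟨h1, h2⟩ | h1 | h1 | h1
    · have e := none_mem_L h.1 hb h1
      subst e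
      have h3 := h.2.1
      simp only [L, List.mem_singleton] at h3
      exact absurd h3.symm h2
    all_goals exact absurd h1 (by simp)
  | .con w p q, h, hb, hm => by
    rw [Sw300.mem_con] at hm
    have e := none_mem_L h.1 hb hm.1
    subst e
    have h3 := (Sw300.mem_adj h.2.2.2.2).1
    simp only [L, List.mem_singleton] at h3
    exact absurd h3 h.2.1

end Crest.Agent.R158.Wd377
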