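import Crest.Agent.R158.Wd2_377
import Crest.Agent.R158.Pj3_679

/-!
# R158, block WD (helper377), file Wd3: the general local step at a flat wall, any chart

* `ph ρ k` : port map of a permutation `ρ` of the tiles and a turn `k` (chart → region)
* `Win ρ k X Y r n e m A b` : the region `(A, b)` looks through the chart like the stepped half plane
  with wall `x ≤ X` (`x ≤ X + e` for `y < Y`), outside the inner box of radius `r`
* **`gls`** : a change inside the inner box does not change the observable unless two arcs cross the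
  stepped half annulus
* **`gls_norm`** : `‖HW w m - HW w' m‖ ≤ 2 P(two arcs cross)`
-/

set_option autoImplicit false
set_option linter.unusedSectionVars false

namespace Crest.Agent.R158.Wd377

open MeasureTheory
open Crest.Agent.R158.Sw300 (Port Wd L M S u be tls pos Ok Fc cyc Adj thru)
open Crest.Agent.R158.Ob664 (GW HW HV HG HG_spec Gl)
open Crest.Agent.R158.Env664 (IsWord PortOf)
open Crest.Agent.R158.Xr249 (Nx addP bas)
open Crest.Agent.R158.Sl434 hiding cyc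
open Crest.Agent.R158.Gc748 (stp InS mem_stp N1 N2 JlS JlE JlN JoS JoW JoN mem_fl fl RW)
open Crest.Agent.R158.Pj679 (nbt nbt_0 nbt_1 nbt_2 nbt_3)

/-! ### charts -/

/-- port map of a permutation of the tiles and a turn -/
def ph (ρ : Equiv.Perm (ℤ × ℤ)) (k : ZMod 4) : Port (ℤ × ℤ) → Port (ℤ × ℤ) :=
  Option.map fun x => (ρ x.1, x.2 + k)

@[simp] theorem ph_none (ρ : Equiv.Perm (ℤ × ℤ)) (k : ZMod 4) : ph ρ k none = none := rfl
@[simp] theorem ph_some (ρ : Equiv.Perm (ℤ × ℤ)) (k : ZMod 4) (t : ℤ × ℤ) (d : ZMod 4) :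
    ph ρ k (some (t, d)) = some (ρ t, d + k) := rfl

theorem ph_ph (ρ : Equiv.Perm (ℤ × ℤ)) (k : ZMod 4) (x : Port (ℤ × ℤ)) :
    ph ρ.symm (-k) (ph ρ k x) = x := by
  rcases x with _ | ⟨t, d⟩
  · rfl
  · simp

theorem ph_ph' (ρ : Equiv.Perm (ℤ × ℤ)) (k : ZMod 4) (x : Port (ℤ × ℤ)) :
    ph ρ k (ph ρ.symm (-k) x) = x := by
  rcases x with _ | ⟨t, d⟩
  · rfl
  · simp

theorem ph_inj {ρ : Equiv.Perm (ℤ × ℤ)} {k : ZMod 4} {x y : Port (ℤ × ℤ)}
    (h : ph ρ k x = ph ρ k y) : x = y := by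
  rw [← ph_ph ρ k x, h, ph_ph]

theorem ph_inj_iff {ρ : Equiv.Perm (ℤ × ℤ)} {k : ZMod 4} {x y : Port (ℤ × ℤ)} :
    ph ρ k x = ph ρ k y ↔ x = y := ⟨ph_inj, fun h => by rw [h]⟩

theorem thru_turn (k : ZMod 4) (hk : k = 0 ∨ k = 2) (s : Bool) (d : ZMod 4) :
    thru s (d + k) = thru s d + k := by
  rcases hk with rfl | rfl <;> revert s d <;> decide

theorem al_ph {ρ : Equiv.Perm (ℤ × ℤ)} {k : ZMod 4} (hk : k = 0 ∨ k = 2) (s : ℤ × ℤ → Bool)
    (x : Port (ℤ × ℤ)) : al s (ph ρ k x) = ph ρ k (al (fun t => s (ρ t)) x) := by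
  rcases x with _ | ⟨t, d⟩
  · rfl
  · simp [thru_turn k hk]

theorem al_ih {ρ : Equiv.Perm (ℤ × ℤ)} {k : ZMod 4} (hk : k = 0 ∨ k = 2) (s : ℤ × ℤ → Bool)
    (x : Port (ℤ × ℤ)) : ph ρ.symm (-k) (al s x) = al (fun t => s (ρ t)) (ph ρ.symm (-k) x) := by
  have := al_ph (ρ := ρ) hk s (ph ρ.symm (-k) x)
  rw [ph_ph'] at this
  rw [this, ph_ph]

/-! ### windows -/

/-- the stepped half plane -/
def Shp (X Y : ℤ) (e : ℕ) (t : ℤ × ℤ) : Prop := (t.2 < Y → t.1 ≤ X + e) ∧ (Y ≤ t.2 → t.1 ≤ X)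
/-- the inner box -/
def Inn (X Y : ℤ) (r m : ℕ) (t : ℤ × ℤ) : Prop :=
  X - r < t.1 ∧ t.1 ≤ X + m ∧ Y - r ≤ t.2 ∧ t.2 < Y + r
/-- the window -/
def Big (X Y : ℤ) (n m : ℕ) (t : ℤ × ℤ) : Prop :=
  X - n ≤ t.1 ∧ t.1 ≤ X + m + 1 ∧ Y - n - 1 ≤ t.2 ∧ t.2 ≤ Y + n

/-- the region `(A, b)` looks like the stepped half plane through the chart, off the inner box -/
structure Win (ρ : Equiv.Perm (ℤ × ℤ)) (k : ZMod 4) (X Y : ℤ) (r n e m : ℕ)
    (A : Finset (ℤ × ℤ)) (b : Port (ℤ × ℤ) → Port (ℤ × ℤ)) : Prop where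
  shp : ∀ t, Big X Y n m t → ¬ Inn X Y r m t → (ρ t ∈ A ↔ Shp X Y e t)
  pl : ∀ t, Inn X Y n m t → ∀ d, ρ t ∈ A → ρ (nbt t d) ∈ A →
    b (ph ρ k (some (t, d))) = ph ρ k (some (nbt t d, d + 2))
  pl' : ∀ t, Inn X Y n m t → ∀ d, ¬ (ρ t ∈ A ∧ ρ (nbt t d) ∈ A) →
    b (ph ρ k (some (t, d))) = ph ρ k (some (t, d))

/-- ports of the tiles outside the window -/
def Far (ρ : Equiv.Perm (ℤ × ℤ)) (X Y : ℤ) (n m : ℕ) : Set (Port (ℤ × ℤ)) :=
  {x | ∀ t d, x = some (ρ t, d) → ¬ Inn X Y n m t}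

/-- ports of the tiles of the inner box -/
def Near (ρ : Equiv.Perm (ℤ × ℤ)) (X Y : ℤ) (r m : ℕ) : Set (Port (ℤ × ℤ)) :=
  {x | ∃ t d, x = some (ρ t, d) ∧ Inn X Y r m t}

/-- ports of the tiles of the annulus -/
def AnP (ρ : Equiv.Perm (ℤ × ℤ)) (X Y : ℤ) (r n e : ℕ) : Set (Port (ℤ × ℤ)) :=
  {x | ∃ t d, x = some (ρ t, d) ∧ InS X Y r n e t}

variable {ρ : Equiv.Perm (ℤ × ℤ)} {k : ZMod 4} {X Y : ℤ} {r n e m : ℕ}

theorem none_far : none ∈ Far ρ X Y n m := by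
  intro t d h
  exact absurd h (by simp)

theorem mem_far {t : ℤ × ℤ} {d : ZMod 4} : some (ρ t, d) ∈ Far ρ X Y n m ↔ ¬ Inn X Y n m t := by
  constructor
  · intro h
    exact h t d rfl
  · intro h t' d' e'
    have : t' = t := by
      have := congrArg (Option.map Prod.fst) e'
      simp only [Option.map_some, Option.some.injEq, EmbeddingLike.apply_eq_iff_eq] at this
      exact this.symm
    rw [this]; exact h

theorem mem_anP {t : ℤ × ℤ} {d : ZMod 4} : some (ρ t, d) ∈ AnP ρ X Y r n e ↔ InS X Y r n e t := by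
  constructor
  · rintro ⟨t', d', e', h⟩
    have := congrArg (Option.map Prod.fst) e'
    simp only [Option.map_some, Option.some.injEq, EmbeddingLike.apply_eq_iff_eq] at this
    rw [this]; exact h
  · intro h; exact ⟨t, d, rfl, h⟩

theorem mem_near {t : ℤ × ℤ} {d : ZMod 4} : some (ρ t, d) ∈ Near ρ X Y r m ↔ Inn X Y r m t := by
  constructor
  · rintro ⟨t', d', e', h⟩
    have := congrArg (Option.map Prod.fst) e'
    simp only [Option.map_some, Option.some.injEq, EmbeddingLike.apply_eq_iff_eq] at this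
    rw [this]; exact h
  · intro h; exact ⟨t, d, rfl, h⟩

theorem some_chart (ρ : Equiv.Perm (ℤ × ℤ)) (k : ZMod 4) (t : ℤ × ℤ) (d : ZMod 4) :
    (some (ρ t, d) : Port (ℤ × ℤ)) = ph ρ k (some (t, d - k)) := by simp

theorem inS_inn (he : e ≤ m) {t : ℤ × ℤ} (h : InS X Y r n e t) : Inn X Y n m t ∧ Shp X Y e t ∧
    ¬ Inn X Y r m t := by
  unfold InS at h; unfold Inn Shp
  omega

theorem inS_iff (he : e ≤ m) {t : ℤ × ℤ} : InS X Y r n e t ↔
    Inn X Y n m t ∧ Shp X Y e t ∧ ¬ Inn X Y r m t := by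
  unfold InS Inn Shp
  omega

theorem big_nbt {t : ℤ × ℤ} (h : Inn X Y n m t) (d : ZMod 4) : Big X Y n m (nbt t d) := by
  unfold Inn at h
  rcases Xr249.Reg.d4 d with rfl | rfl | rfl | rfl <;>
    simp only [nbt_0, nbt_1, nbt_2, nbt_3, Big] <;> omega

theorem big_inn {t : ℤ × ℤ} (h : Inn X Y n m t) : Big X Y n m t := by
  unfold Inn at h; unfold Big; omega

theorem nbt_nbt (t : ℤ × ℤ) (d : ZMod 4) : nbt (nbt t d) (d + 2) = t := by
  obtain ⟨x, y⟩ := t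
  have a0 : (0 : ZMod 4) + 2 = 2 := by decide
  have a1 : (1 : ZMod 4) + 2 = 3 := by decide
  have a2 : (2 : ZMod 4) + 2 = 0 := by decide
  have a3 : (3 : ZMod 4) + 2 = 1 := by decide
  rcases Xr249.Reg.d4 d with rfl | rfl | rfl | rfl
  · rw [a0, nbt_2, nbt_0]; simp
  · rw [a1, nbt_3, nbt_1]; simp
  · rw [a2, nbt_0, nbt_2]; simp
  · rw [a3, nbt_1, nbt_3]; simp

/-! ### the annulus of the chart -/

/-- inner ends -/
noncomputable def JL (X Y : ℤ) (r e : ℕ) : List (Port (ℤ × ℤ)) := JlS X Y r ++ JlE X Y r ++ JlN X Y r e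
/-- outer ends -/
noncomputable def JO (X Y : ℤ) (n e : ℕ) : List (Port (ℤ × ℤ)) := JoS X Y n e ++ JoW X Y n ++ JoN X Y n

theorem mem_JL {X Y : ℤ} {r e : ℕ} {x : Port (ℤ × ℤ)} : x ∈ JL X Y r e ↔ x ∈ Pj679.Jl X Y r e := by
  simp only [JL, Pj679.Jl, List.mem_append]; tauto

theorem mem_JO {X Y : ℤ} {n e : ℕ} {x : Port (ℤ × ℤ)} : x ∈ JO X Y n e ↔ x ∈ Pj679.Jo X Y n e := by
  simp only [JO, Pj679.Jo, List.mem_append]; tauto

/-- the word of the chart annulus -/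
structure StW (X Y : ℤ) (r n e : ℕ) (wS : Wd (ℤ × ℤ)) (bS : ℤ × ℤ) : Prop where
  hr : 1 ≤ r
  hn : r + 1 ≤ n
  rwd : RW (stp X Y r n e) wS bS
  lst : L wS = none :: (JoW X Y n ++ (JoN X Y n ++ (N1 X Y r n ++ (JlS X Y r ++ (JlE X Y r ++
      (JlN X Y r e ++ (N2 X Y r n e ++ JoS X Y n e)))))))

theorem exists_stW (X Y : ℤ) (r n e : ℕ) (hr : 1 ≤ r) (hn : r + 1 ≤ n) :
    ∃ wS bS, StW X Y r n e wS bS := by
  obtain ⟨w, h1, -, h3⟩ := Gc748.stp_word X Y r n e hr hn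
  exact ⟨w, _, hr, hn, h1, h3⟩

variable {wS : Wd (ℤ × ℤ)} {bS : ℤ × ℤ}

theorem StW.ring (h : StW X Y r n e wS bS) (s : ℤ × ℤ → Bool) :
    Ring (al s) (be wS) (N1 X Y r n ++ JL X Y r e ++ N2 X Y r n e ++ JO X Y n e) (M s wS) := by
  have hbs : Gc748.bs wS ≠ none := by rw [h.rwd.bas]; simp
  have hM := Gc748.M_none s h.rwd.ok hbs
  have hi := Sw300.Ok.inv s wS h.rwd.ok
  have hn : (none : Port (ℤ × ℤ)) ∈ L wS := by rw [h.lst]; simp
  have hu : u s wS = none := (hi.fix none hn hM).symm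
  refine ring_of_word h.rwd.ok s hu (P := []) (Q := JoW X Y n ++ (JoN X Y n ++ (N1 X Y r n ++
    (JlS X Y r ++ (JlE X Y r ++ (JlN X Y r e ++ (N2 X Y r n e ++ JoS X Y n e))))))) ?_ ?_
  · rw [h.lst]; exact List.IsRotated.refl _
  · have := List.isRotated_append (l := JoW X Y n ++ JoN X Y n) (l' := N1 X Y r n ++
      (JlS X Y r ++ (JlE X Y r ++ (JlN X Y r e ++ (N2 X Y r n e ++ JoS X Y n e)))))
    simpa [JL, JO, List.append_assoc] using this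

/-- ends of the annulus -/
theorem StW.mem (h : StW X Y r n e wS bS) {t : ℤ × ℤ} {d : ZMod 4} (ht : InS X Y r n e t) :
    some (t, d) ∈ N1 X Y r n ++ JL X Y r e ++ N2 X Y r n e ++ JO X Y n e ↔
      ¬ InS X Y r n e (nbt t d) := by
  have h1 : some (t, d) ∈ N1 X Y r n ++ JL X Y r e ++ N2 X Y r n e ++ JO X Y n e ↔
      some (t, d) ∈ L wS := by
    rw [h.lst]
    simp only [JL, JO, List.mem_append, List.mem_cons, reduceCtorEq, false_or]
    tauto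
  rw [h1]
  have hgl := fun q => Pj679.gl_full (K := stp X Y r n e) (fun x y => Gc748.stp_full x y h.hr)
    (t := t) (d := d) (q := q)
  have bs := Gc748.be_state h.rwd.ok
  constructor
  · intro hL hn
    have h2 := bs.free _ hL
    have h3 := (h.rwd.be _ _).1 ((hgl _).2 ⟨mem_stp.2 ht, mem_stp.2 hn, rfl⟩)
    rw [h2] at h3
    exact h3.2 h3.1
  · intro hn
    refine Pj679.mem_L_of_free h.rwd.ok ((h.rwd.tls t).2 (mem_stp.2 ht)) ?_
    by_contra h2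
    have h3 := (h.rwd.be (some (t, d)) (be wS (some (t, d)))).2 ⟨rfl, fun e' => h2 e'.symm⟩
    exact hn (mem_stp.1 ((hgl _).1 h3).2.1)

theorem StW.be (h : StW X Y r n e wS bS) {t : ℤ × ℤ} {d : ZMod 4} (ht : InS X Y r n e t)
    (hn : InS X Y r n e (nbt t d)) : Sw300.be wS (some (t, d)) = some (nbt t d, d + 2) := by
  exact ((h.rwd.be _ _).1 ((Pj679.gl_full (K := stp X Y r n e)
    (fun x y => Gc748.stp_full x y h.hr)).2 ⟨mem_stp.2 ht, mem_stp.2 hn, rfl⟩)).1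

/-- the ends in terms of the sides -/
theorem mem_N1' {x : Port (ℤ × ℤ)} (hr : r + 1 ≤ n) (h : x ∈ N1 X Y r n) :
    ∃ y, x = some ((X, y), 2) ∧ Y + r ≤ y ∧ y < Y + n := by
  obtain ⟨i, hi, rfl⟩ := mem_fl.1 h
  exact ⟨_, rfl, by omega, by omega⟩

theorem mem_N2' {x : Port (ℤ × ℤ)} (hr : r + 1 ≤ n) (h : x ∈ N2 X Y r n e) :
    ∃ y, x = some ((X + e, y), 2) ∧ Y - n ≤ y ∧ y < Y - r := by
  obtain ⟨i, hi, rfl⟩ := mem_fl.1 h
  exact ⟨_, rfl, by omega, by omega⟩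

theorem mem_JO' {x : Port (ℤ × ℤ)} (hn : 1 ≤ n) (h : x ∈ JO X Y n e) :
    (∃ z, x = some ((z, Y - n), 3) ∧ X - n < z ∧ z ≤ X + e) ∨
    (∃ z, x = some ((X - n + 1, z), 0) ∧ Y - n ≤ z ∧ z < Y + n) ∨
    (∃ z, x = some ((z, Y + n - 1), 1) ∧ X - n < z ∧ z ≤ X) := by
  simp only [JO, List.mem_append] at h
  rcases h with (h | h) | h
  · obtain ⟨i, hi, rfl⟩ := mem_fl.1 h
    exact Or.inl ⟨_, rfl, by omega, by omega⟩
  · obtain ⟨i, hi, rfl⟩ := mem_fl.1 h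
    exact Or.inr (Or.inl ⟨_, rfl, by omega, by omega⟩)
  · obtain ⟨i, hi, rfl⟩ := mem_fl.1 h
    exact Or.inr (Or.inr ⟨_, rfl, by omega, by omega⟩)

theorem of_JO {x : Port (ℤ × ℤ)} (hn : 1 ≤ n)
    (h : (∃ z, x = some ((z, Y - n), 3) ∧ X - n < z ∧ z ≤ X + e) ∨
    (∃ z, x = some ((X - n + 1, z), 0) ∧ Y - n ≤ z ∧ z < Y + n) ∨
    (∃ z, x = some ((z, Y + n - 1), 1) ∧ X - n < z ∧ z ≤ X)) : x ∈ JO X Y n e := by
  simp only [JO, List.mem_append]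
  rcases h with ⟨z, rfl, h1, h2⟩ | ⟨z, rfl, h1, h2⟩ | ⟨z, rfl, h1, h2⟩
  · refine Or.inl (Or.inl (mem_fl.2 ⟨(X + e - z).toNat, by omega, ?_⟩))
    have : X + e - ((X + e - z).toNat : ℤ) = z := by omega
    rw [this]
  · refine Or.inl (Or.inr (mem_fl.2 ⟨(z - (Y - n)).toNat, by omega, ?_⟩))
    have : Y - n + ((z - (Y - n)).toNat : ℤ) = z := by omega
    rw [this]
  · refine Or.inr (mem_fl.2 ⟨(z - (X - n + 1)).toNat, by omega, ?_⟩)
    have : X - n + 1 + ((z - (X - n + 1)).toNat : ℤ) = z := by omega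
    rw [this]

end Crest.Agent.R158.Wd377
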