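import Crest.Agent.R158.Wd3_377

/-!
# R158, block WD (helper377), file Wd4: the general local step at a flat wall

* `win_annS` : the annulus state (helper434's `AnnS`) of a region inside a window
* **`gls`** : a change inside the inner box does not change the observable unless two arcs cross the
  stepped half annulus
* **`gls_norm`** : the bound on the mean values
-/

set_option autoImplicit false
set_option linter.unusedSectionVars false

namespace Crest.Agent.R158.Wd377

open MeasureTheory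
open Crest.Agent.R158.Sw300 (Port Wd L M S u be tls pos Ok Fc cyc Adj thru)
open Crest.Agent.R158.Ob664 (GW HW HV HG HG_spec Gl)
open Crest.Agent.R158.Env664 (IsWord PortOf)
open Crest.Agent.R158.Xr249 (Nx addP bas)
open Crest.Agent.R158.Sl434 hiding cyc
open Crest.Agent.R158.Gc748 (stp InS mem_stp N1 N2 JlS JlE JlN JoS JoW JoN mem_fl fl RW)
open Crest.Agent.R158.Pj679 (nbt nbt_0 nbt_1 nbt_2 nbt_3)
open Crest.Agent.R158.Mr679 (TF tau)
open Crest.Agent.R158.Rs689 (PB hf)

variable {ρ : Equiv.Perm (ℤ × ℤ)} {k : ZMod 4} {X Y : ℤ} {r n e m : ℕ}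
variable {wS : Wd (ℤ × ℤ)} {bS : ℤ × ℤ}
variable {A A' : Finset (ℤ × ℤ)} {b b' : Port (ℤ × ℤ) → Port (ℤ × ℤ)}

theorem an_chart {x : Port (ℤ × ℤ)} (k : ZMod 4) (h : x ∈ AnP ρ X Y r n e) :
    ∃ t d, x = ph ρ k (some (t, d)) ∧ InS X Y r n e t := by
  obtain ⟨t, d, rfl, h⟩ := h
  exact ⟨t, d - k, by simp, h⟩

theorem an_ph {t : ℤ × ℤ} {d : ZMod 4} : ph ρ k (some (t, d)) ∈ AnP ρ X Y r n e ↔
    InS X Y r n e t := by rw [ph_some, mem_anP]

theorem far_ph {t : ℤ × ℤ} {d : ZMod 4} : ph ρ k (some (t, d)) ∈ Far ρ X Y n m ↔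
    ¬ Inn X Y n m t := by rw [ph_some, mem_far]

theorem near_ph {t : ℤ × ℤ} {d : ZMod 4} : ph ρ k (some (t, d)) ∈ Near ρ X Y r m ↔
    Inn X Y r m t := by rw [ph_some, mem_near]

/-- the glueing of the annulus -/
theorem Win.be_in (W : Win ρ k X Y r n e m A b) (he : e ≤ m) {t : ℤ × ℤ} {d : ZMod 4}
    (ht : InS X Y r n e t) (hn : InS X Y r n e (nbt t d)) :
    b (ph ρ k (some (t, d))) = ph ρ k (some (nbt t d, d + 2)) := by
  obtain ⟨h1, h2, h3⟩ := inS_inn he ht
  obtain ⟨h4, h5, h6⟩ := inS_inn he hn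
  exact W.pl t h1 d ((W.shp t (big_inn h1) h3).2 h2) ((W.shp _ (big_inn h4) h6).2 h5)

theorem Win.b_invol_ne (W : Win ρ k X Y r n e m A b) (he : e ≤ m) (hn : 1 ≤ n) (hr : r ≤ n)
    (hb : Function.Involutive b) {x : Port (ℤ × ℤ)}
    (hx : x ∈ Far ρ X Y n m) : b x ∈ Far ρ X Y n m ∨ b x ∈ (JO X Y n e).map (ph ρ k) := by
  by_cases hf : b x ∈ Far ρ X Y n m
  · exact Or.inl hf
  right
  have h1 : ∃ t d, b x = ph ρ k (some (t, d)) ∧ Inn X Y n m t := by
    by_contra hcon
    push Not at hcon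
    apply hf
    intro t d e' hi
    exact hcon t (d - k) (by rw [e']; simp) hi
  obtain ⟨t, d, h2, h3⟩ := h1
  have h4 : b (ph ρ k (some (t, d))) = x := by rw [← h2, hb]
  rw [h2]
  by_cases h5 : ρ t ∈ A ∧ ρ (nbt t d) ∈ A
  · have h6 := W.pl t h3 d h5.1 h5.2
    rw [h4] at h6
    rw [h6, far_ph] at hx
    have hbig := big_nbt h3 d
    have hni : ¬ Inn X Y r m (nbt t d) := fun h => hx (by unfold Inn at h ⊢; omega)
    have hs := (W.shp _ hbig hni).1 h5.2
    refine List.mem_map.2 ⟨_, of_JO hn ?_, rfl⟩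
    obtain ⟨x1, y1⟩ := t
    unfold Inn at h3 hx
    unfold Shp at hs
    rcases Xr249.Reg.d4 d with rfl | rfl | rfl | rfl <;>
      simp only [nbt_0, nbt_1, nbt_2, nbt_3] at hx hs h3
    · exact Or.inr (Or.inl ⟨y1, by rw [show x1 = X - n + 1 by omega], by omega, by omega⟩)
    · exact Or.inr (Or.inr ⟨x1, by rw [show y1 = Y + n - 1 by omega], by omega, by omega⟩)
    · exfalso; omega
    · exact Or.inl ⟨x1, by rw [show y1 = Y - n by omega], by omega, by omega⟩
  · exfalso
    have h6 := W.pl' t h3 d h5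
    rw [h4] at h6
    rw [h6, far_ph] at hx
    exact hx h3

/-- **the annulus state inside a window** -/
theorem win_annS (W : Win ρ k X Y r n e m A b) (he : e ≤ m) (hk : k = 0 ∨ k = 2)
    (hb : Function.Involutive b) (h : StW X Y r n e wS bS) (s : ℤ × ℤ → Bool) :
    AnnS (al s) b (Far ρ X Y n m) (AnP ρ X Y r n e)
      ((N1 X Y r n).map (ph ρ k)) ((JL X Y r e).map (ph ρ k))
      ((N2 X Y r n e).map (ph ρ k)) ((JO X Y n e).map (ph ρ k))
      (pull (ph ρ.symm (-k)) ((N1 X Y r n).map (ph ρ k) ++ (JL X Y r e).map (ph ρ k) ++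
        (N2 X Y r n e).map (ph ρ k) ++ (JO X Y n e).map (ph ρ k)) (M (fun t => s (ρ t)) wS)) := by
  have hr := h.hr
  have hn := h.hn
  have emap : (N1 X Y r n).map (ph ρ k) ++ (JL X Y r e).map (ph ρ k) ++
      (N2 X Y r n e).map (ph ρ k) ++ (JO X Y n e).map (ph ρ k) =
      (N1 X Y r n ++ JL X Y r e ++ N2 X Y r n e ++ JO X Y n e).map (ph ρ k) := by
    simp only [List.map_append]
  have hLA : ∀ t d, InS X Y r n e t → (ph ρ k (some (t, d)) ∈ (N1 X Y r n).map (ph ρ k) ++
      (JL X Y r e).map (ph ρ k) ++ (N2 X Y r n e).map (ph ρ k) ++ (JO X Y n e).map (ph ρ k) ↔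
      ¬ InS X Y r n e (nbt t d)) := by
    intro t d ht
    rw [emap, List.mem_map]
    rw [← h.mem ht]
    constructor
    · rintro ⟨x, hx, e'⟩
      rw [ph_inj_iff] at e'
      rw [← e']; exact hx
    · intro hx; exact ⟨_, hx, rfl⟩
  refine annS_of_chart (alY := al (fun t => s (ρ t))) (beY := be wS) ?_ ?_ ?_ ?_ ?_ ?_ ?_ ?_ ?_ ?_
    ?_ ?_ ?_
  · rw [emap, List.map_map]
    have : (ph ρ.symm (-k) ∘ ph ρ k) = id := by funext x; exact ph_ph ρ k x
    rw [this, List.map_id]
    exact h.ring _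
  · intro x _ y _ e'
    rw [← ph_ph' ρ k x, e', ph_ph']
  · intro x hx
    rw [emap, List.mem_map] at hx
    obtain ⟨y, hy, rfl⟩ := hx
    have : ∃ t d, y = some (t, d) ∧ InS X Y r n e t := by
      have hy' : y ∈ L wS ∧ y ≠ none := by
        constructor
        · rw [h.lst]
          simp only [JL, JO, List.mem_append, List.mem_cons] at hy ⊢
          tauto
        · rintro rfl
          have hnd := (h.ring (fun _ => true)).nd
          simp only [JL, JO, List.mem_append] at hy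
          rcases hy with ((hy | ((hy | hy) | hy)) | hy) | ((hy | hy) | hy) <;>
            obtain ⟨i, -, hi⟩ := mem_fl.1 hy <;> exact absurd hi (by simp)
      obtain ⟨hy1, hy2⟩ := hy'
      rcases y with _ | ⟨t, d⟩
      · exact absurd rfl hy2
      · exact ⟨t, d, rfl, mem_stp.1 ((h.rwd.tls t).1 (Sw300.tl_mem wS h.rwd.ok _ hy1 t rfl))⟩
    obtain ⟨t, d, rfl, ht⟩ := this
    exact an_ph.2 ht
  · intro x _; exact al_ih hk s x
  · intro x hx hL
    obtain ⟨t, d, rfl, ht⟩ := an_chart k hx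
    have h1 : InS X Y r n e (nbt t d) := by
      by_contra hcon
      exact hL ((hLA t d ht).2 hcon)
    rw [W.be_in he ht h1, ph_ph, ph_ph, h.be ht h1]
  · rintro x hx ⟨t, d, rfl, ht⟩
    exact hx t d rfl (inS_inn he ht).1
  · intro x hx t d e'
    rcases x with _ | ⟨t', d'⟩
    · exact absurd e' (by simp)
    · simp only [al_some, Option.some.injEq, Prod.mk.injEq] at e'
      exact hx t d' (by rw [e'.1])
  · rintro x ⟨t, d, rfl, ht⟩
    exact ⟨t, _, rfl, ht⟩
  · intro x hx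
    exact W.b_invol_ne he (by omega) (by omega) hb hx
  · intro x hx hL
    obtain ⟨t, d, rfl, ht⟩ := an_chart k hx
    have h1 : InS X Y r n e (nbt t d) := by
      by_contra hcon
      exact hL ((hLA t d ht).2 hcon)
    rw [W.be_in he ht h1]
    refine ⟨an_ph.2 h1, fun hc => ?_⟩
    have h2 := (hLA _ _ h1).1 hc
    rw [nbt_nbt] at h2
    exact h2 ht
  · intro x hx
    rw [List.mem_map] at hx
    obtain ⟨y, hy, rfl⟩ := hx
    obtain ⟨z, rfl, h1, h2⟩ := mem_N1' hn hy
    refine W.pl' _ (by unfold Inn; simp only; omega) _ fun h3 => ?_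
    have h4 := h3.2
    rw [nbt_2] at h4
    have h5 := (W.shp _ (by unfold Big; simp only; omega) (by unfold Inn; simp only; omega)).1 h4
    unfold Shp at h5
    simp only at h5
    omega
  · intro x hx
    rw [List.mem_map] at hx
    obtain ⟨y, hy, rfl⟩ := hx
    obtain ⟨z, rfl, h1, h2⟩ := mem_N2' hn hy
    refine W.pl' _ (by unfold Inn; simp only; omega) _ fun h3 => ?_
    have h4 := h3.2
    rw [nbt_2] at h4
    have h5 := (W.shp _ (by unfold Big; simp only; omega) (by unfold Inn; simp only; omega)).1 h4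
    unfold Shp at h5
    simp only at h5
    omega
  · intro x hx
    rw [List.mem_map] at hx
    obtain ⟨y, hy, rfl⟩ := hx
    have key : ∀ (t : ℤ × ℤ) (d : ZMod 4), Inn X Y n m t → ¬ Inn X Y r m t →
        ¬ Inn X Y n m (nbt t d) → Shp X Y e t → Shp X Y e (nbt t d) →
        b (ph ρ k (some (t, d))) ∈ Far ρ X Y n m := by
      intro t d h1 h2 h3 h4 h5
      rw [W.pl t h1 d ((W.shp _ (big_inn h1) h2).2 h4)
        ((W.shp _ (big_nbt h1 d) (fun h6 => h3 (by unfold Inn at h6 ⊢; omega))).2 h5), far_ph]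
      exact h3
    rcases mem_JO' (by omega) hy with ⟨z, rfl, h1, h2⟩ | ⟨z, rfl, h1, h2⟩ | ⟨z, rfl, h1, h2⟩
    · apply key <;> simp only [nbt_3, Inn, Shp] <;> omega
    · apply key <;> simp only [nbt_0, Inn, Shp] <;> omega
    · apply key <;> simp only [nbt_1, Inn, Shp] <;> omega

end Crest.Agent.R158.Wd377
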